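import Crest.Agent.Lib.S0047.Helper85Sym
set_option autoImplicit false
set_option linter.all false
set_option Elab.async false
namespace Crest.Agent.S0047.Helper85.Cert
open Crest.Agent.S0047.Helper85

noncomputable def rh7d7519842f3ce2d7 : CRef := CRef.mk (Pat.mk 0x100000001000000010000000300000002 0x100000001000000010000000300000002 0 2) 0 0 (term_sound _ 0 4 1 (-1) true (by decide +kernel))
noncomputable def rh0e9b4614a900a478 : CRef := CRef.mk (Pat.mk 0x200000003000000010000000100000001 0x200000003000000010000000100000001 0 2) 0 0 (term_sound _ 0 0 1 1 true (by decide +kernel))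
noncomputable def rh66c5df4ecc5511bf : CRef := CRef.mk (Pat.mk 0x1e00000003 0x1e00000003 0 5) 0 0 (term_sound _ 4 1 (-1) (-1) false (by decide +kernel))
noncomputable def rh106abd6ccd5a7df9 : CRef := CRef.mk (Pat.mk 0x30000001e 0x30000001e 0 5) 0 0 (term_sound _ 4 0 (-1) 1 false (by decide +kernel))
noncomputable def rh1cd2a2227adc76ba : CRef := CRef.mk (Pat.mk 0x180000000f 0x180000000f 0 5) 0 0 (term_sound _ 0 0 1 1 false (by decide +kernel))
noncomputable def rh575fcc65b5ccfea9 : CRef := CRef.mk (Pat.mk 0x200000002000000020000000300000001 0x200000002000000020000000300000001 0 2) 0 0 (term_sound _ 1 4 (-1) (-1) true (by decide +kernel))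
noncomputable def rh0f611c3f38cb76a5 : CRef := CRef.mk (Pat.mk 0x100000003000000020000000200000002 0x100000003000000020000000200000002 0 2) 0 0 (term_sound _ 1 0 (-1) 1 true (by decide +kernel))
noncomputable def rh5d3d430ce1653da6 : CRef := CRef.mk (Pat.mk 0xf00000018 0xf00000018 0 5) 0 0 (term_sound _ 0 1 1 (-1) false (by decide +kernel))
noncomputable def rhd3458b32566d63f7 : CRef := CRef.mk (Pat.mk 0x100000001000000010000000100000002 0x100000001000000010000000300000002 1 2) 0 0 (step_sound _ 33 [rh7d7519842f3ce2d7] (by decide +kernel))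
noncomputable def rh55afc6a59410cf00 : CRef := CRef.mk (Pat.mk 0x100000001000000010000000300000000 0x100000001000000010000000300000002 1 2) 0 0 (step_sound _ 1 [rh7d7519842f3ce2d7] (by decide +kernel))
noncomputable def rhbaefcd01e0a8bca3 : CRef := CRef.mk (Pat.mk 0x200000001000000010000000100000001 0x200000003000000010000000100000001 1 2) 0 0 (step_sound _ 97 [rh0e9b4614a900a478] (by decide +kernel))
noncomputable def rh2f68792b6b779e96 : CRef := CRef.mk (Pat.mk 0x3000000010000000100000001 0x200000003000000010000000100000001 1 2) 0 0 (step_sound _ 129 [rh0e9b4614a900a478] (by decide +kernel))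
noncomputable def rh80fcd6d0a18cb2dd : CRef := CRef.mk (Pat.mk 0x1e00000001 0x1e00000003 1 5) 0 0 (step_sound _ 1 [rh66c5df4ecc5511bf] (by decide +kernel))
noncomputable def rheb0810cc63b001d8 : CRef := CRef.mk (Pat.mk 0x1e00000002 0x1e00000003 1 5) 0 0 (step_sound _ 0 [rh66c5df4ecc5511bf] (by decide +kernel))
noncomputable def rh3244c3cc8379b070 : CRef := CRef.mk (Pat.mk 0x20000001e 0x30000001e 1 5) 0 0 (step_sound _ 32 [rh106abd6ccd5a7df9] (by decide +kernel))
noncomputable def rh3f8766e6ecb455ce : CRef := CRef.mk (Pat.mk 0x10000001e 0x30000001e 1 5) 0 0 (step_sound _ 33 [rh106abd6ccd5a7df9] (by decide +kernel))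
noncomputable def rh428265de8cd3cd2d : CRef := CRef.mk (Pat.mk 0x100000000f 0x180000000f 1 5) 0 0 (step_sound _ 35 [rh1cd2a2227adc76ba] (by decide +kernel))
noncomputable def rh932754581e0f4330 : CRef := CRef.mk (Pat.mk 0x200000002000000020000000300000000 0x200000002000000020000000300000001 1 2) 0 0 (step_sound _ 0 [rh575fcc65b5ccfea9] (by decide +kernel))
noncomputable def rh79877ebd3ef475dd : CRef := CRef.mk (Pat.mk 0x200000002000000020000000200000001 0x200000002000000020000000300000001 1 2) 0 0 (step_sound _ 32 [rh575fcc65b5ccfea9] (by decide +kernel))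
noncomputable def rh50fbb5868c909700 : CRef := CRef.mk (Pat.mk 0x3000000020000000200000002 0x100000003000000020000000200000002 1 2) 0 0 (step_sound _ 128 [rh0f611c3f38cb76a5] (by decide +kernel))
noncomputable def rhffd04209dc8ea796 : CRef := CRef.mk (Pat.mk 0x100000002000000020000000200000002 0x100000003000000020000000200000002 1 2) 0 0 (step_sound _ 96 [rh0f611c3f38cb76a5] (by decide +kernel))
noncomputable def rh2145e1d24b96a57e : CRef := CRef.mk (Pat.mk 0x1000000010000000300000002 0x100000001000000010000000300000002 1 2) 0 0 (step_sound _ 128 [rh7d7519842f3ce2d7] (by decide +kernel))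
noncomputable def rh18965a982d73c794 : CRef := CRef.mk (Pat.mk 0xe00000003 0x1e00000003 1 5) 0 0 (step_sound _ 36 [rh66c5df4ecc5511bf] (by decide +kernel))
noncomputable def rhe25b0a99195a5d59 : CRef := CRef.mk (Pat.mk 0xf00000008 0xf00000018 1 5) 0 0 (step_sound _ 4 [rh5d3d430ce1653da6] (by decide +kernel))
noncomputable def rhb739f4f82bb681b4 : CRef := CRef.mk (Pat.mk 0xe00000018 0xf00000018 1 5) 0 0 (step_sound _ 32 [rh5d3d430ce1653da6] (by decide +kernel))
noncomputable def rh53b3c253cb0c65f4 : CRef := CRef.mk (Pat.mk 0x180000000e 0x180000000f 1 5) 0 0 (step_sound _ 0 [rh1cd2a2227adc76ba] (by decide +kernel))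
noncomputable def rhab22b5b56e7b3243 : CRef := CRef.mk (Pat.mk 0xd00000018 0xf00000018 1 5) 0 0 (step_sound _ 33 [rh5d3d430ce1653da6] (by decide +kernel))
noncomputable def rhf48373e13d2bc128 : CRef := CRef.mk (Pat.mk 0x30000000e 0x30000001e 1 5) 0 0 (step_sound _ 4 [rh106abd6ccd5a7df9] (by decide +kernel))
noncomputable def rh09d4dfe75d4407d6 : CRef := CRef.mk (Pat.mk 0x30000001c 0x30000001e 1 5) 0 0 (step_sound _ 1 [rh106abd6ccd5a7df9] (by decide +kernel))
noncomputable def rh96851dee118c1ba3 : CRef := CRef.mk (Pat.mk 0xf00000010 0xf00000018 1 5) 0 0 (step_sound _ 3 [rh5d3d430ce1653da6] (by decide +kernel))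
noncomputable def rh7b1f1fb55310c477 : CRef := CRef.mk (Pat.mk 0x100000003000000020000000200000000 0x100000003000000020000000200000002 1 2) 0 0 (step_sound _ 1 [rh0f611c3f38cb76a5] (by decide +kernel))
noncomputable def rh33e738c4ed385b9f : CRef := CRef.mk (Pat.mk 0x80000000f 0x180000000f 1 5) 0 0 (step_sound _ 36 [rh1cd2a2227adc76ba] (by decide +kernel))
noncomputable def rh3fc040e777f1679e : CRef := CRef.mk (Pat.mk 0x1800000007 0x180000000f 1 5) 0 0 (step_sound _ 3 [rh1cd2a2227adc76ba] (by decide +kernel))
noncomputable def rhca9569cc80abfe76 : CRef := CRef.mk (Pat.mk 0x1c00000003 0x1e00000003 1 5) 0 0 (step_sound _ 33 [rh66c5df4ecc5511bf] (by decide +kernel))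
noncomputable def rh9e3edb185cc347de : CRef := CRef.mk (Pat.mk 0x200000003000000010000000000000001 0x200000003000000010000000100000001 1 2) 0 0 (step_sound _ 32 [rh0e9b4614a900a478] (by decide +kernel))
noncomputable def rh1006c02ae4212ff0 : CRef := CRef.mk (Pat.mk 0x200000002000000010000000100000001 0x200000003000000010000000100000001 1 2) 0 0 (step_sound _ 96 [rh0e9b4614a900a478] (by decide +kernel))
noncomputable def rh5c5e593799055d58 : CRef := CRef.mk (Pat.mk 0x2000000020000000300000001 0x200000002000000020000000300000001 1 2) 0 0 (step_sound _ 129 [rh575fcc65b5ccfea9] (by decide +kernel))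
noncomputable def rh71222050f2c63a3a : CRef := CRef.mk (Pat.mk 0x200000003000000010000000100000000 0x200000003000000010000000100000001 1 2) 0 0 (step_sound _ 0 [rh0e9b4614a900a478] (by decide +kernel))
noncomputable def rhb2a0b9ccfb5cecd5 : CRef := CRef.mk (Pat.mk 0x1a00000003 0x1e00000003 1 5) 0 0 (step_sound _ 34 [rh66c5df4ecc5511bf] (by decide +kernel))
noncomputable def rhd6e447e81774439e : CRef := CRef.mk (Pat.mk 0x700000018 0xf00000018 1 5) 0 0 (step_sound _ 35 [rh5d3d430ce1653da6] (by decide +kernel))
noncomputable def rh2fe78cc5ca4405d8 : CRef := CRef.mk (Pat.mk 0x300000016 0x30000001e 1 5) 0 0 (step_sound _ 3 [rh106abd6ccd5a7df9] (by decide +kernel))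
noncomputable def rheea67dfebd0f8008 : CRef := CRef.mk (Pat.mk 0x200000002000000020000000100000001 0x200000002000000020000000300000001 1 2) 0 0 (step_sound _ 33 [rh575fcc65b5ccfea9] (by decide +kernel))
noncomputable def rh6f1cbe15c631ee70 : CRef := CRef.mk (Pat.mk 0x100000000000000010000000300000002 0x100000001000000010000000300000002 1 2) 0 0 (step_sound _ 96 [rh7d7519842f3ce2d7] (by decide +kernel))
noncomputable def rhbe0e43a3bc50a43f : CRef := CRef.mk (Pat.mk 0x100000001000000010000000200000002 0x100000001000000010000000300000002 1 2) 0 0 (step_sound _ 32 [rh7d7519842f3ce2d7] (by decide +kernel))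
noncomputable def rhcfdf45280693d3da : CRef := CRef.mk (Pat.mk 0x100000001000000020000000200000002 0x100000003000000020000000200000002 1 2) 0 0 (step_sound _ 97 [rh0f611c3f38cb76a5] (by decide +kernel))
noncomputable def rh1c62b6193297d9e3 : CRef := CRef.mk (Pat.mk 0x180000000b 0x180000000f 1 5) 0 0 (step_sound _ 2 [rh1cd2a2227adc76ba] (by decide +kernel))
noncomputable def rhc10214bf3fe8094a : CRef := CRef.mk (Pat.mk 0xb00000018 0xf00000018 1 5) 0 0 (step_sound _ 34 [rh5d3d430ce1653da6] (by decide +kernel))
noncomputable def rh5419adcd928dba20 : CRef := CRef.mk (Pat.mk 0x30000001a 0x30000001e 1 5) 0 0 (step_sound _ 2 [rh106abd6ccd5a7df9] (by decide +kernel))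
noncomputable def rh3c88ce959c0e423f : CRef := CRef.mk (Pat.mk 0x200000002000000000000000300000001 0x200000002000000020000000300000001 1 2) 0 0 (step_sound _ 65 [rh575fcc65b5ccfea9] (by decide +kernel))
noncomputable def rh9e07f76261b05888 : CRef := CRef.mk (Pat.mk 0x100000003000000020000000000000002 0x100000003000000020000000200000002 1 2) 0 0 (step_sound _ 33 [rh0f611c3f38cb76a5] (by decide +kernel))
noncomputable def rh361cc68994bd8a63 : CRef := CRef.mk (Pat.mk 0x1600000003 0x1e00000003 1 5) 0 0 (step_sound _ 35 [rh66c5df4ecc5511bf] (by decide +kernel))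
noncomputable def rhff0f29cb645b05f7 : CRef := CRef.mk (Pat.mk 0x100000001000000000000000300000002 0x100000001000000010000000300000002 1 2) 0 0 (step_sound _ 64 [rh7d7519842f3ce2d7] (by decide +kernel))
noncomputable def rh2613c889e411427e : CRef := CRef.mk (Pat.mk 0x100000003000000000000000200000002 0x100000003000000020000000200000002 1 2) 0 0 (step_sound _ 65 [rh0f611c3f38cb76a5] (by decide +kernel))
noncomputable def rh04253f50b6dd0619 : CRef := CRef.mk (Pat.mk 0x200000003000000000000000100000001 0x200000003000000010000000100000001 1 2) 0 0 (step_sound _ 64 [rh0e9b4614a900a478] (by decide +kernel))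
noncomputable def rh24ae073cf30720c4 : CRef := CRef.mk (Pat.mk 0x180000000d 0x180000000f 1 5) 0 0 (step_sound _ 1 [rh1cd2a2227adc76ba] (by decide +kernel))
noncomputable def rhee230b994cc8b773 : CRef := CRef.mk (Pat.mk 0x200000000000000020000000300000001 0x200000002000000020000000300000001 1 2) 0 0 (step_sound _ 97 [rh575fcc65b5ccfea9] (by decide +kernel))
end Crest.Agent.S0047.Helper85.Cert
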