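import Crest.Agent.Lib.S0047.Helper85CertPL0F0
set_option autoImplicit false
set_option linter.all false
set_option Elab.async false
namespace Crest.Agent.S0047.Helper85.Cert
open Crest.Agent.S0047.Helper85

noncomputable def rh9b93c6a18ed538f9 : CRef := CRef.mk (Pat.mk 0x40000001c000000020000000200000000 0x40000001e000000030000000200000002 2 5) 0 0 (step_sound _ 97 [(rh71222050f2c63a3a.shift 1 0), (rheb0810cc63b001d8.shift 0 2)] (by decide +kernel))
noncomputable def rhc0495a3e94452ac3 : CRef := CRef.mk (Pat.mk 0x7000000040000000100000005 0x200000007000000050000000500000005 2 3) 0 0 (step_sound _ 129 [rh04253f50b6dd0619, (rh9e07f76261b05888.shift 1 0)] (by decide +kernel))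
noncomputable def rh3ebc98c19791ad58 : CRef := CRef.mk (Pat.mk 0x500000007000000030000000000000000 0x10000000500000007000000030000000200000002 2 3) 0 0 (step_sound _ 33 [(rh2145e1d24b96a57e.shift 0 1), (rh71222050f2c63a3a.shift 1 0)] (by decide +kernel))
noncomputable def rh45fa90edadfa0251 : CRef := CRef.mk (Pat.mk 0x10000000500000007000000020000000000000000 0x10000000500000007000000030000000200000002 2 3) 0 0 (step_sound _ 33 [(rh71222050f2c63a3a.shift 1 0), (rhbe0e43a3bc50a43f.shift 0 1)] (by decide +kernel))
noncomputable def rhd0cda9340b872954 : CRef := CRef.mk (Pat.mk 0xe0000001200000003 0xf0000001e00000003 2 5) 0 0 (step_sound _ 35 [rhb2a0b9ccfb5cecd5, (rhb739f4f82bb681b4.shift 0 1)] (by decide +kernel))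
noncomputable def rh0eb7cf27b8728940 : CRef := CRef.mk (Pat.mk 0x200000002000000010000000e00000000 0x200000002000000030000001e00000004 2 5) 0 0 (step_sound _ 65 [(rh55afc6a59410cf00.shift 1 0), (rhf48373e13d2bc128.shift 0 1)] (by decide +kernel))
noncomputable def rh2e3fb1ea2d7f947f : CRef := CRef.mk (Pat.mk 0x1e000000000000000300000001 0x30000001e000000020000000300000001 2 5) 0 0 (step_sound _ 129 [(rh3244c3cc8379b070.shift 0 3), rh3c88ce959c0e423f] (by decide +kernel))
noncomputable def rh03a149a2400810ba : CRef := CRef.mk (Pat.mk 0x80000000b0000000800000010 0x8000000080000000f0000001800000010 2 5) 0 0 (step_sound _ 36 [(rh2145e1d24b96a57e.shift 3 0), (rhc10214bf3fe8094a.shift 0 1)] (by decide +kernel))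
noncomputable def rh1e7e8ea1d611c3f5 : CRef := CRef.mk (Pat.mk 0xb0000000800000008000000080000000800000008 0xf0000001800000018000000080000000800000008 2 5) 0 0 (step_sound _ 132 [(rhbaefcd01e0a8bca3.shift 3 0), (rhc10214bf3fe8094a.shift 0 4)] (by decide +kernel))
noncomputable def rh51e51e8d2827a2be : CRef := CRef.mk (Pat.mk 0xb000000080000000b 0xf000000180000000f 2 5) 0 0 (step_sound _ 36 [rh1c62b6193297d9e3, (rhc10214bf3fe8094a.shift 0 1)] (by decide +kernel))
noncomputable def rhb7cad75476b4fa97 : CRef := CRef.mk (Pat.mk 0x80000000d00000010 0x180000000f00000018 2 5) 0 0 (step_sound _ 33 [(rh33e738c4ed385b9f.shift 0 1), rh96851dee118c1ba3] (by decide +kernel))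
noncomputable def rh69ace3d0cebd89c5 : CRef := CRef.mk (Pat.mk 0xc000000480000000e 0xc000000780000000f 2 7) 0 0 (step_sound _ 36 [(rh2fe78cc5ca4405d8.shift 2 1), rh53b3c253cb0c65f4] (by decide +kernel))
noncomputable def rh7e5e46e67f13cbaa : CRef := CRef.mk (Pat.mk 0x100000001700000010 0x300000001f00000018 2 6) 0 0 (step_sound _ 35 [(rh33e738c4ed385b9f.shift 1 1), rh96851dee118c1ba3] (by decide +kernel))
noncomputable def rh7b6afa71f9aeb7f3 : CRef := CRef.mk (Pat.mk 0x80000000b0000000600000004 0x8000000080000000b0000001e00000004 2 5) 0 0 (step_sound _ 35 [(rh5c5e593799055d58.shift 2 0), (rhf48373e13d2bc128.shift 0 1)] (by decide +kernel))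
noncomputable def rh96b908e77ed2e799 : CRef := CRef.mk (Pat.mk 0x10000000100000001600000018 0x1000000010000000100000001f00000018 2 5) 0 0 (step_sound _ 35 [(rh5c5e593799055d58.shift 3 0), rhb739f4f82bb681b4] (by decide +kernel))
noncomputable def rhb1021bae9f64d06c : CRef := CRef.mk (Pat.mk 0x10000000300000000000000000000001e 0x10000000300000002000000030000001e 2 5) 0 0 (step_sound _ 33 [rh2613c889e411427e, rh3244c3cc8379b070] (by decide +kernel))
noncomputable def rhf17963897433b90f : CRef := CRef.mk (Pat.mk 0x30000000a00000008000000080000000800000008 0x30000001e00000018000000080000000800000008 2 5) 0 0 (step_sound _ 132 [(rh5419adcd928dba20.shift 0 4), (rhbaefcd01e0a8bca3.shift 3 0)] (by decide +kernel))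
noncomputable def rh8eecc252d61248c8 : CRef := CRef.mk (Pat.mk 0x30000000c00000008000000080000000800000008 0x30000001e00000018000000080000000800000008 2 5) 0 0 (step_sound _ 132 [(rh09d4dfe75d4407d6.shift 0 4), (rhbaefcd01e0a8bca3.shift 3 0)] (by decide +kernel))
noncomputable def rhfdd14058eaa9f9ec : CRef := CRef.mk (Pat.mk 0x3000000010000000700000004 0x200000003000000030000000700000005 2 3) 0 0 (step_sound _ 129 [rh71222050f2c63a3a, (rhff0f29cb645b05f7.shift 1 0)] (by decide +kernel))
noncomputable def rh6ec5dd38a40999e4 : CRef := CRef.mk (Pat.mk 0xc000000080000000700000008 0x40000000c000000180000000f00000008 2 5) 0 0 (step_sound _ 35 [(rh33e738c4ed385b9f.shift 0 1), (rh50fbb5868c909700.shift 2 0)] (by decide +kernel))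
noncomputable def rhe56e39de7b6466f5 : CRef := CRef.mk (Pat.mk 0x3c000000000000001e 0x3c000000070000001e 2 6) 0 0 (step_sound _ 33 [rh3244c3cc8379b070, (rh80fcd6d0a18cb2dd.shift 1 1)] (by decide +kernel))
noncomputable def rhab0acc3af159c362 : CRef := CRef.mk (Pat.mk 0xc000000000000000f00000008 0x40000000c000000180000000f00000008 2 5) 0 0 (step_sound _ 67 [(rh33e738c4ed385b9f.shift 0 1), (rh50fbb5868c909700.shift 2 0)] (by decide +kernel))
noncomputable def rh248842449819c4f2 : CRef := CRef.mk (Pat.mk 0x100000003000000010000000700000004 0x20000000300000003000000030000000700000004 2 3) 0 0 (step_sound _ 129 [(rh2f68792b6b779e96.shift 0 1), (rhff0f29cb645b05f7.shift 1 0)] (by decide +kernel))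
noncomputable def rhfa7d9ef1a865136e : CRef := CRef.mk (Pat.mk 0x2000000070000000500000001 0x20000000200000003000000070000000500000001 2 3) 0 0 (step_sound _ 129 [rh1006c02ae4212ff0, (rh2145e1d24b96a57e.shift 1 1)] (by decide +kernel))
noncomputable def rhaf343399eb22e721 : CRef := CRef.mk (Pat.mk 0x40000000500000003000000020000000000000000 0x40000000700000003000000020000000200000002 2 3) 0 0 (step_sound _ 33 [(rh1006c02ae4212ff0.shift 1 1), rh7b1f1fb55310c477] (by decide +kernel))
noncomputable def rhaece115bf20873e0 : CRef := CRef.mk (Pat.mk 0xd000000080000000e 0xf000000180000000f 2 5) 0 0 (step_sound _ 36 [rh53b3c253cb0c65f4, (rhab22b5b56e7b3243.shift 0 1)] (by decide +kernel))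
noncomputable def rhe22762f576840bfa : CRef := CRef.mk (Pat.mk 0x40000000500000001000000020000000200000000 0x40000000700000003000000020000000200000002 2 3) 0 0 (step_sound _ 97 [(rh1006c02ae4212ff0.shift 1 1), rh7b1f1fb55310c477] (by decide +kernel))
noncomputable def rh403e55a9007f792d : CRef := CRef.mk (Pat.mk 0x500000007000000010000000200000000 0x500000007000000030000000300000002 2 3) 0 0 (step_sound _ 1 [(rh04253f50b6dd0619.shift 1 0), rhbe0e43a3bc50a43f] (by decide +kernel))
noncomputable def rh11f1db28d72ca2e7 : CRef := CRef.mk (Pat.mk 0x2000000160000000e 0x30000001e0000000f 2 5) 0 0 (step_sound _ 35 [(rh3244c3cc8379b070.shift 0 1), rh53b3c253cb0c65f4] (by decide +kernel))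
noncomputable def rh5105f69098a4a2c2 : CRef := CRef.mk (Pat.mk 0x200000000000000030000000700000000 0x20000000200000002000000030000000700000004 2 3) 0 0 (step_sound _ 97 [(rh55afc6a59410cf00.shift 1 0), (rh5c5e593799055d58.shift 0 1)] (by decide +kernel))
noncomputable def rhe811b5698af64d4c : CRef := CRef.mk (Pat.mk 0x40000000c000000080000000700000000 0x40000000c000000180000000f00000008 2 5) 0 0 (step_sound _ 35 [(rh33e738c4ed385b9f.shift 0 1), (rh7b1f1fb55310c477.shift 2 0)] (by decide +kernel))
noncomputable def rh78275b8db2327294 : CRef := CRef.mk (Pat.mk 0x40000001e0000000200000002 0x4000000070000001e0000000200000002 2 5) 0 0 (step_sound _ 97 [(rh2f68792b6b779e96.shift 1 0), (rh3244c3cc8379b070.shift 0 2)] (by decide +kernel))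
noncomputable def rh85ab58ad6384baf3 : CRef := CRef.mk (Pat.mk 0x60000000c00000007 0x60000003c0000000f 2 6) 0 0 (step_sound _ 36 [rh3fc040e777f1679e, (rhf48373e13d2bc128.shift 1 1)] (by decide +kernel))
noncomputable def rh79af9e9c48d82ab5 : CRef := CRef.mk (Pat.mk 0x800000000000000000000001f00000010 0x800000008000000180000001f00000010 2 5) 0 0 (step_sound _ 67 [(rh33e738c4ed385b9f.shift 0 1), (rh6f1cbe15c631ee70.shift 3 0)] (by decide +kernel))
noncomputable def rhdbead8471b0a73a5 : CRef := CRef.mk (Pat.mk 0x2000000020000000c0000001c 0x200000002000000020000000f0000001c 2 5) 0 0 (step_sound _ 33 [(rh2145e1d24b96a57e.shift 1 0), rhb739f4f82bb681b4] (by decide +kernel))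
noncomputable def rh6f555c723a80e234 : CRef := CRef.mk (Pat.mk 0x7000000100000000e 0xf000000180000000f 2 5) 0 0 (step_sound _ 35 [rh53b3c253cb0c65f4, (rhd6e447e81774439e.shift 0 1)] (by decide +kernel))
noncomputable def rh4b676234a5ebf2d3 : CRef := CRef.mk (Pat.mk 0x7000000080000000b 0xf000000180000000f 2 5) 0 0 (step_sound _ 36 [rh1c62b6193297d9e3, (rhd6e447e81774439e.shift 0 1)] (by decide +kernel))
noncomputable def rh500571fd45750302 : CRef := CRef.mk (Pat.mk 0x60000000c00000003 0x60000003e00000003 2 6) 0 0 (step_sound _ 36 [rhca9569cc80abfe76, (rhf48373e13d2bc128.shift 1 1)] (by decide +kernel))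
noncomputable def rh666d338a5c9a6892 : CRef := CRef.mk (Pat.mk 0x800000008000000080000000b00000000 0x800000008000000180000000f00000004 2 5) 0 0 (step_sound _ 34 [(rh33e738c4ed385b9f.shift 0 1), (rh932754581e0f4330.shift 2 0)] (by decide +kernel))
noncomputable def rhe854045ea68f9a03 : CRef := CRef.mk (Pat.mk 0x800000008000000080000001a00000002 0x800000008000000080000001e00000007 2 5) 0 0 (step_sound _ 34 [(rh932754581e0f4330.shift 2 0), rheb0810cc63b001d8] (by decide +kernel))
noncomputable def rh06a53461b6d9d9a1 : CRef := CRef.mk (Pat.mk 0x8000000080000000800000008000000080000000b 0x8000000080000000800000018000000180000000f 2 5) 0 0 (step_sound _ 36 [rh1c62b6193297d9e3, (rhd3458b32566d63f7.shift 3 1)] (by decide +kernel))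
noncomputable def rhc44bc521e40eae58 : CRef := CRef.mk (Pat.mk 0x4000000040000000b00000008 0x400000004000000040000000f00000018 2 5) 0 0 (step_sound _ 34 [(rh2145e1d24b96a57e.shift 2 0), rhe25b0a99195a5d59] (by decide +kernel))
noncomputable def rh587868c37e85730d : CRef := CRef.mk (Pat.mk 0x180000000c00000038 0x180000000f0000003c 2 6) 0 0 (step_sound _ 33 [(rh09d4dfe75d4407d6.shift 1 0), (rh53b3c253cb0c65f4.shift 0 1)] (by decide +kernel))
noncomputable def rh0ec68e0bf4727743 : CRef := CRef.mk (Pat.mk 0x20000000300000003000000020000000200000000 0x20000000300000003000000030000000300000001 2 2) 0 0 (step_sound _ 32 [rh932754581e0f4330, (rh9e3edb185cc347de.shift 0 1)] (by decide +kernel))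
noncomputable def rh0ac1d2f8ad931b8d : CRef := CRef.mk (Pat.mk 0x400000006000000000000000300000001 0x600000006000000020000000300000003 2 3) 0 0 (step_sound _ 65 [rh5c5e593799055d58, (rh71222050f2c63a3a.shift 1 0)] (by decide +kernel))
noncomputable def rh4921e53944c73ec0 : CRef := CRef.mk (Pat.mk 0x1e00000000000000000000000300000001 0x1e00000003000000020000000300000001 2 5) 0 0 (step_sound _ 97 [rh3c88ce959c0e423f, (rheb0810cc63b001d8.shift 0 3)] (by decide +kernel))
noncomputable def rh1142251adec6e522 : CRef := CRef.mk (Pat.mk 0x80000000800000008000000080000000a00000003 0x80000000800000008000000180000001e00000003 2 5) 0 0 (step_sound _ 36 [rhb2a0b9ccfb5cecd5, (rhd3458b32566d63f7.shift 3 1)] (by decide +kernel))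
noncomputable def rhc4244173b0146402 : CRef := CRef.mk (Pat.mk 0x80000000800000008000000080000000c00000003 0x80000000800000008000000180000001e00000003 2 5) 0 0 (step_sound _ 36 [rhca9569cc80abfe76, (rhd3458b32566d63f7.shift 3 1)] (by decide +kernel))
noncomputable def rhca0928f3e9e573a0 : CRef := CRef.mk (Pat.mk 0x30000000a0000001c 0x30000001e0000003c 2 6) 0 0 (step_sound _ 34 [(rhf48373e13d2bc128.shift 0 1), (rhf48373e13d2bc128.shift 1 0)] (by decide +kernel))
noncomputable def rhd6e64bb7d1c8c62d : CRef := CRef.mk (Pat.mk 0x400000007000000010000000300000000 0x500000007000000030000000300000002 2 3) 0 0 (step_sound _ 1 [(rh04253f50b6dd0619.shift 1 0), rh2145e1d24b96a57e] (by decide +kernel))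
noncomputable def rhd4e38fcad27edc47 : CRef := CRef.mk (Pat.mk 0x7000000080000000e 0xf000000180000000f 2 5) 0 0 (step_sound _ 36 [rh53b3c253cb0c65f4, (rhd6e447e81774439e.shift 0 1)] (by decide +kernel))
noncomputable def rhfca0c3d969bd563a : CRef := CRef.mk (Pat.mk 0x180000000a00000030 0x180000001f00000030 2 6) 0 0 (step_sound _ 34 [(rh53b3c253cb0c65f4.shift 0 1), (rhd6e447e81774439e.shift 1 0)] (by decide +kernel))
noncomputable def rh82efc7f3d9894a87 : CRef := CRef.mk (Pat.mk 0x3000000000000001e00000002 0x100000003000000030000001e00000002 2 5) 0 0 (step_sound _ 65 [(rh3244c3cc8379b070.shift 0 1), rh50fbb5868c909700] (by decide +kernel))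
noncomputable def rh8288fb599a75c6d0 : CRef := CRef.mk (Pat.mk 0xe000000020000001c 0x1e000000030000001e 2 5) 0 0 (step_sound _ 32 [rh09d4dfe75d4407d6, (rh18965a982d73c794.shift 0 1)] (by decide +kernel))
noncomputable def rh14302a4313555aea : CRef := CRef.mk (Pat.mk 0x1e000000000000003c 0x1e000000070000003c 2 6) 0 0 (step_sound _ 33 [(rh3f8766e6ecb455ce.shift 1 0), (rheb0810cc63b001d8.shift 0 1)] (by decide +kernel))
noncomputable def rhae4a2d1ccbcd3048 : CRef := CRef.mk (Pat.mk 0x40000000700000001000000030000000100000000 0x40000000700000003000000030000000300000002 2 3) 0 0 (step_sound _ 33 [(rh04253f50b6dd0619.shift 1 1), rh55afc6a59410cf00] (by decide +kernel))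
noncomputable def rh1184ccdd4bd5238e : CRef := CRef.mk (Pat.mk 0x2000000030000000500000005 0x200000003000000030000000700000005 2 3) 0 0 (step_sound _ 129 [rh1006c02ae4212ff0, (rhbe0e43a3bc50a43f.shift 1 0)] (by decide +kernel))
noncomputable def rh9be53a48e15d68a6 : CRef := CRef.mk (Pat.mk 0xe000000080000000d 0xf000000180000000f 2 5) 0 0 (step_sound _ 36 [rh24ae073cf30720c4, (rhb739f4f82bb681b4.shift 0 1)] (by decide +kernel))
noncomputable def rhea039097b75c2082 : CRef := CRef.mk (Pat.mk 0xa000000190000000100000001 0x20000000f000000190000000100000001 2 5) 0 0 (step_sound _ 96 [rh2f68792b6b779e96, (rhc10214bf3fe8094a.shift 0 2)] (by decide +kernel))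
noncomputable def rhf8e7b16e4fee91e5 : CRef := CRef.mk (Pat.mk 0x200000001000000070000000500000000 0x20000000200000003000000070000000500000001 2 3) 0 0 (step_sound _ 97 [(rh2145e1d24b96a57e.shift 1 1), rh71222050f2c63a3a] (by decide +kernel))
noncomputable def rh97755cb5dd403749 : CRef := CRef.mk (Pat.mk 0x200000001000000030000000500000004 0x200000003000000030000000700000005 2 3) 0 0 (step_sound _ 97 [rh71222050f2c63a3a, (rhbe0e43a3bc50a43f.shift 1 0)] (by decide +kernel))
noncomputable def rhe1322015569cddcd : CRef := CRef.mk (Pat.mk 0x120000000e000000080000000800000000 0x130000001e000000080000000800000008 2 5) 0 0 (step_sound _ 100 [(rh3244c3cc8379b070.shift 0 3), (rh71222050f2c63a3a.shift 3 0)] (by decide +kernel))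
noncomputable def rh3bf4ec049839aac5 : CRef := CRef.mk (Pat.mk 0x40000001c0000000c00000002 0x4000000040000001c0000000f00000002 2 5) 0 0 (step_sound _ 33 [(rh53b3c253cb0c65f4.shift 0 1), (rh5c5e593799055d58.shift 1 0)] (by decide +kernel))
noncomputable def rhdb45285efcab6b7a : CRef := CRef.mk (Pat.mk 0x400000005000000010000000700000000 0x500000005000000050000000700000002 2 3) 0 0 (step_sound _ 1 [rh2145e1d24b96a57e, (rh3c88ce959c0e423f.shift 1 0)] (by decide +kernel))
noncomputable def rhe6af39b72fd2cc45 : CRef := CRef.mk (Pat.mk 0x400000004000000000000000e00000001 0x400000004000000040000001e00000003 2 5) 0 0 (step_sound _ 1 [rh18965a982d73c794, (rh3c88ce959c0e423f.shift 1 0)] (by decide +kernel))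
noncomputable def rhd5b92086fe7b06e3 : CRef := CRef.mk (Pat.mk 0x20000000200000003000000000000000100000000 0x20000000200000003000000030000000100000001 2 2) 0 0 (step_sound _ 64 [rh71222050f2c63a3a, (rheea67dfebd0f8008.shift 0 1)] (by decide +kernel))
noncomputable def rhfe26b971575d20c5 : CRef := CRef.mk (Pat.mk 0x800000008000000080000000e00000002 0x800000008000000080000001e00000013 2 5) 0 0 (step_sound _ 36 [(rh55afc6a59410cf00.shift 3 0), rheb0810cc63b001d8] (by decide +kernel))
noncomputable def rh0bdf8aa2e59fe114 : CRef := CRef.mk (Pat.mk 0x3e00000018 0x3e0000001f 2 6) 0 0 (step_sound _ 1 [(rh24ae073cf30720c4.shift 1 0), rheb0810cc63b001d8] (by decide +kernel))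
noncomputable def rhd518b3b5c3e528fc : CRef := CRef.mk (Pat.mk 0xe000000010000000200000002 0x40000001e000000030000000200000002 2 5) 0 0 (step_sound _ 65 [(rh18965a982d73c794.shift 0 2), (rh2f68792b6b779e96.shift 1 0)] (by decide +kernel))
noncomputable def rh1696e6d3c4174249 : CRef := CRef.mk (Pat.mk 0x800000008000000000000000600000007 0x800000008000000080000001e00000007 2 5) 0 0 (step_sound _ 35 [rh18965a982d73c794, (rh3c88ce959c0e423f.shift 2 0)] (by decide +kernel))
noncomputable def rh824e8f56e2fc4e3d : CRef := CRef.mk (Pat.mk 0x1c0000000c000000020000000200000000 0x1c0000000f000000020000000200000002 2 5) 0 0 (step_sound _ 97 [(rh53b3c253cb0c65f4.shift 0 3), (rh71222050f2c63a3a.shift 1 0)] (by decide +kernel))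
noncomputable def rh2cbc4b16b5094649 : CRef := CRef.mk (Pat.mk 0xc000000120000000700000004 0x80000000c0000001e0000000700000004 2 5) 0 0 (step_sound _ 66 [(rh2f68792b6b779e96.shift 2 0), (rh361cc68994bd8a63.shift 0 1)] (by decide +kernel))
noncomputable def rh4fcc643a9c188aaa : CRef := CRef.mk (Pat.mk 0x400000004000000060000000700000001 0x20000000600000006000000060000000700000001 2 3) 0 0 (step_sound _ 129 [(rh50fbb5868c909700.shift 1 1), rhee230b994cc8b773] (by decide +kernel))
noncomputable def rh2ff269158ca0cd3a : CRef := CRef.mk (Pat.mk 0x1e0000000600000003 0x1e0000003e00000003 2 6) 0 0 (step_sound _ 36 [rh361cc68994bd8a63, (rhe25b0a99195a5d59.shift 1 1)] (by decide +kernel))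
noncomputable def rh3eff189dd406f9f5 : CRef := CRef.mk (Pat.mk 0x400000006000000040000000700000001 0x20000000600000006000000060000000700000001 2 3) 0 0 (step_sound _ 129 [rh3c88ce959c0e423f, (rh50fbb5868c909700.shift 1 1)] (by decide +kernel))
noncomputable def rh93e23ea63605137f : CRef := CRef.mk (Pat.mk 0x2000000030000000a00000004 0x200000002000000030000001e00000004 2 5) 0 0 (step_sound _ 34 [(rh2145e1d24b96a57e.shift 1 0), (rhf48373e13d2bc128.shift 0 1)] (by decide +kernel))
noncomputable def rh5dbd509ce643a6de : CRef := CRef.mk (Pat.mk 0x200000001000000030000000700000000 0x200000003000000030000000700000005 2 3) 0 0 (step_sound _ 97 [(rh55afc6a59410cf00.shift 1 0), rh71222050f2c63a3a] (by decide +kernel))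
noncomputable def rhf4cf2e806547c7c1 : CRef := CRef.mk (Pat.mk 0x14000000130000001000000010 0x80000001e000000130000001000000010 2 5) 0 0 (step_sound _ 99 [(rh50fbb5868c909700.shift 3 0), (rhca9569cc80abfe76.shift 0 2)] (by decide +kernel))
noncomputable def rha8f3389e42de7ad2 : CRef := CRef.mk (Pat.mk 0xe0000001400000003 0xf0000001e00000003 2 5) 0 0 (step_sound _ 35 [(rhb739f4f82bb681b4.shift 0 1), rhca9569cc80abfe76] (by decide +kernel))
noncomputable def rha35b3b16ce21a761 : CRef := CRef.mk (Pat.mk 0xe0000000500000018 0x1e0000000f00000018 2 5) 0 0 (step_sound _ 33 [(rh18965a982d73c794.shift 0 1), rhd6e447e81774439e] (by decide +kernel))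
noncomputable def rh6316e278ed42189e : CRef := CRef.mk (Pat.mk 0x1e0000000a00000003 0x1e0000003e00000003 2 6) 0 0 (step_sound _ 36 [rhb2a0b9ccfb5cecd5, (rhe25b0a99195a5d59.shift 1 1)] (by decide +kernel))
noncomputable def rh29dbfa0393219db4 : CRef := CRef.mk (Pat.mk 0x1000000010000000100000001000000010000000100000001 0x1000000010000000300000003000000030000000100000001 2 2) 0 0 (step_sound _ 97 [rh2f68792b6b779e96, (rh55afc6a59410cf00.shift 0 2)] (by decide +kernel))
noncomputable def rha67678a230f0b207 : CRef := CRef.mk (Pat.mk 0x20000000e0000000100000001 0x2000000020000001e0000000300000001 2 5) 0 0 (step_sound _ 33 [(rh18965a982d73c794.shift 0 1), rh5c5e593799055d58] (by decide +kernel))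
noncomputable def rha93a0a894dbb079b : CRef := CRef.mk (Pat.mk 0x40000000a000000030000000200000000 0x40000001e000000030000000200000002 2 5) 0 0 (step_sound _ 98 [(rh18965a982d73c794.shift 0 2), (rh71222050f2c63a3a.shift 1 0)] (by decide +kernel))
noncomputable def rh3a9e3d20902516bb : CRef := CRef.mk (Pat.mk 0x4000000060000000b0000000800000000 0x40000001e0000000b0000000800000008 2 5) 0 0 (step_sound _ 99 [(rh18965a982d73c794.shift 0 2), (rh7b1f1fb55310c477.shift 2 0)] (by decide +kernel))
noncomputable def rhade792e06a060dd4 : CRef := CRef.mk (Pat.mk 0x100000005000000050000000500000004 0x20000000300000007000000050000000500000004 2 3) 0 0 (step_sound _ 129 [(rh2f68792b6b779e96.shift 0 1), (rhffd04209dc8ea796.shift 1 0)] (by decide +kernel))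
noncomputable def rh5dbd282fa88c2eb0 : CRef := CRef.mk (Pat.mk 0x10000000500000005000000050000000400000000 0x10000000500000005000000070000000600000002 2 3) 0 0 (step_sound _ 33 [(rh932754581e0f4330.shift 1 0), (rhd3458b32566d63f7.shift 0 1)] (by decide +kernel))
noncomputable def rh1439b430a642f7dd : CRef := CRef.mk (Pat.mk 0x1000000010000000100000000e 0x100000001000000010000000180000000f 2 5) 0 0 (step_sound _ 35 [rh53b3c253cb0c65f4, (rh5c5e593799055d58.shift 3 0)] (by decide +kernel))
noncomputable def rh75366944d05eec8d : CRef := CRef.mk (Pat.mk 0x400000007000000050000000500000000 0x20000000600000007000000050000000500000001 2 3) 0 0 (step_sound _ 129 [(rh50fbb5868c909700.shift 1 1), rh71222050f2c63a3a] (by decide +kernel))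
noncomputable def rh541ba7bf5755edb5 : CRef := CRef.mk (Pat.mk 0x1800000007 0x3e00000007 2 6) 0 0 (step_sound _ 34 [(rh18965a982d73c794.shift 1 0), rhca9569cc80abfe76] (by decide +kernel))
noncomputable def rh6826f722115a4c88 : CRef := CRef.mk (Pat.mk 0x400000004000000070000000c 0x40000000400000004000000070000001e 2 5) 0 0 (step_sound _ 1 [(rh5c5e593799055d58.shift 1 0), rhf48373e13d2bc128] (by decide +kernel))
noncomputable def rh72d02d0d631b472e : CRef := CRef.mk (Pat.mk 0x1000000160000000e 0x30000001e0000000f 2 5) 0 0 (step_sound _ 35 [(rh3f8766e6ecb455ce.shift 0 1), rh53b3c253cb0c65f4] (by decide +kernel))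
noncomputable def rhf2eb06c6b46c6fb8 : CRef := CRef.mk (Pat.mk 0x400000006000000030000000c00000000 0x400000006000000030000001e00000002 2 5) 0 0 (step_sound _ 33 [(rh71222050f2c63a3a.shift 1 0), (rhf48373e13d2bc128.shift 0 1)] (by decide +kernel))
noncomputable def rhed79ced5a567ef15 : CRef := CRef.mk (Pat.mk 0x200000003000000010000000200000002 0x300000003000000010000000300000003 2 2) 0 0 (step_sound _ 32 [rh2145e1d24b96a57e, rh71222050f2c63a3a] (by decide +kernel))
noncomputable def rh74ce5438b995c2cf : CRef := CRef.mk (Pat.mk 0x4000000040000000c00000003 0x400000004000000040000001e00000003 2 5) 0 0 (step_sound _ 33 [rh18965a982d73c794, (rh5c5e593799055d58.shift 1 0)] (by decide +kernel))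
noncomputable def rh672310f5df171afe : CRef := CRef.mk (Pat.mk 0x4000000040000000c00000007 0x400000004000000040000001c0000000f 2 5) 0 0 (step_sound _ 3 [(rh2145e1d24b96a57e.shift 2 0), rh33e738c4ed385b9f] (by decide +kernel))
noncomputable def rh665ec0aeeddb6f99 : CRef := CRef.mk (Pat.mk 0x500000005000000070000000100000000 0x40000000500000005000000070000000300000002 2 3) 0 0 (step_sound _ 33 [rh55afc6a59410cf00, (rh5c5e593799055d58.shift 1 1)] (by decide +kernel))
noncomputable def rh314e1e4c16249a21 : CRef := CRef.mk (Pat.mk 0x20000001a0000001c 0x30000001e0000003c 2 6) 0 0 (step_sound _ 34 [(rh3244c3cc8379b070.shift 0 1), (rhf48373e13d2bc128.shift 1 0)] (by decide +kernel))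
noncomputable def rhc345525c2b4acbf8 : CRef := CRef.mk (Pat.mk 0x20000001a0000000c00000004 0x2000000020000001a0000000f00000004 2 5) 0 0 (step_sound _ 33 [(rh2145e1d24b96a57e.shift 1 0), (rh53b3c253cb0c65f4.shift 0 1)] (by decide +kernel))
noncomputable def rhd1ef135791fc97b9 : CRef := CRef.mk (Pat.mk 0x100000000e000000040000000400000000 0x180000000f000000040000000400000004 2 5) 0 0 (step_sound _ 131 [(rh53b3c253cb0c65f4.shift 0 3), (rh71222050f2c63a3a.shift 2 0)] (by decide +kernel))
noncomputable def rhb47d83e3a04422c3 : CRef := CRef.mk (Pat.mk 0x100000007000000050000000500000000 0x20000000300000007000000050000000500000004 2 3) 0 0 (step_sound _ 129 [(rh2f68792b6b779e96.shift 0 1), (rh7b1f1fb55310c477.shift 1 0)] (by decide +kernel))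
noncomputable def rh8eecbcd87de0d74d : CRef := CRef.mk (Pat.mk 0x100000003000000030000000700000000 0x20000000300000003000000030000000700000004 2 3) 0 0 (step_sound _ 129 [(rh2f68792b6b779e96.shift 0 1), (rh55afc6a59410cf00.shift 1 0)] (by decide +kernel))
noncomputable def rh3e29a521a8bdce11 : CRef := CRef.mk (Pat.mk 0x100000003000000000000000100000002 0x100000003000000030000000300000002 2 2) 0 0 (step_sound _ 33 [rh2613c889e411427e, rhff0f29cb645b05f7] (by decide +kernel))
noncomputable def rh29be723380cc2dcf : CRef := CRef.mk (Pat.mk 0x800000008000000080000000e00000001 0x800000008000000080000001e00000013 2 5) 0 0 (step_sound _ 36 [(rh55afc6a59410cf00.shift 3 0), rh80fcd6d0a18cb2dd] (by decide +kernel))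
noncomputable def rhe406125cef78e451 : CRef := CRef.mk (Pat.mk 0x200000001000000000000000300000001 0x200000003000000030000000300000001 2 2) 0 0 (step_sound _ 97 [rh04253f50b6dd0619, rh3c88ce959c0e423f] (by decide +kernel))
noncomputable def rh55b942b46ad56618 : CRef := CRef.mk (Pat.mk 0x20000001600000001 0x30000001e00000003 2 5) 0 0 (step_sound _ 35 [(rh3244c3cc8379b070.shift 0 1), rh80fcd6d0a18cb2dd] (by decide +kernel))
noncomputable def rh21683067a8759131 : CRef := CRef.mk (Pat.mk 0x1000000010000000300000001000000010000000100000000 0x100000001000000010000000300000003000000010000000100000001 2 2) 0 0 (step_sound _ 97 [(rh2145e1d24b96a57e.shift 0 3), rh71222050f2c63a3a] (by decide +kernel))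
noncomputable def rh240c9adf3134b9e2 : CRef := CRef.mk (Pat.mk 0x2000000020000000200000002000000020000000e 0x2000000020000000200000003000000030000001e 2 5) 0 0 (step_sound _ 32 [(rh79877ebd3ef475dd.shift 0 1), rhf48373e13d2bc128] (by decide +kernel))
noncomputable def rha7c0d53f5e6c6372 : CRef := CRef.mk (Pat.mk 0x8000000080000000700000004 0x800000008000000180000000f00000004 2 5) 0 0 (step_sound _ 35 [(rh33e738c4ed385b9f.shift 0 1), (rh5c5e593799055d58.shift 2 0)] (by decide +kernel))
noncomputable def rh9edc7beb66049681 : CRef := CRef.mk (Pat.mk 0x100000006000000060000000200000004 0x10000000300000006000000060000000600000004 2 3) 0 0 (step_sound _ 129 [(rh50fbb5868c909700.shift 0 1), (rh9e07f76261b05888.shift 1 0)] (by decide +kernel))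
noncomputable def rh25ff186c2b17a418 : CRef := CRef.mk (Pat.mk 0x7f00000000 0x7f0000001c 2 7) 0 0 (step_sound _ 3 [rhe25b0a99195a5d59, (rheb0810cc63b001d8.shift 2 0)] (by decide +kernel))
noncomputable def rh53d2fcc3034137d1 : CRef := CRef.mk (Pat.mk 0x4000000040000000e00000001 0x400000004000000040000001e00000003 2 5) 0 0 (step_sound _ 1 [rh18965a982d73c794, (rh5c5e593799055d58.shift 1 0)] (by decide +kernel))
noncomputable def rh307168931086c3c6 : CRef := CRef.mk (Pat.mk 0x100000001000000020000000e 0x10000000100000001000000030000001e 2 5) 0 0 (step_sound _ 32 [rh2145e1d24b96a57e, rhf48373e13d2bc128] (by decide +kernel))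
noncomputable def rhecaf9472b61382c5 : CRef := CRef.mk (Pat.mk 0x10000000700000006000000040000000400000000 0x10000000700000006000000060000000600000002 2 3) 0 0 (step_sound _ 33 [(rh932754581e0f4330.shift 1 0), (rh9e07f76261b05888.shift 0 1)] (by decide +kernel))
noncomputable def rhf5bcba2d4da5bc34 : CRef := CRef.mk (Pat.mk 0x7f 0x1c0000007f 2 7) 0 0 (step_sound _ 35 [(rh3244c3cc8379b070.shift 2 0), rh33e738c4ed385b9f] (by decide +kernel))
noncomputable def rh356cdfb49b9f1367 : CRef := CRef.mk (Pat.mk 0x1000000010000000080000000e 0x100000001000000010000000180000000f 2 5) 0 0 (step_sound _ 36 [rh53b3c253cb0c65f4, (rh5c5e593799055d58.shift 3 0)] (by decide +kernel))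
noncomputable def rh0fb2e3a32a8ad49f : CRef := CRef.mk (Pat.mk 0x200000004000000060000000700000000 0x200000006000000060000000700000005 2 3) 0 0 (step_sound _ 97 [(rh7b1f1fb55310c477.shift 1 0), rh932754581e0f4330] (by decide +kernel))
noncomputable def rhab4e9783066f5194 : CRef := CRef.mk (Pat.mk 0x20000000e0000001e 0x30000003e0000001e 2 6) 0 0 (step_sound _ 36 [(rh3244c3cc8379b070.shift 0 1), (rh33e738c4ed385b9f.shift 1 0)] (by decide +kernel))
noncomputable def rh7718fd14af13f18b : CRef := CRef.mk (Pat.mk 0xe0000000200000002000000020000000200000002 0x1e0000000300000003000000020000000200000002 2 5) 0 0 (step_sound _ 128 [(rh18965a982d73c794.shift 0 4), rhffd04209dc8ea796] (by decide +kernel))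
noncomputable def rh1fdbdd9a631b75d3 : CRef := CRef.mk (Pat.mk 0x100000000e000000020000000200000002 0x190000000f000000020000000200000002 2 5) 0 0 (step_sound _ 96 [(rh428265de8cd3cd2d.shift 0 3), rh50fbb5868c909700] (by decide +kernel))
noncomputable def rhf23dc93573c5637f : CRef := CRef.mk (Pat.mk 0x180000000c0000002c 0x180000000f0000003c 2 6) 0 0 (step_sound _ 33 [(rh2fe78cc5ca4405d8.shift 1 0), (rh53b3c253cb0c65f4.shift 0 1)] (by decide +kernel))
noncomputable def rh3fc71e794d3c39ce : CRef := CRef.mk (Pat.mk 0x1000000010000000160000000a 0x1000000010000000100000001e0000000b 2 5) 0 0 (step_sound _ 35 [(rh5c5e593799055d58.shift 3 0), rheb0810cc63b001d8] (by decide +kernel))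
noncomputable def rhb4121b2511eec08c : CRef := CRef.mk (Pat.mk 0x6000000060000000200000005 0x200000006000000060000000700000005 2 3) 0 0 (step_sound _ 129 [rh79877ebd3ef475dd, (rh9e07f76261b05888.shift 1 0)] (by decide +kernel))
noncomputable def rh6bc906bfbb0e6d90 : CRef := CRef.mk (Pat.mk 0x40000001e0000000400000004 0x2000000070000001e0000000400000004 2 5) 0 0 (step_sound _ 97 [(rh3244c3cc8379b070.shift 0 2), (rh50fbb5868c909700.shift 1 0)] (by decide +kernel))
noncomputable def rhb7ff2e6ec654f9e0 : CRef := CRef.mk (Pat.mk 0x4000000070000000c00000002 0x400000004000000070000001e00000002 2 5) 0 0 (step_sound _ 33 [(rh5c5e593799055d58.shift 1 0), (rhf48373e13d2bc128.shift 0 1)] (by decide +kernel))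
noncomputable def rh7ffec036c34307c5 : CRef := CRef.mk (Pat.mk 0x200000003000000180000000600000000 0x2000000030000001e0000000600000004 2 5) 0 0 (step_sound _ 65 [(rh5419adcd928dba20.shift 0 2), (rh55afc6a59410cf00.shift 1 0)] (by decide +kernel))
noncomputable def rhf428b1dc658d16d8 : CRef := CRef.mk (Pat.mk 0xb0000000800000007 0xf000000180000000f 2 5) 0 0 (step_sound _ 36 [rh3fc040e777f1679e, (rhc10214bf3fe8094a.shift 0 1)] (by decide +kernel))
noncomputable def rh715f2fe878c18bbd : CRef := CRef.mk (Pat.mk 0x40000000c000000180000000600000000 0x40000000c000000180000000f00000008 2 5) 0 0 (step_sound _ 35 [(rh53b3c253cb0c65f4.shift 0 1), (rh7b1f1fb55310c477.shift 2 0)] (by decide +kernel))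
noncomputable def rhf163ac9346a32342 : CRef := CRef.mk (Pat.mk 0xbe00000010 0xff00000018 2 8) 0 0 (step_sound _ 3 [(rh361cc68994bd8a63.shift 3 0), rhb739f4f82bb681b4] (by decide +kernel))
noncomputable def rh06d91fa6ccb2dd46 : CRef := CRef.mk (Pat.mk 0x6000000180000000c00000004 0x80000000f000000180000000c00000004 2 5) 0 0 (step_sound _ 99 [(rh5c5e593799055d58.shift 2 0), (rhb739f4f82bb681b4.shift 0 2)] (by decide +kernel))
noncomputable def rh07b8c4de274226b8 : CRef := CRef.mk (Pat.mk 0x10000000be 0x18000000ff 2 8) 0 0 (step_sound _ 35 [(rh2fe78cc5ca4405d8.shift 3 0), rh53b3c253cb0c65f4] (by decide +kernel))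
noncomputable def rh534beb904169c822 : CRef := CRef.mk (Pat.mk 0x40000000c000000180000000300000000 0x40000000c000000180000000f00000008 2 5) 0 0 (step_sound _ 35 [(rh1c62b6193297d9e3.shift 0 1), (rh7b1f1fb55310c477.shift 2 0)] (by decide +kernel))
noncomputable def rhfb9f3e24adf33097 : CRef := CRef.mk (Pat.mk 0x10000001a00000002 0x30000001e00000003 2 5) 0 0 (step_sound _ 34 [(rh3f8766e6ecb455ce.shift 0 1), rheb0810cc63b001d8] (by decide +kernel))
noncomputable def rhc0c21c15a3fc8a23 : CRef := CRef.mk (Pat.mk 0xa00000016000000100000001000000000 0xb0000001e000000100000001000000010 2 5) 0 0 (step_sound _ 99 [(rh3244c3cc8379b070.shift 0 3), (rh7b1f1fb55310c477.shift 3 0)] (by decide +kernel))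
noncomputable def rh7952d236cb99da8a : CRef := CRef.mk (Pat.mk 0x18000000050000000e 0x180000000f0000001e 2 5) 0 0 (step_sound _ 33 [(rh3fc040e777f1679e.shift 0 1), rhf48373e13d2bc128] (by decide +kernel))
noncomputable def rh1b54be821c3b0bdd : CRef := CRef.mk (Pat.mk 0x8000000100000001e0000001000000000 0x8000000180000001f0000001000000010 2 5) 0 0 (step_sound _ 99 [(rh53b3c253cb0c65f4.shift 0 2), (rh7b1f1fb55310c477.shift 3 0)] (by decide +kernel))
noncomputable def rh7478de1eecd74de3 : CRef := CRef.mk (Pat.mk 0x10000000700000004000000060000000400000000 0x10000000700000006000000060000000600000002 2 3) 0 0 (step_sound _ 33 [(rh2613c889e411427e.shift 0 1), (rh932754581e0f4330.shift 1 0)] (by decide +kernel))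
noncomputable def rh297dfe2cf5b1f192 : CRef := CRef.mk (Pat.mk 0x2000000020000000c0000000300000000 0x2000000020000001e0000000300000001 2 5) 0 0 (step_sound _ 65 [(rh18965a982d73c794.shift 0 1), rh932754581e0f4330] (by decide +kernel))
noncomputable def rh7f01e29029689730 : CRef := CRef.mk (Pat.mk 0x10000000160000000e 0x300000001e0000000f 2 6) 0 0 (step_sound _ 35 [(rh33e738c4ed385b9f.shift 1 1), rh53b3c253cb0c65f4] (by decide +kernel))
noncomputable def rh7b4a76157e5abfc9 : CRef := CRef.mk (Pat.mk 0x3000000030000000200000005 0x200000003000000030000000700000005 2 3) 0 0 (step_sound _ 129 [rh9e3edb185cc347de, (rhd3458b32566d63f7.shift 1 0)] (by decide +kernel))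
noncomputable def rhcc68d7d890acd330 : CRef := CRef.mk (Pat.mk 0x6000000140000000e 0x60000003c0000000f 2 6) 0 0 (step_sound _ 35 [rh53b3c253cb0c65f4, (rhf48373e13d2bc128.shift 1 1)] (by decide +kernel))
noncomputable def rhd2c624376f5d6da9 : CRef := CRef.mk (Pat.mk 0x400000008000000000000000f00000008 0x40000000c000000180000000f00000008 2 5) 0 0 (step_sound _ 67 [(rh33e738c4ed385b9f.shift 0 1), (rhffd04209dc8ea796.shift 2 0)] (by decide +kernel))
noncomputable def rh99faede1faf51154 : CRef := CRef.mk (Pat.mk 0x100000003000000000000000600000004 0x300000003000000020000000600000006 2 3) 0 0 (step_sound _ 65 [(rh2145e1d24b96a57e.shift 1 0), rh7b1f1fb55310c477] (by decide +kernel))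
noncomputable def rhfaf60328513d6ff3 : CRef := CRef.mk (Pat.mk 0x1000000018000000180000000600000000 0x1000000018000000180000000f00000008 2 5) 0 0 (step_sound _ 35 [(rh53b3c253cb0c65f4.shift 0 1), (rh71222050f2c63a3a.shift 3 0)] (by decide +kernel))
noncomputable def rh871b00de3d4c7932 : CRef := CRef.mk (Pat.mk 0x40000000c0000001a0000000200000000 0x40000000f0000001a0000000200000002 2 5) 0 0 (step_sound _ 97 [(rh71222050f2c63a3a.shift 1 0), (rhb739f4f82bb681b4.shift 0 2)] (by decide +kernel))
noncomputable def rh0a971779ee38fb5f : CRef := CRef.mk (Pat.mk 0x600000002000000010000000e 0x40000000600000002000000030000001e 2 5) 0 0 (step_sound _ 33 [(rh2f68792b6b779e96.shift 1 0), rhf48373e13d2bc128] (by decide +kernel))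
noncomputable def rh9be7e2e974241aee : CRef := CRef.mk (Pat.mk 0x4000000040000000c0000000700000000 0x4000000040000001c0000000f00000008 2 5) 0 0 (step_sound _ 35 [(rh33e738c4ed385b9f.shift 0 1), (rh55afc6a59410cf00.shift 2 0)] (by decide +kernel))
noncomputable def rh145987718adedfed : CRef := CRef.mk (Pat.mk 0x100000001c0000001e 0x300000001f0000001e 2 6) 0 0 (step_sound _ 33 [rh3244c3cc8379b070, (rh33e738c4ed385b9f.shift 1 1)] (by decide +kernel))
noncomputable def rh2010eb49fb22f810 : CRef := CRef.mk (Pat.mk 0x40000000f0000000800000008 0x40000001c0000000f0000000800000008 2 5) 0 0 (step_sound _ 99 [(rh33e738c4ed385b9f.shift 0 2), (rh50fbb5868c909700.shift 2 0)] (by decide +kernel))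
noncomputable def rh868906b4a31a1e06 : CRef := CRef.mk (Pat.mk 0x40000000c000000070000000800000000 0x40000001c0000000f0000000800000008 2 5) 0 0 (step_sound _ 67 [(rh33e738c4ed385b9f.shift 0 2), (rh7b1f1fb55310c477.shift 2 0)] (by decide +kernel))
noncomputable def rh38efffbdb125b30f : CRef := CRef.mk (Pat.mk 0xe00000001000000020000000600000000 0x1e00000003000000020000000600000004 2 5) 0 0 (step_sound _ 97 [(rh18965a982d73c794.shift 0 3), (rh55afc6a59410cf00.shift 1 0)] (by decide +kernel))
noncomputable def rhadc3444b972eb58c : CRef := CRef.mk (Pat.mk 0x400000006000000020000000100000001 0x600000006000000020000000300000003 2 3) 0 0 (step_sound _ 33 [rh5c5e593799055d58, (rh71222050f2c63a3a.shift 1 0)] (by decide +kernel))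
noncomputable def rhe3365c44154782cc : CRef := CRef.mk (Pat.mk 0x100000000e0000000e 0x180000000f0000001e 2 5) 0 0 (step_sound _ 32 [(rh428265de8cd3cd2d.shift 0 1), rhf48373e13d2bc128] (by decide +kernel))
noncomputable def rhcaa8bbd536e369ff : CRef := CRef.mk (Pat.mk 0x3000000070000000500000000 0x20000000200000003000000070000000500000001 2 3) 0 0 (step_sound _ 129 [(rh2145e1d24b96a57e.shift 1 1), rh71222050f2c63a3a] (by decide +kernel))
noncomputable def rhd960cc885bec3069 : CRef := CRef.mk (Pat.mk 0x100000003000000020000000100000001 0x300000003000000020000000300000003 2 2) 0 0 (step_sound _ 33 [rh5c5e593799055d58, rh7b1f1fb55310c477] (by decide +kernel))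
noncomputable def rhd9592927e8260423 : CRef := CRef.mk (Pat.mk 0x400000001000000020000000200000002 0x500000007000000020000000200000002 2 3) 0 0 (step_sound _ 97 [rh50fbb5868c909700, (rhbaefcd01e0a8bca3.shift 1 0)] (by decide +kernel))
noncomputable def rha34e4fe7f1ed675b : CRef := CRef.mk (Pat.mk 0x200000004000000040000000700000001 0x200000006000000060000000700000005 2 3) 0 0 (step_sound _ 97 [rh3c88ce959c0e423f, (rh7b1f1fb55310c477.shift 1 0)] (by decide +kernel))
noncomputable def rh9edf23957a2724c9 : CRef := CRef.mk (Pat.mk 0x80000000b000000060000000400000004 0x80000000b0000001e0000000c00000004 2 5) 0 0 (step_sound _ 67 [(rheea67dfebd0f8008.shift 2 0), (rhf48373e13d2bc128.shift 0 2)] (by decide +kernel))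
noncomputable def rhcb325776999f95c4 : CRef := CRef.mk (Pat.mk 0xc00000003000000000000000100000001 0x1e00000003000000010000000100000001 2 5) 0 0 (step_sound _ 129 [rh04253f50b6dd0619, (rh18965a982d73c794.shift 0 3)] (by decide +kernel))
noncomputable def rhfa1fc34e3368307c : CRef := CRef.mk (Pat.mk 0x200000004000000060000000500000001 0x200000006000000060000000700000005 2 3) 0 0 (step_sound _ 97 [(rh7b1f1fb55310c477.shift 1 0), rheea67dfebd0f8008] (by decide +kernel))
noncomputable def rh098da1339c072030 : CRef := CRef.mk (Pat.mk 0x200000000000000060000000500000001 0x20000000200000002000000060000000700000001 2 3) 0 0 (step_sound _ 97 [(rh2145e1d24b96a57e.shift 1 1), rheea67dfebd0f8008] (by decide +kernel))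
noncomputable def rh4f891d41ae70aa10 : CRef := CRef.mk (Pat.mk 0x200000000000000070000000500000001 0x20000000200000003000000070000000500000001 2 3) 0 0 (step_sound _ 97 [rh1006c02ae4212ff0, (rh2145e1d24b96a57e.shift 1 1)] (by decide +kernel))
noncomputable def rhe3f1f58a3537c915 : CRef := CRef.mk (Pat.mk 0x600000006000000040000000500000001 0x600000006000000060000000700000003 2 3) 0 0 (step_sound _ 33 [rh3c88ce959c0e423f, (rh932754581e0f4330.shift 1 0)] (by decide +kernel))
noncomputable def rhc6b6552229dbce07 : CRef := CRef.mk (Pat.mk 0x200000004000000050000000500000001 0x200000007000000050000000500000005 2 3) 0 0 (step_sound _ 97 [rh1006c02ae4212ff0, (rh7b1f1fb55310c477.shift 1 0)] (by decide +kernel))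
noncomputable def rh929a6d7e4f51e395 : CRef := CRef.mk (Pat.mk 0x400000005000000050000000300000000 0x500000005000000050000000700000002 2 3) 0 0 (step_sound _ 1 [rh2145e1d24b96a57e, (rheea67dfebd0f8008.shift 1 0)] (by decide +kernel))
noncomputable def rh246c19464d518c8b : CRef := CRef.mk (Pat.mk 0x8000000080000000600000007 0x800000008000000080000001e00000007 2 5) 0 0 (step_sound _ 35 [rh18965a982d73c794, (rh5c5e593799055d58.shift 2 0)] (by decide +kernel))
noncomputable def rh8bf8257c7eeda352 : CRef := CRef.mk (Pat.mk 0x380000000a 0x3c0000000f 2 6) 0 0 (step_sound _ 2 [rh53b3c253cb0c65f4, (rhca9569cc80abfe76.shift 1 0)] (by decide +kernel))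
noncomputable def rh7fdf6cad12393ad0 : CRef := CRef.mk (Pat.mk 0x180000000c00000003 0x180000001f00000003 2 5) 0 0 (step_sound _ 33 [rh18965a982d73c794, (rh53b3c253cb0c65f4.shift 0 1)] (by decide +kernel))
noncomputable def rh567a326921e8af4d : CRef := CRef.mk (Pat.mk 0x18000000090000000e 0x180000000f0000001e 2 5) 0 0 (step_sound _ 33 [(rh1c62b6193297d9e3.shift 0 1), rhf48373e13d2bc128] (by decide +kernel))
noncomputable def rhe4e5ef8a240212ba : CRef := CRef.mk (Pat.mk 0x40000000f0000000400000004 0x80000001c0000000f0000000400000004 2 5) 0 0 (step_sound _ 99 [(rh2f68792b6b779e96.shift 2 0), (rh33e738c4ed385b9f.shift 0 2)] (by decide +kernel))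
noncomputable def rhff3f1a1b29421dff : CRef := CRef.mk (Pat.mk 0x100000003000000030000000c00000000 0x100000003000000030000001e00000002 2 5) 0 0 (step_sound _ 33 [rh7b1f1fb55310c477, (rhf48373e13d2bc128.shift 0 1)] (by decide +kernel))
noncomputable def rhc17756096aaed3a3 : CRef := CRef.mk (Pat.mk 0x100000003000000000000000300000001 0x300000003000000020000000300000003 2 2) 0 0 (step_sound _ 65 [rh5c5e593799055d58, rh7b1f1fb55310c477] (by decide +kernel))
noncomputable def rh423c707f612cf20a : CRef := CRef.mk (Pat.mk 0x16000000010000000e 0x1e000000030000001e 2 5) 0 0 (step_sound _ 33 [(rh361cc68994bd8a63.shift 0 1), rhf48373e13d2bc128] (by decide +kernel))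
noncomputable def rh6d54ee7ee2cf255e : CRef := CRef.mk (Pat.mk 0xc00000003000000010000000100000000 0x1e00000003000000010000000100000001 2 5) 0 0 (step_sound _ 129 [(rh18965a982d73c794.shift 0 3), rh71222050f2c63a3a] (by decide +kernel))
noncomputable def rhee4debf7179397f9 : CRef := CRef.mk (Pat.mk 0x40000000c000000030000000200000000 0x40000001e000000030000000200000002 2 5) 0 0 (step_sound _ 97 [(rh18965a982d73c794.shift 0 2), (rh71222050f2c63a3a.shift 1 0)] (by decide +kernel))
noncomputable def rhea8a6663c0f480fb : CRef := CRef.mk (Pat.mk 0x4000000040000000a0000000b 0x400000004000000040000001e0000000b 2 5) 0 0 (step_sound _ 34 [rh18965a982d73c794, (rh2145e1d24b96a57e.shift 2 0)] (by decide +kernel))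
noncomputable def rhe39bfa5b40424373 : CRef := CRef.mk (Pat.mk 0xd0000000c00000006 0xf0000003c00000006 2 6) 0 0 (step_sound _ 36 [(rh18965a982d73c794.shift 1 0), (rhab22b5b56e7b3243.shift 0 1)] (by decide +kernel))
noncomputable def rh1187a5d460090ded : CRef := CRef.mk (Pat.mk 0x2c000000040000001e 0x3c000000070000001e 2 6) 0 0 (step_sound _ 33 [rh3244c3cc8379b070, (rh361cc68994bd8a63.shift 1 1)] (by decide +kernel))
noncomputable def rh9e8f1a174a587791 : CRef := CRef.mk (Pat.mk 0x30000000c00000018 0x30000001f00000018 2 5) 0 0 (step_sound _ 33 [rhb739f4f82bb681b4, (rhf48373e13d2bc128.shift 0 1)] (by decide +kernel))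
noncomputable def rhecf70d5ad0b38994 : CRef := CRef.mk (Pat.mk 0xe0000000900000018 0x1e0000000f00000018 2 5) 0 0 (step_sound _ 33 [(rh18965a982d73c794.shift 0 1), rhc10214bf3fe8094a] (by decide +kernel))
noncomputable def rha3ce8d304ffd1d8e : CRef := CRef.mk (Pat.mk 0x4000000040000000f0000000400000000 0x4000000040000000f0000001c00000008 2 5) 0 0 (step_sound _ 35 [(rh55afc6a59410cf00.shift 2 0), (rhe25b0a99195a5d59.shift 0 1)] (by decide +kernel))
noncomputable def rh3dc8e654aa80a713 : CRef := CRef.mk (Pat.mk 0xc000000030000000300000001 0x20000001e000000030000000300000001 2 5) 0 0 (step_sound _ 97 [(rh18965a982d73c794.shift 0 2), rh5c5e593799055d58] (by decide +kernel))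
noncomputable def rh4ad42ce8b6b2f224 : CRef := CRef.mk (Pat.mk 0xc000000080000000f00000000 0x40000000c000000080000000f00000018 2 5) 0 0 (step_sound _ 3 [(rh50fbb5868c909700.shift 2 0), rhe25b0a99195a5d59] (by decide +kernel))
noncomputable def rha3fe8c174ffc13e1 : CRef := CRef.mk (Pat.mk 0xe0000000100000016 0x1e000000030000001e 2 5) 0 0 (step_sound _ 33 [(rh18965a982d73c794.shift 0 1), rh2fe78cc5ca4405d8] (by decide +kernel))
noncomputable def rhddaa53666f376a29 : CRef := CRef.mk (Pat.mk 0x2000000030000000c00000004 0x200000002000000030000001e00000004 2 5) 0 0 (step_sound _ 33 [(rh2145e1d24b96a57e.shift 1 0), (rhf48373e13d2bc128.shift 0 1)] (by decide +kernel))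
noncomputable def rhe39e20fa79491793 : CRef := CRef.mk (Pat.mk 0xb0000000a000000040000000400000000 0xb0000001e000000040000000400000004 2 5) 0 0 (step_sound _ 98 [(rh71222050f2c63a3a.shift 2 0), (rhf48373e13d2bc128.shift 0 3)] (by decide +kernel))
noncomputable def rh45d081dea535237a : CRef := CRef.mk (Pat.mk 0x600000004000000060000000500000001 0x600000006000000060000000700000003 2 3) 0 0 (step_sound _ 33 [(rh932754581e0f4330.shift 1 0), rhee230b994cc8b773] (by decide +kernel))
noncomputable def rhfe76c8d510e0a76f : CRef := CRef.mk (Pat.mk 0x20000000c000000070000000400000000 0x20000001e000000070000000400000004 2 5) 0 0 (step_sound _ 97 [(rh18965a982d73c794.shift 0 2), (rh7b1f1fb55310c477.shift 1 0)] (by decide +kernel))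
noncomputable def rh087712de266f9e62 : CRef := CRef.mk (Pat.mk 0x200000002000000020000000100000004 0x200000002000000020000000700000005 2 3) 0 0 (step_sound _ 33 [rh932754581e0f4330, (rhd3458b32566d63f7.shift 1 0)] (by decide +kernel))
noncomputable def rha792162b08927c0f : CRef := CRef.mk (Pat.mk 0x1c000000040000001e 0x3c000000070000001e 2 6) 0 0 (step_sound _ 33 [(rh18965a982d73c794.shift 1 1), rh3244c3cc8379b070] (by decide +kernel))
noncomputable def rh79610703defe4002 : CRef := CRef.mk (Pat.mk 0x100000007000000040000000400000002 0x500000007000000060000000600000002 2 3) 0 0 (step_sound _ 33 [rh2613c889e411427e, (rh5c5e593799055d58.shift 1 0)] (by decide +kernel))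
noncomputable def rhea243aff88ed5ec2 : CRef := CRef.mk (Pat.mk 0x100000005000000060000000400000002 0x500000007000000060000000600000002 2 3) 0 0 (step_sound _ 33 [(rh5c5e593799055d58.shift 1 0), rhcfdf45280693d3da] (by decide +kernel))
noncomputable def rh9abb254542d602ce : CRef := CRef.mk (Pat.mk 0x180000000a0000000c000000080000000800000000 0x180000000f0000000c000000080000000800000008 2 5) 0 0 (step_sound _ 130 [(rh53b3c253cb0c65f4.shift 0 4), (rh7b1f1fb55310c477.shift 2 0)] (by decide +kernel))
noncomputable def rh1786109135247c55 : CRef := CRef.mk (Pat.mk 0xe0000000800000008000000080000000800000008 0xf0000001800000018000000080000000800000008 2 5) 0 0 (step_sound _ 132 [(rhb739f4f82bb681b4.shift 0 4), (rhbaefcd01e0a8bca3.shift 3 0)] (by decide +kernel))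
noncomputable def rh4d6b369314dc2dff : CRef := CRef.mk (Pat.mk 0x100000005000000040000000600000006 0x300000007000000060000000600000006 2 3) 0 0 (step_sound _ 97 [rh2613c889e411427e, (rh50fbb5868c909700.shift 1 0)] (by decide +kernel))
noncomputable def rh69db1d763c930154 : CRef := CRef.mk (Pat.mk 0x40000002e00000001 0x60000003e00000003 2 6) 0 0 (step_sound _ 36 [(rh3244c3cc8379b070.shift 1 1), rh80fcd6d0a18cb2dd] (by decide +kernel))
noncomputable def rh2f6f1d74ab769c08 : CRef := CRef.mk (Pat.mk 0x100000000d0000000e 0x180000000f0000001e 2 5) 0 0 (step_sound _ 33 [(rh428265de8cd3cd2d.shift 0 1), rhf48373e13d2bc128] (by decide +kernel))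
noncomputable def rh649b0af3519a7bcf : CRef := CRef.mk (Pat.mk 0x30000000a0000000e 0x30000001e0000000f 2 5) 0 0 (step_sound _ 36 [rh53b3c253cb0c65f4, (rh5419adcd928dba20.shift 0 1)] (by decide +kernel))
noncomputable def rhf682c000fac3086e : CRef := CRef.mk (Pat.mk 0xb000000080000000e 0xf000000180000000f 2 5) 0 0 (step_sound _ 36 [rh53b3c253cb0c65f4, (rhc10214bf3fe8094a.shift 0 1)] (by decide +kernel))
noncomputable def rh05ed1a32c8c093f9 : CRef := CRef.mk (Pat.mk 0x40000001e0000000400000002 0x4000000040000001e0000000700000002 2 5) 0 0 (step_sound _ 33 [(rh5c5e593799055d58.shift 1 0), (rheb0810cc63b001d8.shift 0 1)] (by decide +kernel))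
noncomputable def rhc1ef030390f43529 : CRef := CRef.mk (Pat.mk 0x8000000080000000800000008000000080000000e 0x8000000080000000800000018000000180000000f 2 5) 0 0 (step_sound _ 36 [rh53b3c253cb0c65f4, (rhd3458b32566d63f7.shift 3 1)] (by decide +kernel))
noncomputable def rh4020ef0ffe567459 : CRef := CRef.mk (Pat.mk 0x100000005000000050000000400000002 0x500000005000000050000000700000002 2 3) 0 0 (step_sound _ 33 [(rh5c5e593799055d58.shift 1 0), rhbe0e43a3bc50a43f] (by decide +kernel))
noncomputable def rhe0b1a1ececb379da : CRef := CRef.mk (Pat.mk 0x30000000a0000000b 0x30000001e0000000f 2 5) 0 0 (step_sound _ 36 [rh1c62b6193297d9e3, (rh5419adcd928dba20.shift 0 1)] (by decide +kernel))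
noncomputable def rh9c5a86d855687a4f : CRef := CRef.mk (Pat.mk 0xe000000080000000b 0xf000000180000000f 2 5) 0 0 (step_sound _ 36 [rh1c62b6193297d9e3, (rhb739f4f82bb681b4.shift 0 1)] (by decide +kernel))
noncomputable def rh9520ce1272f40273 : CRef := CRef.mk (Pat.mk 0x10000000100000000000000030000000c 0x10000000100000001000000030000001e 2 5) 0 0 (step_sound _ 1 [rhf48373e13d2bc128, rhff0f29cb645b05f7] (by decide +kernel))
noncomputable def rhc47d8aee3882bf78 : CRef := CRef.mk (Pat.mk 0x10000001600000002 0x30000001e00000003 2 5) 0 0 (step_sound _ 35 [(rh3f8766e6ecb455ce.shift 0 1), rheb0810cc63b001d8] (by decide +kernel))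
noncomputable def rhd8e93bbc8568df99 : CRef := CRef.mk (Pat.mk 0x60000001c 0xf0000001e 2 5) 0 0 (step_sound _ 32 [rh09d4dfe75d4407d6, rhd6e447e81774439e] (by decide +kernel))
noncomputable def rha0ed36dc23e93e83 : CRef := CRef.mk (Pat.mk 0x40000001a0000000a0000000800000000 0x40000001e0000000b0000000800000008 2 5) 0 0 (step_sound _ 98 [(rh7b1f1fb55310c477.shift 2 0), (rheb0810cc63b001d8.shift 0 2)] (by decide +kernel))
noncomputable def rh8fa345f759e9d768 : CRef := CRef.mk (Pat.mk 0x1c000000060000000400000004 0x20000001e000000070000000400000004 2 5) 0 0 (step_sound _ 97 [(rh50fbb5868c909700.shift 1 0), (rheb0810cc63b001d8.shift 0 2)] (by decide +kernel))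
noncomputable def rhe97c20e90f429aff : CRef := CRef.mk (Pat.mk 0x100000001e000000100000000000000010 0x180000001f000000100000001000000010 2 5) 0 0 (step_sound _ 131 [(rh53b3c253cb0c65f4.shift 0 3), (rh9e07f76261b05888.shift 3 0)] (by decide +kernel))
noncomputable def rh336c277403eda548 : CRef := CRef.mk (Pat.mk 0xe000000010000001c 0x1e000000030000001e 2 5) 0 0 (step_sound _ 33 [rh09d4dfe75d4407d6, (rh18965a982d73c794.shift 0 1)] (by decide +kernel))
noncomputable def rhdf75b1a85c17f481 : CRef := CRef.mk (Pat.mk 0x3a00000002 0x3e00000007 2 6) 0 0 (step_sound _ 34 [(rh80fcd6d0a18cb2dd.shift 1 0), rheb0810cc63b001d8] (by decide +kernel))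
noncomputable def rha24df86d1c9bf0e5 : CRef := CRef.mk (Pat.mk 0xe000000010000000e 0x1e000000030000001e 2 5) 0 0 (step_sound _ 33 [(rh18965a982d73c794.shift 0 1), rhf48373e13d2bc128] (by decide +kernel))
noncomputable def rhca76e6923a45bb3d : CRef := CRef.mk (Pat.mk 0x100000001000000020000000600000004 0x300000003000000020000000600000006 2 3) 0 0 (step_sound _ 97 [(rh2145e1d24b96a57e.shift 1 0), rh7b1f1fb55310c477] (by decide +kernel))
noncomputable def rhb2372126822a17d1 : CRef := CRef.mk (Pat.mk 0x90000001a0000000200000002 0x10000000f0000001a0000000200000002 2 5) 0 0 (step_sound _ 97 [rh50fbb5868c909700, (rhc10214bf3fe8094a.shift 0 2)] (by decide +kernel))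
noncomputable def rh29119771d98ceb9b : CRef := CRef.mk (Pat.mk 0x180000000a000000020000000200000002 0x190000000f000000020000000200000002 2 5) 0 0 (step_sound _ 96 [(rh1c62b6193297d9e3.shift 0 3), rh50fbb5868c909700] (by decide +kernel))
noncomputable def rh684ceea70f67a2df : CRef := CRef.mk (Pat.mk 0x200000002000000030000000c00000000 0x200000002000000030000001e00000004 2 5) 0 0 (step_sound _ 33 [(rh55afc6a59410cf00.shift 1 0), (rhf48373e13d2bc128.shift 0 1)] (by decide +kernel))
noncomputable def rh864e1b5773f7fc67 : CRef := CRef.mk (Pat.mk 0x1b00000008000000080000000800000000 0x1f00000018000000080000000800000008 2 5) 0 0 (step_sound _ 100 [(rh71222050f2c63a3a.shift 3 0), (rhc10214bf3fe8094a.shift 0 3)] (by decide +kernel))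
noncomputable def rh2ddb58910f728a86 : CRef := CRef.mk (Pat.mk 0x800000007000000100000001000000010 0x180000001f000000100000001000000010 2 5) 0 0 (step_sound _ 99 [(rh33e738c4ed385b9f.shift 0 3), (rhcfdf45280693d3da.shift 3 0)] (by decide +kernel))
noncomputable def rh096e8b8e30b54fb4 : CRef := CRef.mk (Pat.mk 0xb00000008000000080000000800000008 0x1f00000018000000080000000800000008 2 5) 0 0 (step_sound _ 100 [(rh2f68792b6b779e96.shift 3 0), (rhc10214bf3fe8094a.shift 0 3)] (by decide +kernel))
noncomputable def rh221fc527389f34f7 : CRef := CRef.mk (Pat.mk 0x3f000000000000002000000020 0x180000003f000000200000002000000020 2 6) 0 0 (step_sound _ 132 [(rh2613c889e411427e.shift 4 0), (rh428265de8cd3cd2d.shift 0 3)] (by decide +kernel))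
noncomputable def rh183c70e221ba5865 : CRef := CRef.mk (Pat.mk 0x80000003e000000000000002000000020 0x180000003f000000200000002000000020 2 6) 0 0 (step_sound _ 132 [(rh2613c889e411427e.shift 4 0), (rh53b3c253cb0c65f4.shift 0 3)] (by decide +kernel))
noncomputable def rhb768fbbff6a0dd65 : CRef := CRef.mk (Pat.mk 0x3f000000010000000100000000 0x60000003f000000010000000100000001 2 6) 0 0 (step_sound _ 129 [(rh3f8766e6ecb455ce.shift 1 3), rh71222050f2c63a3a] (by decide +kernel))
noncomputable def rhd0720436d50bc7a9 : CRef := CRef.mk (Pat.mk 0x100000000b000000080000000800000008 0x1c0000000f000000080000000800000008 2 5) 0 0 (step_sound _ 98 [(rh428265de8cd3cd2d.shift 0 3), (rh50fbb5868c909700.shift 2 0)] (by decide +kernel))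
noncomputable def rh9a6ab53ed55a15e7 : CRef := CRef.mk (Pat.mk 0xf00000000000000080000001800000000 0xf00000018000000080000001800000010 2 5) 0 0 (step_sound _ 99 [(rh55afc6a59410cf00.shift 3 0), (rhe25b0a99195a5d59.shift 0 3)] (by decide +kernel))
noncomputable def rh39d36d5c12f9caf1 : CRef := CRef.mk (Pat.mk 0x100000001e000000000000001000000010 0x180000001f000000100000001000000010 2 5) 0 0 (step_sound _ 131 [(rh2613c889e411427e.shift 3 0), (rh53b3c253cb0c65f4.shift 0 3)] (by decide +kernel))
noncomputable def rhb8d85e5c03eb35ac : CRef := CRef.mk (Pat.mk 0x16000000010000001a 0x1e000000030000001e 2 5) 0 0 (step_sound _ 33 [(rh361cc68994bd8a63.shift 0 1), rh5419adcd928dba20] (by decide +kernel))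
noncomputable def rh1e2c47d6fb9d062d : CRef := CRef.mk (Pat.mk 0x1600000011 0x1e00000033 2 6) 0 0 (step_sound _ 35 [rh80fcd6d0a18cb2dd, (rhe25b0a99195a5d59.shift 1 0)] (by decide +kernel))
noncomputable def rhf24cf804840f069b : CRef := CRef.mk (Pat.mk 0x110000001a 0x330000001e 2 6) 0 0 (step_sound _ 2 [(rh33e738c4ed385b9f.shift 1 0), rh3f8766e6ecb455ce] (by decide +kernel))
noncomputable def rh5cf65daae92dd3de : CRef := CRef.mk (Pat.mk 0x7000000100000000b 0xf000000180000000f 2 5) 0 0 (step_sound _ 35 [rh1c62b6193297d9e3, (rhd6e447e81774439e.shift 0 1)] (by decide +kernel))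
noncomputable def rh0512a873e374de07 : CRef := CRef.mk (Pat.mk 0x10000000130000000a00000008 0x1000000010000000130000001e00000008 2 5) 0 0 (step_sound _ 36 [(rh5419adcd928dba20.shift 0 1), (rh5c5e593799055d58.shift 3 0)] (by decide +kernel))
noncomputable def rh6723fcc1c491a16a : CRef := CRef.mk (Pat.mk 0x130000000b 0x1b0000001f 2 5) 0 0 (step_sound _ 2 [rh428265de8cd3cd2d, rhf48373e13d2bc128] (by decide +kernel))
noncomputable def rh5a7ed244f65b46a9 : CRef := CRef.mk (Pat.mk 0x700000013 0x1f0000001b 2 5) 0 0 (step_sound _ 35 [rh18965a982d73c794, rh96851dee118c1ba3] (by decide +kernel))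
noncomputable def rhd9f5d1027b9c54e6 : CRef := CRef.mk (Pat.mk 0x80000000b00000010 0x180000000f00000018 2 5) 0 0 (step_sound _ 34 [(rh33e738c4ed385b9f.shift 0 1), rh96851dee118c1ba3] (by decide +kernel))
noncomputable def rh662783328d33e37a : CRef := CRef.mk (Pat.mk 0xc000000030000000200000002 0x40000001e000000030000000200000002 2 5) 0 0 (step_sound _ 97 [(rh18965a982d73c794.shift 0 2), (rh2f68792b6b779e96.shift 1 0)] (by decide +kernel))
noncomputable def rh9c0bfb86d38e7070 : CRef := CRef.mk (Pat.mk 0x280000000e 0x780000000f 2 7) 0 0 (step_sound _ 36 [(rh18965a982d73c794.shift 2 0), rh53b3c253cb0c65f4] (by decide +kernel))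
noncomputable def rh195acfcc97677576 : CRef := CRef.mk (Pat.mk 0x210000000e 0x330000001e 2 6) 0 0 (step_sound _ 4 [rh3f8766e6ecb455ce, (rh428265de8cd3cd2d.shift 1 0)] (by decide +kernel))
noncomputable def rh83bb7a00551b6bc2 : CRef := CRef.mk (Pat.mk 0xd00000008000000080000000800000008 0x1f00000018000000080000000800000008 2 5) 0 0 (step_sound _ 100 [(rh2f68792b6b779e96.shift 3 0), (rhab22b5b56e7b3243.shift 0 3)] (by decide +kernel))
noncomputable def rh0a1b9952fa1e5fed : CRef := CRef.mk (Pat.mk 0x700000006000000060000000400000000 0x10000000700000006000000060000000600000002 2 3) 0 0 (step_sound _ 33 [(rh50fbb5868c909700.shift 0 1), (rh932754581e0f4330.shift 1 0)] (by decide +kernel))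
noncomputable def rh233fbb519e595507 : CRef := CRef.mk (Pat.mk 0xc00000007000000000000000800000008 0x1c0000000f000000080000000800000008 2 5) 0 0 (step_sound _ 99 [(rh2613c889e411427e.shift 2 0), (rh33e738c4ed385b9f.shift 0 3)] (by decide +kernel))
noncomputable def rhc9687765d606d909 : CRef := CRef.mk (Pat.mk 0x100000001000000010000001c00000002 0x100000001000000010000001f00000003 2 5) 0 0 (step_sound _ 33 [rhbe0e43a3bc50a43f, rheb0810cc63b001d8] (by decide +kernel))
noncomputable def rh8427dc5df594e610 : CRef := CRef.mk (Pat.mk 0x20000000200000002000000020000001a 0x20000000200000002000000030000001f 2 5) 0 0 (step_sound _ 32 [rh5419adcd928dba20, rh932754581e0f4330] (by decide +kernel))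
noncomputable def rhee90db0d31edca45 : CRef := CRef.mk (Pat.mk 0x100000001000000000000003f00000000 0x100000001000000010000003f00000006 2 6) 0 0 (step_sound _ 1 [(rh80fcd6d0a18cb2dd.shift 1 0), rhff0f29cb645b05f7] (by decide +kernel))
noncomputable def rh1b3dee99c415cd1f : CRef := CRef.mk (Pat.mk 0x100000001000000000000001f00000004 0x100000001000000010000003f00000006 2 6) 0 0 (step_sound _ 1 [(rh18965a982d73c794.shift 1 0), rhff0f29cb645b05f7] (by decide +kernel))
noncomputable def rh32c9a17f4caef812 : CRef := CRef.mk (Pat.mk 0x20000000200000003f00000000 0x2000000020000000200000003f00000018 2 6) 0 0 (step_sound _ 4 [(rh5c5e593799055d58.shift 4 0), rh96851dee118c1ba3] (by decide +kernel))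
noncomputable def rh4f6a16b54ea5db4e : CRef := CRef.mk (Pat.mk 0x10000000100000001800000003 0x100000001000000010000000180000000f 2 5) 0 0 (step_sound _ 3 [rh1c62b6193297d9e3, (rh5c5e593799055d58.shift 3 0)] (by decide +kernel))
noncomputable def rhb6caee3599a82f80 : CRef := CRef.mk (Pat.mk 0x200000002000000020000001a00000002 0x200000002000000020000001f00000003 2 5) 0 0 (step_sound _ 0 [rh79877ebd3ef475dd, rhb2a0b9ccfb5cecd5] (by decide +kernel))
noncomputable def rh2ce31be96ba64c73 : CRef := CRef.mk (Pat.mk 0x20000001a00000001 0x30000001e00000003 2 5) 0 0 (step_sound _ 34 [(rh3244c3cc8379b070.shift 0 1), rh80fcd6d0a18cb2dd] (by decide +kernel))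
noncomputable def rh437c8ad7086e8dae : CRef := CRef.mk (Pat.mk 0x300000018000000020000000600000000 0x30000001e000000020000000600000004 2 5) 0 0 (step_sound _ 97 [(rh5419adcd928dba20.shift 0 3), (rh55afc6a59410cf00.shift 1 0)] (by decide +kernel))
noncomputable def rh99c222c9f32002b6 : CRef := CRef.mk (Pat.mk 0x20000001a0000000600000001 0x2000000020000001a0000000f00000001 2 5) 0 0 (step_sound _ 32 [(rh3fc040e777f1679e.shift 0 1), rh5c5e593799055d58] (by decide +kernel))
noncomputable def rh76a72604b49c2be2 : CRef := CRef.mk (Pat.mk 0x4000000040000000c0000000b00000000 0x4000000040000001c0000000f00000002 2 5) 0 0 (step_sound _ 34 [(rh33e738c4ed385b9f.shift 0 1), (rh932754581e0f4330.shift 1 0)] (by decide +kernel))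
noncomputable def rh0bc251320fcd4671 : CRef := CRef.mk (Pat.mk 0x500000005000000040000000300000000 0x500000005000000050000000700000002 2 3) 0 0 (step_sound _ 1 [(rheea67dfebd0f8008.shift 1 0), rhff0f29cb645b05f7] (by decide +kernel))
noncomputable def rh48633d39d92701d2 : CRef := CRef.mk (Pat.mk 0x800000008000000180000000600000000 0x800000008000000180000000f00000004 2 5) 0 0 (step_sound _ 35 [(rh53b3c253cb0c65f4.shift 0 1), (rh932754581e0f4330.shift 2 0)] (by decide +kernel))
noncomputable def rhb6095d1fae7edc30 : CRef := CRef.mk (Pat.mk 0x200000002000000020000000400000001 0x200000002000000020000000700000005 2 3) 0 0 (step_sound _ 33 [(rh55afc6a59410cf00.shift 1 0), rh79877ebd3ef475dd] (by decide +kernel))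
noncomputable def rh35fa666cc99ac1c4 : CRef := CRef.mk (Pat.mk 0x10000000500000005000000020000000200000000 0x1000000010000000500000007000000020000000200000002 2 3) 0 0 (step_sound _ 97 [(rh2145e1d24b96a57e.shift 0 2), (rh71222050f2c63a3a.shift 1 0)] (by decide +kernel))
noncomputable def rhf5197c0bcdf6bb42 : CRef := CRef.mk (Pat.mk 0x3000000020000001c00000002 0x100000003000000020000001e00000003 2 5) 0 0 (step_sound _ 33 [rh50fbb5868c909700, rheb0810cc63b001d8] (by decide +kernel))
noncomputable def rh7c3b6ac2b2d5c7d4 : CRef := CRef.mk (Pat.mk 0x80000000b000000040000000400000000 0x180000000f000000040000000400000004 2 5) 0 0 (step_sound _ 98 [(rh33e738c4ed385b9f.shift 0 3), (rh71222050f2c63a3a.shift 2 0)] (by decide +kernel))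
noncomputable def rh6bb57454bcaf5d3e : CRef := CRef.mk (Pat.mk 0x100000000b000000020000000200000002 0x1c0000000f000000020000000200000002 2 5) 0 0 (step_sound _ 98 [(rh2f68792b6b779e96.shift 1 0), (rh428265de8cd3cd2d.shift 0 3)] (by decide +kernel))
noncomputable def rhcd1d2dd80f69b75d : CRef := CRef.mk (Pat.mk 0x800000008000000080000001e 0x80000000800000008000000180000001f 2 5) 0 0 (step_sound _ 36 [(rh2145e1d24b96a57e.shift 3 0), rh53b3c253cb0c65f4] (by decide +kernel))
noncomputable def rh9fc6751704a81b5c : CRef := CRef.mk (Pat.mk 0x10000000080000003e00000020 0x1000000010000000180000003f00000020 2 6) 0 0 (step_sound _ 68 [(rh2145e1d24b96a57e.shift 4 0), (rh53b3c253cb0c65f4.shift 0 1)] (by decide +kernel))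
noncomputable def rhc56ee617d4ef761e : CRef := CRef.mk (Pat.mk 0x60000001c0000000200000002 0x4000000070000001e0000000200000002 2 5) 0 0 (step_sound _ 65 [(rh2f68792b6b779e96.shift 1 0), (rh3244c3cc8379b070.shift 0 2)] (by decide +kernel))
noncomputable def rhd0677e5a0b47a76b : CRef := CRef.mk (Pat.mk 0x800000007000000080000001800000000 0x180000000f000000080000001800000010 2 5) 0 0 (step_sound _ 99 [(rh33e738c4ed385b9f.shift 0 3), (rh55afc6a59410cf00.shift 3 0)] (by decide +kernel))
noncomputable def rh1df22f8b3f35b5be : CRef := CRef.mk (Pat.mk 0x2000000020000000200000002000000020000000200000002 0x2000000020000000300000003000000030000000200000002 2 2) 0 0 (step_sound _ 96 [rh50fbb5868c909700, (rh932754581e0f4330.shift 0 2)] (by decide +kernel))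
noncomputable def rh7e6576e48459aef8 : CRef := CRef.mk (Pat.mk 0x800000007000000000000001800000010 0x180000000f000000080000001800000010 2 5) 0 0 (step_sound _ 99 [(rh33e738c4ed385b9f.shift 0 3), (rhff0f29cb645b05f7.shift 3 0)] (by decide +kernel))
noncomputable def rh184731057535cd07 : CRef := CRef.mk (Pat.mk 0x100000001000000020000001a 0x10000000100000001000000030000001e 2 5) 0 0 (step_sound _ 32 [rh2145e1d24b96a57e, rh5419adcd928dba20] (by decide +kernel))
noncomputable def rhe8c283fd0405bb80 : CRef := CRef.mk (Pat.mk 0x40000000500000001000000070000000100000000 0x40000000500000005000000070000000300000002 2 3) 0 0 (step_sound _ 33 [(rh3c88ce959c0e423f.shift 1 1), rh55afc6a59410cf00] (by decide +kernel))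
noncomputable def rh6c93a01cdf0f7321 : CRef := CRef.mk (Pat.mk 0x20000000e0000000200000001 0x2000000020000001e0000000300000001 2 5) 0 0 (step_sound _ 32 [(rh18965a982d73c794.shift 0 1), rh5c5e593799055d58] (by decide +kernel))
noncomputable def rh6d5107755251e36c : CRef := CRef.mk (Pat.mk 0x10000000f0000000200000002 0x1000000010000001f0000000300000002 2 5) 0 0 (step_sound _ 32 [(rh18965a982d73c794.shift 0 1), rh2145e1d24b96a57e] (by decide +kernel))
noncomputable def rh847d127b1ee67a78 : CRef := CRef.mk (Pat.mk 0x20000000f0000000100000001 0x2000000030000001f0000000100000001 2 5) 0 0 (step_sound _ 96 [rh2f68792b6b779e96, (rhf48373e13d2bc128.shift 0 2)] (by decide +kernel))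
noncomputable def rhfe4c636fe9e2c7b3 : CRef := CRef.mk (Pat.mk 0x30000000d000000010000000100000000 0x30000001f000000010000000100000001 2 5) 0 0 (step_sound _ 97 [rh71222050f2c63a3a, (rhf48373e13d2bc128.shift 0 3)] (by decide +kernel))
noncomputable def rh66dba13660a1d097 : CRef := CRef.mk (Pat.mk 0x34000000040000001e 0x3c000000070000001e 2 6) 0 0 (step_sound _ 33 [rh3244c3cc8379b070, (rhb2a0b9ccfb5cecd5.shift 1 1)] (by decide +kernel))
noncomputable def rh3a461cbda0c5b1ed : CRef := CRef.mk (Pat.mk 0x20000000a0000000e00000001 0x2000000020000001a0000000f00000001 2 5) 0 0 (step_sound _ 32 [(rh33e738c4ed385b9f.shift 0 1), rh5c5e593799055d58] (by decide +kernel))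
noncomputable def rhcd504d2a191e0997 : CRef := CRef.mk (Pat.mk 0xe0000001000000007 0xf000000180000000f 2 5) 0 0 (step_sound _ 35 [rh3fc040e777f1679e, (rhb739f4f82bb681b4.shift 0 1)] (by decide +kernel))
noncomputable def rh09f01e5e5de286ed : CRef := CRef.mk (Pat.mk 0x800000016000000020000000c00000004 0x80000001e0000000b0000000c00000004 2 5) 0 0 (step_sound _ 99 [(rh3c88ce959c0e423f.shift 2 0), (rheb0810cc63b001d8.shift 0 2)] (by decide +kernel))
noncomputable def rh94dda44472c97f80 : CRef := CRef.mk (Pat.mk 0x400000003000000000000000200000002 0x500000007000000020000000200000002 2 3) 0 0 (step_sound _ 65 [rh50fbb5868c909700, (rhbaefcd01e0a8bca3.shift 1 0)] (by decide +kernel))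
noncomputable def rh8f969e863a565533 : CRef := CRef.mk (Pat.mk 0x40000000000000004000000070000000c 0x40000000400000004000000070000001e 2 5) 0 0 (step_sound _ 1 [(rhee230b994cc8b773.shift 1 0), rhf48373e13d2bc128] (by decide +kernel))
noncomputable def rhc18fc78fbe905b06 : CRef := CRef.mk (Pat.mk 0x600000000000000020000000300000002 0x600000006000000020000000300000003 2 3) 0 0 (step_sound _ 97 [rh932754581e0f4330, (rhbaefcd01e0a8bca3.shift 1 0)] (by decide +kernel))
noncomputable def rh4846bffefc582b42 : CRef := CRef.mk (Pat.mk 0x80000001e000000100000001800000000 0x180000001f000000100000001800000008 2 5) 0 0 (step_sound _ 132 [(rh53b3c253cb0c65f4.shift 0 3), (rh932754581e0f4330.shift 3 0)] (by decide +kernel))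
noncomputable def rhe1cc30bcc0c8f78d : CRef := CRef.mk (Pat.mk 0x10000000e000000020000000300000000 0x30000001e000000020000000300000001 2 5) 0 0 (step_sound _ 129 [rh932754581e0f4330, (rhf48373e13d2bc128.shift 0 3)] (by decide +kernel))
noncomputable def rhde5424e3c1125e61 : CRef := CRef.mk (Pat.mk 0x1e000000080000000e 0x1e000000380000000f 2 6) 0 0 (step_sound _ 36 [rh53b3c253cb0c65f4, (rhe25b0a99195a5d59.shift 1 1)] (by decide +kernel))
noncomputable def rha7d0237a5ee4ee70 : CRef := CRef.mk (Pat.mk 0x18000000060000001c 0x180000000f0000001e 2 5) 0 0 (step_sound _ 32 [rh09d4dfe75d4407d6, (rh3fc040e777f1679e.shift 0 1)] (by decide +kernel))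
noncomputable def rha954c127d725faca : CRef := CRef.mk (Pat.mk 0x4000000060000000e0000000100000000 0x4000000060000001e0000000300000002 2 5) 0 0 (step_sound _ 33 [(rh18965a982d73c794.shift 0 1), (rh71222050f2c63a3a.shift 1 0)] (by decide +kernel))
noncomputable def rh4dae6fdf479479c1 : CRef := CRef.mk (Pat.mk 0xe000000100000000e 0xf000000180000000f 2 5) 0 0 (step_sound _ 35 [rh53b3c253cb0c65f4, (rhb739f4f82bb681b4.shift 0 1)] (by decide +kernel))
noncomputable def rh728581fff52300a9 : CRef := CRef.mk (Pat.mk 0x200000002000000010000000300000004 0x20000000200000002000000030000000700000004 2 3) 0 0 (step_sound _ 65 [(rh5c5e593799055d58.shift 0 1), (rhd3458b32566d63f7.shift 1 0)] (by decide +kernel))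
noncomputable def rhd2f89fd9c0f3703a : CRef := CRef.mk (Pat.mk 0x40000000c000000100000000e00000000 0x40000000c000000180000000f00000008 2 5) 0 0 (step_sound _ 67 [(rh53b3c253cb0c65f4.shift 0 1), (rh7b1f1fb55310c477.shift 2 0)] (by decide +kernel))
noncomputable def rh43d12784403a4198 : CRef := CRef.mk (Pat.mk 0x8000000100000000e00000004 0x800000008000000180000000f00000004 2 5) 0 0 (step_sound _ 67 [(rh53b3c253cb0c65f4.shift 0 1), (rh5c5e593799055d58.shift 2 0)] (by decide +kernel))
noncomputable def rh26e4fa4543882709 : CRef := CRef.mk (Pat.mk 0xf000000000000001e 0xf000000380000001e 2 6) 0 0 (step_sound _ 36 [(rh33e738c4ed385b9f.shift 1 0), (rh96851dee118c1ba3.shift 0 1)] (by decide +kernel))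
noncomputable def rhce9a05d846050245 : CRef := CRef.mk (Pat.mk 0x200000003000000000000000e00000011 0x200000003000000010000000f00000019 2 5) 0 0 (step_sound _ 32 [rh04253f50b6dd0619, rh96851dee118c1ba3] (by decide +kernel))
noncomputable def rha5b5ac62a0abe102 : CRef := CRef.mk (Pat.mk 0x80000000d0000000800000010 0x8000000080000000f0000001800000010 2 5) 0 0 (step_sound _ 36 [(rh2145e1d24b96a57e.shift 3 0), (rhab22b5b56e7b3243.shift 0 1)] (by decide +kernel))
noncomputable def rhd3bcc5cf86cc8d52 : CRef := CRef.mk (Pat.mk 0x10000000e0000000d 0x30000001e0000000f 2 5) 0 0 (step_sound _ 36 [rh24ae073cf30720c4, (rh3f8766e6ecb455ce.shift 0 1)] (by decide +kernel))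
noncomputable def rhf4a8c4344b41c99c : CRef := CRef.mk (Pat.mk 0x1e0000000e00000002 0x1e0000003e00000003 2 6) 0 0 (step_sound _ 36 [(rhe25b0a99195a5d59.shift 1 1), rheb0810cc63b001d8] (by decide +kernel))
noncomputable def rhed18b8ab05e58db5 : CRef := CRef.mk (Pat.mk 0x7000000030000000100000002 0x500000007000000030000000300000002 2 3) 0 0 (step_sound _ 33 [rh2145e1d24b96a57e, (rh2f68792b6b779e96.shift 1 0)] (by decide +kernel))
noncomputable def rh5d685137714d9fe9 : CRef := CRef.mk (Pat.mk 0x180000003e 0x1f0000003e 2 6) 0 0 (step_sound _ 33 [rh3244c3cc8379b070, (rhab22b5b56e7b3243.shift 1 0)] (by decide +kernel))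
noncomputable def rhbfaee8c0e3c96ac2 : CRef := CRef.mk (Pat.mk 0xe0000001600000002 0xf0000001e00000003 2 5) 0 0 (step_sound _ 35 [(rhb739f4f82bb681b4.shift 0 1), rheb0810cc63b001d8] (by decide +kernel))
noncomputable def rhd875f4b8fd969386 : CRef := CRef.mk (Pat.mk 0x300000002000000010000000300000000 0x300000003000000010000000300000003 2 2) 0 0 (step_sound _ 96 [rh55afc6a59410cf00, rh71222050f2c63a3a] (by decide +kernel))
noncomputable def rhc1b3bd7213822395 : CRef := CRef.mk (Pat.mk 0x3000000030000000600000001 0x200000003000000030000000700000005 2 3) 0 0 (step_sound _ 129 [(rh55afc6a59410cf00.shift 1 0), rh9e3edb185cc347de] (by decide +kernel))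
noncomputable def rh914efc139468a458 : CRef := CRef.mk (Pat.mk 0x1c0000000c000000000000000200000002 0x1c0000000f000000020000000200000002 2 5) 0 0 (step_sound _ 97 [(rh04253f50b6dd0619.shift 1 0), (rh53b3c253cb0c65f4.shift 0 3)] (by decide +kernel))
noncomputable def rh145743f37eb63ccf : CRef := CRef.mk (Pat.mk 0x400000005000000030000000100000002 0x500000007000000030000000300000002 2 3) 0 0 (step_sound _ 33 [(rh1006c02ae4212ff0.shift 1 0), rh2145e1d24b96a57e] (by decide +kernel))
noncomputable def rhe9c01a7dbb50c448 : CRef := CRef.mk (Pat.mk 0x500000007000000010000000200000000 0x10000000500000007000000030000000200000002 2 3) 0 0 (step_sound _ 65 [(rh2145e1d24b96a57e.shift 0 1), (rh71222050f2c63a3a.shift 1 0)] (by decide +kernel))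
noncomputable def rh5c2ddd300f751bae : CRef := CRef.mk (Pat.mk 0x1e0000000e 0x1f0000003e 2 6) 0 0 (step_sound _ 4 [rh3244c3cc8379b070, (rhe25b0a99195a5d59.shift 1 0)] (by decide +kernel))
noncomputable def rh1b6a669f8a288060 : CRef := CRef.mk (Pat.mk 0x700000006000000000000000800000008 0x70000001e000000080000000800000008 2 5) 0 0 (step_sound _ 99 [(rh2613c889e411427e.shift 2 0), (rhf48373e13d2bc128.shift 0 3)] (by decide +kernel))
noncomputable def rhcdf4618e2a76b62e : CRef := CRef.mk (Pat.mk 0x60000000b0000000800000008 0x40000001e0000000b0000000800000008 2 5) 0 0 (step_sound _ 99 [(rh18965a982d73c794.shift 0 2), (rh50fbb5868c909700.shift 2 0)] (by decide +kernel))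
noncomputable def rh73aed199c1a62ed4 : CRef := CRef.mk (Pat.mk 0x1c0000001e 0x1f0000003e 2 6) 0 0 (step_sound _ 33 [rh3244c3cc8379b070, (rhe25b0a99195a5d59.shift 1 0)] (by decide +kernel))
noncomputable def rhf064d5c7fe5ebdcd : CRef := CRef.mk (Pat.mk 0x10000000100000001a00000016 0x1000000010000000100000001b0000001e 2 5) 0 0 (step_sound _ 3 [rh3244c3cc8379b070, (rh5c5e593799055d58.shift 3 0)] (by decide +kernel))
noncomputable def rh00fa999739b16860 : CRef := CRef.mk (Pat.mk 0x8000000080000001e0000001000000000 0x8000000180000001f0000001000000010 2 5) 0 0 (step_sound _ 100 [(rh53b3c253cb0c65f4.shift 0 2), (rh7b1f1fb55310c477.shift 3 0)] (by decide +kernel))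
noncomputable def rh374ca1e8fd1717b4 : CRef := CRef.mk (Pat.mk 0x1000000010000000e0000000a 0x100000001000000010000000f0000001a 2 5) 0 0 (step_sound _ 32 [rh2145e1d24b96a57e, rhe25b0a99195a5d59] (by decide +kernel))
noncomputable def rh406f9a6aa07143c7 : CRef := CRef.mk (Pat.mk 0x2000000010000000f0000000100000000 0x2000000030000001f0000000100000001 2 5) 0 0 (step_sound _ 97 [rh71222050f2c63a3a, (rhf48373e13d2bc128.shift 0 2)] (by decide +kernel))
noncomputable def rh3f7e8fd46bd3689a : CRef := CRef.mk (Pat.mk 0x6000000060000000300000004 0x200000006000000060000000700000005 2 3) 0 0 (step_sound _ 129 [rh932754581e0f4330, (rh9e07f76261b05888.shift 1 0)] (by decide +kernel))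
noncomputable def rh28571dfdf760e747 : CRef := CRef.mk (Pat.mk 0x3000000010000000200000003 0x300000003000000010000000300000003 2 2) 0 0 (step_sound _ 32 [rh2145e1d24b96a57e, rh2f68792b6b779e96] (by decide +kernel))
noncomputable def rh4bd3b23c6601caaa : CRef := CRef.mk (Pat.mk 0x400000004000000060000001c00000000 0x400000004000000070000001e00000002 2 5) 0 0 (step_sound _ 33 [(rh3244c3cc8379b070.shift 0 1), (rh932754581e0f4330.shift 1 0)] (by decide +kernel))
noncomputable def rh178a7c957b00e62a : CRef := CRef.mk (Pat.mk 0x4000000040000000600000018 0x400000004000000040000000f00000018 2 5) 0 0 (step_sound _ 35 [(rh2145e1d24b96a57e.shift 2 0), rhb739f4f82bb681b4] (by decide +kernel))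
noncomputable def rh07bcdc9aa121f1fe : CRef := CRef.mk (Pat.mk 0x100000000e000000080000000c00000000 0x180000000f000000080000000c00000004 2 5) 0 0 (step_sound _ 131 [(rh53b3c253cb0c65f4.shift 0 3), (rh932754581e0f4330.shift 2 0)] (by decide +kernel))
noncomputable def rhc49b09f78f59f4ba : CRef := CRef.mk (Pat.mk 0xe0000000800000007 0xf000000180000000f 2 5) 0 0 (step_sound _ 36 [rh3fc040e777f1679e, (rhb739f4f82bb681b4.shift 0 1)] (by decide +kernel))
noncomputable def rh6ddb7d21d32de33d : CRef := CRef.mk (Pat.mk 0x180000001600000002 0x180000001f00000003 2 5) 0 0 (step_sound _ 35 [(rh53b3c253cb0c65f4.shift 0 1), rheb0810cc63b001d8] (by decide +kernel))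
noncomputable def rh7b745f52937a7ad9 : CRef := CRef.mk (Pat.mk 0x200000002000000020000000600000018 0x200000002000000020000000f00000019 2 5) 0 0 (step_sound _ 32 [rh932754581e0f4330, rhd6e447e81774439e] (by decide +kernel))
noncomputable def rhcc6a2bc7c954a6c4 : CRef := CRef.mk (Pat.mk 0x100000001000000090000000e00000000 0x100000001000000190000000f00000002 2 5) 0 0 (step_sound _ 32 [(rh33e738c4ed385b9f.shift 0 1), rh55afc6a59410cf00] (by decide +kernel))
noncomputable def rheea6d2351407a5b1 : CRef := CRef.mk (Pat.mk 0x18000000150000000e 0x180000001f0000000f 2 5) 0 0 (step_sound _ 35 [(rh24ae073cf30720c4.shift 0 1), rh53b3c253cb0c65f4] (by decide +kernel))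
noncomputable def rhca2e2aed2d1c3a32 : CRef := CRef.mk (Pat.mk 0x1800000006000000040000000400000000 0x180000000f000000040000000400000004 2 5) 0 0 (step_sound _ 99 [(rh53b3c253cb0c65f4.shift 0 3), (rh71222050f2c63a3a.shift 2 0)] (by decide +kernel))
noncomputable def rhab569c39c3d1b54b : CRef := CRef.mk (Pat.mk 0x18000000100000001e00000008 0x800000018000000100000001f00000018 2 5) 0 0 (step_sound _ 4 [(rh50fbb5868c909700.shift 3 0), rhb739f4f82bb681b4] (by decide +kernel))
noncomputable def rh9367ba291c163b15 : CRef := CRef.mk (Pat.mk 0x1c000000010000000e 0x1e000000030000001e 2 5) 0 0 (step_sound _ 33 [(rhca9569cc80abfe76.shift 0 1), rhf48373e13d2bc128] (by decide +kernel))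
noncomputable def rha98504023be367c2 : CRef := CRef.mk (Pat.mk 0x16000000020000000e 0x1e000000030000001e 2 5) 0 0 (step_sound _ 32 [(rh361cc68994bd8a63.shift 0 1), rhf48373e13d2bc128] (by decide +kernel))
noncomputable def rh6ae91eb5e19726d0 : CRef := CRef.mk (Pat.mk 0x400000000000000040000000e00000001 0x400000004000000040000001e00000003 2 5) 0 0 (step_sound _ 1 [rh18965a982d73c794, (rhee230b994cc8b773.shift 1 0)] (by decide +kernel))
noncomputable def rhd9fd6e4cb8c91201 : CRef := CRef.mk (Pat.mk 0xe00000010000000080000000c00000000 0xf00000018000000080000000c00000004 2 5) 0 0 (step_sound _ 99 [(rh932754581e0f4330.shift 2 0), (rhb739f4f82bb681b4.shift 0 3)] (by decide +kernel))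
noncomputable def rh4ccaa8321fb6cd90 : CRef := CRef.mk (Pat.mk 0x8000000080000000e0000001400000000 0x8000000080000000f0000001c00000004 2 5) 0 0 (step_sound _ 35 [(rh932754581e0f4330.shift 2 0), (rhb739f4f82bb681b4.shift 0 1)] (by decide +kernel))
noncomputable def rh37dedf5b7a2e3614 : CRef := CRef.mk (Pat.mk 0x500000005000000010000000200000002 0x10000000500000007000000030000000200000002 2 3) 0 0 (step_sound _ 65 [(rh1006c02ae4212ff0.shift 1 0), (rh2145e1d24b96a57e.shift 0 1)] (by decide +kernel))
noncomputable def rha23e5e3a29bab496 : CRef := CRef.mk (Pat.mk 0x400000004000000000000000700000008 0x400000004000000040000000f00000018 2 5) 0 0 (step_sound _ 35 [rhe25b0a99195a5d59, (rhff0f29cb645b05f7.shift 2 0)] (by decide +kernel))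
noncomputable def rh5e14077930334b56 : CRef := CRef.mk (Pat.mk 0x40000000c000000000000000700000008 0x40000000c000000080000000f00000018 2 5) 0 0 (step_sound _ 35 [(rh2613c889e411427e.shift 2 0), rhe25b0a99195a5d59] (by decide +kernel))
noncomputable def rh46d8aa7205a52b27 : CRef := CRef.mk (Pat.mk 0x40000000c0000000b0000000600000000 0x40000000c0000000b0000001e00000008 2 5) 0 0 (step_sound _ 35 [(rh7b1f1fb55310c477.shift 2 0), (rhf48373e13d2bc128.shift 0 1)] (by decide +kernel))
noncomputable def rh91ee0353efcb1916 : CRef := CRef.mk (Pat.mk 0x20000000300000001000000030000000200000000 0x2000000020000000300000003000000030000000200000002 2 2) 0 0 (step_sound _ 97 [(rh5c5e593799055d58.shift 0 2), rh7b1f1fb55310c477] (by decide +kernel))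
noncomputable def rhf727a68250e6ca98 : CRef := CRef.mk (Pat.mk 0x400000004000000070000000a00000000 0x400000004000000070000001e00000008 2 5) 0 0 (step_sound _ 34 [(rh55afc6a59410cf00.shift 2 0), (rhf48373e13d2bc128.shift 0 1)] (by decide +kernel))
noncomputable def rh5934eb2458b5cfb0 : CRef := CRef.mk (Pat.mk 0x100000006000000030000000300000000 0x500000007000000030000000300000002 2 3) 0 0 (step_sound _ 1 [(rh2f68792b6b779e96.shift 1 0), rh6f1cbe15c631ee70] (by decide +kernel))
noncomputable def rhc19eade4c2703af5 : CRef := CRef.mk (Pat.mk 0x400000004000000030000000a00000008 0x400000004000000070000001e00000008 2 5) 0 0 (step_sound _ 34 [(rhf48373e13d2bc128.shift 0 1), (rhff0f29cb645b05f7.shift 2 0)] (by decide +kernel))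
noncomputable def rhcf9d12da1293a3a3 : CRef := CRef.mk (Pat.mk 0x4000000040000000f0000000800000000 0x40000001c0000000f0000000800000008 2 5) 0 0 (step_sound _ 99 [(rh33e738c4ed385b9f.shift 0 2), (rh7b1f1fb55310c477.shift 2 0)] (by decide +kernel))
noncomputable def rh4c5963f2a1745fb4 : CRef := CRef.mk (Pat.mk 0x600000001000000030000000300000000 0x40000000600000003000000030000000300000001 2 3) 0 0 (step_sound _ 97 [(rh2f68792b6b779e96.shift 1 1), rh71222050f2c63a3a] (by decide +kernel))
noncomputable def rhda7c257ff8782db6 : CRef := CRef.mk (Pat.mk 0x6000000060000000600000001 0x200000006000000060000000700000005 2 3) 0 0 (step_sound _ 129 [rh79877ebd3ef475dd, (rh7b1f1fb55310c477.shift 1 0)] (by decide +kernel))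
noncomputable def rh9414a970cc90014f : CRef := CRef.mk (Pat.mk 0x60000001400000003 0x60000003e00000003 2 6) 0 0 (step_sound _ 35 [rhca9569cc80abfe76, (rhf48373e13d2bc128.shift 1 1)] (by decide +kernel))
noncomputable def rhfe3d17030513ae3d : CRef := CRef.mk (Pat.mk 0x1e00000008000000080000000800000000 0x1f00000018000000080000000800000008 2 5) 0 0 (step_sound _ 100 [(rh71222050f2c63a3a.shift 3 0), (rhb739f4f82bb681b4.shift 0 3)] (by decide +kernel))
noncomputable def rh67b9efd3c34e1322 : CRef := CRef.mk (Pat.mk 0x200000001600000018 0x300000001f00000018 2 6) 0 0 (step_sound _ 35 [(rh428265de8cd3cd2d.shift 1 1), rhb739f4f82bb681b4] (by decide +kernel))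
noncomputable def rh6356b6d665e91aee : CRef := CRef.mk (Pat.mk 0x3000000180000000600000004 0x2000000030000001e0000000600000004 2 5) 0 0 (step_sound _ 65 [(rh2145e1d24b96a57e.shift 1 0), (rh5419adcd928dba20.shift 0 2)] (by decide +kernel))
noncomputable def rhfcc9cc6723cee3b1 : CRef := CRef.mk (Pat.mk 0x100000005000000060000000400000006 0x300000007000000060000000600000006 2 3) 0 0 (step_sound _ 97 [(rh50fbb5868c909700.shift 1 0), rh9e07f76261b05888] (by decide +kernel))
noncomputable def rhd1ee4e91e5ae8c8f : CRef := CRef.mk (Pat.mk 0x200000003000000010000000c00000018 0x200000003000000010000000f00000019 2 5) 0 0 (step_sound _ 32 [rh71222050f2c63a3a, rhab22b5b56e7b3243] (by decide +kernel))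
noncomputable def rhfdfcfa7be8f74a35 : CRef := CRef.mk (Pat.mk 0x6000000180000000800000008 0x40000000f000000180000000800000008 2 5) 0 0 (step_sound _ 99 [(rh50fbb5868c909700.shift 2 0), (rhb739f4f82bb681b4.shift 0 2)] (by decide +kernel))
noncomputable def rh6b7377c695f6d4c0 : CRef := CRef.mk (Pat.mk 0x20000000e0000000d 0x30000001e0000000f 2 5) 0 0 (step_sound _ 36 [rh24ae073cf30720c4, (rh3244c3cc8379b070.shift 0 1)] (by decide +kernel))
noncomputable def rh33147460d7676397 : CRef := CRef.mk (Pat.mk 0x10000000100000000000000020000000e 0x10000000100000001000000030000001e 2 5) 0 0 (step_sound _ 32 [rhf48373e13d2bc128, rhff0f29cb645b05f7] (by decide +kernel))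
noncomputable def rh41f458053cc6e2ad : CRef := CRef.mk (Pat.mk 0x800000007000000140000000400000000 0x80000000f0000001c0000000400000004 2 5) 0 0 (step_sound _ 99 [(rh71222050f2c63a3a.shift 2 0), (rh96851dee118c1ba3.shift 0 2)] (by decide +kernel))
noncomputable def rhf41104f32ae47f64 : CRef := CRef.mk (Pat.mk 0x10000000f0000000100000002 0x1000000010000001f0000000300000002 2 5) 0 0 (step_sound _ 33 [(rh18965a982d73c794.shift 0 1), rh2145e1d24b96a57e] (by decide +kernel))
noncomputable def rh88a42862f9a1bce7 : CRef := CRef.mk (Pat.mk 0x20000000200000004000000060000000300000000 0x2000000020000000200000006000000060000000300000001 2 3) 0 0 (step_sound _ 97 [(rh2145e1d24b96a57e.shift 1 2), rh932754581e0f4330] (by decide +kernel))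
noncomputable def rhb00882e7e76d3911 : CRef := CRef.mk (Pat.mk 0x2000000060000000b0000000c00000000 0x2000000060000000f0000001c00000004 2 5) 0 0 (step_sound _ 66 [(rh7b1f1fb55310c477.shift 1 0), (rhe25b0a99195a5d59.shift 0 1)] (by decide +kernel))
noncomputable def rhbc65edc2393e02d2 : CRef := CRef.mk (Pat.mk 0x800000018000000100000000e00000002 0x800000018000000100000001e00000013 2 5) 0 0 (step_sound _ 36 [(rh7b1f1fb55310c477.shift 3 0), rheb0810cc63b001d8] (by decide +kernel))
noncomputable def rhb23bc07381afb8a9 : CRef := CRef.mk (Pat.mk 0xe000000010000000600000004 0x20000001e000000030000000600000004 2 5) 0 0 (step_sound _ 65 [(rh18965a982d73c794.shift 0 2), (rh2145e1d24b96a57e.shift 1 0)] (by decide +kernel))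
noncomputable def rh16b42a8938e03177 : CRef := CRef.mk (Pat.mk 0x40000000e000000010000000200000000 0x40000001e000000030000000200000002 2 5) 0 0 (step_sound _ 65 [(rh18965a982d73c794.shift 0 2), (rh71222050f2c63a3a.shift 1 0)] (by decide +kernel))
noncomputable def rhfe520bcb130f10d6 : CRef := CRef.mk (Pat.mk 0x110000000e000000000000001800000008 0x130000001e000000100000001800000008 2 5) 0 0 (step_sound _ 100 [(rh3c88ce959c0e423f.shift 3 0), (rh3f8766e6ecb455ce.shift 0 3)] (by decide +kernel))
noncomputable def rh0bc1d0b89c7ecf89 : CRef := CRef.mk (Pat.mk 0x7000000010000000500000004 0x200000007000000050000000500000005 2 3) 0 0 (step_sound _ 129 [(rh2613c889e411427e.shift 1 0), rh71222050f2c63a3a] (by decide +kernel))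
noncomputable def rh04352555af700c45 : CRef := CRef.mk (Pat.mk 0x2000000020000000200000002000000020000001a 0x2000000020000000200000003000000030000001e 2 5) 0 0 (step_sound _ 32 [rh5419adcd928dba20, (rh79877ebd3ef475dd.shift 0 1)] (by decide +kernel))
noncomputable def rhe0f8922315861807 : CRef := CRef.mk (Pat.mk 0x1a000000020000001a 0x1e000000030000001e 2 5) 0 0 (step_sound _ 32 [rh5419adcd928dba20, (rhb2a0b9ccfb5cecd5.shift 0 1)] (by decide +kernel))
noncomputable def rh9b98860b308510c2 : CRef := CRef.mk (Pat.mk 0x4000000040000000c0000000d00000000 0x4000000040000001c0000000f00000002 2 5) 0 0 (step_sound _ 33 [(rh33e738c4ed385b9f.shift 0 1), (rh932754581e0f4330.shift 1 0)] (by decide +kernel))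
noncomputable def rh0e18a4b9269fe00c : CRef := CRef.mk (Pat.mk 0x500000002000000030000000300000000 0x500000007000000030000000300000002 2 3) 0 0 (step_sound _ 1 [rh6f1cbe15c631ee70, (rhbaefcd01e0a8bca3.shift 1 0)] (by decide +kernel))
noncomputable def rh30fb2484d31c5faa : CRef := CRef.mk (Pat.mk 0x8000000080000000a0000001a00000000 0x8000000080000000b0000001e00000004 2 5) 0 0 (step_sound _ 34 [(rh3244c3cc8379b070.shift 0 1), (rh932754581e0f4330.shift 2 0)] (by decide +kernel))
noncomputable def rhe479db46730f3945 : CRef := CRef.mk (Pat.mk 0x4000000140000000e0000000800000000 0x40000001c0000000f0000000800000008 2 5) 0 0 (step_sound _ 99 [(rh53b3c253cb0c65f4.shift 0 2), (rh7b1f1fb55310c477.shift 2 0)] (by decide +kernel))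
noncomputable def rh993e2174d382d931 : CRef := CRef.mk (Pat.mk 0x1c000000020000000e 0x1e000000030000001e 2 5) 0 0 (step_sound _ 32 [(rhca9569cc80abfe76.shift 0 1), rhf48373e13d2bc128] (by decide +kernel))
noncomputable def rh18a4449b050c7f10 : CRef := CRef.mk (Pat.mk 0xf000000080000001000000010 0x180000000f000000080000001800000010 2 5) 0 0 (step_sound _ 131 [(rh33e738c4ed385b9f.shift 0 3), (rhbe0e43a3bc50a43f.shift 3 0)] (by decide +kernel))
noncomputable def rh60b333e332fc188a : CRef := CRef.mk (Pat.mk 0x700000008000000080000000c00000000 0xf00000018000000080000000c00000004 2 5) 0 0 (step_sound _ 131 [(rh932754581e0f4330.shift 2 0), (rhe25b0a99195a5d59.shift 0 3)] (by decide +kernel))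
noncomputable def rhd064686b76a955c6 : CRef := CRef.mk (Pat.mk 0x100000001000000010000000d00000008 0x100000001000000010000000f0000001a 2 5) 0 0 (step_sound _ 33 [rh55afc6a59410cf00, rhe25b0a99195a5d59] (by decide +kernel))
noncomputable def rhff53736c33b22ff6 : CRef := CRef.mk (Pat.mk 0x100000000d000000080000000c00000000 0x180000000f000000080000000c00000004 2 5) 0 0 (step_sound _ 131 [(rh24ae073cf30720c4.shift 0 3), (rh932754581e0f4330.shift 2 0)] (by decide +kernel))
noncomputable def rh7f14f63eb1bc1cd8 : CRef := CRef.mk (Pat.mk 0x80000000d000000010000000100000001 0x1a0000000f000000010000000100000001 2 5) 0 0 (step_sound _ 97 [rh2f68792b6b779e96, (rh33e738c4ed385b9f.shift 0 3)] (by decide +kernel))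
noncomputable def rh761989edea693d64 : CRef := CRef.mk (Pat.mk 0x1a000000160000000800000008 0x100000001b0000001e0000000800000008 2 5) 0 0 (step_sound _ 67 [(rh2f68792b6b779e96.shift 3 0), (rh3244c3cc8379b070.shift 0 2)] (by decide +kernel))
noncomputable def rh211269ed7667305e : CRef := CRef.mk (Pat.mk 0x10000000500000004000000020000000200000000 0x10000000700000006000000020000000200000002 2 3) 0 0 (step_sound _ 97 [(rh71222050f2c63a3a.shift 1 0), (rhcfdf45280693d3da.shift 0 1)] (by decide +kernel))
noncomputable def rhe13fa2e1acbd0381 : CRef := CRef.mk (Pat.mk 0x200000002000000060000000300000018 0x20000000200000002000000060000000f00000018 2 5) 0 0 (step_sound _ 34 [(rh2145e1d24b96a57e.shift 1 1), rhd6e447e81774439e] (by decide +kernel))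
noncomputable def rh57cf5fdc0a2364e4 : CRef := CRef.mk (Pat.mk 0x7000000080000000c00000004 0x80000000f000000180000000c00000004 2 5) 0 0 (step_sound _ 99 [(rh5c5e593799055d58.shift 2 0), (rhe25b0a99195a5d59.shift 0 2)] (by decide +kernel))
noncomputable def rhfefb468f916a9318 : CRef := CRef.mk (Pat.mk 0x90000000e000000020000000200000000 0x190000000f000000020000000200000002 2 5) 0 0 (step_sound _ 96 [(rh33e738c4ed385b9f.shift 0 3), rh7b1f1fb55310c477] (by decide +kernel))
noncomputable def rh3a4f667983953844 : CRef := CRef.mk (Pat.mk 0xf00000002000000020000000200000000 0x1f00000003000000020000000200000002 2 5) 0 0 (step_sound _ 96 [(rh18965a982d73c794.shift 0 3), rh7b1f1fb55310c477] (by decide +kernel))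
noncomputable def rh6bdc83908c7ebff7 : CRef := CRef.mk (Pat.mk 0x700000006000000080000000800000000 0x70000001e000000080000000800000008 2 5) 0 0 (step_sound _ 99 [(rh7b1f1fb55310c477.shift 2 0), (rhf48373e13d2bc128.shift 0 3)] (by decide +kernel))
noncomputable def rh660be7177c703999 : CRef := CRef.mk (Pat.mk 0x30000000120000000e00000010 0x2000000030000000130000001e00000010 2 6) 0 0 (step_sound _ 36 [(rh2f68792b6b779e96.shift 4 0), (rh3244c3cc8379b070.shift 0 1)] (by decide +kernel))
noncomputable def rh44fd07b5203ea564 : CRef := CRef.mk (Pat.mk 0x18000000080000001800000006 0x100000001800000008000000180000000f 2 5) 0 0 (step_sound _ 3 [(rh2f68792b6b779e96.shift 3 0), rh53b3c253cb0c65f4] (by decide +kernel))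
noncomputable def rh431ae7760c5a2d78 : CRef := CRef.mk (Pat.mk 0x1800000008000000100000000e 0x100000001800000008000000180000000f 2 5) 0 0 (step_sound _ 35 [(rh2f68792b6b779e96.shift 3 0), rh53b3c253cb0c65f4] (by decide +kernel))
noncomputable def rhfb76b5b414952735 : CRef := CRef.mk (Pat.mk 0x7000000030000000300000000 0x500000007000000030000000300000002 2 3) 0 0 (step_sound _ 1 [rh2145e1d24b96a57e, (rh2f68792b6b779e96.shift 1 0)] (by decide +kernel))
noncomputable def rh9df0f92ead5d849d : CRef := CRef.mk (Pat.mk 0x20000000e000000100000001800000008 0x130000001e000000100000001800000008 2 5) 0 0 (step_sound _ 100 [(rh3244c3cc8379b070.shift 0 3), (rh5c5e593799055d58.shift 3 0)] (by decide +kernel))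
noncomputable def rh55af9e8916ea75b7 : CRef := CRef.mk (Pat.mk 0x200000002000000020000000f 0x20000000200000002000000030000001f 2 5) 0 0 (step_sound _ 32 [rh5c5e593799055d58, rhf48373e13d2bc128] (by decide +kernel))
noncomputable def rh2a09e4bb338a1742 : CRef := CRef.mk (Pat.mk 0x10000000100000001e0000000800000000 0x10000000100000001f0000001800000008 2 5) 0 0 (step_sound _ 36 [(rh932754581e0f4330.shift 3 0), (rhb739f4f82bb681b4.shift 0 1)] (by decide +kernel))
noncomputable def rhed380b2b2fe5761c : CRef := CRef.mk (Pat.mk 0x1c0000001200000003 0x3c0000001e00000003 2 6) 0 0 (step_sound _ 34 [(rh18965a982d73c794.shift 1 1), rh361cc68994bd8a63] (by decide +kernel))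
noncomputable def rhac7e3de52c3ca3fc : CRef := CRef.mk (Pat.mk 0x6000000060000000700000000 0x200000006000000060000000700000005 2 3) 0 0 (step_sound _ 129 [(rh7b1f1fb55310c477.shift 1 0), rh932754581e0f4330] (by decide +kernel))
noncomputable def rh953997394dfdc3f2 : CRef := CRef.mk (Pat.mk 0x10000000e000000020000000600000000 0x30000001e000000020000000600000004 2 5) 0 0 (step_sound _ 129 [(rh55afc6a59410cf00.shift 1 0), (rhf48373e13d2bc128.shift 0 3)] (by decide +kernel))
noncomputable def rhbc4edabfec870e16 : CRef := CRef.mk (Pat.mk 0x800000008000000060000001800000000 0x8000000080000000f0000001800000010 2 5) 0 0 (step_sound _ 67 [(rh55afc6a59410cf00.shift 3 0), (rhb739f4f82bb681b4.shift 0 1)] (by decide +kernel))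
noncomputable def rh848a0b98dfc71680 : CRef := CRef.mk (Pat.mk 0x40000000600000001000000010000000300000000 0x40000000600000003000000030000000300000001 2 3) 0 0 (step_sound _ 97 [rh71222050f2c63a3a, (rh9e3edb185cc347de.shift 1 1)] (by decide +kernel))
noncomputable def rh0861ca7069f07210 : CRef := CRef.mk (Pat.mk 0x8000000080000000e00000012 0x800000008000000080000001e00000013 2 5) 0 0 (step_sound _ 36 [(rh2145e1d24b96a57e.shift 3 0), rheb0810cc63b001d8] (by decide +kernel))
noncomputable def rh5f477dc411353e47 : CRef := CRef.mk (Pat.mk 0x400000004000000060000001800000008 0x40000000c0000000f0000001800000008 2 5) 0 0 (step_sound _ 67 [(rhb739f4f82bb681b4.shift 0 1), (rhcfdf45280693d3da.shift 2 0)] (by decide +kernel))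
noncomputable def rh05e5e50bc8fe713b : CRef := CRef.mk (Pat.mk 0x200000002000000020000001a00000002 0x200000002000000020000001e00000007 2 5) 0 0 (step_sound _ 34 [(rh55afc6a59410cf00.shift 1 0), rheb0810cc63b001d8] (by decide +kernel))
noncomputable def rh658d988aa7ab3325 : CRef := CRef.mk (Pat.mk 0x30000000120000000e 0x300000001e0000000f 2 6) 0 0 (step_sound _ 35 [(rh24ae073cf30720c4.shift 1 1), rh53b3c253cb0c65f4] (by decide +kernel))
noncomputable def rh2b5eee94aa1708fe : CRef := CRef.mk (Pat.mk 0x8000000080000000b0000000600000000 0x8000000080000000b0000001e00000004 2 5) 0 0 (step_sound _ 35 [(rh932754581e0f4330.shift 2 0), (rhf48373e13d2bc128.shift 0 1)] (by decide +kernel))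
noncomputable def rhec729e1b81b076c3 : CRef := CRef.mk (Pat.mk 0x1c000000020000001c 0x1e000000030000001e 2 5) 0 0 (step_sound _ 32 [rh09d4dfe75d4407d6, (rhca9569cc80abfe76.shift 0 1)] (by decide +kernel))
noncomputable def rh6bd0ec98f6d010ee : CRef := CRef.mk (Pat.mk 0x400000003000000030000000200000001 0x40000000600000003000000030000000300000001 2 3) 0 0 (step_sound _ 129 [(rh2f68792b6b779e96.shift 1 1), rh9e3edb185cc347de] (by decide +kernel))
noncomputable def rh6b737a76c1e003cc : CRef := CRef.mk (Pat.mk 0xf00000002000000010000000300000000 0x1f00000003000000010000000300000002 2 5) 0 0 (step_sound _ 96 [(rh18965a982d73c794.shift 0 3), rh55afc6a59410cf00] (by decide +kernel))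
noncomputable def rh99058911f432ea9e : CRef := CRef.mk (Pat.mk 0x100000001e0000001000000008 0x10000000100000001f0000001800000008 2 5) 0 0 (step_sound _ 35 [(rh5c5e593799055d58.shift 3 0), (rhb739f4f82bb681b4.shift 0 1)] (by decide +kernel))
noncomputable def rh94f617b7df1a63af : CRef := CRef.mk (Pat.mk 0x1000000020000000200000002000000000000000100000001 0x1000000030000000200000002000000020000000300000001 2 2) 0 0 (step_sound _ 65 [rheea67dfebd0f8008, (rhffd04209dc8ea796.shift 0 2)] (by decide +kernel))
noncomputable def rh8233e388259a3beb : CRef := CRef.mk (Pat.mk 0x300000002000000020000000000000002 0x10000000300000003000000020000000200000002 2 2) 0 0 (step_sound _ 33 [(rh50fbb5868c909700.shift 0 1), rhffd04209dc8ea796] (by decide +kernel))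
noncomputable def rh95300026e34db43e : CRef := CRef.mk (Pat.mk 0x10000000100000001e00000010 0x1000000010000000100000001f00000018 2 5) 0 0 (step_sound _ 3 [(rh5c5e593799055d58.shift 3 0), rhb739f4f82bb681b4] (by decide +kernel))
noncomputable def rhf0d853d0e55fa742 : CRef := CRef.mk (Pat.mk 0xa0000000e000000010000000100000000 0x1a0000000f000000010000000100000001 2 5) 0 0 (step_sound _ 96 [(rh33e738c4ed385b9f.shift 0 3), rh71222050f2c63a3a] (by decide +kernel))
noncomputable def rh4e9434ae4447084a : CRef := CRef.mk (Pat.mk 0x8000000140000000e0000000400000000 0x80000001c0000000f0000000400000004 2 5) 0 0 (step_sound _ 99 [(rh53b3c253cb0c65f4.shift 0 2), (rh71222050f2c63a3a.shift 2 0)] (by decide +kernel))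
noncomputable def rh9dec7a7b1c0738f5 : CRef := CRef.mk (Pat.mk 0x8000000100000001e00000010 0x800000008000000180000001f00000010 2 5) 0 0 (step_sound _ 67 [(rh2145e1d24b96a57e.shift 3 0), (rh53b3c253cb0c65f4.shift 0 1)] (by decide +kernel))
noncomputable def rh67a8d3c56f70f56e : CRef := CRef.mk (Pat.mk 0x1000000018000000060000000800000000 0x10000000180000000f0000000800000008 2 5) 0 0 (step_sound _ 67 [(rh53b3c253cb0c65f4.shift 0 2), (rh71222050f2c63a3a.shift 3 0)] (by decide +kernel))
noncomputable def rh427c47ae159c2e18 : CRef := CRef.mk (Pat.mk 0x90000001a 0xf0000001e 2 5) 0 0 (step_sound _ 33 [rh5419adcd928dba20, rhc10214bf3fe8094a] (by decide +kernel))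
noncomputable def rh7d408f601ae13d9d : CRef := CRef.mk (Pat.mk 0x10000000e0000000600000004 0x2000000030000001e0000000600000004 2 5) 0 0 (step_sound _ 97 [(rh2145e1d24b96a57e.shift 1 0), (rhf48373e13d2bc128.shift 0 2)] (by decide +kernel))
noncomputable def rh4c81f8d2b0e78ae8 : CRef := CRef.mk (Pat.mk 0x200000000000000020000000300000004 0x200000002000000020000000700000005 2 3) 0 0 (step_sound _ 97 [rh932754581e0f4330, (rhd3458b32566d63f7.shift 1 0)] (by decide +kernel))
end Crest.Agent.S0047.Helper85.Cert
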