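import Crest.Agent.Lib.S0047.Helper85CertPL2F0
import Crest.Agent.Lib.S0047.Helper85CertPL2F1
set_option autoImplicit false
set_option linter.all false
set_option Elab.async false
namespace Crest.Agent.S0047.Helper85.Cert
open Crest.Agent.S0047.Helper85

noncomputable def rhe153806bfe3acc65 : CRef := CRef.mk (Pat.mk 0x180000003c00000000 0x180000003f00000070 3 7) 0 0 (step_sound _ 33 [(rh4ad5fc38f1b69f65.shift 1 0), (rh53b3c253cb0c65f4.shift 0 1)] (by decide +kernel))
noncomputable def rh65110719f316d635 : CRef := CRef.mk (Pat.mk 0x40000000e0000001c000000080000000000000000 0x60000000e0000001c0000000f0000000600000004 3 5) 0 0 (step_sound _ 66 [(rh40241bd608e5be1a.shift 1 0), (rhf5094ad2a427d4d3.shift 0 1)] (by decide +kernel))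
noncomputable def rh516b276c7065b8d5 : CRef := CRef.mk (Pat.mk 0x200000002000000120000000600000010 0x2000000020000001a0000000f00000019 3 5) 0 0 (step_sound _ 32 [rh4096d66cfc0478fc, rh932754581e0f4330] (by decide +kernel))
noncomputable def rhb08a3a1c514e52c3 : CRef := CRef.mk (Pat.mk 0x8000000380000000800000004 0x8000000080000003c0000000f00000004 3 6) 0 0 (step_sound _ 34 [(rh1ed7a3503fa50fc8.shift 0 1), (rh5c5e593799055d58.shift 2 0)] (by decide +kernel))
noncomputable def rh2cc2854bb928dcfb : CRef := CRef.mk (Pat.mk 0x20000001e000000060000000200000000 0x20000001e0000003e0000000300000001 3 6) 0 0 (step_sound _ 68 [rh84f01cf2134210c0, (rhe25b0a99195a5d59.shift 1 2)] (by decide +kernel))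
noncomputable def rhd65e52c5f80caa3b : CRef := CRef.mk (Pat.mk 0x8000000080000001c0000000800000000 0x8000000080000003c0000000f00000004 3 6) 0 0 (step_sound _ 34 [(rh4dc133ee0ba1420a.shift 0 1), (rh932754581e0f4330.shift 2 0)] (by decide +kernel))
noncomputable def rha1a532725e6ae333 : CRef := CRef.mk (Pat.mk 0x40000001e000000040000000000000000 0x4000000040000001e000000070000000200000002 3 5) 0 0 (step_sound _ 65 [(rh1e309b005ffa1b36.shift 1 0), (rheb0810cc63b001d8.shift 0 2)] (by decide +kernel))
noncomputable def rh6c6b2f2a23ca799f : CRef := CRef.mk (Pat.mk 0x60000000c0000000a 0x60000003e0000000f 3 6) 0 0 (step_sound _ 36 [rh076be03eb7063320, (rhf48373e13d2bc128.shift 1 1)] (by decide +kernel))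
noncomputable def rhcf8648ec2c7370c4 : CRef := CRef.mk (Pat.mk 0x3000000060000000500000000 0x20000000200000003000000070000000700000001 3 3) 0 0 (step_sound _ 129 [(rh2145e1d24b96a57e.shift 1 1), rh5ddbeed5d869bf16] (by decide +kernel))
noncomputable def rha3fcae8ae3aacc9d : CRef := CRef.mk (Pat.mk 0x20000000700000006000000010000000000000000 0x30000000700000006000000030000000300000002 3 3) 0 0 (step_sound _ 65 [rh40241bd608e5be1a, (rh932754581e0f4330.shift 0 1)] (by decide +kernel))
noncomputable def rh9b0ef802d35b9eaa : CRef := CRef.mk (Pat.mk 0x80000001c000000180000001400000000 0x80000001c0000001f0000003400000004 3 6) 0 0 (step_sound _ 66 [(rh71222050f2c63a3a.shift 2 0), (rhf56e6bc5d2f7fe77.shift 0 1)] (by decide +kernel))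
noncomputable def rh04f06f8629e77b13 : CRef := CRef.mk (Pat.mk 0xc0000000c000000140000000c00000000 0x40000000c0000000c0000001c0000000f00000002 3 5) 0 0 (step_sound _ 67 [(rh50fbb5868c909700.shift 2 1), rhf5094ad2a427d4d3] (by decide +kernel))
noncomputable def rhf9418118d8a61ed7 : CRef := CRef.mk (Pat.mk 0x700000004000000070000000000000000 0x2000000030000000700000006000000070000000300000002 3 3) 0 0 (step_sound _ 97 [(rh37d9ceebb86d75d1.shift 0 1), rh40241bd608e5be1a] (by decide +kernel))
noncomputable def rh9ce6df3bf8812881 : CRef := CRef.mk (Pat.mk 0x1c0000001400000014 0x1c0000007f00000036 3 7) 0 0 (step_sound _ 35 [(rha9e1a5d55b907abf.shift 1 0), rhf56e6bc5d2f7fe77] (by decide +kernel))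
noncomputable def rhde43633b9e4abc31 : CRef := CRef.mk (Pat.mk 0x2000000030000000200000004 0x20000000200000002000000030000000700000005 3 3) 0 0 (step_sound _ 129 [rh03dfdf12d5937476, (rhd3458b32566d63f7.shift 1 0)] (by decide +kernel))
noncomputable def rhe8f9550119ab603c : CRef := CRef.mk (Pat.mk 0x300000001000000030000000000000000 0x30000000300000001000000030000000300000002 3 2) 0 0 (step_sound _ 32 [(rh2f68792b6b779e96.shift 0 1), rhd4b4beefcd67f51e] (by decide +kernel))
noncomputable def rh6ce021e181db5f56 : CRef := CRef.mk (Pat.mk 0x6000000020000000e0000000000000000 0x400000006000000020000001e0000000300000001 3 5) 0 0 (step_sound _ 33 [rh157b220518f94713, (rh2f68792b6b779e96.shift 1 1)] (by decide +kernel))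
noncomputable def rhab92366f0179162d : CRef := CRef.mk (Pat.mk 0x300000002000000060000000000000000 0x30000000300000002000000060000000600000004 3 3) 0 0 (step_sound _ 33 [(rh50fbb5868c909700.shift 0 1), (rhd4b4beefcd67f51e.shift 1 0)] (by decide +kernel))
noncomputable def rha477d073a567e5c1 : CRef := CRef.mk (Pat.mk 0x4000000020000001e00000000 0x400000004000000060000003e00000003 3 6) 0 0 (step_sound _ 66 [rh1ae4704ae86cb9a8, (rhf48373e13d2bc128.shift 1 1)] (by decide +kernel))
noncomputable def rh8299efcf31db39c9 : CRef := CRef.mk (Pat.mk 0x200000002000000120000000600000000 0x200000002000000020000001e0000000700000001 3 5) 0 0 (step_sound _ 32 [rh932754581e0f4330, (rhfaef403040bda603.shift 0 1)] (by decide +kernel))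
noncomputable def rhd79d2ecf89709c31 : CRef := CRef.mk (Pat.mk 0x10000000400000007000000020000000000000000 0x10000000700000007000000030000000200000002 3 3) 0 0 (step_sound _ 33 [(rh71222050f2c63a3a.shift 1 0), (rh92d527fd57e151ef.shift 0 1)] (by decide +kernel))
noncomputable def rhe9ccaeb8e4b60a80 : CRef := CRef.mk (Pat.mk 0x20000000600000006000000010000000000000000 0x60000000600000006000000030000000300000002 3 3) 0 0 (step_sound _ 65 [(rh932754581e0f4330.shift 0 1), (rhea7a1800d6f053bd.shift 1 0)] (by decide +kernel))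
noncomputable def rhfbf2eae4035425b6 : CRef := CRef.mk (Pat.mk 0x4000000040000001c0000000400000000 0x4000000040000001c0000000f0000000a 3 5) 0 0 (step_sound _ 35 [(rh55afc6a59410cf00.shift 2 0), rhf5094ad2a427d4d3] (by decide +kernel))
noncomputable def rh6ea0c6639065f1d7 : CRef := CRef.mk (Pat.mk 0x7e 0x3c0000007f 3 7) 0 0 (step_sound _ 35 [(rh3244c3cc8379b070.shift 2 0), rhec46bd5500c722c9] (by decide +kernel))
noncomputable def rhc243fc7af1536e6c : CRef := CRef.mk (Pat.mk 0xe000000080000000c 0x1f000000780000000c 3 7) 0 0 (step_sound _ 36 [(rhb739f4f82bb681b4.shift 0 1), (rhc628f7de140e299c.shift 1 0)] (by decide +kernel))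
noncomputable def rhe21c7e35b0bf6bf9 : CRef := CRef.mk (Pat.mk 0xa000000090000000800000008 0x140000001e0000000b0000000800000008 3 5) 0 0 (step_sound _ 98 [(rh50fbb5868c909700.shift 2 0), rhd9892b94547901dd] (by decide +kernel))
noncomputable def rh144110cd4250d264 : CRef := CRef.mk (Pat.mk 0x6000000180000000c 0x1f000000780000000c 3 7) 0 0 (step_sound _ 67 [(rhb739f4f82bb681b4.shift 0 1), (rhc628f7de140e299c.shift 1 0)] (by decide +kernel))
noncomputable def rhc7b95363f9049b11 : CRef := CRef.mk (Pat.mk 0x4000000040000000f000000000000000000000000 0x4000000040000000f0000001c0000000800000008 3 5) 0 0 (step_sound _ 67 [(rh79ad7b82ec8c35e2.shift 2 0), (rhe25b0a99195a5d59.shift 0 2)] (by decide +kernel))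
noncomputable def rhaee0ed564a16aee1 : CRef := CRef.mk (Pat.mk 0x20000003c000000000000000000000004 0x30000003e000000060000000400000004 3 6) 0 0 (step_sound _ 97 [(rh3244c3cc8379b070.shift 0 3), (rh9d612420c8b9de6e.shift 1 0)] (by decide +kernel))
noncomputable def rh2e6b473cb45f347f : CRef := CRef.mk (Pat.mk 0x2000000020000001e0000000000000000 0x2000000020000003e0000000700000004 3 6) 0 0 (step_sound _ 33 [(rh742a939d2de66caf.shift 1 0), (rheb0810cc63b001d8.shift 0 1)] (by decide +kernel))
noncomputable def rh1406cafceeeef6c2 : CRef := CRef.mk (Pat.mk 0x2000000020000000200000003000000020000000000000000 0x200000002000000030000000300000003000000020000000200000002 3 2) 0 0 (step_sound _ 128 [rh3cb04db3dd2b6a55, (rh5c5e593799055d58.shift 0 3)] (by decide +kernel))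
noncomputable def rhbe7adcf16e4dec1b : CRef := CRef.mk (Pat.mk 0x1000000060000000700000002 0x20000000300000003000000060000000700000003 3 3) 0 0 (step_sound _ 97 [rh37d9ceebb86d75d1, rh50fbb5868c909700] (by decide +kernel))
noncomputable def rh306753d06e4b3044 : CRef := CRef.mk (Pat.mk 0x2000000120000000e00000000 0x2000000020000001a0000000f00000005 3 5) 0 0 (step_sound _ 32 [(rh428265de8cd3cd2d.shift 0 1), rhde10baa3043a2b46] (by decide +kernel))
noncomputable def rh0f5f1b59b141efbf : CRef := CRef.mk (Pat.mk 0x200000002000000120000000a00000000 0x2000000020000001a0000000f00000005 3 5) 0 0 (step_sound _ 32 [rh932754581e0f4330, rhd50985e1414a9bd3] (by decide +kernel))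
noncomputable def rhe1ba4430f80ed85f : CRef := CRef.mk (Pat.mk 0x400000004000000040000001600000000 0x40000000400000004000000070000001e00000008 3 5) 0 0 (step_sound _ 35 [(rh55afc6a59410cf00.shift 2 0), (rhb4edb45e9f1718ed.shift 0 1)] (by decide +kernel))
noncomputable def rh729e664a9eeefc54 : CRef := CRef.mk (Pat.mk 0x300000008000000000000000600000004 0x30000001e000000060000000600000004 3 5) 0 0 (step_sound _ 97 [rhd8e6cb30eafd8eba, (rhff0f29cb645b05f7.shift 1 0)] (by decide +kernel))
noncomputable def rh05526a94dcfcda57 : CRef := CRef.mk (Pat.mk 0xe000000040000003000000020 0x300000003e000000170000003000000020 3 6) 0 0 (step_sound _ 100 [(rhaf9f2efc81a8312b.shift 0 2), (rhed52f035b483d922.shift 1 0)] (by decide +kernel))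
noncomputable def rhc6b792173f21927f : CRef := CRef.mk (Pat.mk 0x2000000007000000200000001800000010 0x380000001f000000380000001800000010 3 6) 0 0 (step_sound _ 99 [(rh45e9dfbd6bd5d256.shift 0 3), rh8a8da865a1d44ddd, (rheaa91b92daf0efc8.shift 0 2), rhed52f035b483d922] (by decide +kernel))
noncomputable def rhad53ad1df1f08d5d : CRef := CRef.mk (Pat.mk 0x200000000b000000020000000200000002 0x3c0000001f000000020000000200000002 3 6) 0 0 (step_sound _ 98 [(rh2f68792b6b779e96.shift 1 0), (rh45e9dfbd6bd5d256.shift 0 3)] (by decide +kernel))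
noncomputable def rhc2ef38e163bb4e4b : CRef := CRef.mk (Pat.mk 0x200000000a000000020000000200000002 0x340000001e000000030000000200000002 3 6) 0 0 (step_sound _ 98 [(rh2f68792b6b779e96.shift 1 0), (rh4a2d14650c96af18.shift 0 2)] (by decide +kernel))
noncomputable def rhaa21d06d7396f2da : CRef := CRef.mk (Pat.mk 0xf000000200000003000000010 0x380000003f000000200000003000000010 3 6) 0 0 (step_sound _ 133 [(rh45e9dfbd6bd5d256.shift 0 3), (rhee230b994cc8b773.shift 4 0)] (by decide +kernel))
noncomputable def rha822b2efc28c880a : CRef := CRef.mk (Pat.mk 0x200000002000000120000001600000000 0x2000000020000001b0000001f00000001 3 5) 0 0 (step_sound _ 32 [(rh581cb3a0e05e512b.shift 0 1), rh932754581e0f4330] (by decide +kernel))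
noncomputable def rhcc692650c4e9412d : CRef := CRef.mk (Pat.mk 0x2000000020000000200000002000000020000001200000000 0x2000000020000000200000003000000030000001e00000004 3 5) 0 0 (step_sound _ 34 [(rh0c359a6fa669d258.shift 0 1), (rh55afc6a59410cf00.shift 1 0)] (by decide +kernel))
noncomputable def rh9938ce373ed9d77d : CRef := CRef.mk (Pat.mk 0x200000002000000120000000300000000 0x2000000020000001e0000000f00000004 3 5) 0 0 (step_sound _ 67 [(rhb2a0b9ccfb5cecd5.shift 0 1), rhef77c6b312a36259] (by decide +kernel))
noncomputable def rh860fc38a6f91358e : CRef := CRef.mk (Pat.mk 0x3000000030000000600000000 0x2000000020000000200000003000000030000000700000004 3 3) 0 0 (step_sound _ 129 [(rh503dd4575245365b.shift 0 1), (rh55afc6a59410cf00.shift 1 0)] (by decide +kernel))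
noncomputable def rh2e68674d27a64404 : CRef := CRef.mk (Pat.mk 0x8000000120000000e000000040000000000000000 0x80000001a0000000f0000000c0000000400000004 3 5) 0 0 (step_sound _ 34 [(rh7b1f1fb55310c477.shift 1 0), (rhad18fc9d31657129.shift 0 1)] (by decide +kernel))
noncomputable def rhfa61abc0a8ce00f0 : CRef := CRef.mk (Pat.mk 0x4000000240000001c00000000 0x400000004000000340000001e00000003 3 6) 0 0 (step_sound _ 33 [rh1ae4704ae86cb9a8, (rh428265de8cd3cd2d.shift 1 1)] (by decide +kernel))
noncomputable def rhaa8ae7d48f3b2ec8 : CRef := CRef.mk (Pat.mk 0x2000000020000000200000002000000020000000200000000 0x200000002000000030000000300000003000000020000000200000002 3 2) 0 0 (step_sound _ 128 [(rh50fbb5868c909700.shift 0 1), rhb0491c8b198c7c3b] (by decide +kernel))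
noncomputable def rh7894e20a52c58ea5 : CRef := CRef.mk (Pat.mk 0x800000008000000120000001c00000000 0x8000000080000001b0000001f00000004 3 5) 0 0 (step_sound _ 67 [(rh5c36e97be8af272f.shift 0 1), (rh932754581e0f4330.shift 2 0)] (by decide +kernel))
noncomputable def rh00371e646a926ee5 : CRef := CRef.mk (Pat.mk 0x200000003800000002 0x300000003e00000007 3 6) 0 0 (step_sound _ 34 [(rh80fcd6d0a18cb2dd.shift 1 0), rhd6f64f2d70aac170] (by decide +kernel))
noncomputable def rhad073aa40107bf75 : CRef := CRef.mk (Pat.mk 0x100000001e0000001000000000 0x1000000010000000100000001f0000001800000008 3 5) 0 0 (step_sound _ 35 [(rh503dd4575245365b.shift 3 0), (rhb739f4f82bb681b4.shift 0 1)] (by decide +kernel))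
noncomputable def rhbf77dad9b53157cf : CRef := CRef.mk (Pat.mk 0x20000001c00000008 0x30000001f00000038 3 6) 0 0 (step_sound _ 33 [(rh3244c3cc8379b070.shift 0 1), rha03f6e28ea70fc7d] (by decide +kernel))
noncomputable def rhd1daa8edb501b3b0 : CRef := CRef.mk (Pat.mk 0x20000007c00000010 0x30000007f0000001c 3 7) 0 0 (step_sound _ 33 [(rh3244c3cc8379b070.shift 0 1), rhfbc236671041ce85] (by decide +kernel))
noncomputable def rheb138f4a460944d4 : CRef := CRef.mk (Pat.mk 0x1e00000004000000000000000400000000 0x20000001e00000007000000040000000400000004 3 5) 0 0 (step_sound _ 97 [(rhdd1b84382d19bcbb.shift 1 0), (rheb0810cc63b001d8.shift 0 3)] (by decide +kernel))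
noncomputable def rh5b528f05be78b4e1 : CRef := CRef.mk (Pat.mk 0x1c00000002000000000000001e 0x40000001e00000003000000030000001e 3 5) 0 0 (step_sound _ 33 [rh3244c3cc8379b070, rh85432018c7d7e334] (by decide +kernel))
noncomputable def rh34fe1c1902744927 : CRef := CRef.mk (Pat.mk 0x400000000000000000000000f00000008 0x40000000c0000001c0000000f00000008 3 5) 0 0 (step_sound _ 67 [(rh33e738c4ed385b9f.shift 0 1), (rhd11a856664bceb7a.shift 2 0)] (by decide +kernel))
noncomputable def rh1975b59df13fe119 : CRef := CRef.mk (Pat.mk 0x200000002000000120000000600000000 0x2000000020000001e0000000f00000001 3 5) 0 0 (step_sound _ 32 [rh932754581e0f4330, (rhfbf320ca8ea44173.shift 0 1)] (by decide +kernel))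
noncomputable def rh4054a53c669f4821 : CRef := CRef.mk (Pat.mk 0x1e00000004000000040000000000000000 0x20000001e00000007000000040000000400000004 3 5) 0 0 (step_sound _ 97 [(rh3cb04db3dd2b6a55.shift 1 0), (rheb0810cc63b001d8.shift 0 3)] (by decide +kernel))
noncomputable def rhaccbe1bc79c0a1cb : CRef := CRef.mk (Pat.mk 0x1e00000004000000040000000800000000 0x1e00000007000000040000000c0000000c 3 5) 0 0 (step_sound _ 34 [(rh55afc6a59410cf00.shift 2 0), rhd680bf2cf2441e84] (by decide +kernel))
noncomputable def rh047ef4b5f2933661 : CRef := CRef.mk (Pat.mk 0x10000000000000003000000030000000200000004 0x3000000030000000200000003000000030000000600000004 3 3) 0 0 (step_sound _ 129 [(rh16567ae718d9fd54.shift 0 2), (rhd3458b32566d63f7.shift 1 0)] (by decide +kernel))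
noncomputable def rh79e70552f96217b9 : CRef := CRef.mk (Pat.mk 0x2000000020000000300000002 0x40000000600000006000000020000000300000003 3 3) 0 0 (step_sound _ 130 [(rhbaefcd01e0a8bca3.shift 1 0), rhd6ece6133e39c38f] (by decide +kernel))
noncomputable def rh11a243992b58ed44 : CRef := CRef.mk (Pat.mk 0x8000000080000000a0000000a00000000 0x8000000080000000b0000001e00000014 3 5) 0 0 (step_sound _ 34 [rh0e9804663e9ab184, (rh932754581e0f4330.shift 2 0)] (by decide +kernel))
noncomputable def rh9d23b6cb2a64f17a : CRef := CRef.mk (Pat.mk 0x7e 0x1c000000ff 3 8) 0 0 (step_sound _ 35 [(rh3244c3cc8379b070.shift 2 0), rh8550ba1d74bb04c9] (by decide +kernel))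
noncomputable def rh9ba8c27e13f19650 : CRef := CRef.mk (Pat.mk 0x3e 0x3e0000007f 3 7) 0 0 (step_sound _ 35 [(rhe3060b190bc0bc78.shift 1 0), rhec46bd5500c722c9] (by decide +kernel))
noncomputable def rh0a774309bb5a000b : CRef := CRef.mk (Pat.mk 0x1000000010000000100000001000000010000000100000000 0x1000000030000000300000003000000030000000100000001 3 2) 0 0 (step_sound _ 129 [rh2867a7c45dfd885a, (rh2f68792b6b779e96.shift 0 1)] (by decide +kernel))
noncomputable def rh6b9b940c4dacb3ee : CRef := CRef.mk (Pat.mk 0x10000000100000000000000020000000200000000 0x1000000010000000100000003000000030000000200000002 3 2) 0 0 (step_sound _ 96 [rhae6f9a1ddf3da338, (rhbe0e43a3bc50a43f.shift 0 1)] (by decide +kernel))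
noncomputable def rhfb9953e9a73eee19 : CRef := CRef.mk (Pat.mk 0x1c000000040000000400000000 0x2000000070000003e000000040000000400000004 3 6) 0 0 (step_sound _ 129 [(rh6279f4d0e372f7fa.shift 1 1), rheeabf87925ab8a42] (by decide +kernel))
noncomputable def rhe2031cd839b38d08 : CRef := CRef.mk (Pat.mk 0x4000000060000000700000001 0x60000000600000006000000060000000700000001 3 3) 0 0 (step_sound _ 129 [(rh16567ae718d9fd54.shift 1 1), rhee230b994cc8b773] (by decide +kernel))
noncomputable def rh2ad16b16480fcf4b : CRef := CRef.mk (Pat.mk 0x1000000006000000120000000200000002 0x190000000f0000001a0000000200000002 3 5) 0 0 (step_sound _ 96 [(rh4096d66cfc0478fc.shift 0 2), rh50fbb5868c909700] (by decide +kernel))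
noncomputable def rhd6d3c448b84eb122 : CRef := CRef.mk (Pat.mk 0x1000000007000000000000000800000008 0x380000001f000000080000000800000008 3 6) 0 0 (step_sound _ 99 [(rh206c5e04f2281389.shift 1 0), (rh428265de8cd3cd2d.shift 0 3)] (by decide +kernel))
noncomputable def rh8cde4f17a4496ff2 : CRef := CRef.mk (Pat.mk 0xc00000014000000040000000400000000 0x20000000f0000001c000000040000000400000004 3 5) 0 0 (step_sound _ 129 [(rh50fbb5868c909700.shift 1 1), rhd88fe279a223a913] (by decide +kernel))
noncomputable def rhf9462d2b20259f10 : CRef := CRef.mk (Pat.mk 0xc00000014000000040000000400000000 0xf0000003c000000040000000400000004 3 6) 0 0 (step_sound _ 99 [(rh71222050f2c63a3a.shift 2 0), (rhe2b63c00a3d7bb73.shift 0 3)] (by decide +kernel))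
noncomputable def rh84e8b24e1b3c1ebb : CRef := CRef.mk (Pat.mk 0x10000000100000000000000020000000200000000 0x1000000010000000300000003000000020000000200000002 3 2) 0 0 (step_sound _ 97 [(rhcfdf45280693d3da.shift 0 1), rhe2ca67a12f9e4a24] (by decide +kernel))
noncomputable def rhe3541bb398310790 : CRef := CRef.mk (Pat.mk 0x800000008000000080000000700000000 0x800000008000000180000001f00000018 3 5) 0 0 (step_sound _ 35 [rh2aa7c1d375387a4e, (rh33e738c4ed385b9f.shift 0 1)] (by decide +kernel))
noncomputable def rh085bcc7974ddbf15 : CRef := CRef.mk (Pat.mk 0x10000000280000002c0000002000000000 0x100000003c0000002f0000002000000020 3 6) 0 0 (step_sound _ 100 [(rh1ed7a3503fa50fc8.shift 0 2), (rh7b1f1fb55310c477.shift 4 0)] (by decide +kernel))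
noncomputable def rh299a18a9bb09cab4 : CRef := CRef.mk (Pat.mk 0x80000000a0000000e00000000 0x8000000080000000b0000001e00000030 3 6) 0 0 (step_sound _ 36 [(rh3244c3cc8379b070.shift 0 1), (rhba04d77b039f69d9.shift 1 0)] (by decide +kernel))
noncomputable def rhec6ca4eaae8a1130 : CRef := CRef.mk (Pat.mk 0x380000000800000038 0x3c0000000f00000078 3 7) 0 0 (step_sound _ 34 [(rh1ed7a3503fa50fc8.shift 0 1), (rhf48373e13d2bc128.shift 2 0)] (by decide +kernel))
noncomputable def rh81f4bde944249e68 : CRef := CRef.mk (Pat.mk 0x100000001e000000140000001400000000 0x100000001e000000170000003c00000020 3 6) 0 0 (step_sound _ 65 [(rh8ffd6c73cfd2ea71.shift 1 0), (rheb0810cc63b001d8.shift 0 2)] (by decide +kernel))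
noncomputable def rh51c6e968f434a54a : CRef := CRef.mk (Pat.mk 0x2000000030000000200000002 0x60000000600000006000000030000000300000003 3 3) 0 0 (step_sound _ 129 [rh03dfdf12d5937476, (rh44f453b84f013105.shift 1 0)] (by decide +kernel))
noncomputable def rh0fd870c734e6c513 : CRef := CRef.mk (Pat.mk 0x200000002000000020000000200000000 0x1000000030000000300000002000000030000000300000001 3 2) 0 0 (step_sound _ 161 [(rh3ca48e2a6d60153d.shift 0 1), rh7928877f9bf74a91] (by decide +kernel))
noncomputable def rh4868915274d66678 : CRef := CRef.mk (Pat.mk 0x10000000200000002000000020000000200000000 0x1000000030000000200000002000000060000000600000004 3 3) 0 0 (step_sound _ 34 [(rh55afc6a59410cf00.shift 1 0), (rhc4c7faa0ddd5da42.shift 0 1)] (by decide +kernel))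
noncomputable def rh74a43b9a483760f6 : CRef := CRef.mk (Pat.mk 0x10000000100000002000000020000000000000000 0x10000000300000003000000030000000200000002 3 2) 0 0 (step_sound _ 33 [rh4b555cfb2752cddc, (rhcfdf45280693d3da.shift 0 1)] (by decide +kernel))
noncomputable def rh8ebc15871c473b31 : CRef := CRef.mk (Pat.mk 0x160000000600000006 0x3000000030000001e0000000600000006 3 5) 0 0 (step_sound _ 97 [(rh2145e1d24b96a57e.shift 1 0), rh52dc0b448901c5de] (by decide +kernel))
noncomputable def rhc2f3b1e0f0f2bbd4 : CRef := CRef.mk (Pat.mk 0x100000002000000020000001a00000000 0x100000003000000030000001e00000003 3 5) 0 0 (step_sound _ 1 [rh01e48cd9f335aa73, rhffd04209dc8ea796] (by decide +kernel))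
noncomputable def rh7226b7e12a1c05dd : CRef := CRef.mk (Pat.mk 0x400000004000000140000000600000000 0x4000000040000003c0000000f00000008 3 6) 0 0 (step_sound _ 67 [(rh18965a982d73c794.shift 1 1), rh624abbc666bdf412] (by decide +kernel))
noncomputable def rh87c9466c8591c250 : CRef := CRef.mk (Pat.mk 0x1c0000000000000002000000020000000200000002 0x1f0000000300000003000000020000000200000002 3 5) 0 0 (step_sound _ 128 [(rhe419892e5bcb493a.shift 0 1), rhffd04209dc8ea796] (by decide +kernel))
noncomputable def rh71cb10c4645d4244 : CRef := CRef.mk (Pat.mk 0x180000000800000002000000020000000200000002 0x190000000f00000003000000020000000200000002 3 5) 0 0 (step_sound _ 128 [(rh5458d362e92470dc.shift 0 1), rhffd04209dc8ea796] (by decide +kernel))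
noncomputable def rh48b17a255c93c121 : CRef := CRef.mk (Pat.mk 0xe0000000a0000000200000000 0x50000000f0000001a0000000200000002 3 5) 0 0 (step_sound _ 96 [rh261f868a429ae0e3, (rhe25b0a99195a5d59.shift 0 2)] (by decide +kernel))
noncomputable def rh28f7c203f178e979 : CRef := CRef.mk (Pat.mk 0x5000000050000000500000001 0x20000000700000007000000050000000500000001 3 3) 0 0 (step_sound _ 129 [(rh8b14df1b185c100a.shift 0 1), rhbaefcd01e0a8bca3] (by decide +kernel))
noncomputable def rh99b216bb884ddd3c : CRef := CRef.mk (Pat.mk 0x7000000050000000500000000 0x2000000020000000600000007000000050000000500000001 3 3) 0 0 (step_sound _ 129 [rh71222050f2c63a3a, (rhc89253ff58c66167.shift 1 1)] (by decide +kernel))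
noncomputable def rhdf1028bdcc8bfa19 : CRef := CRef.mk (Pat.mk 0x1c00000014 0x3e00000037 3 6) 0 0 (step_sound _ 33 [rhaf9f2efc81a8312b, (rhe25b0a99195a5d59.shift 1 0)] (by decide +kernel))
noncomputable def rh7b3460ecbfb1f98e : CRef := CRef.mk (Pat.mk 0x1e0000000200000002 0x4000000070000003e0000000200000002 3 6) 0 0 (step_sound _ 97 [(rh3244c3cc8379b070.shift 0 2), (rha1c46167a1310ec1.shift 1 0)] (by decide +kernel))
noncomputable def rh64f890f8f4d01098 : CRef := CRef.mk (Pat.mk 0x10000000a000000020000000200000002 0x1000000070000001e000000020000000200000002 3 5) 0 0 (step_sound _ 129 [rh4ab8014dbb33a2ba, (rh50fbb5868c909700.shift 0 1)] (by decide +kernel))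
noncomputable def rh95ece849048fa521 : CRef := CRef.mk (Pat.mk 0x10000000180000000a00000002000000060000000100000000 0x10000000180000000a0000000a0000001e0000000300000001 3 5) 0 0 (step_sound _ 33 [(rh0a12df4b2a8332dd.shift 0 1), rh932754581e0f4330] (by decide +kernel))
noncomputable def rh8b05b7b445fa71e8 : CRef := CRef.mk (Pat.mk 0x400000003000000120000001a00000008 0x40000001e00000013000000120000001a00000008 3 5) 0 0 (step_sound _ 129 [(rh2f68792b6b779e96.shift 1 1), rh6264ccdfbfcaa8f6] (by decide +kernel))
noncomputable def rhdb657c5fcfc6fcbb : CRef := CRef.mk (Pat.mk 0x2000000070000000400000004 0xa0000001e000000070000000400000004 3 5) 0 0 (step_sound _ 98 [(rh50fbb5868c909700.shift 1 0), rh712526e472efe489] (by decide +kernel))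
noncomputable def rhc70cc62f290bb2d0 : CRef := CRef.mk (Pat.mk 0x1a0000001c0000000400000000 0x30000001e0000003c0000000400000004 3 6) 0 0 (step_sound _ 98 [rh132883a60cd8aed8, (rhf48373e13d2bc128.shift 1 2)] (by decide +kernel))
noncomputable def rh6048c5d3c2d53249 : CRef := CRef.mk (Pat.mk 0x20000001e0000000400000000 0x200000002000000020000001e0000000700000004 3 5) 0 0 (step_sound _ 129 [(rh2145e1d24b96a57e.shift 1 1), rh76ccb1298853f5c9] (by decide +kernel))
noncomputable def rh1fe7bd026babc309 : CRef := CRef.mk (Pat.mk 0x2000000020000000200000002000000020000000200000000 0x2000000030000000300000003000000030000000200000002 3 2) 0 0 (step_sound _ 96 [(rh932754581e0f4330.shift 0 2), rhe286c75f2739cce2] (by decide +kernel))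
noncomputable def rhee09af17e8a02ac2 : CRef := CRef.mk (Pat.mk 0x1800000002000000020000000200000002 0x1d0000000f000000020000000200000002 3 5) 0 0 (step_sound _ 98 [(rh2f68792b6b779e96.shift 1 0), rha0016cf40d77686d] (by decide +kernel))
noncomputable def rh286a4225f59173b7 : CRef := CRef.mk (Pat.mk 0x1800000002000000020000000200000002 0x40000001e00000007000000020000000200000002 3 5) 0 0 (step_sound _ 130 [(rh85432018c7d7e334.shift 0 1), (rhbaefcd01e0a8bca3.shift 1 0)] (by decide +kernel))
noncomputable def rh36d8e80ff909db74 : CRef := CRef.mk (Pat.mk 0x2000000020000000a00000006 0x200000002000000030000001e00000007 3 5) 0 0 (step_sound _ 34 [(rh2145e1d24b96a57e.shift 1 0), rhd9106766b9ff53c0] (by decide +kernel))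
noncomputable def rhbce148b940337ede : CRef := CRef.mk (Pat.mk 0x10000000000000002000000020000000200000000 0x1000000010000000300000003000000020000000200000002 3 2) 0 0 (step_sound _ 128 [(rhcfdf45280693d3da.shift 0 1), rhe2ca67a12f9e4a24] (by decide +kernel))
noncomputable def rh915b7a04d91a9389 : CRef := CRef.mk (Pat.mk 0x20000001e000000000000000000000002 0x60000003e000000030000000200000002 3 6) 0 0 (step_sound _ 130 [rh79326e87f4f613a5, (rhf48373e13d2bc128.shift 1 3)] (by decide +kernel))
noncomputable def rh0d4762219e385970 : CRef := CRef.mk (Pat.mk 0x60000000200000000000000020000000200000000 0x4000000060000000200000002000000030000000300000001 3 3) 0 0 (step_sound _ 97 [(rh2f68792b6b779e96.shift 1 2), rh7928877f9bf74a91] (by decide +kernel))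
noncomputable def rh3a73674d7a676c64 : CRef := CRef.mk (Pat.mk 0xa0000000a0000000800000008 0x140000001e0000000b0000000800000008 3 5) 0 0 (step_sound _ 100 [rh2c5916844c8cac62, (rh2f68792b6b779e96.shift 3 0)] (by decide +kernel))
noncomputable def rh1ae8cb0b33fd1844 : CRef := CRef.mk (Pat.mk 0x2000000020000000200000003 0x40000000600000006000000020000000300000003 3 3) 0 0 (step_sound _ 130 [rhb6385c749d93cf64, (rhbaefcd01e0a8bca3.shift 1 0)] (by decide +kernel))
noncomputable def rhcfae3e00d2022b76 : CRef := CRef.mk (Pat.mk 0x80000000a000000080000000800000008 0x100000001c0000000f000000080000000800000008 3 5) 0 0 (step_sound _ 98 [(rh50fbb5868c909700.shift 2 0), (rhdab32775f5c78fcf.shift 0 1)] (by decide +kernel))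
noncomputable def rh157798f00ed3479b : CRef := CRef.mk (Pat.mk 0x100000000a000000080000000800000008 0x100000001c0000000f000000080000000800000008 3 5) 0 0 (step_sound _ 131 [(rh2f68792b6b779e96.shift 3 1), rh6de9ce2ae68b2d85] (by decide +kernel))
noncomputable def rhe8ba5e25e7c74702 : CRef := CRef.mk (Pat.mk 0x40000001e000000040000000000000000 0x2000000070000001e000000040000000400000004 3 5) 0 0 (step_sound _ 129 [(rh3244c3cc8379b070.shift 0 3), (rh3cb04db3dd2b6a55.shift 1 0)] (by decide +kernel))
noncomputable def rh5bc090164f229948 : CRef := CRef.mk (Pat.mk 0xe0000000a0000000800000000 0x300000001e0000000b0000000800000008 3 6) 0 0 (step_sound _ 100 [(rhd4d36b4007f546b1.shift 1 0), (rheb0810cc63b001d8.shift 0 2)] (by decide +kernel))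
noncomputable def rh2f7ef8ef5c94975a : CRef := CRef.mk (Pat.mk 0x10000000100000001000000020000000000000000 0x1000000010000000100000003000000030000000200000002 3 2) 0 0 (step_sound _ 33 [rhae6f9a1ddf3da338, (rhbe0e43a3bc50a43f.shift 0 1)] (by decide +kernel))
noncomputable def rh7b93e260e30176fc : CRef := CRef.mk (Pat.mk 0xe00000010 0x1f00000078 3 7) 0 0 (step_sound _ 5 [rh339d1a009c309691, (rhd6e447e81774439e.shift 1 0)] (by decide +kernel))
noncomputable def rhd53312dad770d5e8 : CRef := CRef.mk (Pat.mk 0x80000000e00000010000000100000000000000000 0x80000000f00000018000000180000001000000010 3 5) 0 0 (step_sound _ 99 [(rh79ad7b82ec8c35e2.shift 3 0), (rhb739f4f82bb681b4.shift 0 3)] (by decide +kernel))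
noncomputable def rha52af548f468201f : CRef := CRef.mk (Pat.mk 0x60000001e000000100000001000000000 0x3e0000001f000000100000001000000010 3 6) 0 0 (step_sound _ 132 [(rh33e738c4ed385b9f.shift 1 3), rh4a53affd2dd8000f] (by decide +kernel))
noncomputable def rh9578ed719a62d507 : CRef := CRef.mk (Pat.mk 0x8000000080000001e0000000400000000 0x8000000080000007f0000001e00000010 3 7) 0 0 (step_sound _ 35 [(rh2612b4f73ba7c3b3.shift 1 1), rhbdde238153e38af9] (by decide +kernel))
noncomputable def rh31a21fb82c3d380d : CRef := CRef.mk (Pat.mk 0xc0000000a000000020000000200000002 0x10000000f0000001b000000020000000200000002 3 5) 0 0 (step_sound _ 128 [(rh711d27cf90b04029.shift 0 1), rhffd04209dc8ea796] (by decide +kernel))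
noncomputable def rhd8fc2fe14131b89c : CRef := CRef.mk (Pat.mk 0x800000008000000080000000b0000000000000000 0x800000008000000080000001f0000001800000010 3 5) 0 0 (step_sound _ 36 [rh0b53f85fa0591956, (rhd3458b32566d63f7.shift 3 1)] (by decide +kernel))
noncomputable def rhf86ac93687bef43a : CRef := CRef.mk (Pat.mk 0x20000000a000000080000000800000008 0x170000001e000000080000000800000008 3 5) 0 0 (step_sound _ 98 [rh4f7106e6f46c2542, (rh50fbb5868c909700.shift 2 0)] (by decide +kernel))
noncomputable def rh8c3b7126860224f2 : CRef := CRef.mk (Pat.mk 0x1000000000000000000000000a0000000b0000000800000000 0x1000000010000000100000001e0000000b0000000800000008 3 5) 0 0 (step_sound _ 100 [(rh8f744a41dd073ab9.shift 3 0), (rhb2a0b9ccfb5cecd5.shift 0 2)] (by decide +kernel))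
noncomputable def rh3288a4cd6c29f6f5 : CRef := CRef.mk (Pat.mk 0x30000000200000008000000080000001800000000 0x130000001e00000008000000080000001800000010 3 5) 0 0 (step_sound _ 131 [(rh55afc6a59410cf00.shift 3 0), (rh92849c133feb679d.shift 0 1)] (by decide +kernel))
noncomputable def rh6e8a826a5508ce46 : CRef := CRef.mk (Pat.mk 0x1e0000000c 0x70000007e0000000c 3 7) 0 0 (step_sound _ 65 [(rh3244c3cc8379b070.shift 0 1), (rh8abea2a7b1fd427a.shift 1 0)] (by decide +kernel))
noncomputable def rhc1978c5ca7ecb4b1 : CRef := CRef.mk (Pat.mk 0xc000000180000001e00000004 0x20000000f0000001b0000001e00000004 3 5) 0 0 (step_sound _ 65 [rh07ab335000a65efb, (rh3244c3cc8379b070.shift 0 1)] (by decide +kernel))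
noncomputable def rh9723ec244ab284e0 : CRef := CRef.mk (Pat.mk 0x4000000040000000400000016 0x40000000400000004000000070000003e 3 6) 0 0 (step_sound _ 33 [(rh5c5e593799055d58.shift 1 0), rhfd0f316c42bbba52] (by decide +kernel))
noncomputable def rh8aeae207ef4e32d0 : CRef := CRef.mk (Pat.mk 0x40000001600000002 0x70000003e00000003 3 6) 0 0 (step_sound _ 35 [(rhe3060b190bc0bc78.shift 0 1), rheb0810cc63b001d8] (by decide +kernel))
noncomputable def rh544d3caba1e1e2bb : CRef := CRef.mk (Pat.mk 0x20000000200000002000000010000000000000000 0x2000000020000000300000003000000010000000100000001 3 2) 0 0 (step_sound _ 96 [(rh5c5e593799055d58.shift 0 2), rhf9af042da61fc652] (by decide +kernel))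
noncomputable def rhf7ede8521b5e3068 : CRef := CRef.mk (Pat.mk 0x2000000060000001a0000000000000000 0x400000006000000060000001e0000000300000003 3 5) 0 0 (step_sound _ 33 [rh5710f30ba40ee3ec, (rha707fb719e87fe6e.shift 1 0)] (by decide +kernel))
noncomputable def rh9f15a3a342ec426e : CRef := CRef.mk (Pat.mk 0x3c0000002c 0x70000003e0000003c 3 6) 0 0 (step_sound _ 33 [(rh2fe78cc5ca4405d8.shift 1 0), (rhd5eb272e07a4e288.shift 0 1)] (by decide +kernel))
noncomputable def rh4dafd3c56d61b277 : CRef := CRef.mk (Pat.mk 0x200000002000000020000000e 0x20000000200000002000000070000003e 3 6) 0 0 (step_sound _ 4 [rh3244c3cc8379b070, (rhc9ca25976740a074.shift 1 0)] (by decide +kernel))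
noncomputable def rhdba1ec57949f823b : CRef := CRef.mk (Pat.mk 0xe0000000a0000000a0000000a 0x130000001f0000000a0000000a0000000a 3 5) 0 0 (step_sound _ 128 [rh3ff7a36e4acb88f5, rhffd04209dc8ea796] (by decide +kernel))
noncomputable def rh18d8302ef044281c : CRef := CRef.mk (Pat.mk 0x2e00000020 0x3e00000067 3 7) 0 0 (step_sound _ 36 [(rhe25b0a99195a5d59.shift 2 0), rheae1728ff4a56756] (by decide +kernel))
noncomputable def rh9021aafc213c840e : CRef := CRef.mk (Pat.mk 0x120000000a0000000800000008 0x100000001e0000000f0000000800000008 3 5) 0 0 (step_sound _ 99 [(rh2f68792b6b779e96.shift 3 0), (rhda02c4ce0b224328.shift 0 2)] (by decide +kernel))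
noncomputable def rh86bf295edf98b8a4 : CRef := CRef.mk (Pat.mk 0x100000000a0000000a0000000800000000 0x300000001e0000000b0000000800000008 3 6) 0 0 (step_sound _ 100 [(rh71222050f2c63a3a.shift 3 0), (rh760717e835f8c2f3.shift 0 2)] (by decide +kernel))
noncomputable def rh8d35ee02bbc003d6 : CRef := CRef.mk (Pat.mk 0x400000004000000140000001c 0x40000000400000004000000370000001e 3 6) 0 0 (step_sound _ 1 [(rh33e738c4ed385b9f.shift 1 0), rhb4edb45e9f1718ed] (by decide +kernel))
noncomputable def rhbb8c89c07b39c85e : CRef := CRef.mk (Pat.mk 0x800000008000000080000001200000006 0x800000008000000080000003b0000001e 3 6) 0 0 (step_sound _ 4 [rh12d50e65fdd458b1, (rhbe0e43a3bc50a43f.shift 3 0)] (by decide +kernel))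
noncomputable def rh0f69178ab836bfd4 : CRef := CRef.mk (Pat.mk 0x80000000800000008000000080000000200000003 0x80000000800000008000000180000001e00000013 3 5) 0 0 (step_sound _ 36 [rhc3bc6e0c4990e8f6, (rhd3458b32566d63f7.shift 3 1)] (by decide +kernel))
noncomputable def rh96542b57e9ab27d3 : CRef := CRef.mk (Pat.mk 0x10000000500000005000000050000000000000000 0x10000000500000005000000070000000700000002 3 3) 0 0 (step_sound _ 33 [(rhd3458b32566d63f7.shift 0 1), rhe38ad39d05c44887] (by decide +kernel))
noncomputable def rhfe7c844806756e31 : CRef := CRef.mk (Pat.mk 0x1800000006 0x780000001f 3 7) 0 0 (step_sound _ 3 [rh53b3c253cb0c65f4, (rh572132728df34c43.shift 1 0)] (by decide +kernel))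
noncomputable def rh74ffba89182bafb4 : CRef := CRef.mk (Pat.mk 0x80000001a000000160000000000000000 0x80000001b0000001e0000003000000010 3 6) 0 0 (step_sound _ 67 [(rh3244c3cc8379b070.shift 0 2), (rh78974448101547fe.shift 1 0)] (by decide +kernel))
noncomputable def rh2b0ca75d642a5639 : CRef := CRef.mk (Pat.mk 0x4000000040000001c0000000000000000 0x400000004000000040000003e0000000700000002 3 6) 0 0 (step_sound _ 33 [(rh0c1db84848fdfb70.shift 0 1), (rh54d1d3f05f0ed5a2.shift 1 0)] (by decide +kernel))
noncomputable def rh4657d6bf491c09a2 : CRef := CRef.mk (Pat.mk 0x400000004000000100000001a00000000 0x400000004000000340000001e00000003 3 6) 0 0 (step_sound _ 34 [rh316d0c7c5292e4bb, (rh33e738c4ed385b9f.shift 1 1)] (by decide +kernel))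
noncomputable def rh2a3f83f36967c785 : CRef := CRef.mk (Pat.mk 0x20000000200000002000000000000000100000000 0x20000000300000003000000030000000100000001 3 2) 0 0 (step_sound _ 64 [rha47ad4ccca5a74e7, (rheea67dfebd0f8008.shift 0 1)] (by decide +kernel))
noncomputable def rh3998ad7415607566 : CRef := CRef.mk (Pat.mk 0x3c000000040000000400000000 0x70000003e000000040000000400000004 3 6) 0 0 (step_sound _ 129 [(rh3f8766e6ecb455ce.shift 1 3), rheeabf87925ab8a42] (by decide +kernel))
noncomputable def rh07bd108289b75581 : CRef := CRef.mk (Pat.mk 0x1a000000020000000200000001 0x1000000030000001e000000020000000300000001 3 5) 0 0 (step_sound _ 129 [(rh5e05da03898e7023.shift 0 1), rh79877ebd3ef475dd] (by decide +kernel))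
noncomputable def rhb553e5cb94120f6a : CRef := CRef.mk (Pat.mk 0x200000002000000020000000000000001 0x20000000200000003000000030000000300000001 3 2) 0 0 (step_sound _ 32 [rh88f1a525075bdbb4, rheea67dfebd0f8008] (by decide +kernel))
noncomputable def rh53c798c09177b7db : CRef := CRef.mk (Pat.mk 0x20000000200000001000000010000000000000000 0x20000000300000003000000030000000100000001 3 2) 0 0 (step_sound _ 32 [(rh1006c02ae4212ff0.shift 0 1), rh488955a31400a0ac] (by decide +kernel))
noncomputable def rhe705e906aa13b22a : CRef := CRef.mk (Pat.mk 0x300000003000000000000000a00000018 0x300000003000000010000000f0000001b 3 5) 0 0 (step_sound _ 32 [rh8556ce617a451e36, rhc10214bf3fe8094a] (by decide +kernel))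
noncomputable def rh2d2d58f02b6beeef : CRef := CRef.mk (Pat.mk 0x300000003000000180000000a00000000 0x300000003000000190000000f00000003 3 5) 0 0 (step_sound _ 32 [(rh1c62b6193297d9e3.shift 0 1), rh8556ce617a451e36] (by decide +kernel))
noncomputable def rh3cf05ff9478ad15b : CRef := CRef.mk (Pat.mk 0x1600000014000000040000000400000000 0x1e00000037000000040000000400000004 3 6) 0 0 (step_sound _ 97 [(rh7b1f1fb55310c477.shift 1 0), (rhcaa7ba44a31c4370.shift 0 3)] (by decide +kernel))
noncomputable def rh84e31abbeda0403b : CRef := CRef.mk (Pat.mk 0x180000000c00000028 0x180000000f0000007c 3 7) 0 0 (step_sound _ 33 [(rh53b3c253cb0c65f4.shift 0 1), (rh68691964b29f233d.shift 1 0)] (by decide +kernel))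
noncomputable def rh41fb73ed4f2e2426 : CRef := CRef.mk (Pat.mk 0x600000006000000080000000800000000 0x70000003e000000080000000800000008 3 6) 0 0 (step_sound _ 99 [(rh79b3c29022acbdf3.shift 0 3), (rh7b1f1fb55310c477.shift 2 0)] (by decide +kernel))
noncomputable def rha943fd546ce7caf3 : CRef := CRef.mk (Pat.mk 0x200000002000000320000001100000000 0x200000002000000320000001f00000005 3 6) 0 0 (step_sound _ 33 [rh932754581e0f4330, (rhe82112c8440f1b7b.shift 1 0)] (by decide +kernel))
noncomputable def rh27cad920bb8ece82 : CRef := CRef.mk (Pat.mk 0x18000000100000000f00000000 0x800000018000000100000001f00000038 3 6) 0 0 (step_sound _ 4 [(rh7cc2f688e2a8f8fc.shift 1 0), rh96851dee118c1ba3] (by decide +kernel))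
noncomputable def rhef13ff948dc32adf : CRef := CRef.mk (Pat.mk 0x60000000c000000040000000400000000 0x70000003e000000040000000400000004 3 6) 0 0 (step_sound _ 100 [rheeabf87925ab8a42, (rhf48373e13d2bc128.shift 1 3)] (by decide +kernel))
noncomputable def rh73f90196e9cc56f0 : CRef := CRef.mk (Pat.mk 0xa0000000b0000000a00000000 0x40000001e0000000b0000000a0000000a 3 5) 0 0 (step_sound _ 98 [(rh18965a982d73c794.shift 0 2), (rhd8a13c7f042cc6ea.shift 1 0)] (by decide +kernel))
noncomputable def rhcdaff4a5bb03fe5f : CRef := CRef.mk (Pat.mk 0x60000000b0000000a00000000 0x40000001e0000000b0000000a0000000a 3 5) 0 0 (step_sound _ 99 [(rh18965a982d73c794.shift 0 2), (rhd8a13c7f042cc6ea.shift 1 0)] (by decide +kernel))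
noncomputable def rh0c3873a75f5344d2 : CRef := CRef.mk (Pat.mk 0x8000000080000000b0000000800000000 0x8000000080000000b0000001e00000014 3 5) 0 0 (step_sound _ 34 [rh108c38f0bb06ddca, (rh932754581e0f4330.shift 2 0)] (by decide +kernel))
noncomputable def rh00d9b181c423bdea : CRef := CRef.mk (Pat.mk 0x400000006000000180000001c00000000 0x4000000060000001b0000001f00000002 3 5) 0 0 (step_sound _ 33 [(rh53b3c253cb0c65f4.shift 0 1), rh70e209139a9acc4a] (by decide +kernel))
noncomputable def rh5192e84255fe3228 : CRef := CRef.mk (Pat.mk 0x20000000300000002000000020000000000000000 0x30000000300000002000000030000000300000001 3 2) 0 0 (step_sound _ 33 [(rh50fbb5868c909700.shift 0 1), rh7928877f9bf74a91] (by decide +kernel))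
noncomputable def rha8adab4bc30e0ea1 : CRef := CRef.mk (Pat.mk 0x20000000300000002000000020000000000000000 0x30000000300000002000000060000000600000004 3 3) 0 0 (step_sound _ 34 [rh4cdb379841a0f429, (rhd3458b32566d63f7.shift 1 1)] (by decide +kernel))
noncomputable def rh2bdeb5670886328e : CRef := CRef.mk (Pat.mk 0xc00000018000000080000000800000000 0xf0000003c000000080000000800000008 3 6) 0 0 (step_sound _ 129 [(rhb739f4f82bb681b4.shift 0 3), (rhf8e53799103d177f.shift 1 0)] (by decide +kernel))
noncomputable def rh10ff9d67cbd42e76 : CRef := CRef.mk (Pat.mk 0x4000000040000001400000006 0x400000004000000040000003c0000000f 3 6) 0 0 (step_sound _ 35 [(rh18965a982d73c794.shift 1 0), rh7433fdfa04207f2e] (by decide +kernel))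
noncomputable def rhccf8b66635a266db : CRef := CRef.mk (Pat.mk 0x4000000170000001800000008 0x100000003e000000170000001800000008 3 6) 0 0 (step_sound _ 100 [(rh4fd54f6717f3e7ac.shift 0 2), (rh5c5e593799055d58.shift 3 0)] (by decide +kernel))
noncomputable def rh6ada8e261119cf37 : CRef := CRef.mk (Pat.mk 0x6000000180000000c00000004 0x2000000060000001e0000000f00000004 3 5) 0 0 (step_sound _ 33 [(rh53b3c253cb0c65f4.shift 0 1), (rhdb2909ac5c854515.shift 1 0)] (by decide +kernel))
noncomputable def rh925a1628dd8a50da : CRef := CRef.mk (Pat.mk 0x200000006000000060000000200000000 0x2000000020000000200000006000000070000000300000001 3 3) 0 0 (step_sound _ 161 [(rh2145e1d24b96a57e.shift 1 2), rh7928877f9bf74a91] (by decide +kernel))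
noncomputable def rh872d4931201b889e : CRef := CRef.mk (Pat.mk 0x400000004000000100000001c00000000 0x400000004000000340000001e00000003 3 6) 0 0 (step_sound _ 33 [rh316d0c7c5292e4bb, (rh33e738c4ed385b9f.shift 1 1)] (by decide +kernel))
noncomputable def rhf48e3b1c16a6ad0f : CRef := CRef.mk (Pat.mk 0x4000000040000001e0000000000000000 0x4000000040000003e0000000700000002 3 6) 0 0 (step_sound _ 33 [(rh54d1d3f05f0ed5a2.shift 1 0), (rheb0810cc63b001d8.shift 0 1)] (by decide +kernel))
noncomputable def rhdb11e2ee87c104a9 : CRef := CRef.mk (Pat.mk 0x180000000a00000002 0x380000001f00000003 3 6) 0 0 (step_sound _ 34 [(rh53b3c253cb0c65f4.shift 0 1), rhee0891bc88ee3f94] (by decide +kernel))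
noncomputable def rhb64f3cd5e262d11d : CRef := CRef.mk (Pat.mk 0x200000002000000120000000600000000 0x200000002000000020000001e0000000700000001 3 5) 0 0 (step_sound _ 66 [(rh2145e1d24b96a57e.shift 1 1), rh84f01cf2134210c0] (by decide +kernel))
noncomputable def rh9ba4ddb3bd4a337d : CRef := CRef.mk (Pat.mk 0x10000000f000000010000000000000000 0x1000000010000001f000000030000000200000002 3 5) 0 0 (step_sound _ 65 [(rh18965a982d73c794.shift 0 2), rh55a1f6c57a317ce6] (by decide +kernel))
noncomputable def rhe471e22e8815e2ce : CRef := CRef.mk (Pat.mk 0x80000001c0000000c0000000400000000 0x60000000f0000001c0000000c0000000c00000008 3 5) 0 0 (step_sound _ 130 [(rh277b01412deaec89.shift 0 1), (rhd4b4beefcd67f51e.shift 2 0)] (by decide +kernel))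
noncomputable def rhc6bd36cea86c6c63 : CRef := CRef.mk (Pat.mk 0x1e000000080000000800000000 0x70000003e000000080000000800000008 3 6) 0 0 (step_sound _ 130 [(rh7b1f1fb55310c477.shift 2 0), (rhe3060b190bc0bc78.shift 0 3)] (by decide +kernel))
noncomputable def rh5cf9fa574fd2f332 : CRef := CRef.mk (Pat.mk 0x100000018000000080000000800000008 0x40000000f0000001c000000080000000800000008 3 5) 0 0 (step_sound _ 130 [(rha0038b646a484065.shift 0 1), (rhffd04209dc8ea796.shift 2 0)] (by decide +kernel))
noncomputable def rh86bdd6388b8581ae : CRef := CRef.mk (Pat.mk 0x40000000500000007000000000000000000000000 0x4000000040000000500000007000000060000000200000002 3 3) 0 0 (step_sound _ 65 [rh27f593b3ddfbb7cd, (rh5c5e593799055d58.shift 1 2)] (by decide +kernel))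
noncomputable def rh3b6e746ad960f3b8 : CRef := CRef.mk (Pat.mk 0x800000008000000080000000a0000001000000000 0x800000008000000080000000f0000001c00000010 3 5) 0 0 (step_sound _ 35 [(rh55afc6a59410cf00.shift 3 0), (rhec5e322be6f323d4.shift 0 1)] (by decide +kernel))
noncomputable def rhe42f2966bf381171 : CRef := CRef.mk (Pat.mk 0x7e 0x38000000ff 3 8) 0 0 (step_sound _ 36 [(rh33e738c4ed385b9f.shift 1 0), rha54708dc267312a1] (by decide +kernel))
noncomputable def rhd01ed0cc6ce530d4 : CRef := CRef.mk (Pat.mk 0x7000000050000000400000000 0x2000000020000000600000007000000050000000400000004 3 3) 0 0 (step_sound _ 129 [(rh7b1f1fb55310c477.shift 1 0), (rh8045a4749be85c44.shift 0 1)] (by decide +kernel))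
noncomputable def rhd87ffc78421e37d0 : CRef := CRef.mk (Pat.mk 0x16000000020000000200000002 0x1000000030000001f000000020000000200000002 3 5) 0 0 (step_sound _ 128 [(rh3cffad1d01f3c270.shift 0 1), rhffd04209dc8ea796] (by decide +kernel))
noncomputable def rh169294d496e5a0bf : CRef := CRef.mk (Pat.mk 0x10000000e0000000400000004 0x200000002000000030000001e0000000600000004 3 5) 0 0 (step_sound _ 97 [(rhe072fffdd2fccf38.shift 1 0), (rhf48373e13d2bc128.shift 0 2)] (by decide +kernel))
noncomputable def rh4b073bc3c61505d9 : CRef := CRef.mk (Pat.mk 0xe00000005000000040000000000000000 0x80000001e00000007000000040000000400000004 3 5) 0 0 (step_sound _ 97 [(rh18965a982d73c794.shift 0 3), (rhb0c1e7919d9be92d.shift 1 0)] (by decide +kernel))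
noncomputable def rh740a139e95ff9def : CRef := CRef.mk (Pat.mk 0x800000008000000080000000a0000000600000000 0x800000008000000080000001b0000001e00000010 3 5) 0 0 (step_sound _ 36 [rhc3a59a83e7b52d33, (rhd3458b32566d63f7.shift 3 1)] (by decide +kernel))
noncomputable def rhf94411b389c3e54c : CRef := CRef.mk (Pat.mk 0x1e 0x770000003e 3 7) 0 0 (step_sound _ 5 [(rh9890f9d77740bbed.shift 1 0), rhd5eb272e07a4e288] (by decide +kernel))
noncomputable def rh6905164d7801518f : CRef := CRef.mk (Pat.mk 0x10000000900000009000000090000000800000000 0x100000009000000090000000f0000001a00000010 3 5) 0 0 (step_sound _ 36 [(rh55afc6a59410cf00.shift 3 0), (rhf11a656c4019127b.shift 0 1)] (by decide +kernel))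
noncomputable def rh5a65e77046088e90 : CRef := CRef.mk (Pat.mk 0x10000000100000003000000180000000000000000 0x100000001000000030000001f0000000200000002 3 5) 0 0 (step_sound _ 65 [(rh5419adcd928dba20.shift 0 2), rh79ad7b82ec8c35e2] (by decide +kernel))
noncomputable def rh5543c6cc51357226 : CRef := CRef.mk (Pat.mk 0xe000000090000000800000000 0x300000001e0000000b0000000800000008 3 6) 0 0 (step_sound _ 100 [(rh80fcd6d0a18cb2dd.shift 0 2), (rhd4d36b4007f546b1.shift 1 0)] (by decide +kernel))
noncomputable def rh22e203964f906d4b : CRef := CRef.mk (Pat.mk 0x100000001600000010 0x380000001f00000018 3 6) 0 0 (step_sound _ 35 [(rh33e738c4ed385b9f.shift 1 1), rhef7515d0e7cb1d2b] (by decide +kernel))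
noncomputable def rh2e8efbc4684aef7b : CRef := CRef.mk (Pat.mk 0x100000001600000010 0x180000001f00000038 3 6) 0 0 (step_sound _ 35 [(rhe25b0a99195a5d59.shift 1 0), rhef7515d0e7cb1d2b] (by decide +kernel))
noncomputable def rh000637b5a81e86aa : CRef := CRef.mk (Pat.mk 0x600000003000000020000000000000000 0x50000000700000003000000020000000200000002 3 3) 0 0 (step_sound _ 33 [(rh2f68792b6b779e96.shift 1 1), rhe286c75f2739cce2] (by decide +kernel))
noncomputable def rha1c2d3324fed5736 : CRef := CRef.mk (Pat.mk 0x1800000012000000120000001000000000 0x380000001e000000130000001000000010 3 6) 0 0 (step_sound _ 99 [(rh760717e835f8c2f3.shift 0 2), (rh7b1f1fb55310c477.shift 3 0)] (by decide +kernel))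
noncomputable def rh89ea35812f5b8c7e : CRef := CRef.mk (Pat.mk 0xe000000120000000200000000 0x50000000f0000001a0000000200000002 3 5) 0 0 (step_sound _ 1 [(rh2f68792b6b779e96.shift 1 0), rh5bec6b7f9ab41c51] (by decide +kernel))
noncomputable def rh55ab471746fb11ce : CRef := CRef.mk (Pat.mk 0x1800000012000000120000001000000000 0x180000001f000000130000001000000010 3 5) 0 0 (step_sound _ 99 [(rh7b1f1fb55310c477.shift 3 0), (rhb3425fba9db279e9.shift 0 2)] (by decide +kernel))
noncomputable def rh61bb3e87044802ff : CRef := CRef.mk (Pat.mk 0x1800000012000000100000001000000000 0x380000001f000000100000001000000010 3 6) 0 0 (step_sound _ 99 [(rh6d571b54e8dd9e33.shift 0 3), (rh7b1f1fb55310c477.shift 3 0)] (by decide +kernel))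
noncomputable def rh3bb9a3c01f594cd8 : CRef := CRef.mk (Pat.mk 0x10000000120000001200000018 0x1000000010000000130000001e00000038 3 6) 0 0 (step_sound _ 35 [(rh5c5e593799055d58.shift 3 0), rh7174a5174d2fbf5b] (by decide +kernel))
noncomputable def rh5bfc346e721f693b : CRef := CRef.mk (Pat.mk 0x2000000120000000e00000000 0x2000000020000001a0000000f00000005 3 5) 0 0 (step_sound _ 129 [(rh55afc6a59410cf00.shift 1 0), rhd05b50139866a421] (by decide +kernel))
noncomputable def rhbeeaa3c318ac1705 : CRef := CRef.mk (Pat.mk 0x10000000120000001200000018 0x1000000010000000130000001f00000018 3 5) 0 0 (step_sound _ 35 [(rh5c5e593799055d58.shift 3 0), rhb7674d85f64945d6] (by decide +kernel))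
noncomputable def rh9f4cbde3360fd981 : CRef := CRef.mk (Pat.mk 0x10000000100000001200000018 0x1000000010000000100000001f00000038 3 6) 0 0 (step_sound _ 35 [(rh5c5e593799055d58.shift 3 0), rhcd6baf37b3e5de21] (by decide +kernel))
noncomputable def rh1e68a8f8d4e6068c : CRef := CRef.mk (Pat.mk 0x1e00000010000000080000000000000000 0x40000001f00000018000000080000000800000008 3 5) 0 0 (step_sound _ 99 [(rh40241bd608e5be1a.shift 2 0), (rhb739f4f82bb681b4.shift 0 3)] (by decide +kernel))
noncomputable def rhd81dc717682956d1 : CRef := CRef.mk (Pat.mk 0x100000003000000040000000600000000 0x30000000300000003000000060000000600000002 3 3) 0 0 (step_sound _ 65 [rh7b1f1fb55310c477, (rhf627eb01e9e8db9a.shift 0 1)] (by decide +kernel))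
noncomputable def rh23625f181fa295a9 : CRef := CRef.mk (Pat.mk 0x3000000180000001000000010 0x8000000080000000f000000180000001800000010 3 5) 0 0 (step_sound _ 99 [(rhc10214bf3fe8094a.shift 0 2), (rhe072fffdd2fccf38.shift 3 0)] (by decide +kernel))
noncomputable def rhfa48dcf86c5928b9 : CRef := CRef.mk (Pat.mk 0x20000001e000000000000000000000004 0x20000001e000000070000000600000004 3 5) 0 0 (step_sound _ 34 [rh065df6eed977da83, (rh2613c889e411427e.shift 1 0)] (by decide +kernel))
noncomputable def rhb97653b3e9aa2271 : CRef := CRef.mk (Pat.mk 0x1e000000020000000000000005 0x30000001e000000020000000700000005 3 5) 0 0 (step_sound _ 129 [rh1978fdf87ac449a5, (rh3244c3cc8379b070.shift 0 3)] (by decide +kernel))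
noncomputable def rh57128f9752fd2baa : CRef := CRef.mk (Pat.mk 0x600000002000000180000000a00000000 0x400000006000000020000001a0000000f00000001 3 5) 0 0 (step_sound _ 65 [(rh2f68792b6b779e96.shift 1 1), rhabf42db7287f8a50] (by decide +kernel))
noncomputable def rh6de56787cc1605b6 : CRef := CRef.mk (Pat.mk 0x10000000100000001e0000000000000000 0x10000000100000001f0000003800000008 3 6) 0 0 (step_sound _ 36 [rh4c026d300a3e8a86, (rhe25b0a99195a5d59.shift 1 1)] (by decide +kernel))
noncomputable def rhfb5a21d5a7d4a677 : CRef := CRef.mk (Pat.mk 0x80000000c0000000b0000000200000000 0x40000000c0000000c0000000b0000001e0000000c 3 5) 0 0 (step_sound _ 35 [rh33b92f427999e8d7, (rhe286c75f2739cce2.shift 2 0)] (by decide +kernel))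
noncomputable def rheef7c93d6194f833 : CRef := CRef.mk (Pat.mk 0x80000001b0000001800000000 0x800000008000000080000001b0000001e00000004 3 5) 0 0 (step_sound _ 34 [(rh09d4dfe75d4407d6.shift 0 1), (rh37d9ceebb86d75d1.shift 2 0)] (by decide +kernel))
noncomputable def rhc9e04fae2bb2ac37 : CRef := CRef.mk (Pat.mk 0xc00000018000000030000000200000002 0x10000000f00000019000000030000000300000002 3 5) 0 0 (step_sound _ 128 [(rhab22b5b56e7b3243.shift 0 3), rhdf6eda84f2eabc48] (by decide +kernel))
noncomputable def rhaf5a997e5b9481b4 : CRef := CRef.mk (Pat.mk 0x180000000c00000000000000030000000200000002 0x190000000f00000001000000030000000300000002 3 5) 0 0 (step_sound _ 128 [(rh24ae073cf30720c4.shift 0 4), rhdf6eda84f2eabc48] (by decide +kernel))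
noncomputable def rhc28dd09875fb2825 : CRef := CRef.mk (Pat.mk 0x400000006000000160000000000000000 0x4000000060000003e0000000300000002 3 6) 0 0 (step_sound _ 33 [(rh71222050f2c63a3a.shift 1 0), (rhb7616ccf0736ebbe.shift 0 1)] (by decide +kernel))
noncomputable def rhd1474a84c69f0140 : CRef := CRef.mk (Pat.mk 0x4000000040000001e000000000000000000000000 0x4000000060000001e000000030000000200000002 3 5) 0 0 (step_sound _ 65 [(rheb0810cc63b001d8.shift 0 2), (rhf9af042da61fc652.shift 1 0)] (by decide +kernel))
noncomputable def rh7782733ba8e51106 : CRef := CRef.mk (Pat.mk 0x30000007800000000 0x30000007e000000e0 3 8) 0 0 (step_sound _ 34 [(rh09d4dfe75d4407d6.shift 0 1), (rh4ad5fc38f1b69f65.shift 2 0)] (by decide +kernel))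
noncomputable def rh4336adbda8fdd83f : CRef := CRef.mk (Pat.mk 0x200000002000000120000000600000002 0x200000003000000030000001e0000000600000002 3 5) 0 0 (step_sound _ 96 [rh50fbb5868c909700, (rh59a9c89d55309def.shift 0 1)] (by decide +kernel))
noncomputable def rhf015c446b680a84f : CRef := CRef.mk (Pat.mk 0x200000003c 0x370000003e 3 6) 0 0 (step_sound _ 33 [(rh3f8766e6ecb455ce.shift 1 0), rhfcf1119458f22b28] (by decide +kernel))
noncomputable def rh3cb659a608caaffd : CRef := CRef.mk (Pat.mk 0xc000000180000000600000004 0x20000000f0000001e0000000600000004 3 5) 0 0 (step_sound _ 97 [(rhb739f4f82bb681b4.shift 0 2), (rhdb2909ac5c854515.shift 1 0)] (by decide +kernel))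
noncomputable def rhb7baffa3acbb3123 : CRef := CRef.mk (Pat.mk 0x600000004000000030000000100000000 0x20000000600000006000000030000000300000003 3 3) 0 0 (step_sound _ 97 [rh5769ed4fe2fe4c14, (rh5c5e593799055d58.shift 0 1)] (by decide +kernel))
noncomputable def rhc4713ca36c943a51 : CRef := CRef.mk (Pat.mk 0x100000001000000018000000030000000000000000 0x1000000018000000180000000f0000000800000008 3 5) 0 0 (step_sound _ 67 [(rh1c62b6193297d9e3.shift 0 2), (rhf9af042da61fc652.shift 3 0)] (by decide +kernel))
noncomputable def rhf548d344de2a7f53 : CRef := CRef.mk (Pat.mk 0x400000000000000000000001e00000002 0x400000006000000070000001e00000002 3 5) 0 0 (step_sound _ 98 [(rh3c88ce959c0e423f.shift 1 0), rha3d4138a5939a4eb] (by decide +kernel))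
noncomputable def rh4f9178be5dd8d55e : CRef := CRef.mk (Pat.mk 0x500000000000000020000001e00000000 0x500000007000000020000001e00000003 3 5) 0 0 (step_sound _ 1 [rheb0810cc63b001d8, rheb6f629f45b04d8c] (by decide +kernel))
noncomputable def rh330a005829cdd297 : CRef := CRef.mk (Pat.mk 0x20000001a0000000200000002 0x50000000f0000001a0000000200000002 3 5) 0 0 (step_sound _ 96 [rh50fbb5868c909700, rh8ddb7009c5639c8a] (by decide +kernel))
noncomputable def rhbde396fddbbf315b : CRef := CRef.mk (Pat.mk 0xa00000018000000020000000600000000 0x10000000f0000001a000000020000000600000004 3 5) 0 0 (step_sound _ 97 [(rh55afc6a59410cf00.shift 1 0), (rhb43b15493b096632.shift 0 1)] (by decide +kernel))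
noncomputable def rh2fac48111f756bf7 : CRef := CRef.mk (Pat.mk 0x80000000800000008000000180000000100000000 0x800000008000000080000001c0000000f00000004 3 5) 0 0 (step_sound _ 34 [(rh79877ebd3ef475dd.shift 2 1), rhdbe351d60d7b4327] (by decide +kernel))
noncomputable def rh2c9cc6ea898ce072 : CRef := CRef.mk (Pat.mk 0x1e0000001000000010 0x8000000380000001f0000001000000010 3 6) 0 0 (step_sound _ 100 [(rh33e738c4ed385b9f.shift 1 2), rh3d5d828ac8ab1bfc] (by decide +kernel))
noncomputable def rhc67097bb8db3eb74 : CRef := CRef.mk (Pat.mk 0x20000000b0000000c0000000800000000 0xc0000001e0000000b0000000c0000000c00000004 3 5) 0 0 (step_sound _ 131 [(rh03dfdf12d5937476.shift 2 0), (rh5501401ca587e475.shift 0 1)] (by decide +kernel))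
noncomputable def rh34c55192f3ac329c : CRef := CRef.mk (Pat.mk 0x180000001b000000080000000000000000 0x40000001e0000001b000000080000000800000008 3 5) 0 0 (step_sound _ 130 [(rh40241bd608e5be1a.shift 2 0), (rhca9569cc80abfe76.shift 0 3)] (by decide +kernel))
noncomputable def rhbf39e9e07032855f : CRef := CRef.mk (Pat.mk 0x20000000200000003000000180000000c00000000 0x20000000300000003000000190000000f00000001 3 5) 0 0 (step_sound _ 32 [(rh24ae073cf30720c4.shift 0 1), rhdebc43b768884653] (by decide +kernel))
noncomputable def rh0f95fa3bd846a332 : CRef := CRef.mk (Pat.mk 0x20000000200000003000000000000000c00000018 0x20000000300000003000000010000000f00000019 3 5) 0 0 (step_sound _ 32 [rhab22b5b56e7b3243, rhdebc43b768884653] (by decide +kernel))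
noncomputable def rhd6c5c8b1c02f21f5 : CRef := CRef.mk (Pat.mk 0x160000000600000004 0x2000000030000003e0000000600000004 3 6) 0 0 (step_sound _ 97 [(rh2145e1d24b96a57e.shift 1 0), (rh6493ceb007f59211.shift 0 1)] (by decide +kernel))
noncomputable def rh2f1a85fb5a1a8ad0 : CRef := CRef.mk (Pat.mk 0x7800000003 0xe00000007e00000003 3 8) 0 0 (step_sound _ 34 [(rh9890f9d77740bbed.shift 2 1), rhca9569cc80abfe76] (by decide +kernel))
noncomputable def rh6a02d9af4f60abc1 : CRef := CRef.mk (Pat.mk 0x20000000200000002000000120000000200000000 0x200000002000000020000001e0000000700000001 3 5) 0 0 (step_sound _ 66 [(rh55afc6a59410cf00.shift 1 1), rh84f01cf2134210c0] (by decide +kernel))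
noncomputable def rhfc1184fab773b2b6 : CRef := CRef.mk (Pat.mk 0x20000000600000012000000020000000200000000 0x2000000060000001e000000030000000300000002 3 5) 0 0 (step_sound _ 64 [(rh932754581e0f4330.shift 0 1), rha2b16af305878761] (by decide +kernel))
noncomputable def rh1a44f6991f283c8d : CRef := CRef.mk (Pat.mk 0x400000002000000030000000200000000 0x60000000600000002000000030000000300000001 3 3) 0 0 (step_sound _ 129 [rh03dfdf12d5937476, (rh2f68792b6b779e96.shift 1 1)] (by decide +kernel))
noncomputable def rh16a9bc9cfa703df6 : CRef := CRef.mk (Pat.mk 0x400000006000000120000001800000000 0x400000006000000330000001e00000002 3 6) 0 0 (step_sound _ 33 [(rh71222050f2c63a3a.shift 1 0), (rh9ce9666211d7d662.shift 0 1)] (by decide +kernel))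
noncomputable def rhfc1b0c0705fe2ae1 : CRef := CRef.mk (Pat.mk 0x20000000b000000090000000c00000000 0x20000000f000000190000000f00000001 3 5) 0 0 (step_sound _ 68 [(rhc10214bf3fe8094a.shift 0 2), rhe64d45001dc4e215] (by decide +kernel))
noncomputable def rhcf351c341db21a74 : CRef := CRef.mk (Pat.mk 0x1000000058000000020000000800000000 0x10000000780000000f0000000800000008 3 7) 0 0 (step_sound _ 67 [(rh71222050f2c63a3a.shift 3 0), (rhcf26ab340e90aa4c.shift 0 2)] (by decide +kernel))
noncomputable def rh174a767562f03570 : CRef := CRef.mk (Pat.mk 0xa00000018 0xf0000007c 3 7) 0 0 (step_sound _ 34 [(rh89ade209b3e28f13.shift 1 0), rhb739f4f82bb681b4] (by decide +kernel))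
noncomputable def rhb1fd7ebb07efd631 : CRef := CRef.mk (Pat.mk 0x1000000010000000300000001000000010000000000000000 0x1000000030000000300000003000000030000000100000001 3 2) 0 0 (step_sound _ 97 [(rh55afc6a59410cf00.shift 0 2), rhea7a1800d6f053bd] (by decide +kernel))
noncomputable def rhc9641e36ec7fc009 : CRef := CRef.mk (Pat.mk 0xa00000018000000080000000800000000 0x1f0000001c000000080000000800000008 3 5) 0 0 (step_sound _ 3 [(rh2f68792b6b779e96.shift 3 0), rhf45bd3c735a7ee03] (by decide +kernel))
noncomputable def rh52b56b428549a9e5 : CRef := CRef.mk (Pat.mk 0x5000000140000000e 0xf0000001e0000000f 3 5) 0 0 (step_sound _ 35 [(rh4b858afe2cb38247.shift 0 1), rh53b3c253cb0c65f4] (by decide +kernel))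
noncomputable def rh85f24d6e9f0db100 : CRef := CRef.mk (Pat.mk 0xe0000000a0000000a00000004 0x80000001e0000000b0000001e00000004 3 5) 0 0 (step_sound _ 64 [(rh18965a982d73c794.shift 0 2), rh25cc39f941c1df60] (by decide +kernel))
noncomputable def rha56a0c08722120a8 : CRef := CRef.mk (Pat.mk 0x1c00000006000000060000000300000000 0x2000000030000001e00000006000000060000000300000001 3 5) 0 0 (step_sound _ 129 [(rh309fd0c3d364cd61.shift 0 2), rh932754581e0f4330] (by decide +kernel))
noncomputable def rh40a8197b8cbe9eb8 : CRef := CRef.mk (Pat.mk 0x100000001300000012000000000000000800000000 0x100000001b0000001e000000080000000800000008 3 5) 0 0 (step_sound _ 99 [(rh5419adcd928dba20.shift 0 3), (rhdebc43b768884653.shift 3 0)] (by decide +kernel))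
noncomputable def rh6343052d9db8e735 : CRef := CRef.mk (Pat.mk 0x2c0000000e00000002 0x6c0000007e00000003 3 7) 0 0 (step_sound _ 36 [rheb0810cc63b001d8, (rheff610e725081997.shift 2 1)] (by decide +kernel))
noncomputable def rhad21df8c54d61a55 : CRef := CRef.mk (Pat.mk 0x100000001000000058000000020000000000000000 0x1000000018000000780000000f0000000800000008 3 7) 0 0 (step_sound _ 67 [(rhcf26ab340e90aa4c.shift 0 2), (rhf9af042da61fc652.shift 3 0)] (by decide +kernel))
noncomputable def rhb55a98ead617469c : CRef := CRef.mk (Pat.mk 0x40000001e000000000000001800000030 0x40000001e000000030000001e00000032 3 6) 0 0 (step_sound _ 33 [rh3ea8f185d13574b4, (rhab22b5b56e7b3243.shift 1 0)] (by decide +kernel))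
noncomputable def rh7aa6402c7a27a1be : CRef := CRef.mk (Pat.mk 0x300000001000000030000000100000000 0x1000000010000000300000003000000030000000300000001 3 2) 0 0 (step_sound _ 97 [rh71222050f2c63a3a, (rhfc7c29d8e65d775f.shift 0 1)] (by decide +kernel))
noncomputable def rhcb3103b42e657b76 : CRef := CRef.mk (Pat.mk 0xc00000014000000040000000400000000 0x20000000f0000001c000000040000000400000004 3 5) 0 0 (step_sound _ 99 [(rh277b01412deaec89.shift 0 1), (rh71222050f2c63a3a.shift 2 0)] (by decide +kernel))
noncomputable def rh81eb361f7144d78f : CRef := CRef.mk (Pat.mk 0x20000001a0000000a00000002000000020000000200000000 0x20000001a0000000f00000003000000030000000200000002 3 5) 0 0 (step_sound _ 96 [(rh932754581e0f4330.shift 0 2), rhb181fd581cab99b3] (by decide +kernel))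
noncomputable def rh59e91534b0e6ff89 : CRef := CRef.mk (Pat.mk 0x180000000a0000000200000002000000020000000100000000 0x180000000f0000000300000002000000020000000300000001 3 5) 0 0 (step_sound _ 33 [rh932754581e0f4330, (rhc833d364c90c2c06.shift 0 1)] (by decide +kernel))
noncomputable def rh1d7100ca12876a53 : CRef := CRef.mk (Pat.mk 0x20000001a00000002000000020000000000000000 0x60000001e00000003000000030000000300000001 3 5) 0 0 (step_sound _ 33 [(rh0102e0f3a8fa944d.shift 0 1), rh7928877f9bf74a91] (by decide +kernel))
noncomputable def rhad85a7675287bf13 : CRef := CRef.mk (Pat.mk 0x20000001a000000020000000200000000 0x4000000060000001e000000030000000200000002 3 5) 0 0 (step_sound _ 98 [(rha707fb719e87fe6e.shift 1 0), (rheb0810cc63b001d8.shift 0 2)] (by decide +kernel))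
noncomputable def rh8f4c920c37cd7688 : CRef := CRef.mk (Pat.mk 0x1c0000001c0000000000000004 0x30000001f0000001c0000000400000004 3 5) 0 0 (step_sound _ 97 [rh0da3f8d18d3a0dfd, (rhb739f4f82bb681b4.shift 0 2)] (by decide +kernel))
noncomputable def rhfc710301586d357d : CRef := CRef.mk (Pat.mk 0x1000000010000000000000000700000008 0x1000000010000000180000001f00000018 3 5) 0 0 (step_sound _ 35 [rh8f6129e0c64f6eb5, rhe25b0a99195a5d59] (by decide +kernel))
noncomputable def rh6e9402b4673c83a8 : CRef := CRef.mk (Pat.mk 0x200000002200000032000000030000000200000000 0x200000003200000032000000130000001e00000014 3 6) 0 0 (step_sound _ 36 [(rhdebc43b768884653.shift 4 0), rhf8edb192cdea7ada] (by decide +kernel))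
noncomputable def rh03238141166ed50f : CRef := CRef.mk (Pat.mk 0xe00000041 0x3e00000073 3 7) 0 0 (step_sound _ 36 [rh80fcd6d0a18cb2dd, (rheaa91b92daf0efc8.shift 1 0)] (by decide +kernel))
noncomputable def rh1171911d0ea2d00b : CRef := CRef.mk (Pat.mk 0x2000000120000000e00000002 0x1000000030000001e0000000f00000002 3 5) 0 0 (step_sound _ 67 [(rh53b3c253cb0c65f4.shift 0 1), rh5e05da03898e7023] (by decide +kernel))
noncomputable def rhf85dd19835c185aa : CRef := CRef.mk (Pat.mk 0x10000000e00000040 0x30000003e00000070 3 7) 0 0 (step_sound _ 36 [(rh3f8766e6ecb455ce.shift 0 1), (rheaa91b92daf0efc8.shift 1 0)] (by decide +kernel))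
noncomputable def rhc39ffe1a68d3ccd8 : CRef := CRef.mk (Pat.mk 0x80000001c0000000600000004 0x20000003b0000001f0000000600000004 3 6) 0 0 (step_sound _ 65 [rh309fd0c3d364cd61, (rhec46bd5500c722c9.shift 0 2)] (by decide +kernel))
noncomputable def rhbc75a3b1252ac504 : CRef := CRef.mk (Pat.mk 0x80000000700000020 0x180000001f00000038 3 6) 0 0 (step_sound _ 35 [(rh33e738c4ed385b9f.shift 0 1), rheaa91b92daf0efc8] (by decide +kernel))
noncomputable def rh11acd801a78010b3 : CRef := CRef.mk (Pat.mk 0x1e000000020000000200000000 0x4000000070000001e000000020000000200000002 3 5) 0 0 (step_sound _ 129 [(rh3244c3cc8379b070.shift 0 3), (rha707fb719e87fe6e.shift 1 0)] (by decide +kernel))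
noncomputable def rh2e27fcf69d69a754 : CRef := CRef.mk (Pat.mk 0x1600000004000000040000000400000000 0x3e00000007000000040000000400000004 3 6) 0 0 (step_sound _ 97 [(rh7b1f1fb55310c477.shift 1 0), (rhd11dc6dd83191698.shift 0 3)] (by decide +kernel))
noncomputable def rhd8ebdc05f381a804 : CRef := CRef.mk (Pat.mk 0x20000003600000000 0x30000003e00000070 3 7) 0 0 (step_sound _ 35 [(rh3244c3cc8379b070.shift 0 1), (rh4ad5fc38f1b69f65.shift 1 0)] (by decide +kernel))
noncomputable def rhbd49d23711322180 : CRef := CRef.mk (Pat.mk 0x4000000020000000300000003000000000000000000000000 0x4000000070000000300000003000000020000000200000002 3 3) 0 0 (step_sound _ 65 [rh3cb04db3dd2b6a55, (rhbaefcd01e0a8bca3.shift 1 2)] (by decide +kernel))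
noncomputable def rhb37359181f6a4da0 : CRef := CRef.mk (Pat.mk 0x10000000a00000002000000020000000200000002 0x1000000030000001e00000006000000020000000200000002 3 5) 0 0 (step_sound _ 161 [(rh50fbb5868c909700.shift 0 2), rh5c64601ff0e8110f] (by decide +kernel))
noncomputable def rh3141141b88e08fda : CRef := CRef.mk (Pat.mk 0x3000000020000000600000000 0x10000000300000003000000020000000600000006 3 3) 0 0 (step_sound _ 128 [rh6196b452c518de56, rh7b1f1fb55310c477] (by decide +kernel))
noncomputable def rh48cf2212fb0d177a : CRef := CRef.mk (Pat.mk 0x400000002000000020000001a0000000100000000 0x400000006000000020000001a0000000f00000004 3 5) 0 0 (step_sound _ 33 [(rhbaefcd01e0a8bca3.shift 1 1), rhef77c6b312a36259] (by decide +kernel))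
noncomputable def rh8e4d738d72204634 : CRef := CRef.mk (Pat.mk 0x160000000600000002 0x200000003000000030000001e0000000600000006 3 5) 0 0 (step_sound _ 97 [(rh3e595262c1b737ad.shift 1 0), rh52dc0b448901c5de] (by decide +kernel))
noncomputable def rhe592f4561ded169a : CRef := CRef.mk (Pat.mk 0x20000000e00000040 0x30000003e00000070 3 7) 0 0 (step_sound _ 36 [(rh3244c3cc8379b070.shift 0 1), (rheaa91b92daf0efc8.shift 1 0)] (by decide +kernel))
noncomputable def rhb0453f21e70803bf : CRef := CRef.mk (Pat.mk 0x4000000000000001c0000001c00000000 0x4000000040000001c0000001f00000003 3 5) 0 0 (step_sound _ 33 [(rh53b3c253cb0c65f4.shift 0 1), rh981be6707e4d9088] (by decide +kernel))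
noncomputable def rhf4640fe56c5e5a5b : CRef := CRef.mk (Pat.mk 0x4000000000000001c0000000c00000000 0x400000004000000040000001c0000000f00000002 3 5) 0 0 (step_sound _ 98 [(rh2145e1d24b96a57e.shift 2 1), rhf5094ad2a427d4d3] (by decide +kernel))
noncomputable def rh3181373a30ceb9e3 : CRef := CRef.mk (Pat.mk 0x20000000200000002000000020000000000000000 0x20000000200000002000000070000000700000005 3 3) 0 0 (step_sound _ 33 [rh7928877f9bf74a91, (rhd29a1fb688eae70f.shift 1 0)] (by decide +kernel))
noncomputable def rhba796ffe97880c75 : CRef := CRef.mk (Pat.mk 0x400000002000000020000001a0000000000000000 0x400000006000000020000001e0000000300000001 3 5) 0 0 (step_sound _ 33 [rh5710f30ba40ee3ec, (rhbaefcd01e0a8bca3.shift 1 1)] (by decide +kernel))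
noncomputable def rh82b9e43e77238ca0 : CRef := CRef.mk (Pat.mk 0x100000001000000010000000700000004 0x20000000300000003000000030000000700000005 3 3) 0 0 (step_sound _ 129 [(rh2f68792b6b779e96.shift 0 1), rh99de676ce09a077c] (by decide +kernel))
noncomputable def rh74077b621f65b9d0 : CRef := CRef.mk (Pat.mk 0x100000001000000010000000700000004 0x30000000300000003000000030000000700000004 3 3) 0 0 (step_sound _ 65 [(rh2145e1d24b96a57e.shift 0 1), rh9511402a8c1709c4] (by decide +kernel))
noncomputable def rh4f89f797aa397115 : CRef := CRef.mk (Pat.mk 0x1000000030000000700000004 0x30000000300000003000000030000000700000004 3 3) 0 0 (step_sound _ 128 [(rh2145e1d24b96a57e.shift 0 1), rh9511402a8c1709c4] (by decide +kernel))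
noncomputable def rhace16348de435294 : CRef := CRef.mk (Pat.mk 0x1c0000001800000030 0x1f0000001f00000030 3 6) 0 0 (step_sound _ 33 [(rh710860539a4c4362.shift 0 1), (rhab22b5b56e7b3243.shift 1 0)] (by decide +kernel))
noncomputable def rh3a0a17dff5d34c4f : CRef := CRef.mk (Pat.mk 0x1000000020000000600000006000000000000000000000000 0x1000000070000000600000006000000020000000200000002 3 3) 0 0 (step_sound _ 65 [(rhea7a1800d6f053bd.shift 1 0), (rhffd04209dc8ea796.shift 0 2)] (by decide +kernel))
noncomputable def rhd458cf0431fcb667 : CRef := CRef.mk (Pat.mk 0xf00000040 0x380000003f00000070 3 7) 0 0 (step_sound _ 36 [(rh9890f9d77740bbed.shift 0 1), (rheaa91b92daf0efc8.shift 1 0)] (by decide +kernel))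
noncomputable def rh00f1bb10334541e3 : CRef := CRef.mk (Pat.mk 0x3c 0x770000003e 3 7) 0 0 (step_sound _ 1 [(rh9890f9d77740bbed.shift 1 0), rhd5eb272e07a4e288] (by decide +kernel))
noncomputable def rh2950770e13690148 : CRef := CRef.mk (Pat.mk 0x20000001c000000000000000400000004 0x30000001e000000030000000600000004 3 5) 0 0 (step_sound _ 97 [rh065df6eed977da83, (rh3244c3cc8379b070.shift 0 3)] (by decide +kernel))
noncomputable def rh32fdcf43850040ab : CRef := CRef.mk (Pat.mk 0x180000003a00000000 0x180000003f00000007 3 6) 0 0 (step_sound _ 34 [(rh53b3c253cb0c65f4.shift 0 1), rheae1728ff4a56756] (by decide +kernel))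
noncomputable def rh5bb1a18b21659263 : CRef := CRef.mk (Pat.mk 0x100000000e0000000400000004 0x8000000080000001c0000000f0000000400000004 3 5) 0 0 (step_sound _ 99 [(rh53b3c253cb0c65f4.shift 0 2), (rhbfb5770941270498.shift 2 0)] (by decide +kernel))
noncomputable def rhcf4316681f1a3ab1 : CRef := CRef.mk (Pat.mk 0xe00000042 0x3e00000073 3 7) 0 0 (step_sound _ 36 [(rheaa91b92daf0efc8.shift 1 0), rheb0810cc63b001d8] (by decide +kernel))
noncomputable def rhd069c26308376489 : CRef := CRef.mk (Pat.mk 0xc0000000500000018 0x3e0000000f00000018 3 6) 0 0 (step_sound _ 33 [(rh80f90a60d87caa0d.shift 0 1), rhd6e447e81774439e] (by decide +kernel))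
noncomputable def rhc97a067b7b382bbd : CRef := CRef.mk (Pat.mk 0x10000000b0000000a000000180000000800000000 0x10000000b0000000a0000001a0000000f00000004 3 5) 0 0 (step_sound _ 33 [rh3cf2764919f34f47, (rh9e07f76261b05888.shift 0 1)] (by decide +kernel))
noncomputable def rh2a89eb6cdc94454a : CRef := CRef.mk (Pat.mk 0x100000000f000000000000002000000020 0x300000001f000000180000003000000020 3 6) 0 0 (step_sound _ 100 [(rh33e738c4ed385b9f.shift 1 3), rhf60b230cc4d5a0da] (by decide +kernel))
noncomputable def rhe451721295619d5a : CRef := CRef.mk (Pat.mk 0x1000000010000000600000006000000000000000000000000 0x1000000030000000700000006000000020000000200000002 3 3) 0 0 (step_sound _ 65 [rh2f3e416c6263c0c2, (rhcfdf45280693d3da.shift 0 2)] (by decide +kernel))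
noncomputable def rh2f544a0a1f62b1e4 : CRef := CRef.mk (Pat.mk 0x200000003000000000000000600000000 0x10000000300000003000000020000000600000006 3 3) 0 0 (step_sound _ 65 [(rh55afc6a59410cf00.shift 1 0), rhe286c75f2739cce2] (by decide +kernel))
noncomputable def rh257f8d8b94d7754a : CRef := CRef.mk (Pat.mk 0x7c00000010 0x7f0000003c 3 7) 0 0 (step_sound _ 3 [rhad5d8fc3675c15dd, (rheb0810cc63b001d8.shift 2 0)] (by decide +kernel))
noncomputable def rh22c7b9f73858deec : CRef := CRef.mk (Pat.mk 0x10000000000000003000000030000000600000000 0x3000000030000000200000003000000030000000600000004 3 3) 0 0 (step_sound _ 129 [(rh16567ae718d9fd54.shift 0 2), (rh55afc6a59410cf00.shift 1 0)] (by decide +kernel))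
noncomputable def rh11e0cfc1c5a72355 : CRef := CRef.mk (Pat.mk 0x1000000030000000200000000 0x10000000100000003000000030000000300000002 3 2) 0 0 (step_sound _ 128 [(rh2145e1d24b96a57e.shift 0 1), rh95ea0015722389b9] (by decide +kernel))
noncomputable def rh7dc53c885dde6ace : CRef := CRef.mk (Pat.mk 0x100000003000000090000001800000000 0x100000001000000030000000f0000001a00000002 3 5) 0 0 (step_sound _ 65 [rh55a1f6c57a317ce6, (rhc10214bf3fe8094a.shift 0 1)] (by decide +kernel))
noncomputable def rhc01c8460008663c1 : CRef := CRef.mk (Pat.mk 0x4000000000000001e0000000a00000008 0x4000000070000001e0000000e0000000a 3 5) 0 0 (step_sound _ 98 [rh4cdd80ef82c269a0, (rhbe0e43a3bc50a43f.shift 2 0)] (by decide +kernel))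
noncomputable def rh2505e37b28f90391 : CRef := CRef.mk (Pat.mk 0x180000001a0000000600000004 0x20000001f0000001b0000000600000004 3 5) 0 0 (step_sound _ 97 [(rh086f6046fa319626.shift 0 2), (rh2145e1d24b96a57e.shift 1 0)] (by decide +kernel))
noncomputable def rh4e448da1f2ebc7c7 : CRef := CRef.mk (Pat.mk 0x600000007000000040000000000000000 0x80000001e00000007000000040000000400000004 3 5) 0 0 (step_sound _ 131 [(rh18965a982d73c794.shift 0 3), (rhb0c1e7919d9be92d.shift 1 0)] (by decide +kernel))
noncomputable def rh294ce561c6433800 : CRef := CRef.mk (Pat.mk 0x2000000070000000c0000000c 0xc0000001e000000070000000c0000000c 3 5) 0 0 (step_sound _ 98 [(rh2145e1d24b96a57e.shift 2 0), rh712526e472efe489] (by decide +kernel))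
noncomputable def rhd37c20d84762fac4 : CRef := CRef.mk (Pat.mk 0x4000000060000001a0000001800000000 0x4000000060000001b0000001f00000002 3 5) 0 0 (step_sound _ 33 [(rh6e1685e3533aff0e.shift 0 1), (rh71222050f2c63a3a.shift 1 0)] (by decide +kernel))
noncomputable def rh36e5fea460606a7f : CRef := CRef.mk (Pat.mk 0x600000003000000040000000600000000 0x80000001e00000007000000040000000600000002 3 5) 0 0 (step_sound _ 98 [(rh712526e472efe489.shift 0 1), (rh932754581e0f4330.shift 1 0)] (by decide +kernel))
noncomputable def rhe6898e6c4f57a946 : CRef := CRef.mk (Pat.mk 0x80000000400000038000000100000000000000000 0x80000001f00000038000000180000001000000010 3 6) 0 0 (step_sound _ 131 [(rh79ad7b82ec8c35e2.shift 3 0), (rhc02b3aee7ab87ee1.shift 0 3)] (by decide +kernel))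
noncomputable def rhda49d08e88765cc3 : CRef := CRef.mk (Pat.mk 0xc0000001c000000040000000000000000 0x20000000f0000001c000000040000000400000004 3 5) 0 0 (step_sound _ 34 [(rh277b01412deaec89.shift 0 1), (rh71222050f2c63a3a.shift 2 0)] (by decide +kernel))
noncomputable def rh9745507941764734 : CRef := CRef.mk (Pat.mk 0x40000000000000008000000180000000a00000000 0x40000000c00000008000000180000000f00000004 3 5) 0 0 (step_sound _ 131 [rh3cf2764919f34f47, (rhffd04209dc8ea796.shift 2 1)] (by decide +kernel))
noncomputable def rhf784de81568891eb : CRef := CRef.mk (Pat.mk 0x20000000a000000180000000a00000000 0xa0000000a0000001a0000000f00000004 3 5) 0 0 (step_sound _ 34 [(rh53b3c253cb0c65f4.shift 0 1), (rhb768c66d5afe79ae.shift 1 0)] (by decide +kernel))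
noncomputable def rhb9c6a0615d751a8b : CRef := CRef.mk (Pat.mk 0x800000018000000040000000e00000000 0x800000018000000370000003e00000010 3 6) 0 0 (step_sound _ 36 [(rh215ee3f3abaea373.shift 1 0), (rhe3060b190bc0bc78.shift 0 1)] (by decide +kernel))
noncomputable def rh4343463f401da950 : CRef := CRef.mk (Pat.mk 0x400000002000000180000000e00000002 0x40000000f0000001c0000000e0000000a 3 5) 0 0 (step_sound _ 98 [(rh3c88ce959c0e423f.shift 1 0), rh96a8dc9200935376] (by decide +kernel))
noncomputable def rh3c6e99dd47b9dca9 : CRef := CRef.mk (Pat.mk 0x400000002000000180000001c00000000 0x80000000c0000000f000000180000001c0000000c 3 5) 0 0 (step_sound _ 99 [rh142dc5df4ed2f725, (rh37d9ceebb86d75d1.shift 2 0)] (by decide +kernel))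
noncomputable def rha97167f4c6c83116 : CRef := CRef.mk (Pat.mk 0x400000002000000000000001e00000000 0x400000006000000030000001e00000003 3 5) 0 0 (step_sound _ 1 [rh318f012ac0509740, rheb0810cc63b001d8] (by decide +kernel))
noncomputable def rh225f5067204dfb4f : CRef := CRef.mk (Pat.mk 0x7000000030000001800000010 0x180000001f0000000b0000001800000010 3 5) 0 0 (step_sound _ 99 [(rh18965a982d73c794.shift 0 2), rhed52f035b483d922] (by decide +kernel))
noncomputable def rh7e1098702e50f2b0 : CRef := CRef.mk (Pat.mk 0x100000003000000020000000000000000 0x10000000300000003000000030000000200000002 3 2) 0 0 (step_sound _ 33 [rh7b1f1fb55310c477, (rha3df16ea9c8576c8.shift 0 1)] (by decide +kernel))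
noncomputable def rh7ef5fa5c39f1c762 : CRef := CRef.mk (Pat.mk 0x2000000020000000200000002 0x50000000700000007000000020000000200000002 3 3) 0 0 (step_sound _ 129 [rh3ca48e2a6d60153d, (rh44f453b84f013105.shift 1 0)] (by decide +kernel))
noncomputable def rh94e77f9f35dec009 : CRef := CRef.mk (Pat.mk 0x2000000020000001200000003 0x200000002000000020000001f00000007 3 5) 0 0 (step_sound _ 34 [rh361cc68994bd8a63, rh518d6f6eeebddcb2] (by decide +kernel))
noncomputable def rhb10481e8122aee97 : CRef := CRef.mk (Pat.mk 0x500000007000000020000000000000000 0x4000000040000000500000007000000060000000200000002 3 3) 0 0 (step_sound _ 33 [(rh69755ef358ebfd54.shift 1 1), rh7b1f1fb55310c477] (by decide +kernel))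
noncomputable def rha8de8032a0ea52d8 : CRef := CRef.mk (Pat.mk 0x20000001a0000000600000000 0x2000000020000001a0000000f00000005 3 5) 0 0 (step_sound _ 129 [(rh55afc6a59410cf00.shift 1 0), rh61975bc3e9724afc] (by decide +kernel))
noncomputable def rhd98c38510daa35cb : CRef := CRef.mk (Pat.mk 0x100000001000000190000000100000000 0x100000001000000010000001f0000000300000002 3 5) 0 0 (step_sound _ 33 [rh55afc6a59410cf00, (rhfffd75d9b7aa4d03.shift 0 1)] (by decide +kernel))
noncomputable def rhf52f64760f03115f : CRef := CRef.mk (Pat.mk 0x200000002000000320000000600000000 0x2000000020000003e0000000f00000001 3 6) 0 0 (step_sound _ 67 [rh61975bc3e9724afc, (rhca9569cc80abfe76.shift 1 1)] (by decide +kernel))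
noncomputable def rh6307659a1e91bf84 : CRef := CRef.mk (Pat.mk 0x300000002000000040000000e 0x10000000300000002000000070000003e 3 6) 0 0 (step_sound _ 33 [rh50fbb5868c909700, rh79b3c29022acbdf3] (by decide +kernel))
noncomputable def rhdf997f77704b6375 : CRef := CRef.mk (Pat.mk 0x20000000600000006000000020000000000000000 0x1000000030000000700000006000000020000000200000002 3 3) 0 0 (step_sound _ 33 [(rh3ca48e2a6d60153d.shift 0 1), (rh71222050f2c63a3a.shift 1 0)] (by decide +kernel))
noncomputable def rhcd4eff53da13612e : CRef := CRef.mk (Pat.mk 0x4000000060000001a0000001000000000 0x4000000060000001e0000003300000002 3 6) 0 0 (step_sound _ 66 [rh9c40a739b57d6d20, (rhe25b0a99195a5d59.shift 1 1)] (by decide +kernel))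
noncomputable def rh1f4d44691e3bb3c1 : CRef := CRef.mk (Pat.mk 0x200000000000000040000000f00000001 0x200000002000000070000003f00000001 3 6) 0 0 (step_sound _ 65 [(rh79b3c29022acbdf3.shift 0 1), rhee230b994cc8b773] (by decide +kernel))
noncomputable def rheb0bd07e4b6e7aee : CRef := CRef.mk (Pat.mk 0x400000008000000080000001e00000000 0x40000000c0000000c0000001e0000000b 3 5) 0 0 (step_sound _ 98 [rh316d0c7c5292e4bb, (rh7b1f1fb55310c477.shift 2 0)] (by decide +kernel))
noncomputable def rhc4ba741110895e4c : CRef := CRef.mk (Pat.mk 0x80000001c0000000e0000000000000000 0x80000001f0000003e0000003000000010 3 6) 0 0 (step_sound _ 68 [(rh78974448101547fe.shift 1 0), (rhe3060b190bc0bc78.shift 0 2)] (by decide +kernel))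
noncomputable def rh3f420d1be4b84cac : CRef := CRef.mk (Pat.mk 0x40000000f000000070000000000000000 0x40000000f0000001f0000001800000008 3 5) 0 0 (step_sound _ 67 [rh78974448101547fe, (rhf48373e13d2bc128.shift 0 2)] (by decide +kernel))
noncomputable def rhb1e3daacf76f6a81 : CRef := CRef.mk (Pat.mk 0x3000000030000000d00000008 0x10000000100000003000000030000000f0000001a 3 5) 0 0 (step_sound _ 33 [rhe25b0a99195a5d59, rhfc7c29d8e65d775f] (by decide +kernel))
noncomputable def rhc13dbb2602bbcc3a : CRef := CRef.mk (Pat.mk 0x200000000f00000000 0x300000001f00000038 3 6) 0 0 (step_sound _ 36 [(rh428265de8cd3cd2d.shift 1 1), rh4ad5fc38f1b69f65] (by decide +kernel))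
noncomputable def rhdc461deccfb05432 : CRef := CRef.mk (Pat.mk 0xc0000000f000000000000000400000000 0xc0000000f000000180000000c0000000c 3 5) 0 0 (step_sound _ 67 [(rhe25b0a99195a5d59.shift 0 2), (rhe437f081bfcdb831.shift 2 0)] (by decide +kernel))
noncomputable def rh6ba96611d07a8138 : CRef := CRef.mk (Pat.mk 0x4000000060000001c0000000800000000 0x4000000060000001f0000003b00000002 3 6) 0 0 (step_sound _ 65 [rh9c40a739b57d6d20, (rha03f6e28ea70fc7d.shift 0 1)] (by decide +kernel))
noncomputable def rhff637a26715c46ce : CRef := CRef.mk (Pat.mk 0x600000004000000180000000c00000000 0x200000006000000040000001c0000000f00000002 3 5) 0 0 (step_sound _ 66 [(rh50fbb5868c909700.shift 1 1), rhf5094ad2a427d4d3] (by decide +kernel))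
noncomputable def rh09d7875afd1d8601 : CRef := CRef.mk (Pat.mk 0x6000000040000001c0000000800000000 0x200000006000000040000001c0000000f00000002 3 5) 0 0 (step_sound _ 34 [(rh50fbb5868c909700.shift 1 1), rhf5094ad2a427d4d3] (by decide +kernel))
noncomputable def rh64fc1037460b24cb : CRef := CRef.mk (Pat.mk 0x4000000060000001c0000000800000000 0x200000006000000060000001c0000000f00000006 3 5) 0 0 (step_sound _ 34 [(rhe286c75f2739cce2.shift 1 0), rhf5094ad2a427d4d3] (by decide +kernel))
noncomputable def rh99e49d04edd80d1c : CRef := CRef.mk (Pat.mk 0x6000000080000001c00000004 0x2000000060000000f0000003c00000004 3 6) 0 0 (step_sound _ 66 [(rh50fbb5868c909700.shift 1 0), (rhe2b63c00a3d7bb73.shift 0 1)] (by decide +kernel))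
noncomputable def rh15046019fc1d2e12 : CRef := CRef.mk (Pat.mk 0x2000000180000001c00000004 0x2000000020000001b0000001f00000004 3 5) 0 0 (step_sound _ 33 [(rh53b3c253cb0c65f4.shift 0 1), rh756bf0ac35c4fb2d] (by decide +kernel))
noncomputable def rh63481a5b9557685c : CRef := CRef.mk (Pat.mk 0x80000001c000000040000000600000000 0x20000000f0000001c000000040000000600000002 3 5) 0 0 (step_sound _ 130 [(rh277b01412deaec89.shift 0 1), (rh932754581e0f4330.shift 1 0)] (by decide +kernel))
noncomputable def rhcec7837146ab5006 : CRef := CRef.mk (Pat.mk 0x400000000000000060000000e00000000 0x400000004000000060000003e00000003 3 6) 0 0 (step_sound _ 36 [rh981be6707e4d9088, (rhf48373e13d2bc128.shift 1 1)] (by decide +kernel))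
noncomputable def rha120299dea79bd91 : CRef := CRef.mk (Pat.mk 0x6000000060000001a0000000800000000 0x6000000060000001a0000000f00000003 3 5) 0 0 (step_sound _ 33 [(rh71222050f2c63a3a.shift 1 0), rhabf42db7287f8a50] (by decide +kernel))
noncomputable def rh0839eefd3cc00e67 : CRef := CRef.mk (Pat.mk 0x800000008000000040000000e00000000 0x8000000080000000f0000003e00000030 3 6) 0 0 (step_sound _ 36 [(rh49bdc49f6b132823.shift 1 0), (rhe3060b190bc0bc78.shift 0 1)] (by decide +kernel))
noncomputable def rh0863013c73b0cbc2 : CRef := CRef.mk (Pat.mk 0x400000008000000180000000600000002 0x40000000f0000001e0000000600000002 3 5) 0 0 (step_sound _ 98 [(rh3c88ce959c0e423f.shift 1 0), rhbc9a7c6e843e5ac5] (by decide +kernel))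
noncomputable def rh03f9d36a2d6e8f0b : CRef := CRef.mk (Pat.mk 0x40000001e0000000200000000 0x400000004000000070000001e0000000200000002 3 5) 0 0 (step_sound _ 97 [(rh3244c3cc8379b070.shift 0 2), (rh84d1c02a8954c6a8.shift 1 0)] (by decide +kernel))
noncomputable def rhf14db003df2db175 : CRef := CRef.mk (Pat.mk 0x1000000000000000f0000000100000000 0x100000001000000010000001f0000000300000002 3 5) 0 0 (step_sound _ 33 [(rh18965a982d73c794.shift 0 1), rhda6cc5da102e1723] (by decide +kernel))
noncomputable def rh69663fdfdca7aa47 : CRef := CRef.mk (Pat.mk 0x4000000040000000e000000010000000000000000 0x4000000060000001e000000030000000200000002 3 5) 0 0 (step_sound _ 65 [(rh18965a982d73c794.shift 0 2), (rhf9af042da61fc652.shift 1 0)] (by decide +kernel))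
noncomputable def rhb9784ff7a7632a57 : CRef := CRef.mk (Pat.mk 0x80000001a0000000e0000000000000000 0x80000001b0000001e0000003000000010 3 6) 0 0 (step_sound _ 68 [(rh3244c3cc8379b070.shift 0 2), (rh78974448101547fe.shift 1 0)] (by decide +kernel))
noncomputable def rh70eb00692e28eccb : CRef := CRef.mk (Pat.mk 0x180000003400000014 0x180000003f00000036 3 6) 0 0 (step_sound _ 35 [(rheb0810cc63b001d8.shift 1 0), rhf56e6bc5d2f7fe77] (by decide +kernel))
noncomputable def rh6b3ca2e78e3c8722 : CRef := CRef.mk (Pat.mk 0x200000002000000030000000000000000f00000000 0x200000003000000030000000180000001f00000010 3 6) 0 0 (step_sound _ 68 [(rh428265de8cd3cd2d.shift 0 1), (rhf9af042da61fc652.shift 4 0)] (by decide +kernel))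
noncomputable def rh97d20052fbbd40fd : CRef := CRef.mk (Pat.mk 0x20000003a00000000 0x30000003e00000070 3 7) 0 0 (step_sound _ 34 [(rh3244c3cc8379b070.shift 0 1), (rh4ad5fc38f1b69f65.shift 1 0)] (by decide +kernel))
noncomputable def rhdb6bff318f198a51 : CRef := CRef.mk (Pat.mk 0x180000003a00000000 0x180000003f00000070 3 7) 0 0 (step_sound _ 34 [(rh4ad5fc38f1b69f65.shift 1 0), (rh53b3c253cb0c65f4.shift 0 1)] (by decide +kernel))
noncomputable def rhc4987603cda94696 : CRef := CRef.mk (Pat.mk 0x6000000060000001200000003 0x20000000200000006000000060000001e00000007 3 5) 0 0 (step_sound _ 34 [rh361cc68994bd8a63, (rhfc7c29d8e65d775f.shift 1 0)] (by decide +kernel))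
noncomputable def rh7cdab9d04a091ee9 : CRef := CRef.mk (Pat.mk 0x8000000380000000800000004 0x800000008000000380000001f00000004 3 6) 0 0 (step_sound _ 34 [(rh5c5e593799055d58.shift 2 0), (rheea1a90336e79c71.shift 0 1)] (by decide +kernel))
noncomputable def rhea41988f7b5d84ca : CRef := CRef.mk (Pat.mk 0x600000006000000070000000200000000 0x600000006000000070000001e0000000c 3 5) 0 0 (step_sound _ 34 [rh42afa1af9fffa0e1, (rh7b1f1fb55310c477.shift 1 0)] (by decide +kernel))
noncomputable def rh795ab08ece2a7e70 : CRef := CRef.mk (Pat.mk 0x8000000180000000c0000000c00000000 0x8000000180000000f0000003c00000010 3 6) 0 0 (step_sound _ 65 [(rh42afa1af9fffa0e1.shift 1 0), (rh53b3c253cb0c65f4.shift 0 2)] (by decide +kernel))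
noncomputable def rh931244f04c55416a : CRef := CRef.mk (Pat.mk 0x40000001c0000000a00000000 0x400000004000000040000001c0000000f00000002 3 5) 0 0 (step_sound _ 34 [(rh37d9ceebb86d75d1.shift 1 0), (rh53b3c253cb0c65f4.shift 0 1)] (by decide +kernel))
noncomputable def rh7d4361ae2019ee8a : CRef := CRef.mk (Pat.mk 0x40000000c0000001c0000000200000000 0x40000000f0000001e0000000600000002 3 5) 0 0 (step_sound _ 97 [(rh5ddbeed5d869bf16.shift 1 0), (rhb739f4f82bb681b4.shift 0 2)] (by decide +kernel))
noncomputable def rh39f2aa650c834471 : CRef := CRef.mk (Pat.mk 0x180000003800000014 0x180000003f00000036 3 6) 0 0 (step_sound _ 34 [(rheb0810cc63b001d8.shift 1 0), rhf56e6bc5d2f7fe77] (by decide +kernel))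
noncomputable def rhbb2385dc95a6af82 : CRef := CRef.mk (Pat.mk 0x200000000f00000000 0x300000001f00000038 3 6) 0 0 (step_sound _ 4 [(rh691b6f67835b5694.shift 1 0), rh96851dee118c1ba3] (by decide +kernel))
noncomputable def rh8b83fcb45deae789 : CRef := CRef.mk (Pat.mk 0x400000001000000030000000100000003 0x700000007000000030000000300000003 3 3) 0 0 (step_sound _ 33 [rh2145e1d24b96a57e, rh2657c0ca29f90f80] (by decide +kernel))
noncomputable def rh0fa31647f41f92ba : CRef := CRef.mk (Pat.mk 0x7000000040000000500000001 0x2000000020000000200000007000000070000000500000001 3 3) 0 0 (step_sound _ 129 [rh04253f50b6dd0619, (rhe072fffdd2fccf38.shift 1 1)] (by decide +kernel))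
noncomputable def rhf9de3a27dc837f6e : CRef := CRef.mk (Pat.mk 0x1800000014000000140000000400000000 0x180000001f000000340000000400000004 3 6) 0 0 (step_sound _ 99 [(rh71222050f2c63a3a.shift 2 0), (rhf56e6bc5d2f7fe77.shift 0 2)] (by decide +kernel))
noncomputable def rh545b60c956bfd0d6 : CRef := CRef.mk (Pat.mk 0x1a0000000a00000003 0x1f0000003e00000003 3 6) 0 0 (step_sound _ 36 [rhb2a0b9ccfb5cecd5, (rhcd6baf37b3e5de21.shift 0 1)] (by decide +kernel))
noncomputable def rhc9c4ae9ff9e4bb80 : CRef := CRef.mk (Pat.mk 0x8000000180000000e0000000200000000 0x8000000180000001e0000003300000010 3 6) 0 0 (step_sound _ 68 [(rh78974448101547fe.shift 1 0), (rheb0810cc63b001d8.shift 0 1)] (by decide +kernel))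
noncomputable def rh91844a5e9775ae59 : CRef := CRef.mk (Pat.mk 0x800000018000000180000001000000004 0x80000001c0000001f0000003c00000004 3 6) 0 0 (step_sound _ 66 [(rh06181a2dc624c6f8.shift 2 0), (rhf56e6bc5d2f7fe77.shift 0 1)] (by decide +kernel))
noncomputable def rhd8c1c87541a7b7cb : CRef := CRef.mk (Pat.mk 0x20000000600000006000000000000000100000000 0x20000000600000006000000030000000300000003 3 3) 0 0 (step_sound _ 65 [rh5769ed4fe2fe4c14, (rh79877ebd3ef475dd.shift 0 1)] (by decide +kernel))
noncomputable def rhb673087e57e46634 : CRef := CRef.mk (Pat.mk 0x80000001800000018000000100000000400000000 0x80000001c0000001f000000340000000400000004 3 6) 0 0 (step_sound _ 98 [(rhdebc43b768884653.shift 2 0), (rhf56e6bc5d2f7fe77.shift 0 2)] (by decide +kernel))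
noncomputable def rh33b7ef7e7ab3e120 : CRef := CRef.mk (Pat.mk 0x200000002000000020000000000000001f00000000 0x200000003000000030000000180000001f00000010 3 6) 0 0 (step_sound _ 68 [(rh428265de8cd3cd2d.shift 0 1), (rha47ad4ccca5a74e7.shift 4 0)] (by decide +kernel))
noncomputable def rh479ad873722b48ad : CRef := CRef.mk (Pat.mk 0x2000000020000000000000000f00000010 0x2000000030000000180000001f00000030 3 6) 0 0 (step_sound _ 36 [rh3a64d9c07d01a609, (rhe25b0a99195a5d59.shift 1 0)] (by decide +kernel))
noncomputable def rhc93f3ad81bc3b393 : CRef := CRef.mk (Pat.mk 0x400000004000000000000001e00000000 0x400000006000000030000001e00000003 3 5) 0 0 (step_sound _ 65 [(rh3244c3cc8379b070.shift 0 1), rhdf76c28ccf309ff1] (by decide +kernel))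
noncomputable def rh8b6aaf00be503b88 : CRef := CRef.mk (Pat.mk 0x200000002000000020000001c00000000 0x200000002000000020000001f00000007 3 5) 0 0 (step_sound _ 33 [(rh55afc6a59410cf00.shift 1 0), rha37779f9238271b6] (by decide +kernel))
noncomputable def rhe25176f89823b1c7 : CRef := CRef.mk (Pat.mk 0x180000001a 0x1f0000001f 3 5) 0 0 (step_sound _ 33 [rh086f6046fa319626, rh6e1685e3533aff0e, rhd8be3b7ca6adb62f, rhda02c4ce0b224328] (by decide +kernel))
noncomputable def rh097efa6a0ad6e172 : CRef := CRef.mk (Pat.mk 0x20000001a000000020000000200000000 0x4000000070000001e000000020000000200000002 3 5) 0 0 (step_sound _ 98 [(rh3244c3cc8379b070.shift 0 3), (rha707fb719e87fe6e.shift 1 0)] (by decide +kernel))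
noncomputable def rhe2538aec7e987144 : CRef := CRef.mk (Pat.mk 0x200000001000000050000000d00000008 0x600000007000000050000000d0000000d 3 4) 0 0 (step_sound _ 98 [rh150947578a63ac51, (rh2145e1d24b96a57e.shift 2 0)] (by decide +kernel))
noncomputable def rhed45b070ed1f03a6 : CRef := CRef.mk (Pat.mk 0x40000000400000006000000180000001800000010 0x400000006000000060000001a0000001f00000032 3 6) 0 0 (step_sound _ 33 [rh39f426ebe0691969, (rhdebc43b768884653.shift 1 0)] (by decide +kernel))
noncomputable def rh62a51e5e348b9e49 : CRef := CRef.mk (Pat.mk 0xf00000002 0x380000001f00000003 3 6) 0 0 (step_sound _ 68 [(rh428265de8cd3cd2d.shift 0 1), rhee0891bc88ee3f94] (by decide +kernel))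
noncomputable def rh2f7aebebd7d680c3 : CRef := CRef.mk (Pat.mk 0x20000001a0000000200000002 0x50000000f0000001a0000000200000002 3 5) 0 0 (step_sound _ 98 [(rh2f68792b6b779e96.shift 1 0), rhfe82b29a01fedb14] (by decide +kernel))
noncomputable def rhfb0ed1b59f16e7bb : CRef := CRef.mk (Pat.mk 0xc00000018000000040000000600000000 0x20000000f0000001c000000040000000600000002 3 5) 0 0 (step_sound _ 98 [(rh277b01412deaec89.shift 0 1), (rh932754581e0f4330.shift 1 0)] (by decide +kernel))
noncomputable def rh6c80b8fccd5bb0e1 : CRef := CRef.mk (Pat.mk 0x100000001000000030000000500000004 0x20000000300000003000000030000000700000006 3 3) 0 0 (step_sound _ 129 [(rh2f68792b6b779e96.shift 0 1), rhd19304ca5b903bab] (by decide +kernel))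
noncomputable def rhf3b0450cbffe4da9 : CRef := CRef.mk (Pat.mk 0x60000001a000000020000000000000000 0x4000000060000001e000000030000000200000002 3 5) 0 0 (step_sound _ 33 [(rh2f68792b6b779e96.shift 1 1), rhbf49009d353dda8d] (by decide +kernel))
noncomputable def rhf43dfd17fa5ce038 : CRef := CRef.mk (Pat.mk 0xc0000000c0000000d0000000000000000 0xc0000000c0000000f0000001800000018 3 5) 0 0 (step_sound _ 35 [rh2d65c91b9f714cee, (rh7b1f1fb55310c477.shift 2 0)] (by decide +kernel))
noncomputable def rh8273eedc182e6139 : CRef := CRef.mk (Pat.mk 0x400000002000000000000001e00000000 0x400000006000000030000001e00000003 3 5) 0 0 (step_sound _ 65 [(rh3244c3cc8379b070.shift 0 1), rha1aa13057a4a8e13] (by decide +kernel))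
noncomputable def rheb505ef94539da28 : CRef := CRef.mk (Pat.mk 0x400000004000000000000001e00000000 0x400000006000000030000001e00000003 3 5) 0 0 (step_sound _ 1 [rha3d4138a5939a4eb, rheb0810cc63b001d8] (by decide +kernel))
noncomputable def rh94a90e3ea5ec1f05 : CRef := CRef.mk (Pat.mk 0x20000000600000006000000000000000200000000 0x20000000600000006000000030000000300000003 3 3) 0 0 (step_sound _ 65 [(rh71222050f2c63a3a.shift 1 0), rh7928877f9bf74a91] (by decide +kernel))
noncomputable def rh88ee54e5cbfa5412 : CRef := CRef.mk (Pat.mk 0x20000000600000006000000000000000200000000 0x1000000030000000700000006000000020000000200000002 3 3) 0 0 (step_sound _ 65 [(rh3ca48e2a6d60153d.shift 0 1), (rh71222050f2c63a3a.shift 1 0)] (by decide +kernel))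
noncomputable def rhf842a985fdead960 : CRef := CRef.mk (Pat.mk 0x20000000200000002000000000000000600000000 0x1000000030000000300000002000000020000000600000004 3 3) 0 0 (step_sound _ 65 [(rh3ca48e2a6d60153d.shift 0 1), (rh55afc6a59410cf00.shift 1 0)] (by decide +kernel))
noncomputable def rhe4f9638036d9d0b9 : CRef := CRef.mk (Pat.mk 0xc00000018000000020000000200000002 0xf0000001f000000020000000200000002 3 5) 0 0 (step_sound _ 97 [rh7cc6277f498eedf7, (rhbaefcd01e0a8bca3.shift 1 0)] (by decide +kernel))
noncomputable def rhd9048603f1912b39 : CRef := CRef.mk (Pat.mk 0x1e00000002000000020000000200000000 0x30000001e00000002000000030000000300000001 3 5) 0 0 (step_sound _ 161 [(rh3244c3cc8379b070.shift 0 4), rh7928877f9bf74a91] (by decide +kernel))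
noncomputable def rhcda410b351c20b9b : CRef := CRef.mk (Pat.mk 0x180000003c 0x1f0000003f 3 6) 0 0 (step_sound _ 1 [rh53b3c253cb0c65f4, rhd5eb272e07a4e288] (by decide +kernel))
noncomputable def rhc2f471fc6ecada24 : CRef := CRef.mk (Pat.mk 0x400000004000000200000001c00000000 0x400000004000000340000001e00000003 3 6) 0 0 (step_sound _ 33 [rh316d0c7c5292e4bb, (rh428265de8cd3cd2d.shift 1 1)] (by decide +kernel))
noncomputable def rh2786699d24a85bb3 : CRef := CRef.mk (Pat.mk 0x800000018000000100000000700000000 0x800000018000000180000001f00000018 3 5) 0 0 (step_sound _ 35 [rh0c14c0721c6a41dd, (rh428265de8cd3cd2d.shift 0 1)] (by decide +kernel))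
noncomputable def rh6aa0ed61cce1493b : CRef := CRef.mk (Pat.mk 0xe00000010 0xf0000007c 3 7) 0 0 (step_sound _ 3 [(rh89ade209b3e28f13.shift 1 0), rhb739f4f82bb681b4] (by decide +kernel))
noncomputable def rhdd8e0f2deaaf4e1f : CRef := CRef.mk (Pat.mk 0x300000003000000000000000100000000 0x300000003000000030000000300000003 3 2) 0 0 (step_sound _ 33 [rh8556ce617a451e36, rh935da622f8ebc962, rhbcedfca2885d6e85, rhecb97fed8c7f1286] (by decide +kernel))
noncomputable def rh82209b1a2ecb6f5a : CRef := CRef.mk (Pat.mk 0x40000000f000000030000000600000000 0x40000000f0000001b0000001e00000008 3 5) 0 0 (step_sound _ 35 [rh2bbc4934553ffbfd, (rhf48373e13d2bc128.shift 0 1)] (by decide +kernel))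
noncomputable def rhed63fd067d271cbc : CRef := CRef.mk (Pat.mk 0x2000000000000000c0000001c00000004 0x2000000060000000f0000001e00000004 3 5) 0 0 (step_sound _ 65 [(rh92d527fd57e151ef.shift 1 0), (rhb739f4f82bb681b4.shift 0 1)] (by decide +kernel))
noncomputable def rh1f72e38f783022bd : CRef := CRef.mk (Pat.mk 0x100000000000000060000000600000002 0x30000000300000003000000060000000600000002 3 3) 0 0 (step_sound _ 97 [(rhf627eb01e9e8db9a.shift 0 1), rhffd04209dc8ea796] (by decide +kernel))
noncomputable def rh93d30f8731c628d9 : CRef := CRef.mk (Pat.mk 0x18000000120000000600000004 0x20000001e000000330000000600000004 3 6) 0 0 (step_sound _ 97 [(rh2145e1d24b96a57e.shift 1 0), (rhbf14f049e425ac01.shift 0 2)] (by decide +kernel))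
noncomputable def rh75abbe0de1d0295d : CRef := CRef.mk (Pat.mk 0xc000000090000000b00000002 0x10000000f000000190000000f00000002 3 5) 0 0 (step_sound _ 68 [(rh1c62b6193297d9e3.shift 0 1), rha7760f574e6358c3] (by decide +kernel))
noncomputable def rhbed62d40be6f3488 : CRef := CRef.mk (Pat.mk 0x8000000020000005800000010 0x8000000080000000f0000007800000010 3 7) 0 0 (step_sound _ 67 [(rh2145e1d24b96a57e.shift 3 0), (rh23180280a8fd1027.shift 0 1)] (by decide +kernel))
noncomputable def rh835d1fcfe7932847 : CRef := CRef.mk (Pat.mk 0x800000008000000180000000a 0x800000008000000080000001c0000001f 3 5) 0 0 (step_sound _ 131 [(rh55afc6a59410cf00.shift 3 0), rhb5782e01ad0af947] (by decide +kernel))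
noncomputable def rhbab5059118667c88 : CRef := CRef.mk (Pat.mk 0xe0000001400000005 0xf0000001e0000000f 3 5) 0 0 (step_sound _ 35 [(rhb739f4f82bb681b4.shift 0 1), rhbb229bad87965364] (by decide +kernel))
noncomputable def rha6815d932d68a32b : CRef := CRef.mk (Pat.mk 0x20000000a00000018 0x30000001f00000038 3 6) 0 0 (step_sound _ 34 [rh639c5d61b5ce9eea, rhb739f4f82bb681b4] (by decide +kernel))
noncomputable def rh3131a22afb1e86f5 : CRef := CRef.mk (Pat.mk 0x40000000a0000000a0000000e00000000 0x40000001e0000000b0000001e00000008 3 5) 0 0 (step_sound _ 64 [rh917e841253d15ad5, (rhf48373e13d2bc128.shift 0 1)] (by decide +kernel))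
noncomputable def rh27cd0def69443735 : CRef := CRef.mk (Pat.mk 0x300000006000000060000001c0000000000000000 0x10000000300000006000000060000001e0000000300000002 3 5) 0 0 (step_sound _ 65 [(rh50fbb5868c909700.shift 0 2), rh9c40a739b57d6d20] (by decide +kernel))
noncomputable def rha14d89f7e476d729 : CRef := CRef.mk (Pat.mk 0x800000000000000120000001300000010 0x800000008000000080000001e0000001b00000010 3 5) 0 0 (step_sound _ 67 [(rhb2a0b9ccfb5cecd5.shift 0 1), (rhdf6eda84f2eabc48.shift 3 0)] (by decide +kernel))
noncomputable def rhb2e80ecb3a9bff29 : CRef := CRef.mk (Pat.mk 0x7e00000000 0xff0000001c 3 8) 0 0 (step_sound _ 3 [rh760a62bb8e478bc4, (rheb0810cc63b001d8.shift 2 0)] (by decide +kernel))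
noncomputable def rh6156b8b951a564ae : CRef := CRef.mk (Pat.mk 0x20000000e0000002c 0x30000007e0000006c 3 7) 0 0 (step_sound _ 36 [(rh3244c3cc8379b070.shift 0 1), (rhbca71ab025ef4262.shift 2 0)] (by decide +kernel))
noncomputable def rh58d498e90c2a8584 : CRef := CRef.mk (Pat.mk 0x2000000580000001000000010 0x8000000080000000f000000780000001800000010 3 7) 0 0 (step_sound _ 99 [(rh23180280a8fd1027.shift 0 2), (rhe072fffdd2fccf38.shift 3 0)] (by decide +kernel))
noncomputable def rhf0ee8fbc2a8fb7fd : CRef := CRef.mk (Pat.mk 0x3000000018000000000000001e00000004 0x320000001e000000030000001e00000004 3 6) 0 0 (step_sound _ 97 [(rh24ae073cf30720c4.shift 1 3), rh756bf0ac35c4fb2d] (by decide +kernel))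
noncomputable def rh27d46029b79b5417 : CRef := CRef.mk (Pat.mk 0x10000000300000001000000030000000000000000 0x1000000030000000300000003000000030000000100000001 3 2) 0 0 (step_sound _ 97 [rh1e309b005ffa1b36, (rh2145e1d24b96a57e.shift 0 2)] (by decide +kernel))
noncomputable def rh9428318bb0b2ec11 : CRef := CRef.mk (Pat.mk 0x200000002000000020000000a0000001a00000002 0x20000000200000003000000030000000f0000001a00000002 3 5) 0 0 (step_sound _ 96 [rh50fbb5868c909700, (rh8d8b2d3e5232322a.shift 0 1)] (by decide +kernel))
noncomputable def rhaaa1a39a7240885f : CRef := CRef.mk (Pat.mk 0x10000000200000002000000020000000a00000018 0x1000000030000000200000002000000030000000f00000018 3 5) 0 0 (step_sound _ 161 [rh1260e865c826edde, (rh50fbb5868c909700.shift 0 2)] (by decide +kernel))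
noncomputable def rh30249f162b4c4903 : CRef := CRef.mk (Pat.mk 0x2000000020000001a00000002 0x10000000300000003000000030000001e00000006 3 5) 0 0 (step_sound _ 129 [rh3ca48e2a6d60153d, rhcd496e99dbfe6492] (by decide +kernel))
noncomputable def rh05c024c471721d4f : CRef := CRef.mk (Pat.mk 0x2000000020000001a0000000200000000 0x200000002000000030000001e0000000600000004 3 5) 0 0 (step_sound _ 66 [(rh3244c3cc8379b070.shift 0 2), (rhd4b4beefcd67f51e.shift 1 0)] (by decide +kernel))
noncomputable def rh17301a1fc5baa461 : CRef := CRef.mk (Pat.mk 0x800000007000000000000001000000010 0x180000001f000000180000001000000010 3 5) 0 0 (step_sound _ 99 [(rh33e738c4ed385b9f.shift 0 3), rha7ea2acfcfca99b7] (by decide +kernel))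
noncomputable def rhc670820df3c06b83 : CRef := CRef.mk (Pat.mk 0x200000003000000320000002200000020 0x140000001e00000013000000320000003200000020 3 6) 0 0 (step_sound _ 132 [(rh04e571695666b5c1.shift 0 1), (rhdf6eda84f2eabc48.shift 4 0)] (by decide +kernel))
noncomputable def rh06f87a331c7e5d9a : CRef := CRef.mk (Pat.mk 0x410000000e 0x730000003e 3 7) 0 0 (step_sound _ 4 [rh3f8766e6ecb455ce, (rh45e9dfbd6bd5d256.shift 1 0)] (by decide +kernel))
noncomputable def rh7281bae95fecfb4c : CRef := CRef.mk (Pat.mk 0x20000000e000000120000000200000000 0x20000000f0000001e0000000300000001 3 5) 0 0 (step_sound _ 67 [rh5710f30ba40ee3ec, (rhb739f4f82bb681b4.shift 0 2)] (by decide +kernel))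
noncomputable def rh0efba8540849bf1a : CRef := CRef.mk (Pat.mk 0x400000000e00000001 0x700000003e00000003 3 7) 0 0 (step_sound _ 36 [(rh45e9dfbd6bd5d256.shift 1 1), rh80fcd6d0a18cb2dd] (by decide +kernel))
noncomputable def rh58068df83cc971eb : CRef := CRef.mk (Pat.mk 0x200000000700000008 0x380000001f00000018 3 6) 0 0 (step_sound _ 35 [(rh45e9dfbd6bd5d256.shift 0 1), rhe25b0a99195a5d59] (by decide +kernel))
noncomputable def rhc65f5dc89ddae11a : CRef := CRef.mk (Pat.mk 0x2000000020000001e0000000000000000 0x200000002000000020000001e0000000700000004 3 5) 0 0 (step_sound _ 33 [(rhd4b4beefcd67f51e.shift 1 0), (rheb0810cc63b001d8.shift 0 1)] (by decide +kernel))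
noncomputable def rha825774af78ab731 : CRef := CRef.mk (Pat.mk 0x10000000700000005000000040000000400000000 0x10000000700000007000000070000000600000002 3 3) 0 0 (step_sound _ 33 [(rh30f28c240d9ae43e.shift 0 1), (rh932754581e0f4330.shift 1 0)] (by decide +kernel))
noncomputable def rhd2c2708d43735168 : CRef := CRef.mk (Pat.mk 0x3600000002 0x700000003e00000003 3 7) 0 0 (step_sound _ 35 [(rh9890f9d77740bbed.shift 1 1), rheb0810cc63b001d8] (by decide +kernel))
noncomputable def rhd30c856bbcb3617d : CRef := CRef.mk (Pat.mk 0x120000001a0000000200000002 0x40000001f0000001b0000000200000002 3 5) 0 0 (step_sound _ 98 [(rh2f68792b6b779e96.shift 1 0), (rh3883177b4ab4119d.shift 0 2)] (by decide +kernel))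
noncomputable def rh603ed58715ad6e7b : CRef := CRef.mk (Pat.mk 0x20000000200000002000000020000000a0000000100000000 0x20000000200000002000000060000001e0000000300000001 3 5) 0 0 (step_sound _ 33 [(rh349ef37b577cdca1.shift 0 1), rh932754581e0f4330] (by decide +kernel))
noncomputable def rh734a7d8ffb9b479d : CRef := CRef.mk (Pat.mk 0x600000002000000030000000000000000 0x60000000600000002000000030000000300000001 3 3) 0 0 (step_sound _ 32 [(rh5c5e593799055d58.shift 0 1), rh8c01e5409b730b8b] (by decide +kernel))
noncomputable def rhec43fd55e50e0ef0 : CRef := CRef.mk (Pat.mk 0x10000001a000000020000000200000004 0x40000000f0000001a000000020000000600000004 3 5) 0 0 (step_sound _ 129 [(rh8ddb7009c5639c8a.shift 0 1), (rhd3458b32566d63f7.shift 1 0)] (by decide +kernel))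
noncomputable def rhe25191970535449e : CRef := CRef.mk (Pat.mk 0x3c00000018 0x700000003f00000018 3 7) 0 0 (step_sound _ 33 [(rh9890f9d77740bbed.shift 1 1), rhb739f4f82bb681b4] (by decide +kernel))
noncomputable def rhe22962262ebe4d70 : CRef := CRef.mk (Pat.mk 0x300000000000000030000000200000000 0x30000000300000001000000030000000300000002 3 2) 0 0 (step_sound _ 96 [(rh2145e1d24b96a57e.shift 0 1), rh93bb09469abb6e2d] (by decide +kernel))
noncomputable def rhb29f2a2dc5c2e536 : CRef := CRef.mk (Pat.mk 0x200000000000000030000000100000000 0x20000000200000003000000030000000300000001 3 2) 0 0 (step_sound _ 97 [(rh5c5e593799055d58.shift 0 1), rhd64d7be5d7225cce] (by decide +kernel))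
noncomputable def rh0fa62796f4844f7a : CRef := CRef.mk (Pat.mk 0x400000000e00000002 0x700000003e00000003 3 7) 0 0 (step_sound _ 36 [(rh45e9dfbd6bd5d256.shift 1 1), rheb0810cc63b001d8] (by decide +kernel))
noncomputable def rhc928c025bc3efe2d : CRef := CRef.mk (Pat.mk 0xc0000001c000000000000000400000000 0x20000000f0000001c000000040000000400000004 3 5) 0 0 (step_sound _ 66 [(rh277b01412deaec89.shift 0 1), (rh71222050f2c63a3a.shift 2 0)] (by decide +kernel))
noncomputable def rhf53ee62ce7c07a09 : CRef := CRef.mk (Pat.mk 0x1e0000000c000000080000000800000000 0x30000001e0000000c0000000c0000000c00000004 3 5) 0 0 (step_sound _ 34 [(rh0da3f8d18d3a0dfd.shift 0 1), (rh932754581e0f4330.shift 2 0)] (by decide +kernel))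
noncomputable def rh111b2aed802e4bf1 : CRef := CRef.mk (Pat.mk 0x1a000000020000000200000004 0x1000000030000001e000000020000000600000004 3 5) 0 0 (step_sound _ 129 [(rh5e05da03898e7023.shift 0 1), (rhd3458b32566d63f7.shift 1 0)] (by decide +kernel))
noncomputable def rh7c2892a6d7112911 : CRef := CRef.mk (Pat.mk 0x40000000700000001000000010000000100000000 0x50000000700000003000000030000000300000002 3 3) 0 0 (step_sound _ 33 [(rh24011d6715496e65.shift 0 1), rh55afc6a59410cf00] (by decide +kernel))
noncomputable def rha171e17c78ad84df : CRef := CRef.mk (Pat.mk 0x40000000700000001000000010000000100000000 0x40000000700000003000000030000000300000003 3 3) 0 0 (step_sound _ 97 [rh71222050f2c63a3a, rh84704cbf4ecfb89e] (by decide +kernel))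
noncomputable def rh1944aabe75e9b237 : CRef := CRef.mk (Pat.mk 0x40000000700000003000000010000000000000000 0x40000000700000003000000030000000300000003 3 3) 0 0 (step_sound _ 32 [rh71222050f2c63a3a, rh84704cbf4ecfb89e] (by decide +kernel))
noncomputable def rh87fb4af8316b9600 : CRef := CRef.mk (Pat.mk 0x30000000180000001c 0x300000001f0000001f 3 6) 0 0 (step_sound _ 33 [(rh24ae073cf30720c4.shift 1 1), rh5c36e97be8af272f] (by decide +kernel))
noncomputable def rh2977b00063528966 : CRef := CRef.mk (Pat.mk 0x10000000100000001000000020000000000000000 0x1000000010000000100000003000000030000000200000002 3 2) 0 0 (step_sound _ 97 [(rh2145e1d24b96a57e.shift 0 2), rh79ad7b82ec8c35e2] (by decide +kernel))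
noncomputable def rh16c2b5900981f814 : CRef := CRef.mk (Pat.mk 0x400000000f00000000 0x700000003f00000038 3 7) 0 0 (step_sound _ 36 [(rh45e9dfbd6bd5d256.shift 1 1), rh4ad5fc38f1b69f65] (by decide +kernel))
noncomputable def rha4d0a9d7ac239863 : CRef := CRef.mk (Pat.mk 0x3a00000002 0x70000003e00000003 3 6) 0 0 (step_sound _ 34 [(rhd5eb272e07a4e288.shift 0 1), rheb0810cc63b001d8] (by decide +kernel))
noncomputable def rh2e966cc2a51d47f2 : CRef := CRef.mk (Pat.mk 0x3a00000018 0x70000003f00000018 3 6) 0 0 (step_sound _ 34 [rhb739f4f82bb681b4, (rhd5eb272e07a4e288.shift 0 1)] (by decide +kernel))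
noncomputable def rh0c1c1b53bc5a1510 : CRef := CRef.mk (Pat.mk 0x20000000200000002000000020000000000000000 0x1000000030000000300000002000000030000000300000001 3 2) 0 0 (step_sound _ 33 [(rh3ca48e2a6d60153d.shift 0 1), rh7928877f9bf74a91] (by decide +kernel))
noncomputable def rh3743dbe66b959104 : CRef := CRef.mk (Pat.mk 0x20000000200000002000000010000000000000000 0x20000000300000003000000030000000100000001 3 2) 0 0 (step_sound _ 32 [rha47ad4ccca5a74e7, (rheea67dfebd0f8008.shift 0 1)] (by decide +kernel))
noncomputable def rh5bb33c923daa4a63 : CRef := CRef.mk (Pat.mk 0x4000000040000000e000000100000000000000000 0x4000000040000000f0000001c0000000800000008 3 5) 0 0 (step_sound _ 67 [(rh79ad7b82ec8c35e2.shift 2 0), (rhb739f4f82bb681b4.shift 0 2)] (by decide +kernel))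
noncomputable def rh4115c02c20bfbac7 : CRef := CRef.mk (Pat.mk 0x420000000e 0x730000003e 3 7) 0 0 (step_sound _ 4 [rh3244c3cc8379b070, (rh45e9dfbd6bd5d256.shift 1 0)] (by decide +kernel))
noncomputable def rh205a3275fc4c0218 : CRef := CRef.mk (Pat.mk 0x200000002000000020000000100000000 0x20000000200000003000000030000000300000001 3 2) 0 0 (step_sound _ 64 [(rh5c5e593799055d58.shift 0 1), rhd64d7be5d7225cce] (by decide +kernel))
noncomputable def rh2366e5c1b90b7ba0 : CRef := CRef.mk (Pat.mk 0x18000000050000000c 0x180000000f0000003e 3 6) 0 0 (step_sound _ 33 [(rh3fc040e777f1679e.shift 0 1), rh89ade209b3e28f13] (by decide +kernel))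
noncomputable def rh36f3c046739e754d : CRef := CRef.mk (Pat.mk 0x8000000180000000a0000000b00000001 0x40000000f0000001a0000000a0000000b00000001 3 5) 0 0 (step_sound _ 129 [(rh876344954e856662.shift 0 1), rhee230b994cc8b773] (by decide +kernel))
noncomputable def rh4892b0043cb46d74 : CRef := CRef.mk (Pat.mk 0x8000000180000000c0000000c00000000 0x8000000180000000f0000003c00000010 3 6) 0 0 (step_sound _ 36 [(rh55afc6a59410cf00.shift 3 0), (rhfdd338b587cdea0b.shift 0 1)] (by decide +kernel))
noncomputable def rh8af73b7df2d2ba44 : CRef := CRef.mk (Pat.mk 0x4000000070000000600000000 0x40000000400000004000000070000001e00000008 3 5) 0 0 (step_sound _ 130 [rh42afa1af9fffa0e1, (rh5c5e593799055d58.shift 1 1)] (by decide +kernel))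
noncomputable def rha95399fea6cf73c4 : CRef := CRef.mk (Pat.mk 0x6000000060000000100000001 0x2000000020000000200000006000000070000000300000001 3 3) 0 0 (step_sound _ 129 [(rh749b30baa5602f69.shift 0 1), rheea67dfebd0f8008] (by decide +kernel))
noncomputable def rh7522337cc24a4bff : CRef := CRef.mk (Pat.mk 0x600000000000000030000000200000000 0x60000000600000002000000030000000300000001 3 3) 0 0 (step_sound _ 97 [rh03dfdf12d5937476, (rh2f68792b6b779e96.shift 1 1)] (by decide +kernel))
noncomputable def rhf34d7f60b844633c : CRef := CRef.mk (Pat.mk 0x100000007c 0x3c0000007f 3 7) 0 0 (step_sound _ 35 [(rh3244c3cc8379b070.shift 2 0), rhab2ad169e49f9c5e] (by decide +kernel))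
noncomputable def rhc6b4e1276619034d : CRef := CRef.mk (Pat.mk 0x60000000300000003000000000000000100000000 0x4000000060000000300000003000000020000000300000003 3 3) 0 0 (step_sound _ 65 [(rh2f68792b6b779e96.shift 1 2), rhe437f081bfcdb831] (by decide +kernel))
noncomputable def rhf91b1398c815afd2 : CRef := CRef.mk (Pat.mk 0x200000003000000010000000000000000 0x20000000300000003000000030000000100000001 3 2) 0 0 (step_sound _ 32 [rh71222050f2c63a3a, (rheb4949bdfa5025cf.shift 0 1)] (by decide +kernel))
noncomputable def rhbdaf6b9afdad88f0 : CRef := CRef.mk (Pat.mk 0x1800000009000000030000000100000000 0x20000001a0000000f000000030000000100000001 3 5) 0 0 (step_sound _ 97 [(rh1c62b6193297d9e3.shift 0 3), rh84d1c02a8954c6a8] (by decide +kernel))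
noncomputable def rh2cfa6fcfa42c7f33 : CRef := CRef.mk (Pat.mk 0x80000000a0000001e0000000000000004 0xa0000000e0000001e0000000700000004 3 5) 0 0 (step_sound _ 34 [(rh1006c02ae4212ff0.shift 2 0), rhf206a6f053b27199] (by decide +kernel))
noncomputable def rhe68627a77ac15289 : CRef := CRef.mk (Pat.mk 0x7e00000000 0xff00000038 3 8) 0 0 (step_sound _ 4 [rh3d43094283b3e7fc, (rhe25b0a99195a5d59.shift 1 0)] (by decide +kernel))
noncomputable def rh121397a93ef3afd3 : CRef := CRef.mk (Pat.mk 0x4000000070000000600000000 0x40000000400000004000000070000001e00000008 3 5) 0 0 (step_sound _ 35 [(rh571950d89739e871.shift 1 0), (rhf48373e13d2bc128.shift 0 1)] (by decide +kernel))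
noncomputable def rhdc33407c88564b07 : CRef := CRef.mk (Pat.mk 0xc0000000c000000070000000200000000 0xc0000000c000000070000001e0000000c 3 5) 0 0 (step_sound _ 34 [rh42afa1af9fffa0e1, (rh71222050f2c63a3a.shift 2 0)] (by decide +kernel))
noncomputable def rhf32f861d69cb038f : CRef := CRef.mk (Pat.mk 0x4000000060000000e0000000000000000 0x4000000060000003e0000000300000002 3 6) 0 0 (step_sound _ 68 [rh9c40a739b57d6d20, (rhf48373e13d2bc128.shift 1 2)] (by decide +kernel))
noncomputable def rhc8a06f5deb37ed16 : CRef := CRef.mk (Pat.mk 0x600000004000000030000000600000000 0x20000000600000004000000070000001e00000008 3 5) 0 0 (step_sound _ 66 [rh42afa1af9fffa0e1, (rh50fbb5868c909700.shift 1 1)] (by decide +kernel))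
noncomputable def rh96217b139f91615f : CRef := CRef.mk (Pat.mk 0x10000000380000000400000008 0x100000001000000018000000380000001f00000008 3 6) 0 0 (step_sound _ 35 [(rhbfb5770941270498.shift 3 0), (rheea1a90336e79c71.shift 0 1)] (by decide +kernel))
noncomputable def rhd188899883dd9128 : CRef := CRef.mk (Pat.mk 0x40000001c0000000c00000000 0x400000004000000040000001c0000000f00000002 3 5) 0 0 (step_sound _ 130 [(rh2145e1d24b96a57e.shift 2 1), rhf5094ad2a427d4d3] (by decide +kernel))
noncomputable def rh7ff0088f8b90e433 : CRef := CRef.mk (Pat.mk 0xa00000018000000080000000000000004 0x40000000f00000018000000080000000c00000004 3 5) 0 0 (step_sound _ 35 [(rh79877ebd3ef475dd.shift 2 0), (rh876344954e856662.shift 0 1)] (by decide +kernel))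
noncomputable def rh7846bd5be405bf9f : CRef := CRef.mk (Pat.mk 0xa000000180000000a00000002 0x40000000f0000001a0000000a0000000a 3 5) 0 0 (step_sound _ 98 [(rh4cdd5d584b323226.shift 1 0), (rhb739f4f82bb681b4.shift 0 2)] (by decide +kernel))
noncomputable def rh32e1d3c95004e2c1 : CRef := CRef.mk (Pat.mk 0xe000000040000001800000008 0x100000003e000000370000001800000008 3 6) 0 0 (step_sound _ 100 [(rh8c2ed6f91ff57e60.shift 1 0), (rhaf9f2efc81a8312b.shift 0 2)] (by decide +kernel))
noncomputable def rh718561a92fdb3b64 : CRef := CRef.mk (Pat.mk 0x20000000e000000180000000200000004 0xa0000000e0000001c0000000f00000004 3 5) 0 0 (step_sound _ 34 [(rh2613c889e411427e.shift 1 0), rh75338e4519f617df] (by decide +kernel))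
noncomputable def rh980bb75dbe12bee9 : CRef := CRef.mk (Pat.mk 0x1c00000018000000020000000400000000 0xc0000001c000000180000000f0000000c00000008 3 5) 0 0 (step_sound _ 67 [(rh40241bd608e5be1a.shift 2 0), (rh4a42218a524ae9b7.shift 0 1)] (by decide +kernel))
noncomputable def rhc39ef2ee82f227a8 : CRef := CRef.mk (Pat.mk 0x1e000000000000000200000004 0x30000001e000000030000000600000004 3 5) 0 0 (step_sound _ 129 [(rh3244c3cc8379b070.shift 0 3), rh656906bde9814786] (by decide +kernel))
noncomputable def rh18300c7b4da4a157 : CRef := CRef.mk (Pat.mk 0x1000000018000000030000000700000000 0x10000000180000000b0000001f00000018 3 5) 0 0 (step_sound _ 35 [rh5857302fd5244a03, (rhf48373e13d2bc128.shift 0 1)] (by decide +kernel))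
noncomputable def rh9cdee070315fb032 : CRef := CRef.mk (Pat.mk 0x2000000030000000100000000 0x20000000200000003000000030000000300000001 3 2) 0 0 (step_sound _ 129 [(rh5c5e593799055d58.shift 0 1), rhd64d7be5d7225cce] (by decide +kernel))
noncomputable def rh41aa209c6ce1e2c5 : CRef := CRef.mk (Pat.mk 0x300000012000000020000000200000000 0x70000001f000000020000000200000002 3 5) 0 0 (step_sound _ 98 [(rh2fe78cc5ca4405d8.shift 0 3), rhc705a4e0321a1bff] (by decide +kernel))
noncomputable def rh9d15916a925d4940 : CRef := CRef.mk (Pat.mk 0x60000001a0000000200000000 0x50000000f0000001a0000000200000002 3 5) 0 0 (step_sound _ 1 [(rh2f68792b6b779e96.shift 1 0), rhfe82b29a01fedb14] (by decide +kernel))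
noncomputable def rha67bf539dc855cea : CRef := CRef.mk (Pat.mk 0x100000019000000010000000100000000 0x2000000030000001f000000010000000100000001 3 5) 0 0 (step_sound _ 129 [(rh2f68792b6b779e96.shift 0 1), rha7e1400665d04d54] (by decide +kernel))
noncomputable def rhc5170405e20c2ff6 : CRef := CRef.mk (Pat.mk 0x1c000000180000000600000004 0x20000001f0000001b0000000600000004 3 5) 0 0 (step_sound _ 97 [rh626f9e70778228d4, (rhb739f4f82bb681b4.shift 0 2)] (by decide +kernel))
noncomputable def rh794dbc5fabb61407 : CRef := CRef.mk (Pat.mk 0x3000000120000000200000002 0x40000000f0000001e0000000200000002 3 5) 0 0 (step_sound _ 67 [(rh5419adcd928dba20.shift 0 2), rh8ddb7009c5639c8a] (by decide +kernel))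
noncomputable def rh25903f9c548d38bc : CRef := CRef.mk (Pat.mk 0x800000008000000080000001c 0x800000008000000080000000f0000003c 3 6) 0 0 (step_sound _ 34 [(rh5c5e593799055d58.shift 2 0), rhe2b63c00a3d7bb73] (by decide +kernel))
noncomputable def rhe099e41d5ec1fc1c : CRef := CRef.mk (Pat.mk 0x6000000320000000200000002 0x10000000f0000003e0000000200000002 3 6) 0 0 (step_sound _ 67 [(rh09d4dfe75d4407d6.shift 1 2), rhfe82b29a01fedb14] (by decide +kernel))
noncomputable def rh35c3eb2315b5a0d0 : CRef := CRef.mk (Pat.mk 0xe00000004000000020000000300000000 0x3e00000007000000020000000300000001 3 6) 0 0 (step_sound _ 97 [(rh2612b4f73ba7c3b3.shift 0 3), rh932754581e0f4330] (by decide +kernel))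
noncomputable def rh365a543efd1956a6 : CRef := CRef.mk (Pat.mk 0x400000004000000040000000e 0x40000000400000004000000070000003e 3 6) 0 0 (step_sound _ 33 [(rh5c5e593799055d58.shift 1 0), rh79b3c29022acbdf3] (by decide +kernel))
noncomputable def rh1649dfcd93c5241d : CRef := CRef.mk (Pat.mk 0x10000000f000000040000000000000002 0x10000003f000000070000000200000002 3 6) 0 0 (step_sound _ 65 [(rh2612b4f73ba7c3b3.shift 0 2), rh9e07f76261b05888] (by decide +kernel))
noncomputable def rh8e4017b60595db60 : CRef := CRef.mk (Pat.mk 0x1e000000080000000800000004 0xb0000001e0000000c0000000c00000004 3 5) 0 0 (step_sound _ 34 [(rh5c5e593799055d58.shift 2 0), rhea1977e228a6d74a] (by decide +kernel))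
noncomputable def rh39a35a40b02cae73 : CRef := CRef.mk (Pat.mk 0xe0000001c00000008 0x10000000300000003e0000001f00000008 3 6) 0 0 (step_sound _ 68 [(rh5421160f8e9bcf07.shift 1 0), (rhaf9f2efc81a8312b.shift 0 1)] (by decide +kernel))
noncomputable def rh5c91976553e30c5f : CRef := CRef.mk (Pat.mk 0x70000000f00000004 0x8000000180000001f0000000f00000004 3 5) 0 0 (step_sound _ 67 [(rh18965a982d73c794.shift 0 1), rh5421160f8e9bcf07] (by decide +kernel))
noncomputable def rhf0741a49c22e0ac5 : CRef := CRef.mk (Pat.mk 0x80000000d00000003000000030000000000000000 0x1a0000000f00000003000000030000000100000001 3 5) 0 0 (step_sound _ 129 [rh1e309b005ffa1b36, (rh33e738c4ed385b9f.shift 0 4)] (by decide +kernel))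
noncomputable def rh1a48baf448afc5e7 : CRef := CRef.mk (Pat.mk 0xf00000020 0x380000001f00000030 3 6) 0 0 (step_sound _ 36 [(rh96851dee118c1ba3.shift 1 0), (rh9890f9d77740bbed.shift 0 1)] (by decide +kernel))
noncomputable def rhd4ae1995e458b8b0 : CRef := CRef.mk (Pat.mk 0x80000001c000000060000000400000000 0x60000000f0000001c000000060000000600000002 3 5) 0 0 (step_sound _ 130 [(rh03dfdf12d5937476.shift 1 0), (rh277b01412deaec89.shift 0 1)] (by decide +kernel))
noncomputable def rhf455a135017a3282 : CRef := CRef.mk (Pat.mk 0x40000001c000000080000000600000000 0x40000003c0000000f0000000600000002 3 6) 0 0 (step_sound _ 66 [(rh4dc133ee0ba1420a.shift 0 2), (rh932754581e0f4330.shift 1 0)] (by decide +kernel))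
noncomputable def rh46af0760dcab1b05 : CRef := CRef.mk (Pat.mk 0x40000001c000000180000000200000000 0x40000001f0000001b0000000200000002 3 5) 0 0 (step_sound _ 97 [rh3ea8f185d13574b4, (rhb739f4f82bb681b4.shift 0 2)] (by decide +kernel))
noncomputable def rh81bbffadf94eb391 : CRef := CRef.mk (Pat.mk 0xe000000060000000000000004 0x30000003e000000060000000400000004 3 6) 0 0 (step_sound _ 100 [rh0da3f8d18d3a0dfd, (rh18965a982d73c794.shift 1 2)] (by decide +kernel))
noncomputable def rh543d12d1ce2f400c : CRef := CRef.mk (Pat.mk 0x80000001a0000000600000006 0x30000000f0000001a0000000600000006 3 5) 0 0 (step_sound _ 97 [(rh2145e1d24b96a57e.shift 1 0), rhb43b15493b096632] (by decide +kernel))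
noncomputable def rh9a1c12e64abc044e : CRef := CRef.mk (Pat.mk 0x200000002000000030000000000000000 0x20000000200000003000000030000000300000001 3 2) 0 0 (step_sound _ 32 [(rh5c5e593799055d58.shift 0 1), rhd64d7be5d7225cce] (by decide +kernel))
noncomputable def rh2785d65cae5f9a52 : CRef := CRef.mk (Pat.mk 0x200000006000000180000000800000004 0x2000000060000001e0000000f00000004 3 5) 0 0 (step_sound _ 34 [(rh2613c889e411427e.shift 1 0), rhfa14be82af36723e] (by decide +kernel))
noncomputable def rhc33175bd4b4703fe : CRef := CRef.mk (Pat.mk 0x20000001e000000040000000000000000 0x2000000020000001e000000070000000400000004 3 5) 0 0 (step_sound _ 65 [(rh55a1f6c57a317ce6.shift 1 0), (rheb0810cc63b001d8.shift 0 2)] (by decide +kernel))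
noncomputable def rh61e27c8d1b2b4b1f : CRef := CRef.mk (Pat.mk 0x10000000f000000000000000100000000 0x2000000030000001f000000010000000100000001 3 5) 0 0 (step_sound _ 129 [rh2c7fc7a7cc8a47be, (rhf48373e13d2bc128.shift 0 3)] (by decide +kernel))
noncomputable def rh644d796282c12cc5 : CRef := CRef.mk (Pat.mk 0xe0000001a00000008 0x10000000300000001e0000001b00000008 3 6) 0 0 (step_sound _ 68 [(rh5421160f8e9bcf07.shift 1 0), (rheb0810cc63b001d8.shift 0 1)] (by decide +kernel))
noncomputable def rh38146ff2d053a047 : CRef := CRef.mk (Pat.mk 0x140000003400000018 0x360000003f00000018 3 6) 0 0 (step_sound _ 35 [(rh3244c3cc8379b070.shift 1 1), rh34517e326ddb5b25] (by decide +kernel))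
noncomputable def rh6505ba79e939e035 : CRef := CRef.mk (Pat.mk 0xf00000000000000300000002000000020 0x100000001f00000018000000300000003000000020 3 6) 0 0 (step_sound _ 100 [(rh96851dee118c1ba3.shift 0 3), (rhe072fffdd2fccf38.shift 4 0)] (by decide +kernel))
noncomputable def rha83d0a1d851c6a27 : CRef := CRef.mk (Pat.mk 0x40000000e00000002 0x70000003e00000003 3 6) 0 0 (step_sound _ 36 [(rhe3060b190bc0bc78.shift 0 1), rheb0810cc63b001d8] (by decide +kernel))
noncomputable def rh53509d91ff78ed56 : CRef := CRef.mk (Pat.mk 0x8000000380000000800000008 0x40000000f0000003c0000000800000008 3 6) 0 0 (step_sound _ 98 [(rh50fbb5868c909700.shift 2 0), (rhdbcea10a0fbe5ba6.shift 0 2)] (by decide +kernel))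
noncomputable def rh35024012c177fdf9 : CRef := CRef.mk (Pat.mk 0x3a00000002 0x700000003e00000003 3 7) 0 0 (step_sound _ 34 [(rh9890f9d77740bbed.shift 1 1), rheb0810cc63b001d8] (by decide +kernel))
noncomputable def rh848cc2cf8b37f7fe : CRef := CRef.mk (Pat.mk 0x200000002000000020000001c00000000 0x200000002000000030000001f00000003 3 5) 0 0 (step_sound _ 33 [(rh3244c3cc8379b070.shift 0 1), rha37779f9238271b6] (by decide +kernel))
noncomputable def rh1637e0e03b8b2f5c : CRef := CRef.mk (Pat.mk 0x3a00000018 0x700000003f00000018 3 7) 0 0 (step_sound _ 34 [(rh9890f9d77740bbed.shift 1 1), rhb739f4f82bb681b4] (by decide +kernel))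
noncomputable def rh0ba6c1112f8869be : CRef := CRef.mk (Pat.mk 0x30000001200000006000000060000000000000000 0x70000001e00000006000000060000000200000002 3 5) 0 0 (step_sound _ 130 [(rh1e309b005ffa1b36.shift 1 0), (rh2fe78cc5ca4405d8.shift 0 4)] (by decide +kernel))
noncomputable def rhf9b9d723e110efd6 : CRef := CRef.mk (Pat.mk 0x2000000070000000600000006 0xc0000001e000000070000000600000006 3 5) 0 0 (step_sound _ 98 [(rh5c5e593799055d58.shift 1 0), rh712526e472efe489] (by decide +kernel))
noncomputable def rhb835a85ee1719a0e : CRef := CRef.mk (Pat.mk 0xa0000001c000000040000000000000000 0x20000000f0000001c000000040000000400000004 3 5) 0 0 (step_sound _ 130 [(rh40241bd608e5be1a.shift 1 0), (rhb739f4f82bb681b4.shift 0 3)] (by decide +kernel))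
noncomputable def rh6b8b4586e78cebb8 : CRef := CRef.mk (Pat.mk 0x20000001c0000000c00000004 0x2000000060000001e0000000f00000004 3 5) 0 0 (step_sound _ 33 [(rh53b3c253cb0c65f4.shift 0 1), (rh616c75d1b5542aee.shift 1 0)] (by decide +kernel))
noncomputable def rhf3c0837ef67ba892 : CRef := CRef.mk (Pat.mk 0x140000003800000018 0x360000003f00000018 3 6) 0 0 (step_sound _ 34 [(rh3244c3cc8379b070.shift 1 1), rh34517e326ddb5b25] (by decide +kernel))
noncomputable def rh71bbb00ef1ecd8fb : CRef := CRef.mk (Pat.mk 0x1e000000000000000600000000 0x30000001e000000030000000600000004 3 5) 0 0 (step_sound _ 65 [(rheb0810cc63b001d8.shift 0 2), rhf8e4078eeb954a28] (by decide +kernel))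
noncomputable def rhc04ec862bf732639 : CRef := CRef.mk (Pat.mk 0xf00000020 0x380000001f00000030 3 6) 0 0 (step_sound _ 68 [(rh09a6fa4a6e52d577.shift 1 0), (rh428265de8cd3cd2d.shift 0 1)] (by decide +kernel))
noncomputable def rh98f77bd35f19ea77 : CRef := CRef.mk (Pat.mk 0x300000001000000030000000100000004 0x300000003000000030000000700000007 3 3) 0 0 (step_sound _ 97 [rh4288578123940957, rh71222050f2c63a3a] (by decide +kernel))
noncomputable def rh78e749d40ad93532 : CRef := CRef.mk (Pat.mk 0x1000000050000000400000007000000000000000000000000 0x1000000050000000700000007000000020000000200000002 3 3) 0 0 (step_sound _ 65 [(rhf9af042da61fc652.shift 1 0), (rhff0f29cb645b05f7.shift 0 2)] (by decide +kernel))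
noncomputable def rh5f2872893710e223 : CRef := CRef.mk (Pat.mk 0x4000000140000001400000018 0x400000004000000340000001f00000018 3 6) 0 0 (step_sound _ 35 [(rh2145e1d24b96a57e.shift 2 0), rh34517e326ddb5b25] (by decide +kernel))
noncomputable def rhb79954c9e92791e3 : CRef := CRef.mk (Pat.mk 0x30000000a0000001a 0x30000003e0000001f 3 6) 0 0 (step_sound _ 36 [(rh5419adcd928dba20.shift 0 1), rh6d571b54e8dd9e33] (by decide +kernel))
noncomputable def rh3f01f594f3e643e9 : CRef := CRef.mk (Pat.mk 0x400000010000000180000001800000008 0x40000003c0000001f0000001c00000008 3 6) 0 0 (step_sound _ 66 [(rh34517e326ddb5b25.shift 0 1), (rh92d527fd57e151ef.shift 2 0)] (by decide +kernel))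
noncomputable def rhd7f6e9900597045a : CRef := CRef.mk (Pat.mk 0x400000010000000180000001800000008 0x400000004000000340000001f0000001c00000008 3 6) 0 0 (step_sound _ 66 [(rh34517e326ddb5b25.shift 0 1), (rhdf6eda84f2eabc48.shift 2 0)] (by decide +kernel))
noncomputable def rh762a392bd40e4996 : CRef := CRef.mk (Pat.mk 0x1f00000000000000200000002000000020 0x100000001f00000018000000300000003000000020 3 6) 0 0 (step_sound _ 100 [(rh6da1cd319b2afcb1.shift 4 0), (rh96851dee118c1ba3.shift 0 3)] (by decide +kernel))
noncomputable def rh483fbfd538e8380f : CRef := CRef.mk (Pat.mk 0x1e000000000000000400000004 0x30000001e000000030000000600000004 3 5) 0 0 (step_sound _ 65 [rhddb9dd786dc1af2f, (rheb0810cc63b001d8.shift 0 2)] (by decide +kernel))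
noncomputable def rh11db11650236b5ac : CRef := CRef.mk (Pat.mk 0x1c000000020000000200000002 0x70000001f000000020000000200000002 3 5) 0 0 (step_sound _ 97 [(rh2f68792b6b779e96.shift 1 0), rha25c0e62bb8d55c9] (by decide +kernel))
noncomputable def rhd268c6b2d65bf10d : CRef := CRef.mk (Pat.mk 0x1a00000018 0x1f0000001f 3 5) 0 0 (step_sound _ 1 [rh086f6046fa319626, rh6e1685e3533aff0e, rhd8be3b7ca6adb62f, rhda02c4ce0b224328] (by decide +kernel))
noncomputable def rh59d9996d7c0033c3 : CRef := CRef.mk (Pat.mk 0x2000000020000001a0000000200000000 0x200000002000000020000001e0000000700000004 3 5) 0 0 (step_sound _ 66 [(rhd4b4beefcd67f51e.shift 1 0), (rheb0810cc63b001d8.shift 0 1)] (by decide +kernel))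
noncomputable def rh437765f6ebbbbe0a : CRef := CRef.mk (Pat.mk 0x80000000d000000050000000100000002 0xd0000000d000000050000000700000006 3 4) 0 0 (step_sound _ 34 [(rh71222050f2c63a3a.shift 2 0), rhc50a9cb3b374a536] (by decide +kernel))
noncomputable def rh64d912a96d263ce3 : CRef := CRef.mk (Pat.mk 0x1c000000080000000400000004 0x30000001f0000003c0000000400000004 3 6) 0 0 (step_sound _ 97 [(rha03f6e28ea70fc7d.shift 0 2), rhea1977e228a6d74a] (by decide +kernel))
noncomputable def rhbc155f4add859ecc : CRef := CRef.mk (Pat.mk 0x100000001800000018000000060000000400000004 0x320000001f0000001a000000060000000600000004 3 6) 0 0 (step_sound _ 129 [(rh7dcc577706dd2abd.shift 0 3), (rhdf6eda84f2eabc48.shift 1 0)] (by decide +kernel))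
noncomputable def rh695f888db18ad7c7 : CRef := CRef.mk (Pat.mk 0x20000000f00000000 0x30000001f00000038 3 6) 0 0 (step_sound _ 4 [rh639c5d61b5ce9eea, rh96851dee118c1ba3] (by decide +kernel))
noncomputable def rh06a1ed5f660558e7 : CRef := CRef.mk (Pat.mk 0x40000000500000003000000010000000100000000 0x60000000700000003000000030000000300000002 3 3) 0 0 (step_sound _ 33 [rh55afc6a59410cf00, (rhe709edaef4d7f968.shift 0 1)] (by decide +kernel))
noncomputable def rh102916a627c132e0 : CRef := CRef.mk (Pat.mk 0x200000000000000060000000600000002 0x30000000300000003000000060000000600000002 3 3) 0 0 (step_sound _ 97 [(rh2145e1d24b96a57e.shift 1 1), rh3ca48e2a6d60153d] (by decide +kernel))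
noncomputable def rhf32e81d879b06dff : CRef := CRef.mk (Pat.mk 0x20000000000000006000000060000000200000000 0x2000000020000000200000006000000070000000300000001 3 3) 0 0 (step_sound _ 129 [(rh2145e1d24b96a57e.shift 1 2), rh7928877f9bf74a91] (by decide +kernel))
noncomputable def rh3d47d54124e35533 : CRef := CRef.mk (Pat.mk 0x60000000000000002000000020000000200000000 0x4000000060000000200000002000000030000000300000001 3 3) 0 0 (step_sound _ 129 [(rh2f68792b6b779e96.shift 1 2), rh7928877f9bf74a91] (by decide +kernel))
noncomputable def rh9ed4f14fedc98aa8 : CRef := CRef.mk (Pat.mk 0x20000000200000002000000180000000c 0x200000002000000020000001f0000000f 3 5) 0 0 (step_sound _ 33 [(rhd3458b32566d63f7.shift 1 0), rhdd6fb7fb86915bef] (by decide +kernel))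
noncomputable def rhfa8c7f01b0685da6 : CRef := CRef.mk (Pat.mk 0x400000004000000040000001c00000000 0x400000004000000070000003e00000002 3 6) 0 0 (step_sound _ 33 [(rh932754581e0f4330.shift 1 0), (rhe3060b190bc0bc78.shift 0 1)] (by decide +kernel))
noncomputable def rhbba28ad09dff246e : CRef := CRef.mk (Pat.mk 0x3c00000018 0x3f0000001f 3 6) 0 0 (step_sound _ 33 [rhb739f4f82bb681b4, rheae1728ff4a56756] (by decide +kernel))
noncomputable def rhbabbbc3ca8d43602 : CRef := CRef.mk (Pat.mk 0x1c000000200000000400000004 0x30000001e000000340000000400000004 3 6) 0 0 (step_sound _ 97 [(rh96851dee118c1ba3.shift 1 2), rhea1977e228a6d74a] (by decide +kernel))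
noncomputable def rh116c50383f238874 : CRef := CRef.mk (Pat.mk 0x7000000100000001800000008 0x180000001f000000180000001800000008 3 5) 0 0 (step_sound _ 99 [(rh96851dee118c1ba3.shift 0 2), rhcd2b0816ad4d3d22] (by decide +kernel))
noncomputable def rh90fcc1b0fe0017ad : CRef := CRef.mk (Pat.mk 0x100000000e 0x7c0000000f 3 7) 0 0 (step_sound _ 35 [rh53b3c253cb0c65f4, (rh80f90a60d87caa0d.shift 1 0)] (by decide +kernel))
noncomputable def rhcba04ef744144677 : CRef := CRef.mk (Pat.mk 0x1000000000000000300000003 0x300000003000000030000000300000003 3 2) 0 0 (step_sound _ 97 [rh4c61a8d65f05c464, rh7d7eaefe27cdd7b0, rhd727bb41309b6841, rhdb2909ac5c854515] (by decide +kernel))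
noncomputable def rh9ca149b7c900214b : CRef := CRef.mk (Pat.mk 0x6000000030000000f00000004 0x80000001e0000001b0000000f00000004 3 5) 0 0 (step_sound _ 99 [(rh18965a982d73c794.shift 0 2), rh5ebae181afaa248a] (by decide +kernel))
noncomputable def rh06c72b10a7f52c35 : CRef := CRef.mk (Pat.mk 0x40000001c0000000c0000000000000002 0x40000001e0000000f0000000600000002 3 5) 0 0 (step_sound _ 65 [(rh06181a2dc624c6f8.shift 1 0), (rh53b3c253cb0c65f4.shift 0 2)] (by decide +kernel))
noncomputable def rh6e71b3129cd4e324 : CRef := CRef.mk (Pat.mk 0x800000000000000180000003800000000 0x800000008000000380000003f00000006 3 6) 0 0 (step_sound _ 34 [(rh981be6707e4d9088.shift 1 0), (rhab2ad169e49f9c5e.shift 0 1)] (by decide +kernel))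
noncomputable def rhc6abfc31d33d1d74 : CRef := CRef.mk (Pat.mk 0x1e000000000000000c0000001c 0x20000001e000000030000000f0000001c 3 5) 0 0 (step_sound _ 33 [rh626f9e70778228d4, rhb739f4f82bb681b4] (by decide +kernel))
noncomputable def rh87e3b43fee1f5cf3 : CRef := CRef.mk (Pat.mk 0x6000000020000001a00000018 0x400000006000000020000001b0000001f 3 5) 0 0 (step_sound _ 1 [(rh2f68792b6b779e96.shift 1 0), rh6e1685e3533aff0e] (by decide +kernel))
noncomputable def rhd9bed81dc2893f9b : CRef := CRef.mk (Pat.mk 0x1c00000004000000040000000400000000 0x20000001e00000007000000040000000400000004 3 5) 0 0 (step_sound _ 129 [(rh50fbb5868c909700.shift 1 1), rhd680bf2cf2441e84] (by decide +kernel))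
noncomputable def rhb379b8cbf170aa8c : CRef := CRef.mk (Pat.mk 0x1e000000000000000c0000001c 0x30000001e000000020000000f0000001c 3 5) 0 0 (step_sound _ 33 [rh7f8e4a6fbe0e1f11, rhb739f4f82bb681b4] (by decide +kernel))
noncomputable def rh4103e9b282220a03 : CRef := CRef.mk (Pat.mk 0x6000000180000001000000010 0x8000000080000000f000000180000001800000010 3 5) 0 0 (step_sound _ 99 [(rhb739f4f82bb681b4.shift 0 2), (rhe072fffdd2fccf38.shift 3 0)] (by decide +kernel))
noncomputable def rh423c0e480193ffca : CRef := CRef.mk (Pat.mk 0x30000000600000000000000180000001000000010 0xb0000001e00000008000000180000001800000010 3 5) 0 0 (step_sound _ 131 [(rhdf6eda84f2eabc48.shift 3 0), (rhf48373e13d2bc128.shift 0 4)] (by decide +kernel))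
noncomputable def rh5547deaa0b4f4876 : CRef := CRef.mk (Pat.mk 0x2000000180000001800000018 0xc0000000f000000180000001800000018 3 5) 0 0 (step_sound _ 99 [(rh2145e1d24b96a57e.shift 3 0), rh876344954e856662] (by decide +kernel))
noncomputable def rha737ec0e19a480ea : CRef := CRef.mk (Pat.mk 0x80000000b000000080000000500000000 0x80000000f000000180000000f00000004 3 5) 0 0 (step_sound _ 35 [(rh212808ab0c98286c.shift 0 1), (rh932754581e0f4330.shift 2 0)] (by decide +kernel))
noncomputable def rhd32eb68ef02c938c : CRef := CRef.mk (Pat.mk 0x40000000800000008000000080000000a00000003 0x40000000c00000008000000080000000c0000001e00000003 3 5) 0 0 (step_sound _ 163 [(rh50fbb5868c909700.shift 2 2), rhec4e2273cee5a1a1] (by decide +kernel))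
noncomputable def rh02f19566d2d8f909 : CRef := CRef.mk (Pat.mk 0x800000008000000080000000a0000000b00000008 0x8000000080000000c0000000c0000001e0000000b00000008 3 5) 0 0 (step_sound _ 98 [(rh3320e0c644173747.shift 0 1), (rh50fbb5868c909700.shift 2 0)] (by decide +kernel))
noncomputable def rh5a0eebbb8f6c4318 : CRef := CRef.mk (Pat.mk 0xd000000080000000800000008 0x10000000180000001f000000080000000800000008 3 5) 0 0 (step_sound _ 132 [(rh0a75138a5778265c.shift 0 1), (rhbaefcd01e0a8bca3.shift 3 0)] (by decide +kernel))
noncomputable def rha7e5b30d6e5612d1 : CRef := CRef.mk (Pat.mk 0x200000000000000030000000600000000 0x20000000200000002000000030000000700000005 3 3) 0 0 (step_sound _ 97 [rh03dfdf12d5937476, (rh55afc6a59410cf00.shift 1 0)] (by decide +kernel))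
noncomputable def rh2c7c8bc20544711c : CRef := CRef.mk (Pat.mk 0x5000000080000000b00000008 0x40000000f000000180000000f00000008 3 5) 0 0 (step_sound _ 99 [(rh50fbb5868c909700.shift 2 0), (rh6a9a2180bc6fbf47.shift 0 1)] (by decide +kernel))
noncomputable def rhe83c92073c5d4312 : CRef := CRef.mk (Pat.mk 0x2000000060000001a0000000800000000 0x400000006000000060000001a0000000f00000006 3 5) 0 0 (step_sound _ 33 [rh5d5b9b56c19874f2, (rha707fb719e87fe6e.shift 1 0)] (by decide +kernel))
noncomputable def rhb452d78269e1e1b5 : CRef := CRef.mk (Pat.mk 0x400000034000000140000000600000000 0x4000000340000001e0000000f00000008 3 6) 0 0 (step_sound _ 67 [(rh53b3c253cb0c65f4.shift 1 2), rh624abbc666bdf412] (by decide +kernel))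
noncomputable def rh4a33519bea140093 : CRef := CRef.mk (Pat.mk 0x1c0000000c000000000000001e00000000 0x1c0000000f000000030000001e00000002 3 5) 0 0 (step_sound _ 97 [(rh53b3c253cb0c65f4.shift 0 3), rh70e209139a9acc4a] (by decide +kernel))
noncomputable def rhde57d46008092c65 : CRef := CRef.mk (Pat.mk 0x180000001a000000020000000600000000 0x1f0000001b000000020000000600000004 3 5) 0 0 (step_sound _ 129 [(rh086f6046fa319626.shift 0 3), (rh55afc6a59410cf00.shift 1 0)] (by decide +kernel))
noncomputable def rha983756cb0c34718 : CRef := CRef.mk (Pat.mk 0x1c0000000c000000000000001e00000000 0x1c0000000f000000020000001e00000003 3 5) 0 0 (step_sound _ 97 [rh29ed1d9e79c1bb2d, (rh53b3c253cb0c65f4.shift 0 3)] (by decide +kernel))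
noncomputable def rh1c53595118beee12 : CRef := CRef.mk (Pat.mk 0x100000001000000018000000060000000000000000 0x1000000018000000180000000f0000000800000008 3 5) 0 0 (step_sound _ 67 [(rh53b3c253cb0c65f4.shift 0 2), (rhf9af042da61fc652.shift 3 0)] (by decide +kernel))
noncomputable def rh9a84fbbd10dca47a : CRef := CRef.mk (Pat.mk 0x100000001000000018000000000000000600000003 0x100000001800000018000000080000001e0000000b 3 5) 0 0 (step_sound _ 35 [rh18965a982d73c794, (rhdebc43b768884653.shift 3 0)] (by decide +kernel))
noncomputable def rh8e1a2b0d48cea5a0 : CRef := CRef.mk (Pat.mk 0x1800000018000000180000000200000000 0x1800000018000000180000000f0000000c 3 5) 0 0 (step_sound _ 35 [rh3cf2764919f34f47, (rh71222050f2c63a3a.shift 3 0)] (by decide +kernel))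
noncomputable def rha66cabc1cbc7876a : CRef := CRef.mk (Pat.mk 0x30000000a0000000800000008000000080000000400000000 0x30000001e0000000c00000008000000080000000c00000004 3 5) 0 0 (step_sound _ 35 [(rh2087805db43a2800.shift 0 1), (rh932754581e0f4330.shift 2 0)] (by decide +kernel))
noncomputable def rhf76cc44b9aa69e97 : CRef := CRef.mk (Pat.mk 0x80000000b0000000a00000008000000080000000800000000 0x80000000b0000001e0000000c0000000c0000000800000008 3 5) 0 0 (step_sound _ 98 [(rh932754581e0f4330.shift 2 2), rh9ed738c54848f885] (by decide +kernel))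
noncomputable def rh5a7dce561d0bf78d : CRef := CRef.mk (Pat.mk 0x600000003000000000000000200000000 0x50000000700000003000000020000000200000002 3 3) 0 0 (step_sound _ 65 [(rh2f68792b6b779e96.shift 1 1), rhe286c75f2739cce2] (by decide +kernel))
noncomputable def rhf7746e8ae5840ea8 : CRef := CRef.mk (Pat.mk 0x40000000c0000000d00000004 0x2000000060000003c0000000f00000004 3 6) 0 0 (step_sound _ 68 [(rh24ae073cf30720c4.shift 0 1), (rh2e8814637c3f6d46.shift 1 0)] (by decide +kernel))
noncomputable def rh60563dce9de46764 : CRef := CRef.mk (Pat.mk 0x80000001a000000060000000200000000 0x60000000f0000001a000000060000000600000004 3 5) 0 0 (step_sound _ 129 [(rhd4b4beefcd67f51e.shift 1 0), (rhe8ba100882c6d16d.shift 0 1)] (by decide +kernel))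
noncomputable def rha1a11db028bf1d50 : CRef := CRef.mk (Pat.mk 0x6000000140000003400000004 0x80000000f0000001e0000003400000004 3 6) 0 0 (step_sound _ 67 [(rhb739f4f82bb681b4.shift 1 1), rhd62aa8c143bedf8f] (by decide +kernel))
noncomputable def rh7ddfb8cba82847ee : CRef := CRef.mk (Pat.mk 0x4000000040000004c0000000c00000000 0x4000000040000007c0000000f00000002 3 7) 0 0 (step_sound _ 68 [(rh361cc68994bd8a63.shift 2 1), rhf5094ad2a427d4d3] (by decide +kernel))
noncomputable def rh509847d0837ffcc5 : CRef := CRef.mk (Pat.mk 0x2000000020000000b0000000300000000 0x2000000020000001b0000001f00000004 3 5) 0 0 (step_sound _ 34 [(rh55afc6a59410cf00.shift 1 0), (rheff610e725081997.shift 0 1)] (by decide +kernel))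
noncomputable def rhd06a3fb214439eaf : CRef := CRef.mk (Pat.mk 0x3000000006 0x3c0000001f 3 6) 0 0 (step_sound _ 3 [(rh3fc040e777f1679e.shift 1 0), rh94c299b6f86e55c1] (by decide +kernel))
noncomputable def rhf43630dd991c80b6 : CRef := CRef.mk (Pat.mk 0x30000001a0000000200000000 0x50000000f0000001a0000000200000002 3 5) 0 0 (step_sound _ 1 [rh50fbb5868c909700, rh8ddb7009c5639c8a] (by decide +kernel))
noncomputable def rh6e1b1d58142ab3a3 : CRef := CRef.mk (Pat.mk 0x20000001b0000000200000002 0x40000001f0000001b0000000200000002 3 5) 0 0 (step_sound _ 98 [(rh2f68792b6b779e96.shift 1 0), (rh940c5ff771d5b174.shift 0 2)] (by decide +kernel))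
noncomputable def rhe063894bee813cd5 : CRef := CRef.mk (Pat.mk 0x40000000c000000180000001e00000000 0x40000000f0000001b0000001e00000002 3 5) 0 0 (step_sound _ 97 [rh70e209139a9acc4a, (rhb739f4f82bb681b4.shift 0 2)] (by decide +kernel))
noncomputable def rh8ca74fa25325e393 : CRef := CRef.mk (Pat.mk 0x1000000003000000020000000300000000 0x40000001e00000003000000020000000300000001 3 5) 0 0 (step_sound _ 129 [(rh04e571695666b5c1.shift 0 1), rh932754581e0f4330] (by decide +kernel))
noncomputable def rh625230e026c1189b : CRef := CRef.mk (Pat.mk 0x1000000003000000020000000600000000 0x40000001e00000003000000020000000600000004 3 5) 0 0 (step_sound _ 129 [(rh04e571695666b5c1.shift 0 1), (rh55afc6a59410cf00.shift 1 0)] (by decide +kernel))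
noncomputable def rh7f94bc4e3805a7a0 : CRef := CRef.mk (Pat.mk 0x200000002000000030000000040000000e00000000 0x200000003000000030000000170000003e00000010 3 6) 0 0 (step_sound _ 36 [(rhdebc43b768884653.shift 4 0), (rhe3060b190bc0bc78.shift 0 1)] (by decide +kernel))
noncomputable def rh43cd74d7441b0654 : CRef := CRef.mk (Pat.mk 0x1000000003000000020000000200000001 0x40000001e00000003000000020000000300000001 3 5) 0 0 (step_sound _ 129 [(rh04e571695666b5c1.shift 0 1), rh79877ebd3ef475dd] (by decide +kernel))
noncomputable def rh409f6b1b8a667f8d : CRef := CRef.mk (Pat.mk 0x1000000003000000020000000200000004 0x40000001e00000003000000020000000600000004 3 5) 0 0 (step_sound _ 129 [(rh04e571695666b5c1.shift 0 1), (rhd3458b32566d63f7.shift 1 0)] (by decide +kernel))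
noncomputable def rhee3972788bccf7a1 : CRef := CRef.mk (Pat.mk 0xe000000020000000600000006 0x190000000f000000060000000600000006 3 5) 0 0 (step_sound _ 96 [rh4fc80024ed3db095, rh50fbb5868c909700] (by decide +kernel))
noncomputable def rh8f35b0f4caf214bc : CRef := CRef.mk (Pat.mk 0x20000000300000003000000040000000000000000 0x30000000300000003000000060000000600000002 3 3) 0 0 (step_sound _ 65 [rh3cb04db3dd2b6a55, (rh55afc6a59410cf00.shift 1 1)] (by decide +kernel))
noncomputable def rhc1ae51bfba5f1e57 : CRef := CRef.mk (Pat.mk 0x4000000040000000e0000000400000000 0x4000000040000000f0000003c00000008 3 6) 0 0 (step_sound _ 35 [(rh55afc6a59410cf00.shift 2 0), (rh6292bd8784ece55f.shift 0 1)] (by decide +kernel))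
noncomputable def rh91eb5f83fd73c291 : CRef := CRef.mk (Pat.mk 0x20000000e000000020000000200000000 0x2000000020000001e000000030000000300000001 3 5) 0 0 (step_sound _ 64 [rh03dfdf12d5937476, (rh18965a982d73c794.shift 0 2)] (by decide +kernel))
noncomputable def rhb8546cc3e1ee40c7 : CRef := CRef.mk (Pat.mk 0xc0000004f00000000 0xc0000007f00000038 3 7) 0 0 (step_sound _ 36 [(rh2fe78cc5ca4405d8.shift 2 1), rh4ad5fc38f1b69f65] (by decide +kernel))
noncomputable def rhb82947d8142b45d6 : CRef := CRef.mk (Pat.mk 0x8e0000001a0000001000000010 0x20000000fe0000001b0000001000000010 3 8) 0 0 (step_sound _ 100 [(rh04e571695666b5c1.shift 3 0), (rheb0810cc63b001d8.shift 0 2)] (by decide +kernel))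
noncomputable def rh29bcbb0ab6bb5c06 : CRef := CRef.mk (Pat.mk 0x800000008000000090000000c00000000 0x8000000080000000f0000001e00000010 3 5) 0 0 (step_sound _ 36 [(rh23e41f97710e9f38.shift 0 1), (rh55afc6a59410cf00.shift 3 0)] (by decide +kernel))
noncomputable def rhd9019e070e902b32 : CRef := CRef.mk (Pat.mk 0x80000000a0000001c00000000 0x8000000080000000b0000001e00000030 3 6) 0 0 (step_sound _ 33 [(rh3244c3cc8379b070.shift 0 1), (rhba04d77b039f69d9.shift 1 0)] (by decide +kernel))
noncomputable def rhae99bfc6b523e672 : CRef := CRef.mk (Pat.mk 0x50000000500000006000000000000000000000000 0x4000000050000000700000006000000020000000200000002 3 3) 0 0 (step_sound _ 65 [rh4f5da4dafb6dd81a, (rh5c5e593799055d58.shift 1 2)] (by decide +kernel))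
noncomputable def rh3fc1b2455fa84f18 : CRef := CRef.mk (Pat.mk 0x100000001000000018000000030000000600000000 0x1000000018000000180000000b0000001e00000008 3 5) 0 0 (step_sound _ 35 [(rhdebc43b768884653.shift 3 0), (rhf48373e13d2bc128.shift 0 1)] (by decide +kernel))
noncomputable def rh88444238f5d80176 : CRef := CRef.mk (Pat.mk 0x800000008000000190000000c00000000 0x8000000080000001b0000001f00000010 3 5) 0 0 (step_sound _ 33 [rh252658d5f9b21822, (rh53b3c253cb0c65f4.shift 0 1)] (by decide +kernel))
noncomputable def rhc43c2d79be381ab2 : CRef := CRef.mk (Pat.mk 0x40000000c0000001c000000080000000000000000 0xc0000000c0000001c0000000f0000000600000004 3 5) 0 0 (step_sound _ 66 [(rhea7a1800d6f053bd.shift 2 0), (rhf5094ad2a427d4d3.shift 0 1)] (by decide +kernel))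
noncomputable def rhf07568ca7607612e : CRef := CRef.mk (Pat.mk 0x200000002000000120000000a00000000 0x2000000020000001a0000000f00000005 3 5) 0 0 (step_sound _ 34 [(rh55afc6a59410cf00.shift 1 0), rhd05b50139866a421] (by decide +kernel))
noncomputable def rh538191c675b00b35 : CRef := CRef.mk (Pat.mk 0x6000000060000001a 0x60000003f0000001b 3 6) 0 0 (step_sound _ 35 [rha9e1a5d55b907abf, rhb739f4f82bb681b4] (by decide +kernel))
noncomputable def rh2f2b90f0470456e4 : CRef := CRef.mk (Pat.mk 0xe000000040000003000000020 0x100000001f0000003e0000003000000020 3 6) 0 0 (step_sound _ 68 [(rh79dc0c3e8356dae3.shift 0 1), (rha844442475d131dc.shift 1 1), (rhfbd389a23429a7e6.shift 1 0)] (by decide +kernel))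
noncomputable def rhd89ac809456b9f74 : CRef := CRef.mk (Pat.mk 0x180000009e00000000 0x18000000fe00000007 3 8) 0 0 (step_sound _ 37 [(rh2fe78cc5ca4405d8.shift 3 1), rheae1728ff4a56756] (by decide +kernel))
noncomputable def rhd9397e4126e81439 : CRef := CRef.mk (Pat.mk 0x400000004000000070000000400000000 0x4000000040000000f0000003c00000008 3 6) 0 0 (step_sound _ 35 [(rh4a0b10776449c3e9.shift 0 1), (rh55afc6a59410cf00.shift 2 0)] (by decide +kernel))
noncomputable def rh2853455034e02106 : CRef := CRef.mk (Pat.mk 0xc00000004000000030000000600000000 0x80000000c00000004000000070000001e00000008 3 5) 0 0 (step_sound _ 35 [(rh807d78fa6ca78542.shift 2 0), (rhf48373e13d2bc128.shift 0 1)] (by decide +kernel))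
noncomputable def rh0767028e5e81ea83 : CRef := CRef.mk (Pat.mk 0xc00000018000000080000000700000000 0x40000001c00000018000000080000000f00000018 3 5) 0 0 (step_sound _ 35 [(rh50fbb5868c909700.shift 2 1), rh7a463014b1a15a7b] (by decide +kernel))
noncomputable def rhaeecc7287588a69b : CRef := CRef.mk (Pat.mk 0x30000000600000006000000000000000000000000 0x1000000070000000600000006000000020000000200000002 3 3) 0 0 (step_sound _ 65 [(rh50fbb5868c909700.shift 0 2), (rhea7a1800d6f053bd.shift 1 0)] (by decide +kernel))
noncomputable def rhd6a58b3dfd819371 : CRef := CRef.mk (Pat.mk 0xc0000000c000000180000000200000000 0xc0000000c000000180000000f0000000c 3 5) 0 0 (step_sound _ 35 [rh3cf2764919f34f47, (rh7b1f1fb55310c477.shift 2 0)] (by decide +kernel))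
noncomputable def rhc4d60e5c12185eb6 : CRef := CRef.mk (Pat.mk 0x3a00000010 0x3e00000037 3 6) 0 0 (step_sound _ 34 [(rhe25b0a99195a5d59.shift 1 0), rheae1728ff4a56756] (by decide +kernel))
noncomputable def rh8345db6d942cbb70 : CRef := CRef.mk (Pat.mk 0x400000004000000260000000600000000 0x400000004000000370000001e00000008 3 6) 0 0 (step_sound _ 35 [(rh241ddf12d4fc9298.shift 0 1), (rh55afc6a59410cf00.shift 2 0)] (by decide +kernel))
noncomputable def rh048a568a71929d31 : CRef := CRef.mk (Pat.mk 0x9e00000018 0x7000000fe00000018 3 8) 0 0 (step_sound _ 37 [(rh361cc68994bd8a63.shift 3 0), (rhd5eb272e07a4e288.shift 0 1)] (by decide +kernel))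
noncomputable def rh2a18a8ec93879ad5 : CRef := CRef.mk (Pat.mk 0x60000000e0000001a0000000200000000 0x60000000e0000001a0000000f0000000c 3 5) 0 0 (step_sound _ 35 [rh5d5b9b56c19874f2, (rh7b1f1fb55310c477.shift 2 0)] (by decide +kernel))
noncomputable def rhb9721bd954d8cfec : CRef := CRef.mk (Pat.mk 0x1800000018000000030000000000000000 0x1000000018000000180000000f0000000800000008 3 5) 0 0 (step_sound _ 67 [(rh1c62b6193297d9e3.shift 0 2), (rhea7a1800d6f053bd.shift 3 0)] (by decide +kernel))
noncomputable def rhbbae023e1eef1d4d : CRef := CRef.mk (Pat.mk 0xa0000001a0000000e 0x1f0000001b0000001e 3 5) 0 0 (step_sound _ 32 [(rhb4dc27738f3ce342.shift 0 1), rhf48373e13d2bc128] (by decide +kernel))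
noncomputable def rh307639ad70b4c542 : CRef := CRef.mk (Pat.mk 0x1a0000008e00000004 0x1b000000fe00000006 3 8) 0 0 (step_sound _ 36 [(rh3244c3cc8379b070.shift 0 1), (rh7a89dccc93a85add.shift 1 0)] (by decide +kernel))
noncomputable def rh1b048598a8b37bd5 : CRef := CRef.mk (Pat.mk 0xe0000000600000004 0x2000000030000003e0000000600000004 3 6) 0 0 (step_sound _ 97 [(rh2145e1d24b96a57e.shift 1 0), (rhb762f327c85d41a0.shift 0 1)] (by decide +kernel))
noncomputable def rh9fa40f28a4956172 : CRef := CRef.mk (Pat.mk 0x20000001a0000000e00000006 0xc0000000f0000001a0000000e00000006 3 5) 0 0 (step_sound _ 99 [(rh5c5e593799055d58.shift 2 0), rhe8ba100882c6d16d] (by decide +kernel))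
noncomputable def rh5be47f9524d73d54 : CRef := CRef.mk (Pat.mk 0x8000000180000000a0000000b00000001 0x40000000f0000001a0000000a0000000b00000001 3 5) 0 0 (step_sound _ 130 [(rh50fbb5868c909700.shift 2 1), rhead28a1f2ee4064b] (by decide +kernel))
noncomputable def rh878ed7d45cbc8a83 : CRef := CRef.mk (Pat.mk 0x180000000a0000000c0000000000000000 0x8000000180000000f0000000c0000000400000004 3 5) 0 0 (step_sound _ 98 [(rh1e309b005ffa1b36.shift 2 0), (rh53b3c253cb0c65f4.shift 0 3)] (by decide +kernel))
noncomputable def rh3347b70416d4b564 : CRef := CRef.mk (Pat.mk 0xc0000004c0000000400000004 0x20000000f0000007c0000000400000004 3 7) 0 0 (step_sound _ 68 [rh277b01412deaec89, (rh2fe78cc5ca4405d8.shift 2 2)] (by decide +kernel))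
noncomputable def rha7b253017a5af1e0 : CRef := CRef.mk (Pat.mk 0x600000030 0x1f0000003c 3 6) 0 0 (step_sound _ 35 [(rhd6e447e81774439e.shift 1 0), rhea383a553bc42003] (by decide +kernel))
noncomputable def rha7d9508cd8db1401 : CRef := CRef.mk (Pat.mk 0x60000000200000006000000060000000000000000 0x60000000600000006000000070000000300000001 3 3) 0 0 (step_sound _ 33 [rh7928877f9bf74a91, (rhee230b994cc8b773.shift 1 1)] (by decide +kernel))
noncomputable def rh3e596153592bbb27 : CRef := CRef.mk (Pat.mk 0x600000002000000060000000600000000 0x10000000700000007000000060000000600000002 3 3) 0 0 (step_sound _ 1 [rh3ca48e2a6d60153d, (rhee230b994cc8b773.shift 1 0)] (by decide +kernel))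
noncomputable def rh762aa57f284f76f4 : CRef := CRef.mk (Pat.mk 0x20000001a0000000300000000 0x2000000020000001a0000000f00000005 3 5) 0 0 (step_sound _ 129 [rh932754581e0f4330, rhef77c6b312a36259] (by decide +kernel))
noncomputable def rh9eb5c6fb4065164f : CRef := CRef.mk (Pat.mk 0x2000000020000001b0000000200000000 0x2000000020000001b0000001f00000004 3 5) 0 0 (step_sound _ 34 [(rh55afc6a59410cf00.shift 1 0), (rhde244f29c5529f6d.shift 0 1)] (by decide +kernel))
noncomputable def rh9c846a23e89054fa : CRef := CRef.mk (Pat.mk 0x1e000000180000000c00000004 0x20000001e0000001b0000000f00000004 3 5) 0 0 (step_sound _ 33 [(rh53b3c253cb0c65f4.shift 0 1), rh626f9e70778228d4] (by decide +kernel))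
noncomputable def rhb7ec845def264386 : CRef := CRef.mk (Pat.mk 0x300000002000000030000001000000000 0x10000000300000002000000030000001e00000004 3 5) 0 0 (step_sound _ 33 [(rh50fbb5868c909700.shift 0 1), rhf8edb192cdea7ada] (by decide +kernel))
noncomputable def rh4207619a77a8dc3c : CRef := CRef.mk (Pat.mk 0x600000002000000030000001000000000 0x40000000600000002000000030000001e00000004 3 5) 0 0 (step_sound _ 33 [(rh2f68792b6b779e96.shift 1 1), rhf8edb192cdea7ada] (by decide +kernel))
noncomputable def rh2e3d6d9e5271d3d6 : CRef := CRef.mk (Pat.mk 0xe00000004000000300000002000000020 0x100000003e00000017000000300000003000000020 3 6) 0 0 (step_sound _ 132 [(rhaf9f2efc81a8312b.shift 0 3), (rhdf6eda84f2eabc48.shift 4 0)] (by decide +kernel))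
noncomputable def rhfde929cdc02af4f4 : CRef := CRef.mk (Pat.mk 0x10000000200000002000000030000001000000000 0x10000000300000002000000030000001e00000004 3 5) 0 0 (step_sound _ 33 [rhf8edb192cdea7ada, (rhffd04209dc8ea796.shift 0 1)] (by decide +kernel))
noncomputable def rhd0d6cdfd26c03835 : CRef := CRef.mk (Pat.mk 0x40000000200000002000000030000001000000000 0x40000000600000002000000030000001e00000004 3 5) 0 0 (step_sound _ 33 [(rhbaefcd01e0a8bca3.shift 1 1), rhf8edb192cdea7ada] (by decide +kernel))
noncomputable def rh8eae5ab75b2079be : CRef := CRef.mk (Pat.mk 0x600000006000000020000000e00000000 0x600000006000000060000000f00000019 3 5) 0 0 (step_sound _ 32 [rh49bdc49f6b132823, rh932754581e0f4330] (by decide +kernel))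
noncomputable def rh3af666f171e8cb58 : CRef := CRef.mk (Pat.mk 0x4000000030000000300000002 0x20000000600000006000000030000000300000003 3 3) 0 0 (step_sound _ 97 [(rh2f68792b6b779e96.shift 1 0), rh503dd4575245365b] (by decide +kernel))
noncomputable def rh0a7b8a046be12bfe : CRef := CRef.mk (Pat.mk 0x600000005000000040000000400000000 0x80000001e00000007000000040000000400000004 3 5) 0 0 (step_sound _ 97 [(rh712526e472efe489.shift 0 1), (rh7b1f1fb55310c477.shift 1 0)] (by decide +kernel))
noncomputable def rhf5ea7b418e9de72b : CRef := CRef.mk (Pat.mk 0x2000000020000000e0000000200000000 0x100000003000000030000001e0000000200000002 3 5) 0 0 (step_sound _ 96 [rhe286c75f2739cce2, (rhf48373e13d2bc128.shift 0 2)] (by decide +kernel))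
noncomputable def rh361215bab1155e5e : CRef := CRef.mk (Pat.mk 0x4f0000000c 0x380000007f0000000c 3 7) 0 0 (step_sound _ 36 [(rh361cc68994bd8a63.shift 2 0), (rh9890f9d77740bbed.shift 0 1)] (by decide +kernel))
noncomputable def rhd1c4426d50152b76 : CRef := CRef.mk (Pat.mk 0x10000000100000001a0000008e00000000 0x10000000100000001b000000fe00000020 3 8) 0 0 (step_sound _ 36 [(rh3244c3cc8379b070.shift 0 1), (rhf8edb192cdea7ada.shift 3 0)] (by decide +kernel))
noncomputable def rh865f061c75d22c64 : CRef := CRef.mk (Pat.mk 0x1c0000000a0000000800000000 0x300000001e0000000b0000000800000008 3 6) 0 0 (step_sound _ 97 [(rhd4d36b4007f546b1.shift 1 0), (rheb0810cc63b001d8.shift 0 2)] (by decide +kernel))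
noncomputable def rh3ac9e51cb0e94fa3 : CRef := CRef.mk (Pat.mk 0x6000000050000000500000000 0x2000000020000000200000006000000070000000500000004 3 3) 0 0 (step_sound _ 129 [(rh1b9584b0a9395bfc.shift 0 1), (rh7b1f1fb55310c477.shift 1 0)] (by decide +kernel))
noncomputable def rhb3cb3524985be5d0 : CRef := CRef.mk (Pat.mk 0x600000003000000180000001000000010 0x80000001e0000000b000000180000001800000010 3 5) 0 0 (step_sound _ 131 [(rh18965a982d73c794.shift 0 3), (rhdf6eda84f2eabc48.shift 3 0)] (by decide +kernel))
noncomputable def rhfe040d39a138ede2 : CRef := CRef.mk (Pat.mk 0xc000000190000000800000008 0x100000001f0000001b0000000800000008 3 5) 0 0 (step_sound _ 97 [(rhb739f4f82bb681b4.shift 0 2), rhd9892b94547901dd] (by decide +kernel))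
noncomputable def rh59168b49c03abbdc : CRef := CRef.mk (Pat.mk 0x80000001c0000000c00000004 0x4000000060000000f0000001c0000000c0000000c 3 5) 0 0 (step_sound _ 98 [rh277b01412deaec89, (rh3e595262c1b737ad.shift 2 0)] (by decide +kernel))
noncomputable def rh9da7ea51113f4f62 : CRef := CRef.mk (Pat.mk 0xa000000120000000200000002 0x50000000f0000001a0000000200000002 3 5) 0 0 (step_sound _ 98 [(rh2f68792b6b779e96.shift 1 0), rh5bec6b7f9ab41c51] (by decide +kernel))
noncomputable def rhbcdeaf385a0510d6 : CRef := CRef.mk (Pat.mk 0x1a0000000600000006 0x1b0000003f00000006 3 6) 0 0 (step_sound _ 35 [(rh53b3c253cb0c65f4.shift 0 1), rhb762f327c85d41a0] (by decide +kernel))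
noncomputable def rhf248cd2f3686fd0f : CRef := CRef.mk (Pat.mk 0x2000000030000000040000000e00000000 0x20000000300000003e0000001f00000010 3 6) 0 0 (step_sound _ 68 [(rh03888c09cb5c5df2.shift 0 1), (rh15cff630394bbef3.shift 1 1), (rhe5461a55c1e091b6.shift 1 0)] (by decide +kernel))
noncomputable def rh5f2c415bfe1969e8 : CRef := CRef.mk (Pat.mk 0x400000000000000020000001e00000000 0x400000004000000060000003e00000003 3 6) 0 0 (step_sound _ 1 [(rh4eb86e337e02d68a.shift 1 0), rheb0810cc63b001d8] (by decide +kernel))
noncomputable def rhc8042e18ce54d8f1 : CRef := CRef.mk (Pat.mk 0x600000003000000040000000c00000000 0x80000001e00000007000000040000000c00000008 3 5) 0 0 (step_sound _ 131 [(rh18965a982d73c794.shift 0 3), (rh85e0f5cc78e9cbe0.shift 2 0)] (by decide +kernel))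
noncomputable def rha327c50ba1fc214e : CRef := CRef.mk (Pat.mk 0x20000000300000003000000020000000000000000 0x4000000060000000700000003000000020000000200000002 3 3) 0 0 (step_sound _ 162 [(rh2f68792b6b779e96.shift 1 2), rh3eb26739ea0a224c] (by decide +kernel))
noncomputable def rhe68e60e4fb4ed684 : CRef := CRef.mk (Pat.mk 0x700000008000000180000000c00000000 0x180000000f00000008000000180000001c00000004 3 5) 0 0 (step_sound _ 131 [(rh7e2967714be94ca8.shift 0 1), (rh932754581e0f4330.shift 2 0)] (by decide +kernel))
noncomputable def rhb69bc438e154a59a : CRef := CRef.mk (Pat.mk 0x6000000060000000300000000 0x2000000020000000200000006000000060000000700000001 3 3) 0 0 (step_sound _ 129 [(rh3e595262c1b737ad.shift 1 1), rh932754581e0f4330] (by decide +kernel))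
noncomputable def rh2d13350b996028f0 : CRef := CRef.mk (Pat.mk 0x2000000180000000c0000000c 0xc0000000f000000180000000c0000000c 3 5) 0 0 (step_sound _ 99 [(rh5c5e593799055d58.shift 2 0), rh876344954e856662] (by decide +kernel))
noncomputable def rha041b287951cc16c : CRef := CRef.mk (Pat.mk 0x100000003a 0x370000003e 3 6) 0 0 (step_sound _ 2 [(rh33e738c4ed385b9f.shift 1 0), rhd5eb272e07a4e288] (by decide +kernel))
noncomputable def rh4875fb3337fb6e60 : CRef := CRef.mk (Pat.mk 0x6000000260000000400000004 0x80000001e000000370000000400000004 3 6) 0 0 (step_sound _ 99 [(rh2f68792b6b779e96.shift 2 0), (rhe80c67fb403a51c5.shift 0 2)] (by decide +kernel))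
noncomputable def rh69b7d5c51187046f : CRef := CRef.mk (Pat.mk 0x3000000180000001800000000 0x8000000080000000f000000180000001800000010 3 5) 0 0 (step_sound _ 99 [(rh3e595262c1b737ad.shift 3 0), (rhc10214bf3fe8094a.shift 0 2)] (by decide +kernel))
noncomputable def rh52b6d936d37b9b6a : CRef := CRef.mk (Pat.mk 0x1000000060000000600000002 0x20000000300000003000000060000000600000006 3 3) 0 0 (step_sound _ 97 [(rh3e595262c1b737ad.shift 1 0), rh50fbb5868c909700] (by decide +kernel))
noncomputable def rhfb0c536c2898cf09 : CRef := CRef.mk (Pat.mk 0xe0000001a0000000a 0x1e0000001b0000001f 3 5) 0 0 (step_sound _ 32 [(rh18965a982d73c794.shift 0 1), rhba7137a6404ea089] (by decide +kernel))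
noncomputable def rh0cd737db2dac9aa8 : CRef := CRef.mk (Pat.mk 0x40000008e0000001a 0x6000000fe0000001b 3 8) 0 0 (step_sound _ 36 [(rh8ce3cabf63226892.shift 1 0), rheb0810cc63b001d8] (by decide +kernel))
noncomputable def rhef14d2cb432b8636 : CRef := CRef.mk (Pat.mk 0x10000000b0000000a000000180000000800000000 0x10000000b0000000a0000001a0000000f00000004 3 5) 0 0 (step_sound _ 34 [(rh32888ab8ed8d364b.shift 0 1), (rh932754581e0f4330.shift 2 0)] (by decide +kernel))
noncomputable def rh2a46b8f69c8bdaef : CRef := CRef.mk (Pat.mk 0xc0000000a0000001800000000 0x4000000040000000c0000000f0000001800000008 3 5) 0 0 (step_sound _ 66 [(rhb739f4f82bb681b4.shift 0 1), (rhfc7c29d8e65d775f.shift 2 0)] (by decide +kernel))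
noncomputable def rh71f2db6f0f8252e9 : CRef := CRef.mk (Pat.mk 0x3c00000018 0x70000003f00000018 3 6) 0 0 (step_sound _ 65 [rh22a65d20d3172694, (rh3f8766e6ecb455ce.shift 1 1)] (by decide +kernel))
noncomputable def rh674dd4f5f6cca5c0 : CRef := CRef.mk (Pat.mk 0x20000000600000006000000020000000000000000 0x1000000030000000700000006000000020000000200000002 3 3) 0 0 (step_sound _ 160 [rh2f3e416c6263c0c2, (rh50fbb5868c909700.shift 0 2)] (by decide +kernel))
noncomputable def rhbb501c45f07a70ba : CRef := CRef.mk (Pat.mk 0xc0000004c0000000c00000004 0x20000000f0000007c0000000c00000004 3 7) 0 0 (step_sound _ 68 [rh277b01412deaec89, (rh361cc68994bd8a63.shift 2 1)] (by decide +kernel))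
noncomputable def rh27bdc6e92bdc33bb : CRef := CRef.mk (Pat.mk 0xc0000000a0000000a0000000a00000002 0x100000001f0000000b0000000a0000000a00000002 3 5) 0 0 (step_sound _ 132 [(rh2f68792b6b779e96.shift 3 1), rhe5b39534a8222d7a] (by decide +kernel))
noncomputable def rha6ec1fffe665b832 : CRef := CRef.mk (Pat.mk 0x1c0000000c0000000400000004 0x20000001f0000003c0000000400000004 3 6) 0 0 (step_sound _ 97 [(rh50fbb5868c909700.shift 1 0), (rha03f6e28ea70fc7d.shift 0 2)] (by decide +kernel))
noncomputable def rh7aedaeecb64ec94c : CRef := CRef.mk (Pat.mk 0x80000000d000000060000000700000000 0x20000001a0000000f000000060000000700000001 3 5) 0 0 (step_sound _ 97 [(rh33e738c4ed385b9f.shift 0 3), rh37d9ceebb86d75d1] (by decide +kernel))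
noncomputable def rhdf3b7132ae87c72f : CRef := CRef.mk (Pat.mk 0x20000000300000003000000100000000100000000 0x200000003000000030000001e0000000700000003 3 5) 0 0 (step_sound _ 65 [rhe437f081bfcdb831, (rhf8edb192cdea7ada.shift 0 1)] (by decide +kernel))
noncomputable def rhdb4b4dc20164ea80 : CRef := CRef.mk (Pat.mk 0xa0000001a 0x3b0000001f 3 6) 0 0 (step_sound _ 2 [rh3244c3cc8379b070, rhec46bd5500c722c9] (by decide +kernel))
noncomputable def rh0e1512cbacfbd48b : CRef := CRef.mk (Pat.mk 0x180000003c00000000 0x180000003f00000007 3 6) 0 0 (step_sound _ 1 [(rh80fcd6d0a18cb2dd.shift 1 0), rhd74396e693bc7125] (by decide +kernel))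
noncomputable def rhbd1553ade3ecbf42 : CRef := CRef.mk (Pat.mk 0x200000006000000060000000200000000 0x2000000020000000200000006000000070000000300000001 3 3) 0 0 (step_sound _ 32 [(rh749b30baa5602f69.shift 0 1), rh932754581e0f4330] (by decide +kernel))
noncomputable def rhc7bbce25984b10da : CRef := CRef.mk (Pat.mk 0x40000000c0000004c0000000c00000000 0x40000000c0000007c0000000f00000002 3 7) 0 0 (step_sound _ 68 [(rh2fe78cc5ca4405d8.shift 2 2), rhf5094ad2a427d4d3] (by decide +kernel))
noncomputable def rh4fb3ab53827075f3 : CRef := CRef.mk (Pat.mk 0x20000000a0000000a0000000a0000000c00000000 0x20000000a0000000a0000000b0000001f00000010 3 5) 0 0 (step_sound _ 36 [(rh35256fb8afedac85.shift 0 1), (rh55afc6a59410cf00.shift 3 0)] (by decide +kernel))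
noncomputable def rh672eaac2cc726467 : CRef := CRef.mk (Pat.mk 0x4000000040000000c0000001c00000000 0x4000000040000003c0000001f00000002 3 6) 0 0 (step_sound _ 33 [(rh932754581e0f4330.shift 1 0), (rhec46bd5500c722c9.shift 0 1)] (by decide +kernel))
noncomputable def rh1c7ff5e3b9db7ee6 : CRef := CRef.mk (Pat.mk 0x100000010000000030000000300000002 0x3000000070000001e000000030000000300000002 3 5) 0 0 (step_sound _ 97 [rh04e571695666b5c1, (rh16567ae718d9fd54.shift 0 1)] (by decide +kernel))
noncomputable def rhcb109ba1167dd4ac : CRef := CRef.mk (Pat.mk 0x6000000030000000300000000 0x60000000600000006000000030000000300000002 3 3) 0 0 (step_sound _ 129 [(rh5c5e593799055d58.shift 0 1), (rha707fb719e87fe6e.shift 1 0)] (by decide +kernel))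
noncomputable def rha9efec28f6d60d2f : CRef := CRef.mk (Pat.mk 0x60000000300000001000000020000000000000000 0x4000000070000000300000003000000020000000200000002 3 3) 0 0 (step_sound _ 97 [(rh2f68792b6b779e96.shift 1 2), rh3cb04db3dd2b6a55] (by decide +kernel))
noncomputable def rh68687a86639d5bf7 : CRef := CRef.mk (Pat.mk 0x200000006000000030000001000000000 0x40000000600000006000000030000001e00000006 3 5) 0 0 (step_sound _ 33 [(rha707fb719e87fe6e.shift 1 0), rhf8edb192cdea7ada] (by decide +kernel))
noncomputable def rh62be5c716da4c399 : CRef := CRef.mk (Pat.mk 0x700000003000000010000000100000000 0x50000000700000003000000030000000300000002 3 3) 0 0 (step_sound _ 33 [rh55afc6a59410cf00, (rhd1f9989d6034576a.shift 0 1)] (by decide +kernel))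
noncomputable def rh2ad8311df70a0c9d : CRef := CRef.mk (Pat.mk 0x400000006000000160000000600000000 0x200000006000000060000001e0000000700000001 3 5) 0 0 (step_sound _ 129 [(rh50fbb5868c909700.shift 1 1), rh84f01cf2134210c0] (by decide +kernel))
noncomputable def rha0ef1fdc060fd5f1 : CRef := CRef.mk (Pat.mk 0x600000006000000030000000800000000 0x600000006000000030000001e00000006 3 5) 0 0 (step_sound _ 33 [rh6a56790be92093bf, (rh71222050f2c63a3a.shift 1 0)] (by decide +kernel))
noncomputable def rhd7f3a10f6d82f74f : CRef := CRef.mk (Pat.mk 0x600000004000000080000001c 0x200000006000000040000000f0000003c 3 6) 0 0 (step_sound _ 34 [(rh50fbb5868c909700.shift 1 0), rhe2b63c00a3d7bb73] (by decide +kernel))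
noncomputable def rhb8f06d94c10886cc : CRef := CRef.mk (Pat.mk 0x300000003000000060000000000000000 0x20000000300000003000000060000000600000006 3 3) 0 0 (step_sound _ 33 [rh7b1f1fb55310c477, (rhd4b4beefcd67f51e.shift 1 0)] (by decide +kernel))
noncomputable def rhd921c046084f56e1 : CRef := CRef.mk (Pat.mk 0x200000001000000030000000600000000 0x2000000020000000200000003000000030000000700000004 3 3) 0 0 (step_sound _ 97 [(rh503dd4575245365b.shift 0 1), (rh55afc6a59410cf00.shift 1 0)] (by decide +kernel))
noncomputable def rh3d41e0ca9aad28d1 : CRef := CRef.mk (Pat.mk 0x1000000003000000060000000200000000 0x60000001e00000003000000060000000600000004 3 5) 0 0 (step_sound _ 129 [(rh04e571695666b5c1.shift 0 1), (rhd4b4beefcd67f51e.shift 1 0)] (by decide +kernel))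
noncomputable def rhd551ee6f42a89349 : CRef := CRef.mk (Pat.mk 0x600000016000000060000000400000000 0x1000000070000001e000000060000000600000002 3 5) 0 0 (step_sound _ 33 [(rh52dc0b448901c5de.shift 0 1), (rh932754581e0f4330.shift 1 0)] (by decide +kernel))
noncomputable def rh5b0f9262ed76df6f : CRef := CRef.mk (Pat.mk 0x8000000030000000600000006 0x60000001e000000030000000600000006 3 5) 0 0 (step_sound _ 97 [(rh2145e1d24b96a57e.shift 1 0), rh8797c67fe3ac847a] (by decide +kernel))
noncomputable def rh7f7f6204a9220ffe : CRef := CRef.mk (Pat.mk 0x1c00000008000000040000000600000000 0x3c0000000f000000040000000600000002 3 6) 0 0 (step_sound _ 98 [(rh4dc133ee0ba1420a.shift 0 3), (rh932754581e0f4330.shift 1 0)] (by decide +kernel))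
noncomputable def rh7321b9a4d1c59bb1 : CRef := CRef.mk (Pat.mk 0x40000000c0000001c0000000800000000 0x80000000c0000000c0000001c0000000f00000006 3 5) 0 0 (step_sound _ 34 [(rh503dd4575245365b.shift 2 0), rhf5094ad2a427d4d3] (by decide +kernel))
noncomputable def rh2c57b4404ea586d3 : CRef := CRef.mk (Pat.mk 0x40000000c0000001c0000000400000000 0x40000000c0000001c0000000f0000000a 3 5) 0 0 (step_sound _ 35 [(rh7b1f1fb55310c477.shift 2 0), rhf5094ad2a427d4d3] (by decide +kernel))
noncomputable def rh95ef0526c2b625f5 : CRef := CRef.mk (Pat.mk 0x4000000040000004c0000000c00000000 0x4000000040000007c0000000f00000002 3 7) 0 0 (step_sound _ 33 [(rh2b3584ef0f05e9c2.shift 0 1), (rh932754581e0f4330.shift 1 0)] (by decide +kernel))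
noncomputable def rh4e1369133eb00a3f : CRef := CRef.mk (Pat.mk 0xe00000004000000300000002000000020 0x100000001f0000001e000000300000003000000020 3 6) 0 0 (step_sound _ 100 [(rh79dc0c3e8356dae3.shift 0 2), (rhe072fffdd2fccf38.shift 4 0)] (by decide +kernel))
noncomputable def rh57ea04170973c7f1 : CRef := CRef.mk (Pat.mk 0x40000000c000000180000000600000000 0x40000000f0000001e0000000600000002 3 5) 0 0 (step_sound _ 97 [(rhb739f4f82bb681b4.shift 0 2), (rhecb97fed8c7f1286.shift 1 0)] (by decide +kernel))
noncomputable def rhb340e97fdb5cfa29 : CRef := CRef.mk (Pat.mk 0x1c00000008000000180000000600000002 0x3c0000000f0000001c0000000600000002 3 6) 0 0 (step_sound _ 98 [(rh2ed427353258d8dd.shift 0 2), (rh3c88ce959c0e423f.shift 1 0)] (by decide +kernel))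
noncomputable def rh4947bc9d4fc7738a : CRef := CRef.mk (Pat.mk 0x80000001c0000000c0000000400000000 0x60000000f0000001c0000000c0000000c00000008 3 5) 0 0 (step_sound _ 130 [(rh277b01412deaec89.shift 0 1), (rh3cb04db3dd2b6a55.shift 2 0)] (by decide +kernel))
noncomputable def rh8a705ddac9c6681e : CRef := CRef.mk (Pat.mk 0xc0000004c0000000400000004 0x20000000f0000007c0000000400000004 3 7) 0 0 (step_sound _ 97 [(rh50fbb5868c909700.shift 1 0), (rh5bb78067c54b222b.shift 0 2)] (by decide +kernel))
noncomputable def rh519668b03a22ca50 : CRef := CRef.mk (Pat.mk 0x200000002000000030000000040000000e00000000 0x2000000030000000300000001e0000001f00000010 3 6) 0 0 (step_sound _ 68 [(rh03888c09cb5c5df2.shift 0 1), (rhf9af042da61fc652.shift 4 0)] (by decide +kernel))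
noncomputable def rh2d19837779e46d10 : CRef := CRef.mk (Pat.mk 0x20000000600000018000000080000001c 0x2000000060000001c0000000f0000003c 3 6) 0 0 (step_sound _ 34 [(rh2613c889e411427e.shift 1 0), rhfdd338b587cdea0b] (by decide +kernel))
noncomputable def rh451d4525c49f74c6 : CRef := CRef.mk (Pat.mk 0xa000000180000000600000004 0x20000000f0000001e0000000600000004 3 5) 0 0 (step_sound _ 98 [(rhb739f4f82bb681b4.shift 0 2), (rhdb2909ac5c854515.shift 1 0)] (by decide +kernel))
noncomputable def rhe3129cd3008827ba : CRef := CRef.mk (Pat.mk 0x180000004c0000000c 0x380000007f0000000c 3 7) 0 0 (step_sound _ 33 [(rh53b3c253cb0c65f4.shift 0 1), (rh906aff50615d0b88.shift 1 0)] (by decide +kernel))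
noncomputable def rh2d0c94525e3b17c6 : CRef := CRef.mk (Pat.mk 0x200000002000000060000000300000002 0x2000000020000000600000006000000070000000300000002 3 3) 0 0 (step_sound _ 161 [(rh422dc31de97871b4.shift 1 0), (rh79877ebd3ef475dd.shift 0 1)] (by decide +kernel))
noncomputable def rheb3b918c0e59493a : CRef := CRef.mk (Pat.mk 0xe000000060000000200000006 0x190000000f000000060000000600000006 3 5) 0 0 (step_sound _ 96 [rh50fbb5868c909700, rh63bb75a038171f49] (by decide +kernel))
noncomputable def rh3d6a8c4d38e31ddd : CRef := CRef.mk (Pat.mk 0x400000006000000180000000a00000000 0x4000000060000001e0000000f00000002 3 5) 0 0 (step_sound _ 34 [(rh53b3c253cb0c65f4.shift 0 1), (rhecb97fed8c7f1286.shift 1 0)] (by decide +kernel))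
noncomputable def rh593d20ba42f5a889 : CRef := CRef.mk (Pat.mk 0x4000000060000001c0000001000000000 0x4000000060000001e0000003300000002 3 6) 0 0 (step_sound _ 65 [rh9c40a739b57d6d20, (rhe25b0a99195a5d59.shift 1 1)] (by decide +kernel))
noncomputable def rhca2f8e4ecd08d7b4 : CRef := CRef.mk (Pat.mk 0xc0000004c00000018 0xc0000007f00000038 3 7) 0 0 (step_sound _ 33 [(rhab3bc17e0f7ad5ea.shift 1 0), rhb739f4f82bb681b4] (by decide +kernel))
noncomputable def rh2953ec462d4703b9 : CRef := CRef.mk (Pat.mk 0x2000000030000000600000002000000020000000000000000 0x2000000030000000700000006000000060000000200000002 3 3) 0 0 (step_sound _ 33 [(rh2867a7c45dfd885a.shift 1 0), (rhffd04209dc8ea796.shift 0 1)] (by decide +kernel))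
noncomputable def rhd55fa0ee8b79702e : CRef := CRef.mk (Pat.mk 0x600000002000000060000000e00000000 0x600000006000000060000000f00000019 3 5) 0 0 (step_sound _ 32 [rh3098af7943687178, rh932754581e0f4330] (by decide +kernel))
noncomputable def rh37ad459c936cd724 : CRef := CRef.mk (Pat.mk 0xc0000000e000000180000000e00000000 0x80000000c0000000e0000001b0000001e00000002 3 5) 0 0 (step_sound _ 36 [(rh2145e1d24b96a57e.shift 3 1), rh70e209139a9acc4a] (by decide +kernel))
noncomputable def rhd9907c6fa023d767 : CRef := CRef.mk (Pat.mk 0x4000000000000000700000006000000000000000000000000 0x4000000050000000700000006000000020000000200000002 3 3) 0 0 (step_sound _ 65 [rh40241bd608e5be1a, (rhee230b994cc8b773.shift 1 2)] (by decide +kernel))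
noncomputable def rhdd954a6f2f77cc64 : CRef := CRef.mk (Pat.mk 0x8000000080000001c0000000800000000 0x8000000080000001f0000003800000010 3 6) 0 0 (step_sound _ 36 [(rh55afc6a59410cf00.shift 3 0), (rhad5d8fc3675c15dd.shift 0 1)] (by decide +kernel))
noncomputable def rh8d866a3334050d5c : CRef := CRef.mk (Pat.mk 0xc0000000e000000080000000e00000000 0xc0000000e0000000b0000001e00000012 3 5) 0 0 (step_sound _ 36 [(rh55afc6a59410cf00.shift 3 0), rh70e209139a9acc4a] (by decide +kernel))
noncomputable def rh3482cb456adc9d7f : CRef := CRef.mk (Pat.mk 0x4000000240000000e00000000 0x400000004000000340000001e00000003 3 6) 0 0 (step_sound _ 36 [rh1ae4704ae86cb9a8, (rh428265de8cd3cd2d.shift 1 1)] (by decide +kernel))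
noncomputable def rhb1fd28edfbfa6afa : CRef := CRef.mk (Pat.mk 0x1000000030000000300000001 0x30000000300000003000000030000000300000001 3 2) 0 0 (step_sound _ 128 [(rh2145e1d24b96a57e.shift 0 1), rh54070bb3a14e7306] (by decide +kernel))
noncomputable def rh9349c6aeae2ff0f3 : CRef := CRef.mk (Pat.mk 0x80000001a0000001800000004 0x8000000080000001b0000001f00000004 3 5) 0 0 (step_sound _ 34 [(rh5c36e97be8af272f.shift 0 1), (rh5c5e593799055d58.shift 2 0)] (by decide +kernel))
noncomputable def rh256606d9ada06318 : CRef := CRef.mk (Pat.mk 0x4000000040000001e0000000000000000 0x4000000060000003e0000000300000002 3 6) 0 0 (step_sound _ 97 [rh9c40a739b57d6d20, (rhf48373e13d2bc128.shift 1 2)] (by decide +kernel))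
noncomputable def rh239579d2322518d3 : CRef := CRef.mk (Pat.mk 0xc0000000c000000180000000c00000000 0x80000000c0000000c0000001c0000000f00000002 3 5) 0 0 (step_sound _ 66 [(rh5c5e593799055d58.shift 2 1), rhf5094ad2a427d4d3] (by decide +kernel))
noncomputable def rhbbcd34a2fec6d65b : CRef := CRef.mk (Pat.mk 0xe000000180000000e0000000c00000000 0x20000001e0000001b0000000e0000000c00000008 3 5) 0 0 (step_sound _ 132 [(rh626f9e70778228d4.shift 0 1), (rh71222050f2c63a3a.shift 3 0)] (by decide +kernel))
noncomputable def rh4b4dde78fe1cd3e6 : CRef := CRef.mk (Pat.mk 0x6000000070000000000000004 0x2000000020000000200000006000000070000000500000004 3 3) 0 0 (step_sound _ 129 [(rh37d9ceebb86d75d1.shift 0 1), (rh9e07f76261b05888.shift 1 0)] (by decide +kernel))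
noncomputable def rhccf6c53fa88468fc : CRef := CRef.mk (Pat.mk 0x80000001c0000000800000008 0x10000000380000001f0000000800000008 3 6) 0 0 (step_sound _ 100 [(rh2f68792b6b779e96.shift 3 0), (rhab2ad169e49f9c5e.shift 0 2)] (by decide +kernel))
noncomputable def rh2dc94419c4a8036d : CRef := CRef.mk (Pat.mk 0xe000000080000000e0000000c 0x120000001e0000000b0000000e0000000c 3 5) 0 0 (step_sound _ 100 [(rh2f68792b6b779e96.shift 3 0), rh626f9e70778228d4] (by decide +kernel))
noncomputable def rh675ab9d4ddf88e9c : CRef := CRef.mk (Pat.mk 0xc000000040000001c0000000800000000 0x80000000c000000040000001c0000000f00000002 3 5) 0 0 (step_sound _ 34 [(rh2f68792b6b779e96.shift 2 1), rhf5094ad2a427d4d3] (by decide +kernel))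
noncomputable def rhbd509d74dbfff2f5 : CRef := CRef.mk (Pat.mk 0xe000000240000000400000000 0x30000001e000000340000000400000004 3 6) 0 0 (step_sound _ 100 [rh132883a60cd8aed8, (rh96851dee118c1ba3.shift 1 2)] (by decide +kernel))
noncomputable def rh24b4f41f846cb1d8 : CRef := CRef.mk (Pat.mk 0x20000000300000002000000020000000000000000 0x30000000300000002000000030000000300000001 3 2) 0 0 (step_sound _ 32 [(rh79877ebd3ef475dd.shift 0 1), rha3c02ab1a397c44e] (by decide +kernel))
noncomputable def rh3af54b5f78790764 : CRef := CRef.mk (Pat.mk 0x40000001c0000000c00000000 0x400000004000000040000001c0000000f00000002 3 5) 0 0 (step_sound _ 33 [(rh37d9ceebb86d75d1.shift 1 0), (rh53b3c253cb0c65f4.shift 0 1)] (by decide +kernel))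
noncomputable def rhf57bd6481b8b2ca7 : CRef := CRef.mk (Pat.mk 0x10000000300000003000000010000000000000000 0x10000000300000003000000030000000300000003 3 2) 0 0 (step_sound _ 32 [rh71222050f2c63a3a, rheb6520004608cff3] (by decide +kernel))
noncomputable def rh9577b0c22c260ad0 : CRef := CRef.mk (Pat.mk 0x4000000180000001a0000000800000000 0x40000001f0000001b0000000800000008 3 5) 0 0 (step_sound _ 98 [(rh710860539a4c4362.shift 0 2), (rh7b1f1fb55310c477.shift 2 0)] (by decide +kernel))
noncomputable def rhb3b70aab91499ec2 : CRef := CRef.mk (Pat.mk 0xc000000180000000c0000000c00000000 0x20000000f0000001c0000000c0000000c00000008 3 5) 0 0 (step_sound _ 98 [(rh277b01412deaec89.shift 0 1), (rh7b1f1fb55310c477.shift 2 0)] (by decide +kernel))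
noncomputable def rh088d7cb9b7494237 : CRef := CRef.mk (Pat.mk 0x4000000020000001e0000000000000000 0x400000004000000060000001e0000000300000002 3 5) 0 0 (step_sound _ 33 [(rh5fcbac5b57173fc5.shift 1 0), (rheb0810cc63b001d8.shift 0 1)] (by decide +kernel))
noncomputable def rhb90229dde928a72d : CRef := CRef.mk (Pat.mk 0x1e000000020000000400000000 0x2000000030000001e000000060000000400000004 3 5) 0 0 (step_sound _ 129 [(rh3244c3cc8379b070.shift 0 3), (rh390a8df03c6c5a62.shift 1 0)] (by decide +kernel))
noncomputable def rh1f36686c55693598 : CRef := CRef.mk (Pat.mk 0x200000000e 0x780000001f 3 7) 0 0 (step_sound _ 36 [(rh3fc040e777f1679e.shift 1 0), rhb26c4cb6e324606a] (by decide +kernel))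
noncomputable def rhf7168fb62545c8f0 : CRef := CRef.mk (Pat.mk 0x200000002000000060000000200000000 0x20000000200000002000000070000000700000001 3 3) 0 0 (step_sound _ 32 [(rh518d6f6eeebddcb2.shift 0 1), rh932754581e0f4330] (by decide +kernel))
noncomputable def rh04ee05071d91faba : CRef := CRef.mk (Pat.mk 0x200000006000000020000000200000000 0x10000000700000007000000020000000200000002 3 3) 0 0 (step_sound _ 128 [(rh50fbb5868c909700.shift 0 1), rhc705a4e0321a1bff] (by decide +kernel))
noncomputable def rh3ab02240dc5ff474 : CRef := CRef.mk (Pat.mk 0x1e000000000000000600000000 0x30000001e000000030000000600000004 3 5) 0 0 (step_sound _ 129 [(rh3244c3cc8379b070.shift 0 3), rha3f42a2390de0456] (by decide +kernel))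
noncomputable def rhf1af73716833b731 : CRef := CRef.mk (Pat.mk 0xe00000020 0x1f00000078 3 7) 0 0 (step_sound _ 4 [rh339d1a009c309691, (rhd6e447e81774439e.shift 1 0)] (by decide +kernel))
noncomputable def rh5420708ceecc8de3 : CRef := CRef.mk (Pat.mk 0x20000000b00000010 0x30000001f00000038 3 6) 0 0 (step_sound _ 34 [rh639c5d61b5ce9eea, rh96851dee118c1ba3] (by decide +kernel))
noncomputable def rh48cf204894095689 : CRef := CRef.mk (Pat.mk 0xc00000018000000020000000a 0x40000000f0000001a0000000a0000000a 3 5) 0 0 (step_sound _ 130 [(rh9e07f76261b05888.shift 2 0), rhbc9a7c6e843e5ac5] (by decide +kernel))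
noncomputable def rh3ce9c3f96caebe13 : CRef := CRef.mk (Pat.mk 0x20000000200000002000000020000000100000000 0x1000000030000000300000002000000020000000300000001 3 2) 0 0 (step_sound _ 160 [(rh50fbb5868c909700.shift 0 2), rh7b39ca72a85b3dac] (by decide +kernel))
noncomputable def rh4621828ea5f4dfbb : CRef := CRef.mk (Pat.mk 0xe0000000a0000000800000000 0x140000001e0000000b0000000800000008 3 5) 0 0 (step_sound _ 3 [(rh50fbb5868c909700.shift 2 0), rhc49ca0b9223e2b96] (by decide +kernel))
noncomputable def rh77bfdd0f40ec1259 : CRef := CRef.mk (Pat.mk 0x2000000020000005a0000000800000000 0x2000000020000007a0000000f00000004 3 7) 0 0 (step_sound _ 34 [(rh361cc68994bd8a63.shift 2 1), rh75c7a92d24270dd4] (by decide +kernel))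
noncomputable def rh087a8def662fd0b5 : CRef := CRef.mk (Pat.mk 0x20000000200000002000000020000000400000000 0x20000000200000002000000030000000700000005 3 3) 0 0 (step_sound _ 32 [rh2818863d77d69ed0, (rh79877ebd3ef475dd.shift 0 1)] (by decide +kernel))
noncomputable def rhe47b8b48749ef978 : CRef := CRef.mk (Pat.mk 0xb000000080000000c00000000 0x10000000180000000f000000080000000c00000004 3 5) 0 0 (step_sound _ 131 [(rh932754581e0f4330.shift 2 0), (rhddcd04bb31546311.shift 0 1)] (by decide +kernel))
noncomputable def rh945049bd1097e0c5 : CRef := CRef.mk (Pat.mk 0xa00000018000000020000000600000000 0x40000000f0000001a000000020000000600000004 3 5) 0 0 (step_sound _ 130 [(rh85e0f5cc78e9cbe0.shift 1 0), (rhb739f4f82bb681b4.shift 0 3)] (by decide +kernel))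
noncomputable def rhc27e04dcc04317ca : CRef := CRef.mk (Pat.mk 0x1000000058000000010000000800000000 0x10000000780000000f0000000800000008 3 7) 0 0 (step_sound _ 67 [(rh6a63694b978e6cfd.shift 0 2), (rh71222050f2c63a3a.shift 3 0)] (by decide +kernel))
noncomputable def rh3194727a60434116 : CRef := CRef.mk (Pat.mk 0x2e00000000 0x3e00000077 3 7) 0 0 (step_sound _ 36 [(rh4ad5fc38f1b69f65.shift 1 0), rheae1728ff4a56756] (by decide +kernel))
noncomputable def rh5e22dec736637a4b : CRef := CRef.mk (Pat.mk 0x200000002000000120000000300000000 0x200000002000000020000001e0000000700000004 3 5) 0 0 (step_sound _ 66 [(rh361cc68994bd8a63.shift 0 1), (rhd4b4beefcd67f51e.shift 1 0)] (by decide +kernel))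
noncomputable def rh588a20a2cf76910c : CRef := CRef.mk (Pat.mk 0x2000000030000001200000001 0x200000002000000030000001f00000005 3 5) 0 0 (step_sound _ 129 [rh79877ebd3ef475dd, rhf8edb192cdea7ada] (by decide +kernel))
noncomputable def rh85c2755186779c7f : CRef := CRef.mk (Pat.mk 0x10000000030000000300000003 0x60000001e000000030000000300000003 3 5) 0 0 (step_sound _ 97 [rh04e571695666b5c1, rh5c5e593799055d58] (by decide +kernel))
noncomputable def rh1c355eaf0ab21ee1 : CRef := CRef.mk (Pat.mk 0x120000001a0000000b0000000200000000 0x120000001a0000000b0000001e0000000c 3 5) 0 0 (step_sound _ 34 [rh1f3731417c49fe25, (rh55afc6a59410cf00.shift 1 0)] (by decide +kernel))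
noncomputable def rha4e8b74f9e01b86c : CRef := CRef.mk (Pat.mk 0x3000000120000000300000002 0x40000000f0000001e0000000300000002 3 5) 0 0 (step_sound _ 67 [rh8ddb7009c5639c8a, (rhb2a0b9ccfb5cecd5.shift 0 1)] (by decide +kernel))
noncomputable def rhc058b1555d2882b5 : CRef := CRef.mk (Pat.mk 0x140000001e000000100000000000000000 0x10000000140000001f000000180000000800000008 3 5) 0 0 (step_sound _ 67 [(rh62d5089427e66445.shift 2 0), (rhb739f4f82bb681b4.shift 0 2)] (by decide +kernel))
noncomputable def rhb6140890372f3936 : CRef := CRef.mk (Pat.mk 0x40000000400000006000000380000000800000000 0x400000006000000060000003a0000001f00000002 3 6) 0 0 (step_sound _ 33 [(rhdebc43b768884653.shift 1 0), (rhfb815e3afead425a.shift 0 1)] (by decide +kernel))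
noncomputable def rh1994ac8a04f3a247 : CRef := CRef.mk (Pat.mk 0x300000000000000030000000a00000000 0x10000000300000002000000030000001e00000004 3 5) 0 0 (step_sound _ 34 [rhc5351dabd90740aa, (rhf48373e13d2bc128.shift 0 1)] (by decide +kernel))
noncomputable def rh498ac7c130e1377d : CRef := CRef.mk (Pat.mk 0x80000000b000000080000000900000000 0x80000000f000000180000000f00000004 3 5) 0 0 (step_sound _ 34 [(rh212808ab0c98286c.shift 0 1), (rh932754581e0f4330.shift 2 0)] (by decide +kernel))
noncomputable def rh2e85ec7b47efa312 : CRef := CRef.mk (Pat.mk 0x30000007800000000 0x30000007e000000e0 3 8) 0 0 (step_sound _ 6 [rh24c917d9197f4394, (rhe25b0a99195a5d59.shift 3 0)] (by decide +kernel))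
noncomputable def rhcd3666e3c2d6988d : CRef := CRef.mk (Pat.mk 0x30000007800000000 0x30000007e0000000e 3 7) 0 0 (step_sound _ 34 [(rh09d4dfe75d4407d6.shift 0 1), (rheae1728ff4a56756.shift 1 0)] (by decide +kernel))
noncomputable def rh55848bfd9a3ec20d : CRef := CRef.mk (Pat.mk 0x20000000200000002000000000000001c 0x20000000200000002000000070000001f 3 5) 0 0 (step_sound _ 33 [rh35256fb8afedac85, (rhd3458b32566d63f7.shift 1 0)] (by decide +kernel))
noncomputable def rhc5d612d5c96f0ab7 : CRef := CRef.mk (Pat.mk 0x3000000006 0x3c0000001f 3 6) 0 0 (step_sound _ 35 [rh5bc1b6c753895a6e, (rhca9569cc80abfe76.shift 1 0)] (by decide +kernel))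
noncomputable def rhcaa5fac0e2741756 : CRef := CRef.mk (Pat.mk 0x2e00000020 0x3e00000037 3 6) 0 0 (step_sound _ 36 [(rh96851dee118c1ba3.shift 1 0), rheae1728ff4a56756] (by decide +kernel))
noncomputable def rhc10977e2d5b1bf53 : CRef := CRef.mk (Pat.mk 0x30000005800000040 0x30000007e000000e0 3 8) 0 0 (step_sound _ 37 [rh24c917d9197f4394, (rhe25b0a99195a5d59.shift 3 0)] (by decide +kernel))
noncomputable def rh88911ce725f0794c : CRef := CRef.mk (Pat.mk 0x400000006000000000000003c00000000 0x400000006000000020000003e00000007 3 6) 0 0 (step_sound _ 1 [rh278bde3afe19cb5d, (rh80fcd6d0a18cb2dd.shift 1 0)] (by decide +kernel))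
noncomputable def rh85683fc5b01951d6 : CRef := CRef.mk (Pat.mk 0x40000000a0000000a0000000e00000000 0x40000001e0000000b0000001e00000008 3 5) 0 0 (step_sound _ 98 [(rh046254d731362e10.shift 0 1), (rh7b1f1fb55310c477.shift 2 0)] (by decide +kernel))
noncomputable def rh6a3ba3a6fd570301 : CRef := CRef.mk (Pat.mk 0x40000000700000003000000010000000000000000 0x40000000700000003000000030000000300000003 3 3) 0 0 (step_sound _ 33 [rh9b4df57cddcda711, (rh9e3edb185cc347de.shift 1 1)] (by decide +kernel))
noncomputable def rhc88bd8ef876df7ce : CRef := CRef.mk (Pat.mk 0x180000009e 0x1f000000fe 3 8) 0 0 (step_sound _ 5 [(rh2fe78cc5ca4405d8.shift 3 0), rhd5eb272e07a4e288] (by decide +kernel))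
noncomputable def rh0642b69abcb616cf : CRef := CRef.mk (Pat.mk 0x80000001a0000000800000008 0x10000000380000001f0000000800000008 3 6) 0 0 (step_sound _ 100 [(rh2f68792b6b779e96.shift 3 0), (rh6d571b54e8dd9e33.shift 0 2)] (by decide +kernel))
noncomputable def rh6035f1465d609914 : CRef := CRef.mk (Pat.mk 0x180000004a0000000c 0x380000007f0000000c 3 7) 0 0 (step_sound _ 34 [(rh53b3c253cb0c65f4.shift 0 1), (rh906aff50615d0b88.shift 1 0)] (by decide +kernel))
noncomputable def rh6c5b90ba2a83bd67 : CRef := CRef.mk (Pat.mk 0x1000000010000000100000001e00000000 0x1000000010000000100000003e00000027 3 6) 0 0 (step_sound _ 37 [(rh55afc6a59410cf00.shift 4 0), rheae1728ff4a56756] (by decide +kernel))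
noncomputable def rh0f425d217b2c46cb : CRef := CRef.mk (Pat.mk 0x600000006000000010000000100000000 0x60000000600000006000000030000000300000002 3 3) 0 0 (step_sound _ 65 [(rh5c5e593799055d58.shift 0 1), (rhea7a1800d6f053bd.shift 1 0)] (by decide +kernel))
noncomputable def rhe13a0e3af63b4ef1 : CRef := CRef.mk (Pat.mk 0x800000018000000160000000200000000 0x8000000180000001e0000003300000010 3 6) 0 0 (step_sound _ 67 [(rh78974448101547fe.shift 1 0), (rheb0810cc63b001d8.shift 0 1)] (by decide +kernel))
noncomputable def rhd7c212e4554c17ce : CRef := CRef.mk (Pat.mk 0x800000018000000040000000e00000000 0x800000018000000170000003e00000030 3 6) 0 0 (step_sound _ 36 [(rh82687729b6ed8eda.shift 1 0), (rhe3060b190bc0bc78.shift 0 1)] (by decide +kernel))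
noncomputable def rh8379dda7bed67b0f : CRef := CRef.mk (Pat.mk 0x60000000300000003000000000000000000000000 0x4000000070000000300000003000000020000000200000002 3 3) 0 0 (step_sound _ 65 [(rh2f68792b6b779e96.shift 1 2), rh3cb04db3dd2b6a55] (by decide +kernel))
noncomputable def rh4d94a112bed62cd9 : CRef := CRef.mk (Pat.mk 0x400000000d0000000400000004 0x8000000080000007c0000000f0000000400000004 3 7) 0 0 (step_sound _ 99 [(rh90982cf581ae3e69.shift 0 2), (rhbfb5770941270498.shift 2 0)] (by decide +kernel))
noncomputable def rh38e967ba5ff0a028 : CRef := CRef.mk (Pat.mk 0x180000003a 0x1f0000003f 3 6) 0 0 (step_sound _ 33 [rh6e1685e3533aff0e, (rhab22b5b56e7b3243.shift 1 0)] (by decide +kernel))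
noncomputable def rh9be513b18bc3ec68 : CRef := CRef.mk (Pat.mk 0x1000000030000000700000004 0x30000000300000003000000030000000700000004 3 3) 0 0 (step_sound _ 129 [(rh6f1cbe15c631ee70.shift 1 0), (rh82bd946b1709a78e.shift 0 1)] (by decide +kernel))
noncomputable def rhec97714989e1f650 : CRef := CRef.mk (Pat.mk 0x9e00000018 0xfe0000001f 3 8) 0 0 (step_sound _ 37 [(rh361cc68994bd8a63.shift 3 0), rheae1728ff4a56756] (by decide +kernel))
noncomputable def rh1ec2204a0e2e30f2 : CRef := CRef.mk (Pat.mk 0x8000000080000001a0000000800000000 0x8000000080000001f0000003800000010 3 6) 0 0 (step_sound _ 36 [(rh55afc6a59410cf00.shift 3 0), (rhcd6baf37b3e5de21.shift 0 1)] (by decide +kernel))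
noncomputable def rh92e60e63006ebc81 : CRef := CRef.mk (Pat.mk 0xc0000004a00000018 0xc0000007f00000038 3 7) 0 0 (step_sound _ 34 [(rhab3bc17e0f7ad5ea.shift 1 0), rhb739f4f82bb681b4] (by decide +kernel))
noncomputable def rh8f2453f412d57a0e : CRef := CRef.mk (Pat.mk 0x80000001c0000000800000008 0x40000000f0000003c0000000800000008 3 6) 0 0 (step_sound _ 98 [(rh50fbb5868c909700.shift 2 0), (rhe2b63c00a3d7bb73.shift 0 2)] (by decide +kernel))
noncomputable def rh94af4e54d015da96 : CRef := CRef.mk (Pat.mk 0x100000001000000060000000600000000 0x20000000300000003000000060000000600000006 3 3) 0 0 (step_sound _ 97 [(rh3e595262c1b737ad.shift 1 0), rh7b1f1fb55310c477] (by decide +kernel))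
noncomputable def rh2f50e1924537f66e : CRef := CRef.mk (Pat.mk 0x2000000160000001800000008 0x10000000330000001e0000001800000008 3 6) 0 0 (step_sound _ 67 [(rh3244c3cc8379b070.shift 0 2), (rh5421160f8e9bcf07.shift 1 0)] (by decide +kernel))
noncomputable def rh22841d3dc3f0d7f8 : CRef := CRef.mk (Pat.mk 0x1c00000000000000020000000200000002 0x1f00000007000000020000000200000002 3 5) 0 0 (step_sound _ 97 [(rhbaefcd01e0a8bca3.shift 1 0), rhe5b39534a8222d7a] (by decide +kernel))
noncomputable def rh391e17c00743530b : CRef := CRef.mk (Pat.mk 0x4000000040000000d000000400000000000000000 0x4000000040000000f0000007c0000000800000008 3 7) 0 0 (step_sound _ 67 [(rh41955519f857d4d5.shift 0 2), (rh79ad7b82ec8c35e2.shift 2 0)] (by decide +kernel))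
noncomputable def rh71a32b9c15671a4e : CRef := CRef.mk (Pat.mk 0x3a00000018 0x3f0000001f 3 6) 0 0 (step_sound _ 1 [rh086f6046fa319626, (rh24ae073cf30720c4.shift 1 0)] (by decide +kernel))
noncomputable def rh15a1b6b82d9fd81f : CRef := CRef.mk (Pat.mk 0x20000000300000003000000020000000000000000 0x4000000060000000700000003000000020000000200000002 3 3) 0 0 (step_sound _ 33 [(rh44f453b84f013105.shift 1 1), rh7b1f1fb55310c477] (by decide +kernel))
noncomputable def rhc45e6ce23ccfe60e : CRef := CRef.mk (Pat.mk 0x1c000000100000000800000008 0x40000001f000000380000000800000008 3 6) 0 0 (step_sound _ 67 [(rh50fbb5868c909700.shift 2 0), (rhad5d8fc3675c15dd.shift 0 2)] (by decide +kernel))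
noncomputable def rh45e74562920dda87 : CRef := CRef.mk (Pat.mk 0x1000000160000000400000004 0x200000002000000030000001e0000000600000004 3 5) 0 0 (step_sound _ 97 [(rh2fe78cc5ca4405d8.shift 0 2), (rhe072fffdd2fccf38.shift 1 0)] (by decide +kernel))
noncomputable def rh1329f9090cb91163 : CRef := CRef.mk (Pat.mk 0x2000000000000001e00000002 0x200000002000000030000003e00000006 3 6) 0 0 (step_sound _ 65 [(rh1412c03c5f53fc87.shift 1 0), (rh3244c3cc8379b070.shift 0 1)] (by decide +kernel))
noncomputable def rh1a9e74d77ec446c9 : CRef := CRef.mk (Pat.mk 0x1c0000001e00000004 0x2000000030000001f0000001e00000004 3 5) 0 0 (step_sound _ 65 [rh309fd0c3d364cd61, (rh3244c3cc8379b070.shift 0 1)] (by decide +kernel))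
noncomputable def rh765f43df902bcc8e : CRef := CRef.mk (Pat.mk 0x1300000003000000020000000000000000 0x40000001f00000003000000020000000200000002 3 5) 0 0 (step_sound _ 130 [(rh361cc68994bd8a63.shift 0 3), rhb0c1e7919d9be92d] (by decide +kernel))
noncomputable def rhdc9c04356d8c439c : CRef := CRef.mk (Pat.mk 0x4000000060000001a0000000000000000 0x400000004000000060000001e0000000300000002 3 5) 0 0 (step_sound _ 33 [(rh71222050f2c63a3a.shift 1 0), (rhfb06c60e0ffc39ca.shift 0 1)] (by decide +kernel))
noncomputable def rh98dcf83e06bbd9f9 : CRef := CRef.mk (Pat.mk 0x6000000060000000e0000000000000000 0x6000000060000001e0000000300000003 3 5) 0 0 (step_sound _ 33 [rh157b220518f94713, (rh71222050f2c63a3a.shift 1 0)] (by decide +kernel))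
noncomputable def rh1fa63894a0cb894a : CRef := CRef.mk (Pat.mk 0x800000008000000180000000c 0x800000008000000080000003c0000000f 3 6) 0 0 (step_sound _ 34 [rh4dc133ee0ba1420a, (rh5c5e593799055d58.shift 2 0)] (by decide +kernel))
noncomputable def rh9667e0f75e1192a8 : CRef := CRef.mk (Pat.mk 0x7800000003 0xe00000007e00000003 3 8) 0 0 (step_sound _ 70 [(rh33e738c4ed385b9f.shift 3 1), rhfd485fddfdd86c0a] (by decide +kernel))
noncomputable def rhb65bed9e8add8527 : CRef := CRef.mk (Pat.mk 0x20000003c 0x730000003e 3 7) 0 0 (step_sound _ 37 [(rh33e738c4ed385b9f.shift 2 0), rhfcf1119458f22b28] (by decide +kernel))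
noncomputable def rh8ab8c564895658e7 : CRef := CRef.mk (Pat.mk 0x80000000a0000000e00000000 0x8000000080000000b0000001e00000014 3 5) 0 0 (step_sound _ 36 [(rh3244c3cc8379b070.shift 0 1), (rhde10baa3043a2b46.shift 2 0)] (by decide +kernel))
noncomputable def rh4969d2d75ade0a4c : CRef := CRef.mk (Pat.mk 0x6000000030000000c00000004 0x80000001e0000000f0000000c00000004 3 5) 0 0 (step_sound _ 99 [(rh18965a982d73c794.shift 0 2), (rh7d7eaefe27cdd7b0.shift 2 0)] (by decide +kernel))
noncomputable def rh0188917d0a15b7ff : CRef := CRef.mk (Pat.mk 0x1000000010000000200000002 0x10000000100000003000000030000000300000002 3 2) 0 0 (step_sound _ 128 [rh31c4a1fa6139236a, rhbe0e43a3bc50a43f] (by decide +kernel))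
noncomputable def rhd7d5a17daaf616a3 : CRef := CRef.mk (Pat.mk 0x1000000010000000120000000a00000000 0x1000000010000000330000001e00000008 3 6) 0 0 (step_sound _ 36 [(rh932754581e0f4330.shift 3 0), (rh9ce9666211d7d662.shift 0 1)] (by decide +kernel))
noncomputable def rh4dbe32968eb69ebc : CRef := CRef.mk (Pat.mk 0x100000001000000010000000130000000200000000 0x1000000010000000100000001b0000001e00000008 3 5) 0 0 (step_sound _ 35 [rh6a05374e71458c16, (rh79877ebd3ef475dd.shift 3 1)] (by decide +kernel))
noncomputable def rh70d0154f1dbcad31 : CRef := CRef.mk (Pat.mk 0x400000005800000003 0xe00000007e00000003 3 8) 0 0 (step_sound _ 37 [(rh33e738c4ed385b9f.shift 3 1), rhfd485fddfdd86c0a] (by decide +kernel))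
noncomputable def rhcdc0c198dda5e9b9 : CRef := CRef.mk (Pat.mk 0x100000002000000030000001200000000 0x10000000300000002000000030000001e00000004 3 5) 0 0 (step_sound _ 129 [(rh50fbb5868c909700.shift 0 1), rhf8edb192cdea7ada] (by decide +kernel))
noncomputable def rhb8595fa0ccd547f4 : CRef := CRef.mk (Pat.mk 0x8000000010000005800000010 0x8000000080000000f0000007800000010 3 7) 0 0 (step_sound _ 67 [(rh0dda944375fef289.shift 0 1), (rh2145e1d24b96a57e.shift 3 0)] (by decide +kernel))
noncomputable def rhd7b8cc4eecb9e3ae : CRef := CRef.mk (Pat.mk 0x2e 0x770000003e 3 7) 0 0 (step_sound _ 4 [(rh9890f9d77740bbed.shift 1 0), rhd5eb272e07a4e288] (by decide +kernel))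
noncomputable def rhd892d47406e6a88d : CRef := CRef.mk (Pat.mk 0x400000000000000060000002700000000 0x400000004000000060000003f00000018 3 6) 0 0 (step_sound _ 35 [(rh2fe78cc5ca4405d8.shift 1 1), rh3098af7943687178] (by decide +kernel))
noncomputable def rh85809ffb3db59441 : CRef := CRef.mk (Pat.mk 0xc00000018000000060000000400000004 0x20000000f0000001a000000060000000600000004 3 5) 0 0 (step_sound _ 129 [(rhb739f4f82bb681b4.shift 0 3), (rhdf6eda84f2eabc48.shift 1 0)] (by decide +kernel))
noncomputable def rha57dd671b2547de5 : CRef := CRef.mk (Pat.mk 0x20000000000000002000000020000000200000000 0x1000000030000000300000002000000030000000300000001 3 2) 0 0 (step_sound _ 129 [(rh3ca48e2a6d60153d.shift 0 1), rh7928877f9bf74a91] (by decide +kernel))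
noncomputable def rh56a07936c914825e : CRef := CRef.mk (Pat.mk 0x30000000180000001c 0x300000001f0000001f 3 6) 0 0 (step_sound _ 1 [rh53b3c253cb0c65f4, rh90a04632e314f181] (by decide +kernel))
noncomputable def rh402d223d12d7377d : CRef := CRef.mk (Pat.mk 0x200000002000000020000000200000000 0x4000000060000000600000002000000030000000300000001 3 3) 0 0 (step_sound _ 161 [(rh44f453b84f013105.shift 1 1), rh7928877f9bf74a91] (by decide +kernel))
noncomputable def rhab6a356458e70b84 : CRef := CRef.mk (Pat.mk 0x18000000020000001600000004 0x20000001e000000030000001e00000004 3 5) 0 0 (step_sound _ 97 [(rh2145e1d24b96a57e.shift 1 0), (rhde660fe6a874c7b1.shift 0 1)] (by decide +kernel))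
noncomputable def rhd35d4683565f4b53 : CRef := CRef.mk (Pat.mk 0xa000000120000001000000010 0x80000001e000000330000001000000010 3 6) 0 0 (step_sound _ 100 [(rh50fbb5868c909700.shift 3 0), (rhbf14f049e425ac01.shift 0 2)] (by decide +kernel))
noncomputable def rhf374e0ffc9756f39 : CRef := CRef.mk (Pat.mk 0x40000000580000004300000040 0x20000000600000007e0000004300000040 3 7) 0 0 (step_sound _ 101 [(rh50fbb5868c909700.shift 5 0), (rh8831fff45a7745e8.shift 0 1)] (by decide +kernel))
noncomputable def rh521deb6e4daf8596 : CRef := CRef.mk (Pat.mk 0x200000002e 0x370000003e 3 6) 0 0 (step_sound _ 4 [(rh428265de8cd3cd2d.shift 1 0), rhd5eb272e07a4e288] (by decide +kernel))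
noncomputable def rh397d88edef2dd6bb : CRef := CRef.mk (Pat.mk 0x80000000800000008000000080000000a 0x800000008000000080000001c0000001f 3 5) 0 0 (step_sound _ 36 [(rh55afc6a59410cf00.shift 3 0), rhb5782e01ad0af947] (by decide +kernel))
noncomputable def rh4d3be515c742e03b : CRef := CRef.mk (Pat.mk 0x10000000200000002000000060000000000000000 0x30000000300000002000000060000000600000004 3 3) 0 0 (step_sound _ 33 [(rhd4b4beefcd67f51e.shift 1 0), (rhffd04209dc8ea796.shift 0 1)] (by decide +kernel))
noncomputable def rh58d5fb7943e18d52 : CRef := CRef.mk (Pat.mk 0x10000001a000000030000000200000000 0x60000000f0000001a000000030000000300000001 3 5) 0 0 (step_sound _ 129 [rh03dfdf12d5937476, (rh8ddb7009c5639c8a.shift 0 1)] (by decide +kernel))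
noncomputable def rh9a1dd945b4f11bb2 : CRef := CRef.mk (Pat.mk 0x7e 0x3c0000007f 3 7) 0 0 (step_sound _ 36 [(rh33e738c4ed385b9f.shift 1 0), rhcda1a83d49cc23b4] (by decide +kernel))
noncomputable def rh7be2e9ae184a873f : CRef := CRef.mk (Pat.mk 0x800000008000000100000001c00000000 0x800000008000000380000001f00000004 3 6) 0 0 (step_sound _ 67 [(rh932754581e0f4330.shift 2 0), (rhab2ad169e49f9c5e.shift 0 1)] (by decide +kernel))
noncomputable def rhf749bf2360b78922 : CRef := CRef.mk (Pat.mk 0x40000000400000016000000010000000000000000 0x4000000060000001e000000030000000200000002 3 5) 0 0 (step_sound _ 65 [(rh361cc68994bd8a63.shift 0 2), (rhf9af042da61fc652.shift 1 0)] (by decide +kernel))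
noncomputable def rhc4307a5759f1ed24 : CRef := CRef.mk (Pat.mk 0x10000000200000002000000020000000200000000 0x1000000030000000200000002000000030000000300000001 3 2) 0 0 (step_sound _ 32 [rh932754581e0f4330, (rhd98729bc66308eae.shift 0 1)] (by decide +kernel))
noncomputable def rh911fc1e3ba39b2c6 : CRef := CRef.mk (Pat.mk 0x20000001e000000000000000200000000 0x60000003e000000030000000200000002 3 6) 0 0 (step_sound _ 65 [(rh72dcf29acb876456.shift 1 0), (rheb0810cc63b001d8.shift 0 2)] (by decide +kernel))
noncomputable def rhb3460b29e55f22d2 : CRef := CRef.mk (Pat.mk 0xa00000002000000180000000c00000000 0xa0000000a0000001a0000000f00000004 3 5) 0 0 (step_sound _ 2 [(rhee230b994cc8b773.shift 2 0), rhfa14be82af36723e] (by decide +kernel))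
noncomputable def rhaa63e65ef79086bf : CRef := CRef.mk (Pat.mk 0x40000001e0000001c0000000000000000 0x40000001e0000001f0000000300000002 3 5) 0 0 (step_sound _ 65 [rh9c40a739b57d6d20, (rheb0810cc63b001d8.shift 0 2)] (by decide +kernel))
noncomputable def rh2362599204ec8476 : CRef := CRef.mk (Pat.mk 0x2000000030000001300000000 0x20000000200000002000000030000001f00000004 3 5) 0 0 (step_sound _ 34 [(rh2fe78cc5ca4405d8.shift 0 1), rh571950d89739e871] (by decide +kernel))
noncomputable def rh3e9262c7804b2d1d : CRef := CRef.mk (Pat.mk 0x1a000000060000000400000000 0x2000000030000001e000000060000000400000004 3 5) 0 0 (step_sound _ 129 [(rh2145e1d24b96a57e.shift 1 1), rha25f89a08a1d77b7] (by decide +kernel))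
noncomputable def rhcec05e2f45773d62 : CRef := CRef.mk (Pat.mk 0xe0000000600000006 0x3000000030000001e0000000600000006 3 5) 0 0 (step_sound _ 97 [(rh2145e1d24b96a57e.shift 1 0), rh2e8814637c3f6d46] (by decide +kernel))
noncomputable def rh13c496b0c058d1b3 : CRef := CRef.mk (Pat.mk 0xc00000018000000080000000800000000 0xf0000003c000000080000000800000008 3 6) 0 0 (step_sound _ 98 [(rh7b1f1fb55310c477.shift 2 0), (rhe2b63c00a3d7bb73.shift 0 3)] (by decide +kernel))
noncomputable def rhd76ec78a8155b0c9 : CRef := CRef.mk (Pat.mk 0xe0000000a0000000800000000 0x140000001e0000000b0000000800000008 3 5) 0 0 (step_sound _ 100 [(rh261f868a429ae0e3.shift 2 0), (rheb0810cc63b001d8.shift 0 2)] (by decide +kernel))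
noncomputable def rhf961d3b1ca3fff24 : CRef := CRef.mk (Pat.mk 0x200000003000000120000000300000000 0x2000000030000001e0000000f00000004 3 5) 0 0 (step_sound _ 67 [(rh5419adcd928dba20.shift 0 2), rhef77c6b312a36259] (by decide +kernel))
noncomputable def rh36bdd71eb75150ba : CRef := CRef.mk (Pat.mk 0x40000000c000000030000000600000000 0x40000000c0000000f0000001e00000008 3 5) 0 0 (step_sound _ 35 [(rh935da622f8ebc962.shift 2 0), (rhf48373e13d2bc128.shift 0 1)] (by decide +kernel))
noncomputable def rh05ac7dc28e633609 : CRef := CRef.mk (Pat.mk 0x8000000180000000e0000000400000000 0x8000000180000003e0000003700000010 3 6) 0 0 (step_sound _ 68 [(rh78974448101547fe.shift 1 0), (rhaf9f2efc81a8312b.shift 0 1)] (by decide +kernel))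
noncomputable def rh3efafc482874f7b3 : CRef := CRef.mk (Pat.mk 0x200000003000000000000000100000000 0x20000000300000003000000030000000100000001 3 2) 0 0 (step_sound _ 64 [rh71222050f2c63a3a, (rheb4949bdfa5025cf.shift 0 1)] (by decide +kernel))
noncomputable def rh15ee9795a5e77dd1 : CRef := CRef.mk (Pat.mk 0x200000013000000100000001000000010 0x80000001e0000001b000000100000001000000010 3 5) 0 0 (step_sound _ 131 [(rhad6eac491e7420d2.shift 0 1), (rhffd04209dc8ea796.shift 3 0)] (by decide +kernel))
noncomputable def rhb8fabe28d4babe66 : CRef := CRef.mk (Pat.mk 0x1200000003000000020000000100000000 0x40000001e00000003000000020000000300000001 3 5) 0 0 (step_sound _ 33 [(rh04e571695666b5c1.shift 0 1), rh932754581e0f4330] (by decide +kernel))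
noncomputable def rh2e35f0268e686879 : CRef := CRef.mk (Pat.mk 0x27000000060000000000000004 0x180000003f000000060000000400000004 3 6) 0 0 (step_sound _ 99 [(rh361cc68994bd8a63.shift 1 2), rh63bb75a038171f49] (by decide +kernel))
noncomputable def rhc666d7a360fc8485 : CRef := CRef.mk (Pat.mk 0x40000000400000006000000180000000c00000000 0x400000006000000060000001a0000000f00000002 3 5) 0 0 (step_sound _ 33 [(rh53b3c253cb0c65f4.shift 0 1), (rhdebc43b768884653.shift 1 0)] (by decide +kernel))
noncomputable def rhcae87bda2c3c01d2 : CRef := CRef.mk (Pat.mk 0x20000000200000002000000020000000000000000 0x1000000030000000300000002000000060000000600000004 3 3) 0 0 (step_sound _ 33 [(rh3ca48e2a6d60153d.shift 0 1), (rhd29a1fb688eae70f.shift 1 0)] (by decide +kernel))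
noncomputable def rhcc77840040279a7d : CRef := CRef.mk (Pat.mk 0x400000016000000020000001800000000 0x40000001e000000030000001e00000002 3 5) 0 0 (step_sound _ 33 [(rh062dc44efc34878b.shift 0 1), (rh71222050f2c63a3a.shift 1 0)] (by decide +kernel))
noncomputable def rh3fa391f31ba455f8 : CRef := CRef.mk (Pat.mk 0x4000000043000000580000004000000000 0x40000000430000007e0000006000000020 3 7) 0 0 (step_sound _ 37 [(rh2129efdcf6364358.shift 0 1), (rh932754581e0f4330.shift 5 0)] (by decide +kernel))
noncomputable def rhfa546310bb60b111 : CRef := CRef.mk (Pat.mk 0xa00000008000000080000000800000008 0x1f0000001c000000080000000800000008 3 5) 0 0 (step_sound _ 100 [(rh2f68792b6b779e96.shift 3 0), rhf45bd3c735a7ee03] (by decide +kernel))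
noncomputable def rhfe0afd2be4be9ab4 : CRef := CRef.mk (Pat.mk 0x6000000020000000200000001 0x40000000600000006000000020000000300000003 3 3) 0 0 (step_sound _ 129 [rh79877ebd3ef475dd, (rha707fb719e87fe6e.shift 1 0)] (by decide +kernel))
noncomputable def rh58abe30e6aebccc3 : CRef := CRef.mk (Pat.mk 0x2000000030000001a0000000100000000 0x100000003000000030000001a0000000f00000006 3 5) 0 0 (step_sound _ 33 [rhe286c75f2739cce2, rhef77c6b312a36259] (by decide +kernel))
noncomputable def rh372205b881c0ac90 : CRef := CRef.mk (Pat.mk 0x1e00000020 0x3e00000067 3 7) 0 0 (step_sound _ 1 [(rhb25fef5ffc153beb.shift 1 0), rheb0810cc63b001d8] (by decide +kernel))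
noncomputable def rh983b208f71e94d64 : CRef := CRef.mk (Pat.mk 0x20000000600000016000000000000000400000000 0x2000000060000001e000000030000000700000006 3 5) 0 0 (step_sound _ 65 [(rh84f01cf2134210c0.shift 0 1), (rh9b4df57cddcda711.shift 1 0)] (by decide +kernel))
noncomputable def rh653fa5811f4713a9 : CRef := CRef.mk (Pat.mk 0x80000000e000000400000000400000004 0x80000000f000000780000000c00000004 3 7) 0 0 (step_sound _ 67 [(rh5bb78067c54b222b.shift 0 2), (rheea67dfebd0f8008.shift 2 0)] (by decide +kernel))
noncomputable def rh975c4ddca9e0d579 : CRef := CRef.mk (Pat.mk 0x4000000040000001e00000000 0x400000004000000040000001f00000038 3 6) 0 0 (step_sound _ 3 [(rh2145e1d24b96a57e.shift 2 0), rha03f6e28ea70fc7d] (by decide +kernel))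
noncomputable def rh0ecfdabb15282866 : CRef := CRef.mk (Pat.mk 0x6000000030000000040000001c00000002 0x640000003c000000040000001e00000003 3 7) 0 0 (step_sound _ 33 [(rh0b1271f93b005ea7.shift 1 0), rheb0810cc63b001d8] (by decide +kernel))
noncomputable def rh080361040008edb7 : CRef := CRef.mk (Pat.mk 0x1e000000020000001c 0x2000000030000001e000000060000003c 3 6) 0 0 (step_sound _ 34 [rh309fd0c3d364cd61, (rhf48373e13d2bc128.shift 1 0)] (by decide +kernel))
noncomputable def rh083fbbd10af1a861 : CRef := CRef.mk (Pat.mk 0x1200000003000000000000000300000000 0x40000001e00000003000000020000000300000001 3 5) 0 0 (step_sound _ 65 [(rh04e571695666b5c1.shift 0 1), rh932754581e0f4330] (by decide +kernel))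
noncomputable def rh4893cff807d9b440 : CRef := CRef.mk (Pat.mk 0x50000000500000007000000000000000000000000 0x1000000050000000500000007000000060000000200000002 3 3) 0 0 (step_sound _ 65 [(rh2145e1d24b96a57e.shift 0 2), (rh42548283029e2a39.shift 1 0)] (by decide +kernel))
noncomputable def rh4aaae8bb96ffc877 : CRef := CRef.mk (Pat.mk 0x3000000006 0x7c0000000f 3 7) 0 0 (step_sound _ 35 [rh388d4cb481a3045e, (rhca9569cc80abfe76.shift 1 0)] (by decide +kernel))
noncomputable def rhc13ae28137ba9813 : CRef := CRef.mk (Pat.mk 0x3000000006 0x780000001f 3 7) 0 0 (step_sound _ 3 [(rh3fc040e777f1679e.shift 1 0), rhb26c4cb6e324606a] (by decide +kernel))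
noncomputable def rh7cc270b2cae3e066 : CRef := CRef.mk (Pat.mk 0x8000000000000001a0000003800000000 0x8000000080000001b0000003f00000006 3 6) 0 0 (step_sound _ 34 [(rh5c36e97be8af272f.shift 0 1), (rh981be6707e4d9088.shift 1 0)] (by decide +kernel))
noncomputable def rhe7cb73a5f8869358 : CRef := CRef.mk (Pat.mk 0x1000000060000000600000003 0x20000000300000003000000060000000700000003 3 3) 0 0 (step_sound _ 97 [rh50fbb5868c909700, rh749b30baa5602f69] (by decide +kernel))
noncomputable def rhfb89c5de8c2d962e : CRef := CRef.mk (Pat.mk 0x1e00000002 0x70000003e00000006 3 6) 0 0 (step_sound _ 65 [(rh3244c3cc8379b070.shift 0 1), (rhe9d682012dbceb06.shift 1 0)] (by decide +kernel))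
noncomputable def rhec5da64b6932079e : CRef := CRef.mk (Pat.mk 0x20000000380000001a 0x600000003f0000001b 3 7) 0 0 (step_sound _ 34 [(rh33e738c4ed385b9f.shift 2 1), rh710860539a4c4362] (by decide +kernel))
noncomputable def rhbf7176cc3f4cdc4c : CRef := CRef.mk (Pat.mk 0x13000000030000000000000002 0x50000001f000000030000000200000002 3 5) 0 0 (step_sound _ 33 [rh04e571695666b5c1, rh50fbb5868c909700] (by decide +kernel))
noncomputable def rh37dfb417f148200e : CRef := CRef.mk (Pat.mk 0x10000000000000003f00000000 0x1000000010000000180000003f00000028 3 6) 0 0 (step_sound _ 68 [(rh428265de8cd3cd2d.shift 0 1), (rhde10baa3043a2b46.shift 3 0)] (by decide +kernel))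
noncomputable def rh28d1d93b05783e2d : CRef := CRef.mk (Pat.mk 0x80000001c000000020000000600000004 0x3a0000001f000000020000000600000004 3 6) 0 0 (step_sound _ 97 [(rh2145e1d24b96a57e.shift 1 0), (rhec46bd5500c722c9.shift 0 3)] (by decide +kernel))
noncomputable def rh32e4c2b7fb2cffba : CRef := CRef.mk (Pat.mk 0x200000002000000060000000300000002 0x2000000020000000600000006000000070000000300000002 3 3) 0 0 (step_sound _ 98 [(rh2f68792b6b779e96.shift 1 0), (rh749b30baa5602f69.shift 0 1)] (by decide +kernel))
noncomputable def rhe1acdd61ceb524d1 : CRef := CRef.mk (Pat.mk 0x400000001e00000000 0x600000003e00000007 3 7) 0 0 (step_sound _ 1 [(rha8ea67707010c69d.shift 1 0), rheb0810cc63b001d8] (by decide +kernel))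
noncomputable def rhe3a24313497ad6a9 : CRef := CRef.mk (Pat.mk 0x1a000000020000000200000002 0x70000001f000000020000000200000002 3 5) 0 0 (step_sound _ 98 [(rh2f68792b6b779e96.shift 1 0), rha25c0e62bb8d55c9] (by decide +kernel))
noncomputable def rhbc1d7ae32ca66bdf : CRef := CRef.mk (Pat.mk 0x400000004000000060000001400000000 0x400000004000000070000001e0000000a 3 5) 0 0 (step_sound _ 33 [rh4638e5e0cb0765b6, (rh932754581e0f4330.shift 1 0)] (by decide +kernel))
noncomputable def rha822a3cd88cd40bd : CRef := CRef.mk (Pat.mk 0x8000000100000001e0000000000000000 0x8000000180000001f0000003000000010 3 6) 0 0 (step_sound _ 99 [(rh53b3c253cb0c65f4.shift 0 2), (rh78974448101547fe.shift 1 0)] (by decide +kernel))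
noncomputable def rhcf6f2001e865b56c : CRef := CRef.mk (Pat.mk 0x2000000010000000f0000000000000000 0x200000002000000030000001f0000000100000001 3 5) 0 0 (step_sound _ 97 [rh1e309b005ffa1b36, (rhf48373e13d2bc128.shift 0 2)] (by decide +kernel))
noncomputable def rh6a5f391bf8ffe91b : CRef := CRef.mk (Pat.mk 0x10000000000000001f00000000 0x1000000010000000180000001f00000018 3 5) 0 0 (step_sound _ 68 [(rh428265de8cd3cd2d.shift 0 1), rh66fa8660763b8d0f] (by decide +kernel))
noncomputable def rhe590139e3ec00efc : CRef := CRef.mk (Pat.mk 0x20000000000000002000000020000000200000000 0x20000000200000002000000070000000700000005 3 3) 0 0 (step_sound _ 129 [rh7928877f9bf74a91, (rhd29a1fb688eae70f.shift 1 0)] (by decide +kernel))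
noncomputable def rh38c505f499dd072a : CRef := CRef.mk (Pat.mk 0x300000012000000020000000200000000 0x4000000070000001e000000020000000200000002 3 5) 0 0 (step_sound _ 98 [(rh2fe78cc5ca4405d8.shift 0 3), (rha707fb719e87fe6e.shift 1 0)] (by decide +kernel))
noncomputable def rhe13c843cb515c32f : CRef := CRef.mk (Pat.mk 0x200000001e 0x670000003e 3 7) 0 0 (step_sound _ 33 [rh3244c3cc8379b070, (rhfb55dd75ab83ac48.shift 1 0)] (by decide +kernel))
noncomputable def rh53e4dcd8217a9d7d : CRef := CRef.mk (Pat.mk 0x400000000000000160000000600000002 0x600000007000000030000001e0000000600000002 3 5) 0 0 (step_sound _ 97 [rh52dc0b448901c5de, (rh82bd946b1709a78e.shift 1 1)] (by decide +kernel))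
noncomputable def rhbffe292f5462cc89 : CRef := CRef.mk (Pat.mk 0x400000004000000400000000e00000008 0x40000000c000000780000000f00000008 3 7) 0 0 (step_sound _ 67 [(rh2b3584ef0f05e9c2.shift 0 1), (rhcfdf45280693d3da.shift 2 0)] (by decide +kernel))
noncomputable def rh371357d551e5b98c : CRef := CRef.mk (Pat.mk 0x1e000000040000000400000000 0x380000001f000000040000000400000004 3 6) 0 0 (step_sound _ 131 [(rh71222050f2c63a3a.shift 2 0), (rhec46bd5500c722c9.shift 0 3)] (by decide +kernel))
noncomputable def rha196aecd14f1a0a5 : CRef := CRef.mk (Pat.mk 0x1e00000004000000040000000000000000 0x80000001e00000007000000040000000400000004 3 5) 0 0 (step_sound _ 97 [(rhb0c1e7919d9be92d.shift 1 0), (rheb0810cc63b001d8.shift 0 3)] (by decide +kernel))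
noncomputable def rh92b314c2f459e528 : CRef := CRef.mk (Pat.mk 0x20000001c000000040000003000000060 0x30000001e000000040000003c00000064 3 7) 0 0 (step_sound _ 97 [(rh0bee87ec4f3fb00c.shift 1 0), (rh3244c3cc8379b070.shift 0 3)] (by decide +kernel))
noncomputable def rh4ce348bf0482f41e : CRef := CRef.mk (Pat.mk 0x1c000000020000001e0000000000000000 0x3c000000060000001e0000000300000002 3 6) 0 0 (step_sound _ 98 [(rh18965a982d73c794.shift 1 3), rh9c40a739b57d6d20] (by decide +kernel))
noncomputable def rh02151fec4c3fe3f3 : CRef := CRef.mk (Pat.mk 0x300000000000000030000001200000000 0x10000000300000002000000030000001e00000004 3 5) 0 0 (step_sound _ 97 [(rh50fbb5868c909700.shift 0 1), rhf8edb192cdea7ada] (by decide +kernel))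
noncomputable def rh14a23a289611aafb : CRef := CRef.mk (Pat.mk 0x600000030 0xf0000007c 3 7) 0 0 (step_sound _ 3 [(rh09d4dfe75d4407d6.shift 1 0), rh72e35b80052d4a50] (by decide +kernel))
noncomputable def rh130c4691a5653274 : CRef := CRef.mk (Pat.mk 0x600000030 0x1f00000078 3 7) 0 0 (step_sound _ 35 [rh339d1a009c309691, (rhd6e447e81774439e.shift 1 0)] (by decide +kernel))
noncomputable def rh4055ac74e73b6e08 : CRef := CRef.mk (Pat.mk 0x380000001a0000000000000008 0x60000003f0000001b0000000800000008 3 6) 0 0 (step_sound _ 98 [(rh0da3f8d18d3a0dfd.shift 1 0), (rh710860539a4c4362.shift 0 2)] (by decide +kernel))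
noncomputable def rh8889cf29d64d79dd : CRef := CRef.mk (Pat.mk 0x30000000600000006000000010000000000000000 0x30000000700000006000000030000000300000002 3 3) 0 0 (step_sound _ 65 [rh2f3e416c6263c0c2, (rh932754581e0f4330.shift 0 1)] (by decide +kernel))
noncomputable def rhdc2729b77246fcd3 : CRef := CRef.mk (Pat.mk 0x20000001e00000000 0x60000003e00000007 3 6) 0 0 (step_sound _ 1 [(rhe9d682012dbceb06.shift 1 0), rheb0810cc63b001d8] (by decide +kernel))
noncomputable def rh69b9713071586710 : CRef := CRef.mk (Pat.mk 0x200000000000000030000001300000000 0x200000002000000030000001f00000005 3 5) 0 0 (step_sound _ 97 [rh932754581e0f4330, rhf8edb192cdea7ada] (by decide +kernel))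
noncomputable def rh3f9c2fb96516703c : CRef := CRef.mk (Pat.mk 0xf00000001 0x380000001f00000003 3 6) 0 0 (step_sound _ 68 [(rh428265de8cd3cd2d.shift 0 1), rh9ca324c51727eb46] (by decide +kernel))
noncomputable def rhde65fb0dba9c4937 : CRef := CRef.mk (Pat.mk 0x400000006000000020000001c00000008 0x400000006000000020000001f0000003a 3 6) 0 0 (step_sound _ 33 [(rh71222050f2c63a3a.shift 1 0), rha03f6e28ea70fc7d] (by decide +kernel))
noncomputable def rhfd7377672b47fd2b : CRef := CRef.mk (Pat.mk 0x2000000030000000600000002000000020000000000000000 0x2000000030000000700000006000000060000000200000002 3 3) 0 0 (step_sound _ 98 [rh2f3e416c6263c0c2, (rh55afc6a59410cf00.shift 1 2)] (by decide +kernel))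
noncomputable def rhf8cb4ab9f0c1a0ef : CRef := CRef.mk (Pat.mk 0x200000002000000020000001a00000000 0x200000002000000020000001f00000007 3 5) 0 0 (step_sound _ 34 [(rh55afc6a59410cf00.shift 1 0), rha37779f9238271b6] (by decide +kernel))
noncomputable def rh6b8a8ca391abd15f : CRef := CRef.mk (Pat.mk 0x500000001000000030000000300000000 0x60000000700000003000000030000000300000001 3 3) 0 0 (step_sound _ 129 [(rh2f68792b6b779e96.shift 0 1), rhcddd2712883fd9b7] (by decide +kernel))
noncomputable def rh32a32f08de912052 : CRef := CRef.mk (Pat.mk 0x14000000060000000400000004 0xa0000001e000000070000000400000004 3 5) 0 0 (step_sound _ 97 [(rh50fbb5868c909700.shift 1 0), rh8d930ef2202f3fb0] (by decide +kernel))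
noncomputable def rh4f62cb2fa9bdc029 : CRef := CRef.mk (Pat.mk 0x1e0000001000000008 0x10000000300000001f0000001800000008 3 6) 0 0 (step_sound _ 35 [(rh5421160f8e9bcf07.shift 1 0), (rhb739f4f82bb681b4.shift 0 1)] (by decide +kernel))
noncomputable def rh93ad910762009708 : CRef := CRef.mk (Pat.mk 0xf000000010000000200000000 0x1000000010000001f000000030000000200000002 3 5) 0 0 (step_sound _ 65 [(rh18965a982d73c794.shift 0 2), rhfc7c29d8e65d775f] (by decide +kernel))
noncomputable def rha0d9161879284904 : CRef := CRef.mk (Pat.mk 0x1f000000000000001000000000 0x180000001f000000180000001000000010 3 5) 0 0 (step_sound _ 68 [(rh96851dee118c1ba3.shift 0 2), rh9d9fd5aa1e7402dd] (by decide +kernel))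
noncomputable def rh1c3e172d3fc471b4 : CRef := CRef.mk (Pat.mk 0x600000002000000020000001c00000000 0x40000000600000002000000020000001f00000003 3 5) 0 0 (step_sound _ 33 [(rh2f68792b6b779e96.shift 1 1), rha37779f9238271b6] (by decide +kernel))
noncomputable def rhf76dea324f6fa589 : CRef := CRef.mk (Pat.mk 0x800000008000000380000000400000000 0x800000008000000380000001f00000004 3 6) 0 0 (step_sound _ 35 [(rh932754581e0f4330.shift 2 0), (rheea1a90336e79c71.shift 0 1)] (by decide +kernel))
noncomputable def rhe1c32197ffb40f8f : CRef := CRef.mk (Pat.mk 0x3800000004 0x3c0000001f 3 6) 0 0 (step_sound _ 1 [rh5bc1b6c753895a6e, (rhca9569cc80abfe76.shift 1 0)] (by decide +kernel))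
noncomputable def rhefa3d1af1b1337be : CRef := CRef.mk (Pat.mk 0x100000002000000030000000a00000000 0x10000000300000002000000030000001e00000004 3 5) 0 0 (step_sound _ 129 [(rh50fbb5868c909700.shift 0 1), rh6a56790be92093bf] (by decide +kernel))
noncomputable def rhda34373dbe539636 : CRef := CRef.mk (Pat.mk 0x2000000140000000600000004 0x2000000030000003e0000000600000004 3 6) 0 0 (step_sound _ 65 [(rh2145e1d24b96a57e.shift 1 0), (rh6493ceb007f59211.shift 0 1)] (by decide +kernel))
noncomputable def rh82ed03a6bd80b657 : CRef := CRef.mk (Pat.mk 0x800000003000000060000000200000000 0x60000001e00000003000000060000000600000004 3 5) 0 0 (step_sound _ 129 [(rh8797c67fe3ac847a.shift 0 1), (rhd4b4beefcd67f51e.shift 1 0)] (by decide +kernel))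
noncomputable def rh8d14fd09144b7a16 : CRef := CRef.mk (Pat.mk 0x6000000300000001800000010 0x80000000f0000003c0000001800000010 3 6) 0 0 (step_sound _ 67 [(rh09d4dfe75d4407d6.shift 1 2), rhbbace0fc56569fd6] (by decide +kernel))
noncomputable def rh217f9bda55ff9371 : CRef := CRef.mk (Pat.mk 0x60000000e000000120000000a00000000 0x60000000e0000001e0000000b00000009 3 5) 0 0 (step_sound _ 67 [rh5710f30ba40ee3ec, (rh7b1f1fb55310c477.shift 2 0)] (by decide +kernel))
noncomputable def rh46e896b4f1769f6b : CRef := CRef.mk (Pat.mk 0x100000000000000030000000300000001 0x30000000300000003000000030000000300000001 3 2) 0 0 (step_sound _ 129 [(rhd727bb41309b6841.shift 0 1), rhee230b994cc8b773] (by decide +kernel))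
noncomputable def rhc1e3a08176fd5136 : CRef := CRef.mk (Pat.mk 0x200000000000000020000000200000002 0x50000000700000007000000020000000200000002 3 3) 0 0 (step_sound _ 97 [rh3ca48e2a6d60153d, (rh44f453b84f013105.shift 1 0)] (by decide +kernel))
noncomputable def rh812b908590c67662 : CRef := CRef.mk (Pat.mk 0x2000000020000000600000002 0x10000000300000003000000020000000600000006 3 3) 0 0 (step_sound _ 128 [rh6196b452c518de56, rhffd04209dc8ea796] (by decide +kernel))
noncomputable def rha49ee13f6a0dcfce : CRef := CRef.mk (Pat.mk 0x420000003800000018 0x630000003f00000018 3 7) 0 0 (step_sound _ 34 [rh22a65d20d3172694, (rh428265de8cd3cd2d.shift 2 1)] (by decide +kernel))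
noncomputable def rhb1f3a7c439f61073 : CRef := CRef.mk (Pat.mk 0x80000000b0000000a0000000800000000 0x80000000b0000001f0000001800000010 3 5) 0 0 (step_sound _ 66 [rhbdde238153e38af9, (rhf48373e13d2bc128.shift 0 2)] (by decide +kernel))
noncomputable def rh482dbb16cfbb812d : CRef := CRef.mk (Pat.mk 0xa0000001a0000000a00000000 0x40000000f0000001a0000000a0000000a 3 5) 0 0 (step_sound _ 98 [(rhb739f4f82bb681b4.shift 0 2), (rhd8a13c7f042cc6ea.shift 1 0)] (by decide +kernel))
noncomputable def rh89b843dc4e8b52a9 : CRef := CRef.mk (Pat.mk 0x6000000120000001a0000000200000000 0x60000003f0000001a0000000200000002 3 6) 0 0 (step_sound _ 98 [(rh3eaaf6d85330c098.shift 0 2), (rh71222050f2c63a3a.shift 1 0)] (by decide +kernel))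
noncomputable def rhf2c54251c789958e : CRef := CRef.mk (Pat.mk 0x10000000700000006000000040000000000000000 0x10000000700000006000000060000000600000006 3 3) 0 0 (step_sound _ 33 [(rh9e07f76261b05888.shift 0 1), (rhe437f081bfcdb831.shift 1 0)] (by decide +kernel))
noncomputable def rh15cee1d1e500bb64 : CRef := CRef.mk (Pat.mk 0x30000001200000006000000020000000000000000 0x30000001f00000006000000020000000200000002 3 5) 0 0 (step_sound _ 130 [rh2f3e416c6263c0c2, (rh2fe78cc5ca4405d8.shift 0 4)] (by decide +kernel))
noncomputable def rh9d9a9483e3b87821 : CRef := CRef.mk (Pat.mk 0x80000001c0000000c00000004 0x4000000060000000f0000001c0000000c0000000c 3 5) 0 0 (step_sound _ 98 [rh277b01412deaec89, (rhfc7c29d8e65d775f.shift 2 0)] (by decide +kernel))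
noncomputable def rh03a83241a7aa000a : CRef := CRef.mk (Pat.mk 0x400000002000000060000000e0000000000000000 0x400000006000000060000001e0000000300000001 3 5) 0 0 (step_sound _ 33 [rh157b220518f94713, (rhee230b994cc8b773.shift 1 1)] (by decide +kernel))
noncomputable def rha0f972adb232e2e8 : CRef := CRef.mk (Pat.mk 0x200000002000000120000000600000002 0x200000003000000030000001e0000000600000002 3 5) 0 0 (step_sound _ 66 [(rh2145e1d24b96a57e.shift 1 1), rh52dc0b448901c5de] (by decide +kernel))
noncomputable def rh3190281b00d47fa9 : CRef := CRef.mk (Pat.mk 0x6000000080000000d00000008 0x4000000060000003c0000000f00000008 3 6) 0 0 (step_sound _ 66 [(rh2145e1d24b96a57e.shift 2 0), (rh44f029253d5e06b4.shift 0 1)] (by decide +kernel))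
noncomputable def rhe2076a175ec10f59 : CRef := CRef.mk (Pat.mk 0x300000000000000030000000100000000 0x30000000300000002000000030000000300000001 3 2) 0 0 (step_sound _ 97 [(rh5c5e593799055d58.shift 0 1), rha3c02ab1a397c44e] (by decide +kernel))
noncomputable def rh951e08a274632323 : CRef := CRef.mk (Pat.mk 0x300000002000000030000000800000000 0x10000000300000002000000030000001e00000004 3 5) 0 0 (step_sound _ 33 [(rh50fbb5868c909700.shift 0 1), rh6a56790be92093bf] (by decide +kernel))
noncomputable def rh24fbb0ca185257f8 : CRef := CRef.mk (Pat.mk 0x2000000120000001200000004 0x200000002000000330000001e00000004 3 6) 0 0 (step_sound _ 34 [(rh12d50e65fdd458b1.shift 0 1), (rh2145e1d24b96a57e.shift 1 0)] (by decide +kernel))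
noncomputable def rh0b16a0a30547aadf : CRef := CRef.mk (Pat.mk 0x200000000000000030000000b00000000 0x200000002000000030000001f00000005 3 5) 0 0 (step_sound _ 97 [rh6a56790be92093bf, rh932754581e0f4330] (by decide +kernel))
noncomputable def rh5383d8cb25d9f61c : CRef := CRef.mk (Pat.mk 0x300000002000000020000001600000000 0x300000003000000020000001f00000003 3 5) 0 0 (step_sound _ 1 [rh161554469a5df3d5, rhffd04209dc8ea796] (by decide +kernel))
noncomputable def rh41378a89bc9abb6f : CRef := CRef.mk (Pat.mk 0x600000012000000060000000600000000 0x70000003e000000060000000600000002 3 6) 0 0 (step_sound _ 98 [(rh6493ceb007f59211.shift 0 2), (rh932754581e0f4330.shift 1 0)] (by decide +kernel))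
noncomputable def rha02d33ba7ce23b39 : CRef := CRef.mk (Pat.mk 0x180000000c0000000800000008 0x40000003c0000000f0000000800000008 3 6) 0 0 (step_sound _ 98 [(rh4dc133ee0ba1420a.shift 0 2), (rh50fbb5868c909700.shift 2 0)] (by decide +kernel))
noncomputable def rh27631d0aaeff99f4 : CRef := CRef.mk (Pat.mk 0x6000000030000001800000010 0x80000001e0000000f0000001800000010 3 5) 0 0 (step_sound _ 99 [(rh18965a982d73c794.shift 0 2), rhcee611222e54fa97] (by decide +kernel))
noncomputable def rh62fcb4a3c4a53017 : CRef := CRef.mk (Pat.mk 0x100000001e0000000000000010 0x8000000180000001f0000003000000010 3 6) 0 0 (step_sound _ 99 [(rh53b3c253cb0c65f4.shift 0 2), (rh53c609d7ab7ac29d.shift 1 0)] (by decide +kernel))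
noncomputable def rh8d84b6ee4f446a42 : CRef := CRef.mk (Pat.mk 0x700000010 0xf0000003e 3 6) 0 0 (step_sound _ 3 [rh576f4850e6cd8bc0, rhd6e447e81774439e] (by decide +kernel))
noncomputable def rh24806a4aaf7813c3 : CRef := CRef.mk (Pat.mk 0x200000001e00000000 0x600000003e00000007 3 7) 0 0 (step_sound _ 1 [(rh9ca324c51727eb46.shift 1 0), rheb0810cc63b001d8] (by decide +kernel))
noncomputable def rhf107fc7d9e673e51 : CRef := CRef.mk (Pat.mk 0x40000000d000000400000000800000000 0x40000000f000000780000000800000008 3 7) 0 0 (step_sound _ 67 [(rh41955519f857d4d5.shift 0 2), (rh7b1f1fb55310c477.shift 2 0)] (by decide +kernel))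
noncomputable def rhf854eee9274d7140 : CRef := CRef.mk (Pat.mk 0x20000000200000002000000020000000100000000 0x4000000060000000600000002000000020000000300000001 3 3) 0 0 (step_sound _ 162 [(rh2f68792b6b779e96.shift 1 2), rh599ad1a27924c7d1] (by decide +kernel))
noncomputable def rha3b183b0d65a8f10 : CRef := CRef.mk (Pat.mk 0x10000000e000000080000000800000000 0x330000001e000000080000000800000008 3 6) 0 0 (step_sound _ 100 [(rh3f8766e6ecb455ce.shift 0 3), (rhd4d36b4007f546b1.shift 1 0)] (by decide +kernel))
noncomputable def rh6e40f9c39a3f3b97 : CRef := CRef.mk (Pat.mk 0x1c000000060000000400000000 0x2000000020000001e000000070000000400000004 3 5) 0 0 (step_sound _ 97 [(rheb0810cc63b001d8.shift 0 2), (rhfc7c29d8e65d775f.shift 1 0)] (by decide +kernel))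
noncomputable def rhbaf88512d8002c5c : CRef := CRef.mk (Pat.mk 0x160000000600000004 0x2000000030000001e0000000700000004 3 5) 0 0 (step_sound _ 97 [(rh2145e1d24b96a57e.shift 1 0), (rh51246ab843efda05.shift 0 1)] (by decide +kernel))
noncomputable def rhb48cca10e0efa9f2 : CRef := CRef.mk (Pat.mk 0x1000000018000000120000000300000000 0x10000000180000001e0000000f00000008 3 5) 0 0 (step_sound _ 67 [rh7dd7be6a8f05c4d4, (rhb2a0b9ccfb5cecd5.shift 0 1)] (by decide +kernel))
noncomputable def rh4ebc94ac63d8ec57 : CRef := CRef.mk (Pat.mk 0x800000038000000060000000400000004 0x20000001f0000003a000000060000000600000004 3 6) 0 0 (step_sound _ 129 [(rh075211c3608a5a57.shift 0 3), (rhdf6eda84f2eabc48.shift 1 0)] (by decide +kernel))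
noncomputable def rhf1ce2a38d2d19dce : CRef := CRef.mk (Pat.mk 0x200000002000000120000000300000000 0x2000000020000001e0000000f00000004 3 5) 0 0 (step_sound _ 34 [(rh55afc6a59410cf00.shift 1 0), (rhfbf320ca8ea44173.shift 0 1)] (by decide +kernel))
noncomputable def rh668fc65514a55b16 : CRef := CRef.mk (Pat.mk 0x300000006000000020000000000000000 0x50000000700000006000000020000000200000002 3 3) 0 0 (step_sound _ 33 [(rh50fbb5868c909700.shift 0 1), (rha707fb719e87fe6e.shift 1 0)] (by decide +kernel))
noncomputable def rhabb4851180943e06 : CRef := CRef.mk (Pat.mk 0x1e00000000000000020000001e00000000 0x1e00000007000000020000001e00000003 3 5) 0 0 (step_sound _ 97 [rha1aa13057a4a8e13, (rheb0810cc63b001d8.shift 0 3)] (by decide +kernel))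
noncomputable def rh797d4ef7d0f603cf : CRef := CRef.mk (Pat.mk 0x3000000120000000200000002 0x40000000f0000001e0000000200000002 3 5) 0 0 (step_sound _ 98 [(rh2f68792b6b779e96.shift 1 0), (rhc29273f1bf96f971.shift 0 2)] (by decide +kernel))
noncomputable def rhbb339bb7e4e96b38 : CRef := CRef.mk (Pat.mk 0x2000000060000000300000000 0x20000000200000002000000060000000700000005 3 3) 0 0 (step_sound _ 129 [rh932754581e0f4330, (rhd4b4beefcd67f51e.shift 1 0)] (by decide +kernel))
noncomputable def rh6fe30d99cf392f3c : CRef := CRef.mk (Pat.mk 0x1e00000002000000000000001e 0x30000001e00000002000000070000001e 3 5) 0 0 (step_sound _ 33 [rh3244c3cc8379b070, rh54e2670cb103b129] (by decide +kernel))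
noncomputable def rh13a5a8f0211a12ff : CRef := CRef.mk (Pat.mk 0x30000000180000001a0000000200000002 0x310000001f0000001e0000000200000002 3 6) 0 0 (step_sound _ 97 [(rh24ae073cf30720c4.shift 1 3), rh5e05da03898e7023] (by decide +kernel))
noncomputable def rh584459a8069090cc : CRef := CRef.mk (Pat.mk 0x1c00000008000000180000000800000000 0x3c0000000f000000180000000800000008 3 6) 0 0 (step_sound _ 98 [(rh2ed427353258d8dd.shift 0 2), (rh7b1f1fb55310c477.shift 2 0)] (by decide +kernel))
noncomputable def rhe05a623aedd4e020 : CRef := CRef.mk (Pat.mk 0xc00000030 0x1f00000078 3 7) 0 0 (step_sound _ 3 [rhc02b3aee7ab87ee1, (rhf48373e13d2bc128.shift 2 0)] (by decide +kernel))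
noncomputable def rh47ecea03df6fae84 : CRef := CRef.mk (Pat.mk 0x300000002000000030000000000000000 0x30000000300000002000000030000000300000001 3 2) 0 0 (step_sound _ 33 [rh03dfdf12d5937476, (rh50fbb5868c909700.shift 0 1)] (by decide +kernel))
noncomputable def rhaded399a68d16757 : CRef := CRef.mk (Pat.mk 0x600000012000000020000000200000000 0x60000003e000000030000000200000002 3 6) 0 0 (step_sound _ 98 [(rh71222050f2c63a3a.shift 1 0), (rhb7616ccf0736ebbe.shift 0 2)] (by decide +kernel))
noncomputable def rh9d09f0c7c2ebab65 : CRef := CRef.mk (Pat.mk 0x20000001600000002 0x60000003e00000007 3 6) 0 0 (step_sound _ 35 [(rhe9d682012dbceb06.shift 1 0), rheb0810cc63b001d8] (by decide +kernel))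
noncomputable def rh5ff7e8d752bed2cb : CRef := CRef.mk (Pat.mk 0x20000001600000002 0x70000003e00000006 3 6) 0 0 (step_sound _ 35 [(rh3244c3cc8379b070.shift 0 1), (rhe9d682012dbceb06.shift 1 0)] (by decide +kernel))
noncomputable def rhc311d5b471b2bfb3 : CRef := CRef.mk (Pat.mk 0x2000000020000001a0000001800000030 0x2000000020000001e0000001f00000031 3 6) 0 0 (step_sound _ 33 [rh5710f30ba40ee3ec, (rhab22b5b56e7b3243.shift 1 0)] (by decide +kernel))
noncomputable def rhb4aa4f704a185866 : CRef := CRef.mk (Pat.mk 0x800000018000000080000001c 0x800000008000000180000000f0000003c 3 6) 0 0 (step_sound _ 34 [(rh5c5e593799055d58.shift 2 0), rhfdd338b587cdea0b] (by decide +kernel))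
noncomputable def rh789226c9a89b143a : CRef := CRef.mk (Pat.mk 0x300000000c 0x780000001f 3 7) 0 0 (step_sound _ 35 [(rh18965a982d73c794.shift 2 0), rheea1a90336e79c71] (by decide +kernel))
noncomputable def rh69a3776feaa48c5d : CRef := CRef.mk (Pat.mk 0x3000000020000000300000000 0x10000000300000003000000020000000300000003 3 2) 0 0 (step_sound _ 129 [rh932754581e0f4330, rhe286c75f2739cce2] (by decide +kernel))
noncomputable def rh91dd4941780e98f6 : CRef := CRef.mk (Pat.mk 0x8000000080000000c0000001800000000 0x8000000080000000f0000003c00000004 3 6) 0 0 (step_sound _ 34 [(rh932754581e0f4330.shift 2 0), (rhe2b63c00a3d7bb73.shift 0 1)] (by decide +kernel))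
noncomputable def rh11e4e94f09451f20 : CRef := CRef.mk (Pat.mk 0x8000000080000000e0000000800000000 0x8000000080000000f0000003c00000004 3 6) 0 0 (step_sound _ 34 [(rh6292bd8784ece55f.shift 0 1), (rh932754581e0f4330.shift 2 0)] (by decide +kernel))
noncomputable def rh76b2a07ef794d933 : CRef := CRef.mk (Pat.mk 0x30000000c0000000800000008 0x400000004000000070000003e0000000c00000008 3 6) 0 0 (step_sound _ 98 [(rh89ade209b3e28f13.shift 0 2), (rhe072fffdd2fccf38.shift 2 0)] (by decide +kernel))
noncomputable def rh2e295417587fb037 : CRef := CRef.mk (Pat.mk 0x3c00000014 0x7f0000003c 3 7) 0 0 (step_sound _ 3 [(rh18965a982d73c794.shift 2 0), rhe2b63c00a3d7bb73] (by decide +kernel))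
noncomputable def rhc5998ce9d02e6204 : CRef := CRef.mk (Pat.mk 0x100000005000000050000000500000000 0x20000000300000007000000050000000500000005 3 3) 0 0 (step_sound _ 129 [rh150947578a63ac51, (rh2f68792b6b779e96.shift 0 1)] (by decide +kernel))
noncomputable def rh393bc83f7c0e323b : CRef := CRef.mk (Pat.mk 0x10000000100000005000000070000000500000000 0x1000000010000000300000007000000070000000500000005 3 3) 0 0 (step_sound _ 97 [(rh2145e1d24b96a57e.shift 0 2), rhd8a13c7f042cc6ea] (by decide +kernel))
noncomputable def rhf62a1dd482e6bb7f : CRef := CRef.mk (Pat.mk 0x40000000200000002000000020000000a00000018 0x4000000060000000200000002000000060000000f00000018 3 5) 0 0 (step_sound _ 161 [(rh2f68792b6b779e96.shift 1 2), rhfb789c40dcb050e2] (by decide +kernel))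
noncomputable def rh5555e418daff3bad : CRef := CRef.mk (Pat.mk 0x80000001c0000000800000000 0x4000000040000000f0000003c0000000800000008 3 6) 0 0 (step_sound _ 98 [(rhe2b63c00a3d7bb73.shift 0 2), (rhfc7c29d8e65d775f.shift 2 0)] (by decide +kernel))
noncomputable def rhb924647ebc4c545e : CRef := CRef.mk (Pat.mk 0x8000000080000000c000000030000000000000000 0x80000000c0000003e000000070000000400000004 3 6) 0 0 (step_sound _ 66 [(rh80f90a60d87caa0d.shift 0 2), (rhf9af042da61fc652.shift 2 0)] (by decide +kernel))
noncomputable def rh78a7df122b37ab7e : CRef := CRef.mk (Pat.mk 0x1e0000001a0000000200000000 0x30000001e0000001e0000000300000001 3 5) 0 0 (step_sound _ 129 [(rh3244c3cc8379b070.shift 0 3), rh5710f30ba40ee3ec] (by decide +kernel))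
noncomputable def rh9c3ddc1a1a8204df : CRef := CRef.mk (Pat.mk 0x140000003c 0x3c0000007f 3 7) 0 0 (step_sound _ 35 [rh4dc133ee0ba1420a, (rhf48373e13d2bc128.shift 2 0)] (by decide +kernel))
noncomputable def rhfef0a9b9c00f57c1 : CRef := CRef.mk (Pat.mk 0x500000005000000050000000100000000 0x50000000500000005000000070000000300000002 3 3) 0 0 (step_sound _ 33 [rh55afc6a59410cf00, (rhc50a9cb3b374a536.shift 0 1)] (by decide +kernel))
noncomputable def rha43e0e886cc8b59e : CRef := CRef.mk (Pat.mk 0x50000000700000005000000010000000100000000 0x5000000050000000700000007000000030000000100000001 3 3) 0 0 (step_sound _ 97 [(rh5fc67bac28a8b5bb.shift 0 2), rh71222050f2c63a3a] (by decide +kernel))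
noncomputable def rhde2c99ee2257631c : CRef := CRef.mk (Pat.mk 0x180000000a0000000200000002000000020000000400000000 0x180000000f0000000600000002000000020000000600000004 3 5) 0 0 (step_sound _ 33 [(rh48de0903b0eaf964.shift 0 1), (rh55afc6a59410cf00.shift 1 0)] (by decide +kernel))
noncomputable def rh5b16e5ce3dbbe89f : CRef := CRef.mk (Pat.mk 0x80000001c000000080000000000000000 0x8000000080000003c0000000f0000000400000004 3 6) 0 0 (step_sound _ 66 [(rh1e309b005ffa1b36.shift 2 0), (rh4dc133ee0ba1420a.shift 0 2)] (by decide +kernel))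
noncomputable def rhb76c5a0c52a69678 : CRef := CRef.mk (Pat.mk 0x7000000040000000700000002 0x300000007000000050000000700000007 3 3) 0 0 (step_sound _ 64 [rh2145e1d24b96a57e, rhd8a13c7f042cc6ea] (by decide +kernel))
noncomputable def rh9c1d2b0fc40551bc : CRef := CRef.mk (Pat.mk 0xc000000070000000800000000 0x4000000040000000c0000000f0000001800000008 3 5) 0 0 (step_sound _ 67 [(rhe25b0a99195a5d59.shift 0 1), (rhfc7c29d8e65d775f.shift 2 0)] (by decide +kernel))
noncomputable def rhe669ff3944f9a019 : CRef := CRef.mk (Pat.mk 0x200000007000000040000000700000000 0x700000007000000050000000700000003 3 3) 0 0 (step_sound _ 64 [rh5fc67bac28a8b5bb, rh71222050f2c63a3a] (by decide +kernel))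
noncomputable def rh284958ad31771189 : CRef := CRef.mk (Pat.mk 0x8000000070000000c0000000000000000 0x8000000180000000f0000000c0000000400000004 3 5) 0 0 (step_sound _ 99 [(rh1e309b005ffa1b36.shift 2 0), (rh33e738c4ed385b9f.shift 0 3)] (by decide +kernel))
noncomputable def rhe68e315fb4553677 : CRef := CRef.mk (Pat.mk 0x20000000100000007000000050000000000000000 0x20000000700000007000000050000000500000004 3 3) 0 0 (step_sound _ 129 [(rh08edf065357d68e5.shift 1 0), (rh71222050f2c63a3a.shift 0 1)] (by decide +kernel))
noncomputable def rhe31d01bb44986368 : CRef := CRef.mk (Pat.mk 0x3c000000020000000600000000 0x70000003e000000020000000600000004 3 6) 0 0 (step_sound _ 129 [rh37d1b07d1fae205e, (rh3f8766e6ecb455ce.shift 1 3)] (by decide +kernel))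
noncomputable def rh71a7f499e4f3ab7c : CRef := CRef.mk (Pat.mk 0x80000000c000000080000001e00000000 0x40000000c0000000c0000000c0000001e00000003 3 5) 0 0 (step_sound _ 130 [rh316d0c7c5292e4bb, (rh50fbb5868c909700.shift 2 1)] (by decide +kernel))
noncomputable def rhfff8953c7af09ce5 : CRef := CRef.mk (Pat.mk 0x200000003000000000000000300000000 0x10000000300000003000000020000000300000003 3 2) 0 0 (step_sound _ 65 [rh932754581e0f4330, rhe286c75f2739cce2] (by decide +kernel))
noncomputable def rh21f157abb00787f3 : CRef := CRef.mk (Pat.mk 0x400000006000000180000000a00000000 0x4000000060000001e0000000f00000002 3 5) 0 0 (step_sound _ 65 [(rh71222050f2c63a3a.shift 1 0), (rhda02c4ce0b224328.shift 0 1)] (by decide +kernel))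
noncomputable def rhea6bef6447d37a6a : CRef := CRef.mk (Pat.mk 0x2000000030000000600000000 0x20000000200000002000000070000000700000004 3 3) 0 0 (step_sound _ 129 [(rh55afc6a59410cf00.shift 1 0), (rh85a605aac6183f28.shift 0 1)] (by decide +kernel))
noncomputable def rh9bb5c7e5c08d4582 : CRef := CRef.mk (Pat.mk 0x600000003000000020000000000000000 0x40000000700000007000000020000000200000002 3 3) 0 0 (step_sound _ 33 [rh2d5442cbf338480d, (rh2f68792b6b779e96.shift 1 1)] (by decide +kernel))
noncomputable def rh503775339733bab1 : CRef := CRef.mk (Pat.mk 0x100000003c 0x370000003e 3 6) 0 0 (step_sound _ 33 [(rh3f8766e6ecb455ce.shift 1 0), rh479f07c8ec776d62] (by decide +kernel))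
noncomputable def rhb9739f1ab700cea6 : CRef := CRef.mk (Pat.mk 0x1e000000080000000c0000000800000000 0x30000001e0000000c0000000c0000000c00000004 3 5) 0 0 (step_sound _ 34 [(rh932754581e0f4330.shift 2 0), (rhea1977e228a6d74a.shift 0 1)] (by decide +kernel))
noncomputable def rhfe5aaaa5b2356484 : CRef := CRef.mk (Pat.mk 0x100000001000000010000001c00000000 0x100000001000000030000001f00000003 3 5) 0 0 (step_sound _ 33 [rh081a26405065f71a, (rh3f8766e6ecb455ce.shift 0 1)] (by decide +kernel))
noncomputable def rh045a29dae8c97265 : CRef := CRef.mk (Pat.mk 0x300000000000000030000000200000000 0x30000000300000002000000030000000300000001 3 2) 0 0 (step_sound _ 97 [rh03dfdf12d5937476, (rh50fbb5868c909700.shift 0 1)] (by decide +kernel))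
noncomputable def rhbac2358fc36e5851 : CRef := CRef.mk (Pat.mk 0xa000000180000000600000004 0x20000000f0000001e0000000600000004 3 5) 0 0 (step_sound _ 65 [(rh2145e1d24b96a57e.shift 1 0), (rhd8be3b7ca6adb62f.shift 0 2)] (by decide +kernel))
noncomputable def rhb2432c16363a7e8d : CRef := CRef.mk (Pat.mk 0x3c00000010 0x3e00000037 3 6) 0 0 (step_sound _ 1 [(rh80fcd6d0a18cb2dd.shift 1 0), rhc8b21ffc3825c72d] (by decide +kernel))
noncomputable def rh9cc5d980c4667d10 : CRef := CRef.mk (Pat.mk 0x4000000060000000c0000000c00000000 0x4000000060000003c0000000f00000002 3 6) 0 0 (step_sound _ 68 [(rhf48373e13d2bc128.shift 1 2), rhf5094ad2a427d4d3] (by decide +kernel))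
noncomputable def rh4a652af6261b5a9e : CRef := CRef.mk (Pat.mk 0x80000001c000000380000000000000000 0x80000003c0000003f0000000600000004 3 6) 0 0 (step_sound _ 66 [(rh9c40a739b57d6d20.shift 1 0), (rhab2ad169e49f9c5e.shift 0 2)] (by decide +kernel))
noncomputable def rh39a7ed93c3e90ebd : CRef := CRef.mk (Pat.mk 0x380000001c00000008 0x4000000060000003f0000003c00000008 3 6) 0 0 (step_sound _ 66 [(rh309fd0c3d364cd61.shift 1 0), (rhad5d8fc3675c15dd.shift 0 1)] (by decide +kernel))
noncomputable def rha6089b5cf406d762 : CRef := CRef.mk (Pat.mk 0x600000002000000100000000700000000 0x6000000060000003c0000000f00000006 3 6) 0 0 (step_sound _ 66 [(rh5acb6dc3b47c700e.shift 0 1), (rhdc23d12011095348.shift 1 0)] (by decide +kernel))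
noncomputable def rhe95c071a658174bf : CRef := CRef.mk (Pat.mk 0x400000006000000200000000e00000000 0x400000006000000320000001e00000003 3 6) 0 0 (step_sound _ 36 [rh29ed1d9e79c1bb2d, (rh428265de8cd3cd2d.shift 1 1)] (by decide +kernel))
noncomputable def rheed5583e9debe2b0 : CRef := CRef.mk (Pat.mk 0x30000001000000007 0x30000003e0000000f 3 6) 0 0 (step_sound _ 35 [rh3fc040e777f1679e, rhe8cc1c5601213ea4] (by decide +kernel))
noncomputable def rhabdc3ccfcc1c7da9 : CRef := CRef.mk (Pat.mk 0x18000000020000000e00000004 0x20000001e000000030000001e00000004 3 5) 0 0 (step_sound _ 64 [rh7ce2059e0d236337, (rhf48373e13d2bc128.shift 0 1)] (by decide +kernel))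
noncomputable def rh10c6be5f2a093ad1 : CRef := CRef.mk (Pat.mk 0x7000000100000000200000006 0x60000000f0000003c0000000600000006 3 6) 0 0 (step_sound _ 66 [(rhc1db5918def9f13b.shift 0 2), (rhda9c0827c24abf7d.shift 1 0)] (by decide +kernel))
noncomputable def rh3cc1d144187adebf : CRef := CRef.mk (Pat.mk 0xe000000200000000600000004 0x30000001e000000320000000600000004 3 6) 0 0 (step_sound _ 100 [rh7f8e4a6fbe0e1f11, (rh96851dee118c1ba3.shift 1 2)] (by decide +kernel))
noncomputable def rh1826fdc27fceaec0 : CRef := CRef.mk (Pat.mk 0x70000001000000003 0xf0000003e00000003 3 6) 0 0 (step_sound _ 35 [(rhd6e447e81774439e.shift 0 1), rhdac3f9be0f86d6cd] (by decide +kernel))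
noncomputable def rh4efa0adc8286e0a8 : CRef := CRef.mk (Pat.mk 0x40000000e000000020000001800000000 0x40000001e000000030000001e00000002 3 5) 0 0 (step_sound _ 64 [(rh18965a982d73c794.shift 0 2), rh331edaec3ffcf4ee] (by decide +kernel))
noncomputable def rh764646065eef9665 : CRef := CRef.mk (Pat.mk 0x40000000c0000000d0000000000000000 0x40000001c0000000f0000001800000008 3 5) 0 0 (step_sound _ 65 [(rh33e738c4ed385b9f.shift 0 2), rh78974448101547fe] (by decide +kernel))
noncomputable def rh69d525c98ea542d2 : CRef := CRef.mk (Pat.mk 0x30000000180000001a 0x300000001f0000001f 3 6) 0 0 (step_sound _ 2 [rh53b3c253cb0c65f4, rh90a04632e314f181] (by decide +kernel))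
noncomputable def rh3696608e2c96b8ce : CRef := CRef.mk (Pat.mk 0x8000000180000001a0000000000000000 0x8000000180000001f0000003000000010 3 6) 0 0 (step_sound _ 66 [(rh53b3c253cb0c65f4.shift 0 2), (rh78974448101547fe.shift 1 0)] (by decide +kernel))
noncomputable def rh854941ff1eae263f : CRef := CRef.mk (Pat.mk 0xd0000000c00000004 0x8000000180000000f0000001c00000004 3 5) 0 0 (step_sound _ 65 [rh5421160f8e9bcf07, (rhe25b0a99195a5d59.shift 0 1)] (by decide +kernel))
noncomputable def rh504a6fdd21c68b6d : CRef := CRef.mk (Pat.mk 0x1a0000001800000030 0x1f0000001f00000030 3 6) 0 0 (step_sound _ 66 [(rhb739f4f82bb681b4.shift 0 1), rhe41609ae3e02089b] (by decide +kernel))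
noncomputable def rhcd04ce9a8dfd6991 : CRef := CRef.mk (Pat.mk 0x1a0000001800000008 0x10000000300000001f0000001800000008 3 6) 0 0 (step_sound _ 66 [(rh5421160f8e9bcf07.shift 1 0), (rhb739f4f82bb681b4.shift 0 1)] (by decide +kernel))
noncomputable def rha309f1affcf4d51b : CRef := CRef.mk (Pat.mk 0x40000000c0000001e0000000000000000 0x40000000c0000001f0000003800000008 3 6) 0 0 (step_sound _ 36 [rh7082a125cd4b18d2, (rhe25b0a99195a5d59.shift 1 1)] (by decide +kernel))
noncomputable def rh51fce1c34e57939e : CRef := CRef.mk (Pat.mk 0x800000008000000180000001400000000 0x800000008000000380000001f00000004 3 6) 0 0 (step_sound _ 35 [(rh932754581e0f4330.shift 2 0), (rhab2ad169e49f9c5e.shift 0 1)] (by decide +kernel))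
noncomputable def rh0458c62fd03c11b7 : CRef := CRef.mk (Pat.mk 0x1000000003000000020000000200000002 0x40000001e00000007000000020000000200000002 3 5) 0 0 (step_sound _ 130 [(rhb36d9345549e5cca.shift 0 1), (rhbaefcd01e0a8bca3.shift 1 0)] (by decide +kernel))
noncomputable def rh9687edfb9a4610f2 : CRef := CRef.mk (Pat.mk 0x1e0000000c00000004 0x8000000380000001f0000000c00000004 3 6) 0 0 (step_sound _ 100 [(rh33e738c4ed385b9f.shift 1 2), rh3a55be38d6a9d434] (by decide +kernel))
noncomputable def rh0b744d3af5b77181 : CRef := CRef.mk (Pat.mk 0x14000000180000000800000008 0x40000001f000000380000000800000008 3 6) 0 0 (step_sound _ 99 [(rh50fbb5868c909700.shift 2 0), (rhad5d8fc3675c15dd.shift 0 2)] (by decide +kernel))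
noncomputable def rh90b2a9b33a13c18c : CRef := CRef.mk (Pat.mk 0xf000000010000000800000008 0x100000001f0000001b0000000800000008 3 5) 0 0 (step_sound _ 100 [(rh80fcd6d0a18cb2dd.shift 0 2), rha489452f69f51c42] (by decide +kernel))
noncomputable def rh69553f89ec47d787 : CRef := CRef.mk (Pat.mk 0xc000000140000000c0000000c00000000 0x20000000f0000001c0000000c0000000c00000004 3 5) 0 0 (step_sound _ 99 [(rh277b01412deaec89.shift 0 1), (rh932754581e0f4330.shift 2 0)] (by decide +kernel))
noncomputable def rhcedc9a1d714703df : CRef := CRef.mk (Pat.mk 0x1c00000018000000040000000600000000 0x3c0000001f000000040000000600000002 3 6) 0 0 (step_sound _ 98 [(rh932754581e0f4330.shift 1 0), (rhab2ad169e49f9c5e.shift 0 3)] (by decide +kernel))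
noncomputable def rh05bd3f77a7a27350 : CRef := CRef.mk (Pat.mk 0x800000008000000010000000f00000000 0x8000000080000001b0000001f00000010 3 5) 0 0 (step_sound _ 36 [(rh3f8766e6ecb455ce.shift 0 1), rhd9e2519e9bf020f2] (by decide +kernel))
noncomputable def rhea7b9eedea36c816 : CRef := CRef.mk (Pat.mk 0x600000004000000180000001c 0x200000006000000040000001f0000003c 3 6) 0 0 (step_sound _ 34 [(rh50fbb5868c909700.shift 1 0), rhad5d8fc3675c15dd] (by decide +kernel))
noncomputable def rh49d70996e36647de : CRef := CRef.mk (Pat.mk 0x22000000070000000c00000004 0x80000003e0000000f0000000c00000004 3 6) 0 0 (step_sound _ 99 [(rh6870ff15d3813450.shift 0 2), (rh93edfa1f77289b62.shift 2 0), (rhb36d9345549e5cca.shift 1 0), rhc0e343a050da71e6] (by decide +kernel))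
noncomputable def rh7263bee49303e8fc : CRef := CRef.mk (Pat.mk 0x3000000030000000600000000 0x20000000200000003000000030000000700000005 3 3) 0 0 (step_sound _ 129 [rh1e309b005ffa1b36, (rh55afc6a59410cf00.shift 1 0)] (by decide +kernel))
noncomputable def rhd6bdcf42eacc3245 : CRef := CRef.mk (Pat.mk 0x400000006000000000000003c00000000 0x400000006000000070000003e00000002 3 6) 0 0 (step_sound _ 65 [(rh3f8766e6ecb455ce.shift 1 1), rh74d6a2245e6f2e47] (by decide +kernel))
noncomputable def rhfde351cfc6d8ff57 : CRef := CRef.mk (Pat.mk 0x40000000c000000070000002200000000 0x40000000c0000000f0000003e00000008 3 6) 0 0 (step_sound _ 35 [(rh478c4cadbcd4e066.shift 2 0), (rha5a7323224298132.shift 1 0), rhc76d142f049b7a48, (rhd5041491555e8d86.shift 0 1)] (by decide +kernel))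
noncomputable def rh9bd2bb1b625e8a7e : CRef := CRef.mk (Pat.mk 0x600000003000000030000000000000000 0x50000000700000003000000030000000200000002 3 3) 0 0 (step_sound _ 33 [(rh2f68792b6b779e96.shift 1 1), rhfc7c29d8e65d775f] (by decide +kernel))
noncomputable def rhb5c8c9ad79bacc08 : CRef := CRef.mk (Pat.mk 0x3c000000000000000600000004 0x20000003e000000070000000600000004 3 6) 0 0 (step_sound _ 65 [rh77ad944900f11431, (rh80fcd6d0a18cb2dd.shift 1 2)] (by decide +kernel))
noncomputable def rhcbcc5a257edbc6de : CRef := CRef.mk (Pat.mk 0x80000000d0000000c00000000 0x800000008000000080000000f0000001c00000010 3 5) 0 0 (step_sound _ 131 [rh2d65c91b9f714cee, (rh5c5e593799055d58.shift 2 1)] (by decide +kernel))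
noncomputable def rh6eb13c7f206c3d49 : CRef := CRef.mk (Pat.mk 0x80000000f000000000000000400000000 0x80000000f0000001c0000000c00000004 3 5) 0 0 (step_sound _ 67 [(rh5ddbeed5d869bf16.shift 2 0), (rhe25b0a99195a5d59.shift 0 2)] (by decide +kernel))
noncomputable def rha5b5a8d513a1f7f3 : CRef := CRef.mk (Pat.mk 0x60000000e000000120000000a00000000 0x60000000e0000001a0000000f0000000c 3 5) 0 0 (step_sound _ 67 [rh5d5b9b56c19874f2, (rh7b1f1fb55310c477.shift 2 0)] (by decide +kernel))
noncomputable def rhe0486e85e8f6c68a : CRef := CRef.mk (Pat.mk 0x6000000060000001a0000000800000000 0x6000000060000001a0000000f00000006 3 5) 0 0 (step_sound _ 33 [rh5d5b9b56c19874f2, (rh71222050f2c63a3a.shift 1 0)] (by decide +kernel))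
noncomputable def rhf348e8372f095d24 : CRef := CRef.mk (Pat.mk 0x180000000900000003000000010000000000000000 0x1a0000000f00000003000000010000000100000001 3 5) 0 0 (step_sound _ 129 [(rh1c62b6193297d9e3.shift 0 4), rhea7a1800d6f053bd] (by decide +kernel))
noncomputable def rh978fad83d3287704 : CRef := CRef.mk (Pat.mk 0x100000003000000010000000c00000018 0x20000000300000003000000010000000f00000019 3 5) 0 0 (step_sound _ 32 [rha707fb719e87fe6e, rhab22b5b56e7b3243] (by decide +kernel))
noncomputable def rhec1f98bc300b66e4 : CRef := CRef.mk (Pat.mk 0xf000000100000001800000000 0x380000001f000000100000001800000008 3 6) 0 0 (step_sound _ 132 [(rh16cf2c77f05c0b59.shift 1 0), (rh428265de8cd3cd2d.shift 0 3)] (by decide +kernel))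
noncomputable def rha6399794a59e7d61 : CRef := CRef.mk (Pat.mk 0x4000000000000000f00000008 0x40000000c0000001c0000000f00000008 3 5) 0 0 (step_sound _ 67 [(rh33e738c4ed385b9f.shift 0 1), (rh616c75d1b5542aee.shift 2 0)] (by decide +kernel))
noncomputable def rh44386a7e86fbdb58 : CRef := CRef.mk (Pat.mk 0x80000000a000000020000000200000002 0x1d0000000f000000020000000200000002 3 5) 0 0 (step_sound _ 98 [(rh2f68792b6b779e96.shift 1 0), rh4d4e586abdf65d17] (by decide +kernel))
noncomputable def rh208b7de0cc69000f : CRef := CRef.mk (Pat.mk 0xa000000120000000e00000006 0xc0000000f0000001a0000000e00000006 3 5) 0 0 (step_sound _ 67 [(rh5c5e593799055d58.shift 2 0), rhe8ba100882c6d16d] (by decide +kernel))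
end Crest.Agent.S0047.Helper85.Cert
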