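import Crest.Agent.Lib.S0047.Helper85CertPL2F0
import Crest.Agent.Lib.S0047.Helper85CertPL2F1
set_option autoImplicit false
set_option linter.all false
set_option Elab.async false
namespace Crest.Agent.S0047.Helper85.Cert
open Crest.Agent.S0047.Helper85

noncomputable def rhe9ea452019cb53f9 : CRef := CRef.mk (Pat.mk 0x1000000030000000900000018 0x10000000100000001000000030000000f0000001a 3 5) 0 0 (step_sound _ 33 [rh3e595262c1b737ad, rhc10214bf3fe8094a] (by decide +kernel))
noncomputable def rh19f04371b14ac53c : CRef := CRef.mk (Pat.mk 0x1000000010000000100000000700000000 0x1000000010000000180000001f00000018 3 5) 0 0 (step_sound _ 35 [rh415c273b677a8825, (rh428265de8cd3cd2d.shift 0 1)] (by decide +kernel))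
noncomputable def rh56d0cf1fb306da76 : CRef := CRef.mk (Pat.mk 0x180000000c00000001000000030000000100000000 0x190000000f00000001000000030000000300000002 3 5) 0 0 (step_sound _ 128 [(rh24ae073cf30720c4.shift 0 4), rhd4b4beefcd67f51e] (by decide +kernel))
noncomputable def rh5fd027962edf3b21 : CRef := CRef.mk (Pat.mk 0x180000001c0000000800000010 0x8000000180000001f0000003800000010 3 6) 0 0 (step_sound _ 36 [(rh50fbb5868c909700.shift 3 0), (rhad5d8fc3675c15dd.shift 0 1)] (by decide +kernel))
noncomputable def rh6eba9a6cc09894e4 : CRef := CRef.mk (Pat.mk 0x1800000008000000400000000e 0x100000001800000008000000780000000f 3 7) 0 0 (step_sound _ 35 [rh2b3584ef0f05e9c2, (rh2f68792b6b779e96.shift 3 0)] (by decide +kernel))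
noncomputable def rh828fef42727e7be2 : CRef := CRef.mk (Pat.mk 0x60000000300000001000000020000000000000000 0x4000000060000000700000003000000020000000200000002 3 3) 0 0 (step_sound _ 97 [(rh2f68792b6b779e96.shift 1 2), rh3eb26739ea0a224c] (by decide +kernel))
noncomputable def rh03264f17a10985c1 : CRef := CRef.mk (Pat.mk 0x600000003000000000000000200000000 0x40000000700000007000000020000000200000002 3 3) 0 0 (step_sound _ 65 [rh2d5442cbf338480d, (rh2f68792b6b779e96.shift 1 1)] (by decide +kernel))
noncomputable def rhc95dcd868e038ffd : CRef := CRef.mk (Pat.mk 0x800000003000000020000000200000004 0x40000001e00000003000000020000000600000004 3 5) 0 0 (step_sound _ 129 [(rh8797c67fe3ac847a.shift 0 1), (rhd3458b32566d63f7.shift 1 0)] (by decide +kernel))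
noncomputable def rh2c94cc78cc898595 : CRef := CRef.mk (Pat.mk 0x8000000030000000300000003 0x60000001e000000030000000300000003 3 5) 0 0 (step_sound _ 97 [rh5c5e593799055d58, rh8797c67fe3ac847a] (by decide +kernel))
noncomputable def rh17a556309cbe1030 : CRef := CRef.mk (Pat.mk 0x4000000020000000600000003 0x600000006000000020000000700000007 3 3) 0 0 (step_sound _ 97 [(rh2f68792b6b779e96.shift 1 0), rh518d6f6eeebddcb2] (by decide +kernel))
noncomputable def rh11e271fc6df71935 : CRef := CRef.mk (Pat.mk 0x2000000020000001200000003 0x200000002000000020000001f00000007 3 5) 0 0 (step_sound _ 129 [rh701357247ae7e814, rh79877ebd3ef475dd] (by decide +kernel))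
noncomputable def rh9c14e3cb4927e8b1 : CRef := CRef.mk (Pat.mk 0x10000000180000001e 0x300000001f0000003e 3 6) 0 0 (step_sound _ 33 [rh3244c3cc8379b070, (rhabcb8f6c932edb1f.shift 1 0)] (by decide +kernel))
noncomputable def rhd4803e9ceb634242 : CRef := CRef.mk (Pat.mk 0x800000003000000020000000300000000 0x40000001e00000003000000020000000300000001 3 5) 0 0 (step_sound _ 129 [(rh8797c67fe3ac847a.shift 0 1), rh932754581e0f4330] (by decide +kernel))
noncomputable def rhc2205c51d9b8af26 : CRef := CRef.mk (Pat.mk 0xc0000004700000002 0x1c0000007f00000003 3 7) 0 0 (step_sound _ 35 [(rh33e738c4ed385b9f.shift 0 1), rh7a89dccc93a85add] (by decide +kernel))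
noncomputable def rh9be069fbbecfe378 : CRef := CRef.mk (Pat.mk 0x40000000c000000070000000000000000 0x40000001c0000000f0000001800000008 3 5) 0 0 (step_sound _ 67 [(rh33e738c4ed385b9f.shift 0 2), rh78974448101547fe] (by decide +kernel))
noncomputable def rhcd2bd3fc839dcd04 : CRef := CRef.mk (Pat.mk 0x800000000000000090000000e00000000 0x8000000080000000b0000001e00000030 3 6) 0 0 (step_sound _ 36 [(rh3098af7943687178.shift 1 0), (rh3f8766e6ecb455ce.shift 0 1)] (by decide +kernel))
noncomputable def rh97ffe9f7c907aa77 : CRef := CRef.mk (Pat.mk 0x4000000030000000700000002 0x20000000600000006000000030000000700000006 3 3) 0 0 (step_sound _ 97 [(rh2f68792b6b779e96.shift 1 0), rh571950d89739e871] (by decide +kernel))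
noncomputable def rhc633eb9d57dee3b1 : CRef := CRef.mk (Pat.mk 0x20000000700000003000000040000000000000000 0x60000000700000003000000060000000600000002 3 3) 0 0 (step_sound _ 65 [(rh55afc6a59410cf00.shift 1 1), rhb0c1e7919d9be92d] (by decide +kernel))
noncomputable def rhaf89196ed7f199b4 : CRef := CRef.mk (Pat.mk 0x800000000000000080000000f00000000 0x800000008000000080000001f00000038 3 6) 0 0 (step_sound _ 4 [(rh82be616e028c1db2.shift 1 0), rh96851dee118c1ba3] (by decide +kernel))
noncomputable def rh4610ea79ea0a338e : CRef := CRef.mk (Pat.mk 0xa000000280000001c 0xf0000003c0000001e 3 6) 0 0 (step_sound _ 36 [(rh53b3c253cb0c65f4.shift 1 0), (rhc30259bd62f0e380.shift 0 1)] (by decide +kernel))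
noncomputable def rh3be7f6b81357a21d : CRef := CRef.mk (Pat.mk 0x20000001e000000000000000000000002 0x60000003e000000030000000200000002 3 6) 0 0 (step_sound _ 65 [(rh723ae92b1b9da576.shift 1 0), (rheb0810cc63b001d8.shift 0 2)] (by decide +kernel))
noncomputable def rh0534ccfab756e493 : CRef := CRef.mk (Pat.mk 0x700000004000000040000000400000000 0xf0000003e000000040000000400000004 3 6) 0 0 (step_sound _ 99 [(rh4a0b10776449c3e9.shift 0 3), (rh89ade209b3e28f13.shift 0 3), (rhc705a4e0321a1bff.shift 1 0)] (by decide +kernel))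
noncomputable def rh7c44f8de8ceba237 : CRef := CRef.mk (Pat.mk 0x10000000f000000010000000000000000 0x2000000030000001f000000010000000100000001 3 5) 0 0 (step_sound _ 129 [rhea7a1800d6f053bd, (rhf48373e13d2bc128.shift 0 3)] (by decide +kernel))
noncomputable def rhbb83b53687587fb2 : CRef := CRef.mk (Pat.mk 0x20000000600000006000000020000000000000000 0x20000000600000006000000030000000300000003 3 3) 0 0 (step_sound _ 32 [rh5769ed4fe2fe4c14, (rh79877ebd3ef475dd.shift 0 1)] (by decide +kernel))
noncomputable def rhb0716bb49afa8156 : CRef := CRef.mk (Pat.mk 0x20000000f 0x3b0000001f 3 6) 0 0 (step_sound _ 36 [rh428265de8cd3cd2d, rh5ec015d369888aae] (by decide +kernel))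
noncomputable def rh6797c410c820e91e : CRef := CRef.mk (Pat.mk 0x400000004000000000000000f00000000 0x40000000c000000180000000f00000018 3 5) 0 0 (step_sound _ 3 [rhb5df3e7f22ccacad, rhe25b0a99195a5d59] (by decide +kernel))
noncomputable def rh5cd2ac611390945c : CRef := CRef.mk (Pat.mk 0x1f00000004 0x7f0000001e 3 7) 0 0 (step_sound _ 3 [(rh2612b4f73ba7c3b3.shift 1 0), rhe25b0a99195a5d59] (by decide +kernel))
noncomputable def rhbb16c22d8bb54c90 : CRef := CRef.mk (Pat.mk 0x400000000000000000000000700000003000000010000000100000000 0x400000004000000040000000700000003000000030000000300000002 3 3) 0 0 (step_sound _ 33 [rh55afc6a59410cf00, (rhb505705f313d68be.shift 1 1)] (by decide +kernel))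
noncomputable def rhec588a0d7783acc6 : CRef := CRef.mk (Pat.mk 0x10000000100000001000000010000000000000000 0x2000000030000000300000001000000030000000300000002 3 2) 0 0 (step_sound _ 32 [(rh44f453b84f013105.shift 0 1), rhd29a1fb688eae70f] (by decide +kernel))
noncomputable def rh02de61bc697f3cfc : CRef := CRef.mk (Pat.mk 0x8000000080000000e0000000800000000 0x1000000018000000180000000f0000000800000008 3 5) 0 0 (step_sound _ 132 [(rh2f68792b6b779e96.shift 3 1), rh5bb287abdb6f055e] (by decide +kernel))
noncomputable def rh38ee46920402d80a : CRef := CRef.mk (Pat.mk 0x1000000000000000080000000b0000000800000000 0x100000001000000010000000180000000f0000000800000008 3 5) 0 0 (step_sound _ 100 [(rh1c62b6193297d9e3.shift 0 2), (rha5c1ac488360e009.shift 3 0)] (by decide +kernel))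
noncomputable def rhcec6e8d910b4f91f : CRef := CRef.mk (Pat.mk 0x800000000000000080000000e00000001 0x800000008000000080000001e00000033 3 6) 0 0 (step_sound _ 36 [(rh3098af7943687178.shift 1 0), rh80fcd6d0a18cb2dd] (by decide +kernel))
noncomputable def rhe26e998a14434bc9 : CRef := CRef.mk (Pat.mk 0x180000000a0000000800000008000000080000000400000000 0x180000000f0000000c00000008000000080000000c00000004 3 5) 0 0 (step_sound _ 35 [(rh5067309dd48555a2.shift 0 1), (rh932754581e0f4330.shift 2 0)] (by decide +kernel))
noncomputable def rh5d31d350d6081d55 : CRef := CRef.mk (Pat.mk 0x3a00000000 0x700000003e00000007 3 7) 0 0 (step_sound _ 34 [(rh9890f9d77740bbed.shift 1 1), rheae1728ff4a56756] (by decide +kernel))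
noncomputable def rha72bf666c45f9c99 : CRef := CRef.mk (Pat.mk 0x800000000000000000000000d0000000c00000008 0x800000018000000180000000f0000000c00000008 3 5) 0 0 (step_sound _ 99 [rh7e143111a189f2ad, (rhee230b994cc8b773.shift 2 1)] (by decide +kernel))
noncomputable def rh123702e3a929e394 : CRef := CRef.mk (Pat.mk 0x3e00000010 0x7f0000001e 3 7) 0 0 (step_sound _ 2 [rh8216bf0da4f70608, (rheb0810cc63b001d8.shift 1 0)] (by decide +kernel))
noncomputable def rh99571310822a59fa : CRef := CRef.mk (Pat.mk 0x3a 0x770000003e 3 7) 0 0 (step_sound _ 2 [(rh9890f9d77740bbed.shift 1 0), rhd5eb272e07a4e288] (by decide +kernel))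
noncomputable def rhb27e63f82e0a6668 : CRef := CRef.mk (Pat.mk 0x1000000000000000000000000f00000008 0x1000000010000000380000001f00000008 3 6) 0 0 (step_sound _ 68 [(rh428265de8cd3cd2d.shift 0 1), (rh481f8e6e6b31660c.shift 1 0)] (by decide +kernel))
noncomputable def rh3f1f65112e81949f : CRef := CRef.mk (Pat.mk 0x1a0000001e00000004 0x2000000030000001e0000003e00000004 3 6) 0 0 (step_sound _ 66 [rh309fd0c3d364cd61, (rhf48373e13d2bc128.shift 1 1)] (by decide +kernel))
noncomputable def rhe417fb97609ebbe7 : CRef := CRef.mk (Pat.mk 0x20000001e0000000a0000000a00000000 0x20000001e0000003a0000000f00000001 3 6) 0 0 (step_sound _ 68 [rhabf42db7287f8a50, (rhe25b0a99195a5d59.shift 1 2)] (by decide +kernel))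
noncomputable def rh04c86c4dc256e77a : CRef := CRef.mk (Pat.mk 0x7000000050000000500000000 0x2000000020000000300000007000000050000000500000004 3 3) 0 0 (step_sound _ 129 [(rh7b1f1fb55310c477.shift 1 0), (rhbfb5770941270498.shift 0 1)] (by decide +kernel))
noncomputable def rhb1e85508c6bcb2d1 : CRef := CRef.mk (Pat.mk 0x1c000000140000000400000000 0x30000001e000000340000000400000004 3 6) 0 0 (step_sound _ 97 [rh132883a60cd8aed8, (rhe25b0a99195a5d59.shift 1 2)] (by decide +kernel))
noncomputable def rh81964bdb208cb197 : CRef := CRef.mk (Pat.mk 0xe0000000a 0x1f0000003b 3 6) 0 0 (step_sound _ 4 [rh474e234485f2465c, rhb739f4f82bb681b4] (by decide +kernel))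
noncomputable def rhefe6a054a8eff004 : CRef := CRef.mk (Pat.mk 0xa0000000a0000000200000002 0x50000000f0000001a0000000200000002 3 5) 0 0 (step_sound _ 98 [(rh2f68792b6b779e96.shift 1 0), rh92dfa4e252fd939c] (by decide +kernel))
noncomputable def rh120fbab6b72cf5c6 : CRef := CRef.mk (Pat.mk 0x20000000a0000001e00000002 0x1000000030000003e0000001e00000002 3 6) 0 0 (step_sound _ 68 [(rh33e738c4ed385b9f.shift 1 1), rh5e05da03898e7023] (by decide +kernel))
noncomputable def rhe548bb72d7fdc1e2 : CRef := CRef.mk (Pat.mk 0x800000018000000100000000400000007 0x800000018000000100000003c0000001f 3 6) 0 0 (step_sound _ 36 [rh5acb6dc3b47c700e, (rh7b1f1fb55310c477.shift 3 0)] (by decide +kernel))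
noncomputable def rhac602ae2ded323a7 : CRef := CRef.mk (Pat.mk 0x400000007000000100000003000000020 0x3c0000001f000000100000003000000020 3 6) 0 0 (step_sound _ 132 [(rh5acb6dc3b47c700e.shift 0 3), (rh6f1cbe15c631ee70.shift 4 0)] (by decide +kernel))
noncomputable def rh00b22401a0bf2d5e : CRef := CRef.mk (Pat.mk 0xf00000010 0x380000001f00000030 3 6) 0 0 (step_sound _ 68 [(rh428265de8cd3cd2d.shift 0 1), (rhf9dd539d91bdf46b.shift 1 0)] (by decide +kernel))
noncomputable def rh25abe125d2876a55 : CRef := CRef.mk (Pat.mk 0xf00000001000000000000000100000000 0x20000001f00000003000000010000000100000001 3 5) 0 0 (step_sound _ 64 [rh155fa7b85b00c3f4, (rh2f68792b6b779e96.shift 0 1)] (by decide +kernel))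
noncomputable def rh36ceb22628bab848 : CRef := CRef.mk (Pat.mk 0x8000000100000001c0000001000000000 0x8000000180000001f0000003000000010 3 6) 0 0 (step_sound _ 99 [(rh7b1f1fb55310c477.shift 3 0), (rhf56e6bc5d2f7fe77.shift 0 1)] (by decide +kernel))
noncomputable def rhaff4d66ab2235e4f : CRef := CRef.mk (Pat.mk 0xc00000003 0x3e0000000f 3 6) 0 0 (step_sound _ 36 [rh761e2e70c46f9564, rhca9569cc80abfe76] (by decide +kernel))
noncomputable def rhe91807ca17b16c53 : CRef := CRef.mk (Pat.mk 0x800000004000000070000000400000000 0x80000003c0000000f0000000400000004 3 6) 0 0 (step_sound _ 99 [(rh572132728df34c43.shift 0 2), (rh71222050f2c63a3a.shift 2 0)] (by decide +kernel))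
noncomputable def rhcd2d91134b2bed5e : CRef := CRef.mk (Pat.mk 0x1000000000000000020000001a00000008 0x1000000010000000330000001e00000008 3 6) 0 0 (step_sound _ 68 [(rh9ce9666211d7d662.shift 0 1), (rhee230b994cc8b773.shift 3 0)] (by decide +kernel))
noncomputable def rhfacd956b16ee3283 : CRef := CRef.mk (Pat.mk 0x80000001a000000020000000600000000 0x40000000f0000001a000000020000000600000004 3 5) 0 0 (step_sound _ 129 [(rh55afc6a59410cf00.shift 1 0), (rhe8ba100882c6d16d.shift 0 1)] (by decide +kernel))
noncomputable def rh076ceb4308ef53bf : CRef := CRef.mk (Pat.mk 0x2000000000000001e0000000200000000 0x2000000030000003e0000000600000004 3 6) 0 0 (step_sound _ 97 [(rh3244c3cc8379b070.shift 0 2), (rh742a939d2de66caf.shift 1 0)] (by decide +kernel))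
noncomputable def rh31abe589319b24d9 : CRef := CRef.mk (Pat.mk 0x200000006000000080000000800000008 0x170000001e000000080000000800000008 3 5) 0 0 (step_sound _ 99 [rh4f7106e6f46c2542, (rh50fbb5868c909700.shift 2 0)] (by decide +kernel))
noncomputable def rh87fdadf854dfc1ed : CRef := CRef.mk (Pat.mk 0x400000004000000000000001c00000010 0x400000004000000040000001e00000033 3 6) 0 0 (step_sound _ 33 [rh316d0c7c5292e4bb, (rhe25b0a99195a5d59.shift 1 0)] (by decide +kernel))
noncomputable def rh0c12e6013034d86b : CRef := CRef.mk (Pat.mk 0x40000000f000000040000001c00000000 0x40000000f0000003c0000001e00000002 3 6) 0 0 (step_sound _ 68 [(rh33d01eedb9d8bafb.shift 1 0), (rh96851dee118c1ba3.shift 0 2)] (by decide +kernel))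
noncomputable def rh57235e612a1e0285 : CRef := CRef.mk (Pat.mk 0x40000001e000000180000000c00000000 0x40000001e0000001b0000000f00000002 3 5) 0 0 (step_sound _ 65 [rh42558e9c3b58f747, (rheb0810cc63b001d8.shift 0 2)] (by decide +kernel))
noncomputable def rhc2575802e16fdcb1 : CRef := CRef.mk (Pat.mk 0x140000000200000002000000020000000200000002 0x40000001e0000000300000003000000020000000200000002 3 5) 0 0 (step_sound _ 161 [(rh2f68792b6b779e96.shift 1 2), rhea68bc6538dd6649] (by decide +kernel))
noncomputable def rha92108593a7da4f1 : CRef := CRef.mk (Pat.mk 0x50000000100000006000000020000000000000000 0x4000000050000000700000006000000020000000200000002 3 3) 0 0 (step_sound _ 130 [rh4f5da4dafb6dd81a, (rh5c5e593799055d58.shift 1 2)] (by decide +kernel))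
noncomputable def rh8b748b3879485ac0 : CRef := CRef.mk (Pat.mk 0xe00000014000000040000000000000000 0x20000000f0000001c000000040000000400000004 3 5) 0 0 (step_sound _ 99 [(rh40241bd608e5be1a.shift 1 0), (rhb739f4f82bb681b4.shift 0 3)] (by decide +kernel))
noncomputable def rh263494894912cb88 : CRef := CRef.mk (Pat.mk 0x40000000e000000040000000400000000 0x3c0000000f000000040000000400000004 3 6) 0 0 (step_sound _ 131 [(rh71222050f2c63a3a.shift 2 0), (rhf9d36e158778ce35.shift 0 3)] (by decide +kernel))
noncomputable def rha0a255a24301f39b : CRef := CRef.mk (Pat.mk 0x1900000001000000030000000700000000 0x20000001f00000003000000030000000700000004 3 5) 0 0 (step_sound _ 129 [(rh2f68792b6b779e96.shift 0 1), rhb5794f4dc0f4319e] (by decide +kernel))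
noncomputable def rh90f2bdf846bc6aaf : CRef := CRef.mk (Pat.mk 0x1800000002000000020000000200000000 0x40000003e00000007000000020000000200000002 3 6) 0 0 (step_sound _ 130 [(rh155fa7b85b00c3f4.shift 1 0), (rh85432018c7d7e334.shift 0 1)] (by decide +kernel))
noncomputable def rh732f3bfedc04a179 : CRef := CRef.mk (Pat.mk 0x800000000000000080000000e00000001 0x800000008000000080000001e00000017 3 5) 0 0 (step_sound _ 36 [rh80fcd6d0a18cb2dd, (rh9b32778d424b58d6.shift 2 0)] (by decide +kernel))
noncomputable def rhe3ca3d7b4fee55d8 : CRef := CRef.mk (Pat.mk 0xa0000000a0000000200000002 0x50000000f0000001a0000000200000002 3 5) 0 0 (step_sound _ 96 [rh50fbb5868c909700, rhb01df2df6ae952df] (by decide +kernel))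
noncomputable def rh8bd708696176511f : CRef := CRef.mk (Pat.mk 0x1c00000000000000020000000200000000 0x40000003e00000007000000020000000200000002 3 6) 0 0 (step_sound _ 97 [(rh155fa7b85b00c3f4.shift 1 0), (rh85432018c7d7e334.shift 0 1)] (by decide +kernel))
noncomputable def rhe2a5b687fa797104 : CRef := CRef.mk (Pat.mk 0x1e000000000000000200000002 0x70000001f000000020000000200000002 3 5) 0 0 (step_sound _ 65 [(rh2f68792b6b779e96.shift 1 0), rha25c0e62bb8d55c9] (by decide +kernel))
noncomputable def rhc4f9434c7e34da59 : CRef := CRef.mk (Pat.mk 0x400000006000000160000000000000000 0x4000000070000001e0000000300000002 3 5) 0 0 (step_sound _ 67 [(rh3244c3cc8379b070.shift 0 2), rh9c40a739b57d6d20] (by decide +kernel))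
noncomputable def rh77aff2a1b006188a : CRef := CRef.mk (Pat.mk 0x100000001800000058 0x300000001f00000078 3 7) 0 0 (step_sound _ 34 [(rh2fe78cc5ca4405d8.shift 2 0), rh34517e326ddb5b25] (by decide +kernel))
noncomputable def rh6febad34ef473bb0 : CRef := CRef.mk (Pat.mk 0x180000003800000040 0x380000003f00000060 3 7) 0 0 (step_sound _ 34 [(rh96851dee118c1ba3.shift 2 0), (rhab2ad169e49f9c5e.shift 0 1)] (by decide +kernel))
noncomputable def rh7d59b22dd1de8ac0 : CRef := CRef.mk (Pat.mk 0x40000000e000000160000000000000000 0x4000000040000000f0000001e0000000800000008 3 5) 0 0 (step_sound _ 67 [(rh3244c3cc8379b070.shift 0 2), (rh55a1f6c57a317ce6.shift 2 0)] (by decide +kernel))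
noncomputable def rh2314a9727c37b748 : CRef := CRef.mk (Pat.mk 0x80000001e000000060000000000000000 0x20000000b0000001e000000060000000400000004 3 5) 0 0 (step_sound _ 34 [(rh309fd0c3d364cd61.shift 0 1), (rh71222050f2c63a3a.shift 2 0)] (by decide +kernel))
noncomputable def rhb44ea83a1cc11ff1 : CRef := CRef.mk (Pat.mk 0x100000003000000000000003e 0x1000000010000000300000003000000060000003e 3 6) 0 0 (step_sound _ 33 [(rh3f8766e6ecb455ce.shift 1 0), rhc89253ff58c66167] (by decide +kernel))
noncomputable def rh60175c36124b0cbc : CRef := CRef.mk (Pat.mk 0xc0000000c000000080000000e00000000 0xc0000000c0000000c0000001e00000013 3 5) 0 0 (step_sound _ 36 [rh316d0c7c5292e4bb, (rh55afc6a59410cf00.shift 3 0)] (by decide +kernel))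
noncomputable def rha56ebfed872bba50 : CRef := CRef.mk (Pat.mk 0x2c00000008000000180000000800000000 0x3c0000000f000000180000000800000008 3 6) 0 0 (step_sound _ 98 [(rh6371dceabc07ce3d.shift 0 2), (rh7b1f1fb55310c477.shift 2 0)] (by decide +kernel))
noncomputable def rhb674cdcc0018a090 : CRef := CRef.mk (Pat.mk 0x80000000e000000090000000800000000 0x80000001e0000000f0000001800000010 3 5) 0 0 (step_sound _ 65 [(rh18965a982d73c794.shift 0 2), rh5f11ee373cbffcaa] (by decide +kernel))
noncomputable def rhceeda1aa5100bccb : CRef := CRef.mk (Pat.mk 0x400000004000000000000000b00000008 0x40000000c000000180000000f00000018 3 5) 0 0 (step_sound _ 67 [rhabf575676fe0ef70, (rhcfdf45280693d3da.shift 2 0)] (by decide +kernel))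
noncomputable def rh78667e4559992c20 : CRef := CRef.mk (Pat.mk 0x80000000c0000000f0000000000000000 0x40000000c0000000c0000000f0000001800000008 3 5) 0 0 (step_sound _ 35 [(rhe25b0a99195a5d59.shift 0 1), (rhe286c75f2739cce2.shift 2 0)] (by decide +kernel))
noncomputable def rh44db075ab2be56d3 : CRef := CRef.mk (Pat.mk 0x1000000030000000b0000000800000000 0x1000000030000000f0000001e00000002 3 5) 0 0 (step_sound _ 33 [rh7b1f1fb55310c477, (rha6816dee951f7ee6.shift 0 1)] (by decide +kernel))
noncomputable def rhcf74954e50707057 : CRef := CRef.mk (Pat.mk 0x40000003800000018 0x60000003f00000038 3 6) 0 0 (step_sound _ 34 [(rh3244c3cc8379b070.shift 1 1), rhad5d8fc3675c15dd] (by decide +kernel))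
noncomputable def rh127b405bd7f7b930 : CRef := CRef.mk (Pat.mk 0x10000000300000001000000010000000000000000 0x30000000300000001000000030000000300000002 3 2) 0 0 (step_sound _ 33 [rh93bb09469abb6e2d, (rhd3458b32566d63f7.shift 0 1)] (by decide +kernel))
noncomputable def rhe913bbd8998b6509 : CRef := CRef.mk (Pat.mk 0x1000000070000000a 0x30000001f0000001b 3 5) 0 0 (step_sound _ 35 [rh795d3e5d420177aa, rhe25b0a99195a5d59] (by decide +kernel))
noncomputable def rh7845da34e388d333 : CRef := CRef.mk (Pat.mk 0x200000002000000000000000c0000000f0000000000000000 0x200000006000000040000000c0000000f0000001800000008 3 5) 0 0 (step_sound _ 130 [rh78974448101547fe, (rhcfdf45280693d3da.shift 1 2)] (by decide +kernel))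
noncomputable def rhda44aabcf4b9a25c : CRef := CRef.mk (Pat.mk 0xa0000000f000000020000000400000000 0xa0000000f0000001a0000000e00000004 3 5) 0 0 (step_sound _ 67 [(rhe25b0a99195a5d59.shift 0 2), (rhe38ad39d05c44887.shift 1 0)] (by decide +kernel))
noncomputable def rh0d3c8bf4bf97ae4a : CRef := CRef.mk (Pat.mk 0x700000008 0xf0000003e 3 6) 0 0 (step_sound _ 4 [rh576f4850e6cd8bc0, rhd6e447e81774439e] (by decide +kernel))
noncomputable def rh3e5c2f9e47a41519 : CRef := CRef.mk (Pat.mk 0x40000000400000000000000100000001e0000001000000000 0x40000000c00000008000000180000001f0000001000000010 3 5) 0 0 (step_sound _ 99 [(rh53b3c253cb0c65f4.shift 0 2), (rh9658209abb2466de.shift 2 0)] (by decide +kernel))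
noncomputable def rh7d16f3cc3f666137 : CRef := CRef.mk (Pat.mk 0x40000000400000000000000080000000e0000001000000000 0x40000000c00000008000000080000000f0000001800000010 3 5) 0 0 (step_sound _ 131 [rh06dad6edb7ce8d9c, (rhcfdf45280693d3da.shift 2 2)] (by decide +kernel))
noncomputable def rh92c50e3596fc50e0 : CRef := CRef.mk (Pat.mk 0x80000001a000000060000000200000000 0x30000000f0000001a000000060000000600000004 3 5) 0 0 (step_sound _ 129 [(rhb43b15493b096632.shift 0 1), (rhd4b4beefcd67f51e.shift 1 0)] (by decide +kernel))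
noncomputable def rhd30d680e9a0ee51a : CRef := CRef.mk (Pat.mk 0xa0000000f000000020000000000000004 0xa0000000f0000001a0000000e00000004 3 5) 0 0 (step_sound _ 67 [(rhd3d019a85ab3f7d5.shift 1 0), (rhe25b0a99195a5d59.shift 0 2)] (by decide +kernel))
noncomputable def rh98c388e5d73ac446 : CRef := CRef.mk (Pat.mk 0xc0000000f0000000200000000 0x4000000040000000c0000000f0000001a00000008 3 5) 0 0 (step_sound _ 130 [(rh5c5e593799055d58.shift 1 1), rh78974448101547fe] (by decide +kernel))
noncomputable def rh5f8293a1c64321fb : CRef := CRef.mk (Pat.mk 0x800000008000000090000000c00000001 0x8000000080000000b0000001e00000013 3 5) 0 0 (step_sound _ 36 [rh4a16d3320a8f1b95, (rh55afc6a59410cf00.shift 3 0)] (by decide +kernel))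
noncomputable def rhf9a19c2b3737ead9 : CRef := CRef.mk (Pat.mk 0x400000004000000000000003800000002 0x400000004000000040000003e00000007 3 6) 0 0 (step_sound _ 34 [rh3092169746d613f6, (rh80fcd6d0a18cb2dd.shift 1 0)] (by decide +kernel))
noncomputable def rh2306b091ad6b1beb : CRef := CRef.mk (Pat.mk 0xc000000080000000b0000000000000000 0x40000000c000000080000000f0000001800000010 3 5) 0 0 (step_sound _ 35 [(rh50fbb5868c909700.shift 2 1), rh5f11ee373cbffcaa] (by decide +kernel))
noncomputable def rh67bb5362fcdd6142 : CRef := CRef.mk (Pat.mk 0x180000000a0000000800000008 0x40000003c0000000f0000000800000008 3 6) 0 0 (step_sound _ 66 [(rh50457521e58be46d.shift 1 0), (rh53b3c253cb0c65f4.shift 0 2)] (by decide +kernel))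
noncomputable def rhd779b978b6c083ff : CRef := CRef.mk (Pat.mk 0x80000000a0000000a0000000a0000000600000000 0x80000000a0000000a0000001a0000001f00000001 3 5) 0 0 (step_sound _ 32 [rh932754581e0f4330, (rhaff2d62a1af92265.shift 0 1)] (by decide +kernel))
noncomputable def rh1b85b0bb4cee0ea8 : CRef := CRef.mk (Pat.mk 0x10000000100000001000000000000000200000000 0x1000000010000000100000003000000030000000200000002 3 2) 0 0 (step_sound _ 65 [rhae6f9a1ddf3da338, (rhbe0e43a3bc50a43f.shift 0 1)] (by decide +kernel))
noncomputable def rhd97c4752af930d49 : CRef := CRef.mk (Pat.mk 0xa0000001a000000020000000100000000 0x10000000f0000001a000000020000000300000001 3 5) 0 0 (step_sound _ 33 [rh932754581e0f4330, (rhb43b15493b096632.shift 0 1)] (by decide +kernel))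
noncomputable def rhbee5c2b5b5db2060 : CRef := CRef.mk (Pat.mk 0x800000008000000080000000a0000001200000000 0x800000008000000080000000f0000001e00000010 3 5) 0 0 (step_sound _ 35 [(rh168168eb0d03cc27.shift 0 1), (rh55afc6a59410cf00.shift 3 0)] (by decide +kernel))
noncomputable def rh7fb316d46a6b41d3 : CRef := CRef.mk (Pat.mk 0x80000000800000008000000080000000000000007 0x8000000080000000800000018000000180000001f 3 5) 0 0 (step_sound _ 36 [rh4f294707ca39054f, (rhd3458b32566d63f7.shift 3 1)] (by decide +kernel))
noncomputable def rhcd83dbefad77513f : CRef := CRef.mk (Pat.mk 0x2000000020000000200000002000000000000000100000001 0x2000000020000000200000006000000060000000700000001 3 3) 0 0 (step_sound _ 65 [(rhd29a1fb688eae70f.shift 1 1), rheea67dfebd0f8008] (by decide +kernel))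
noncomputable def rh5a58f5def5f08142 : CRef := CRef.mk (Pat.mk 0x8000000080000000a0000000a00000002 0x8000000080000000b0000001e00000013 3 5) 0 0 (step_sound _ 36 [rh01e48cd9f335aa73, (rh55afc6a59410cf00.shift 3 0)] (by decide +kernel))
noncomputable def rh9fc1e22109fe8df3 : CRef := CRef.mk (Pat.mk 0x1000000010000000140000000c 0x1000000010000000100000003c0000000f 3 6) 0 0 (step_sound _ 35 [rh4dc133ee0ba1420a, (rh5c5e593799055d58.shift 3 0)] (by decide +kernel))
noncomputable def rh3a045cb7a2c14e47 : CRef := CRef.mk (Pat.mk 0x8000000080000000a0000001800000000 0x8000000080000000f0000003c00000004 3 6) 0 0 (step_sound _ 66 [(rh6331bd58f8d610b3.shift 1 0), (rhb739f4f82bb681b4.shift 0 1)] (by decide +kernel))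
noncomputable def rh10dd44bbd8691259 : CRef := CRef.mk (Pat.mk 0x14000000140000001e00000010 0x200000003c000000170000001e00000010 3 6) 0 0 (step_sound _ 65 [(rh1df1df71a80a171b.shift 1 0), (rh3244c3cc8379b070.shift 0 1)] (by decide +kernel))
noncomputable def rh7905062dd02ce5b6 : CRef := CRef.mk (Pat.mk 0x800000008000000080000000b0000000200000000 0x800000008000000080000001b0000001e00000010 3 5) 0 0 (step_sound _ 36 [(rhd3458b32566d63f7.shift 3 1), rhfea9c0473ad5710a] (by decide +kernel))
noncomputable def rhe90a92718ce88642 : CRef := CRef.mk (Pat.mk 0x20000000200000002000000020000001200000000 0x20000000200000002000000030000001f00000004 3 5) 0 0 (step_sound _ 64 [(rh932754581e0f4330.shift 0 1), rhf8edb192cdea7ada] (by decide +kernel))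
noncomputable def rhd6ee7b9e9e8c7861 : CRef := CRef.mk (Pat.mk 0x50000000800000008000000080000000800000008 0x40000000f0000001800000018000000080000000800000008 3 5) 0 0 (step_sound _ 163 [(rh50fbb5868c909700.shift 2 2), rh762485912b0ead2c] (by decide +kernel))
noncomputable def rh3f9b97402b2cc792 : CRef := CRef.mk (Pat.mk 0x10000001a0000001e00000000 0x1000000030000001e0000001e00000003 3 5) 0 0 (step_sound _ 1 [rh9b5d9f8ba2f5398f, rheb0810cc63b001d8] (by decide +kernel))
noncomputable def rhb9d795941d9a4efb : CRef := CRef.mk (Pat.mk 0x1c00000002000000000000001e00000000 0x1e00000003000000030000001e00000004 3 5) 0 0 (step_sound _ 65 [(rh3244c3cc8379b070.shift 0 1), rhabfb99c80b5c3b56] (by decide +kernel))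
noncomputable def rh7d5bf828111ca202 : CRef := CRef.mk (Pat.mk 0x3c00000020 0x70000003e00000030 3 6) 0 0 (step_sound _ 65 [rh2d10cb31ad1cd784, (rh3f8766e6ecb455ce.shift 1 1)] (by decide +kernel))
noncomputable def rhf3c17de7c7474c46 : CRef := CRef.mk (Pat.mk 0xe000000080000000d 0x1e000000780000000f 3 7) 0 0 (step_sound _ 36 [rh24ae073cf30720c4, (rhc628f7de140e299c.shift 1 0)] (by decide +kernel))
noncomputable def rhd66b6bee9400da95 : CRef := CRef.mk (Pat.mk 0x4000000040000000200000002000000000000000100000000 0x4000000060000000600000002000000020000000300000001 3 3) 0 0 (step_sound _ 65 [(rh1006c02ae4212ff0.shift 1 2), rh599ad1a27924c7d1] (by decide +kernel))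
noncomputable def rha9461d7e5eefe055 : CRef := CRef.mk (Pat.mk 0x20000000a0000000a0000000a0000001000000000 0x20000000a0000000a0000000f0000001900000010 3 5) 0 0 (step_sound _ 35 [(rh55afc6a59410cf00.shift 3 0), (rhf9a329cc68aa610c.shift 0 1)] (by decide +kernel))
noncomputable def rh68782e78f6380396 : CRef := CRef.mk (Pat.mk 0x100000000800000008000000080000000700000000 0x100000001800000008000000080000001f00000018 3 5) 0 0 (step_sound _ 35 [rh2aa7c1d375387a4e, (rhbaefcd01e0a8bca3.shift 3 1)] (by decide +kernel))
noncomputable def rhbf39cc8175c2be88 : CRef := CRef.mk (Pat.mk 0xc00000002000000020000000200000002 0x40000001f00000003000000020000000200000002 3 5) 0 0 (step_sound _ 129 [(rh2f68792b6b779e96.shift 1 1), rh9dd69f3e6b8dc9b1] (by decide +kernel))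
noncomputable def rh251facab2e282844 : CRef := CRef.mk (Pat.mk 0x80000001c00000010 0x180000001f00000038 3 6) 0 0 (step_sound _ 33 [rh6765e7960b108c8d, (rhe25b0a99195a5d59.shift 1 0)] (by decide +kernel))
noncomputable def rh458309a6175ad66b : CRef := CRef.mk (Pat.mk 0x60000000200000002000000000000000200000000 0x60000000600000002000000030000000300000001 3 3) 0 0 (step_sound _ 65 [rh7928877f9bf74a91, (rhbaefcd01e0a8bca3.shift 1 1)] (by decide +kernel))
noncomputable def rha05e09279682451d : CRef := CRef.mk (Pat.mk 0x1e00000000000000020000001c 0x40000001e00000003000000030000001e 3 5) 0 0 (step_sound _ 1 [rh3244c3cc8379b070, rhe1a85963a7a8727e] (by decide +kernel))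
noncomputable def rh9afa84a329eda939 : CRef := CRef.mk (Pat.mk 0x2000000040000000500000005 0x20000000200000006000000060000000700000005 3 3) 0 0 (step_sound _ 129 [rh1d01379feeb49736, (rhcfdf45280693d3da.shift 1 0)] (by decide +kernel))
noncomputable def rh1fbc9fee05401eba : CRef := CRef.mk (Pat.mk 0xf000000000000000400000004 0x180000000f000000180000000c00000004 3 5) 0 0 (step_sound _ 131 [(rh33e738c4ed385b9f.shift 0 3), rhb5e747220bd827fa] (by decide +kernel))
noncomputable def rhcaee4f794cf1cb22 : CRef := CRef.mk (Pat.mk 0x1600000002000000080000000800000008 0x1e0000003b000000080000000800000008 3 6) 0 0 (step_sound _ 100 [(rh1006c02ae4212ff0.shift 3 0), (rhcaa7ba44a31c4370.shift 0 3)] (by decide +kernel))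
noncomputable def rh6224572d868f7c64 : CRef := CRef.mk (Pat.mk 0x10000000f0000000100000000 0x100000001000000010000001f0000000300000002 3 5) 0 0 (step_sound _ 33 [(rh18965a982d73c794.shift 0 1), rh3e595262c1b737ad] (by decide +kernel))
noncomputable def rh50eaecb9bcc2f5b3 : CRef := CRef.mk (Pat.mk 0x1a0000001800000008 0x10000000300000001f0000001800000008 3 6) 0 0 (step_sound _ 100 [(rh5c5e593799055d58.shift 3 0), (rh7dcc577706dd2abd.shift 0 1)] (by decide +kernel))
noncomputable def rh83ffee8fd2daac03 : CRef := CRef.mk (Pat.mk 0x3f 0x1e0000007f 3 7) 0 0 (step_sound _ 35 [rh33e738c4ed385b9f, (rhe3060b190bc0bc78.shift 1 0)] (by decide +kernel))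
noncomputable def rhe339534680e67676 : CRef := CRef.mk (Pat.mk 0x10000000030000000300000002 0x2000000060000001e000000030000000300000003 3 5) 0 0 (step_sound _ 97 [rh04e571695666b5c1, rh503dd4575245365b] (by decide +kernel))
noncomputable def rhe671be6b65f67432 : CRef := CRef.mk (Pat.mk 0x1600000004000000040000000400000000 0x80000001e00000007000000040000000400000004 3 5) 0 0 (step_sound _ 131 [(rh2f68792b6b779e96.shift 2 1), rhd680bf2cf2441e84] (by decide +kernel))
noncomputable def rh5d3a7ae93c0d6f57 : CRef := CRef.mk (Pat.mk 0x1000000030000000100000006000000040000000000000000 0x100000001000000030000000700000006000000040000000400000004 3 3) 0 0 (step_sound _ 129 [(rh08edf065357d68e5.shift 1 0), (rh2145e1d24b96a57e.shift 0 3)] (by decide +kernel))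
noncomputable def rh437c45b5c7456c2e : CRef := CRef.mk (Pat.mk 0x1c00000002000000000000000600000000 0x40000001e00000003000000020000000600000004 3 5) 0 0 (step_sound _ 129 [(rh807d78fa6ca78542.shift 1 0), (rheb0810cc63b001d8.shift 0 3)] (by decide +kernel))
noncomputable def rhfe95d117df8e9311 : CRef := CRef.mk (Pat.mk 0x1e000000000000000800000008 0x40000001f000000380000000800000008 3 6) 0 0 (step_sound _ 68 [rh5765a4000fc97443, (rhe25b0a99195a5d59.shift 1 2)] (by decide +kernel))
noncomputable def rhcfeae3ee379d8e99 : CRef := CRef.mk (Pat.mk 0x180000000a0000001800000008 0x40000001e0000000f0000001800000008 3 5) 0 0 (step_sound _ 64 [rh3f9dabd3a98bcc1c, (rhc10214bf3fe8094a.shift 0 1)] (by decide +kernel))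
noncomputable def rhf55a4ea8be7eb910 : CRef := CRef.mk (Pat.mk 0x180000000a00000018 0x7c0000000f00000018 3 7) 0 0 (step_sound _ 34 [(rh80f90a60d87caa0d.shift 1 1), rhb739f4f82bb681b4] (by decide +kernel))
noncomputable def rha37933c539715a95 : CRef := CRef.mk (Pat.mk 0x380000000400000030 0x3c0000001f00000030 3 6) 0 0 (step_sound _ 33 [rh474430daf83b3188, (rhca9569cc80abfe76.shift 1 1)] (by decide +kernel))
noncomputable def rhf738355e2874670f : CRef := CRef.mk (Pat.mk 0x1c000000010000001000000010 0x80000001e000000330000001000000010 3 6) 0 0 (step_sound _ 97 [(rh80fcd6d0a18cb2dd.shift 0 2), (rhdad6fb8687a5e7f2.shift 1 0)] (by decide +kernel))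
noncomputable def rh554282f29c8c0d24 : CRef := CRef.mk (Pat.mk 0x80000000300000018000000100000000000000000 0x80000001f00000018000000100000001000000010 3 5) 0 0 (step_sound _ 131 [(rh08edf065357d68e5.shift 3 0), (rhc10214bf3fe8094a.shift 0 3)] (by decide +kernel))
noncomputable def rh45fc423c1a8927ec : CRef := CRef.mk (Pat.mk 0xa00000013000000100000001000000010 0x200000003e00000033000000100000001000000010 3 6) 0 0 (step_sound _ 132 [(rh44f453b84f013105.shift 4 0), (rhb2a0b9ccfb5cecd5.shift 0 3)] (by decide +kernel))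
noncomputable def rh7611adaca421689a : CRef := CRef.mk (Pat.mk 0x4000000060000001a00000008 0x4000000040000000c0000000f0000001a00000008 3 5) 0 0 (step_sound _ 67 [(rh8045a4749be85c44.shift 1 0), (rhb739f4f82bb681b4.shift 0 1)] (by decide +kernel))
noncomputable def rh2209827622e7bd67 : CRef := CRef.mk (Pat.mk 0x600000030 0x1f0000003c 3 6) 0 0 (step_sound _ 3 [(rh09d4dfe75d4407d6.shift 1 0), rh5013872860cb36fd] (by decide +kernel))
noncomputable def rh074c8d12f5550a62 : CRef := CRef.mk (Pat.mk 0x2200000038 0x730000003e 3 7) 0 0 (step_sound _ 2 [(rh33e738c4ed385b9f.shift 2 0), rhfcf1119458f22b28] (by decide +kernel))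
noncomputable def rh1c214b98c27a159d : CRef := CRef.mk (Pat.mk 0x2000000030000000600000006000000000000000000000000 0x2000000030000000700000007000000030000000300000002 3 3) 0 0 (step_sound _ 65 [rh2f3e416c6263c0c2, (rh7928877f9bf74a91.shift 0 1)] (by decide +kernel))
noncomputable def rh51d49590e2895e39 : CRef := CRef.mk (Pat.mk 0xa0000000b0000000e 0x1f0000001b0000000f 3 5) 0 0 (step_sound _ 66 [rh1642ef1127830c20, (rh18965a982d73c794.shift 0 1)] (by decide +kernel))
noncomputable def rh637906290267366a : CRef := CRef.mk (Pat.mk 0x20000000a0000000e 0x30000003e0000000f 3 6) 0 0 (step_sound _ 36 [rh0ea7de2da709317e, rh53b3c253cb0c65f4] (by decide +kernel))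
noncomputable def rh3f51ae0d7f3ff828 : CRef := CRef.mk (Pat.mk 0x580000001800000020 0x780000001f00000030 3 7) 0 0 (step_sound _ 34 [(rh361cc68994bd8a63.shift 2 1), rh8d917b916e5f3510] (by decide +kernel))
noncomputable def rhb22225e795fa2243 : CRef := CRef.mk (Pat.mk 0x400000007000000030000000800000000 0x40000001f0000001b0000000800000008 3 5) 0 0 (step_sound _ 99 [(rh18965a982d73c794.shift 0 2), rh2bbc4934553ffbfd] (by decide +kernel))
noncomputable def rh660749286c9d8296 : CRef := CRef.mk (Pat.mk 0x80000000700000006 0x180000003f00000007 3 6) 0 0 (step_sound _ 35 [rh2612b4f73ba7c3b3, (rh33e738c4ed385b9f.shift 0 1)] (by decide +kernel))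
noncomputable def rhf5e15cdcea0762c2 : CRef := CRef.mk (Pat.mk 0x2000000020000000600000006000000000000000000000000 0x2000000060000000600000007000000030000000300000002 3 3) 0 0 (step_sound _ 65 [(rh7928877f9bf74a91.shift 0 1), (rhea7a1800d6f053bd.shift 1 0)] (by decide +kernel))
noncomputable def rhdcee634ff9e820ea : CRef := CRef.mk (Pat.mk 0x80000001c0000000c0000000400000000 0x4000000060000000f0000001c0000000c0000000c00000008 3 5) 0 0 (step_sound _ 130 [(rh277b01412deaec89.shift 0 1), (rhd4b4beefcd67f51e.shift 2 0), (rhfc7c29d8e65d775f.shift 2 1)] (by decide +kernel))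
noncomputable def rh2ac9a64f05a71e1c : CRef := CRef.mk (Pat.mk 0x40000000e0000000d 0x60000007e0000000f 3 7) 0 0 (step_sound _ 36 [rh80fcd6d0a18cb2dd, (rhb762f327c85d41a0.shift 1 0)] (by decide +kernel))
noncomputable def rh6abf65651ac164b5 : CRef := CRef.mk (Pat.mk 0x30000000600000006000000000000000000000000 0x1000000030000000700000006000000020000000200000002 3 3) 0 0 (step_sound _ 65 [rh2f3e416c6263c0c2, (rh50fbb5868c909700.shift 0 2)] (by decide +kernel))
noncomputable def rh128e27bbf904bd5d : CRef := CRef.mk (Pat.mk 0x200000038 0xf0000007c 3 7) 0 0 (step_sound _ 34 [(rh09d4dfe75d4407d6.shift 1 0), rh72e35b80052d4a50] (by decide +kernel))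
noncomputable def rhd3e0ee2e58f99ad0 : CRef := CRef.mk (Pat.mk 0x800000008000000080000000a0000001800000008 0x8000000080000000c0000000c0000000f0000001800000008 3 5) 0 0 (step_sound _ 98 [(rh50fbb5868c909700.shift 2 0), (rh9704bbd79d32b932.shift 0 1)] (by decide +kernel))
noncomputable def rh7b6f5613b5920f6e : CRef := CRef.mk (Pat.mk 0x40000000800000008000000080000000a00000018 0x40000000c00000008000000080000000c0000000f00000018 3 5) 0 0 (step_sound _ 163 [(rh50fbb5868c909700.shift 2 2), rhff7e78421b12622c] (by decide +kernel))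
noncomputable def rh98aa821e0e601aa5 : CRef := CRef.mk (Pat.mk 0x400000001000000060000000600000002 0x60000000700000003000000060000000600000002 3 3) 0 0 (step_sound _ 97 [rh50fbb5868c909700, (rh82bd946b1709a78e.shift 1 1)] (by decide +kernel))
noncomputable def rh74c61e969e71c48a : CRef := CRef.mk (Pat.mk 0x2000000380000000c00000004 0x80000001f000000380000000c00000004 3 6) 0 0 (step_sound _ 99 [(rh075211c3608a5a57.shift 0 2), (rh5c5e593799055d58.shift 2 0)] (by decide +kernel))
noncomputable def rh2af2a57ff79386f9 : CRef := CRef.mk (Pat.mk 0x1c00000002000000080000000a 0x40000001e0000000b0000000a0000000a 3 5) 0 0 (step_sound _ 97 [(rh7ac1b232363ea136.shift 1 0), (rheb0810cc63b001d8.shift 0 2)] (by decide +kernel))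
noncomputable def rhf1275406625c4529 : CRef := CRef.mk (Pat.mk 0x200000002000000020000001a00000009 0x10000000300000003000000020000001a0000000f 3 5) 0 0 (step_sound _ 128 [rh45e4239d2789f5d0, (rh50fbb5868c909700.shift 0 1)] (by decide +kernel))
noncomputable def rh48099badca17f586 : CRef := CRef.mk (Pat.mk 0x200000002000000020000001a0000000800000000 0x200000002000000020000001b0000000f00000001 3 5) 0 0 (step_sound _ 32 [(rh79877ebd3ef475dd.shift 0 1), rh8f094ad1b12c8fd3] (by decide +kernel))
noncomputable def rhffb35f5e5ddd6656 : CRef := CRef.mk (Pat.mk 0x4000000040000001c0000000800000000 0x4000000040000001c0000000f0000000a 3 5) 0 0 (step_sound _ 34 [(rh55afc6a59410cf00.shift 2 0), rhf5094ad2a427d4d3] (by decide +kernel))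
noncomputable def rhff683014c19dc64a : CRef := CRef.mk (Pat.mk 0x1e000000020000000000000002 0x70000001f000000020000000200000002 3 5) 0 0 (step_sound _ 33 [(rh2f68792b6b779e96.shift 1 0), rha25c0e62bb8d55c9] (by decide +kernel))
noncomputable def rhe575b29da8f222e6 : CRef := CRef.mk (Pat.mk 0x20000000200000001000000000000000100000000 0x2000000020000000300000003000000010000000100000001 3 2) 0 0 (step_sound _ 64 [(rh1006c02ae4212ff0.shift 0 1), rh9d1165924047d7d0] (by decide +kernel))
noncomputable def rhc15edef8df16c571 : CRef := CRef.mk (Pat.mk 0xc0000000a0000001800000008 0x100000003c0000000f0000001800000008 3 6) 0 0 (step_sound _ 100 [(rh2f68792b6b779e96.shift 3 0), (rhcacd5b3c3d4e3df9.shift 0 1)] (by decide +kernel))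
noncomputable def rha799fda0b978792d : CRef := CRef.mk (Pat.mk 0x200000000000000030000000300000002 0x60000000600000006000000030000000300000002 3 3) 0 0 (step_sound _ 97 [(rh44f453b84f013105.shift 1 0), (rh5c5e593799055d58.shift 0 1)] (by decide +kernel))
noncomputable def rh0c9598d853c5906f : CRef := CRef.mk (Pat.mk 0x80000001c0000000800000000 0x1000000010000000380000001f0000000800000008 3 6) 0 0 (step_sound _ 100 [(rh84d1c02a8954c6a8.shift 3 0), (rhab2ad169e49f9c5e.shift 0 2)] (by decide +kernel))
noncomputable def rh6e70543a8654da20 : CRef := CRef.mk (Pat.mk 0x10000001c00000004 0x30000003e00000007 3 6) 0 0 (step_sound _ 33 [(rh3f8766e6ecb455ce.shift 0 1), rhaf9f2efc81a8312b] (by decide +kernel))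
noncomputable def rh2b3ddcfe37fa1a69 : CRef := CRef.mk (Pat.mk 0xa00000002000000020000000200000002 0x40000001f00000003000000020000000200000002 3 5) 0 0 (step_sound _ 130 [(rh2f68792b6b779e96.shift 1 1), rh9dd69f3e6b8dc9b1] (by decide +kernel))
noncomputable def rh289ecbeeb3e7c29b : CRef := CRef.mk (Pat.mk 0xe000000020000000e0000000600000002 0x80000000f0000001b0000000e0000000600000002 3 5) 0 0 (step_sound _ 128 [(rh8c2ed6f91ff57e60.shift 0 1), rhffd04209dc8ea796] (by decide +kernel))
noncomputable def rhbd067feee95d75a2 : CRef := CRef.mk (Pat.mk 0x180000000c00000000000000030000000100000001 0x1a0000000f00000002000000030000000300000001 3 5) 0 0 (step_sound _ 129 [(rh53b3c253cb0c65f4.shift 0 4), rhb009278fdd334770] (by decide +kernel))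
noncomputable def rh50c14aaf14ae5553 : CRef := CRef.mk (Pat.mk 0x20000000300000002000000020000000200000000 0x600000006000000060000000300000003000000020000000200000002 3 3) 0 0 (step_sound _ 193 [(rh44f453b84f013105.shift 1 2), rhb0491c8b198c7c3b] (by decide +kernel))
noncomputable def rhe41758cc10d2270b : CRef := CRef.mk (Pat.mk 0x180000001c0000000400000034 0x180000001f000000070000003c 3 6) 0 0 (step_sound _ 33 [(rh5419adcd928dba20.shift 1 0), (rhd74396e693bc7125.shift 0 1)] (by decide +kernel))
noncomputable def rhac075e0b88624d80 : CRef := CRef.mk (Pat.mk 0xf000000030000000600000004 0x80000000f0000001b0000001e00000004 3 5) 0 0 (step_sound _ 35 [rh8c2ed6f91ff57e60, (rhf48373e13d2bc128.shift 0 1)] (by decide +kernel))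
noncomputable def rhcd82bac3c5754d02 : CRef := CRef.mk (Pat.mk 0x70000000e00000004 0x8000000180000003f0000000f00000004 3 6) 0 0 (step_sound _ 67 [(rh2612b4f73ba7c3b3.shift 0 1), rh5421160f8e9bcf07] (by decide +kernel))
noncomputable def rhe1d9f4d2adc14fb9 : CRef := CRef.mk (Pat.mk 0xc0000001c0000000800000004 0xa0000000f0000001c0000000c00000004 3 5) 0 0 (step_sound _ 34 [rh277b01412deaec89, (rh5c5e593799055d58.shift 2 0)] (by decide +kernel))
noncomputable def rhcf90ba45386ce6fc : CRef := CRef.mk (Pat.mk 0x2000000030000001a0000000c00000000 0x100000003000000030000001a0000000f00000002 3 5) 0 0 (step_sound _ 33 [(rh53b3c253cb0c65f4.shift 0 1), rhe286c75f2739cce2] (by decide +kernel))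
noncomputable def rh6bf886c167578650 : CRef := CRef.mk (Pat.mk 0x200000002000000030000000200000002 0x6000000060000000700000003000000030000000200000002 3 3) 0 0 (step_sound _ 161 [rh3553f66ad66bb717, (rh44f453b84f013105.shift 1 1)] (by decide +kernel))
noncomputable def rh1a1ff760019a7e53 : CRef := CRef.mk (Pat.mk 0x80000001c0000000c0000000c 0x60000000f0000001c0000000c0000000c 3 5) 0 0 (step_sound _ 98 [rh277b01412deaec89, (rh50fbb5868c909700.shift 2 0)] (by decide +kernel))
noncomputable def rhc44f3d0820d0aee0 : CRef := CRef.mk (Pat.mk 0x60000001a000000020000000000000000 0x4000000060000001e000000030000000200000002 3 5) 0 0 (step_sound _ 98 [(rhea7a1800d6f053bd.shift 1 0), (rheb0810cc63b001d8.shift 0 2)] (by decide +kernel))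
noncomputable def rh98d235376c9a5dd3 : CRef := CRef.mk (Pat.mk 0x4000000060000001c0000000800000000 0x4000000060000001e0000000f00000002 3 5) 0 0 (step_sound _ 33 [(rh076be03eb7063320.shift 0 1), rh225a3d7126aa42af, (rh5ddbeed5d869bf16.shift 1 0), rh95782c1fb041cd1c] (by decide +kernel))
noncomputable def rhbe95bc3310673c07 : CRef := CRef.mk (Pat.mk 0x6000000030000000400000004 0xa0000001e000000070000000400000004 3 5) 0 0 (step_sound _ 66 [(rh50fbb5868c909700.shift 1 0), rh712526e472efe489] (by decide +kernel))
noncomputable def rh0bf5bfa2f5578922 : CRef := CRef.mk (Pat.mk 0x2000000030000000400000004 0x20000000200000002000000070000000700000004 3 3) 0 0 (step_sound _ 129 [(rh85a605aac6183f28.shift 0 1), (rhbe0e43a3bc50a43f.shift 1 0)] (by decide +kernel))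
noncomputable def rh2a6f165495c008c6 : CRef := CRef.mk (Pat.mk 0x100000003e 0x1e0000007f 3 7) 0 0 (step_sound _ 34 [rh2d8edb255b5ae37b, (rh3244c3cc8379b070.shift 1 0)] (by decide +kernel))
noncomputable def rh6dc5e2fbc5de0f52 : CRef := CRef.mk (Pat.mk 0x300000004000000060000000200000000 0x50000000700000006000000060000000200000002 3 3) 0 0 (step_sound _ 97 [(rh50fbb5868c909700.shift 0 1), (rh84d1c02a8954c6a8.shift 1 0)] (by decide +kernel))
noncomputable def rhf2f81545e8aac642 : CRef := CRef.mk (Pat.mk 0x10000000400000006000000020000000000000000 0x50000000700000006000000020000000200000002 3 3) 0 0 (step_sound _ 33 [(rh28f88bda704deabd.shift 0 1), (rh71222050f2c63a3a.shift 1 0)] (by decide +kernel))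
noncomputable def rh9e31b4c71549e5e2 : CRef := CRef.mk (Pat.mk 0x30000000400000006000000020000000000000000 0x1000000030000000700000006000000020000000200000002 3 3) 0 0 (step_sound _ 129 [rh2f3e416c6263c0c2, (rh50fbb5868c909700.shift 0 2)] (by decide +kernel))
noncomputable def rh04af1842d519b59b : CRef := CRef.mk (Pat.mk 0x200000004000000060000000300000000 0x40000000600000006000000060000000300000003 3 3) 0 0 (step_sound _ 97 [(rh84d1c02a8954c6a8.shift 1 0), rh932754581e0f4330] (by decide +kernel))
noncomputable def rh4118eb83563389a5 : CRef := CRef.mk (Pat.mk 0x1c000000120000000200000002 0x30000001f000000320000000200000002 3 6) 0 0 (step_sound _ 97 [rha25c0e62bb8d55c9, (rhe25b0a99195a5d59.shift 1 2)] (by decide +kernel))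
noncomputable def rh42f51f75e12ec48b : CRef := CRef.mk (Pat.mk 0x30000000b0000000c00000004 0x80000001f0000001b0000000c00000004 3 5) 0 0 (step_sound _ 99 [(rh26cf6cd574a72447.shift 0 2), (rh5c5e593799055d58.shift 2 0)] (by decide +kernel))
noncomputable def rhf10fa853c2693a25 : CRef := CRef.mk (Pat.mk 0xc0000001e00000000 0xc0000007e00000007 3 7) 0 0 (step_sound _ 1 [(rhb0463dbec37421a0.shift 1 0), rheb0810cc63b001d8] (by decide +kernel))
noncomputable def rh0729e794b6b0c7c1 : CRef := CRef.mk (Pat.mk 0xf000000000000001800000008 0x380000001f000000100000001800000008 3 6) 0 0 (step_sound _ 132 [(rh428265de8cd3cd2d.shift 0 3), (rh9f6d71d2ccb1f73c.shift 1 0)] (by decide +kernel))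
noncomputable def rha3352c11960fccad : CRef := CRef.mk (Pat.mk 0x90000000700000006 0x1b0000003f00000006 3 6) 0 0 (step_sound _ 35 [(rh33e738c4ed385b9f.shift 0 1), rh8abea2a7b1fd427a] (by decide +kernel))
noncomputable def rhee92c360535a626f : CRef := CRef.mk (Pat.mk 0x1c0000001800000008 0x10000000300000001f0000001800000008 3 6) 0 0 (step_sound _ 65 [(rh5421160f8e9bcf07.shift 1 0), (rhb739f4f82bb681b4.shift 0 1)] (by decide +kernel))
noncomputable def rh1b1d9d37dc492e4a : CRef := CRef.mk (Pat.mk 0x10000000e00000004 0x30000003e00000007 3 6) 0 0 (step_sound _ 36 [(rh3f8766e6ecb455ce.shift 0 1), rhaf9f2efc81a8312b] (by decide +kernel))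
noncomputable def rhd66ee6899528ffc2 : CRef := CRef.mk (Pat.mk 0xc0000000c0000001c0000000800000000 0xc0000000c0000001c0000000f00000006 3 5) 0 0 (step_sound _ 34 [(rh932754581e0f4330.shift 2 0), rhf5094ad2a427d4d3] (by decide +kernel))
noncomputable def rh46ba0607dc7404b2 : CRef := CRef.mk (Pat.mk 0x20000001a00000002 0x70000003e00000006 3 6) 0 0 (step_sound _ 34 [(rh3244c3cc8379b070.shift 0 1), (rhe9d682012dbceb06.shift 1 0)] (by decide +kernel))
noncomputable def rhc1e1b5d93dc49743 : CRef := CRef.mk (Pat.mk 0x20000000a0000000b00000000 0x2000000020000001a0000000f00000005 3 5) 0 0 (step_sound _ 34 [(rh33e738c4ed385b9f.shift 0 1), rhde10baa3043a2b46] (by decide +kernel))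
noncomputable def rh6ca17ce3da085c6f : CRef := CRef.mk (Pat.mk 0x10000000120000001e 0x300000001e0000003f 3 6) 0 0 (step_sound _ 34 [rh1dc3e866f7ab4752, (rhf48373e13d2bc128.shift 1 0)] (by decide +kernel))
noncomputable def rh242e6d3f76f8ac12 : CRef := CRef.mk (Pat.mk 0x4000000140000001400000002 0x400000004000000340000001e00000003 3 6) 0 0 (step_sound _ 33 [rh1dc3e866f7ab4752, (rh5c5e593799055d58.shift 1 0)] (by decide +kernel))
noncomputable def rh65a643973921d367 : CRef := CRef.mk (Pat.mk 0x2000000020000000a0000000a00000000 0x2000000020000001a0000000f00000005 3 5) 0 0 (step_sound _ 34 [rh33d01eedb9d8bafb, (rh55afc6a59410cf00.shift 1 0)] (by decide +kernel))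
noncomputable def rh9962e8355f993b95 : CRef := CRef.mk (Pat.mk 0x100000001600000004000000040000000400000000 0x300000001e00000007000000040000000400000004 3 6) 0 0 (step_sound _ 97 [(rh1dc3e866f7ab4752.shift 0 3), (rh7b1f1fb55310c477.shift 1 0)] (by decide +kernel))
noncomputable def rh6a760c278d102e3d : CRef := CRef.mk (Pat.mk 0x80000000a00000006000000020000000200000000 0x190000000f00000006000000020000000200000002 3 5) 0 0 (step_sound _ 130 [(rh4d4e586abdf65d17.shift 0 1), (rh71222050f2c63a3a.shift 1 0)] (by decide +kernel))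
noncomputable def rhe4a86ce8a6cab4d0 : CRef := CRef.mk (Pat.mk 0x80000000a00000002000000020000000200000002 0x190000000f00000006000000020000000200000002 3 5) 0 0 (step_sound _ 130 [(rh4d4e586abdf65d17.shift 0 1), (rhbaefcd01e0a8bca3.shift 1 0)] (by decide +kernel))
noncomputable def rh3f0b1ea237a8ab93 : CRef := CRef.mk (Pat.mk 0x1000000016000000040000000400000000 0x330000001e000000040000000400000004 3 6) 0 0 (step_sound _ 99 [rh132883a60cd8aed8, (rh33e738c4ed385b9f.shift 1 3)] (by decide +kernel))
noncomputable def rha4a74bc4821388a0 : CRef := CRef.mk (Pat.mk 0x1b00000006 0x380000003f00000006 3 6) 0 0 (step_sound _ 34 [(rh18965a982d73c794.shift 1 0), (rh9890f9d77740bbed.shift 0 1)] (by decide +kernel))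
noncomputable def rha98aa09c828dcf00 : CRef := CRef.mk (Pat.mk 0x1000000030000000600000004 0x10000000300000003000000030000000600000006 3 3) 0 0 (step_sound _ 97 [(rh2145e1d24b96a57e.shift 1 0), rhfc7c29d8e65d775f] (by decide +kernel))
noncomputable def rh782848cf5e4b1e5e : CRef := CRef.mk (Pat.mk 0xe00000010 0x1f0000003c 3 6) 0 0 (step_sound _ 3 [(rhae2edff970a530ce.shift 1 0), rhb739f4f82bb681b4] (by decide +kernel))
noncomputable def rhfef9784a86ed4d7b : CRef := CRef.mk (Pat.mk 0x100000001e000000080000000000000000 0x10000000100000001f000000180000000800000008 3 5) 0 0 (step_sound _ 35 [(rh71222050f2c63a3a.shift 3 0), (rhd7d612945704e64f.shift 0 1)] (by decide +kernel))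
noncomputable def rh5151f730a117c598 : CRef := CRef.mk (Pat.mk 0x3000000060000000600000000 0x30000000300000003000000060000000600000002 3 3) 0 0 (step_sound _ 129 [(rh2145e1d24b96a57e.shift 1 1), rhe286c75f2739cce2] (by decide +kernel))
noncomputable def rh97a8f44166bcecc0 : CRef := CRef.mk (Pat.mk 0x1800000016 0x3e00000037 3 6) 0 0 (step_sound _ 34 [(rh18965a982d73c794.shift 1 0), rhc8b21ffc3825c72d] (by decide +kernel))
noncomputable def rhe6f6b91cc24c8046 : CRef := CRef.mk (Pat.mk 0x40000001c0000000500000000 0x400000004000000040000001c0000000f00000008 3 5) 0 0 (step_sound _ 35 [(rh24ae073cf30720c4.shift 0 1), (rh3e595262c1b737ad.shift 2 0)] (by decide +kernel))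
noncomputable def rh5c383ce67d990d7d : CRef := CRef.mk (Pat.mk 0x800000008000000080000001e 0x800000008000000080000000f0000003e 3 6) 0 0 (step_sound _ 34 [(rh5c5e593799055d58.shift 2 0), rhe3060b190bc0bc78] (by decide +kernel))
noncomputable def rh86b0b8788beef0aa : CRef := CRef.mk (Pat.mk 0x80000000f000000000000001000000000 0x80000001f000000380000001000000010 3 6) 0 0 (step_sound _ 68 [(rh1b8d735d1ec00cd4.shift 1 0), (rh96851dee118c1ba3.shift 0 2)] (by decide +kernel))
noncomputable def rh3bbf9a23bd5e2612 : CRef := CRef.mk (Pat.mk 0xe0000000a00000003 0x1e0000007e00000003 3 7) 0 0 (step_sound _ 36 [(rh4a0b10776449c3e9.shift 1 1), rhb2a0b9ccfb5cecd5] (by decide +kernel))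
noncomputable def rh6a159b1535d67e15 : CRef := CRef.mk (Pat.mk 0x180000001400000006 0x180000003f00000007 3 6) 0 0 (step_sound _ 35 [(rh18965a982d73c794.shift 1 0), rhd74396e693bc7125] (by decide +kernel))
noncomputable def rh74eddb27fec640dd : CRef := CRef.mk (Pat.mk 0x90000000e000000000000001000000000 0xb0000001e000000300000001000000010 3 6) 0 0 (step_sound _ 100 [(rh2bbc4934553ffbfd.shift 1 0), (rh3f8766e6ecb455ce.shift 0 3)] (by decide +kernel))
noncomputable def rh2000a7958c60d188 : CRef := CRef.mk (Pat.mk 0x8000000040000000f00000004 0xc0000000c000000040000000f0000001c 3 5) 0 0 (step_sound _ 3 [(rh82bd946b1709a78e.shift 2 0), rhe25b0a99195a5d59] (by decide +kernel))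
noncomputable def rh6902d1f2e59e31e0 : CRef := CRef.mk (Pat.mk 0x3a00000000 0x3e00000077 3 7) 0 0 (step_sound _ 34 [(rh4ad5fc38f1b69f65.shift 1 0), rheae1728ff4a56756] (by decide +kernel))
noncomputable def rhe87bbd448a59fed8 : CRef := CRef.mk (Pat.mk 0x40000001e0000001a0000000000000000 0x40000003e0000001e0000000300000002 3 6) 0 0 (step_sound _ 66 [(rh18965a982d73c794.shift 1 2), rh9c40a739b57d6d20] (by decide +kernel))
noncomputable def rhe56c8cee21685643 : CRef := CRef.mk (Pat.mk 0x50000000c00000006 0xf0000003e00000006 3 6) 0 0 (step_sound _ 36 [(rh18965a982d73c794.shift 1 0), (rh4b858afe2cb38247.shift 0 1)] (by decide +kernel))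
noncomputable def rh235edbdf3bbc6c03 : CRef := CRef.mk (Pat.mk 0x10000000500000007000000000000000000000000 0x1000000010000000700000007000000020000000200000002 3 3) 0 0 (step_sound _ 65 [(rh2145e1d24b96a57e.shift 0 2), rh4f5da4dafb6dd81a] (by decide +kernel))
noncomputable def rhaf477bfe5ceac6e7 : CRef := CRef.mk (Pat.mk 0x2000000020000000a0000000a00000000 0x2000000020000001e0000000f00000001 3 5) 0 0 (step_sound _ 32 [rh932754581e0f4330, (rh9f2591205204f08d.shift 0 1)] (by decide +kernel))
noncomputable def rh95b222a9daeac532 : CRef := CRef.mk (Pat.mk 0x300000003000000040000000400000000 0x30000000300000003000000060000000600000002 3 3) 0 0 (step_sound _ 65 [(rh2145e1d24b96a57e.shift 1 1), rh3cb04db3dd2b6a55] (by decide +kernel))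
noncomputable def rh6d4e4609024b81df : CRef := CRef.mk (Pat.mk 0x20000000b000000080000000800000008 0x100000001e0000001b000000080000000800000008 3 5) 0 0 (step_sound _ 132 [(rh4fa4a1838f5a52ce.shift 0 1), (rhbaefcd01e0a8bca3.shift 3 0)] (by decide +kernel))
noncomputable def rh63973ee2238d2449 : CRef := CRef.mk (Pat.mk 0xd0000000c00000004 0xf0000007c00000006 3 7) 0 0 (step_sound _ 36 [(rha9e1a5d55b907abf.shift 1 0), (rhab22b5b56e7b3243.shift 0 1)] (by decide +kernel))
noncomputable def rh3d750d636bdbe94f : CRef := CRef.mk (Pat.mk 0x8000000070000000400000004 0x800000008000000180000000f0000000c00000004 3 5) 0 0 (step_sound _ 67 [(rh33e738c4ed385b9f.shift 0 2), (rh69755ef358ebfd54.shift 2 0)] (by decide +kernel))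
noncomputable def rhe8768a83bdb59c61 : CRef := CRef.mk (Pat.mk 0x2000000020000000a0000000a00000000 0x2000000020000001a0000000f00000005 3 5) 0 0 (step_sound _ 32 [rh932754581e0f4330, rhb111163c97cafada] (by decide +kernel))
noncomputable def rh0cc37d62274a43af : CRef := CRef.mk (Pat.mk 0x4000000040000001400000016 0x40000000400000004000000370000001e 3 6) 0 0 (step_sound _ 33 [rh12d50e65fdd458b1, (rh5c5e593799055d58.shift 1 0)] (by decide +kernel))
noncomputable def rh6775c0d922f65c63 : CRef := CRef.mk (Pat.mk 0xa0000000a000000160000001000000000 0xb0000003e000000160000001000000010 3 6) 0 0 (step_sound _ 100 [(rh0ea7de2da709317e.shift 0 2), (rh7b1f1fb55310c477.shift 3 0)] (by decide +kernel))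
noncomputable def rhfc74e0dde1b3d6d7 : CRef := CRef.mk (Pat.mk 0xa0000000b00000006 0x1b0000003f00000006 3 6) 0 0 (step_sound _ 34 [(rh33e738c4ed385b9f.shift 0 1), rhb762f327c85d41a0] (by decide +kernel))
noncomputable def rhf8f2801687f78b0b : CRef := CRef.mk (Pat.mk 0x1c0000000e00000004 0x2000000030000001f0000003e00000004 3 6) 0 0 (step_sound _ 65 [rh309fd0c3d364cd61, (rh79b3c29022acbdf3.shift 0 1)] (by decide +kernel))
noncomputable def rh8cb1021d3ca4b73b : CRef := CRef.mk (Pat.mk 0x180000007800000000 0x380000007f0000000e 3 7) 0 0 (step_sound _ 34 [(rhab2ad169e49f9c5e.shift 0 1), (rheae1728ff4a56756.shift 1 0)] (by decide +kernel))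
noncomputable def rh585a8b6fb97a57de : CRef := CRef.mk (Pat.mk 0xe00000008000000000000000800000008 0x1f00000038000000080000000800000008 3 6) 0 0 (step_sound _ 100 [(rh246acd5ab1e0384e.shift 1 0), (rhb739f4f82bb681b4.shift 0 3)] (by decide +kernel))
noncomputable def rhfdbd5f9423960d3a : CRef := CRef.mk (Pat.mk 0x200000002000000010000000300000002 0x60000000600000006000000030000000300000002 3 3) 0 0 (step_sound _ 65 [(rh44f453b84f013105.shift 1 0), (rh5c5e593799055d58.shift 0 1)] (by decide +kernel))
noncomputable def rh4dfe14e1416680c8 : CRef := CRef.mk (Pat.mk 0xf00000000000000040000000c 0xc0000000f000000180000000c0000000c 3 5) 0 0 (step_sound _ 67 [(rhda9c0827c24abf7d.shift 2 0), (rhe25b0a99195a5d59.shift 0 2)] (by decide +kernel))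
noncomputable def rh72bb58e5f16dca41 : CRef := CRef.mk (Pat.mk 0x1600000002000000020000000200000000 0x10000001f00000003000000020000000200000002 3 5) 0 0 (step_sound _ 96 [(rh361cc68994bd8a63.shift 0 3), rhe286c75f2739cce2] (by decide +kernel))
noncomputable def rhff5769f61e308422 : CRef := CRef.mk (Pat.mk 0x100000000000000030000000700000004 0x30000000300000003000000030000000700000004 3 3) 0 0 (step_sound _ 129 [(rh6f1cbe15c631ee70.shift 1 0), (rhd727bb41309b6841.shift 0 1)] (by decide +kernel))
noncomputable def rhd3f0efa5ef27299b : CRef := CRef.mk (Pat.mk 0x8000000030000000700000004 0x8000000080000001b0000001f00000004 3 5) 0 0 (step_sound _ 35 [rh5ebae181afaa248a, (rhf48373e13d2bc128.shift 0 1)] (by decide +kernel))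
noncomputable def rh1b249a9225fcaf51 : CRef := CRef.mk (Pat.mk 0x100000003000000000000000300000000 0x20000000300000003000000010000000300000003 3 2) 0 0 (step_sound _ 64 [rh55afc6a59410cf00, rha707fb719e87fe6e] (by decide +kernel))
noncomputable def rhb47b1b9304bf34c0 : CRef := CRef.mk (Pat.mk 0x20000000a000000180000000c00000000 0xa0000000a0000001a0000000f00000004 3 5) 0 0 (step_sound _ 33 [(rh53b3c253cb0c65f4.shift 0 1), (rhb768c66d5afe79ae.shift 1 0)] (by decide +kernel))
noncomputable def rhbed9438b9f08807f : CRef := CRef.mk (Pat.mk 0x20000000300000007000000060000000000000000 0x4000000060000000700000007000000060000000200000002 3 3) 0 0 (step_sound _ 162 [(rh2f68792b6b779e96.shift 1 2), rh3d9ea522a568e981] (by decide +kernel))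
noncomputable def rh8ba68edab38ce259 : CRef := CRef.mk (Pat.mk 0x600000006000000120000000600000000 0x200000006000000060000001e0000000700000001 3 5) 0 0 (step_sound _ 66 [(rh50fbb5868c909700.shift 1 1), rh84f01cf2134210c0] (by decide +kernel))
noncomputable def rh4ce4c5039e008768 : CRef := CRef.mk (Pat.mk 0x1800000031000000010000000700000004 0x1e00000033000000030000000700000005 3 6) 0 0 (step_sound _ 129 [rh99de676ce09a077c, (rhab22b5b56e7b3243.shift 1 3)] (by decide +kernel))
noncomputable def rh4000e5845fbb191c : CRef := CRef.mk (Pat.mk 0x1100000007 0x3b0000001f 3 6) 0 0 (step_sound _ 3 [rh428265de8cd3cd2d, rhfb55dd75ab83ac48] (by decide +kernel))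
noncomputable def rhb96c91cf43e79fd2 : CRef := CRef.mk (Pat.mk 0x700000011 0x1f0000003b 3 6) 0 0 (step_sound _ 35 [rh96851dee118c1ba3, rhb25fef5ffc153beb] (by decide +kernel))
noncomputable def rh7a39068762897bbc : CRef := CRef.mk (Pat.mk 0xf000000100000000000000010 0x180000001f000000300000001000000010 3 6) 0 0 (step_sound _ 100 [rhaaf5d65e087a81cf, (rhe25b0a99195a5d59.shift 1 2)] (by decide +kernel))
noncomputable def rh2a7a96f8c94ac19d : CRef := CRef.mk (Pat.mk 0x180000000c00000018 0x7c0000000f00000018 3 7) 0 0 (step_sound _ 33 [(rh80f90a60d87caa0d.shift 1 1), rhb739f4f82bb681b4] (by decide +kernel))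
noncomputable def rh49042301112ca92b : CRef := CRef.mk (Pat.mk 0xc0000000c0000001e00000008 0x100000003c0000000f0000001e00000008 3 6) 0 0 (step_sound _ 65 [(rh3244c3cc8379b070.shift 0 1), (rh712526e472efe489.shift 1 0)] (by decide +kernel))
noncomputable def rh7157290cd5333b89 : CRef := CRef.mk (Pat.mk 0x20000000e0000000d 0x60000007e0000000f 3 7) 0 0 (step_sound _ 36 [rh80fcd6d0a18cb2dd, (rh8abea2a7b1fd427a.shift 1 0)] (by decide +kernel))
noncomputable def rh565a368595b800f5 : CRef := CRef.mk (Pat.mk 0x400000004000000040000001600000000 0x40000000400000004000000070000001e00000008 3 5) 0 0 (step_sound _ 65 [rh4638e5e0cb0765b6, (rh5c5e593799055d58.shift 1 1)] (by decide +kernel))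
noncomputable def rhdd33c5e9bc288b5b : CRef := CRef.mk (Pat.mk 0x60000000a000000080000000800000008 0x100000001e0000001b000000080000000800000008 3 5) 0 0 (step_sound _ 132 [(rha5e792840d70b272.shift 0 1), (rhbaefcd01e0a8bca3.shift 3 0)] (by decide +kernel))
noncomputable def rhfd415344e5749271 : CRef := CRef.mk (Pat.mk 0x60000000600000018 0x60000003f00000038 3 6) 0 0 (step_sound _ 35 [(rh8ef9dd588f33bbde.shift 1 0), rhb739f4f82bb681b4] (by decide +kernel))
noncomputable def rhd4bcee02b78f02c0 : CRef := CRef.mk (Pat.mk 0x2000000020000000a0000000900000000 0x2000000020000001a0000000f00000005 3 5) 0 0 (step_sound _ 33 [rh932754581e0f4330, rhb111163c97cafada] (by decide +kernel))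
noncomputable def rhe9e45df45a37d678 : CRef := CRef.mk (Pat.mk 0x1e00000020 0x70000003e00000060 3 7) 0 0 (step_sound _ 65 [(rh3244c3cc8379b070.shift 0 1), (rh6b86f2178b913204.shift 1 0)] (by decide +kernel))
noncomputable def rhd58eabc66e969816 : CRef := CRef.mk (Pat.mk 0x20000001a0000000600000000 0x200000002000000030000001e0000000600000004 3 5) 0 0 (step_sound _ 66 [(rh3244c3cc8379b070.shift 0 2), (rh3e595262c1b737ad.shift 1 0)] (by decide +kernel))
noncomputable def rh64165c754c9db441 : CRef := CRef.mk (Pat.mk 0x60000000c000000000000001000000010 0xf0000003c000000100000001000000010 3 6) 0 0 (step_sound _ 100 [(rhf48373e13d2bc128.shift 1 3), rhf49a6e4f9cb60d7b] (by decide +kernel))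
noncomputable def rh5f8fb1ce5bff7d7f : CRef := CRef.mk (Pat.mk 0x600000006000000020000000800000008 0x60000003e0000000b0000000800000008 3 6) 0 0 (step_sound _ 99 [(rh2613c889e411427e.shift 2 0), (rha9e1a5d55b907abf.shift 0 2)] (by decide +kernel))
noncomputable def rhdc45162e28a620df : CRef := CRef.mk (Pat.mk 0x40000001600000002 0x60000003e00000007 3 6) 0 0 (step_sound _ 35 [(rh7b030ba967bf927e.shift 1 0), rheb0810cc63b001d8] (by decide +kernel))
noncomputable def rh357ca9a019b90b0d : CRef := CRef.mk (Pat.mk 0xc00000018000000040000000600000000 0x20000000f0000001c000000040000000600000002 3 5) 0 0 (step_sound _ 129 [(rh4176b1306bc070ea.shift 1 0), (rhb739f4f82bb681b4.shift 0 3)] (by decide +kernel))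
noncomputable def rh6999b50581539baa : CRef := CRef.mk (Pat.mk 0x20000000b000000080000000c00000000 0x100000001e0000000b000000080000000c00000004 3 5) 0 0 (step_sound _ 131 [(rh1df1df71a80a171b.shift 0 1), (rh932754581e0f4330.shift 2 0)] (by decide +kernel))
noncomputable def rh2d35244774484961 : CRef := CRef.mk (Pat.mk 0x80000000b000000080000000900000000 0x80000000f000000180000000f00000004 3 5) 0 0 (step_sound _ 68 [rh669c503fc29231eb, (rhc10214bf3fe8094a.shift 0 2)] (by decide +kernel))
noncomputable def rh002bc47f98a8938d : CRef := CRef.mk (Pat.mk 0x1000000010000000120000001200000000 0x1000000010000000330000001e00000008 3 6) 0 0 (step_sound _ 35 [(rh932754581e0f4330.shift 3 0), (rh9ce9666211d7d662.shift 0 1)] (by decide +kernel))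
noncomputable def rhf0cde9f3e3a850df : CRef := CRef.mk (Pat.mk 0x300000002000000080000000b00000000 0x100000003000000020000001a0000000f00000004 3 5) 0 0 (step_sound _ 65 [(rh50fbb5868c909700.shift 0 1), rhb111163c97cafada] (by decide +kernel))
noncomputable def rhf516302f831125d8 : CRef := CRef.mk (Pat.mk 0x40000001600000010 0x70000003e00000030 3 6) 0 0 (step_sound _ 35 [(rhe25b0a99195a5d59.shift 1 0), (rhe3060b190bc0bc78.shift 0 1)] (by decide +kernel))
noncomputable def rh6558fc11d90a948b : CRef := CRef.mk (Pat.mk 0x100000001c00000008 0x380000001f00000018 3 6) 0 0 (step_sound _ 33 [(rh33e738c4ed385b9f.shift 1 1), rhe3dc93746cbe6e7c] (by decide +kernel))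
noncomputable def rh753c304cb655374b : CRef := CRef.mk (Pat.mk 0xa0000000a0000001e00000002 0x40000000f0000003a0000001e00000002 3 6) 0 0 (step_sound _ 98 [(rh2f68792b6b779e96.shift 1 0), (rh4503a2d502ef3aef.shift 0 1)] (by decide +kernel))
noncomputable def rh6a5f02fdaaf1ad36 : CRef := CRef.mk (Pat.mk 0x60000000700000009 0x60000003f0000001b 3 6) 0 0 (step_sound _ 35 [rhb0463dbec37421a0, rhe25b0a99195a5d59] (by decide +kernel))
noncomputable def rha8f0bb47ccc0d695 : CRef := CRef.mk (Pat.mk 0x1e0000000600000010 0x1f0000003e00000030 3 6) 0 0 (step_sound _ 36 [rh665fa2b016ee28ae, (rhe25b0a99195a5d59.shift 1 1)] (by decide +kernel))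
noncomputable def rh8dc3e50d8ff8c71d : CRef := CRef.mk (Pat.mk 0x600000002000000100000001a 0x40000000600000002000000330000001e 3 6) 0 0 (step_sound _ 33 [(rh2f68792b6b779e96.shift 1 0), rh9ce9666211d7d662] (by decide +kernel))
noncomputable def rh5e875562af6c1594 : CRef := CRef.mk (Pat.mk 0x400000006000000000000001a00000000 0x400000006000000060000001e00000003 3 5) 0 0 (step_sound _ 1 [(rh04253f50b6dd0619.shift 1 0), rh565a54ff01eab9cb] (by decide +kernel))
noncomputable def rh55aed1471ae72712 : CRef := CRef.mk (Pat.mk 0x60000000b00000008 0x70000003f00000018 3 6) 0 0 (step_sound _ 34 [(rh79b3c29022acbdf3.shift 0 1), rhe25b0a99195a5d59] (by decide +kernel))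
noncomputable def rha79f50479099360c : CRef := CRef.mk (Pat.mk 0x1400000016000000130000001000000000 0x1400000016000000130000001e0000000a 3 5) 0 0 (step_sound _ 33 [(rh71222050f2c63a3a.shift 1 0), rhf47809ebef3b3626] (by decide +kernel))
noncomputable def rh86a03807261acf08 : CRef := CRef.mk (Pat.mk 0x600000002000000010000001200000000 0x40000000600000002000000030000001e00000004 3 5) 0 0 (step_sound _ 65 [(rh2f68792b6b779e96.shift 1 1), rhf8edb192cdea7ada] (by decide +kernel))
noncomputable def rh61c929bbed6a7028 : CRef := CRef.mk (Pat.mk 0x5000000070000000100000002 0x40000000500000007000000070000000300000002 3 3) 0 0 (step_sound _ 33 [rh2145e1d24b96a57e, (rhbfb5770941270498.shift 1 0)] (by decide +kernel))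
noncomputable def rh7b7542505e5c2734 : CRef := CRef.mk (Pat.mk 0x400000004000000100000001200000002 0x400000004000000340000001e00000003 3 6) 0 0 (step_sound _ 34 [rh1dc3e866f7ab4752, (rh3c88ce959c0e423f.shift 1 0)] (by decide +kernel))
noncomputable def rh8879ba4a7e56171d : CRef := CRef.mk (Pat.mk 0x100000001c0000000a 0x180000001f0000001b 3 5) 0 0 (step_sound _ 33 [rhe3dc93746cbe6e7c, rheb0810cc63b001d8] (by decide +kernel))
noncomputable def rh4255400751e19784 : CRef := CRef.mk (Pat.mk 0x20000000b00000009 0x30000001f0000001b 3 5) 0 0 (step_sound _ 34 [rh7b030ba967bf927e, rhe25b0a99195a5d59] (by decide +kernel))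
noncomputable def rh251342cf42d7e049 : CRef := CRef.mk (Pat.mk 0x100000005000000050000000400000004 0x20000000700000007000000050000000500000004 3 3) 0 0 (step_sound _ 129 [(rh43aaa02be9d23efd.shift 0 1), (rhffd04209dc8ea796.shift 1 0)] (by decide +kernel))
noncomputable def rh1b4ccb2a91bfb31e : CRef := CRef.mk (Pat.mk 0x1800000018000000000000000600000003 0x100000001800000018000000080000001e0000000b 3 5) 0 0 (step_sound _ 35 [rh18965a982d73c794, (rh2c7fc7a7cc8a47be.shift 3 0)] (by decide +kernel))
noncomputable def rh4f2a0c07c3790d4b : CRef := CRef.mk (Pat.mk 0x20000000300000002000000030000000000000000 0x2000000030000000300000003000000030000000200000002 3 2) 0 0 (step_sound _ 96 [rh3cb04db3dd2b6a55, (rh5c5e593799055d58.shift 0 2)] (by decide +kernel))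
noncomputable def rh7b08a2a7822d5c27 : CRef := CRef.mk (Pat.mk 0x600000002000000080000000b00000000 0x400000006000000020000001a0000000f00000004 3 5) 0 0 (step_sound _ 65 [(rh2f68792b6b779e96.shift 1 1), rhb111163c97cafada] (by decide +kernel))
noncomputable def rh8de3be3c8425de3f : CRef := CRef.mk (Pat.mk 0xa000000030000000800000008 0x100000001e0000000f0000000800000008 3 5) 0 0 (step_sound _ 100 [rh06c0b67611496766, (rhb2a0b9ccfb5cecd5.shift 0 2)] (by decide +kernel))
noncomputable def rhd2d5ea5feb171b53 : CRef := CRef.mk (Pat.mk 0x1e0000001400000010 0x1f0000001f00000030 3 6) 0 0 (step_sound _ 33 [rh665fa2b016ee28ae, (rheb0810cc63b001d8.shift 0 1)] (by decide +kernel))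
noncomputable def rh33280df2e6526ec7 : CRef := CRef.mk (Pat.mk 0xf000000000000000400000004 0x80000000f0000001c0000000c00000004 3 5) 0 0 (step_sound _ 67 [(rh908914b2f8ef2b02.shift 2 0), (rhe25b0a99195a5d59.shift 0 2)] (by decide +kernel))
noncomputable def rh8847b75c5e4513b5 : CRef := CRef.mk (Pat.mk 0x10000000e000000080000000000000008 0x330000001e000000080000000800000008 3 6) 0 0 (step_sound _ 100 [(rh3f8766e6ecb455ce.shift 0 3), (rh63bb75a038171f49.shift 1 0)] (by decide +kernel))
noncomputable def rhfd7355c70a96284b : CRef := CRef.mk (Pat.mk 0x200000003000000010000000400000004 0x2000000020000000200000007000000070000000400000004 3 3) 0 0 (step_sound _ 161 [(rh0eb4637a3cd5e262.shift 1 0), (rh5c5e593799055d58.shift 0 2)] (by decide +kernel))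
noncomputable def rh5e8db12e00e6be92 : CRef := CRef.mk (Pat.mk 0xa0000001a0000000e 0x1f0000001b0000001e 3 5) 0 0 (step_sound _ 66 [rh046254d731362e10, (rhb739f4f82bb681b4.shift 0 1)] (by decide +kernel))
noncomputable def rh29b9bbf62cfdeff1 : CRef := CRef.mk (Pat.mk 0x280000000c00000018 0x3c0000001f00000018 3 6) 0 0 (step_sound _ 33 [rhb739f4f82bb681b4, (rhcb00ab67b46fb179.shift 1 1)] (by decide +kernel))
noncomputable def rh8d99d90023130d2c : CRef := CRef.mk (Pat.mk 0x6000000060000000200000002 0x2000000030000000300000007000000060000000600000002 3 3) 0 0 (step_sound _ 129 [rh3ca48e2a6d60153d, (rh3e595262c1b737ad.shift 1 1)] (by decide +kernel))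
noncomputable def rh22cde4a1aed087ae : CRef := CRef.mk (Pat.mk 0x1000000010000000300000001 0x20000000300000003000000010000000300000003 3 2) 0 0 (step_sound _ 129 [rh55c8fae470e8430a, rhbaefcd01e0a8bca3] (by decide +kernel))
noncomputable def rh4c87c97afcfda1ec : CRef := CRef.mk (Pat.mk 0x400000004000000100000001600000000 0x400000004000000340000001e00000003 3 6) 0 0 (step_sound _ 35 [rh316d0c7c5292e4bb, (rh33e738c4ed385b9f.shift 1 1)] (by decide +kernel))
noncomputable def rhaae8b720d0693dd9 : CRef := CRef.mk (Pat.mk 0x120000001c00000008 0x1b0000001f00000018 3 5) 0 0 (step_sound _ 33 [(rh3244c3cc8379b070.shift 0 1), rhe3dc93746cbe6e7c] (by decide +kernel))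
noncomputable def rh571d9c498ff3c718 : CRef := CRef.mk (Pat.mk 0x200000002000000120000001200000000 0x200000002000000330000001e00000004 3 6) 0 0 (step_sound _ 34 [(rh12d50e65fdd458b1.shift 0 1), (rh55afc6a59410cf00.shift 1 0)] (by decide +kernel))
noncomputable def rhfb6a70ff77f7aa91 : CRef := CRef.mk (Pat.mk 0x1c00000014000000040000000400000000 0x1e00000037000000040000000400000004 3 6) 0 0 (step_sound _ 129 [rhd680bf2cf2441e84, (rhe25b0a99195a5d59.shift 1 3)] (by decide +kernel))
noncomputable def rhca55eb29bb71b527 : CRef := CRef.mk (Pat.mk 0x6000000030000000a00000008 0x40000001e0000000b0000000a0000000a 3 5) 0 0 (step_sound _ 130 [rh1ebae77060ef1c3f, (rh71222050f2c63a3a.shift 1 0)] (by decide +kernel))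
noncomputable def rh43012ea34c1b670f : CRef := CRef.mk (Pat.mk 0x4000000040000000c00000006 0x400000004000000040000003c0000000f 3 6) 0 0 (step_sound _ 3 [(rh2145e1d24b96a57e.shift 2 0), rhf9d36e158778ce35] (by decide +kernel))
noncomputable def rh97a89bdd81429253 : CRef := CRef.mk (Pat.mk 0x38000000100000001e 0x3c0000001f0000001e 3 6) 0 0 (step_sound _ 33 [rh3244c3cc8379b070, (rh81076d3993588649.shift 1 1)] (by decide +kernel))
noncomputable def rh109e2dd7f1c0f217 : CRef := CRef.mk (Pat.mk 0x1c000000080000000600000004 0x20000001f0000003b0000000600000004 3 6) 0 0 (step_sound _ 97 [rh626f9e70778228d4, (rha03f6e28ea70fc7d.shift 0 2)] (by decide +kernel))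
noncomputable def rh938a14aa6d864ef7 : CRef := CRef.mk (Pat.mk 0x280000002c0000002000000020 0x100000003c0000002f0000002000000020 3 6) 0 0 (step_sound _ 100 [(rh1ed7a3503fa50fc8.shift 0 2), (rh50fbb5868c909700.shift 4 0)] (by decide +kernel))
noncomputable def rh6091758768fb3633 : CRef := CRef.mk (Pat.mk 0x1c000000020000000300000000 0x30000001e000000030000000300000001 3 5) 0 0 (step_sound _ 97 [rh16b3601545764ddf, (rheb0810cc63b001d8.shift 0 2)] (by decide +kernel))
noncomputable def rhebf172f8583357f1 : CRef := CRef.mk (Pat.mk 0xa0000001a0000000800000008 0x100000003b0000001e0000000800000008 3 6) 0 0 (step_sound _ 100 [(rh2f68792b6b779e96.shift 3 0), (rh9ce9666211d7d662.shift 0 2)] (by decide +kernel))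
noncomputable def rhe48e8affd04084e0 : CRef := CRef.mk (Pat.mk 0xc00000018000000030000000300000000 0x10000000f00000019000000030000000300000002 3 5) 0 0 (step_sound _ 128 [(rhab22b5b56e7b3243.shift 0 3), rhda6cc5da102e1723] (by decide +kernel))
noncomputable def rh1e5fe1cb6b536125 : CRef := CRef.mk (Pat.mk 0x300000003000000180000000c00000000 0x100000003000000030000001a0000000f00000002 3 5) 0 0 (step_sound _ 33 [(rh53b3c253cb0c65f4.shift 0 1), rhdd1b84382d19bcbb] (by decide +kernel))
noncomputable def rhc16db94c2420f4f5 : CRef := CRef.mk (Pat.mk 0xa0000000a0000000800000008 0x100000001e0000000f0000000800000008 3 5) 0 0 (step_sound _ 100 [(rh2f68792b6b779e96.shift 3 0), (rhda02c4ce0b224328.shift 0 2)] (by decide +kernel))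
noncomputable def rh06632e5662f9eca8 : CRef := CRef.mk (Pat.mk 0x4000000070000000700000000 0x400000004000000070000001f00000018 3 5) 0 0 (step_sound _ 35 [rhba04d77b039f69d9, (rhf48373e13d2bc128.shift 0 1)] (by decide +kernel))
noncomputable def rhb25b922e66da09ef : CRef := CRef.mk (Pat.mk 0x8000000190000000b0000000a 0x50000000f000000190000000b0000000a 3 5) 0 0 (step_sound _ 98 [(rh50fbb5868c909700.shift 2 0), rha7760f574e6358c3] (by decide +kernel))
noncomputable def rh4ffe0988b9ad5f21 : CRef := CRef.mk (Pat.mk 0x20000000b0000000c0000000c 0xc0000001e0000000b0000000c0000000c 3 5) 0 0 (step_sound _ 99 [rh5501401ca587e475, (rh5c5e593799055d58.shift 2 0)] (by decide +kernel))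
noncomputable def rh09e3de9652e65ee7 : CRef := CRef.mk (Pat.mk 0x2000000020000000a0000000c00000000 0x2000000020000001a0000000f00000005 3 5) 0 0 (step_sound _ 33 [rh33d01eedb9d8bafb, (rh55afc6a59410cf00.shift 1 0)] (by decide +kernel))
noncomputable def rh6e36e895ce1a35fe : CRef := CRef.mk (Pat.mk 0x7000000030000000800000008 0x40000001f0000001b0000000800000008 3 5) 0 0 (step_sound _ 99 [(rh18965a982d73c794.shift 0 2), rhdad6fb8687a5e7f2] (by decide +kernel))
noncomputable def rh9579f843e76344b7 : CRef := CRef.mk (Pat.mk 0x300000007000000000000000800000008 0x70000001f000000180000000800000008 3 5) 0 0 (step_sound _ 99 [rhdad6fb8687a5e7f2, (rhf48373e13d2bc128.shift 0 3)] (by decide +kernel))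
noncomputable def rh262161747f515fa0 : CRef := CRef.mk (Pat.mk 0x1c000000020000000200000004 0x30000001e000000030000000600000004 3 5) 0 0 (step_sound _ 97 [rh54e2670cb103b129, (rheb0810cc63b001d8.shift 0 2)] (by decide +kernel))
noncomputable def rhb5b316df1e682d62 : CRef := CRef.mk (Pat.mk 0x1c0000001a0000000200000004 0x30000001f0000001a0000000600000004 3 5) 0 0 (step_sound _ 97 [rh54e2670cb103b129, (rhb739f4f82bb681b4.shift 0 2)] (by decide +kernel))
noncomputable def rh331de7c3a8189cab : CRef := CRef.mk (Pat.mk 0x2000000000000000f0000000200000000 0x200000002000000020000001f0000000300000001 3 5) 0 0 (step_sound _ 32 [(rh18965a982d73c794.shift 0 1), rhb8fddd58ad9026ec] (by decide +kernel))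
noncomputable def rh4351f9aef6e5447e : CRef := CRef.mk (Pat.mk 0x1e000000000000000800000008 0x40000001f000000380000000800000008 3 6) 0 0 (step_sound _ 67 [(rh50fbb5868c909700.shift 2 0), (rha03f6e28ea70fc7d.shift 0 2)] (by decide +kernel))
noncomputable def rh2ba551de881ca4cd : CRef := CRef.mk (Pat.mk 0x3c00000000 0x70000003e00000070 3 7) 0 0 (step_sound _ 33 [(rh4ad5fc38f1b69f65.shift 1 0), (rhd5eb272e07a4e288.shift 0 1)] (by decide +kernel))
noncomputable def rh60c8c357ee95cc83 : CRef := CRef.mk (Pat.mk 0x60000001a 0x1f0000003b 3 6) 0 0 (step_sound _ 35 [rh474e234485f2465c, rhb739f4f82bb681b4] (by decide +kernel))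
noncomputable def rha5ba3fdedad1585e : CRef := CRef.mk (Pat.mk 0x180000000a0000000800000008 0x40000003c0000000f0000000800000008 3 6) 0 0 (step_sound _ 98 [(rh50fbb5868c909700.shift 2 0), (rh72297cd55a503360.shift 0 2)] (by decide +kernel))
noncomputable def rh6e1375cb8442c417 : CRef := CRef.mk (Pat.mk 0x100000001c0000001000000008 0x10000000300000001f0000001800000008 3 6) 0 0 (step_sound _ 35 [(rh34517e326ddb5b25.shift 0 1), (rh5c5e593799055d58.shift 3 0)] (by decide +kernel))
noncomputable def rh25b9d14b9f1a6908 : CRef := CRef.mk (Pat.mk 0x8000000080000000b00000008 0x100000001800000018000000080000001f00000018 3 5) 0 0 (step_sound _ 131 [rh1354c2625a328ca5, (rh44f453b84f013105.shift 3 0)] (by decide +kernel))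
noncomputable def rh9c21902ebdde9648 : CRef := CRef.mk (Pat.mk 0x10000000100000003000000180000000c00000000 0x100000001000000030000001b0000000f00000002 3 5) 0 0 (step_sound _ 33 [rh5278689ccab1c3c2, (rh53b3c253cb0c65f4.shift 0 1)] (by decide +kernel))
noncomputable def rhf176be69a1727a7f : CRef := CRef.mk (Pat.mk 0x20000000b0000000e00000006 0xc0000001e0000000b0000000e00000006 3 5) 0 0 (step_sound _ 99 [(rh5c5e593799055d58.shift 2 0), rh8797c67fe3ac847a] (by decide +kernel))
noncomputable def rh79954c6cccd1ca69 : CRef := CRef.mk (Pat.mk 0x1e000000140000001400000000 0x8000000080000001f0000001c0000001400000010 3 5) 0 0 (step_sound _ 67 [(rh35ab8589afe62dd0.shift 2 0), (rhb739f4f82bb681b4.shift 0 2)] (by decide +kernel))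
noncomputable def rh16d99c005e546a04 : CRef := CRef.mk (Pat.mk 0x180000000c00000002 0x380000001f00000003 3 6) 0 0 (step_sound _ 33 [(rh53b3c253cb0c65f4.shift 0 1), rhee0891bc88ee3f94] (by decide +kernel))
noncomputable def rh236eb15634ba7d7d : CRef := CRef.mk (Pat.mk 0x1800000018000000040000000400000000 0x380000001f000000040000000400000004 3 6) 0 0 (step_sound _ 98 [(rh71222050f2c63a3a.shift 2 0), (rhab2ad169e49f9c5e.shift 0 3)] (by decide +kernel))
noncomputable def rha4709bd9df1d4ef9 : CRef := CRef.mk (Pat.mk 0x80000000800000008000000080000000a00000002 0x800000008000000080000001c0000001e00000003 3 5) 0 0 (step_sound _ 34 [(rh79877ebd3ef475dd.shift 2 1), rhd95cd68247b3fc03] (by decide +kernel))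
noncomputable def rh53cd150eddcb7e9c : CRef := CRef.mk (Pat.mk 0x380000000800000006000000060000000000000000 0x3c0000001f00000006000000060000000200000002 3 6) 0 0 (step_sound _ 130 [(rh1e309b005ffa1b36.shift 1 0), (rheea1a90336e79c71.shift 0 4)] (by decide +kernel))
noncomputable def rh193797501577d6c4 : CRef := CRef.mk (Pat.mk 0x40000001e000000000000000800000000 0x40000001f000000380000000800000008 3 6) 0 0 (step_sound _ 68 [rh0da86e4dead2b836, (rhe25b0a99195a5d59.shift 1 2)] (by decide +kernel))
noncomputable def rhbfcb47823175afda : CRef := CRef.mk (Pat.mk 0x200000012000000120000000a0000000a 0x1200000012000000120000001b0000000f 3 5) 0 0 (step_sound _ 36 [rh2be192fa1e0a8f92, (rh5c5e593799055d58.shift 3 0)] (by decide +kernel))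
noncomputable def rh0b03ff809acb63fc : CRef := CRef.mk (Pat.mk 0x80000000000000008000000000000001e 0x80000000800000008000000380000001f 3 6) 0 0 (step_sound _ 36 [(rh33e738c4ed385b9f.shift 1 0), rh6c0d7bd1cc831860] (by decide +kernel))
noncomputable def rha11400879c037ec8 : CRef := CRef.mk (Pat.mk 0x8000000000000001e00000010 0x800000008000000380000001f00000010 3 6) 0 0 (step_sound _ 67 [(rh2145e1d24b96a57e.shift 3 0), (rhec46bd5500c722c9.shift 0 1)] (by decide +kernel))
noncomputable def rh03341f7b59bafd03 : CRef := CRef.mk (Pat.mk 0x10000000000000001e0000001000000000 0x1000000010000000100000001f0000001800000008 3 5) 0 0 (step_sound _ 35 [(rhb739f4f82bb681b4.shift 0 1), (rhb8fddd58ad9026ec.shift 3 0)] (by decide +kernel))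
noncomputable def rhf00f5d9955b1187a : CRef := CRef.mk (Pat.mk 0x200000002000000010000000300000000 0x20000000300000003000000010000000300000003 3 2) 0 0 (step_sound _ 96 [rh55c8fae470e8430a, rh71222050f2c63a3a] (by decide +kernel))
noncomputable def rhcad6ab7a21746611 : CRef := CRef.mk (Pat.mk 0x80000000a000000020000000200000002 0x1d0000000f000000020000000200000002 3 5) 0 0 (step_sound _ 96 [rh50fbb5868c909700, rhf65c362918a99e9e] (by decide +kernel))
noncomputable def rh85e7ecae9fcdb14c : CRef := CRef.mk (Pat.mk 0x1a00000014000000040000000000000004 0x1e00000037000000040000000400000004 3 6) 0 0 (step_sound _ 130 [rh3ce14d2b03013c6d, (rhe25b0a99195a5d59.shift 1 3)] (by decide +kernel))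
noncomputable def rhe88dd9ec1a6d3b9a : CRef := CRef.mk (Pat.mk 0xc0000000e0000000b0000000800000000 0xc0000000e0000000b0000001e00000012 3 5) 0 0 (step_sound _ 33 [(rh71222050f2c63a3a.shift 1 0), rh8ffd6c73cfd2ea71] (by decide +kernel))
noncomputable def rh33d92b8d5554479f : CRef := CRef.mk (Pat.mk 0x800000008000000080000001a00000002 0x80000000800000008000000380000001e00000003 3 6) 0 0 (step_sound _ 34 [(rhd3f7ef38fbfd55da.shift 1 1), rheb0810cc63b001d8] (by decide +kernel))
noncomputable def rhb9305a8c0d1114ce : CRef := CRef.mk (Pat.mk 0x20000001c000000040000003000000018 0x30000001e00000004000000340000001e 3 6) 0 0 (step_sound _ 97 [(rh3244c3cc8379b070.shift 0 3), (rh32888ab8ed8d364b.shift 1 0)] (by decide +kernel))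
noncomputable def rh1409e9f995b4c970 : CRef := CRef.mk (Pat.mk 0x4000000040000001c0000000400000000 0x4000000040000003c0000000f00000008 3 6) 0 0 (step_sound _ 35 [(rh4dc133ee0ba1420a.shift 0 1), (rh55afc6a59410cf00.shift 2 0)] (by decide +kernel))
noncomputable def rh7dfbed8b06662aa0 : CRef := CRef.mk (Pat.mk 0x800000000000000100000001e00000000 0x800000008000000180000001f00000030 3 6) 0 0 (step_sound _ 67 [(rh3098af7943687178.shift 1 0), (rh53b3c253cb0c65f4.shift 0 1)] (by decide +kernel))
noncomputable def rh43cd89aa810ffaaa : CRef := CRef.mk (Pat.mk 0x16000000100000000200000002 0x40000001e000000330000000200000002 3 6) 0 0 (step_sound _ 99 [rhe1a85963a7a8727e, (rhe25b0a99195a5d59.shift 1 2)] (by decide +kernel))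
noncomputable def rh7f9cf53e19811b79 : CRef := CRef.mk (Pat.mk 0x3c000000000000000400000004 0x70000003e000000040000000400000004 3 6) 0 0 (step_sound _ 129 [rh39e496e15a305597, (rh3f8766e6ecb455ce.shift 1 3)] (by decide +kernel))
noncomputable def rhe725dc3652d25389 : CRef := CRef.mk (Pat.mk 0x40000000200000002000000020000000800000018 0x40000000600000002000000020000000f00000019 3 5) 0 0 (step_sound _ 33 [(rhbaefcd01e0a8bca3.shift 1 1), rhf9a329cc68aa610c] (by decide +kernel))
noncomputable def rh03565085a1495a18 : CRef := CRef.mk (Pat.mk 0x20000000200000002000000020000000800000018 0x20000000200000002000000030000000f00000019 3 5) 0 0 (step_sound _ 32 [(rh79877ebd3ef475dd.shift 0 1), rh874f68213ad35b69] (by decide +kernel))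
noncomputable def rh20cc2cc701a11568 : CRef := CRef.mk (Pat.mk 0x1a000000020000000200000002 0x1000000030000001f000000020000000200000002 3 5) 0 0 (step_sound _ 128 [(rh9b5d9f8ba2f5398f.shift 0 1), rhffd04209dc8ea796] (by decide +kernel))
noncomputable def rhe6ec9fe470ba90ee : CRef := CRef.mk (Pat.mk 0x2000000020000000200000002000000000000000400000004 0x2000000020000000200000003000000030000000700000004 3 3) 0 0 (step_sound _ 65 [(rh7928877f9bf74a91.shift 0 1), (rhbe0e43a3bc50a43f.shift 1 0)] (by decide +kernel))
noncomputable def rh31a0fd3913f749ac : CRef := CRef.mk (Pat.mk 0x10000000100000000a0000000a 0x1000000010000000300000001e0000000b 3 6) 0 0 (step_sound _ 36 [(rh5c5e593799055d58.shift 3 0), rh760717e835f8c2f3] (by decide +kernel))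
noncomputable def rh3ade0f75e2ed3b80 : CRef := CRef.mk (Pat.mk 0x20000000e000000020000000200000000 0x70000003e000000020000000200000002 3 6) 0 0 (step_sound _ 130 [(rh71222050f2c63a3a.shift 1 0), (rh79b3c29022acbdf3.shift 0 3)] (by decide +kernel))
noncomputable def rh67bf3ab75a8db2ec : CRef := CRef.mk (Pat.mk 0x600000003000000180000000800000008 0x100000001e0000001b000000180000000800000008 3 5) 0 0 (step_sound _ 132 [(rh361cc68994bd8a63.shift 0 3), (rhd932d223c9e56252.shift 3 0)] (by decide +kernel))
noncomputable def rheed407ef56c77dd2 : CRef := CRef.mk (Pat.mk 0x1600000002000000080000000800000008 0x1e0000003b000000080000000800000008 3 6) 0 0 (step_sound _ 131 [(rhdf88d096527d0db3.shift 1 0), (rheb0810cc63b001d8.shift 0 3)] (by decide +kernel))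
noncomputable def rh00aece6d9b3843e3 : CRef := CRef.mk (Pat.mk 0x1600000002000000080000000800000008 0x100000001e0000001b000000080000000800000008 3 5) 0 0 (step_sound _ 131 [(rh47cbca82c94c0c1a.shift 3 0), (rheb0810cc63b001d8.shift 0 3)] (by decide +kernel))
noncomputable def rh06955937afad4434 : CRef := CRef.mk (Pat.mk 0x3000000120000000a0000000a00000008 0x40000001f0000001a0000000a0000000a00000008 3 5) 0 0 (step_sound _ 99 [(rh2f68792b6b779e96.shift 3 0), (rh8ddb7009c5639c8a.shift 0 1)] (by decide +kernel))
noncomputable def rhec7e4cfff4b058cc : CRef := CRef.mk (Pat.mk 0x60000000300000008000000080000000800000008 0x1e0000001b00000018000000080000000800000008 3 5) 0 0 (step_sound _ 164 [(rh361cc68994bd8a63.shift 0 4), (rhf2348089b610990c.shift 3 0)] (by decide +kernel))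
noncomputable def rh8b20738f4a481673 : CRef := CRef.mk (Pat.mk 0xe00000004000000100000003000000020 0x1f0000003c000000100000003000000020 3 6) 0 0 (step_sound _ 100 [(rh2145e1d24b96a57e.shift 4 0), (rh7344b4efa7925350.shift 0 3)] (by decide +kernel))
noncomputable def rh9efc453f4012496f : CRef := CRef.mk (Pat.mk 0x30000000200000008000000080000000800000008 0x130000001e00000018000000080000000800000008 3 5) 0 0 (step_sound _ 132 [(rh7c22db35c48b205c.shift 0 1), (rhbaefcd01e0a8bca3.shift 3 0)] (by decide +kernel))
noncomputable def rh9f8f2b29a33c6e0f : CRef := CRef.mk (Pat.mk 0x1000000120000000a0000000a00000008 0x1000000130000001e0000000a0000000a00000008 3 5) 0 0 (step_sound _ 99 [(rh2f68792b6b779e96.shift 3 0), (rh9b5d9f8ba2f5398f.shift 0 1)] (by decide +kernel))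
noncomputable def rh35b80a50a4320679 : CRef := CRef.mk (Pat.mk 0x200000002000000020000001a0000000000000000 0x200000002000000020000001f0000000300000001 3 5) 0 0 (step_sound _ 32 [(rh79877ebd3ef475dd.shift 0 1), rhb3c0ca2f03116be9] (by decide +kernel))
noncomputable def rha4265559c606ade5 : CRef := CRef.mk (Pat.mk 0x1a0000000a0000000800000000 0x300000001e0000000b0000000800000008 3 6) 0 0 (step_sound _ 98 [(rhd4d36b4007f546b1.shift 1 0), (rheb0810cc63b001d8.shift 0 2)] (by decide +kernel))
noncomputable def rh26a6677bc6b3a37d : CRef := CRef.mk (Pat.mk 0x100000006000000020000000a0000001800000010 0x1000000030000001e0000000a0000000a0000001800000010 3 5) 0 0 (step_sound _ 161 [(rh50fbb5868c909700.shift 0 2), rh74d067626fd2f551] (by decide +kernel))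
noncomputable def rh870fecc57b49543c : CRef := CRef.mk (Pat.mk 0x80000001a00000012000000030000000400000000 0x80000001a00000012000000130000001e00000004 3 5) 0 0 (step_sound _ 33 [(rh55afc6a59410cf00.shift 1 0), (rh7c4dd79c7407efc6.shift 0 1)] (by decide +kernel))
noncomputable def rhb22c07a08b77f466 : CRef := CRef.mk (Pat.mk 0x2000000020000000a00000006 0x200000002000000030000003e00000006 3 6) 0 0 (step_sound _ 34 [(rh2145e1d24b96a57e.shift 1 0), rhb762f327c85d41a0] (by decide +kernel))
noncomputable def rhba383f90293b839d : CRef := CRef.mk (Pat.mk 0x380000000800000038 0x780000000f0000003c 3 7) 0 0 (step_sound _ 34 [(rh18965a982d73c794.shift 2 1), rhdbcea10a0fbe5ba6] (by decide +kernel))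
noncomputable def rhb285483e710ade42 : CRef := CRef.mk (Pat.mk 0x500000005000000010000000900000008 0x500000005000000050000000f0000001a 3 5) 0 0 (step_sound _ 33 [rh55afc6a59410cf00, rhfa98cbb75490aff0] (by decide +kernel))
noncomputable def rhba5101f68a03814f : CRef := CRef.mk (Pat.mk 0x200000002000000120000001400000000 0x200000002000000330000001e00000004 3 6) 0 0 (step_sound _ 33 [(rh12d50e65fdd458b1.shift 0 1), (rh55afc6a59410cf00.shift 1 0)] (by decide +kernel))
noncomputable def rh622389d5a53e6e37 : CRef := CRef.mk (Pat.mk 0x200000002000000020000001a00000010 0x200000002000000020000001f00000033 3 6) 0 0 (step_sound _ 34 [rha37779f9238271b6, (rhe25b0a99195a5d59.shift 1 0)] (by decide +kernel))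
noncomputable def rhed872fddc4d72821 : CRef := CRef.mk (Pat.mk 0x200000002000000120000001300000000 0x2000000020000003a0000001f00000004 3 6) 0 0 (step_sound _ 34 [(rh55afc6a59410cf00.shift 1 0), (rhf917b193a69b83d4.shift 0 1)] (by decide +kernel))
noncomputable def rhba606863b5a24b18 : CRef := CRef.mk (Pat.mk 0x1200000012000000120000001600000000 0x12000000120000001a0000001f00000009 3 5) 0 0 (step_sound _ 35 [(rh932754581e0f4330.shift 3 0), rhd05b50139866a421] (by decide +kernel))
noncomputable def rhc7ab6ff7fed296ae : CRef := CRef.mk (Pat.mk 0x160000001e00000000 0x1e0000001f00000038 3 6) 0 0 (step_sound _ 32 [(rh361cc68994bd8a63.shift 0 1), rh4ad5fc38f1b69f65] (by decide +kernel))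
noncomputable def rhd4ab246f25327613 : CRef := CRef.mk (Pat.mk 0x10000000100000000000000020000000200000000 0x10000000300000003000000030000000200000002 3 2) 0 0 (step_sound _ 97 [rh4b555cfb2752cddc, (rhcfdf45280693d3da.shift 0 1)] (by decide +kernel))
noncomputable def rh8fe9e6590f9f8f49 : CRef := CRef.mk (Pat.mk 0x800000008000000020000001300000010 0x8000000180000001e0000001b00000010 3 5) 0 0 (step_sound _ 68 [rh29d89e262dc907e9, (rhcfdf45280693d3da.shift 3 0)] (by decide +kernel))
noncomputable def rh8482ecef5fb8c625 : CRef := CRef.mk (Pat.mk 0x800000008000000060000001000000010 0x8000000180000001f0000001800000010 3 5) 0 0 (step_sound _ 67 [rh62f35c5ab5502047, (rhbe0e43a3bc50a43f.shift 3 0)] (by decide +kernel))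
noncomputable def rh218211d2f85bab41 : CRef := CRef.mk (Pat.mk 0x800000008000000020000001400000010 0x8000000080000000b0000001e00000030 3 6) 0 0 (step_sound _ 35 [rhc6055bb2ecf924ac, (rhff0f29cb645b05f7.shift 3 0)] (by decide +kernel))
noncomputable def rhf58a4d0f3dcf418c : CRef := CRef.mk (Pat.mk 0xa0000000e000000000000000000000010 0xb0000001e000000300000001000000010 3 6) 0 0 (step_sound _ 100 [(rh3244c3cc8379b070.shift 0 3), (rhdb89fb63ff941e36.shift 1 0)] (by decide +kernel))
noncomputable def rh852b7b86cbca7a66 : CRef := CRef.mk (Pat.mk 0x40000000400000004000000100000001a 0x40000000400000004000000370000001e 3 6) 0 0 (step_sound _ 33 [rh9ce9666211d7d662, (rheea67dfebd0f8008.shift 1 0)] (by decide +kernel))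
noncomputable def rha9a8e846eaf7b675 : CRef := CRef.mk (Pat.mk 0x4000000040000000c00000006 0x400000004000000040000003c0000000f 3 6) 0 0 (step_sound _ 36 [(rh18965a982d73c794.shift 1 0), rh7433fdfa04207f2e] (by decide +kernel))
noncomputable def rh5996aa8637777681 : CRef := CRef.mk (Pat.mk 0x300000002000000030000000200000000 0x2000000020000000300000003000000030000000300000002 3 2) 0 0 (step_sound _ 96 [(rh503dd4575245365b.shift 0 1), rh7b1f1fb55310c477] (by decide +kernel))
noncomputable def rhf77beb34d2f35d2d : CRef := CRef.mk (Pat.mk 0x1e000000020000000200000000 0x70000003e000000020000000200000002 3 6) 0 0 (step_sound _ 129 [(rh3244c3cc8379b070.shift 0 3), (rh72dcf29acb876456.shift 1 0)] (by decide +kernel))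
noncomputable def rh83e8cf56ff216dad : CRef := CRef.mk (Pat.mk 0x1e0000001800000010 0x3e0000001f00000030 3 6) 0 0 (step_sound _ 33 [(rh964efc7fe7ac7a0d.shift 1 0), (rheb0810cc63b001d8.shift 0 1)] (by decide +kernel))
noncomputable def rha07b6d60a252eb2f : CRef := CRef.mk (Pat.mk 0xa0000000b0000000600000000 0xa0000000a0000000b0000001e00000004 3 5) 0 0 (step_sound _ 35 [(rh5fc67bac28a8b5bb.shift 1 0), (rhf48373e13d2bc128.shift 0 1)] (by decide +kernel))
noncomputable def rh96b6c7895132d0ce : CRef := CRef.mk (Pat.mk 0x10000000120000001e 0x300000001e0000003f 3 6) 0 0 (step_sound _ 35 [rh53b3c253cb0c65f4, (rhabcb8f6c932edb1f.shift 1 0)] (by decide +kernel))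
noncomputable def rh42c913fde21eca20 : CRef := CRef.mk (Pat.mk 0x40000000e000000050000000000000000 0x4000000040000001e000000070000000200000002 3 5) 0 0 (step_sound _ 65 [(rh18965a982d73c794.shift 0 2), (rh1e309b005ffa1b36.shift 1 0)] (by decide +kernel))
noncomputable def rh264949414700eca3 : CRef := CRef.mk (Pat.mk 0x50000000f000000040000000000000000 0x4000000050000003f000000070000000200000002 3 6) 0 0 (step_sound _ 65 [(rh2612b4f73ba7c3b3.shift 0 2), rh62d5089427e66445] (by decide +kernel))
noncomputable def rh5963e6299adc36a3 : CRef := CRef.mk (Pat.mk 0x8000000080000001e00000000 0x800000008000000080000003e00000007 3 6) 0 0 (step_sound _ 2 [(rh5c5e593799055d58.shift 2 0), rhaf9f2efc81a8312b] (by decide +kernel))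
noncomputable def rhef4c033451a9838c : CRef := CRef.mk (Pat.mk 0x8000000080000000c0000000a 0x800000008000000080000003c0000000f 3 6) 0 0 (step_sound _ 2 [(rh5c5e593799055d58.shift 2 0), rhf9d36e158778ce35] (by decide +kernel))
noncomputable def rhe859282db680a715 : CRef := CRef.mk (Pat.mk 0x4000000040000000b0000000700000000 0x40000000c0000000b0000001f00000018 3 5) 0 0 (step_sound _ 35 [rh5ef6dfbd1c7ee9de, (rhf48373e13d2bc128.shift 0 1)] (by decide +kernel))
noncomputable def rhd39a05d45e46beec : CRef := CRef.mk (Pat.mk 0x40000000c000000060000000800000000 0x40000003c0000000f0000000800000008 3 6) 0 0 (step_sound _ 100 [(rh18965a982d73c794.shift 1 2), rh597586461ebe1173] (by decide +kernel))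
noncomputable def rh89df0ac8bf869959 : CRef := CRef.mk (Pat.mk 0x1c0000000a0000000a00000000 0x4000000040000001c0000000f0000000a00000008 3 5) 0 0 (step_sound _ 66 [(rh35ab8589afe62dd0.shift 1 0), (rh53b3c253cb0c65f4.shift 0 2)] (by decide +kernel))
noncomputable def rhb4f20551e8d6399f : CRef := CRef.mk (Pat.mk 0x500000000000000020000000200000002 0x50000000700000006000000020000000200000002 3 3) 0 0 (step_sound _ 97 [(rh9c0a5dbd188ab718.shift 0 1), (rhbaefcd01e0a8bca3.shift 1 0)] (by decide +kernel))
noncomputable def rhfb08427eb4ea3628 : CRef := CRef.mk (Pat.mk 0xf000000080000000400000000 0x8000000180000000f0000000c0000000400000004 3 5) 0 0 (step_sound _ 131 [(rh0db119afefb5ebc7.shift 2 0), (rh33e738c4ed385b9f.shift 0 3)] (by decide +kernel))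
noncomputable def rh47a4a16823380241 : CRef := CRef.mk (Pat.mk 0x1c000000160000000a0000000000000000 0x100000001c0000001e0000000b0000000800000008 3 5) 0 0 (step_sound _ 99 [(rhb0c1e7919d9be92d.shift 2 0), (rheb0810cc63b001d8.shift 0 2)] (by decide +kernel))
noncomputable def rh59d0aa10d09b9b49 : CRef := CRef.mk (Pat.mk 0xc0000000c0000000b0000000200000000 0xc0000000c0000000b0000001e00000018 3 5) 0 0 (step_sound _ 35 [(rh7b1f1fb55310c477.shift 2 0), rh8ffd6c73cfd2ea71] (by decide +kernel))
noncomputable def rh0361a9aa5553e85b : CRef := CRef.mk (Pat.mk 0x400000004000000200000001c00000002 0x400000006000000330000001e00000002 3 6) 0 0 (step_sound _ 33 [(rh428265de8cd3cd2d.shift 1 1), rha3d4138a5939a4eb] (by decide +kernel))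
noncomputable def rh6f1c63b4eccb343b : CRef := CRef.mk (Pat.mk 0x4000000040000000400000007 0x400000004000000040000003e0000000f 3 6) 0 0 (step_sound _ 35 [(rh518d6f6eeebddcb2.shift 1 0), rh572132728df34c43, rh80f90a60d87caa0d] (by decide +kernel))
noncomputable def rhef137b4c3b2b13d5 : CRef := CRef.mk (Pat.mk 0x180000000a000000080000000800000000 0x3c0000000f000000080000000800000008 3 6) 0 0 (step_sound _ 98 [(rh33bb7e99691e14a2.shift 1 0), (rh53b3c253cb0c65f4.shift 0 3)] (by decide +kernel))
noncomputable def rh3ce632961d69a8e7 : CRef := CRef.mk (Pat.mk 0x180000000c000000030000000200000002 0x1000000190000000f000000030000000300000002 3 5) 0 0 (step_sound _ 96 [(rh24ae073cf30720c4.shift 0 3), rhe072fffdd2fccf38] (by decide +kernel))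
noncomputable def rh713c4f6a802cbedf : CRef := CRef.mk (Pat.mk 0x8000000000000000a0000000e00000000 0x8000000080000000b0000001e00000030 3 6) 0 0 (step_sound _ 36 [(rh3098af7943687178.shift 1 0), (rh3244c3cc8379b070.shift 0 1)] (by decide +kernel))
noncomputable def rhc1897dcc52446b96 : CRef := CRef.mk (Pat.mk 0x400000002000000020000000200000002 0x50000000700000003000000020000000200000002 3 3) 0 0 (step_sound _ 128 [(rh9c0a5dbd188ab718.shift 0 1), rhffd04209dc8ea796] (by decide +kernel))
noncomputable def rh0fdf8d3c475e26a4 : CRef := CRef.mk (Pat.mk 0x800000000000000160000001e00000000 0x8000000080000001e0000001f00000030 3 6) 0 0 (step_sound _ 67 [(rh3098af7943687178.shift 1 0), (rheb0810cc63b001d8.shift 0 1)] (by decide +kernel))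
noncomputable def rh917163f1880c874a : CRef := CRef.mk (Pat.mk 0x6000000140000000400000004 0x80000000f0000003c0000000400000004 3 6) 0 0 (step_sound _ 67 [rhd62aa8c143bedf8f, (rhf48373e13d2bc128.shift 1 2)] (by decide +kernel))
noncomputable def rh3820aa2231c97288 : CRef := CRef.mk (Pat.mk 0x600000018000000020000000200000000 0x60000003e000000030000000200000002 3 6) 0 0 (step_sound _ 98 [rh9b93c6a18ed538f9, (rhf48373e13d2bc128.shift 1 3)] (by decide +kernel))
noncomputable def rh6289f4ac4c624f40 : CRef := CRef.mk (Pat.mk 0x1c000000100000000400000004 0x30000001e000000340000000400000004 3 6) 0 0 (step_sound _ 97 [(rhe25b0a99195a5d59.shift 1 2), rhea1977e228a6d74a] (by decide +kernel))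
noncomputable def rh50182613d7c6aafc : CRef := CRef.mk (Pat.mk 0x300000006000000180000000800000008 0x10000000130000001e000000180000001800000008 3 5) 0 0 (step_sound _ 100 [(rh2fe78cc5ca4405d8.shift 0 3), (rh69755ef358ebfd54.shift 3 0)] (by decide +kernel))
noncomputable def rh7cf1164db4664691 : CRef := CRef.mk (Pat.mk 0x30000001c0000000400000004 0x8000000080000000f0000001c0000000c00000004 3 5) 0 0 (step_sound _ 99 [(rh69755ef358ebfd54.shift 2 0), (rhc10214bf3fe8094a.shift 0 2)] (by decide +kernel))
noncomputable def rhc4a7e630329de108 : CRef := CRef.mk (Pat.mk 0x3f00000000 0x7f0000001e 3 7) 0 0 (step_sound _ 2 [rhaaea62e49e55dbb4, (rheb0810cc63b001d8.shift 1 0)] (by decide +kernel))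
noncomputable def rhf13c54404e841c6a : CRef := CRef.mk (Pat.mk 0x1e000000000000000400000004 0x380000001f000000040000000400000004 3 6) 0 0 (step_sound _ 131 [(rh04253f50b6dd0619.shift 2 0), (rhec46bd5500c722c9.shift 0 3)] (by decide +kernel))
noncomputable def rh90b823c913a425e8 : CRef := CRef.mk (Pat.mk 0x2000000060000000600000002 0x30000000300000003000000060000000600000002 3 3) 0 0 (step_sound _ 128 [(rhf627eb01e9e8db9a.shift 0 1), rhffd04209dc8ea796] (by decide +kernel))
noncomputable def rh59671bed9a6cba8c : CRef := CRef.mk (Pat.mk 0x40000001c0000001c0000000000000000 0x40000001c0000003f0000000700000002 3 6) 0 0 (step_sound _ 33 [(rh54d1d3f05f0ed5a2.shift 1 0), (rhd74396e693bc7125.shift 0 1)] (by decide +kernel))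
noncomputable def rhcd81cb1eedf15ca5 : CRef := CRef.mk (Pat.mk 0x40000001c0000001c00000000 0x4000000040000001c0000001f00000003 3 5) 0 0 (step_sound _ 33 [rh1ae4704ae86cb9a8, (rh53b3c253cb0c65f4.shift 0 1)] (by decide +kernel))
noncomputable def rhade0f4c81793f68e : CRef := CRef.mk (Pat.mk 0x500000007000000020000000000000000 0x1000000010000000500000007000000030000000200000002 3 3) 0 0 (step_sound _ 33 [(rh71222050f2c63a3a.shift 1 0), (rhe072fffdd2fccf38.shift 0 1)] (by decide +kernel))
noncomputable def rhbe707112c53dab40 : CRef := CRef.mk (Pat.mk 0x500000007000000020000000000000000 0x1000000010000000700000007000000020000000200000002 3 3) 0 0 (step_sound _ 33 [(rh71222050f2c63a3a.shift 1 0), (rhc89253ff58c66167.shift 0 1)] (by decide +kernel))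
noncomputable def rhb24a71b8e8f17f47 : CRef := CRef.mk (Pat.mk 0x2000000060000000e000000000000000000000000 0x6000000060000001e000000030000000300000002 3 5) 0 0 (step_sound _ 65 [(rh157b220518f94713.shift 0 1), (rhea7a1800d6f053bd.shift 1 0)] (by decide +kernel))
noncomputable def rh0e7b8fbdca9cff95 : CRef := CRef.mk (Pat.mk 0x4000000340000001c0000000800000000 0x2000000060000003c0000001c0000000f00000002 3 6) 0 0 (step_sound _ 34 [(rh5e05da03898e7023.shift 1 1), rhf5094ad2a427d4d3] (by decide +kernel))
noncomputable def rhab292f7f30e6ad1f : CRef := CRef.mk (Pat.mk 0x500000007000000020000000000000000 0x10000000700000007000000030000000200000002 3 3) 0 0 (step_sound _ 33 [(rh71222050f2c63a3a.shift 1 0), (rha3df16ea9c8576c8.shift 0 1)] (by decide +kernel))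
noncomputable def rha768b229dc254047 : CRef := CRef.mk (Pat.mk 0x10000000500000007000000000000000000000000 0x1000000010000000500000007000000030000000200000002 3 3) 0 0 (step_sound _ 65 [(rh2145e1d24b96a57e.shift 0 2), rh45fa90edadfa0251] (by decide +kernel))
noncomputable def rh6e79e3444505d7e6 : CRef := CRef.mk (Pat.mk 0x200000006000000120000000200000000 0x200000002000000060000001e0000000700000005 3 5) 0 0 (step_sound _ 66 [(rh55a1f6c57a317ce6.shift 1 0), rh84f01cf2134210c0] (by decide +kernel))
noncomputable def rh187ba29792d1fcb7 : CRef := CRef.mk (Pat.mk 0x1e0000000200000003 0x1f0000003e00000003 3 6) 0 0 (step_sound _ 36 [rhd0cda9340b872954, (rhe25b0a99195a5d59.shift 1 1)] (by decide +kernel))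
noncomputable def rh63c89f625da04790 : CRef := CRef.mk (Pat.mk 0x1000000010000000080000003c00000000 0x1000000010000000380000003f00000020 3 6) 0 0 (step_sound _ 68 [(rh55afc6a59410cf00.shift 4 0), (rhab2ad169e49f9c5e.shift 0 1)] (by decide +kernel))
noncomputable def rh736ad3523bdf45b7 : CRef := CRef.mk (Pat.mk 0x200000002000000020000001e00000000 0x2000000020000003a0000001f00000001 3 6) 0 0 (step_sound _ 32 [rh932754581e0f4330, (rh9890f9d77740bbed.shift 0 1)] (by decide +kernel))
noncomputable def rhbccd7d98031f7fb9 : CRef := CRef.mk (Pat.mk 0x20000000a000000000000000f00000000 0xa0000000a0000001a0000000f00000004 3 5) 0 0 (step_sound _ 2 [rh5ebae181afaa248a, (rhff0f29cb645b05f7.shift 1 0)] (by decide +kernel))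
noncomputable def rh0cf87a452aebd5be : CRef := CRef.mk (Pat.mk 0x600000006000000020000000e00000000 0x600000006000000060000000f00000019 3 5) 0 0 (step_sound _ 3 [rh9f67957f47428996, (rhff0f29cb645b05f7.shift 2 0)] (by decide +kernel))
noncomputable def rh6273c82fcf2ee2f3 : CRef := CRef.mk (Pat.mk 0x40000000c000000180000000e0000000000000000 0x40000000c0000001c0000001e0000003300000010 3 6) 0 0 (step_sound _ 68 [(rh316d0c7c5292e4bb.shift 0 1), (rh78974448101547fe.shift 1 0)] (by decide +kernel))
noncomputable def rhb563636add13c44e : CRef := CRef.mk (Pat.mk 0xb000000080000000800000008 0x1c0000001f000000080000000800000008 3 5) 0 0 (step_sound _ 98 [(rh50fbb5868c909700.shift 2 0), rh763788a68c67bc0c] (by decide +kernel))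
noncomputable def rh1aca9ac1f25d6127 : CRef := CRef.mk (Pat.mk 0x1000000010000000b0000000f000000080000000000000000 0x2000000030000000b0000000b0000000f0000000c0000000400000004 3 4) 0 0 (step_sound _ 66 [(rh1e309b005ffa1b36.shift 2 0), (rh9511402a8c1709c4.shift 0 2)] (by decide +kernel))
noncomputable def rh2bdebcdaacf9cb3d : CRef := CRef.mk (Pat.mk 0xd0000000c0000000c 0xf0000003c0000000f 3 6) 0 0 (step_sound _ 36 [rh4dc133ee0ba1420a, (rhab22b5b56e7b3243.shift 0 1)] (by decide +kernel))
noncomputable def rhfba219b2ab1310a3 : CRef := CRef.mk (Pat.mk 0x8000000180000001800000000 0x80000000800000008000000380000001f00000004 3 6) 0 0 (step_sound _ 34 [(rh37d9ceebb86d75d1.shift 2 0), (rhab2ad169e49f9c5e.shift 0 1)] (by decide +kernel))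
noncomputable def rh356351e5e00d71eb : CRef := CRef.mk (Pat.mk 0x1000000000000000080000003c00000000 0x1000000010000000380000003f00000060 3 7) 0 0 (step_sound _ 68 [(rh3098af7943687178.shift 2 0), (rhab2ad169e49f9c5e.shift 0 1)] (by decide +kernel))
noncomputable def rh0a92ced11df7295e : CRef := CRef.mk (Pat.mk 0x1000000010000000000000000f00000000 0x1000000010000000180000001f00000018 3 5) 0 0 (step_sound _ 3 [rh8f6129e0c64f6eb5, rhe25b0a99195a5d59] (by decide +kernel))
noncomputable def rh7df5ace0d109a2c8 : CRef := CRef.mk (Pat.mk 0x1a000000080000000b00000009 0x70000001e0000000a0000000b00000009 3 5) 0 0 (step_sound _ 98 [rh2e3fb1ea2d7f947f, (rh50fbb5868c909700.shift 2 0)] (by decide +kernel))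
noncomputable def rh56f53cc8b1f93b99 : CRef := CRef.mk (Pat.mk 0x1a000000080000000800000008 0x40000001f000000380000000800000008 3 6) 0 0 (step_sound _ 98 [(rh50fbb5868c909700.shift 2 0), (rha03f6e28ea70fc7d.shift 0 2)] (by decide +kernel))
noncomputable def rh588c730e4dc12811 : CRef := CRef.mk (Pat.mk 0x20000000100000001000000010000000100000000 0x2000000030000000100000001000000030000000300000002 3 2) 0 0 (step_sound _ 33 [(rh47ab86d89ce68610.shift 0 1), rh55afc6a59410cf00] (by decide +kernel))
noncomputable def rha3a36ad8dfeefa50 : CRef := CRef.mk (Pat.mk 0x80000000b000000080000000800000000 0x8000000080000000f000000180000001800000010 3 5) 0 0 (step_sound _ 36 [(rh03a149a2400810ba.shift 0 1), (rh55afc6a59410cf00.shift 3 0)] (by decide +kernel))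
noncomputable def rh8f81cb0b6fd9ca05 : CRef := CRef.mk (Pat.mk 0xb000000080000000800000008000000080000000000000000 0xf0000001800000018000000080000000c0000000c00000004 3 5) 0 0 (step_sound _ 35 [(rh1e7e8ea1d611c3f5.shift 0 1), (rh7928877f9bf74a91.shift 2 0)] (by decide +kernel))
noncomputable def rhf1aa495fbd784339 : CRef := CRef.mk (Pat.mk 0x9000000090000000b000000080000000000000000 0x90000000b0000000b0000001e0000001200000002 3 5) 0 0 (step_sound _ 65 [rh08edf065357d68e5, (rh8ffd6c73cfd2ea71.shift 0 1)] (by decide +kernel))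
noncomputable def rh472c3da4898be877 : CRef := CRef.mk (Pat.mk 0x9000000090000000b000000080000000000000000 0x90000000b0000000b0000001e0000000600000002 3 5) 0 0 (step_sound _ 65 [rh08edf065357d68e5, (rh33b92f427999e8d7.shift 0 1)] (by decide +kernel))
noncomputable def rh3fd938282bb2e1e8 : CRef := CRef.mk (Pat.mk 0xb000000080000000800000008000000080000000000000000 0xf000000180000001800000008000000180000001800000010 3 5) 0 0 (step_sound _ 35 [(rh1e7e8ea1d611c3f5.shift 0 1), (rhd29a1fb688eae70f.shift 3 0)] (by decide +kernel))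
noncomputable def rh0210b65b723b6dc8 : CRef := CRef.mk (Pat.mk 0x800000008000000080000000900000010 0x800000008000000180000000f0000001c 3 5) 0 0 (step_sound _ 34 [(rh932754581e0f4330.shift 2 0), rhb7cad75476b4fa97] (by decide +kernel))
noncomputable def rh4bf79d8885cef4a2 : CRef := CRef.mk (Pat.mk 0x1e0000004a0000000a00000000 0x30000001e0000007a0000000f00000004 3 7) 0 0 (step_sound _ 34 [(rh69ace3d0cebd89c5.shift 0 1), rhf8e4078eeb954a28] (by decide +kernel))
noncomputable def rha8098973813043ea : CRef := CRef.mk (Pat.mk 0x1e00000002000000020000000200000000 0x30000001e00000002000000030000000300000001 3 5) 0 0 (step_sound _ 32 [rh932754581e0f4330, (rhf5e2c347e50c6617.shift 0 1)] (by decide +kernel))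
noncomputable def rh5dbf98ab059c5a22 : CRef := CRef.mk (Pat.mk 0x600000002000000040000000e 0x40000000600000002000000070000003e 3 6) 0 0 (step_sound _ 33 [(rh2f68792b6b779e96.shift 1 0), rh79b3c29022acbdf3] (by decide +kernel))
noncomputable def rhfb3bc5848474ac0d : CRef := CRef.mk (Pat.mk 0xa0000000b0000000200000004 0xa0000000a0000000b0000001e00000004 3 5) 0 0 (step_sound _ 34 [(rh2145e1d24b96a57e.shift 1 0), rh7b6afa71f9aeb7f3] (by decide +kernel))
noncomputable def rh9840497ad487be8d : CRef := CRef.mk (Pat.mk 0x2000000060000001a0000000800000000 0x400000006000000060000001e0000000f00000002 3 5) 0 0 (step_sound _ 33 [(rha707fb719e87fe6e.shift 1 0), (rhda02c4ce0b224328.shift 0 1)] (by decide +kernel))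
noncomputable def rh318cdda39fd482c1 : CRef := CRef.mk (Pat.mk 0x50000000f000000010000000000000000 0x1000000050000001f000000030000000200000002 3 5) 0 0 (step_sound _ 65 [(rh18965a982d73c794.shift 0 2), rh3ebc98c19791ad58] (by decide +kernel))
noncomputable def rh25b3b9713b65f362 : CRef := CRef.mk (Pat.mk 0x20000000300000003000000000000000200000000 0x20000000300000003000000060000000600000006 3 3) 0 0 (step_sound _ 65 [rh7b1f1fb55310c477, (rhd29a1fb688eae70f.shift 1 0)] (by decide +kernel))
noncomputable def rh73af02fed8a1a372 : CRef := CRef.mk (Pat.mk 0x600000006000000000000000800000008 0x70000003e000000080000000800000008 3 6) 0 0 (step_sound _ 99 [(rh2613c889e411427e.shift 2 0), (rh79b3c29022acbdf3.shift 0 3)] (by decide +kernel))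
noncomputable def rh24245ef5f19ae4cb : CRef := CRef.mk (Pat.mk 0x600000006000000000000000f00000000 0x70000003e000000180000000f00000008 3 6) 0 0 (step_sound _ 99 [rh215ee3f3abaea373, (rh79b3c29022acbdf3.shift 0 3)] (by decide +kernel))
noncomputable def rh46ec3e016fcab74a : CRef := CRef.mk (Pat.mk 0x600000006000000000000000f00000000 0x70000003e000000080000000f00000018 3 6) 0 0 (step_sound _ 99 [(rh79b3c29022acbdf3.shift 0 3), rh82687729b6ed8eda] (by decide +kernel))
noncomputable def rh2c1baeadcd4b32f5 : CRef := CRef.mk (Pat.mk 0x3c00000000 0x700000003e00000007 3 7) 0 0 (step_sound _ 33 [(rh9890f9d77740bbed.shift 1 1), rheae1728ff4a56756] (by decide +kernel))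
noncomputable def rh83a66e7255dec210 : CRef := CRef.mk (Pat.mk 0x1600000006000000000000001e00000000 0x170000003e000000300000001e00000008 3 6) 0 0 (step_sound _ 100 [(rhd5b731d5aad98dec.shift 1 0), (rhfd0f316c42bbba52.shift 0 3)] (by decide +kernel))
noncomputable def rhf56dc6c929980f59 : CRef := CRef.mk (Pat.mk 0x180000003c00000000 0x180000003f00000070 3 7) 0 0 (step_sound _ 5 [rh8d917b916e5f3510, (rhe25b0a99195a5d59.shift 2 0)] (by decide +kernel))
noncomputable def rh557b120f072744ca : CRef := CRef.mk (Pat.mk 0x180000000c 0x3c0000001f 3 6) 0 0 (step_sound _ 1 [rh53b3c253cb0c65f4, (rhafdf94f2acdc0ed4.shift 1 0)] (by decide +kernel))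
noncomputable def rhb31f6f32a56ccabd : CRef := CRef.mk (Pat.mk 0x60000000f 0x3e0000003f 3 6) 0 0 (step_sound _ 4 [rh9890f9d77740bbed, (rhf48373e13d2bc128.shift 1 0)] (by decide +kernel))
noncomputable def rhc498cab64f6f6c1e : CRef := CRef.mk (Pat.mk 0xa000000020000000f000000000000000000000000 0x80000000a0000001e0000000f000000040000000400000004 3 5) 0 0 (step_sound _ 66 [(rh08edf065357d68e5.shift 1 0), (rh5ebae181afaa248a.shift 0 2)] (by decide +kernel))
noncomputable def rh7137c5f4ed615661 : CRef := CRef.mk (Pat.mk 0x10000000000000001e00000000 0x1000000010000000300000001f00000038 3 6) 0 0 (step_sound _ 3 [(rh5ebae181afaa248a.shift 1 0), rha03f6e28ea70fc7d] (by decide +kernel))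
noncomputable def rhab8fac7c98d4cbba : CRef := CRef.mk (Pat.mk 0x4000000000000001e00000000 0x400000004000000070000003e00000003 3 6) 0 0 (step_sound _ 66 [rh1ae4704ae86cb9a8, (rhe3060b190bc0bc78.shift 0 1)] (by decide +kernel))
noncomputable def rhf81f683ce2bac988 : CRef := CRef.mk (Pat.mk 0xe000000020000000300000000 0x1000000030000001e000000020000000300000001 3 5) 0 0 (step_sound _ 129 [(rh2e8814637c3f6d46.shift 0 1), rh932754581e0f4330] (by decide +kernel))
noncomputable def rh979411b26c167c02 : CRef := CRef.mk (Pat.mk 0x4000000040000000e000000100000000000000000 0x40000000c0000000f000000180000000800000008 3 5) 0 0 (step_sound _ 67 [(rh08edf065357d68e5.shift 2 0), (rhb739f4f82bb681b4.shift 0 2)] (by decide +kernel))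
noncomputable def rh58ca6c8485b5d441 : CRef := CRef.mk (Pat.mk 0x1000000010000000160000001000000000 0x1000000010000000100000001f0000001800000008 3 5) 0 0 (step_sound _ 35 [(rh932754581e0f4330.shift 3 0), (rh96b908e77ed2e799.shift 0 1)] (by decide +kernel))
noncomputable def rhe868cd39a7646675 : CRef := CRef.mk (Pat.mk 0x1000000010000000b000000080000000c0000001000000000 0x1000000030000000b0000000a0000000f0000001a00000010 3 5) 0 0 (step_sound _ 65 [rh06dad6edb7ce8d9c, (rh3b5346b2e316d790.shift 0 1)] (by decide +kernel))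
noncomputable def rh841ce78b9b40bcf3 : CRef := CRef.mk (Pat.mk 0xd000000090000000800000008 0x100000001f0000001b0000000800000008 3 5) 0 0 (step_sound _ 97 [rhd9892b94547901dd, (rhe25b0a99195a5d59.shift 0 2)] (by decide +kernel))
noncomputable def rhb01ac4982a11ea27 : CRef := CRef.mk (Pat.mk 0x20000000200000002000000010000000000000000 0x2000000020000000200000003000000030000000100000001 3 2) 0 0 (step_sound _ 32 [rhe383b718e2292d99, (rheea67dfebd0f8008.shift 0 1)] (by decide +kernel))
noncomputable def rha6d57089da8b640d : CRef := CRef.mk (Pat.mk 0x20000000200000006000000100000001800000018 0x20000000600000006000000340000001f0000001c 3 6) 0 0 (step_sound _ 34 [rh34517e326ddb5b25, (rh3b5346b2e316d790.shift 1 0)] (by decide +kernel))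
noncomputable def rhe97efe51a389792b : CRef := CRef.mk (Pat.mk 0x10000000300000000000000080000001c 0x100000003000000020000003b0000001f 3 6) 0 0 (step_sound _ 1 [rhb1021bae9f64d06c, rhec46bd5500c722c9] (by decide +kernel))
noncomputable def rh6198eb1ed35c9199 : CRef := CRef.mk (Pat.mk 0x10000000100000003000000000000000c0000000c 0x10000000300000003000000020000000f0000003e 3 6) 0 0 (step_sound _ 33 [rh3b5346b2e316d790, rh6292bd8784ece55f] (by decide +kernel))
noncomputable def rh61caf197a7d52df1 : CRef := CRef.mk (Pat.mk 0x20000000300000002000000020000000400000000 0x200000002000000020000000300000003000000030000000600000006 3 3) 0 0 (step_sound _ 96 [(rh503dd4575245365b.shift 0 2), rh7bed6280d5711866] (by decide +kernel))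
noncomputable def rh87237765692068d6 : CRef := CRef.mk (Pat.mk 0x100000001000000030000000c0000000000000000 0x100000003000000030000001e0000000200000002 3 5) 0 0 (step_sound _ 65 [rh08edf065357d68e5, (rhf48373e13d2bc128.shift 0 2)] (by decide +kernel))
noncomputable def rh56d9f43f4d9cb1ea : CRef := CRef.mk (Pat.mk 0x30000000a0000000800000008000000080000000000000000 0x30000001e0000000c000000080000000c0000000c00000004 3 5) 0 0 (step_sound _ 35 [(rh2087805db43a2800.shift 0 1), (rh7928877f9bf74a91.shift 2 0)] (by decide +kernel))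
noncomputable def rhcfdaa9f809e0b477 : CRef := CRef.mk (Pat.mk 0x100000000800000008000000080000000a00000000 0x10000000180000000800000008000000180000001f00000004 3 5) 0 0 (step_sound _ 68 [rh3cf2764919f34f47, (rh55c8fae470e8430a.shift 3 1)] (by decide +kernel))
noncomputable def rha0198dc55831a65f : CRef := CRef.mk (Pat.mk 0x80000000e 0x3c0000001f 3 6) 0 0 (step_sound _ 36 [rh53b3c253cb0c65f4, (rhafdf94f2acdc0ed4.shift 1 0)] (by decide +kernel))
noncomputable def rh44981a1c260bcd63 : CRef := CRef.mk (Pat.mk 0x100000018000000080000000800000004 0x40000000f00000018000000080000000c00000004 3 5) 0 0 (step_sound _ 131 [(rh79877ebd3ef475dd.shift 2 0), (rhaeb617a54744e672.shift 0 1)] (by decide +kernel))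
noncomputable def rh30559b490f5d9b7a : CRef := CRef.mk (Pat.mk 0x10000000100000003000000180000000000000000 0x100000003000000030000001e0000000200000002 3 5) 0 0 (step_sound _ 65 [rh08edf065357d68e5, (rh5419adcd928dba20.shift 0 2)] (by decide +kernel))
noncomputable def rh0a33887607d4a541 : CRef := CRef.mk (Pat.mk 0x20000000600000002000000020000000100000000 0x200000002000000020000000600000006000000060000000300000003 3 3) 0 0 (step_sound _ 98 [(rh3e595262c1b737ad.shift 1 2), rh5769ed4fe2fe4c14] (by decide +kernel))
noncomputable def rh18d5ed7e20230762 : CRef := CRef.mk (Pat.mk 0x30000000a0000000800000008000000080000000000000000 0x30000001e0000001800000008000000180000001800000010 3 5) 0 0 (step_sound _ 35 [(rhd29a1fb688eae70f.shift 3 0), (rhf17963897433b90f.shift 0 1)] (by decide +kernel))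
noncomputable def rh8bebf6a287438797 : CRef := CRef.mk (Pat.mk 0x100000018000000080000000800000010 0x40000000f00000018000000080000001800000010 3 5) 0 0 (step_sound _ 131 [(rhaeb617a54744e672.shift 0 1), (rhd3458b32566d63f7.shift 3 0)] (by decide +kernel))
noncomputable def rhf14f628ad52a175a : CRef := CRef.mk (Pat.mk 0x30000000a0000000800000008000000080000000000000000 0x30000001e0000000c00000008000000180000001800000010 3 5) 0 0 (step_sound _ 35 [(rh2087805db43a2800.shift 0 1), (rhd29a1fb688eae70f.shift 3 0)] (by decide +kernel))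
noncomputable def rh5537815e93ad0a8c : CRef := CRef.mk (Pat.mk 0x30000000800000008000000080000000800000008 0x30000001e0000001c000000080000000800000008 3 5) 0 0 (step_sound _ 130 [rh8eecc252d61248c8, (rhffd04209dc8ea796.shift 2 0)] (by decide +kernel))
noncomputable def rh87ec52b0a4a7ddb0 : CRef := CRef.mk (Pat.mk 0xe000000080000000400000004 0x180000000f000000180000000c00000004 3 5) 0 0 (step_sound _ 96 [rh76470ef0e61bbc2e, (rhe25b0a99195a5d59.shift 0 2)] (by decide +kernel))
noncomputable def rh3a0beb41d09f0827 : CRef := CRef.mk (Pat.mk 0x18000000100000000a00000018 0x800000018000000300000001f00000018 3 6) 0 0 (step_sound _ 34 [(rh6ec5dd38a40999e4.shift 1 0), rhb739f4f82bb681b4] (by decide +kernel))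
noncomputable def rh2eb6cac0fecf3e9c : CRef := CRef.mk (Pat.mk 0x1e00000000 0x70000003e00000070 3 7) 0 0 (step_sound _ 37 [(rh4ad5fc38f1b69f65.shift 1 0), (rhd5eb272e07a4e288.shift 0 1)] (by decide +kernel))
noncomputable def rhee7ff23a5259ed94 : CRef := CRef.mk (Pat.mk 0x1e000000000000000300000000 0x30000001e000000030000000300000001 3 5) 0 0 (step_sound _ 65 [rh16b3601545764ddf, (rheb0810cc63b001d8.shift 0 2)] (by decide +kernel))
noncomputable def rh589afc2769e205dd : CRef := CRef.mk (Pat.mk 0x300000000800000038 0x300000001f00000078 3 7) 0 0 (step_sound _ 34 [rh963947c056dfa370, (rhf48373e13d2bc128.shift 2 0)] (by decide +kernel))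
noncomputable def rhc26bf37127c9d11d : CRef := CRef.mk (Pat.mk 0x3c000000000000000e00000010 0x280000003c000000170000001e00000010 3 6) 0 0 (step_sound _ 36 [(rh5a4df29f20c07a62.shift 3 0), (rhe56e39de7b6466f5.shift 0 1)] (by decide +kernel))
noncomputable def rh12bccaf83f741cb5 : CRef := CRef.mk (Pat.mk 0x3c000000000000000e00000010 0x80000003c000000370000001e00000010 3 6) 0 0 (step_sound _ 36 [(rhab0acc3af159c362.shift 1 0), (rhe56e39de7b6466f5.shift 0 1)] (by decide +kernel))
noncomputable def rh8dda00fda75f913e : CRef := CRef.mk (Pat.mk 0xf00000001000000010000000000000000 0x20000001f00000003000000010000000100000001 3 5) 0 0 (step_sound _ 32 [rh155fa7b85b00c3f4, (rh2f68792b6b779e96.shift 0 1)] (by decide +kernel))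
noncomputable def rha7a9b166934c570d : CRef := CRef.mk (Pat.mk 0x1e000000020000000400000000 0x30000001e000000060000000600000004 3 5) 0 0 (step_sound _ 129 [(rh3244c3cc8379b070.shift 0 3), (rh478c4cadbcd4e066.shift 1 0)] (by decide +kernel))
noncomputable def rh33b6a8266a95d2d6 : CRef := CRef.mk (Pat.mk 0xc0000000a0000000800000008 0x100000001e0000000f0000000800000008 3 5) 0 0 (step_sound _ 100 [(rh076be03eb7063320.shift 0 2), (rh2f68792b6b779e96.shift 3 0)] (by decide +kernel))
noncomputable def rh805a9f3a92da1f3a : CRef := CRef.mk (Pat.mk 0x20000000a000000020000000e00000008 0x5000000070000001e000000060000000e00000008 3 5) 0 0 (step_sound _ 98 [(rh248842449819c4f2.shift 1 0), (rh2e8814637c3f6d46.shift 0 1)] (by decide +kernel))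
noncomputable def rhbd16ea6c0f465530 : CRef := CRef.mk (Pat.mk 0x700000001000000060000000400000000 0x60000000700000003000000060000000600000002 3 3) 0 0 (step_sound _ 97 [(rh2145e1d24b96a57e.shift 1 1), rhb0c1e7919d9be92d] (by decide +kernel))
noncomputable def rh7f36f639160ea2c8 : CRef := CRef.mk (Pat.mk 0x7000000050000000100000000 0x2000000020000000300000007000000050000000100000001 3 3) 0 0 (step_sound _ 129 [rh71222050f2c63a3a, (rhfa7d9ef1a865136e.shift 0 1)] (by decide +kernel))
noncomputable def rhf8a7b81bbeef57cd : CRef := CRef.mk (Pat.mk 0x50000000500000001000000020000000000000000 0x1000000050000000700000003000000020000000200000002 3 3) 0 0 (step_sound _ 97 [(rh2145e1d24b96a57e.shift 0 2), rhaf343399eb22e721] (by decide +kernel))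
noncomputable def rh2d2119f1543fedf0 : CRef := CRef.mk (Pat.mk 0x10000000d000000090000000a 0x1000000010000000f0000001b0000001f 3 5) 0 0 (step_sound _ 2 [rhaece115bf20873e0, rhc9ca25976740a074] (by decide +kernel))
noncomputable def rh8cb2eb9576ef3de0 : CRef := CRef.mk (Pat.mk 0x10000000d000000090000000a00000000 0x10000000f000000190000000f00000002 3 5) 0 0 (step_sound _ 32 [rh55afc6a59410cf00, (rh6a9a2180bc6fbf47.shift 0 1)] (by decide +kernel))
noncomputable def rh8b3ea03c23fe5ab7 : CRef := CRef.mk (Pat.mk 0x50000000500000001000000020000000000000000 0x50000000700000003000000030000000200000002 3 3) 0 0 (step_sound _ 33 [(rhbe0e43a3bc50a43f.shift 0 1), rhe22762f576840bfa] (by decide +kernel))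
noncomputable def rh17ebc3e771625541 : CRef := CRef.mk (Pat.mk 0x10000000100000003000000010000000000000000 0x30000000300000003000000030000000300000003 3 2) 0 0 (step_sound _ 32 [rha707fb719e87fe6e, rhd29a1fb688eae70f] (by decide +kernel))
noncomputable def rh1a91935e2a6049d7 : CRef := CRef.mk (Pat.mk 0x20000000a00000006000000020000000000000000 0x1000000070000001e00000006000000020000000200000002 3 5) 0 0 (step_sound _ 130 [(rh2e8814637c3f6d46.shift 0 2), (rhea7a1800d6f053bd.shift 1 0)] (by decide +kernel))
noncomputable def rh9b6e9f640c4e03df : CRef := CRef.mk (Pat.mk 0x50000000f0000000900000002 0x400000005000000070000000f0000000b00000002 3 4) 0 0 (step_sound _ 33 [rh2145e1d24b96a57e, (rhfa7d9ef1a865136e.shift 1 0)] (by decide +kernel))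
noncomputable def rh378e43e411464d2b : CRef := CRef.mk (Pat.mk 0x70000000f000000010000000100000000 0x400000004000000070000000f0000001b0000000300000002 3 5) 0 0 (step_sound _ 162 [rh84704cbf4ecfb89e, (rhba04d77b039f69d9.shift 0 2)] (by decide +kernel))
noncomputable def rhe16111888c098d6c : CRef := CRef.mk (Pat.mk 0x600000014000000040000000400000000 0x80000000f0000001c000000040000000400000004 3 5) 0 0 (step_sound _ 131 [(rh2f68792b6b779e96.shift 2 1), rhd88fe279a223a913] (by decide +kernel))
noncomputable def rhc0301b400ca2a736 : CRef := CRef.mk (Pat.mk 0x1000000030000000300000001 0x30000000300000003000000030000000300000001 3 2) 0 0 (step_sound _ 128 [(rh2145e1d24b96a57e.shift 0 1), rh44f453b84f013105] (by decide +kernel))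
noncomputable def rh8a07ce527407702e : CRef := CRef.mk (Pat.mk 0x20000000a00000006000000020000000000000000 0x70000003e00000006000000020000000200000002 3 6) 0 0 (step_sound _ 130 [(rhb762f327c85d41a0.shift 0 3), (rhea7a1800d6f053bd.shift 1 0)] (by decide +kernel))
noncomputable def rhc9bca0ac38057db5 : CRef := CRef.mk (Pat.mk 0x1000000020000000200000006000000020000000000000000 0x300000003000000060000000600000006000000020000000200000002 3 3) 0 0 (step_sound _ 130 [(rhea7a1800d6f053bd.shift 1 0), (rhf627eb01e9e8db9a.shift 0 3)] (by decide +kernel))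
noncomputable def rh4991627462617fa0 : CRef := CRef.mk (Pat.mk 0x1c000000180000003000000000 0x300000001f000000180000003000000020 3 6) 0 0 (step_sound _ 97 [(rh7e2967714be94ca8.shift 1 0), (rhb739f4f82bb681b4.shift 0 2)] (by decide +kernel))
noncomputable def rhe60c387bdae8ab2b : CRef := CRef.mk (Pat.mk 0x7000000070000000c00000000 0x80000001c0000001f000000070000000c00000008 3 5) 0 0 (step_sound _ 131 [(rh55c8fae470e8430a.shift 2 0), (rh8284118167888cf9.shift 0 2)] (by decide +kernel))
noncomputable def rh6656f69a80793b12 : CRef := CRef.mk (Pat.mk 0x1c0000001c 0x70000007f0000001c 3 7) 0 0 (step_sound _ 65 [rh22a65d20d3172694, (rh8abea2a7b1fd427a.shift 1 0)] (by decide +kernel))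
noncomputable def rhf5f86febe187cbf8 : CRef := CRef.mk (Pat.mk 0xa000000020000000a0000001a00000000 0x140000001e0000000b0000000a0000001a00000010 3 5) 0 0 (step_sound _ 132 [(rh0102e0f3a8fa944d.shift 0 1), (rh85e0f5cc78e9cbe0.shift 3 0)] (by decide +kernel))
noncomputable def rh0a8ab86593a646ca : CRef := CRef.mk (Pat.mk 0xa000000020000001a0000001a 0x1c0000001e000000130000001a0000001a 3 5) 0 0 (step_sound _ 100 [rh0102e0f3a8fa944d, (rh4c61a8d65f05c464.shift 3 0)] (by decide +kernel))
noncomputable def rh3202a075762861dd : CRef := CRef.mk (Pat.mk 0x20000000a000000020000000200000002 0x70000001e000000030000000200000002 3 5) 0 0 (step_sound _ 98 [(rh2f68792b6b779e96.shift 1 0), (rhd9106766b9ff53c0.shift 0 2)] (by decide +kernel))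
noncomputable def rh44b5806cb17fd0fa : CRef := CRef.mk (Pat.mk 0xa000000020000000a0000001a00000000 0x80000000a0000000a0000001e0000001b00000011 3 5) 0 0 (step_sound _ 68 [rh5710f30ba40ee3ec, (rhda6cc5da102e1723.shift 3 0)] (by decide +kernel))
noncomputable def rh9fdcb09dfa6419d9 : CRef := CRef.mk (Pat.mk 0x2000000060000001e 0x30000003e0000001f 3 6) 0 0 (step_sound _ 36 [rh11f1db28d72ca2e7, (rh33e738c4ed385b9f.shift 1 0)] (by decide +kernel))
noncomputable def rhce35c839632b1f38 : CRef := CRef.mk (Pat.mk 0x100000003000000030000000600000000 0x2000000020000000300000003000000030000000700000004 3 3) 0 0 (step_sound _ 129 [(rh55afc6a59410cf00.shift 1 0), (rh84d1c02a8954c6a8.shift 0 1)] (by decide +kernel))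
noncomputable def rhcfbba3f5affe15b2 : CRef := CRef.mk (Pat.mk 0x800000003000000060000000400000004 0x8000000080000000b0000001e0000000c00000004 3 5) 0 0 (step_sound _ 67 [(rhb009278fdd334770.shift 2 0), (rhf48373e13d2bc128.shift 0 2)] (by decide +kernel))
noncomputable def rh372b992859050e31 : CRef := CRef.mk (Pat.mk 0x400000000000000070000000600000000 0x40000000400000004000000070000001e00000008 3 5) 0 0 (step_sound _ 35 [(rh5105f69098a4a2c2.shift 1 0), (rhf48373e13d2bc128.shift 0 1)] (by decide +kernel))
noncomputable def rh86187105f3711ca4 : CRef := CRef.mk (Pat.mk 0x1e000000000000000400000000 0xa0000003e000000070000000400000004 3 6) 0 0 (step_sound _ 66 [(rh261f868a429ae0e3.shift 1 0), (rhaf9f2efc81a8312b.shift 0 2)] (by decide +kernel))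
noncomputable def rhe67dc69a65b12c9c : CRef := CRef.mk (Pat.mk 0x800000018000000180000000c00000000 0x800000018000000380000001f00000010 3 6) 0 0 (step_sound _ 33 [(rh53b3c253cb0c65f4.shift 0 1), (rhe811b5698af64d4c.shift 1 0)] (by decide +kernel))
noncomputable def rh6f3dc38b3a3a4dac : CRef := CRef.mk (Pat.mk 0x40000001e000000020000000000000000 0x4000000070000001e000000020000000200000002 3 5) 0 0 (step_sound _ 33 [(rh71222050f2c63a3a.shift 1 0), (rh78275b8db2327294.shift 0 1)] (by decide +kernel))
noncomputable def rh5e3a098106d286e9 : CRef := CRef.mk (Pat.mk 0x30000000000000002000000020000000200000000 0x1000000030000000200000002000000060000000600000004 3 3) 0 0 (step_sound _ 129 [(rh50fbb5868c909700.shift 0 2), (rhd29a1fb688eae70f.shift 1 0)] (by decide +kernel))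
noncomputable def rh81777937c9fee079 : CRef := CRef.mk (Pat.mk 0xe0000000e0000000800000008 0x200000002000000130000001e0000000e0000000c00000008 3 5) 0 0 (step_sound _ 129 [(rh3e595262c1b737ad.shift 1 1), rh4f7106e6f46c2542] (by decide +kernel))
noncomputable def rh7b90c2a6748da57b : CRef := CRef.mk (Pat.mk 0x3000000060000000e 0x30000003e0000003e 3 6) 0 0 (step_sound _ 4 [rh132698b7c3848060, (rhf48373e13d2bc128.shift 1 0)] (by decide +kernel))
noncomputable def rh8fb76a6ec2a97fe2 : CRef := CRef.mk (Pat.mk 0x1e0000001a0000000200000000 0x30000001e0000001e0000000300000001 3 5) 0 0 (step_sound _ 32 [rh16b3601545764ddf, (rhb2a0b9ccfb5cecd5.shift 0 1)] (by decide +kernel))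
noncomputable def rh45e2d5b19bce43a1 : CRef := CRef.mk (Pat.mk 0x1e0000000a0000000a0000000000000000 0x30000001e0000000a0000000e0000000e00000004 3 5) 0 0 (step_sound _ 34 [(rh54e2670cb103b129.shift 0 1), (rhe38ad39d05c44887.shift 1 0)] (by decide +kernel))
noncomputable def rhaedc8de5fbcd0332 : CRef := CRef.mk (Pat.mk 0xe000000080000000c0000000c 0x130000001e0000000c0000000c0000000c 3 5) 0 0 (step_sound _ 100 [(rh2f68792b6b779e96.shift 3 0), rhea1977e228a6d74a] (by decide +kernel))
noncomputable def rhd88389edd11f7737 : CRef := CRef.mk (Pat.mk 0xe000000080000000e 0xf000000780000001e 3 7) 0 0 (step_sound _ 36 [(rh85ab58ad6384baf3.shift 1 0), (rhb739f4f82bb681b4.shift 0 1)] (by decide +kernel))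
noncomputable def rh7263bdfa48a70307 : CRef := CRef.mk (Pat.mk 0x800000000000000000000000f00000010 0x800000008000000180000001f00000030 3 6) 0 0 (step_sound _ 36 [rh79af9e9c48d82ab5, (rhe25b0a99195a5d59.shift 1 0)] (by decide +kernel))
noncomputable def rh1b3d8ff1ee6df623 : CRef := CRef.mk (Pat.mk 0x4000000040000000e000000010000000000000000 0x4000000040000001e000000070000000200000002 3 5) 0 0 (step_sound _ 65 [(rh18965a982d73c794.shift 0 2), (rh42548283029e2a39.shift 1 0)] (by decide +kernel))
noncomputable def rh1e44bee8957b27af : CRef := CRef.mk (Pat.mk 0x400000000000000000000001e00000000 0x400000004000000070000003e00000003 3 6) 0 0 (step_sound _ 66 [rh981be6707e4d9088, (rhe3060b190bc0bc78.shift 0 1)] (by decide +kernel))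
noncomputable def rh926a427b4bfc36ca : CRef := CRef.mk (Pat.mk 0xa0000000c0000001c0000000000000000 0x2000000020000000e0000000f0000001c0000000400000004 3 5) 0 0 (step_sound _ 161 [(rh4f5da4dafb6dd81a.shift 1 0), (rhdbead8471b0a73a5.shift 0 2)] (by decide +kernel))
noncomputable def rh91d35bee2a77c554 : CRef := CRef.mk (Pat.mk 0xa0000001c000000040000000000000000 0x20000000f0000001c000000040000000400000004 3 5) 0 0 (step_sound _ 34 [(rh71222050f2c63a3a.shift 2 0), (rha358927870346b7d.shift 0 1)] (by decide +kernel))
noncomputable def rh875c97190b619476 : CRef := CRef.mk (Pat.mk 0x80000001c0000001c0000000400000000 0x20000000f0000001c0000003c0000000600000002 3 6) 0 0 (step_sound _ 130 [(rh157b220518f94713.shift 1 0), (rh277b01412deaec89.shift 0 1)] (by decide +kernel))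
noncomputable def rheb4502c709f440db : CRef := CRef.mk (Pat.mk 0x18000000100000001600000006 0x80000001800000010000000170000003e 3 6) 0 0 (step_sound _ 4 [(rh50fbb5868c909700.shift 3 0), rhfd0f316c42bbba52] (by decide +kernel))
noncomputable def rh7fb47808ecb71818 : CRef := CRef.mk (Pat.mk 0xc000000080000000b0000000200000000 0x40000000c000000080000000b0000001e00000004 3 5) 0 0 (step_sound _ 35 [rh33b92f427999e8d7, (rh50fbb5868c909700.shift 2 1)] (by decide +kernel))
noncomputable def rh6d2125986d3f5221 : CRef := CRef.mk (Pat.mk 0x200000002000000020000000200000000 0x50000000700000007000000020000000200000002 3 3) 0 0 (step_sound _ 1 [rh3ca48e2a6d60153d, (rh44f453b84f013105.shift 1 0)] (by decide +kernel))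
noncomputable def rh32c2123a4016d1a7 : CRef := CRef.mk (Pat.mk 0x20000000200000002000000020000000000000000 0x4000000060000000600000002000000030000000300000001 3 3) 0 0 (step_sound _ 33 [(rh44f453b84f013105.shift 1 1), rh7928877f9bf74a91] (by decide +kernel))
noncomputable def rh86bd88d8b6da2a4f : CRef := CRef.mk (Pat.mk 0x40000000e000000040000000000000000 0x4000000040000000f0000003c0000000800000008 3 6) 0 0 (step_sound _ 67 [(rh55a1f6c57a317ce6.shift 2 0), (rh6292bd8784ece55f.shift 0 2)] (by decide +kernel))
noncomputable def rh3c6e42263892b9bf : CRef := CRef.mk (Pat.mk 0x100000001e000000180000001000000000 0x100000001e0000001f0000003000000020 3 6) 0 0 (step_sound _ 37 [(rh55afc6a59410cf00.shift 4 0), (rhe41609ae3e02089b.shift 0 1)] (by decide +kernel))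
noncomputable def rh3f83a2c833fc763b : CRef := CRef.mk (Pat.mk 0x3000000020000000e0000000000000000 0x100000003000000020000001e0000000300000001 3 5) 0 0 (step_sound _ 33 [rh157b220518f94713, (rh50fbb5868c909700.shift 0 1)] (by decide +kernel))
noncomputable def rhfa2242deaca05a59 : CRef := CRef.mk (Pat.mk 0x300000006000000020000000000000000 0x10000000700000007000000020000000200000002 3 3) 0 0 (step_sound _ 33 [(rh50fbb5868c909700.shift 0 1), rhc705a4e0321a1bff] (by decide +kernel))
noncomputable def rhaadde2037a7a7ff0 : CRef := CRef.mk (Pat.mk 0x1000000000000000080000003c00000020 0x1000000010000000380000003f00000020 3 6) 0 0 (step_sound _ 68 [(rh6f1cbe15c631ee70.shift 4 0), (rhab2ad169e49f9c5e.shift 0 1)] (by decide +kernel))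
noncomputable def rh989f904136cf46d0 : CRef := CRef.mk (Pat.mk 0x20000001200000006000000020000000000000000 0x1000000070000001e00000006000000020000000200000002 3 5) 0 0 (step_sound _ 130 [(rh52dc0b448901c5de.shift 0 2), (rhea7a1800d6f053bd.shift 1 0)] (by decide +kernel))
noncomputable def rh0c64cb4eda0300f1 : CRef := CRef.mk (Pat.mk 0x800000009000000080000000800000008 0x100000001c0000000f000000080000000800000008 3 5) 0 0 (step_sound _ 98 [(rh50fbb5868c909700.shift 2 0), (rh7e143111a189f2ad.shift 0 1)] (by decide +kernel))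
noncomputable def rhf4f22ba63d5247f3 : CRef := CRef.mk (Pat.mk 0x30000001200000016 0x30000003e0000001f 3 6) 0 0 (step_sound _ 3 [(rh33e738c4ed385b9f.shift 1 0), rh83b5fed75f19d7cc] (by decide +kernel))
noncomputable def rh49525a1a7acf004b : CRef := CRef.mk (Pat.mk 0x70000001000000016 0xf000000380000001f 3 6) 0 0 (step_sound _ 3 [(rh33e738c4ed385b9f.shift 1 0), rh6f555c723a80e234] (by decide +kernel))
noncomputable def rh061c79ec8bac419a : CRef := CRef.mk (Pat.mk 0x7000000100000001600000004 0x180000001f000000340000001e00000004 3 6) 0 0 (step_sound _ 99 [(rh4b676234a5ebf2d3.shift 1 1), rh4fc80024ed3db095] (by decide +kernel))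
noncomputable def rh79e8159902b0bda5 : CRef := CRef.mk (Pat.mk 0xd0000000c0000000800000000 0x18000000180000000f0000000c0000000c00000004 3 5) 0 0 (step_sound _ 131 [(rh1e309b005ffa1b36.shift 2 0), (rh7e143111a189f2ad.shift 0 1)] (by decide +kernel))
noncomputable def rh3e11480408ba39c3 : CRef := CRef.mk (Pat.mk 0xc000000180000000c 0xc0000007c0000000f 3 7) 0 0 (step_sound _ 1 [(rh500571fd45750302.shift 1 0), rh53b3c253cb0c65f4] (by decide +kernel))
noncomputable def rhbf7c3780f634db8a : CRef := CRef.mk (Pat.mk 0x800000008000000180000000300000000 0x80000000800000008000000180000001f00000010 3 5) 0 0 (step_sound _ 35 [(rh1c62b6193297d9e3.shift 0 1), (rhd4b4beefcd67f51e.shift 3 0)] (by decide +kernel))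
noncomputable def rh1cbff5cabf26a882 : CRef := CRef.mk (Pat.mk 0x80000000f0000000b000000010000000100000000 0x40000000c0000000f0000000b0000000b0000000b00000002 3 4) 0 0 (step_sound _ 162 [(rh3cb04db3dd2b6a55.shift 2 1), rh84704cbf4ecfb89e] (by decide +kernel))
noncomputable def rhb6d7bf451b357532 : CRef := CRef.mk (Pat.mk 0x16000000060000000000000004 0xa0000001e000000070000000400000004 3 5) 0 0 (step_sound _ 34 [(rh50fbb5868c909700.shift 1 0), rh8d930ef2202f3fb0] (by decide +kernel))
noncomputable def rh129370a198de3f49 : CRef := CRef.mk (Pat.mk 0x10000000080000001c0000000800000000 0x10000000380000001f0000000800000008 3 6) 0 0 (step_sound _ 100 [(rh71222050f2c63a3a.shift 3 0), (rhab2ad169e49f9c5e.shift 0 2)] (by decide +kernel))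
noncomputable def rh32f6277f14b47a8f : CRef := CRef.mk (Pat.mk 0x200000007000000050000000000000000 0x2000000020000000300000007000000050000000100000001 3 3) 0 0 (step_sound _ 32 [rh71222050f2c63a3a, (rhfa7d9ef1a865136e.shift 0 1)] (by decide +kernel))
noncomputable def rh073589708c2d81a3 : CRef := CRef.mk (Pat.mk 0xe000000060000000000000000 0x2000000030000003e000000060000000400000004 3 6) 0 0 (step_sound _ 129 [(rh55a1f6c57a317ce6.shift 1 0), (rhb762f327c85d41a0.shift 0 2)] (by decide +kernel))
noncomputable def rha34c10df98dd88fd : CRef := CRef.mk (Pat.mk 0x80000001c000000340000000400000000 0x20000000f0000001c0000003c0000000600000002 3 6) 0 0 (step_sound _ 130 [(rh277b01412deaec89.shift 0 1), (rh5710f30ba40ee3ec.shift 1 0)] (by decide +kernel))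
noncomputable def rhfca9438864b0a63a : CRef := CRef.mk (Pat.mk 0x1e000000040000000000000008 0x300000001f0000003c0000000800000008 3 6) 0 0 (step_sound _ 67 [(rh6292bd8784ece55f.shift 0 2), (rh63bb75a038171f49.shift 1 0)] (by decide +kernel))
noncomputable def rhac92018423ac23c8 : CRef := CRef.mk (Pat.mk 0xf000000000000001000000010 0x80000001f000000380000001000000010 3 6) 0 0 (step_sound _ 68 [(rh8643f959d8b300ed.shift 1 0), (rh96851dee118c1ba3.shift 0 2)] (by decide +kernel))
noncomputable def rhf1ce3581a1c74bc5 : CRef := CRef.mk (Pat.mk 0x800000008000000080000001200000002 0x800000008000000080000001e00000017 3 5) 0 0 (step_sound _ 35 [(rh55afc6a59410cf00.shift 3 0), rhe854045ea68f9a03] (by decide +kernel))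
noncomputable def rh2b3fe405c5e62233 : CRef := CRef.mk (Pat.mk 0x800000008000000080000001a00000000 0x800000008000000380000001f00000004 3 6) 0 0 (step_sound _ 34 [(rh932754581e0f4330.shift 2 0), (rhec46bd5500c722c9.shift 0 1)] (by decide +kernel))
noncomputable def rh0a88cd63e34485c5 : CRef := CRef.mk (Pat.mk 0x8000000080000000b0000000800000000 0x1000000018000000180000000f0000000800000008 3 5) 0 0 (step_sound _ 100 [(rh1c62b6193297d9e3.shift 0 2), (rha707fb719e87fe6e.shift 3 0)] (by decide +kernel))
noncomputable def rhca15ef3ffecfb961 : CRef := CRef.mk (Pat.mk 0x80000000800000008000000080000000b 0x40000000c0000000c0000000800000018000000180000000f 3 5) 0 0 (step_sound _ 163 [rh06a53461b6d9d9a1, (rh3ca48e2a6d60153d.shift 2 1)] (by decide +kernel))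
noncomputable def rh9632cd427b31131a : CRef := CRef.mk (Pat.mk 0x80000000b0000000900000009 0x2000000120000001e0000000b0000000b00000009 3 5) 0 0 (step_sound _ 97 [rh1df1df71a80a171b, rh69755ef358ebfd54] (by decide +kernel))
noncomputable def rhc0b229266c960235 : CRef := CRef.mk (Pat.mk 0x80000000b0000000900000009 0x2000000060000001e0000000b0000000b00000009 3 5) 0 0 (step_sound _ 97 [rh5501401ca587e475, rh69755ef358ebfd54] (by decide +kernel))
noncomputable def rh04d9373a4537ca60 : CRef := CRef.mk (Pat.mk 0x80000000800000008000000080000000b 0x1000000018000000180000000800000018000000180000000f 3 5) 0 0 (step_sound _ 163 [rh06a53461b6d9d9a1, (rh44f453b84f013105.shift 3 1)] (by decide +kernel))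
noncomputable def rh7667cdcdd03b9e2e : CRef := CRef.mk (Pat.mk 0xd00000008000000080000000800000000 0x100000001f00000018000000080000000800000008 3 5) 0 0 (step_sound _ 100 [(rha707fb719e87fe6e.shift 3 0), (rhab22b5b56e7b3243.shift 0 3)] (by decide +kernel))
noncomputable def rhb66ec419a6d128ce : CRef := CRef.mk (Pat.mk 0x40000000c0000000b0000000000000000 0x4000000040000000c0000000f0000001800000008 3 5) 0 0 (step_sound _ 35 [(rh7b1f1fb55310c477.shift 2 0), (rhc44bc521e40eae58.shift 0 1)] (by decide +kernel))
noncomputable def rh91dfa05bb1518401 : CRef := CRef.mk (Pat.mk 0x4000000040000000500000003000000000000000000000000 0x4000000040000000700000007000000020000000200000002 3 3) 0 0 (step_sound _ 65 [rhaf343399eb22e721, (rheea67dfebd0f8008.shift 1 2)] (by decide +kernel))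
noncomputable def rhe062dc4d292ad3be : CRef := CRef.mk (Pat.mk 0xd000000080000001800000000 0x10000000180000000f000000080000001800000010 3 5) 0 0 (step_sound _ 131 [(rh55afc6a59410cf00.shift 3 0), (rh7e143111a189f2ad.shift 0 1)] (by decide +kernel))
noncomputable def rh770a805a6060c652 : CRef := CRef.mk (Pat.mk 0x40000000c0000000d 0x60000007c0000000f 3 7) 0 0 (step_sound _ 36 [rh24ae073cf30720c4, (rhb762f327c85d41a0.shift 1 0)] (by decide +kernel))
noncomputable def rh583cd2949503eb8f : CRef := CRef.mk (Pat.mk 0x3c00000018 0x3f0000001f 3 6) 0 0 (step_sound _ 1 [(rh24ae073cf30720c4.shift 1 0), rh710860539a4c4362] (by decide +kernel))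
noncomputable def rh5430a6c0e1c09461 : CRef := CRef.mk (Pat.mk 0x1000000010000000000000000c0000000c 0x1000000010000000100000003c0000000f 3 6) 0 0 (step_sound _ 36 [(rh3c88ce959c0e423f.shift 3 0), rh4dc133ee0ba1420a] (by decide +kernel))
noncomputable def rh724d723d6bfdb8a6 : CRef := CRef.mk (Pat.mk 0x1e000000000000000c0000000c 0x100000001e000000300000003c0000000f 3 6) 0 0 (step_sound _ 36 [rh4dc133ee0ba1420a, (rh8c2ed6f91ff57e60.shift 1 0)] (by decide +kernel))
noncomputable def rhb187a42cb8160ac8 : CRef := CRef.mk (Pat.mk 0x1e000000000000000c0000000c 0x300000001e000000100000003c0000000f 3 6) 0 0 (step_sound _ 36 [rh4dc133ee0ba1420a, (rh8bba9c09a1e3aa82.shift 1 0)] (by decide +kernel))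
noncomputable def rh3cbe5718e8191f65 : CRef := CRef.mk (Pat.mk 0x1e000000000000000600000016 0x80000001e000000300000003e00000017 3 6) 0 0 (step_sound _ 36 [rhd11dc6dd83191698, (rhdad6fb8687a5e7f2.shift 1 0)] (by decide +kernel))
noncomputable def rha355876672dc863a : CRef := CRef.mk (Pat.mk 0x180000000c00000018 0x180000000f0000007c 3 7) 0 0 (step_sound _ 5 [rh587868c37e85730d, (rhf48373e13d2bc128.shift 2 0)] (by decide +kernel))
noncomputable def rh0f338bb235119347 : CRef := CRef.mk (Pat.mk 0xf000000030000000b00000000 0x6000000060000000f0000001b0000000b00000008 3 5) 0 0 (step_sound _ 130 [rh2bbc4934553ffbfd, (rhbd55d8419891313d.shift 0 1)] (by decide +kernel))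
noncomputable def rhb3e2fd80fdf1f29c : CRef := CRef.mk (Pat.mk 0x180000000600000006 0x380000003f00000006 3 6) 0 0 (step_sound _ 35 [(rh53b3c253cb0c65f4.shift 0 1), (rh8284118167888cf9.shift 1 0)] (by decide +kernel))
noncomputable def rhe51eaebe8d693828 : CRef := CRef.mk (Pat.mk 0x1e0000000c00000004 0x2000000030000001e0000000f00000004 3 5) 0 0 (step_sound _ 33 [rh309fd0c3d364cd61, (rh53b3c253cb0c65f4.shift 0 1)] (by decide +kernel))
noncomputable def rh6d93b2abe1340970 : CRef := CRef.mk (Pat.mk 0x1e000000000000001000000000 0x380000001f000000300000001000000010 3 6) 0 0 (step_sound _ 131 [(rh2bbc4934553ffbfd.shift 1 0), (rhec46bd5500c722c9.shift 0 3)] (by decide +kernel))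
noncomputable def rh2385381938a01cf3 : CRef := CRef.mk (Pat.mk 0x80000000e00000006 0x380000003f00000006 3 6) 0 0 (step_sound _ 36 [(rh18965a982d73c794.shift 1 0), (rhec46bd5500c722c9.shift 0 1)] (by decide +kernel))
noncomputable def rhe98786ef5ee582a1 : CRef := CRef.mk (Pat.mk 0xd0000000c000000080000000800000000 0x10000000180000000f0000000c0000000c0000000c00000004 3 5) 0 0 (step_sound _ 163 [(rh0ec68e0bf4727743.shift 2 0), (rh7e143111a189f2ad.shift 0 2)] (by decide +kernel))
noncomputable def rhf939b1ab33988cc0 : CRef := CRef.mk (Pat.mk 0x100000000c000000080000000b0000000100000001 0x100000001a0000000f0000000a0000000b0000000300000001 3 5) 0 0 (step_sound _ 129 [(rh6835955021d3aba9.shift 0 2), rhb009278fdd334770] (by decide +kernel))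
noncomputable def rh4b0a0b8b1d7a68bd : CRef := CRef.mk (Pat.mk 0x1800000018000000100000000600000002 0x1c0000001f000000340000000600000006 3 6) 0 0 (step_sound _ 98 [(rh0ac1d2f8ad931b8d.shift 1 0), (rhf56e6bc5d2f7fe77.shift 0 2)] (by decide +kernel))
noncomputable def rh336e2d74b331720f : CRef := CRef.mk (Pat.mk 0x140000000c0000000800000008 0x100000003c0000000f0000000800000008 3 6) 0 0 (step_sound _ 99 [(rh2f68792b6b779e96.shift 3 0), (rh4dc133ee0ba1420a.shift 0 2)] (by decide +kernel))
noncomputable def rh90b85f7760e141ab : CRef := CRef.mk (Pat.mk 0x1c00000008000000000000000300000001 0x1f0000003b000000020000000300000001 3 6) 0 0 (step_sound _ 129 [rh4921e53944c73ec0, (rha03f6e28ea70fc7d.shift 0 3)] (by decide +kernel))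
noncomputable def rhfe405070155d49ba : CRef := CRef.mk (Pat.mk 0x1800000018000000000000000600000002 0x3c0000001f000000040000000600000006 3 6) 0 0 (step_sound _ 98 [(rh0ac1d2f8ad931b8d.shift 1 0), (rhab2ad169e49f9c5e.shift 0 3)] (by decide +kernel))
noncomputable def rh22e4692fc0b8bac4 : CRef := CRef.mk (Pat.mk 0x4000000020000000200000003000000020000000000000000 0x600000006000000030000000300000003000000020000000200000002 3 3) 0 0 (step_sound _ 128 [rh3cb04db3dd2b6a55, (rhbd55d8419891313d.shift 0 3)] (by decide +kernel))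
noncomputable def rh9dd7a22ddf5a1787 : CRef := CRef.mk (Pat.mk 0xc000000030000000100000001 0x2000000020000001e000000030000000300000001 3 5) 0 0 (step_sound _ 97 [(rh18965a982d73c794.shift 0 2), rh69755ef358ebfd54] (by decide +kernel))
noncomputable def rh18f1d957841163d1 : CRef := CRef.mk (Pat.mk 0x800000008000000080000000a00000003 0x40000000c0000000c000000080000000c0000001e00000003 3 5) 0 0 (step_sound _ 163 [(rh3ca48e2a6d60153d.shift 2 1), rhec4e2273cee5a1a1] (by decide +kernel))
noncomputable def rh7e46dfea8e293018 : CRef := CRef.mk (Pat.mk 0x18000000030000000100000001 0x2000000020000001e000000030000000300000001 3 5) 0 0 (step_sound _ 97 [rh69755ef358ebfd54, (rhb2a0b9ccfb5cecd5.shift 0 2)] (by decide +kernel))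
noncomputable def rh95cad3b3219b3427 : CRef := CRef.mk (Pat.mk 0x800000008000000080000000a00000003 0x10000000180000001800000008000000180000001e00000003 3 5) 0 0 (step_sound _ 163 [rh1142251adec6e522, (rh44f453b84f013105.shift 3 1)] (by decide +kernel))
noncomputable def rhbe16fe098452d544 : CRef := CRef.mk (Pat.mk 0x180000000a00000003 0x7c0000001e00000003 3 7) 0 0 (step_sound _ 34 [rh18965a982d73c794, (rh80f90a60d87caa0d.shift 1 1)] (by decide +kernel))
noncomputable def rhccd2826ff3aac686 : CRef := CRef.mk (Pat.mk 0x800000008000000080000000a00000003 0x100000001800000018000000080000000c0000001e00000003 3 5) 0 0 (step_sound _ 163 [(rh44f453b84f013105.shift 3 1), rhec4e2273cee5a1a1] (by decide +kernel))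
noncomputable def rh8764201842eec5e1 : CRef := CRef.mk (Pat.mk 0x80000000800000008000000080000000800000003 0x800000008000000080000001c0000001e00000003 3 5) 0 0 (step_sound _ 34 [(rh79877ebd3ef475dd.shift 2 1), rhc4244173b0146402] (by decide +kernel))
noncomputable def rhbdf73b26f73f8159 : CRef := CRef.mk (Pat.mk 0x20000000300000003000000020000000000000000 0x20000000300000003000000030000000300000003 3 2) 0 0 (step_sound _ 32 [(rh9e3edb185cc347de.shift 0 1), rhe437f081bfcdb831] (by decide +kernel))
noncomputable def rh338d1ab1167989a9 : CRef := CRef.mk (Pat.mk 0x80000000b0000000a0000000c00000000 0x80000000b0000001e0000003c00000010 3 6) 0 0 (step_sound _ 36 [(rh55afc6a59410cf00.shift 3 0), (rhca0928f3e9e573a0.shift 0 1)] (by decide +kernel))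
noncomputable def rh799b546ddd265bb3 : CRef := CRef.mk (Pat.mk 0x1600000014 0x370000003e 3 6) 0 0 (step_sound _ 3 [rh479f07c8ec776d62, (rhf48373e13d2bc128.shift 1 0)] (by decide +kernel))
noncomputable def rh3b2071d8ef65be7d : CRef := CRef.mk (Pat.mk 0x80000000b0000000a0000000a0000000000000000 0x90000000b0000000a0000000e0000000600000004 3 4) 0 0 (step_sound _ 33 [(rh50fbb5868c909700.shift 0 1), (rhef50d508512821da.shift 1 0)] (by decide +kernel))
noncomputable def rhe85af660bf4151dd : CRef := CRef.mk (Pat.mk 0x80000000b0000000a0000000800000000 0x80000000b0000001f0000001800000010 3 5) 0 0 (step_sound _ 36 [(rh55afc6a59410cf00.shift 3 0), (rha844442475d131dc.shift 0 1)] (by decide +kernel))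
noncomputable def rhfd99604093c09fe0 : CRef := CRef.mk (Pat.mk 0x180000000800000038 0x180000000f0000007c 3 7) 0 0 (step_sound _ 34 [rh587868c37e85730d, (rhf48373e13d2bc128.shift 2 0)] (by decide +kernel))
noncomputable def rhf297bf1de2732294 : CRef := CRef.mk (Pat.mk 0x180000000a000000100000001c 0x180000001f000000300000001e 3 6) 0 0 (step_sound _ 37 [(rh53b3c253cb0c65f4.shift 1 0), (rhfca0c3d969bd563a.shift 0 1)] (by decide +kernel))
noncomputable def rhff16e84bf8b4ed74 : CRef := CRef.mk (Pat.mk 0x3000000000000001e00000000 0x100000003000000030000001e00000003 3 5) 0 0 (step_sound _ 1 [rh82efc7f3d9894a87, rheb0810cc63b001d8] (by decide +kernel))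
noncomputable def rhce7d5f98db881521 : CRef := CRef.mk (Pat.mk 0x380000000800000038 0x780000000f0000003c 3 7) 0 0 (step_sound _ 34 [(rh18965a982d73c794.shift 2 1), rh587868c37e85730d] (by decide +kernel))
noncomputable def rh487b88e88b0840f2 : CRef := CRef.mk (Pat.mk 0x7000000010000000e 0xf0000003b0000001f 3 6) 0 0 (step_sound _ 36 [rh6f555c723a80e234, rhfb55dd75ab83ac48] (by decide +kernel))
noncomputable def rh916e81c92ee89fc2 : CRef := CRef.mk (Pat.mk 0x100000000e000000000000003c00000000 0x100000001e000000170000003c00000060 3 7) 0 0 (step_sound _ 100 [(rh14302a4313555aea.shift 0 1), (rh49bdc49f6b132823.shift 2 0)] (by decide +kernel))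
noncomputable def rha7f757d8f6d0eda7 : CRef := CRef.mk (Pat.mk 0x80000000e000000000000003c00000000 0x80000001e000000370000003c00000010 3 6) 0 0 (step_sound _ 100 [(rh14302a4313555aea.shift 0 1), (rh2bbc4934553ffbfd.shift 1 0)] (by decide +kernel))
noncomputable def rh588313057d8c81d0 : CRef := CRef.mk (Pat.mk 0x2000000000000001e0000000200000000 0x200000002000000030000001e0000000600000004 3 5) 0 0 (step_sound _ 97 [(rh3244c3cc8379b070.shift 0 2), (rhd4b4beefcd67f51e.shift 1 0)] (by decide +kernel))
noncomputable def rhaaec5bddae1722ba : CRef := CRef.mk (Pat.mk 0x4000000000000001e0000000200000000 0x400000004000000070000001e0000000200000002 3 5) 0 0 (step_sound _ 97 [(rh3244c3cc8379b070.shift 0 2), (rh5fcbac5b57173fc5.shift 1 0)] (by decide +kernel))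
noncomputable def rhecf53791081c87c9 : CRef := CRef.mk (Pat.mk 0x8000000080000000a0000000c00000000 0x8000000080000000f0000001e00000010 3 5) 0 0 (step_sound _ 36 [(rh54c49bb299227e8d.shift 0 1), (rh55afc6a59410cf00.shift 3 0)] (by decide +kernel))
noncomputable def rhc4ddf431cfa64f6c : CRef := CRef.mk (Pat.mk 0x80000000e000000020000000a0000000200000000 0x80000000e000000060000001e0000000700000005 3 5) 0 0 (step_sound _ 66 [rh157b220518f94713, (rhae4a2d1ccbcd3048.shift 1 0)] (by decide +kernel))
noncomputable def rhf0afbb9e5bf25ffb : CRef := CRef.mk (Pat.mk 0x400000006000000010000000700000000 0x20000000600000006000000030000000700000006 3 3) 0 0 (step_sound _ 65 [rh571950d89739e871, (rh71222050f2c63a3a.shift 1 0)] (by decide +kernel))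
noncomputable def rhd117684c4a851b90 : CRef := CRef.mk (Pat.mk 0x140000001c 0x370000003e 3 6) 0 0 (step_sound _ 1 [(rh33e738c4ed385b9f.shift 1 0), rhe3060b190bc0bc78] (by decide +kernel))
noncomputable def rh938cdfd658daca9c : CRef := CRef.mk (Pat.mk 0x400000004000000140000000600000000 0x4000000040000003c0000000f00000008 3 6) 0 0 (step_sound _ 35 [(rh55afc6a59410cf00.shift 2 0), (rh7dcd5319f4f71bec.shift 0 1)] (by decide +kernel))
noncomputable def rhbc836787db0e95ca : CRef := CRef.mk (Pat.mk 0x200000001000000050000000500000000 0x20000000300000003000000070000000500000001 3 3) 0 0 (step_sound _ 97 [(rh1184ccdd4bd5238e.shift 0 1), rh71222050f2c63a3a] (by decide +kernel))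
noncomputable def rh7a55675dcc8d1379 : CRef := CRef.mk (Pat.mk 0xa000000090000000d0000000100000000 0x1f0000001b0000000f0000000100000001 3 5) 0 0 (step_sound _ 130 [rh155fa7b85b00c3f4, (rh9be53a48e15d68a6.shift 0 2)] (by decide +kernel))
noncomputable def rh228e4e408958f7d9 : CRef := CRef.mk (Pat.mk 0xa000000090000000d00000001 0x20000000f000000190000000f00000001 3 5) 0 0 (step_sound _ 68 [(rh24ae073cf30720c4.shift 0 1), rhea039097b75c2082] (by decide +kernel))
noncomputable def rh0e981e81158acd36 : CRef := CRef.mk (Pat.mk 0x2000000090000000d0000000500000000 0x2000000020000001b0000000f0000000500000001 3 5) 0 0 (step_sound _ 65 [(rh33e738c4ed385b9f.shift 0 2), rhf8e7b16e4fee91e5] (by decide +kernel))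
noncomputable def rh524de033d158b363 : CRef := CRef.mk (Pat.mk 0x2000000060000000a0000000200000000 0x200000002000000060000001e0000000700000005 3 5) 0 0 (step_sound _ 66 [rh157b220518f94713, (rh55a1f6c57a317ce6.shift 1 0)] (by decide +kernel))
noncomputable def rh8ceefd112fa892f2 : CRef := CRef.mk (Pat.mk 0x2000000090000000f000000050000000000000000 0x20000000b0000000f000000070000000500000004 3 4) 0 0 (step_sound _ 34 [(rh71222050f2c63a3a.shift 2 0), (rh97755cb5dd403749.shift 0 1)] (by decide +kernel))
noncomputable def rh81ffe778af49aeed : CRef := CRef.mk (Pat.mk 0x1000000010000000f00000007000000000000000000000000 0x2000000030000000b0000000f00000007000000040000000400000004 3 4) 0 0 (step_sound _ 66 [(rh9511402a8c1709c4.shift 0 2), (rhb0c1e7919d9be92d.shift 1 0)] (by decide +kernel))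
noncomputable def rh92b0e62ae2cb50e6 : CRef := CRef.mk (Pat.mk 0x6000000060000000a0000000200000000 0x200000006000000060000001e0000000700000005 3 5) 0 0 (step_sound _ 66 [rh157b220518f94713, (rh3cb04db3dd2b6a55.shift 1 0)] (by decide +kernel))
noncomputable def rh5b822dfc3a470df5 : CRef := CRef.mk (Pat.mk 0xa0000000e0000000a0000000200000000 0x20000000a0000000e0000003e0000000700000004 3 6) 0 0 (step_sound _ 66 [(rh3ebc98c19791ad58.shift 1 0), (rha9e1a5d55b907abf.shift 0 1)] (by decide +kernel))
noncomputable def rh2d80077e040d7c36 : CRef := CRef.mk (Pat.mk 0x1a0000000e000000080000000000000000 0x100000001b0000001e000000080000000800000008 3 5) 0 0 (step_sound _ 35 [(rh2f68792b6b779e96.shift 3 1), rhe1322015569cddcd] (by decide +kernel))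
noncomputable def rhb7449ccef11896f2 : CRef := CRef.mk (Pat.mk 0x18000000080000000e0000000000000000 0x1000000018000000080000000f0000001800000010 3 5) 0 0 (step_sound _ 35 [(rh2f68792b6b779e96.shift 3 1), rhbdde238153e38af9] (by decide +kernel))
noncomputable def rh9c15644f0cdc1e2d : CRef := CRef.mk (Pat.mk 0xc00000007000000070000000000000000 0x80000000c000000070000001f0000001c00000008 3 5) 0 0 (step_sound _ 35 [(rh8ef9dd588f33bbde.shift 0 1), (rh93bb09469abb6e2d.shift 2 0)] (by decide +kernel))
noncomputable def rhae871c5f1e311506 : CRef := CRef.mk (Pat.mk 0xa0000001a000000020000000a00000000 0xa0000001a0000001b0000001e00000014 3 5) 0 0 (step_sound _ 36 [(rh935da622f8ebc962.shift 3 0), rhcd496e99dbfe6492] (by decide +kernel))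
noncomputable def rhb368d453bce0a7e3 : CRef := CRef.mk (Pat.mk 0x1a0000001a000000020000000a00000000 0x1a0000001a000000130000001e0000001c 3 5) 0 0 (step_sound _ 36 [(rhbcedfca2885d6e85.shift 3 0), rhcd496e99dbfe6492] (by decide +kernel))
noncomputable def rh4e6309acfb5177d2 : CRef := CRef.mk (Pat.mk 0x1a0000000a000000020000000a00000000 0x110000001b0000001e0000000a0000000a00000008 3 5) 0 0 (step_sound _ 100 [(rh2c7fc7a7cc8a47be.shift 3 0), (rh5e05da03898e7023.shift 0 1)] (by decide +kernel))
noncomputable def rhf990d612de23e789 : CRef := CRef.mk (Pat.mk 0x1a0000000a000000020000000800000000 0x100000001b0000001e0000000b0000000800000008 3 5) 0 0 (step_sound _ 100 [(rh01e48cd9f335aa73.shift 0 2), (rh2c7fc7a7cc8a47be.shift 3 0)] (by decide +kernel))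
noncomputable def rhdce853976e9f519e : CRef := CRef.mk (Pat.mk 0x800000008000000020000000e00000000 0x8000000080000000b0000001e00000030 3 6) 0 0 (step_sound _ 36 [(rh3244c3cc8379b070.shift 0 1), (rh49bdc49f6b132823.shift 1 0)] (by decide +kernel))
noncomputable def rh842ec5de9e712c95 : CRef := CRef.mk (Pat.mk 0x18000000080000000a00000003 0x1000000018000000080000001e0000000f 3 5) 0 0 (step_sound _ 3 [(rh2f68792b6b779e96.shift 3 0), rh9f2591205204f08d] (by decide +kernel))
noncomputable def rh3bdda7c820813247 : CRef := CRef.mk (Pat.mk 0x1e000000020000000200000000 0x70000001f000000020000000200000002 3 5) 0 0 (step_sound _ 1 [(rh2f68792b6b779e96.shift 1 0), rha25c0e62bb8d55c9] (by decide +kernel))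
noncomputable def rha5333d3cbf4b2811 : CRef := CRef.mk (Pat.mk 0x400000004000000160000000600000000 0x400000004000000370000001e00000008 3 6) 0 0 (step_sound _ 35 [(rh55afc6a59410cf00.shift 2 0), (rh5ec015d369888aae.shift 0 1)] (by decide +kernel))
noncomputable def rh401a88058b37bc41 : CRef := CRef.mk (Pat.mk 0x40000001c0000000c0000000400000000 0x4000000040000001c0000000f0000000600000002 3 5) 0 0 (step_sound _ 33 [(rh3bf4ec049839aac5.shift 0 1), (rh932754581e0f4330.shift 1 0)] (by decide +kernel))
noncomputable def rh76abbab67b3b12d0 : CRef := CRef.mk (Pat.mk 0xf00000006000000000000000300000000 0x180000000f00000006000000060000000700000005 3 5) 0 0 (step_sound _ 34 [(rh63bb75a038171f49.shift 0 1), (rh935da622f8ebc962.shift 1 0), rhbf726fa7097229f2] (by decide +kernel))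
noncomputable def rh03993b22b78ea9c5 : CRef := CRef.mk (Pat.mk 0x800000008000000000000000e00000002 0x800000008000000080000001e00000033 3 6) 0 0 (step_sound _ 36 [(rh49bdc49f6b132823.shift 1 0), rheb0810cc63b001d8] (by decide +kernel))
noncomputable def rh60cbd488643f0e6e : CRef := CRef.mk (Pat.mk 0x800000008000000000000001e00000000 0x800000008000000080000003e00000007 3 6) 0 0 (step_sound _ 1 [(rhe6af39b72fd2cc45.shift 1 0), rheb0810cc63b001d8] (by decide +kernel))
noncomputable def rhce2f1d6ebb98fcec : CRef := CRef.mk (Pat.mk 0x80000001c000000040000001c00000000 0xc0000001c000000140000001e00000033 3 6) 0 0 (step_sound _ 33 [rh1ae4704ae86cb9a8, (rh82687729b6ed8eda.shift 1 0)] (by decide +kernel))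
noncomputable def rhba633729191eaa0a : CRef := CRef.mk (Pat.mk 0x8000000080000000e0000000e000000000000000000000000 0x80000000c0000000e0000001e000000130000000200000002 3 5) 0 0 (step_sound _ 65 [(rhea7a1800d6f053bd.shift 1 0), (rhfe26b971575d20c5.shift 0 2)] (by decide +kernel))
noncomputable def rhedb11bef59254b8a : CRef := CRef.mk (Pat.mk 0x10000000200000006000000020000000000000000 0x50000000700000006000000020000000200000002 3 3) 0 0 (step_sound _ 33 [(rha707fb719e87fe6e.shift 1 0), (rhffd04209dc8ea796.shift 0 1)] (by decide +kernel))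
noncomputable def rh32a4ece3e03161fd : CRef := CRef.mk (Pat.mk 0x1c0000000c0000000000000004 0x30000001f0000003c0000000400000004 3 6) 0 0 (step_sound _ 97 [rh0da3f8d18d3a0dfd, (rh6292bd8784ece55f.shift 0 2)] (by decide +kernel))
noncomputable def rhf5632e46cbf9b58b : CRef := CRef.mk (Pat.mk 0x1e000000180000000000000010 0x60000000fe0000001f0000001000000010 3 8) 0 0 (step_sound _ 101 [(rh0bdf8aa2e59fe114.shift 0 2), (rh2612b4f73ba7c3b3.shift 2 2), (rh63bb75a038171f49.shift 2 0)] (by decide +kernel))
noncomputable def rha1d7f30b3dd3fb23 : CRef := CRef.mk (Pat.mk 0xa0000000a0000001e00000000 0x40000000e0000000e0000000a0000001e00000003 3 5) 0 0 (step_sound _ 130 [(rh8b14df1b185c100a.shift 1 1), rha1aa13057a4a8e13] (by decide +kernel))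
noncomputable def rh0a421be76e1ce404 : CRef := CRef.mk (Pat.mk 0x80000001a000000060000000200000000 0x20000000f0000001e000000060000000600000004 3 5) 0 0 (step_sound _ 129 [(rhd4b4beefcd67f51e.shift 1 0), (rhd8be3b7ca6adb62f.shift 0 3)] (by decide +kernel))
noncomputable def rh3ade54013ae3e615 : CRef := CRef.mk (Pat.mk 0x1e000000020000000200000002 0x10000001f0000003a0000000200000002 3 6) 0 0 (step_sound _ 68 [rh5bec6b7f9ab41c51, (rhe25b0a99195a5d59.shift 1 2)] (by decide +kernel))
noncomputable def rh1d5d3e565edd74c8 : CRef := CRef.mk (Pat.mk 0xf000000000000000a00000002 0x40000000f0000001a0000000a0000000a 3 5) 0 0 (step_sound _ 67 [(rh4cdd5d584b323226.shift 1 0), (rhe25b0a99195a5d59.shift 0 2)] (by decide +kernel))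
noncomputable def rhafb56784a889a615 : CRef := CRef.mk (Pat.mk 0xe0000001c00000008 0x10000000300000003e0000001f00000008 3 6) 0 0 (step_sound _ 68 [(rh5421160f8e9bcf07.shift 1 0), (rhab2ad169e49f9c5e.shift 0 1)] (by decide +kernel))
noncomputable def rh9d82de33bd886c8a : CRef := CRef.mk (Pat.mk 0x1e000000000000000600000013 0x80000001e000000300000001e00000013 3 6) 0 0 (step_sound _ 36 [rh361cc68994bd8a63, (rhdad6fb8687a5e7f2.shift 1 0)] (by decide +kernel))
noncomputable def rhea5ad313ff444aaf : CRef := CRef.mk (Pat.mk 0xc000000180000000c 0xc000000780000001f 3 7) 0 0 (step_sound _ 1 [rh53b3c253cb0c65f4, (rh85ab58ad6384baf3.shift 1 0)] (by decide +kernel))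
noncomputable def rh76860ba85bb00b71 : CRef := CRef.mk (Pat.mk 0x40000000c000000180000000600000000 0x40000000f0000001e0000000600000002 3 5) 0 0 (step_sound _ 1 [(rh3c88ce959c0e423f.shift 1 0), rhbc9a7c6e843e5ac5] (by decide +kernel))
noncomputable def rhddd2d3a9deee3e27 : CRef := CRef.mk (Pat.mk 0xc0000000c000000080000000e00000000 0xc0000000c0000000c0000001e00000013 3 5) 0 0 (step_sound _ 1 [(rh3c88ce959c0e423f.shift 1 0), rhfe26b971575d20c5] (by decide +kernel))
noncomputable def rh8a50dadc3bfde1ea : CRef := CRef.mk (Pat.mk 0x1800000018000000000000000400000004 0x380000001f000000040000000400000004 3 6) 0 0 (step_sound _ 98 [(rh04253f50b6dd0619.shift 2 0), (rhab2ad169e49f9c5e.shift 0 3)] (by decide +kernel))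
noncomputable def rh14c398eee0b473c6 : CRef := CRef.mk (Pat.mk 0x600000016000000100000001800000000 0x3e00000017000000100000001800000008 3 6) 0 0 (step_sound _ 132 [(rh932754581e0f4330.shift 3 0), (rhd11dc6dd83191698.shift 0 3)] (by decide +kernel))
noncomputable def rhdd3ee7f0d6132edf : CRef := CRef.mk (Pat.mk 0x10000000000000001e0000001000000000 0x10000000300000001f0000001800000008 3 6) 0 0 (step_sound _ 35 [(rhb739f4f82bb681b4.shift 0 1), (rhf004865f08a1b0e3.shift 1 0)] (by decide +kernel))
noncomputable def rhbf729291db99350b : CRef := CRef.mk (Pat.mk 0x8000000000000000f0000000800000000 0x800000008000000180000000f0000000c00000004 3 5) 0 0 (step_sound _ 99 [(rh03dfdf12d5937476.shift 2 0), (rh33e738c4ed385b9f.shift 0 2)] (by decide +kernel))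
noncomputable def rhabedd109a9a37101 : CRef := CRef.mk (Pat.mk 0x200000002000000020000000200000000 0x20000000200000002000000070000000700000005 3 3) 0 0 (step_sound _ 161 [rh7928877f9bf74a91, (rhd29a1fb688eae70f.shift 1 0)] (by decide +kernel))
noncomputable def rh42037a7546c1e13c : CRef := CRef.mk (Pat.mk 0x1c0000000c0000000a0000000000000000 0x4000000040000001c0000000f0000000e0000000200000002 3 5) 0 0 (step_sound _ 33 [(rh1b9584b0a9395bfc.shift 1 1), rh824e8f56e2fc4e3d] (by decide +kernel))
noncomputable def rhcb6278a17751f6e9 : CRef := CRef.mk (Pat.mk 0x80000001c000000080000000000000000 0x10000000380000001f000000080000000800000008 3 6) 0 0 (step_sound _ 132 [(rhab2ad169e49f9c5e.shift 0 3), (rhea7a1800d6f053bd.shift 3 0)] (by decide +kernel))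
noncomputable def rhd171a669e7c6da66 : CRef := CRef.mk (Pat.mk 0x80000000c000000090000000800000000 0x8000000080000000c0000000f0000001c00000014 3 5) 0 0 (step_sound _ 66 [(rh1e309b005ffa1b36.shift 2 0), rh2d65c91b9f714cee] (by decide +kernel))
noncomputable def rhbfadbefefbb2f628 : CRef := CRef.mk (Pat.mk 0x8000000090000000c000000080000000000000000 0x100000001c0000000f0000000c000000080000000800000008 3 5) 0 0 (step_sound _ 130 [(rh3cb04db3dd2b6a55.shift 2 0), (rh7e143111a189f2ad.shift 0 2)] (by decide +kernel))
noncomputable def rhd2185b22cd9754f9 : CRef := CRef.mk (Pat.mk 0x4000000160000000600000002 0x200000003000000070000001e0000000600000006 3 5) 0 0 (step_sound _ 97 [rh52dc0b448901c5de, (rhfc7c29d8e65d775f.shift 1 0)] (by decide +kernel))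
noncomputable def rh9636e5593b7fa209 : CRef := CRef.mk (Pat.mk 0x18000000240000000c0000000c 0x10000000180000003c0000000f0000003c 3 6) 0 0 (step_sound _ 33 [(rh2cbc4b16b5094649.shift 1 0), rh6292bd8784ece55f] (by decide +kernel))
noncomputable def rh5de2677fe9bb084d : CRef := CRef.mk (Pat.mk 0x400000000000000060000000700000001 0x20000000600000006000000060000000700000003 3 3) 0 0 (step_sound _ 98 [rh4fcc643a9c188aaa, (rh932754581e0f4330.shift 1 0)] (by decide +kernel))
noncomputable def rhe117d8f2aeb1fdc3 : CRef := CRef.mk (Pat.mk 0x1c00000018000000030000000000000000 0x40000001c000000180000000f0000000800000008 3 5) 0 0 (step_sound _ 67 [(rh1c62b6193297d9e3.shift 0 2), (rh40241bd608e5be1a.shift 2 0)] (by decide +kernel))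
noncomputable def rh3db05fa6da1c120b : CRef := CRef.mk (Pat.mk 0x40000000d0000000c00000008 0x8000000180000001c0000000f0000000c0000000c 3 5) 0 0 (step_sound _ 99 [rh7e143111a189f2ad, (rh84d1c02a8954c6a8.shift 2 0)] (by decide +kernel))
noncomputable def rhbe88e915edfa789d : CRef := CRef.mk (Pat.mk 0x8000000080000000c0000001e00000000 0x40000000c0000000c0000000c0000001e00000003 3 5) 0 0 (step_sound _ 1 [(rh4fcc643a9c188aaa.shift 1 0), rheb0810cc63b001d8] (by decide +kernel))
noncomputable def rh34d0a8890b48de57 : CRef := CRef.mk (Pat.mk 0x20000001e000000060000000200000000 0x20000001e0000003e0000000300000001 3 6) 0 0 (step_sound _ 32 [(rh2ff269158ca0cd3a.shift 0 1), rh932754581e0f4330] (by decide +kernel))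
noncomputable def rhe19311ba2a0a1080 : CRef := CRef.mk (Pat.mk 0x80000000c000000080000001e00000000 0x40000000c0000000c0000000c0000001e00000003 3 5) 0 0 (step_sound _ 1 [(rh3eff189dd406f9f5.shift 1 0), rheb0810cc63b001d8] (by decide +kernel))
noncomputable def rh1d16976ebe541f5b : CRef := CRef.mk (Pat.mk 0x2000000030000000a0000000200000000 0x200000002000000030000001e0000000600000004 3 5) 0 0 (step_sound _ 34 [(rh55afc6a59410cf00.shift 1 0), (rh93e23ea63605137f.shift 0 1)] (by decide +kernel))
noncomputable def rh5eb33fb39f0ce454 : CRef := CRef.mk (Pat.mk 0xc0000000c0000001c0000000800000000 0xc0000000c0000001c0000000f00000006 3 5) 0 0 (step_sound _ 34 [(rh71222050f2c63a3a.shift 2 0), rhf5094ad2a427d4d3] (by decide +kernel))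
noncomputable def rhbe364b29d623b14d : CRef := CRef.mk (Pat.mk 0xe000000080000000e 0x1e000000780000000f 3 7) 0 0 (step_sound _ 36 [(rh4a0b10776449c3e9.shift 1 1), rh53b3c253cb0c65f4] (by decide +kernel))
noncomputable def rhc04a13a5df742017 : CRef := CRef.mk (Pat.mk 0x2000000070000000600000006 0xc0000001e000000070000000600000006 3 5) 0 0 (step_sound _ 98 [(rh2f68792b6b779e96.shift 1 0), rh712526e472efe489] (by decide +kernel))
noncomputable def rh6b423afcc975f198 : CRef := CRef.mk (Pat.mk 0x100000001000000030000000700000000 0x20000000300000003000000030000000700000005 3 3) 0 0 (step_sound _ 129 [(rh2f68792b6b779e96.shift 0 1), rh5dbd509ce643a6de] (by decide +kernel))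
noncomputable def rha84357fa6686b26d : CRef := CRef.mk (Pat.mk 0x2000000070000000c0000000400000000 0xc0000001e000000070000000c0000000c00000008 3 5) 0 0 (step_sound _ 130 [(rh712526e472efe489.shift 0 1), (rhd4b4beefcd67f51e.shift 2 0)] (by decide +kernel))
noncomputable def rh9ac2d92c09d7ce5d : CRef := CRef.mk (Pat.mk 0x40000000000000006000000060000000300000000 0x6000000060000000200000006000000060000000300000001 3 3) 0 0 (step_sound _ 129 [(rh82bd946b1709a78e.shift 1 2), rh932754581e0f4330] (by decide +kernel))
noncomputable def rh9b63f7c12f28b716 : CRef := CRef.mk (Pat.mk 0x200000002000000060000000f00000000 0x40000000600000006000000060000000f00000018 3 5) 0 0 (step_sound _ 3 [(rh9511402a8c1709c4.shift 1 0), rhe25b0a99195a5d59] (by decide +kernel))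
noncomputable def rh166d27a1dae4a6ab : CRef := CRef.mk (Pat.mk 0xe00000004000000080000001800000000 0xf0000003c000000080000001800000010 3 6) 0 0 (step_sound _ 99 [(rh55afc6a59410cf00.shift 3 0), (rh6292bd8784ece55f.shift 0 3)] (by decide +kernel))
noncomputable def rh25a1ad798521b87e : CRef := CRef.mk (Pat.mk 0x20000000e0000000c 0x30000003e0000000f 3 6) 0 0 (step_sound _ 36 [(rh3244c3cc8379b070.shift 0 1), rh4dc133ee0ba1420a] (by decide +kernel))
noncomputable def rhce710208d4cc2f5c : CRef := CRef.mk (Pat.mk 0x400000007000000180000000800000008 0x100000003e00000017000000180000001800000008 3 6) 0 0 (step_sound _ 132 [(rh4fd54f6717f3e7ac.shift 0 3), (rhb009278fdd334770.shift 3 0)] (by decide +kernel))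
noncomputable def rh37c7edfd88ec3914 : CRef := CRef.mk (Pat.mk 0x1e0000000400000003 0x1e0000003f00000003 3 6) 0 0 (step_sound _ 33 [rh2ff269158ca0cd3a, (rheb0810cc63b001d8.shift 0 1)] (by decide +kernel))
noncomputable def rh04ad4b925d0ba6cd : CRef := CRef.mk (Pat.mk 0x7000000000000000600000004 0x700000007000000020000000600000006 3 3) 0 0 (step_sound _ 65 [(rh2145e1d24b96a57e.shift 1 0), rh261f868a429ae0e3] (by decide +kernel))
noncomputable def rheacfb60dda22d33d : CRef := CRef.mk (Pat.mk 0x1e0000000400000003 0x1f0000003e00000003 3 6) 0 0 (step_sound _ 36 [rha8f3389e42de7ad2, (rhe25b0a99195a5d59.shift 1 1)] (by decide +kernel))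
noncomputable def rh1a91b9eb8e32063e : CRef := CRef.mk (Pat.mk 0x1e00000000 0x380000001f00000038 3 6) 0 0 (step_sound _ 32 [rh4ad5fc38f1b69f65, (rh9890f9d77740bbed.shift 0 1)] (by decide +kernel))
noncomputable def rhcd6299606635f9e2 : CRef := CRef.mk (Pat.mk 0x40000001e0000000000000002 0x4000000070000001e0000000300000002 3 5) 0 0 (step_sound _ 33 [rh78275b8db2327294, (rheb0810cc63b001d8.shift 0 1)] (by decide +kernel))
noncomputable def rhf871e666d90bcf29 : CRef := CRef.mk (Pat.mk 0x80000003c00000000 0x380000003f00000007 3 6) 0 0 (step_sound _ 33 [rheae1728ff4a56756, (rhec46bd5500c722c9.shift 0 1)] (by decide +kernel))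
noncomputable def rhc554838dd23febb3 : CRef := CRef.mk (Pat.mk 0x80000003c 0x3f0000003f 3 6) 0 0 (step_sound _ 1 [rhd5eb272e07a4e288, rhec46bd5500c722c9] (by decide +kernel))
noncomputable def rh3a8c39a005159e2c : CRef := CRef.mk (Pat.mk 0x180000001a000000080000000000000000 0x40000001f0000001b000000080000000800000008 3 5) 0 0 (step_sound _ 130 [(rh40241bd608e5be1a.shift 2 0), (rh710860539a4c4362.shift 0 3)] (by decide +kernel))
noncomputable def rh303b46e28d2c79de : CRef := CRef.mk (Pat.mk 0x1e0000000800000030 0x3e0000001f00000030 3 6) 0 0 (step_sound _ 33 [(rha35b3b16ce21a761.shift 1 0), (rheb0810cc63b001d8.shift 0 1)] (by decide +kernel))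
noncomputable def rh091d9d8e8cc09897 : CRef := CRef.mk (Pat.mk 0x700000002000000020000000000000000 0x10000000700000007000000020000000200000002 3 3) 0 0 (step_sound _ 33 [rh2e02ae96d64880aa, (rh50fbb5868c909700.shift 0 1)] (by decide +kernel))
noncomputable def rh03148200ae2fbb73 : CRef := CRef.mk (Pat.mk 0x1e000000100000001000000010 0x200000003e000000170000001000000010 3 6) 0 0 (step_sound _ 65 [(rhd9892b94547901dd.shift 1 0), (rheb0810cc63b001d8.shift 0 2)] (by decide +kernel))
noncomputable def rhb395f5d840ae4d8d : CRef := CRef.mk (Pat.mk 0x700000004000000070000000400000000 0x10000000700000007000000070000000600000002 3 3) 0 0 (step_sound _ 33 [(rh932754581e0f4330.shift 1 0), (rhdb2909ac5c854515.shift 0 1)] (by decide +kernel))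
noncomputable def rh7a11af99b17b0a70 : CRef := CRef.mk (Pat.mk 0xf00000001000000020000000000000000 0x40000001f00000003000000020000000200000002 3 5) 0 0 (step_sound _ 97 [(rh18965a982d73c794.shift 0 3), rhb0c1e7919d9be92d] (by decide +kernel))
noncomputable def rh00eb965a943a7739 : CRef := CRef.mk (Pat.mk 0xe000000100000000c0000000800000000 0x80000000f000000180000000c0000000c00000004 3 5) 0 0 (step_sound _ 99 [(rh03dfdf12d5937476.shift 2 0), (rhb739f4f82bb681b4.shift 0 3)] (by decide +kernel))
noncomputable def rh474875b2ab064539 : CRef := CRef.mk (Pat.mk 0x700000006000000040000000400000000 0x50000000700000006000000060000000600000002 3 3) 0 0 (step_sound _ 33 [(rh932754581e0f4330.shift 1 0), (rhd1f9989d6034576a.shift 0 1)] (by decide +kernel))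
noncomputable def rh64b4b204cc48c2cf : CRef := CRef.mk (Pat.mk 0xc0000001e000000180000000800000000 0xc0000001e0000001b0000000f00000006 3 5) 0 0 (step_sound _ 33 [rh3cf2764919f34f47, rh3ea8f185d13574b4] (by decide +kernel))
noncomputable def rh00d8aa4d39605ccc : CRef := CRef.mk (Pat.mk 0x20000001e0000000a0000000200000000 0x20000001e0000003e0000000300000001 3 6) 0 0 (step_sound _ 32 [(rh6316e278ed42189e.shift 0 1), rh932754581e0f4330] (by decide +kernel))
noncomputable def rhf666b85c746523c7 : CRef := CRef.mk (Pat.mk 0x400000004000000100000001800000018 0x400000004000000340000001f00000018 3 6) 0 0 (step_sound _ 34 [rh34517e326ddb5b25, (rhff0f29cb645b05f7.shift 2 0)] (by decide +kernel))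
noncomputable def rh5f8ccb07a6b3855f : CRef := CRef.mk (Pat.mk 0x200000002000000020000000200000002000000020000000000000000 0x200000002000000060000000600000006000000030000000300000001 3 3) 0 0 (step_sound _ 33 [(rh29dbfa0393219db4.shift 1 1), rh7928877f9bf74a91] (by decide +kernel))
noncomputable def rh3d5449bf3f9fe7b3 : CRef := CRef.mk (Pat.mk 0x3000000020000001e 0x30000003e0000001f 3 6) 0 0 (step_sound _ 36 [(rh33e738c4ed385b9f.shift 1 0), rh83b5fed75f19d7cc] (by decide +kernel))
noncomputable def rhcb68da4f2dc5e7fd : CRef := CRef.mk (Pat.mk 0x180000001c000000000000000000000000 0x8000000180000001f000000300000001000000010 3 6) 0 0 (step_sound _ 68 [(rh3cb04db3dd2b6a55.shift 3 0), (rhf56e6bc5d2f7fe77.shift 0 2)] (by decide +kernel))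
noncomputable def rhfe5ab67337d6131f : CRef := CRef.mk (Pat.mk 0x200000002000000020000001e00000000 0x40000000600000006000000020000001e00000003 3 5) 0 0 (step_sound _ 1 [(rh44f453b84f013105.shift 1 0), rheb0810cc63b001d8] (by decide +kernel))
noncomputable def rhb5c361f64e48c28f : CRef := CRef.mk (Pat.mk 0x200000002000000060000000e00000000 0x40000000600000006000000060000000f00000019 3 5) 0 0 (step_sound _ 3 [(rh9511402a8c1709c4.shift 1 0), rh9f67957f47428996] (by decide +kernel))
noncomputable def rh2cfc8c34bad4c294 : CRef := CRef.mk (Pat.mk 0x600000006000000020000000200000000 0x20000000600000006000000070000000700000005 3 3) 0 0 (step_sound _ 161 [rh7928877f9bf74a91, (rheb6520004608cff3.shift 1 0)] (by decide +kernel))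
noncomputable def rhf7ac44032989c9ef : CRef := CRef.mk (Pat.mk 0x4000000060000000600000000 0x40000000400000004000000070000003e00000008 3 6) 0 0 (step_sound _ 35 [(rh571950d89739e871.shift 1 0), (rh79b3c29022acbdf3.shift 0 1)] (by decide +kernel))
noncomputable def rhaf17d7ce619e136e : CRef := CRef.mk (Pat.mk 0x600000016000000000000000000000000 0x4000000070000001e000000030000000200000002 3 5) 0 0 (step_sound _ 65 [(rh51246ab843efda05.shift 0 2), (rhea7a1800d6f053bd.shift 1 0)] (by decide +kernel))
noncomputable def rh54537de9527c3937 : CRef := CRef.mk (Pat.mk 0x40000000500000003000000020000000000000000 0x4000000040000000500000007000000060000000200000002 3 3) 0 0 (step_sound _ 33 [rh7b1f1fb55310c477, (rh88ff8f7539aa90a1.shift 1 1)] (by decide +kernel))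
noncomputable def rhf77d4b883f0eea14 : CRef := CRef.mk (Pat.mk 0x4000000140000000e00000000 0x400000004000000340000001e00000003 3 6) 0 0 (step_sound _ 1 [(rh5c5e593799055d58.shift 1 0), rhee0891bc88ee3f94] (by decide +kernel))
noncomputable def rhd159b9f11adb40ba : CRef := CRef.mk (Pat.mk 0x80000000e00000010 0x380000001f00000030 3 6) 0 0 (step_sound _ 36 [(rhe25b0a99195a5d59.shift 1 0), (rhec46bd5500c722c9.shift 0 1)] (by decide +kernel))
noncomputable def rhc33cd7cdeebea5e1 : CRef := CRef.mk (Pat.mk 0x1c0000000a00000002 0x3e0000007e00000003 3 7) 0 0 (step_sound _ 36 [(rh6292bd8784ece55f.shift 1 1), rh760717e835f8c2f3] (by decide +kernel))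
noncomputable def rh8bdf8fb9c9df5586 : CRef := CRef.mk (Pat.mk 0x16000000060000000200000000 0x3000000030000001e000000060000000600000004 3 5) 0 0 (step_sound _ 129 [(rh52dc0b448901c5de.shift 0 1), (rh55a1f6c57a317ce6.shift 1 0)] (by decide +kernel))
noncomputable def rh8b20b1ef24f2c4de : CRef := CRef.mk (Pat.mk 0x1c0000001c00000000 0x1c0000007f00000007 3 7) 0 0 (step_sound _ 1 [(rhb0463dbec37421a0.shift 1 0), rhd74396e693bc7125] (by decide +kernel))
noncomputable def rh92e8f86a47ca4f2b : CRef := CRef.mk (Pat.mk 0x60000000e000000000000000000000000 0x4000000060000003e000000030000000200000002 3 6) 0 0 (step_sound _ 65 [(rha9e1a5d55b907abf.shift 0 2), (rhea7a1800d6f053bd.shift 1 0)] (by decide +kernel))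
noncomputable def rhe41145ee6040fe45 : CRef := CRef.mk (Pat.mk 0x500000007000000000000000200000000 0x1000000010000000700000007000000020000000200000002 3 3) 0 0 (step_sound _ 65 [(rh71222050f2c63a3a.shift 1 0), (rhc89253ff58c66167.shift 0 1)] (by decide +kernel))
noncomputable def rhb1b2755a6a19b20c : CRef := CRef.mk (Pat.mk 0xc0000001e0000000000000008 0x4000000040000000c0000001e0000000b00000008 3 5) 0 0 (step_sound _ 33 [(rh14496ca70edf5ece.shift 1 0), (rheb0810cc63b001d8.shift 0 1)] (by decide +kernel))
noncomputable def rh4f1f07ff00e8574c : CRef := CRef.mk (Pat.mk 0x100000007800000018 0x3e0000007f00000018 3 7) 0 0 (step_sound _ 34 [rh34517e326ddb5b25, (rhd5eb272e07a4e288.shift 1 1)] (by decide +kernel))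
noncomputable def rh92c13d720c69d2fb : CRef := CRef.mk (Pat.mk 0x80000002c0000000c0000000800000000 0x80000003c0000000f0000001800000010 3 6) 0 0 (step_sound _ 36 [(rh55afc6a59410cf00.shift 3 0), (rh6371dceabc07ce3d.shift 0 1)] (by decide +kernel))
noncomputable def rh7ffbcda9e2e33190 : CRef := CRef.mk (Pat.mk 0x2000000020000000600000006000000000000000000000000 0x100000003000000070000000600000006000000020000000200000002 3 3) 0 0 (step_sound _ 65 [(rh3ca48e2a6d60153d.shift 0 2), (rhea7a1800d6f053bd.shift 1 0)] (by decide +kernel))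
noncomputable def rh950c319ddf224c8d : CRef := CRef.mk (Pat.mk 0x2000000020000000200000002000000020000000400000000 0x200000002000000030000000300000003000000030000000600000004 3 3) 0 0 (step_sound _ 128 [(rh03dfdf12d5937476.shift 0 2), rh4cdb379841a0f429] (by decide +kernel))
noncomputable def rh956200bc081bce13 : CRef := CRef.mk (Pat.mk 0xa0000000a000000020000000200000002 0x40000000f0000001b000000020000000200000002 3 5) 0 0 (step_sound _ 128 [(rhb01df2df6ae952df.shift 0 1), rhffd04209dc8ea796] (by decide +kernel))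
noncomputable def rh282ed8d8f102dc19 : CRef := CRef.mk (Pat.mk 0x600000005000000040000000700000000 0x80000001e00000007000000070000000700000001 3 5) 0 0 (step_sound _ 97 [(rh712526e472efe489.shift 0 1), rhecb97fed8c7f1286] (by decide +kernel))
noncomputable def rha9a87af2238a69fc : CRef := CRef.mk (Pat.mk 0x800000008000000080000000e00000000 0x800000008000000380000001f00000010 3 6) 0 0 (step_sound _ 36 [(rh55afc6a59410cf00.shift 3 0), (rhec46bd5500c722c9.shift 0 1)] (by decide +kernel))
noncomputable def rh987b780eda1b16be : CRef := CRef.mk (Pat.mk 0x800000008000000380000000800000000 0x40000000c0000000f0000003c0000000800000008 3 6) 0 0 (step_sound _ 98 [(rhdbcea10a0fbe5ba6.shift 0 2), (rhe286c75f2739cce2.shift 2 0)] (by decide +kernel))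
noncomputable def rh9d3266848e9c2ac0 : CRef := CRef.mk (Pat.mk 0x20000000f000000010000000000000000 0x2000000020000001f000000030000000100000001 3 5) 0 0 (step_sound _ 32 [rh71222050f2c63a3a, (rha67678a230f0b207.shift 0 1)] (by decide +kernel))
noncomputable def rhf8f87b937a82bdcc : CRef := CRef.mk (Pat.mk 0x30000000080000003800000010 0x8000000780000000f0000003c00000010 3 7) 0 0 (step_sound _ 66 [(rh0e40e213923dfc13.shift 2 0), (rhdbcea10a0fbe5ba6.shift 0 1)] (by decide +kernel))
noncomputable def rh0ae232cce48795b7 : CRef := CRef.mk (Pat.mk 0xf00000002 0x1f0000003b 3 6) 0 0 (step_sound _ 4 [rh474e234485f2465c, rh96851dee118c1ba3] (by decide +kernel))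
noncomputable def rha9f42e38d7a37ecb : CRef := CRef.mk (Pat.mk 0x80000001e000000100000000000000000 0x8000000080000001f000000180000001000000010 3 5) 0 0 (step_sound _ 36 [(rh55cb5b5f992d4e9d.shift 0 1), (rh7b1f1fb55310c477.shift 3 0)] (by decide +kernel))
noncomputable def rhe27f3a99d34d0525 : CRef := CRef.mk (Pat.mk 0x5000000050000000500000000 0x20000000700000007000000050000000500000005 3 3) 0 0 (step_sound _ 129 [rh150947578a63ac51, (rh8b14df1b185c100a.shift 0 1)] (by decide +kernel))
noncomputable def rhace5f246289dffb8 : CRef := CRef.mk (Pat.mk 0x7000000050000000500000000 0x20000000700000007000000050000000500000004 3 3) 0 0 (step_sound _ 129 [(rh7b1f1fb55310c477.shift 1 0), (rh8b14df1b185c100a.shift 0 1)] (by decide +kernel))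
noncomputable def rh45f2f07bb206b5fd : CRef := CRef.mk (Pat.mk 0xa0000000b0000001a00000000 0x40000000c0000001e0000000b0000001a00000012 3 5) 0 0 (step_sound _ 130 [(rh6196b452c518de56.shift 2 0), rha93a0a894dbb079b] (by decide +kernel))
noncomputable def rh62e2ef59a7ae44f9 : CRef := CRef.mk (Pat.mk 0x4000000020000000b0000000a00000000 0x40000001e0000000b0000000a0000000a 3 5) 0 0 (step_sound _ 98 [rh3a9e3d20902516bb, (rh71222050f2c63a3a.shift 1 0)] (by decide +kernel))
noncomputable def rh3f81c9bf6a32c078 : CRef := CRef.mk (Pat.mk 0x20000000200000001000000050000000400000000 0x2000000020000000600000007000000050000000400000004 3 3) 0 0 (step_sound _ 97 [(rh1f1e441d7d62538e.shift 1 0), (rh5c5e593799055d58.shift 0 2)] (by decide +kernel))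
noncomputable def rha32e3a75f17220dd : CRef := CRef.mk (Pat.mk 0x6000000060000000a0000000800000000 0x60000003e0000000b0000000800000008 3 6) 0 0 (step_sound _ 99 [(rh7b1f1fb55310c477.shift 2 0), (rha9e1a5d55b907abf.shift 0 2)] (by decide +kernel))
noncomputable def rh47c80674ab0824ee : CRef := CRef.mk (Pat.mk 0xc00000014000000140000001400000000 0x20000000f0000001c000000140000001400000010 3 5) 0 0 (step_sound _ 99 [(rh277b01412deaec89.shift 0 1), (rh7b1f1fb55310c477.shift 3 0)] (by decide +kernel))
noncomputable def rh64111dda4f00239a : CRef := CRef.mk (Pat.mk 0x60000000a0000000a0000000800000000 0x60000003e0000000b0000000800000008 3 6) 0 0 (step_sound _ 98 [(rh7b1f1fb55310c477.shift 2 0), (rha9e1a5d55b907abf.shift 0 2)] (by decide +kernel))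
noncomputable def rhdd99a5f1523b7423 : CRef := CRef.mk (Pat.mk 0x60000000a0000000a0000000a 0x110000001f0000001b0000000a0000000a 3 5) 0 0 (step_sound _ 99 [rh92dfa4e252fd939c, rhc49ca0b9223e2b96] (by decide +kernel))
noncomputable def rhb24b7e1fadc8438a : CRef := CRef.mk (Pat.mk 0xc000000140000000400000004 0x20000000f0000003c0000000400000004 3 6) 0 0 (step_sound _ 97 [(rh50fbb5868c909700.shift 1 0), (rh7344b4efa7925350.shift 0 2)] (by decide +kernel))
noncomputable def rh382f8963f0a378e5 : CRef := CRef.mk (Pat.mk 0x4000000040000001600000010 0x400000004000000040000001f00000038 3 6) 0 0 (step_sound _ 35 [rh26296021211e31e0, (rhe25b0a99195a5d59.shift 1 0)] (by decide +kernel))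
noncomputable def rh939ab9c1ccba6e4d : CRef := CRef.mk (Pat.mk 0x10000000100000005000000050000000400000000 0x2000000030000000700000005000000070000000600000002 3 3) 0 0 (step_sound _ 130 [rh5dbd282fa88c2eb0, (rhade792e06a060dd4.shift 0 1)] (by decide +kernel))
noncomputable def rh6109952a9d592831 : CRef := CRef.mk (Pat.mk 0xe0000000a0000000a0000000200000000 0x190000000f0000000a0000000e0000000600000004 3 5) 0 0 (step_sound _ 163 [(rh4d4e586abdf65d17.shift 0 1), (rhef50d508512821da.shift 1 0)] (by decide +kernel))
noncomputable def rh0864121c5db8c170 : CRef := CRef.mk (Pat.mk 0x2a0000003c000000080000000000000000 0x80000002b0000003f000000180000001000000010 3 6) 0 0 (step_sound _ 68 [(rh22a65d20d3172694.shift 0 2), (rh3ebc98c19791ad58.shift 3 0)] (by decide +kernel))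
noncomputable def rha79362f4ed781fc9 : CRef := CRef.mk (Pat.mk 0x20000000700000002000000020000000000000000 0x20000000700000007000000060000000600000006 3 3) 0 0 (step_sound _ 33 [rh2e02ae96d64880aa, (rhd29a1fb688eae70f.shift 1 0)] (by decide +kernel))
noncomputable def rh5b49bae9be9e59a0 : CRef := CRef.mk (Pat.mk 0x20000000700000002000000020000000000000000 0x20000000700000007000000030000000300000003 3 3) 0 0 (step_sound _ 33 [rh2e02ae96d64880aa, rh7928877f9bf74a91] (by decide +kernel))
noncomputable def rh65819e2c862420da : CRef := CRef.mk (Pat.mk 0x1400000014000000140000000c00000000 0x1000000014000000140000001c0000000f00000002 3 5) 0 0 (step_sound _ 33 [(rh1439b430a642f7dd.shift 0 1), (rh932754581e0f4330.shift 1 0)] (by decide +kernel))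
noncomputable def rh1784e36706d84b88 : CRef := CRef.mk (Pat.mk 0xa0000000a0000000a0000000600000000 0xa0000000a0000001b0000001f00000011 3 5) 0 0 (step_sound _ 35 [rh0e9804663e9ab184, rh33d01eedb9d8bafb] (by decide +kernel))
noncomputable def rh3e3a0e4b62353dd3 : CRef := CRef.mk (Pat.mk 0x20000000e0000000500000000 0x200000002000000020000001e0000000700000001 3 5) 0 0 (step_sound _ 33 [(rh18965a982d73c794.shift 0 1), rh37d9ceebb86d75d1] (by decide +kernel))
noncomputable def rh055db6938db19010 : CRef := CRef.mk (Pat.mk 0x100000001c00000010 0x380000001f00000018 3 6) 0 0 (step_sound _ 33 [(rh33e738c4ed385b9f.shift 1 1), rhef7515d0e7cb1d2b] (by decide +kernel))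
noncomputable def rhd032edc217a9adf0 : CRef := CRef.mk (Pat.mk 0xc000000180000000a 0xc0000007c0000000f 3 7) 0 0 (step_sound _ 2 [(rh500571fd45750302.shift 1 0), rh53b3c253cb0c65f4] (by decide +kernel))
noncomputable def rh9eddddb89d6a505d : CRef := CRef.mk (Pat.mk 0x1c000000180000000a 0x1f0000001f0000000f 3 5) 0 0 (step_sound _ 33 [(rh710860539a4c4362.shift 0 1), rhda02c4ce0b224328] (by decide +kernel))
noncomputable def rheec755feae78352d : CRef := CRef.mk (Pat.mk 0x700000004000000050000000600000000 0x10000000700000007000000070000001e00000008 3 5) 0 0 (step_sound _ 65 [rh42afa1af9fffa0e1, (rhdb2909ac5c854515.shift 0 1)] (by decide +kernel))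
noncomputable def rh23fb9bcb0fbfb6d7 : CRef := CRef.mk (Pat.mk 0x80000000a0000000a0000000a00000000 0x140000001c0000000f0000000a0000000a00000002 3 5) 0 0 (step_sound _ 98 [(rh75366944d05eec8d.shift 1 0), (rhdab32775f5c78fcf.shift 0 1)] (by decide +kernel))
noncomputable def rh9ee82b97cdeec3bd : CRef := CRef.mk (Pat.mk 0x20000000200000003000000020000000000000000 0x30000000300000003000000030000000300000003 3 2) 0 0 (step_sound _ 33 [rh7928877f9bf74a91, rhe286c75f2739cce2] (by decide +kernel))
noncomputable def rhec24e52a48ce1ed1 : CRef := CRef.mk (Pat.mk 0xe00000006000000020000000200000000 0x190000000f00000006000000060000000600000004 3 5) 0 0 (step_sound _ 163 [(rh4d4e586abdf65d17.shift 0 1), (rh84704cbf4ecfb89e.shift 1 0)] (by decide +kernel))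
noncomputable def rh33c3b913cf582fec : CRef := CRef.mk (Pat.mk 0x2000000020000000300000003000000000000000000000000 0x400000006000000070000000300000003000000020000000200000002 3 3) 0 0 (step_sound _ 65 [rh3cb04db3dd2b6a55, (rh44f453b84f013105.shift 1 2)] (by decide +kernel))
noncomputable def rhbc8a66df3ed8af65 : CRef := CRef.mk (Pat.mk 0x180000000b0000000800000000 0x140000001e0000000b0000000800000008 3 5) 0 0 (step_sound _ 3 [(rh2f68792b6b779e96.shift 3 0), rh3f9dabd3a98bcc1c] (by decide +kernel))
noncomputable def rha31e2286f1ebea1b : CRef := CRef.mk (Pat.mk 0xc0000000c000000080000000000000000 0x100000003c0000000f000000080000000800000008 3 6) 0 0 (step_sound _ 132 [(rh4dc133ee0ba1420a.shift 0 3), (rhb0c1e7919d9be92d.shift 2 0)] (by decide +kernel))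
noncomputable def rh49fa14cb88fd0e82 : CRef := CRef.mk (Pat.mk 0x16000000060000000000000000 0x2000000030000001e000000070000000400000004 3 5) 0 0 (step_sound _ 129 [(rh51246ab843efda05.shift 0 2), (rh55a1f6c57a317ce6.shift 1 0)] (by decide +kernel))
noncomputable def rha077024870a355a3 : CRef := CRef.mk (Pat.mk 0xe000000140000000400000000 0x30000001e000000340000000400000004 3 6) 0 0 (step_sound _ 100 [rh132883a60cd8aed8, (rhe25b0a99195a5d59.shift 1 2)] (by decide +kernel))
noncomputable def rh29245de5933fbe8d : CRef := CRef.mk (Pat.mk 0x40000001c000000040000000400000000 0x2000000070000001e000000040000000400000004 3 5) 0 0 (step_sound _ 129 [(rh50fbb5868c909700.shift 1 1), rheeabf87925ab8a42] (by decide +kernel))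
noncomputable def rh2c9da192bea44cf6 : CRef := CRef.mk (Pat.mk 0x20000000200000003000000020000000000000000 0x30000000300000003000000060000000600000006 3 3) 0 0 (step_sound _ 33 [(rhd29a1fb688eae70f.shift 1 0), rhe286c75f2739cce2] (by decide +kernel))
noncomputable def rhba3fefaa894766da : CRef := CRef.mk (Pat.mk 0x800000007 0x3e0000000f 3 6) 0 0 (step_sound _ 36 [rh3fc040e777f1679e, rh541ba7bf5755edb5] (by decide +kernel))
noncomputable def rhcd6e8ab92f0a4103 : CRef := CRef.mk (Pat.mk 0x200000001000000010000000100000000 0x20000000300000003000000030000000100000001 3 2) 0 0 (step_sound _ 97 [rh71222050f2c63a3a, (rheb4949bdfa5025cf.shift 0 1)] (by decide +kernel))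
noncomputable def rh7441123125caeb79 : CRef := CRef.mk (Pat.mk 0x40000000800000008000000080000000a0000000800000000 0x40000000c00000008000000080000000c0000000f0000001800000010 3 5) 0 0 (step_sound _ 66 [rhbdde238153e38af9, (rhd98729bc66308eae.shift 2 2)] (by decide +kernel))
noncomputable def rh0154bdb644eac556 : CRef := CRef.mk (Pat.mk 0x8000000080000000a00000018 0x800000008000000080000000f0000003c 3 6) 0 0 (step_sound _ 34 [(rh6826f722115a4c88.shift 1 0), rhb739f4f82bb681b4] (by decide +kernel))
noncomputable def rhc37884b8bcc4b237 : CRef := CRef.mk (Pat.mk 0x8000000080000000a0000000800000000 0x800000008000000080000000f0000001c00000014 3 5) 0 0 (step_sound _ 66 [(rh03dfdf12d5937476.shift 2 0), rhbdde238153e38af9] (by decide +kernel))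
noncomputable def rheb84943c662af34d : CRef := CRef.mk (Pat.mk 0x20000000c0000001c 0x30000003f0000001f 3 6) 0 0 (step_sound _ 36 [rh22a65d20d3172694, rhab2ad169e49f9c5e] (by decide +kernel))
noncomputable def rh895a6df74b2928d4 : CRef := CRef.mk (Pat.mk 0x1000000060000000e 0x30000003e0000003f 3 6) 0 0 (step_sound _ 36 [rh72d02d0d631b472e, (rheff610e725081997.shift 1 0)] (by decide +kernel))
noncomputable def rhb00c6cda7b230383 : CRef := CRef.mk (Pat.mk 0x1c000000180000000000000000 0x10000000300000001f000000180000000800000008 3 6) 0 0 (step_sound _ 132 [(rh1e309b005ffa1b36.shift 3 0), (rh34517e326ddb5b25.shift 0 2)] (by decide +kernel))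
noncomputable def rhb9e21f9b3b352a18 : CRef := CRef.mk (Pat.mk 0x400000004000000140000000600000000 0x400000004000000040000001c0000000f00000008 3 5) 0 0 (step_sound _ 35 [(rh4b6e729f69f75d56.shift 0 1), (rh55afc6a59410cf00.shift 2 0)] (by decide +kernel))
noncomputable def rh355644ee8f81c0ca : CRef := CRef.mk (Pat.mk 0x180000007800000010 0x180000007f0000003e 3 7) 0 0 (step_sound _ 34 [(rheae1728ff4a56756.shift 1 0), rhf56e6bc5d2f7fe77] (by decide +kernel))
noncomputable def rhdabfcd0659c2d3c8 : CRef := CRef.mk (Pat.mk 0x200000007000000050000000000000000 0x2000000020000000200000007000000070000000100000001 3 3) 0 0 (step_sound _ 32 [(rh1b9584b0a9395bfc.shift 0 1), rh71222050f2c63a3a] (by decide +kernel))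
noncomputable def rhf3192d8756e251cb : CRef := CRef.mk (Pat.mk 0xa0000001c00000010 0x1b0000001f00000018 3 5) 0 0 (step_sound _ 33 [(rh3244c3cc8379b070.shift 0 1), rh6765e7960b108c8d] (by decide +kernel))
noncomputable def rhcd66880aa8253b24 : CRef := CRef.mk (Pat.mk 0x40000000f00000002 0x3e0000003f00000006 3 6) 0 0 (step_sound _ 36 [(rh7b030ba967bf927e.shift 1 0), (rh9890f9d77740bbed.shift 0 1)] (by decide +kernel))
noncomputable def rhd7d6cfa7727a2776 : CRef := CRef.mk (Pat.mk 0x800000038000000080000000800000000 0x8000000080000003c0000000f0000000c00000004 3 6) 0 0 (step_sound _ 66 [(rh03dfdf12d5937476.shift 2 0), (rh1ed7a3503fa50fc8.shift 0 2)] (by decide +kernel))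
noncomputable def rheddd3d8f7db62149 : CRef := CRef.mk (Pat.mk 0x1e0000000400000004 0x2000000070000003e0000000400000004 3 6) 0 0 (step_sound _ 97 [(rh3244c3cc8379b070.shift 0 2), (rh6279f4d0e372f7fa.shift 1 0)] (by decide +kernel))
noncomputable def rh9a156db74dae0595 : CRef := CRef.mk (Pat.mk 0x200000007000000040000000600000000 0x80000001e00000007000000040000000600000002 3 5) 0 0 (step_sound _ 130 [(rh712526e472efe489.shift 0 1), (rh932754581e0f4330.shift 1 0)] (by decide +kernel))
noncomputable def rhdbc566a19c652eb2 : CRef := CRef.mk (Pat.mk 0x1000000038000000080000003000000000 0x100000003c0000000f0000007800000008 3 7) 0 0 (step_sound _ 66 [(rh1ed7a3503fa50fc8.shift 0 2), (rhf2eb06c6b46c6fb8.shift 2 0)] (by decide +kernel))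
noncomputable def rhbb6a43af3da63556 : CRef := CRef.mk (Pat.mk 0x200000007000000050000000600000000 0x700000007000000050000000700000003 3 3) 0 0 (step_sound _ 1 [(rh5c5e593799055d58.shift 1 0), rhed79ced5a567ef15] (by decide +kernel))
noncomputable def rh13cff1aaa4924947 : CRef := CRef.mk (Pat.mk 0x1e0000000800000008 0x10000000380000001f0000000800000008 3 6) 0 0 (step_sound _ 100 [(rh33e738c4ed385b9f.shift 1 2), rh6835955021d3aba9] (by decide +kernel))
noncomputable def rh99b039cfbb06b042 : CRef := CRef.mk (Pat.mk 0x40000000500000001000000020000000200000000 0x4000000040000000500000007000000060000000200000002 3 3) 0 0 (step_sound _ 97 [rh7b1f1fb55310c477, (rh88ff8f7539aa90a1.shift 1 1)] (by decide +kernel))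
noncomputable def rh35f6e365521131e7 : CRef := CRef.mk (Pat.mk 0xa0000000b0000000a0000000000000000 0x20000000a0000000b0000001e0000000e00000004 3 5) 0 0 (step_sound _ 34 [(rh93e23ea63605137f.shift 0 1), (rhe38ad39d05c44887.shift 1 0)] (by decide +kernel))
noncomputable def rhcb70e1b2667f61ac : CRef := CRef.mk (Pat.mk 0xa0000000b0000000a00000000 0xa0000000a0000000b0000001e00000004 3 5) 0 0 (step_sound _ 34 [(rh5fc67bac28a8b5bb.shift 1 0), (rhf48373e13d2bc128.shift 0 1)] (by decide +kernel))
noncomputable def rh721afcb8e9f735cc : CRef := CRef.mk (Pat.mk 0xa0000000b0000000600000000 0xa0000000a0000000b0000001e00000004 3 5) 0 0 (step_sound _ 2 [(rh2145e1d24b96a57e.shift 1 0), rh7b6afa71f9aeb7f3] (by decide +kernel))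
noncomputable def rh8c82fb0d205db583 : CRef := CRef.mk (Pat.mk 0x800000008000000180000000c 0x800000008000000080000003c0000000f 3 6) 0 0 (step_sound _ 1 [rh53b3c253cb0c65f4, (rh74ce5438b995c2cf.shift 1 0)] (by decide +kernel))
noncomputable def rh59799d3582b0c64a : CRef := CRef.mk (Pat.mk 0x800000008000000180000000c 0x80000000800000008000000380000001f 3 6) 0 0 (step_sound _ 1 [rh53b3c253cb0c65f4, (rh672310f5df171afe.shift 1 0)] (by decide +kernel))
noncomputable def rha66b7dbe161991d1 : CRef := CRef.mk (Pat.mk 0x80000000a0000000600000006 0x8000000080000000b0000003e00000006 3 6) 0 0 (step_sound _ 35 [(rh5c5e593799055d58.shift 2 0), rhb762f327c85d41a0] (by decide +kernel))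
noncomputable def rh4736e33ddf9c57a1 : CRef := CRef.mk (Pat.mk 0x400000004000000140000000c00000000 0x4000000040000003c0000000f00000002 3 6) 0 0 (step_sound _ 33 [(rh7dcd5319f4f71bec.shift 0 1), (rh932754581e0f4330.shift 1 0)] (by decide +kernel))
noncomputable def rha56f4c4626a53b18 : CRef := CRef.mk (Pat.mk 0x50000000500000007000000000000000000000000 0x4000000050000000500000007000000030000000200000002 3 3) 0 0 (step_sound _ 65 [rh45fa90edadfa0251, (rh5c5e593799055d58.shift 1 2)] (by decide +kernel))
noncomputable def rh79d2d2d05d30a4b0 : CRef := CRef.mk (Pat.mk 0x500000005000000050000000100000000 0x2000000060000000700000005000000070000000300000002 3 3) 0 0 (step_sound _ 162 [(rhb2f8cf715f80bee2.shift 0 1), rhef50d508512821da] (by decide +kernel))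
noncomputable def rhb9145a3cd45f4975 : CRef := CRef.mk (Pat.mk 0x5000000050000000500000003 0x20000000600000007000000050000000700000003 3 3) 0 0 (step_sound _ 129 [rhbaefcd01e0a8bca3, (rhd98729bc66308eae.shift 1 0)] (by decide +kernel))
noncomputable def rhd27cbd481e65015c : CRef := CRef.mk (Pat.mk 0xa0000000a0000000a0000000200000000 0x80000000a0000000a0000001e0000000700000005 3 5) 0 0 (step_sound _ 66 [rh157b220518f94713, (rh665ec0aeeddb6f99.shift 1 0)] (by decide +kernel))
noncomputable def rhc38efdf8a82a4029 : CRef := CRef.mk (Pat.mk 0x1600000004000000040000000400000000 0x80000001e00000007000000040000000400000004 3 5) 0 0 (step_sound _ 97 [(rh7b1f1fb55310c477.shift 1 0), (rh8d930ef2202f3fb0.shift 0 1)] (by decide +kernel))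
noncomputable def rh2191f4291a5eebdf : CRef := CRef.mk (Pat.mk 0x20000000a0000000a0000000e0000000000000000 0x4000000060000000e0000000a0000000f0000001800000010 3 5) 0 0 (step_sound _ 35 [(rhade792e06a060dd4.shift 1 1), rhbdde238153e38af9] (by decide +kernel))
noncomputable def rh01450d5fb00cd85b : CRef := CRef.mk (Pat.mk 0x80000001c0000000a0000000000000000 0x10000000180000001f0000000b0000000800000008 3 5) 0 0 (step_sound _ 132 [(rhd74396e693bc7125.shift 0 2), (rhea7a1800d6f053bd.shift 3 0)] (by decide +kernel))
noncomputable def rh8fa618f359c055c7 : CRef := CRef.mk (Pat.mk 0x2000000020000000700000002 0x60000000600000006000000070000000700000002 3 3) 0 0 (step_sound _ 129 [(rh2f6cd3183cec8379.shift 0 1), (rh44f453b84f013105.shift 1 0)] (by decide +kernel))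
noncomputable def rh566164537f328d1a : CRef := CRef.mk (Pat.mk 0x2000000020000000700000002 0x30000000300000003000000070000000700000002 3 3) 0 0 (step_sound _ 129 [(rh2f6cd3183cec8379.shift 0 1), rh3ca48e2a6d60153d] (by decide +kernel))
noncomputable def rh4795b9e44fef6e27 : CRef := CRef.mk (Pat.mk 0x20000000200000007000000020000000000000000 0x1000000070000000700000007000000020000000200000002 3 3) 0 0 (step_sound _ 33 [rh261f868a429ae0e3, (rh3ca48e2a6d60153d.shift 0 1), (rha707fb719e87fe6e.shift 1 0), rhe286c75f2739cce2] (by decide +kernel))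
noncomputable def rh25e6ff2107f1496b : CRef := CRef.mk (Pat.mk 0x1a0000001c00000004 0x2000000030000001e0000003f00000004 3 6) 0 0 (step_sound _ 97 [(rh314e1e4c16249a21.shift 0 1), rhc345525c2b4acbf8] (by decide +kernel))
noncomputable def rh286c43ff135d2c48 : CRef := CRef.mk (Pat.mk 0x7000000050000000500000000 0x20000000700000007000000050000000500000001 3 3) 0 0 (step_sound _ 129 [rh71222050f2c63a3a, (rh8b14df1b185c100a.shift 0 1)] (by decide +kernel))
noncomputable def rhd7f025ab3fc6fe79 : CRef := CRef.mk (Pat.mk 0xa0000000a0000000a0000000a 0x140000001e0000000b0000000a0000000a 3 5) 0 0 (step_sound _ 98 [(rh2f68792b6b779e96.shift 1 0), rhc49ca0b9223e2b96] (by decide +kernel))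
noncomputable def rh7c54922dcc04cd2b : CRef := CRef.mk (Pat.mk 0x50000000e000000020000000000000000 0x1000000070000001e000000020000000200000002 3 5) 0 0 (step_sound _ 33 [(rh6279f4d0e372f7fa.shift 0 1), (rh71222050f2c63a3a.shift 1 0)] (by decide +kernel))
noncomputable def rh9909eeda0ef2ed2c : CRef := CRef.mk (Pat.mk 0xe00000008 0x1f0000003c 3 6) 0 0 (step_sound _ 4 [(rhae2edff970a530ce.shift 1 0), rhb739f4f82bb681b4] (by decide +kernel))
noncomputable def rh5dd444571d34c674 : CRef := CRef.mk (Pat.mk 0x1800000014000000100000001000000000 0x380000001f000000100000001000000010 3 6) 0 0 (step_sound _ 99 [(rh7b1f1fb55310c477.shift 3 0), (rhab2ad169e49f9c5e.shift 0 3)] (by decide +kernel))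
noncomputable def rhdda7ed8398654d39 : CRef := CRef.mk (Pat.mk 0x80000000a0000000800000008000000080000000400000000 0x10000000180000000f0000000c00000008000000080000000c00000004 3 5) 0 0 (step_sound _ 162 [(rh7b39ca72a85b3dac.shift 2 0), (rhdab32775f5c78fcf.shift 0 3)] (by decide +kernel))
noncomputable def rhb894c93bbc82b7ea : CRef := CRef.mk (Pat.mk 0x1c0000000a00000002 0x3f0000003e00000003 3 6) 0 0 (step_sound _ 36 [rh760717e835f8c2f3, (rhad5d8fc3675c15dd.shift 0 1)] (by decide +kernel))
noncomputable def rh94f1a52185fc620a : CRef := CRef.mk (Pat.mk 0x60000000c000000040000000400000000 0x70000003e000000040000000400000004 3 6) 0 0 (step_sound _ 97 [(rh79b3c29022acbdf3.shift 0 3), (rh7b1f1fb55310c477.shift 1 0)] (by decide +kernel))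
noncomputable def rh36c1fbc148658e34 : CRef := CRef.mk (Pat.mk 0x30000000500000005000000050000000000000000 0x30000000700000005000000070000000600000002 3 3) 0 0 (step_sound _ 33 [(rh7b39ca72a85b3dac.shift 1 0), (rhd3458b32566d63f7.shift 0 1)] (by decide +kernel))
noncomputable def rhfc7885cbf64dae3d : CRef := CRef.mk (Pat.mk 0x20000000a0000001c 0x30000003e0000003f 3 6) 0 0 (step_sound _ 36 [rh314e1e4c16249a21, rhab2ad169e49f9c5e] (by decide +kernel))
noncomputable def rh37774cec3643f560 : CRef := CRef.mk (Pat.mk 0x4000000020000000200000002000000020000000200000000 0x400000006000000030000000300000003000000030000000200000002 3 3) 0 0 (step_sound _ 96 [(rhd6ece6133e39c38f.shift 0 2), rhe286c75f2739cce2] (by decide +kernel))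
noncomputable def rh45bfa9e7c421a397 : CRef := CRef.mk (Pat.mk 0x100000001c00000010 0x180000001f00000038 3 6) 0 0 (step_sound _ 33 [(rhe25b0a99195a5d59.shift 1 0), rhef7515d0e7cb1d2b] (by decide +kernel))
noncomputable def rhb4a3999b927db1fe : CRef := CRef.mk (Pat.mk 0x40000000500000005000000010000000100000000 0x2000000060000000700000005000000070000000300000002 3 3) 0 0 (step_sound _ 66 [(rhb2f8cf715f80bee2.shift 0 1), rhef50d508512821da] (by decide +kernel))
noncomputable def rhfbe1c19d5e6ac344 : CRef := CRef.mk (Pat.mk 0x1000000016000000040000000400000000 0x380000001f000000040000000400000004 3 6) 0 0 (step_sound _ 99 [(rh33e738c4ed385b9f.shift 1 3), rhd1ef135791fc97b9] (by decide +kernel))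
noncomputable def rh0621c7385865f5e8 : CRef := CRef.mk (Pat.mk 0x10000000400000007000000020000000000000000 0x1000000010000000500000007000000030000000200000002 3 3) 0 0 (step_sound _ 33 [(rh71222050f2c63a3a.shift 1 0), (rhdf6eda84f2eabc48.shift 0 1)] (by decide +kernel))
noncomputable def rhb37e485dff1e07aa : CRef := CRef.mk (Pat.mk 0xc000000080000000e 0xc000000780000001f 3 7) 0 0 (step_sound _ 36 [rh53b3c253cb0c65f4, (rh85ab58ad6384baf3.shift 1 0)] (by decide +kernel))
noncomputable def rh5fc78e7870faec40 : CRef := CRef.mk (Pat.mk 0x2000000000000000e00000004 0x200000002000000030000003e00000007 3 6) 0 0 (step_sound _ 36 [rh756bf0ac35c4fb2d, rhaf9f2efc81a8312b] (by decide +kernel))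
noncomputable def rh97881daf8cdbd57b : CRef := CRef.mk (Pat.mk 0x1000000140000000e 0x30000001f0000003f 3 6) 0 0 (step_sound _ 33 [rh72d02d0d631b472e, rh79b3c29022acbdf3] (by decide +kernel))
noncomputable def rh5a3d9738df9b01e3 : CRef := CRef.mk (Pat.mk 0x10000000500000005000000050000000200000000 0x2000000030000000700000005000000050000000600000002 3 3) 0 0 (step_sound _ 34 [(rh932754581e0f4330.shift 1 0), (rhade792e06a060dd4.shift 0 1)] (by decide +kernel))
noncomputable def rh256e40981049d95d : CRef := CRef.mk (Pat.mk 0x20000000a0000000a0000000a00000000 0x4000000070000001e0000000b0000000a00000008 3 5) 0 0 (step_sound _ 98 [(rhb47d83e3a04422c3.shift 1 0), (rhd9106766b9ff53c0.shift 0 2)] (by decide +kernel))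
noncomputable def rhcc1a6f93569113d3 : CRef := CRef.mk (Pat.mk 0x30000000280000003800000020 0x40000000780000002f0000003c00000020 3 7) 0 0 (step_sound _ 66 [(rhc0daf918bbfda8d7.shift 2 0), (rhdbcea10a0fbe5ba6.shift 0 1)] (by decide +kernel))
noncomputable def rh9290e062b07aaa45 : CRef := CRef.mk (Pat.mk 0x60000000b0000000a00000000 0x400000004000000060000001e0000000b0000000a00000008 3 5) 0 0 (step_sound _ 130 [rh3a9e3d20902516bb, (rhbfb5770941270498.shift 1 1)] (by decide +kernel))
noncomputable def rh6759a8bbc457c8e7 : CRef := CRef.mk (Pat.mk 0x200000006000000060000000600000000 0x40000000600000006000000070000003e00000008 3 6) 0 0 (step_sound _ 35 [(rh79b3c29022acbdf3.shift 0 1), (rh8eecbcd87de0d74d.shift 1 0)] (by decide +kernel))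
noncomputable def rh87a15eec1d4bbc28 : CRef := CRef.mk (Pat.mk 0xa0000000b0000000a00000000 0x40000000e0000001e0000000b0000000a00000002 3 5) 0 0 (step_sound _ 130 [(rh8b14df1b185c100a.shift 1 1), rha93a0a894dbb079b] (by decide +kernel))
noncomputable def rhbd683bc8f73ffcd8 : CRef := CRef.mk (Pat.mk 0xe000000080000000a0000000c 0x130000001e0000000e0000000e0000000c 3 5) 0 0 (step_sound _ 129 [(rh3e29a521a8bdce11.shift 1 0), rh4f7106e6f46c2542] (by decide +kernel))
noncomputable def rhff30192e7e3949f2 : CRef := CRef.mk (Pat.mk 0xc000000100000001400000018 0x40000000c0000003c0000001f00000018 3 6) 0 0 (step_sound _ 35 [rh34517e326ddb5b25, (rhdb2909ac5c854515.shift 2 0)] (by decide +kernel))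
noncomputable def rhc0eda32cdef19d21 : CRef := CRef.mk (Pat.mk 0x1c000000100000001000000010 0x200000003e000000370000001000000010 3 6) 0 0 (step_sound _ 65 [(rhc8b21ffc3825c72d.shift 0 2), (rhd9892b94547901dd.shift 1 0)] (by decide +kernel))
noncomputable def rh4a79a0e991fdb85d : CRef := CRef.mk (Pat.mk 0x400000003000000030000000200000000 0x60000000600000003000000030000000300000001 3 3) 0 0 (step_sound _ 129 [rh1e309b005ffa1b36, (rh2f68792b6b779e96.shift 1 1)] (by decide +kernel))
noncomputable def rh899f885acab7361f : CRef := CRef.mk (Pat.mk 0x4000000040000000600000014 0x40000000400000004000000070000003e 3 6) 0 0 (step_sound _ 1 [(rh5c5e593799055d58.shift 1 0), rhfd0f316c42bbba52] (by decide +kernel))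
noncomputable def rh7e64d7b7c31b8053 : CRef := CRef.mk (Pat.mk 0x60000000a000000080000000800000000 0x100000001e0000001f000000080000000800000008 3 5) 0 0 (step_sound _ 132 [(rh2e02ae96d64880aa.shift 2 0), (rha5e792840d70b272.shift 0 1)] (by decide +kernel))
noncomputable def rhec27e8300e40ac9e : CRef := CRef.mk (Pat.mk 0x10000000380000001c00000008 0x4000000360000003f0000001c00000008 3 6) 0 0 (step_sound _ 66 [(rh309fd0c3d364cd61.shift 1 0), (rh34517e326ddb5b25.shift 0 1)] (by decide +kernel))
noncomputable def rh332036fc5e7a15a7 : CRef := CRef.mk (Pat.mk 0x80000000e000000060000000000000000 0x20000000b0000003e000000060000000400000004 3 6) 0 0 (step_sound _ 129 [(rh3ebc98c19791ad58.shift 1 0), (rhb762f327c85d41a0.shift 0 2)] (by decide +kernel))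
noncomputable def rh37b3c0214c205de8 : CRef := CRef.mk (Pat.mk 0x180000000a00000006 0x380000003f00000006 3 6) 0 0 (step_sound _ 34 [(rh53b3c253cb0c65f4.shift 0 1), (rh8284118167888cf9.shift 1 0)] (by decide +kernel))
noncomputable def rhf8f1c70b1c0d3608 : CRef := CRef.mk (Pat.mk 0x20000000200000002000000020000000200000002 0x100000003000000030000000600000006000000060000000200000002 3 3) 0 0 (step_sound _ 193 [(rh29dbfa0393219db4.shift 1 0), (rh3ca48e2a6d60153d.shift 0 2)] (by decide +kernel))
noncomputable def rhc9af331fef9eb9f9 : CRef := CRef.mk (Pat.mk 0x10000000100000001400000018 0x1000000010000000100000001f00000038 3 6) 0 0 (step_sound _ 35 [(rh5c5e593799055d58.shift 3 0), rhad5d8fc3675c15dd] (by decide +kernel))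
noncomputable def rhd9f8c390d5d490f4 : CRef := CRef.mk (Pat.mk 0x1000000010000000100000001e00000000 0x1000000010000000100000003e00000027 3 6) 0 0 (step_sound _ 1 [(rh29be723380cc2dcf.shift 1 0), rheb0810cc63b001d8] (by decide +kernel))
noncomputable def rh105b1a9abc2a0670 : CRef := CRef.mk (Pat.mk 0xc0000000a000000080000000e00000000 0xc0000000e0000000e0000001e00000013 3 5) 0 0 (step_sound _ 1 [(rhe406125cef78e451.shift 1 0), rhfe26b971575d20c5] (by decide +kernel))
noncomputable def rh70961b7b9a002b34 : CRef := CRef.mk (Pat.mk 0x1800000014000000100000000c00000000 0x180000001f0000003c0000000c00000004 3 6) 0 0 (step_sound _ 99 [(rhecb97fed8c7f1286.shift 2 0), (rhf56e6bc5d2f7fe77.shift 0 2)] (by decide +kernel))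
noncomputable def rhec155f76c26177c7 : CRef := CRef.mk (Pat.mk 0x1c0000002800000002 0x3e0000003f00000006 3 6) 0 0 (step_sound _ 34 [(rh4dc133ee0ba1420a.shift 0 1), (rh55b942b46ad56618.shift 1 0)] (by decide +kernel))
noncomputable def rh67d48f419126b414 : CRef := CRef.mk (Pat.mk 0x2000000038000000280000003000000000 0x200000003c0000002f0000007800000040 3 7) 0 0 (step_sound _ 66 [(rh108c38f0bb06ddca.shift 2 0), (rh1ed7a3503fa50fc8.shift 0 2)] (by decide +kernel))
noncomputable def rhc33a122286ca3b89 : CRef := CRef.mk (Pat.mk 0x1400000006000000040000000400000000 0x3e00000007000000040000000400000004 3 6) 0 0 (step_sound _ 129 [(rh7b1f1fb55310c477.shift 1 0), (rhd11dc6dd83191698.shift 0 3)] (by decide +kernel))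
noncomputable def rhb98f3a634582a9d7 : CRef := CRef.mk (Pat.mk 0x8000000080000000a0000000600000000 0x800000008000000080000001f0000001e00000010 3 5) 0 0 (step_sound _ 36 [(rh2f6cd3183cec8379.shift 2 1), rhc3a59a83e7b52d33] (by decide +kernel))
noncomputable def rhd72d3ccf57320452 : CRef := CRef.mk (Pat.mk 0x60000000c00000010 0x70000003e00000030 3 6) 0 0 (step_sound _ 36 [rhc6055bb2ecf924ac, (rhf48373e13d2bc128.shift 1 1)] (by decide +kernel))
noncomputable def rh35470ceaa270cce2 : CRef := CRef.mk (Pat.mk 0xa000000180000000c 0xf0000007c0000000c 3 7) 0 0 (step_sound _ 37 [(rh18965a982d73c794.shift 2 0), (rhc30259bd62f0e380.shift 0 1)] (by decide +kernel))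
noncomputable def rh48ac5493fe9116e0 : CRef := CRef.mk (Pat.mk 0xa000000180000001c 0xf0000001f0000001f 3 5) 0 0 (step_sound _ 33 [rh5c36e97be8af272f, rhb7674d85f64945d6, (rhd8be3b7ca6adb62f.shift 0 1)] (by decide +kernel))
noncomputable def rha614af53a5db1f25 : CRef := CRef.mk (Pat.mk 0x400000008000000080000000b0000000000000000 0x40000000c000000080000000f0000001800000010 3 5) 0 0 (step_sound _ 35 [rh5f11ee373cbffcaa, (rhffd04209dc8ea796.shift 2 1)] (by decide +kernel))
noncomputable def rhc274c15ae0e52e8c : CRef := CRef.mk (Pat.mk 0xa0000000a0000000a0000000a00000000 0xa0000000a0000000b0000001e00000014 3 5) 0 0 (step_sound _ 34 [rh0e9804663e9ab184, (rh55afc6a59410cf00.shift 1 0)] (by decide +kernel))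
noncomputable def rh551f36dd2a96f0b0 : CRef := CRef.mk (Pat.mk 0x1000000010000000100000001000000010000000100000000 0x100000001000000030000000300000003000000010000000100000001 3 2) 0 0 (step_sound _ 129 [rh21683067a8759131, (rh2f68792b6b779e96.shift 0 1)] (by decide +kernel))
noncomputable def rhe15164ba884db0cb : CRef := CRef.mk (Pat.mk 0x20000000e000000060000000200000000 0x20000003e0000003e0000000300000001 3 6) 0 0 (step_sound _ 68 [rh84f01cf2134210c0, (rhbca71ab025ef4262.shift 1 2)] (by decide +kernel))
noncomputable def rh3a6c1689b3bee428 : CRef := CRef.mk (Pat.mk 0x80000000c0000000e000000000000000000000000 0xc0000000c0000000f000000180000001800000008 3 5) 0 0 (step_sound _ 67 [(rh3cb04db3dd2b6a55.shift 2 0), (rhbdde238153e38af9.shift 0 1)] (by decide +kernel))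
noncomputable def rh261dc2dc933a7b8b : CRef := CRef.mk (Pat.mk 0x20000000a0000000a000000080000000400000000 0x130000001e0000000b000000080000000c00000004 3 5) 0 0 (step_sound _ 132 [(rh01e48cd9f335aa73.shift 0 3), (rh8c01e5409b730b8b.shift 2 0)] (by decide +kernel))
noncomputable def rh48c198951d50ec58 : CRef := CRef.mk (Pat.mk 0x20000000200000002000000020000000e 0x100000003000000030000000200000003000000030000001e 3 5) 0 0 (step_sound _ 161 [rh240c9adf3134b9e2, (rh3ca48e2a6d60153d.shift 0 1)] (by decide +kernel))
noncomputable def rh66905ecf78b94b4b : CRef := CRef.mk (Pat.mk 0x20000000200000002000000020000000e 0x400000006000000060000000200000003000000030000001e 3 5) 0 0 (step_sound _ 161 [rh240c9adf3134b9e2, (rh44f453b84f013105.shift 1 1)] (by decide +kernel))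
noncomputable def rh35e781682c635410 : CRef := CRef.mk (Pat.mk 0x1800000010000000080000001c 0x80000001800000010000000380000001f 3 6) 0 0 (step_sound _ 36 [(rh50fbb5868c909700.shift 3 0), rhab2ad169e49f9c5e] (by decide +kernel))
noncomputable def rh64dc83248a382cff : CRef := CRef.mk (Pat.mk 0x200000012000000120000000e00000000 0x1200000012000000320000001f00000019 3 6) 0 0 (step_sound _ 3 [rh9f67957f47428996, (rha7c0d53f5e6c6372.shift 1 0)] (by decide +kernel))
noncomputable def rh459abeb1b0542bfa : CRef := CRef.mk (Pat.mk 0x30000000800000007 0x30000003e0000000f 3 6) 0 0 (step_sound _ 36 [rh3fc040e777f1679e, rhe8cc1c5601213ea4] (by decide +kernel))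
noncomputable def rha3204d5dbf1e6777 : CRef := CRef.mk (Pat.mk 0x180000000800000038 0x180000001f00000078 3 7) 0 0 (step_sound _ 34 [rhb75a95a254d02bf0, (rhf48373e13d2bc128.shift 2 0)] (by decide +kernel))
noncomputable def rhe3458ab40071103b : CRef := CRef.mk (Pat.mk 0x3000000010000000100000000 0x20000000300000003000000030000000100000001 3 2) 0 0 (step_sound _ 129 [rh71222050f2c63a3a, (rheb4949bdfa5025cf.shift 0 1)] (by decide +kernel))
noncomputable def rh28107c44fe017516 : CRef := CRef.mk (Pat.mk 0x2000000060000000e 0x30000003e0000003f 3 6) 0 0 (step_sound _ 36 [rh11f1db28d72ca2e7, (rheff610e725081997.shift 1 0)] (by decide +kernel))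
noncomputable def rhe0b6922e710db782 : CRef := CRef.mk (Pat.mk 0x700000007000000010000000000000000 0x50000000700000007000000030000000300000003 3 3) 0 0 (step_sound _ 33 [rh403e55a9007f792d, rh9b4df57cddcda711, (rhd1f9989d6034576a.shift 0 1)] (by decide +kernel))
noncomputable def rh1e42fc0fd1882d44 : CRef := CRef.mk (Pat.mk 0x2000000060000000e000000000000000400000000 0x2000000060000001e000000030000000700000006 3 5) 0 0 (step_sound _ 65 [(rh157b220518f94713.shift 0 1), (rh9b4df57cddcda711.shift 1 0)] (by decide +kernel))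
noncomputable def rh0e0bdb128162e444 : CRef := CRef.mk (Pat.mk 0x2000000060000001e00000000 0x30000000300000003000000060000001e00000003 3 5) 0 0 (step_sound _ 128 [rhf221129318455305, (rhf627eb01e9e8db9a.shift 0 1)] (by decide +kernel))
noncomputable def rhe3e8c074aa83e8bd : CRef := CRef.mk (Pat.mk 0x1c0000001c00000000 0x1c0000007f00000070 3 7) 0 0 (step_sound _ 5 [rh8d917b916e5f3510, (rh8ef9dd588f33bbde.shift 2 0)] (by decide +kernel))
noncomputable def rh8f1158d9f5036793 : CRef := CRef.mk (Pat.mk 0xc0000000c000000040000000000000000 0x20000000f0000003c000000040000000400000004 3 6) 0 0 (step_sound _ 129 [(rh40241bd608e5be1a.shift 1 0), (rh6292bd8784ece55f.shift 0 3)] (by decide +kernel))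
noncomputable def rhee6a2840b930d427 : CRef := CRef.mk (Pat.mk 0x8000000000000001c00000018 0x1800000018000000300000001f00000018 3 6) 0 0 (step_sound _ 68 [(rh16567ae718d9fd54.shift 3 0), rh34517e326ddb5b25] (by decide +kernel))
noncomputable def rhc5b6c3e7bb45db36 : CRef := CRef.mk (Pat.mk 0x180000001e00000000 0x1c000000fe00000007 3 8) 0 0 (step_sound _ 37 [(rh79b3c29022acbdf3.shift 2 1), rheae1728ff4a56756] (by decide +kernel))
noncomputable def rh42a1016b2f2c2f3f : CRef := CRef.mk (Pat.mk 0xe0000000c0000000000000008 0x300000003e0000000f0000000800000008 3 6) 0 0 (step_sound _ 100 [(rh4dc133ee0ba1420a.shift 0 2), (rh63bb75a038171f49.shift 1 0)] (by decide +kernel))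
noncomputable def rhdc2f50c792a947f0 : CRef := CRef.mk (Pat.mk 0x10000000020000000e00000008 0x1000000010000000330000001e00000008 3 6) 0 0 (step_sound _ 36 [(rh3244c3cc8379b070.shift 0 1), (rh5ebae181afaa248a.shift 1 0)] (by decide +kernel))
noncomputable def rhacc6d81309980c86 : CRef := CRef.mk (Pat.mk 0x1e0000001c000000080000000000000000 0x30000001e0000001c0000000c0000000c0000000c 3 5) 0 0 (step_sound _ 34 [(rh0da3f8d18d3a0dfd.shift 0 1), (rh5769ed4fe2fe4c14.shift 2 0), (rh5ddbeed5d869bf16.shift 2 0), (rhc93583770a36d0f1.shift 1 0)] (by decide +kernel))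
noncomputable def rh4bb890e0ba8c5a6b : CRef := CRef.mk (Pat.mk 0xe000000060000000200000002 0x30000003f000000060000000200000002 3 6) 0 0 (step_sound _ 100 [(rh18965a982d73c794.shift 1 2), rha25c0e62bb8d55c9] (by decide +kernel))
noncomputable def rhcec4a60e90085f66 : CRef := CRef.mk (Pat.mk 0x6000000060000000200000006 0x10000000300000007000000060000000600000006 3 3) 0 0 (step_sound _ 128 [rh9edc7beb66049681, rhffd04209dc8ea796] (by decide +kernel))
noncomputable def rhb7d8158a86f5db49 : CRef := CRef.mk (Pat.mk 0x100000001e000000080000000000000000 0x10000000180000001f000000080000000800000008 3 5) 0 0 (step_sound _ 35 [(rh6835955021d3aba9.shift 0 1), (rh71222050f2c63a3a.shift 3 0)] (by decide +kernel))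
noncomputable def rh1bf44ebefabc2f91 : CRef := CRef.mk (Pat.mk 0x80000001e000000100000000000000000 0x8000000180000001f000000100000001000000010 3 5) 0 0 (step_sound _ 36 [(rh432c477e19b8a62d.shift 0 1), (rh7b1f1fb55310c477.shift 3 0)] (by decide +kernel))
noncomputable def rh817202e9645d07db : CRef := CRef.mk (Pat.mk 0xfc00000000 0x7000000fe00000038 3 8) 0 0 (step_sound _ 33 [(rh25ff186c2b17a418.shift 1 0), (rhd5eb272e07a4e288.shift 0 1)] (by decide +kernel))
noncomputable def rhb3181cade1db963e : CRef := CRef.mk (Pat.mk 0x2000000060000001200000003 0x20000000200000002000000060000001e00000007 3 5) 0 0 (step_sound _ 34 [rh361cc68994bd8a63, (rh3e595262c1b737ad.shift 1 0)] (by decide +kernel))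
noncomputable def rhb91352555acd317c : CRef := CRef.mk (Pat.mk 0xc0000000d0000000800000000 0x8000000080000000c0000000f0000001c00000014 3 5) 0 0 (step_sound _ 131 [(rh1e309b005ffa1b36.shift 2 0), rh2d65c91b9f714cee] (by decide +kernel))
noncomputable def rh34cb105570d8999e : CRef := CRef.mk (Pat.mk 0x18000000180000000a00000000 0x80000000800000018000000180000001f00000014 3 5) 0 0 (step_sound _ 131 [rh3cf2764919f34f47, (rh55a1f6c57a317ce6.shift 3 0)] (by decide +kernel))
noncomputable def rha0f16c71b89af744 : CRef := CRef.mk (Pat.mk 0x700000006000000040000000000000000 0x50000000700000006000000060000000600000006 3 3) 0 0 (step_sound _ 33 [(rh2c7fc7a7cc8a47be.shift 1 0), (rh5ddbeed5d869bf16.shift 1 0), (rhd1f9989d6034576a.shift 0 1), (rhe437f081bfcdb831.shift 1 0)] (by decide +kernel))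
noncomputable def rh0b9199034629ad07 : CRef := CRef.mk (Pat.mk 0x1e0000000400000004 0x2000000070000001e0000000600000004 3 5) 0 0 (step_sound _ 97 [(rh3244c3cc8379b070.shift 0 2), (rha3df16ea9c8576c8.shift 1 0)] (by decide +kernel))
noncomputable def rhf2ad921c726c5f65 : CRef := CRef.mk (Pat.mk 0x8000000080000001e00000000 0x800000008000000080000003e00000007 3 6) 0 0 (step_sound _ 1 [(rh53d2fcc3034137d1.shift 1 0), rheb0810cc63b001d8] (by decide +kernel))
noncomputable def rh135119dea187185e : CRef := CRef.mk (Pat.mk 0x100000003000000020000000c00000000 0x10000000100000003000000030000001e00000002 3 5) 0 0 (step_sound _ 33 [(rh307168931086c3c6.shift 0 1), rh7b1f1fb55310c477] (by decide +kernel))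
noncomputable def rh4b57fbdb2d89f35e : CRef := CRef.mk (Pat.mk 0xe0000000a0000000c0000000000000000 0x20000000e0000000f0000003c0000000400000004 3 6) 0 0 (step_sound _ 98 [(rh40241bd608e5be1a.shift 1 0), (rh6292bd8784ece55f.shift 0 2)] (by decide +kernel))
noncomputable def rh7bdaf38c7582b244 : CRef := CRef.mk (Pat.mk 0x40000000c000000080000000e00000000 0xc0000000c0000000c0000001e00000033 3 6) 0 0 (step_sound _ 36 [rh316d0c7c5292e4bb, (rhba04d77b039f69d9.shift 1 0)] (by decide +kernel))
noncomputable def rh5f99a340f54a2fa1 : CRef := CRef.mk (Pat.mk 0x4000000060000000700000000 0x400000004000000070000003f00000018 3 6) 0 0 (step_sound _ 35 [(rh79b3c29022acbdf3.shift 0 1), rhba04d77b039f69d9] (by decide +kernel))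
noncomputable def rh2f56672d8e554c94 : CRef := CRef.mk (Pat.mk 0xe0000000600000002 0x200000003000000030000001e0000000600000006 3 5) 0 0 (step_sound _ 97 [rh2e8814637c3f6d46, (rh3e595262c1b737ad.shift 1 0)] (by decide +kernel))
noncomputable def rhaf10c1251f13c126 : CRef := CRef.mk (Pat.mk 0xc0000000b000000080000000000000000 0x40000000c0000000f000000180000000800000008 3 5) 0 0 (step_sound _ 35 [rh3e4b55a8c31e7aae, (rh50fbb5868c909700.shift 2 1)] (by decide +kernel))
noncomputable def rh1a8b51fb005158ac : CRef := CRef.mk (Pat.mk 0x2e00000000 0x70000003e00000070 3 7) 0 0 (step_sound _ 36 [(rh4ad5fc38f1b69f65.shift 1 0), (rhd5eb272e07a4e288.shift 0 1)] (by decide +kernel))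
noncomputable def rh4151cdc63c0644d2 : CRef := CRef.mk (Pat.mk 0x1c0000001800000010 0x3f0000001f00000030 3 6) 0 0 (step_sound _ 33 [(rh076be03eb7063320.shift 0 1), (rh710860539a4c4362.shift 0 1), (rhc924e5f7a4031fcc.shift 1 0)] (by decide +kernel))
noncomputable def rha7ca83aade42e521 : CRef := CRef.mk (Pat.mk 0xe0000000c0000000800000000 0x300000003e0000000f0000000800000008 3 6) 0 0 (step_sound _ 100 [(rh4dc133ee0ba1420a.shift 0 2), (rhd4d36b4007f546b1.shift 1 0)] (by decide +kernel))
noncomputable def rh5a6d07b3d8dd1a2d : CRef := CRef.mk (Pat.mk 0x4000000140000001e000000000000000000000000 0x4000000140000001f0000003c0000000800000008 3 6) 0 0 (step_sound _ 67 [(rh45fa90edadfa0251.shift 2 0), (rha03f6e28ea70fc7d.shift 0 2)] (by decide +kernel))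
noncomputable def rhe7af0f3ed7d920fb : CRef := CRef.mk (Pat.mk 0xe0000000c000000080000000800000000 0x130000001e0000000c0000000c0000000c00000004 3 5) 0 0 (step_sound _ 161 [(rh4f7106e6f46c2542.shift 0 1), (rhecaf9472b61382c5.shift 1 0)] (by decide +kernel))
noncomputable def rhcaf837ac73d47cbf : CRef := CRef.mk (Pat.mk 0x4000000020000000700000002 0x600000006000000020000000700000007 3 3) 0 0 (step_sound _ 97 [(rh2f68792b6b779e96.shift 1 0), rhde10baa3043a2b46] (by decide +kernel))
noncomputable def rh0048248714ab53ea : CRef := CRef.mk (Pat.mk 0x1000000020000000700000002 0x300000003000000020000000700000007 3 3) 0 0 (step_sound _ 97 [rh50fbb5868c909700, rhde10baa3043a2b46] (by decide +kernel))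
noncomputable def rh73837bcf3a458ed6 : CRef := CRef.mk (Pat.mk 0xfc00000000 0x38000000fe00000007 3 8) 0 0 (step_sound _ 33 [rheae1728ff4a56756, (rhf5bcba2d4da5bc34.shift 1 1)] (by decide +kernel))
noncomputable def rh3c3bf9381ed3b1d8 : CRef := CRef.mk (Pat.mk 0x30000001200000006000000020000000000000000 0x70000001e00000006000000020000000200000002 3 5) 0 0 (step_sound _ 130 [(rh2fe78cc5ca4405d8.shift 0 4), (rhea7a1800d6f053bd.shift 1 0)] (by decide +kernel))
noncomputable def rh6a35b50b41de814f : CRef := CRef.mk (Pat.mk 0xf0000000400000004 0x80000001c0000000f0000000c00000004 3 5) 0 0 (step_sound _ 99 [(rh33e738c4ed385b9f.shift 0 2), (rheb4949bdfa5025cf.shift 2 0)] (by decide +kernel))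
noncomputable def rh681d9f8e79458a8b : CRef := CRef.mk (Pat.mk 0x4000000140000001c00000000 0x400000004000000340000001e00000003 3 6) 0 0 (step_sound _ 33 [rh1ae4704ae86cb9a8, (rh33e738c4ed385b9f.shift 1 1)] (by decide +kernel))
noncomputable def rh61ebbcc17f085e4b : CRef := CRef.mk (Pat.mk 0x40000000100000007000000020000000000000000 0x4000000040000000500000007000000060000000200000002 3 3) 0 0 (step_sound _ 33 [rh7b1f1fb55310c477, (rhb009278fdd334770.shift 1 1)] (by decide +kernel))
noncomputable def rh75bc752fa2211ffe : CRef := CRef.mk (Pat.mk 0x1000000018000000000000000e00000000 0x100000001000000018000000180000000f00000008 3 5) 0 0 (step_sound _ 67 [(rh356cdfb49b9f1367.shift 0 1), (rh71222050f2c63a3a.shift 3 0)] (by decide +kernel))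
noncomputable def rhad16b5eaa35fdc40 : CRef := CRef.mk (Pat.mk 0x400000006000000020000000100000000 0x40000000600000006000000020000000300000003 3 3) 0 0 (step_sound _ 33 [(rh71222050f2c63a3a.shift 1 0), rhd6ece6133e39c38f] (by decide +kernel))
noncomputable def rh45e428941b3ba780 : CRef := CRef.mk (Pat.mk 0x18000000140000000c0000000000000000 0x10000000180000003c0000000f0000000800000008 3 6) 0 0 (step_sound _ 99 [(rh4dc133ee0ba1420a.shift 0 2), (rhea7a1800d6f053bd.shift 3 0)] (by decide +kernel))
noncomputable def rh1b2cb6fb802fe0cd : CRef := CRef.mk (Pat.mk 0x1000000018000000080000000600000000 0x100000001000000018000000180000000f00000008 3 5) 0 0 (step_sound _ 35 [(rh356cdfb49b9f1367.shift 0 1), (rh71222050f2c63a3a.shift 3 0)] (by decide +kernel))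
noncomputable def rh1f065b4d39646e29 : CRef := CRef.mk (Pat.mk 0x80000000c000000040000001c00000000 0xc0000000c0000000c0000001e00000033 3 6) 0 0 (step_sound _ 33 [rh1ae4704ae86cb9a8, (rh49bdc49f6b132823.shift 1 0)] (by decide +kernel))
noncomputable def rhf2314cb4a4676849 : CRef := CRef.mk (Pat.mk 0x8000000180000003800000000 0x800000008000000380000003f00000006 3 6) 0 0 (step_sound _ 34 [(rh1ae4704ae86cb9a8.shift 1 0), (rhab2ad169e49f9c5e.shift 0 1)] (by decide +kernel))
noncomputable def rhea6844c285c65a69 : CRef := CRef.mk (Pat.mk 0x300000018000000180000000000000000 0x80000000f00000018000000180000001000000010 3 5) 0 0 (step_sound _ 131 [(rh55a1f6c57a317ce6.shift 3 0), (rhc10214bf3fe8094a.shift 0 3)] (by decide +kernel))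
noncomputable def rh2640a98fcd49a510 : CRef := CRef.mk (Pat.mk 0x80000000d0000000c000000000000000000000000 0x100000001c0000000f0000000c000000080000000800000008 3 5) 0 0 (step_sound _ 67 [(rh3cb04db3dd2b6a55.shift 2 0), (rh7e143111a189f2ad.shift 0 2)] (by decide +kernel))
noncomputable def rhcf39c4adc3adf8bf : CRef := CRef.mk (Pat.mk 0xa0000001800000018000000000000000000000000 0x40000001f0000001800000018000000080000000800000008 3 5) 0 0 (step_sound _ 67 [(rh876344954e856662.shift 0 2), (rhea7a1800d6f053bd.shift 3 0)] (by decide +kernel))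
noncomputable def rh27c8111cf125e4dd : CRef := CRef.mk (Pat.mk 0x4000000060000000700000000 0x60000000600000006000000060000000700000005 3 3) 0 0 (step_sound _ 129 [rh0fb2e3a32a8ad49f, (rh16567ae718d9fd54.shift 1 1), (rhc17a6a02773cc5f6.shift 1 0)] (by decide +kernel))
noncomputable def rh39ad6055f66b9ead : CRef := CRef.mk (Pat.mk 0x2e00000000 0x700000003e00000007 3 7) 0 0 (step_sound _ 36 [(rh9890f9d77740bbed.shift 1 1), rheae1728ff4a56756] (by decide +kernel))
noncomputable def rhc8e755934d85ce20 : CRef := CRef.mk (Pat.mk 0x300000003000000020000000200000000 0x20000000300000003000000070000000700000005 3 3) 0 0 (step_sound _ 161 [rh0ec68e0bf4727743, (rhd29a1fb688eae70f.shift 1 0)] (by decide +kernel))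
noncomputable def rhc5bd220501814205 : CRef := CRef.mk (Pat.mk 0x8000000000000000c0000000e00000000 0x8000000080000000f0000003e00000030 3 6) 0 0 (step_sound _ 36 [(rh3098af7943687178.shift 1 0), (rhe3060b190bc0bc78.shift 0 1)] (by decide +kernel))
noncomputable def rh84bebdeadf3219f3 : CRef := CRef.mk (Pat.mk 0x60000000300000003000000000000000000000000 0x4000000060000000700000003000000020000000200000002 3 3) 0 0 (step_sound _ 65 [(rh2f68792b6b779e96.shift 1 2), rh3eb26739ea0a224c] (by decide +kernel))
noncomputable def rh4b31f610a48c50e3 : CRef := CRef.mk (Pat.mk 0xe0000001e0000000000000000 0x2000000030000003e0000001e0000000400000004 3 6) 0 0 (step_sound _ 129 [(rh55a1f6c57a317ce6.shift 1 0), (rhab4e9783066f5194.shift 0 2)] (by decide +kernel))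
noncomputable def rha1003484e567b271 : CRef := CRef.mk (Pat.mk 0x2000000020000000700000006000000000000000000000000 0x100000003000000070000000700000006000000020000000200000002 3 3) 0 0 (step_sound _ 65 [(rh3ca48e2a6d60153d.shift 0 2), rh40241bd608e5be1a, (rhea7a1800d6f053bd.shift 1 0)] (by decide +kernel))
noncomputable def rhfb479af1805e9996 : CRef := CRef.mk (Pat.mk 0x80000001c0000001e00000000 0xc0000000c0000000c0000001c0000001e00000003 3 5) 0 0 (step_sound _ 130 [rh981be6707e4d9088, (rhf627eb01e9e8db9a.shift 2 1)] (by decide +kernel))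
noncomputable def rh0a31c7f562fb8d12 : CRef := CRef.mk (Pat.mk 0x3c00000008 0x3f0000003f 3 6) 0 0 (step_sound _ 33 [rha03f6e28ea70fc7d, rheae1728ff4a56756] (by decide +kernel))
noncomputable def rh7c1c65f2f59f3834 : CRef := CRef.mk (Pat.mk 0xe000000120000001200000002 0x190000001f000000320000001200000012 3 6) 0 0 (step_sound _ 131 [(rh1b8d735d1ec00cd4.shift 1 0), rh4d4e586abdf65d17] (by decide +kernel))
noncomputable def rh2d94e8e3c3d1054b : CRef := CRef.mk (Pat.mk 0x20000000200000006000000020000000000000000 0x60000000600000006000000030000000300000003 3 3) 0 0 (step_sound _ 33 [rh7928877f9bf74a91, (rha707fb719e87fe6e.shift 1 0)] (by decide +kernel))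
noncomputable def rh1a64fdb454ca4f39 : CRef := CRef.mk (Pat.mk 0x1000000030000000700000000 0x30000000300000003000000030000000700000005 3 3) 0 0 (step_sound _ 129 [rh5dbd509ce643a6de, (rh82bd946b1709a78e.shift 0 1)] (by decide +kernel))
noncomputable def rhfb9da68baa54e605 : CRef := CRef.mk (Pat.mk 0xe0000000600000002 0x3f0000003e00000003 3 6) 0 0 (step_sound _ 36 [rh51246ab843efda05, (rhbca71ab025ef4262.shift 1 1), (rhfd0f316c42bbba52.shift 0 1)] (by decide +kernel))
noncomputable def rhf8c4e45f393a51a6 : CRef := CRef.mk (Pat.mk 0x4000000000000000e00000006 0x600000006000000030000003e00000006 3 6) 0 0 (step_sound _ 65 [(rh82bd946b1709a78e.shift 1 0), rhb762f327c85d41a0] (by decide +kernel))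
noncomputable def rh77cea48ae909294c : CRef := CRef.mk (Pat.mk 0xe00000006000000020000000200000000 0x30000003e00000006000000030000000300000001 3 6) 0 0 (step_sound _ 161 [rh7928877f9bf74a91, (rhb762f327c85d41a0.shift 0 3)] (by decide +kernel))
noncomputable def rh1b80270a8621e059 : CRef := CRef.mk (Pat.mk 0x1c0000001c 0x700000007f0000001c 3 7) 0 0 (step_sound _ 69 [rh4baa30ac13a5afd1, (rh8284118167888cf9.shift 2 0)] (by decide +kernel))
noncomputable def rhdb3212ed6dfd725f : CRef := CRef.mk (Pat.mk 0x180000001c000000000000000800000000 0x180000001f000000300000001800000018 3 6) 0 0 (step_sound _ 68 [(rhe437f081bfcdb831.shift 3 0), (rhf56e6bc5d2f7fe77.shift 0 2)] (by decide +kernel))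
noncomputable def rhee89d0112810b2f3 : CRef := CRef.mk (Pat.mk 0x1e00000018 0x70000003e0000001f 3 6) 0 0 (step_sound _ 37 [rh0bdf8aa2e59fe114, (rhd5eb272e07a4e288.shift 0 1)] (by decide +kernel))
noncomputable def rhde5e7cc7b63db1a6 : CRef := CRef.mk (Pat.mk 0x1e00000006000000020000000000000000 0x30000001e00000006000000030000000300000003 3 5) 0 0 (step_sound _ 32 [rh5769ed4fe2fe4c14, (rhf5e2c347e50c6617.shift 0 1)] (by decide +kernel))
noncomputable def rhf79d98dc0cc10121 : CRef := CRef.mk (Pat.mk 0xe000000100000001600000006 0x80000001e00000030000000170000003e 3 6) 0 0 (step_sound _ 4 [(rh8643f959d8b300ed.shift 1 0), rhfd0f316c42bbba52] (by decide +kernel))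
noncomputable def rh1a59c84bf6b8dc6c : CRef := CRef.mk (Pat.mk 0xe00000010000000160000000600000000 0xf00000018000000170000003e00000010 3 6) 0 0 (step_sound _ 36 [rh464bab2e226d0259, (rhfd0f316c42bbba52.shift 0 1)] (by decide +kernel))
noncomputable def rhc711e45949532200 : CRef := CRef.mk (Pat.mk 0x1e000000000000001600000006 0x80000001e00000030000000170000003e 3 6) 0 0 (step_sound _ 4 [(rhdad6fb8687a5e7f2.shift 1 0), rhfd0f316c42bbba52] (by decide +kernel))
noncomputable def rh90a9bf21dd1935e4 : CRef := CRef.mk (Pat.mk 0x1800000014000000100000001000000000 0x180000001f000000300000001000000010 3 6) 0 0 (step_sound _ 99 [(rh7b1f1fb55310c477.shift 3 0), (rhf56e6bc5d2f7fe77.shift 0 2)] (by decide +kernel))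
noncomputable def rhe901d1c101dc9830 : CRef := CRef.mk (Pat.mk 0x180000000c00000028 0x180000000f0000007c 3 7) 0 0 (step_sound _ 4 [rh587868c37e85730d, (rhf48373e13d2bc128.shift 2 0)] (by decide +kernel))
noncomputable def rhe75c547ac3c3ba33 : CRef := CRef.mk (Pat.mk 0xe000000020000000200000002000000020000000000000000 0x1e000000030000000300000002000000030000000300000001 3 5) 0 0 (step_sound _ 33 [(rh7718fd14af13f18b.shift 0 1), rh7928877f9bf74a91] (by decide +kernel))
noncomputable def rh3d1e784e4d22dffa : CRef := CRef.mk (Pat.mk 0xa0000000b00000006000000000000000000000000 0x80000000a0000000b0000001e000000060000000400000004 3 5) 0 0 (step_sound _ 66 [(rh79ad7b82ec8c35e2.shift 1 0), (rh7b6afa71f9aeb7f3.shift 0 2)] (by decide +kernel))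
noncomputable def rh0df8ca87300c8973 : CRef := CRef.mk (Pat.mk 0xe000000020000000200000002000000020000000000000000 0x1e000000030000000300000002000000060000000600000004 3 5) 0 0 (step_sound _ 33 [(rh7718fd14af13f18b.shift 0 1), (rhd29a1fb688eae70f.shift 1 0)] (by decide +kernel))
noncomputable def rh93a3687fbae61bc3 : CRef := CRef.mk (Pat.mk 0xe0000000a0000000a00000002 0x390000001f0000000a0000000a0000000a 3 6) 0 0 (step_sound _ 132 [rh1fdbdd9a631b75d3, (rhe3bc8ed3804367dd.shift 1 0)] (by decide +kernel))
noncomputable def rh3d476ecda2fa95c3 : CRef := CRef.mk (Pat.mk 0x10000000170000001c00000000 0x140000003e000000170000001c00000008 3 6) 0 0 (step_sound _ 98 [(rh4fd54f6717f3e7ac.shift 0 2), (rh5fc67bac28a8b5bb.shift 2 0)] (by decide +kernel))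
noncomputable def rha4dffa91218301a0 : CRef := CRef.mk (Pat.mk 0x800000008000000080000000e0000000000000000 0x100000001800000018000000080000000f0000001800000010 3 5) 0 0 (step_sound _ 35 [(rh44f453b84f013105.shift 3 1), rhbdde238153e38af9] (by decide +kernel))
noncomputable def rhaa35abccf28cfbd8 : CRef := CRef.mk (Pat.mk 0x180000000c000000280000000000000000 0x8000000180000000f0000003c0000000400000004 3 6) 0 0 (step_sound _ 66 [(rh1e309b005ffa1b36.shift 2 0), (rhf23dc93573c5637f.shift 0 2)] (by decide +kernel))
noncomputable def rhd4e11f07f56e452b : CRef := CRef.mk (Pat.mk 0x50000000e000000040000000000000000 0x2000000070000001e000000040000000400000004 3 5) 0 0 (step_sound _ 129 [(rh3cb04db3dd2b6a55.shift 1 0), (rhf48373e13d2bc128.shift 0 3)] (by decide +kernel))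
noncomputable def rhd2623a067cb37755 : CRef := CRef.mk (Pat.mk 0x100000001400000018000000100000001000000000 0x300000001f00000018000000100000001000000010 3 6) 0 0 (step_sound _ 131 [(rh34517e326ddb5b25.shift 0 3), (rh7b1f1fb55310c477.shift 3 0)] (by decide +kernel))
noncomputable def rh3735133ce295ee66 : CRef := CRef.mk (Pat.mk 0x2000000020000000300000002000000020000000000000000 0x200000002000000030000000300000003000000020000000200000002 3 2) 0 0 (step_sound _ 33 [(rh50fbb5868c909700.shift 0 1), rhb0491c8b198c7c3b] (by decide +kernel))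
noncomputable def rhb23ff653868c9390 : CRef := CRef.mk (Pat.mk 0xc000000300000001000000010 0x8000000080000000f0000003c0000001800000010 3 6) 0 0 (step_sound _ 67 [(rhdbcea10a0fbe5ba6.shift 0 2), (rhe072fffdd2fccf38.shift 3 0)] (by decide +kernel))
noncomputable def rh6c780b68fbbf1fb0 : CRef := CRef.mk (Pat.mk 0x100000001000000050000000500000004 0x20000000300000007000000050000000500000005 3 3) 0 0 (step_sound _ 129 [(rh2f68792b6b779e96.shift 0 1), rh81a0b468accb8b7e] (by decide +kernel))
noncomputable def rh4e06a35b4632f484 : CRef := CRef.mk (Pat.mk 0xe0000000a0000001800000000 0x10000000380000001e0000000b0000001800000010 3 6) 0 0 (step_sound _ 132 [(rh55c8fae470e8430a.shift 3 0), (rhee0891bc88ee3f94.shift 0 2)] (by decide +kernel))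
noncomputable def rhf01a233ff056f4e5 : CRef := CRef.mk (Pat.mk 0xe000000080000001800000000 0x10000000180000000f000000080000001800000010 3 5) 0 0 (step_sound _ 131 [(rh55afc6a59410cf00.shift 3 0), (rhdab32775f5c78fcf.shift 0 1)] (by decide +kernel))
noncomputable def rh0961d13580367ddb : CRef := CRef.mk (Pat.mk 0x1400000014000000140000000a00000000 0x1000000014000000140000001c0000000f00000002 3 5) 0 0 (step_sound _ 34 [(rh1439b430a642f7dd.shift 0 1), (rh932754581e0f4330.shift 1 0)] (by decide +kernel))
noncomputable def rhacb21b0519115518 : CRef := CRef.mk (Pat.mk 0x1000000010000000140000000a 0x1000000010000000100000001e0000000f 3 5) 0 0 (step_sound _ 35 [rh076be03eb7063320, (rh5c5e593799055d58.shift 3 0)] (by decide +kernel))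
noncomputable def rhf5473443834f3ff9 : CRef := CRef.mk (Pat.mk 0x1400000014000000140000000a0000000000000000 0x1000000014000000160000001e0000000b0000000200000002 3 5) 0 0 (step_sound _ 97 [(rh3fc71e794d3c39ce.shift 0 2), (rhf9af042da61fc652.shift 1 0)] (by decide +kernel))
noncomputable def rh73d97e8c533f78f2 : CRef := CRef.mk (Pat.mk 0x8000000080000000a0000000c00000000 0x8000000080000000f0000003c00000010 3 6) 0 0 (step_sound _ 36 [(rh508d31626b5d2be8.shift 0 1), (rh55afc6a59410cf00.shift 3 0)] (by decide +kernel))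
noncomputable def rhb607d50461c9141f : CRef := CRef.mk (Pat.mk 0x400000005000000050000000500000000 0x20000000600000007000000050000000500000005 3 3) 0 0 (step_sound _ 129 [rh150947578a63ac51, (rh50fbb5868c909700.shift 1 1)] (by decide +kernel))
noncomputable def rhbf32dde4d6f48b3d : CRef := CRef.mk (Pat.mk 0xe0000000a0000000800000004 0x10000000380000001e0000000b0000000c00000004 3 6) 0 0 (step_sound _ 132 [(rhb6385c749d93cf64.shift 2 0), (rhee0891bc88ee3f94.shift 0 2)] (by decide +kernel))
noncomputable def rh3c2b3b2b62b3a75b : CRef := CRef.mk (Pat.mk 0x7000000070000000000000004 0x20000000200000007000000070000000500000005 3 3) 0 0 (step_sound _ 129 [rh1e309b005ffa1b36, (rh9e07f76261b05888.shift 1 0)] (by decide +kernel))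
noncomputable def rh1817e26bfcb175b7 : CRef := CRef.mk (Pat.mk 0x20000001a0000000c00000004 0x80000000f0000001e0000000c00000004 3 5) 0 0 (step_sound _ 96 [(rh5419adcd928dba20.shift 0 2), rha083a0278e51c6da] (by decide +kernel))
noncomputable def rh1fec7cd079ad3402 : CRef := CRef.mk (Pat.mk 0x2000000120000001a000000120000000000000000 0x10000000b0000001e0000001a000000120000001000000010 3 5) 0 0 (step_sound _ 131 [(rh3cb04db3dd2b6a55.shift 3 0), (rh5e05da03898e7023.shift 0 2)] (by decide +kernel))
noncomputable def rhfc771f064b81f9c0 : CRef := CRef.mk (Pat.mk 0x90000000b000000090000000800000000 0x1000000090000000b0000000f0000001a00000012 3 5) 0 0 (step_sound _ 65 [rh55a1f6c57a317ce6, rh5f11ee373cbffcaa] (by decide +kernel))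
noncomputable def rh3f83af65ae644162 : CRef := CRef.mk (Pat.mk 0x1700000000 0x380000001f00000038 3 6) 0 0 (step_sound _ 35 [rh4ad5fc38f1b69f65, (rh9890f9d77740bbed.shift 0 1)] (by decide +kernel))
noncomputable def rh00ad60fca4aa5649 : CRef := CRef.mk (Pat.mk 0x200000002000000020000001e00000000 0x200000002000000020000001f00000039 3 6) 0 0 (step_sound _ 4 [rhce106f686e742a5f, (rhe25b0a99195a5d59.shift 1 0)] (by decide +kernel))
noncomputable def rh908afc43b6711d8a : CRef := CRef.mk (Pat.mk 0x600000006000000020000000300000000 0x20000000600000006000000070000000700000004 3 3) 0 0 (step_sound _ 34 [(rh55afc6a59410cf00.shift 1 0), (rhb4121b2511eec08c.shift 0 1)] (by decide +kernel))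
noncomputable def rh2fd9b57482dec4c7 : CRef := CRef.mk (Pat.mk 0x6000000060000000300000000 0x20000000200000006000000060000000700000005 3 3) 0 0 (step_sound _ 129 [(rh55a1f6c57a317ce6.shift 1 0), rh932754581e0f4330] (by decide +kernel))
noncomputable def rhc0e2decd61e116a0 : CRef := CRef.mk (Pat.mk 0x40000001e000000180000000c00000000 0x2000000070000001e0000001c0000000f00000002 3 5) 0 0 (step_sound _ 66 [(rh6bc906bfbb0e6d90.shift 0 1), rhf5094ad2a427d4d3] (by decide +kernel))
noncomputable def rh90c3912a8f22d744 : CRef := CRef.mk (Pat.mk 0x40000001e000000000000000400000000 0x2000000070000001e000000040000000400000004 3 5) 0 0 (step_sound _ 129 [(rh3244c3cc8379b070.shift 0 3), (rhdd1b84382d19bcbb.shift 1 0)] (by decide +kernel))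
noncomputable def rh9ed49c34a595f0ef : CRef := CRef.mk (Pat.mk 0x1800000018000000080000000000000000 0x40000001f00000038000000080000000800000008 3 6) 0 0 (step_sound _ 130 [(rh40241bd608e5be1a.shift 2 0), (rhad5d8fc3675c15dd.shift 0 3)] (by decide +kernel))
noncomputable def rh835a153549f8fb91 : CRef := CRef.mk (Pat.mk 0x3c00000008000000100000000000000000 0x200000003f00000038000000100000001000000010 3 6) 0 0 (step_sound _ 100 [(rhad5d8fc3675c15dd.shift 0 3), (rhb0c1e7919d9be92d.shift 3 0)] (by decide +kernel))
noncomputable def rh444fa8da4d2a2bf8 : CRef := CRef.mk (Pat.mk 0x400000006000000010000000300000000 0x60000000600000006000000030000000300000002 3 3) 0 0 (step_sound _ 65 [(rh71222050f2c63a3a.shift 1 0), (rhbd55d8419891313d.shift 0 1)] (by decide +kernel))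
noncomputable def rh3376277ffe630400 : CRef := CRef.mk (Pat.mk 0xd0000000e0000000000000000 0x8000000180000000f0000001e0000000400000004 3 5) 0 0 (step_sound _ 131 [(rh1e309b005ffa1b36.shift 2 0), (rhabcb8f6c932edb1f.shift 0 2)] (by decide +kernel))
noncomputable def rh18650cae7335f350 : CRef := CRef.mk (Pat.mk 0x200000003000000180000000300000000 0x2000000030000001e0000000f00000004 3 5) 0 0 (step_sound _ 34 [(rh3fc040e777f1679e.shift 0 1), rh7ffec036c34307c5] (by decide +kernel))
noncomputable def rhff1605ac7aa38988 : CRef := CRef.mk (Pat.mk 0x160000001200000002 0x1f0000003e00000003 3 6) 0 0 (step_sound _ 35 [rh01e48cd9f335aa73, rh1210e962428a2e05, (rh52f53d3a55b22c68.shift 0 1), (rh5db08fca7648325c.shift 0 1)] (by decide +kernel))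
noncomputable def rh826e97f6a5f377b5 : CRef := CRef.mk (Pat.mk 0x40000001400000018000000060000000000000000 0x40000001c000000180000000f0000000800000008 3 5) 0 0 (step_sound _ 67 [(rh4f5da4dafb6dd81a.shift 2 0), (rh53b3c253cb0c65f4.shift 0 2)] (by decide +kernel))
noncomputable def rhcff92de188dbe599 : CRef := CRef.mk (Pat.mk 0x16000000000000000f 0x1e000000380000001f 3 6) 0 0 (step_sound _ 36 [rh428265de8cd3cd2d, (rhf428b1dc658d16d8.shift 1 0)] (by decide +kernel))
noncomputable def rh6a5235d0d51b5cbb : CRef := CRef.mk (Pat.mk 0x300000006000000040000000200000000 0x30000000300000006000000060000000600000004 3 3) 0 0 (step_sound _ 34 [(rh7b1f1fb55310c477.shift 1 0), (rhc2f05e62faab8d19.shift 0 1)] (by decide +kernel))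
noncomputable def rhf47b4f939007e04f : CRef := CRef.mk (Pat.mk 0x300000007000000040000000200000000 0x2000000030000000300000007000000070000000300000001 3 3) 0 0 (step_sound _ 32 [(rh1ededbcb63c3ab78.shift 0 1), rh2c7fc7a7cc8a47be, rhd8e3ec04df043c57, rhecb97fed8c7f1286] (by decide +kernel))
noncomputable def rh7a4fd64af72a5b1e : CRef := CRef.mk (Pat.mk 0x60000000e000000180000000400000000 0x4000000060000000e0000001a0000000f0000000a 3 5) 0 0 (step_sound _ 33 [(rh2c7fc7a7cc8a47be.shift 1 0), rh715f2fe878c18bbd] (by decide +kernel))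
noncomputable def rhfa9a29c2ea6d2e16 : CRef := CRef.mk (Pat.mk 0x40000000e000000180000000400000000 0x40000000e0000001e0000000f0000000a 3 5) 0 0 (step_sound _ 33 [rh715f2fe878c18bbd, (rhecb97fed8c7f1286.shift 1 0)] (by decide +kernel))
noncomputable def rh96132c15c538fca5 : CRef := CRef.mk (Pat.mk 0x200000002000000180000000600000000 0x2000000020000001a0000000f00000005 3 5) 0 0 (step_sound _ 32 [(rh3fc040e777f1679e.shift 0 1), rhbf726fa7097229f2] (by decide +kernel))
noncomputable def rha184ce06413230ad : CRef := CRef.mk (Pat.mk 0x1c00000018000000060000000000000000 0x40000001c000000180000000f0000000800000008 3 5) 0 0 (step_sound _ 67 [(rh40241bd608e5be1a.shift 2 0), (rh53b3c253cb0c65f4.shift 0 2)] (by decide +kernel))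
noncomputable def rhbb0ff12596d5b5a5 : CRef := CRef.mk (Pat.mk 0x40000000200000006000000120000000200000000 0x60000000600000002000000060000001e0000000300000001 3 5) 0 0 (step_sound _ 66 [(rh82bd946b1709a78e.shift 1 2), rh84f01cf2134210c0] (by decide +kernel))
noncomputable def rhd74dfcf162c14063 : CRef := CRef.mk (Pat.mk 0xbe00000000 0xff00000038 3 8) 0 0 (step_sound _ 4 [(rhe25b0a99195a5d59.shift 1 0), rhf163ac9346a32342] (by decide +kernel))
noncomputable def rha3b55b63c828e6bd : CRef := CRef.mk (Pat.mk 0xf0000000c000000080000000000000000 0x180000000f0000000c000000180000001800000018 3 5) 0 0 (step_sound _ 36 [(rh7bed6280d5711866.shift 2 0), (rhb2c64de0843f272c.shift 0 1)] (by decide +kernel))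
noncomputable def rh882a3e8c7bd7762b : CRef := CRef.mk (Pat.mk 0x3c00000008 0x70000003f00000038 3 6) 0 0 (step_sound _ 33 [rha03f6e28ea70fc7d, (rhd5eb272e07a4e288.shift 0 1)] (by decide +kernel))
noncomputable def rh56f43794bcf10c2f : CRef := CRef.mk (Pat.mk 0x1e00000000 0x70000003e00000007 3 6) 0 0 (step_sound _ 37 [(rhd5eb272e07a4e288.shift 0 1), rheae1728ff4a56756] (by decide +kernel))
noncomputable def rh893cc38141f4926a : CRef := CRef.mk (Pat.mk 0x30000000600000006000000000000000400000000 0x1000000030000000600000006000000020000000600000006 3 3) 0 0 (step_sound _ 65 [(rh50fbb5868c909700.shift 0 2), (rh9b4df57cddcda711.shift 1 0)] (by decide +kernel))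
noncomputable def rh50ce0fd33f58c7cc : CRef := CRef.mk (Pat.mk 0x3000000180000000200000002 0x40000000f0000001e0000000200000002 3 5) 0 0 (step_sound _ 65 [(rh5419adcd928dba20.shift 0 2), rh8ddb7009c5639c8a] (by decide +kernel))
noncomputable def rh9fa24003d8b4146c : CRef := CRef.mk (Pat.mk 0x60000001200000016 0x70000003e0000001f 3 6) 0 0 (step_sound _ 35 [rh18106ac0f60c265a, rh3ec8ec076f6e0db2, (rh5db08fca7648325c.shift 0 1)] (by decide +kernel))
noncomputable def rhd4d7bd6aebf1d75b : CRef := CRef.mk (Pat.mk 0x1c000000040000000c00000008 0x330000001e0000000c0000000c0000000c 3 6) 0 0 (step_sound _ 97 [rh132883a60cd8aed8, (rh4fc80024ed3db095.shift 1 0)] (by decide +kernel))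
noncomputable def rh12eeb0fa447cba5e : CRef := CRef.mk (Pat.mk 0x6000000180000000600000004 0x80000000f000000180000000f00000004 3 5) 0 0 (step_sound _ 35 [rh06d91fa6ccb2dd46, (rh53b3c253cb0c65f4.shift 0 1)] (by decide +kernel))
noncomputable def rhb39c450cef28fa60 : CRef := CRef.mk (Pat.mk 0x6000000100000000e00000004 0x80000000f000000180000000f00000004 3 5) 0 0 (step_sound _ 67 [rh06d91fa6ccb2dd46, (rh53b3c253cb0c65f4.shift 0 1)] (by decide +kernel))
noncomputable def rh3dc42f86b7869091 : CRef := CRef.mk (Pat.mk 0xf0000000000000016 0x1f000000380000001e 3 6) 0 0 (step_sound _ 36 [(rh4b676234a5ebf2d3.shift 1 0), (rh96851dee118c1ba3.shift 0 1)] (by decide +kernel))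
noncomputable def rh882ad2e74ca92b0b : CRef := CRef.mk (Pat.mk 0x1600000006000000020000000200000000 0x1000000030000001e00000006000000060000000600000004 3 5) 0 0 (step_sound _ 161 [(rh52dc0b448901c5de.shift 0 2), (rheb6520004608cff3.shift 1 0)] (by decide +kernel))
noncomputable def rh914fc4fa8475b0dd : CRef := CRef.mk (Pat.mk 0x20000001200000006000000020000000400000000 0x1000000030000001e00000006000000020000000600000006 3 5) 0 0 (step_sound _ 130 [(rh52dc0b448901c5de.shift 0 2), (rh9b4df57cddcda711.shift 1 0)] (by decide +kernel))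
noncomputable def rhfdaba9284cdfee4b : CRef := CRef.mk (Pat.mk 0x180000000c00000018 0x180000001f00000078 3 7) 0 0 (step_sound _ 5 [rhb75a95a254d02bf0, (rhf48373e13d2bc128.shift 2 0)] (by decide +kernel))
noncomputable def rh9ffbea7eb7ea5d5f : CRef := CRef.mk (Pat.mk 0xbe 0x38000000ff 3 8) 0 0 (step_sound _ 36 [rh07b8c4de274226b8, (rh33e738c4ed385b9f.shift 1 0)] (by decide +kernel))
noncomputable def rh5068e712cf2621fb : CRef := CRef.mk (Pat.mk 0x80000000e0000001e0000000000000000 0x20000000b0000003e0000001e0000000400000004 3 6) 0 0 (step_sound _ 129 [(rh3ebc98c19791ad58.shift 1 0), (rhab4e9783066f5194.shift 0 2)] (by decide +kernel))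
noncomputable def rh8b63367476e56b14 : CRef := CRef.mk (Pat.mk 0x8000000080000000c0000000e00000000 0x40000000c0000000c0000000c0000001e00000013 3 5) 0 0 (step_sound _ 1 [(rh4fcc643a9c188aaa.shift 1 0), rhfe26b971575d20c5] (by decide +kernel))
noncomputable def rh1ec68f40b6e4da58 : CRef := CRef.mk (Pat.mk 0x20000000200000007000000020000000000000000 0x20000000700000007000000060000000600000006 3 3) 0 0 (step_sound _ 33 [rh261f868a429ae0e3, (rhd29a1fb688eae70f.shift 1 0)] (by decide +kernel))
noncomputable def rh2b0da36e29333de2 : CRef := CRef.mk (Pat.mk 0x20000000200000007000000020000000000000000 0x20000000700000007000000030000000300000003 3 3) 0 0 (step_sound _ 33 [rh261f868a429ae0e3, rh7928877f9bf74a91] (by decide +kernel))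
noncomputable def rh6c87f444a07d2934 : CRef := CRef.mk (Pat.mk 0x1e0000001400000004 0x8000000080000003c0000001f0000001400000004 3 6) 0 0 (step_sound _ 99 [(rhec46bd5500c722c9.shift 0 2), (rhfa7d9ef1a865136e.shift 2 0)] (by decide +kernel))
noncomputable def rhbf43576ddc093dbb : CRef := CRef.mk (Pat.mk 0x80000000c0000000e000000000000000400000000 0x80000000c0000000f000000180000001c0000000c 3 5) 0 0 (step_sound _ 67 [(rhbdde238153e38af9.shift 0 1), (rhe437f081bfcdb831.shift 2 0)] (by decide +kernel))
noncomputable def rh1eb2aa83e480b8c5 : CRef := CRef.mk (Pat.mk 0x80000000c0000000f00000000 0x1800000018000000180000000c0000000f00000018 3 5) 0 0 (step_sound _ 132 [rh8249296aae70fe02, (rhbd55d8419891313d.shift 2 1)] (by decide +kernel))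
noncomputable def rhd5bfe9c6b42059f8 : CRef := CRef.mk (Pat.mk 0x40000000c0000001a0000000200000000 0x40000000c0000001e0000000f00000008 3 5) 0 0 (step_sound _ 32 [rh534beb904169c822, (rhb2a0b9ccfb5cecd5.shift 0 1)] (by decide +kernel))
noncomputable def rha5bd2cf73a1a3cc2 : CRef := CRef.mk (Pat.mk 0x120000001a000000120000000200000000 0x10000000120000001a0000001e0000000b00000009 3 5) 0 0 (step_sound _ 67 [(rh1e309b005ffa1b36.shift 3 0), rh5710f30ba40ee3ec] (by decide +kernel))
noncomputable def rha49dd0862b9dfa26 : CRef := CRef.mk (Pat.mk 0x1c000000170000001000000000 0x80000001c000000170000003e00000014 3 6) 0 0 (step_sound _ 34 [(rh68691964b29f233d.shift 0 1), (rhd8a13c7f042cc6ea.shift 2 0)] (by decide +kernel))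
noncomputable def rhc9ebcc38f3a761b8 : CRef := CRef.mk (Pat.mk 0xe00000008000000080000000800000000 0x10000000180000000f00000008000000180000001800000010 3 5) 0 0 (step_sound _ 163 [(rhd29a1fb688eae70f.shift 3 0), (rhdab32775f5c78fcf.shift 0 2)] (by decide +kernel))
noncomputable def rhc3c26720a00da2cf : CRef := CRef.mk (Pat.mk 0x280000000c000000180000000000000000 0x40000003c0000000f000000180000000800000008 3 6) 0 0 (step_sound _ 130 [(rh3cb04db3dd2b6a55.shift 2 0), (rh6371dceabc07ce3d.shift 0 2)] (by decide +kernel))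
noncomputable def rh10bf0466a1087b04 : CRef := CRef.mk (Pat.mk 0x20000000200000003000000020000000200000000 0x200000002000000020000000300000003000000030000000200000002 3 2) 0 0 (step_sound _ 128 [(rh503dd4575245365b.shift 0 2), rh7b1f1fb55310c477] (by decide +kernel))
noncomputable def rhc006c5fe36d9e964 : CRef := CRef.mk (Pat.mk 0x8000000080000000c0000000a0000000800000000 0x800000008000000080000000c0000000f0000001800000010 3 5) 0 0 (step_sound _ 36 [(rh55afc6a59410cf00.shift 3 0), (rh9704bbd79d32b932.shift 0 1)] (by decide +kernel))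
noncomputable def rh7401e8cf466f4e5b : CRef := CRef.mk (Pat.mk 0x300000000c 0x3c0000001f 3 6) 0 0 (step_sound _ 1 [(rh3fc040e777f1679e.shift 1 0), rh94c299b6f86e55c1] (by decide +kernel))
noncomputable def rh5ce10f7e276dbc40 : CRef := CRef.mk (Pat.mk 0x1000000010000000300000000c0000000000000000 0x10000000180000003c0000000f0000000800000008 3 6) 0 0 (step_sound _ 99 [(rh1ed7a3503fa50fc8.shift 0 2), (rhf9af042da61fc652.shift 3 0)] (by decide +kernel))
noncomputable def rh0df5261e9cb045e0 : CRef := CRef.mk (Pat.mk 0x40000000500000005000000010000000100000000 0x50000000500000005000000070000000300000002 3 3) 0 0 (step_sound _ 33 [rh55afc6a59410cf00, (rha7381c9f1229ca7e.shift 0 1)] (by decide +kernel))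
noncomputable def rhae2b5525c7916744 : CRef := CRef.mk (Pat.mk 0x20000001600000004 0x30000003e00000007 3 6) 0 0 (step_sound _ 35 [(rh3244c3cc8379b070.shift 0 1), rhaf9f2efc81a8312b] (by decide +kernel))
noncomputable def rh6b7f68f39ca47ffc : CRef := CRef.mk (Pat.mk 0x180000000a0000000e0000000000000000 0x10000000180000000b0000001e0000003800000010 3 6) 0 0 (step_sound _ 36 [(rh639c5d61b5ce9eea.shift 0 1), (rh93bb09469abb6e2d.shift 3 0)] (by decide +kernel))
noncomputable def rhb5f1ba4ade952c56 : CRef := CRef.mk (Pat.mk 0xa00000014000000140000001400000000 0x20000000f0000001c000000140000001400000010 3 5) 0 0 (step_sound _ 99 [(rh7b1f1fb55310c477.shift 3 0), (rha358927870346b7d.shift 0 1)] (by decide +kernel))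
end Crest.Agent.S0047.Helper85.Cert
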