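import Crest.Agent.Lib.S0047.Helper85CertPL2F0
import Crest.Agent.Lib.S0047.Helper85CertPL2F1
set_option autoImplicit false
set_option linter.all false
set_option Elab.async false
namespace Crest.Agent.S0047.Helper85.Cert
open Crest.Agent.S0047.Helper85

noncomputable def rh8e183c2017c94b8c : CRef := CRef.mk (Pat.mk 0xa00000014000000140000001400000000 0x2000000020000000b0000001e000000160000001400000010 3 5) 0 0 (step_sound _ 97 [rhc0c21c15a3fc8a23, (rhe072fffdd2fccf38.shift 1 1)] (by decide +kernel))
noncomputable def rh10a6b07dd61e411b : CRef := CRef.mk (Pat.mk 0xa00000014000000100000001000000000 0xf0000001e000000100000001000000010 3 5) 0 0 (step_sound _ 99 [(rh54c49bb299227e8d.shift 0 3), (rh7b1f1fb55310c477.shift 3 0)] (by decide +kernel))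
noncomputable def rh6781dd1e017ed782 : CRef := CRef.mk (Pat.mk 0x4000000080000000a0000000e0000000000000000 0x40000000c0000000b0000001e0000003800000010 3 6) 0 0 (step_sound _ 36 [(rh639c5d61b5ce9eea.shift 0 1), (rhdd25e32394858bbd.shift 2 0)] (by decide +kernel))
noncomputable def rh0f78e0f694da1d7a : CRef := CRef.mk (Pat.mk 0x400000008000000080000000e0000000000000000 0x40000000c000000080000000f0000001800000010 3 5) 0 0 (step_sound _ 35 [rhbdde238153e38af9, (rhffd04209dc8ea796.shift 2 1)] (by decide +kernel))
noncomputable def rh80c6e1b9aaf50bed : CRef := CRef.mk (Pat.mk 0x20000000200000003000000020000000000000000 0x4000000070000000700000003000000020000000200000002 3 3) 0 0 (step_sound _ 33 [(rh44f453b84f013105.shift 1 1), rhe286c75f2739cce2] (by decide +kernel))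
noncomputable def rhd661abf8252fdf90 : CRef := CRef.mk (Pat.mk 0x8000000080000000e0000000000000000 0x800000008000000080000001f0000003800000010 3 6) 0 0 (step_sound _ 36 [rh06dad6edb7ce8d9c, (rh6e1f502161d2d285.shift 1 1)] (by decide +kernel))
noncomputable def rh61e4c592c7826d44 : CRef := CRef.mk (Pat.mk 0x1400000014000000140000000600000000 0x1000000014000000140000001c0000000f00000008 3 5) 0 0 (step_sound _ 35 [(rh1439b430a642f7dd.shift 0 1), (rh55afc6a59410cf00.shift 2 0)] (by decide +kernel))
noncomputable def rh3cd58d40cba215a3 : CRef := CRef.mk (Pat.mk 0x400000016000000060000000000000000 0x2000000070000001e000000070000000400000004 3 5) 0 0 (step_sound _ 129 [(rh3cb04db3dd2b6a55.shift 1 0), (rh51246ab843efda05.shift 0 2)] (by decide +kernel))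
noncomputable def rh96687141d1e034b0 : CRef := CRef.mk (Pat.mk 0x400000006000000160000000000000000 0x4000000070000001e0000000300000002 3 5) 0 0 (step_sound _ 33 [(rh51246ab843efda05.shift 0 1), (rh71222050f2c63a3a.shift 1 0)] (by decide +kernel))
noncomputable def rhc0a44ba021841f88 : CRef := CRef.mk (Pat.mk 0x40000001c00000018 0x70000003f00000018 3 6) 0 0 (step_sound _ 33 [rhb739f4f82bb681b4, (rhe3060b190bc0bc78.shift 0 1)] (by decide +kernel))
noncomputable def rh2d2f8694785c35ab : CRef := CRef.mk (Pat.mk 0x30000000a0000000200000002000000020000000000000000 0x30000001e0000000600000002000000060000000600000004 3 5) 0 0 (step_sound _ 33 [(rh5c64601ff0e8110f.shift 0 1), (rhd29a1fb688eae70f.shift 1 0)] (by decide +kernel))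
noncomputable def rh2a29dad2e8793f76 : CRef := CRef.mk (Pat.mk 0x600000007000000030000000000000000 0x2000000020000000600000007000000070000000600000006 3 3) 0 0 (step_sound _ 34 [(rh14496ca70edf5ece.shift 0 1), (rh478c4cadbcd4e066.shift 1 0), (rh9b4df57cddcda711.shift 1 0), (rhdd1b84382d19bcbb.shift 1 0)] (by decide +kernel))
noncomputable def rhc0ea125976484735 : CRef := CRef.mk (Pat.mk 0x100000003c00000008 0x180000003f0000001f 3 6) 0 0 (step_sound _ 33 [rhe3dc93746cbe6e7c, rheae1728ff4a56756] (by decide +kernel))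
noncomputable def rh9dee069434d3cdfc : CRef := CRef.mk (Pat.mk 0x80000000e000000160000000000000000 0x80000003f0000001e0000003000000010 3 6) 0 0 (step_sound _ 36 [(rh3a9e3d20902516bb.shift 1 0), (rh665fa2b016ee28ae.shift 0 1)] (by decide +kernel))
noncomputable def rh57ca0737d0c5d7c5 : CRef := CRef.mk (Pat.mk 0x60000000280000003800000020 0x10000000780000002f0000003c00000020 3 7) 0 0 (step_sound _ 66 [(rh3f9dabd3a98bcc1c.shift 2 0), (rhdbcea10a0fbe5ba6.shift 0 1)] (by decide +kernel))
noncomputable def rha488b4f498469230 : CRef := CRef.mk (Pat.mk 0x50000000a0000000a0000000800000000 0x70000001e0000000b0000000800000008 3 5) 0 0 (step_sound _ 98 [(rh795d3e5d420177aa.shift 0 2), (rh7b1f1fb55310c477.shift 2 0)] (by decide +kernel))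
noncomputable def rh392a3540aad13897 : CRef := CRef.mk (Pat.mk 0x100000002000000020000000200000000 0x50000000700000007000000020000000200000002 3 3) 0 0 (step_sound _ 130 [rh2e02ae96d64880aa, (rh9c0a5dbd188ab718.shift 0 1)] (by decide +kernel))
noncomputable def rhe30c2e094d0da457 : CRef := CRef.mk (Pat.mk 0xa00000003000000020000000000000000 0x50000001f00000003000000020000000200000002 3 5) 0 0 (step_sound _ 33 [(rh8797c67fe3ac847a.shift 0 1), rhe286c75f2739cce2] (by decide +kernel))
noncomputable def rh7c239bee1895c077 : CRef := CRef.mk (Pat.mk 0x50000000500000003000000000000000000000000 0x1000000050000000700000003000000020000000200000002 3 3) 0 0 (step_sound _ 65 [(rh2145e1d24b96a57e.shift 0 2), rhaf343399eb22e721] (by decide +kernel))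
noncomputable def rh2f2a476ff54e80e6 : CRef := CRef.mk (Pat.mk 0x8000000080000001e000000000000000000000000 0x8000000080000003e0000000f0000000400000004 3 6) 0 0 (step_sound _ 66 [(rh42548283029e2a39.shift 2 0), (rhaf9f2efc81a8312b.shift 0 2)] (by decide +kernel))
noncomputable def rhcb834dc62fd737be : CRef := CRef.mk (Pat.mk 0x1c00000018000000100000001000000000 0x300000001f00000018000000300000003000000020 3 6) 0 0 (step_sound _ 164 [(rh34517e326ddb5b25.shift 0 3), (rhd29a1fb688eae70f.shift 4 0)] (by decide +kernel))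
noncomputable def rh892742f9fc10f0d2 : CRef := CRef.mk (Pat.mk 0x8000000090000000c000000080000000400000000 0x10000000180000000f0000000c000000080000000c0000000c 3 5) 0 0 (step_sound _ 130 [(rh7e143111a189f2ad.shift 0 2), (rhe437f081bfcdb831.shift 2 0)] (by decide +kernel))
noncomputable def rh19cadee9b8878b41 : CRef := CRef.mk (Pat.mk 0x800000008000000080000000f00000000 0x40000000c0000000c000000080000000f00000018 3 5) 0 0 (step_sound _ 3 [(rh3ca48e2a6d60153d.shift 2 0), rhe25b0a99195a5d59] (by decide +kernel))
noncomputable def rh544c81fbbd507825 : CRef := CRef.mk (Pat.mk 0x180000000c00000030 0x180000000f0000007c 3 7) 0 0 (step_sound _ 3 [rh587868c37e85730d, (rhf48373e13d2bc128.shift 2 0)] (by decide +kernel))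
noncomputable def rhb8d97c085975ccce : CRef := CRef.mk (Pat.mk 0xc000000000000000f00000000 0x40000000c000000180000000f00000018 3 5) 0 0 (step_sound _ 3 [rhab0acc3af159c362, rhe25b0a99195a5d59] (by decide +kernel))
noncomputable def rh435fb3ef4ac648b4 : CRef := CRef.mk (Pat.mk 0x700000002000000020000000000000000 0x40000000700000007000000020000000200000002 3 3) 0 0 (step_sound _ 33 [rh2e02ae96d64880aa, (rh2f68792b6b779e96.shift 1 1)] (by decide +kernel))
noncomputable def rh6d3602f45702e5fd : CRef := CRef.mk (Pat.mk 0x1000000018000000180000001800000000 0x80000001800000018000000380000001f00000004 3 6) 0 0 (step_sound _ 34 [(rhab2ad169e49f9c5e.shift 0 1), (rhb0914cf7a5069272.shift 2 0)] (by decide +kernel))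
noncomputable def rhb4cf4243a8d6b246 : CRef := CRef.mk (Pat.mk 0xe000000080000000e 0xe0000007c0000000f 3 7) 0 0 (step_sound _ 36 [rh53b3c253cb0c65f4, (rh89ade209b3e28f13.shift 1 1)] (by decide +kernel))
noncomputable def rh06cb93baffa4712e : CRef := CRef.mk (Pat.mk 0x80000000c000000080000000e00000000 0x40000000c0000000c0000000c0000001e00000013 3 5) 0 0 (step_sound _ 1 [(rh3eff189dd406f9f5.shift 1 0), rhfe26b971575d20c5] (by decide +kernel))
noncomputable def rh8a2a5099c42be003 : CRef := CRef.mk (Pat.mk 0x700000000000000020000000200000000 0x10000000700000007000000020000000200000002 3 3) 0 0 (step_sound _ 97 [rh2e02ae96d64880aa, (rh50fbb5868c909700.shift 0 1)] (by decide +kernel))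
noncomputable def rh63624046dbd83126 : CRef := CRef.mk (Pat.mk 0x700000000000000020000000200000000 0x40000000700000007000000020000000200000002 3 3) 0 0 (step_sound _ 97 [rh2e02ae96d64880aa, (rh2f68792b6b779e96.shift 1 1)] (by decide +kernel))
noncomputable def rhd623d5160984650b : CRef := CRef.mk (Pat.mk 0x10000000000000001c00000008 0x1000000010000000300000001f00000038 3 6) 0 0 (step_sound _ 33 [(rh5ebae181afaa248a.shift 1 0), rha03f6e28ea70fc7d] (by decide +kernel))
noncomputable def rh312eadfd36a7b554 : CRef := CRef.mk (Pat.mk 0xc0000000c0000000e0000000000000000 0xc0000000c0000000f0000001800000018 3 5) 0 0 (step_sound _ 35 [(rh7b1f1fb55310c477.shift 2 0), rhbdde238153e38af9] (by decide +kernel))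
noncomputable def rhb29d95cbf1e304de : CRef := CRef.mk (Pat.mk 0x30000000080000001e 0x300000001f0000003e 3 6) 0 0 (step_sound _ 33 [rh3244c3cc8379b070, (rh7952d236cb99da8a.shift 1 0)] (by decide +kernel))
noncomputable def rh1c4565005575659e : CRef := CRef.mk (Pat.mk 0x2000000020000000700000000 0x20000000200000002000000070000000700000004 3 3) 0 0 (step_sound _ 129 [(rh2f6cd3183cec8379.shift 0 1), (rh55afc6a59410cf00.shift 1 0)] (by decide +kernel))
noncomputable def rh1fefa67dc6e412ed : CRef := CRef.mk (Pat.mk 0x20000000200000002000000000000000300000000 0x20000000200000002000000070000000700000004 3 3) 0 0 (step_sound _ 65 [(rh79877ebd3ef475dd.shift 0 1), (rhd29a1fb688eae70f.shift 1 0)] (by decide +kernel))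
noncomputable def rhc6a09b7b20e918dc : CRef := CRef.mk (Pat.mk 0x10000000000000000f00000008 0x1000000010000000380000001f00000008 3 6) 0 0 (step_sound _ 68 [(rh428265de8cd3cd2d.shift 0 1), (rha7c0d53f5e6c6372.shift 1 0)] (by decide +kernel))
noncomputable def rh3835434a8d03cc1d : CRef := CRef.mk (Pat.mk 0xc000000000000000e0000001000000000 0x40000000c000000080000000f0000001800000010 3 5) 0 0 (step_sound _ 35 [(rhb739f4f82bb681b4.shift 0 1), (rhc5351dabd90740aa.shift 2 0)] (by decide +kernel))
noncomputable def rha7a725c2fa3d3f6a : CRef := CRef.mk (Pat.mk 0x8000000000000001e0000001000000000 0x8000000380000001f0000001000000010 3 6) 0 0 (step_sound _ 100 [rh1b54be821c3b0bdd, (rh33e738c4ed385b9f.shift 1 2)] (by decide +kernel))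
noncomputable def rh20ffb5226af2495b : CRef := CRef.mk (Pat.mk 0x38000000100000001e00000000 0x800000008000000380000001f0000001e00000004 3 6) 0 0 (step_sound _ 67 [(rh37d9ceebb86d75d1.shift 2 0), (rh90a04632e314f181.shift 0 1)] (by decide +kernel))
noncomputable def rhac640c8fd4633ef8 : CRef := CRef.mk (Pat.mk 0x100000003000000000000000300000000 0x10000000300000003000000020000000300000003 3 2) 0 0 (step_sound _ 65 [rh7b1f1fb55310c477, rhbdd4e349c1dde679] (by decide +kernel))
noncomputable def rhcd8028d351a3f391 : CRef := CRef.mk (Pat.mk 0x4000000080000000c000000090000000800000000 0xc0000000c000000080000000c0000000f0000001800000010 3 5) 0 0 (step_sound _ 66 [(rh16567ae718d9fd54.shift 2 2), rh2d65c91b9f714cee] (by decide +kernel))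
noncomputable def rh21e297ba020e9d20 : CRef := CRef.mk (Pat.mk 0xf00000008000000080000000800000000 0x180000000f000000080000000c0000000c00000004 3 5) 0 0 (step_sound _ 34 [(rh932754581e0f4330.shift 2 0), (rhcf9240a90a4519c3.shift 0 1)] (by decide +kernel))
noncomputable def rh03006bccc11e0be3 : CRef := CRef.mk (Pat.mk 0x20000000000000002000000020000000200000000 0x4000000060000000600000002000000030000000300000001 3 3) 0 0 (step_sound _ 129 [(rh44f453b84f013105.shift 1 1), rh7928877f9bf74a91] (by decide +kernel))
noncomputable def rh08288fcdb14b309b : CRef := CRef.mk (Pat.mk 0x200000002000000000000000700000000 0x20000000200000002000000070000000700000001 3 3) 0 0 (step_sound _ 65 [(rh2f6cd3183cec8379.shift 0 1), rh932754581e0f4330] (by decide +kernel))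
noncomputable def rh299b6b564d8333ea : CRef := CRef.mk (Pat.mk 0xe000000080000000c0000000800000000 0x130000001e0000000c0000000c0000000c00000004 3 5) 0 0 (step_sound _ 161 [(rh4f7106e6f46c2542.shift 0 1), (rh7478de1eecd74de3.shift 1 0)] (by decide +kernel))
noncomputable def rh6d796465eef217ca : CRef := CRef.mk (Pat.mk 0x200000002000000000000000700000000 0x20000000200000002000000070000000700000004 3 3) 0 0 (step_sound _ 65 [(rh2f6cd3183cec8379.shift 0 1), (rh55afc6a59410cf00.shift 1 0)] (by decide +kernel))
noncomputable def rh81856f8078098c11 : CRef := CRef.mk (Pat.mk 0x80000001c000000000000001000000000 0x380000001f000000300000001000000010 3 6) 0 0 (step_sound _ 97 [(rh2bbc4934553ffbfd.shift 1 0), (rhec46bd5500c722c9.shift 0 3)] (by decide +kernel))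
noncomputable def rh582f02b62cc2c066 : CRef := CRef.mk (Pat.mk 0x30000000000000002000000020000000200000000 0x30000000300000002000000060000000600000004 3 3) 0 0 (step_sound _ 129 [(rhd29a1fb688eae70f.shift 1 0), (rhffd04209dc8ea796.shift 0 1)] (by decide +kernel))
noncomputable def rh857fce16ab573409 : CRef := CRef.mk (Pat.mk 0x1e000000000000000400000000 0x30000003e000000070000000400000004 3 6) 0 0 (step_sound _ 66 [rh132883a60cd8aed8, (rhaf9f2efc81a8312b.shift 0 2)] (by decide +kernel))
noncomputable def rh4c496af6e2e9f8b2 : CRef := CRef.mk (Pat.mk 0x1e000000000000000800000000 0x300000001f000000380000000800000008 3 6) 0 0 (step_sound _ 67 [(rha03f6e28ea70fc7d.shift 0 2), (rhd4d36b4007f546b1.shift 1 0)] (by decide +kernel))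
noncomputable def rhb7a3682d1d9eb506 : CRef := CRef.mk (Pat.mk 0xf00000001000000020000000000000000 0x10000001f00000003000000020000000200000002 3 5) 0 0 (step_sound _ 97 [(rh18965a982d73c794.shift 0 3), rh3cb04db3dd2b6a55] (by decide +kernel))
noncomputable def rh272edc0eee48e1a5 : CRef := CRef.mk (Pat.mk 0x1e00000010000000380000000000000000 0x40000001e0000001f000000380000000800000008 3 6) 0 0 (step_sound _ 99 [(rh40241bd608e5be1a.shift 2 0), (rhe41609ae3e02089b.shift 0 2)] (by decide +kernel))
noncomputable def rh64f35c226fe67a4e : CRef := CRef.mk (Pat.mk 0x400000004000000180000000c00000000 0x4000000040000003c0000000f00000002 3 6) 0 0 (step_sound _ 33 [(rh297dfe2cf5b1f192.shift 1 0), (rh53b3c253cb0c65f4.shift 0 1)] (by decide +kernel))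
noncomputable def rh79dc201a991d9ce1 : CRef := CRef.mk (Pat.mk 0x1e0000000800000008 0x4000000040000000f0000003e0000000800000008 3 6) 0 0 (step_sound _ 98 [(rhc89253ff58c66167.shift 2 0), (rhe3060b190bc0bc78.shift 0 2)] (by decide +kernel))
noncomputable def rhc4e6b3e7d2fc63fc : CRef := CRef.mk (Pat.mk 0x200000002000000020000000a00000003 0x4000000060000000600000002000000060000001e00000003 3 5) 0 0 (step_sound _ 161 [rh349ef37b577cdca1, (rh44f453b84f013105.shift 1 1)] (by decide +kernel))
noncomputable def rhbad73f65045509eb : CRef := CRef.mk (Pat.mk 0xa00000003000000020000000100000000 0x40000001e00000003000000020000000300000001 3 5) 0 0 (step_sound _ 33 [(rh8797c67fe3ac847a.shift 0 1), rh932754581e0f4330] (by decide +kernel))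
noncomputable def rha81a080b97a85d56 : CRef := CRef.mk (Pat.mk 0xa00000003000000020000000400000000 0x40000001e00000003000000020000000600000004 3 5) 0 0 (step_sound _ 33 [(rh55afc6a59410cf00.shift 1 0), (rh8797c67fe3ac847a.shift 0 1)] (by decide +kernel))
noncomputable def rh120c112a4b59c2f6 : CRef := CRef.mk (Pat.mk 0x300000007000000060000000000000000 0x6000000060000000700000007000000060000000200000002 3 3) 0 0 (step_sound _ 162 [rh3eb26739ea0a224c, (rh82bd946b1709a78e.shift 1 2)] (by decide +kernel))
noncomputable def rha92bab927db6c750 : CRef := CRef.mk (Pat.mk 0x160000000e00000008 0x10000000300000001e0000003f00000008 3 6) 0 0 (step_sound _ 100 [(rh7b6afa71f9aeb7f3.shift 1 0), (rh7f01e29029689730.shift 0 1)] (by decide +kernel))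
noncomputable def rha493d639829a8be6 : CRef := CRef.mk (Pat.mk 0x2000000038000000280000006000000000 0x200000003c0000002f0000007800000010 3 7) 0 0 (step_sound _ 66 [(rh1ed7a3503fa50fc8.shift 0 2), (rh3c2f980063a11105.shift 2 0)] (by decide +kernel))
noncomputable def rhce7cdf4dcbca80ec : CRef := CRef.mk (Pat.mk 0x500000005000000010000000200000002 0x50000000500000005000000070000000600000002 3 3) 0 0 (step_sound _ 65 [(rh2145e1d24b96a57e.shift 0 1), (rh88ff8f7539aa90a1.shift 1 0)] (by decide +kernel))
noncomputable def rh77cd9d39e17a4dc8 : CRef := CRef.mk (Pat.mk 0x400000004000000140000000a00000000 0x4000000040000003c0000000f00000008 3 6) 0 0 (step_sound _ 34 [(rh55afc6a59410cf00.shift 2 0), (rh7dcd5319f4f71bec.shift 0 1)] (by decide +kernel))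
noncomputable def rh898b00843c8cec29 : CRef := CRef.mk (Pat.mk 0x200000002000000020000000100000000 0x20000000200000002000000070000000700000005 3 3) 0 0 (step_sound _ 34 [rh2818863d77d69ed0, (rh2f6cd3183cec8379.shift 0 1)] (by decide +kernel))
noncomputable def rh1de9ce977e52b750 : CRef := CRef.mk (Pat.mk 0x2000000030000000a00000000 0x20000000200000002000000030000001f00000005 3 5) 0 0 (step_sound _ 129 [rh03dfdf12d5937476, rh6a56790be92093bf] (by decide +kernel))
noncomputable def rha42c5dfa6c5d377a : CRef := CRef.mk (Pat.mk 0x60000000c00000002 0x70000003e00000003 3 6) 0 0 (step_sound _ 36 [rhcb763b151dc90fdc, (rhf48373e13d2bc128.shift 1 1)] (by decide +kernel))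
noncomputable def rheb0b9bc7ed312347 : CRef := CRef.mk (Pat.mk 0x500000005000000070000000000000000 0x40000000500000005000000070000000700000002 3 3) 0 0 (step_sound _ 33 [(rh5c5e593799055d58.shift 1 1), rhe38ad39d05c44887] (by decide +kernel))
noncomputable def rh55c5eddb525c81a1 : CRef := CRef.mk (Pat.mk 0xe00000014000000040000000000000000 0x20000000f0000001c000000040000000400000004 3 5) 0 0 (step_sound _ 34 [(rh50fbb5868c909700.shift 1 1), rhd88fe279a223a913] (by decide +kernel))
noncomputable def rh28f46a23d17b767e : CRef := CRef.mk (Pat.mk 0x4000000170000001c00000000 0x140000003e000000170000001c00000008 3 6) 0 0 (step_sound _ 100 [(rh4fd54f6717f3e7ac.shift 0 2), (rh5fc67bac28a8b5bb.shift 2 0)] (by decide +kernel))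
noncomputable def rh64717c9e42d9142b : CRef := CRef.mk (Pat.mk 0x200000007000000020000000100000000 0x700000007000000020000000300000003 3 3) 0 0 (step_sound _ 33 [rh261f868a429ae0e3, rh932754581e0f4330] (by decide +kernel))
noncomputable def rh0b1c741f303116e4 : CRef := CRef.mk (Pat.mk 0x2000000020000000300000002000000020000000000000000 0x2000000020000000300000003000000070000000600000006 3 3) 0 0 (step_sound _ 33 [rh3fb8aab4fcdc27e5, (rhd29a1fb688eae70f.shift 1 0)] (by decide +kernel))
noncomputable def rhe07596e03a7802b0 : CRef := CRef.mk (Pat.mk 0xc0000001800000006 0xc000000780000001f 3 7) 0 0 (step_sound _ 3 [rh53b3c253cb0c65f4, (rh85ab58ad6384baf3.shift 1 0)] (by decide +kernel))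
noncomputable def rh7e9ba19755485a04 : CRef := CRef.mk (Pat.mk 0x580000001800000010 0x780000001f00000030 3 7) 0 0 (step_sound _ 34 [(rh361cc68994bd8a63.shift 2 1), rhf56e6bc5d2f7fe77] (by decide +kernel))
noncomputable def rhd05a505f1d32709e : CRef := CRef.mk (Pat.mk 0x300000003000000020000000100000000 0x20000000300000003000000070000000700000006 3 3) 0 0 (step_sound _ 34 [(rh7b4a76157e5abfc9.shift 0 1), rh7bed6280d5711866] (by decide +kernel))
noncomputable def rh57af0e2014b3ba61 : CRef := CRef.mk (Pat.mk 0x1600000006000000040000000000000000 0x80000001e00000007000000040000000400000004 3 5) 0 0 (step_sound _ 34 [(rh7b1f1fb55310c477.shift 1 0), (rh8d930ef2202f3fb0.shift 0 1)] (by decide +kernel))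
noncomputable def rh7119698359dc4f54 : CRef := CRef.mk (Pat.mk 0xa00000002000000020000000200000000 0x50000001f00000003000000020000000200000002 3 5) 0 0 (step_sound _ 96 [(rh8797c67fe3ac847a.shift 0 1), rhe286c75f2739cce2] (by decide +kernel))
noncomputable def rh176ee440f82a3750 : CRef := CRef.mk (Pat.mk 0x7000000050000000500000000 0x2000000020000000300000007000000050000000500000004 3 3) 0 0 (step_sound _ 129 [(rh7b1f1fb55310c477.shift 1 0), (rhfa7d9ef1a865136e.shift 0 1)] (by decide +kernel))
noncomputable def rh18b49738f4e5d343 : CRef := CRef.mk (Pat.mk 0x400000004000000060000000700000000 0x20000000600000006000000060000000700000005 3 3) 0 0 (step_sound _ 129 [rh0fb2e3a32a8ad49f, (rh50fbb5868c909700.shift 1 1)] (by decide +kernel))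
noncomputable def rh77c1eb2ea3b85b7a : CRef := CRef.mk (Pat.mk 0xc000000280000001c 0xf0000003c0000001e 3 6) 0 0 (step_sound _ 36 [(rh53b3c253cb0c65f4.shift 1 0), (rhdbcea10a0fbe5ba6.shift 0 1)] (by decide +kernel))
noncomputable def rhe2f6b10c50f22ead : CRef := CRef.mk (Pat.mk 0x2e00000000 0x70000003e00000007 3 6) 0 0 (step_sound _ 36 [(rhd5eb272e07a4e288.shift 0 1), rheae1728ff4a56756] (by decide +kernel))
noncomputable def rh81c26abf9d8afa53 : CRef := CRef.mk (Pat.mk 0x800000008000000100000001c00000000 0x800000008000000380000001f00000004 3 6) 0 0 (step_sound _ 33 [rh00dff121ba7f8f65, (rh33e738c4ed385b9f.shift 1 1)] (by decide +kernel))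
noncomputable def rh13f5c1d6008ee49f : CRef := CRef.mk (Pat.mk 0x400000008000000000000000f00000000 0x40000000c000000180000000f00000018 3 5) 0 0 (step_sound _ 3 [rhd2c624376f5d6da9, rhe25b0a99195a5d59] (by decide +kernel))
noncomputable def rh9e997e947f201f41 : CRef := CRef.mk (Pat.mk 0x400000000000000080000001e00000000 0x4000000040000000e0000007e00000003 3 7) 0 0 (step_sound _ 66 [(rh79b3c29022acbdf3.shift 1 1), rh981be6707e4d9088] (by decide +kernel))
noncomputable def rhcad990ca8c19677f : CRef := CRef.mk (Pat.mk 0x2000000020000000300000003000000000000000000000000 0x2000000030000000300000007000000060000000600000002 3 3) 0 0 (step_sound _ 65 [rh3cb04db3dd2b6a55, (rhd29a1fb688eae70f.shift 1 1)] (by decide +kernel))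
noncomputable def rha18922c1423cfe79 : CRef := CRef.mk (Pat.mk 0x2000000020000000700000003000000000000000000000000 0x2000000060000000700000007000000060000000600000002 3 3) 0 0 (step_sound _ 65 [rhb0c1e7919d9be92d, (rhd29a1fb688eae70f.shift 1 1)] (by decide +kernel))
noncomputable def rha1cf18b944036215 : CRef := CRef.mk (Pat.mk 0x2000000020000000700000003000000000000000000000000 0x400000006000000070000000700000003000000020000000200000002 3 3) 0 0 (step_sound _ 65 [rh3cb04db3dd2b6a55, (rh44f453b84f013105.shift 1 2), rhb0c1e7919d9be92d] (by decide +kernel))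
noncomputable def rh2b4ffbe8d274482e : CRef := CRef.mk (Pat.mk 0x2000000060000000f00000000 0x60000000600000006000000060000000f00000018 3 5) 0 0 (step_sound _ 130 [rh3098af7943687178, (rh82bd946b1709a78e.shift 1 1)] (by decide +kernel))
noncomputable def rh2f17a786a3c0ef27 : CRef := CRef.mk (Pat.mk 0x200000006000000000000000f00000000 0x600000006000000040000000f0000001c 3 5) 0 0 (step_sound _ 3 [(rh99faede1faf51154.shift 1 0), rhe25b0a99195a5d59] (by decide +kernel))
noncomputable def rhad3425bb5b48f59f : CRef := CRef.mk (Pat.mk 0x1e000000060000000200000000 0x30000001e0000003e0000000300000001 3 6) 0 0 (step_sound _ 32 [rh16b3601545764ddf, (rh2ff269158ca0cd3a.shift 0 1)] (by decide +kernel))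
noncomputable def rheeacadb0b08e9b09 : CRef := CRef.mk (Pat.mk 0x1e00000018000000100000000000000000 0x270000003e00000018000000100000001000000010 3 6) 0 0 (step_sound _ 133 [(rhb0c1e7919d9be92d.shift 3 0), (rhd5eb272e07a4e288.shift 0 4)] (by decide +kernel))
noncomputable def rh18dc926f2a3cb231 : CRef := CRef.mk (Pat.mk 0xc0000001c000000180000000400000000 0x20000000f0000001c0000003c0000000600000002 3 6) 0 0 (step_sound _ 66 [(rh157b220518f94713.shift 1 0), (rh277b01412deaec89.shift 0 1)] (by decide +kernel))
noncomputable def rh494a41fc39ea97f6 : CRef := CRef.mk (Pat.mk 0x6000000060000000c0000000200000000 0x6000000060000001e0000000300000003 3 5) 0 0 (step_sound _ 65 [rh157b220518f94713, (rh71222050f2c63a3a.shift 1 0)] (by decide +kernel))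
noncomputable def rhe7da32e943c0a63f : CRef := CRef.mk (Pat.mk 0x700000006000000000000000400000000 0x10000000700000006000000060000000600000006 3 3) 0 0 (step_sound _ 33 [(rh935da622f8ebc962.shift 1 0), (rhbcedfca2885d6e85.shift 1 0), rhc93583770a36d0f1, (rhecb97fed8c7f1286.shift 1 0)] (by decide +kernel))
noncomputable def rh7fdd6220b14a6b61 : CRef := CRef.mk (Pat.mk 0x40000000e000000080000000600000000 0x40000000e0000007c0000000f00000008 3 7) 0 0 (step_sound _ 68 [rh715f2fe878c18bbd, (rh89ade209b3e28f13.shift 1 2)] (by decide +kernel))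
noncomputable def rh703032655ec1637c : CRef := CRef.mk (Pat.mk 0x1c000000180000001000000010 0x270000003f000000180000001000000010 3 6) 0 0 (step_sound _ 129 [(rh22a65d20d3172694.shift 0 2), (rh3ff7a36e4acb88f5.shift 1 0)] (by decide +kernel))
noncomputable def rh88870a0d15efe576 : CRef := CRef.mk (Pat.mk 0x2e00000018 0x70000003e0000001f 3 6) 0 0 (step_sound _ 36 [rh0bdf8aa2e59fe114, (rhd5eb272e07a4e288.shift 0 1)] (by decide +kernel))
noncomputable def rh810e085dbcd2f4a9 : CRef := CRef.mk (Pat.mk 0x100000001c000000180000000400000000 0x100000001c0000007c0000000f00000008 3 7) 0 0 (step_sound _ 33 [(rh500571fd45750302.shift 1 1), rhfaf60328513d6ff3] (by decide +kernel))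
noncomputable def rh099c45842d56bde1 : CRef := CRef.mk (Pat.mk 0x4000000060000000c0000000200000000 0x4000000060000003e0000000300000002 3 6) 0 0 (step_sound _ 65 [(rh71222050f2c63a3a.shift 1 0), (rha9e1a5d55b907abf.shift 0 1)] (by decide +kernel))
noncomputable def rh8d348b209915a49a : CRef := CRef.mk (Pat.mk 0x40000000e00000007000000020000000000000000 0xc0000000e000000070000001e0000000c00000004 3 5) 0 0 (step_sound _ 66 [(rh42afa1af9fffa0e1.shift 0 1), (rhb0c1e7919d9be92d.shift 1 0)] (by decide +kernel))
noncomputable def rh0da1913e651f50c0 : CRef := CRef.mk (Pat.mk 0x40000000c0000001a0000000800000000 0x40000000f0000001e0000000f00000002 3 5) 0 0 (step_sound _ 33 [rh871b00de3d4c7932, (rhda02c4ce0b224328.shift 0 1)] (by decide +kernel))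
noncomputable def rh4fb2bc07e6edd8b1 : CRef := CRef.mk (Pat.mk 0x20000000f00000004 0x60000003f0000003e 3 6) 0 0 (step_sound _ 36 [rh4ad5fc38f1b69f65, (rh795d3e5d420177aa.shift 1 0)] (by decide +kernel))
noncomputable def rh076c5c198c4c9fd2 : CRef := CRef.mk (Pat.mk 0x4000000160000001a0000000000000000 0x4000000360000001e0000000300000002 3 6) 0 0 (step_sound _ 33 [(rh71222050f2c63a3a.shift 1 0), (rh760717e835f8c2f3.shift 0 1)] (by decide +kernel))
noncomputable def rhb4e67b9814d5b980 : CRef := CRef.mk (Pat.mk 0x40000000600000007000000020000000000000000 0x600000006000000070000001e0000000c00000004 3 5) 0 0 (step_sound _ 66 [(rh3cb04db3dd2b6a55.shift 1 0), (rh42afa1af9fffa0e1.shift 0 1)] (by decide +kernel))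
noncomputable def rh2f30a25e6ae07098 : CRef := CRef.mk (Pat.mk 0xe000000020000000f0000000000000000 0xc0000000e000000060000000f0000001c00000004 3 5) 0 0 (step_sound _ 98 [(rhb0c1e7919d9be92d.shift 1 0), (rhba04d77b039f69d9.shift 0 1)] (by decide +kernel))
noncomputable def rh3d8ca6ad03bf935b : CRef := CRef.mk (Pat.mk 0x6000000020000000f00000000 0x4000000040000000600000006000000060000000f00000018 3 5) 0 0 (step_sound _ 130 [rh49bdc49f6b132823, (rhbfb5770941270498.shift 1 1)] (by decide +kernel))
noncomputable def rh8e2eafc5dd21c5bd : CRef := CRef.mk (Pat.mk 0x600000006000000010000000700000000 0x40000000600000006000000070000001f00000018 3 5) 0 0 (step_sound _ 35 [(rh0a971779ee38fb5f.shift 0 1), rh49bdc49f6b132823] (by decide +kernel))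
noncomputable def rh911d8b1731ea5401 : CRef := CRef.mk (Pat.mk 0x180000001c000000000000000800000008 0x180000001f000000300000001800000008 3 6) 0 0 (step_sound _ 68 [(rheea67dfebd0f8008.shift 3 0), (rhf56e6bc5d2f7fe77.shift 0 2)] (by decide +kernel))
noncomputable def rhfd81343a4a8f387d : CRef := CRef.mk (Pat.mk 0x1c0000000e000000060000000200000000 0x100000001c0000000e0000003e0000000b00000008 3 6) 0 0 (step_sound _ 67 [(rha9e1a5d55b907abf.shift 0 1), (rhb0c1e7919d9be92d.shift 2 0)] (by decide +kernel))
noncomputable def rh900517affbf79fe4 : CRef := CRef.mk (Pat.mk 0x700000006000000040000000000000000 0x50000000700000006000000060000000600000006 3 3) 0 0 (step_sound _ 33 [(rh5ddbeed5d869bf16.shift 1 0), (rhd1f9989d6034576a.shift 0 1), (rhe437f081bfcdb831.shift 1 0)] (by decide +kernel))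
noncomputable def rh8749ea0f61b0dde4 : CRef := CRef.mk (Pat.mk 0x600000007000000030000000600000000 0x80000001e00000007000000070000001e00000008 3 5) 0 0 (step_sound _ 66 [rh42afa1af9fffa0e1, (rh712526e472efe489.shift 0 1)] (by decide +kernel))
noncomputable def rhde0a10e295a0d0d9 : CRef := CRef.mk (Pat.mk 0x100000003000000060000000400000000 0x30000000300000003000000060000000600000002 3 3) 0 0 (step_sound _ 33 [rh7b1f1fb55310c477, (rhf627eb01e9e8db9a.shift 0 1)] (by decide +kernel))
noncomputable def rhf018044ae0d004e8 : CRef := CRef.mk (Pat.mk 0x80000001c000000080000000000000000 0x40000000f0000003c000000080000000800000008 3 6) 0 0 (step_sound _ 130 [(rh3cb04db3dd2b6a55.shift 2 0), (rhe2b63c00a3d7bb73.shift 0 3)] (by decide +kernel))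
noncomputable def rh9957864ec69cca10 : CRef := CRef.mk (Pat.mk 0x40000000e0000001c0000001000000000 0x40000000e0000001f0000001b0000000a 3 5) 0 0 (step_sound _ 65 [rh7082a125cd4b18d2, rh9c40a739b57d6d20] (by decide +kernel))
noncomputable def rh38abea5be231f3fc : CRef := CRef.mk (Pat.mk 0x100000000c0000000c00000008 0x1000000010000000100000003c0000001f00000008 3 6) 0 0 (step_sound _ 68 [(rh4dc133ee0ba1420a.shift 0 1), (rh69755ef358ebfd54.shift 3 0)] (by decide +kernel))
noncomputable def rh31b21432502008f6 : CRef := CRef.mk (Pat.mk 0x4000000060000000a00000002 0x400000004000000060000003e00000003 3 6) 0 0 (step_sound _ 34 [(rh5c5e593799055d58.shift 1 0), rha9e1a5d55b907abf] (by decide +kernel))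
noncomputable def rh5b53faf3b8d954fc : CRef := CRef.mk (Pat.mk 0x500000003000000020000000000000000 0x50000000700000003000000020000000200000002 3 3) 0 0 (step_sound _ 33 [rh7b1f1fb55310c477, (rh9c0a5dbd188ab718.shift 0 1)] (by decide +kernel))
noncomputable def rh960a8f47a8f1fa0e : CRef := CRef.mk (Pat.mk 0x40000001c0000000800000008 0x4000000040000003c0000000f00000008 3 6) 0 0 (step_sound _ 34 [(rh2145e1d24b96a57e.shift 2 0), (rh4dc133ee0ba1420a.shift 0 1)] (by decide +kernel))
noncomputable def rhec65b2af3f93fbcb : CRef := CRef.mk (Pat.mk 0x80000000e0000001400000000 0x800000008000000080000000f0000001c00000010 3 5) 0 0 (step_sound _ 35 [(rh571950d89739e871.shift 2 0), (rhb739f4f82bb681b4.shift 0 1)] (by decide +kernel))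
noncomputable def rhb6adaf4bc79f34c4 : CRef := CRef.mk (Pat.mk 0x14000000050000000e 0x1e0000000f0000001e 3 5) 0 0 (step_sound _ 33 [(rhcb00ab67b46fb179.shift 0 1), rhf48373e13d2bc128] (by decide +kernel))
noncomputable def rh69b9767d0b0e1653 : CRef := CRef.mk (Pat.mk 0x10000000170000001000000010 0x80000003e000000170000001000000010 3 6) 0 0 (step_sound _ 99 [(rh50fbb5868c909700.shift 3 0), (rh541ba7bf5755edb5.shift 0 2)] (by decide +kernel))
noncomputable def rh4b25f79d66d12266 : CRef := CRef.mk (Pat.mk 0x5e00000008 0x70000007e0000000c 3 7) 0 0 (step_sound _ 37 [(rhd5eb272e07a4e288.shift 0 1), (rheb0810cc63b001d8.shift 2 0)] (by decide +kernel))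
noncomputable def rh1dc1eb52f1a4fa6f : CRef := CRef.mk (Pat.mk 0x600000006000000050000000600000000 0x40000000600000006000000070000001e00000008 3 5) 0 0 (step_sound _ 35 [(rh0a971779ee38fb5f.shift 0 1), (rh55afc6a59410cf00.shift 2 0)] (by decide +kernel))
noncomputable def rh2fed619e183bde17 : CRef := CRef.mk (Pat.mk 0x800000008000000180000000c00000000 0x800000008000000380000001f00000010 3 6) 0 0 (step_sound _ 33 [(rh53b3c253cb0c65f4.shift 0 1), (rh9be7e2e974241aee.shift 1 0)] (by decide +kernel))
noncomputable def rh845143d4dda45f82 : CRef := CRef.mk (Pat.mk 0x1c00000014000000100000000c00000000 0x40000001c0000001f000000380000000c00000004 3 6) 0 0 (step_sound _ 99 [(rhd8e3ec04df043c57.shift 2 0), (rhf56e6bc5d2f7fe77.shift 0 2)] (by decide +kernel))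
noncomputable def rhba9de65a83de3b0b : CRef := CRef.mk (Pat.mk 0x8000000020000000700000006 0x8000000080000001b0000003f00000006 3 6) 0 0 (step_sound _ 35 [rh5ebae181afaa248a, rhb762f327c85d41a0] (by decide +kernel))
noncomputable def rh853ddd7028327f8b : CRef := CRef.mk (Pat.mk 0x8000000080000001c00000008 0x800000008000000080000003c0000000f 3 6) 0 0 (step_sound _ 2 [rh4dc133ee0ba1420a, (rh5c5e593799055d58.shift 2 0)] (by decide +kernel))
noncomputable def rh180375b2bf0545a4 : CRef := CRef.mk (Pat.mk 0x500000003000000030000000200000000 0x60000000700000003000000030000000300000001 3 3) 0 0 (step_sound _ 129 [(rh2f68792b6b779e96.shift 1 1), rhea7a1800d6f053bd] (by decide +kernel))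
noncomputable def rhe875f479e30355c3 : CRef := CRef.mk (Pat.mk 0x5000000070000000700000000 0x60000000600000007000000070000000700000005 3 3) 0 0 (step_sound _ 129 [rh150947578a63ac51, (rh16567ae718d9fd54.shift 1 1)] (by decide +kernel))
noncomputable def rh6ba0695fa0ab13d9 : CRef := CRef.mk (Pat.mk 0x8000000000000001e00000000 0x800000008000000380000001f00000030 3 6) 0 0 (step_sound _ 67 [(rhba04d77b039f69d9.shift 1 0), (rhec46bd5500c722c9.shift 0 1)] (by decide +kernel))
noncomputable def rh4dd154a600cc34a9 : CRef := CRef.mk (Pat.mk 0xa0000000a0000000f00000000 0x40000000e0000000e0000000a0000000f00000018 3 5) 0 0 (step_sound _ 130 [(rh8b14df1b185c100a.shift 1 1), rhfc73b9f9592b9946] (by decide +kernel))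
noncomputable def rh1da4181dedb42fd1 : CRef := CRef.mk (Pat.mk 0xc00000000000000060000000600000000 0x80000000c00000004000000070000003e00000008 3 6) 0 0 (step_sound _ 35 [(rh79b3c29022acbdf3.shift 0 1), (rh85e0f5cc78e9cbe0.shift 2 0)] (by decide +kernel))
noncomputable def rhd9df9b4253553648 : CRef := CRef.mk (Pat.mk 0x7000000010000000700000000 0x2000000020000000300000007000000070000000700000004 3 3) 0 0 (step_sound _ 129 [(rh935da622f8ebc962.shift 1 0), (rhbfb5770941270498.shift 0 1)] (by decide +kernel))
noncomputable def rh5370a63943ede0b2 : CRef := CRef.mk (Pat.mk 0x80000001c00000002 0x380000001f00000003 3 6) 0 0 (step_sound _ 33 [rheb0810cc63b001d8, (rhec46bd5500c722c9.shift 0 1)] (by decide +kernel))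
noncomputable def rhb045f4aa3aa08ce7 : CRef := CRef.mk (Pat.mk 0xe000000080000000c00000004 0x330000001e0000000c0000000c0000000c 3 6) 0 0 (step_sound _ 100 [(rhd4d36b4007f546b1.shift 1 0), rhea1977e228a6d74a] (by decide +kernel))
noncomputable def rh29683fc53f66f5df : CRef := CRef.mk (Pat.mk 0xe000000080000000400000004 0x20000000f0000003c0000000400000004 3 6) 0 0 (step_sound _ 66 [(rh50fbb5868c909700.shift 1 0), (rh6292bd8784ece55f.shift 0 2)] (by decide +kernel))
noncomputable def rh35d1cf980e059eae : CRef := CRef.mk (Pat.mk 0x600000006000000020000000200000000 0x200000002000000020000000600000006000000070000000300000001 3 3) 0 0 (step_sound _ 161 [(rh3e595262c1b737ad.shift 1 2), rh7928877f9bf74a91] (by decide +kernel))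
noncomputable def rhd9bd4dcca3dcc350 : CRef := CRef.mk (Pat.mk 0x1e000000080000000000000004 0x30000007e0000000e0000000400000004 3 7) 0 0 (step_sound _ 66 [rh0da3f8d18d3a0dfd, (rh2612b4f73ba7c3b3.shift 1 2)] (by decide +kernel))
noncomputable def rh1375d65e18b64d08 : CRef := CRef.mk (Pat.mk 0x1c0000001e0000000000000000 0x10000000300000001f0000001e0000000800000008 3 6) 0 0 (step_sound _ 132 [(rh145987718adedfed.shift 0 2), (rh1e309b005ffa1b36.shift 3 0)] (by decide +kernel))
noncomputable def rh4868253c0be6b3b5 : CRef := CRef.mk (Pat.mk 0x300000003000000020000000200000000 0x200000002000000020000000300000003000000070000000600000004 3 3) 0 0 (step_sound _ 161 [(rh503dd4575245365b.shift 0 2), (rhd29a1fb688eae70f.shift 1 0)] (by decide +kernel))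
noncomputable def rh48cb297d6474888f : CRef := CRef.mk (Pat.mk 0xf00000006000000020000000000000000 0x180000000f00000006000000060000000600000006 3 5) 0 0 (step_sound _ 34 [(rh478c4cadbcd4e066.shift 1 0), (rh63bb75a038171f49.shift 0 1), (rh9b4df57cddcda711.shift 1 0), (rhd02f44a45c1a55c1.shift 1 0)] (by decide +kernel))
noncomputable def rh1939cf1b2cd96fb3 : CRef := CRef.mk (Pat.mk 0x600000004000000060000000300000000 0x2000000020000000600000006000000060000000700000001 3 3) 0 0 (step_sound _ 97 [rh932754581e0f4330, (rhfc7c29d8e65d775f.shift 1 1)] (by decide +kernel))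
noncomputable def rh57120328f48366ca : CRef := CRef.mk (Pat.mk 0x10000000100000001e00000000 0x1000000010000000100000003e00000067 3 7) 0 0 (step_sound _ 37 [(rhba04d77b039f69d9.shift 2 0), rheae1728ff4a56756] (by decide +kernel))
noncomputable def rhf5d1cc58e7fd332f : CRef := CRef.mk (Pat.mk 0x400000000000000060000000700000000 0x60000000600000006000000060000000700000001 3 3) 0 0 (step_sound _ 129 [(rh4c61a8d65f05c464.shift 1 1), rhcddd2712883fd9b7, (rhd727bb41309b6841.shift 1 1), rhe908f39dd8d66be2] (by decide +kernel))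
noncomputable def rh8cfd0d2e20b2ef60 : CRef := CRef.mk (Pat.mk 0x6000000080000000c00000004 0x80000000f0000007c0000000c00000004 3 7) 0 0 (step_sound _ 68 [rh06d91fa6ccb2dd46, (rhc3c694226a015fc3.shift 1 1)] (by decide +kernel))
noncomputable def rha82e4d6efed3fd0b : CRef := CRef.mk (Pat.mk 0x4000000000000001c0000000c00000000 0x400000004000000040000001c0000000f00000002 3 5) 0 0 (step_sound _ 33 [(rh53b3c253cb0c65f4.shift 0 1), (rhe908f39dd8d66be2.shift 1 0)] (by decide +kernel))
noncomputable def rh0ef477213ce910d0 : CRef := CRef.mk (Pat.mk 0x100000001c0000000c 0x300000001f0000003c 3 6) 0 0 (step_sound _ 33 [(rh33e738c4ed385b9f.shift 1 1), rh6292bd8784ece55f] (by decide +kernel))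
noncomputable def rhb5cd765beaf7c699 : CRef := CRef.mk (Pat.mk 0x100000001a0000000e 0x300000001f0000003e 3 6) 0 0 (step_sound _ 4 [rh3244c3cc8379b070, (rhabcb8f6c932edb1f.shift 1 0)] (by decide +kernel))
noncomputable def rh1143d12632755df1 : CRef := CRef.mk (Pat.mk 0x1000000010000000180000001c00000000 0x1000000010000000180000003f00000027 3 6) 0 0 (step_sound _ 1 [(rh29be723380cc2dcf.shift 1 0), rhd74396e693bc7125] (by decide +kernel))
noncomputable def rh13c1ec585d8070bb : CRef := CRef.mk (Pat.mk 0x100000001c0000000e 0x300000001f0000003e 3 6) 0 0 (step_sound _ 33 [(rh33e738c4ed385b9f.shift 1 1), rh79b3c29022acbdf3] (by decide +kernel))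
noncomputable def rh6f7819ce5ebf9246 : CRef := CRef.mk (Pat.mk 0x40000000f000000080000000000000000 0x40000001c0000000f000000080000000800000008 3 5) 0 0 (step_sound _ 35 [(rh2010eb49fb22f810.shift 0 1), (rh7b1f1fb55310c477.shift 2 0)] (by decide +kernel))
noncomputable def rha68749667b6ccf63 : CRef := CRef.mk (Pat.mk 0x200000006000000070000000600000000 0x40000000600000006000000070000001e00000008 3 5) 0 0 (step_sound _ 35 [(rh8eecbcd87de0d74d.shift 1 0), (rhf48373e13d2bc128.shift 0 1)] (by decide +kernel))
noncomputable def rhf88f7e4724402d9c : CRef := CRef.mk (Pat.mk 0x4000000180000001c00000010 0x80000000f0000007c0000001c00000010 3 7) 0 0 (step_sound _ 97 [rhbbace0fc56569fd6, (rhc3c694226a015fc3.shift 1 1)] (by decide +kernel))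
noncomputable def rhbb8ebb9b281695d3 : CRef := CRef.mk (Pat.mk 0x20000000c0000000600000004 0x2000000030000003e0000000600000004 3 6) 0 0 (step_sound _ 65 [(rh2145e1d24b96a57e.shift 1 0), (rhb762f327c85d41a0.shift 0 1)] (by decide +kernel))
noncomputable def rhb2ebc44568671e7f : CRef := CRef.mk (Pat.mk 0x8000000180000000c0000001000000000 0x8000000380000001f0000001000000010 3 6) 0 0 (step_sound _ 65 [(rh53b3c253cb0c65f4.shift 0 2), (rh868906b4a31a1e06.shift 1 0)] (by decide +kernel))
noncomputable def rh67ab94ada78c3e25 : CRef := CRef.mk (Pat.mk 0x2000000070000000600000004 0x40000000c0000001e000000070000000600000006 3 5) 0 0 (step_sound _ 98 [rh712526e472efe489, (rh84d1c02a8954c6a8.shift 1 0)] (by decide +kernel))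
noncomputable def rh73bb6971660b7fb8 : CRef := CRef.mk (Pat.mk 0x40000000e0000000400000000 0x200000002000000070000003e0000000400000004 3 6) 0 0 (step_sound _ 97 [(rh79b3c29022acbdf3.shift 0 2), (rhfc7c29d8e65d775f.shift 1 0)] (by decide +kernel))
noncomputable def rh5a03dbb03abecd9f : CRef := CRef.mk (Pat.mk 0x700000001000000070000000000000000 0x2000000060000000700000003000000070000000600000002 3 3) 0 0 (step_sound _ 97 [(rh571950d89739e871.shift 0 1), rhb0c1e7919d9be92d] (by decide +kernel))
noncomputable def rhd8263e9652146d38 : CRef := CRef.mk (Pat.mk 0xf0000000200000006000000000000000000000000 0x180000000f0000000600000006000000060000000400000004 3 5) 0 0 (step_sound _ 66 [(rh08edf065357d68e5.shift 1 0), (rh4fc80024ed3db095.shift 0 2), (rh79ad7b82ec8c35e2.shift 1 0)] (by decide +kernel))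
noncomputable def rha7976e43fb57a213 : CRef := CRef.mk (Pat.mk 0x3000000010000000700000000 0x20000000200000003000000030000000700000005 3 3) 0 0 (step_sound _ 129 [rh71222050f2c63a3a, rhab2ae83e2bc2464b] (by decide +kernel))
noncomputable def rhb15f81e4c8ed7390 : CRef := CRef.mk (Pat.mk 0x700000001000000060000000600000000 0x180000001f00000007000000060000000600000004 3 5) 0 0 (step_sound _ 131 [rh38efffbdb125b30f, (rh4fc80024ed3db095.shift 0 1)] (by decide +kernel))
noncomputable def rh4350bf32db1ca04a : CRef := CRef.mk (Pat.mk 0x1c000000040000001c00000008 0x130000001e000000340000001c0000000c 3 6) 0 0 (step_sound _ 97 [rh132883a60cd8aed8, (rh8c2ed6f91ff57e60.shift 1 0)] (by decide +kernel))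
noncomputable def rh09f274a902e9c59c : CRef := CRef.mk (Pat.mk 0x2000000060000000e0000001c00000000 0x80000000b0000003e0000000e0000001c00000010 3 6) 0 0 (step_sound _ 99 [(rh571950d89739e871.shift 2 0), (rhb762f327c85d41a0.shift 0 2)] (by decide +kernel))
noncomputable def rhe4b2eac04395aae9 : CRef := CRef.mk (Pat.mk 0x600000003000000070000000600000000 0x80000001e00000007000000070000001e00000008 3 5) 0 0 (step_sound _ 98 [rh42afa1af9fffa0e1, (rh712526e472efe489.shift 0 1)] (by decide +kernel))
noncomputable def rh64ad4c0097fb8340 : CRef := CRef.mk (Pat.mk 0x40000000600000003000000010000000000000000 0x60000000600000003000000030000000300000001 3 3) 0 0 (step_sound _ 32 [rh71222050f2c63a3a, (rhadc3444b972eb58c.shift 0 1)] (by decide +kernel))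
noncomputable def rha1347ed4ef13ff82 : CRef := CRef.mk (Pat.mk 0x20000000380000001c00000008 0x4000000360000003f0000001c00000008 3 6) 0 0 (step_sound _ 66 [(rh309fd0c3d364cd61.shift 1 0), (rh4baa30ac13a5afd1.shift 0 1)] (by decide +kernel))
noncomputable def rh54e8485bbf607c5d : CRef := CRef.mk (Pat.mk 0x100000001c0000000e00000004 0x20000001b0000001f0000001e00000004 3 5) 0 0 (step_sound _ 65 [rh309fd0c3d364cd61, (rhe3365c44154782cc.shift 0 1)] (by decide +kernel))
noncomputable def rhddf0c19b5b31800d : CRef := CRef.mk (Pat.mk 0x180000001c0000000c 0x1f0000007f0000000c 3 7) 0 0 (step_sound _ 65 [(rh5c36e97be8af272f.shift 0 1), (rh8abea2a7b1fd427a.shift 1 0)] (by decide +kernel))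
noncomputable def rh83704986f954ca48 : CRef := CRef.mk (Pat.mk 0xe0000000600000000 0x200000002000000030000003e0000000600000004 3 6) 0 0 (step_sound _ 97 [(rh3e595262c1b737ad.shift 1 0), (rhb762f327c85d41a0.shift 0 1)] (by decide +kernel))
noncomputable def rh4ff66b6410e31828 : CRef := CRef.mk (Pat.mk 0x2000000070000000500000000 0x20000000200000003000000070000000700000001 3 3) 0 0 (step_sound _ 129 [(rh2145e1d24b96a57e.shift 1 1), rhd64d7be5d7225cce] (by decide +kernel))
noncomputable def rh0fe93088afca2cc9 : CRef := CRef.mk (Pat.mk 0x2000000030000000500000000 0x20000000200000002000000030000000700000005 3 3) 0 0 (step_sound _ 129 [rh2818863d77d69ed0, (rh5c5e593799055d58.shift 0 1)] (by decide +kernel))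
noncomputable def rh3b98070f81e71b03 : CRef := CRef.mk (Pat.mk 0x40000000600000006000000080000000000000000 0x40000000f0000003e000000080000000800000008 3 6) 0 0 (step_sound _ 99 [(rh08edf065357d68e5.shift 2 0), (rh79b3c29022acbdf3.shift 0 3)] (by decide +kernel))
noncomputable def rhce27360725e17246 : CRef := CRef.mk (Pat.mk 0x10000000f0000000200000000 0x100000001000000030000001f0000000200000002 3 5) 0 0 (step_sound _ 97 [(rhf48373e13d2bc128.shift 0 2), rhfc7c29d8e65d775f] (by decide +kernel))
noncomputable def rh52f311f9719327e5 : CRef := CRef.mk (Pat.mk 0x4000000040000000e0000000200000000 0x4000000070000003e0000000200000002 3 6) 0 0 (step_sound _ 97 [(rh71222050f2c63a3a.shift 1 0), (rh79b3c29022acbdf3.shift 0 2)] (by decide +kernel))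
noncomputable def rh331869c5e421c8f0 : CRef := CRef.mk (Pat.mk 0x40000000e0000000a00000000 0x400000004000000070000003e0000000a00000002 3 6) 0 0 (step_sound _ 97 [(rh79b3c29022acbdf3.shift 0 2), (rhcaa8bbd536e369ff.shift 1 0)] (by decide +kernel))
noncomputable def rh8b91adf3158a7765 : CRef := CRef.mk (Pat.mk 0x140000000e000000080000000000000000 0x100000001c0000000f000000080000000800000008 3 5) 0 0 (step_sound _ 35 [(rh6835955021d3aba9.shift 0 1), (rh7b1f1fb55310c477.shift 2 0)] (by decide +kernel))
noncomputable def rhec7a048676bbc72f : CRef := CRef.mk (Pat.mk 0xe0000000500000014 0x1e0000000f0000001e 3 5) 0 0 (step_sound _ 33 [(rh18965a982d73c794.shift 0 1), rhe28dc3223a412fc9] (by decide +kernel))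
noncomputable def rhb2035b85b8a1d130 : CRef := CRef.mk (Pat.mk 0x1000000010000000170000001000000000 0x1000000010000000170000003e00000008 3 6) 0 0 (step_sound _ 35 [(rh576f4850e6cd8bc0.shift 0 1), (rh932754581e0f4330.shift 3 0)] (by decide +kernel))
noncomputable def rh628a1c8740784101 : CRef := CRef.mk (Pat.mk 0x400000006000000070000000400000000 0x400000006000000070000001e0000000a 3 5) 0 0 (step_sound _ 33 [rh42afa1af9fffa0e1, (rh71222050f2c63a3a.shift 1 0)] (by decide +kernel))
noncomputable def rha60af7b7eca27efb : CRef := CRef.mk (Pat.mk 0x180000000a 0x3c0000001f 3 6) 0 0 (step_sound _ 2 [rh53b3c253cb0c65f4, (rhafdf94f2acdc0ed4.shift 1 0)] (by decide +kernel))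
noncomputable def rh8b69f8ce5eee6e69 : CRef := CRef.mk (Pat.mk 0xc00000010000000140000001c00000000 0x40000000c000000380000001f0000001c00000004 3 6) 0 0 (step_sound _ 67 [(rh34517e326ddb5b25.shift 0 1), (rh4176b1306bc070ea.shift 2 0)] (by decide +kernel))
noncomputable def rh42844900de13c390 : CRef := CRef.mk (Pat.mk 0x40000000e000000040000000400000000 0x70000003e000000040000000400000004 3 6) 0 0 (step_sound _ 129 [(rh79b3c29022acbdf3.shift 0 3), (rh7b1f1fb55310c477.shift 1 0)] (by decide +kernel))
noncomputable def rhf1111a25552c7df5 : CRef := CRef.mk (Pat.mk 0xc0000000c000000000000001800000000 0x100000003c0000000f000000080000001800000010 3 6) 0 0 (step_sound _ 132 [(rh4dc133ee0ba1420a.shift 0 3), (rh807d78fa6ca78542.shift 3 0)] (by decide +kernel))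
noncomputable def rhb25fef3cd18fdc47 : CRef := CRef.mk (Pat.mk 0x2000000060000001e00000000 0x1000000030000003e0000001e00000003 3 6) 0 0 (step_sound _ 96 [(rh132698b7c3848060.shift 0 1), rh6fcba015dedda42d] (by decide +kernel))
noncomputable def rh0487aa7fb6323ae1 : CRef := CRef.mk (Pat.mk 0x70000000100000007000000000000000000000000 0x4000000070000000700000007000000030000000200000002 3 3) 0 0 (step_sound _ 65 [rh08edf065357d68e5, rh79ad7b82ec8c35e2, (rh7d7eaefe27cdd7b0.shift 1 2)] (by decide +kernel))
noncomputable def rh54588a0e2fea852b : CRef := CRef.mk (Pat.mk 0x2000000030000000200000002 0x30000000300000003000000030000000300000003 3 2) 0 0 (step_sound _ 129 [rh03dfdf12d5937476, rh3ca48e2a6d60153d] (by decide +kernel))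
noncomputable def rh959cbdccade231d1 : CRef := CRef.mk (Pat.mk 0x600000007000000020000000200000000 0x2000000020000000600000007000000070000000700000004 3 3) 0 0 (step_sound _ 161 [(rh03dfdf12d5937476.shift 0 1), (rheb6520004608cff3.shift 1 0)] (by decide +kernel))
noncomputable def rhfbcd18612ae70378 : CRef := CRef.mk (Pat.mk 0x1c000000170000000400000000 0x80000001c000000170000003e00000014 3 6) 0 0 (step_sound _ 36 [(rh68691964b29f233d.shift 0 1), (rhd8a13c7f042cc6ea.shift 2 0)] (by decide +kernel))
noncomputable def rhfabdf7ac67e936fb : CRef := CRef.mk (Pat.mk 0x6000000180000000c 0x1f000000780000000c 3 7) 0 0 (step_sound _ 37 [(rh18965a982d73c794.shift 2 0), (rh5013872860cb36fd.shift 0 1)] (by decide +kernel))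
noncomputable def rhb0589e48f1d61df0 : CRef := CRef.mk (Pat.mk 0x100000002000000030000000300000000 0x60000000700000007000000030000000300000002 3 3) 0 0 (step_sound _ 130 [rh2e02ae96d64880aa, (rhbd55d8419891313d.shift 0 1)] (by decide +kernel))
noncomputable def rh8bfbf7ac61c5fcd6 : CRef := CRef.mk (Pat.mk 0x4000000060000001600000000 0x40000000400000004000000070000001e00000008 3 5) 0 0 (step_sound _ 35 [(rh3244c3cc8379b070.shift 0 1), (rh571950d89739e871.shift 1 0)] (by decide +kernel))
noncomputable def rh775f87da7f66c174 : CRef := CRef.mk (Pat.mk 0x600000006000000020000000200000000 0x2000000020000000600000006000000070000000700000001 3 3) 0 0 (step_sound _ 161 [(rh55a1f6c57a317ce6.shift 1 1), rh7928877f9bf74a91] (by decide +kernel))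
noncomputable def rh9b349e98344f089a : CRef := CRef.mk (Pat.mk 0x10000000f000000020000000000000000 0x1000000030000001f000000020000000200000002 3 5) 0 0 (step_sound _ 33 [(rh6279f4d0e372f7fa.shift 0 1), rh7b1f1fb55310c477] (by decide +kernel))
noncomputable def rh58baa10a96caff8d : CRef := CRef.mk (Pat.mk 0x600000014000000040000000400000000 0x70000003e000000040000000400000004 3 6) 0 0 (step_sound _ 97 [(rh7b1f1fb55310c477.shift 1 0), (rhfd0f316c42bbba52.shift 0 3)] (by decide +kernel))
noncomputable def rh839eba1812de5a90 : CRef := CRef.mk (Pat.mk 0x10000000a0000000a0000000a00000008 0x1000000130000001e0000000a0000000a00000008 3 5) 0 0 (step_sound _ 100 [(rh2f68792b6b779e96.shift 3 0), (rh9b5d9f8ba2f5398f.shift 0 1)] (by decide +kernel))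
noncomputable def rh64d7f449d0814bc4 : CRef := CRef.mk (Pat.mk 0x8000000080000000a0000000c 0x800000008000000080000000f0000003c 3 6) 0 0 (step_sound _ 34 [(rh5c5e593799055d58.shift 2 0), rh6292bd8784ece55f] (by decide +kernel))
noncomputable def rh558bcd7a2d29234b : CRef := CRef.mk (Pat.mk 0x2000000180000001c 0x30000001f0000003f 3 6) 0 0 (step_sound _ 33 [rh314e1e4c16249a21, rh5c36e97be8af272f] (by decide +kernel))
noncomputable def rh0125efc36fb9411b : CRef := CRef.mk (Pat.mk 0x80000000e0000000e0000000000000000 0x80000000e0000003f0000003800000010 3 6) 0 0 (step_sound _ 36 [rh06dad6edb7ce8d9c, (rh8ef9dd588f33bbde.shift 1 1)] (by decide +kernel))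
noncomputable def rhe58e95c485df2815 : CRef := CRef.mk (Pat.mk 0x2000000060000000e0000000000000000 0x400000006000000060000001e0000000300000003 3 5) 0 0 (step_sound _ 33 [rh157b220518f94713, (rha707fb719e87fe6e.shift 1 0)] (by decide +kernel))
noncomputable def rh39848790f9efd77c : CRef := CRef.mk (Pat.mk 0x100000001c000000180000001000000000 0x100000001f0000001f0000003000000020 3 6) 0 0 (step_sound _ 65 [(rh2d65c91b9f714cee.shift 1 0), (rh710860539a4c4362.shift 0 2)] (by decide +kernel))
noncomputable def rhb92da19cf879b0e1 : CRef := CRef.mk (Pat.mk 0x400000002000000020000001e00000000 0x50000000700000003000000020000001e00000003 3 5) 0 0 (step_sound _ 128 [(rh9c0a5dbd188ab718.shift 0 1), rhf221129318455305] (by decide +kernel))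
noncomputable def rhcc10c22baa919f90 : CRef := CRef.mk (Pat.mk 0x20000000200000003000000020000000000000000 0x200000002000000030000000300000003000000030000000200000002 3 2) 0 0 (step_sound _ 128 [rh3cb04db3dd2b6a55, (rh503dd4575245365b.shift 0 2)] (by decide +kernel))
noncomputable def rhc2232afe215d6971 : CRef := CRef.mk (Pat.mk 0x2000000000000000300000003 0x300000003000000030000000300000003 3 2) 0 0 (step_sound _ 96 [rh4c61a8d65f05c464, rh7d7eaefe27cdd7b0, rhd727bb41309b6841, rhdb2909ac5c854515] (by decide +kernel))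
noncomputable def rhf2a9fe152b7d396c : CRef := CRef.mk (Pat.mk 0x40000000100000007000000060000000000000000 0x6000000070000000300000007000000060000000200000002 3 3) 0 0 (step_sound _ 129 [rh3cb04db3dd2b6a55, (rh82bd946b1709a78e.shift 1 2)] (by decide +kernel))
noncomputable def rh6d5ad56e3df38040 : CRef := CRef.mk (Pat.mk 0x800000038000000080000000800000000 0x800000008000000380000001f0000000c00000004 3 6) 0 0 (step_sound _ 66 [(rh03dfdf12d5937476.shift 2 0), (rheea1a90336e79c71.shift 0 2)] (by decide +kernel))
noncomputable def rh7dc3eb36d15226cb : CRef := CRef.mk (Pat.mk 0x700000007000000020000000200000000 0x20000000700000007000000070000000700000005 3 3) 0 0 (step_sound _ 161 [rh0ec68e0bf4727743, (rheb6520004608cff3.shift 1 0)] (by decide +kernel))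
noncomputable def rh41133e59ea300eb8 : CRef := CRef.mk (Pat.mk 0x40000000e000000080000000600000000 0x40000000f000000180000000f00000008 3 5) 0 0 (step_sound _ 35 [(rh1642ef1127830c20.shift 0 1), (rh7b1f1fb55310c477.shift 2 0)] (by decide +kernel))
noncomputable def rhb0a519e9cce3da89 : CRef := CRef.mk (Pat.mk 0x200000007000000050000000300000000 0x700000007000000050000000700000006 3 3) 0 0 (step_sound _ 1 [rh2145e1d24b96a57e, (rhd960cc885bec3069.shift 1 0)] (by decide +kernel))
noncomputable def rh0ec23f7f682c973d : CRef := CRef.mk (Pat.mk 0x1e000000140000001400000000 0x140000001e000000170000003c00000008 3 6) 0 0 (step_sound _ 35 [(rh5fc67bac28a8b5bb.shift 2 0), (rhfe30433439f14678.shift 0 1)] (by decide +kernel))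
noncomputable def rh791587d13de18a79 : CRef := CRef.mk (Pat.mk 0xf000000080000000800000000 0x40000001c0000000f000000080000000800000008 3 5) 0 0 (step_sound _ 130 [(rh2010eb49fb22f810.shift 0 1), (rh7b1f1fb55310c477.shift 2 0)] (by decide +kernel))
noncomputable def rh2af3bff4277f1035 : CRef := CRef.mk (Pat.mk 0x1e00000004000000040000000000000000 0x80000001e00000007000000040000000400000004 3 5) 0 0 (step_sound _ 34 [(rh2f68792b6b779e96.shift 2 1), rhd680bf2cf2441e84] (by decide +kernel))
noncomputable def rh2146aa40751c401a : CRef := CRef.mk (Pat.mk 0x20000000000000007000000050000000000000000 0x2000000020000000300000007000000050000000100000001 3 3) 0 0 (step_sound _ 129 [(rh2145e1d24b96a57e.shift 1 2), rhf9af042da61fc652] (by decide +kernel))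
noncomputable def rh0bf14f2a37bf8d73 : CRef := CRef.mk (Pat.mk 0x40000000100000003000000020000000000000000 0x50000000700000003000000020000000200000002 3 3) 0 0 (step_sound _ 33 [rh7b1f1fb55310c477, (rhd9592927e8260423.shift 0 1)] (by decide +kernel))
noncomputable def rh15e830c3d3f8506b : CRef := CRef.mk (Pat.mk 0x4000000020000000f0000000a 0x40000000e0000001a0000000f0000000a 3 5) 0 0 (step_sound _ 67 [(rh33e738c4ed385b9f.shift 0 1), (rh8b14df1b185c100a.shift 1 0)] (by decide +kernel))
noncomputable def rh425ceda75e1263b6 : CRef := CRef.mk (Pat.mk 0x20000000400000007000000050000000000000000 0x20000000700000007000000050000000500000001 3 3) 0 0 (step_sound _ 129 [(rh7b1f1fb55310c477.shift 1 1), rhf9af042da61fc652] (by decide +kernel))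
noncomputable def rhca381fd96aedcb47 : CRef := CRef.mk (Pat.mk 0x60000000e000000000000000400000000 0x60000003e000000030000000600000006 3 6) 0 0 (step_sound _ 65 [(rh9b4df57cddcda711.shift 1 0), (rha9e1a5d55b907abf.shift 0 2)] (by decide +kernel))
noncomputable def rh3e98fa1023bb94d7 : CRef := CRef.mk (Pat.mk 0xf000000080000000400000000 0x180000000f0000000c0000000c00000004 3 5) 0 0 (step_sound _ 131 [(rh33e738c4ed385b9f.shift 0 3), (rh5ddbeed5d869bf16.shift 2 0)] (by decide +kernel))
noncomputable def rh5c21d1b44b302808 : CRef := CRef.mk (Pat.mk 0x20000000f0000000a00000004 0xa0000001a0000000f0000000e00000004 3 5) 0 0 (step_sound _ 34 [(rh2145e1d24b96a57e.shift 1 0), rh5421160f8e9bcf07] (by decide +kernel))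
noncomputable def rh8676434d7b22727c : CRef := CRef.mk (Pat.mk 0x100000003000000020000000400000000 0x10000000300000003000000020000000600000006 3 3) 0 0 (step_sound _ 33 [rh6196b452c518de56, rh7b1f1fb55310c477] (by decide +kernel))
noncomputable def rh83eb547915d40629 : CRef := CRef.mk (Pat.mk 0x180000005a 0x1f0000007b 3 7) 0 0 (step_sound _ 34 [(rh2fe78cc5ca4405d8.shift 2 0), rh710860539a4c4362] (by decide +kernel))
noncomputable def rhc4b991cc36a03fbe : CRef := CRef.mk (Pat.mk 0xe0000000c0000000800000000 0x18000000180000000f0000000c0000000c00000004 3 5) 0 0 (step_sound _ 131 [(rh1e309b005ffa1b36.shift 2 0), (rhdab32775f5c78fcf.shift 0 1)] (by decide +kernel))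
noncomputable def rh3af7ef3ed8beda46 : CRef := CRef.mk (Pat.mk 0x200000007000000060000000400000000 0xc0000001e00000007000000060000000600000002 3 5) 0 0 (step_sound _ 130 [(rh712526e472efe489.shift 0 1), (rhea7a1800d6f053bd.shift 1 0)] (by decide +kernel))
noncomputable def rhd0d5331b79c7defe : CRef := CRef.mk (Pat.mk 0x400000007000000040000000400000000 0x4000000040000000f0000003c0000000c00000008 3 6) 0 0 (step_sound _ 67 [(rh4a0b10776449c3e9.shift 0 2), (rhd4b4beefcd67f51e.shift 2 0)] (by decide +kernel))
noncomputable def rh81e216c0ec0a517b : CRef := CRef.mk (Pat.mk 0x140000000e000000040000000000000000 0x80000001c0000000f000000040000000400000004 3 5) 0 0 (step_sound _ 131 [(rh53b3c253cb0c65f4.shift 0 3), (rhea7a1800d6f053bd.shift 2 0)] (by decide +kernel))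
noncomputable def rh375ddce687ce0d4a : CRef := CRef.mk (Pat.mk 0x40000001c0000001a0000000000000000 0x40000003f0000001e0000000300000002 3 6) 0 0 (step_sound _ 33 [(rh760717e835f8c2f3.shift 0 1), rh871b00de3d4c7932] (by decide +kernel))
noncomputable def rh5e14afd20784ba3c : CRef := CRef.mk (Pat.mk 0x400000004000000040000000700000001 0x60000000600000006000000060000000700000001 3 3) 0 0 (step_sound _ 65 [rh4fcc643a9c188aaa, (rh5c5e593799055d58.shift 1 1)] (by decide +kernel))
noncomputable def rhe474ac35c3c4b6ae : CRef := CRef.mk (Pat.mk 0x60000000a0000000b0000000200000000 0x60000001e0000000b0000001e0000000c 3 5) 0 0 (step_sound _ 35 [rh6a56790be92093bf, rh917e841253d15ad5] (by decide +kernel))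
noncomputable def rhd8265d3aabedb638 : CRef := CRef.mk (Pat.mk 0x80000000b00000006000000040000000000000000 0x80000000b0000001e0000000c0000000400000004 3 5) 0 0 (step_sound _ 34 [(rh7b1f1fb55310c477.shift 1 0), (rh9edf23957a2724c9.shift 0 1)] (by decide +kernel))
noncomputable def rh33a6e55fd15d2b50 : CRef := CRef.mk (Pat.mk 0x8000000080000000a0000000600000000 0x8000000080000000b0000001e00000014 3 5) 0 0 (step_sound _ 35 [rh0e9804663e9ab184, (rh932754581e0f4330.shift 2 0)] (by decide +kernel))
noncomputable def rh1aacd4e2b0dbc661 : CRef := CRef.mk (Pat.mk 0x180000000c000000000000000200000002 0x3c0000000f000000020000000200000002 3 6) 0 0 (step_sound _ 97 [(rh53b3c253cb0c65f4.shift 0 3), (rhcb325776999f95c4.shift 1 0)] (by decide +kernel))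
noncomputable def rhbfdaf5775fb49531 : CRef := CRef.mk (Pat.mk 0x1800000018000000100000000400000004 0x180000001f000000340000000400000004 3 6) 0 0 (step_sound _ 98 [(rh04253f50b6dd0619.shift 2 0), (rhf56e6bc5d2f7fe77.shift 0 2)] (by decide +kernel))
noncomputable def rhb4e4f3caba6e850a : CRef := CRef.mk (Pat.mk 0x10000000180000001c00000010 0x20000000300000001f0000001f00000010 3 6) 0 0 (step_sound _ 65 [(rh5c36e97be8af272f.shift 0 1), (rh7dcc577706dd2abd.shift 0 1), (rh7e143111a189f2ad.shift 1 0)] (by decide +kernel))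
noncomputable def rh86380b5eae4b71a7 : CRef := CRef.mk (Pat.mk 0x2000000038000000280000002000000000 0x200000003c0000003f0000006000000040 3 7) 0 0 (step_sound _ 66 [(rh1ed7a3503fa50fc8.shift 0 2), (rh5f11ee373cbffcaa.shift 2 0)] (by decide +kernel))
noncomputable def rhb0277190cf7bc357 : CRef := CRef.mk (Pat.mk 0x400000004000000060000000500000001 0x20000000600000006000000060000000700000005 3 3) 0 0 (step_sound _ 129 [(rh50fbb5868c909700.shift 1 1), rhfa1fc34e3368307c] (by decide +kernel))
noncomputable def rh1a4a2d7ee39b16f9 : CRef := CRef.mk (Pat.mk 0x2000000020000000700000000 0x20000000200000002000000070000000700000001 3 3) 0 0 (step_sound _ 129 [(rh2f6cd3183cec8379.shift 0 1), rh932754581e0f4330] (by decide +kernel))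
noncomputable def rh8dd1986cb45d5225 : CRef := CRef.mk (Pat.mk 0x4000000080000000c0000000a0000000800000000 0xc0000000c000000080000000c0000000f0000001800000010 3 5) 0 0 (step_sound _ 66 [(rh16567ae718d9fd54.shift 2 2), rhbdde238153e38af9] (by decide +kernel))
noncomputable def rh22ad8b34c57a150a : CRef := CRef.mk (Pat.mk 0x800000008000000080000000a00000018 0x40000000c0000000c000000080000000c0000000f00000018 3 5) 0 0 (step_sound _ 163 [(rh3ca48e2a6d60153d.shift 2 1), rhff7e78421b12622c] (by decide +kernel))
noncomputable def rh3a4cf7695807131a : CRef := CRef.mk (Pat.mk 0x1c0000001800000002 0x3c0000007f00000006 3 7) 0 0 (step_sound _ 34 [(rhab2ad169e49f9c5e.shift 0 1), (rhb0463dbec37421a0.shift 1 0)] (by decide +kernel))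
noncomputable def rh5b4df1e690e5da1d : CRef := CRef.mk (Pat.mk 0x80000000c0000000a00000018 0x1800000018000000180000000c0000000f00000018 3 5) 0 0 (step_sound _ 131 [(rh44f453b84f013105.shift 3 0), rh9704bbd79d32b932] (by decide +kernel))
noncomputable def rh133723f9529c6d95 : CRef := CRef.mk (Pat.mk 0x800000018000000180000000400000004 0x80000003c0000001f0000000400000004 3 6) 0 0 (step_sound _ 66 [(rh1006c02ae4212ff0.shift 2 0), (rhab2ad169e49f9c5e.shift 0 2)] (by decide +kernel))
noncomputable def rh8a2551f72b0af4b3 : CRef := CRef.mk (Pat.mk 0xe0000000a0000000a0000000200000000 0x10000000180000000f0000000a0000000e0000000600000004 3 5) 0 0 (step_sound _ 163 [(rhdab32775f5c78fcf.shift 0 2), (rhef50d508512821da.shift 1 0)] (by decide +kernel))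
noncomputable def rh225e688cd4d2ddc4 : CRef := CRef.mk (Pat.mk 0x60000000a0000000e0000000200000000 0x80000000f0000001a0000000f0000000600000004 3 5) 0 0 (step_sound _ 131 [(rh1642ef1127830c20.shift 0 2), (rh665ec0aeeddb6f99.shift 1 0)] (by decide +kernel))
noncomputable def rh009d65640b7a60e3 : CRef := CRef.mk (Pat.mk 0x1c00000008000000080000000a00000002 0x3c0000000f0000000c0000000e00000006 3 6) 0 0 (step_sound _ 98 [(rh4dc133ee0ba1420a.shift 0 3), (rhe3f1f58a3537c915.shift 1 0)] (by decide +kernel))
noncomputable def rhfc8818e2984dbb5f : CRef := CRef.mk (Pat.mk 0x10000000180000000c0000001000000000 0x10000000180000001f0000007800000008 3 7) 0 0 (step_sound _ 37 [(rhb75a95a254d02bf0.shift 0 1), (rhf2eb06c6b46c6fb8.shift 2 0)] (by decide +kernel))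
noncomputable def rh20b5e4e959af00de : CRef := CRef.mk (Pat.mk 0x8000000180000000c0000001000000000 0x8000000180000001f0000003000000010 3 6) 0 0 (step_sound _ 65 [(rh53b3c253cb0c65f4.shift 0 2), (rhc76d142f049b7a48.shift 1 0)] (by decide +kernel))
noncomputable def rh68474a5dabca1f9d : CRef := CRef.mk (Pat.mk 0x4000000180000000c00000004 0x80000000f0000007c0000000c00000004 3 7) 0 0 (step_sound _ 97 [rh06d91fa6ccb2dd46, (rhc3c694226a015fc3.shift 1 1)] (by decide +kernel))
noncomputable def rh965eb8bf6ab7b240 : CRef := CRef.mk (Pat.mk 0x80000000400000004000000070000000500000001 0xc0000000c0000000600000007000000070000000500000005 3 4) 0 0 (step_sound _ 97 [rh5071b66f3b4bdab7, (rhbd55d8419891313d.shift 1 2)] (by decide +kernel))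
noncomputable def rhccb2bc3c3b3b24fc : CRef := CRef.mk (Pat.mk 0x400000004000000050000000500000001 0x20000000600000007000000050000000500000005 3 3) 0 0 (step_sound _ 129 [(rh50fbb5868c909700.shift 1 1), rhc6b6552229dbce07] (by decide +kernel))
noncomputable def rh9a3d12a4acc5fa4f : CRef := CRef.mk (Pat.mk 0x20000000400000005000000050000000300000000 0x2000000070000000500000005000000050000000300000002 3 3) 0 0 (step_sound _ 128 [rh55afc6a59410cf00, (rh8b14df1b185c100a.shift 0 2)] (by decide +kernel))
noncomputable def rhc49edfdd1dfb60de : CRef := CRef.mk (Pat.mk 0x400000008000000080000000a0000000600000000 0x40000000c00000008000000080000001b0000001e00000010 3 5) 0 0 (step_sound _ 36 [rhc3a59a83e7b52d33, (rhc4c7faa0ddd5da42.shift 2 1)] (by decide +kernel))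
noncomputable def rh4e1af299c2678f75 : CRef := CRef.mk (Pat.mk 0x80000000c0000001c0000000c00000000 0x40000000c0000000c0000001c0000000f00000002 3 5) 0 0 (step_sound _ 33 [(rh53b3c253cb0c65f4.shift 0 1), (rhb0914cf7a5069272.shift 1 0)] (by decide +kernel))
noncomputable def rhc39db72cd6055487 : CRef := CRef.mk (Pat.mk 0x80000000c000000020000000700000000 0x8000000080000000c0000001e0000000700000004 3 5) 0 0 (step_sound _ 66 [(rh246c19464d518c8b.shift 0 1), (rh71222050f2c63a3a.shift 2 0)] (by decide +kernel))
noncomputable def rh89a9c21c3489d92c : CRef := CRef.mk (Pat.mk 0x38000000080000001c0000000000000000 0x2000000038000000380000001f0000001000000010 3 6) 0 0 (step_sound _ 100 [(rhab2ad169e49f9c5e.shift 0 2), (rhb0c1e7919d9be92d.shift 3 0)] (by decide +kernel))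
noncomputable def rhddd0f0018083baf5 : CRef := CRef.mk (Pat.mk 0x1e000000160000000200000000 0x30000001e0000001e0000000300000001 3 5) 0 0 (step_sound _ 32 [rh16b3601545764ddf, (rh361cc68994bd8a63.shift 0 1)] (by decide +kernel))
noncomputable def rh57be752b0766f6bd : CRef := CRef.mk (Pat.mk 0xb0000000b0000000a0000000000000000 0x40000000e0000000f0000000b0000000a0000000200000002 3 4) 0 0 (step_sound _ 162 [rh3eb26739ea0a224c, (rh8b14df1b185c100a.shift 1 2)] (by decide +kernel))
noncomputable def rhb57afabf1fdad4de : CRef := CRef.mk (Pat.mk 0x30000000180000000e00000000 0x20000000300000001f0000001e00000030 3 6) 0 0 (step_sound _ 36 [(rh7a463014b1a15a7b.shift 1 0), (rh90a04632e314f181.shift 0 1)] (by decide +kernel))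
noncomputable def rhe2bb7d7af5356d5b : CRef := CRef.mk (Pat.mk 0x30000000100000001e 0x300000001f0000003e 3 6) 0 0 (step_sound _ 33 [rh3244c3cc8379b070, (rh567a326921e8af4d.shift 1 0)] (by decide +kernel))
noncomputable def rhb5038dfc3754f876 : CRef := CRef.mk (Pat.mk 0x4000000000000000700000003000000000000000000000000 0x4000000070000000700000007000000020000000200000002 3 3) 0 0 (step_sound _ 65 [rh3cb04db3dd2b6a55, (rh7451f34b061ea69b.shift 1 2), rhb0c1e7919d9be92d] (by decide +kernel))
noncomputable def rh01f9f7c9fa7af13f : CRef := CRef.mk (Pat.mk 0x40000000f000000030000000600000000 0x80000001c0000000f000000070000001e00000008 3 5) 0 0 (step_sound _ 66 [rh42afa1af9fffa0e1, (rhe4e5ef8a240212ba.shift 0 1)] (by decide +kernel))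
noncomputable def rha0849e37c4492d2f : CRef := CRef.mk (Pat.mk 0x10000000f0000000b0000000800000000 0x190000000f0000000b0000001e00000006 3 5) 0 0 (step_sound _ 34 [rh664c8f4d02ce4add, rhff3f1a1b29421dff] (by decide +kernel))
noncomputable def rh7f6d40320d97af51 : CRef := CRef.mk (Pat.mk 0x300000003000000180000000000000000 0x100000003000000030000001e0000000200000002 3 5) 0 0 (step_sound _ 65 [rh3cb04db3dd2b6a55, (rh5419adcd928dba20.shift 0 2)] (by decide +kernel))
noncomputable def rh56c07dfb85a8b79d : CRef := CRef.mk (Pat.mk 0xf0000000b0000000800000000 0x180000000f0000000f0000001800000010 3 5) 0 0 (step_sound _ 36 [rh7e2967714be94ca8, (rhc10214bf3fe8094a.shift 0 1)] (by decide +kernel))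
noncomputable def rh7b115b54693e9712 : CRef := CRef.mk (Pat.mk 0x2000000020000000700000003000000000000000000000000 0x100000003000000070000000700000003000000020000000200000002 3 3) 0 0 (step_sound _ 65 [(rh3ca48e2a6d60153d.shift 0 2), rhb0c1e7919d9be92d] (by decide +kernel))
noncomputable def rh7b2b4f038e068647 : CRef := CRef.mk (Pat.mk 0x200000007000000010000000700000000 0x700000007000000050000000700000006 3 3) 0 0 (step_sound _ 1 [rh2145e1d24b96a57e, (rhc17756096aaed3a3.shift 1 0)] (by decide +kernel))
noncomputable def rha90bc5aa2308a5a8 : CRef := CRef.mk (Pat.mk 0x80000000c0000000b0000000200000000 0x40000000c0000000c0000000b0000001e00000018 3 5) 0 0 (step_sound _ 35 [rh8ffd6c73cfd2ea71, (rhe286c75f2739cce2.shift 2 0)] (by decide +kernel))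
noncomputable def rh7ec66d3674ffc556 : CRef := CRef.mk (Pat.mk 0xc00000006000000020000000700000000 0xa0000000e00000006000000060000000700000001 3 4) 0 0 (step_sound _ 66 [(rh2f68792b6b779e96.shift 2 1), rhb0914cf7a5069272] (by decide +kernel))
noncomputable def rhd34335f9d3f46402 : CRef := CRef.mk (Pat.mk 0x80000001c000000040000000e00000000 0xc0000001c000000140000001e00000033 3 6) 0 0 (step_sound _ 36 [rh1ae4704ae86cb9a8, (rh82687729b6ed8eda.shift 1 0)] (by decide +kernel))
noncomputable def rhdb7b1946f411de5f : CRef := CRef.mk (Pat.mk 0x3000000010000000080000001c 0x200000003000000010000000380000001f 3 6) 0 0 (step_sound _ 36 [(rh2f68792b6b779e96.shift 4 0), rhab2ad169e49f9c5e] (by decide +kernel))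
noncomputable def rh63fd7d77606c88e1 : CRef := CRef.mk (Pat.mk 0x1c0000001800000000 0x1000000010000000300000001f0000001800000008 3 6) 0 0 (step_sound _ 100 [(rh34517e326ddb5b25.shift 0 1), (rh503dd4575245365b.shift 3 0)] (by decide +kernel))
noncomputable def rhfe2fa295381f6854 : CRef := CRef.mk (Pat.mk 0x38000000280000002c 0x380000003f0000007c 3 7) 0 0 (step_sound _ 34 [(rha6816dee951f7ee6.shift 2 0), (rheea1a90336e79c71.shift 0 1), (rhfd0f316c42bbba52.shift 1 0)] (by decide +kernel))
noncomputable def rh45dca2176daefed8 : CRef := CRef.mk (Pat.mk 0x30000000180000000c 0x300000003e0000000f 3 6) 0 0 (step_sound _ 1 [rh53b3c253cb0c65f4, (rh7fdf6cad12393ad0.shift 1 0)] (by decide +kernel))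
noncomputable def rh757b341b55d19a22 : CRef := CRef.mk (Pat.mk 0x2c0000000c0000000c 0x3c0000000f0000003c 3 6) 0 0 (step_sound _ 33 [(rh361cc68994bd8a63.shift 1 1), rh6292bd8784ece55f] (by decide +kernel))
noncomputable def rh7db68623bdc87add : CRef := CRef.mk (Pat.mk 0x80000002c000000080000001c 0x8000000080000003c0000000f0000001c 3 6) 0 0 (step_sound _ 34 [(rh5c5e593799055d58.shift 2 0), rh6371dceabc07ce3d] (by decide +kernel))
noncomputable def rh8f4e6384f63d1d36 : CRef := CRef.mk (Pat.mk 0x4000000040000000e00000000 0x40000000400000004000000070000003e00000008 3 6) 0 0 (step_sound _ 65 [(rh571950d89739e871.shift 1 0), (rh79b3c29022acbdf3.shift 0 1)] (by decide +kernel))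
noncomputable def rh3a6f419bfe504253 : CRef := CRef.mk (Pat.mk 0xb000000060000000400000004 0x8000000080000000b0000001e0000000c00000004 3 5) 0 0 (step_sound _ 67 [(rh69755ef358ebfd54.shift 2 0), (rhf48373e13d2bc128.shift 0 2)] (by decide +kernel))
noncomputable def rh0056a301aec5278c : CRef := CRef.mk (Pat.mk 0x40000001c0000000c0000001000000000 0x40000001c0000001f0000007800000008 3 7) 0 0 (step_sound _ 37 [(rhb75a95a254d02bf0.shift 0 1), (rhff3f1a1b29421dff.shift 2 0)] (by decide +kernel))
noncomputable def rh550a3962308175f5 : CRef := CRef.mk (Pat.mk 0xc0000001c0000000e0000000000000000 0x40000000c0000001c0000001e0000003300000010 3 6) 0 0 (step_sound _ 68 [(rh1ae4704ae86cb9a8.shift 0 1), (rh78974448101547fe.shift 1 0)] (by decide +kernel))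
noncomputable def rh598fb748148cee6d : CRef := CRef.mk (Pat.mk 0x1c0000001c00000018 0x1c0000007f0000001f 3 7) 0 0 (step_sound _ 1 [rh076be03eb7063320, (rh44f029253d5e06b4.shift 1 0), rh6d571b54e8dd9e33, rhd74396e693bc7125] (by decide +kernel))
noncomputable def rhd5c571bd118bfbfb : CRef := CRef.mk (Pat.mk 0x80000000a0000001c00000000 0x8000000080000000b0000001e00000030 3 6) 0 0 (step_sound _ 4 [(rh2145e1d24b96a57e.shift 3 0), rhc6055bb2ecf924ac] (by decide +kernel))
noncomputable def rh704068121aa088ac : CRef := CRef.mk (Pat.mk 0xc000000000000000700000008 0x40000000c000000180000000f00000018 3 5) 0 0 (step_sound _ 35 [rhab0acc3af159c362, rhe25b0a99195a5d59] (by decide +kernel))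
noncomputable def rh75f4fd8c2b3f2eb9 : CRef := CRef.mk (Pat.mk 0xc000000280000000c 0xc0000007c0000000f 3 7) 0 0 (step_sound _ 36 [rh1ed7a3503fa50fc8, (rhf48373e13d2bc128.shift 2 1)] (by decide +kernel))
noncomputable def rh1ecc252676ecc754 : CRef := CRef.mk (Pat.mk 0x40000000400000003000000020000000000000000 0x40000000700000007000000020000000200000002 3 3) 0 0 (step_sound _ 33 [(rh1006c02ae4212ff0.shift 1 1), rh2d5442cbf338480d] (by decide +kernel))
noncomputable def rh8177be9c5f6e18af : CRef := CRef.mk (Pat.mk 0x20000000300000002000000020000000000000000 0x200000002000000030000000300000003000000030000000200000002 3 2) 0 0 (step_sound _ 96 [rh3cb04db3dd2b6a55, (rh503dd4575245365b.shift 0 2)] (by decide +kernel))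
noncomputable def rh130b47ac332ea38f : CRef := CRef.mk (Pat.mk 0x30000000180000001600000000 0x1000000010000000300000001f0000001e00000008 3 6) 0 0 (step_sound _ 35 [(rh503dd4575245365b.shift 3 0), (rh90a04632e314f181.shift 0 1)] (by decide +kernel))
noncomputable def rh8aed0a8fc05a9a8c : CRef := CRef.mk (Pat.mk 0x180000000c000000020000000200000000 0x3c0000000f000000020000000200000002 3 6) 0 0 (step_sound _ 97 [(rh53b3c253cb0c65f4.shift 0 3), (rh6d54ee7ee2cf255e.shift 1 0)] (by decide +kernel))
noncomputable def rh9e1d4f7c36b0dcc5 : CRef := CRef.mk (Pat.mk 0x4000000080000000b0000000a00000000 0x40000001e0000000b0000000a0000000a 3 5) 0 0 (step_sound _ 98 [(rh7b1f1fb55310c477.shift 2 0), rhee4debf7179397f9] (by decide +kernel))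
noncomputable def rhcec99f6f26af1b84 : CRef := CRef.mk (Pat.mk 0x400000004000000080000000b00000002 0x400000004000000060000001e0000000b00000002 3 5) 0 0 (step_sound _ 65 [(rh1006c02ae4212ff0.shift 1 0), (rhea8a6663c0f480fb.shift 0 1)] (by decide +kernel))
noncomputable def rh41d821a64dadf7cd : CRef := CRef.mk (Pat.mk 0xa0000000b000000080000000a00000000 0xa0000000b0000001b0000000f00000005 3 5) 0 0 (step_sound _ 32 [rh666d338a5c9a6892, rhecb97fed8c7f1286] (by decide +kernel))
noncomputable def rh6ee049377e03be83 : CRef := CRef.mk (Pat.mk 0xb0000000b000000080000000a00000000 0xb0000000b000000190000000f00000007 3 5) 0 0 (step_sound _ 32 [rh666d338a5c9a6892, rh8556ce617a451e36] (by decide +kernel))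
noncomputable def rh3c2d39eaadcf8eae : CRef := CRef.mk (Pat.mk 0x80000001c000000180000000000000000 0x8000000080000003c0000001f0000000400000004 3 6) 0 0 (step_sound _ 66 [(rh1e309b005ffa1b36.shift 2 0), (rhab2ad169e49f9c5e.shift 0 2)] (by decide +kernel))
noncomputable def rh2878e7aeada18192 : CRef := CRef.mk (Pat.mk 0x60000000e000000060000000200000000 0x60000003e0000003e0000000300000001 3 6) 0 0 (step_sound _ 68 [rh84f01cf2134210c0, (rh8ef9dd588f33bbde.shift 1 2)] (by decide +kernel))
noncomputable def rh606e1504537fe9bd : CRef := CRef.mk (Pat.mk 0x40000000d0000000c0000000400000000 0x40000000f0000003c0000000600000002 3 6) 0 0 (step_sound _ 33 [(rh932754581e0f4330.shift 1 0), (rhe39bfa5b40424373.shift 0 1)] (by decide +kernel))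
noncomputable def rh38c0839969445246 : CRef := CRef.mk (Pat.mk 0x80000001a0000003800000000 0x8000000080000001b0000003f00000006 3 6) 0 0 (step_sound _ 34 [(rh1ae4704ae86cb9a8.shift 1 0), (rh5c36e97be8af272f.shift 0 1)] (by decide +kernel))
noncomputable def rh689ff55f618e3336 : CRef := CRef.mk (Pat.mk 0x4000000040000003c00000000 0x400000004000000040000003e00000073 3 7) 0 0 (step_sound _ 33 [rh1ae4704ae86cb9a8, (rh4ad5fc38f1b69f65.shift 1 0)] (by decide +kernel))
noncomputable def rhca83dc0202f455dd : CRef := CRef.mk (Pat.mk 0x40000000e000000070000000000000000 0x40000000f0000003f0000001800000008 3 6) 0 0 (step_sound _ 67 [rh78974448101547fe, (rh79b3c29022acbdf3.shift 0 2)] (by decide +kernel))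
noncomputable def rhd16d1fc6e5d4ba04 : CRef := CRef.mk (Pat.mk 0x10000000180000001e00000000 0x20000000300000001f0000001e00000030 3 6) 0 0 (step_sound _ 101 [(rh7a463014b1a15a7b.shift 1 0), (rh90a04632e314f181.shift 0 1)] (by decide +kernel))
noncomputable def rh25c13d8045594b98 : CRef := CRef.mk (Pat.mk 0x40000000f000000040000000000000000 0x4000000040000000f0000001c0000000800000008 3 5) 0 0 (step_sound _ 67 [(rh55a1f6c57a317ce6.shift 2 0), (rhe25b0a99195a5d59.shift 0 2)] (by decide +kernel))
noncomputable def rh56e90de3b42f304d : CRef := CRef.mk (Pat.mk 0x10000000100000000c0000000c 0x1000000010000000100000003c0000000f 3 6) 0 0 (step_sound _ 36 [rh4dc133ee0ba1420a, (rh5c5e593799055d58.shift 3 0)] (by decide +kernel))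
noncomputable def rh630424eee47e65b4 : CRef := CRef.mk (Pat.mk 0x100000001400000018000000100000000000000000 0x380000001f00000018000000100000001000000010 3 6) 0 0 (step_sound _ 131 [(rh34517e326ddb5b25.shift 0 3), (rh3cb04db3dd2b6a55.shift 3 0)] (by decide +kernel))
noncomputable def rha20c91dd13fb51d0 : CRef := CRef.mk (Pat.mk 0x28000000040000001e00000000 0x40000003c000000070000001e00000003 3 6) 0 0 (step_sound _ 98 [(rh1187a5d460090ded.shift 0 1), rh1ae4704ae86cb9a8] (by decide +kernel))
noncomputable def rh6d9323db5da32c9e : CRef := CRef.mk (Pat.mk 0xa0000000b0000000f00000000 0x6000000060000000e0000000b0000000f00000018 3 5) 0 0 (step_sound _ 130 [(rhbd55d8419891313d.shift 0 1), rhfc73b9f9592b9946] (by decide +kernel))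
noncomputable def rhf51cecc9d202296e : CRef := CRef.mk (Pat.mk 0x10000000040000001e000000100000000000000000 0x10000000140000001f000000180000000800000008 3 5) 0 0 (step_sound _ 67 [(rh3d9ea522a568e981.shift 2 0), (rhb739f4f82bb681b4.shift 0 2)] (by decide +kernel))
noncomputable def rhcdd7c7b132b21280 : CRef := CRef.mk (Pat.mk 0x4000000070000000500000008 0x400000004000000070000001f00000018 3 5) 0 0 (step_sound _ 35 [(rh2145e1d24b96a57e.shift 2 0), rh5586a945ecc7b9b6] (by decide +kernel))
noncomputable def rh90b28203564fe794 : CRef := CRef.mk (Pat.mk 0x4000000020000000300000006 0x600000006000000020000000700000007 3 3) 0 0 (step_sound _ 97 [(rh2f68792b6b779e96.shift 1 0), rh85a605aac6183f28] (by decide +kernel))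
noncomputable def rh0cf4dea9d6c72748 : CRef := CRef.mk (Pat.mk 0x200000005000000010000000700000000 0x200000007000000070000000700000005 3 3) 0 0 (step_sound _ 97 [rh71222050f2c63a3a, (rh935da622f8ebc962.shift 1 0)] (by decide +kernel))
noncomputable def rh779e061ef2193795 : CRef := CRef.mk (Pat.mk 0x80000001c0000000800000000 0x800000008000000080000003c0000000f00000004 3 6) 0 0 (step_sound _ 34 [(rh4dc133ee0ba1420a.shift 0 1), (rh503dd4575245365b.shift 2 0)] (by decide +kernel))
noncomputable def rh50a5beddcac715f2 : CRef := CRef.mk (Pat.mk 0x40000000e0000000400000000 0x400000004000000040000000f0000003c00000008 3 6) 0 0 (step_sound _ 35 [(rh3e595262c1b737ad.shift 2 0), (rh6292bd8784ece55f.shift 0 1)] (by decide +kernel))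
noncomputable def rh283994b096c92b94 : CRef := CRef.mk (Pat.mk 0xc000000180000000800000008 0x100000001f000000380000000800000008 3 6) 0 0 (step_sound _ 97 [(rhb739f4f82bb681b4.shift 0 2), (rhd5b1a91e1b03cfdf.shift 1 0)] (by decide +kernel))
noncomputable def rh46db00d4a42ffae2 : CRef := CRef.mk (Pat.mk 0xa0000000f0000000b0000000000000000 0x2000000020000000a0000000f0000000f0000000e00000004 3 4) 0 0 (step_sound _ 34 [(rh403e55a9007f792d.shift 1 0), (rh493ba90d7b88e72e.shift 0 1), (rhe38ad39d05c44887.shift 1 0)] (by decide +kernel))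
noncomputable def rhad35f3eae995d8d2 : CRef := CRef.mk (Pat.mk 0x80000001e000000080000000000000000 0x8000000080000001f000000180000001000000010 3 5) 0 0 (step_sound _ 68 [(rh55a1f6c57a317ce6.shift 3 0), (rhb739f4f82bb681b4.shift 0 2)] (by decide +kernel))
noncomputable def rh9ccd7fcb8fb13dab : CRef := CRef.mk (Pat.mk 0x40000000e000000140000000000000000 0x4000000040000000f0000001c0000000800000008 3 5) 0 0 (step_sound _ 67 [(rh55a1f6c57a317ce6.shift 2 0), (rhb739f4f82bb681b4.shift 0 2)] (by decide +kernel))
noncomputable def rh43cfd80dbb9a4f81 : CRef := CRef.mk (Pat.mk 0xc0000001c000000080000001c 0x20000000f0000001c0000000e0000007c 3 7) 0 0 (step_sound _ 34 [rh277b01412deaec89, (rh79b3c29022acbdf3.shift 1 0)] (by decide +kernel))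
noncomputable def rh9fad892353981c02 : CRef := CRef.mk (Pat.mk 0xe00000018000000300000001000000000 0x100000001e0000001f000000300000003000000020 3 6) 0 0 (step_sound _ 132 [(rhd4b4beefcd67f51e.shift 4 0), (rhe41609ae3e02089b.shift 0 2)] (by decide +kernel))
noncomputable def rh37bd098a6501ca05 : CRef := CRef.mk (Pat.mk 0x1e0000001000000030 0x3e0000001f00000030 3 6) 0 0 (step_sound _ 33 [(rheb0810cc63b001d8.shift 0 1), (rhecf70d5ad0b38994.shift 1 0)] (by decide +kernel))
noncomputable def rh682ae24ad59e8a5a : CRef := CRef.mk (Pat.mk 0xe0000000800000030 0xf0000003e00000030 3 6) 0 0 (step_sound _ 36 [(rh9e8f1a174a587791.shift 1 0), (rhb739f4f82bb681b4.shift 0 1)] (by decide +kernel))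
noncomputable def rhc147a53bb17f4567 : CRef := CRef.mk (Pat.mk 0x2000000160000001e00000000 0x1000000030000001e0000001e00000003 3 5) 0 0 (step_sound _ 1 [rh52dc0b448901c5de, rheb0810cc63b001d8] (by decide +kernel))
noncomputable def rh22c52a4968d9d355 : CRef := CRef.mk (Pat.mk 0x20000000b0000000c0000000800000000 0x180000001e0000000b0000000c0000000c00000004 3 5) 0 0 (step_sound _ 131 [(rh03dfdf12d5937476.shift 2 0), (rh1df1df71a80a171b.shift 0 1)] (by decide +kernel))
noncomputable def rhb27e62c94fe3d287 : CRef := CRef.mk (Pat.mk 0xc0000001c0000000000000004 0xa0000000f0000001c0000000400000004 3 5) 0 0 (step_sound _ 34 [rh277b01412deaec89, (rh2f68792b6b779e96.shift 2 0)] (by decide +kernel))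
noncomputable def rh5f359eb5b0e18561 : CRef := CRef.mk (Pat.mk 0xe000000040000001c00000008 0x130000001e000000340000001c0000000c 3 6) 0 0 (step_sound _ 100 [rh132883a60cd8aed8, (rh8c2ed6f91ff57e60.shift 1 0)] (by decide +kernel))
noncomputable def rh8bdb1dce88e2bc09 : CRef := CRef.mk (Pat.mk 0x700000002000000060000000c00000000 0x10000000700000006000000060000000e0000000a 3 4) 0 0 (step_sound _ 33 [(rh50fbb5868c909700.shift 0 1), (rh5dbd509ce643a6de.shift 1 0)] (by decide +kernel))
noncomputable def rh6794715a0438620e : CRef := CRef.mk (Pat.mk 0x2c0000002800000038 0x7e0000003f00000038 3 7) 0 0 (step_sound _ 34 [(rh12d50e65fdd458b1.shift 1 1), rh6371dceabc07ce3d, rhc02b3aee7ab87ee1] (by decide +kernel))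
noncomputable def rh64ee3dabd9fd5137 : CRef := CRef.mk (Pat.mk 0x60000001400000018 0x70000003f00000018 3 6) 0 0 (step_sound _ 35 [rh22a65d20d3172694, (rhf48373e13d2bc128.shift 1 1)] (by decide +kernel))
noncomputable def rh9c51339dcc796f0a : CRef := CRef.mk (Pat.mk 0x3000000070000000c00000004 0x80000001b0000001f0000000c00000004 3 5) 0 0 (step_sound _ 67 [rh5421160f8e9bcf07, (rhf48373e13d2bc128.shift 0 2)] (by decide +kernel))
noncomputable def rh845a5df4d8a57a69 : CRef := CRef.mk (Pat.mk 0x40000001e0000000000000008 0x4000000040000000c0000001e0000000f00000008 3 5) 0 0 (step_sound _ 130 [(rh1ae4704ae86cb9a8.shift 0 1), (rhc140869848ea0f2e.shift 2 0)] (by decide +kernel))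
noncomputable def rha2fdfed2184dbf0c : CRef := CRef.mk (Pat.mk 0x500000006000000020000000000000000 0x50000000700000006000000020000000200000002 3 3) 0 0 (step_sound _ 33 [(rh71222050f2c63a3a.shift 1 0), (rh9c0a5dbd188ab718.shift 0 1)] (by decide +kernel))
noncomputable def rh6539c13ee1f56f5e : CRef := CRef.mk (Pat.mk 0x6000000030000000f0000000400000000 0x80000001e000000070000000f0000001c00000008 3 5) 0 0 (step_sound _ 98 [(rh712526e472efe489.shift 0 1), rha3ce8d304ffd1d8e] (by decide +kernel))
noncomputable def rh0c448c0ca97beab5 : CRef := CRef.mk (Pat.mk 0x80000000b0000000f00000001 0x60000001e0000000b0000000f00000019 3 5) 0 0 (step_sound _ 98 [rh3dc8e654aa80a713, rh4ad42ce8b6b2f224] (by decide +kernel))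
noncomputable def rhf56f7572e2b631b7 : CRef := CRef.mk (Pat.mk 0x80000000b0000000300000001 0x20000001e0000000f0000000300000001 3 5) 0 0 (step_sound _ 97 [rh5c5e593799055d58, (rh9f2591205204f08d.shift 0 2)] (by decide +kernel))
noncomputable def rh013733e6ac4330ac : CRef := CRef.mk (Pat.mk 0x7000000010000000700000002 0x600000007000000050000000700000007 3 3) 0 0 (step_sound _ 66 [(rh5c5e593799055d58.shift 1 0), rhd8a13c7f042cc6ea] (by decide +kernel))
noncomputable def rhe54ab25dd31f7976 : CRef := CRef.mk (Pat.mk 0x20000000200000002000000160000000000000000 0x10000000300000003000000020000001e0000000300000001 3 5) 0 0 (step_sound _ 33 [(rh3ca48e2a6d60153d.shift 0 1), rh84f01cf2134210c0] (by decide +kernel))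
noncomputable def rh784ce7c990e66974 : CRef := CRef.mk (Pat.mk 0x180000001800000058 0x380000001f00000078 3 7) 0 0 (step_sound _ 34 [(rh2fe78cc5ca4405d8.shift 2 0), (rhab2ad169e49f9c5e.shift 0 1)] (by decide +kernel))
noncomputable def rhc35ae12127a69f1c : CRef := CRef.mk (Pat.mk 0x1c000000080000002c0000000800000000 0x1c0000000f0000003c0000000800000008 3 6) 0 0 (step_sound _ 98 [(rh7b1f1fb55310c477.shift 2 0), (rhf23dc93573c5637f.shift 0 2)] (by decide +kernel))
noncomputable def rhc3198180e1bccfcd : CRef := CRef.mk (Pat.mk 0x800000008000000380000000800000000 0x40000000c0000001f000000380000000800000008 3 6) 0 0 (step_sound _ 98 [(rhc02b3aee7ab87ee1.shift 0 2), (rhe286c75f2739cce2.shift 2 0)] (by decide +kernel))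
noncomputable def rh254596f2f5d4bbab : CRef := CRef.mk (Pat.mk 0x200000014000000140000000400000000 0x30000001e000000340000000400000004 3 6) 0 0 (step_sound _ 97 [(rh665fa2b016ee28ae.shift 0 2), (rh7b1f1fb55310c477.shift 1 0)] (by decide +kernel))
noncomputable def rh26fc1703b2b20577 : CRef := CRef.mk (Pat.mk 0xa0000000a0000000b00000008 0x4000000060000000e0000000a0000000b00000009 3 4) 0 0 (step_sound _ 129 [rh932754581e0f4330, (rhade792e06a060dd4.shift 1 0)] (by decide +kernel))
noncomputable def rh32d61858e9a28a95 : CRef := CRef.mk (Pat.mk 0x200000007000000040000000c00000000 0x80000001e00000007000000040000000c00000008 3 5) 0 0 (step_sound _ 130 [(rh55afc6a59410cf00.shift 2 0), (rh712526e472efe489.shift 0 1)] (by decide +kernel))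
noncomputable def rh3e7f2ba771ddcb65 : CRef := CRef.mk (Pat.mk 0x6000000060000000300000000 0x2000000020000000200000006000000070000000300000001 3 3) 0 0 (step_sound _ 129 [(rh749b30baa5602f69.shift 0 1), rh932754581e0f4330] (by decide +kernel))
noncomputable def rhbba2b65e9a633c92 : CRef := CRef.mk (Pat.mk 0x100000000c0000001c00000004 0x8000000780000001f0000001c00000004 3 7) 0 0 (step_sound _ 101 [(rh3dc8e654aa80a713.shift 2 0), (rh963947c056dfa370.shift 0 1)] (by decide +kernel))
noncomputable def rh31b3787326fc3a2c : CRef := CRef.mk (Pat.mk 0x100000000c0000001800000008 0x10000000300000001f0000001800000008 3 6) 0 0 (step_sound _ 65 [(rhb739f4f82bb681b4.shift 0 1), (rhc0e343a050da71e6.shift 1 0)] (by decide +kernel))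
noncomputable def rhe4f221da97d6d364 : CRef := CRef.mk (Pat.mk 0xe0000001c0000000c00000000 0x10000000330000001e0000001c0000000c00000004 3 6) 0 0 (step_sound _ 100 [rh132883a60cd8aed8, (rh5421160f8e9bcf07.shift 1 1)] (by decide +kernel))
noncomputable def rhe54d6065e495fc41 : CRef := CRef.mk (Pat.mk 0x20000000100000002000000020000000200000000 0x30000000300000002000000060000000600000004 3 3) 0 0 (step_sound _ 129 [(rh50fbb5868c909700.shift 0 1), (rhd29a1fb688eae70f.shift 1 0)] (by decide +kernel))
noncomputable def rh2312e513b6d1dd29 : CRef := CRef.mk (Pat.mk 0x20000000100000003000000020000000200000000 0x20000000300000003000000070000000700000005 3 3) 0 0 (step_sound _ 129 [rh0ec68e0bf4727743, (rhd29a1fb688eae70f.shift 1 0)] (by decide +kernel))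
noncomputable def rhb5f6404ced0dd07a : CRef := CRef.mk (Pat.mk 0x80000000b0000001800000000 0x8000000080000000b0000001e00000014 3 5) 0 0 (step_sound _ 34 [(rh09d4dfe75d4407d6.shift 0 1), (rhde10baa3043a2b46.shift 2 0)] (by decide +kernel))
noncomputable def rh33c434462713d00c : CRef := CRef.mk (Pat.mk 0x2000000020000000c0000000c 0x200000002000000020000000f0000003c 3 6) 0 0 (step_sound _ 33 [(rh2145e1d24b96a57e.shift 1 0), rh6292bd8784ece55f] (by decide +kernel))
noncomputable def rh9ecaaaae57e18399 : CRef := CRef.mk (Pat.mk 0x1600000018000000300000000000000000 0x80000001e0000001f000000300000001000000010 3 6) 0 0 (step_sound _ 131 [(rh3cb04db3dd2b6a55.shift 3 0), (rhe41609ae3e02089b.shift 0 2)] (by decide +kernel))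
noncomputable def rhb19e0e59e877d913 : CRef := CRef.mk (Pat.mk 0x400000004000000060000000c 0x40000000400000004000000070000003e 3 6) 0 0 (step_sound _ 1 [(rh5c5e593799055d58.shift 1 0), rh79b3c29022acbdf3] (by decide +kernel))
noncomputable def rhecc54984d2386956 : CRef := CRef.mk (Pat.mk 0xa0000000b0000000800000004 0xa0000000a0000000b0000001e00000004 3 5) 0 0 (step_sound _ 34 [(rh5c5e593799055d58.shift 2 0), rhddaa53666f376a29] (by decide +kernel))
noncomputable def rh071167705d9732bb : CRef := CRef.mk (Pat.mk 0x20000000b00000008000000040000000400000000 0x20000000b0000001e000000060000000400000004 3 5) 0 0 (step_sound _ 97 [(rhbe0e43a3bc50a43f.shift 1 1), rhe39e20fa79491793] (by decide +kernel))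
noncomputable def rhcdbd71edb952ab1b : CRef := CRef.mk (Pat.mk 0xa000000080000000a0000000b00000000 0x50000000f0000001a0000000a0000000b00000001 3 5) 0 0 (step_sound _ 128 [rh4176b1306bc070ea, (rheca207e390c8f755.shift 0 1)] (by decide +kernel))
noncomputable def rh057665fbd09d58b4 : CRef := CRef.mk (Pat.mk 0xa000000080000000b0000000b 0x70000000f000000190000000b0000000b 3 5) 0 0 (step_sound _ 96 [rhd727bb41309b6841, rheca207e390c8f755] (by decide +kernel))
noncomputable def rhb22c4b31d6e9507c : CRef := CRef.mk (Pat.mk 0x2000000060000000e00000002 0x1000000030000003e0000003e00000002 3 6) 0 0 (step_sound _ 68 [rh52dc0b448901c5de, (rh6493ceb007f59211.shift 0 1), (rheff610e725081997.shift 1 1)] (by decide +kernel))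
noncomputable def rh7552ecd08e523dde : CRef := CRef.mk (Pat.mk 0x80000001a0000001800000000 0x800000008000000080000001b0000001f00000004 3 5) 0 0 (step_sound _ 34 [(rh37d9ceebb86d75d1.shift 2 0), (rh5c36e97be8af272f.shift 0 1)] (by decide +kernel))
noncomputable def rh73534e28f7b6ad48 : CRef := CRef.mk (Pat.mk 0x380000001a0000000800000000 0x60000003f0000001b0000000800000008 3 6) 0 0 (step_sound _ 98 [(rh132883a60cd8aed8.shift 1 0), (rh710860539a4c4362.shift 0 2)] (by decide +kernel))
noncomputable def rhf8bb4458b10bd171 : CRef := CRef.mk (Pat.mk 0x3c000000040000000400000000 0x730000003e000000040000000400000004 3 7) 0 0 (step_sound _ 97 [rh132883a60cd8aed8, (rh9890f9d77740bbed.shift 1 3)] (by decide +kernel))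
noncomputable def rh384619215a59ba54 : CRef := CRef.mk (Pat.mk 0x3000000060000000600000000 0x30000000300000003000000060000000600000002 3 3) 0 0 (step_sound _ 128 [rh7b1f1fb55310c477, (rhf627eb01e9e8db9a.shift 0 1)] (by decide +kernel))
noncomputable def rh3d136168154377f1 : CRef := CRef.mk (Pat.mk 0x1e000000180000001000000000 0x300000001e0000001f0000003000000020 3 6) 0 0 (step_sound _ 37 [(rh7e2967714be94ca8.shift 1 0), (rhe41609ae3e02089b.shift 0 1)] (by decide +kernel))
noncomputable def rhca9381ca7e43c0e3 : CRef := CRef.mk (Pat.mk 0x80000001c00000012 0x180000001f0000001b 3 5) 0 0 (step_sound _ 33 [rh6765e7960b108c8d, rheb0810cc63b001d8] (by decide +kernel))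
noncomputable def rh9863e637cb770d1b : CRef := CRef.mk (Pat.mk 0x40000000f000000040000000000000000 0x80000001c0000000f000000040000000400000004 3 5) 0 0 (step_sound _ 131 [(rh33e738c4ed385b9f.shift 0 3), (rhea7a1800d6f053bd.shift 2 0)] (by decide +kernel))
noncomputable def rhf4dd441fdbc45a43 : CRef := CRef.mk (Pat.mk 0xc0000000c0000000a0000000800000000 0x80000000c0000000c0000000f0000001c00000014 3 5) 0 0 (step_sound _ 66 [rhbdde238153e38af9, (rhea7a1800d6f053bd.shift 2 0)] (by decide +kernel))
noncomputable def rh8a8222b955858aef : CRef := CRef.mk (Pat.mk 0x1e000000060000002800000000 0x30000001e000000060000003c00000004 3 6) 0 0 (step_sound _ 34 [rh132883a60cd8aed8, (rh2fe78cc5ca4405d8.shift 1 1)] (by decide +kernel))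
noncomputable def rh4f70818695c9043c : CRef := CRef.mk (Pat.mk 0xf0000000a0000000a0000000000000000 0x180000000f0000000a0000000e0000000e00000004 3 5) 0 0 (step_sound _ 34 [(rhcf9240a90a4519c3.shift 0 1), (rhe38ad39d05c44887.shift 1 0)] (by decide +kernel))
noncomputable def rha9f2a1a17f1b42c6 : CRef := CRef.mk (Pat.mk 0x3c000000220000002000000000 0x300000003e000000230000002000000020 3 6) 0 0 (step_sound _ 97 [(rh9d9fd5aa1e7402dd.shift 1 0), (rheb0810cc63b001d8.shift 0 2)] (by decide +kernel))
noncomputable def rh7dac2735e0e49c8c : CRef := CRef.mk (Pat.mk 0x18000000100000001e000000140000000000000000 0x180000001b0000001e0000001c0000000c00000004 3 5) 0 0 (step_sound _ 34 [rh132883a60cd8aed8, (rh261f868a429ae0e3.shift 1 0), (rh45d081dea535237a.shift 2 1)] (by decide +kernel))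
noncomputable def rhb15c01d4a77b6915 : CRef := CRef.mk (Pat.mk 0x20000000400000007000000050000000000000000 0x20000000600000007000000070000000500000001 3 3) 0 0 (step_sound _ 129 [rh42548283029e2a39, (rh7b1f1fb55310c477.shift 1 1)] (by decide +kernel))
noncomputable def rh30b94543940a4883 : CRef := CRef.mk (Pat.mk 0x7000000010000000500000002 0x500000007000000070000000700000002 3 3) 0 0 (step_sound _ 33 [rh2145e1d24b96a57e, (rh7d7eaefe27cdd7b0.shift 1 0)] (by decide +kernel))
noncomputable def rhb80c62fee0ba198b : CRef := CRef.mk (Pat.mk 0x600000003000000020000000400000000 0x700000007000000020000000600000006 3 3) 0 0 (step_sound _ 33 [rh2d5442cbf338480d, (rh55afc6a59410cf00.shift 1 0)] (by decide +kernel))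
noncomputable def rhdfab641a9aa1f3e0 : CRef := CRef.mk (Pat.mk 0x4000000180000000c0000000800000000 0x40000003c0000000f0000000800000008 3 6) 0 0 (step_sound _ 65 [(rh53b3c253cb0c65f4.shift 0 2), (rhfe76c8d510e0a76f.shift 1 0)] (by decide +kernel))
noncomputable def rh1e2a9ad0a8094cd9 : CRef := CRef.mk (Pat.mk 0xe0000000a0000000a 0xf0000001e0000000f 3 5) 0 0 (step_sound _ 36 [(rhb739f4f82bb681b4.shift 0 1), rhda02c4ce0b224328] (by decide +kernel))
noncomputable def rh15e98c38281f0714 : CRef := CRef.mk (Pat.mk 0x20000000200000006000000020000000000000000 0x1000000070000000700000006000000020000000200000002 3 3) 0 0 (step_sound _ 33 [(rh3ca48e2a6d60153d.shift 0 1), (rha707fb719e87fe6e.shift 1 0)] (by decide +kernel))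
noncomputable def rhcc2ab5798f39dc9c : CRef := CRef.mk (Pat.mk 0x2000000030000000100000004 0x20000000200000002000000030000000700000005 3 3) 0 0 (step_sound _ 129 [rh087712de266f9e62, (rh5c5e593799055d58.shift 0 1)] (by decide +kernel))
noncomputable def rh8386696223e22001 : CRef := CRef.mk (Pat.mk 0xa0000000f000000020000000400000000 0xa0000000f0000001a0000000e00000004 3 5) 0 0 (step_sound _ 2 [rhb5e747220bd827fa, (rhbe0e43a3bc50a43f.shift 1 0)] (by decide +kernel))
noncomputable def rh5cb969a6db11cc20 : CRef := CRef.mk (Pat.mk 0x80000000f000000000000000400000000 0x80000000f0000001c0000000c00000004 3 5) 0 0 (step_sound _ 2 [(rh04253f50b6dd0619.shift 2 0), rhb5e747220bd827fa] (by decide +kernel))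
noncomputable def rhe1eec89fc41fb4bf : CRef := CRef.mk (Pat.mk 0x1800000008000000380000000800000000 0x40000001c0000000f0000003c0000000800000008 3 6) 0 0 (step_sound _ 98 [(rh587868c37e85730d.shift 0 2), (rhe286c75f2739cce2.shift 2 0)] (by decide +kernel))
noncomputable def rhe1ac6c6673454dff : CRef := CRef.mk (Pat.mk 0x6000000080000000e00000004 0x80000000f000000180000000f00000004 3 5) 0 0 (step_sound _ 68 [rh06d91fa6ccb2dd46, (rh53b3c253cb0c65f4.shift 0 1)] (by decide +kernel))
noncomputable def rhb79379473a059d2f : CRef := CRef.mk (Pat.mk 0x3000000050000000700000002 0x600000007000000050000000700000007 3 3) 0 0 (step_sound _ 98 [(rh5c5e593799055d58.shift 1 0), rhd8a13c7f042cc6ea] (by decide +kernel))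
noncomputable def rhd2eac245befb8aa7 : CRef := CRef.mk (Pat.mk 0x80000000f000000040000000000000000 0x8000000080000000f0000001c0000000400000004 3 5) 0 0 (step_sound _ 34 [(rh71222050f2c63a3a.shift 2 0), (rhf125bcd6a8e76387.shift 0 1)] (by decide +kernel))
noncomputable def rh85b890f6261e456d : CRef := CRef.mk (Pat.mk 0x14000000140000001e00000000 0x80000003c000000170000001e00000030 3 6) 0 0 (step_sound _ 99 [(rh4ad42ce8b6b2f224.shift 1 0), (rha792162b08927c0f.shift 0 1)] (by decide +kernel))
noncomputable def rh0223a742aabcbe1b : CRef := CRef.mk (Pat.mk 0x4000000080000000f0000000000000000 0x4000000040000000c0000000f0000001800000008 3 5) 0 0 (step_sound _ 35 [(rhc17a6a02773cc5f6.shift 2 0), (rhe25b0a99195a5d59.shift 0 1)] (by decide +kernel))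
noncomputable def rh42f67dc925237e79 : CRef := CRef.mk (Pat.mk 0x40000000a0000000f0000000200000000 0x40000000e0000000f0000001a0000000a 3 5) 0 0 (step_sound _ 35 [(rh150947578a63ac51.shift 1 0), (rhe25b0a99195a5d59.shift 0 1)] (by decide +kernel))
noncomputable def rh63a681ea10fe4d21 : CRef := CRef.mk (Pat.mk 0x400000002000000030000000100000000 0x60000000600000002000000030000000300000001 3 3) 0 0 (step_sound _ 129 [(rh5c5e593799055d58.shift 0 1), rh8c01e5409b730b8b] (by decide +kernel))
noncomputable def rh2a727753f60a0586 : CRef := CRef.mk (Pat.mk 0x20000000600000006000000020000000000000000 0x20000000600000006000000070000000700000005 3 3) 0 0 (step_sound _ 33 [rh7928877f9bf74a91, (rheb6520004608cff3.shift 1 0)] (by decide +kernel))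
noncomputable def rh9de53160888298b5 : CRef := CRef.mk (Pat.mk 0x100000001a0000001c00000000 0x20000000300000001e0000001f00000030 3 6) 0 0 (step_sound _ 4 [(rh7e143111a189f2ad.shift 1 0), rhf56e6bc5d2f7fe77] (by decide +kernel))
noncomputable def rh4993a143108122af : CRef := CRef.mk (Pat.mk 0x5a00000018 0x7b0000001f 3 7) 0 0 (step_sound _ 2 [(rh361cc68994bd8a63.shift 2 0), rh5c36e97be8af272f] (by decide +kernel))
noncomputable def rhae6f90adfd4baf40 : CRef := CRef.mk (Pat.mk 0x200000006000000160000000000000000 0x400000006000000060000001e0000000300000003 3 5) 0 0 (step_sound _ 33 [rh84f01cf2134210c0, (rha707fb719e87fe6e.shift 1 0)] (by decide +kernel))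
noncomputable def rhd45977ee1dd9c7e0 : CRef := CRef.mk (Pat.mk 0x400000004000000070000000400000000 0x80000000c0000003c0000000f0000000400000004 3 6) 0 0 (step_sound _ 99 [(rh572132728df34c43.shift 0 2), (rha707fb719e87fe6e.shift 2 0)] (by decide +kernel))
noncomputable def rh772d63fac3283b59 : CRef := CRef.mk (Pat.mk 0x4000000040000001e0000000000000000 0x4000000070000001e0000000300000002 3 5) 0 0 (step_sound _ 33 [rh4cdd80ef82c269a0, (rheb0810cc63b001d8.shift 0 1)] (by decide +kernel))
noncomputable def rhf2d737ced64179df : CRef := CRef.mk (Pat.mk 0x400000007000000040000000400000000 0x400000004000000070000003e0000000c00000008 3 6) 0 0 (step_sound _ 67 [(rh89ade209b3e28f13.shift 0 2), (rhd4b4beefcd67f51e.shift 2 0)] (by decide +kernel))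
noncomputable def rhccf62475221aa9b5 : CRef := CRef.mk (Pat.mk 0x300000003000000030000000000000000 0x2000000020000000300000003000000070000000600000006 3 3) 0 0 (step_sound _ 34 [(rh493ba90d7b88e72e.shift 0 1), rh7bed6280d5711866] (by decide +kernel))
noncomputable def rhf7ec97daacf7754f : CRef := CRef.mk (Pat.mk 0x40000000c000000180000000400000000 0x40000000c0000007c0000000f00000008 3 7) 0 0 (step_sound _ 33 [(rh500571fd45750302.shift 1 1), rh715f2fe878c18bbd] (by decide +kernel))
noncomputable def rhc4fadbef089a67df : CRef := CRef.mk (Pat.mk 0x40000000100000007000000060000000100000000 0x6000000060000000300000007000000060000000300000003 3 3) 0 0 (step_sound _ 129 [(rh82bd946b1709a78e.shift 1 2), rhe437f081bfcdb831] (by decide +kernel))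
noncomputable def rh6880cb2eb3cf89a2 : CRef := CRef.mk (Pat.mk 0x60000000c000000020000000000000000 0x4000000060000003e000000030000000200000002 3 6) 0 0 (step_sound _ 97 [(rha9e1a5d55b907abf.shift 0 2), (rhea7a1800d6f053bd.shift 1 0)] (by decide +kernel))
noncomputable def rhb5c43fad0d96c5e7 : CRef := CRef.mk (Pat.mk 0x20000000b0000000a00000006 0xc0000001e0000000b0000001e00000006 3 5) 0 0 (step_sound _ 99 [rh25cc39f941c1df60, rh8797c67fe3ac847a] (by decide +kernel))
noncomputable def rhffa5170e738fb874 : CRef := CRef.mk (Pat.mk 0x60000000a0000000800000008 0x140000001e0000000b0000000800000008 3 5) 0 0 (step_sound _ 99 [(rh50fbb5868c909700.shift 2 0), rhc49ca0b9223e2b96] (by decide +kernel))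
noncomputable def rh43697c023c389664 : CRef := CRef.mk (Pat.mk 0x10000000140000001c00000018 0x20000000300000001f0000001f00000018 3 6) 0 0 (step_sound _ 65 [rh22a65d20d3172694, (rhddcd04bb31546311.shift 1 0)] (by decide +kernel))
noncomputable def rh4514ead16d6f2716 : CRef := CRef.mk (Pat.mk 0x10000000500000006000000040000000400000000 0x50000000700000006000000060000000600000002 3 3) 0 0 (step_sound _ 33 [(rh932754581e0f4330.shift 1 0), (rhea243aff88ed5ec2.shift 0 1)] (by decide +kernel))
noncomputable def rh21971c4afa9b7061 : CRef := CRef.mk (Pat.mk 0x100000001400000018000000100000000800000000 0x300000001f00000018000000100000001800000018 3 6) 0 0 (step_sound _ 131 [(rh34517e326ddb5b25.shift 0 3), (rhe437f081bfcdb831.shift 3 0)] (by decide +kernel))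
noncomputable def rh8b26ba587722bde0 : CRef := CRef.mk (Pat.mk 0x180000000a0000000800000008000000080000000000000000 0x180000000f0000000c000000080000000c0000000c00000004 3 5) 0 0 (step_sound _ 35 [(rh5067309dd48555a2.shift 0 1), (rh7928877f9bf74a91.shift 2 0)] (by decide +kernel))
noncomputable def rh7f49c44d21e82823 : CRef := CRef.mk (Pat.mk 0x10000000c0000000e 0x30000003f0000003e 3 6) 0 0 (step_sound _ 33 [rh79b3c29022acbdf3, rh8abea2a7b1fd427a] (by decide +kernel))
noncomputable def rhaaab518ac83b7b78 : CRef := CRef.mk (Pat.mk 0x180000000a0000000c000000080000000000000000 0x180000000f0000000c000000180000001800000018 3 5) 0 0 (step_sound _ 35 [rh9abb254542d602ce, (rhd29a1fb688eae70f.shift 3 0)] (by decide +kernel))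
noncomputable def rh57a29bc1e456e7e5 : CRef := CRef.mk (Pat.mk 0x180000000a0000000c00000000 0x800000008000000180000000f0000000c00000004 3 5) 0 0 (step_sound _ 66 [(rh503dd4575245365b.shift 2 0), (rh53b3c253cb0c65f4.shift 0 2)] (by decide +kernel))
noncomputable def rh08e6d656a7b7fc75 : CRef := CRef.mk (Pat.mk 0xa0000001800000008000000080000000400000000 0xf0000001c00000008000000080000000c00000004 3 5) 0 0 (step_sound _ 35 [(rh932754581e0f4330.shift 2 0), (rhf45bd3c735a7ee03.shift 0 1)] (by decide +kernel))
noncomputable def rh270c36d11d470aa6 : CRef := CRef.mk (Pat.mk 0xe000000080000000800000008000000080000000000000000 0xf000000180000001800000008000000180000001800000010 3 5) 0 0 (step_sound _ 35 [(rh1786109135247c55.shift 0 1), (rhd29a1fb688eae70f.shift 3 0)] (by decide +kernel))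
noncomputable def rha5e7809694056244 : CRef := CRef.mk (Pat.mk 0x2000000020000000c0000000c00000004 0x2000000020000000f0000003e00000004 3 6) 0 0 (step_sound _ 65 [(rh6292bd8784ece55f.shift 0 1), (rhbe0e43a3bc50a43f.shift 1 0)] (by decide +kernel))
noncomputable def rh51ff335405c97b2c : CRef := CRef.mk (Pat.mk 0x1a00000006 0x3b0000001f 3 6) 0 0 (step_sound _ 3 [rh53b3c253cb0c65f4, rh5ec015d369888aae] (by decide +kernel))
noncomputable def rhbd4093d9fad722c6 : CRef := CRef.mk (Pat.mk 0x20000000e0000000a0000000600000000 0x4000000060000000f0000001a0000000f00000008 3 5) 0 0 (step_sound _ 35 [(rh1642ef1127830c20.shift 0 1), (rhb47d83e3a04422c3.shift 1 0)] (by decide +kernel))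
noncomputable def rhfcc4a6c884cab942 : CRef := CRef.mk (Pat.mk 0x40000001c0000001400000004 0x2000000070000001e0000003400000004 3 6) 0 0 (step_sound _ 65 [rh6bc906bfbb0e6d90, (rhe25b0a99195a5d59.shift 1 1)] (by decide +kernel))
noncomputable def rh8b95101674dac0c7 : CRef := CRef.mk (Pat.mk 0x10000000500000004000000040000000e 0x30000000700000006000000070000003e 3 6) 0 0 (step_sound _ 33 [rh4d6b369314dc2dff, rh79b3c29022acbdf3] (by decide +kernel))
noncomputable def rh11f3cdd66478f4ff : CRef := CRef.mk (Pat.mk 0x100000000c0000001800000010 0x8000000780000001f0000001800000010 3 7) 0 0 (step_sound _ 101 [(rh0e40e213923dfc13.shift 2 0), (rh963947c056dfa370.shift 0 1)] (by decide +kernel))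
noncomputable def rhef303a13da0f801f : CRef := CRef.mk (Pat.mk 0x1e00000002000000020000000400000000 0x30000001e00000002000000030000000700000005 3 5) 0 0 (step_sound _ 32 [rh2818863d77d69ed0, (rhf5e2c347e50c6617.shift 0 1)] (by decide +kernel))
noncomputable def rha3cfb45ff5311583 : CRef := CRef.mk (Pat.mk 0x20000000300000002000000020000000000000000 0x2000000030000000300000003000000030000000300000002 3 2) 0 0 (step_sound _ 96 [(rh1e309b005ffa1b36.shift 0 1), rh3cb04db3dd2b6a55] (by decide +kernel))
noncomputable def rh2d1952ceae187b71 : CRef := CRef.mk (Pat.mk 0x20000000b0000000e0000000200000000 0xc0000001e0000000b0000000e0000000600000004 3 5) 0 0 (step_sound _ 131 [(rh665ec0aeeddb6f99.shift 1 0), (rh8797c67fe3ac847a.shift 0 1)] (by decide +kernel))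
noncomputable def rh57c9d2207753100a : CRef := CRef.mk (Pat.mk 0x80000005e00000000 0xc0000007e00000007 3 7) 0 0 (step_sound _ 1 [(rh69db1d763c930154.shift 1 0), rheb0810cc63b001d8] (by decide +kernel))
noncomputable def rha6762d44641a54b3 : CRef := CRef.mk (Pat.mk 0xb0000000a0000000200000000 0x50000000f0000001a0000000200000002 3 5) 0 0 (step_sound _ 1 [rh50fbb5868c909700, rhb01df2df6ae952df] (by decide +kernel))
noncomputable def rh5650670921f15035 : CRef := CRef.mk (Pat.mk 0x160000001400000004 0x200000002000000030000001e0000003600000004 3 6) 0 0 (step_sound _ 97 [(rh665fa2b016ee28ae.shift 0 1), (rhe072fffdd2fccf38.shift 1 0)] (by decide +kernel))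
noncomputable def rhc479e7f0b6ce145b : CRef := CRef.mk (Pat.mk 0xe000000080000000800000000 0x10000000380000001f000000080000000800000008 3 6) 0 0 (step_sound _ 132 [(rh6835955021d3aba9.shift 0 1), (rhe3bc8ed3804367dd.shift 1 0)] (by decide +kernel))
noncomputable def rh18b5f43433ec86ab : CRef := CRef.mk (Pat.mk 0x4000000040000001e0000000000000000 0x4000000060000001e0000000700000002 3 5) 0 0 (step_sound _ 33 [(rhd64d7be5d7225cce.shift 1 0), (rheb0810cc63b001d8.shift 0 1)] (by decide +kernel))
noncomputable def rha3701c917fbd6f5d : CRef := CRef.mk (Pat.mk 0x600000007000000060000000000000000 0x2000000020000000600000007000000070000000300000003 3 3) 0 0 (step_sound _ 32 [rh0db119afefb5ebc7, rh5769ed4fe2fe4c14, rh5ddbeed5d869bf16, (rh749b30baa5602f69.shift 0 1)] (by decide +kernel))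
noncomputable def rhb10b6d8f84633249 : CRef := CRef.mk (Pat.mk 0x300000003000000020000000300000000 0x20000000300000003000000070000000700000004 3 3) 0 0 (step_sound _ 34 [(rh55afc6a59410cf00.shift 1 0), (rh7b4a76157e5abfc9.shift 0 1)] (by decide +kernel))
noncomputable def rh69d812b5a1a7ab2c : CRef := CRef.mk (Pat.mk 0x400000002000000060000000600000000 0x400000006000000070000003e0000000a 3 6) 0 0 (step_sound _ 35 [(rh5dbd509ce643a6de.shift 1 0), (rh79b3c29022acbdf3.shift 0 1)] (by decide +kernel))
noncomputable def rh65ce85ce2e0cb65a : CRef := CRef.mk (Pat.mk 0x60000000b0000000600000004 0x80000001e0000000b0000001e00000004 3 5) 0 0 (step_sound _ 35 [rh7ab04f71adbcadbe, (rhf48373e13d2bc128.shift 0 1)] (by decide +kernel))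
noncomputable def rh79fa8d0518e29be0 : CRef := CRef.mk (Pat.mk 0x20000000180000001c 0x300000001f0000003f 3 6) 0 0 (step_sound _ 33 [(rh2f6f1d74ab769c08.shift 1 0), rh5c36e97be8af272f] (by decide +kernel))
noncomputable def rh590894c2e95f7a94 : CRef := CRef.mk (Pat.mk 0x2000000020000000700000006000000000000000000000000 0x2000000030000000700000007000000030000000300000002 3 3) 0 0 (step_sound _ 65 [rh40241bd608e5be1a, (rh7928877f9bf74a91.shift 0 1)] (by decide +kernel))
noncomputable def rhb96654f2e74dc8ff : CRef := CRef.mk (Pat.mk 0xe0000000a0000000200000006 0x190000000f0000000e0000000e00000006 3 5) 0 0 (step_sound _ 131 [rh4d4e586abdf65d17, (rhf9582ff5662029e8.shift 2 0)] (by decide +kernel))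
noncomputable def rh55ff3d990152394d : CRef := CRef.mk (Pat.mk 0x400000007000000040000000400000000 0x80000001c0000000f000000040000000400000004 3 5) 0 0 (step_sound _ 131 [(rh2f68792b6b779e96.shift 2 1), rhe3bc8ed3804367dd] (by decide +kernel))
noncomputable def rh2c3c9749c806d7bc : CRef := CRef.mk (Pat.mk 0x30000000b00000006 0x30000001f0000001f 3 5) 0 0 (step_sound _ 3 [rh649b0af3519a7bcf, rhf48373e13d2bc128] (by decide +kernel))
noncomputable def rhdcacbe5d4166aafb : CRef := CRef.mk (Pat.mk 0x80000000b00000006000000000000000000000000 0x8000000080000000f0000001e000000040000000400000004 3 5) 0 0 (step_sound _ 66 [(rh7b6afa71f9aeb7f3.shift 0 2), (rhaf343399eb22e721.shift 1 0)] (by decide +kernel))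
noncomputable def rh707668dffb762904 : CRef := CRef.mk (Pat.mk 0xb0000000a0000000a00000000 0x40000000e0000000f0000001a0000000a00000008 3 5) 0 0 (step_sound _ 130 [rh3e4b55a8c31e7aae, (rh8b14df1b185c100a.shift 1 1)] (by decide +kernel))
noncomputable def rh21b88758ed9898ae : CRef := CRef.mk (Pat.mk 0xb0000000b0000000a 0xf0000001b0000001f 3 5) 0 0 (step_sound _ 2 [rhf48373e13d2bc128, rhf682c000fac3086e] (by decide +kernel))
noncomputable def rh0bd65c561ceb34d8 : CRef := CRef.mk (Pat.mk 0xb0000000b000000020000000000000000 0x40000000f0000001b000000020000000200000002 3 5) 0 0 (step_sound _ 33 [rh7b1f1fb55310c477, (rhb01df2df6ae952df.shift 0 1)] (by decide +kernel))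
noncomputable def rha011524de6274c86 : CRef := CRef.mk (Pat.mk 0x18000000030000000300000000 0x2000000020000001e000000030000000300000001 3 5) 0 0 (step_sound _ 97 [rh503dd4575245365b, (rhb2a0b9ccfb5cecd5.shift 0 2)] (by decide +kernel))
noncomputable def rh6dffabb4034c5994 : CRef := CRef.mk (Pat.mk 0x4000000170000000c00000008 0x100000003e000000170000003c00000008 3 6) 0 0 (step_sound _ 100 [(rh4fd54f6717f3e7ac.shift 0 2), (rh7b6afa71f9aeb7f3.shift 1 0)] (by decide +kernel))
noncomputable def rhba0bc49c07948344 : CRef := CRef.mk (Pat.mk 0xc000000280000000c 0xf0000003c0000001f 3 6) 0 0 (step_sound _ 36 [rh1ed7a3503fa50fc8, (rhdbcea10a0fbe5ba6.shift 0 1), rheea1a90336e79c71] (by decide +kernel))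
noncomputable def rh6bc85e88a521f414 : CRef := CRef.mk (Pat.mk 0x20000000b0000000a0000000300000000 0x20000000f0000001a0000000f00000004 3 5) 0 0 (step_sound _ 34 [(rh55afc6a59410cf00.shift 1 0), (rhf428b1dc658d16d8.shift 0 1)] (by decide +kernel))
noncomputable def rh1d42b3e064f2a296 : CRef := CRef.mk (Pat.mk 0xc000000080000001e00000000 0x4000000040000000c0000000c0000000c0000001e00000003 3 5) 0 0 (step_sound _ 130 [rh316d0c7c5292e4bb, (rhc89253ff58c66167.shift 2 1)] (by decide +kernel))
noncomputable def rh40a3f6cb73a0866c : CRef := CRef.mk (Pat.mk 0x2c000000000000001e 0x3c000000070000003e 3 6) 0 0 (step_sound _ 33 [rh3244c3cc8379b070, (rh423c707f612cf20a.shift 1 0)] (by decide +kernel))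
noncomputable def rhc8848e9e7fcd827c : CRef := CRef.mk (Pat.mk 0xb000000000000000e00000004 0x80000000f000000180000000f00000004 3 5) 0 0 (step_sound _ 67 [(rh5c5e593799055d58.shift 2 0), (rhf682c000fac3086e.shift 0 1)] (by decide +kernel))
noncomputable def rhf82e4f7a5bc85995 : CRef := CRef.mk (Pat.mk 0x4000000080000002c0000000800000018 0xc0000000c000000080000003c0000000f00000018 3 6) 0 0 (step_sound _ 34 [(rh16567ae718d9fd54.shift 2 1), rh6371dceabc07ce3d] (by decide +kernel))
noncomputable def rh3f69e10535d86375 : CRef := CRef.mk (Pat.mk 0xa0000001a0000000a00000000 0xa0000000a0000001a0000000f00000004 3 5) 0 0 (step_sound _ 34 [(rh53b3c253cb0c65f4.shift 0 1), (rh5fc67bac28a8b5bb.shift 1 0)] (by decide +kernel))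
noncomputable def rhd7ecf579ea89d4ad : CRef := CRef.mk (Pat.mk 0x1700000010 0x380000001f00000018 3 6) 0 0 (step_sound _ 35 [rh96851dee118c1ba3, (rh9890f9d77740bbed.shift 0 1)] (by decide +kernel))
noncomputable def rh493b89d8082923ed : CRef := CRef.mk (Pat.mk 0x80000000f00000003000000020000000000000000 0xa0000000f00000007000000060000000600000006 3 4) 0 0 (step_sound _ 34 [(rh24011d6715496e65.shift 1 1), rh7bed6280d5711866] (by decide +kernel))
noncomputable def rh0f8d816415b37a15 : CRef := CRef.mk (Pat.mk 0x4000000050000000500000003 0x20000000600000007000000050000000700000007 3 3) 0 0 (step_sound _ 129 [rhc6b6552229dbce07, (rhd98729bc66308eae.shift 1 0)] (by decide +kernel))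
noncomputable def rh7815964f89cad686 : CRef := CRef.mk (Pat.mk 0x80000000f000000020000000200000004 0xa0000000f0000001a0000000e00000004 3 5) 0 0 (step_sound _ 34 [(rh2145e1d24b96a57e.shift 1 0), rhb5e747220bd827fa] (by decide +kernel))
noncomputable def rh10733b505f21fbae : CRef := CRef.mk (Pat.mk 0x1e0000000400000004 0x8000000080000003c0000001f0000000400000004 3 6) 0 0 (step_sound _ 99 [(rhbfb5770941270498.shift 2 0), (rhec46bd5500c722c9.shift 0 2)] (by decide +kernel))
noncomputable def rh471b30005745dc59 : CRef := CRef.mk (Pat.mk 0x3000000070000000000000001 0x2000000020000000200000003000000070000000500000001 3 3) 0 0 (step_sound _ 129 [(rh571950d89739e871.shift 0 1), rh9e3edb185cc347de] (by decide +kernel))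
noncomputable def rhb693017ee57e0118 : CRef := CRef.mk (Pat.mk 0x40000001e00000004000000040000000000000000 0x40000001e000000070000000c0000000c0000000c 3 5) 0 0 (step_sound _ 34 [(rhd29a1fb688eae70f.shift 2 0), rhd680bf2cf2441e84] (by decide +kernel))
noncomputable def rhc54ff3d8eb335d63 : CRef := CRef.mk (Pat.mk 0x40000001e000000040000000400000000 0x4000000040000001e000000070000000600000002 3 5) 0 0 (step_sound _ 33 [(rh05ed1a32c8c093f9.shift 0 1), (rh932754581e0f4330.shift 1 0)] (by decide +kernel))
noncomputable def rha07929b9181bd289 : CRef := CRef.mk (Pat.mk 0x2000000040000001600000014 0x600000006000000040000001e00000037 3 6) 0 0 (step_sound _ 1 [(rh16567ae718d9fd54.shift 1 0), rhcaa7ba44a31c4370] (by decide +kernel))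
noncomputable def rh74de224ea3358978 : CRef := CRef.mk (Pat.mk 0x80000000b0000000e00000004 0x10000000180000000f0000000f0000003c 3 6) 0 0 (step_sound _ 3 [rh6292bd8784ece55f, rhddcd04bb31546311] (by decide +kernel))
noncomputable def rh5d6002b88e0005f3 : CRef := CRef.mk (Pat.mk 0x2000000030000000600000002 0x30000000300000003000000070000000700000002 3 3) 0 0 (step_sound _ 129 [rh3ca48e2a6d60153d, (rh85a605aac6183f28.shift 0 1)] (by decide +kernel))
noncomputable def rhd605b901b1438220 : CRef := CRef.mk (Pat.mk 0x16000000060000000600000004 0x80000001f0000003e0000000700000004 3 6) 0 0 (step_sound _ 68 [(rh51246ab843efda05.shift 0 1), (rhb01df2df6ae952df.shift 1 0), (rhfd0f316c42bbba52.shift 0 2)] (by decide +kernel))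
noncomputable def rh48ed0010265fa93b : CRef := CRef.mk (Pat.mk 0x400000006000000160000000200000000 0x200000006000000060000001e0000000700000005 3 5) 0 0 (step_sound _ 129 [(rh3cb04db3dd2b6a55.shift 1 0), rh84f01cf2134210c0] (by decide +kernel))
noncomputable def rhe3958225ccedbfeb : CRef := CRef.mk (Pat.mk 0xa0000000b0000000a0000000800000000 0x20000000a0000000b0000000f0000001900000011 3 5) 0 0 (step_sound _ 64 [rh1e309b005ffa1b36, rh5f11ee373cbffcaa] (by decide +kernel))
noncomputable def rh64f81e58cbfea41b : CRef := CRef.mk (Pat.mk 0x80000000a0000000b0000000a0000000000000000 0x10000000190000000f0000000b0000000a0000000200000002 3 5) 0 0 (step_sound _ 128 [rh3cb04db3dd2b6a55, (rhddcd04bb31546311.shift 0 2)] (by decide +kernel))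
noncomputable def rh1ec4a688f2c4c1ff : CRef := CRef.mk (Pat.mk 0x80000000c0000001e00000000 0xc0000000c0000000c0000000c0000001e00000003 3 5) 0 0 (step_sound _ 130 [(rh16567ae718d9fd54.shift 2 1), rh981be6707e4d9088] (by decide +kernel))
noncomputable def rh2a14c815463ca7ed : CRef := CRef.mk (Pat.mk 0x180000007800000000 0x380000007f000000e0 3 8) 0 0 (step_sound _ 34 [(rh4ad5fc38f1b69f65.shift 2 0), (rhab2ad169e49f9c5e.shift 0 1)] (by decide +kernel))
noncomputable def rh8cda118e73192ffa : CRef := CRef.mk (Pat.mk 0x20000000e00000002 0x70000003e00000006 3 6) 0 0 (step_sound _ 36 [(rh3244c3cc8379b070.shift 0 1), (rhe9d682012dbceb06.shift 1 0)] (by decide +kernel))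
noncomputable def rhd49dd6fe5fb6eec2 : CRef := CRef.mk (Pat.mk 0x100000001c000000100000000000000000 0x8000000180000001f000000300000001000000010 3 6) 0 0 (step_sound _ 131 [(rh3cb04db3dd2b6a55.shift 3 0), (rhf56e6bc5d2f7fe77.shift 0 2)] (by decide +kernel))
noncomputable def rhee497e4436c6d4ad : CRef := CRef.mk (Pat.mk 0x200000000a0000001c 0x300000003e0000003f 3 6) 0 0 (step_sound _ 36 [(rh2f6f1d74ab769c08.shift 1 0), rhab2ad169e49f9c5e] (by decide +kernel))
noncomputable def rh43801a951f6aadd4 : CRef := CRef.mk (Pat.mk 0x180000000c000000080000000800000000 0x380000001f000000080000000800000008 3 6) 0 0 (step_sound _ 97 [(rh53b3c253cb0c65f4.shift 0 3), (rhe3bc8ed3804367dd.shift 1 0)] (by decide +kernel))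
noncomputable def rhac6da65d713c5775 : CRef := CRef.mk (Pat.mk 0x400000007000000040000000500000001 0x80000001e00000007000000050000000500000001 3 5) 0 0 (step_sound _ 129 [rh04253f50b6dd0619, (rh712526e472efe489.shift 0 1)] (by decide +kernel))
noncomputable def rh85fd82ff143b0521 : CRef := CRef.mk (Pat.mk 0x40000000700000004000000050000000100000000 0x60000000700000005000000070000000300000002 3 3) 0 0 (step_sound _ 33 [(rh79877ebd3ef475dd.shift 1 1), rh85e0f5cc78e9cbe0] (by decide +kernel))
noncomputable def rhced6ad427ee720f7 : CRef := CRef.mk (Pat.mk 0x80000000e000000080000000a00000000 0x80000001e000000780000000f00000004 3 7) 0 0 (step_sound _ 68 [rh3cf2764919f34f47, (rh4a0b10776449c3e9.shift 1 2)] (by decide +kernel))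
noncomputable def rh3c871fb426cea00d : CRef := CRef.mk (Pat.mk 0x180000000a000000000000000200000002 0x3c0000000f000000020000000200000002 3 6) 0 0 (step_sound _ 98 [(rh53b3c253cb0c65f4.shift 0 3), (rhcb325776999f95c4.shift 1 0)] (by decide +kernel))
noncomputable def rhb4dd159fa7d21eb6 : CRef := CRef.mk (Pat.mk 0x80000000a00000008000000020000000600000000 0x190000000f0000001a000000020000000600000004 3 5) 0 0 (step_sound _ 128 [(rhabf575676fe0ef70.shift 0 3), rhc5351dabd90740aa] (by decide +kernel))
noncomputable def rhdf62420ddba51d91 : CRef := CRef.mk (Pat.mk 0x80000000800000008000000080000000e 0x40000000c0000000c0000000800000018000000180000000f 3 5) 0 0 (step_sound _ 163 [(rh3ca48e2a6d60153d.shift 2 1), rhc1ef030390f43529] (by decide +kernel))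
noncomputable def rh1c00ccce1f772025 : CRef := CRef.mk (Pat.mk 0x80000000800000008000000080000000e 0x1000000018000000180000000800000018000000180000000f 3 5) 0 0 (step_sound _ 163 [(rh44f453b84f013105.shift 3 1), rhc1ef030390f43529] (by decide +kernel))
noncomputable def rh4de5002024d0162e : CRef := CRef.mk (Pat.mk 0x100000001c0000001000000010 0x8000000380000001f0000001000000010 3 6) 0 0 (step_sound _ 65 [(rh33e738c4ed385b9f.shift 1 2), rh3d5d828ac8ab1bfc] (by decide +kernel))
noncomputable def rh66c750e31d44f5a6 : CRef := CRef.mk (Pat.mk 0x1800000014000000000000000400000004 0x380000001f000000040000000400000004 3 6) 0 0 (step_sound _ 99 [(rh04253f50b6dd0619.shift 2 0), (rhab2ad169e49f9c5e.shift 0 3)] (by decide +kernel))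
noncomputable def rh92f38d9d112d8e8f : CRef := CRef.mk (Pat.mk 0x40000000500000004000000050000000300000000 0x2000000060000000700000005000000050000000300000002 3 3) 0 0 (step_sound _ 96 [rh55afc6a59410cf00, (rhb2f8cf715f80bee2.shift 0 1)] (by decide +kernel))
noncomputable def rhfd459f245766c760 : CRef := CRef.mk (Pat.mk 0x8000000080000000a0000000a00000000 0x8000000080000000f0000001e00000010 3 5) 0 0 (step_sound _ 36 [(rh55afc6a59410cf00.shift 3 0), (rhd8be3b7ca6adb62f.shift 0 1)] (by decide +kernel))
noncomputable def rhaa46151e37b000b2 : CRef := CRef.mk (Pat.mk 0x30000000b000000020000000000000000 0x40000001f0000001b000000020000000200000002 3 5) 0 0 (step_sound _ 130 [rhb0c1e7919d9be92d, (rhbca71ab025ef4262.shift 0 3)] (by decide +kernel))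
noncomputable def rh540d2505dd2e7996 : CRef := CRef.mk (Pat.mk 0x400000004000000060000000500000001 0x60000000600000006000000060000000700000001 3 3) 0 0 (step_sound _ 33 [rh4fcc643a9c188aaa, (rh5c5e593799055d58.shift 1 1)] (by decide +kernel))
noncomputable def rh31b93607ae62bf2b : CRef := CRef.mk (Pat.mk 0x40000000c0000000c0000000200000002 0x40000003e0000000f0000000200000002 3 6) 0 0 (step_sound _ 65 [(rh1006c02ae4212ff0.shift 1 0), (rhf9d36e158778ce35.shift 0 2)] (by decide +kernel))
noncomputable def rha31b51a526eee054 : CRef := CRef.mk (Pat.mk 0x100000000e000000080000000000000000 0x100000001c0000001f000000080000000800000008 3 5) 0 0 (step_sound _ 35 [(rh2d5442cbf338480d.shift 2 0), (rh6835955021d3aba9.shift 0 1)] (by decide +kernel))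
noncomputable def rhae8ff466af5f6d32 : CRef := CRef.mk (Pat.mk 0x120000000e0000000200000002 0x40000003e0000000f0000000200000002 3 6) 0 0 (step_sound _ 98 [(rh2f68792b6b779e96.shift 1 0), (rh7dcd5319f4f71bec.shift 0 2)] (by decide +kernel))
noncomputable def rh7682717cf4f8b2ed : CRef := CRef.mk (Pat.mk 0x9000000070000000100000001 0x20000001b0000001f0000000100000001 3 5) 0 0 (step_sound _ 67 [(rh33e738c4ed385b9f.shift 0 2), rha1c46167a1310ec1] (by decide +kernel))
noncomputable def rha0bb913a2cea44c0 : CRef := CRef.mk (Pat.mk 0x1e00000004000000040000000000000000 0x20000001e00000007000000040000000400000004 3 5) 0 0 (step_sound _ 34 [(rh50fbb5868c909700.shift 1 1), rhd680bf2cf2441e84] (by decide +kernel))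
noncomputable def rh623bc71319a556df : CRef := CRef.mk (Pat.mk 0x6000000020000000a0000000e00000000 0x60000000e0000000e0000000f00000019 3 5) 0 0 (step_sound _ 3 [rh9f67957f47428996, (rhd11a856664bceb7a.shift 2 0)] (by decide +kernel))
noncomputable def rh25b99fb509809bc9 : CRef := CRef.mk (Pat.mk 0xc0000000e000000040000000000000000 0x20000000f0000003e000000040000000400000004 3 6) 0 0 (step_sound _ 129 [(rh40241bd608e5be1a.shift 1 0), (rh79b3c29022acbdf3.shift 0 3)] (by decide +kernel))
noncomputable def rhfb64ba5458f5c134 : CRef := CRef.mk (Pat.mk 0x600000006000000060000000000000000 0x3000000030000000700000006000000060000000200000002 3 3) 0 0 (step_sound _ 160 [rh2f3e416c6263c0c2, (rhf627eb01e9e8db9a.shift 0 2)] (by decide +kernel))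
noncomputable def rh385b4795f5e132b8 : CRef := CRef.mk (Pat.mk 0xc0000000c0000000000000008 0x140000003c0000000f0000000800000008 3 6) 0 0 (step_sound _ 100 [(rh4dc133ee0ba1420a.shift 0 2), (rhd1f9989d6034576a.shift 2 0)] (by decide +kernel))
noncomputable def rh7db7a7c44bba1772 : CRef := CRef.mk (Pat.mk 0x4000000060000000b0000000600000000 0x40000001e0000000b0000001e00000008 3 5) 0 0 (step_sound _ 35 [rh3a9e3d20902516bb, (rhf48373e13d2bc128.shift 0 1)] (by decide +kernel))
noncomputable def rh6d8b264d625f3ba7 : CRef := CRef.mk (Pat.mk 0x4000000040000000b0000000600000000 0x40000000c0000000f0000001e00000008 3 5) 0 0 (step_sound _ 35 [(rha5aa03dd987c466d.shift 2 0), (rhf48373e13d2bc128.shift 0 1)] (by decide +kernel))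
noncomputable def rhc3f841aae05820e5 : CRef := CRef.mk (Pat.mk 0x6000000070000000200000002 0x2000000030000000300000007000000070000000300000002 3 3) 0 0 (step_sound _ 129 [(rh37d9ceebb86d75d1.shift 0 1), rh3ca48e2a6d60153d] (by decide +kernel))
noncomputable def rh125d97086ab6eb9f : CRef := CRef.mk (Pat.mk 0x1c0000001800000020 0x3f0000001f00000030 3 6) 0 0 (step_sound _ 33 [(rh076be03eb7063320.shift 0 1), (rh710860539a4c4362.shift 0 1), (rhb7cad75476b4fa97.shift 1 0)] (by decide +kernel))
noncomputable def rh6bf184c3cfc271b7 : CRef := CRef.mk (Pat.mk 0x400000002000000020000000f00000008 0x40000000e0000001a0000000f0000000a 3 5) 0 0 (step_sound _ 67 [(rh33e738c4ed385b9f.shift 0 1), (rh81a0b468accb8b7e.shift 1 0)] (by decide +kernel))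
noncomputable def rh1a977ecd22587fac : CRef := CRef.mk (Pat.mk 0x20000000e0000000b0000000200000000 0x4000000060000000e0000000b0000001e0000000c 3 5) 0 0 (step_sound _ 35 [rh6a56790be92093bf, (rhb47d83e3a04422c3.shift 1 0)] (by decide +kernel))
noncomputable def rh22382a3bdc29b80e : CRef := CRef.mk (Pat.mk 0x300000005000000050000000400000000 0x20000000300000007000000050000000500000005 3 3) 0 0 (step_sound _ 32 [rh150947578a63ac51, (rh2f68792b6b779e96.shift 0 1)] (by decide +kernel))
noncomputable def rhc92aef9fc5433ae0 : CRef := CRef.mk (Pat.mk 0x30000000500000005000000040000000000000000 0x70000000700000005000000070000000600000002 3 3) 0 0 (step_sound _ 33 [(rh4020ef0ffe567459.shift 0 1), (rh7b39ca72a85b3dac.shift 1 0)] (by decide +kernel))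
noncomputable def rhd1ee34029cecf0a7 : CRef := CRef.mk (Pat.mk 0x4000000040000001e000000000000000000000000 0x4000000040000001f0000003c0000000800000008 3 6) 0 0 (step_sound _ 67 [(rh79ad7b82ec8c35e2.shift 2 0), (rha03f6e28ea70fc7d.shift 0 2)] (by decide +kernel))
noncomputable def rhdfd06870a5dade14 : CRef := CRef.mk (Pat.mk 0x18000000080000002c000000080000000400000000 0x180000000f0000003c000000080000000c0000000c 3 6) 0 0 (step_sound _ 130 [(rhe437f081bfcdb831.shift 2 0), (rhf23dc93573c5637f.shift 0 3)] (by decide +kernel))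
noncomputable def rhd3b9018577d3591f : CRef := CRef.mk (Pat.mk 0x80000000c000000170000000400000000 0x80000003c000000170000003e00000010 3 6) 0 0 (step_sound _ 36 [(rh3a9e3d20902516bb.shift 1 0), (rh68691964b29f233d.shift 0 1)] (by decide +kernel))
noncomputable def rh51e1f1422a1251a9 : CRef := CRef.mk (Pat.mk 0xc000000280000000c 0xf0000003c0000001f 3 6) 0 0 (step_sound _ 36 [(rhdbcea10a0fbe5ba6.shift 0 1), rheea1a90336e79c71] (by decide +kernel))
noncomputable def rhc7faf31fa9e0d757 : CRef := CRef.mk (Pat.mk 0x30000000a0000000b00000002 0x40000000f0000001a0000000f00000002 3 5) 0 0 (step_sound _ 68 [(rh1c62b6193297d9e3.shift 0 1), rh8ddb7009c5639c8a] (by decide +kernel))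
noncomputable def rhe4fb6a16b1f7b4e3 : CRef := CRef.mk (Pat.mk 0x1e000000080000000c000000000000000000000000 0x30000001e0000000c0000000c0000000c0000000400000004 3 5) 0 0 (step_sound _ 66 [(rh42548283029e2a39.shift 2 0), (rhea1977e228a6d74a.shift 0 2), (rhf9af042da61fc652.shift 2 0)] (by decide +kernel))
noncomputable def rh418fce8251b9db03 : CRef := CRef.mk (Pat.mk 0x1e000000000000002c 0x3e000000070000003c 3 6) 0 0 (step_sound _ 33 [(rha3fe8c174ffc13e1.shift 1 0), (rheb0810cc63b001d8.shift 0 1)] (by decide +kernel))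
noncomputable def rhee7e76dc31684315 : CRef := CRef.mk (Pat.mk 0x40000000e000000000000000b00000000 0x40000000f000000180000000f00000008 3 5) 0 0 (step_sound _ 67 [(rh7b1f1fb55310c477.shift 2 0), (rh9c5a86d855687a4f.shift 0 1)] (by decide +kernel))
noncomputable def rhe3494b329389a185 : CRef := CRef.mk (Pat.mk 0x5000000070000000400000002 0x500000007000000070000000700000002 3 3) 0 0 (step_sound _ 33 [(rh5c5e593799055d58.shift 1 0), rha3df16ea9c8576c8] (by decide +kernel))
noncomputable def rh7010751167f39a3c : CRef := CRef.mk (Pat.mk 0x100000003000000030000000600000000 0x20000000300000003000000030000000700000005 3 3) 0 0 (step_sound _ 129 [(rh55afc6a59410cf00.shift 1 0), rhea7a1800d6f053bd] (by decide +kernel))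
noncomputable def rh861b585789385398 : CRef := CRef.mk (Pat.mk 0x4000000040000001e00000004 0xc0000000c0000000c000000070000001e00000004 3 5) 0 0 (step_sound _ 130 [(rh44f453b84f013105.shift 2 0), (rhb4edb45e9f1718ed.shift 0 1)] (by decide +kernel))
noncomputable def rha523681e48c989d6 : CRef := CRef.mk (Pat.mk 0x1400000016000000040000000200000000 0x370000001e000000040000000600000006 3 6) 0 0 (step_sound _ 129 [(rh12d50e65fdd458b1.shift 0 3), (rhe437f081bfcdb831.shift 1 0)] (by decide +kernel))
noncomputable def rhf779d76898a55852 : CRef := CRef.mk (Pat.mk 0x80000001c000000160000001000000000 0x380000001f0000001e0000003000000020 3 6) 0 0 (step_sound _ 132 [(rh5f11ee373cbffcaa.shift 1 0), (rhab2ad169e49f9c5e.shift 0 3)] (by decide +kernel))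
noncomputable def rh37f396829b5f0b86 : CRef := CRef.mk (Pat.mk 0x600000003000000020000000100000000 0x700000007000000020000000300000003 3 3) 0 0 (step_sound _ 33 [rh2d5442cbf338480d, rh932754581e0f4330] (by decide +kernel))
noncomputable def rh0a16481190c8aa10 : CRef := CRef.mk (Pat.mk 0x400000006000000060000001600000000 0x4000000070000003e0000001f00000008 3 6) 0 0 (step_sound _ 68 [(rh51246ab843efda05.shift 0 1), (rhb111163c97cafada.shift 1 0)] (by decide +kernel))
noncomputable def rh32bf49a81a1a9897 : CRef := CRef.mk (Pat.mk 0x20000001600000006000000000000000000000000 0x1000000070000001e00000006000000020000000200000002 3 5) 0 0 (step_sound _ 65 [(rh52dc0b448901c5de.shift 0 2), (rhea7a1800d6f053bd.shift 1 0)] (by decide +kernel))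
noncomputable def rhe970c0e81a9d6ea7 : CRef := CRef.mk (Pat.mk 0x1e0000000c000000080000000000000000 0x30000001e0000000c0000000c0000000c0000000c 3 5) 0 0 (step_sound _ 34 [(rh0da3f8d18d3a0dfd.shift 0 1), (rh5ddbeed5d869bf16.shift 2 0), (rhc93583770a36d0f1.shift 1 0), (rhe437f081bfcdb831.shift 2 0)] (by decide +kernel))
noncomputable def rhf25e8718cccf073b : CRef := CRef.mk (Pat.mk 0x180000000c00000028 0x180000001f0000003c 3 6) 0 0 (step_sound _ 33 [(rh53b3c253cb0c65f4.shift 0 1), (rhe28dc3223a412fc9.shift 1 0)] (by decide +kernel))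
noncomputable def rh8494d90e6cc2534b : CRef := CRef.mk (Pat.mk 0x7800000018 0xe00000007f00000038 3 8) 0 0 (step_sound _ 34 [(rh9890f9d77740bbed.shift 2 1), rhad5d8fc3675c15dd] (by decide +kernel))
noncomputable def rh514a2246e2e8a0d7 : CRef := CRef.mk (Pat.mk 0x100000001c000000100000000000000000 0x10000000300000001f000000180000000800000008 3 6) 0 0 (step_sound _ 67 [(rh1e309b005ffa1b36.shift 3 0), (rh34517e326ddb5b25.shift 0 2)] (by decide +kernel))
noncomputable def rh431b16932aec1393 : CRef := CRef.mk (Pat.mk 0x80000000c0000000a0000000800000000 0x8000000080000000c0000000f0000001c00000014 3 5) 0 0 (step_sound _ 66 [(rh1e309b005ffa1b36.shift 2 0), rhbdde238153e38af9] (by decide +kernel))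
noncomputable def rh3b97c0bc2615f008 : CRef := CRef.mk (Pat.mk 0xe0000000a00000002 0xf0000003e00000003 3 6) 0 0 (step_sound _ 36 [rh1210e962428a2e05, (rhb739f4f82bb681b4.shift 0 1)] (by decide +kernel))
noncomputable def rh1030303f9ea8e103 : CRef := CRef.mk (Pat.mk 0x2e00000020 0x70000003e00000030 3 6) 0 0 (step_sound _ 36 [(rh96851dee118c1ba3.shift 1 0), (rhd5eb272e07a4e288.shift 0 1)] (by decide +kernel))
noncomputable def rh9897f02f7d5d11c3 : CRef := CRef.mk (Pat.mk 0x20000000200000002c0000002800000000 0x20000000200000002f0000003c00000010 3 6) 0 0 (step_sound _ 36 [(rh932754581e0f4330.shift 4 0), (rhdbcea10a0fbe5ba6.shift 0 1)] (by decide +kernel))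
noncomputable def rha73d2f02f1987481 : CRef := CRef.mk (Pat.mk 0xe0000000500000010 0x1f0000003f00000018 3 6) 0 0 (step_sound _ 35 [(rh6292bd8784ece55f.shift 0 1), rhb7cad75476b4fa97] (by decide +kernel))
noncomputable def rhb1f925247e02648e : CRef := CRef.mk (Pat.mk 0x80000001c0000001800000010 0x1000000030000000780000001f0000001800000018 3 7) 0 0 (step_sound _ 100 [(rh712526e472efe489.shift 2 0), (rh84d1c02a8954c6a8.shift 3 0), (rhab2ad169e49f9c5e.shift 0 2)] (by decide +kernel))
noncomputable def rh5b21296311ae2a17 : CRef := CRef.mk (Pat.mk 0x10000000500000004000000070000000400000000 0x10000000500000005000000070000001e00000008 3 5) 0 0 (step_sound _ 33 [rh42afa1af9fffa0e1, (rhff0f29cb645b05f7.shift 0 1)] (by decide +kernel))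
noncomputable def rh6320d9c34b5de45b : CRef := CRef.mk (Pat.mk 0xa000000080000000e00000008 0x40000000f000000780000001e00000008 3 7) 0 0 (step_sound _ 68 [(rh572132728df34c43.shift 1 1), rh876344954e856662] (by decide +kernel))
noncomputable def rha1f163eb7c830efa : CRef := CRef.mk (Pat.mk 0x200000002000000000000000a00000018 0x200000002000000020000000f0000003c 3 6) 0 0 (step_sound _ 34 [(rh9520ce1272f40273.shift 1 0), rhb739f4f82bb681b4] (by decide +kernel))
noncomputable def rhbb55841262799237 : CRef := CRef.mk (Pat.mk 0xe000000080000000800000008000000080000000000000000 0xf0000001800000018000000080000000c0000000c00000004 3 5) 0 0 (step_sound _ 35 [(rh1786109135247c55.shift 0 1), (rh7928877f9bf74a91.shift 2 0)] (by decide +kernel))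
noncomputable def rh81e2bd15b21dd102 : CRef := CRef.mk (Pat.mk 0x100000005000000040000000500000006 0x20000000300000007000000050000000700000006 3 3) 0 0 (step_sound _ 64 [rhade792e06a060dd4, rhd3458b32566d63f7] (by decide +kernel))
noncomputable def rhce21cda93a154b7f : CRef := CRef.mk (Pat.mk 0x600000002000000080000000a00000008 0x400000006000000020000001a0000000f00000019 3 5) 0 0 (step_sound _ 32 [rh12cda698427604cb, rhabf575676fe0ef70] (by decide +kernel))
noncomputable def rh490c03f47f24f788 : CRef := CRef.mk (Pat.mk 0x200000002000000000000000a0000000c 0x200000002000000020000000f0000003c 3 6) 0 0 (step_sound _ 34 [rh6292bd8784ece55f, (rhff0f29cb645b05f7.shift 1 0)] (by decide +kernel))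
noncomputable def rh0e0436c262b0f811 : CRef := CRef.mk (Pat.mk 0x20000000b0000000300000000 0x200000002000000020000001b0000001f00000004 3 5) 0 0 (step_sound _ 34 [rh571950d89739e871, (rheff610e725081997.shift 0 1)] (by decide +kernel))
noncomputable def rh4d6ca360b813ed23 : CRef := CRef.mk (Pat.mk 0x400000004000000180000001800000008 0x4000000040000003c0000001f00000008 3 6) 0 0 (step_sound _ 34 [(rhab2ad169e49f9c5e.shift 0 1), (rhff0f29cb645b05f7.shift 2 0)] (by decide +kernel))
noncomputable def rh1c0def99c44bdf21 : CRef := CRef.mk (Pat.mk 0x20000000a0000000e0000001200000000 0x80000000a0000000a0000000f0000001e00000014 3 5) 0 0 (step_sound _ 131 [rh06dad6edb7ce8d9c, (rh665ec0aeeddb6f99.shift 1 0)] (by decide +kernel))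
noncomputable def rhb456ef3aa6436476 : CRef := CRef.mk (Pat.mk 0x200000002000000060000001200000000 0x200000002000000070000003e00000004 3 6) 0 0 (step_sound _ 34 [(rh55afc6a59410cf00.shift 1 0), (rhfd0f316c42bbba52.shift 0 1)] (by decide +kernel))
noncomputable def rhfefa85439208aeb8 : CRef := CRef.mk (Pat.mk 0x100000001000000070000000900000000 0x1000000010000001f0000001b00000002 3 5) 0 0 (step_sound _ 33 [rh55afc6a59410cf00, (rhbca71ab025ef4262.shift 0 1)] (by decide +kernel))
noncomputable def rhb495d533c1c4495a : CRef := CRef.mk (Pat.mk 0x400000004000000000000003c00000000 0x400000004000000040000003e00000007 3 6) 0 0 (step_sound _ 1 [rh3092169746d613f6, (rh80fcd6d0a18cb2dd.shift 1 0)] (by decide +kernel))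
noncomputable def rh8917134d04e06b59 : CRef := CRef.mk (Pat.mk 0x4000000140000000e00000000 0x400000004000000040000001c0000000f00000002 3 5) 0 0 (step_sound _ 67 [(rh37d9ceebb86d75d1.shift 1 0), (rh53b3c253cb0c65f4.shift 0 1)] (by decide +kernel))
noncomputable def rh3817a9cfaecd62ec : CRef := CRef.mk (Pat.mk 0x1e00000002000000020000000200000000 0x30000001e00000002000000060000000600000004 3 5) 0 0 (step_sound _ 34 [(rh54e2670cb103b129.shift 0 1), (rh55afc6a59410cf00.shift 1 0)] (by decide +kernel))
noncomputable def rh4037d618a20daadc : CRef := CRef.mk (Pat.mk 0x80000003c00000010 0x1f0000003f00000018 3 6) 0 0 (step_sound _ 33 [rh6765e7960b108c8d, (rhd5eb272e07a4e288.shift 0 1)] (by decide +kernel))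
noncomputable def rh9360eb5da5a1915b : CRef := CRef.mk (Pat.mk 0x400000006000000060000000c00000000 0x400000006000000070000003e00000002 3 6) 0 0 (step_sound _ 33 [(rh71222050f2c63a3a.shift 1 0), (rh79b3c29022acbdf3.shift 0 1)] (by decide +kernel))
noncomputable def rh069e1f5de9603f00 : CRef := CRef.mk (Pat.mk 0x1c00000004 0x3e0000000f 3 6) 0 0 (step_sound _ 1 [(rh18965a982d73c794.shift 1 0), rh97d0766f3afe0efe] (by decide +kernel))
noncomputable def rh93ebbe2220404472 : CRef := CRef.mk (Pat.mk 0x4000000040000001e000000000000000000000000 0x40000000c0000001f000000380000000800000008 3 6) 0 0 (step_sound _ 67 [(rh08edf065357d68e5.shift 2 0), (rha03f6e28ea70fc7d.shift 0 2)] (by decide +kernel))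
noncomputable def rh9c88b0cd9a5bf4ab : CRef := CRef.mk (Pat.mk 0x7000000040000000e0000000000000000 0x100000007000000070000003e0000000200000002 3 6) 0 0 (step_sound _ 97 [rh40241bd608e5be1a, (rh79b3c29022acbdf3.shift 0 2)] (by decide +kernel))
noncomputable def rh368ba3b94148e5fd : CRef := CRef.mk (Pat.mk 0x6000000000000000c0000000c00000000 0x200000006000000040000003c0000000f00000002 3 6) 0 0 (step_sound _ 33 [(rh4176b1306bc070ea.shift 1 0), (rhf9d36e158778ce35.shift 0 1)] (by decide +kernel))
noncomputable def rh4fcf99f1fe71ac38 : CRef := CRef.mk (Pat.mk 0xc000000100000001800000018 0x40000000c0000003c0000001f00000018 3 6) 0 0 (step_sound _ 34 [rh34517e326ddb5b25, (rhdb2909ac5c854515.shift 2 0)] (by decide +kernel))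
noncomputable def rh10be05f786df6197 : CRef := CRef.mk (Pat.mk 0x200000003000000020000000200000000 0x2000000020000000200000003000000070000000700000004 3 3) 0 0 (step_sound _ 161 [(rh03dfdf12d5937476.shift 0 1), (rhd29a1fb688eae70f.shift 1 0)] (by decide +kernel))
noncomputable def rh1c28718a4697e5bc : CRef := CRef.mk (Pat.mk 0x50000000500000005000000020000000000000000 0x4000000050000000500000007000000030000000200000002 3 3) 0 0 (step_sound _ 33 [(rhbe0e43a3bc50a43f.shift 0 1), (rhe383b718e2292d99.shift 1 0)] (by decide +kernel))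
noncomputable def rh639d58c8aef9fe2f : CRef := CRef.mk (Pat.mk 0x600000006000000020000000200000000 0x1000000030000000700000006000000060000000600000004 3 3) 0 0 (step_sound _ 161 [(rh3ca48e2a6d60153d.shift 0 1), (rheb6520004608cff3.shift 1 0)] (by decide +kernel))
noncomputable def rh6db78692e8794ae8 : CRef := CRef.mk (Pat.mk 0x20000000a0000000a0000000a00000000 0x5000000070000001e0000000a0000000a00000008 3 5) 0 0 (step_sound _ 98 [(rh2e8814637c3f6d46.shift 0 1), (rhb47d83e3a04422c3.shift 1 0)] (by decide +kernel))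
noncomputable def rh75ea294132184f25 : CRef := CRef.mk (Pat.mk 0x60000000c 0xf0000003e 3 6) 0 0 (step_sound _ 4 [rhd8e93bbc8568df99, (rhf48373e13d2bc128.shift 1 0)] (by decide +kernel))
noncomputable def rh91ceb329a8baa60d : CRef := CRef.mk (Pat.mk 0x16000000020000000200000002 0x30000001f000000030000000200000002 3 5) 0 0 (step_sound _ 99 [rha25c0e62bb8d55c9, (rheb0810cc63b001d8.shift 0 2)] (by decide +kernel))
noncomputable def rh8562290787d71142 : CRef := CRef.mk (Pat.mk 0x4000000000000001600000006 0x600000006000000030000001e00000007 3 5) 0 0 (step_sound _ 65 [rh51246ab843efda05, (rh82bd946b1709a78e.shift 1 0)] (by decide +kernel))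
noncomputable def rha6afb55c7e70d994 : CRef := CRef.mk (Pat.mk 0x40000001c0000000400000004 0xa0000000f0000001c0000000400000004 3 5) 0 0 (step_sound _ 97 [(rh50fbb5868c909700.shift 1 0), rhd62aa8c143bedf8f] (by decide +kernel))
noncomputable def rhb3fee4224dd3c908 : CRef := CRef.mk (Pat.mk 0xc00000000000000180000001800000000 0x40000000c00000008000000380000001f00000004 3 6) 0 0 (step_sound _ 34 [(rh4176b1306bc070ea.shift 2 0), (rhab2ad169e49f9c5e.shift 0 1)] (by decide +kernel))
noncomputable def rh469a9c36feccf72d : CRef := CRef.mk (Pat.mk 0x4000000060000001c00000000 0x40000000400000004000000070000001e00000008 3 5) 0 0 (step_sound _ 33 [(rh3244c3cc8379b070.shift 0 1), (rh571950d89739e871.shift 1 0)] (by decide +kernel))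
noncomputable def rhbf9e90482ed9f7d0 : CRef := CRef.mk (Pat.mk 0x14000000060000001c 0x3e000000070000001e 3 6) 0 0 (step_sound _ 32 [rh09d4dfe75d4407d6, (rh4fd54f6717f3e7ac.shift 0 1)] (by decide +kernel))
noncomputable def rh09c4c3c2034d2bf7 : CRef := CRef.mk (Pat.mk 0x380000002800000028 0x3c0000003f00000078 3 7) 0 0 (step_sound _ 34 [(rh1ed7a3503fa50fc8.shift 0 1), (rha6816dee951f7ee6.shift 2 0)] (by decide +kernel))
noncomputable def rha7edc60fc34bffff : CRef := CRef.mk (Pat.mk 0x40000001c 0xf0000003e 3 6) 0 0 (step_sound _ 33 [rhd8e93bbc8568df99, (rhf48373e13d2bc128.shift 1 0)] (by decide +kernel))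
noncomputable def rh7b09556139866d6e : CRef := CRef.mk (Pat.mk 0x4000000040000001c000000020000000000000000 0x4000000060000001e000000030000000200000002 3 5) 0 0 (step_sound _ 97 [(rheb0810cc63b001d8.shift 0 2), (rhf9af042da61fc652.shift 1 0)] (by decide +kernel))
noncomputable def rh9d65304fa709cfff : CRef := CRef.mk (Pat.mk 0xc0000000a0000000e0000000800000000 0x120000001e0000000b0000000e0000000c00000004 3 5) 0 0 (step_sound _ 129 [(rh57d80d31d58beaa0.shift 1 0), (rhc49ca0b9223e2b96.shift 0 1)] (by decide +kernel))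
noncomputable def rh3c4f55e31539dab9 : CRef := CRef.mk (Pat.mk 0x1a0000000a00000008 0x1000000010000000380000001e0000000b00000008 3 6) 0 0 (step_sound _ 100 [(rh760717e835f8c2f3.shift 0 1), (rhbfb5770941270498.shift 3 0)] (by decide +kernel))
noncomputable def rh8b9be679572d8bf7 : CRef := CRef.mk (Pat.mk 0x1a0000000a0000000a00000000 0x40000000e0000001e0000000b0000000a00000008 3 5) 0 0 (step_sound _ 130 [(rh8b14df1b185c100a.shift 1 1), rha0ed36dc23e93e83] (by decide +kernel))
noncomputable def rh2f69682ab1fed632 : CRef := CRef.mk (Pat.mk 0x80000000a000000080000000800000000 0x140000001c0000000f000000080000000800000008 3 5) 0 0 (step_sound _ 98 [(rhdab32775f5c78fcf.shift 0 1), (rhe286c75f2739cce2.shift 2 0)] (by decide +kernel))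
noncomputable def rh7d565e4d5c8b7a47 : CRef := CRef.mk (Pat.mk 0x6000000060000001400000000 0x40000000400000006000000070000003e00000002 3 6) 0 0 (step_sound _ 33 [(rh84d1c02a8954c6a8.shift 1 0), (rhfd0f316c42bbba52.shift 0 1)] (by decide +kernel))
noncomputable def rh3b5e94772846b637 : CRef := CRef.mk (Pat.mk 0x1c000000040000000400000004 0x20000003e000000070000000400000004 3 6) 0 0 (step_sound _ 65 [(rh18965a982d73c794.shift 1 2), rh8fa345f759e9d768] (by decide +kernel))
noncomputable def rhb1c805ea84db6228 : CRef := CRef.mk (Pat.mk 0x140000003c00000002 0x1c0000007f00000003 3 7) 0 0 (step_sound _ 33 [(rh2d8edb255b5ae37b.shift 0 1), rheb0810cc63b001d8] (by decide +kernel))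
noncomputable def rha56261851a3e6505 : CRef := CRef.mk (Pat.mk 0x80000001e00000004 0x7f0000007e0000000c 3 7) 0 0 (step_sound _ 37 [(rh7b030ba967bf927e.shift 2 0), (rh9890f9d77740bbed.shift 1 1), (rhd5eb272e07a4e288.shift 0 1)] (by decide +kernel))
noncomputable def rh5f73a95233d789b5 : CRef := CRef.mk (Pat.mk 0x4000000040000000c00000006 0x400000004000000040000003e00000007 3 6) 0 0 (step_sound _ 33 [rh2612b4f73ba7c3b3, (rh5c5e593799055d58.shift 1 0)] (by decide +kernel))
noncomputable def rh2708e9e45373a95d : CRef := CRef.mk (Pat.mk 0x1c0000001c00000008 0x1c0000007f0000000f 3 7) 0 0 (step_sound _ 1 [rh076be03eb7063320, rh72297cd55a503360, (rhb0463dbec37421a0.shift 1 0), rhd74396e693bc7125] (by decide +kernel))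
noncomputable def rh41d1a15a48ee48e8 : CRef := CRef.mk (Pat.mk 0xc0000001c000000080000000000000000 0x80000000c0000003c0000000f0000000400000004 3 6) 0 0 (step_sound _ 66 [(rh4dc133ee0ba1420a.shift 0 2), (rhea7a1800d6f053bd.shift 2 0)] (by decide +kernel))
noncomputable def rh046dd940d58845e8 : CRef := CRef.mk (Pat.mk 0xc0000000e000000040000000000000000 0x40000000c0000000f0000003c0000000800000008 3 6) 0 0 (step_sound _ 67 [(rh3cb04db3dd2b6a55.shift 2 0), (rh6292bd8784ece55f.shift 0 2)] (by decide +kernel))
noncomputable def rh9e64417f203ccf70 : CRef := CRef.mk (Pat.mk 0x100000001e000000000000000000000010 0x180000001f000000300000001000000010 3 6) 0 0 (step_sound _ 68 [(rhe25b0a99195a5d59.shift 1 2), rhe97c20e90f429aff] (by decide +kernel))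
noncomputable def rhcb232477a669eb45 : CRef := CRef.mk (Pat.mk 0x80000000e000000080000001e00000000 0x40000000c0000000e0000000a0000001e00000003 3 5) 0 0 (step_sound _ 130 [rh29ed1d9e79c1bb2d, (rh50fbb5868c909700.shift 2 1)] (by decide +kernel))
noncomputable def rh909d44322dde885c : CRef := CRef.mk (Pat.mk 0x40000000e0000001c0000000000000000 0x40000003e0000001f0000000300000002 3 6) 0 0 (step_sound _ 65 [rh9c40a739b57d6d20, (rhec46bd5500c722c9.shift 0 2)] (by decide +kernel))
noncomputable def rhd836afbdc80e8b33 : CRef := CRef.mk (Pat.mk 0x800000008000000080000000d00000000 0x800000008000000180000001f00000018 3 5) 0 0 (step_sound _ 33 [rh2aa7c1d375387a4e, (rh33e738c4ed385b9f.shift 0 1)] (by decide +kernel))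
noncomputable def rh84da51d48c20e4a0 : CRef := CRef.mk (Pat.mk 0x80000000e000000090000000c00000000 0x80000001e0000000b0000001e00000010 3 5) 0 0 (step_sound _ 36 [(rh336c277403eda548.shift 0 1), (rh55afc6a59410cf00.shift 3 0)] (by decide +kernel))
noncomputable def rh48ee5a9015686fdd : CRef := CRef.mk (Pat.mk 0x1c00000002000000020000000600000000 0x30000001f00000002000000020000000600000004 3 5) 0 0 (step_sound _ 129 [(rh55afc6a59410cf00.shift 1 0), (rha25c0e62bb8d55c9.shift 0 1)] (by decide +kernel))
noncomputable def rh35ea094627628c1b : CRef := CRef.mk (Pat.mk 0x1c00000002000000020000000200000001 0x30000001f00000002000000020000000300000001 3 5) 0 0 (step_sound _ 129 [rh79877ebd3ef475dd, (rha25c0e62bb8d55c9.shift 0 1)] (by decide +kernel))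
noncomputable def rh428c7913bae82a98 : CRef := CRef.mk (Pat.mk 0x1c00000002000000020000000200000004 0x30000001f00000002000000020000000600000004 3 5) 0 0 (step_sound _ 129 [(rha25c0e62bb8d55c9.shift 0 1), (rhd3458b32566d63f7.shift 1 0)] (by decide +kernel))
noncomputable def rh1055ed9006c6c74c : CRef := CRef.mk (Pat.mk 0x1c00000002000000020000000300000000 0x30000001f00000002000000020000000300000001 3 5) 0 0 (step_sound _ 129 [rh932754581e0f4330, (rha25c0e62bb8d55c9.shift 0 1)] (by decide +kernel))
noncomputable def rh2b7b5943f1df29bd : CRef := CRef.mk (Pat.mk 0x80000000e0000000c00000000 0x1800000018000000180000000f0000000c00000008 3 5) 0 0 (step_sound _ 132 [rh5bb287abdb6f055e, (rhbd55d8419891313d.shift 2 1)] (by decide +kernel))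
noncomputable def rh718010f6bb68e0b7 : CRef := CRef.mk (Pat.mk 0x2000000160000001800000008 0x10000000330000001e0000001800000008 3 6) 0 0 (step_sound _ 100 [(rh12d50e65fdd458b1.shift 0 2), (rh5c5e593799055d58.shift 3 0)] (by decide +kernel))
noncomputable def rh8af7192353b19a4c : CRef := CRef.mk (Pat.mk 0x40000000c000000070000000200000000 0x80000000c0000000c000000070000001e0000000c 3 5) 0 0 (step_sound _ 34 [rh42afa1af9fffa0e1, (rha707fb719e87fe6e.shift 2 0)] (by decide +kernel))
noncomputable def rh0cbd98d022e84f17 : CRef := CRef.mk (Pat.mk 0xe000000020000000600000000 0x1000000030000001e000000020000000600000004 3 5) 0 0 (step_sound _ 129 [(rh2e8814637c3f6d46.shift 0 1), (rh55afc6a59410cf00.shift 1 0)] (by decide +kernel))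
noncomputable def rh51abd147d735efbe : CRef := CRef.mk (Pat.mk 0x1e000000000000001c 0x3e000000070000003c 3 6) 0 0 (step_sound _ 33 [(rha24df86d1c9bf0e5.shift 1 0), (rheb0810cc63b001d8.shift 0 1)] (by decide +kernel))
noncomputable def rh31f8ceb0b340eff8 : CRef := CRef.mk (Pat.mk 0x40000001e000000000000000c00000000 0x80000003c0000001f000000040000000c00000008 3 6) 0 0 (step_sound _ 131 [(rh807d78fa6ca78542.shift 2 0), (rhec46bd5500c722c9.shift 0 3)] (by decide +kernel))
noncomputable def rh61d877534094f2af : CRef := CRef.mk (Pat.mk 0x20000000e000000000000000600000000 0x1000000030000001e000000020000000600000004 3 5) 0 0 (step_sound _ 65 [(rh2e8814637c3f6d46.shift 0 1), (rh55afc6a59410cf00.shift 1 0)] (by decide +kernel))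
noncomputable def rh621cd5cfee67a60b : CRef := CRef.mk (Pat.mk 0x10000000e000000000000000600000000 0x1000000030000001e000000020000000600000004 3 5) 0 0 (step_sound _ 129 [rh80c59fdbc00f388c, (rhf48373e13d2bc128.shift 0 3)] (by decide +kernel))
noncomputable def rh380c74abaa883e49 : CRef := CRef.mk (Pat.mk 0x1e000000020000001c 0x2000000030000001e000000060000003c 3 6) 0 0 (step_sound _ 97 [(rh3244c3cc8379b070.shift 0 2), (rhc9ca25976740a074.shift 1 0)] (by decide +kernel))
noncomputable def rh71f5c3fab6aa3c65 : CRef := CRef.mk (Pat.mk 0x2000000160000000c 0x70000007e0000000c 3 7) 0 0 (step_sound _ 35 [(rh3244c3cc8379b070.shift 0 1), (rh8abea2a7b1fd427a.shift 1 0)] (by decide +kernel))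
noncomputable def rhc653ec73ec5ab032 : CRef := CRef.mk (Pat.mk 0x300000007000000060000000200000000 0x2000000020000000300000007000000070000000300000001 3 3) 0 0 (step_sound _ 161 [rh0ec68e0bf4727743, (rh2145e1d24b96a57e.shift 1 2)] (by decide +kernel))
noncomputable def rha1b2648434fe9f18 : CRef := CRef.mk (Pat.mk 0x2000000030000000f00000006 0xc0000001e0000001b0000000f00000006 3 5) 0 0 (step_sound _ 99 [rh5ebae181afaa248a, rh8797c67fe3ac847a] (by decide +kernel))
noncomputable def rhd96f34ffdc35bfb9 : CRef := CRef.mk (Pat.mk 0x300000001000000190000000800000000 0x20000000300000001000000190000000f00000002 3 5) 0 0 (step_sound _ 32 [(rh2f68792b6b779e96.shift 0 1), rhe82112c8440f1b7b] (by decide +kernel))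
noncomputable def rha57e80583e4b6cf7 : CRef := CRef.mk (Pat.mk 0x300000002000000320000001000000000 0x10000000300000002000000320000001e00000004 3 6) 0 0 (step_sound _ 33 [(rh50fbb5868c909700.shift 0 1), (rhe82112c8440f1b7b.shift 1 0)] (by decide +kernel))
noncomputable def rhdb10aa7f94919d42 : CRef := CRef.mk (Pat.mk 0x3000000030000000600000001 0x2000000020000000200000003000000070000000700000001 3 3) 0 0 (step_sound _ 129 [(rh493ba90d7b88e72e.shift 0 1), rh79877ebd3ef475dd] (by decide +kernel))
noncomputable def rh7638c704e5dd52df : CRef := CRef.mk (Pat.mk 0x800000008000000180000000c 0x80000000800000008000000380000001f 3 6) 0 0 (step_sound _ 4 [(rh2145e1d24b96a57e.shift 3 0), rhab2ad169e49f9c5e] (by decide +kernel))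
noncomputable def rh4070769292e08e0f : CRef := CRef.mk (Pat.mk 0x3000000030000000600000000 0x2000000020000000200000003000000070000000600000004 3 3) 0 0 (step_sound _ 129 [(rh493ba90d7b88e72e.shift 0 1), (rh55afc6a59410cf00.shift 1 0)] (by decide +kernel))
noncomputable def rh3f6ebb04b85b1d12 : CRef := CRef.mk (Pat.mk 0x10000000180000001e00000010 0x20000000300000001f0000001e00000010 3 6) 0 0 (step_sound _ 101 [(rh2f68792b6b779e96.shift 4 0), (rh90a04632e314f181.shift 0 1)] (by decide +kernel))
noncomputable def rh01852db72a87bca5 : CRef := CRef.mk (Pat.mk 0x16000000140000000400000000 0x30000001e000000340000000400000004 3 6) 0 0 (step_sound _ 129 [(rh665fa2b016ee28ae.shift 0 2), (rh7b1f1fb55310c477.shift 1 0)] (by decide +kernel))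
noncomputable def rhad800ac89e8ede75 : CRef := CRef.mk (Pat.mk 0x40000000200000002000000020000000200000000 0x4000000060000000200000002000000030000000300000001 3 3) 0 0 (step_sound _ 32 [rh932754581e0f4330, (rhb6385c749d93cf64.shift 0 1)] (by decide +kernel))
noncomputable def rha318ab7dda799eb3 : CRef := CRef.mk (Pat.mk 0xe0000000a0000000200000000 0x50000000f0000001a0000000200000002 3 5) 0 0 (step_sound _ 1 [(rh2f68792b6b779e96.shift 1 0), rh92dfa4e252fd939c] (by decide +kernel))
noncomputable def rh3cbf1428065fcc90 : CRef := CRef.mk (Pat.mk 0x50000000500000007000000000000000000000000 0x1000000050000000500000007000000060000000200000002 3 3) 0 0 (step_sound _ 65 [(rh2145e1d24b96a57e.shift 0 2), rh27f593b3ddfbb7cd] (by decide +kernel))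
noncomputable def rhb0ed60db1fd0e412 : CRef := CRef.mk (Pat.mk 0xe000000060000000400000000 0x380000003f000000060000000400000004 3 6) 0 0 (step_sound _ 132 [(rh8284118167888cf9.shift 1 2), rhd1ef135791fc97b9] (by decide +kernel))
noncomputable def rha34eca9b31ede157 : CRef := CRef.mk (Pat.mk 0x1e000000040000000c00000000 0x80000003c0000001f000000040000000c00000008 3 6) 0 0 (step_sound _ 131 [(rh55c8fae470e8430a.shift 2 0), (rhec46bd5500c722c9.shift 0 3)] (by decide +kernel))
noncomputable def rh6eb3fda4802683f8 : CRef := CRef.mk (Pat.mk 0x100000000000000030000000600000004 0x10000000300000003000000030000000600000006 3 3) 0 0 (step_sound _ 97 [(rh2145e1d24b96a57e.shift 1 0), rhc17a6a02773cc5f6] (by decide +kernel))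
noncomputable def rh0df183b948f7d7b3 : CRef := CRef.mk (Pat.mk 0x180000001a0000000200000002 0x40000001f0000001f0000000200000002 3 5) 0 0 (step_sound _ 97 [rh0102e0f3a8fa944d, (rh6e1685e3533aff0e.shift 0 2), (rhda02c4ce0b224328.shift 0 2), rhe8ba100882c6d16d] (by decide +kernel))
noncomputable def rhef7c41387b794f77 : CRef := CRef.mk (Pat.mk 0x80000001a000000020000001e00000000 0x10000000f0000001b000000020000001e00000003 3 5) 0 0 (step_sound _ 128 [(rhb2372126822a17d1.shift 0 1), rhf221129318455305] (by decide +kernel))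
noncomputable def rh74214b36780159b9 : CRef := CRef.mk (Pat.mk 0x80000000a000000020000001e00000000 0x40000000e0000000e0000000a0000001e00000003 3 5) 0 0 (step_sound _ 130 [(rh19fd61ba939dc992.shift 1 1), rha1aa13057a4a8e13] (by decide +kernel))
noncomputable def rhd148b3582857de83 : CRef := CRef.mk (Pat.mk 0x180000000a000000020000001e00000000 0x190000000f000000020000001e00000003 3 5) 0 0 (step_sound _ 1 [rh29119771d98ceb9b, rheb0810cc63b001d8] (by decide +kernel))
noncomputable def rhfca6e037e8e14d1d : CRef := CRef.mk (Pat.mk 0x1a00000010000000000000001e00000000 0x1e00000033000000030000001e00000004 3 6) 0 0 (step_sound _ 97 [rh993fdb6c3ac61b99, (rhbf14f049e425ac01.shift 0 3)] (by decide +kernel))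
noncomputable def rh85f9cf489b3f7850 : CRef := CRef.mk (Pat.mk 0x1a00000018000000000000001e00000000 0x1b0000001f000000030000001e00000004 3 5) 0 0 (step_sound _ 97 [(rh6e1685e3533aff0e.shift 0 3), rh993fdb6c3ac61b99] (by decide +kernel))
noncomputable def rh6193b2137094bba4 : CRef := CRef.mk (Pat.mk 0x2e00000020 0x70000003e00000060 3 7) 0 0 (step_sound _ 36 [(rhd5eb272e07a4e288.shift 0 1), (rhe25b0a99195a5d59.shift 2 0)] (by decide +kernel))
noncomputable def rhef3ac73239ef0684 : CRef := CRef.mk (Pat.mk 0x8000000080000000a0000000c00000000 0x800000008000000080000000f0000001c00000010 3 5) 0 0 (step_sound _ 66 [(rh5c5e593799055d58.shift 2 1), rhbdde238153e38af9] (by decide +kernel))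
noncomputable def rh4b21c6a0251dfce2 : CRef := CRef.mk (Pat.mk 0x200000006000000060000000e00000000 0x600000006000000060000000f00000019 3 5) 0 0 (step_sound _ 32 [rh932754581e0f4330, rhba04d77b039f69d9] (by decide +kernel))
noncomputable def rh02d69c31241a23c4 : CRef := CRef.mk (Pat.mk 0xc000000280000001c 0x1f000000380000001e 3 6) 0 0 (step_sound _ 36 [(rh53b3c253cb0c65f4.shift 1 0), (rhc02b3aee7ab87ee1.shift 0 1)] (by decide +kernel))
noncomputable def rh46f621829239f35d : CRef := CRef.mk (Pat.mk 0x600000006000000100000001c00000020 0x170000003e000000100000003c00000060 3 7) 0 0 (step_sound _ 100 [(rh6e1f502161d2d285.shift 2 0), (rhfd0f316c42bbba52.shift 0 3)] (by decide +kernel))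
noncomputable def rh0ba4eba045f261de : CRef := CRef.mk (Pat.mk 0x40000000200000002000000030000000200000002 0x6000000060000000300000003000000030000000200000002 3 3) 0 0 (step_sound _ 96 [rh50fbb5868c909700, (rhbd55d8419891313d.shift 0 2)] (by decide +kernel))
noncomputable def rh7577e90c7a26b0f4 : CRef := CRef.mk (Pat.mk 0x20000000e0000000c 0x70000007e0000000c 3 7) 0 0 (step_sound _ 36 [(rh3244c3cc8379b070.shift 0 1), (rh8abea2a7b1fd427a.shift 1 0)] (by decide +kernel))
noncomputable def rhcf78d79bcabe7ee3 : CRef := CRef.mk (Pat.mk 0x4000000000000000700000006000000000000000400000000 0x4000000050000000700000006000000020000000600000004 3 3) 0 0 (step_sound _ 65 [rh4cdb379841a0f429, (rhee230b994cc8b773.shift 1 2)] (by decide +kernel))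
noncomputable def rh0409ec20bda07217 : CRef := CRef.mk (Pat.mk 0x60000001e000000000000000400000000 0x4000000060000001e000000030000000600000004 3 5) 0 0 (step_sound _ 65 [(rh93bb09469abb6e2d.shift 1 0), (rheb0810cc63b001d8.shift 0 2)] (by decide +kernel))
noncomputable def rha13b9a4be889f76a : CRef := CRef.mk (Pat.mk 0x800000038000000080000003000000000 0x80000003c0000000f0000007800000010 3 7) 0 0 (step_sound _ 66 [(rh1ed7a3503fa50fc8.shift 0 2), (rh684ceea70f67a2df.shift 2 0)] (by decide +kernel))
noncomputable def rh0a5e3e09988dc601 : CRef := CRef.mk (Pat.mk 0x10000000b0000000a 0x30000001f0000001b 3 5) 0 0 (step_sound _ 34 [rh795d3e5d420177aa, rhe25b0a99195a5d59] (by decide +kernel))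
noncomputable def rh45a33bf2aa24a5e6 : CRef := CRef.mk (Pat.mk 0xf000000000000000800000008 0x1c0000001f000000080000000800000008 3 5) 0 0 (step_sound _ 67 [(rh50fbb5868c909700.shift 2 0), rh763788a68c67bc0c] (by decide +kernel))
noncomputable def rh738dcaf1a41f77d9 : CRef := CRef.mk (Pat.mk 0x16000000020000000400000004 0x80000003e000000070000000400000004 3 6) 0 0 (step_sound _ 99 [(rhd518b3b5c3e528fc.shift 1 0), (rheb0810cc63b001d8.shift 0 2)] (by decide +kernel))
noncomputable def rh2f96fcbae591dad1 : CRef := CRef.mk (Pat.mk 0xb00000008000000080000000800000000 0x100000001f00000018000000080000000800000008 3 5) 0 0 (step_sound _ 132 [(rh2f68792b6b779e96.shift 3 1), rh864e1b5773f7fc67] (by decide +kernel))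
noncomputable def rhf905e5ee4f25adfe : CRef := CRef.mk (Pat.mk 0x3000000010000000b0000000a 0x200000003000000010000001f0000001b 3 5) 0 0 (step_sound _ 0 [rh26cf6cd574a72447, rh2f68792b6b779e96] (by decide +kernel))
noncomputable def rhd78fd5ddea7104e5 : CRef := CRef.mk (Pat.mk 0x3000000090000000b00000002 0x200000003000000190000001f00000003 3 5) 0 0 (step_sound _ 0 [rh2f68792b6b779e96, rhf21a690ddaaecbd4] (by decide +kernel))
noncomputable def rh67090cce5ea09380 : CRef := CRef.mk (Pat.mk 0xf000000200000002000000020 0x380000003f000000200000002000000020 3 6) 0 0 (step_sound _ 132 [(rh2ddb58910f728a86.shift 1 0), (rh428265de8cd3cd2d.shift 0 3)] (by decide +kernel))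
noncomputable def rh4b863968009fb8f5 : CRef := CRef.mk (Pat.mk 0xb00000008000000080000000800000000 0x100000001f00000018000000080000000800000008 3 5) 0 0 (step_sound _ 100 [(rha707fb719e87fe6e.shift 3 0), (rhc10214bf3fe8094a.shift 0 3)] (by decide +kernel))
noncomputable def rh954645b692433a48 : CRef := CRef.mk (Pat.mk 0xb00000008000000080000000800000000 0x180000000f00000018000000180000001800000010 3 5) 0 0 (step_sound _ 163 [(rhabf575676fe0ef70.shift 0 3), (rhd29a1fb688eae70f.shift 3 0)] (by decide +kernel))
noncomputable def rhf2843679cea1135c : CRef := CRef.mk (Pat.mk 0xb0000000800000008000000080000000000000000 0x1f0000001800000008000000180000001800000010 3 5) 0 0 (step_sound _ 35 [(rh096e8b8e30b54fb4.shift 0 1), (rhd29a1fb688eae70f.shift 3 0)] (by decide +kernel))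
noncomputable def rhe3d16c21027e4570 : CRef := CRef.mk (Pat.mk 0x20000000200000000000000020000000200000000 0x1000000030000000300000002000000060000000600000004 3 3) 0 0 (step_sound _ 97 [(rh3ca48e2a6d60153d.shift 0 1), (rhd29a1fb688eae70f.shift 1 0)] (by decide +kernel))
noncomputable def rhaeacf255ebe35287 : CRef := CRef.mk (Pat.mk 0x1000000016000000020000000200000002 0x390000001f000000020000000200000002 3 6) 0 0 (step_sound _ 96 [rh50fbb5868c909700, (rhf917b193a69b83d4.shift 0 3)] (by decide +kernel))
noncomputable def rh53cf65c401bba3fe : CRef := CRef.mk (Pat.mk 0xb00000008000000080000000800000000 0x10000000180000000f00000008000000180000001800000010 3 5) 0 0 (step_sound _ 163 [(rhd29a1fb688eae70f.shift 3 0), (rhddcd04bb31546311.shift 0 2)] (by decide +kernel))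
noncomputable def rh463408dae1ac9ce9 : CRef := CRef.mk (Pat.mk 0x20000000b00000008000000080000000800000000 0x40000001e0000000b00000008000000180000001800000010 3 5) 0 0 (step_sound _ 163 [(rh5501401ca587e475.shift 0 2), (rhd29a1fb688eae70f.shift 3 0)] (by decide +kernel))
noncomputable def rh1b835bb8795bca47 : CRef := CRef.mk (Pat.mk 0x7c000000000000004000000040 0x370000007e000000400000004000000040 3 7) 0 0 (step_sound _ 97 [(rh221fc527389f34f7.shift 1 0), (rhd5eb272e07a4e288.shift 0 3)] (by decide +kernel))
noncomputable def rha4e6748b1d0bf474 : CRef := CRef.mk (Pat.mk 0x3e000000040000002400000020 0x180000003f000000240000002400000024 3 6) 0 0 (step_sound _ 131 [rh183c70e221ba5865, (rh71222050f2c63a3a.shift 2 0)] (by decide +kernel))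
noncomputable def rhded1c26c5743d8d6 : CRef := CRef.mk (Pat.mk 0x1f000000010000000100000000 0x60000003f000000710000000100000001 3 7) 0 0 (step_sound _ 101 [(rh4ad5fc38f1b69f65.shift 1 2), rhb768fbbff6a0dd65] (by decide +kernel))
noncomputable def rhe6e503694ba4d3ba : CRef := CRef.mk (Pat.mk 0x1f000000010000000100000000 0x760000003f000000010000000100000001 3 7) 0 0 (step_sound _ 101 [(rh9890f9d77740bbed.shift 1 3), rhb768fbbff6a0dd65] (by decide +kernel))
noncomputable def rh0344734bcb73bd02 : CRef := CRef.mk (Pat.mk 0xb000000080000000800000008 0x1c0000001f000000080000000800000008 3 5) 0 0 (step_sound _ 132 [(rhbaefcd01e0a8bca3.shift 3 0), rhd0720436d50bc7a9] (by decide +kernel))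
noncomputable def rh1382add41f22222b : CRef := CRef.mk (Pat.mk 0x100000001c000000040000000400000000 0x330000001e000000040000000400000004 3 6) 0 0 (step_sound _ 97 [rh132883a60cd8aed8, (rh33e738c4ed385b9f.shift 1 3)] (by decide +kernel))
noncomputable def rh1f7d1aa26f7f12c2 : CRef := CRef.mk (Pat.mk 0x700000003000000080000001800000000 0x1f0000001b000000080000001800000010 3 5) 0 0 (step_sound _ 131 [(rh18965a982d73c794.shift 0 3), rh9a6ab53ed55a15e7] (by decide +kernel))
noncomputable def rh739c30fde84eead9 : CRef := CRef.mk (Pat.mk 0x80000000f00000000000000080000000800000000 0x80000000f00000018000000180000001800000010 3 5) 0 0 (step_sound _ 99 [(rhd29a1fb688eae70f.shift 3 0), (rhe25b0a99195a5d59.shift 0 3)] (by decide +kernel))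
noncomputable def rh05e15f63bf4f90c9 : CRef := CRef.mk (Pat.mk 0x1e000000000000001000000010 0x380000001f000000100000001000000010 3 6) 0 0 (step_sound _ 132 [(rh33e738c4ed385b9f.shift 1 3), rh39d36d5c12f9caf1] (by decide +kernel))
noncomputable def rhf769d97d4d30d269 : CRef := CRef.mk (Pat.mk 0x1b00000002 0x380000001f00000003 3 6) 0 0 (step_sound _ 34 [(rh9890f9d77740bbed.shift 0 1), rheb0810cc63b001d8] (by decide +kernel))
noncomputable def rh7bdf317b214de7a5 : CRef := CRef.mk (Pat.mk 0x10000001b 0x3b0000001f 3 6) 0 0 (step_sound _ 2 [rh3f8766e6ecb455ce, rh9890f9d77740bbed] (by decide +kernel))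
noncomputable def rhc97e5c442a314a91 : CRef := CRef.mk (Pat.mk 0x1700000001 0x1f0000003b 3 6) 0 0 (step_sound _ 35 [rh4ad5fc38f1b69f65, rh80fcd6d0a18cb2dd] (by decide +kernel))
noncomputable def rh2ed612292ee74253 : CRef := CRef.mk (Pat.mk 0x1700000001 0x380000001f00000003 3 6) 0 0 (step_sound _ 35 [rh80fcd6d0a18cb2dd, (rh9890f9d77740bbed.shift 0 1)] (by decide +kernel))
noncomputable def rh50a395a5320f3e41 : CRef := CRef.mk (Pat.mk 0x16000000010000001800000008 0x100000001e000000330000001800000008 3 6) 0 0 (step_sound _ 99 [(rh80fcd6d0a18cb2dd.shift 0 2), (rh8c2ed6f91ff57e60.shift 1 0)] (by decide +kernel))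
noncomputable def rhc35cf9b978ef96b2 : CRef := CRef.mk (Pat.mk 0xe00000002000000000000000b00000008 0x40000000e0000000a0000001a0000000f00000018 3 5) 0 0 (step_sound _ 67 [(rh7ac1b232363ea136.shift 1 1), rhabf575676fe0ef70] (by decide +kernel))
noncomputable def rh427508a6a791330e : CRef := CRef.mk (Pat.mk 0x110000000b 0x3b0000001f 3 6) 0 0 (step_sound _ 2 [rh428265de8cd3cd2d, rhfb55dd75ab83ac48] (by decide +kernel))
noncomputable def rh9616d7b68a9bedf4 : CRef := CRef.mk (Pat.mk 0x6000000110000001a00000008 0x100000001e000000130000001e00000008 3 5) 0 0 (step_sound _ 100 [(rh5c5e593799055d58.shift 3 0), (rhb8d85e5c03eb35ac.shift 0 1)] (by decide +kernel))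
noncomputable def rh80494d7a790a0576 : CRef := CRef.mk (Pat.mk 0x6000000110000001800000008 0x100000001e000000330000001800000008 3 6) 0 0 (step_sound _ 100 [(rh1e2c47d6fb9d062d.shift 0 2), (rh5c5e593799055d58.shift 3 0)] (by decide +kernel))
noncomputable def rhc8e453170ae5c65b : CRef := CRef.mk (Pat.mk 0x7000000080000000800000008 0x1c0000001f000000080000000800000008 3 5) 0 0 (step_sound _ 99 [(rh50fbb5868c909700.shift 2 0), rh763788a68c67bc0c] (by decide +kernel))
noncomputable def rh4e12bc1823d08940 : CRef := CRef.mk (Pat.mk 0x6000000130000000a00000008 0x100000001e000000130000001e00000008 3 5) 0 0 (step_sound _ 100 [rh0512a873e374de07, (rh361cc68994bd8a63.shift 0 2)] (by decide +kernel))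
noncomputable def rh2ae864ed1aa28cbb : CRef := CRef.mk (Pat.mk 0x8000000280000002c0000002800000000 0x10000000180000003c0000002f0000002800000020 3 6) 0 0 (step_sound _ 100 [(rh1ed7a3503fa50fc8.shift 0 2), (rhb47d83e3a04422c3.shift 3 0)] (by decide +kernel))
noncomputable def rh8e864e3b8a4eb052 : CRef := CRef.mk (Pat.mk 0x14000000160000000400000000 0x2000000020000001e000000370000000400000004 3 6) 0 0 (step_sound _ 97 [(rhcaa7ba44a31c4370.shift 0 2), (rhfc7c29d8e65d775f.shift 1 0)] (by decide +kernel))
noncomputable def rhd9e6553f77c1dd52 : CRef := CRef.mk (Pat.mk 0x90000000a0000000200000002 0x50000000f0000001a0000000200000002 3 5) 0 0 (step_sound _ 97 [rh50fbb5868c909700, rhb01df2df6ae952df] (by decide +kernel))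
noncomputable def rh85bd523a0cf0cfc5 : CRef := CRef.mk (Pat.mk 0x2000000020000000a0000000a00000010 0x2000000020000001a0000000f00000019 3 5) 0 0 (step_sound _ 32 [rh932754581e0f4330, rhd9f5d1027b9c54e6] (by decide +kernel))
noncomputable def rh380fe7a921b28f23 : CRef := CRef.mk (Pat.mk 0x40000001c000000140000000400000000 0x4000000040000001e000000370000000600000002 3 6) 0 0 (step_sound _ 65 [(rh03dfdf12d5937476.shift 1 0), (rhc8b21ffc3825c72d.shift 0 2)] (by decide +kernel))
noncomputable def rhff6bb0eb21c8c0c5 : CRef := CRef.mk (Pat.mk 0x4000000160000001400000000 0x400000004000000040000001e0000003700000002 3 6) 0 0 (step_sound _ 33 [(rh503dd4575245365b.shift 1 0), (rhcaa7ba44a31c4370.shift 0 1)] (by decide +kernel))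
noncomputable def rhb966f4f0b3c67506 : CRef := CRef.mk (Pat.mk 0x600000014000000140000001400000000 0x80000000f0000001c000000140000001400000010 3 5) 0 0 (step_sound _ 131 [(rh2f68792b6b779e96.shift 2 1), rh464bab2e226d0259] (by decide +kernel))
noncomputable def rh7fea5fead1acfd78 : CRef := CRef.mk (Pat.mk 0x1e0000000400000004 0x2000000030000001e0000000700000004 3 5) 0 0 (step_sound _ 97 [(rh3244c3cc8379b070.shift 0 2), rhf206a6f053b27199] (by decide +kernel))
noncomputable def rh7b372dbd523c31e4 : CRef := CRef.mk (Pat.mk 0x100000000f000000000000000000000008 0x300000001f000000180000000800000008 3 6) 0 0 (step_sound _ 67 [(rh68f8892967f6a502.shift 1 0), (rhe25b0a99195a5d59.shift 0 2)] (by decide +kernel))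
noncomputable def rh7b86caf289b7791d : CRef := CRef.mk (Pat.mk 0xc00000008000000030000000800000000 0x40000000c000000080000000f0000001800000010 3 5) 0 0 (step_sound _ 67 [(rh50fbb5868c909700.shift 2 1), rh5f11ee373cbffcaa] (by decide +kernel))
noncomputable def rh8e072a50c3e17e75 : CRef := CRef.mk (Pat.mk 0x7000000080000000b0000000800000000 0x180000001f000000080000000f0000001800000010 3 5) 0 0 (step_sound _ 131 [rh5f11ee373cbffcaa, (rh763788a68c67bc0c.shift 0 1)] (by decide +kernel))
noncomputable def rhc217484e0224afb8 : CRef := CRef.mk (Pat.mk 0xc00000003000000080000000800000008 0x100000001e0000001b000000080000000800000008 3 5) 0 0 (step_sound _ 132 [(rh47cbca82c94c0c1a.shift 3 0), (rhca9569cc80abfe76.shift 0 3)] (by decide +kernel))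
noncomputable def rh8d160cfd96886889 : CRef := CRef.mk (Pat.mk 0x17000000100000000800000008 0x380000001f000000100000001800000008 3 6) 0 0 (step_sound _ 132 [(rheea67dfebd0f8008.shift 3 0), (rhf917b193a69b83d4.shift 0 3)] (by decide +kernel))
noncomputable def rh776cd349fe3b4723 : CRef := CRef.mk (Pat.mk 0x6000000000000000f0000000a 0x40000000e0000001a0000000f0000000a 3 5) 0 0 (step_sound _ 67 [(rh33e738c4ed385b9f.shift 0 1), (rh744d591fc2d74f4f.shift 1 0)] (by decide +kernel))
noncomputable def rh4546ba2e38f59712 : CRef := CRef.mk (Pat.mk 0x3000000080000000d00000004 0x80000000f000000180000000f00000004 3 5) 0 0 (step_sound _ 99 [(rh212808ab0c98286c.shift 0 1), (rh5c5e593799055d58.shift 2 0)] (by decide +kernel))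
noncomputable def rh1be0c65857d58d9e : CRef := CRef.mk (Pat.mk 0x1400000003000000000000000300000000 0x40000001e00000003000000020000000300000001 3 5) 0 0 (step_sound _ 129 [rh12cda698427604cb, (rh361cc68994bd8a63.shift 0 3)] (by decide +kernel))
noncomputable def rh7dba95e791dfe9ef : CRef := CRef.mk (Pat.mk 0x2800000006000000000000000400000004 0x780000000f000000040000000400000004 3 7) 0 0 (step_sound _ 99 [(rh04253f50b6dd0619.shift 2 0), (rh9c0bfb86d38e7070.shift 0 3)] (by decide +kernel))
noncomputable def rh5711876ca6f13fbe : CRef := CRef.mk (Pat.mk 0x400000002000000000000000300000002 0x40000000600000006000000020000000300000003 3 3) 0 0 (step_sound _ 65 [(rhbaefcd01e0a8bca3.shift 1 0), rhd6ece6133e39c38f] (by decide +kernel))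
noncomputable def rh7b1c6b38b4135b82 : CRef := CRef.mk (Pat.mk 0x2800000006 0x3c0000001f 3 6) 0 0 (step_sound _ 36 [rh5bc1b6c753895a6e, (rhca9569cc80abfe76.shift 1 0)] (by decide +kernel))
noncomputable def rh965958c82cd65fd8 : CRef := CRef.mk (Pat.mk 0x100000000b00000002 0x380000001f00000003 3 6) 0 0 (step_sound _ 34 [(rh428265de8cd3cd2d.shift 0 1), rhee0891bc88ee3f94] (by decide +kernel))
noncomputable def rh4b5dfc1ba9b05280 : CRef := CRef.mk (Pat.mk 0x5000000050000000500000009 0x20000000600000007000000050000000d00000009 3 4) 0 0 (step_sound _ 129 [rhbaefcd01e0a8bca3, (rhc4c7faa0ddd5da42.shift 1 0)] (by decide +kernel))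
noncomputable def rha0de95c49ac13fd3 : CRef := CRef.mk (Pat.mk 0xb000000080000000800000010 0x180000000f000000180000001800000010 3 5) 0 0 (step_sound _ 98 [rhb2c64de0843f272c, (rhe25b0a99195a5d59.shift 0 2)] (by decide +kernel))
noncomputable def rh02e67ec0e479849c : CRef := CRef.mk (Pat.mk 0xc000000000000000b0000000800000000 0x40000000c000000080000000f0000001800000010 3 5) 0 0 (step_sound _ 99 [(rh50fbb5868c909700.shift 2 1), rh5f11ee373cbffcaa] (by decide +kernel))
noncomputable def rh3f91669a4fe04236 : CRef := CRef.mk (Pat.mk 0x10000000e00000000000000100000003000000000 0xb0000001e00000010000000100000003000000020 3 6) 0 0 (step_sound _ 132 [(rh3f8766e6ecb455ce.shift 0 4), (rhc5351dabd90740aa.shift 3 0)] (by decide +kernel))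
noncomputable def rh1b7dc33a8f9be080 : CRef := CRef.mk (Pat.mk 0x1e000000000000001000000010 0x670000003e000000100000001000000010 3 7) 0 0 (step_sound _ 101 [(rh4fc80024ed3db095.shift 2 0), (rhd5eb272e07a4e288.shift 0 3)] (by decide +kernel))
noncomputable def rhc88e1cf18ed03269 : CRef := CRef.mk (Pat.mk 0x7c00000002 0x3c000000fe00000003 3 8) 0 0 (step_sound _ 68 [rh2ee61895a6499355, (rhe3060b190bc0bc78.shift 2 1)] (by decide +kernel))
noncomputable def rh82b96328bb629c01 : CRef := CRef.mk (Pat.mk 0xc000000000000000b0000000800000000 0x40000000c000000080000000f0000001800000010 3 5) 0 0 (step_sound _ 36 [(rhc10214bf3fe8094a.shift 0 1), (rhc5351dabd90740aa.shift 2 0)] (by decide +kernel))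
noncomputable def rhbb954564fd911350 : CRef := CRef.mk (Pat.mk 0x40000000b0000000800000008 0x140000001e0000000b0000000800000008 3 5) 0 0 (step_sound _ 99 [(rh50fbb5868c909700.shift 2 0), rhc0daf918bbfda8d7] (by decide +kernel))
noncomputable def rh32133c66528316f6 : CRef := CRef.mk (Pat.mk 0x10000000e000000000000000f 0x30000001e000000380000000f 3 6) 0 0 (step_sound _ 36 [rh428265de8cd3cd2d, (rh6b86f2178b913204.shift 0 1)] (by decide +kernel))
noncomputable def rhe1cf8e238b706214 : CRef := CRef.mk (Pat.mk 0x10000000e000000000000003c00000010 0x330000003e000000600000003c00000010 3 7) 0 0 (step_sound _ 133 [(rh195acfcc97677576.shift 0 3), (rhfca48bdea898f94b.shift 2 0)] (by decide +kernel))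
noncomputable def rh0dbbfafdd9acb483 : CRef := CRef.mk (Pat.mk 0x10000000f000000010000000200000000 0x2000000030000001f000000010000000300000002 3 5) 0 0 (step_sound _ 129 [rh93bb09469abb6e2d, (rhf48373e13d2bc128.shift 0 3)] (by decide +kernel))
noncomputable def rh0ab2fd019e795ded : CRef := CRef.mk (Pat.mk 0x1000000007 0x3e0000000f 3 6) 0 0 (step_sound _ 35 [rh3fc040e777f1679e, rh541ba7bf5755edb5] (by decide +kernel))
noncomputable def rhd7e855f3d74af1d8 : CRef := CRef.mk (Pat.mk 0x36000000100000001000000010 0xf0000003e000000100000001000000010 3 6) 0 0 (step_sound _ 99 [(rh50fbb5868c909700.shift 3 0), (rhd5eb272e07a4e288.shift 0 3)] (by decide +kernel))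
noncomputable def rh37ea282d59b70803 : CRef := CRef.mk (Pat.mk 0x10000000e000000000000000800000008 0x170000001e000000080000000800000008 3 5) 0 0 (step_sound _ 67 [rh3ff7a36e4acb88f5, (rh50fbb5868c909700.shift 2 0)] (by decide +kernel))
noncomputable def rha426fe210fcc3d3f : CRef := CRef.mk (Pat.mk 0x1000000009000000080000000800000008 0x100000001c0000000f000000080000000800000008 3 5) 0 0 (step_sound _ 98 [(rh0a75138a5778265c.shift 0 1), (rh50fbb5868c909700.shift 2 0)] (by decide +kernel))
noncomputable def rh04e891dc1d071904 : CRef := CRef.mk (Pat.mk 0x900000008000000080000000800000008 0x40000001f00000018000000080000000800000008 3 5) 0 0 (step_sound _ 130 [(rh50fbb5868c909700.shift 2 1), rh83bb7a00551b6bc2] (by decide +kernel))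
noncomputable def rh997020c36e09a91e : CRef := CRef.mk (Pat.mk 0xf00000005000000060000000400000000 0x10000001f00000007000000060000000600000002 3 5) 0 0 (step_sound _ 97 [rh0a1b9952fa1e5fed, (rh18965a982d73c794.shift 0 3)] (by decide +kernel))
noncomputable def rh9ddf9e41e206d854 : CRef := CRef.mk (Pat.mk 0x80000000e000000000000001000000010 0x380000001f000000100000001000000010 3 6) 0 0 (step_sound _ 132 [(rh233fbb519e595507.shift 1 0), (rh53b3c253cb0c65f4.shift 0 3)] (by decide +kernel))
noncomputable def rh1c330d2b1dea43fd : CRef := CRef.mk (Pat.mk 0x100000001e000000000000002000000020 0x100000003e000000270000002000000020 3 6) 0 0 (step_sound _ 101 [(rh2613c889e411427e.shift 4 0), (rheae1728ff4a56756.shift 0 2)] (by decide +kernel))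
noncomputable def rh7955f19473c09b83 : CRef := CRef.mk (Pat.mk 0x1e000000000000000400000004 0x80000003e000000070000000400000004 3 6) 0 0 (step_sound _ 66 [(rh2f68792b6b779e96.shift 2 0), (rhaf9f2efc81a8312b.shift 0 2)] (by decide +kernel))
noncomputable def rh4cb23f38da9b3f7f : CRef := CRef.mk (Pat.mk 0x1c000000020000000400000004 0x30000001e000000030000000600000004 3 5) 0 0 (step_sound _ 97 [rhddb9dd786dc1af2f, (rheb0810cc63b001d8.shift 0 2)] (by decide +kernel))
noncomputable def rh60b3969b518e97a7 : CRef := CRef.mk (Pat.mk 0x100000001c000000000000000400000004 0x330000001e000000040000000400000004 3 6) 0 0 (step_sound _ 97 [(rh33e738c4ed385b9f.shift 1 3), rhea1977e228a6d74a] (by decide +kernel))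
noncomputable def rh6e479357837c9cf0 : CRef := CRef.mk (Pat.mk 0xa00000018000000100000001800000000 0x1f00000038000000100000001800000008 3 6) 0 0 (step_sound _ 132 [(rh932754581e0f4330.shift 3 0), (rhcd6baf37b3e5de21.shift 0 3)] (by decide +kernel))
noncomputable def rh68f842e7ffc04ba8 : CRef := CRef.mk (Pat.mk 0x200000002000000030000001800000000 0x20000000200000002000000030000001f00000001 3 5) 0 0 (step_sound _ 33 [rh03dfdf12d5937476, (rh5419adcd928dba20.shift 0 1)] (by decide +kernel))
noncomputable def rhe59d097906a6d473 : CRef := CRef.mk (Pat.mk 0xa0000001a000000100000001800000000 0x1b0000001f000000100000001800000008 3 5) 0 0 (step_sound _ 132 [(rh6e1685e3533aff0e.shift 0 3), (rh932754581e0f4330.shift 3 0)] (by decide +kernel))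
noncomputable def rh30430edaac816587 : CRef := CRef.mk (Pat.mk 0x100000001000000010000003c00000000 0x100000001000000010000003f00000007 3 6) 0 0 (step_sound _ 1 [(rh80fcd6d0a18cb2dd.shift 1 0), rhc9687765d606d909] (by decide +kernel))
noncomputable def rha0329878a02cdc91 : CRef := CRef.mk (Pat.mk 0x200000002000000020000001a00000000 0x200000002000000030000001f00000003 3 5) 0 0 (step_sound _ 34 [(rh3244c3cc8379b070.shift 0 1), rha37779f9238271b6] (by decide +kernel))
noncomputable def rh2ca5588de6f044eb : CRef := CRef.mk (Pat.mk 0x200000002000000020000001a00000000 0x10000000300000003000000030000001e00000003 3 5) 0 0 (step_sound _ 1 [rh01e48cd9f335aa73, rh3ca48e2a6d60153d] (by decide +kernel))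
noncomputable def rh49420462596d58af : CRef := CRef.mk (Pat.mk 0x200000002000000020000001a 0x1000000030000000300000002000000030000001f 3 5) 0 0 (step_sound _ 129 [rh3ca48e2a6d60153d, rh8427dc5df594e610] (by decide +kernel))
noncomputable def rh2a63a49d12853109 : CRef := CRef.mk (Pat.mk 0x20000000200000000000000020000000200000000 0x1000000030000000300000002000000030000000300000001 3 2) 0 0 (step_sound _ 97 [(rh3ca48e2a6d60153d.shift 0 1), rh7928877f9bf74a91] (by decide +kernel))
noncomputable def rh188decae10a60b3b : CRef := CRef.mk (Pat.mk 0x1000000010000000100000001a00000002 0x1000000010000000100000003e00000027 3 6) 0 0 (step_sound _ 37 [(rh55afc6a59410cf00.shift 4 0), rhdf75b1a85c17f481] (by decide +kernel))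
noncomputable def rhe1161c23154e0dd6 : CRef := CRef.mk (Pat.mk 0x200000002000000020000001a0000000000000000 0x10000000300000003000000020000001e0000000300000001 3 5) 0 0 (step_sound _ 33 [(rh3ca48e2a6d60153d.shift 0 1), rh5710f30ba40ee3ec] (by decide +kernel))
noncomputable def rha766430d240c0ff2 : CRef := CRef.mk (Pat.mk 0x200000002000000020000001a0000000800000000 0x10000000300000003000000020000001a0000000f00000004 3 5) 0 0 (step_sound _ 33 [(rh3ca48e2a6d60153d.shift 0 1), rh5d5b9b56c19874f2] (by decide +kernel))
noncomputable def rh389eaa71bd4b61e9 : CRef := CRef.mk (Pat.mk 0x400000004000000020000001c00000000 0x400000006000000030000001e00000003 3 5) 0 0 (step_sound _ 33 [(rh3244c3cc8379b070.shift 0 1), rhdf76c28ccf309ff1] (by decide +kernel))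
noncomputable def rha1f0019f11573325 : CRef := CRef.mk (Pat.mk 0x100000001000000000000001f00000000 0x100000001000000010000003f00000076 3 7) 0 0 (step_sound _ 37 [(rh4ad5fc38f1b69f65.shift 1 0), rhee90db0d31edca45] (by decide +kernel))
noncomputable def rh7070e3c7a9108183 : CRef := CRef.mk (Pat.mk 0x100000009000000080000001f00000000 0x900000009000000090000003f00000006 3 6) 0 0 (step_sound _ 2 [rh1b3dee99c415cd1f, (rh5c5e593799055d58.shift 2 0)] (by decide +kernel))
noncomputable def rhb945417d5249b464 : CRef := CRef.mk (Pat.mk 0x40000000400000007c00000000 0x4000000040000000470000007e00000030 3 7) 0 0 (step_sound _ 33 [(rh32c9a17f4caef812.shift 1 0), (rhd5eb272e07a4e288.shift 0 1)] (by decide +kernel))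
noncomputable def rhb8daf4b090e3e1c9 : CRef := CRef.mk (Pat.mk 0x40000000400000007c00000000 0x4000000040000000400000007e00000037 3 7) 0 0 (step_sound _ 33 [(rh32c9a17f4caef812.shift 1 0), rheae1728ff4a56756] (by decide +kernel))
noncomputable def rh8f22b0d569458701 : CRef := CRef.mk (Pat.mk 0x12000000120000001a0000000100000000 0x1000000012000000120000001a0000000f00000001 3 5) 0 0 (step_sound _ 33 [(rh4f6a16b54ea5db4e.shift 0 1), rh932754581e0f4330] (by decide +kernel))
noncomputable def rh01556dd712c5507e : CRef := CRef.mk (Pat.mk 0x300000002000000020000001a00000000 0x300000003000000020000001f00000003 3 5) 0 0 (step_sound _ 1 [rhb6caee3599a82f80, rhffd04209dc8ea796] (by decide +kernel))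
noncomputable def rh6c64b8a469c3e7d7 : CRef := CRef.mk (Pat.mk 0x200000002000000020000001a00000000 0x200000002000000030000001f00000003 3 5) 0 0 (step_sound _ 0 [rh2ce31be96ba64c73, rh79877ebd3ef475dd] (by decide +kernel))
noncomputable def rh438920a1ef51d89e : CRef := CRef.mk (Pat.mk 0x8000000080000000e00000002 0x800000008000000080000001e00000033 3 6) 0 0 (step_sound _ 36 [(rhba04d77b039f69d9.shift 1 0), rheb0810cc63b001d8] (by decide +kernel))
noncomputable def rhec0859af9de58e7d : CRef := CRef.mk (Pat.mk 0x80000001a000000020000000200000002 0x40000000f0000001e000000020000000200000002 3 5) 0 0 (step_sound _ 130 [(rh16f5f09f92ca9248.shift 0 1), (rhbaefcd01e0a8bca3.shift 1 0)] (by decide +kernel))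
noncomputable def rh342b8b00d9c01ed0 : CRef := CRef.mk (Pat.mk 0x80000000a000000120000000200000002 0x1c0000000f0000001a0000000200000002 3 5) 0 0 (step_sound _ 98 [(rh2f68792b6b779e96.shift 1 0), (rh6765e7960b108c8d.shift 0 2)] (by decide +kernel))
noncomputable def rhe4848fa713bf79e5 : CRef := CRef.mk (Pat.mk 0x80000001a000000020000000200000002 0x10000000f0000001b000000020000000200000002 3 5) 0 0 (step_sound _ 128 [(rhb2372126822a17d1.shift 0 1), rhffd04209dc8ea796] (by decide +kernel))
noncomputable def rh67a6ac2206c6dac5 : CRef := CRef.mk (Pat.mk 0x80000000a000000120000000200000002 0x190000000f0000001a0000000200000002 3 5) 0 0 (step_sound _ 96 [rh50fbb5868c909700, (rhd9f5d1027b9c54e6.shift 0 2)] (by decide +kernel))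
noncomputable def rh247662fa54b77552 : CRef := CRef.mk (Pat.mk 0x50000000c000000010000000300000000 0x2000000070000003f000000010000000300000002 3 6) 0 0 (step_sound _ 129 [rh85e0f5cc78e9cbe0, (rh89ade209b3e28f13.shift 0 3)] (by decide +kernel))
noncomputable def rh50496c3112cd5d02 : CRef := CRef.mk (Pat.mk 0x200000018000000020000000600000000 0x1000000030000001e000000020000000600000004 3 5) 0 0 (step_sound _ 97 [(rh55afc6a59410cf00.shift 1 0), (rh5e05da03898e7023.shift 0 1)] (by decide +kernel))
noncomputable def rhf999224224563d6c : CRef := CRef.mk (Pat.mk 0xa00000018000000020000000600000000 0xf0000001e000000020000000600000004 3 5) 0 0 (step_sound _ 128 [rh437c8ad7086e8dae, (rhc10214bf3fe8094a.shift 0 3)] (by decide +kernel))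
noncomputable def rhb0c3ac12af3a687b : CRef := CRef.mk (Pat.mk 0x50000000c000000010000000300000000 0x20000000f0000001f000000010000000300000002 3 5) 0 0 (step_sound _ 129 [rh85e0f5cc78e9cbe0, (rhae2edff970a530ce.shift 0 3)] (by decide +kernel))
noncomputable def rh8a774e867f16fa72 : CRef := CRef.mk (Pat.mk 0x20000001a0000001200000011 0x2000000020000003a0000001f00000035 3 6) 0 0 (step_sound _ 34 [rh518d6f6eeebddcb2, rh99c222c9f32002b6, (rhabf575676fe0ef70.shift 1 0)] (by decide +kernel))
noncomputable def rh6b0c59c0d25d3a73 : CRef := CRef.mk (Pat.mk 0x80000000a0000001a0000001200000001 0xa0000000a0000003a0000001f00000005 3 6) 0 0 (step_sound _ 34 [rh518d6f6eeebddcb2, (rh76a72604b49c2be2.shift 1 0), rh99c222c9f32002b6] (by decide +kernel))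
noncomputable def rh87b4776ed8f7e2bc : CRef := CRef.mk (Pat.mk 0x80000000a0000000a000000020000000100000000 0xa0000000a0000000a0000000e0000000700000005 3 4) 0 0 (step_sound _ 34 [rh2818863d77d69ed0, (rha7381c9f1229ca7e.shift 1 1)] (by decide +kernel))
noncomputable def rh7e2b5fc52af4e919 : CRef := CRef.mk (Pat.mk 0x2000000060000000200000001 0x20000000200000002000000060000000700000005 3 3) 0 0 (step_sound _ 129 [rh79877ebd3ef475dd, (rhd4b4beefcd67f51e.shift 1 0)] (by decide +kernel))
noncomputable def rhbd5dd1b3e57e4fef : CRef := CRef.mk (Pat.mk 0x10000000d0000000600000002 0x1000000010000003d0000000f00000002 3 6) 0 0 (step_sound _ 32 [rh2145e1d24b96a57e, (rh572132728df34c43.shift 0 1)] (by decide +kernel))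
noncomputable def rhf4af6a4fc2dc39ad : CRef := CRef.mk (Pat.mk 0x1000000010000000000000001e 0x100000001000000010000000380000001f 3 6) 0 0 (step_sound _ 36 [rh1439b430a642f7dd, (rh33e738c4ed385b9f.shift 1 0)] (by decide +kernel))
noncomputable def rhd485aa3f7105e6fd : CRef := CRef.mk (Pat.mk 0x1400000014000000000000000e00000000 0x1400000014000000140000001c0000000f00000002 3 5) 0 0 (step_sound _ 67 [(rh356cdfb49b9f1367.shift 0 1), (rh79a48be3ac30af6a.shift 1 0)] (by decide +kernel))
noncomputable def rh99ce8875d78c30bb : CRef := CRef.mk (Pat.mk 0x1000000010000000000000000e00000000 0x100000001000000010000000380000001f00000008 3 6) 0 0 (step_sound _ 68 [(rh1439b430a642f7dd.shift 0 1), (rh2e0ab4c6ccd906b7.shift 1 0)] (by decide +kernel))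
noncomputable def rh078db7c4818ecba2 : CRef := CRef.mk (Pat.mk 0x3e000000080000000000000004 0x30000007e0000000c0000000400000004 3 7) 0 0 (step_sound _ 66 [rh0da3f8d18d3a0dfd, (rh18965a982d73c794.shift 2 2)] (by decide +kernel))
noncomputable def rh1afdf61e433355a8 : CRef := CRef.mk (Pat.mk 0x40000000500000005000000080000000300000000 0x400000005000000050000000d0000000f00000002 3 4) 0 0 (step_sound _ 66 [rh0bc251320fcd4671, (rh55afc6a59410cf00.shift 2 1)] (by decide +kernel))
noncomputable def rh0176e14355125b07 : CRef := CRef.mk (Pat.mk 0x700000004000000000000000600000000 0x50000000700000006000000060000000600000006 3 3) 0 0 (step_sound _ 65 [(rh04329c1703284133.shift 1 0), (rh2738edcf84b3bede.shift 1 0), rhc5351dabd90740aa] (by decide +kernel))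
noncomputable def rh9778ba70e4240eaf : CRef := CRef.mk (Pat.mk 0x80000000800000008000000100000000600000000 0x80000000800000008000000180000001f00000004 3 5) 0 0 (step_sound _ 67 [rh48633d39d92701d2, (rh55afc6a59410cf00.shift 3 1)] (by decide +kernel))
noncomputable def rh2608d5a0ff983ad8 : CRef := CRef.mk (Pat.mk 0xa0000000a0000000b00000008 0x4000000060000000e0000000a0000000b00000009 3 4) 0 0 (step_sound _ 130 [rhd6ece6133e39c38f, (rhffd04209dc8ea796.shift 2 0)] (by decide +kernel))
noncomputable def rhacd155c70afd0c69 : CRef := CRef.mk (Pat.mk 0xc0000000a000000030000000200000000 0x30000000f0000001a000000030000000300000001 3 5) 0 0 (step_sound _ 129 [rh03dfdf12d5937476, (rh92dfa4e252fd939c.shift 0 1)] (by decide +kernel))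
noncomputable def rhb66ae56e4d5a6f8d : CRef := CRef.mk (Pat.mk 0x20000000200000002000000020000000000000001 0x20000000200000002000000060000000700000005 3 3) 0 0 (step_sound _ 34 [rhb6095d1fae7edc30, (rhd3458b32566d63f7.shift 1 1)] (by decide +kernel))
noncomputable def rhb352ba3fe68cdb4a : CRef := CRef.mk (Pat.mk 0x180000000b0000000700000000 0x10000000180000000b0000001f00000018 3 5) 0 0 (step_sound _ 35 [rh7a463014b1a15a7b, (rhf48373e13d2bc128.shift 0 1)] (by decide +kernel))
noncomputable def rhbc604988252f5b55 : CRef := CRef.mk (Pat.mk 0x400000006000000060000000300000000 0x2000000020000000600000006000000060000000700000001 3 3) 0 0 (step_sound _ 129 [rh932754581e0f4330, (rhfc7c29d8e65d775f.shift 1 1)] (by decide +kernel))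
noncomputable def rhcc610d01bd2b1e7b : CRef := CRef.mk (Pat.mk 0xa0000001a0000000c00000000 0xa0000000a0000001a0000000f00000004 3 5) 0 0 (step_sound _ 33 [(rh53b3c253cb0c65f4.shift 0 1), (rh5fc67bac28a8b5bb.shift 1 0)] (by decide +kernel))
noncomputable def rh0b675b38488aa4e5 : CRef := CRef.mk (Pat.mk 0xa0000001a0000000800000004 0xa0000000a0000001a0000000f00000004 3 5) 0 0 (step_sound _ 34 [(rh5c5e593799055d58.shift 2 0), rhc345525c2b4acbf8] (by decide +kernel))
noncomputable def rhed545be328fb0bd6 : CRef := CRef.mk (Pat.mk 0x10000000500000004000000020000000200000000 0x1000000010000000500000007000000030000000200000002 3 3) 0 0 (step_sound _ 96 [rh35fa666cc99ac1c4, (rhbe0e43a3bc50a43f.shift 0 1)] (by decide +kernel))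
noncomputable def rh38f5b78a8e46705b : CRef := CRef.mk (Pat.mk 0x7000000060000001c0000000000000000 0x100000007000000060000001e0000000700000006 3 5) 0 0 (step_sound _ 33 [(rhe437f081bfcdb831.shift 1 0), (rhf5197c0bcdf6bb42.shift 0 1)] (by decide +kernel))
noncomputable def rh22d7d97516be8a58 : CRef := CRef.mk (Pat.mk 0x6000000060000001c0000000000000000 0x400000006000000060000001e0000000700000006 3 5) 0 0 (step_sound _ 33 [(rh0c1db84848fdfb70.shift 0 1), (rhe437f081bfcdb831.shift 1 0)] (by decide +kernel))
noncomputable def rh3bf8fcae348fccb1 : CRef := CRef.mk (Pat.mk 0x400000004000000060000000c 0x400000004000000040000000f0000003c 3 6) 0 0 (step_sound _ 35 [(rh2145e1d24b96a57e.shift 2 0), rh6292bd8784ece55f] (by decide +kernel))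
noncomputable def rh9aa444fe74327671 : CRef := CRef.mk (Pat.mk 0xa0000000a0000000c00000018 0xa0000000a0000000a0000000f0000001c 3 5) 0 0 (step_sound _ 2 [(rh5c5e593799055d58.shift 2 0), rhdbead8471b0a73a5] (by decide +kernel))
noncomputable def rhaede8b6487022d74 : CRef := CRef.mk (Pat.mk 0xa0000000a0000000c0000000c00000000 0x20000000a0000000a0000000f0000001c00000010 3 5) 0 0 (step_sound _ 65 [(rh2145e1d24b96a57e.shift 1 1), rhbdde238153e38af9] (by decide +kernel))
noncomputable def rh59774942c10fc33d : CRef := CRef.mk (Pat.mk 0x1000000008000000080000000e0000000000000000 0x1000000018000000080000000f0000001800000010 3 5) 0 0 (step_sound _ 35 [(rhbaefcd01e0a8bca3.shift 3 1), rhbdde238153e38af9] (by decide +kernel))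
noncomputable def rh50e1a2169203bf64 : CRef := CRef.mk (Pat.mk 0x700000000000000000000001e 0x50000000700000002000000030000001e 3 5) 0 0 (step_sound _ 33 [rh3244c3cc8379b070, rh5a4df29f20c07a62] (by decide +kernel))
noncomputable def rh94a4f51ce67368e4 : CRef := CRef.mk (Pat.mk 0x700000004000000040000000600000000 0x50000000700000006000000060000000600000004 3 3) 0 0 (step_sound _ 97 [(rh5c17f1e02606ae02.shift 0 1), (rh7b1f1fb55310c477.shift 1 0)] (by decide +kernel))
noncomputable def rhf07ea8111c4ec1b3 : CRef := CRef.mk (Pat.mk 0x400000004000000100000000e00000000 0x400000004000000340000001e00000003 3 6) 0 0 (step_sound _ 36 [rh316d0c7c5292e4bb, (rh33e738c4ed385b9f.shift 1 1)] (by decide +kernel))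
noncomputable def rhad604c0945612cf1 : CRef := CRef.mk (Pat.mk 0x8000000080000000a0000001c 0x800000008000000080000003b0000001e 3 6) 0 0 (step_sound _ 1 [rh3244c3cc8379b070, (rhd3f7ef38fbfd55da.shift 1 0)] (by decide +kernel))
noncomputable def rh5df7e912ada528fd : CRef := CRef.mk (Pat.mk 0x10000000f0000000c000000040000000000000000 0x50000000f0000000e000000060000000600000006 3 4) 0 0 (step_sound _ 33 [(rh5769ed4fe2fe4c14.shift 1 0), (rh79610703defe4002.shift 0 1)] (by decide +kernel))
noncomputable def rha13520ba8537e3b1 : CRef := CRef.mk (Pat.mk 0x100000001000000030000000500000004 0x20000000300000003000000030000000700000006 3 3) 0 0 (step_sound _ 33 [rh55afc6a59410cf00, rh9511402a8c1709c4] (by decide +kernel))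
noncomputable def rhac543abd2ad8f13e : CRef := CRef.mk (Pat.mk 0x1000000020000000300000006 0x300000003000000020000000700000007 3 3) 0 0 (step_sound _ 97 [rh50fbb5868c909700, rh85a605aac6183f28] (by decide +kernel))
noncomputable def rh544f3e95f446b5b1 : CRef := CRef.mk (Pat.mk 0x80000007c00000002 0x18000000ff00000003 3 8) 0 0 (step_sound _ 33 [(rh8550ba1d74bb04c9.shift 0 1), rheb0810cc63b001d8] (by decide +kernel))
noncomputable def rhecb144ce47bb8533 : CRef := CRef.mk (Pat.mk 0x800000009000000050000000500000001 0x1a0000000f000000050000000500000005 3 5) 0 0 (step_sound _ 97 [rh2f68792b6b779e96, rh7c3b6ac2b2d5c7d4] (by decide +kernel))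
noncomputable def rhf41a4c4b06b624e4 : CRef := CRef.mk (Pat.mk 0x1000000012000000020000000200000002 0x340000001e000000030000000200000002 3 6) 0 0 (step_sound _ 98 [(rh1dc3e866f7ab4752.shift 0 2), (rh2f68792b6b779e96.shift 1 0)] (by decide +kernel))
noncomputable def rhd76c11a842dfab9b : CRef := CRef.mk (Pat.mk 0x100000000a000000020000000200000002 0x340000001e000000030000000200000002 3 6) 0 0 (step_sound _ 98 [(rh2f68792b6b779e96.shift 1 0), (rhee0891bc88ee3f94.shift 0 2)] (by decide +kernel))
noncomputable def rhe264c6d5274abfb0 : CRef := CRef.mk (Pat.mk 0x100000000a000000020000000200000002 0x1d0000000f000000020000000200000002 3 5) 0 0 (step_sound _ 96 [rh50fbb5868c909700, rh6bb57454bcaf5d3e] (by decide +kernel))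
noncomputable def rh5fca3991ff380a55 : CRef := CRef.mk (Pat.mk 0x800000004000000050000000500000001 0xa0000000e00000007000000050000000500000005 3 4) 0 0 (step_sound _ 129 [(rh9c0a5dbd188ab718.shift 1 1), rhc6b6552229dbce07] (by decide +kernel))
noncomputable def rh6df79348ff6e2454 : CRef := CRef.mk (Pat.mk 0x300000002c0000002800000000 0x100000003c0000002f0000002800000028 3 6) 0 0 (step_sound _ 99 [(rh1ed7a3503fa50fc8.shift 0 2), (rhd8a13c7f042cc6ea.shift 3 0)] (by decide +kernel))
noncomputable def rh45e0c09f7c3490bb : CRef := CRef.mk (Pat.mk 0x10000000030000000a0000000200000002 0x1c0000000f0000001a0000000200000002 3 5) 0 0 (step_sound _ 98 [(rh2f68792b6b779e96.shift 1 0), (rh691b6f67835b5694.shift 0 2)] (by decide +kernel))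
noncomputable def rh23ab074872020998 : CRef := CRef.mk (Pat.mk 0x8000000080000000a0000001a 0x800000008000000080000001b0000001f 3 5) 0 0 (step_sound _ 2 [rh3244c3cc8379b070, rhcd1d2dd80f69b75d] (by decide +kernel))
noncomputable def rhbb3f93341bfe0551 : CRef := CRef.mk (Pat.mk 0x180000000a0000001a00000008 0x40000001e0000000b0000001e00000008 3 5) 0 0 (step_sound _ 64 [rh3f9dabd3a98bcc1c, (rh5419adcd928dba20.shift 0 1)] (by decide +kernel))
noncomputable def rh53a70898cd0c31cc : CRef := CRef.mk (Pat.mk 0x10000000080000003e00000000 0x1000000010000000180000003f00000060 3 7) 0 0 (step_sound _ 5 [rh9fc6751704a81b5c, (rhe25b0a99195a5d59.shift 2 0)] (by decide +kernel))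
noncomputable def rhb1b1e15e42ceccdf : CRef := CRef.mk (Pat.mk 0x100000000a0000001a0000000800000000 0x100000001b0000001f0000000800000008 3 5) 0 0 (step_sound _ 66 [(rh3244c3cc8379b070.shift 0 2), rh5bb287abdb6f055e] (by decide +kernel))
noncomputable def rh84f2b2a7f0931f8f : CRef := CRef.mk (Pat.mk 0x40000001c0000000200000002 0x4000000070000003e0000000200000002 3 6) 0 0 (step_sound _ 97 [rhc56ee617d4ef761e, (rhf48373e13d2bc128.shift 1 2)] (by decide +kernel))
noncomputable def rh3ede5d4d65782dfa : CRef := CRef.mk (Pat.mk 0x60000000a000000080000000800000000 0x70000003e000000080000000800000008 3 6) 0 0 (step_sound _ 98 [(rh79b3c29022acbdf3.shift 0 3), (rh7b1f1fb55310c477.shift 2 0)] (by decide +kernel))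
noncomputable def rh14717ccbed19c051 : CRef := CRef.mk (Pat.mk 0x6000000020000001a0000000000000000 0x400000006000000020000001e0000000300000001 3 5) 0 0 (step_sound _ 33 [(rh2f68792b6b779e96.shift 1 1), rh5710f30ba40ee3ec] (by decide +kernel))
noncomputable def rh5e2e602ed6172766 : CRef := CRef.mk (Pat.mk 0x3000000020000001a0000000000000000 0x100000003000000020000001e0000000300000001 3 5) 0 0 (step_sound _ 33 [(rh50fbb5868c909700.shift 0 1), rh5710f30ba40ee3ec] (by decide +kernel))
noncomputable def rh4bd42915bd677708 : CRef := CRef.mk (Pat.mk 0xe0000000800000018000000080000000000000000 0x1f0000001800000018000000080000000800000008 3 5) 0 0 (step_sound _ 132 [(rhb739f4f82bb681b4.shift 0 4), (rhea7a1800d6f053bd.shift 3 0)] (by decide +kernel))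
noncomputable def rhbb8ea3020216b70a : CRef := CRef.mk (Pat.mk 0x70000000c0000001c00000000 0xc0000001c0000000f0000000c0000001c00000010 3 5) 0 0 (step_sound _ 131 [(rh82bd946b1709a78e.shift 2 1), rhd0677e5a0b47a76b] (by decide +kernel))
noncomputable def rhc39ee1dabe12af74 : CRef := CRef.mk (Pat.mk 0xc0000000a0000000a0000000a 0x110000001f0000001b0000000a0000000a 3 5) 0 0 (step_sound _ 97 [rh92dfa4e252fd939c, rhc49ca0b9223e2b96] (by decide +kernel))
noncomputable def rh519dfd84cd7b5b78 : CRef := CRef.mk (Pat.mk 0x4000000140000001600000000 0x400000004000000340000001e00000003 3 6) 0 0 (step_sound _ 1 [rh1dc3e866f7ab4752, (rh5c5e593799055d58.shift 1 0)] (by decide +kernel))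
noncomputable def rhdb1d0baef95f9433 : CRef := CRef.mk (Pat.mk 0x1a000000020000000300000000 0x1000000030000001e000000020000000300000001 3 5) 0 0 (step_sound _ 129 [(rh5e05da03898e7023.shift 0 1), rh932754581e0f4330] (by decide +kernel))
noncomputable def rh42df8009416d519e : CRef := CRef.mk (Pat.mk 0x60000000a0000000a0000000a00000000 0x60000000f0000001a0000000f00000009 3 5) 0 0 (step_sound _ 68 [rh142dc5df4ed2f725, rhabf42db7287f8a50] (by decide +kernel))
noncomputable def rh8d93106d4c71c1b0 : CRef := CRef.mk (Pat.mk 0x80000000a000000180000000800000000 0x40000000c0000000f000000180000000800000008 3 5) 0 0 (step_sound _ 98 [(rhb739f4f82bb681b4.shift 0 2), (rhe286c75f2739cce2.shift 2 0)] (by decide +kernel))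
noncomputable def rhd5a05b8d997f6fbb : CRef := CRef.mk (Pat.mk 0xe00000002000000020000000200000000 0x30000001e00000003000000030000000300000001 3 5) 0 0 (step_sound _ 161 [rh7928877f9bf74a91, (rhd9106766b9ff53c0.shift 0 3)] (by decide +kernel))
noncomputable def rh3f50ca0cc290a9a1 : CRef := CRef.mk (Pat.mk 0x1c00000002000000000000003000000000 0x80000001e00000033000000100000003000000020 3 6) 0 0 (step_sound _ 100 [(rh80c59fdbc00f388c.shift 3 0), (rhc8b21ffc3825c72d.shift 0 3)] (by decide +kernel))
noncomputable def rh0fdb5631617f7bd0 : CRef := CRef.mk (Pat.mk 0x1c00000002000000080000001800000000 0x1e0000003b000000180000001800000008 3 6) 0 0 (step_sound _ 100 [(rh2738edcf84b3bede.shift 3 0), (rhc8b21ffc3825c72d.shift 0 3)] (by decide +kernel))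
noncomputable def rhfe8b7965a922c690 : CRef := CRef.mk (Pat.mk 0x300000000000000010000000700000000 0x30000000300000003000000030000000700000005 3 3) 0 0 (step_sound _ 97 [rh2738edcf84b3bede, rh53a6242ae0132a5f, rh80c59fdbc00f388c] (by decide +kernel))
noncomputable def rh7bb1cef60b515068 : CRef := CRef.mk (Pat.mk 0x1c000000020000000800000008 0x300000001e0000000b0000000800000008 3 6) 0 0 (step_sound _ 97 [(rh4fc80024ed3db095.shift 1 0), (rheb0810cc63b001d8.shift 0 2)] (by decide +kernel))
noncomputable def rh21fa0c8f8ac79171 : CRef := CRef.mk (Pat.mk 0x1800000038000000020000000000000000 0x1000000018000000380000001f0000000800000008 3 6) 0 0 (step_sound _ 67 [(rhea7a1800d6f053bd.shift 3 0), (rhfb815e3afead425a.shift 0 2)] (by decide +kernel))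
noncomputable def rh83a9a404c2797c44 : CRef := CRef.mk (Pat.mk 0x200000000000000050000000f00000000 0x20000000200000002000000070000001f00000001 3 5) 0 0 (step_sound _ 65 [rhe908f39dd8d66be2, (rhf48373e13d2bc128.shift 0 1)] (by decide +kernel))
noncomputable def rh5a67469a8128c177 : CRef := CRef.mk (Pat.mk 0x200000000000000010000000f00000000 0x200000002000000030000001f00000005 3 5) 0 0 (step_sound _ 65 [rh9b32778d424b58d6, (rhf48373e13d2bc128.shift 0 1)] (by decide +kernel))
noncomputable def rhd49b7e0a13f8632e : CRef := CRef.mk (Pat.mk 0x600000000000000050000000e 0x60000000600000004000000070000001e 3 5) 0 0 (step_sound _ 33 [(rh4c61a8d65f05c464.shift 1 0), rhf48373e13d2bc128] (by decide +kernel))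
noncomputable def rh19bc747194f046b0 : CRef := CRef.mk (Pat.mk 0x300000000000000010000000f 0x30000000300000001000000030000001f 3 5) 0 0 (step_sound _ 33 [rhd727bb41309b6841, rhf48373e13d2bc128] (by decide +kernel))
noncomputable def rhc2ed2c18e5e90db8 : CRef := CRef.mk (Pat.mk 0x1e00000000000000100000001000000000 0x1f00000038000000100000001000000010 3 6) 0 0 (step_sound _ 100 [rh464bab2e226d0259, (rhe25b0a99195a5d59.shift 1 3)] (by decide +kernel))
noncomputable def rhf932434865c17297 : CRef := CRef.mk (Pat.mk 0x20000000200000002000000020000000200000002 0x400000006000000060000000300000003000000030000000200000002 3 3) 0 0 (step_sound _ 193 [rh1df22f8b3f35b5be, (rh44f453b84f013105.shift 1 2)] (by decide +kernel))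
noncomputable def rh46231ab7bfd17f40 : CRef := CRef.mk (Pat.mk 0x20000000e00000004 0x70000003e00000006 3 6) 0 0 (step_sound _ 36 [(rh3244c3cc8379b070.shift 0 1), (rh795d3e5d420177aa.shift 1 0)] (by decide +kernel))
noncomputable def rh80fc1af5b7d6fb4f : CRef := CRef.mk (Pat.mk 0x7000000060000001e00000010 0xc0000001c0000000f0000000e0000001e00000010 3 5) 0 0 (step_sound _ 131 [rh7e6576e48459aef8, (rhbd55d8419891313d.shift 1 1)] (by decide +kernel))
noncomputable def rhda9ef1fb63d23c66 : CRef := CRef.mk (Pat.mk 0x1800000018000000000000000c00000000 0x40000001f00000038000000080000000c00000004 3 6) 0 0 (step_sound _ 130 [(rhad5d8fc3675c15dd.shift 0 3), (rhd8e3ec04df043c57.shift 2 0)] (by decide +kernel))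
noncomputable def rh6585f13a5fbbe407 : CRef := CRef.mk (Pat.mk 0x20000000e000000080000000800000000 0x330000001e000000080000000800000008 3 6) 0 0 (step_sound _ 100 [(rh3244c3cc8379b070.shift 0 3), (rhd4d36b4007f546b1.shift 1 0)] (by decide +kernel))
noncomputable def rh9b735d7d43456e41 : CRef := CRef.mk (Pat.mk 0x20000000e00000002000000000000000200000000 0x1000000030000001e00000002000000030000000300000001 3 5) 0 0 (step_sound _ 65 [(rh2e8814637c3f6d46.shift 0 2), rh7928877f9bf74a91] (by decide +kernel))
noncomputable def rh73f37d02a779f613 : CRef := CRef.mk (Pat.mk 0x20000000200000002000000180000000600000000 0x200000002000000020000001b0000000f00000001 3 5) 0 0 (step_sound _ 32 [rh343a5d3670c5295a, (rh3fc040e777f1679e.shift 0 1)] (by decide +kernel))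
noncomputable def rh45a53a561c7fc8cb : CRef := CRef.mk (Pat.mk 0xe00000002000000020000000200000000 0x1000000030000001e00000002000000030000000300000001 3 5) 0 0 (step_sound _ 161 [(rh2e8814637c3f6d46.shift 0 2), rh7928877f9bf74a91] (by decide +kernel))
noncomputable def rh87025a27f85fc715 : CRef := CRef.mk (Pat.mk 0x1e0000000a00000008000000040000000400000000 0x30000001e0000000a0000000e000000040000000400000004 3 5) 0 0 (step_sound _ 98 [(rh71222050f2c63a3a.shift 2 0), (rhddb9dd786dc1af2f.shift 0 2)] (by decide +kernel))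
noncomputable def rh17c2a69528594d87 : CRef := CRef.mk (Pat.mk 0x2000000020000001a0000000400000000 0x2000000020000001e0000000700000005 3 5) 0 0 (step_sound _ 33 [(rh55afc6a59410cf00.shift 1 0), rh5710f30ba40ee3ec] (by decide +kernel))
noncomputable def rhf44b2f9cb5a7f97f : CRef := CRef.mk (Pat.mk 0xe000000020000000200000004 0x1000000030000001e000000020000000600000004 3 5) 0 0 (step_sound _ 129 [(rh2e8814637c3f6d46.shift 0 1), (rhd3458b32566d63f7.shift 1 0)] (by decide +kernel))
noncomputable def rh2b2af670ba3dc253 : CRef := CRef.mk (Pat.mk 0x10000000500000005000000020000000000000000 0x1000000010000000500000007000000030000000200000002 3 3) 0 0 (step_sound _ 33 [rh35fa666cc99ac1c4, (rhbe0e43a3bc50a43f.shift 0 1)] (by decide +kernel))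
noncomputable def rh022d78c413f6d914 : CRef := CRef.mk (Pat.mk 0x1000000050000000c000000020000000200000000 0x1000000050000001f000000030000000200000002 3 5) 0 0 (step_sound _ 64 [rhee4debf7179397f9, (rhff0f29cb645b05f7.shift 0 1)] (by decide +kernel))
noncomputable def rh18bb51d7e6378dab : CRef := CRef.mk (Pat.mk 0x700000003000000180000000000000000 0x400000007000000030000001e0000000200000002 3 5) 0 0 (step_sound _ 65 [(rh5419adcd928dba20.shift 0 2), rhb0c1e7919d9be92d] (by decide +kernel))
noncomputable def rh814af3a5af534515 : CRef := CRef.mk (Pat.mk 0x100000003000000020000001800000000 0x10000000100000003000000030000001e00000002 3 5) 0 0 (step_sound _ 33 [(rh184731057535cd07.shift 0 1), rh7b1f1fb55310c477] (by decide +kernel))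
noncomputable def rhccdb6a36cd6243e6 : CRef := CRef.mk (Pat.mk 0xe000000020000000e0000000200000000 0x190000000f0000000a0000000e0000000600000004 3 5) 0 0 (step_sound _ 163 [(rh4d4e586abdf65d17.shift 0 1), (rhe8c283fd0405bb80.shift 1 0)] (by decide +kernel))
noncomputable def rha47cde37f72062b4 : CRef := CRef.mk (Pat.mk 0x20000000e000000020000000200000000 0x2000000020000001e000000030000000300000001 3 5) 0 0 (step_sound _ 32 [(rh6c93a01cdf0f7321.shift 0 1), rh932754581e0f4330] (by decide +kernel))
noncomputable def rh5f5bc00581fb44bd : CRef := CRef.mk (Pat.mk 0x200000002000000120000000300000010 0x2000000020000001a0000000f0000001c 3 5) 0 0 (step_sound _ 34 [rh4096d66cfc0478fc, (rh55afc6a59410cf00.shift 1 0)] (by decide +kernel))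
noncomputable def rh6744c7d82272df05 : CRef := CRef.mk (Pat.mk 0x8000000020000000700000014 0x8000000080000001b0000001f00000034 3 6) 0 0 (step_sound _ 35 [rh5ebae181afaa248a, rh639c5d61b5ce9eea] (by decide +kernel))
noncomputable def rh2f96de7e20c3fbc8 : CRef := CRef.mk (Pat.mk 0x60000000f000000030000000200000000 0x60000000f0000001b0000001e0000000c 3 5) 0 0 (step_sound _ 35 [rh2bbc4934553ffbfd, rh6a56790be92093bf] (by decide +kernel))
noncomputable def rhc35631024dc7e1a4 : CRef := CRef.mk (Pat.mk 0x800000008000000020000000600000006 0x8000000080000000b0000003e00000006 3 6) 0 0 (step_sound _ 35 [(rh3c88ce959c0e423f.shift 2 0), rhb762f327c85d41a0] (by decide +kernel))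
noncomputable def rhb4dce459d5532780 : CRef := CRef.mk (Pat.mk 0x200000002000000020000000200000002000000020000000000000000 0x200000002000000030000000300000003000000060000000600000004 3 3) 0 0 (step_sound _ 33 [(rh1df22f8b3f35b5be.shift 0 1), (rhd29a1fb688eae70f.shift 1 0)] (by decide +kernel))
noncomputable def rh0048f2ad683a82b8 : CRef := CRef.mk (Pat.mk 0x100000002000000060000000200000000 0x30000000300000002000000060000000600000004 3 3) 0 0 (step_sound _ 129 [(rh50fbb5868c909700.shift 0 1), (rhd4b4beefcd67f51e.shift 1 0)] (by decide +kernel))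
noncomputable def rh7edc67f347daab4a : CRef := CRef.mk (Pat.mk 0x80000000c0000000c00000000 0x800000008000000080000000f0000003c00000010 3 6) 0 0 (step_sound _ 36 [(rh571950d89739e871.shift 2 0), (rhe2b63c00a3d7bb73.shift 0 1)] (by decide +kernel))
noncomputable def rh6c9418b1ab9df1ec : CRef := CRef.mk (Pat.mk 0x700000003000000010000000000000000 0x50000000700000003000000030000000300000003 3 3) 0 0 (step_sound _ 33 [rh478c4cadbcd4e066, rh9b4df57cddcda711, rhd02f44a45c1a55c1, (rhd1f9989d6034576a.shift 0 1)] (by decide +kernel))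
noncomputable def rh4721219539d968dc : CRef := CRef.mk (Pat.mk 0x7800000018 0xe0000007f00000038 3 7) 0 0 (step_sound _ 34 [rhad5d8fc3675c15dd, (rhd5eb272e07a4e288.shift 1 1)] (by decide +kernel))
noncomputable def rh1a13ca61aabd1498 : CRef := CRef.mk (Pat.mk 0x3c0000000c 0x70000003f0000003c 3 6) 0 0 (step_sound _ 33 [rh6292bd8784ece55f, (rhd5eb272e07a4e288.shift 0 1)] (by decide +kernel))
noncomputable def rh0c5f0cbbbccd894d : CRef := CRef.mk (Pat.mk 0xc0000001e000000000000000000000000 0x80000000c0000003e000000070000000400000004 3 6) 0 0 (step_sound _ 66 [(rhaf9f2efc81a8312b.shift 0 2), (rhea7a1800d6f053bd.shift 2 0)] (by decide +kernel))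
noncomputable def rhd9507392c7f93a70 : CRef := CRef.mk (Pat.mk 0x10000000f000000020000000000000000 0x1000000010000001f000000030000000200000002 3 5) 0 0 (step_sound _ 33 [(rh6d5107755251e36c.shift 0 1), rh7b1f1fb55310c477] (by decide +kernel))
noncomputable def rh5e42820a81e89072 : CRef := CRef.mk (Pat.mk 0x80000001c000000080000000000000000 0x8000000080000001f000000380000001000000010 3 6) 0 0 (step_sound _ 68 [(rh55a1f6c57a317ce6.shift 3 0), (rhad5d8fc3675c15dd.shift 0 2)] (by decide +kernel))
noncomputable def rh8afb761e147011fd : CRef := CRef.mk (Pat.mk 0x400000038 0xf0000007c 3 7) 0 0 (step_sound _ 33 [(rh09d4dfe75d4407d6.shift 1 0), rh72e35b80052d4a50] (by decide +kernel))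
noncomputable def rh828d5a3146c162db : CRef := CRef.mk (Pat.mk 0x18000000030000000700000000 0x2000000020000001e000000030000000700000004 3 5) 0 0 (step_sound _ 97 [rh571950d89739e871, (rhb2a0b9ccfb5cecd5.shift 0 2)] (by decide +kernel))
noncomputable def rh019c09528244a73d : CRef := CRef.mk (Pat.mk 0x20000000f000000010000000000000000 0x2000000030000001f000000010000000100000001 3 5) 0 0 (step_sound _ 32 [rh71222050f2c63a3a, (rh847d127b1ee67a78.shift 0 1)] (by decide +kernel))
noncomputable def rh7fdcea51b288916c : CRef := CRef.mk (Pat.mk 0x20000000a000000020000000200000000 0x4000000070000001e000000030000000200000002 3 5) 0 0 (step_sound _ 98 [(rha707fb719e87fe6e.shift 1 0), (rhd9106766b9ff53c0.shift 0 2)] (by decide +kernel))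
noncomputable def rh57ec99813e95d20b : CRef := CRef.mk (Pat.mk 0x8000000180000003a0000000000000000 0x8000000180000003e0000003700000010 3 6) 0 0 (step_sound _ 66 [(rh78974448101547fe.shift 1 0), (rheae1728ff4a56756.shift 0 1)] (by decide +kernel))
noncomputable def rh1517675b5b4fba58 : CRef := CRef.mk (Pat.mk 0x80000001a0000001a0000000000000000 0x80000001b0000001e0000003000000010 3 6) 0 0 (step_sound _ 36 [(rh7174a5174d2fbf5b.shift 0 1), (rh7b1f1fb55310c477.shift 3 0)] (by decide +kernel))
noncomputable def rhfa886b95f47af3f9 : CRef := CRef.mk (Pat.mk 0x2000000020000000a0000000200000000 0x200000002000000020000001e0000000700000005 3 5) 0 0 (step_sound _ 66 [rh157b220518f94713, (rhd4b4beefcd67f51e.shift 1 0)] (by decide +kernel))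
noncomputable def rh5487c7708d77b486 : CRef := CRef.mk (Pat.mk 0x600000002000000060000000300000000 0x2000000020000000600000006000000070000000300000002 3 3) 0 0 (step_sound _ 98 [(rh71222050f2c63a3a.shift 1 0), (rh749b30baa5602f69.shift 0 1)] (by decide +kernel))
noncomputable def rh2fe3e8e6529e27c3 : CRef := CRef.mk (Pat.mk 0x200000006000000020000000e00000000 0x40000000600000006000000060000000f00000019 3 5) 0 0 (step_sound _ 3 [(rh248842449819c4f2.shift 1 0), rh9f67957f47428996] (by decide +kernel))
noncomputable def rh24c6fd584c208a4c : CRef := CRef.mk (Pat.mk 0x10000000d000000010000000100000000 0x2000000030000001f000000010000000100000001 3 5) 0 0 (step_sound _ 129 [(rh2f68792b6b779e96.shift 0 1), rhfe4c636fe9e2c7b3] (by decide +kernel))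
noncomputable def rh72941494d5330140 : CRef := CRef.mk (Pat.mk 0xf000000010000000100000000 0x2000000030000001f000000010000000100000001 3 5) 0 0 (step_sound _ 129 [rh71222050f2c63a3a, (rh847d127b1ee67a78.shift 0 1)] (by decide +kernel))
noncomputable def rh224d585a388a72f3 : CRef := CRef.mk (Pat.mk 0x30000000040000001e00000000 0x40000003c000000070000001e00000003 3 6) 0 0 (step_sound _ 98 [rh1ae4704ae86cb9a8, (rh66dba13660a1d097.shift 0 1)] (by decide +kernel))
noncomputable def rh4a32030338bc35ab : CRef := CRef.mk (Pat.mk 0xa0000000e0000000100000000 0x2000000020000001a0000001f0000000300000001 3 5) 0 0 (step_sound _ 129 [(rh3a461cbda0c5b1ed.shift 0 1), rh54d1d3f05f0ed5a2] (by decide +kernel))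
noncomputable def rh07d301cb625b5eb9 : CRef := CRef.mk (Pat.mk 0x50000000500000007000000000000000000000000 0x1000000050000000700000007000000020000000200000002 3 3) 0 0 (step_sound _ 65 [(rh2145e1d24b96a57e.shift 0 2), (rhf9af042da61fc652.shift 1 0)] (by decide +kernel))
noncomputable def rh8857db3d5f1bcaf5 : CRef := CRef.mk (Pat.mk 0xa0000001a00000008 0x1b0000001f00000018 3 5) 0 0 (step_sound _ 34 [(rh3244c3cc8379b070.shift 0 1), rhcf86d050071af9b3] (by decide +kernel))
noncomputable def rh288d7b7596da5c46 : CRef := CRef.mk (Pat.mk 0x80000001a0000000a 0x180000001f0000001b 3 5) 0 0 (step_sound _ 34 [rhcf86d050071af9b3, rheb0810cc63b001d8] (by decide +kernel))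
noncomputable def rhec13a2e3cc6047f5 : CRef := CRef.mk (Pat.mk 0x1e0000001a 0x70000003e0000001e 3 6) 0 0 (step_sound _ 37 [(rh24ae073cf30720c4.shift 1 0), (rhd5eb272e07a4e288.shift 0 1)] (by decide +kernel))
noncomputable def rhf49d61b8822b8666 : CRef := CRef.mk (Pat.mk 0x20000000e0000001c 0x30000003e0000001f 3 6) 0 0 (step_sound _ 36 [(rh3244c3cc8379b070.shift 0 1), rhab2ad169e49f9c5e] (by decide +kernel))
noncomputable def rh8f2eacec99830cb7 : CRef := CRef.mk (Pat.mk 0x40000000f0000000800000000 0x4000000040000001c0000000f0000000800000008 3 5) 0 0 (step_sound _ 99 [(rh33e738c4ed385b9f.shift 0 2), (rhfc7c29d8e65d775f.shift 2 0)] (by decide +kernel))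
noncomputable def rhee3980af7ad9afce : CRef := CRef.mk (Pat.mk 0x180000001c0000000000000000 0x800000008000000180000001f0000003000000010 3 6) 0 0 (step_sound _ 36 [(rhf56e6bc5d2f7fe77.shift 0 1), (rhfc7c29d8e65d775f.shift 3 0)] (by decide +kernel))
noncomputable def rhce2bb70797483c3b : CRef := CRef.mk (Pat.mk 0x600000006000000060000000000000000 0x2000000020000000600000006000000070000000300000003 3 3) 0 0 (step_sound _ 32 [rh5769ed4fe2fe4c14, (rh749b30baa5602f69.shift 0 1)] (by decide +kernel))
noncomputable def rh14e5a609118c4909 : CRef := CRef.mk (Pat.mk 0xe0000001200000006 0xf0000001e0000000f 3 5) 0 0 (step_sound _ 35 [rh3ec8ec076f6e0db2, (rhb739f4f82bb681b4.shift 0 1)] (by decide +kernel))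
noncomputable def rhb74faafaa69ed645 : CRef := CRef.mk (Pat.mk 0xe000000120000000600000000 0x20000000f0000001a0000000f00000005 3 5) 0 0 (step_sound _ 32 [(rhcd504d2a191e0997.shift 0 1), rhde10baa3043a2b46] (by decide +kernel))
noncomputable def rhd5c90d7e7ecd5b57 : CRef := CRef.mk (Pat.mk 0xf0000000100000001 0x2000000030000001f0000000300000001 3 5) 0 0 (step_sound _ 97 [(rh7b030ba967bf927e.shift 0 1), rh847d127b1ee67a78, rha67678a230f0b207, rheb4949bdfa5025cf] (by decide +kernel))
noncomputable def rh11d0cfac524032d5 : CRef := CRef.mk (Pat.mk 0x100000001000000030000000000000000 0x10000000100000003000000030000000300000002 3 2) 0 0 (step_sound _ 33 [(rh2145e1d24b96a57e.shift 0 1), rh95ea0015722389b9] (by decide +kernel))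
noncomputable def rh462f5db0be45fec7 : CRef := CRef.mk (Pat.mk 0x1000000070000000900000001 0x2000000030000001f0000001900000001 3 5) 0 0 (step_sound _ 67 [rha1c46167a1310ec1, (rhe25b0a99195a5d59.shift 0 1)] (by decide +kernel))
noncomputable def rh4c454c3081c736c9 : CRef := CRef.mk (Pat.mk 0x10000000700000009 0x30000001f0000001b 3 5) 0 0 (step_sound _ 35 [rhe25b0a99195a5d59, rhe9d682012dbceb06] (by decide +kernel))
noncomputable def rhdac6bdba0c8c1e09 : CRef := CRef.mk (Pat.mk 0x60000000e0000000200000003 0x60000003f0000003e00000003 3 6) 0 0 (step_sound _ 36 [(rh8ef9dd588f33bbde.shift 1 1), rhd0cda9340b872954] (by decide +kernel))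
noncomputable def rha3f5d348ad908b38 : CRef := CRef.mk (Pat.mk 0x800000038000000080000000e00000000 0x80000003c0000001f0000001e00000010 3 6) 0 0 (step_sound _ 65 [rh0e9804663e9ab184, (rhbb229bad87965364.shift 1 2), (rhfb815e3afead425a.shift 0 2)] (by decide +kernel))
noncomputable def rhb874c87748a803fa : CRef := CRef.mk (Pat.mk 0xe0000003a0000000200000000 0x40000000e0000003a0000001f0000000a 3 6) 0 0 (step_sound _ 35 [(rhd8a13c7f042cc6ea.shift 1 0), (rhfb815e3afead425a.shift 0 1)] (by decide +kernel))
noncomputable def rh57b7bc8a76d7d95a : CRef := CRef.mk (Pat.mk 0x4000000070000000400000008 0x4000000040000000f0000003c00000008 3 6) 0 0 (step_sound _ 35 [(rh2145e1d24b96a57e.shift 2 0), (rh4a0b10776449c3e9.shift 0 1)] (by decide +kernel))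
noncomputable def rh8d14b700828477c1 : CRef := CRef.mk (Pat.mk 0x100000007000000010000000700000000 0x20000000300000007000000070000000700000004 3 3) 0 0 (step_sound _ 129 [(rh2f68792b6b779e96.shift 0 1), (rh935da622f8ebc962.shift 1 0)] (by decide +kernel))
noncomputable def rhc0194a0dc6a3344a : CRef := CRef.mk (Pat.mk 0xc0000000c000000090000000800000000 0x80000000c0000000c0000000f0000001c00000014 3 5) 0 0 (step_sound _ 66 [rh2d65c91b9f714cee, (rhea7a1800d6f053bd.shift 2 0)] (by decide +kernel))
noncomputable def rh9e51b411cf60c0be : CRef := CRef.mk (Pat.mk 0xe0000000b0000000a 0xf0000001b0000001f 3 5) 0 0 (step_sound _ 2 [rh1642ef1127830c20, rhf48373e13d2bc128] (by decide +kernel))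
noncomputable def rh4c761f03f00ba0ef : CRef := CRef.mk (Pat.mk 0x400000004000000060000000c00000000 0x400000004000000070000003e00000002 3 6) 0 0 (step_sound _ 33 [(rh79b3c29022acbdf3.shift 0 1), (rh932754581e0f4330.shift 1 0)] (by decide +kernel))
noncomputable def rh2fec87a3badbb505 : CRef := CRef.mk (Pat.mk 0x40000000e000000000000000e00000000 0x40000000f000000180000000f00000008 3 5) 0 0 (step_sound _ 67 [(rh1642ef1127830c20.shift 0 1), (rh7b1f1fb55310c477.shift 2 0)] (by decide +kernel))
noncomputable def rha6262d33c01fa025 : CRef := CRef.mk (Pat.mk 0xc0000000c000000000000000e00000000 0xc0000000c0000000c0000001e00000033 3 6) 0 0 (step_sound _ 36 [rh316d0c7c5292e4bb, (rh49bdc49f6b132823.shift 1 0)] (by decide +kernel))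
noncomputable def rhfbd1e69d00a5c3d3 : CRef := CRef.mk (Pat.mk 0xc00000016000000000000000c00000004 0xe0000001e0000000b0000000e00000006 3 5) 0 0 (step_sound _ 65 [rh09f01e5e5de286ed, (rhed79ced5a567ef15.shift 1 0)] (by decide +kernel))
noncomputable def rha458dae1f51012c0 : CRef := CRef.mk (Pat.mk 0x20000000300000000000000020000000200000000 0x30000000300000002000000030000000300000001 3 2) 0 0 (step_sound _ 97 [(rh50fbb5868c909700.shift 0 1), rh7928877f9bf74a91] (by decide +kernel))
noncomputable def rhf27044bfb2996f22 : CRef := CRef.mk (Pat.mk 0x20000000200000000000000010000000100000000 0x20000000300000003000000030000000100000001 3 2) 0 0 (step_sound _ 96 [(rh1006c02ae4212ff0.shift 0 1), rh488955a31400a0ac] (by decide +kernel))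
noncomputable def rhb566e0719bd64755 : CRef := CRef.mk (Pat.mk 0x40000000500000002000000020000000000000000 0x40000000700000007000000020000000200000002 3 3) 0 0 (step_sound _ 33 [(rh1006c02ae4212ff0.shift 1 1), rh2e02ae96d64880aa] (by decide +kernel))
noncomputable def rh7beecc745c4ad4cc : CRef := CRef.mk (Pat.mk 0x4000000060000000a0000000c00000000 0x4000000070000003e0000000c00000008 3 6) 0 0 (step_sound _ 66 [(rh55afc6a59410cf00.shift 2 0), (rh79b3c29022acbdf3.shift 0 2)] (by decide +kernel))
noncomputable def rh53368734290e7cf1 : CRef := CRef.mk (Pat.mk 0x60000000a0000000e 0xf0000007e0000001e 3 7) 0 0 (step_sound _ 36 [(rh43cbe8b40a1a7398.shift 0 1), (rh572132728df34c43.shift 1 0), (rh5db08fca7648325c.shift 0 1)] (by decide +kernel))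
noncomputable def rh2531f2424cc12eef : CRef := CRef.mk (Pat.mk 0x400000006000000080000000e00000000 0x40000000f000000780000001e00000008 3 7) 0 0 (step_sound _ 68 [(rh572132728df34c43.shift 1 1), rh96a8dc9200935376] (by decide +kernel))
noncomputable def rh7d0f7b4e096bbace : CRef := CRef.mk (Pat.mk 0x20000000e000000020000000e00000000 0x4000000060000000e0000001a0000000f00000009 3 5) 0 0 (step_sound _ 67 [rh33d01eedb9d8bafb, (rhb47d83e3a04422c3.shift 1 0)] (by decide +kernel))
noncomputable def rh39cc2b2dcc7e19fa : CRef := CRef.mk (Pat.mk 0x40000001c000000040000001c00000000 0x40000003c000000070000001e00000002 3 6) 0 0 (step_sound _ 33 [(rh932754581e0f4330.shift 1 0), (rha792162b08927c0f.shift 0 1)] (by decide +kernel))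
noncomputable def rhbf7aea28406e00a4 : CRef := CRef.mk (Pat.mk 0xc000000050000000e 0x3c0000000f0000001e 3 6) 0 0 (step_sound _ 33 [(rh572132728df34c43.shift 0 1), rhf48373e13d2bc128] (by decide +kernel))
noncomputable def rhf28ae6a3744c3071 : CRef := CRef.mk (Pat.mk 0x60000000f00000006 0x60000003f0000003e 3 6) 0 0 (step_sound _ 4 [rh2fe78cc5ca4405d8, (rh8ef9dd588f33bbde.shift 1 0)] (by decide +kernel))
noncomputable def rhd1d6d939bc3f56d6 : CRef := CRef.mk (Pat.mk 0x80000001e000000040000000c00000000 0x80000001e000000370000003c00000010 3 6) 0 0 (step_sound _ 36 [(rh2bbc4934553ffbfd.shift 1 0), (rhfe30433439f14678.shift 0 1)] (by decide +kernel))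
noncomputable def rh582ee92784d83252 : CRef := CRef.mk (Pat.mk 0x20000000300000006000000020000000000000000 0x20000000700000007000000060000000600000006 3 3) 0 0 (step_sound _ 33 [rhc705a4e0321a1bff, (rhd29a1fb688eae70f.shift 1 0)] (by decide +kernel))
noncomputable def rhf0944022550d5f2b : CRef := CRef.mk (Pat.mk 0x40000001f00000020 0x1c0000007f00000060 3 7) 0 0 (step_sound _ 37 [(rh2c7793d85148f0f9.shift 0 1), (rhe25b0a99195a5d59.shift 2 0)] (by decide +kernel))
noncomputable def rhf3d4ff7b6372e951 : CRef := CRef.mk (Pat.mk 0x40000001e000000040000000800000000 0x70000001e000000040000000c0000000c 3 5) 0 0 (step_sound _ 34 [rh132883a60cd8aed8, (rh55afc6a59410cf00.shift 2 0)] (by decide +kernel))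
noncomputable def rhe5aa3b946f46d3a8 : CRef := CRef.mk (Pat.mk 0x80000000b000000080000000700000000 0x10000000180000000f000000080000001f00000018 3 5) 0 0 (step_sound _ 35 [rh2aa7c1d375387a4e, (rhddcd04bb31546311.shift 0 1)] (by decide +kernel))
noncomputable def rhf6d2b2829152ab21 : CRef := CRef.mk (Pat.mk 0x2000000010000000f00000000 0x20000000200000002000000030000001f00000004 3 5) 0 0 (step_sound _ 65 [rh571950d89739e871, (rhf48373e13d2bc128.shift 0 1)] (by decide +kernel))
noncomputable def rhb6201d075427a8c2 : CRef := CRef.mk (Pat.mk 0x10000000020000003c00000020 0x1000000010000000330000003e00000020 3 6) 0 0 (step_sound _ 33 [(rh3244c3cc8379b070.shift 0 1), (rhd6823224e710b448.shift 1 0)] (by decide +kernel))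
noncomputable def rh0eb7229d05a1c4db : CRef := CRef.mk (Pat.mk 0x20000001e000000040000000000000000 0x2000000020000001e000000070000000400000004 3 5) 0 0 (step_sound _ 34 [(rh7b1f1fb55310c477.shift 1 0), (rhf206a6f053b27199.shift 0 1)] (by decide +kernel))
noncomputable def rhba99d3a9a6f13315 : CRef := CRef.mk (Pat.mk 0x4000000080000000e0000000800000000 0x40000000c000000080000000f0000001800000010 3 5) 0 0 (step_sound _ 36 [(rh6196b452c518de56.shift 2 0), (rhb739f4f82bb681b4.shift 0 1)] (by decide +kernel))
noncomputable def rh2475c90822503e65 : CRef := CRef.mk (Pat.mk 0x200000004000000070000000400000000 0x20000000600000004000000070000003e00000008 3 6) 0 0 (step_sound _ 35 [(rh6196b452c518de56.shift 1 0), (rh89ade209b3e28f13.shift 0 1)] (by decide +kernel))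
noncomputable def rh6362893e0e4892a2 : CRef := CRef.mk (Pat.mk 0x18000000180000007800000000 0x40000001f00000038000000780000000c 3 7) 0 0 (step_sound _ 98 [(rh6fcba015dedda42d.shift 2 0), (rhad5d8fc3675c15dd.shift 0 2)] (by decide +kernel))
noncomputable def rh8445858e068e440d : CRef := CRef.mk (Pat.mk 0x80000001c0000000a00000008 0x10000000180000001f0000000b00000008 3 5) 0 0 (step_sound _ 65 [rhdab32775f5c78fcf, (rheb0810cc63b001d8.shift 0 1)] (by decide +kernel))
noncomputable def rhcae9bdb85d1617ed : CRef := CRef.mk (Pat.mk 0x40000001e0000000400000004 0xc0000000c0000000c0000001e0000000700000004 3 5) 0 0 (step_sound _ 130 [(rh1ae4704ae86cb9a8.shift 0 1), (rh44f453b84f013105.shift 2 0)] (by decide +kernel))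
noncomputable def rha3e11e1e747eca3e : CRef := CRef.mk (Pat.mk 0x40000000c0000001e0000000000000000 0x40000000c0000001f0000003800000008 3 6) 0 0 (step_sound _ 35 [(rh7b1f1fb55310c477.shift 2 0), (rha03f6e28ea70fc7d.shift 0 1)] (by decide +kernel))
noncomputable def rh6ee17a7e05055fd4 : CRef := CRef.mk (Pat.mk 0x40000000c0000001c0000000800000000 0x80000000c0000000c0000001c0000000f00000006 3 5) 0 0 (step_sound _ 34 [(rha707fb719e87fe6e.shift 2 0), rhf5094ad2a427d4d3] (by decide +kernel))
noncomputable def rh2825958ace28257e : CRef := CRef.mk (Pat.mk 0x200000002000000020000000000000006 0x10000000300000003000000020000000600000006 3 3) 0 0 (step_sound _ 33 [rh3ca48e2a6d60153d, (rhd3458b32566d63f7.shift 1 0)] (by decide +kernel))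
noncomputable def rhe79307a1f5f4535c : CRef := CRef.mk (Pat.mk 0x200000003000000010000000600000000 0x2000000020000000200000003000000070000000600000004 3 3) 0 0 (step_sound _ 65 [(rh493ba90d7b88e72e.shift 0 1), (rh55afc6a59410cf00.shift 1 0)] (by decide +kernel))
noncomputable def rh138055bc4750282f : CRef := CRef.mk (Pat.mk 0x80000000e000000000000000c00000000 0x10000000180000000f000000080000000c00000004 3 5) 0 0 (step_sound _ 67 [(rh932754581e0f4330.shift 2 0), (rhdab32775f5c78fcf.shift 0 1)] (by decide +kernel))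
noncomputable def rheb2583258c8ff2d0 : CRef := CRef.mk (Pat.mk 0xf0000000d 0x380000001f0000000f 3 6) 0 0 (step_sound _ 36 [rh24ae073cf30720c4, (rh9890f9d77740bbed.shift 0 1)] (by decide +kernel))
noncomputable def rh2314aca9f7648aa5 : CRef := CRef.mk (Pat.mk 0x80000001c000000100000001800000000 0x180000001f000000300000001800000008 3 6) 0 0 (step_sound _ 97 [rh4846bffefc582b42, (rhe25b0a99195a5d59.shift 1 2)] (by decide +kernel))
noncomputable def rh9348dd9167ba03a6 : CRef := CRef.mk (Pat.mk 0x20000000e000000040000000600000000 0x70000003e000000040000000600000002 3 6) 0 0 (step_sound _ 100 [(rh3244c3cc8379b070.shift 0 3), (rhe1cc30bcc0c8f78d.shift 1 0)] (by decide +kernel))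
noncomputable def rhb626b0ff61053d7c : CRef := CRef.mk (Pat.mk 0x40000001e000000080000000c00000000 0x40000001e0000003b0000000f00000002 3 6) 0 0 (step_sound _ 33 [rh3ea8f185d13574b4, (rhde5424e3c1125e61.shift 0 1)] (by decide +kernel))
noncomputable def rhbf7f8af873805d07 : CRef := CRef.mk (Pat.mk 0x80000001a000000080000000000000000 0x8000000080000001f000000380000001000000010 3 6) 0 0 (step_sound _ 68 [(rh55a1f6c57a317ce6.shift 3 0), (rhcd6baf37b3e5de21.shift 0 2)] (by decide +kernel))
noncomputable def rh1f49d73253208107 : CRef := CRef.mk (Pat.mk 0x20000000e0000000200000002 0x4000000060000003e0000000300000002 3 6) 0 0 (step_sound _ 68 [(rha1c46167a1310ec1.shift 1 0), (rheb0810cc63b001d8.shift 0 1)] (by decide +kernel))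
noncomputable def rh892dcdad65576435 : CRef := CRef.mk (Pat.mk 0xe0000001a00000006 0x1e0000001b0000001f 3 5) 0 0 (step_sound _ 3 [rh046254d731362e10, rh53b3c253cb0c65f4] (by decide +kernel))
noncomputable def rhede0806dd0b1c3c2 : CRef := CRef.mk (Pat.mk 0x300000006000000020000000100000000 0x700000007000000020000000300000003 3 3) 0 0 (step_sound _ 33 [rh932754581e0f4330, rhc705a4e0321a1bff] (by decide +kernel))
noncomputable def rh4057627adbbec185 : CRef := CRef.mk (Pat.mk 0x300000006000000020000000400000000 0x700000007000000020000000600000006 3 3) 0 0 (step_sound _ 33 [(rh55afc6a59410cf00.shift 1 0), rhc705a4e0321a1bff] (by decide +kernel))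
noncomputable def rh1cc0f4c50d897d08 : CRef := CRef.mk (Pat.mk 0x800000018000000140000000c00000000 0x8000000380000001f0000000c00000004 3 6) 0 0 (step_sound _ 67 [(rh932754581e0f4330.shift 2 0), (rhab2ad169e49f9c5e.shift 0 2)] (by decide +kernel))
noncomputable def rh4a9d6fe739127300 : CRef := CRef.mk (Pat.mk 0x300000002800000038 0x780000003f0000003c 3 7) 0 0 (step_sound _ 34 [(rh3c14fcf8b65bfab5.shift 2 1), (rha7d0237a5ee4ee70.shift 1 0), rhdbcea10a0fbe5ba6] (by decide +kernel))
noncomputable def rhbca6237e0fac95c6 : CRef := CRef.mk (Pat.mk 0x1000000030000000080000003800000000 0x10000000780000000f0000003c00000008 3 7) 0 0 (step_sound _ 66 [(rhdbcea10a0fbe5ba6.shift 0 1), (rhee4debf7179397f9.shift 2 0)] (by decide +kernel))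
noncomputable def rh8c5873e801963756 : CRef := CRef.mk (Pat.mk 0x10000000100000001e00000000 0x1000000010000000170000003e00000060 3 7) 0 0 (step_sound _ 37 [(rhba04d77b039f69d9.shift 2 0), (rhd5eb272e07a4e288.shift 0 1)] (by decide +kernel))
noncomputable def rha02530f8badfbba5 : CRef := CRef.mk (Pat.mk 0x10000000180000001c 0x300000001f0000003f 3 6) 0 0 (step_sound _ 33 [rh5c36e97be8af272f, (rhabcb8f6c932edb1f.shift 1 0)] (by decide +kernel))
noncomputable def rhb9b7fcdaa63e49da : CRef := CRef.mk (Pat.mk 0x400000003c00000008 0xc0000000ff00000038 3 8) 0 0 (step_sound _ 4 [(rh8284118167888cf9.shift 3 0), rhad5d8fc3675c15dd] (by decide +kernel))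
noncomputable def rhb1f6f551b1cd1876 : CRef := CRef.mk (Pat.mk 0xc00000006000000030000000400000000 0x80000000c00000006000000070000001e0000000a 3 5) 0 0 (step_sound _ 35 [(rh807d78fa6ca78542.shift 2 0), rhf2eb06c6b46c6fb8] (by decide +kernel))
noncomputable def rha76899e26dbc9d60 : CRef := CRef.mk (Pat.mk 0x400000007000000030000000400000000 0x20000000600000007000000030000000700000007 3 3) 0 0 (step_sound _ 129 [rh1e309b005ffa1b36, (rh9b4df57cddcda711.shift 1 0)] (by decide +kernel))
noncomputable def rh9f0762b7cb3905de : CRef := CRef.mk (Pat.mk 0x8000000000000001c0000000800000000 0x800000008000000080000003c0000000f00000004 3 6) 0 0 (step_sound _ 34 [(rh4dc133ee0ba1420a.shift 0 1), (rhb8fddd58ad9026ec.shift 2 0)] (by decide +kernel))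
noncomputable def rhc41d721df248d1b4 : CRef := CRef.mk (Pat.mk 0x400000004000000160000000400000000 0x4000000040000003e0000000700000002 3 6) 0 0 (step_sound _ 33 [(rh932754581e0f4330.shift 1 0), (rhd11dc6dd83191698.shift 0 1)] (by decide +kernel))
noncomputable def rhda82e57309225957 : CRef := CRef.mk (Pat.mk 0x180000001c000000180000001000000000 0x180000001f0000001f0000003000000020 3 6) 0 0 (step_sound _ 65 [(rh2d65c91b9f714cee.shift 1 0), (rhd74396e693bc7125.shift 0 2)] (by decide +kernel))
noncomputable def rhe430477a9cb56c83 : CRef := CRef.mk (Pat.mk 0x80000000c0000001e0000000000000000 0x80000000c0000003e0000000700000004 3 6) 0 0 (step_sound _ 33 [(rha954c127d725faca.shift 1 0), (rheb0810cc63b001d8.shift 0 1)] (by decide +kernel))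
noncomputable def rh995dbd3241f188f7 : CRef := CRef.mk (Pat.mk 0x160000000600000002 0x3e0000003e00000003 3 6) 0 0 (step_sound _ 36 [rh1dc3e866f7ab4752, (rh26cf6cd574a72447.shift 1 1), (rh4ca3b344f1b51833.shift 1 1), rhb7616ccf0736ebbe] (by decide +kernel))
noncomputable def rh109ad6077e413ace : CRef := CRef.mk (Pat.mk 0x60000000b0000000800000000 0x400000004000000040000001e0000000f0000000800000008 3 5) 0 0 (step_sound _ 130 [rh3a9e3d20902516bb, (rh8eb2d15efc505b0f.shift 1 1)] (by decide +kernel))
noncomputable def rh06a33353b30c16fb : CRef := CRef.mk (Pat.mk 0x60000000b00000003 0x1f0000001f00000003 3 5) 0 0 (step_sound _ 36 [(rh940c5ff771d5b174.shift 0 1), rhb2a0b9ccfb5cecd5] (by decide +kernel))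
noncomputable def rh657a1c6d7f2f8475 : CRef := CRef.mk (Pat.mk 0xc0000001600000002 0xe0000007e00000003 3 7) 0 0 (step_sound _ 35 [(rh79b3c29022acbdf3.shift 1 1), rheb0810cc63b001d8] (by decide +kernel))
noncomputable def rh683af594bae415dd : CRef := CRef.mk (Pat.mk 0xc0000000c0000000000000004 0xa0000000f0000003c0000000400000004 3 6) 0 0 (step_sound _ 97 [(rh6292bd8784ece55f.shift 0 2), (rhd1f9989d6034576a.shift 1 0)] (by decide +kernel))
noncomputable def rh366c90e856cf6bfa : CRef := CRef.mk (Pat.mk 0x300000003000000060000000200000000 0x200000002000000020000000300000007000000070000000300000001 3 3) 0 0 (step_sound _ 161 [rh0ec68e0bf4727743, (rh493ba90d7b88e72e.shift 0 2)] (by decide +kernel))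
noncomputable def rhf58aeb14c3aa02f9 : CRef := CRef.mk (Pat.mk 0x600000006000000180000000c00000000 0x6000000060000001a0000000f00000006 3 5) 0 0 (step_sound _ 33 [(rh53b3c253cb0c65f4.shift 0 1), (rh8556ce617a451e36.shift 1 0)] (by decide +kernel))
noncomputable def rh32a3a6edf5ebd8dc : CRef := CRef.mk (Pat.mk 0x180000001c000000080000000000000000 0x40000001f0000003c000000080000000800000008 3 6) 0 0 (step_sound _ 130 [(rh40241bd608e5be1a.shift 2 0), (rhe2b63c00a3d7bb73.shift 0 3)] (by decide +kernel))
noncomputable def rha55cc9ce59b001de : CRef := CRef.mk (Pat.mk 0x200000007000000060000000c 0x40000000c0000001e000000070000000e0000000c 3 5) 0 0 (step_sound _ 98 [(rh493ba90d7b88e72e.shift 1 0), rh712526e472efe489] (by decide +kernel))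
noncomputable def rh0595ed588e979744 : CRef := CRef.mk (Pat.mk 0x3000000030000000400000001 0x2000000020000000200000003000000070000000500000001 3 3) 0 0 (step_sound _ 129 [(rh493ba90d7b88e72e.shift 0 1), rh9e3edb185cc347de] (by decide +kernel))
noncomputable def rh1afe2a495de0c9aa : CRef := CRef.mk (Pat.mk 0x20000000300000006000000020000000000000000 0x20000000700000007000000030000000300000003 3 3) 0 0 (step_sound _ 33 [rh7928877f9bf74a91, rhc705a4e0321a1bff] (by decide +kernel))
noncomputable def rh77fcd6e96530338f : CRef := CRef.mk (Pat.mk 0xe000000060000000200000002 0x390000003f000000060000000200000002 3 6) 0 0 (step_sound _ 132 [rh1fdbdd9a631b75d3, (rh8284118167888cf9.shift 1 2)] (by decide +kernel))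
noncomputable def rhd61170a4350d1d55 : CRef := CRef.mk (Pat.mk 0xc0000001c000000000000000c00000000 0x20000000f0000001c000000040000000c00000008 3 5) 0 0 (step_sound _ 66 [(rh277b01412deaec89.shift 0 1), (rh55afc6a59410cf00.shift 2 0)] (by decide +kernel))
noncomputable def rhebc380ca1da87b63 : CRef := CRef.mk (Pat.mk 0xe000000000000001e 0xf000000380000001f 3 6) 0 0 (step_sound _ 36 [(rh33e738c4ed385b9f.shift 1 0), rh4dae6fdf479479c1] (by decide +kernel))
noncomputable def rhf55c9a9827d55bd5 : CRef := CRef.mk (Pat.mk 0x60000000e000000180000000400000000 0x60000000e0000001a0000000f0000000e 3 5) 0 0 (step_sound _ 33 [rh715f2fe878c18bbd, (rh8556ce617a451e36.shift 1 0)] (by decide +kernel))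
noncomputable def rh6805faa4221ff320 : CRef := CRef.mk (Pat.mk 0xf0000000d0000000800000000 0x180000000f0000000f0000001800000010 3 5) 0 0 (step_sound _ 36 [rh7e2967714be94ca8, (rhab22b5b56e7b3243.shift 0 1)] (by decide +kernel))
noncomputable def rh24b4fcc23b37b387 : CRef := CRef.mk (Pat.mk 0x50000000f0000000d0000000000000000 0x1000000050000000f0000000f0000001a0000000a 3 5) 0 0 (step_sound _ 65 [rh3ebc98c19791ad58, rh78974448101547fe] (by decide +kernel))
noncomputable def rh7df2813c05b22b13 : CRef := CRef.mk (Pat.mk 0x3000000010000000300000004 0x20000000200000003000000030000000700000005 3 3) 0 0 (step_sound _ 129 [rh71222050f2c63a3a, rh728581fff52300a9] (by decide +kernel))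
noncomputable def rheae168e16a07fd6e : CRef := CRef.mk (Pat.mk 0x200000001000000030000000600000000 0x2000000020000000200000003000000070000000600000004 3 3) 0 0 (step_sound _ 97 [(rh493ba90d7b88e72e.shift 0 1), (rh55afc6a59410cf00.shift 1 0)] (by decide +kernel))
noncomputable def rhb974c8386da29de2 : CRef := CRef.mk (Pat.mk 0x1e0000000400000004 0x800000008000000380000001f0000000c00000004 3 6) 0 0 (step_sound _ 99 [(rh69755ef358ebfd54.shift 2 0), (rhec46bd5500c722c9.shift 0 2)] (by decide +kernel))
noncomputable def rh525281fc1e4dcf8f : CRef := CRef.mk (Pat.mk 0x1000000070000000400000006000000000000000000000000 0x1000000070000000600000006000000060000000200000002 3 3) 0 0 (step_sound _ 65 [(rh2613c889e411427e.shift 0 2), (rh42548283029e2a39.shift 1 0)] (by decide +kernel))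
noncomputable def rh99852f661ce00704 : CRef := CRef.mk (Pat.mk 0x40000000e000000100000001c00000000 0x40000000e0000001a0000001f0000000b 3 5) 0 0 (step_sound _ 33 [rh29ed1d9e79c1bb2d, rhd2f89fd9c0f3703a] (by decide +kernel))
noncomputable def rhfed574255f467ca7 : CRef := CRef.mk (Pat.mk 0xc000000080000000e0000000000000000 0x40000000c000000080000000f0000001800000010 3 5) 0 0 (step_sound _ 35 [(rh50fbb5868c909700.shift 2 1), rhbdde238153e38af9] (by decide +kernel))
noncomputable def rh12f4fd7d63e42699 : CRef := CRef.mk (Pat.mk 0x1e000000100000000e00000000 0xb0000001e0000001a0000000f00000004 3 5) 0 0 (step_sound _ 2 [rh43d12784403a4198, rh7f8e4a6fbe0e1f11] (by decide +kernel))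
noncomputable def rha899420526ba09c6 : CRef := CRef.mk (Pat.mk 0x40000001e000000000000000600000000 0x70000001e000000020000000600000006 3 5) 0 0 (step_sound _ 65 [(rh71222050f2c63a3a.shift 1 0), rhf8e4078eeb954a28] (by decide +kernel))
noncomputable def rh5ddea70b1fe3dccd : CRef := CRef.mk (Pat.mk 0x400000006000000200000001c00000000 0x400000006000000620000003e00000007 3 7) 0 0 (step_sound _ 1 [rh278bde3afe19cb5d, (rh9ca324c51727eb46.shift 1 0)] (by decide +kernel))
noncomputable def rhcdbdc71bbad41a8b : CRef := CRef.mk (Pat.mk 0x200000003000000000000000e00000001 0x200000003000000010000001f0000003b 3 6) 0 0 (step_sound _ 4 [rhb25fef5ffc153beb, rhce9a05d846050245] (by decide +kernel))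
noncomputable def rh37719d330d2bd6f6 : CRef := CRef.mk (Pat.mk 0x40000001e000000000000000e00000000 0x40000001e000000380000000f00000008 3 6) 0 0 (step_sound _ 67 [(rh7b1f1fb55310c477.shift 2 0), (rhde5424e3c1125e61.shift 0 1)] (by decide +kernel))
noncomputable def rhf7b0d986b644b40c : CRef := CRef.mk (Pat.mk 0x60000000e0000000000000000 0x400000004000000060000003e0000000300000002 3 6) 0 0 (step_sound _ 33 [(rh84d1c02a8954c6a8.shift 1 0), (rha9e1a5d55b907abf.shift 0 1)] (by decide +kernel))
noncomputable def rhba07db35cd93fef9 : CRef := CRef.mk (Pat.mk 0x600000016000000000000000400000000 0x70000001e000000030000000600000006 3 5) 0 0 (step_sound _ 65 [(rh51246ab843efda05.shift 0 2), (rh9b4df57cddcda711.shift 1 0)] (by decide +kernel))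
noncomputable def rhba63279a09412173 : CRef := CRef.mk (Pat.mk 0x5000000070000000100000002 0x500000007000000070000000700000002 3 3) 0 0 (step_sound _ 33 [rh2145e1d24b96a57e, (rheb4949bdfa5025cf.shift 1 0)] (by decide +kernel))
noncomputable def rh0c93b5598687f5dc : CRef := CRef.mk (Pat.mk 0x6000000050000000700000000 0x200000007000000070000000700000005 3 3) 0 0 (step_sound _ 129 [rh2738edcf84b3bede, (rh7b1f1fb55310c477.shift 1 0)] (by decide +kernel))
noncomputable def rhb95959541b1cd1f5 : CRef := CRef.mk (Pat.mk 0x18000000140000000c0000000000000000 0x8000000380000001f0000000c0000000400000004 3 6) 0 0 (step_sound _ 99 [(rh1e309b005ffa1b36.shift 2 0), (rhab2ad169e49f9c5e.shift 0 3)] (by decide +kernel))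
noncomputable def rhe9cf0f60a18f3312 : CRef := CRef.mk (Pat.mk 0xc0000001a000000080000000000000000 0x100000001e0000001f000000080000000800000008 3 5) 0 0 (step_sound _ 132 [(rh076be03eb7063320.shift 0 3), (rhea7a1800d6f053bd.shift 3 0)] (by decide +kernel))
noncomputable def rh50dfd87bd25122c4 : CRef := CRef.mk (Pat.mk 0x60000000c0000000400000004 0x80000000f0000003c0000000400000004 3 6) 0 0 (step_sound _ 68 [rhd62aa8c143bedf8f, (rhf48373e13d2bc128.shift 1 2)] (by decide +kernel))
noncomputable def rh8684a9eeaf4c57a0 : CRef := CRef.mk (Pat.mk 0x1e00000006000000020000000000000000 0x30000001f00000006000000020000000200000002 3 5) 0 0 (step_sound _ 33 [(rh71222050f2c63a3a.shift 1 0), (rha25c0e62bb8d55c9.shift 0 1)] (by decide +kernel))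
noncomputable def rh7995a65e853de7b4 : CRef := CRef.mk (Pat.mk 0xe00000006000000020000000000000000 0x30000003f00000006000000020000000200000002 3 6) 0 0 (step_sound _ 160 [rh2f3e416c6263c0c2, (rh8abea2a7b1fd427a.shift 0 3)] (by decide +kernel))
noncomputable def rhbe81abd608b45786 : CRef := CRef.mk (Pat.mk 0x1e00000004 0x70000003e00000006 3 6) 0 0 (step_sound _ 37 [(rhd5eb272e07a4e288.shift 0 1), (rheb0810cc63b001d8.shift 1 0)] (by decide +kernel))
noncomputable def rhe400382f5cb72a90 : CRef := CRef.mk (Pat.mk 0xc0000000d000000080000000000000000 0x80000000c0000000f000000180000001800000018 3 5) 0 0 (step_sound _ 36 [(rh7bed6280d5711866.shift 2 0), (rha5b5ac62a0abe102.shift 0 1)] (by decide +kernel))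
noncomputable def rh26c06edd948ee532 : CRef := CRef.mk (Pat.mk 0x80000003c 0x3c000000ff 3 8) 0 0 (step_sound _ 36 [(rh79b3c29022acbdf3.shift 2 0), rhab2ad169e49f9c5e] (by decide +kernel))
noncomputable def rhcf02561c3c7740f4 : CRef := CRef.mk (Pat.mk 0x40000001c0000000400000004 0x20000000f0000001e0000000400000004 3 5) 0 0 (step_sound _ 97 [(rh50fbb5868c909700.shift 1 0), (rhd8e93bbc8568df99.shift 0 2)] (by decide +kernel))
noncomputable def rh8a949bf7371eaf50 : CRef := CRef.mk (Pat.mk 0x1e0000000c000000000000000800000000 0x130000001e0000000c0000000c0000000c00000004 3 5) 0 0 (step_sound _ 34 [(rh0da3f8d18d3a0dfd.shift 0 1), (rh12cda698427604cb.shift 2 0), (rhc93583770a36d0f1.shift 1 0), (rhecb97fed8c7f1286.shift 2 0)] (by decide +kernel))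
noncomputable def rha9ba15e0ca03f9f3 : CRef := CRef.mk (Pat.mk 0x20000001e00000018 0x60000003e0000001f 3 6) 0 0 (step_sound _ 1 [(rhd3bcc5cf86cc8d52.shift 1 0), rheb0810cc63b001d8] (by decide +kernel))
noncomputable def rh5a2e75618eb01199 : CRef := CRef.mk (Pat.mk 0xe0000001e00000000 0x200000002000000030000003e0000001e00000004 3 6) 0 0 (step_sound _ 97 [(rh3e595262c1b737ad.shift 1 0), (rhab4e9783066f5194.shift 0 1)] (by decide +kernel))
noncomputable def rha7e6dd9c17b832ee : CRef := CRef.mk (Pat.mk 0x1800000018000000180000001000000000 0x40000001f00000038000000180000001800000008 3 6) 0 0 (step_sound _ 130 [(rh0a1b9952fa1e5fed.shift 2 0), (rhad5d8fc3675c15dd.shift 0 3)] (by decide +kernel))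
noncomputable def rhef954bd0609e10e0 : CRef := CRef.mk (Pat.mk 0x40000000c0000000c0000000c00000000 0x80000000c0000000c0000000f0000003c00000010 3 6) 0 0 (step_sound _ 36 [(rh8eecbcd87de0d74d.shift 2 0), (rhe2b63c00a3d7bb73.shift 0 1)] (by decide +kernel))
noncomputable def rh24e8898edc125a7e : CRef := CRef.mk (Pat.mk 0x1e0000001c000000000000000000000000 0x80000001e0000001f000000300000001000000010 3 6) 0 0 (step_sound _ 68 [(rh3cb04db3dd2b6a55.shift 3 0), (rh6494f8aa5ec0db11.shift 0 2)] (by decide +kernel))
noncomputable def rh7bdb302b2bab8d3b : CRef := CRef.mk (Pat.mk 0x1e0000000e000000000000000000000000 0x40000001e0000003e000000030000000200000002 3 6) 0 0 (step_sound _ 65 [(rhea7a1800d6f053bd.shift 1 0), (rhf4a8c4344b41c99c.shift 0 2)] (by decide +kernel))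
noncomputable def rh7e23a051210591ac : CRef := CRef.mk (Pat.mk 0x700000003000000010000000000000000 0x50000000700000003000000030000000300000003 3 3) 0 0 (step_sound _ 33 [rh9b4df57cddcda711, (rhed18b8ab05e58db5.shift 0 1)] (by decide +kernel))
noncomputable def rh94d29ce285401ff2 : CRef := CRef.mk (Pat.mk 0x60000000c00000006 0xf0000003e00000006 3 6) 0 0 (step_sound _ 36 [(rh18965a982d73c794.shift 1 0), (rhd8e93bbc8568df99.shift 0 1)] (by decide +kernel))
noncomputable def rha793ea9456b75954 : CRef := CRef.mk (Pat.mk 0x180000003c 0x1f0000003f 3 6) 0 0 (step_sound _ 33 [rh5c36e97be8af272f, (rhab22b5b56e7b3243.shift 1 0)] (by decide +kernel))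
noncomputable def rhf6f3a7b483ec3794 : CRef := CRef.mk (Pat.mk 0x300000003000000020000000600000000 0x20000000300000003000000070000000700000001 3 3) 0 0 (step_sound _ 32 [(rh7b4a76157e5abfc9.shift 0 1), rh932754581e0f4330] (by decide +kernel))
noncomputable def rh71a80c5f65c552e9 : CRef := CRef.mk (Pat.mk 0x180000001e00000000 0x1f0000003e00000007 3 6) 0 0 (step_sound _ 37 [(rh5d685137714d9fe9.shift 0 1), rheae1728ff4a56756] (by decide +kernel))
noncomputable def rhf9b3750bf21cfb8f : CRef := CRef.mk (Pat.mk 0x6000000160000000000000000 0x400000004000000070000001e0000000300000002 3 5) 0 0 (step_sound _ 33 [(rh51246ab843efda05.shift 0 1), (rh84d1c02a8954c6a8.shift 1 0)] (by decide +kernel))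
noncomputable def rhcb19a8d324d72a1f : CRef := CRef.mk (Pat.mk 0x1e0000000600000002 0x1f0000003e00000003 3 6) 0 0 (step_sound _ 36 [rhbfaee8c0e3c96ac2, (rhe25b0a99195a5d59.shift 1 1)] (by decide +kernel))
noncomputable def rhc3e6a65d34c1364f : CRef := CRef.mk (Pat.mk 0x8000000080000000c00000018 0x800000008000000080000000f0000003c 3 6) 0 0 (step_sound _ 33 [(rh6826f722115a4c88.shift 1 0), rhb739f4f82bb681b4] (by decide +kernel))
noncomputable def rha754f9a1ea1dce62 : CRef := CRef.mk (Pat.mk 0x20000001e0000000a0000000a00000000 0x20000001e0000003a0000000f00000004 3 6) 0 0 (step_sound _ 34 [(rh55afc6a59410cf00.shift 1 0), (rhde5424e3c1125e61.shift 0 1)] (by decide +kernel))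
noncomputable def rhc1c3a2ce4399bea0 : CRef := CRef.mk (Pat.mk 0x80000000c000000070000001000000000 0x80000000c000000070000003e00000004 3 6) 0 0 (step_sound _ 34 [(rh68691964b29f233d.shift 0 1), (rh71222050f2c63a3a.shift 2 0)] (by decide +kernel))
noncomputable def rhe6b57ff12fcf6cc6 : CRef := CRef.mk (Pat.mk 0xf0000000400000004 0x8000000180000000f0000001c00000004 3 5) 0 0 (step_sound _ 99 [(rh33e738c4ed385b9f.shift 0 2), rhf125bcd6a8e76387] (by decide +kernel))
noncomputable def rh8d15c12966694587 : CRef := CRef.mk (Pat.mk 0x3e00000010 0x70000003f00000018 3 6) 0 0 (step_sound _ 32 [rh96851dee118c1ba3, (rhd5eb272e07a4e288.shift 0 1)] (by decide +kernel))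
noncomputable def rh6b0e6ea20bf12a11 : CRef := CRef.mk (Pat.mk 0x20000000200000002000000020000000200000000 0x20000000200000002000000030000000700000005 3 3) 0 0 (step_sound _ 2 [rh7928877f9bf74a91, (rhd3458b32566d63f7.shift 1 0)] (by decide +kernel))
noncomputable def rh0af2b86dadac4724 : CRef := CRef.mk (Pat.mk 0x20000000a000000030000000200000000 0x4000000060000001e000000030000000200000002 3 5) 0 0 (step_sound _ 98 [(rh18965a982d73c794.shift 0 2), (rha707fb719e87fe6e.shift 1 0)] (by decide +kernel))
noncomputable def rh5c7b241c6adc4f46 : CRef := CRef.mk (Pat.mk 0x10000000120000001c 0x300000001f0000003c 3 6) 0 0 (step_sound _ 34 [rh086172e1ea5e5fe6, (rhf48373e13d2bc128.shift 1 0)] (by decide +kernel))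
noncomputable def rha1c3a5e5dc6a3e7f : CRef := CRef.mk (Pat.mk 0x40000000600000000000000100000001c 0x40000000600000002000000330000001e 3 6) 0 0 (step_sound _ 1 [(rh33e738c4ed385b9f.shift 1 0), rh750ebacf582109c4] (by decide +kernel))
noncomputable def rh164c324cdb1ed3e3 : CRef := CRef.mk (Pat.mk 0xe000000080000000e 0xf000000780000001e 3 7) 0 0 (step_sound _ 36 [(rh572132728df34c43.shift 1 0), (rhb739f4f82bb681b4.shift 0 1)] (by decide +kernel))
noncomputable def rhe1fb3149fe8dafbb : CRef := CRef.mk (Pat.mk 0x40000000c00000018000000020000001c 0x40000000f0000001a000000030000001e 3 5) 0 0 (step_sound _ 1 [rh3244c3cc8379b070, rhbc9a7c6e843e5ac5] (by decide +kernel))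
noncomputable def rh2eb0eda4d0668778 : CRef := CRef.mk (Pat.mk 0x600000004000000000000001e00000000 0x600000006000000030000001e00000006 3 5) 0 0 (step_sound _ 65 [(rh3244c3cc8379b070.shift 0 1), (rhd875f4b8fd969386.shift 1 0)] (by decide +kernel))
noncomputable def rh8b711b6d01dafee8 : CRef := CRef.mk (Pat.mk 0x40000000e0000001a0000000400000000 0x40000000e0000001a0000000f0000000a 3 5) 0 0 (step_sound _ 35 [rh42558e9c3b58f747, (rh7b1f1fb55310c477.shift 2 0)] (by decide +kernel))
noncomputable def rh0405e677ca7cdf6b : CRef := CRef.mk (Pat.mk 0x200000002000000020000001e00000000 0x200000002000000020000001f00000039 3 6) 0 0 (step_sound _ 32 [rh4ad5fc38f1b69f65, rh932754581e0f4330] (by decide +kernel))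
noncomputable def rh31036afee8c0f33e : CRef := CRef.mk (Pat.mk 0x20000001e000000080000000000000004 0x20000003e0000000f0000000400000004 3 6) 0 0 (step_sound _ 66 [(rh4dc133ee0ba1420a.shift 0 2), (rh9e07f76261b05888.shift 1 0)] (by decide +kernel))
noncomputable def rhdeec3bc2a8e1e9dd : CRef := CRef.mk (Pat.mk 0x10000000100000002000000020000000000000000 0x1000000010000000300000003000000020000000200000002 3 2) 0 0 (step_sound _ 96 [rh08edf065357d68e5, (rh2145e1d24b96a57e.shift 0 2)] (by decide +kernel))
noncomputable def rh02313f6a49849429 : CRef := CRef.mk (Pat.mk 0x4000000060000001c0000000000000000 0x4000000070000001e0000000300000002 3 5) 0 0 (step_sound _ 65 [(rh3244c3cc8379b070.shift 0 2), rh9c40a739b57d6d20] (by decide +kernel))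
noncomputable def rhb10cb61a8c906cb1 : CRef := CRef.mk (Pat.mk 0x180000003800000024 0x180000003f00000036 3 6) 0 0 (step_sound _ 34 [rh8d917b916e5f3510, (rheb0810cc63b001d8.shift 1 0)] (by decide +kernel))
noncomputable def rh79cff8fda540c0b7 : CRef := CRef.mk (Pat.mk 0x400000002000000030000000c00000008 0x40000001e0000000f0000000c00000008 3 5) 0 0 (step_sound _ 98 [rh1ebae77060ef1c3f, (rhff0f29cb645b05f7.shift 2 0)] (by decide +kernel))
noncomputable def rh31c462017f9e0af7 : CRef := CRef.mk (Pat.mk 0xf0000000500000008 0x1f0000001f00000018 3 5) 0 0 (step_sound _ 33 [(rh18965a982d73c794.shift 0 1), rh8ef9dd588f33bbde] (by decide +kernel))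
noncomputable def rh01ce562d3abaa039 : CRef := CRef.mk (Pat.mk 0xc00000018000000080000000800000000 0x1f00000038000000080000000800000008 3 6) 0 0 (step_sound _ 132 [(rh71222050f2c63a3a.shift 3 0), (rhad5d8fc3675c15dd.shift 0 3)] (by decide +kernel))
noncomputable def rh85bf098f54feb6c6 : CRef := CRef.mk (Pat.mk 0x20000000200000002000000030000000200000000 0x2000000030000000300000003000000030000000200000002 3 2) 0 0 (step_sound _ 96 [(rh5c5e593799055d58.shift 0 2), rhfc7c29d8e65d775f] (by decide +kernel))
noncomputable def rh4e4520b7279550b5 : CRef := CRef.mk (Pat.mk 0x3000000060000000600000000 0x200000002000000030000001e0000000600000004 3 5) 0 0 (step_sound _ 67 [(rh3e595262c1b737ad.shift 1 0), (rhf48373e13d2bc128.shift 0 2)] (by decide +kernel))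
noncomputable def rhd968d8afdc408fff : CRef := CRef.mk (Pat.mk 0x1c00000008000000000000000600000002 0x3c0000000f000000040000000600000002 3 6) 0 0 (step_sound _ 98 [(rh3c88ce959c0e423f.shift 1 0), (rh4dc133ee0ba1420a.shift 0 3)] (by decide +kernel))
noncomputable def rhca7b1c75b4cec277 : CRef := CRef.mk (Pat.mk 0x180000000c00000018 0x180000001f0000003c 3 6) 0 0 (step_sound _ 33 [(rh53b3c253cb0c65f4.shift 0 1), (rhae2edff970a530ce.shift 1 0)] (by decide +kernel))
noncomputable def rh4e00e36f06f7e587 : CRef := CRef.mk (Pat.mk 0x7000000030000000c00000004 0x180000001f0000000b0000000c00000004 3 5) 0 0 (step_sound _ 99 [(rh18965a982d73c794.shift 0 2), rh8bba9c09a1e3aa82] (by decide +kernel))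
noncomputable def rh5748ac5743f3b44a : CRef := CRef.mk (Pat.mk 0x4000000030000000300000006 0x20000000600000006000000030000000700000006 3 3) 0 0 (step_sound _ 97 [(rh2f68792b6b779e96.shift 1 0), rh493ba90d7b88e72e] (by decide +kernel))
noncomputable def rh6225a586cfd1ed95 : CRef := CRef.mk (Pat.mk 0x400000004000000180000000e00000006 0xc0000000f0000001a0000000e00000006 3 5) 0 0 (step_sound _ 99 [(rh5c5e593799055d58.shift 2 0), rhbc9a7c6e843e5ac5] (by decide +kernel))
noncomputable def rhc3e3dabddd572587 : CRef := CRef.mk (Pat.mk 0x200000002000000020000000600000002 0x30000000300000003000000060000000600000002 3 3) 0 0 (step_sound _ 161 [rh3ca48e2a6d60153d, (rhd3458b32566d63f7.shift 1 1)] (by decide +kernel))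
noncomputable def rh1d0feb764c8c303c : CRef := CRef.mk (Pat.mk 0x70000000c00000004 0x8000000180000000f0000001c00000004 3 5) 0 0 (step_sound _ 67 [rh5421160f8e9bcf07, (rhe25b0a99195a5d59.shift 0 1)] (by decide +kernel))
noncomputable def rhbaf9f4f7f7cecbf6 : CRef := CRef.mk (Pat.mk 0x1e0000001600000008 0x10000000300000001f0000001e00000008 3 6) 0 0 (step_sound _ 35 [(rh3244c3cc8379b070.shift 0 1), (rh5421160f8e9bcf07.shift 1 0)] (by decide +kernel))
noncomputable def rh005328c9d6472acf : CRef := CRef.mk (Pat.mk 0x180000000c00000010 0x380000001f00000030 3 6) 0 0 (step_sound _ 33 [(rh53b3c253cb0c65f4.shift 0 1), (rhf9dd539d91bdf46b.shift 1 0)] (by decide +kernel))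
noncomputable def rhc45960fcf2a66b44 : CRef := CRef.mk (Pat.mk 0x1000000030000000300000001 0x30000000300000003000000030000000300000001 3 2) 0 0 (step_sound _ 129 [(rh82bd946b1709a78e.shift 0 1), rhbaefcd01e0a8bca3] (by decide +kernel))
noncomputable def rhf7fddb5c8278e462 : CRef := CRef.mk (Pat.mk 0x100000000e0000000c 0x300000003e0000000f 3 6) 0 0 (step_sound _ 36 [(rh33e738c4ed385b9f.shift 1 1), rh4dc133ee0ba1420a] (by decide +kernel))
noncomputable def rh047c6b19c40200e1 : CRef := CRef.mk (Pat.mk 0x20000000600000007000000030000000000000000 0x1000000030000000700000007000000030000000200000002 3 3) 0 0 (step_sound _ 160 [(rh50fbb5868c909700.shift 0 2), rh530f636ca6cd92e8] (by decide +kernel))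
noncomputable def rhbc4bbdb362653f0c : CRef := CRef.mk (Pat.mk 0x180000001c0000000c0000000400000000 0x60000001f0000001c0000000c0000000c00000008 3 5) 0 0 (step_sound _ 130 [(rh277b01412deaec89.shift 0 1), (rh3ebc98c19791ad58.shift 2 0)] (by decide +kernel))
noncomputable def rh6b5f6cdf4ea71b7d : CRef := CRef.mk (Pat.mk 0x1e0000000600000004 0x2000000330000001e0000000600000004 3 6) 0 0 (step_sound _ 100 [rh309fd0c3d364cd61, (rh33e738c4ed385b9f.shift 1 2)] (by decide +kernel))
noncomputable def rheff198f4e8d1bfcc : CRef := CRef.mk (Pat.mk 0x100000003000000060000000300000000 0x20000000300000003000000070000000700000001 3 3) 0 0 (step_sound _ 129 [rh932754581e0f4330, (rhc1b3bd7213822395.shift 0 1)] (by decide +kernel))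
noncomputable def rh2e7d15d2c4e4b639 : CRef := CRef.mk (Pat.mk 0x200000006000000060000001a0000000800000000 0x200000006000000060000001e0000000f00000004 3 5) 0 0 (step_sound _ 34 [rh75c7a92d24270dd4, (rh9e07f76261b05888.shift 1 1)] (by decide +kernel))
noncomputable def rhddb36415e93aba83 : CRef := CRef.mk (Pat.mk 0x200000007000000060000000c0000000800000000 0x300000007000000060000000f0000001b00000002 3 5) 0 0 (step_sound _ 65 [rh40241bd608e5be1a, (rh9f67957f47428996.shift 0 1)] (by decide +kernel))
noncomputable def rh0800d9e20a1cd0ef : CRef := CRef.mk (Pat.mk 0xc0000001800000030 0xf0000003e00000030 3 6) 0 0 (step_sound _ 34 [(rhb739f4f82bb681b4.shift 1 0), (rhe2b63c00a3d7bb73.shift 0 1)] (by decide +kernel))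
noncomputable def rh98619266ffce163e : CRef := CRef.mk (Pat.mk 0x80000001e 0x3b0000001f 3 6) 0 0 (step_sound _ 33 [rh3244c3cc8379b070, rhec46bd5500c722c9] (by decide +kernel))
noncomputable def rh0a0d555fa8352b31 : CRef := CRef.mk (Pat.mk 0x4000000040000000e0000000200000000 0x4000000070000001e0000000300000002 3 5) 0 0 (step_sound _ 68 [rh4cdd80ef82c269a0, (rheb0810cc63b001d8.shift 0 1)] (by decide +kernel))
noncomputable def rh1503251e5b1998d9 : CRef := CRef.mk (Pat.mk 0x8000000080000000c0000001400000000 0x8000000080000000f0000003c00000004 3 6) 0 0 (step_sound _ 35 [(rh932754581e0f4330.shift 2 0), (rhe2b63c00a3d7bb73.shift 0 1)] (by decide +kernel))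
noncomputable def rh1feba9f2cf2f1c4f : CRef := CRef.mk (Pat.mk 0x400000004000000080000000e00000000 0x4000000040000003c0000000f00000002 3 6) 0 0 (step_sound _ 66 [(rh932754581e0f4330.shift 1 0), (rhf9d36e158778ce35.shift 0 1)] (by decide +kernel))
end Crest.Agent.S0047.Helper85.Cert
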