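import Crest.Agent.Lib.S0047.Helper85CertPL2F0
import Crest.Agent.Lib.S0047.Helper85CertPL2F1
set_option autoImplicit false
set_option linter.all false
set_option Elab.async false
namespace Crest.Agent.S0047.Helper85.Cert
open Crest.Agent.S0047.Helper85

noncomputable def rh4e2e409ae54a82ac : CRef := CRef.mk (Pat.mk 0x800000000000000000000001f00000000 0x800000008000000180000001f00000030 3 6) 0 0 (step_sound _ 67 [(rh3098af7943687178.shift 1 0), (rh33e738c4ed385b9f.shift 0 1)] (by decide +kernel))
noncomputable def rh0125eb60650aaa08 : CRef := CRef.mk (Pat.mk 0x80000001e000000100000000000000000 0x8000000180000001f000000100000001000000010 3 5) 0 0 (step_sound _ 132 [(rh3cb04db3dd2b6a55.shift 3 0), (rh53b3c253cb0c65f4.shift 0 3)] (by decide +kernel))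
noncomputable def rh026fe94e65800e5e : CRef := CRef.mk (Pat.mk 0xc000000070000000400000000 0xa0000001e000000070000000400000004 3 5) 0 0 (step_sound _ 97 [(rh18965a982d73c794.shift 0 2), (rh261f868a429ae0e3.shift 1 0)] (by decide +kernel))
noncomputable def rh93a017a2c26e91a1 : CRef := CRef.mk (Pat.mk 0x4000000030000000600000006000000000000000000000000 0x4000000070000000700000006000000020000000200000002 3 3) 0 0 (step_sound _ 65 [rh2f3e416c6263c0c2, (rhbaefcd01e0a8bca3.shift 1 2)] (by decide +kernel))
noncomputable def rh21abf31ca5f202dd : CRef := CRef.mk (Pat.mk 0x200000003000000020000000200000000 0x50000000700000003000000020000000200000002 3 3) 0 0 (step_sound _ 130 [(rh2f68792b6b779e96.shift 1 1), rhe286c75f2739cce2] (by decide +kernel))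
noncomputable def rh4cce41f1a85d309f : CRef := CRef.mk (Pat.mk 0x1c00000008000000000000000600000002 0x1c0000000f000000060000000600000002 3 5) 0 0 (step_sound _ 98 [(rh3c88ce959c0e423f.shift 1 0), rh914efc139468a458] (by decide +kernel))
noncomputable def rh1805d4d225594aed : CRef := CRef.mk (Pat.mk 0x80000001e000000060000000000000000 0x20000000b0000001e000000060000000400000004 3 5) 0 0 (step_sound _ 129 [(rh3244c3cc8379b070.shift 0 3), (rh3ebc98c19791ad58.shift 1 0)] (by decide +kernel))
noncomputable def rh07e006e2762b0d4d : CRef := CRef.mk (Pat.mk 0x60000000f 0x3e0000003f 3 6) 0 0 (step_sound _ 36 [rh428265de8cd3cd2d, (rheff610e725081997.shift 1 0)] (by decide +kernel))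
noncomputable def rh7074bf3ab6014c74 : CRef := CRef.mk (Pat.mk 0x30000000600000006000000040000000000000000 0x1000000070000000600000006000000060000000200000002 3 3) 0 0 (step_sound _ 65 [(rh1e309b005ffa1b36.shift 1 0), (rh50fbb5868c909700.shift 0 2)] (by decide +kernel))
noncomputable def rhab1b16f636fc134c : CRef := CRef.mk (Pat.mk 0x400000003000000030000000c00000000 0x500000007000000030000001e00000002 3 5) 0 0 (step_sound _ 33 [rh2d5442cbf338480d, (rhf48373e13d2bc128.shift 0 1)] (by decide +kernel))
noncomputable def rh424c003c0248fb9f : CRef := CRef.mk (Pat.mk 0x1e000000060000000800000008 0x100000001f0000003e0000000800000008 3 6) 0 0 (step_sound _ 67 [(rh2f68792b6b779e96.shift 3 0), (rh5c2ddd300f751bae.shift 0 2)] (by decide +kernel))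
noncomputable def rhe2955346dbef5bae : CRef := CRef.mk (Pat.mk 0x4000000070000000c0000000000000000 0x400000004000000070000001e0000000200000002 3 5) 0 0 (step_sound _ 65 [(rh1e309b005ffa1b36.shift 1 0), (rhf48373e13d2bc128.shift 0 2)] (by decide +kernel))
noncomputable def rh349ec9f7ee54d10d : CRef := CRef.mk (Pat.mk 0x4000000040000001c0000000400000000 0x400000004000000040000001e0000000700000002 3 5) 0 0 (step_sound _ 33 [(rh0c1db84848fdfb70.shift 0 1), (rh932754581e0f4330.shift 1 0)] (by decide +kernel))
noncomputable def rh9886dc8bf5c5d9df : CRef := CRef.mk (Pat.mk 0xc0000001c00000020 0x3c0000001f00000030 3 6) 0 0 (step_sound _ 33 [(rh96851dee118c1ba3.shift 1 0), (rhf9d36e158778ce35.shift 0 1)] (by decide +kernel))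
noncomputable def rh1e0824bc1af136bf : CRef := CRef.mk (Pat.mk 0xf000000040000000c00000000 0x80000001c0000000f000000040000000c00000008 3 5) 0 0 (step_sound _ 131 [(rh33e738c4ed385b9f.shift 0 3), (rh55c8fae470e8430a.shift 2 0)] (by decide +kernel))
noncomputable def rheb00f67a287487da : CRef := CRef.mk (Pat.mk 0x300000001000000060000000300000000 0x20000000300000003000000070000000700000001 3 3) 0 0 (step_sound _ 97 [rh932754581e0f4330, (rhc1b3bd7213822395.shift 0 1)] (by decide +kernel))
noncomputable def rhf132e5a2953a07c1 : CRef := CRef.mk (Pat.mk 0x4000000040000001e0000000600000000 0x4000000040000001f0000003e00000008 3 6) 0 0 (step_sound _ 35 [(rh55afc6a59410cf00.shift 2 0), (rh5c2ddd300f751bae.shift 0 1)] (by decide +kernel))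
noncomputable def rha960173494005d4a : CRef := CRef.mk (Pat.mk 0x3800000010000000040000001c00000002 0x3e00000074000000040000001e00000003 3 7) 0 0 (step_sound _ 130 [rh63bb60019a439056, (rha03f6e28ea70fc7d.shift 1 3)] (by decide +kernel))
noncomputable def rh41d942a7129d4d89 : CRef := CRef.mk (Pat.mk 0x40000000400000000000000080000001c 0x400000004000000040000000f0000003c 3 6) 0 0 (step_sound _ 34 [rhe2b63c00a3d7bb73, (rhff0f29cb645b05f7.shift 2 0)] (by decide +kernel))
noncomputable def rh2e79b52ba24d261f : CRef := CRef.mk (Pat.mk 0x80000000c0000001e0000000000000000 0x80000000c0000003e0000000700000004 3 6) 0 0 (step_sound _ 34 [(rh71222050f2c63a3a.shift 2 0), (rhaf9f2efc81a8312b.shift 0 1)] (by decide +kernel))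
noncomputable def rh9cde8ee4223ae862 : CRef := CRef.mk (Pat.mk 0x20000001f00000000 0x60000003f00000038 3 6) 0 0 (step_sound _ 37 [(rh3f8766e6ecb455ce.shift 1 1), rh4ad5fc38f1b69f65] (by decide +kernel))
noncomputable def rhd839b0d27cb88531 : CRef := CRef.mk (Pat.mk 0xc00000004000000180000000c00000000 0x80000000c000000040000001c0000000f00000002 3 5) 0 0 (step_sound _ 66 [(rh2f68792b6b779e96.shift 2 1), rhf5094ad2a427d4d3] (by decide +kernel))
noncomputable def rhd8b2b56e7aaa7d53 : CRef := CRef.mk (Pat.mk 0x20000000e0000000400000004 0x2000000070000003e0000000400000004 3 6) 0 0 (step_sound _ 68 [(rh3244c3cc8379b070.shift 0 2), (rh6279f4d0e372f7fa.shift 1 0)] (by decide +kernel))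
noncomputable def rhe61fd6f5e3dcfce9 : CRef := CRef.mk (Pat.mk 0xc000000070000000400000000 0xa0000001e000000070000000400000004 3 5) 0 0 (step_sound _ 2 [(rh2f68792b6b779e96.shift 2 0), rh50457521e58be46d] (by decide +kernel))
noncomputable def rh0b227814275d8e17 : CRef := CRef.mk (Pat.mk 0x80000000e000000090000000800000000 0x80000001e0000000f0000001800000010 3 5) 0 0 (step_sound _ 36 [(rh55afc6a59410cf00.shift 3 0), (rhecf70d5ad0b38994.shift 0 1)] (by decide +kernel))
noncomputable def rh315ddbde81e573c5 : CRef := CRef.mk (Pat.mk 0x100000001c0000000800000008 0x10000000380000001f0000000800000008 3 6) 0 0 (step_sound _ 99 [(rh2f68792b6b779e96.shift 3 0), (rhab2ad169e49f9c5e.shift 0 2)] (by decide +kernel))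
noncomputable def rhe0a9329fca2c5630 : CRef := CRef.mk (Pat.mk 0xe000000080000000c00000000 0x10000000180000000f000000080000000c00000004 3 5) 0 0 (step_sound _ 131 [(rh932754581e0f4330.shift 2 0), (rhdab32775f5c78fcf.shift 0 1)] (by decide +kernel))
noncomputable def rh32c58e03f09ef244 : CRef := CRef.mk (Pat.mk 0x3000000010000000300000000 0x20000000300000003000000010000000300000003 3 2) 0 0 (step_sound _ 128 [rh55afc6a59410cf00, rha707fb719e87fe6e] (by decide +kernel))
noncomputable def rh32524cfff1442c8f : CRef := CRef.mk (Pat.mk 0x50000000100000006000000020000000000000000 0x50000000700000006000000060000000200000002 3 3) 0 0 (step_sound _ 33 [(rh514fa720804abbca.shift 1 0), (rhcfdf45280693d3da.shift 0 1)] (by decide +kernel))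
noncomputable def rh1a2c94f8bd04ec57 : CRef := CRef.mk (Pat.mk 0x80000000b0000000c0000000000000000 0x8000000180000000f0000000c0000000400000004 3 5) 0 0 (step_sound _ 98 [(rh1e309b005ffa1b36.shift 2 0), (rh33e738c4ed385b9f.shift 0 3)] (by decide +kernel))
noncomputable def rh5eb5c87ad6247a88 : CRef := CRef.mk (Pat.mk 0x600000002000000030000000000000000 0x60000000600000002000000030000000300000001 3 3) 0 0 (step_sound _ 33 [rh03dfdf12d5937476, (rh2f68792b6b779e96.shift 1 1)] (by decide +kernel))
noncomputable def rh5013634b2ce580c1 : CRef := CRef.mk (Pat.mk 0x600000018 0x1f0000003c 3 6) 0 0 (step_sound _ 35 [(rhae2edff970a530ce.shift 1 0), rhb739f4f82bb681b4] (by decide +kernel))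
noncomputable def rhf4b6ff9bf202428e : CRef := CRef.mk (Pat.mk 0x200000003000000030000000200000002 0x2000000060000000600000007000000030000000200000002 3 3) 0 0 (step_sound _ 161 [(rh44f453b84f013105.shift 1 0), (rh5c5e593799055d58.shift 0 2)] (by decide +kernel))
noncomputable def rh8b44683104dc2fe1 : CRef := CRef.mk (Pat.mk 0x100000003000000060000000400000000 0x20000000300000003000000060000000600000006 3 3) 0 0 (step_sound _ 33 [(rh3e595262c1b737ad.shift 1 0), rh7b1f1fb55310c477] (by decide +kernel))
noncomputable def rhb99743c2849212cd : CRef := CRef.mk (Pat.mk 0x8000000180000001c0000000000000000 0x8000000180000001f0000003000000010 3 6) 0 0 (step_sound _ 65 [(rh53b3c253cb0c65f4.shift 0 2), (rh78974448101547fe.shift 1 0)] (by decide +kernel))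
noncomputable def rhcd11d81bf877826f : CRef := CRef.mk (Pat.mk 0x8000000080000001c0000001000000000 0x8000000180000001f0000003000000010 3 6) 0 0 (step_sound _ 100 [(rh7b1f1fb55310c477.shift 3 0), (rhf56e6bc5d2f7fe77.shift 0 1)] (by decide +kernel))
noncomputable def rh7c057b8ca417ecd1 : CRef := CRef.mk (Pat.mk 0x1f00000002 0x380000003f00000006 3 6) 0 0 (step_sound _ 37 [(rh80fcd6d0a18cb2dd.shift 1 0), (rh9890f9d77740bbed.shift 0 1)] (by decide +kernel))
noncomputable def rhe91d569eab25e5c1 : CRef := CRef.mk (Pat.mk 0x800000008000000180000000c00000000 0x800000008000000380000001f00000010 3 6) 0 0 (step_sound _ 36 [(rh55afc6a59410cf00.shift 3 0), (rhab2ad169e49f9c5e.shift 0 1)] (by decide +kernel))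
noncomputable def rh095bd9c16cca0ec6 : CRef := CRef.mk (Pat.mk 0x200000003400000018 0x700000003f00000018 3 7) 0 0 (step_sound _ 35 [(rh33e738c4ed385b9f.shift 2 1), rh4baa30ac13a5afd1] (by decide +kernel))
noncomputable def rhf6780567ccc6600e : CRef := CRef.mk (Pat.mk 0xe0000001e00000004 0x2000000030000003e0000001e00000004 3 6) 0 0 (step_sound _ 68 [rh309fd0c3d364cd61, (rh33e738c4ed385b9f.shift 1 1)] (by decide +kernel))
noncomputable def rhd6085fba471a9d03 : CRef := CRef.mk (Pat.mk 0x200000002000000030000000200000000 0x20000000200000002000000030000000700000005 3 3) 0 0 (step_sound _ 2 [rh03dfdf12d5937476, (rhd3458b32566d63f7.shift 1 0)] (by decide +kernel))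
noncomputable def rh749b18d40cac3400 : CRef := CRef.mk (Pat.mk 0x1e00000008 0x300000001f00000038 3 6) 0 0 (step_sound _ 68 [(rh33e738c4ed385b9f.shift 1 1), rha03f6e28ea70fc7d] (by decide +kernel))
noncomputable def rhcf916c48579404b5 : CRef := CRef.mk (Pat.mk 0x1000000010000000300000001000000010000000000000000 0x100000001000000030000000300000003000000010000000100000001 3 2) 0 0 (step_sound _ 97 [(rh2145e1d24b96a57e.shift 0 3), rhea7a1800d6f053bd] (by decide +kernel))
noncomputable def rh135a58e43c935add : CRef := CRef.mk (Pat.mk 0x20000000e0000000400000004 0x2000000030000001e0000000700000004 3 5) 0 0 (step_sound _ 68 [(rh3244c3cc8379b070.shift 0 2), rhf206a6f053b27199] (by decide +kernel))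
noncomputable def rhaa94dcb375d6f8a1 : CRef := CRef.mk (Pat.mk 0x10000000140000001c 0x300000001f0000003c 3 6) 0 0 (step_sound _ 33 [rh086172e1ea5e5fe6, (rhf48373e13d2bc128.shift 1 0)] (by decide +kernel))
noncomputable def rhb80a6ca5eab6f806 : CRef := CRef.mk (Pat.mk 0x20000000e000000020000000400000000 0x1000000030000001e000000020000000600000004 3 5) 0 0 (step_sound _ 33 [(rh2e8814637c3f6d46.shift 0 1), (rh55afc6a59410cf00.shift 1 0)] (by decide +kernel))
noncomputable def rha6b68a0a3e02928f : CRef := CRef.mk (Pat.mk 0x200000002000000030000000400000000 0x20000000200000002000000030000000700000005 3 3) 0 0 (step_sound _ 33 [rh03dfdf12d5937476, (rh55afc6a59410cf00.shift 1 0)] (by decide +kernel))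
noncomputable def rh6b239d5a3c4e1f6f : CRef := CRef.mk (Pat.mk 0x10000000f000000010000000200000000 0x30000001f000000010000000300000003 3 5) 0 0 (step_sound _ 129 [rh9b4df57cddcda711, (rhf48373e13d2bc128.shift 0 3)] (by decide +kernel))
noncomputable def rhea01e0411aa39015 : CRef := CRef.mk (Pat.mk 0x8000000000000000e0000000400000004 0x8000000080000000f0000003c00000004 3 6) 0 0 (step_sound _ 35 [(rh6292bd8784ece55f.shift 0 1), (rhee230b994cc8b773.shift 2 0)] (by decide +kernel))
noncomputable def rhb11814a839be76d3 : CRef := CRef.mk (Pat.mk 0x30000000200000002000000000000000400000000 0x30000000300000002000000060000000600000004 3 3) 0 0 (step_sound _ 65 [(rhd3458b32566d63f7.shift 1 1), rhdd25e32394858bbd] (by decide +kernel))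
noncomputable def rhc4dadc42bc29f7e4 : CRef := CRef.mk (Pat.mk 0x40000001f00000002 0x1c0000007f00000006 3 7) 0 0 (step_sound _ 37 [(rh2c7793d85148f0f9.shift 0 1), (rh80fcd6d0a18cb2dd.shift 1 0)] (by decide +kernel))
noncomputable def rhf8e4a327f3068606 : CRef := CRef.mk (Pat.mk 0xa0000000c0000000400000004 0x20000000f0000003c0000000400000004 3 6) 0 0 (step_sound _ 98 [(rh50fbb5868c909700.shift 1 0), (rh6292bd8784ece55f.shift 0 2)] (by decide +kernel))
noncomputable def rh81d2c071e021c2e9 : CRef := CRef.mk (Pat.mk 0x180000000c00000006 0x380000003f00000006 3 6) 0 0 (step_sound _ 33 [(rh53b3c253cb0c65f4.shift 0 1), (rh8284118167888cf9.shift 1 0)] (by decide +kernel))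
noncomputable def rh3d7c3227a3915fa4 : CRef := CRef.mk (Pat.mk 0x700000002000000000000000c00000008 0x70000001e0000000c0000000c00000008 3 5) 0 0 (step_sound _ 98 [rh1b6a669f8a288060, (rhff0f29cb645b05f7.shift 2 0)] (by decide +kernel))
noncomputable def rh766500f60de98127 : CRef := CRef.mk (Pat.mk 0x40000001e00000000 0x70000003e00000030 3 6) 0 0 (step_sound _ 4 [(rhe25b0a99195a5d59.shift 1 0), (rhe3060b190bc0bc78.shift 0 1)] (by decide +kernel))
noncomputable def rh3eed67307fb79f37 : CRef := CRef.mk (Pat.mk 0x20000000b000000080000000800000008 0x40000001e0000000f000000080000000800000008 3 5) 0 0 (step_sound _ 130 [(rhcdf4618e2a76b62e.shift 0 1), (rhffd04209dc8ea796.shift 2 0)] (by decide +kernel))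
noncomputable def rhbb46da1a4a828462 : CRef := CRef.mk (Pat.mk 0x10000000100000001000000050000000c 0x100000001000000010000000f0000003e 3 6) 0 0 (step_sound _ 33 [rh4a0b10776449c3e9, rh55afc6a59410cf00] (by decide +kernel))
noncomputable def rhe6ecd4c923e556d5 : CRef := CRef.mk (Pat.mk 0x1a000000100000000600000004 0x30000001e000000320000000600000004 3 6) 0 0 (step_sound _ 98 [rh7f8e4a6fbe0e1f11, (rhe25b0a99195a5d59.shift 1 2)] (by decide +kernel))
noncomputable def rhf887e4ee05fd7803 : CRef := CRef.mk (Pat.mk 0xa00000018 0x1f0000003c 3 6) 0 0 (step_sound _ 34 [(rhae2edff970a530ce.shift 1 0), rhb739f4f82bb681b4] (by decide +kernel))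
noncomputable def rh3631ff12967f440c : CRef := CRef.mk (Pat.mk 0x800000008000000380000000c 0x1000000018000000080000003c0000000f 3 6) 0 0 (step_sound _ 100 [rh1ed7a3503fa50fc8, (rh2f68792b6b779e96.shift 3 0)] (by decide +kernel))
noncomputable def rha0f0f65a9dc65816 : CRef := CRef.mk (Pat.mk 0x60000001800000018 0x60000003f00000038 3 6) 0 0 (step_sound _ 34 [rhad5d8fc3675c15dd, (rhf48373e13d2bc128.shift 1 1)] (by decide +kernel))
noncomputable def rhf458db867983f0b3 : CRef := CRef.mk (Pat.mk 0x800000008000000070000000400000000 0x80000003e000000070000000400000004 3 6) 0 0 (step_sound _ 98 [(rh71222050f2c63a3a.shift 2 0), (rh80f90a60d87caa0d.shift 0 2)] (by decide +kernel))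
noncomputable def rh21968d857b838c2c : CRef := CRef.mk (Pat.mk 0x600000007000000000000000400000000 0x80000001e00000007000000040000000400000004 3 5) 0 0 (step_sound _ 131 [(rh18965a982d73c794.shift 0 3), (rhd02f44a45c1a55c1.shift 1 0)] (by decide +kernel))
noncomputable def rhde9a0e21c71efd72 : CRef := CRef.mk (Pat.mk 0x1000000018000000160000000200000000 0x1000000010000000180000001e0000000b00000008 3 5) 0 0 (step_sound _ 67 [(rh1e309b005ffa1b36.shift 3 0), (rheb0810cc63b001d8.shift 0 1)] (by decide +kernel))
noncomputable def rh0e31bdeca7d3d8d9 : CRef := CRef.mk (Pat.mk 0x6000000060000000300000000 0x400000004000000060000001e0000000300000002 3 5) 0 0 (step_sound _ 67 [(rh18965a982d73c794.shift 0 1), (rh84d1c02a8954c6a8.shift 1 0)] (by decide +kernel))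
noncomputable def rh5cda4f4ab7a85f7f : CRef := CRef.mk (Pat.mk 0x40000000400000007000000080000000000000000 0x4000000040000000f0000001c0000000800000008 3 5) 0 0 (step_sound _ 99 [(rh79ad7b82ec8c35e2.shift 2 0), (rhe25b0a99195a5d59.shift 0 2)] (by decide +kernel))
noncomputable def rh64c397c5ee5b120c : CRef := CRef.mk (Pat.mk 0x4000000040000000e000000080000000000000000 0x40000000c0000000f000000180000000800000008 3 5) 0 0 (step_sound _ 68 [(rh08edf065357d68e5.shift 2 0), (rhb739f4f82bb681b4.shift 0 2)] (by decide +kernel))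
noncomputable def rhf6c7575301677f45 : CRef := CRef.mk (Pat.mk 0x10000000100000001c0000001600000000 0x10000000100000001f0000003e00000008 3 6) 0 0 (step_sound _ 35 [(rh73aed199c1a62ed4.shift 0 1), (rh932754581e0f4330.shift 3 0)] (by decide +kernel))
noncomputable def rhf76eda6165674100 : CRef := CRef.mk (Pat.mk 0x8000000100000001a00000016 0x1800000018000000100000001b0000001e 3 5) 0 0 (step_sound _ 100 [(rh50fbb5868c909700.shift 3 0), rhf064d5c7fe5ebdcd] (by decide +kernel))
noncomputable def rh2158a18b2b2eb226 : CRef := CRef.mk (Pat.mk 0x1e000000060000000200000002 0x10000001f0000003e0000000200000002 3 6) 0 0 (step_sound _ 68 [rh52dc0b448901c5de, (rhe25b0a99195a5d59.shift 1 2)] (by decide +kernel))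
noncomputable def rhc0ac6cdbaa8efa90 : CRef := CRef.mk (Pat.mk 0x40000000f0000000400000000 0x8000000080000001c0000000f0000000400000004 3 5) 0 0 (step_sound _ 99 [(rh33e738c4ed385b9f.shift 0 2), (rh84d1c02a8954c6a8.shift 2 0)] (by decide +kernel))
noncomputable def rh4dde7de28aaf2ba1 : CRef := CRef.mk (Pat.mk 0x80000003e00000040 0x18000000ff000000c0 3 8) 0 0 (step_sound _ 38 [(rh8550ba1d74bb04c9.shift 0 1), (rhe25b0a99195a5d59.shift 3 0)] (by decide +kernel))
noncomputable def rh96b9ddd2353c6a13 : CRef := CRef.mk (Pat.mk 0x20000000200000002000000020000000200000000 0x20000000200000002000000060000000700000005 3 3) 0 0 (step_sound _ 0 [rh79877ebd3ef475dd, (rhd29a1fb688eae70f.shift 1 0)] (by decide +kernel))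
noncomputable def rh9e335884f300c296 : CRef := CRef.mk (Pat.mk 0x40000000200000002000000020000000200000002 0x4000000070000000300000003000000020000000200000002 3 3) 0 0 (step_sound _ 161 [(rh2f68792b6b779e96.shift 1 2), rh3ca48e2a6d60153d] (by decide +kernel))
noncomputable def rh5e5c8b8743d45333 : CRef := CRef.mk (Pat.mk 0x200000006000000060000000100000000 0x40000000600000006000000060000000300000003 3 3) 0 0 (step_sound _ 33 [(rh84d1c02a8954c6a8.shift 1 0), rh932754581e0f4330] (by decide +kernel))
noncomputable def rh754b8d2daded6d3e : CRef := CRef.mk (Pat.mk 0x40000000200000003000000020000000000000000 0x50000000700000003000000020000000200000002 3 3) 0 0 (step_sound _ 33 [(rhbaefcd01e0a8bca3.shift 1 1), rhe286c75f2739cce2] (by decide +kernel))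
noncomputable def rhaace14975fb582e7 : CRef := CRef.mk (Pat.mk 0x200000001000000010000000700000000 0x20000000200000003000000030000000700000005 3 3) 0 0 (step_sound _ 97 [rh71222050f2c63a3a, rhab2ae83e2bc2464b] (by decide +kernel))
noncomputable def rhe30cdf9ac8008bd4 : CRef := CRef.mk (Pat.mk 0x20000000200000002000000020000000200000000 0x1000000030000000300000002000000020000000600000004 3 3) 0 0 (step_sound _ 2 [(rh3ca48e2a6d60153d.shift 0 1), (rhd3458b32566d63f7.shift 1 0)] (by decide +kernel))
noncomputable def rh95c7bf00a65f6c99 : CRef := CRef.mk (Pat.mk 0xc000000180000000c 0xc0000007c0000000f 3 7) 0 0 (step_sound _ 37 [rh1ed7a3503fa50fc8, (rhf48373e13d2bc128.shift 2 1)] (by decide +kernel))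
noncomputable def rhdce147dab1eb4ad9 : CRef := CRef.mk (Pat.mk 0x8000000080000001e00000000 0x8000000080000000b0000001e00000030 3 6) 0 0 (step_sound _ 64 [(rh3f8766e6ecb455ce.shift 0 1), (rhba04d77b039f69d9.shift 1 0)] (by decide +kernel))
noncomputable def rh04ced5f58dc875e7 : CRef := CRef.mk (Pat.mk 0x40000000c0000000700000000 0x4000000040000001c0000000f00000018 3 5) 0 0 (step_sound _ 35 [(rh33e738c4ed385b9f.shift 0 1), rhba04d77b039f69d9] (by decide +kernel))
noncomputable def rhb8a1f9a12fc8f26e : CRef := CRef.mk (Pat.mk 0x8000000080000001c0000001000000000 0x8000000180000001f0000003000000010 3 6) 0 0 (step_sound _ 65 [rh00fa999739b16860, (rhe25b0a99195a5d59.shift 1 1)] (by decide +kernel))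
noncomputable def rhd84e93b9a2e3adea : CRef := CRef.mk (Pat.mk 0x20000001f00000000 0x60000003f00000038 3 6) 0 0 (step_sound _ 66 [rh4ad5fc38f1b69f65, (rhf48373e13d2bc128.shift 1 1)] (by decide +kernel))
noncomputable def rha8895bfb685a08eb : CRef := CRef.mk (Pat.mk 0x100000001000000000000000200000002 0x10000000100000003000000030000000300000002 3 2) 0 0 (step_sound _ 64 [rh31c4a1fa6139236a, rhbe0e43a3bc50a43f] (by decide +kernel))
noncomputable def rhf9ec6a0fbad83fba : CRef := CRef.mk (Pat.mk 0xe000000080000000400000004 0x180000000f000000180000000c00000004 3 5) 0 0 (step_sound _ 131 [(rhcf86d050071af9b3.shift 0 2), (rheea67dfebd0f8008.shift 2 0)] (by decide +kernel))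
noncomputable def rhd2a9f1ff2f8fa11b : CRef := CRef.mk (Pat.mk 0x100000001e000000000000000800000008 0x180000001f000000300000001800000008 3 6) 0 0 (step_sound _ 131 [(rh53b3c253cb0c65f4.shift 0 3), (rhb5e747220bd827fa.shift 1 0)] (by decide +kernel))
noncomputable def rh250e3886b5983513 : CRef := CRef.mk (Pat.mk 0x5000000070000000e0000000800000000 0x100000005000000070000000f0000001a00000002 3 5) 0 0 (step_sound _ 33 [(rh374ca1e8fd1717b4.shift 0 1), (rh71222050f2c63a3a.shift 1 0)] (by decide +kernel))
noncomputable def rhdc3c7eb7a8edfe18 : CRef := CRef.mk (Pat.mk 0x50000000e0000000400000000 0x200000002000000070000001e0000000400000004 3 5) 0 0 (step_sound _ 97 [(rhf48373e13d2bc128.shift 0 2), (rhfc7c29d8e65d775f.shift 1 0)] (by decide +kernel))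
noncomputable def rh6dbd3bf41492e478 : CRef := CRef.mk (Pat.mk 0x40000000200000002000000030000000800000000 0x40000000600000002000000030000001e00000004 3 5) 0 0 (step_sound _ 33 [rh6a56790be92093bf, (rhbaefcd01e0a8bca3.shift 1 1)] (by decide +kernel))
noncomputable def rh86cd0e616f49482a : CRef := CRef.mk (Pat.mk 0x4000000020000001e0000000000000000 0x4000000060000003e0000000300000002 3 6) 0 0 (step_sound _ 33 [(rh406f9a6aa07143c7.shift 1 0), (rheb0810cc63b001d8.shift 0 1)] (by decide +kernel))
noncomputable def rh3e5a028a89dac53b : CRef := CRef.mk (Pat.mk 0x60000000200000002000000000000000100000000 0x4000000060000000600000002000000020000000300000001 3 3) 0 0 (step_sound _ 65 [(rh2f68792b6b779e96.shift 1 2), rh599ad1a27924c7d1] (by decide +kernel))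
noncomputable def rh2047037f4c249df3 : CRef := CRef.mk (Pat.mk 0x1e0000000e000000000000000000000004 0x2000000030000001e0000000e000000040000000400000004 3 5) 0 0 (step_sound _ 66 [(rh309fd0c3d364cd61.shift 0 2), (rh9e3edb185cc347de.shift 2 0)] (by decide +kernel))
noncomputable def rh6eb743af4fb9bc9e : CRef := CRef.mk (Pat.mk 0x80000001e000000000000000400000000 0x80000003e000000070000000400000004 3 6) 0 0 (step_sound _ 66 [(rh71222050f2c63a3a.shift 2 0), (rhaf9f2efc81a8312b.shift 0 2)] (by decide +kernel))
noncomputable def rh409edbec38c71a18 : CRef := CRef.mk (Pat.mk 0x30000000200000002000000000000000100000000 0x30000000300000002000000030000000300000001 3 2) 0 0 (step_sound _ 65 [(rh79877ebd3ef475dd.shift 0 1), rh7b39ca72a85b3dac] (by decide +kernel))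
noncomputable def rh455743481e179fac : CRef := CRef.mk (Pat.mk 0x4000000020000000e0000000200000000 0x400000006000000020000001e0000000300000001 3 5) 0 0 (step_sound _ 129 [rh157b220518f94713, (rh2f68792b6b779e96.shift 1 1)] (by decide +kernel))
noncomputable def rhadf4c62fce919625 : CRef := CRef.mk (Pat.mk 0x20000000600000007000000010000000000000000 0x20000000600000007000000070000000500000001 3 3) 0 0 (step_sound _ 66 [rh42548283029e2a39, (rh7b1f1fb55310c477.shift 1 1)] (by decide +kernel))
noncomputable def rh3c09fc3010aad7af : CRef := CRef.mk (Pat.mk 0x20000000000000003000000030000000000000002 0x3000000030000000100000003000000030000000200000002 3 2) 0 0 (step_sound _ 128 [(rh82bd946b1709a78e.shift 0 2), rh9e07f76261b05888] (by decide +kernel))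
noncomputable def rh4b481cfbdc975d9e : CRef := CRef.mk (Pat.mk 0x20000000f0000000100000000 0x200000002000000020000001f0000000300000001 3 5) 0 0 (step_sound _ 129 [rh54d1d3f05f0ed5a2, (rh5c5e593799055d58.shift 0 1)] (by decide +kernel))
noncomputable def rh28271dbe58980d9c : CRef := CRef.mk (Pat.mk 0x6000000060000000200000001 0x20000000200000006000000060000000700000005 3 3) 0 0 (step_sound _ 129 [(rh55a1f6c57a317ce6.shift 1 0), rh79877ebd3ef475dd] (by decide +kernel))
noncomputable def rhb65a3b8959c1cf11 : CRef := CRef.mk (Pat.mk 0x400000004000000020000000e00000000 0x400000006000000030000001e00000003 3 5) 0 0 (step_sound _ 36 [(rh3244c3cc8379b070.shift 0 1), rhdf76c28ccf309ff1] (by decide +kernel))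
noncomputable def rhbd5c3a2a033faccf : CRef := CRef.mk (Pat.mk 0x100000000f00000000 0x300000001f00000038 3 6) 0 0 (step_sound _ 4 [rh96851dee118c1ba3, (rhf9dd539d91bdf46b.shift 1 0)] (by decide +kernel))
noncomputable def rh5cc2dea72ac0187e : CRef := CRef.mk (Pat.mk 0x200000002000000020000001600000010 0x200000002000000020000001f00000039 3 6) 0 0 (step_sound _ 32 [rh932754581e0f4330, rhc13e87f7835e0776] (by decide +kernel))
noncomputable def rh3d40549da198e64a : CRef := CRef.mk (Pat.mk 0x100000003e 0x1f0000003f 3 6) 0 0 (step_sound _ 35 [rh53b3c253cb0c65f4, rh5d685137714d9fe9] (by decide +kernel))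
noncomputable def rh7302994b41ba0e8a : CRef := CRef.mk (Pat.mk 0x4000000040000000c0000000a00000000 0x4000000040000003c0000000f00000002 3 6) 0 0 (step_sound _ 34 [(rh932754581e0f4330.shift 1 0), (rhf9d36e158778ce35.shift 0 1)] (by decide +kernel))
noncomputable def rhd297bb809081865c : CRef := CRef.mk (Pat.mk 0x2000000000000000e0000000500000000 0x200000002000000020000001e0000000700000001 3 5) 0 0 (step_sound _ 97 [(rh2145e1d24b96a57e.shift 1 1), rh54d1d3f05f0ed5a2] (by decide +kernel))
noncomputable def rh25b1076ae9791386 : CRef := CRef.mk (Pat.mk 0x80000000e000000080000001e00000000 0x40000000c0000000e0000000b0000001e00000002 3 5) 0 0 (step_sound _ 130 [(rh50fbb5868c909700.shift 2 1), rh70e209139a9acc4a] (by decide +kernel))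
noncomputable def rhc26fdd92192b4d67 : CRef := CRef.mk (Pat.mk 0x400000004000000000000000e00000002 0x400000006000000030000001e00000003 3 5) 0 0 (step_sound _ 36 [rha3d4138a5939a4eb, rheb0810cc63b001d8] (by decide +kernel))
noncomputable def rhd9dd670e1f2579b0 : CRef := CRef.mk (Pat.mk 0x800000009000000090000000900000001 0x100000001a0000000f000000090000000900000001 3 5) 0 0 (step_sound _ 132 [rh2ad4f8fa55baa6f1, (rh2f68792b6b779e96.shift 3 1)] (by decide +kernel))
noncomputable def rhbe35a3316eb073c1 : CRef := CRef.mk (Pat.mk 0x2000000060000000a00000006 0x200000002000000060000003e00000007 3 6) 0 0 (step_sound _ 34 [(rh2145e1d24b96a57e.shift 1 0), rha9e1a5d55b907abf] (by decide +kernel))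
noncomputable def rhd3f10caf4397f925 : CRef := CRef.mk (Pat.mk 0x80000000800000000000000060000001e0000000000000000 0x80000000c00000004000000060000001e0000000300000002 3 5) 0 0 (step_sound _ 130 [(rh1006c02ae4212ff0.shift 2 2), rh9c40a739b57d6d20] (by decide +kernel))
noncomputable def rhd18ba5d65204320f : CRef := CRef.mk (Pat.mk 0x14000000140000001e00000010 0x80000003c000000170000001e00000010 3 6) 0 0 (step_sound _ 65 [(rh3244c3cc8379b070.shift 0 1), (rh5501401ca587e475.shift 1 0)] (by decide +kernel))
noncomputable def rh7c670c94442132e7 : CRef := CRef.mk (Pat.mk 0x1c0000001e00000008 0x10000000300000001f0000001e00000008 3 6) 0 0 (step_sound _ 65 [(rh3244c3cc8379b070.shift 0 1), (rh5421160f8e9bcf07.shift 1 0)] (by decide +kernel))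
noncomputable def rh3e8cc367ec96a18d : CRef := CRef.mk (Pat.mk 0x3000000120000000e00000000 0x100000003000000320000001e00000003 3 6) 0 0 (step_sound _ 36 [(rh33e738c4ed385b9f.shift 1 1), rh6fcba015dedda42d] (by decide +kernel))
noncomputable def rhda30d50b0a1ebfba : CRef := CRef.mk (Pat.mk 0x400000018000000180000000800000000 0x40000001f000000380000000800000008 3 6) 0 0 (step_sound _ 98 [(rh7b1f1fb55310c477.shift 2 0), (rhad5d8fc3675c15dd.shift 0 2)] (by decide +kernel))
noncomputable def rh3c396af4afa234d3 : CRef := CRef.mk (Pat.mk 0x60000001c0000000c0000000000000000 0x80000000f0000001c0000000c0000000400000004 3 5) 0 0 (step_sound _ 131 [(rh1e309b005ffa1b36.shift 2 0), (rhb739f4f82bb681b4.shift 0 3)] (by decide +kernel))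
noncomputable def rha85003d93e2522fd : CRef := CRef.mk (Pat.mk 0x300000003000000030000000200000000 0x2000000020000000300000003000000030000000700000004 3 3) 0 0 (step_sound _ 34 [(rh55afc6a59410cf00.shift 1 0), (rh84d1c02a8954c6a8.shift 0 1)] (by decide +kernel))
noncomputable def rh40de1aea1718382e : CRef := CRef.mk (Pat.mk 0x20000000e000000000000000800000008 0x330000001e000000080000000800000008 3 6) 0 0 (step_sound _ 100 [(rh3244c3cc8379b070.shift 0 3), (rh4fc80024ed3db095.shift 1 0)] (by decide +kernel))
noncomputable def rha3f05166b6e09d1a : CRef := CRef.mk (Pat.mk 0xf0000000c0000000c0000000800000000 0x8000000180000000f0000000c0000000c0000001800000010 3 5) 0 0 (step_sound _ 36 [(rh5421160f8e9bcf07.shift 0 2), (rh55afc6a59410cf00.shift 3 0)] (by decide +kernel))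
noncomputable def rh508fa74cd2e3b99f : CRef := CRef.mk (Pat.mk 0x180000003400000020 0x180000003f00000070 3 7) 0 0 (step_sound _ 35 [rh8d917b916e5f3510, (rhe25b0a99195a5d59.shift 2 0)] (by decide +kernel))
noncomputable def rh2e09a1f486fce422 : CRef := CRef.mk (Pat.mk 0x300000006000000040000000200000000 0x50000000700000006000000060000000200000002 3 3) 0 0 (step_sound _ 65 [(rh50fbb5868c909700.shift 0 1), (rh84d1c02a8954c6a8.shift 1 0)] (by decide +kernel))
noncomputable def rh37375e2569fde596 : CRef := CRef.mk (Pat.mk 0x200000000c00000018 0x300000001f00000038 3 6) 0 0 (step_sound _ 33 [(rh691b6f67835b5694.shift 1 0), rhb739f4f82bb681b4] (by decide +kernel))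
noncomputable def rhe2e863e74469e8a1 : CRef := CRef.mk (Pat.mk 0x1c0000000e00000010 0x1f0000003e00000030 3 6) 0 0 (step_sound _ 36 [(rh73aed199c1a62ed4.shift 0 1), (rhe25b0a99195a5d59.shift 1 0)] (by decide +kernel))
noncomputable def rhd2326e162a013723 : CRef := CRef.mk (Pat.mk 0x180000000a00000018 0x180000001f0000003c 3 6) 0 0 (step_sound _ 34 [(rh53b3c253cb0c65f4.shift 0 1), (rhae2edff970a530ce.shift 1 0)] (by decide +kernel))
noncomputable def rh8f9617ee17321bd4 : CRef := CRef.mk (Pat.mk 0xc000000180000000c 0xc000000780000001f 3 7) 0 0 (step_sound _ 37 [rheea1a90336e79c71, (rhf48373e13d2bc128.shift 2 1)] (by decide +kernel))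
noncomputable def rh11271bea47b59a15 : CRef := CRef.mk (Pat.mk 0x1e00000000000000080000001c 0x30000001e000000040000000f0000003c 3 6) 0 0 (step_sound _ 34 [rhe2b63c00a3d7bb73, rhea1977e228a6d74a] (by decide +kernel))
noncomputable def rh4c1b7e20f0a31b73 : CRef := CRef.mk (Pat.mk 0x180000000a000000020000001e00000000 0x190000000f000000020000001e00000003 3 5) 0 0 (step_sound _ 96 [(rh1c62b6193297d9e3.shift 0 3), rh6fcba015dedda42d] (by decide +kernel))
noncomputable def rhe1070b8cc43cdf24 : CRef := CRef.mk (Pat.mk 0x80000000a0000000a0000001e00000000 0x40000000c0000000e0000000a0000001e00000003 3 5) 0 0 (step_sound _ 130 [(rh50fbb5868c909700.shift 2 1), rha1aa13057a4a8e13] (by decide +kernel))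
noncomputable def rh9f367964994b9e25 : CRef := CRef.mk (Pat.mk 0x180000000a0000000a0000001e00000000 0x40000001f0000000b0000000a0000001e00000003 3 5) 0 0 (step_sound _ 96 [(rh3f9dabd3a98bcc1c.shift 0 1), rh6fcba015dedda42d] (by decide +kernel))
noncomputable def rh913e4989b36d9ef9 : CRef := CRef.mk (Pat.mk 0x180000000a0000000800000008 0x40000001e0000000f0000000800000008 3 5) 0 0 (step_sound _ 64 [(rh1c62b6193297d9e3.shift 0 2), rh3f9dabd3a98bcc1c] (by decide +kernel))
noncomputable def rhf67b05b83b1429df : CRef := CRef.mk (Pat.mk 0x20000001c000000040000003000000030 0x30000001e000000040000003e00000074 3 7) 0 0 (step_sound _ 34 [(rhcd6baf37b3e5de21.shift 1 0), rheeabf87925ab8a42] (by decide +kernel))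
noncomputable def rh16276789fd32c01e : CRef := CRef.mk (Pat.mk 0x80000000e0000000400000004 0x800000008000000180000000f0000000c00000004 3 5) 0 0 (step_sound _ 100 [(rh53b3c253cb0c65f4.shift 0 2), (rh69755ef358ebfd54.shift 2 0)] (by decide +kernel))
noncomputable def rh606b4c685a02f37d : CRef := CRef.mk (Pat.mk 0x200000003c0000000c0000000000000010 0x200000003f0000003c0000001000000010 3 6) 0 0 (step_sound _ 68 [(rh9e3edb185cc347de.shift 4 0), (rhe2b63c00a3d7bb73.shift 0 2)] (by decide +kernel))
noncomputable def rhcccb6b87a7bde3bf : CRef := CRef.mk (Pat.mk 0x4000000010000000f0000000d0000000000000000 0x4000000050000001f0000000f0000000200000002 3 5) 0 0 (step_sound _ 65 [(rh33e738c4ed385b9f.shift 0 2), rh3d9ea522a568e981] (by decide +kernel))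
noncomputable def rh753069020890f283 : CRef := CRef.mk (Pat.mk 0x1c000000100000001e00000010 0x200000003c000000170000001e00000010 3 6) 0 0 (step_sound _ 65 [(rh3244c3cc8379b070.shift 0 1), (rhd9892b94547901dd.shift 1 0)] (by decide +kernel))
noncomputable def rhdfb56653f5d33d2b : CRef := CRef.mk (Pat.mk 0x80000000f000000040000000000000000 0x8000000080000000f0000001c0000000400000004 3 5) 0 0 (step_sound _ 67 [(rh1e309b005ffa1b36.shift 2 0), (rhe25b0a99195a5d59.shift 0 2)] (by decide +kernel))
noncomputable def rhc863f8aad6428597 : CRef := CRef.mk (Pat.mk 0x100000006000000020000001e00000008 0x1000000130000001e000000320000001e00000008 3 6) 0 0 (step_sound _ 100 [(rh3cffad1d01f3c270.shift 0 1), (rh5ebae181afaa248a.shift 1 0)] (by decide +kernel))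
noncomputable def rhc890c76c8379cdee : CRef := CRef.mk (Pat.mk 0x3000000010000000300000000 0x20000000300000003000000010000000300000003 3 2) 0 0 (step_sound _ 129 [rh55c8fae470e8430a, rh71222050f2c63a3a] (by decide +kernel))
noncomputable def rh6b39cf23c1330562 : CRef := CRef.mk (Pat.mk 0x2000000010000000f00000001 0x300000003000000010000001f00000003 3 5) 0 0 (step_sound _ 1 [rh18965a982d73c794, rh82bd946b1709a78e] (by decide +kernel))
noncomputable def rhf554547daa081b49 : CRef := CRef.mk (Pat.mk 0x160000000e00000004 0x2000000030000001e0000000f00000004 3 5) 0 0 (step_sound _ 67 [rh309fd0c3d364cd61, (rh53b3c253cb0c65f4.shift 0 1)] (by decide +kernel))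
noncomputable def rhfa4ba789b3b402fc : CRef := CRef.mk (Pat.mk 0x8000000070000000c00000000 0x800000008000000180000000f0000000c00000004 3 5) 0 0 (step_sound _ 67 [(rh33e738c4ed385b9f.shift 0 2), (rh503dd4575245365b.shift 2 0)] (by decide +kernel))
noncomputable def rh6ae4a25ccd36a5ab : CRef := CRef.mk (Pat.mk 0x200000002000000020000000200000002 0x50000000700000006000000020000000200000002 3 3) 0 0 (step_sound _ 160 [(rh44f453b84f013105.shift 1 0), (rhffd04209dc8ea796.shift 0 1)] (by decide +kernel))
noncomputable def rh9cc2416a03250125 : CRef := CRef.mk (Pat.mk 0x8000000090000000e00000008 0x10000000180000000f0000001e00000008 3 5) 0 0 (step_sound _ 65 [rhddcd04bb31546311, (rhf48373e13d2bc128.shift 0 1)] (by decide +kernel))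
noncomputable def rh06e944087bf4ca98 : CRef := CRef.mk (Pat.mk 0x10000000100000001c0000001e00000000 0x10000000100000001c0000007e00000023 3 7) 0 0 (step_sound _ 1 [(rh42afa1af9fffa0e1.shift 2 0), rheb0810cc63b001d8] (by decide +kernel))
noncomputable def rh189a9b614d2c28b2 : CRef := CRef.mk (Pat.mk 0x800000018000000170000000400000000 0x800000018000000170000003e00000010 3 6) 0 0 (step_sound _ 36 [(rh68691964b29f233d.shift 0 1), (rh7b1f1fb55310c477.shift 3 0)] (by decide +kernel))
noncomputable def rh4905ac576375a3ff : CRef := CRef.mk (Pat.mk 0x4000000040000000e0000000200000000 0x4000000070000001e0000000300000002 3 5) 0 0 (step_sound _ 97 [(rh71222050f2c63a3a.shift 1 0), (rhd9106766b9ff53c0.shift 0 1)] (by decide +kernel))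
noncomputable def rh067a748dc2c8f95e : CRef := CRef.mk (Pat.mk 0x40000001e0000001c0000000000000000 0x40000001e0000001f0000000300000002 3 5) 0 0 (step_sound _ 65 [(rh53b3c253cb0c65f4.shift 0 2), rh9c40a739b57d6d20] (by decide +kernel))
noncomputable def rhd1df76528d323d50 : CRef := CRef.mk (Pat.mk 0x100000003e 0x1e0000007f 3 7) 0 0 (step_sound _ 35 [rh53b3c253cb0c65f4, (rhe3060b190bc0bc78.shift 1 0)] (by decide +kernel))
noncomputable def rh80f8d980e2e2e50a : CRef := CRef.mk (Pat.mk 0x2000000020000000200000002000000020000000400000000 0x2000000020000000200000003000000030000000700000004 3 3) 0 0 (step_sound _ 33 [(rh55afc6a59410cf00.shift 1 0), (rh7928877f9bf74a91.shift 0 1)] (by decide +kernel))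
noncomputable def rhe64b822bce271b79 : CRef := CRef.mk (Pat.mk 0x4000000160000001a0000000000000000 0x4000000360000001e0000000300000002 3 6) 0 0 (step_sound _ 66 [(rh33e738c4ed385b9f.shift 1 2), rh9c40a739b57d6d20] (by decide +kernel))
noncomputable def rh1277f1130682e8f3 : CRef := CRef.mk (Pat.mk 0x4000000000000000c0000001c00000000 0x4000000040000003c0000001f00000003 3 6) 0 0 (step_sound _ 33 [rh981be6707e4d9088, (rhf9d36e158778ce35.shift 0 1)] (by decide +kernel))
noncomputable def rh1325fb1b661bbe5b : CRef := CRef.mk (Pat.mk 0x400000000000000240000001c00000000 0x400000004000000340000001e00000003 3 6) 0 0 (step_sound _ 33 [(rh428265de8cd3cd2d.shift 1 1), rh981be6707e4d9088] (by decide +kernel))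
noncomputable def rh5dc67726aecca17c : CRef := CRef.mk (Pat.mk 0xc0000000e000000040000000e 0x100000003c0000000e0000003c0000000f 3 6) 0 0 (step_sound _ 35 [(rh712526e472efe489.shift 1 0), rhf9d36e158778ce35] (by decide +kernel))
noncomputable def rh46a57dc3242650d3 : CRef := CRef.mk (Pat.mk 0x18000000180000000c00000010 0x800000018000000180000001f00000030 3 6) 0 0 (step_sound _ 36 [(rh50fbb5868c909700.shift 3 0), rhf56e6bc5d2f7fe77] (by decide +kernel))
noncomputable def rh25e3c5a3af326354 : CRef := CRef.mk (Pat.mk 0x8000000180000000c00000018 0x800000008000000180000000f0000003c 3 6) 0 0 (step_sound _ 33 [(rh53b3c253cb0c65f4.shift 0 1), (rh6826f722115a4c88.shift 1 0)] (by decide +kernel))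
noncomputable def rh820bfba8d4405bbd : CRef := CRef.mk (Pat.mk 0x200000002000000000000000100000001 0x20000000200000003000000030000000300000001 3 2) 0 0 (step_sound _ 64 [rh1006c02ae4212ff0, rh88ff8f7539aa90a1] (by decide +kernel))
noncomputable def rh56506aca0a0851cc : CRef := CRef.mk (Pat.mk 0x20000000200000000000000010000000100000000 0x2000000020000000300000003000000010000000100000001 3 2) 0 0 (step_sound _ 96 [(rh1006c02ae4212ff0.shift 0 1), rh9d1165924047d7d0] (by decide +kernel))
noncomputable def rhb56dc8af4007ca1b : CRef := CRef.mk (Pat.mk 0x1c00000006000000000000000600000000 0x1e00000007000000020000000600000006 3 5) 0 0 (step_sound _ 129 [(rh8556ce617a451e36.shift 1 0), (rheb0810cc63b001d8.shift 0 3)] (by decide +kernel))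
noncomputable def rh066c0d7ca8de1f8f : CRef := CRef.mk (Pat.mk 0x1e00000000000000000000000600000000 0x40000001e00000003000000020000000600000004 3 5) 0 0 (step_sound _ 97 [(rh807d78fa6ca78542.shift 1 0), (rheb0810cc63b001d8.shift 0 3)] (by decide +kernel))
noncomputable def rh8cf8631b89a8043a : CRef := CRef.mk (Pat.mk 0x6000000000000000600000016 0x60000000600000002000000070000001e 3 5) 0 0 (step_sound _ 3 [rh3244c3cc8379b070, (rhd727bb41309b6841.shift 1 0)] (by decide +kernel))
noncomputable def rh39bc6a54936310bc : CRef := CRef.mk (Pat.mk 0x20000003c0000000c 0x30000003e0000007c 3 7) 0 0 (step_sound _ 33 [(rh3244c3cc8379b070.shift 0 1), (rh88333dd5482f2e1a.shift 1 0)] (by decide +kernel))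
noncomputable def rhd0d7486ab0505767 : CRef := CRef.mk (Pat.mk 0x20000001c0000000c 0x30000001f0000003c 3 6) 0 0 (step_sound _ 33 [(rh3244c3cc8379b070.shift 0 1), rh6292bd8784ece55f] (by decide +kernel))
noncomputable def rh26d44fd78c158ecb : CRef := CRef.mk (Pat.mk 0x400000004000000060000000c00000000 0x400000004000000070000003e00000002 3 6) 0 0 (step_sound _ 36 [rh4bd3b23c6601caaa, (rhf48373e13d2bc128.shift 1 1)] (by decide +kernel))
noncomputable def rh55eb597f17b4ce44 : CRef := CRef.mk (Pat.mk 0x400000004000000060000000c 0x400000004000000040000000f0000003c 3 6) 0 0 (step_sound _ 4 [rh178a7c957b00e62a, (rhf48373e13d2bc128.shift 1 0)] (by decide +kernel))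
noncomputable def rhcd32f2ed6c1181e7 : CRef := CRef.mk (Pat.mk 0x2000000060000000300000000 0x20000000200000002000000070000000700000001 3 3) 0 0 (step_sound _ 129 [(rh518d6f6eeebddcb2.shift 0 1), rh932754581e0f4330] (by decide +kernel))
noncomputable def rh145afb4cc9141770 : CRef := CRef.mk (Pat.mk 0xa0000001c000000060000000400000000 0x40000000f0000001c000000060000000600000002 3 5) 0 0 (step_sound _ 130 [(rh03dfdf12d5937476.shift 1 0), (rhb739f4f82bb681b4.shift 0 3)] (by decide +kernel))
noncomputable def rhf6388f317ffa3be8 : CRef := CRef.mk (Pat.mk 0xe0000000a 0x1f0000003b 3 6) 0 0 (step_sound _ 36 [rha03f6e28ea70fc7d, rheb0810cc63b001d8] (by decide +kernel))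
noncomputable def rh9e9cb823bb81f1cc : CRef := CRef.mk (Pat.mk 0x3600000018 0x70000003f00000018 3 6) 0 0 (step_sound _ 35 [rhb739f4f82bb681b4, (rhd5eb272e07a4e288.shift 0 1)] (by decide +kernel))
noncomputable def rh8a1671592098e534 : CRef := CRef.mk (Pat.mk 0x2000000010000000300000003000000000000000200000000 0x2000000030000000300000003000000010000000300000003 3 2) 0 0 (step_sound _ 64 [rh9b4df57cddcda711, (rhbaefcd01e0a8bca3.shift 0 2)] (by decide +kernel))
noncomputable def rha28d23c06faf6610 : CRef := CRef.mk (Pat.mk 0x380000001c00000008 0x4000000060000003f0000003c00000008 3 6) 0 0 (step_sound _ 66 [(rh309fd0c3d364cd61.shift 1 0), (rhe2b63c00a3d7bb73.shift 0 1)] (by decide +kernel))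
noncomputable def rh36586e595fdbb742 : CRef := CRef.mk (Pat.mk 0x800000008000000080000000f00000000 0x100000001800000018000000080000000f00000018 3 5) 0 0 (step_sound _ 3 [(rh44f453b84f013105.shift 3 0), rhe25b0a99195a5d59] (by decide +kernel))
noncomputable def rh3993bcd79254ae12 : CRef := CRef.mk (Pat.mk 0xa0000001e 0x3e0000003f 3 6) 0 0 (step_sound _ 5 [(rh3f8766e6ecb455ce.shift 1 0), rhec46bd5500c722c9] (by decide +kernel))
noncomputable def rhb1dfdd8f524c5e58 : CRef := CRef.mk (Pat.mk 0x10000000120000001e 0x300000001e0000003f 3 6) 0 0 (step_sound _ 34 [rh7f01e29029689730, (rhf48373e13d2bc128.shift 1 0)] (by decide +kernel))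
noncomputable def rhd80ce46fe7ab142f : CRef := CRef.mk (Pat.mk 0xe0000000c000000040000000400000000 0xf0000003c000000040000000600000002 3 6) 0 0 (step_sound _ 33 [(rh6292bd8784ece55f.shift 0 3), (rh932754581e0f4330.shift 1 0)] (by decide +kernel))
noncomputable def rh0c02317d67ddde21 : CRef := CRef.mk (Pat.mk 0x700000006000000180000000c00000000 0x100000007000000060000001a0000000f00000002 3 5) 0 0 (step_sound _ 33 [(rh53b3c253cb0c65f4.shift 0 1), rhc93583770a36d0f1] (by decide +kernel))
noncomputable def rha908afa947cc4332 : CRef := CRef.mk (Pat.mk 0x1000000014000000140000001600000000 0x1400000014000000140000001e0000000b 3 5) 0 0 (step_sound _ 35 [rh1ae4704ae86cb9a8, (rh932754581e0f4330.shift 3 0)] (by decide +kernel))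
noncomputable def rhfe0cfe027ecde590 : CRef := CRef.mk (Pat.mk 0x80000000e000000040000000600000000 0x3c0000000f000000040000000600000002 3 6) 0 0 (step_sound _ 130 [(rh932754581e0f4330.shift 1 0), (rhf9d36e158778ce35.shift 0 3)] (by decide +kernel))
noncomputable def rh087a8a5eb7ea1dbf : CRef := CRef.mk (Pat.mk 0xc000000050000000e 0x3e000000070000001e 3 6) 0 0 (step_sound _ 33 [(rh80f90a60d87caa0d.shift 0 1), rhf48373e13d2bc128] (by decide +kernel))
noncomputable def rh36aaad29beba1c90 : CRef := CRef.mk (Pat.mk 0xc000000060000000e 0x3e000000070000001e 3 6) 0 0 (step_sound _ 32 [(rh80f90a60d87caa0d.shift 0 1), rhf48373e13d2bc128] (by decide +kernel))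
noncomputable def rha314a13d1d90450e : CRef := CRef.mk (Pat.mk 0x80000000c00000002000000020000000300000000 0x190000000f00000002000000020000000300000001 3 5) 0 0 (step_sound _ 129 [(rh4d4e586abdf65d17.shift 0 1), rh932754581e0f4330] (by decide +kernel))
noncomputable def rh796fc3b7c17c5d15 : CRef := CRef.mk (Pat.mk 0x800000018000000000000001600000002 0x800000018000000300000001e00000013 3 6) 0 0 (step_sound _ 68 [rh1dc3e866f7ab4752, (rh7b1f1fb55310c477.shift 3 0)] (by decide +kernel))
noncomputable def rh7e2beecf027e4880 : CRef := CRef.mk (Pat.mk 0x20000000e0000000400000004 0x200000002000000030000001e0000000600000004 3 5) 0 0 (step_sound _ 96 [(rhe072fffdd2fccf38.shift 1 0), (rhf48373e13d2bc128.shift 0 2)] (by decide +kernel))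
noncomputable def rhbf54693427023d68 : CRef := CRef.mk (Pat.mk 0x200000000e00000004 0x300000003e00000007 3 6) 0 0 (step_sound _ 36 [(rh428265de8cd3cd2d.shift 1 1), rhaf9f2efc81a8312b] (by decide +kernel))
noncomputable def rh52c36d35947218a3 : CRef := CRef.mk (Pat.mk 0x20000001c0000000400000004 0x2000000030000001e0000000700000004 3 5) 0 0 (step_sound _ 65 [(rh3244c3cc8379b070.shift 0 2), rhf206a6f053b27199] (by decide +kernel))
noncomputable def rhf6d31e6c51b6c8fc : CRef := CRef.mk (Pat.mk 0x1e000000040000000400000000 0x2000000020000001e000000070000000400000004 3 5) 0 0 (step_sound _ 65 [(rheb0810cc63b001d8.shift 0 2), (rhfc7c29d8e65d775f.shift 1 0)] (by decide +kernel))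
noncomputable def rhc9ecc39187250584 : CRef := CRef.mk (Pat.mk 0x100000003000000010000000100000000 0x20000000300000003000000010000000300000003 3 2) 0 0 (step_sound _ 33 [rh55afc6a59410cf00, rha707fb719e87fe6e] (by decide +kernel))
noncomputable def rhe5a5bf6962a18d87 : CRef := CRef.mk (Pat.mk 0xe000000020000000600000000 0x30000001e000000030000000600000004 3 5) 0 0 (step_sound _ 129 [(rh55afc6a59410cf00.shift 1 0), (rhd9106766b9ff53c0.shift 0 2)] (by decide +kernel))
noncomputable def rh6246d32f6f9bacfa : CRef := CRef.mk (Pat.mk 0x20000001e000000000000000400000000 0x2000000020000001e000000070000000400000004 3 5) 0 0 (step_sound _ 66 [(rh7b1f1fb55310c477.shift 1 0), (rhf206a6f053b27199.shift 0 1)] (by decide +kernel))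
noncomputable def rh065b3967590b1203 : CRef := CRef.mk (Pat.mk 0xa0000000d000000030000000000000000 0x20000001a0000000f000000030000000100000001 3 5) 0 0 (step_sound _ 97 [rh1e309b005ffa1b36, (rh33e738c4ed385b9f.shift 0 3)] (by decide +kernel))
noncomputable def rh215beea5a13383a1 : CRef := CRef.mk (Pat.mk 0x380000000800000030 0x780000001f00000030 3 7) 0 0 (step_sound _ 34 [(rh18965a982d73c794.shift 2 1), rhb75a95a254d02bf0] (by decide +kernel))
noncomputable def rh92f50ed6ce9c1547 : CRef := CRef.mk (Pat.mk 0x2000000060000001c0000001800000010 0x2000000060000001c0000001f00000034 3 6) 0 0 (step_sound _ 34 [(rh7b1f1fb55310c477.shift 1 0), rhf56e6bc5d2f7fe77] (by decide +kernel))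
noncomputable def rh33b15e661692c1c6 : CRef := CRef.mk (Pat.mk 0x20000000e0000000200000004 0x2000000030000003e0000000600000004 3 6) 0 0 (step_sound _ 34 [(rh2145e1d24b96a57e.shift 1 0), (rhb762f327c85d41a0.shift 0 1)] (by decide +kernel))
noncomputable def rh9825d0c98fedc720 : CRef := CRef.mk (Pat.mk 0xe000000080000000c 0xf0000007c0000000c 3 7) 0 0 (step_sound _ 36 [(rhb739f4f82bb681b4.shift 0 1), (rhc3c694226a015fc3.shift 1 0)] (by decide +kernel))
noncomputable def rhff36e6ecd1dfd6b2 : CRef := CRef.mk (Pat.mk 0x40000000200000003000000030000000000000000 0x50000000700000003000000030000000200000002 3 3) 0 0 (step_sound _ 33 [(rhbaefcd01e0a8bca3.shift 1 1), rhfc7c29d8e65d775f] (by decide +kernel))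
noncomputable def rh612b8d9d9d5bcfd1 : CRef := CRef.mk (Pat.mk 0x30000000060000001e00000000 0x40000003c000000060000001e00000003 3 6) 0 0 (step_sound _ 98 [rh1ae4704ae86cb9a8, (rhb2a0b9ccfb5cecd5.shift 1 2)] (by decide +kernel))
noncomputable def rh3def329dc426b562 : CRef := CRef.mk (Pat.mk 0x30000000100000001e 0x300000001f0000001f 3 6) 0 0 (step_sound _ 35 [rh53b3c253cb0c65f4, rh90a04632e314f181] (by decide +kernel))
noncomputable def rh379724e43b13e6b6 : CRef := CRef.mk (Pat.mk 0x100000001a0000000600000004 0x2000000330000001e0000000600000004 3 6) 0 0 (step_sound _ 97 [(rh2145e1d24b96a57e.shift 1 0), (rh9ce9666211d7d662.shift 0 2)] (by decide +kernel))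
noncomputable def rh5ac338b5fcda750b : CRef := CRef.mk (Pat.mk 0x180000000c00000018 0x180000000f0000007c 3 7) 0 0 (step_sound _ 33 [(rh53b3c253cb0c65f4.shift 0 1), (rh89ade209b3e28f13.shift 1 0)] (by decide +kernel))
noncomputable def rh04048a4a2acf2c94 : CRef := CRef.mk (Pat.mk 0x40000000e00000002 0x60000003e00000007 3 6) 0 0 (step_sound _ 36 [(rh7b030ba967bf927e.shift 1 0), rheb0810cc63b001d8] (by decide +kernel))
noncomputable def rh9cd206837194a83f : CRef := CRef.mk (Pat.mk 0x80000001e00000010 0x1b0000001f00000018 3 5) 0 0 (step_sound _ 64 [(rh3f8766e6ecb455ce.shift 0 1), rh6765e7960b108c8d] (by decide +kernel))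
noncomputable def rha599c9a0f4bd0402 : CRef := CRef.mk (Pat.mk 0x20000000300000006000000040000000000000000 0x2000000030000001e000000060000000400000004 3 5) 0 0 (step_sound _ 99 [(rh79ad7b82ec8c35e2.shift 1 0), (rhf48373e13d2bc128.shift 0 3)] (by decide +kernel))
noncomputable def rh172f434e5301c5de : CRef := CRef.mk (Pat.mk 0x2000000000000000e0000000c00000004 0x2000000020000003e0000000f00000004 3 6) 0 0 (step_sound _ 33 [(rh6f1cbe15c631ee70.shift 1 0), (rhf9d36e158778ce35.shift 0 1)] (by decide +kernel))
noncomputable def rh40424e2a9e15d704 : CRef := CRef.mk (Pat.mk 0x200000002000000020000000200000018 0x200000002000000020000000f0000001d 3 5) 0 0 (step_sound _ 34 [(rh55afc6a59410cf00.shift 1 0), rh7b745f52937a7ad9] (by decide +kernel))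
noncomputable def rhec4c174f64dd2881 : CRef := CRef.mk (Pat.mk 0x10000000100000001000000090000000c00000000 0x100000001000000010000001b0000000f00000002 3 5) 0 0 (step_sound _ 33 [rhcc6a2bc7c954a6c4, (rhd3458b32566d63f7.shift 0 1)] (by decide +kernel))
noncomputable def rh90c822559cbd2cc1 : CRef := CRef.mk (Pat.mk 0x200000002000000060000000e00000000 0x10000000300000003000000060000003e00000003 3 6) 0 0 (step_sound _ 1 [rh3ca48e2a6d60153d, rha9e1a5d55b907abf] (by decide +kernel))
noncomputable def rh44858d7cb17813b7 : CRef := CRef.mk (Pat.mk 0x20000000e0000000400000004 0x2000000070000003e0000000400000004 3 6) 0 0 (step_sound _ 98 [(rh50fbb5868c909700.shift 1 0), (rh79b3c29022acbdf3.shift 0 2)] (by decide +kernel))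
noncomputable def rh66f3cbbb8310a478 : CRef := CRef.mk (Pat.mk 0x8000000080000000c00000018 0x800000008000000080000000f0000003c 3 6) 0 0 (step_sound _ 2 [(rh5c5e593799055d58.shift 2 0), rhe2b63c00a3d7bb73] (by decide +kernel))
noncomputable def rha3b81ade83d12895 : CRef := CRef.mk (Pat.mk 0x38000000280000001c 0x3c0000003f0000001e 3 6) 0 0 (step_sound _ 33 [(rh8bf8257c7eeda352.shift 0 1), (rheea6d2351407a5b1.shift 1 0), rhfcf1119458f22b28] (by decide +kernel))
noncomputable def rh9f396d50864ab5e9 : CRef := CRef.mk (Pat.mk 0x3800000008000000080000000800000000 0x3c0000001f000000080000000800000008 3 6) 0 0 (step_sound _ 98 [(rh1ed7a3503fa50fc8.shift 0 3), (rh2d5442cbf338480d.shift 2 0), (rhca2e2aed2d1c3a32.shift 1 0)] (by decide +kernel))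
noncomputable def rhe30a2a2536b70067 : CRef := CRef.mk (Pat.mk 0x3800000008000000080000000800000000 0x3c0000001f000000080000000800000008 3 6) 0 0 (step_sound _ 98 [(rh1ed7a3503fa50fc8.shift 0 3), (rh2d5442cbf338480d.shift 2 0), (rheea1a90336e79c71.shift 0 3)] (by decide +kernel))
noncomputable def rh8fba37a232e728fc : CRef := CRef.mk (Pat.mk 0x80000000e000000000000000400000004 0x180000000f000000180000000c00000004 3 5) 0 0 (step_sound _ 67 [(rhcf86d050071af9b3.shift 0 2), (rheea67dfebd0f8008.shift 2 0)] (by decide +kernel))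
noncomputable def rh4bcb9e710f427cc1 : CRef := CRef.mk (Pat.mk 0xb000000080000001800000000 0x10000000180000000f000000080000001800000010 3 5) 0 0 (step_sound _ 131 [(rh55afc6a59410cf00.shift 3 0), (rhddcd04bb31546311.shift 0 1)] (by decide +kernel))
noncomputable def rhaf40e034a1a847b7 : CRef := CRef.mk (Pat.mk 0x18000000100000001c00000008 0x800000018000000300000001f00000018 3 6) 0 0 (step_sound _ 33 [(rh33e738c4ed385b9f.shift 1 1), rhab569c39c3d1b54b] (by decide +kernel))
noncomputable def rh399ba8a6ad8f6c6a : CRef := CRef.mk (Pat.mk 0x100000001e000000140000001000000000 0x100000001e0000001f0000003000000020 3 6) 0 0 (step_sound _ 65 [(rh5f11ee373cbffcaa.shift 1 0), (rheb0810cc63b001d8.shift 0 2)] (by decide +kernel))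
noncomputable def rhbf66a34bc9ff2ede : CRef := CRef.mk (Pat.mk 0x20000001c0000000400000004 0xa0000000f0000001c0000000400000004 3 5) 0 0 (step_sound _ 98 [(rh50fbb5868c909700.shift 1 0), rhd62aa8c143bedf8f] (by decide +kernel))
noncomputable def rhb1ac881e8f7c9aec : CRef := CRef.mk (Pat.mk 0x20000001c0000000400000004 0x200000002000000070000001e0000000400000004 3 5) 0 0 (step_sound _ 65 [(rh3244c3cc8379b070.shift 0 2), (rhc89253ff58c66167.shift 1 0)] (by decide +kernel))
noncomputable def rh8eb2a492d52f4a07 : CRef := CRef.mk (Pat.mk 0x100000001000000030000000100000001 0x1000000010000000300000003000000030000000300000001 3 2) 0 0 (step_sound _ 160 [rh422dc31de97871b4, (rh55afc6a59410cf00.shift 0 1)] (by decide +kernel))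
noncomputable def rh900f1c31dc71257a : CRef := CRef.mk (Pat.mk 0x100000001000000000000000200000002 0x10000000100000003000000030000000300000002 3 2) 0 0 (step_sound _ 65 [rh6da1cd319b2afcb1, rhcfdf45280693d3da] (by decide +kernel))
noncomputable def rhf4c721a5ee85f79b : CRef := CRef.mk (Pat.mk 0x700000005000000000000000e00000000 0x10000000700000007000000030000001e00000006 3 5) 0 0 (step_sound _ 65 [(rh307168931086c3c6.shift 0 1), (rhd875f4b8fd969386.shift 1 0)] (by decide +kernel))
noncomputable def rh68b2f9410bda0963 : CRef := CRef.mk (Pat.mk 0x200000002000000000000001c00000010 0x200000002000000030000001e00000034 3 6) 0 0 (step_sound _ 33 [rh993fdb6c3ac61b99, (rhe25b0a99195a5d59.shift 1 0)] (by decide +kernel))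
noncomputable def rha11f0340eec03fb7 : CRef := CRef.mk (Pat.mk 0x200000002000000000000001a00000010 0x200000002000000030000001e00000034 3 6) 0 0 (step_sound _ 34 [rh993fdb6c3ac61b99, (rhe25b0a99195a5d59.shift 1 0)] (by decide +kernel))
noncomputable def rh4aae3c5a01e93e30 : CRef := CRef.mk (Pat.mk 0xc000000080000000700000000 0x40000000c000000180000000f00000018 3 5) 0 0 (step_sound _ 35 [(rh33e738c4ed385b9f.shift 0 1), rh4ad42ce8b6b2f224] (by decide +kernel))
noncomputable def rhdac6e31834900125 : CRef := CRef.mk (Pat.mk 0x20000001c000000100000000600000000 0x20000001e000000330000000600000004 3 6) 0 0 (step_sound _ 97 [rha3f42a2390de0456, (rhe25b0a99195a5d59.shift 1 2)] (by decide +kernel))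
noncomputable def rh3b0fde8fecf12c56 : CRef := CRef.mk (Pat.mk 0x38000000000000001e 0x3c000000070000003e 3 6) 0 0 (step_sound _ 33 [rh3244c3cc8379b070, (rh9367ba291c163b15.shift 1 0)] (by decide +kernel))
noncomputable def rh2c77cfccaf1c7a3f : CRef := CRef.mk (Pat.mk 0x380000001c0000000000000008 0x60000003f0000003c0000000800000008 3 6) 0 0 (step_sound _ 98 [(rh0da3f8d18d3a0dfd.shift 1 0), (rhe2b63c00a3d7bb73.shift 0 2)] (by decide +kernel))
noncomputable def rh2feb418f5d4f7391 : CRef := CRef.mk (Pat.mk 0x18000000100000001c00000008 0x800000018000000100000001f00000038 3 6) 0 0 (step_sound _ 4 [(rh50fbb5868c909700.shift 3 0), rhad5d8fc3675c15dd] (by decide +kernel))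
noncomputable def rhf3213703cb6afcc4 : CRef := CRef.mk (Pat.mk 0x4000000080000000f00000004 0xc0000000c000000080000000f0000001c 3 5) 0 0 (step_sound _ 99 [rh4ad42ce8b6b2f224, (rh5c5e593799055d58.shift 2 0)] (by decide +kernel))
noncomputable def rh787045d857cbf233 : CRef := CRef.mk (Pat.mk 0x80000000c0000000f00000000 0xc0000000c0000000c0000000c0000000f00000018 3 5) 0 0 (step_sound _ 130 [(rh16567ae718d9fd54.shift 2 1), rh3098af7943687178] (by decide +kernel))
noncomputable def rh238f8d26e680bdec : CRef := CRef.mk (Pat.mk 0x200000001c00000008 0x300000001f00000038 3 6) 0 0 (step_sound _ 33 [(rh428265de8cd3cd2d.shift 1 1), rha03f6e28ea70fc7d] (by decide +kernel))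
noncomputable def rhb5dba6328d9c248c : CRef := CRef.mk (Pat.mk 0x40000000f000000000000000400000004 0xc0000000f000000180000000c0000000c 3 5) 0 0 (step_sound _ 67 [(rhd960cc885bec3069.shift 2 0), (rhe25b0a99195a5d59.shift 0 2)] (by decide +kernel))
noncomputable def rh64fa2638f58ff22d : CRef := CRef.mk (Pat.mk 0x20000001f00000004 0x60000007f0000001c 3 7) 0 0 (step_sound _ 3 [(rh8abea2a7b1fd427a.shift 1 0), rhe25b0a99195a5d59] (by decide +kernel))
noncomputable def rh7841f525d6ce6792 : CRef := CRef.mk (Pat.mk 0x100000001a0000000e0000000000000000 0x10000000100000001b0000001e0000000800000008 3 5) 0 0 (step_sound _ 68 [(rh1e309b005ffa1b36.shift 3 0), (rh3244c3cc8379b070.shift 0 2)] (by decide +kernel))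
noncomputable def rhe2486af8b6edba09 : CRef := CRef.mk (Pat.mk 0x4000000160000001e0000000800000000 0x1000000014000000160000001e0000000b00000002 3 5) 0 0 (step_sound _ 132 [(rh5c5e593799055d58.shift 3 1), rh9c40a739b57d6d20] (by decide +kernel))
noncomputable def rhe0e64f4846962e3a : CRef := CRef.mk (Pat.mk 0x1000000070000000600000002 0x10000000500000005000000070000000700000002 3 3) 0 0 (step_sound _ 130 [rhe072fffdd2fccf38, (rhee230b994cc8b773.shift 1 0)] (by decide +kernel))
noncomputable def rh70f7e6eaa86c9eda : CRef := CRef.mk (Pat.mk 0xc0000000c0000001e00000004 0x20000000f0000003c0000001e00000004 3 6) 0 0 (step_sound _ 68 [rh277b01412deaec89, (rh33e738c4ed385b9f.shift 1 1)] (by decide +kernel))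
noncomputable def rh289a42b0e672c6e8 : CRef := CRef.mk (Pat.mk 0x10000000200000006000000060000000000000000 0x50000000700000006000000060000000200000002 3 3) 0 0 (step_sound _ 33 [(rh84d1c02a8954c6a8.shift 1 0), (rhffd04209dc8ea796.shift 0 1)] (by decide +kernel))
noncomputable def rhf74f31adc77c8519 : CRef := CRef.mk (Pat.mk 0x60000000100000003000000020000000200000000 0x4000000060000000300000003000000030000000300000001 3 3) 0 0 (step_sound _ 129 [rh0ec68e0bf4727743, (rh2f68792b6b779e96.shift 1 2)] (by decide +kernel))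
noncomputable def rh870359598daa9f92 : CRef := CRef.mk (Pat.mk 0x10000000180000001e 0x300000001f0000003e 3 6) 0 0 (step_sound _ 33 [rh3244c3cc8379b070, (rhc924e5f7a4031fcc.shift 1 0)] (by decide +kernel))
noncomputable def rhb4f6acf546da3a7b : CRef := CRef.mk (Pat.mk 0x8000000000000001e0000000e00000000 0xa0000000b0000001e0000000e00000004 3 5) 0 0 (step_sound _ 2 [rh309fd0c3d364cd61, (rhee230b994cc8b773.shift 2 0)] (by decide +kernel))
noncomputable def rh1377f0833ece7f88 : CRef := CRef.mk (Pat.mk 0x8000000040000001c0000000400000000 0x80000000f0000003c0000000400000004 3 6) 0 0 (step_sound _ 99 [(rh71222050f2c63a3a.shift 2 0), (rhe2b63c00a3d7bb73.shift 0 2)] (by decide +kernel))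
noncomputable def rh898ddf38c8949691 : CRef := CRef.mk (Pat.mk 0x400000016000000060000000600000000 0x40000001e000000070000001e00000008 3 5) 0 0 (step_sound _ 35 [(rh55afc6a59410cf00.shift 2 0), (rha98504023be367c2.shift 0 1)] (by decide +kernel))
noncomputable def rhd610587daf1d6212 : CRef := CRef.mk (Pat.mk 0xa0000000700000006 0x1b0000003f00000006 3 6) 0 0 (step_sound _ 35 [(rh33e738c4ed385b9f.shift 0 1), rhb762f327c85d41a0] (by decide +kernel))
noncomputable def rhd1bcdb3cccafcd54 : CRef := CRef.mk (Pat.mk 0x2000000020000000600000006000000020000000000000000 0x2000000020000000600000007000000030000000300000002 3 3) 0 0 (step_sound _ 33 [(rh71222050f2c63a3a.shift 1 0), (rh7928877f9bf74a91.shift 0 1)] (by decide +kernel))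
noncomputable def rh42903195a8cc61b9 : CRef := CRef.mk (Pat.mk 0x40000000e0000000d 0x70000003e0000000f 3 6) 0 0 (step_sound _ 36 [rh24ae073cf30720c4, (rhe3060b190bc0bc78.shift 0 1)] (by decide +kernel))
noncomputable def rhcb9032737d1082dd : CRef := CRef.mk (Pat.mk 0x160000001e00000008 0x10000000300000001e0000001f00000008 3 6) 0 0 (step_sound _ 100 [(rh5c5e593799055d58.shift 3 0), (rh7f01e29029689730.shift 0 1)] (by decide +kernel))
noncomputable def rh8af9a32e61457eb0 : CRef := CRef.mk (Pat.mk 0x700000003000000010000000100000000 0x50000000700000003000000030000000300000002 3 3) 0 0 (step_sound _ 33 [rh55afc6a59410cf00, (rhed18b8ab05e58db5.shift 0 1)] (by decide +kernel))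
noncomputable def rh55af8c51b00e556e : CRef := CRef.mk (Pat.mk 0x200000000000000020000000e0000000100000000 0x200000002000000020000001f0000000300000001 3 5) 0 0 (step_sound _ 129 [rh54d1d3f05f0ed5a2, (rh79877ebd3ef475dd.shift 0 1)] (by decide +kernel))
noncomputable def rhfe2b50ca4d83c2f7 : CRef := CRef.mk (Pat.mk 0x8000000180000000c0000001800000000 0x8000000180000000f0000003c00000004 3 6) 0 0 (step_sound _ 65 [(rh53b3c253cb0c65f4.shift 0 2), (rh6331bd58f8d610b3.shift 1 0)] (by decide +kernel))
noncomputable def rh875286bc899abb01 : CRef := CRef.mk (Pat.mk 0x400000000000000040000000e00000004 0x400000004000000040000003e00000007 3 6) 0 0 (step_sound _ 1 [rh2612b4f73ba7c3b3, (rhee230b994cc8b773.shift 1 0)] (by decide +kernel))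
noncomputable def rh6875b8bf4c838f53 : CRef := CRef.mk (Pat.mk 0x60000000e000000010000000000000000 0x4000000060000001e000000030000000200000002 3 5) 0 0 (step_sound _ 65 [(rh18965a982d73c794.shift 0 2), (rhea7a1800d6f053bd.shift 1 0)] (by decide +kernel))
noncomputable def rha409d74db28f86f5 : CRef := CRef.mk (Pat.mk 0x800000000000000080000001e00000000 0x800000008000000080000003e00000007 3 6) 0 0 (step_sound _ 1 [(rh6ae91eb5e19726d0.shift 1 0), rheb0810cc63b001d8] (by decide +kernel))
noncomputable def rh4cc51c5e3934a79e : CRef := CRef.mk (Pat.mk 0x4000000040000000c0000000e 0x200000006000000040000003c0000000f 3 6) 0 0 (step_sound _ 97 [(rh50fbb5868c909700.shift 1 0), rhf9d36e158778ce35] (by decide +kernel))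
noncomputable def rha73de14255e5ed05 : CRef := CRef.mk (Pat.mk 0x70000000c0000000400000000 0xa0000000f0000001c0000000400000004 3 5) 0 0 (step_sound _ 2 [(rh50fbb5868c909700.shift 1 0), rhd5b1a91e1b03cfdf] (by decide +kernel))
noncomputable def rhc00fe340a8cfda8b : CRef := CRef.mk (Pat.mk 0xe000000080000000e00000000 0x40000000f000000180000000f00000008 3 5) 0 0 (step_sound _ 3 [(rh1642ef1127830c20.shift 0 1), (rh50fbb5868c909700.shift 2 0)] (by decide +kernel))
noncomputable def rh5145a6654c29a7e3 : CRef := CRef.mk (Pat.mk 0xc000000010000000f00000001 0x20000001e000000030000001f00000001 3 5) 0 0 (step_sound _ 65 [rh3dc8e654aa80a713, (rhf48373e13d2bc128.shift 0 1)] (by decide +kernel))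
noncomputable def rh985865b6ae4c8241 : CRef := CRef.mk (Pat.mk 0x4000000160000001c0000000800000000 0x40000001e0000001f0000001b00000002 3 5) 0 0 (step_sound _ 65 [rh9c40a739b57d6d20, (rhe3dc93746cbe6e7c.shift 0 1)] (by decide +kernel))
noncomputable def rh5f731c0616897bce : CRef := CRef.mk (Pat.mk 0x180000001e00000020 0x1f0000003e00000060 3 7) 0 0 (step_sound _ 37 [(rh5d685137714d9fe9.shift 0 1), (rhe25b0a99195a5d59.shift 2 0)] (by decide +kernel))
noncomputable def rh430939c12f459291 : CRef := CRef.mk (Pat.mk 0x3e00000000 0x30000003e00000070 3 7) 0 0 (step_sound _ 64 [(rh3f8766e6ecb455ce.shift 0 1), (rh4ad5fc38f1b69f65.shift 1 0)] (by decide +kernel))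
noncomputable def rh6b03ce8443ac6040 : CRef := CRef.mk (Pat.mk 0x2200000038 0x370000003e 3 6) 0 0 (step_sound _ 2 [(rh3f8766e6ecb455ce.shift 1 0), rhfcf1119458f22b28] (by decide +kernel))
noncomputable def rh308e802c1186176c : CRef := CRef.mk (Pat.mk 0x7000000000000001e 0xf000000380000001f 3 6) 0 0 (step_sound _ 36 [(rh33e738c4ed385b9f.shift 1 0), rh6f555c723a80e234] (by decide +kernel))
noncomputable def rh525b1307409128b7 : CRef := CRef.mk (Pat.mk 0x3000000060000000e 0x30000003e0000003e 3 6) 0 0 (step_sound _ 36 [(rh2fe78cc5ca4405d8.shift 0 1), (rheff610e725081997.shift 1 0)] (by decide +kernel))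
noncomputable def rh60117f4faffa9fe2 : CRef := CRef.mk (Pat.mk 0x700000004000000040000000400000000 0xf0000003e000000040000000400000004 3 6) 0 0 (step_sound _ 99 [(rh4a0b10776449c3e9.shift 0 3), (rh89ade209b3e28f13.shift 0 3), (rhae2edff970a530ce.shift 0 3), (rhc705a4e0321a1bff.shift 1 0)] (by decide +kernel))
noncomputable def rhdc5fbdfc450dbd97 : CRef := CRef.mk (Pat.mk 0x300000002000000020000001c00000000 0x10000000300000002000000020000001f00000003 3 5) 0 0 (step_sound _ 33 [(rh50fbb5868c909700.shift 0 1), rha37779f9238271b6] (by decide +kernel))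
noncomputable def rh0cbe15313afb7f23 : CRef := CRef.mk (Pat.mk 0x300000002000000020000000800000018 0x10000000300000002000000020000000f00000019 3 5) 0 0 (step_sound _ 33 [(rh50fbb5868c909700.shift 0 1), rhf9a329cc68aa610c] (by decide +kernel))
noncomputable def rhdbe2f635cd55a39c : CRef := CRef.mk (Pat.mk 0x20000001a000000060000000000000000 0x2000000030000001e000000060000000400000004 3 5) 0 0 (step_sound _ 98 [(rh3244c3cc8379b070.shift 0 3), (rh55a1f6c57a317ce6.shift 1 0)] (by decide +kernel))
noncomputable def rhd652c19df8b64ee8 : CRef := CRef.mk (Pat.mk 0x20000001c000000060000000000000000 0x2000000030000001e000000060000000400000004 3 5) 0 0 (step_sound _ 97 [(rh3244c3cc8379b070.shift 0 3), (rh55a1f6c57a317ce6.shift 1 0)] (by decide +kernel))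
noncomputable def rh5ed29a68bdd76cd6 : CRef := CRef.mk (Pat.mk 0x80000001e00000000 0x380000001f00000003 3 6) 0 0 (step_sound _ 0 [rh80fcd6d0a18cb2dd, (rhec46bd5500c722c9.shift 0 1)] (by decide +kernel))
noncomputable def rh6cfcc4c4c29d94bc : CRef := CRef.mk (Pat.mk 0x200000006000000070000000600000000 0x40000000600000006000000070000001e00000008 3 5) 0 0 (step_sound _ 130 [(rh2f68792b6b779e96.shift 1 1), rh42afa1af9fffa0e1] (by decide +kernel))
noncomputable def rha556574e21bc2a17 : CRef := CRef.mk (Pat.mk 0x3000000030000000a00000000 0x20000000200000003000000030000001f00000005 3 5) 0 0 (step_sound _ 129 [rh1e309b005ffa1b36, rh6a56790be92093bf] (by decide +kernel))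
noncomputable def rha816037e57a2e3c3 : CRef := CRef.mk (Pat.mk 0xc000000140000000c0000000c00000000 0x20000000f0000001c0000000c0000000c00000004 3 5) 0 0 (step_sound _ 129 [(rh50fbb5868c909700.shift 1 1), rhd9fd6e4cb8c91201] (by decide +kernel))
noncomputable def rh16fda1850c1e196c : CRef := CRef.mk (Pat.mk 0xc0000000e0000000b0000000800000000 0xc0000000e0000000b0000001e00000006 3 5) 0 0 (step_sound _ 33 [rh33b92f427999e8d7, (rh71222050f2c63a3a.shift 1 0)] (by decide +kernel))
noncomputable def rh7c7a2f4cb81bef31 : CRef := CRef.mk (Pat.mk 0x200000002e00000000 0x300000003e00000007 3 6) 0 0 (step_sound _ 36 [(rh428265de8cd3cd2d.shift 1 1), rheae1728ff4a56756] (by decide +kernel))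
noncomputable def rh0dd29b14486e05ff : CRef := CRef.mk (Pat.mk 0x1c000000180000001000000010 0x200000003f0000001f0000001000000010 3 6) 0 0 (step_sound _ 65 [(rh710860539a4c4362.shift 0 2), (rh72297cd55a503360.shift 0 2), (rh7e143111a189f2ad.shift 1 0)] (by decide +kernel))
noncomputable def rh294d9702fa9bf092 : CRef := CRef.mk (Pat.mk 0x2000000020000000300000003000000020000000000000000 0x2000000020000000300000007000000060000000600000002 3 3) 0 0 (step_sound _ 33 [rh7b1f1fb55310c477, (rhd29a1fb688eae70f.shift 1 1)] (by decide +kernel))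
noncomputable def rh8f497d494005db75 : CRef := CRef.mk (Pat.mk 0x20000001e0000000c0000000000000000 0x2000000020000001e0000000f0000000400000004 3 5) 0 0 (step_sound _ 65 [(rh53b3c253cb0c65f4.shift 0 2), (rh55a1f6c57a317ce6.shift 1 0)] (by decide +kernel))
noncomputable def rhd206eeb695efb75a : CRef := CRef.mk (Pat.mk 0x10000000700000010 0x30000001f00000038 3 6) 0 0 (step_sound _ 35 [rh6b86f2178b913204, rh96851dee118c1ba3] (by decide +kernel))
noncomputable def rh6e672cddce798f8b : CRef := CRef.mk (Pat.mk 0x200000007000000050000000000000000 0x2000000020000000300000007000000050000000100000001 3 3) 0 0 (step_sound _ 161 [(rh2145e1d24b96a57e.shift 1 2), rhf9af042da61fc652] (by decide +kernel))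
noncomputable def rh908411fcafde85e3 : CRef := CRef.mk (Pat.mk 0x80000001e0000001400000000 0x800000008000000080000001f0000001c00000004 3 5) 0 0 (step_sound _ 131 [(rh2145e1d24b96a57e.shift 3 1), rh4ccaa8321fb6cd90] (by decide +kernel))
noncomputable def rh0647d666102fa269 : CRef := CRef.mk (Pat.mk 0x8000000080000001e0000000000000000 0x8000000080000001f0000003800000010 3 6) 0 0 (step_sound _ 36 [rh06dad6edb7ce8d9c, (rhe25b0a99195a5d59.shift 1 1)] (by decide +kernel))
noncomputable def rh898d0b5c30ec21d7 : CRef := CRef.mk (Pat.mk 0x80000000c0000000b0000000800000000 0x8000000080000000c0000000f0000001c00000004 3 5) 0 0 (step_sound _ 66 [(rh1e309b005ffa1b36.shift 2 0), (rhe25b0a99195a5d59.shift 0 1)] (by decide +kernel))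
noncomputable def rh76de2bf3c43935fb : CRef := CRef.mk (Pat.mk 0x1e0000000a00000002 0x3e0000003e00000003 3 6) 0 0 (step_sound _ 34 [(rh18965a982d73c794.shift 1 1), rha9e1a5d55b907abf] (by decide +kernel))
noncomputable def rh88be887d437231aa : CRef := CRef.mk (Pat.mk 0x7000000050000000100000000 0x2000000020000000200000007000000070000000100000001 3 3) 0 0 (step_sound _ 129 [(rh1b9584b0a9395bfc.shift 0 1), rh71222050f2c63a3a] (by decide +kernel))
noncomputable def rh9236c084a482bdf1 : CRef := CRef.mk (Pat.mk 0x200000005000000050000000100000000 0x2000000020000000200000007000000070000000100000001 3 3) 0 0 (step_sound _ 97 [(rh1b9584b0a9395bfc.shift 0 1), rh71222050f2c63a3a] (by decide +kernel))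
noncomputable def rh5660776ab885c7fc : CRef := CRef.mk (Pat.mk 0xd0000000c0000000800000004 0x10000000180000000f0000000c0000000c00000004 3 5) 0 0 (step_sound _ 131 [(rh7e143111a189f2ad.shift 0 1), (rh9e3edb185cc347de.shift 2 0)] (by decide +kernel))
noncomputable def rh6a6116ff61aac7bc : CRef := CRef.mk (Pat.mk 0x500000005000000010000000200000000 0x10000000500000007000000030000000300000002 3 3) 0 0 (step_sound _ 1 [rh37dedf5b7a2e3614, rhbe0e43a3bc50a43f] (by decide +kernel))
noncomputable def rhcea002b6fb08e97c : CRef := CRef.mk (Pat.mk 0x20000000e0000000200000002 0x4000000070000003e0000000200000002 3 6) 0 0 (step_sound _ 98 [(rh2f68792b6b779e96.shift 1 0), (rh79b3c29022acbdf3.shift 0 2)] (by decide +kernel))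
noncomputable def rh519283893479dd7d : CRef := CRef.mk (Pat.mk 0x800000018000000000000000f00000000 0x800000018000000380000001f00000010 3 6) 0 0 (step_sound _ 68 [(rh428265de8cd3cd2d.shift 0 1), (rhe811b5698af64d4c.shift 1 0)] (by decide +kernel))
noncomputable def rh5bc55fc95dfced77 : CRef := CRef.mk (Pat.mk 0x800000018000000000000000f00000000 0x100000001800000018000000180000000f00000008 3 5) 0 0 (step_sound _ 67 [(rh33e738c4ed385b9f.shift 0 1), (rha707fb719e87fe6e.shift 3 0)] (by decide +kernel))
noncomputable def rh25623a11d5de7a23 : CRef := CRef.mk (Pat.mk 0x800000008000000000000000f00000000 0x800000008000000080000001f00000038 3 6) 0 0 (step_sound _ 4 [rh96851dee118c1ba3, (rha23e5e3a29bab496.shift 1 0)] (by decide +kernel))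
noncomputable def rh5b378a4891d3f0e0 : CRef := CRef.mk (Pat.mk 0x800000018000000000000000f00000000 0x800000018000000100000001f00000038 3 6) 0 0 (step_sound _ 4 [(rh5e14077930334b56.shift 1 0), rh96851dee118c1ba3] (by decide +kernel))
noncomputable def rh86e0def2047dfaad : CRef := CRef.mk (Pat.mk 0xc000000280000000c 0xc000000780000001f 3 7) 0 0 (step_sound _ 36 [rheea1a90336e79c71, (rhf48373e13d2bc128.shift 2 1)] (by decide +kernel))
noncomputable def rhf7ee2fef5eceb7b3 : CRef := CRef.mk (Pat.mk 0x8000000180000000b0000000600000000 0x1000000018000000180000000b0000001e00000008 3 5) 0 0 (step_sound _ 35 [(rha707fb719e87fe6e.shift 3 0), (rhf48373e13d2bc128.shift 0 1)] (by decide +kernel))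
noncomputable def rh4ca7ff369f804d50 : CRef := CRef.mk (Pat.mk 0x20000000a00000002000000020000000200000002 0x30000001e00000007000000020000000200000002 3 5) 0 0 (step_sound _ 130 [(rhbaefcd01e0a8bca3.shift 1 0), (rhd9106766b9ff53c0.shift 0 3)] (by decide +kernel))
noncomputable def rha0b579a804a93c2d : CRef := CRef.mk (Pat.mk 0x80000000800000018000000030000000600000000 0x800000008000000180000001b0000001e00000010 3 5) 0 0 (step_sound _ 36 [(rh2fe78cc5ca4405d8.shift 0 1), (rh5278689ccab1c3c2.shift 3 0)] (by decide +kernel))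
noncomputable def rh371ce43f88c89d49 : CRef := CRef.mk (Pat.mk 0xa0000000a000000100000000000000010 0xb0000001e000000300000001000000010 3 6) 0 0 (step_sound _ 100 [(rh7174a5174d2fbf5b.shift 0 2), (rh9e07f76261b05888.shift 3 0)] (by decide +kernel))
noncomputable def rha4a96b64b7d02d1e : CRef := CRef.mk (Pat.mk 0x10000000100000002000000000000000200000000 0x10000000300000003000000030000000200000002 3 2) 0 0 (step_sound _ 65 [rh4b555cfb2752cddc, (rhcfdf45280693d3da.shift 0 1)] (by decide +kernel))
noncomputable def rhd03bf28cd6f1aa27 : CRef := CRef.mk (Pat.mk 0x800000008000000120000000300000010 0x8000000180000001e0000001b00000010 3 5) 0 0 (step_sound _ 36 [rh29d89e262dc907e9, (rhcfdf45280693d3da.shift 3 0)] (by decide +kernel))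
noncomputable def rhfdea271288818cd8 : CRef := CRef.mk (Pat.mk 0x10000000600000002000000060000000200000000 0x3000000030000000600000006000000060000000200000002 3 3) 0 0 (step_sound _ 98 [(rh71222050f2c63a3a.shift 1 0), (rhf627eb01e9e8db9a.shift 0 2)] (by decide +kernel))
noncomputable def rheef8171dfb50465e : CRef := CRef.mk (Pat.mk 0x10000000f000000020000000000000000 0x1000000030000001f000000020000000200000002 3 5) 0 0 (step_sound _ 129 [rh3cb04db3dd2b6a55, (rhf48373e13d2bc128.shift 0 3)] (by decide +kernel))
noncomputable def rh753fba6ae2fbf5db : CRef := CRef.mk (Pat.mk 0x60000000e0000000b0000000200000000 0x60000000e0000000b0000001e0000000c 3 5) 0 0 (step_sound _ 34 [rh46d8aa7205a52b27, (rh55afc6a59410cf00.shift 1 0)] (by decide +kernel))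
noncomputable def rh86308a570de11f2c : CRef := CRef.mk (Pat.mk 0x20000000700000003000000020000000000000000 0x60000000700000003000000060000000600000002 3 3) 0 0 (step_sound _ 66 [(rh55afc6a59410cf00.shift 1 1), rhb0c1e7919d9be92d] (by decide +kernel))
noncomputable def rhbacaee3822caae1c : CRef := CRef.mk (Pat.mk 0x10000000100000000c0000000a00000008 0x10000000300000001e0000001b00000008 3 6) 0 0 (step_sound _ 68 [(rh2ee61895a6499355.shift 0 1), (rheea67dfebd0f8008.shift 3 0)] (by decide +kernel))
noncomputable def rh2160c83faec457f2 : CRef := CRef.mk (Pat.mk 0x10000000140000001e 0x300000001f0000001f 3 6) 0 0 (step_sound _ 33 [rh3244c3cc8379b070, rh7f01e29029689730] (by decide +kernel))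
noncomputable def rh4b44abc110b49737 : CRef := CRef.mk (Pat.mk 0x60000001c0000000400000000 0xa0000000f0000001c0000000400000004 3 5) 0 0 (step_sound _ 2 [(rh50fbb5868c909700.shift 1 0), rhd62aa8c143bedf8f] (by decide +kernel))
noncomputable def rh09f1c582a79c0e52 : CRef := CRef.mk (Pat.mk 0x100000001e00000010 0x1b0000001f00000018 3 5) 0 0 (step_sound _ 64 [(rh3f8766e6ecb455ce.shift 0 1), rhef7515d0e7cb1d2b] (by decide +kernel))
noncomputable def rha1c6525dbc916a6a : CRef := CRef.mk (Pat.mk 0x40000000c0000000d0000000000000000 0x40000001c0000000f0000001800000008 3 5) 0 0 (step_sound _ 35 [(rh7b1f1fb55310c477.shift 2 0), (rhc924e5f7a4031fcc.shift 0 1)] (by decide +kernel))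
noncomputable def rh558e6fee747fbc33 : CRef := CRef.mk (Pat.mk 0x80000000c000000030000000a00000000 0x80000000c0000000f0000001e00000004 3 5) 0 0 (step_sound _ 34 [(rhecb97fed8c7f1286.shift 2 0), (rhf48373e13d2bc128.shift 0 1)] (by decide +kernel))
noncomputable def rhb70d716b1c885bd3 : CRef := CRef.mk (Pat.mk 0x80000000c000000080000000e0000000000000000 0x8000000080000000c0000000c0000000f0000001800000018 3 5) 0 0 (step_sound _ 35 [(rh94660f4c13544bba.shift 2 0), rhbdde238153e38af9] (by decide +kernel))
noncomputable def rha9524c20030bd517 : CRef := CRef.mk (Pat.mk 0x1800000008000000030000000800000000 0x1000000018000000080000000f0000001800000010 3 5) 0 0 (step_sound _ 67 [(rh2f68792b6b779e96.shift 3 1), rh5f11ee373cbffcaa] (by decide +kernel))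
noncomputable def rhb435232671ffe61d : CRef := CRef.mk (Pat.mk 0x1800000008000000030000000a00000000 0x1000000018000000080000000b0000001e00000010 3 5) 0 0 (step_sound _ 67 [(rh2f68792b6b779e96.shift 3 1), rh8ffd6c73cfd2ea71] (by decide +kernel))
noncomputable def rh296418b54b6472b9 : CRef := CRef.mk (Pat.mk 0x20000000300000001000000030000000000000000 0x2000000030000000300000003000000030000000200000002 3 2) 0 0 (step_sound _ 33 [(rh2145e1d24b96a57e.shift 0 1), rh91ee0353efcb1916] (by decide +kernel))
noncomputable def rh92e78e6426079968 : CRef := CRef.mk (Pat.mk 0x80000000c000000030000000600000000 0x80000000c0000000f0000001e00000004 3 5) 0 0 (step_sound _ 35 [(rhecb97fed8c7f1286.shift 2 0), (rhf48373e13d2bc128.shift 0 1)] (by decide +kernel))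
noncomputable def rhe808c2e5bb68297c : CRef := CRef.mk (Pat.mk 0x20000000300000002000000030000000000000000 0x2000000030000000300000003000000030000000200000002 3 2) 0 0 (step_sound _ 96 [rh55a1f6c57a317ce6, (rh5c5e593799055d58.shift 0 2)] (by decide +kernel))
noncomputable def rh00b2f1f16e5d0384 : CRef := CRef.mk (Pat.mk 0xc00000006000000040000000400000000 0x3c0000000f000000040000000400000004 3 6) 0 0 (step_sound _ 99 [(rh71222050f2c63a3a.shift 2 0), (rhf9d36e158778ce35.shift 0 3)] (by decide +kernel))
noncomputable def rhdf3cc6e20fb32d78 : CRef := CRef.mk (Pat.mk 0xc00000018000000040000000c00000000 0x20000000f0000001c000000040000000c00000008 3 5) 0 0 (step_sound _ 129 [(rhb739f4f82bb681b4.shift 0 3), (rhc5351dabd90740aa.shift 1 0)] (by decide +kernel))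
noncomputable def rhcf0f1f5b2b1be263 : CRef := CRef.mk (Pat.mk 0x8000000080000001c0000000e00000000 0x8000000080000001f0000003e00000010 3 6) 0 0 (step_sound _ 36 [(rh55afc6a59410cf00.shift 3 0), (rh73aed199c1a62ed4.shift 0 1)] (by decide +kernel))
noncomputable def rh1654ea0e58c0cf62 : CRef := CRef.mk (Pat.mk 0x1f00000000 0x300000001f00000038 3 6) 0 0 (step_sound _ 69 [(rh428265de8cd3cd2d.shift 1 1), rh4ad5fc38f1b69f65] (by decide +kernel))
noncomputable def rha3c18a0d51907fbb : CRef := CRef.mk (Pat.mk 0x1c0000000600000004 0x2000000030000001e0000000700000004 3 5) 0 0 (step_sound _ 65 [rh309fd0c3d364cd61, (rheb0810cc63b001d8.shift 0 1)] (by decide +kernel))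
noncomputable def rh56498abf25192a73 : CRef := CRef.mk (Pat.mk 0xe000000020000000200000000 0x5000000070000001e000000020000000200000002 3 5) 0 0 (step_sound _ 129 [(rh2e8814637c3f6d46.shift 0 1), (rha707fb719e87fe6e.shift 1 0)] (by decide +kernel))
noncomputable def rh05e1907ed79dbf04 : CRef := CRef.mk (Pat.mk 0x3e00000040 0x70000007e000000c0 3 8) 0 0 (step_sound _ 38 [(rhd5eb272e07a4e288.shift 0 1), (rhe25b0a99195a5d59.shift 3 0)] (by decide +kernel))
noncomputable def rh591c3d50f7e8728f : CRef := CRef.mk (Pat.mk 0x1f000000000000000000000008 0x300000001f000000180000000800000008 3 6) 0 0 (step_sound _ 67 [(rh63bb75a038171f49.shift 1 0), (rhe25b0a99195a5d59.shift 0 2)] (by decide +kernel))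
noncomputable def rh10a6a2f52f973296 : CRef := CRef.mk (Pat.mk 0x600000003000000010000000200000000 0x50000000700000003000000030000000200000002 3 3) 0 0 (step_sound _ 65 [(rh2f68792b6b779e96.shift 1 1), rhfc7c29d8e65d775f] (by decide +kernel))
noncomputable def rh194b9cf1b3c0ca44 : CRef := CRef.mk (Pat.mk 0x1000000060000000300000003000000000000000000000000 0x1000000070000000700000003000000020000000200000002 3 3) 0 0 (step_sound _ 65 [rh3eb26739ea0a224c, (rhffd04209dc8ea796.shift 0 2)] (by decide +kernel))
noncomputable def rhc730c880da7d410c : CRef := CRef.mk (Pat.mk 0x8000000040000000e0000000400000000 0x80000003c0000000f0000000400000004 3 6) 0 0 (step_sound _ 99 [(rh71222050f2c63a3a.shift 2 0), (rhf9d36e158778ce35.shift 0 2)] (by decide +kernel))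
noncomputable def rh8869e59ae3158564 : CRef := CRef.mk (Pat.mk 0x400000004000000060000000a00000000 0x400000004000000070000003e00000008 3 6) 0 0 (step_sound _ 34 [(rh55afc6a59410cf00.shift 2 0), (rh79b3c29022acbdf3.shift 0 1)] (by decide +kernel))
noncomputable def rh141a5aabb394f9cd : CRef := CRef.mk (Pat.mk 0x8000000040000000e0000000e00000000 0x80000000c0000000f0000001e00000014 3 5) 0 0 (step_sound _ 99 [rh0e9804663e9ab184, (rh71222050f2c63a3a.shift 2 0)] (by decide +kernel))
noncomputable def rhebad08d70b7eb511 : CRef := CRef.mk (Pat.mk 0x600000006000000050000000600000000 0x40000000600000006000000070000001e00000008 3 5) 0 0 (step_sound _ 65 [(rh2f68792b6b779e96.shift 1 1), rh42afa1af9fffa0e1] (by decide +kernel))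
noncomputable def rh93c0feb6cf144553 : CRef := CRef.mk (Pat.mk 0x1e00000004 0x70000003e00000006 3 6) 0 0 (step_sound _ 65 [(rh3244c3cc8379b070.shift 0 1), (rh795d3e5d420177aa.shift 1 0)] (by decide +kernel))
noncomputable def rh360f5caf39154ba6 : CRef := CRef.mk (Pat.mk 0x40000000c000000380000000200000000 0x40000000c000000380000001f00000008 3 6) 0 0 (step_sound _ 35 [(rh7b1f1fb55310c477.shift 2 0), (rhfb815e3afead425a.shift 0 1)] (by decide +kernel))
noncomputable def rhb74d657eb25f93e7 : CRef := CRef.mk (Pat.mk 0x6000000070000000200000004 0x20000000200000006000000070000000700000005 3 3) 0 0 (step_sound _ 129 [rh03dfdf12d5937476, (rh9e07f76261b05888.shift 1 0)] (by decide +kernel))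
noncomputable def rhd8fabeb96da1e86f : CRef := CRef.mk (Pat.mk 0x7000000070000000000000001 0x20000000200000007000000070000000500000005 3 3) 0 0 (step_sound _ 129 [(rh55a1f6c57a317ce6.shift 1 0), rh9e3edb185cc347de] (by decide +kernel))
noncomputable def rhe416a68cbe4f200b : CRef := CRef.mk (Pat.mk 0x60000000c00000018 0x60000003f00000038 3 6) 0 0 (step_sound _ 36 [rhad5d8fc3675c15dd, (rhf48373e13d2bc128.shift 1 1)] (by decide +kernel))
noncomputable def rhd9fec72a21b00309 : CRef := CRef.mk (Pat.mk 0x40000000c000000030000000700000000 0x40000000c0000001b0000001f00000008 3 5) 0 0 (step_sound _ 35 [rh215ee3f3abaea373, (rhf48373e13d2bc128.shift 0 1)] (by decide +kernel))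
noncomputable def rha3e646ed12f1e914 : CRef := CRef.mk (Pat.mk 0x60000000300000003000000040000000000000000 0x60000000700000003000000060000000600000002 3 3) 0 0 (step_sound _ 65 [rh3eb26739ea0a224c, (rh55afc6a59410cf00.shift 1 1)] (by decide +kernel))
noncomputable def rh3aebecf4f16aee4e : CRef := CRef.mk (Pat.mk 0x20000001a0000000e 0x30000001f0000003e 3 6) 0 0 (step_sound _ 34 [(rh3244c3cc8379b070.shift 0 1), rh5c2ddd300f751bae] (by decide +kernel))
noncomputable def rhf4567e835eb18e9f : CRef := CRef.mk (Pat.mk 0xc0000000c0000000b0000000200000000 0xc0000000c0000000b0000001e0000000c 3 5) 0 0 (step_sound _ 35 [rh33b92f427999e8d7, (rh7b1f1fb55310c477.shift 2 0)] (by decide +kernel))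
noncomputable def rh69533f12b59c04e9 : CRef := CRef.mk (Pat.mk 0x80000001e00000000 0x380000001f00000030 3 6) 0 0 (step_sound _ 4 [(rhe25b0a99195a5d59.shift 1 0), (rhec46bd5500c722c9.shift 0 1)] (by decide +kernel))
noncomputable def rhd3a7c4580f62e5fe : CRef := CRef.mk (Pat.mk 0xc000000030000000600000004 0x80000000c0000000f0000001e00000004 3 5) 0 0 (step_sound _ 35 [(rh7d7eaefe27cdd7b0.shift 2 0), (rhf48373e13d2bc128.shift 0 1)] (by decide +kernel))
noncomputable def rh0997b083d9ddfc1c : CRef := CRef.mk (Pat.mk 0x20000000600000002000000020000000200000000 0x20000000600000006000000030000000300000003 3 3) 0 0 (step_sound _ 1 [rh7928877f9bf74a91, (rhbaefcd01e0a8bca3.shift 1 0)] (by decide +kernel))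
noncomputable def rh198505795ac7e57a : CRef := CRef.mk (Pat.mk 0xe0000000b0000000a 0xf0000001b0000001f 3 5) 0 0 (step_sound _ 36 [(rhb739f4f82bb681b4.shift 0 1), rhba7137a6404ea089] (by decide +kernel))
noncomputable def rh1a82cb2d91a44ca1 : CRef := CRef.mk (Pat.mk 0x240000003800000018 0x360000003f00000018 3 6) 0 0 (step_sound _ 34 [(rh3244c3cc8379b070.shift 1 1), rh4baa30ac13a5afd1] (by decide +kernel))
noncomputable def rhff4c737aebdcf19e : CRef := CRef.mk (Pat.mk 0x1c0000000e0000000400000004 0x20000001f0000003e0000000400000004 3 6) 0 0 (step_sound _ 97 [(rh50fbb5868c909700.shift 1 0), (rh5c2ddd300f751bae.shift 0 2)] (by decide +kernel))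
noncomputable def rhca6b99e1f6ffeb4c : CRef := CRef.mk (Pat.mk 0x1a0000000e0000000400000004 0x20000001f0000003e0000000400000004 3 6) 0 0 (step_sound _ 98 [(rh50fbb5868c909700.shift 1 0), (rh5c2ddd300f751bae.shift 0 2)] (by decide +kernel))
noncomputable def rh7954966a81f8b2d9 : CRef := CRef.mk (Pat.mk 0xc000000000000000f00000000 0x40000000c000000180000000f00000018 3 5) 0 0 (step_sound _ 67 [(rh33e738c4ed385b9f.shift 0 1), rh4ad42ce8b6b2f224] (by decide +kernel))
noncomputable def rh87b8cd3adf08d155 : CRef := CRef.mk (Pat.mk 0x400000000000000070000000700000000 0x400000004000000070000001f00000018 3 5) 0 0 (step_sound _ 35 [rh3098af7943687178, (rhf48373e13d2bc128.shift 0 1)] (by decide +kernel))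
noncomputable def rh8d56be6ebcbb46ba : CRef := CRef.mk (Pat.mk 0x200000007000000020000000400000000 0x700000007000000020000000600000006 3 3) 0 0 (step_sound _ 33 [rh261f868a429ae0e3, (rh55afc6a59410cf00.shift 1 0)] (by decide +kernel))
noncomputable def rhcf0096e346dba882 : CRef := CRef.mk (Pat.mk 0x700000001000000030000000000000000 0x50000000700000003000000030000000200000002 3 3) 0 0 (step_sound _ 33 [(rh2145e1d24b96a57e.shift 0 1), rhef73737383050ca7] (by decide +kernel))
noncomputable def rh186fe4ed6bb82831 : CRef := CRef.mk (Pat.mk 0x6000000070000000000000004 0xa0000001e000000070000000400000004 3 5) 0 0 (step_sound _ 34 [(rh50fbb5868c909700.shift 1 0), rh712526e472efe489] (by decide +kernel))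
noncomputable def rhc7cbae2146d78903 : CRef := CRef.mk (Pat.mk 0xc0000001c000000080000001c 0x80000000c0000001c0000000f0000003c 3 6) 0 0 (step_sound _ 34 [(rh2f68792b6b779e96.shift 2 0), rhfdd338b587cdea0b] (by decide +kernel))
noncomputable def rh9daf7b80fd80f383 : CRef := CRef.mk (Pat.mk 0x1e000000040000000000000004 0x380000001f000000040000000400000004 3 6) 0 0 (step_sound _ 131 [(rh9e3edb185cc347de.shift 2 0), (rhec46bd5500c722c9.shift 0 3)] (by decide +kernel))
noncomputable def rh14b21a5d56ad19c3 : CRef := CRef.mk (Pat.mk 0xc0000001600000002 0xc0000007e00000007 3 7) 0 0 (step_sound _ 35 [(rhb0463dbec37421a0.shift 1 0), rheb0810cc63b001d8] (by decide +kernel))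
noncomputable def rh9160f25ba4516b22 : CRef := CRef.mk (Pat.mk 0x100000001a0000000e 0x300000001f0000003e 3 6) 0 0 (step_sound _ 34 [(rh33e738c4ed385b9f.shift 1 1), rh5c2ddd300f751bae] (by decide +kernel))
noncomputable def rh6f21391ccc0d7551 : CRef := CRef.mk (Pat.mk 0x800000000000000080000001e00000000 0x800000008000000080000003e00000007 3 6) 0 0 (step_sound _ 2 [rhaf9f2efc81a8312b, (rhee230b994cc8b773.shift 2 0)] (by decide +kernel))
noncomputable def rha6e53ddca27b43ab : CRef := CRef.mk (Pat.mk 0x140000000e0000000400000000 0x8000000080000001c0000000f0000000400000004 3 5) 0 0 (step_sound _ 99 [(rh53b3c253cb0c65f4.shift 0 2), (rh84d1c02a8954c6a8.shift 2 0)] (by decide +kernel))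
noncomputable def rh5a736a18eaee4266 : CRef := CRef.mk (Pat.mk 0x8000000080000001c0000001600000000 0x8000000080000001f0000003e00000010 3 6) 0 0 (step_sound _ 35 [(rh55afc6a59410cf00.shift 3 0), (rh73aed199c1a62ed4.shift 0 1)] (by decide +kernel))
noncomputable def rh26b686789b1aea81 : CRef := CRef.mk (Pat.mk 0xc00000007000000080000000000000000 0x40000000c0000000f000000180000000800000008 3 5) 0 0 (step_sound _ 99 [(rh3cb04db3dd2b6a55.shift 2 0), (rhe25b0a99195a5d59.shift 0 2)] (by decide +kernel))
noncomputable def rh8e6b6ddbdafc0b2b : CRef := CRef.mk (Pat.mk 0x4000000070000000c00000000 0x40000000400000004000000070000001e00000008 3 5) 0 0 (step_sound _ 33 [(rh571950d89739e871.shift 1 0), (rhf48373e13d2bc128.shift 0 1)] (by decide +kernel))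
noncomputable def rh871caa7606de9ca4 : CRef := CRef.mk (Pat.mk 0x600000006000000030000000200000000 0x20000000600000006000000070000000700000004 3 3) 0 0 (step_sound _ 34 [(rh3f7e8fd46bd3689a.shift 0 1), (rh55afc6a59410cf00.shift 1 0)] (by decide +kernel))
noncomputable def rhede1dfc55ca9bb6f : CRef := CRef.mk (Pat.mk 0x20000000e0000000400000004 0x2000000030000003e0000000600000004 3 6) 0 0 (step_sound _ 33 [(rh2145e1d24b96a57e.shift 1 0), (rhb762f327c85d41a0.shift 0 1)] (by decide +kernel))
noncomputable def rh5c3b8cf9e4f12e07 : CRef := CRef.mk (Pat.mk 0x80000001e000000100000000000000000 0x8000000080000001f000000180000001000000010 3 5) 0 0 (step_sound _ 67 [(rh55a1f6c57a317ce6.shift 3 0), (rhb739f4f82bb681b4.shift 0 2)] (by decide +kernel))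
noncomputable def rh33bed325bf166500 : CRef := CRef.mk (Pat.mk 0xc0000000f0000000200000000 0x4000000040000000c0000000f0000001a00000008 3 5) 0 0 (step_sound _ 35 [(rh35ab8589afe62dd0.shift 1 0), (rhe25b0a99195a5d59.shift 0 1)] (by decide +kernel))
noncomputable def rhe139c704cb953426 : CRef := CRef.mk (Pat.mk 0x1c0000001600000002 0x1f0000003e00000003 3 6) 0 0 (step_sound _ 35 [(rh73aed199c1a62ed4.shift 0 1), rheb0810cc63b001d8] (by decide +kernel))
noncomputable def rhcae29cd10c1d0fbc : CRef := CRef.mk (Pat.mk 0x60000001c0000000200000000 0x400000004000000070000001e0000000200000002 3 5) 0 0 (step_sound _ 65 [(rh3244c3cc8379b070.shift 0 2), (rh84d1c02a8954c6a8.shift 1 0)] (by decide +kernel))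
noncomputable def rh534a6900ac2ddaa9 : CRef := CRef.mk (Pat.mk 0x8000000180000001e0000000000000000 0x8000000180000001e0000003300000010 3 6) 0 0 (step_sound _ 33 [(rh78974448101547fe.shift 1 0), (rheb0810cc63b001d8.shift 0 1)] (by decide +kernel))
noncomputable def rhe5429f32da1d61e1 : CRef := CRef.mk (Pat.mk 0x1c0000000c0000000800000000 0x140000001c0000000f0000000800000008 3 5) 0 0 (step_sound _ 65 [(rh261f868a429ae0e3.shift 2 0), (rh53b3c253cb0c65f4.shift 0 2)] (by decide +kernel))
noncomputable def rh63cf8e5b829d8217 : CRef := CRef.mk (Pat.mk 0x600000004000000060000000300000000 0x20000000600000006000000060000000700000005 3 3) 0 0 (step_sound _ 34 [rh0fb2e3a32a8ad49f, (rh50fbb5868c909700.shift 1 1)] (by decide +kernel))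
noncomputable def rh548ca695070b4cbb : CRef := CRef.mk (Pat.mk 0x400000004000000070000000400000000 0x4000000040000000f0000001e00000008 3 5) 0 0 (step_sound _ 35 [(rh55afc6a59410cf00.shift 2 0), (rhae2edff970a530ce.shift 0 1)] (by decide +kernel))
noncomputable def rh668d9a8ca31d4623 : CRef := CRef.mk (Pat.mk 0x60000000f000000010000000000000000 0x60000003f000000030000000100000001 3 6) 0 0 (step_sound _ 32 [rh71222050f2c63a3a, (rhb0463dbec37421a0.shift 0 2)] (by decide +kernel))
noncomputable def rhedf43d9310a523b3 : CRef := CRef.mk (Pat.mk 0xc0000000e00000002 0xc0000007e00000007 3 7) 0 0 (step_sound _ 36 [(rhb0463dbec37421a0.shift 1 0), rheb0810cc63b001d8] (by decide +kernel))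
noncomputable def rh3227e678d338a565 : CRef := CRef.mk (Pat.mk 0x1e0000001a00000004 0x2000000030000003e0000001e00000004 3 6) 0 0 (step_sound _ 34 [rh309fd0c3d364cd61, (rh33e738c4ed385b9f.shift 1 1)] (by decide +kernel))
noncomputable def rhac866be56a8fddea : CRef := CRef.mk (Pat.mk 0x4000000070000000400000008 0x4000000040000000f0000001e00000008 3 5) 0 0 (step_sound _ 35 [(rh2145e1d24b96a57e.shift 2 0), (rhae2edff970a530ce.shift 0 1)] (by decide +kernel))
noncomputable def rh24b1293adaf02ee1 : CRef := CRef.mk (Pat.mk 0x8000000180000000e0000001400000000 0x8000000180000003e0000001700000010 3 6) 0 0 (step_sound _ 68 [(rh7b1f1fb55310c477.shift 3 0), (rhaf9f2efc81a8312b.shift 0 1)] (by decide +kernel))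
noncomputable def rhd3fc8cd96b6f9bda : CRef := CRef.mk (Pat.mk 0x2000000070000000a 0x30000001f0000001b 3 5) 0 0 (step_sound _ 35 [rhd9106766b9ff53c0, rhe25b0a99195a5d59] (by decide +kernel))
noncomputable def rh2001cb69a0930ca5 : CRef := CRef.mk (Pat.mk 0x8000000080000001e0000000000000000 0x8000000180000001f0000003000000010 3 6) 0 0 (step_sound _ 36 [rh00fa999739b16860, (rhe25b0a99195a5d59.shift 1 1)] (by decide +kernel))
noncomputable def rhf7bcf9b870af2a5c : CRef := CRef.mk (Pat.mk 0x400000006000000030000000600000000 0x20000000600000006000000070000000700000004 3 3) 0 0 (step_sound _ 129 [(rh3f7e8fd46bd3689a.shift 0 1), (rh55afc6a59410cf00.shift 1 0)] (by decide +kernel))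
noncomputable def rhc45fd9158a291033 : CRef := CRef.mk (Pat.mk 0x1c0000001600000010 0x1f0000003e00000030 3 6) 0 0 (step_sound _ 35 [(rh73aed199c1a62ed4.shift 0 1), (rhe25b0a99195a5d59.shift 1 0)] (by decide +kernel))
noncomputable def rh1cfb56229db5364f : CRef := CRef.mk (Pat.mk 0xc0000000700000006 0x3c0000000f0000001e 3 6) 0 0 (step_sound _ 3 [(rh572132728df34c43.shift 0 1), rhf48373e13d2bc128] (by decide +kernel))
noncomputable def rh349195d9cb732d42 : CRef := CRef.mk (Pat.mk 0x1c0000000c000000080000000000000000 0x40000001c0000000f000000080000000800000008 3 5) 0 0 (step_sound _ 97 [(rh3cb04db3dd2b6a55.shift 2 0), (rh53b3c253cb0c65f4.shift 0 3)] (by decide +kernel))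
noncomputable def rh816964284bbe786e : CRef := CRef.mk (Pat.mk 0x20000000f00000001 0x30000001f0000001b 3 5) 0 0 (step_sound _ 4 [rh7b030ba967bf927e, rh96851dee118c1ba3] (by decide +kernel))
noncomputable def rh31b0ad277bcf95ba : CRef := CRef.mk (Pat.mk 0xe000000000000000e00000004 0x20000001e000000030000001e00000004 3 5) 0 0 (step_sound _ 65 [(rh046254d731362e10.shift 0 1), (rh2145e1d24b96a57e.shift 1 0)] (by decide +kernel))
noncomputable def rhf31629e9e2f1ae90 : CRef := CRef.mk (Pat.mk 0x10000000070000000c00000008 0x40000003e000000070000000c00000008 3 6) 0 0 (step_sound _ 98 [(rh2145e1d24b96a57e.shift 2 0), (rh4fd54f6717f3e7ac.shift 0 2)] (by decide +kernel))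
noncomputable def rh9a17dc36f7181934 : CRef := CRef.mk (Pat.mk 0x100000002000000020000000200000000 0x1000000010000000300000003000000020000000200000002 3 2) 0 0 (step_sound _ 160 [(rhcfdf45280693d3da.shift 0 1), rhe2ca67a12f9e4a24] (by decide +kernel))
noncomputable def rh6a6aee6498c713c1 : CRef := CRef.mk (Pat.mk 0x80000001c0000000800000004 0x8000000080000003c0000000f00000004 3 6) 0 0 (step_sound _ 34 [(rh4dc133ee0ba1420a.shift 0 1), (rh5c5e593799055d58.shift 2 0)] (by decide +kernel))
noncomputable def rh3289262d1f59fe3a : CRef := CRef.mk (Pat.mk 0x300000006000000030000000100000000 0x10000000700000007000000030000000300000002 3 3) 0 0 (step_sound _ 33 [(rh50fbb5868c909700.shift 0 1), rh5934eb2458b5cfb0] (by decide +kernel))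
noncomputable def rh411b7fbe199774b0 : CRef := CRef.mk (Pat.mk 0x1000000010000000180000001e00000000 0x10000000100000001f0000003e00000020 3 6) 0 0 (step_sound _ 37 [(rh55afc6a59410cf00.shift 4 0), (rh5d685137714d9fe9.shift 0 1)] (by decide +kernel))
noncomputable def rh00904813ed7d9adf : CRef := CRef.mk (Pat.mk 0x200000004000000060000000300000000 0x2000000020000000200000006000000070000000300000001 3 3) 0 0 (step_sound _ 97 [(rh749b30baa5602f69.shift 0 1), rh932754581e0f4330] (by decide +kernel))
noncomputable def rhc2527ff81f95f627 : CRef := CRef.mk (Pat.mk 0x70000000a000000020000000200000000 0x1f0000001b000000020000000200000002 3 5) 0 0 (step_sound _ 96 [rh7b1f1fb55310c477, (rhbca71ab025ef4262.shift 0 3)] (by decide +kernel))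
noncomputable def rh7fd50e698048e434 : CRef := CRef.mk (Pat.mk 0x1c0000001600000002 0x1f0000003e00000003 3 6) 0 0 (step_sound _ 65 [rh51246ab843efda05, (rhe25b0a99195a5d59.shift 1 1)] (by decide +kernel))
noncomputable def rhb5ed5ce4f6e64c8a : CRef := CRef.mk (Pat.mk 0x6000000070000000a 0x60000003f0000001b 3 6) 0 0 (step_sound _ 35 [rha9e1a5d55b907abf, rhe25b0a99195a5d59] (by decide +kernel))
noncomputable def rh31cc5a8a8f8e588d : CRef := CRef.mk (Pat.mk 0xc000000070000000400000000 0x2000000020000001e000000070000000400000004 3 5) 0 0 (step_sound _ 97 [(rh18965a982d73c794.shift 0 2), (rhfc7c29d8e65d775f.shift 1 0)] (by decide +kernel))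
noncomputable def rh995d562584f2bbf0 : CRef := CRef.mk (Pat.mk 0x100000001000000020000000300000000 0x10000000300000003000000020000000300000003 3 2) 0 0 (step_sound _ 97 [rh7b1f1fb55310c477, rhbdd4e349c1dde679] (by decide +kernel))
noncomputable def rh721aed7e1e1f8dd8 : CRef := CRef.mk (Pat.mk 0x80000001c0000000400000004 0xa0000000f0000001c0000000400000004 3 5) 0 0 (step_sound _ 98 [rh277b01412deaec89, (rh2f68792b6b779e96.shift 2 0)] (by decide +kernel))
noncomputable def rhdd2601c875e3d18f : CRef := CRef.mk (Pat.mk 0x400000004000000070000000400000000 0x400000004000000040000000f0000001c00000008 3 5) 0 0 (step_sound _ 35 [(rh55afc6a59410cf00.shift 2 0), (rh6e1f502161d2d285.shift 0 1)] (by decide +kernel))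
noncomputable def rhed935ba8b513e3af : CRef := CRef.mk (Pat.mk 0x200000006000000020000000200000000 0x50000000700000006000000020000000200000002 3 3) 0 0 (step_sound _ 128 [(rh50fbb5868c909700.shift 0 1), (rha707fb719e87fe6e.shift 1 0)] (by decide +kernel))
noncomputable def rhd8fd7dea41c7d0e4 : CRef := CRef.mk (Pat.mk 0x40000000200000002000000160000000000000000 0x400000006000000020000001e0000000300000001 3 5) 0 0 (step_sound _ 33 [rh84f01cf2134210c0, (rhbaefcd01e0a8bca3.shift 1 1)] (by decide +kernel))
noncomputable def rh559bc5fce6bebed1 : CRef := CRef.mk (Pat.mk 0x40000000400000007000000080000000000000000 0x40000000c0000000f000000180000000800000008 3 5) 0 0 (step_sound _ 99 [(rh08edf065357d68e5.shift 2 0), (rhe25b0a99195a5d59.shift 0 2)] (by decide +kernel))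
noncomputable def rh2a4202a051666377 : CRef := CRef.mk (Pat.mk 0x200000007000000010000000700000000 0x700000007000000050000000700000006 3 3) 0 0 (step_sound _ 66 [rh5fc67bac28a8b5bb, (rh7b1f1fb55310c477.shift 1 0)] (by decide +kernel))
noncomputable def rh1c25203e4849060c : CRef := CRef.mk (Pat.mk 0x180000001e0000000800000008 0x40000001f0000003e0000000800000008 3 6) 0 0 (step_sound _ 98 [(rh50fbb5868c909700.shift 2 0), (rh73aed199c1a62ed4.shift 0 2)] (by decide +kernel))
noncomputable def rh4546f7635dc89e40 : CRef := CRef.mk (Pat.mk 0x50000000e0000000000000002 0x5000000070000001e0000000200000002 3 5) 0 0 (step_sound _ 97 [rhd1f9989d6034576a, (rhf48373e13d2bc128.shift 0 2)] (by decide +kernel))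
noncomputable def rh9102791758f2af0a : CRef := CRef.mk (Pat.mk 0x800000008000000090000000a00000000 0x8000000080000000b0000001e00000014 3 5) 0 0 (step_sound _ 34 [rh252658d5f9b21822, (rh932754581e0f4330.shift 2 0)] (by decide +kernel))
noncomputable def rh94c9224e94c6bb3e : CRef := CRef.mk (Pat.mk 0xd0000000e00000002 0xf0000007e00000006 3 7) 0 0 (step_sound _ 36 [(rh3f8766e6ecb455ce.shift 0 1), (rhb0463dbec37421a0.shift 1 0)] (by decide +kernel))
noncomputable def rhe1c1135f9a30d6da : CRef := CRef.mk (Pat.mk 0x100000001c000000180000000000000000 0x10000000100000001f000000180000000800000008 3 5) 0 0 (step_sound _ 97 [(rh1e309b005ffa1b36.shift 3 0), (rhb739f4f82bb681b4.shift 0 2)] (by decide +kernel))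
noncomputable def rh9c961a77e6c44d48 : CRef := CRef.mk (Pat.mk 0xa0000001c00000008 0x1b0000001f00000018 3 5) 0 0 (step_sound _ 33 [(rh3244c3cc8379b070.shift 0 1), rhcf86d050071af9b3] (by decide +kernel))
noncomputable def rh13aae3c490c7b899 : CRef := CRef.mk (Pat.mk 0x6000000060000000100000004 0x2000000020000000200000006000000070000000500000004 3 3) 0 0 (step_sound _ 129 [(rh749b30baa5602f69.shift 0 1), (rh9e07f76261b05888.shift 1 0)] (by decide +kernel))
noncomputable def rh5fa41af95dbdc841 : CRef := CRef.mk (Pat.mk 0x1e00000006000000020000000200000000 0x30000001e00000006000000060000000600000004 3 5) 0 0 (step_sound _ 161 [(rh3244c3cc8379b070.shift 0 4), (rheb6520004608cff3.shift 1 0)] (by decide +kernel))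
noncomputable def rhb724a526d76df38e : CRef := CRef.mk (Pat.mk 0x4000000080000001c0000000c00000000 0x40000000c0000001c0000000f0000000a 3 5) 0 0 (step_sound _ 98 [(rh7b1f1fb55310c477.shift 2 0), rhf5094ad2a427d4d3] (by decide +kernel))
noncomputable def rhf5d886dc0d9d25f5 : CRef := CRef.mk (Pat.mk 0x1000000010000000120000000e00000000 0x1000000010000000170000003e00000020 3 6) 0 0 (step_sound _ 36 [(rh252658d5f9b21822.shift 1 0), (rh3244c3cc8379b070.shift 0 1)] (by decide +kernel))
noncomputable def rh5ccb20250d808703 : CRef := CRef.mk (Pat.mk 0x100000001a00000008 0x380000001f00000018 3 6) 0 0 (step_sound _ 34 [(rh33e738c4ed385b9f.shift 1 1), rhe3dc93746cbe6e7c] (by decide +kernel))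
noncomputable def rh36e394c40494fd59 : CRef := CRef.mk (Pat.mk 0xe0000001200000002 0xf0000003e00000003 3 6) 0 0 (step_sound _ 35 [rh1210e962428a2e05, (rhb739f4f82bb681b4.shift 0 1)] (by decide +kernel))
noncomputable def rh43529a11610bbe94 : CRef := CRef.mk (Pat.mk 0x4000000160000001c0000000000000000 0x4000000360000001e0000000300000002 3 6) 0 0 (step_sound _ 65 [(rh33e738c4ed385b9f.shift 1 2), rh9c40a739b57d6d20] (by decide +kernel))
noncomputable def rh360528347e85c5eb : CRef := CRef.mk (Pat.mk 0x40000000c000000030000000a00000000 0x40000000c0000000f0000001e00000008 3 5) 0 0 (step_sound _ 3 [(rh2613c889e411427e.shift 2 0), rhc19eade4c2703af5] (by decide +kernel))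
noncomputable def rh3f65d0070baf8518 : CRef := CRef.mk (Pat.mk 0x200000001c0000000c 0x300000001f0000003c 3 6) 0 0 (step_sound _ 33 [(rh428265de8cd3cd2d.shift 1 1), rh6292bd8784ece55f] (by decide +kernel))
noncomputable def rh06769707769566d4 : CRef := CRef.mk (Pat.mk 0x60000001c0000000400000000 0x20000000f0000001e0000000400000004 3 5) 0 0 (step_sound _ 129 [(rh7b1f1fb55310c477.shift 1 0), (rhd8e93bbc8568df99.shift 0 2)] (by decide +kernel))
noncomputable def rhda2bdb56f2459155 : CRef := CRef.mk (Pat.mk 0x8000000080000000d0000000800000000 0x1000000018000000180000000f0000000800000008 3 5) 0 0 (step_sound _ 100 [(rh24ae073cf30720c4.shift 0 2), (rha707fb719e87fe6e.shift 3 0)] (by decide +kernel))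
noncomputable def rhea6d74bc2b985bd7 : CRef := CRef.mk (Pat.mk 0x4000000040000000e0000000400000000 0x4000000040000003e0000000700000002 3 6) 0 0 (step_sound _ 33 [(rh2612b4f73ba7c3b3.shift 0 1), (rh932754581e0f4330.shift 1 0)] (by decide +kernel))
noncomputable def rh4394c150583627b0 : CRef := CRef.mk (Pat.mk 0x40000000e0000000400000002 0x4000000040000003e0000000700000002 3 6) 0 0 (step_sound _ 33 [(rh2612b4f73ba7c3b3.shift 0 1), (rh5c5e593799055d58.shift 1 0)] (by decide +kernel))
noncomputable def rh80c6ec4ccb40d96b : CRef := CRef.mk (Pat.mk 0x4000000070000000c0000000000000000 0x4000000040000000f0000001c0000000800000008 3 5) 0 0 (step_sound _ 99 [(rh55a1f6c57a317ce6.shift 2 0), (rhe25b0a99195a5d59.shift 0 2)] (by decide +kernel))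
noncomputable def rh0f9cf023e5c434f4 : CRef := CRef.mk (Pat.mk 0x40000001c000000060000000600000000 0x2000000070000001e000000060000000600000004 3 5) 0 0 (step_sound _ 129 [rh37d1b07d1fae205e, (rh50fbb5868c909700.shift 1 1)] (by decide +kernel))
noncomputable def rh61d2d3af8186acf8 : CRef := CRef.mk (Pat.mk 0x80000001c0000000e00000004 0x4000000060000000f0000001c0000000e00000006 3 5) 0 0 (step_sound _ 98 [rh277b01412deaec89, (rh37d9ceebb86d75d1.shift 1 0)] (by decide +kernel))
noncomputable def rh4860bbcf3442d1ba : CRef := CRef.mk (Pat.mk 0xe000000020000000200000001 0x1000000030000001e000000020000000300000001 3 5) 0 0 (step_sound _ 129 [(rh2e8814637c3f6d46.shift 0 1), rh79877ebd3ef475dd] (by decide +kernel))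
noncomputable def rh7d679ff893217b78 : CRef := CRef.mk (Pat.mk 0x4000000070000000300000002 0x40000000500000007000000070000000300000002 3 3) 0 0 (step_sound _ 96 [rh2145e1d24b96a57e, (rhbfb5770941270498.shift 1 0)] (by decide +kernel))
noncomputable def rhd4cedd081bf449c4 : CRef := CRef.mk (Pat.mk 0x1000000070000000600000002 0x10000000500000007000000070000000600000002 3 3) 0 0 (step_sound _ 98 [(rh5c5e593799055d58.shift 1 0), rhc89253ff58c66167] (by decide +kernel))
noncomputable def rhec20982dba267b78 : CRef := CRef.mk (Pat.mk 0x60000001c0000000c 0xf0000001e0000000f 3 5) 0 0 (step_sound _ 1 [rh53b3c253cb0c65f4, (rhd8e93bbc8568df99.shift 0 1)] (by decide +kernel))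
noncomputable def rh24e740d338799ad7 : CRef := CRef.mk (Pat.mk 0x200000004000000040000000700000000 0x20000000200000006000000060000000700000005 3 3) 0 0 (step_sound _ 97 [rh79a48be3ac30af6a, (rh7b1f1fb55310c477.shift 1 0)] (by decide +kernel))
noncomputable def rh8663e4749fb07386 : CRef := CRef.mk (Pat.mk 0x80000001c0000002c 0x380000001f0000003c 3 6) 0 0 (step_sound _ 33 [(rh2fe78cc5ca4405d8.shift 1 0), (rhec46bd5500c722c9.shift 0 1)] (by decide +kernel))
noncomputable def rh5909f14408a19b62 : CRef := CRef.mk (Pat.mk 0xc0000000c0000002c 0x3c0000000f0000003c 3 6) 0 0 (step_sound _ 33 [(rh2fe78cc5ca4405d8.shift 1 0), (rhf9d36e158778ce35.shift 0 1)] (by decide +kernel))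
noncomputable def rha78ee663a14ea57c : CRef := CRef.mk (Pat.mk 0x1e000000080000000400000004 0x20000003e0000000f0000000400000004 3 6) 0 0 (step_sound _ 66 [(rh4dc133ee0ba1420a.shift 0 2), (rh50fbb5868c909700.shift 1 0)] (by decide +kernel))
noncomputable def rh19f08b48cf271d79 : CRef := CRef.mk (Pat.mk 0x40000000e00000001 0x70000003e00000003 3 6) 0 0 (step_sound _ 36 [rh80fcd6d0a18cb2dd, (rhe3060b190bc0bc78.shift 0 1)] (by decide +kernel))
noncomputable def rh08d60f42f0e3d236 : CRef := CRef.mk (Pat.mk 0x40000001f0000000500000000 0x200000002000000060000003f0000000500000004 3 6) 0 0 (step_sound _ 97 [rh35ab8589afe62dd0, (rhf48373e13d2bc128.shift 1 2)] (by decide +kernel))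
noncomputable def rh32d46eeede60082a : CRef := CRef.mk (Pat.mk 0xe000000120000003000000000 0x300000001e000000130000003000000020 3 6) 0 0 (step_sound _ 100 [(rh7e2967714be94ca8.shift 1 0), (rheb0810cc63b001d8.shift 0 2)] (by decide +kernel))
noncomputable def rhba687f26403a073f : CRef := CRef.mk (Pat.mk 0x600000006000000030000000000000000 0x4000000060000001e000000030000000200000002 3 5) 0 0 (step_sound _ 99 [(rh18965a982d73c794.shift 0 2), (rhea7a1800d6f053bd.shift 1 0)] (by decide +kernel))
noncomputable def rh14aadcb4f1c08e4b : CRef := CRef.mk (Pat.mk 0xa0000001a0000001e00000004 0x40000000f0000001a0000003e00000006 3 6) 0 0 (step_sound _ 1 [(rh18965a982d73c794.shift 1 0), rhe8ba100882c6d16d] (by decide +kernel))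
noncomputable def rh1edbf78a4ab05046 : CRef := CRef.mk (Pat.mk 0x400000006000000080000001c00000000 0x4000000060000003b0000001f00000002 3 6) 0 0 (step_sound _ 33 [rh70e209139a9acc4a, (rhec46bd5500c722c9.shift 0 1)] (by decide +kernel))
noncomputable def rh9f1047afaa8ebdc9 : CRef := CRef.mk (Pat.mk 0x1e00000016 0x380000001f0000001e 3 6) 0 0 (step_sound _ 32 [rh2fe78cc5ca4405d8, (rh9890f9d77740bbed.shift 0 1)] (by decide +kernel))
noncomputable def rh5707d7863bec6828 : CRef := CRef.mk (Pat.mk 0x40000001c000000060000000000000000 0x4000000040000001c0000000f0000000800000008 3 5) 0 0 (step_sound _ 67 [(rh53b3c253cb0c65f4.shift 0 2), (rh55a1f6c57a317ce6.shift 2 0)] (by decide +kernel))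
noncomputable def rh8dbbebcf319a86be : CRef := CRef.mk (Pat.mk 0x580000003800000010 0x780000003f00000030 3 7) 0 0 (step_sound _ 34 [(rh428265de8cd3cd2d.shift 2 1), rhf56e6bc5d2f7fe77] (by decide +kernel))
noncomputable def rhb3a2f76440e25df9 : CRef := CRef.mk (Pat.mk 0x400000004000000070000000800000000 0x400000004000000070000001e0000000a 3 5) 0 0 (step_sound _ 34 [(rh55afc6a59410cf00.shift 2 0), rh6331bd58f8d610b3] (by decide +kernel))
noncomputable def rhe7bf5a31a4e8e39f : CRef := CRef.mk (Pat.mk 0xe00000004000000000000001800000010 0xf0000003c000000080000001800000010 3 6) 0 0 (step_sound _ 99 [(rh6292bd8784ece55f.shift 0 3), (rhff0f29cb645b05f7.shift 3 0)] (by decide +kernel))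
noncomputable def rh5dda16883491fd09 : CRef := CRef.mk (Pat.mk 0x1c0000001c 0x1f0000003f 3 6) 0 0 (step_sound _ 1 [rh53b3c253cb0c65f4, rh73aed199c1a62ed4] (by decide +kernel))
noncomputable def rhc304664f94bd3db3 : CRef := CRef.mk (Pat.mk 0x3000000060000000700000000 0x200000002000000030000001e0000000700000001 3 5) 0 0 (step_sound _ 67 [rh37d9ceebb86d75d1, (rhf48373e13d2bc128.shift 0 2)] (by decide +kernel))
noncomputable def rhcba81ace4e0c6eba : CRef := CRef.mk (Pat.mk 0x120000003c00000000 0x330000003e00000006 3 6) 0 0 (step_sound _ 2 [(rh479f07c8ec776d62.shift 0 1), (rheb0810cc63b001d8.shift 1 0)] (by decide +kernel))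
noncomputable def rhb3e242ae9b4f2f49 : CRef := CRef.mk (Pat.mk 0xe00000010000000000000001800000000 0xf00000018000000180000001800000010 3 5) 0 0 (step_sound _ 99 [(rh935da622f8ebc962.shift 3 0), (rhb739f4f82bb681b4.shift 0 3)] (by decide +kernel))
noncomputable def rh660d976f977b2c2b : CRef := CRef.mk (Pat.mk 0x800000008000000080000001e 0x800000008000000080000000f0000003e 3 6) 0 0 (step_sound _ 33 [rh3244c3cc8379b070, (rheb0faeae83dce3df.shift 1 0)] (by decide +kernel))
noncomputable def rh57329dcdf48097a4 : CRef := CRef.mk (Pat.mk 0x1000000020000000200000002000000020000000200000000 0x100000003000000020000000200000002000000030000000300000001 3 2) 0 0 (step_sound _ 193 [(rh50fbb5868c909700.shift 0 3), rh7928877f9bf74a91] (by decide +kernel))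
noncomputable def rha3bbffe7514ebc9f : CRef := CRef.mk (Pat.mk 0x400000007000000060000000400000000 0x400000004000000070000001e0000000c00000008 3 5) 0 0 (step_sound _ 67 [(rhd4b4beefcd67f51e.shift 2 0), (rhf48373e13d2bc128.shift 0 2)] (by decide +kernel))
noncomputable def rh43842a9bca1d4e70 : CRef := CRef.mk (Pat.mk 0x1c000000180000000c 0x1f000000380000000f 3 6) 0 0 (step_sound _ 1 [rh53b3c253cb0c65f4, (rhad5d8fc3675c15dd.shift 0 1)] (by decide +kernel))
noncomputable def rhdb4451b2594fac83 : CRef := CRef.mk (Pat.mk 0x300000002000000030000000200000000 0x2000000020000000300000003000000030000000300000002 3 2) 0 0 (step_sound _ 96 [rh7b1f1fb55310c477, (rh84d1c02a8954c6a8.shift 0 1)] (by decide +kernel))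
noncomputable def rh84e43b4eb641fdeb : CRef := CRef.mk (Pat.mk 0x1c0000000c0000000000000004 0x80000003c0000000f0000000400000004 3 6) 0 0 (step_sound _ 34 [(rh2f68792b6b779e96.shift 2 0), (rh4dc133ee0ba1420a.shift 0 2)] (by decide +kernel))
noncomputable def rhbe22baded9e1d7ea : CRef := CRef.mk (Pat.mk 0x40000000e0000000800000008 0x140000001c0000000f0000000800000008 3 5) 0 0 (step_sound _ 99 [(rh50fbb5868c909700.shift 2 0), rhdab32775f5c78fcf] (by decide +kernel))
noncomputable def rh4f4c08e1b83f14d0 : CRef := CRef.mk (Pat.mk 0x80000000a0000001600000000 0x8000000080000000b0000001e00000030 3 6) 0 0 (step_sound _ 35 [(rh3244c3cc8379b070.shift 0 1), (rhba04d77b039f69d9.shift 1 0)] (by decide +kernel))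
noncomputable def rh0106fadff783f776 : CRef := CRef.mk (Pat.mk 0x80000000d0000000f00000000 0x10000000180000000f0000000f00000018 3 5) 0 0 (step_sound _ 3 [rh7e143111a189f2ad, rhe25b0a99195a5d59] (by decide +kernel))
noncomputable def rh16287dbd239f021c : CRef := CRef.mk (Pat.mk 0x4000000380000000800000008 0x40000001f000000380000000800000008 3 6) 0 0 (step_sound _ 99 [(rh50fbb5868c909700.shift 2 0), (rhc02b3aee7ab87ee1.shift 0 2)] (by decide +kernel))
noncomputable def rhe2f8f774aa401a9d : CRef := CRef.mk (Pat.mk 0x300000000000000010000000e 0x10000000300000003000000030000001e 3 5) 0 0 (step_sound _ 33 [rhdb2909ac5c854515, rhf48373e13d2bc128] (by decide +kernel))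
noncomputable def rh8db50c9018a9ca1f : CRef := CRef.mk (Pat.mk 0x1e000000060000000200000002 0x10000001f0000003e0000000200000002 3 6) 0 0 (step_sound _ 96 [rh50fbb5868c909700, (rh88333dd5482f2e1a.shift 0 2)] (by decide +kernel))
noncomputable def rh561ac13636e95fcb : CRef := CRef.mk (Pat.mk 0x100000000e 0x3c0000001f 3 6) 0 0 (step_sound _ 35 [rh53b3c253cb0c65f4, (rhafdf94f2acdc0ed4.shift 1 0)] (by decide +kernel))
noncomputable def rh0d3b79568e6c0f4c : CRef := CRef.mk (Pat.mk 0x80000000c0000000900000018 0x800000008000000080000000c0000000f0000001c 3 5) 0 0 (step_sound _ 34 [(rh503dd4575245365b.shift 2 0), rhab22b5b56e7b3243] (by decide +kernel))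
noncomputable def rh28f80625c87f7372 : CRef := CRef.mk (Pat.mk 0x80000000e0000000400000004 0x8000000080000000f0000003c00000004 3 6) 0 0 (step_sound _ 35 [(rh5c5e593799055d58.shift 2 0), (rh6292bd8784ece55f.shift 0 1)] (by decide +kernel))
noncomputable def rhf2caa0aa9e68f93b : CRef := CRef.mk (Pat.mk 0x400000004000000070000000800000000 0x40000001c0000000f0000001800000008 3 5) 0 0 (step_sound _ 67 [rhcf9d12da1293a3a3, (rhe25b0a99195a5d59.shift 0 1)] (by decide +kernel))
noncomputable def rh500df63240e3d9d1 : CRef := CRef.mk (Pat.mk 0x400000004000000070000000800000000 0x4000000040000000f0000001e00000008 3 5) 0 0 (step_sound _ 34 [(rh55afc6a59410cf00.shift 2 0), (rhae2edff970a530ce.shift 0 1)] (by decide +kernel))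
noncomputable def rh53e5e8e6f04cffc4 : CRef := CRef.mk (Pat.mk 0x60000000c00000006000000040000000400000000 0x60000003c0000000f000000040000000400000004 3 6) 0 0 (step_sound _ 132 [rhca2e2aed2d1c3a32, (rhf48373e13d2bc128.shift 1 4)] (by decide +kernel))
noncomputable def rhd0b3006651ac062d : CRef := CRef.mk (Pat.mk 0x700000001000000010000000300000000 0x50000000700000003000000030000000300000001 3 3) 0 0 (step_sound _ 65 [(rh2145e1d24b96a57e.shift 0 1), rh4c5963f2a1745fb4] (by decide +kernel))
noncomputable def rhb743c50ee5c7f1fc : CRef := CRef.mk (Pat.mk 0x600000004000000060000000300000000 0x20000000600000006000000070000000700000001 3 3) 0 0 (step_sound _ 97 [rh932754581e0f4330, (rhda7c257ff8782db6.shift 0 1)] (by decide +kernel))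
noncomputable def rha3a87c89b1a89291 : CRef := CRef.mk (Pat.mk 0x4000000040000000c000000180000000200000000 0x4000000060000000f0000001a0000000200000002 3 5) 0 0 (step_sound _ 97 [(rhb739f4f82bb681b4.shift 0 2), (rhdebc43b768884653.shift 1 0)] (by decide +kernel))
noncomputable def rh4c9eac6bf6ab9a81 : CRef := CRef.mk (Pat.mk 0x200000004000000060000000300000000 0x20000000200000006000000060000000700000005 3 3) 0 0 (step_sound _ 97 [(rh55a1f6c57a317ce6.shift 1 0), rh932754581e0f4330] (by decide +kernel))
noncomputable def rh5d9b0b97434265de : CRef := CRef.mk (Pat.mk 0x80000001e0000001000000000 0x800000008000000180000001f0000001000000010 3 5) 0 0 (step_sound _ 131 [rh00fa999739b16860, (rh2145e1d24b96a57e.shift 3 1)] (by decide +kernel))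
noncomputable def rhaa5d8f44e429eabd : CRef := CRef.mk (Pat.mk 0x1e0000000400000004 0x2000000030000003e0000000600000004 3 6) 0 0 (step_sound _ 97 [(rh3244c3cc8379b070.shift 0 2), (rh6d5107755251e36c.shift 1 0)] (by decide +kernel))
noncomputable def rha7c39a327e399e52 : CRef := CRef.mk (Pat.mk 0x180000001e00000004 0x1f0000003e00000006 3 6) 0 0 (step_sound _ 37 [(rh5d685137714d9fe9.shift 0 1), (rheb0810cc63b001d8.shift 1 0)] (by decide +kernel))
noncomputable def rhe8ecde7c5083ed53 : CRef := CRef.mk (Pat.mk 0x40000000c0000001a0000000200000000 0x40000000c0000001e0000000f00000008 3 5) 0 0 (step_sound _ 35 [(rh7b1f1fb55310c477.shift 2 0), (rhda02c4ce0b224328.shift 0 1)] (by decide +kernel))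
noncomputable def rh66364df72371f933 : CRef := CRef.mk (Pat.mk 0xa00000012000000100000001000000000 0xf0000001e000000100000001000000010 3 5) 0 0 (step_sound _ 99 [(rh7b1f1fb55310c477.shift 3 0), (rhd8be3b7ca6adb62f.shift 0 3)] (by decide +kernel))
noncomputable def rh2bc194cac99ac1c9 : CRef := CRef.mk (Pat.mk 0x20000000f0000000100000000 0x200000002000000030000001f0000000100000001 3 5) 0 0 (step_sound _ 96 [rh84d1c02a8954c6a8, (rhf48373e13d2bc128.shift 0 2)] (by decide +kernel))
noncomputable def rh5d146ea1f36119c8 : CRef := CRef.mk (Pat.mk 0x40000000f000000080000000000000000 0x40000001c0000000f000000080000000800000008 3 5) 0 0 (step_sound _ 131 [(rh33e738c4ed385b9f.shift 0 3), (rh3cb04db3dd2b6a55.shift 2 0)] (by decide +kernel))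
noncomputable def rha6e844bc1831e088 : CRef := CRef.mk (Pat.mk 0x600000004000000040000000700000000 0x40000000600000006000000060000000700000005 3 3) 0 0 (step_sound _ 65 [rh0fb2e3a32a8ad49f, (rh5c5e593799055d58.shift 1 1)] (by decide +kernel))
noncomputable def rh4b8bbd9813efdcd7 : CRef := CRef.mk (Pat.mk 0xe00000004000000070000000400000000 0xe0000003e000000070000000400000004 3 6) 0 0 (step_sound _ 99 [(rh500571fd45750302.shift 0 2), (rh71222050f2c63a3a.shift 2 0)] (by decide +kernel))
noncomputable def rh8d5c06fc0c5e4b8d : CRef := CRef.mk (Pat.mk 0xc000000380000000800000000 0x40000001f000000380000000800000008 3 6) 0 0 (step_sound _ 130 [(rh7b1f1fb55310c477.shift 2 0), (rhc02b3aee7ab87ee1.shift 0 2)] (by decide +kernel))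
noncomputable def rh7b07ec793799bf71 : CRef := CRef.mk (Pat.mk 0x60000001c0000000400000000 0x200000002000000070000001e0000000400000004 3 5) 0 0 (step_sound _ 65 [(rh3244c3cc8379b070.shift 0 2), (rhfc7c29d8e65d775f.shift 1 0)] (by decide +kernel))
noncomputable def rha6120682ef1101d2 : CRef := CRef.mk (Pat.mk 0x200000002000000020000000200000002 0x50000000700000003000000020000000200000002 3 3) 0 0 (step_sound _ 162 [rh3ca48e2a6d60153d, (rhbaefcd01e0a8bca3.shift 1 1)] (by decide +kernel))
noncomputable def rh5ad5ac0b8ac3af9a : CRef := CRef.mk (Pat.mk 0x60000001c000000080000001c 0x2000000060000001c0000000f0000003c 3 6) 0 0 (step_sound _ 34 [(rh50fbb5868c909700.shift 1 0), rhfdd338b587cdea0b] (by decide +kernel))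
noncomputable def rh6f4d545305a608bd : CRef := CRef.mk (Pat.mk 0x100000000000000020000000200000003 0x10000000300000003000000020000000300000003 3 2) 0 0 (step_sound _ 97 [rhd98729bc66308eae, rhffd04209dc8ea796] (by decide +kernel))
noncomputable def rhd7012eb0127f1d62 : CRef := CRef.mk (Pat.mk 0x5000000070000000d0000000800000000 0x100000005000000070000000f0000001a00000002 3 5) 0 0 (step_sound _ 65 [rh3ebc98c19791ad58, (rhe25b0a99195a5d59.shift 0 1)] (by decide +kernel))
noncomputable def rh62de2d0cbfb023f3 : CRef := CRef.mk (Pat.mk 0x100000002000000020000000300000006 0x1000000030000000200000002000000070000001e 3 5) 0 0 (step_sound _ 3 [rhc4c7faa0ddd5da42, rhf48373e13d2bc128] (by decide +kernel))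
noncomputable def rh2c9cf7e9328cac9c : CRef := CRef.mk (Pat.mk 0x60000001c000000040000000000000000 0x20000000f0000001c000000040000000400000004 3 5) 0 0 (step_sound _ 131 [(rh40241bd608e5be1a.shift 1 0), (rhb739f4f82bb681b4.shift 0 3)] (by decide +kernel))
noncomputable def rh61ef9f64b39adfab : CRef := CRef.mk (Pat.mk 0x2000000160000001c0000001400000000 0x80000000b0000001e0000001c0000001400000010 3 5) 0 0 (step_sound _ 99 [(rh3244c3cc8379b070.shift 0 3), (rh35ab8589afe62dd0.shift 2 0)] (by decide +kernel))
noncomputable def rhc59d85f797c325b8 : CRef := CRef.mk (Pat.mk 0xe0000000d0000000000000008 0x300000001e0000000f0000000800000008 3 6) 0 0 (step_sound _ 100 [(rh24ae073cf30720c4.shift 0 2), (rh63bb75a038171f49.shift 1 0)] (by decide +kernel))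
noncomputable def rh1e1a9790ebaf9f7d : CRef := CRef.mk (Pat.mk 0x40000001e0000000a00000000 0x400000004000000070000001e0000000a00000002 3 5) 0 0 (step_sound _ 130 [(rh2145e1d24b96a57e.shift 2 1), rh4cdd80ef82c269a0] (by decide +kernel))
noncomputable def rh1e95ed0adb411484 : CRef := CRef.mk (Pat.mk 0x30000000f0000000200000000 0x1000000010000001b0000000f0000000200000002 3 5) 0 0 (step_sound _ 99 [(rh33e738c4ed385b9f.shift 0 2), rhfc7c29d8e65d775f] (by decide +kernel))
noncomputable def rh40258e4c7a147e8b : CRef := CRef.mk (Pat.mk 0x200000002000000020000000300000002 0x60000000600000006000000030000000300000002 3 3) 0 0 (step_sound _ 161 [(rh44f453b84f013105.shift 1 0), (rh79877ebd3ef475dd.shift 0 1)] (by decide +kernel))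
noncomputable def rh2c3719f5c9f33c1b : CRef := CRef.mk (Pat.mk 0x200000003000000020000000200000000 0x40000000700000007000000020000000200000002 3 3) 0 0 (step_sound _ 130 [rh2d5442cbf338480d, (rh2f68792b6b779e96.shift 1 1)] (by decide +kernel))
noncomputable def rh969df2b095d58560 : CRef := CRef.mk (Pat.mk 0xa0000001c0000000600000004 0x20000003a0000001f0000000600000004 3 6) 0 0 (step_sound _ 65 [(rh2145e1d24b96a57e.shift 1 0), (rhec46bd5500c722c9.shift 0 2)] (by decide +kernel))
noncomputable def rhfaf4c4db6dcfc089 : CRef := CRef.mk (Pat.mk 0x4000000070000000c0000000000000000 0x4000000040000000f0000001c0000000800000008 3 5) 0 0 (step_sound _ 35 [rh1b8d735d1ec00cd4, (rh2145e1d24b96a57e.shift 2 1)] (by decide +kernel))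
noncomputable def rhe0411bbaea0cc4f1 : CRef := CRef.mk (Pat.mk 0x100000001e000000080000000000000000 0x10000000180000001f000000080000000800000008 3 5) 0 0 (step_sound _ 131 [(rh53b3c253cb0c65f4.shift 0 3), (rhea7a1800d6f053bd.shift 3 0)] (by decide +kernel))
noncomputable def rhea2427b0cd6fd6e8 : CRef := CRef.mk (Pat.mk 0x1e00000008000000080000000800000000 0x3e0000000f000000080000000800000008 3 6) 0 0 (step_sound _ 97 [(rheb0810cc63b001d8.shift 0 3), (rhf287f34f3759fe93.shift 1 0)] (by decide +kernel))
noncomputable def rh6bad5fa2a8fcbad3 : CRef := CRef.mk (Pat.mk 0x100000002000000020000000300000002 0x10000000700000006000000020000000300000003 3 3) 0 0 (step_sound _ 98 [(rh2f68792b6b779e96.shift 1 0), rhbdd4e349c1dde679] (by decide +kernel))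
noncomputable def rh255ba24075a31798 : CRef := CRef.mk (Pat.mk 0x400000004000000000000001e00000000 0x400000004000000070000001e00000003 3 5) 0 0 (step_sound _ 65 [rh316d0c7c5292e4bb, (rh3244c3cc8379b070.shift 0 1)] (by decide +kernel))
noncomputable def rh718135c24137816a : CRef := CRef.mk (Pat.mk 0x60000001c0000000400000000 0x20000000f0000001e0000000400000004 3 5) 0 0 (step_sound _ 2 [(rh50fbb5868c909700.shift 1 0), (rhd8e93bbc8568df99.shift 0 2)] (by decide +kernel))
noncomputable def rh01db3c8091e52d57 : CRef := CRef.mk (Pat.mk 0x20000000140000001c 0x300000001f0000003c 3 6) 0 0 (step_sound _ 33 [rh67b9efd3c34e1322, (rhf48373e13d2bc128.shift 1 0)] (by decide +kernel))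
noncomputable def rh6803112df5f1595a : CRef := CRef.mk (Pat.mk 0x8000000080000000c0000001400000000 0x8000000080000000f0000003c00000010 3 6) 0 0 (step_sound _ 35 [(rh55afc6a59410cf00.shift 3 0), (rhe2b63c00a3d7bb73.shift 0 1)] (by decide +kernel))
noncomputable def rh40255630b8743428 : CRef := CRef.mk (Pat.mk 0x10000000100000001000000010000000100000000 0x30000000300000001000000030000000300000002 3 2) 0 0 (step_sound _ 129 [(rh2f68792b6b779e96.shift 0 1), rhd29a1fb688eae70f] (by decide +kernel))
noncomputable def rhe9bf3c59c47cc9a2 : CRef := CRef.mk (Pat.mk 0x400000004000000070000000400000000 0x40000000400000004000000070000001e00000008 3 5) 0 0 (step_sound _ 35 [(rh55afc6a59410cf00.shift 2 0), (rh6826f722115a4c88.shift 0 1)] (by decide +kernel))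
noncomputable def rh18ee3a27294cac80 : CRef := CRef.mk (Pat.mk 0x200000002000000030000000200000000 0x30000000300000002000000030000000300000001 3 2) 0 0 (step_sound _ 160 [rh03dfdf12d5937476, (rhffd04209dc8ea796.shift 0 1)] (by decide +kernel))
noncomputable def rhc76db33f98271321 : CRef := CRef.mk (Pat.mk 0x80000000d000000030000000100000000 0x20000001a0000000f000000030000000100000001 3 5) 0 0 (step_sound _ 97 [(rh33e738c4ed385b9f.shift 0 3), rh84d1c02a8954c6a8] (by decide +kernel))
noncomputable def rh39986aa7beafc446 : CRef := CRef.mk (Pat.mk 0x100000001000000060000000600000000 0x30000000300000003000000060000000600000002 3 3) 0 0 (step_sound _ 97 [rh7b1f1fb55310c477, (rhf627eb01e9e8db9a.shift 0 1)] (by decide +kernel))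
noncomputable def rh568066b19a6d9b02 : CRef := CRef.mk (Pat.mk 0x80000000c0000000f00000000 0x800000008000000080000000c0000001f00000018 3 5) 0 0 (step_sound _ 131 [rh2aa7c1d375387a4e, (rh5c5e593799055d58.shift 2 1)] (by decide +kernel))
noncomputable def rhb730c31e76aec9be : CRef := CRef.mk (Pat.mk 0x40000001e0000000800000008 0x400000004000000040000001e0000000f00000008 3 5) 0 0 (step_sound _ 33 [(rh8eb2d15efc505b0f.shift 1 0), (rheb0810cc63b001d8.shift 0 1)] (by decide +kernel))
noncomputable def rh110bf93e06a9f86c : CRef := CRef.mk (Pat.mk 0x400000004000000070000000600000000 0x80000000c00000004000000070000001e00000008 3 5) 0 0 (step_sound _ 131 [(rh2f68792b6b779e96.shift 2 1), rh42afa1af9fffa0e1] (by decide +kernel))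
noncomputable def rhb878dfe31a02c2d5 : CRef := CRef.mk (Pat.mk 0x700000001000000010000000200000000 0x50000000700000003000000030000000200000002 3 3) 0 0 (step_sound _ 65 [(rh2145e1d24b96a57e.shift 0 1), rhef73737383050ca7] (by decide +kernel))
noncomputable def rhca98504d3028efbf : CRef := CRef.mk (Pat.mk 0x180000000c000000080000000800000000 0x3c0000000f000000080000000800000008 3 6) 0 0 (step_sound _ 130 [(rh4dc133ee0ba1420a.shift 0 3), (rh7b1f1fb55310c477.shift 2 0)] (by decide +kernel))
noncomputable def rhe99dc3f6f51fb266 : CRef := CRef.mk (Pat.mk 0x4000000020000000300000002000000020000000200000000 0x600000006000000020000000300000003000000020000000200000002 3 3) 0 0 (step_sound _ 193 [(rh2f68792b6b779e96.shift 1 3), rhb0491c8b198c7c3b] (by decide +kernel))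
noncomputable def rhd12cad0b329057a4 : CRef := CRef.mk (Pat.mk 0x180000001c00000004 0x180000003f00000007 3 6) 0 0 (step_sound _ 1 [(rh18965a982d73c794.shift 1 0), rhd74396e693bc7125] (by decide +kernel))
noncomputable def rh453afe8cd9f3b3ee : CRef := CRef.mk (Pat.mk 0x7000000040000000700000002 0x300000007000000050000000700000007 3 3) 0 0 (step_sound _ 129 [rh140eeb6c74fee009, (rh7b1f1fb55310c477.shift 1 0)] (by decide +kernel))
noncomputable def rhabeb0d22609d84ee : CRef := CRef.mk (Pat.mk 0x200000003c000000080000000000000010 0x200000003f000000380000001000000010 3 6) 0 0 (step_sound _ 68 [(rh9e3edb185cc347de.shift 4 0), (rhad5d8fc3675c15dd.shift 0 2)] (by decide +kernel))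
noncomputable def rh67fa6ad290e95894 : CRef := CRef.mk (Pat.mk 0x1e0000001200000002 0x3f0000001e00000003 3 6) 0 0 (step_sound _ 35 [rh760717e835f8c2f3, (rhb739f4f82bb681b4.shift 0 1)] (by decide +kernel))
noncomputable def rh359c76cd77660eeb : CRef := CRef.mk (Pat.mk 0x1800000008000000040000000e 0x1000000018000000080000003c0000000f 3 6) 0 0 (step_sound _ 35 [(rh2f68792b6b779e96.shift 3 0), rhf9d36e158778ce35] (by decide +kernel))
noncomputable def rh7895dd8a803e2ebd : CRef := CRef.mk (Pat.mk 0x20000001a000000060000000200000000 0x4000000070000001e000000060000000200000002 3 5) 0 0 (step_sound _ 98 [(rh3244c3cc8379b070.shift 0 3), (rh84d1c02a8954c6a8.shift 1 0)] (by decide +kernel))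
noncomputable def rh326fee6e55c10bf8 : CRef := CRef.mk (Pat.mk 0x20000001c0000000400000004 0x2000000070000003e0000000400000004 3 6) 0 0 (step_sound _ 65 [(rh3244c3cc8379b070.shift 0 2), (rh6279f4d0e372f7fa.shift 1 0)] (by decide +kernel))
noncomputable def rh15b4c7f64ffd8e41 : CRef := CRef.mk (Pat.mk 0x20000001c 0xf0000003e 3 6) 0 0 (step_sound _ 34 [rhd8e93bbc8568df99, (rhf48373e13d2bc128.shift 1 0)] (by decide +kernel))
noncomputable def rhaba5910545a4922e : CRef := CRef.mk (Pat.mk 0x400000002000000070000000600000000 0x400000006000000070000001e0000000a 3 5) 0 0 (step_sound _ 98 [rh42afa1af9fffa0e1, (rh71222050f2c63a3a.shift 1 0)] (by decide +kernel))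
noncomputable def rh49d5320e5bad1ee8 : CRef := CRef.mk (Pat.mk 0x40000000c0000001c0000000c00000000 0x40000000f0000001c0000000f00000002 3 5) 0 0 (step_sound _ 97 [(rhb739f4f82bb681b4.shift 0 2), rhf5094ad2a427d4d3] (by decide +kernel))
noncomputable def rh1ec3e379623601ef : CRef := CRef.mk (Pat.mk 0x100000003e00000020 0x1000000010000000100000003e00000027 3 6) 0 0 (step_sound _ 100 [(rh2145e1d24b96a57e.shift 4 0), rheae1728ff4a56756] (by decide +kernel))
noncomputable def rhf87687aa9c475ea4 : CRef := CRef.mk (Pat.mk 0x100000001a0000000e 0x300000001f0000003e 3 6) 0 0 (step_sound _ 4 [rh3244c3cc8379b070, (rhc924e5f7a4031fcc.shift 1 0)] (by decide +kernel))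
noncomputable def rh5969fc1db7f0e0cc : CRef := CRef.mk (Pat.mk 0x200000002000000030000000200000000 0x20000000200000002000000070000000700000004 3 3) 0 0 (step_sound _ 34 [(rh55afc6a59410cf00.shift 1 0), (rh85a605aac6183f28.shift 0 1)] (by decide +kernel))
noncomputable def rhab80a928374fb6c1 : CRef := CRef.mk (Pat.mk 0x1e00000018000000080000001c 0x30000001e0000001c0000000f0000003c 3 6) 0 0 (step_sound _ 34 [rhea1977e228a6d74a, rhfdd338b587cdea0b] (by decide +kernel))
noncomputable def rh40a75c5438d80330 : CRef := CRef.mk (Pat.mk 0x1c0000000e00000002 0x1f0000003e00000003 3 6) 0 0 (step_sound _ 36 [(rh73aed199c1a62ed4.shift 0 1), rheb0810cc63b001d8] (by decide +kernel))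
noncomputable def rhf952e96457af74e0 : CRef := CRef.mk (Pat.mk 0x40000000e0000001b0000000000000000 0x40000000e0000003f0000001800000008 3 6) 0 0 (step_sound _ 66 [rh78974448101547fe, (rhf48373e13d2bc128.shift 1 2)] (by decide +kernel))
noncomputable def rhfd212767fcb07886 : CRef := CRef.mk (Pat.mk 0x180000001c0000000000000010 0x8000000180000001f0000003000000010 3 6) 0 0 (step_sound _ 36 [(rh50fbb5868c909700.shift 3 0), (rhf56e6bc5d2f7fe77.shift 0 1)] (by decide +kernel))
noncomputable def rh361078a933aacf43 : CRef := CRef.mk (Pat.mk 0x1e00000004 0x30000003e00000007 3 6) 0 0 (step_sound _ 65 [(rh3244c3cc8379b070.shift 0 1), rhaf9f2efc81a8312b] (by decide +kernel))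
noncomputable def rh421b483549df8895 : CRef := CRef.mk (Pat.mk 0x100000001a0000001e00000000 0x300000001e0000003e00000003 3 6) 0 0 (step_sound _ 1 [(rhc924e5f7a4031fcc.shift 1 1), rheb0810cc63b001d8] (by decide +kernel))
noncomputable def rha0d5b431f6af84da : CRef := CRef.mk (Pat.mk 0x20000000700000009 0x30000001f0000001b 3 5) 0 0 (step_sound _ 35 [rh7b030ba967bf927e, rhe25b0a99195a5d59] (by decide +kernel))
noncomputable def rh02ac241e891bce7e : CRef := CRef.mk (Pat.mk 0x40000001c000000040000000400000000 0x20000000f0000001c000000040000000400000004 3 5) 0 0 (step_sound _ 129 [rh06e7be76729e4c2a, (rh50fbb5868c909700.shift 1 1)] (by decide +kernel))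
noncomputable def rhb6024e57ddebfb90 : CRef := CRef.mk (Pat.mk 0x4000000080000001c0000000800000000 0x40000000f0000003c0000000800000008 3 6) 0 0 (step_sound _ 98 [(rh7b1f1fb55310c477.shift 2 0), (rhe2b63c00a3d7bb73.shift 0 2)] (by decide +kernel))
noncomputable def rh0736ab60c98e96dc : CRef := CRef.mk (Pat.mk 0x8000000080000000b0000000800000000 0x8000000080000000f0000001c00000014 3 5) 0 0 (step_sound _ 2 [rh5f11ee373cbffcaa, (rh79877ebd3ef475dd.shift 2 0)] (by decide +kernel))
noncomputable def rh0182d199955ec3ce : CRef := CRef.mk (Pat.mk 0x200000007000000050000000000000000 0x2000000020000000200000007000000070000000100000001 3 3) 0 0 (step_sound _ 161 [(rh2145e1d24b96a57e.shift 1 2), rh42548283029e2a39] (by decide +kernel))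
noncomputable def rh913acaeca42c0c45 : CRef := CRef.mk (Pat.mk 0xd0000000e0000000800000000 0x4000000040000000f0000001e0000000800000008 3 5) 0 0 (step_sound _ 97 [(rhf48373e13d2bc128.shift 0 2), (rhfc7c29d8e65d775f.shift 2 0)] (by decide +kernel))
noncomputable def rh9f69be223b2a1216 : CRef := CRef.mk (Pat.mk 0x200000001800000058 0x300000001f00000078 3 7) 0 0 (step_sound _ 34 [(rh2fe78cc5ca4405d8.shift 2 0), rh4baa30ac13a5afd1] (by decide +kernel))
noncomputable def rh0e9420b553661f44 : CRef := CRef.mk (Pat.mk 0x180000001800000006 0x380000003f00000006 3 6) 0 0 (step_sound _ 34 [(rh18965a982d73c794.shift 1 0), (rhab2ad169e49f9c5e.shift 0 1)] (by decide +kernel))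
noncomputable def rh72d2577808375efe : CRef := CRef.mk (Pat.mk 0xc0000003800000018 0xf0000003c0000001e 3 6) 0 0 (step_sound _ 2 [(rh53b3c253cb0c65f4.shift 1 0), (rhdbcea10a0fbe5ba6.shift 0 1)] (by decide +kernel))
noncomputable def rh81526988ffbdaaa1 : CRef := CRef.mk (Pat.mk 0x20000003c00000014 0x30000007f0000001c 3 7) 0 0 (step_sound _ 33 [(rh3244c3cc8379b070.shift 0 1), rh8216bf0da4f70608] (by decide +kernel))
noncomputable def rhe7b1c4b75e9e5eb5 : CRef := CRef.mk (Pat.mk 0xa000000180000000600000004 0x20000000f0000001e0000000600000004 3 5) 0 0 (step_sound _ 96 [rh6356b6d665e91aee, (rhc10214bf3fe8094a.shift 0 2)] (by decide +kernel))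
noncomputable def rh7d7f93600d13c548 : CRef := CRef.mk (Pat.mk 0x200000000000000060000000300000000 0x20000000200000002000000070000000700000001 3 3) 0 0 (step_sound _ 97 [(rh518d6f6eeebddcb2.shift 0 1), rh932754581e0f4330] (by decide +kernel))
noncomputable def rh251379b3a391d2fd : CRef := CRef.mk (Pat.mk 0x40000001c0000000800000008 0x40000000f0000003c0000000800000008 3 6) 0 0 (step_sound _ 99 [(rh50fbb5868c909700.shift 2 0), (rhe2b63c00a3d7bb73.shift 0 2)] (by decide +kernel))
noncomputable def rhb7a33e47895ab7d7 : CRef := CRef.mk (Pat.mk 0x200000002000000030000000200000000 0x30000000300000002000000030000000300000001 3 2) 0 0 (step_sound _ 128 [rh03dfdf12d5937476, (rh50fbb5868c909700.shift 0 1)] (by decide +kernel))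
noncomputable def rh3105afbdea19ea6a : CRef := CRef.mk (Pat.mk 0x3e00000000 0x70000003e00000003 3 6) 0 0 (step_sound _ 0 [rh80fcd6d0a18cb2dd, (rhd5eb272e07a4e288.shift 0 1)] (by decide +kernel))
noncomputable def rhbeb5eed1bc42fe9e : CRef := CRef.mk (Pat.mk 0x8000000080000001e0000000600000000 0x8000000080000001f0000003e00000010 3 6) 0 0 (step_sound _ 36 [rhc3a59a83e7b52d33, (rhe25b0a99195a5d59.shift 1 1)] (by decide +kernel))
noncomputable def rh11ae469c2f55ec35 : CRef := CRef.mk (Pat.mk 0x1e000000020000000200000002 0x390000001f000000020000000200000002 3 6) 0 0 (step_sound _ 132 [rh1fdbdd9a631b75d3, (rh33e738c4ed385b9f.shift 1 3)] (by decide +kernel))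
noncomputable def rhd306e615440e8ff8 : CRef := CRef.mk (Pat.mk 0x600000004000000040000000700000000 0x40000000600000006000000060000000700000005 3 3) 0 0 (step_sound _ 97 [rh12cda698427604cb, (rh7b1f1fb55310c477.shift 1 0)] (by decide +kernel))
noncomputable def rh36a72c34a910197c : CRef := CRef.mk (Pat.mk 0x20000000200000002000000020000000200000000 0x4000000060000000200000002000000030000000300000001 3 3) 0 0 (step_sound _ 194 [rh7928877f9bf74a91, (rhbaefcd01e0a8bca3.shift 1 2)] (by decide +kernel))
noncomputable def rh0ac9408018436e12 : CRef := CRef.mk (Pat.mk 0xc00000007000000040000000000000000 0x20000001e00000007000000040000000400000004 3 5) 0 0 (step_sound _ 129 [(rh18965a982d73c794.shift 0 3), (rh3cb04db3dd2b6a55.shift 1 0)] (by decide +kernel))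
noncomputable def rhf19e0695f4726955 : CRef := CRef.mk (Pat.mk 0x3a00000000 0x70000003e00000007 3 6) 0 0 (step_sound _ 34 [(rhd5eb272e07a4e288.shift 0 1), rheae1728ff4a56756] (by decide +kernel))
noncomputable def rhfee32aaa14acbf4f : CRef := CRef.mk (Pat.mk 0xc000000180000000e0000000c00000000 0xf000000180000000e0000003c00000010 3 6) 0 0 (step_sound _ 129 [(rh42afa1af9fffa0e1.shift 1 0), (rhb739f4f82bb681b4.shift 0 3)] (by decide +kernel))
noncomputable def rheaa413f4e0769a51 : CRef := CRef.mk (Pat.mk 0xc0000001c000000040000000400000000 0x20000000f0000001c000000040000000600000002 3 5) 0 0 (step_sound _ 33 [(rh277b01412deaec89.shift 0 1), (rh932754581e0f4330.shift 1 0)] (by decide +kernel))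
noncomputable def rhb36f6120eccc373f : CRef := CRef.mk (Pat.mk 0x40000001e00000000 0x60000003e00000007 3 6) 0 0 (step_sound _ 1 [(rh7b030ba967bf927e.shift 1 0), rheb0810cc63b001d8] (by decide +kernel))
noncomputable def rh77fa6d9a5cdf02f4 : CRef := CRef.mk (Pat.mk 0xe00000010 0x1f0000003c 3 6) 0 0 (step_sound _ 5 [(rhd6e447e81774439e.shift 1 0), rhea383a553bc42003] (by decide +kernel))
noncomputable def rhda84d278103e5133 : CRef := CRef.mk (Pat.mk 0x400000004000000070000000c 0x600000006000000040000000f0000001c 3 5) 0 0 (step_sound _ 129 [rh6e1f502161d2d285, (rhffd04209dc8ea796.shift 1 0)] (by decide +kernel))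
noncomputable def rhce61447e7863f8dc : CRef := CRef.mk (Pat.mk 0x20000000200000002000000000000000200000000 0x20000000200000002000000070000000700000005 3 3) 0 0 (step_sound _ 65 [rh7928877f9bf74a91, (rhd29a1fb688eae70f.shift 1 0)] (by decide +kernel))
noncomputable def rh1efcccf2bf04ea47 : CRef := CRef.mk (Pat.mk 0x80000000c000000180000001000000000 0x80000001f000000380000001000000010 3 6) 0 0 (step_sound _ 100 [(rh7b1f1fb55310c477.shift 3 0), (rhad5d8fc3675c15dd.shift 0 2)] (by decide +kernel))
noncomputable def rhc4d4ffb49875abab : CRef := CRef.mk (Pat.mk 0x100000001a00000008 0x300000001f00000038 3 6) 0 0 (step_sound _ 34 [(rh33e738c4ed385b9f.shift 1 1), rha03f6e28ea70fc7d] (by decide +kernel))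
noncomputable def rhc9015a175eb8cf4a : CRef := CRef.mk (Pat.mk 0x6000000120000000e00000002 0x10000000f0000001a0000000f00000002 3 5) 0 0 (step_sound _ 96 [rh50fbb5868c909700, (rh6f555c723a80e234.shift 0 1)] (by decide +kernel))
noncomputable def rhdbf0efde89c3a23a : CRef := CRef.mk (Pat.mk 0x1c00000008000000000000003000000020 0x1f00000038000000100000003000000020 3 6) 0 0 (step_sound _ 100 [(rhad5d8fc3675c15dd.shift 0 3), (rhff0f29cb645b05f7.shift 4 0)] (by decide +kernel))
noncomputable def rhdfd956e60f584dd5 : CRef := CRef.mk (Pat.mk 0x8000000080000000c00000018 0x800000008000000080000001f00000038 3 6) 0 0 (step_sound _ 36 [(rh2145e1d24b96a57e.shift 3 0), rhad5d8fc3675c15dd] (by decide +kernel))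
noncomputable def rh45fd599145622b5c : CRef := CRef.mk (Pat.mk 0x80000001e00000006 0x180000001f0000003e 3 6) 0 0 (step_sound _ 32 [(rh33e738c4ed385b9f.shift 0 1), rh88333dd5482f2e1a] (by decide +kernel))
noncomputable def rh9829995db81e3f2a : CRef := CRef.mk (Pat.mk 0x80000001e0000001000000000 0x800000008000000080000001f0000001800000010 3 5) 0 0 (step_sound _ 35 [(rh3e595262c1b737ad.shift 3 0), (rhb739f4f82bb681b4.shift 0 1)] (by decide +kernel))
noncomputable def rhf3c74b811ede23f9 : CRef := CRef.mk (Pat.mk 0x10000000500000006000000020000000000000000 0x1000000010000000500000007000000030000000200000002 3 3) 0 0 (step_sound _ 96 [(rh2145e1d24b96a57e.shift 0 2), rh45fa90edadfa0251] (by decide +kernel))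
noncomputable def rh3c7a7cc8605c9967 : CRef := CRef.mk (Pat.mk 0x20000000f0000000100000000 0x200000002000000020000001f0000000300000001 3 5) 0 0 (step_sound _ 33 [(rh18965a982d73c794.shift 0 1), rh503dd4575245365b] (by decide +kernel))
noncomputable def rh336a176debec021b : CRef := CRef.mk (Pat.mk 0x80000000f000000060000000000000000 0x8000000080000000f0000001e0000000400000004 3 5) 0 0 (step_sound _ 67 [(rh1e309b005ffa1b36.shift 2 0), (rhf48373e13d2bc128.shift 0 2)] (by decide +kernel))
noncomputable def rhf308b3363d037c07 : CRef := CRef.mk (Pat.mk 0x8000000000000000c0000001c00000000 0x8000000080000000f0000003c00000010 3 6) 0 0 (step_sound _ 99 [(rh55afc6a59410cf00.shift 3 0), (rhe2b63c00a3d7bb73.shift 0 1)] (by decide +kernel))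
noncomputable def rhf3af114f881c39be : CRef := CRef.mk (Pat.mk 0x2000000060000001a0000000800000000 0x400000006000000060000001a0000000f00000003 3 5) 0 0 (step_sound _ 33 [(rha707fb719e87fe6e.shift 1 0), rhabf42db7287f8a50] (by decide +kernel))
noncomputable def rh3832095e2d2fd3cf : CRef := CRef.mk (Pat.mk 0xc000000180000000800000008 0x100000001f000000380000000800000008 3 6) 0 0 (step_sound _ 100 [(rh2f68792b6b779e96.shift 3 0), (rhad5d8fc3675c15dd.shift 0 2)] (by decide +kernel))
noncomputable def rh57813b09eb663457 : CRef := CRef.mk (Pat.mk 0x10000000500000006000000040000000200000000 0x30000000700000006000000060000000600000002 3 3) 0 0 (step_sound _ 34 [(rh932754581e0f4330.shift 1 0), (rhfcc9cc6723cee3b1.shift 0 1)] (by decide +kernel))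
noncomputable def rhd998905db148cf1e : CRef := CRef.mk (Pat.mk 0x8000000040000000c00000007 0xc0000000c000000040000001e00000007 3 5) 0 0 (step_sound _ 33 [rh18965a982d73c794, (rhbd55d8419891313d.shift 1 0)] (by decide +kernel))
noncomputable def rh9cd5e48c631416e3 : CRef := CRef.mk (Pat.mk 0x400000000000000000000003e00000000 0x400000004000000060000003e00000003 3 6) 0 0 (step_sound _ 66 [(rh3244c3cc8379b070.shift 1 1), rh981be6707e4d9088] (by decide +kernel))
noncomputable def rh884488355b3e3112 : CRef := CRef.mk (Pat.mk 0x600000002000000020000000f00000000 0x20000000600000006000000060000000f00000018 3 5) 0 0 (step_sound _ 66 [(rh2145e1d24b96a57e.shift 1 1), rh3098af7943687178] (by decide +kernel))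
noncomputable def rh6aee38689d0f25aa : CRef := CRef.mk (Pat.mk 0x400000007000000040000000400000000 0x80000001e00000007000000040000000400000004 3 5) 0 0 (step_sound _ 131 [(rh2f68792b6b779e96.shift 2 1), rh33bb7e99691e14a2] (by decide +kernel))
noncomputable def rha4afc01f335296bf : CRef := CRef.mk (Pat.mk 0x400000002000000020000000e0000000000000000 0x400000006000000020000001e0000000300000001 3 5) 0 0 (step_sound _ 33 [rh157b220518f94713, (rhbaefcd01e0a8bca3.shift 1 1)] (by decide +kernel))
noncomputable def rh54bf37434b1fb994 : CRef := CRef.mk (Pat.mk 0x200000016000000180000001000000000 0x80000000b0000001e000000180000001000000010 3 5) 0 0 (step_sound _ 99 [(rh3244c3cc8379b070.shift 0 3), (rhfc7c29d8e65d775f.shift 3 0)] (by decide +kernel))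
noncomputable def rh4e79b9248f75fcb8 : CRef := CRef.mk (Pat.mk 0x2000000040000001c0000000400000000 0x20000000f0000001e0000000400000004 3 5) 0 0 (step_sound _ 97 [(rh7b1f1fb55310c477.shift 1 0), (rhd8e93bbc8568df99.shift 0 2)] (by decide +kernel))
noncomputable def rhbd00caa2a4de09ab : CRef := CRef.mk (Pat.mk 0x4000000080000001a0000000a00000000 0x40000000f0000001a0000000a0000000a 3 5) 0 0 (step_sound _ 98 [(rh7b1f1fb55310c477.shift 2 0), rh871b00de3d4c7932] (by decide +kernel))
noncomputable def rh5f60e3ebd62ff9e3 : CRef := CRef.mk (Pat.mk 0x3000000030000000200000004 0x20000000200000003000000030000000700000005 3 3) 0 0 (step_sound _ 129 [rh1e309b005ffa1b36, (rhd3458b32566d63f7.shift 1 0)] (by decide +kernel))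
noncomputable def rh1fd20a13d8f3d911 : CRef := CRef.mk (Pat.mk 0x8000000000000001c0000003800000000 0x8000000080000003c0000003f00000006 3 6) 0 0 (step_sound _ 34 [(rh4dc133ee0ba1420a.shift 0 1), (rh981be6707e4d9088.shift 1 0)] (by decide +kernel))
noncomputable def rh182634e5928c9dfa : CRef := CRef.mk (Pat.mk 0x20000000f0000000500000000 0x200000002000000030000001f0000000500000001 3 5) 0 0 (step_sound _ 129 [(rh2145e1d24b96a57e.shift 1 1), rhc5a4e22e386e96c0] (by decide +kernel))
noncomputable def rh0df0e7db506e769f : CRef := CRef.mk (Pat.mk 0x200000003800000018 0x600000003f00000038 3 7) 0 0 (step_sound _ 34 [(rh33e738c4ed385b9f.shift 2 1), rhad5d8fc3675c15dd] (by decide +kernel))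
noncomputable def rhda8597839a626b29 : CRef := CRef.mk (Pat.mk 0x1e0000000600000004 0x2000000030000001e0000003600000004 3 6) 0 0 (step_sound _ 36 [rh309fd0c3d364cd61, (rhe25b0a99195a5d59.shift 1 1)] (by decide +kernel))
noncomputable def rh8aa0e361631476f3 : CRef := CRef.mk (Pat.mk 0x3e00000010 0x7f0000001e 3 7) 0 0 (step_sound _ 3 [(rh4dc133ee0ba1420a.shift 1 0), rhb739f4f82bb681b4] (by decide +kernel))
noncomputable def rh0e0662c5f5c5a19b : CRef := CRef.mk (Pat.mk 0xe000000050000000c 0x1e000000070000003e 3 6) 0 0 (step_sound _ 33 [(rh18965a982d73c794.shift 0 1), rh89ade209b3e28f13] (by decide +kernel))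
noncomputable def rh06ee40d59ea962e1 : CRef := CRef.mk (Pat.mk 0xe000000060000000c 0x1e000000070000003e 3 6) 0 0 (step_sound _ 4 [rh8288fb599a75c6d0, (rhf48373e13d2bc128.shift 1 0)] (by decide +kernel))
noncomputable def rh46bc59bc16b05d87 : CRef := CRef.mk (Pat.mk 0x1e0000000a 0x3f0000003e 3 6) 0 0 (step_sound _ 2 [(rh18965a982d73c794.shift 1 0), rh5c2ddd300f751bae] (by decide +kernel))
noncomputable def rh69f172fbd54a919d : CRef := CRef.mk (Pat.mk 0xd0000000e00000004 0xf0000007e00000006 3 7) 0 0 (step_sound _ 36 [(rh3f8766e6ecb455ce.shift 0 1), (rha9e1a5d55b907abf.shift 1 0)] (by decide +kernel))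
noncomputable def rhd5885eb4c2e9262e : CRef := CRef.mk (Pat.mk 0x3000000070000000c00000018 0x20000000200000003000000070000000f00000019 3 5) 0 0 (step_sound _ 129 [(rh2145e1d24b96a57e.shift 1 1), rhd1ee4e91e5ae8c8f] (by decide +kernel))
noncomputable def rh145891081ee57085 : CRef := CRef.mk (Pat.mk 0xf000000060000001c 0x1f0000003e0000001e 3 6) 0 0 (step_sound _ 36 [(rh2fe78cc5ca4405d8.shift 0 1), (rhd4e38fcad27edc47.shift 1 0)] (by decide +kernel))
noncomputable def rhdcd0819fd0ab1ef0 : CRef := CRef.mk (Pat.mk 0x40000001c0000000800000008 0x40000000f0000003c0000000800000008 3 6) 0 0 (step_sound _ 97 [(rhf48373e13d2bc128.shift 1 2), rhfdfcfa7be8f74a35] (by decide +kernel))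
noncomputable def rh5d8dab3bc5afe3f3 : CRef := CRef.mk (Pat.mk 0x2000000160000000e00000000 0x200000002000000020000001e0000000f00000001 3 5) 0 0 (step_sound _ 32 [rh37d9ceebb86d75d1, (rh428265de8cd3cd2d.shift 0 1)] (by decide +kernel))
noncomputable def rhc8248430cebb96e2 : CRef := CRef.mk (Pat.mk 0x10000000100000001000000030000000100000000 0x1000000030000000300000003000000030000000100000001 3 2) 0 0 (step_sound _ 97 [(rh2145e1d24b96a57e.shift 0 2), rh84d1c02a8954c6a8] (by decide +kernel))
noncomputable def rheaf30dee6dbb7dc4 : CRef := CRef.mk (Pat.mk 0x100000001000000010000000300000001 0x30000000300000003000000030000000300000001 3 2) 0 0 (step_sound _ 160 [rh44f453b84f013105, (rhd3458b32566d63f7.shift 0 1)] (by decide +kernel))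
noncomputable def rh8cee52282372117e : CRef := CRef.mk (Pat.mk 0x1c0000000e0000000000000004 0x30000001f0000003e0000000400000004 3 6) 0 0 (step_sound _ 97 [rh0da3f8d18d3a0dfd, (rh5c2ddd300f751bae.shift 0 2)] (by decide +kernel))
noncomputable def rhc467c90a4dc68874 : CRef := CRef.mk (Pat.mk 0x1c0000003400000020 0x3c0000003f00000060 3 7) 0 0 (step_sound _ 35 [(rh4dc133ee0ba1420a.shift 0 1), (rhe25b0a99195a5d59.shift 2 0)] (by decide +kernel))
noncomputable def rhd565e683a55d60e1 : CRef := CRef.mk (Pat.mk 0x400000006000000030000000c00000000 0x40000001e0000000f0000000c00000008 3 5) 0 0 (step_sound _ 99 [(rh18965a982d73c794.shift 0 2), (rh935da622f8ebc962.shift 2 0)] (by decide +kernel))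
noncomputable def rh48546bfd3f98c2d7 : CRef := CRef.mk (Pat.mk 0x40000001e00000000 0x70000003e00000003 3 6) 0 0 (step_sound _ 0 [rh80fcd6d0a18cb2dd, (rhe3060b190bc0bc78.shift 0 1)] (by decide +kernel))
noncomputable def rh7cc9619ceb05e5d2 : CRef := CRef.mk (Pat.mk 0x1c0000001c0000001000000008 0x40000001c0000001f0000003800000008 3 6) 0 0 (step_sound _ 130 [(rh9e07f76261b05888.shift 2 0), (rhf56e6bc5d2f7fe77.shift 0 1)] (by decide +kernel))
noncomputable def rh4d696e76627a03ba : CRef := CRef.mk (Pat.mk 0x1c0000001400000010 0x3c0000001f00000030 3 6) 0 0 (step_sound _ 33 [(rh18965a982d73c794.shift 1 1), rh5360fcf49c083c33] (by decide +kernel))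
noncomputable def rh4f1a14e85f897cc4 : CRef := CRef.mk (Pat.mk 0x10000000e0000000c 0x30000003e0000000f 3 6) 0 0 (step_sound _ 36 [(rh3f8766e6ecb455ce.shift 0 1), rh4dc133ee0ba1420a] (by decide +kernel))
noncomputable def rhc93267aba7aa3fba : CRef := CRef.mk (Pat.mk 0x40000000e0000001a 0x60000003e0000001f 3 6) 0 0 (step_sound _ 36 [(rh6b7377c695f6d4c0.shift 1 0), rheb0810cc63b001d8] (by decide +kernel))
noncomputable def rh41bc758cac4efbd9 : CRef := CRef.mk (Pat.mk 0x60000001c000000040000000000000000 0x80000000f0000001c000000040000000400000004 3 5) 0 0 (step_sound _ 131 [(rhb739f4f82bb681b4.shift 0 3), (rhea7a1800d6f053bd.shift 2 0)] (by decide +kernel))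
noncomputable def rhb46d57dcd4b22d89 : CRef := CRef.mk (Pat.mk 0x2000000120000000e 0x30000003e0000000f 3 6) 0 0 (step_sound _ 35 [rh0ea7de2da709317e, rh53b3c253cb0c65f4] (by decide +kernel))
noncomputable def rhbfc6fbd9b44fb7fc : CRef := CRef.mk (Pat.mk 0x200000000000000020000000200000006 0x10000000300000003000000020000000600000006 3 3) 0 0 (step_sound _ 97 [rh3ca48e2a6d60153d, (rhd3458b32566d63f7.shift 1 0)] (by decide +kernel))
noncomputable def rhe9a32cb39b958db8 : CRef := CRef.mk (Pat.mk 0x3800000004 0x7c0000000f 3 7) 0 0 (step_sound _ 1 [rh388d4cb481a3045e, (rhca9569cc80abfe76.shift 1 0)] (by decide +kernel))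
noncomputable def rha5fc0d5359b378ed : CRef := CRef.mk (Pat.mk 0x10000000e0000000c000000080000000000000000 0x130000001e0000000c000000080000000800000008 3 5) 0 0 (step_sound _ 35 [(rh3ff7a36e4acb88f5.shift 0 1), (rh7b1f1fb55310c477.shift 2 0)] (by decide +kernel))
noncomputable def rh3fb45af4af3440b3 : CRef := CRef.mk (Pat.mk 0x6000000060000000100000001 0x20000000200000006000000060000000700000005 3 3) 0 0 (step_sound _ 129 [(rh55a1f6c57a317ce6.shift 1 0), rheea67dfebd0f8008] (by decide +kernel))
noncomputable def rhedac71b4922e760d : CRef := CRef.mk (Pat.mk 0x1c0000003c00000000 0x3c0000003f00000006 3 6) 0 0 (step_sound _ 1 [(rh4dc133ee0ba1420a.shift 0 1), (rh80fcd6d0a18cb2dd.shift 1 0)] (by decide +kernel))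
noncomputable def rhc00d6392e38d8ecd : CRef := CRef.mk (Pat.mk 0x100000001e000000100000000800000000 0x8000000180000001f000000100000001800000008 3 5) 0 0 (step_sound _ 36 [(rh3d5d828ac8ab1bfc.shift 0 1), (rh932754581e0f4330.shift 3 0)] (by decide +kernel))
noncomputable def rhfdfc3589aa84dfb3 : CRef := CRef.mk (Pat.mk 0x200000002000000020000000200000002 0x40000000600000006000000020000000300000003 3 3) 0 0 (step_sound _ 32 [(rh44f453b84f013105.shift 1 0), rh932754581e0f4330] (by decide +kernel))
noncomputable def rhdfe11bb8ddcdb02a : CRef := CRef.mk (Pat.mk 0x80000000e0000000400000004 0x8000000180000000f0000001c00000004 3 5) 0 0 (step_sound _ 35 [(rh5c5e593799055d58.shift 2 0), (rhcf86d050071af9b3.shift 0 1)] (by decide +kernel))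
noncomputable def rh306a42e42f9fab94 : CRef := CRef.mk (Pat.mk 0x180000000c00000018 0x180000001f00000078 3 7) 0 0 (step_sound _ 33 [(rh4a0b10776449c3e9.shift 1 0), (rh53b3c253cb0c65f4.shift 0 1)] (by decide +kernel))
noncomputable def rh0c54b6e6bb23e98e : CRef := CRef.mk (Pat.mk 0xa00000016000000180000000000000000 0x80000000b0000001e000000180000001000000010 3 5) 0 0 (step_sound _ 99 [(rh3244c3cc8379b070.shift 0 3), (rh55a1f6c57a317ce6.shift 3 0)] (by decide +kernel))
noncomputable def rh3a36a8e73fab8287 : CRef := CRef.mk (Pat.mk 0x400000006000000100000000e00000000 0x40000000f000000180000000f00000008 3 5) 0 0 (step_sound _ 67 [(rh53b3c253cb0c65f4.shift 0 1), rh96a8dc9200935376] (by decide +kernel))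
noncomputable def rh17c23673ade1f825 : CRef := CRef.mk (Pat.mk 0x60000000e0000000000000002 0x4000000060000003e0000000300000002 3 6) 0 0 (step_sound _ 33 [(rh2f68792b6b779e96.shift 1 0), (rha9e1a5d55b907abf.shift 0 1)] (by decide +kernel))
noncomputable def rha62b2cb4b0de105f : CRef := CRef.mk (Pat.mk 0x3000000030000000200000003 0x40000000600000007000000030000000300000003 3 3) 0 0 (step_sound _ 129 [(rh44f453b84f013105.shift 1 0), rh9e3edb185cc347de] (by decide +kernel))
noncomputable def rhc29713bb7195dd84 : CRef := CRef.mk (Pat.mk 0x50000000f000000020000000000000000 0x1000000050000001f000000030000000200000002 3 5) 0 0 (step_sound _ 33 [(rh6d5107755251e36c.shift 0 1), (rh71222050f2c63a3a.shift 1 0)] (by decide +kernel))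
noncomputable def rh849d1aeda3316e2c : CRef := CRef.mk (Pat.mk 0xf0000000c000000000000000200000002 0x8000000180000000f0000000c000000040000000600000002 3 5) 0 0 (step_sound _ 66 [(rh5421160f8e9bcf07.shift 0 2), (rheea67dfebd0f8008.shift 1 0)] (by decide +kernel))
noncomputable def rh708bf160ca3b6cde : CRef := CRef.mk (Pat.mk 0x10000000000000000a0000003c00000000 0x10000000100000001b0000003f00000060 3 7) 0 0 (step_sound _ 68 [(rh3098af7943687178.shift 2 0), (rh5c36e97be8af272f.shift 0 1)] (by decide +kernel))
noncomputable def rhb6c5498b65cea07a : CRef := CRef.mk (Pat.mk 0x100000001000000020000000200000000 0x1000000010000000100000003000000030000000200000002 3 2) 0 0 (step_sound _ 160 [rhae6f9a1ddf3da338, (rhbe0e43a3bc50a43f.shift 0 1)] (by decide +kernel))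
noncomputable def rh459ddadc9a9c4629 : CRef := CRef.mk (Pat.mk 0x40000000c00000003 0x60000003e00000007 3 6) 0 0 (step_sound _ 36 [(rh7b030ba967bf927e.shift 1 0), rhca9569cc80abfe76] (by decide +kernel))
noncomputable def rhfd59d4629aa99d96 : CRef := CRef.mk (Pat.mk 0x700000004000000040000000600000000 0x50000000700000006000000060000000600000004 3 3) 0 0 (step_sound _ 65 [(rh5c5e593799055d58.shift 1 1), rhc5351dabd90740aa] (by decide +kernel))
noncomputable def rh2b186d00f5cd3f68 : CRef := CRef.mk (Pat.mk 0x40000000500000003000000010000000100000000 0x50000000700000003000000030000000300000002 3 3) 0 0 (step_sound _ 33 [(rh145743f37eb63ccf.shift 0 1), rh55afc6a59410cf00] (by decide +kernel))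
noncomputable def rh71d90955baacd858 : CRef := CRef.mk (Pat.mk 0x1c0000000c000000080000000800000000 0x3c0000000f000000080000000c00000004 3 6) 0 0 (step_sound _ 34 [(rh4dc133ee0ba1420a.shift 0 3), (rh932754581e0f4330.shift 2 0)] (by decide +kernel))
noncomputable def rhd02673cd0240e6ab : CRef := CRef.mk (Pat.mk 0xe000000060000000400000008 0x40000003e000000070000000c00000008 3 6) 0 0 (step_sound _ 35 [(rh2145e1d24b96a57e.shift 2 0), (rh2612b4f73ba7c3b3.shift 0 2)] (by decide +kernel))
noncomputable def rh08932469c58e27e9 : CRef := CRef.mk (Pat.mk 0x140000001c 0x370000003e 3 6) 0 0 (step_sound _ 33 [rh479f07c8ec776d62, (rhf48373e13d2bc128.shift 1 0)] (by decide +kernel))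
noncomputable def rhe50ef500d536edd3 : CRef := CRef.mk (Pat.mk 0x300000002000000020000000c00000008 0x10000000300000002000000020000000f00000019 3 5) 0 0 (step_sound _ 33 [(rh50fbb5868c909700.shift 0 1), rh9f67957f47428996] (by decide +kernel))
noncomputable def rh48a3dd85e9cd5bad : CRef := CRef.mk (Pat.mk 0x10000000300000000000000000000000e 0x10000000300000003000000030000001e 3 5) 0 0 (step_sound _ 33 [rh2613c889e411427e, rh33147460d7676397] (by decide +kernel))
noncomputable def rh893df4815e9c6b9e : CRef := CRef.mk (Pat.mk 0x800000007000000100000003000000000 0x80000003e00000017000000100000003000000020 3 6) 0 0 (step_sound _ 132 [(rh541ba7bf5755edb5.shift 0 3), (rhc5351dabd90740aa.shift 3 0)] (by decide +kernel))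
noncomputable def rh81b5f4fdb0b8a408 : CRef := CRef.mk (Pat.mk 0x600000006000000020000000a00000008 0x1000000070000001e0000000a0000000a00000008 3 5) 0 0 (step_sound _ 99 [(rh2613c889e411427e.shift 2 0), (rh2e8814637c3f6d46.shift 0 1)] (by decide +kernel))
noncomputable def rha74abd673c51f8e7 : CRef := CRef.mk (Pat.mk 0x2000000010000000b0000000d 0x300000003000000010000001b0000000f 3 5) 0 0 (step_sound _ 1 [rh33e738c4ed385b9f, rh82bd946b1709a78e] (by decide +kernel))
noncomputable def rheece04bfb39d9186 : CRef := CRef.mk (Pat.mk 0x4000000070000000c0000000c00000000 0x80000001c0000000f0000000c0000000c00000004 3 5) 0 0 (step_sound _ 131 [rh16cf2c77f05c0b59, (rh2f68792b6b779e96.shift 2 1)] (by decide +kernel))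
noncomputable def rh2cb7763468269676 : CRef := CRef.mk (Pat.mk 0x5000000070000000400000002 0x10000000500000007000000070000000600000002 3 3) 0 0 (step_sound _ 33 [(rh5c5e593799055d58.shift 1 0), rhc89253ff58c66167] (by decide +kernel))
noncomputable def rh69fd1474b487b3e0 : CRef := CRef.mk (Pat.mk 0x4000000040000000c0000000600000000 0x4000000040000003c0000000f00000008 3 6) 0 0 (step_sound _ 35 [(rh55afc6a59410cf00.shift 2 0), (rhf9d36e158778ce35.shift 0 1)] (by decide +kernel))
noncomputable def rh60504fb5787cdae7 : CRef := CRef.mk (Pat.mk 0x700000001000000030000000200000000 0x60000000700000003000000030000000300000001 3 3) 0 0 (step_sound _ 32 [(rh2f68792b6b779e96.shift 0 1), rh4c5963f2a1745fb4] (by decide +kernel))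
noncomputable def rha5fcb7842aec5ef4 : CRef := CRef.mk (Pat.mk 0x40000000300000003000000020000000200000000 0x4000000060000000300000003000000030000000300000001 3 3) 0 0 (step_sound _ 161 [rh0ec68e0bf4727743, (rh2f68792b6b779e96.shift 1 2)] (by decide +kernel))
noncomputable def rhae69c2ca6089a229 : CRef := CRef.mk (Pat.mk 0x1e00000000000000020000001c 0x20000001e00000003000000060000003c 3 6) 0 0 (step_sound _ 34 [rh626f9e70778228d4, (rhf48373e13d2bc128.shift 1 0)] (by decide +kernel))
noncomputable def rh7611810a80cf91bc : CRef := CRef.mk (Pat.mk 0x4000000040000001e00000000 0x40000000400000004000000070000001e00000002 3 5) 0 0 (step_sound _ 65 [(rh3244c3cc8379b070.shift 0 1), (rh503dd4575245365b.shift 1 0)] (by decide +kernel))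
noncomputable def rh2d8617ffd6b7a74e : CRef := CRef.mk (Pat.mk 0x4000000060000001c00000000 0x400000004000000070000001e00000003 3 5) 0 0 (step_sound _ 33 [rh1ae4704ae86cb9a8, (rh3244c3cc8379b070.shift 0 1)] (by decide +kernel))
noncomputable def rh3af751676feff553 : CRef := CRef.mk (Pat.mk 0x1800000038000000000000002000000000 0x380000003f000000600000002000000020 3 7) 0 0 (step_sound _ 98 [(rh2bbc4934553ffbfd.shift 2 0), (rhab2ad169e49f9c5e.shift 0 3)] (by decide +kernel))
noncomputable def rhc49beb43abaec120 : CRef := CRef.mk (Pat.mk 0x1e0000001800000008 0x10000000300000001e0000001b00000008 3 6) 0 0 (step_sound _ 33 [(rh5421160f8e9bcf07.shift 1 0), (rheb0810cc63b001d8.shift 0 1)] (by decide +kernel))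
noncomputable def rha76fce8643e33924 : CRef := CRef.mk (Pat.mk 0x1e0000001200000010 0x3f0000001e00000030 3 6) 0 0 (step_sound _ 35 [(rhb739f4f82bb681b4.shift 0 1), (rhc924e5f7a4031fcc.shift 1 0)] (by decide +kernel))
noncomputable def rh8e7e8228980e5585 : CRef := CRef.mk (Pat.mk 0xa0000001e000000140000000400000000 0x20000000a0000001e000000170000001400000010 3 5) 0 0 (step_sound _ 36 [(rh7b1f1fb55310c477.shift 3 0), (rhf206a6f053b27199.shift 0 1)] (by decide +kernel))
noncomputable def rh017613c6b92cc082 : CRef := CRef.mk (Pat.mk 0xa000000180000001c00000000 0x8000000080000000f000000180000001c00000004 3 5) 0 0 (step_sound _ 98 [(rh37d9ceebb86d75d1.shift 2 0), (rhb739f4f82bb681b4.shift 0 2)] (by decide +kernel))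
noncomputable def rhd9aef7afbf963121 : CRef := CRef.mk (Pat.mk 0x100000001c0000000800000008 0x10000000300000001f0000001800000008 3 6) 0 0 (step_sound _ 65 [(rh33e738c4ed385b9f.shift 1 2), rhd7d612945704e64f] (by decide +kernel))
noncomputable def rh7e2c3efc10676fba : CRef := CRef.mk (Pat.mk 0x40000001c000000060000000000000000 0x4000000040000001e000000070000000200000002 3 5) 0 0 (step_sound _ 97 [(rh1e309b005ffa1b36.shift 1 0), (rheb0810cc63b001d8.shift 0 2)] (by decide +kernel))
noncomputable def rhfaa0c5f366d6641f : CRef := CRef.mk (Pat.mk 0x10000000b0000000d0000000000000000 0x1000000010000001b0000000f0000000200000002 3 5) 0 0 (step_sound _ 65 [(rh33e738c4ed385b9f.shift 0 2), rh55a1f6c57a317ce6] (by decide +kernel))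
noncomputable def rh7b24a275b820efdd : CRef := CRef.mk (Pat.mk 0x180000000c00000018000000080000000800000000 0x180000000f0000003c000000080000000800000008 3 6) 0 0 (step_sound _ 129 [(rh53b3c253cb0c65f4.shift 0 4), (rhf8e53799103d177f.shift 1 0)] (by decide +kernel))
noncomputable def rhafaddf1611d49b38 : CRef := CRef.mk (Pat.mk 0x80000000f000000030000000600000000 0x80000000f0000001b0000001e00000004 3 5) 0 0 (step_sound _ 35 [rhd649337939d95a05, (rhf48373e13d2bc128.shift 0 1)] (by decide +kernel))
noncomputable def rh65849e1b58f3161b : CRef := CRef.mk (Pat.mk 0x1f00000004 0x700000007f0000001c 3 7) 0 0 (step_sound _ 37 [(rh9890f9d77740bbed.shift 1 1), rhaaea62e49e55dbb4] (by decide +kernel))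
noncomputable def rh53eb6371c64e8c0d : CRef := CRef.mk (Pat.mk 0x3e00000010 0x70000003f00000018 3 6) 0 0 (step_sound _ 3 [rhb739f4f82bb681b4, (rhd5eb272e07a4e288.shift 0 1)] (by decide +kernel))
noncomputable def rh34c884ae55378b70 : CRef := CRef.mk (Pat.mk 0x100000000c0000000c0000000800000000 0x100000003c0000000f0000000800000008 3 6) 0 0 (step_sound _ 100 [(rh4dc133ee0ba1420a.shift 0 2), (rh71222050f2c63a3a.shift 3 0)] (by decide +kernel))
noncomputable def rhe7d219a30aed302c : CRef := CRef.mk (Pat.mk 0xc00000004000000030000000600000000 0x80000000c00000004000000070000001e00000008 3 5) 0 0 (step_sound _ 66 [(rh2f68792b6b779e96.shift 2 1), rh42afa1af9fffa0e1] (by decide +kernel))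
noncomputable def rhdb0438a52ac87275 : CRef := CRef.mk (Pat.mk 0xc0000000c000000030000000600000000 0xc0000000c0000000b0000001e0000000c 3 5) 0 0 (step_sound _ 35 [(rhbcedfca2885d6e85.shift 2 0), (rhf48373e13d2bc128.shift 0 1)] (by decide +kernel))
noncomputable def rh9960a7e9e80d4536 : CRef := CRef.mk (Pat.mk 0x300000003000000000000000200000000 0x300000003000000030000000300000003 3 2) 0 0 (step_sound _ 32 [rh8556ce617a451e36, rh935da622f8ebc962, rhbcedfca2885d6e85, rhecb97fed8c7f1286] (by decide +kernel))
noncomputable def rhc78e8b5d4a1195af : CRef := CRef.mk (Pat.mk 0x600000016000000020000000400000000 0x60000001e000000030000000600000006 3 5) 0 0 (step_sound _ 99 [(rh9b4df57cddcda711.shift 1 0), (rheb0810cc63b001d8.shift 0 2)] (by decide +kernel))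
noncomputable def rh503ae9d91c60dee8 : CRef := CRef.mk (Pat.mk 0x20000000300000002000000020000000200000000 0x20000000300000003000000060000000600000006 3 3) 0 0 (step_sound _ 1 [(rhd29a1fb688eae70f.shift 1 0), rhffd04209dc8ea796] (by decide +kernel))
noncomputable def rh6daff1fc1f3ab50d : CRef := CRef.mk (Pat.mk 0x1e000000100000001800000000 0x8000000180000001f000000100000001800000008 3 5) 0 0 (step_sound _ 132 [(rh3d5d828ac8ab1bfc.shift 0 1), (rh932754581e0f4330.shift 3 0)] (by decide +kernel))
noncomputable def rh85bc4ed18bc41648 : CRef := CRef.mk (Pat.mk 0x400000007000000140000000c00000000 0x40000000f0000001c0000000f00000002 3 5) 0 0 (step_sound _ 33 [(rh6f555c723a80e234.shift 0 1), (rh932754581e0f4330.shift 1 0)] (by decide +kernel))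
noncomputable def rh44cefeb81b637a25 : CRef := CRef.mk (Pat.mk 0xe00000008000000180000000000000000 0x80000000f00000018000000180000001000000010 3 5) 0 0 (step_sound _ 100 [(rh55a1f6c57a317ce6.shift 3 0), (rhb739f4f82bb681b4.shift 0 3)] (by decide +kernel))
noncomputable def rhe34bac69e2b24a5e : CRef := CRef.mk (Pat.mk 0x100000003e00000000 0x180000003f00000007 3 6) 0 0 (step_sound _ 32 [(rh428265de8cd3cd2d.shift 0 1), rheae1728ff4a56756] (by decide +kernel))
noncomputable def rh31b881e5f2ef4c85 : CRef := CRef.mk (Pat.mk 0x60000000a000000020000000200000000 0x1000000070000001e000000020000000200000002 3 5) 0 0 (step_sound _ 98 [(rh2e8814637c3f6d46.shift 0 1), (rh71222050f2c63a3a.shift 1 0)] (by decide +kernel))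
noncomputable def rh032d7f124d77d7cf : CRef := CRef.mk (Pat.mk 0x4000000040000001e0000001800000000 0x4000000040000003e0000001f00000002 3 6) 0 0 (step_sound _ 33 [(rhcf54373e383838fa.shift 1 0), (rheb0810cc63b001d8.shift 0 1)] (by decide +kernel))
noncomputable def rha12011b5de94d698 : CRef := CRef.mk (Pat.mk 0x4000000060000001e0000000000000000 0x4000000060000001e0000003300000002 3 6) 0 0 (step_sound _ 36 [rh9c40a739b57d6d20, (rhe25b0a99195a5d59.shift 1 1)] (by decide +kernel))
noncomputable def rh8ac689f83b4d45e0 : CRef := CRef.mk (Pat.mk 0x3e00000000 0x30000003e00000007 3 6) 0 0 (step_sound _ 64 [(rh3f8766e6ecb455ce.shift 0 1), rheae1728ff4a56756] (by decide +kernel))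
noncomputable def rh9dc2452a2ebcb117 : CRef := CRef.mk (Pat.mk 0x100000001000000090000000a 0x100000001000000010000000f0000001e 3 5) 0 0 (step_sound _ 33 [rh2145e1d24b96a57e, rha6816dee951f7ee6] (by decide +kernel))
noncomputable def rhac0df7784cc7c3dd : CRef := CRef.mk (Pat.mk 0x100000001c00000004 0x300000003e00000007 3 6) 0 0 (step_sound _ 33 [(rh33e738c4ed385b9f.shift 1 1), rhaf9f2efc81a8312b] (by decide +kernel))
noncomputable def rh917528c935b12cb1 : CRef := CRef.mk (Pat.mk 0x200000003000000020000000200000000 0x10000000300000003000000020000000600000006 3 3) 0 0 (step_sound _ 34 [(rh55afc6a59410cf00.shift 1 0), rhe286c75f2739cce2] (by decide +kernel))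
noncomputable def rh48e915b80e361ac6 : CRef := CRef.mk (Pat.mk 0xe000000000000003c 0x1e000000070000003e 3 6) 0 0 (step_sound _ 33 [(rh3f8766e6ecb455ce.shift 1 0), rh8288fb599a75c6d0] (by decide +kernel))
noncomputable def rh562d6ffa289cf5f6 : CRef := CRef.mk (Pat.mk 0xb00000003 0x1f0000001f 3 5) 0 0 (step_sound _ 3 [rh26cf6cd574a72447, rh4ca3b344f1b51833, rh9f2591205204f08d, rha6816dee951f7ee6] (by decide +kernel))
noncomputable def rh7c428581aba4179a : CRef := CRef.mk (Pat.mk 0x80000000d000000080000000800000000 0x8000000080000000f000000180000001800000010 3 5) 0 0 (step_sound _ 68 [(rhab22b5b56e7b3243.shift 0 2), (rhd4b4beefcd67f51e.shift 3 0)] (by decide +kernel))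
noncomputable def rh6d6a0652e9c3c7b2 : CRef := CRef.mk (Pat.mk 0x300000003000000020000000300000000 0x20000000300000003000000070000000700000004 3 3) 0 0 (step_sound _ 161 [(rh9e3edb185cc347de.shift 0 1), (rhd29a1fb688eae70f.shift 1 0)] (by decide +kernel))
noncomputable def rh31b38292d63be68c : CRef := CRef.mk (Pat.mk 0xa00000009000000010000000100000000 0x1e0000000f000000010000000100000001 3 5) 0 0 (step_sound _ 97 [rh71222050f2c63a3a, (rh9f2591205204f08d.shift 0 3)] (by decide +kernel))
noncomputable def rh121d72762dcc521e : CRef := CRef.mk (Pat.mk 0xc0000001c0000000800000000 0x8000000080000000c0000003c0000000f00000004 3 6) 0 0 (step_sound _ 34 [(rh4dc133ee0ba1420a.shift 0 1), (rh84d1c02a8954c6a8.shift 2 0)] (by decide +kernel))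
noncomputable def rh6d34234edcb0e9c5 : CRef := CRef.mk (Pat.mk 0x4000000000000000e0000000c00000008 0xc0000001c000000180000000f0000000c00000008 3 5) 0 0 (step_sound _ 99 [(rh16567ae718d9fd54.shift 2 1), rhdab32775f5c78fcf] (by decide +kernel))
noncomputable def rh6504b43a833200bd : CRef := CRef.mk (Pat.mk 0x20000001e00000014 0x60000007f0000001c 3 7) 0 0 (step_sound _ 3 [(rh8abea2a7b1fd427a.shift 1 0), rhb739f4f82bb681b4] (by decide +kernel))
noncomputable def rh70d8af94cc7ffa15 : CRef := CRef.mk (Pat.mk 0x180000003c 0x1f0000003f 3 6) 0 0 (step_sound _ 1 [rh53b3c253cb0c65f4, rh5d685137714d9fe9] (by decide +kernel))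
noncomputable def rha24a3fde0708dec3 : CRef := CRef.mk (Pat.mk 0x160000001e00000008 0x10000000300000001e0000001f00000008 3 6) 0 0 (step_sound _ 67 [(rh53b3c253cb0c65f4.shift 0 1), (rh5421160f8e9bcf07.shift 1 0)] (by decide +kernel))
noncomputable def rh3ac99ece063cfa76 : CRef := CRef.mk (Pat.mk 0x1000000000000000700000003000000000000000000000000 0x1000000050000000700000003000000020000000200000002 3 3) 0 0 (step_sound _ 65 [(rh6f1cbe15c631ee70.shift 0 2), rhb0c1e7919d9be92d] (by decide +kernel))
noncomputable def rh9a33a75377996d5b : CRef := CRef.mk (Pat.mk 0x4000000040000000e000000020000000000000000 0x4000000060000001e000000030000000200000002 3 5) 0 0 (step_sound _ 64 [(rh18965a982d73c794.shift 0 2), (rhf9af042da61fc652.shift 1 0)] (by decide +kernel))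
noncomputable def rhb8ab8e37ebf1e90d : CRef := CRef.mk (Pat.mk 0x200000002000000020000000200000002 0x10000000300000003000000020000000300000003 3 2) 0 0 (step_sound _ 32 [rh3ca48e2a6d60153d, rh932754581e0f4330] (by decide +kernel))
noncomputable def rh27a77b5882fcda43 : CRef := CRef.mk (Pat.mk 0x1e0000001200000030 0x30000003e0000001e00000030 3 6) 0 0 (step_sound _ 97 [(rh3244c3cc8379b070.shift 0 2), (rhecf70d5ad0b38994.shift 1 0)] (by decide +kernel))
noncomputable def rhb8e5b18824fc4c63 : CRef := CRef.mk (Pat.mk 0x200000002000000010000000100000000 0x2000000020000000200000003000000030000000100000001 3 2) 0 0 (step_sound _ 96 [(rh69755ef358ebfd54.shift 0 1), rh71222050f2c63a3a] (by decide +kernel))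
noncomputable def rh83863495db9839d3 : CRef := CRef.mk (Pat.mk 0x40000000c00000007000000040000000400000000 0x4000000040000000c0000000f0000001c0000000400000004 3 5) 0 0 (step_sound _ 99 [(rh71222050f2c63a3a.shift 2 0), (rhba04d77b039f69d9.shift 0 2)] (by decide +kernel))
noncomputable def rh82447fafbe275346 : CRef := CRef.mk (Pat.mk 0x1c000000280000000c 0x1e000000380000001f 3 6) 0 0 (step_sound _ 36 [(rhb739f4f82bb681b4.shift 1 1), rheea1a90336e79c71] (by decide +kernel))
noncomputable def rha0f2fdc7cc9552e9 : CRef := CRef.mk (Pat.mk 0x20000000a0000000a0000000f00000000 0x4000000060000000e0000000a0000000f00000018 3 5) 0 0 (step_sound _ 130 [(rh2f68792b6b779e96.shift 1 1), rhfc73b9f9592b9946] (by decide +kernel))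
noncomputable def rh42edf1d999055f4b : CRef := CRef.mk (Pat.mk 0x80000000e0000000c0000000000000000 0x180000000f0000001c0000000400000004 3 5) 0 0 (step_sound _ 34 [(rh71222050f2c63a3a.shift 2 0), (rhcf86d050071af9b3.shift 0 2)] (by decide +kernel))
noncomputable def rh3d1e6d4570311f9e : CRef := CRef.mk (Pat.mk 0x40000000e000000000000000e00000000 0x40000001e000000030000001e00000002 3 5) 0 0 (step_sound _ 65 [(rh046254d731362e10.shift 0 1), (rh71222050f2c63a3a.shift 1 0)] (by decide +kernel))
noncomputable def rhf56fd0d89d35017f : CRef := CRef.mk (Pat.mk 0x10000000100000001000000010000000100000000 0x2000000030000000300000001000000010000000300000002 3 2) 0 0 (step_sound _ 1 [(rh44f453b84f013105.shift 0 1), rhd3458b32566d63f7] (by decide +kernel))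
noncomputable def rhffbbc3c9777f51e1 : CRef := CRef.mk (Pat.mk 0x20000000340000001c 0x600000003f0000003c 3 7) 0 0 (step_sound _ 35 [(rh33e738c4ed385b9f.shift 2 1), rhe2b63c00a3d7bb73] (by decide +kernel))
noncomputable def rhbfd59a9d237b5d33 : CRef := CRef.mk (Pat.mk 0x20000001e0000000000000004 0x2000000020000003e0000000700000004 3 6) 0 0 (step_sound _ 33 [(rheb0810cc63b001d8.shift 0 1), (rhf41104f32ae47f64.shift 1 0)] (by decide +kernel))
noncomputable def rh81c595efb4a141de : CRef := CRef.mk (Pat.mk 0x1e0000000200000004 0x2000000030000003e0000000600000004 3 6) 0 0 (step_sound _ 97 [(rh3244c3cc8379b070.shift 0 2), (rhf41104f32ae47f64.shift 1 0)] (by decide +kernel))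
noncomputable def rhd9d24126aeab6b6e : CRef := CRef.mk (Pat.mk 0x4000000040000000f0000000000000000 0x40000001c0000000f0000001800000008 3 5) 0 0 (step_sound _ 35 [rhcf9d12da1293a3a3, (rhe25b0a99195a5d59.shift 0 1)] (by decide +kernel))
noncomputable def rhf6fff0a0106273a3 : CRef := CRef.mk (Pat.mk 0xd0000000e000000040000000000000000 0x20000000f0000001e000000040000000400000004 3 5) 0 0 (step_sound _ 129 [(rh40241bd608e5be1a.shift 1 0), (rhf48373e13d2bc128.shift 0 3)] (by decide +kernel))
noncomputable def rh1f9575ddd12aac7f : CRef := CRef.mk (Pat.mk 0x200000003000000030000000400000000 0x10000000300000003000000030000000600000006 3 3) 0 0 (step_sound _ 33 [(rh55afc6a59410cf00.shift 1 0), rhfc7c29d8e65d775f] (by decide +kernel))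
noncomputable def rh72fb81b1f4fc8ce5 : CRef := CRef.mk (Pat.mk 0x10000000100000001c0000001000000000 0x10000000100000001f0000003800000008 3 6) 0 0 (step_sound _ 35 [(rh932754581e0f4330.shift 3 0), (rhad5d8fc3675c15dd.shift 0 1)] (by decide +kernel))
noncomputable def rh96d0f6edf2b9ef9e : CRef := CRef.mk (Pat.mk 0x10000000100000001c0000000800000000 0x10000000100000001f0000003800000008 3 6) 0 0 (step_sound _ 36 [(rh932754581e0f4330.shift 3 0), (rhad5d8fc3675c15dd.shift 0 1)] (by decide +kernel))
noncomputable def rhf87585b0e9b4fc36 : CRef := CRef.mk (Pat.mk 0x1c000000240000000400000000 0x30000001e000000340000000400000004 3 6) 0 0 (step_sound _ 97 [rh132883a60cd8aed8, (rh96851dee118c1ba3.shift 1 2)] (by decide +kernel))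
noncomputable def rhd17f42765bd42cb9 : CRef := CRef.mk (Pat.mk 0x10000000500000005000000040000000400000000 0x50000000500000005000000070000000600000002 3 3) 0 0 (step_sound _ 33 [(rh4020ef0ffe567459.shift 0 1), (rh932754581e0f4330.shift 1 0)] (by decide +kernel))
noncomputable def rh74e4bfc809064557 : CRef := CRef.mk (Pat.mk 0x8000000080000001c0000001600000000 0x8000000080000001f0000003e00000010 3 6) 0 0 (step_sound _ 65 [rhc3a59a83e7b52d33, (rhe25b0a99195a5d59.shift 1 1)] (by decide +kernel))
noncomputable def rh95fee234f7aa02de : CRef := CRef.mk (Pat.mk 0x4000000060000000c0000000600000000 0x4000000060000003c0000000f00000008 3 6) 0 0 (step_sound _ 68 [rh624abbc666bdf412, (rhf48373e13d2bc128.shift 1 2)] (by decide +kernel))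
noncomputable def rhc5254222bec83b98 : CRef := CRef.mk (Pat.mk 0x20000000f000000010000000000000000 0x2000000020000001f000000030000000100000001 3 5) 0 0 (step_sound _ 65 [(rh18965a982d73c794.shift 0 2), rh1e309b005ffa1b36] (by decide +kernel))
noncomputable def rhe9e82c27a30d00af : CRef := CRef.mk (Pat.mk 0x10000000f000000020000000000000000 0x1000000010000001f000000030000000200000002 3 5) 0 0 (step_sound _ 64 [(rh18965a982d73c794.shift 0 2), rh55a1f6c57a317ce6] (by decide +kernel))
noncomputable def rh0ae292353e3e84d9 : CRef := CRef.mk (Pat.mk 0x1000000020000000700000003000000000000000000000000 0x1000000070000000700000003000000020000000200000002 3 3) 0 0 (step_sound _ 65 [rhb0c1e7919d9be92d, (rhffd04209dc8ea796.shift 0 2)] (by decide +kernel))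
noncomputable def rha2ee7f8de84eaea3 : CRef := CRef.mk (Pat.mk 0x20000000700000001000000060000000000000000 0x60000000700000003000000060000000600000002 3 3) 0 0 (step_sound _ 97 [(rh55afc6a59410cf00.shift 1 1), rhb0c1e7919d9be92d] (by decide +kernel))
noncomputable def rh3bfe72d6b3e823f4 : CRef := CRef.mk (Pat.mk 0x40000000c000000030000000a00000000 0x40000000c0000000f0000001e00000008 3 5) 0 0 (step_sound _ 34 [(rh935da622f8ebc962.shift 2 0), (rhf48373e13d2bc128.shift 0 1)] (by decide +kernel))
noncomputable def rh226ee65b5446c4fd : CRef := CRef.mk (Pat.mk 0x200000002000000030000000200000000 0x60000000600000002000000030000000300000001 3 3) 0 0 (step_sound _ 162 [rh03dfdf12d5937476, (rhbaefcd01e0a8bca3.shift 1 1)] (by decide +kernel))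
noncomputable def rh14797f579c71ecb3 : CRef := CRef.mk (Pat.mk 0x4000000040000000800000038 0x400000004000000040000001f00000038 3 6) 0 0 (step_sound _ 34 [(rh2145e1d24b96a57e.shift 2 0), rhc02b3aee7ab87ee1] (by decide +kernel))
noncomputable def rhada49c4b24f94ffc : CRef := CRef.mk (Pat.mk 0x100000001e000000160000000000000000 0x8000000180000001f0000001e0000003000000020 3 6) 0 0 (step_sound _ 36 [(rh3d5d828ac8ab1bfc.shift 0 1), (rh5f11ee373cbffcaa.shift 1 0)] (by decide +kernel))
noncomputable def rh12ed2c51e5082423 : CRef := CRef.mk (Pat.mk 0x60000000e0000000a 0x400000004000000060000003e0000000b 3 6) 0 0 (step_sound _ 98 [(rh2145e1d24b96a57e.shift 2 0), rha9e1a5d55b907abf] (by decide +kernel))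
noncomputable def rhe19b9661a558a92e : CRef := CRef.mk (Pat.mk 0x600000004000000060000000300000000 0x2000000020000000600000006000000060000000700000001 3 3) 0 0 (step_sound _ 161 [(rh7b1f1fb55310c477.shift 1 1), rh88a42862f9a1bce7] (by decide +kernel))
noncomputable def rhb1a8617ce4d7cade : CRef := CRef.mk (Pat.mk 0x20000000a0000001c00000004 0x2000000020000003a0000001f00000004 3 6) 0 0 (step_sound _ 33 [(rh2145e1d24b96a57e.shift 1 0), (rhec46bd5500c722c9.shift 0 1)] (by decide +kernel))
noncomputable def rhd088636ec9c52751 : CRef := CRef.mk (Pat.mk 0x30000001200000018000000100000000000000000 0xb0000001e00000018000000100000001000000010 3 5) 0 0 (step_sound _ 131 [(rh3cb04db3dd2b6a55.shift 3 0), (rh5419adcd928dba20.shift 0 4)] (by decide +kernel))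
noncomputable def rhfca4ee91d9e59fc6 : CRef := CRef.mk (Pat.mk 0x4000000070000000c0000000400000000 0x4000000070000003e0000000600000002 3 6) 0 0 (step_sound _ 33 [(rh932754581e0f4330.shift 1 0), (rhc3c694226a015fc3.shift 0 1)] (by decide +kernel))
noncomputable def rh7c1707a2c9aabdb1 : CRef := CRef.mk (Pat.mk 0x8000000080000001c0000000000000004 0x80000000f0000003c0000000400000004 3 6) 0 0 (step_sound _ 98 [(rh9e3edb185cc347de.shift 2 0), (rhe2b63c00a3d7bb73.shift 0 2)] (by decide +kernel))
noncomputable def rhedee52de3917242a : CRef := CRef.mk (Pat.mk 0x200000006000000030000000300000000 0x10000000700000007000000030000000300000002 3 3) 0 0 (step_sound _ 128 [(rh50fbb5868c909700.shift 0 1), rh5934eb2458b5cfb0] (by decide +kernel))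
noncomputable def rhdef9b933f9f808e2 : CRef := CRef.mk (Pat.mk 0x8000000100000001e00000000 0x800000008000000180000001f00000030 3 6) 0 0 (step_sound _ 67 [(rh53b3c253cb0c65f4.shift 0 1), (rhba04d77b039f69d9.shift 1 0)] (by decide +kernel))
noncomputable def rh50cf363d59e16d55 : CRef := CRef.mk (Pat.mk 0x30000000a00000006000000020000000000000000 0x70000001e00000006000000020000000200000002 3 5) 0 0 (step_sound _ 130 [(rhea7a1800d6f053bd.shift 1 0), (rhf48373e13d2bc128.shift 0 4)] (by decide +kernel))
noncomputable def rha9ace1c77ae3aa88 : CRef := CRef.mk (Pat.mk 0x40000000e0000000500000000 0x400000004000000040000001e0000000700000002 3 5) 0 0 (step_sound _ 33 [(rh18965a982d73c794.shift 0 1), (rh503dd4575245365b.shift 1 0)] (by decide +kernel))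
noncomputable def rhbd923e93754dd685 : CRef := CRef.mk (Pat.mk 0x200000006000000020000000200000000 0x10000000700000007000000020000000200000002 3 3) 0 0 (step_sound _ 1 [(rh2f68792b6b779e96.shift 1 0), rh3ca48e2a6d60153d] (by decide +kernel))
noncomputable def rhda9dc5fa8c2f8d21 : CRef := CRef.mk (Pat.mk 0x2000000060000000700000000 0x200000002000000020000001e0000000700000004 3 5) 0 0 (step_sound _ 67 [(rh18965a982d73c794.shift 0 1), (rh3e595262c1b737ad.shift 1 0)] (by decide +kernel))
noncomputable def rhd0d290958a39e026 : CRef := CRef.mk (Pat.mk 0x400000004000000070000000800000000 0x400000004000000070000003e00000008 3 6) 0 0 (step_sound _ 34 [(rh55afc6a59410cf00.shift 2 0), (rh89ade209b3e28f13.shift 0 1)] (by decide +kernel))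
noncomputable def rhd0ea23fbd3cbe784 : CRef := CRef.mk (Pat.mk 0x1e000000180000001000000010 0x200000003e0000001f0000001000000010 3 6) 0 0 (step_sound _ 65 [(rh7e143111a189f2ad.shift 1 0), (rheb0810cc63b001d8.shift 0 2)] (by decide +kernel))
noncomputable def rh9e9254f6657b54d3 : CRef := CRef.mk (Pat.mk 0x400000003e00000010 0xc0000000ff00000018 3 8) 0 0 (step_sound _ 38 [(rh33e738c4ed385b9f.shift 3 1), rh3d43094283b3e7fc] (by decide +kernel))
noncomputable def rhcd27b77dbaaa79f0 : CRef := CRef.mk (Pat.mk 0xc0000000b0000000800000000 0x4000000040000000c0000000f0000001800000008 3 5) 0 0 (step_sound _ 66 [(rhe25b0a99195a5d59.shift 0 1), (rhfc7c29d8e65d775f.shift 2 0)] (by decide +kernel))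
noncomputable def rhe1ce8defbf6a31cf : CRef := CRef.mk (Pat.mk 0x4000000080000000b0000000800000000 0x40000000c000000080000000f0000001800000010 3 5) 0 0 (step_sound _ 36 [(rh6196b452c518de56.shift 2 0), (rhc10214bf3fe8094a.shift 0 1)] (by decide +kernel))
noncomputable def rh8a8d1fefad27abc5 : CRef := CRef.mk (Pat.mk 0x4000000140000000e00000000 0x4000000040000001c0000000f00000018 3 5) 0 0 (step_sound _ 32 [(rh428265de8cd3cd2d.shift 0 1), rhba04d77b039f69d9] (by decide +kernel))
noncomputable def rhed5f4272e3711dcf : CRef := CRef.mk (Pat.mk 0x1f00000000 0x380000001f00000030 3 6) 0 0 (step_sound _ 5 [(rh96851dee118c1ba3.shift 1 0), (rh9890f9d77740bbed.shift 0 1)] (by decide +kernel))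
noncomputable def rh411706f9a064612d : CRef := CRef.mk (Pat.mk 0xe000000010000000c00000004 0x20000001e000000030000001e00000004 3 5) 0 0 (step_sound _ 65 [(rh18965a982d73c794.shift 0 2), rhddaa53666f376a29] (by decide +kernel))
noncomputable def rhd92236b48d98c71d : CRef := CRef.mk (Pat.mk 0xe000000020000000c00000004 0x20000001e000000030000001e00000004 3 5) 0 0 (step_sound _ 33 [(rh046254d731362e10.shift 0 1), (rh2145e1d24b96a57e.shift 1 0)] (by decide +kernel))
noncomputable def rhd1d1631c4c8d27fe : CRef := CRef.mk (Pat.mk 0x100000003000000010000000100000000 0x20000000300000003000000010000000300000003 3 2) 0 0 (step_sound _ 1 [rha707fb719e87fe6e, rhd3458b32566d63f7] (by decide +kernel))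
noncomputable def rh939fe1b2e148a985 : CRef := CRef.mk (Pat.mk 0x20000000e00000020 0x70000003e00000060 3 7) 0 0 (step_sound _ 36 [(rh3244c3cc8379b070.shift 0 1), (rh6b86f2178b913204.shift 1 0)] (by decide +kernel))
noncomputable def rh128fc545176bb450 : CRef := CRef.mk (Pat.mk 0x80000001c000000060000001c0000000000000000 0x80000001c000000160000001e0000003300000002 3 6) 0 0 (step_sound _ 65 [(rh82687729b6ed8eda.shift 1 1), rh9c40a739b57d6d20] (by decide +kernel))
noncomputable def rhe7c5da0737c32d61 : CRef := CRef.mk (Pat.mk 0x80000000e000000140000001000000000 0x80000003e000000170000001000000010 3 6) 0 0 (step_sound _ 100 [(rh7b1f1fb55310c477.shift 3 0), (rhaf9f2efc81a8312b.shift 0 2)] (by decide +kernel))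
noncomputable def rh9aa38362312a029a : CRef := CRef.mk (Pat.mk 0x400000006000000030000000c00000000 0x40000001e0000000f0000000c00000008 3 5) 0 0 (step_sound _ 3 [rh1ebae77060ef1c3f, (rhff0f29cb645b05f7.shift 2 0)] (by decide +kernel))
noncomputable def rhef00ab894e04c31b : CRef := CRef.mk (Pat.mk 0xc000000080000001e00000004 0x20000000f0000003b0000001e00000004 3 6) 0 0 (step_sound _ 97 [(rh4503a2d502ef3aef.shift 0 1), rh756bf0ac35c4fb2d] (by decide +kernel))
noncomputable def rhc40b91cc658c04b0 : CRef := CRef.mk (Pat.mk 0xe00000004000000000000001e00000000 0xf0000003c000000080000001e00000030 3 6) 0 0 (step_sound _ 99 [(rh49bdc49f6b132823.shift 1 0), (rh6292bd8784ece55f.shift 0 3)] (by decide +kernel))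
noncomputable def rh4197e719db64dcb4 : CRef := CRef.mk (Pat.mk 0x1e00000000000000080000001c 0x30000001e000000040000000e0000007c 3 7) 0 0 (step_sound _ 34 [(rh79b3c29022acbdf3.shift 1 0), rhea1977e228a6d74a] (by decide +kernel))
noncomputable def rh35ef768cae23767b : CRef := CRef.mk (Pat.mk 0x1a0000000c000000000000000c 0x170000001e0000000c0000000c0000000c 3 5) 0 0 (step_sound _ 98 [rh0da3f8d18d3a0dfd, (rhd1f9989d6034576a.shift 2 0)] (by decide +kernel))
noncomputable def rh5a387eedf845a1d9 : CRef := CRef.mk (Pat.mk 0xf000000090000000c00000000 0x180000000f0000000f0000001e00000010 3 5) 0 0 (step_sound _ 36 [(rh23e41f97710e9f38.shift 0 1), rh7e2967714be94ca8] (by decide +kernel))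
noncomputable def rhf6b55c2aa4515bf5 : CRef := CRef.mk (Pat.mk 0x200000006000000090000000c00000000 0x2000000060000000f0000001e00000004 3 5) 0 0 (step_sound _ 65 [(rh478c4cadbcd4e066.shift 1 0), rh684ceea70f67a2df, rhb00882e7e76d3911, (rhe2971afac17a6ffc.shift 0 1)] (by decide +kernel))
noncomputable def rh42768138bebe71fc : CRef := CRef.mk (Pat.mk 0x200000007000000000000000300000000 0x700000007000000020000000300000003 3 3) 0 0 (step_sound _ 65 [rh261f868a429ae0e3, rh932754581e0f4330] (by decide +kernel))
noncomputable def rha4c74c56f4989b54 : CRef := CRef.mk (Pat.mk 0x400000004000000040000000700000000 0x400000004000000040000001c0000000f00000008 3 5) 0 0 (step_sound _ 35 [(rh55afc6a59410cf00.shift 2 0), (rhd3f7ef38fbfd55da.shift 0 1)] (by decide +kernel))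
noncomputable def rhb4d32814c929cf0f : CRef := CRef.mk (Pat.mk 0xe0000000c000000080000000c 0x130000001e0000000c0000000c0000000c 3 5) 0 0 (step_sound _ 100 [rh0da3f8d18d3a0dfd, (rh2f68792b6b779e96.shift 3 0)] (by decide +kernel))
noncomputable def rh4d599e7732b2e8b7 : CRef := CRef.mk (Pat.mk 0x4000000000000001e0000000200000000 0x4000000070000003e0000000200000002 3 6) 0 0 (step_sound _ 97 [(rh3244c3cc8379b070.shift 0 2), (rh406f9a6aa07143c7.shift 1 0)] (by decide +kernel))
noncomputable def rhada2ce4d87906995 : CRef := CRef.mk (Pat.mk 0x80000000e000000080000000e00000000 0x40000000c0000000e0000000b0000001e00000012 3 5) 0 0 (step_sound _ 65 [rh0e9804663e9ab184, (rh75366944d05eec8d.shift 1 0)] (by decide +kernel))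
noncomputable def rh415a868871629c95 : CRef := CRef.mk (Pat.mk 0x8000000180000001c0000000e00000000 0x40000000c0000001c0000001c0000001e00000013 3 5) 0 0 (step_sound _ 1 [(rh4fcc643a9c188aaa.shift 1 0), rhbc65edc2393e02d2] (by decide +kernel))
noncomputable def rh68364ea9fd5ddf51 : CRef := CRef.mk (Pat.mk 0x8000000180000001a0000000000000000 0x8000000180000001f0000003000000010 3 6) 0 0 (step_sound _ 36 [(rh39f426ebe0691969.shift 0 1), (rh7b1f1fb55310c477.shift 3 0)] (by decide +kernel))
noncomputable def rh8f11ec79134f799f : CRef := CRef.mk (Pat.mk 0x60000000e0000000200000007 0x60000003e0000003e0000000f 3 6) 0 0 (step_sound _ 36 [(rh8ef9dd588f33bbde.shift 1 1), rhfbf320ca8ea44173] (by decide +kernel))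
noncomputable def rha57dbb17a7e1a202 : CRef := CRef.mk (Pat.mk 0x80000000a0000001a00000000 0x8000000080000000b0000001e00000030 3 6) 0 0 (step_sound _ 4 [(rh2145e1d24b96a57e.shift 3 0), rh7174a5174d2fbf5b] (by decide +kernel))
noncomputable def rhaa293d39a2c6f294 : CRef := CRef.mk (Pat.mk 0x80000000d000000080000000800000000 0x8000000080000000f000000180000001800000010 3 5) 0 0 (step_sound _ 36 [(rh55afc6a59410cf00.shift 3 0), (rha5b5ac62a0abe102.shift 0 1)] (by decide +kernel))
noncomputable def rhef97ebbc25a73f68 : CRef := CRef.mk (Pat.mk 0x8000000020000000e0000001800000000 0x8000000080000000b0000001e0000001800000010 3 5) 0 0 (step_sound _ 68 [(rh3244c3cc8379b070.shift 0 2), (rhda6cc5da102e1723.shift 3 0)] (by decide +kernel))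
noncomputable def rhb3d1711f50238fa5 : CRef := CRef.mk (Pat.mk 0xe00000002000000080000001800000000 0x100000001e0000000b000000080000001800000010 3 5) 0 0 (step_sound _ 99 [(rh55afc6a59410cf00.shift 3 0), (rhc49ca0b9223e2b96.shift 0 1)] (by decide +kernel))
noncomputable def rh60829b1133541a47 : CRef := CRef.mk (Pat.mk 0x1c00000004000000140000003000000000 0x30000001e00000034000000140000003400000020 3 6) 0 0 (step_sound _ 129 [(rh132883a60cd8aed8.shift 0 1), (rh9a6ab53ed55a15e7.shift 1 0)] (by decide +kernel))
noncomputable def rh7a1ed4148b53913e : CRef := CRef.mk (Pat.mk 0x400000003000000060000000c00000000 0xa0000001e00000007000000060000000c00000008 3 5) 0 0 (step_sound _ 131 [(rh0e40e213923dfc13.shift 0 1), (rh85e0f5cc78e9cbe0.shift 2 0)] (by decide +kernel))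
noncomputable def rh45e3002665ad3719 : CRef := CRef.mk (Pat.mk 0x4000000030000000e0000000c 0xe0000001e0000000b0000000e0000000c 3 5) 0 0 (step_sound _ 99 [rh0e40e213923dfc13, (rh4c61a8d65f05c464.shift 2 0)] (by decide +kernel))
noncomputable def rh0fdd10633ea9ac01 : CRef := CRef.mk (Pat.mk 0x7000000010000000e00000004 0x1a0000001f0000000b0000000e00000004 3 5) 0 0 (step_sound _ 99 [rh8bba9c09a1e3aa82, rhb23bc07381afb8a9] (by decide +kernel))
noncomputable def rh657a9bac0b87d3c6 : CRef := CRef.mk (Pat.mk 0x3c000000000000003c 0x700000003e000000070000003c 3 7) 0 0 (step_sound _ 65 [rh14302a4313555aea, (rh9890f9d77740bbed.shift 1 2)] (by decide +kernel))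
noncomputable def rh0e52b97cddc515c5 : CRef := CRef.mk (Pat.mk 0x1e000000000000001e00000000 0x30000001e000000030000001e00000004 3 5) 0 0 (step_sound _ 65 [(rh3244c3cc8379b070.shift 0 1), rhf8e4078eeb954a28] (by decide +kernel))
noncomputable def rhc78bbdac26348b03 : CRef := CRef.mk (Pat.mk 0xe000000010000000f00000000 0x40000001e0000000b0000000f0000001a 3 5) 0 0 (step_sound _ 130 [rh16b42a8938e03177, rh82687729b6ed8eda] (by decide +kernel))
noncomputable def rh35a194ad95627f53 : CRef := CRef.mk (Pat.mk 0x1c000000020000001e00000008 0x330000001e000000120000001e0000000c 3 6) 0 0 (step_sound _ 97 [(rh8bba9c09a1e3aa82.shift 1 0), rhf8e4078eeb954a28] (by decide +kernel))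
noncomputable def rh16dbd004250b0dd9 : CRef := CRef.mk (Pat.mk 0xc000000000000000f00000004 0xc0000000c000000080000000f0000001c 3 5) 0 0 (step_sound _ 3 [(rh4c61a8d65f05c464.shift 2 0), rhe25b0a99195a5d59] (by decide +kernel))
noncomputable def rhea9e92e758e1c267 : CRef := CRef.mk (Pat.mk 0x200000001c000000000000003000000010 0x370000003e000000200000003000000010 3 6) 0 0 (step_sound _ 129 [(rhfcf1119458f22b28.shift 0 3), (rhfe520bcb130f10d6.shift 1 0)] (by decide +kernel))
noncomputable def rh89a967bf33625389 : CRef := CRef.mk (Pat.mk 0x1c000000020000003000000010 0x700000003e000000230000003000000010 3 7) 0 0 (step_sound _ 133 [(rh9f6d71d2ccb1f73c.shift 2 0), (rhd6f64f2d70aac170.shift 0 2)] (by decide +kernel))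
noncomputable def rh718843506682e2bd : CRef := CRef.mk (Pat.mk 0x6000000010000000e0000000c 0xe0000001e0000000b0000000e0000000c 3 5) 0 0 (step_sound _ 99 [(rh4c61a8d65f05c464.shift 2 0), rhb23bc07381afb8a9] (by decide +kernel))
noncomputable def rhbcf2e5d9844d8614 : CRef := CRef.mk (Pat.mk 0x4000000000000000f0000000400000000 0x400000004000000040000000f0000001c00000008 3 5) 0 0 (step_sound _ 35 [(rhda6cc5da102e1723.shift 2 0), (rhe25b0a99195a5d59.shift 0 1)] (by decide +kernel))
noncomputable def rh4fc10215b731c3cf : CRef := CRef.mk (Pat.mk 0x6000000030000000a00000008 0x40000001e0000000b0000000a0000000a 3 5) 0 0 (step_sound _ 99 [(rh0bc1d0b89c7ecf89.shift 1 0), (rh18965a982d73c794.shift 0 2)] (by decide +kernel))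
noncomputable def rh39ab8720c4805802 : CRef := CRef.mk (Pat.mk 0x400000002000000030000000a00000008 0x40000001e0000000b0000000a0000000a 3 5) 0 0 (step_sound _ 98 [rh1ebae77060ef1c3f, (rh71222050f2c63a3a.shift 1 0)] (by decide +kernel))
noncomputable def rheae301068cd49f9a : CRef := CRef.mk (Pat.mk 0x20000000a000000020000000a0000001800000000 0x1000000130000001e0000000a0000000a0000001800000010 3 5) 0 0 (step_sound _ 132 [(rh5e05da03898e7023.shift 0 2), (rh85e0f5cc78e9cbe0.shift 3 0)] (by decide +kernel))
noncomputable def rh87f9bcbf59fdac8f : CRef := CRef.mk (Pat.mk 0x20000000a000000020000001a00000018 0x10000001b0000001e000000120000001a00000018 3 5) 0 0 (step_sound _ 100 [(rh4c61a8d65f05c464.shift 3 0), (rh5e05da03898e7023.shift 0 1)] (by decide +kernel))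
noncomputable def rh90cf1cb24c66491b : CRef := CRef.mk (Pat.mk 0xe000000020000001800000018 0x180000001e000000130000001800000018 3 5) 0 0 (step_sound _ 100 [(rh4c61a8d65f05c464.shift 3 0), (rheb0810cc63b001d8.shift 0 2)] (by decide +kernel))
noncomputable def rh0e2c3cfc624fc013 : CRef := CRef.mk (Pat.mk 0x2000000020000001a0000000200000000 0x100000003000000030000001e0000000200000002 3 5) 0 0 (step_sound _ 96 [(rh5419adcd928dba20.shift 0 2), rhe286c75f2739cce2] (by decide +kernel))
noncomputable def rhc398517f96dac4b3 : CRef := CRef.mk (Pat.mk 0x8000000020000001a0000000800000000 0x8000000080000000b0000001e0000003800000010 3 6) 0 0 (step_sound _ 36 [(rh7174a5174d2fbf5b.shift 0 1), (rhda6cc5da102e1723.shift 3 0)] (by decide +kernel))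
noncomputable def rhb323176e3b1b72dc : CRef := CRef.mk (Pat.mk 0x20000000200000002000000020000001a 0x100000003000000030000000200000003000000030000001e 3 5) 0 0 (step_sound _ 161 [rh04352555af700c45, (rh3ca48e2a6d60153d.shift 0 1)] (by decide +kernel))
noncomputable def rha9bdad1d8a937ac5 : CRef := CRef.mk (Pat.mk 0x600000012000000000000001800000008 0x1e00000033000000100000001800000008 3 6) 0 0 (step_sound _ 132 [(rh3c88ce959c0e423f.shift 3 0), (rhcaa7ba44a31c4370.shift 0 3)] (by decide +kernel))
noncomputable def rhb7baf4372ab3b570 : CRef := CRef.mk (Pat.mk 0x12000000030000001800000008 0x100000001e0000001b0000001800000008 3 5) 0 0 (step_sound _ 99 [(rh7d7eaefe27cdd7b0.shift 3 0), (rhb2a0b9ccfb5cecd5.shift 0 2)] (by decide +kernel))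
noncomputable def rh8b5258fd54681eed : CRef := CRef.mk (Pat.mk 0x20000000200000002000000020000001a 0x400000006000000060000000200000003000000030000001e 3 5) 0 0 (step_sound _ 161 [rh04352555af700c45, (rh44f453b84f013105.shift 1 1)] (by decide +kernel))
noncomputable def rhf81b24cfa3651a1c : CRef := CRef.mk (Pat.mk 0x4000000040000001400000006 0x400000004000000040000003e00000007 3 6) 0 0 (step_sound _ 33 [(rh5c5e593799055d58.shift 1 0), rhd11dc6dd83191698] (by decide +kernel))
noncomputable def rheb454ef9f5a1c0c5 : CRef := CRef.mk (Pat.mk 0x1600000002000000080000000800000008 0x100000001e00000033000000180000001800000008 3 6) 0 0 (step_sound _ 100 [(rh88ff8f7539aa90a1.shift 3 0), (rhcaa7ba44a31c4370.shift 0 3)] (by decide +kernel))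
noncomputable def rh04f196c7060ce8d5 : CRef := CRef.mk (Pat.mk 0x1000000010000000500000006000000000000000000000000 0x1000000010000000700000007000000020000000200000002 3 3) 0 0 (step_sound _ 65 [rh4f5da4dafb6dd81a, (rhbe0e43a3bc50a43f.shift 0 2)] (by decide +kernel))
noncomputable def rh2b68b2c11bdf188b : CRef := CRef.mk (Pat.mk 0xc0000002800000000000000200000003000000000 0x1f0000003c00000020000000200000003000000010 3 6) 0 0 (step_sound _ 132 [(rh4176b1306bc070ea.shift 4 0), (rhdbcea10a0fbe5ba6.shift 0 4)] (by decide +kernel))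
noncomputable def rh06da81da17442f27 : CRef := CRef.mk (Pat.mk 0x30000000800000008000000080000000800000000 0x1f0000001800000008000000180000001800000010 3 5) 0 0 (step_sound _ 163 [(rh096e8b8e30b54fb4.shift 0 1), (rhd29a1fb688eae70f.shift 3 0)] (by decide +kernel))
noncomputable def rh23b12dd825d24518 : CRef := CRef.mk (Pat.mk 0x1c000000140000001000000010 0x200000007f0000003c0000001000000010 3 7) 0 0 (step_sound _ 67 [(rh712526e472efe489.shift 2 0), (rhe2b63c00a3d7bb73.shift 0 2)] (by decide +kernel))
noncomputable def rh18b96f14a0bf012e : CRef := CRef.mk (Pat.mk 0x500000005000000050000000c00000000 0x10000000500000005000000070000001e00000002 3 5) 0 0 (step_sound _ 33 [(rh932754581e0f4330.shift 1 0), (rhc9ca25976740a074.shift 0 1)] (by decide +kernel))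
noncomputable def rhdfe6d2fc82d40a18 : CRef := CRef.mk (Pat.mk 0x60000000a000000020000000200000000 0x60000003e000000030000000200000002 3 6) 0 0 (step_sound _ 98 [(rh71222050f2c63a3a.shift 1 0), (rha9e1a5d55b907abf.shift 0 2)] (by decide +kernel))
noncomputable def rh7fb2265ed288b31a : CRef := CRef.mk (Pat.mk 0x7000000080000000800000004 0x180000000f000000180000000c00000004 3 5) 0 0 (step_sound _ 99 [rhcf9240a90a4519c3, (rhe25b0a99195a5d59.shift 0 2)] (by decide +kernel))
noncomputable def rhd5823506d118b362 : CRef := CRef.mk (Pat.mk 0x40000001e000000040000000200000000 0x70000001e000000040000000600000006 3 5) 0 0 (step_sound _ 34 [rh132883a60cd8aed8, (rh932754581e0f4330.shift 1 0)] (by decide +kernel))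
noncomputable def rh9ace60d8c88bfa83 : CRef := CRef.mk (Pat.mk 0xa0000000c0000001000000010 0x8000000080000001b0000001e0000003000000010 3 6) 0 0 (step_sound _ 68 [(rhc6055bb2ecf924ac.shift 0 1), (rhc89253ff58c66167.shift 3 0)] (by decide +kernel))
noncomputable def rh81e6ca9e3d856acc : CRef := CRef.mk (Pat.mk 0x20000000c00000014 0x70000003e00000036 3 6) 0 0 (step_sound _ 36 [(rh795d3e5d420177aa.shift 1 0), rhc6055bb2ecf924ac] (by decide +kernel))
noncomputable def rh96871148b385604a : CRef := CRef.mk (Pat.mk 0x18000000180000000300000000 0x100000001000000018000000180000000f00000008 3 5) 0 0 (step_sound _ 35 [(rh1c62b6193297d9e3.shift 0 1), (rh84d1c02a8954c6a8.shift 3 0)] (by decide +kernel))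
noncomputable def rhf2f4335bff8b5899 : CRef := CRef.mk (Pat.mk 0x180000000600000002 0x380000001f00000003 3 6) 0 0 (step_sound _ 35 [(rh53b3c253cb0c65f4.shift 0 1), rhee0891bc88ee3f94] (by decide +kernel))
noncomputable def rh68cf21e748e60573 : CRef := CRef.mk (Pat.mk 0x8000000180000000a0000000300000000 0x800000008000000180000001e0000001300000010 3 5) 0 0 (step_sound _ 68 [(rh55a1f6c57a317ce6.shift 3 0), (rhb2a0b9ccfb5cecd5.shift 0 1)] (by decide +kernel))
noncomputable def rhfe9ac4c44d5c9ede : CRef := CRef.mk (Pat.mk 0x500000005000000040000000e 0x50000000500000005000000070000001e 3 5) 0 0 (step_sound _ 33 [rh307168931086c3c6, (rh5c5e593799055d58.shift 1 0)] (by decide +kernel))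
noncomputable def rh37359418da467a18 : CRef := CRef.mk (Pat.mk 0x180000001a0000001200000008 0x10000000180000003b0000001e00000008 3 6) 0 0 (step_sound _ 35 [(rh2f68792b6b779e96.shift 3 0), (rh9ce9666211d7d662.shift 0 1)] (by decide +kernel))
noncomputable def rh93b404d624c16d31 : CRef := CRef.mk (Pat.mk 0x80000000c0000000900000018 0x800000008000000080000000c0000001f00000018 3 5) 0 0 (step_sound _ 34 [(rh493ba90d7b88e72e.shift 2 0), rhab22b5b56e7b3243] (by decide +kernel))
noncomputable def rh1086ea6ce47cb05f : CRef := CRef.mk (Pat.mk 0xc0000000c000000090000000c 0x80000000c0000001c0000000f0000001c 3 5) 0 0 (step_sound _ 34 [(rh2f68792b6b779e96.shift 2 0), rhc924e5f7a4031fcc] (by decide +kernel))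
noncomputable def rh7b8c267e840efa16 : CRef := CRef.mk (Pat.mk 0x180000000a00000010 0x380000001f00000030 3 6) 0 0 (step_sound _ 34 [(rh53b3c253cb0c65f4.shift 0 1), (rhf9dd539d91bdf46b.shift 1 0)] (by decide +kernel))
noncomputable def rh554d7e87cf122ca3 : CRef := CRef.mk (Pat.mk 0x400000004000000070000000800000000 0x40000000400000004000000070000001e00000008 3 5) 0 0 (step_sound _ 34 [(rh55afc6a59410cf00.shift 2 0), (rh6826f722115a4c88.shift 0 1)] (by decide +kernel))
noncomputable def rh46cfffc2ac517b76 : CRef := CRef.mk (Pat.mk 0xc0000001a0000000a00000000 0x40000000f0000001a0000000a0000000a 3 5) 0 0 (step_sound _ 97 [(rhb739f4f82bb681b4.shift 0 2), (rhd8a13c7f042cc6ea.shift 1 0)] (by decide +kernel))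
noncomputable def rh9e2fd3dafc6603e4 : CRef := CRef.mk (Pat.mk 0x1e000000020000000200000000 0x4000000070000001e000000020000000200000002 3 5) 0 0 (step_sound _ 130 [(rh71222050f2c63a3a.shift 1 0), (rh78275b8db2327294.shift 0 1)] (by decide +kernel))
noncomputable def rh87babb47aa1ecbde : CRef := CRef.mk (Pat.mk 0x7000000080000001800000000 0x180000000f000000180000001800000010 3 5) 0 0 (step_sound _ 99 [rh7e2967714be94ca8, (rhe25b0a99195a5d59.shift 0 2)] (by decide +kernel))
noncomputable def rh052037c23179916b : CRef := CRef.mk (Pat.mk 0xa0000001a 0x1f0000003b 3 6) 0 0 (step_sound _ 34 [rh474e234485f2465c, rhb739f4f82bb681b4] (by decide +kernel))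
noncomputable def rh7f3653283b16b57e : CRef := CRef.mk (Pat.mk 0x200000003000000050000000400000000 0x2000000020000000600000007000000050000000400000004 3 3) 0 0 (step_sound _ 98 [(rh7b1f1fb55310c477.shift 1 0), (rh8045a4749be85c44.shift 0 1)] (by decide +kernel))
noncomputable def rh5659ed86225f985e : CRef := CRef.mk (Pat.mk 0x300000002000000030000000300000000 0x40000000700000007000000030000000300000002 3 3) 0 0 (step_sound _ 130 [rh0e18a4b9269fe00c, (rh2f68792b6b779e96.shift 1 1)] (by decide +kernel))
noncomputable def rhc4721058e0584cac : CRef := CRef.mk (Pat.mk 0x1000000020000000600000002000000020000000200000000 0x300000003000000020000000600000006000000020000000200000002 3 3) 0 0 (step_sound _ 193 [(rh21683067a8759131.shift 1 0), (rh50fbb5868c909700.shift 0 3)] (by decide +kernel))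
noncomputable def rh13e75f13a42f687f : CRef := CRef.mk (Pat.mk 0x20000000200000002000000020000000200000000 0x30000000300000002000000030000000300000001 3 2) 0 0 (step_sound _ 128 [(rh50fbb5868c909700.shift 0 1), rh7928877f9bf74a91] (by decide +kernel))
noncomputable def rh0e83f540b55a42ee : CRef := CRef.mk (Pat.mk 0x180000000200000002000000020000000200000002 0x190000000f00000006000000020000000200000002 3 5) 0 0 (step_sound _ 130 [(rha0016cf40d77686d.shift 0 1), (rhbaefcd01e0a8bca3.shift 1 0)] (by decide +kernel))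
noncomputable def rhc5c596ce018d2fd3 : CRef := CRef.mk (Pat.mk 0x600000000c00000018 0x600000003f00000038 3 7) 0 0 (step_sound _ 36 [(rh3fc040e777f1679e.shift 2 1), rhad5d8fc3675c15dd] (by decide +kernel))
noncomputable def rha8cdb563c2be87f5 : CRef := CRef.mk (Pat.mk 0xc0000000c000000090000000c00000000 0x80000000c0000000c0000000f0000001c00000010 3 5) 0 0 (step_sound _ 66 [rh2d65c91b9f714cee, (rh2f68792b6b779e96.shift 2 1)] (by decide +kernel))
noncomputable def rhae8cdd214e3b25f4 : CRef := CRef.mk (Pat.mk 0x40000000a000000120000000200000000 0x40000001e000000330000000200000002 3 6) 0 0 (step_sound _ 98 [(rh474e234485f2465c.shift 0 2), (rh71222050f2c63a3a.shift 1 0)] (by decide +kernel))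
noncomputable def rh42e284d0fae1a755 : CRef := CRef.mk (Pat.mk 0x100000001000000020000000600000000 0x10000000300000003000000020000000600000006 3 3) 0 0 (step_sound _ 97 [rh6196b452c518de56, rh7b1f1fb55310c477] (by decide +kernel))
noncomputable def rh01995d69bee44bf7 : CRef := CRef.mk (Pat.mk 0x8000000080000001a0000001200000000 0x8000000080000003b0000001e00000010 3 6) 0 0 (step_sound _ 35 [(rh55afc6a59410cf00.shift 3 0), (rh9ce9666211d7d662.shift 0 1)] (by decide +kernel))
noncomputable def rhfc9d2512fa555345 : CRef := CRef.mk (Pat.mk 0x8000000080000001a0000000a00000000 0x8000000080000003b0000001e00000010 3 6) 0 0 (step_sound _ 36 [(rh55afc6a59410cf00.shift 3 0), (rh9ce9666211d7d662.shift 0 1)] (by decide +kernel))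
noncomputable def rh8e3c2ffab5d5b6ac : CRef := CRef.mk (Pat.mk 0xa000000120000000200000002 0x40000001e000000330000000200000002 3 6) 0 0 (step_sound _ 98 [(rh2f68792b6b779e96.shift 1 0), (rh474e234485f2465c.shift 0 2)] (by decide +kernel))
noncomputable def rh117bd2a06222d623 : CRef := CRef.mk (Pat.mk 0xe00000014000000040000000400000000 0x1e00000037000000040000000400000004 3 6) 0 0 (step_sound _ 132 [rhd680bf2cf2441e84, (rhe25b0a99195a5d59.shift 1 3)] (by decide +kernel))
noncomputable def rh441c2127b54c2aa3 : CRef := CRef.mk (Pat.mk 0x80000000a0000000e00000000 0x8000000080000000b0000001e00000014 3 5) 0 0 (step_sound _ 131 [rh0e9804663e9ab184, (rh932754581e0f4330.shift 2 0)] (by decide +kernel))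
noncomputable def rh99895f40e905d09f : CRef := CRef.mk (Pat.mk 0x20000000300000003000000020000000000000000 0x20000000300000003000000060000000600000006 3 3) 0 0 (step_sound _ 34 [rh7bed6280d5711866, (rhd3458b32566d63f7.shift 1 1)] (by decide +kernel))
noncomputable def rh04ba39e2ec707f30 : CRef := CRef.mk (Pat.mk 0x7000000050000000500000000 0x2000000020000000600000007000000050000000500000001 3 3) 0 0 (step_sound _ 129 [rh71222050f2c63a3a, (rh8045a4749be85c44.shift 0 1)] (by decide +kernel))
noncomputable def rh5c88a31321c6197b : CRef := CRef.mk (Pat.mk 0x1e0000000800000008 0x10000000300000001f0000001800000008 3 6) 0 0 (step_sound _ 100 [(rh33e738c4ed385b9f.shift 1 2), rhd7d612945704e64f] (by decide +kernel))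
noncomputable def rhda4632cbd6a3cfb1 : CRef := CRef.mk (Pat.mk 0x20000000300000007000000040000000000000000 0x20000000700000007000000050000000500000004 3 3) 0 0 (step_sound _ 64 [(rh08edf065357d68e5.shift 1 0), (rh71222050f2c63a3a.shift 0 1)] (by decide +kernel))
noncomputable def rhfa19c8c9744d6e19 : CRef := CRef.mk (Pat.mk 0x4000000070000000c00000000 0x40000000400000004000000070000001e00000008 3 5) 0 0 (step_sound _ 130 [(rh55afc6a59410cf00.shift 2 0), (rh6826f722115a4c88.shift 0 1)] (by decide +kernel))
noncomputable def rh60c1061ab38a496e : CRef := CRef.mk (Pat.mk 0x10000000f0000000300000000 0x100000001000000190000000f0000000300000002 3 5) 0 0 (step_sound _ 99 [(rh33e738c4ed385b9f.shift 0 2), rh3e595262c1b737ad] (by decide +kernel))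
noncomputable def rh17a2e33c28db4057 : CRef := CRef.mk (Pat.mk 0xf000000000000001000000010 0x180000000f000000180000001800000010 3 5) 0 0 (step_sound _ 67 [rh18a4449b050c7f10, (rhe25b0a99195a5d59.shift 0 2)] (by decide +kernel))
noncomputable def rh6cdd4ef116dc3d3e : CRef := CRef.mk (Pat.mk 0xf00000000000000100000001800000000 0x1f00000038000000100000001800000008 3 6) 0 0 (step_sound _ 100 [(rh60b333e332fc188a.shift 1 0), (rh96851dee118c1ba3.shift 0 3)] (by decide +kernel))
noncomputable def rhb4e7dd664b9a6e31 : CRef := CRef.mk (Pat.mk 0x1c00000008000000100000003000000000 0x1f00000038000000100000003000000020 3 6) 0 0 (step_sound _ 100 [(rh55afc6a59410cf00.shift 4 0), (rhad5d8fc3675c15dd.shift 0 3)] (by decide +kernel))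
noncomputable def rh73aadfa332595112 : CRef := CRef.mk (Pat.mk 0xe0000000c0000000c00000008 0x8000000180000001f0000000c0000000c00000008 3 5) 0 0 (step_sound _ 132 [(rh3a55be38d6a9d434.shift 0 1), (rhbaefcd01e0a8bca3.shift 3 0)] (by decide +kernel))
noncomputable def rh741fc67095a12c8e : CRef := CRef.mk (Pat.mk 0x20000000b0000000e00000006 0xc0000001e0000000b0000000e00000006 3 5) 0 0 (step_sound _ 98 [(rh2f68792b6b779e96.shift 1 0), rh7ab04f71adbcadbe] (by decide +kernel))
noncomputable def rha00a7214bd0f87e4 : CRef := CRef.mk (Pat.mk 0x600000003000000060000000600000000 0x80000001e00000007000000060000000600000002 3 5) 0 0 (step_sound _ 98 [(rh71222050f2c63a3a.shift 1 0), (rh712526e472efe489.shift 0 1)] (by decide +kernel))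
noncomputable def rh85839873d0f77248 : CRef := CRef.mk (Pat.mk 0x200000002000000020000001e00000000 0x2000000020000003a0000001f00000001 3 6) 0 0 (step_sound _ 68 [(rh33e738c4ed385b9f.shift 1 1), rhd05b50139866a421] (by decide +kernel))
noncomputable def rhc7fea93a7ed00207 : CRef := CRef.mk (Pat.mk 0x20000000600000006000000060000000000000000 0x1000000070000000600000006000000060000000200000002 3 3) 0 0 (step_sound _ 160 [(rh1e309b005ffa1b36.shift 1 0), (rh50fbb5868c909700.shift 0 2)] (by decide +kernel))
noncomputable def rh839c916d40e0d091 : CRef := CRef.mk (Pat.mk 0xd0000000d000000090000000200000000 0xd0000000d0000000d0000000f0000000e 3 4) 0 0 (step_sound _ 34 [(rhd24b9aa3f1cc01cd.shift 1 0), rhe09b055da6de5a35, (rhe437f081bfcdb831.shift 2 0)] (by decide +kernel))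
noncomputable def rh1139a4c2dca99347 : CRef := CRef.mk (Pat.mk 0x20000001a0000001a00000012 0x90000000f0000001a0000001a00000012 3 5) 0 0 (step_sound _ 99 [(rh2145e1d24b96a57e.shift 3 0), rhb43b15493b096632] (by decide +kernel))
noncomputable def rheefb182c58b183b0 : CRef := CRef.mk (Pat.mk 0x10000000900000009000000090000000c 0x900000009000000090000000f0000001e 3 5) 0 0 (step_sound _ 34 [(rh5c5e593799055d58.shift 2 0), rhd064686b76a955c6] (by decide +kernel))
noncomputable def rh8ef8f9d455785d0f : CRef := CRef.mk (Pat.mk 0xd000000080000000c00000008 0x180000001f000000080000000c0000000c 3 5) 0 0 (step_sound _ 132 [(rhbaefcd01e0a8bca3.shift 3 0), rhff53736c33b22ff6] (by decide +kernel))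
noncomputable def rh7aa4eeb8c3d3dc00 : CRef := CRef.mk (Pat.mk 0xb00000007000000000000000400000000 0x1b0000001f000000040000000400000004 3 5) 0 0 (step_sound _ 66 [(rh7b1f1fb55310c477.shift 1 0), (rheff610e725081997.shift 0 3)] (by decide +kernel))
noncomputable def rhe338d64e37d849c1 : CRef := CRef.mk (Pat.mk 0x100000002000000020000000e0000000000000000 0x100000003000000020000001e0000000300000001 3 5) 0 0 (step_sound _ 33 [rh157b220518f94713, (rhffd04209dc8ea796.shift 0 1)] (by decide +kernel))
noncomputable def rh4181d888a9c2d7d1 : CRef := CRef.mk (Pat.mk 0x6000000060000001c0000000800000000 0x6000000060000001c0000000f00000006 3 5) 0 0 (step_sound _ 34 [(rh7b1f1fb55310c477.shift 1 0), rhf5094ad2a427d4d3] (by decide +kernel))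
noncomputable def rh8c201d63c8918ddd : CRef := CRef.mk (Pat.mk 0x200000016000000000000001800000008 0x330000001e000000100000001800000008 3 6) 0 0 (step_sound _ 99 [(rh3244c3cc8379b070.shift 0 3), (rh8bba9c09a1e3aa82.shift 1 0)] (by decide +kernel))
noncomputable def rh984f2085f759d70b : CRef := CRef.mk (Pat.mk 0xb000000030000000c00000004 0x80000001b0000001f0000000c00000004 3 5) 0 0 (step_sound _ 67 [(rh4ca3b344f1b51833.shift 0 2), (rh5c5e593799055d58.shift 2 0)] (by decide +kernel))
noncomputable def rh9231ba8fc6daff62 : CRef := CRef.mk (Pat.mk 0x200000016000000060000001800000008 0x130000003e000000160000001800000008 3 6) 0 0 (step_sound _ 68 [(rh5c5e593799055d58.shift 3 0), (rh6493ceb007f59211.shift 0 2)] (by decide +kernel))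
noncomputable def rhfc69c8ab61af24a3 : CRef := CRef.mk (Pat.mk 0x8000000180000000c00000010 0x800000008000000180000001f00000030 3 6) 0 0 (step_sound _ 36 [(rh2145e1d24b96a57e.shift 3 0), rhf56e6bc5d2f7fe77] (by decide +kernel))
noncomputable def rhe30c99e42abca944 : CRef := CRef.mk (Pat.mk 0x10000000200000002000000060000000200000002 0x3000000030000000600000006000000060000000200000002 3 3) 0 0 (step_sound _ 161 [(rh422dc31de97871b4.shift 1 0), (rh50fbb5868c909700.shift 0 2)] (by decide +kernel))
noncomputable def rh62d1f0a9203ee324 : CRef := CRef.mk (Pat.mk 0xc00000009000000090000000900000001 0x1e0000000f000000090000000900000009 3 5) 0 0 (step_sound _ 98 [(rh7b1f1fb55310c477.shift 2 0), rh7f14f63eb1bc1cd8] (by decide +kernel))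
noncomputable def rh0e734f8ca6503511 : CRef := CRef.mk (Pat.mk 0x200000003000000020000000200000000 0x10000000300000003000000020000000300000003 3 2) 0 0 (step_sound _ 32 [rh932754581e0f4330, rhe286c75f2739cce2] (by decide +kernel))
noncomputable def rh006ef5d7c1ce9704 : CRef := CRef.mk (Pat.mk 0x20000000e000000100000003000000000 0x330000001e000000100000003000000020 3 6) 0 0 (step_sound _ 100 [(rh3244c3cc8379b070.shift 0 3), (rh7e2967714be94ca8.shift 1 0)] (by decide +kernel))
noncomputable def rh3c79a39b83b16970 : CRef := CRef.mk (Pat.mk 0xf000000040000000c00000000 0x80000001c0000000f000000040000000c00000008 3 5) 0 0 (step_sound _ 130 [(rh55afc6a59410cf00.shift 2 0), (rhe4e5ef8a240212ba.shift 0 1)] (by decide +kernel))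
noncomputable def rh0a657e12af40b4c7 : CRef := CRef.mk (Pat.mk 0x100000009000000090000000a0000000800000000 0x100000009000000090000000f0000001a00000010 3 5) 0 0 (step_sound _ 64 [(rh55afc6a59410cf00.shift 0 1), rh5f11ee373cbffcaa] (by decide +kernel))
noncomputable def rhb01921136a335485 : CRef := CRef.mk (Pat.mk 0x3800000008000000040000000400000000 0x380000001f000000040000000400000004 3 6) 0 0 (step_sound _ 98 [(rh71222050f2c63a3a.shift 2 0), (rheea1a90336e79c71.shift 0 3)] (by decide +kernel))
noncomputable def rh9eab44ef5e491d7e : CRef := CRef.mk (Pat.mk 0x600000006000000020000000600000000 0x20000000600000006000000070000000700000001 3 3) 0 0 (step_sound _ 32 [rh932754581e0f4330, (rhb4121b2511eec08c.shift 0 1)] (by decide +kernel))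
noncomputable def rh3584afc991ea459f : CRef := CRef.mk (Pat.mk 0x80000000c0000001c0000000800000000 0x80000000c0000003c0000000f00000004 3 6) 0 0 (step_sound _ 34 [(rh4dc133ee0ba1420a.shift 0 1), (rh71222050f2c63a3a.shift 2 0)] (by decide +kernel))
noncomputable def rhf80a541df6500d4d : CRef := CRef.mk (Pat.mk 0x1000000000000000180000003c00000000 0x1000000010000000180000003f00000060 3 7) 0 0 (step_sound _ 33 [(rh3098af7943687178.shift 2 0), (rh53b3c253cb0c65f4.shift 0 1)] (by decide +kernel))
noncomputable def rh50b5d72bc4f0352c : CRef := CRef.mk (Pat.mk 0x4000000020000000700000006000000000000000000000000 0x4000000070000000700000006000000020000000200000002 3 3) 0 0 (step_sound _ 65 [rh40241bd608e5be1a, (rhbaefcd01e0a8bca3.shift 1 2)] (by decide +kernel))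
noncomputable def rh63c2286793e09a1f : CRef := CRef.mk (Pat.mk 0x4000000080000001c0000000c00000000 0x40000000c0000001c0000000f0000000a 3 5) 0 0 (step_sound _ 33 [(rh0fb2e3a32a8ad49f.shift 1 0), (rh53b3c253cb0c65f4.shift 0 1)] (by decide +kernel))
noncomputable def rhf411718b9cedf4d7 : CRef := CRef.mk (Pat.mk 0x1e000000060000000800000008 0x100000001f0000003e0000000800000008 3 6) 0 0 (step_sound _ 68 [rh761989edea693d64, (rhe25b0a99195a5d59.shift 1 2)] (by decide +kernel))
noncomputable def rh2b8cdc863defc966 : CRef := CRef.mk (Pat.mk 0x20000001600000018000000100000000000000000 0xb0000001e00000018000000100000001000000010 3 5) 0 0 (step_sound _ 131 [(rh3244c3cc8379b070.shift 0 4), (rh3cb04db3dd2b6a55.shift 3 0)] (by decide +kernel))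
noncomputable def rha90ea95e8552d568 : CRef := CRef.mk (Pat.mk 0x400000002000000070000000600000000 0x400000006000000070000001e0000000a 3 5) 0 0 (step_sound _ 35 [(rh5dbd509ce643a6de.shift 1 0), (rhf48373e13d2bc128.shift 0 1)] (by decide +kernel))
noncomputable def rh2fe78b735f7415ef : CRef := CRef.mk (Pat.mk 0x180000001e0000000800000000 0x10000000100000001b0000001e0000000800000008 3 5) 0 0 (step_sound _ 97 [(rh3244c3cc8379b070.shift 0 2), (rh84d1c02a8954c6a8.shift 3 0)] (by decide +kernel))
noncomputable def rh3577441692974ba8 : CRef := CRef.mk (Pat.mk 0x400000004000000070000000200000000 0x400000004000000070000001e0000000a 3 5) 0 0 (step_sound _ 34 [rh42afa1af9fffa0e1, (rh932754581e0f4330.shift 1 0)] (by decide +kernel))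
noncomputable def rha37fbbfb74fd5f06 : CRef := CRef.mk (Pat.mk 0x4000000040000001800000018 0x400000004000000040000001f00000038 3 6) 0 0 (step_sound _ 34 [(rh2145e1d24b96a57e.shift 2 0), rhad5d8fc3675c15dd] (by decide +kernel))
noncomputable def rhdc8c5958c8cd1809 : CRef := CRef.mk (Pat.mk 0x100000000800000008000000180000000200000000 0x100000001800000008000000180000000f00000004 3 5) 0 0 (step_sound _ 35 [rh3cf2764919f34f47, (rhbaefcd01e0a8bca3.shift 3 1)] (by decide +kernel))
noncomputable def rhf06b5d20c01c8391 : CRef := CRef.mk (Pat.mk 0x600000001800000018 0x600000003f00000038 3 7) 0 0 (step_sound _ 34 [(rh3fc040e777f1679e.shift 2 1), rhad5d8fc3675c15dd] (by decide +kernel))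
noncomputable def rhf63bf5cee2319af8 : CRef := CRef.mk (Pat.mk 0x10000000900000009000000090000000800000000 0x100000009000000090000000f0000001a00000010 3 5) 0 0 (step_sound _ 65 [(rh55afc6a59410cf00.shift 0 1), rh5f11ee373cbffcaa] (by decide +kernel))
noncomputable def rh78ea13c5925c4884 : CRef := CRef.mk (Pat.mk 0x18000000080000000700000000 0x1000000018000000180000000f00000018 3 5) 0 0 (step_sound _ 35 [(rh33e738c4ed385b9f.shift 0 1), rh7a463014b1a15a7b] (by decide +kernel))
noncomputable def rhed2df759ff6fd84a : CRef := CRef.mk (Pat.mk 0x50000000500000004000000020000000000000000 0x50000000700000006000000060000000200000002 3 3) 0 0 (step_sound _ 33 [rh211269ed7667305e, (rheea67dfebd0f8008.shift 1 1)] (by decide +kernel))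
noncomputable def rh54e5b46e67d4d05f : CRef := CRef.mk (Pat.mk 0x200000002000000060000000200000018 0x20000000200000002000000060000000f00000019 3 5) 0 0 (step_sound _ 32 [rh932754581e0f4330, rhe13fa2e1acbd0381] (by decide +kernel))
noncomputable def rh2998a633383e2956 : CRef := CRef.mk (Pat.mk 0x20000000200000002000000020000000200000018 0x20000000200000002000000060000000f00000019 3 5) 0 0 (step_sound _ 34 [rh7b745f52937a7ad9, (rhd3458b32566d63f7.shift 1 1)] (by decide +kernel))
noncomputable def rh4dffd1541392b239 : CRef := CRef.mk (Pat.mk 0x60000000a0000000200000002 0x10000000f0000001e0000000200000002 3 5) 0 0 (step_sound _ 96 [rh50fbb5868c909700, (rhd5041491555e8d86.shift 0 2)] (by decide +kernel))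
noncomputable def rhacdd5f21ae42eb64 : CRef := CRef.mk (Pat.mk 0x200000002000000120000000a00000000 0x200000002000000330000001e00000004 3 6) 0 0 (step_sound _ 34 [(rh55afc6a59410cf00.shift 1 0), (rh5ec015d369888aae.shift 0 1)] (by decide +kernel))
noncomputable def rhc7c88a7d05d6e0c8 : CRef := CRef.mk (Pat.mk 0x100000002000000020000000a00000018 0x10000000300000002000000020000000f00000019 3 5) 0 0 (step_sound _ 129 [(rh50fbb5868c909700.shift 0 1), rhf9a329cc68aa610c] (by decide +kernel))
noncomputable def rh1197465366f4d156 : CRef := CRef.mk (Pat.mk 0x14000000140000001e00000010 0x80000003c000000170000001e00000010 3 6) 0 0 (step_sound _ 99 [(rh50fbb5868c909700.shift 3 0), (rha792162b08927c0f.shift 0 1)] (by decide +kernel))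
noncomputable def rhc613cbf782cdb2c4 : CRef := CRef.mk (Pat.mk 0x180000001c0000001c00000010 0x20000000780000001c0000001f00000010 3 7) 0 0 (step_sound _ 33 [(rh53b3c253cb0c65f4.shift 0 1), (rh712526e472efe489.shift 2 0)] (by decide +kernel))
noncomputable def rhf0fd6069b2cc6af0 : CRef := CRef.mk (Pat.mk 0x20000000600000016000000040000000000000000 0x6000000060000001e000000070000000300000002 3 5) 0 0 (step_sound _ 65 [(rh1e309b005ffa1b36.shift 1 0), (rh84f01cf2134210c0.shift 0 1)] (by decide +kernel))
noncomputable def rh8503c54f650a6805 : CRef := CRef.mk (Pat.mk 0xe0000000600000003 0x3e0000003e00000003 3 6) 0 0 (step_sound _ 36 [rh361cc68994bd8a63, (rhbca71ab025ef4262.shift 1 1)] (by decide +kernel))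
noncomputable def rh9059e995457d78ff : CRef := CRef.mk (Pat.mk 0xc000000060000000700000000 0x8000000080000000c0000001e0000000700000004 3 5) 0 0 (step_sound _ 67 [(rh18965a982d73c794.shift 0 1), (rh84d1c02a8954c6a8.shift 2 0)] (by decide +kernel))
noncomputable def rh855ada6dd642c694 : CRef := CRef.mk (Pat.mk 0x40000000c0000000b0000000300000000 0x40000000c0000001b0000001f00000008 3 5) 0 0 (step_sound _ 35 [(rh4ca3b344f1b51833.shift 0 1), (rh7b1f1fb55310c477.shift 2 0)] (by decide +kernel))
noncomputable def rhe4f45c9e9c9d8c8f : CRef := CRef.mk (Pat.mk 0x1e00000014 0x7f0000001e 3 7) 0 0 (step_sound _ 3 [rhb739f4f82bb681b4, (rhf9d36e158778ce35.shift 1 0)] (by decide +kernel))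
noncomputable def rh2ee44980f35f2d69 : CRef := CRef.mk (Pat.mk 0x4000000040000000e0000000000000008 0x40000003c0000000f0000000800000008 3 6) 0 0 (step_sound _ 99 [(rh9e07f76261b05888.shift 2 0), (rhf9d36e158778ce35.shift 0 2)] (by decide +kernel))
noncomputable def rh44663c8932a541fa : CRef := CRef.mk (Pat.mk 0x100000000e000000000000000c00000000 0x10000000180000000f000000080000000c00000004 3 5) 0 0 (step_sound _ 131 [(rh12cda698427604cb.shift 2 0), (rh53b3c253cb0c65f4.shift 0 3)] (by decide +kernel))
noncomputable def rhabc51ddf3f86b317 : CRef := CRef.mk (Pat.mk 0x4000000070000000400000004 0xa0000001e000000070000000400000004 3 5) 0 0 (step_sound _ 99 [(rh2f68792b6b779e96.shift 2 0), rh50457521e58be46d] (by decide +kernel))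
noncomputable def rhf0f433a1f84d1b17 : CRef := CRef.mk (Pat.mk 0x100000001c0000001000000010 0x8000000180000001f0000003000000010 3 6) 0 0 (step_sound _ 99 [(rh50fbb5868c909700.shift 3 0), (rhf56e6bc5d2f7fe77.shift 0 1)] (by decide +kernel))
noncomputable def rhaf4ad5ddcc61af8c : CRef := CRef.mk (Pat.mk 0xe000000080000000c00000000 0x180000000f000000180000000c00000004 3 5) 0 0 (step_sound _ 96 [rh664c8f4d02ce4add, (rhe25b0a99195a5d59.shift 0 2)] (by decide +kernel))
noncomputable def rh8716c8dcf04f9cd8 : CRef := CRef.mk (Pat.mk 0x6000000070000000800000002 0x400000004000000060000000f0000001a00000002 3 5) 0 0 (step_sound _ 67 [(rh1ededbcb63c3ab78.shift 1 0), (rhe25b0a99195a5d59.shift 0 1)] (by decide +kernel))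
noncomputable def rh1ac44d71ab396ad8 : CRef := CRef.mk (Pat.mk 0x80000000e0000000400000004 0x80000003c0000000f0000000400000004 3 6) 0 0 (step_sound _ 98 [(rh2f68792b6b779e96.shift 2 0), (rhf9d36e158778ce35.shift 0 2)] (by decide +kernel))
noncomputable def rh7b098348257fee95 : CRef := CRef.mk (Pat.mk 0x2000000020000000600000016000000000000000000000000 0x40000000600000006000000060000001e000000030000000300000002 3 5) 0 0 (step_sound _ 65 [(rh44f453b84f013105.shift 1 2), (rh84f01cf2134210c0.shift 0 1), (rhea7a1800d6f053bd.shift 1 0)] (by decide +kernel))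
noncomputable def rh3ac03f1b0cb1fe9c : CRef := CRef.mk (Pat.mk 0x180000003c0000000c 0x180000003f0000007c 3 7) 0 0 (step_sound _ 33 [(rh53b3c253cb0c65f4.shift 0 1), (rh88333dd5482f2e1a.shift 1 0)] (by decide +kernel))
noncomputable def rhc4ece723bde916b4 : CRef := CRef.mk (Pat.mk 0x4000000140000001800000018 0x400000004000000340000001f00000018 3 6) 0 0 (step_sound _ 34 [(rh2145e1d24b96a57e.shift 2 0), rh34517e326ddb5b25] (by decide +kernel))
noncomputable def rh2ac6736f2602e5cf : CRef := CRef.mk (Pat.mk 0x1e000000000000000e 0x1f000000380000000f 3 6) 0 0 (step_sound _ 36 [rh4dae6fdf479479c1, (rhe25b0a99195a5d59.shift 1 1)] (by decide +kernel))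
noncomputable def rha7b16b66807cf880 : CRef := CRef.mk (Pat.mk 0x10000000100000000e00000008 0x100000001000000010000000180000001f00000008 3 5) 0 0 (step_sound _ 132 [(rh1439b430a642f7dd.shift 0 1), (rheea67dfebd0f8008.shift 3 0)] (by decide +kernel))
noncomputable def rh53192c562b6e3c57 : CRef := CRef.mk (Pat.mk 0x10000000060000000e00000008 0x10000000300000003e0000001f00000008 3 6) 0 0 (step_sound _ 68 [(rh7dcd5319f4f71bec.shift 0 1), (rh7f01e29029689730.shift 0 1), (rha7c0d53f5e6c6372.shift 1 0)] (by decide +kernel))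
noncomputable def rha27517c04db185d6 : CRef := CRef.mk (Pat.mk 0x2000000060000000500000000 0x20000000200000002000000060000000700000005 3 3) 0 0 (step_sound _ 129 [(rh2145e1d24b96a57e.shift 1 1), rh2818863d77d69ed0] (by decide +kernel))
noncomputable def rhf9a70e8df8d17518 : CRef := CRef.mk (Pat.mk 0xe000000120000000e0000000200000000 0xf0000001e0000000f0000000200000002 3 5) 0 0 (step_sound _ 98 [(rh4dae6fdf479479c1.shift 0 2), (rh71222050f2c63a3a.shift 1 0)] (by decide +kernel))
noncomputable def rhfb014cb241db9284 : CRef := CRef.mk (Pat.mk 0x200000002000000120000000c00000000 0x2000000020000001a0000000f00000005 3 5) 0 0 (step_sound _ 33 [(rh55afc6a59410cf00.shift 1 0), rhd05b50139866a421] (by decide +kernel))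
noncomputable def rh1cf32e1f0153df8b : CRef := CRef.mk (Pat.mk 0x40000000c0000001c000000080000000000000000 0xc0000000c0000001c0000000f0000000600000004 3 5) 0 0 (step_sound _ 66 [(rh1e309b005ffa1b36.shift 2 0), (rhf5094ad2a427d4d3.shift 0 1)] (by decide +kernel))
noncomputable def rhc39ec8f7ed38745d : CRef := CRef.mk (Pat.mk 0xf000000000000001800000008 0x100000001f000000380000001800000008 3 6) 0 0 (step_sound _ 68 [(rh57cf5fdc0a2364e4.shift 1 0), (rh96851dee118c1ba3.shift 0 2)] (by decide +kernel))
noncomputable def rh0ddd5f980300ddcb : CRef := CRef.mk (Pat.mk 0x10000001c 0xf0000003e 3 6) 0 0 (step_sound _ 33 [rh09d4dfe75d4407d6, rhbda9a27163266cd1] (by decide +kernel))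
noncomputable def rh42331faabc30427b : CRef := CRef.mk (Pat.mk 0x1000000018000000190000001800000000 0x10000000180000001f0000007800000020 3 7) 0 0 (step_sound _ 66 [(rh24ae073cf30720c4.shift 0 2), (rh42afa1af9fffa0e1.shift 2 0)] (by decide +kernel))
noncomputable def rh1a15752226d68057 : CRef := CRef.mk (Pat.mk 0x400000004000000070000000600000000 0x20000000600000004000000070000001e00000008 3 5) 0 0 (step_sound _ 129 [rh42afa1af9fffa0e1, (rh50fbb5868c909700.shift 1 1)] (by decide +kernel))
noncomputable def rh374662b577d717d1 : CRef := CRef.mk (Pat.mk 0x3800000022 0x3e00000037 3 6) 0 0 (step_sound _ 34 [(rh80fcd6d0a18cb2dd.shift 1 0), rh904f7fcbaab6c494] (by decide +kernel))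
noncomputable def rh407d9a022cff2331 : CRef := CRef.mk (Pat.mk 0x30000000a00000006000000060000000000000000 0x70000001e00000006000000060000000200000002 3 5) 0 0 (step_sound _ 130 [(rh1e309b005ffa1b36.shift 1 0), (rhf48373e13d2bc128.shift 0 4)] (by decide +kernel))
noncomputable def rhc0d0386f9a6fcb55 : CRef := CRef.mk (Pat.mk 0xb0000000a000000020000000200000000 0x1b0000001f000000020000000200000002 3 5) 0 0 (step_sound _ 98 [(rhf48373e13d2bc128.shift 0 3), rhfefb468f916a9318] (by decide +kernel))
noncomputable def rh3bc5963773f66963 : CRef := CRef.mk (Pat.mk 0xb0000000a000000020000000200000000 0x1f0000001b000000020000000200000002 3 5) 0 0 (step_sound _ 130 [rh3a4f667983953844, (rhe25b0a99195a5d59.shift 0 3)] (by decide +kernel))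
noncomputable def rhb39e643696198ada : CRef := CRef.mk (Pat.mk 0xa000000180000000c 0x1f000000780000000c 3 7) 0 0 (step_sound _ 37 [(rh075211c3608a5a57.shift 0 1), (rh18965a982d73c794.shift 2 0)] (by decide +kernel))
noncomputable def rh8970b617bd6d09bd : CRef := CRef.mk (Pat.mk 0x80000000c0000000d000000000000000400000000 0x80000000c0000000f000000180000001c0000000c 3 5) 0 0 (step_sound _ 67 [(rh2d65c91b9f714cee.shift 0 1), (rhe437f081bfcdb831.shift 2 0)] (by decide +kernel))
noncomputable def rh6079b07f361c907f : CRef := CRef.mk (Pat.mk 0x80000000c0000000d0000000000000000 0x40000000c0000000c0000000f0000001800000018 3 5) 0 0 (step_sound _ 35 [rh2d65c91b9f714cee, (rhfc7c29d8e65d775f.shift 2 0)] (by decide +kernel))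
noncomputable def rhce88038d11f24fde : CRef := CRef.mk (Pat.mk 0x10000000400000007000000020000000000000000 0x1000000010000000500000007000000030000000200000002 3 3) 0 0 (step_sound _ 128 [(rh2145e1d24b96a57e.shift 0 2), rh45fa90edadfa0251] (by decide +kernel))
noncomputable def rhd6aece234863c386 : CRef := CRef.mk (Pat.mk 0x100000003000000030000000100000000 0x20000000300000003000000030000000300000003 3 2) 0 0 (step_sound _ 33 [rh7b1f1fb55310c477, rh84d1c02a8954c6a8] (by decide +kernel))
noncomputable def rh9ecbabba39dc6774 : CRef := CRef.mk (Pat.mk 0x20000001a0000000200000002 0x5000000070000001e0000000200000002 3 5) 0 0 (step_sound _ 130 [rh5e05da03898e7023, (rhbaefcd01e0a8bca3.shift 1 0)] (by decide +kernel))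
noncomputable def rhd30a5f89deb85371 : CRef := CRef.mk (Pat.mk 0x400000006000000080000001c00000000 0x4000000060000003a0000001f00000003 3 6) 0 0 (step_sound _ 33 [rh29ed1d9e79c1bb2d, (rhec46bd5500c722c9.shift 0 1)] (by decide +kernel))
noncomputable def rh22663d5b8a87a66a : CRef := CRef.mk (Pat.mk 0x300000001000000060000000400000000 0x20000000300000003000000060000000600000006 3 3) 0 0 (step_sound _ 97 [(rh2145e1d24b96a57e.shift 1 1), rh7bed6280d5711866] (by decide +kernel))
noncomputable def rh7abdac32ff6bd120 : CRef := CRef.mk (Pat.mk 0x1e000000100000001000000010 0x270000003e000000100000001000000010 3 6) 0 0 (step_sound _ 129 [(rh3244c3cc8379b070.shift 0 3), (rh3ff7a36e4acb88f5.shift 1 0)] (by decide +kernel))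
noncomputable def rh0a15bd2a77dee852 : CRef := CRef.mk (Pat.mk 0x6000000060000000e0000000800000000 0x70000003e0000000e0000000800000008 3 6) 0 0 (step_sound _ 99 [(rh7b1f1fb55310c477.shift 2 0), (rhb762f327c85d41a0.shift 0 2)] (by decide +kernel))
noncomputable def rh155b263667d6b74f : CRef := CRef.mk (Pat.mk 0x6000000060000000a0000000a00000000 0x1000000070000001e0000000a0000000a00000008 3 5) 0 0 (step_sound _ 128 [(rh50fbb5868c909700.shift 0 1), rh6bdc83908c7ebff7] (by decide +kernel))
noncomputable def rh8b86feef16d9103e : CRef := CRef.mk (Pat.mk 0x10000000180000001c00000002 0x300000001f0000003e00000003 3 6) 0 0 (step_sound _ 65 [(rhc924e5f7a4031fcc.shift 1 1), rhcb763b151dc90fdc] (by decide +kernel))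
noncomputable def rh6735db9147ba3426 : CRef := CRef.mk (Pat.mk 0x60000000c00000018 0x70000003f00000018 3 6) 0 0 (step_sound _ 33 [(rh79b3c29022acbdf3.shift 0 1), rhb739f4f82bb681b4] (by decide +kernel))
noncomputable def rhe36bd2e51c44a2ac : CRef := CRef.mk (Pat.mk 0x30000000100000000c0000001c 0x2000000030000000100000003c0000001f 3 6) 0 0 (step_sound _ 36 [(rh2f68792b6b779e96.shift 4 0), rh4dc133ee0ba1420a] (by decide +kernel))
noncomputable def rh761e2722e7ceb9c6 : CRef := CRef.mk (Pat.mk 0x300000001a0000000c00000010 0x20000000300000001b0000001f00000010 3 6) 0 0 (step_sound _ 33 [(rh53b3c253cb0c65f4.shift 0 1), rh660be7177c703999] (by decide +kernel))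
noncomputable def rh6020726fff9d2f05 : CRef := CRef.mk (Pat.mk 0x100000000c000000080000000b0000000300000000 0x100000001a0000000f0000000a0000000b0000000300000001 3 5) 0 0 (step_sound _ 129 [(rh6835955021d3aba9.shift 0 2), rhb8fddd58ad9026ec] (by decide +kernel))
noncomputable def rh07ddfbf5f5d4b6d6 : CRef := CRef.mk (Pat.mk 0x4000000040000000b000000080000000000000000 0x40000000c0000000f000000180000000800000008 3 5) 0 0 (step_sound _ 35 [rh3e4b55a8c31e7aae, (rhcfdf45280693d3da.shift 2 1)] (by decide +kernel))
noncomputable def rhc60773638daf564a : CRef := CRef.mk (Pat.mk 0xf0000000b0000000a00000000 0x180000000f0000000b0000001e00000004 3 5) 0 0 (step_sound _ 131 [rh33b92f427999e8d7, (rh33e738c4ed385b9f.shift 0 3)] (by decide +kernel))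
noncomputable def rhe0dfcc5b9ef85f8a : CRef := CRef.mk (Pat.mk 0x4000000040000000b000000080000000000000000 0x4000000040000000f0000001c0000000800000008 3 5) 0 0 (step_sound _ 98 [(rh79ad7b82ec8c35e2.shift 2 0), (rhe25b0a99195a5d59.shift 0 2)] (by decide +kernel))
noncomputable def rh30ceb31ada3a3171 : CRef := CRef.mk (Pat.mk 0xe0000000600000003 0x3e0000003e00000003 3 6) 0 0 (step_sound _ 68 [(rh18965a982d73c794.shift 1 1), rh2ff269158ca0cd3a] (by decide +kernel))
noncomputable def rh31f17473693b8f2f : CRef := CRef.mk (Pat.mk 0x40000000e0000000400000000 0x8000000080000003c0000000f0000000400000004 3 6) 0 0 (step_sound _ 99 [(rh84d1c02a8954c6a8.shift 2 0), (rhf9d36e158778ce35.shift 0 2)] (by decide +kernel))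
noncomputable def rh6ed08eee93fe0ade : CRef := CRef.mk (Pat.mk 0xc000000180000000600000006 0x60000000f0000001a0000000600000006 3 5) 0 0 (step_sound _ 97 [(rhb739f4f82bb681b4.shift 0 2), (rhd727bb41309b6841.shift 1 0)] (by decide +kernel))
noncomputable def rh7914cfa1578c69df : CRef := CRef.mk (Pat.mk 0x6000000040000000700000001 0x2000000020000000600000006000000060000000700000001 3 3) 0 0 (step_sound _ 129 [rh3c88ce959c0e423f, (rhc89253ff58c66167.shift 1 1)] (by decide +kernel))
noncomputable def rh32bf1c9ac2d0a17d : CRef := CRef.mk (Pat.mk 0x700000004000000030000000100000000 0x30000000700000006000000030000000300000002 3 3) 0 0 (step_sound _ 97 [rh40241bd608e5be1a, (rh5c5e593799055d58.shift 0 1)] (by decide +kernel))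
noncomputable def rh0d840bfb460ee218 : CRef := CRef.mk (Pat.mk 0xe000000080000000600000002 0x40000000f0000003c0000000600000002 3 6) 0 0 (step_sound _ 66 [(rh5c5e593799055d58.shift 1 0), (rh6292bd8784ece55f.shift 0 2)] (by decide +kernel))
noncomputable def rh09974ccd3d041e02 : CRef := CRef.mk (Pat.mk 0xa000000180000000600000006 0x60000000f0000001a0000000600000006 3 5) 0 0 (step_sound _ 65 [(rh2145e1d24b96a57e.shift 1 0), rhe8ba100882c6d16d] (by decide +kernel))
noncomputable def rh09b85325ac36b741 : CRef := CRef.mk (Pat.mk 0xa000000180000000600000002 0x40000000f0000001e0000000600000002 3 5) 0 0 (step_sound _ 98 [(rh7d7eaefe27cdd7b0.shift 1 0), (rhb739f4f82bb681b4.shift 0 2)] (by decide +kernel))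
noncomputable def rh61d047a6caba8fa6 : CRef := CRef.mk (Pat.mk 0x2000000180000000600000006 0x3000000030000001e0000000600000006 3 5) 0 0 (step_sound _ 65 [(rh2145e1d24b96a57e.shift 1 0), rh5e05da03898e7023] (by decide +kernel))
noncomputable def rh011744a0381ba19c : CRef := CRef.mk (Pat.mk 0xa000000180000000600000006 0x60000000f0000001c0000000600000006 3 5) 0 0 (step_sound _ 98 [(rh4c61a8d65f05c464.shift 1 0), (rhb739f4f82bb681b4.shift 0 2)] (by decide +kernel))
noncomputable def rh323282a07cf77c7b : CRef := CRef.mk (Pat.mk 0x18000000060000001e00000000 0x40000003c000000060000001e00000003 3 6) 0 0 (step_sound _ 98 [(rh18965a982d73c794.shift 1 2), rh1ae4704ae86cb9a8] (by decide +kernel))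
noncomputable def rh88700e9c067a80e8 : CRef := CRef.mk (Pat.mk 0x20000000b0000000a 0x30000001f0000001b 3 5) 0 0 (step_sound _ 34 [rhd9106766b9ff53c0, rhe25b0a99195a5d59] (by decide +kernel))
noncomputable def rh461796a23c837a9f : CRef := CRef.mk (Pat.mk 0x2000000170000000200000000 0x200000002000000020000001f0000000300000001 3 5) 0 0 (step_sound _ 32 [(rh361cc68994bd8a63.shift 0 1), rh503dd4575245365b] (by decide +kernel))
noncomputable def rha7a6eca08357f0df : CRef := CRef.mk (Pat.mk 0x400000016000000160000000000000000 0x4000000360000001e0000000300000002 3 6) 0 0 (step_sound _ 33 [(rh1dc3e866f7ab4752.shift 0 1), (rh71222050f2c63a3a.shift 1 0)] (by decide +kernel))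
noncomputable def rh1047bd99cb9c1d0e : CRef := CRef.mk (Pat.mk 0x6000000060000000a0000000800000000 0x70000001e0000000b0000000800000008 3 5) 0 0 (step_sound _ 99 [(rh7b1f1fb55310c477.shift 2 0), (rhd9106766b9ff53c0.shift 0 2)] (by decide +kernel))
noncomputable def rhf42461bf0ae047f5 : CRef := CRef.mk (Pat.mk 0x1c0000000c000000060000000000000000 0x40000001c0000000f000000060000000200000002 3 5) 0 0 (step_sound _ 97 [(rh1e309b005ffa1b36.shift 1 0), (rh53b3c253cb0c65f4.shift 0 3)] (by decide +kernel))
noncomputable def rh99b8d4779b00c59a : CRef := CRef.mk (Pat.mk 0x400000006000000060000000a0000000000000000 0x40000000f0000001e0000000b0000000800000008 3 5) 0 0 (step_sound _ 99 [(rh08edf065357d68e5.shift 2 0), (rhd9106766b9ff53c0.shift 0 2)] (by decide +kernel))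
noncomputable def rhd26776bf91d336b3 : CRef := CRef.mk (Pat.mk 0x4000000060000001e0000000000000000 0x4000000360000001e0000000300000002 3 6) 0 0 (step_sound _ 100 [(rh33e738c4ed385b9f.shift 1 2), rh9c40a739b57d6d20] (by decide +kernel))
noncomputable def rh40555e7ca63f5013 : CRef := CRef.mk (Pat.mk 0x4000000040000000b000000080000000000000000 0x40000000c0000000f000000180000000800000008 3 5) 0 0 (step_sound _ 98 [(rh08edf065357d68e5.shift 2 0), (rhe25b0a99195a5d59.shift 0 2)] (by decide +kernel))
noncomputable def rhf656aec717f6554a : CRef := CRef.mk (Pat.mk 0x8000000080000001e000000100000000000000000 0x8000000080000001e0000001b0000001000000010 3 5) 0 0 (step_sound _ 65 [(rh79ad7b82ec8c35e2.shift 3 0), (rheb0810cc63b001d8.shift 0 2)] (by decide +kernel))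
noncomputable def rh7611bb121aef66f6 : CRef := CRef.mk (Pat.mk 0x1e000000180000000c00000004 0x30000001e0000001a0000000f00000004 3 5) 0 0 (step_sound _ 33 [(rh53b3c253cb0c65f4.shift 0 1), rh7f8e4a6fbe0e1f11] (by decide +kernel))
noncomputable def rhc1520be8bd932b08 : CRef := CRef.mk (Pat.mk 0x20000000300000003000000030000000000000000 0x30000000300000003000000070000000600000002 3 3) 0 0 (step_sound _ 66 [rh55a1f6c57a317ce6, (rh55afc6a59410cf00.shift 1 1)] (by decide +kernel))
noncomputable def rh79baf11529b9ece9 : CRef := CRef.mk (Pat.mk 0xc0000001c0000000800000000 0x10000000100000003c0000001f0000000800000008 3 6) 0 0 (step_sound _ 100 [(rh4dc133ee0ba1420a.shift 0 2), (rh84d1c02a8954c6a8.shift 3 0)] (by decide +kernel))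
noncomputable def rhe240d60dcd2ac289 : CRef := CRef.mk (Pat.mk 0x8000000080000000e0000000a00000000 0x8000000080000001e0000003b00000010 3 6) 0 0 (step_sound _ 68 [(rha3ce8d304ffd1d8e.shift 1 0), (rheb0810cc63b001d8.shift 0 1)] (by decide +kernel))
noncomputable def rh0850dc8bf4211df0 : CRef := CRef.mk (Pat.mk 0x10000000080000000c0000000a00000003 0x1800000018000000080000000c0000001e00000003 3 5) 0 0 (step_sound _ 131 [(rh2f68792b6b779e96.shift 3 1), rh3320e0c644173747] (by decide +kernel))
noncomputable def rh8a4541a76e7d5d38 : CRef := CRef.mk (Pat.mk 0x180000000e0000001400000006 0x10000000180000000e0000003c0000000f 3 6) 0 0 (step_sound _ 35 [rh44fd07b5203ea564, (rhf48373e13d2bc128.shift 1 1)] (by decide +kernel))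
noncomputable def rh350c68298cbdcb30 : CRef := CRef.mk (Pat.mk 0x1000000000000000100000000e00000008 0x1000000010000000100000001f00000038 3 6) 0 0 (step_sound _ 36 [rha03f6e28ea70fc7d, (rhee230b994cc8b773.shift 3 0)] (by decide +kernel))
noncomputable def rha780aa3996dc0e0d : CRef := CRef.mk (Pat.mk 0x80000000000000000000000070000000c 0x800000008000000180000000f0000001c 3 5) 0 0 (step_sound _ 35 [rhe25b0a99195a5d59, rhfca48bdea898f94b] (by decide +kernel))
noncomputable def rh1e2b2d5e3836fec6 : CRef := CRef.mk (Pat.mk 0x1e000000200000001c 0x1e000000670000003c 3 7) 0 0 (step_sound _ 33 [(rheb0810cc63b001d8.shift 0 1), (rhfb55dd75ab83ac48.shift 1 0)] (by decide +kernel))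
noncomputable def rhd8860d880d23c002 : CRef := CRef.mk (Pat.mk 0xc000000070000000600000000 0xa0000001e000000070000000600000004 3 5) 0 0 (step_sound _ 97 [(rh18965a982d73c794.shift 0 2), (rhfb76b5b414952735.shift 1 0)] (by decide +kernel))
noncomputable def rh9e616f5b225de9a6 : CRef := CRef.mk (Pat.mk 0x4000000060000000e00000000 0x400000004000000060000003e00000003 3 6) 0 0 (step_sound _ 36 [rh1ae4704ae86cb9a8, (rhf48373e13d2bc128.shift 1 1)] (by decide +kernel))
noncomputable def rh86bde9a0e32ebabe : CRef := CRef.mk (Pat.mk 0xc0000000c0000000700000000 0x4000000040000000c0000001c0000000f00000008 3 5) 0 0 (step_sound _ 35 [(rh33e738c4ed385b9f.shift 0 1), (rhfc7c29d8e65d775f.shift 2 0)] (by decide +kernel))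
noncomputable def rh6d75b105b460225e : CRef := CRef.mk (Pat.mk 0xc000000040000000f00000000 0x4000000040000000c0000001c0000000f00000008 3 5) 0 0 (step_sound _ 67 [(rh33e738c4ed385b9f.shift 0 1), (rhfc7c29d8e65d775f.shift 2 0)] (by decide +kernel))
noncomputable def rhe4829767fb4b37c2 : CRef := CRef.mk (Pat.mk 0x400000004000000080000000700000000 0x40000000c000000180000000f00000018 3 5) 0 0 (step_sound _ 35 [(rh33e738c4ed385b9f.shift 0 1), rh5ef6dfbd1c7ee9de] (by decide +kernel))
noncomputable def rh5d5ea7f845ef6c5e : CRef := CRef.mk (Pat.mk 0x60000000f00000001 0x60000003f0000001b 3 6) 0 0 (step_sound _ 4 [rh96851dee118c1ba3, rhb0463dbec37421a0] (by decide +kernel))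
noncomputable def rh44f1f7cd75d8905a : CRef := CRef.mk (Pat.mk 0xc0000000c000000030000000800000000 0xc0000000c0000000f0000001800000018 3 5) 0 0 (step_sound _ 67 [rh5f11ee373cbffcaa, (rh7b1f1fb55310c477.shift 2 0)] (by decide +kernel))
noncomputable def rhc7c3f7a20b3208f5 : CRef := CRef.mk (Pat.mk 0xc0000000c000000030000000a00000000 0xc0000000c000000070000001e0000000c 3 5) 0 0 (step_sound _ 34 [(rh8556ce617a451e36.shift 2 0), (rhf48373e13d2bc128.shift 0 1)] (by decide +kernel))
noncomputable def rh17f8b9a6f88f2867 : CRef := CRef.mk (Pat.mk 0xc0000000c000000030000000a00000000 0xc0000000c0000000b0000001e00000018 3 5) 0 0 (step_sound _ 67 [(rh7b1f1fb55310c477.shift 2 0), rh8ffd6c73cfd2ea71] (by decide +kernel))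
noncomputable def rhea4d9b805ef46783 : CRef := CRef.mk (Pat.mk 0x1c00000018000000000000001e00000000 0x7c0000001e000000040000001e00000003 3 7) 0 0 (step_sound _ 98 [rh316d0c7c5292e4bb, (rhf9d36e158778ce35.shift 1 3)] (by decide +kernel))
noncomputable def rh05ba5dcb8fda47e5 : CRef := CRef.mk (Pat.mk 0xa000000060000000e0000001800000000 0xb0000003e0000000e0000001800000010 3 6) 0 0 (step_sound _ 99 [(rh55afc6a59410cf00.shift 3 0), (rhb762f327c85d41a0.shift 0 2)] (by decide +kernel))
noncomputable def rh18cd647cca28da80 : CRef := CRef.mk (Pat.mk 0x5000000070000000400000002 0x10000000500000005000000070000000700000002 3 3) 0 0 (step_sound _ 33 [(rh5c5e593799055d58.shift 1 0), rhe072fffdd2fccf38] (by decide +kernel))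
noncomputable def rh657b7e88006b6ed9 : CRef := CRef.mk (Pat.mk 0x180000000c000000100000003000000000 0x380000001f000000100000003000000020 3 6) 0 0 (step_sound _ 97 [(rh53b3c253cb0c65f4.shift 0 3), (rhd0677e5a0b47a76b.shift 1 0)] (by decide +kernel))
noncomputable def rh719de7b27dbbbe3e : CRef := CRef.mk (Pat.mk 0x30000000b000000080000000c0000001000000000 0x1000000030000000b0000000a0000000f0000001a00000010 3 5) 0 0 (step_sound _ 65 [rh06dad6edb7ce8d9c, (rhdd1b84382d19bcbb.shift 0 1)] (by decide +kernel))
noncomputable def rh74ac4b46849bf75f : CRef := CRef.mk (Pat.mk 0x700000000000000080000000800000008 0x1f0000001c000000080000000800000008 3 5) 0 0 (step_sound _ 99 [rh602fc714717c5492, (rhffd04209dc8ea796.shift 2 0)] (by decide +kernel))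
noncomputable def rh0eb59f4a375dc97c : CRef := CRef.mk (Pat.mk 0xe000000160000001800000008 0x200000002000000130000001e000000160000001c00000008 3 5) 0 0 (step_sound _ 129 [(rh3e595262c1b737ad.shift 1 1), rh9df0f92ead5d849d] (by decide +kernel))
noncomputable def rha8ab5e9b6e46a3bd : CRef := CRef.mk (Pat.mk 0xc00000018000000100000003000000000 0x1f00000038000000100000003000000020 3 6) 0 0 (step_sound _ 132 [(rh55afc6a59410cf00.shift 4 0), (rhad5d8fc3675c15dd.shift 0 3)] (by decide +kernel))
noncomputable def rhb25b595c7b2c4857 : CRef := CRef.mk (Pat.mk 0xf000000020000000e0000000200000000 0x80000000f0000001a0000000e0000000600000004 3 5) 0 0 (step_sound _ 99 [(rh665ec0aeeddb6f99.shift 1 0), (rhe25b0a99195a5d59.shift 0 3)] (by decide +kernel))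
noncomputable def rhbc7f7beda4cbdc7e : CRef := CRef.mk (Pat.mk 0xa000000120000000e 0xf0000001e0000000f 3 5) 0 0 (step_sound _ 35 [rh53b3c253cb0c65f4, (rhd8be3b7ca6adb62f.shift 0 1)] (by decide +kernel))
noncomputable def rhdbbda056112f07df : CRef := CRef.mk (Pat.mk 0x600000001000000030000000200000000 0x60000000600000003000000030000000300000001 3 3) 0 0 (step_sound _ 97 [rh1e309b005ffa1b36, (rh2f68792b6b779e96.shift 1 1)] (by decide +kernel))
noncomputable def rhbb222ef7824721df : CRef := CRef.mk (Pat.mk 0x200000002000000020000001f00000000 0x10000000300000002000000020000001f00000038 3 6) 0 0 (step_sound _ 128 [rh4ad5fc38f1b69f65, (rh50fbb5868c909700.shift 0 1)] (by decide +kernel))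
noncomputable def rh32a0aba65dd83da0 : CRef := CRef.mk (Pat.mk 0x2000000060000000c0000001c00000008 0x80000001b0000001e0000000c0000001c00000018 3 5) 0 0 (step_sound _ 99 [rh4f7106e6f46c2542, (rh571950d89739e871.shift 2 0)] (by decide +kernel))
noncomputable def rh6ee1b6c2289781c1 : CRef := CRef.mk (Pat.mk 0xa000000180000000c 0xf0000007c0000000c 3 7) 0 0 (step_sound _ 66 [(rhb739f4f82bb681b4.shift 0 1), (rhc3c694226a015fc3.shift 1 0)] (by decide +kernel))
noncomputable def rh442e451f2de330f7 : CRef := CRef.mk (Pat.mk 0x1000000014000000180000000800000000 0x300000001f000000180000000800000008 3 6) 0 0 (step_sound _ 99 [(rh34517e326ddb5b25.shift 0 2), (rh71222050f2c63a3a.shift 3 0)] (by decide +kernel))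
noncomputable def rh9b83ce2c570e1191 : CRef := CRef.mk (Pat.mk 0x100000001c000000020000000300000000 0x330000001e000000020000000300000001 3 6) 0 0 (step_sound _ 97 [rh16b3601545764ddf, (rh33e738c4ed385b9f.shift 1 3)] (by decide +kernel))
noncomputable def rh6e64d2ad8aeb4d23 : CRef := CRef.mk (Pat.mk 0x80000000c0000001c0000000c00000000 0x40000000c0000000c0000001c0000000f00000002 3 5) 0 0 (step_sound _ 130 [(rh50fbb5868c909700.shift 2 1), rhf5094ad2a427d4d3] (by decide +kernel))
noncomputable def rh5b9a581a158fd1d8 : CRef := CRef.mk (Pat.mk 0x4000000060000000b0000000800000000 0x4000000060000000f0000001e00000002 3 5) 0 0 (step_sound _ 33 [(rh71222050f2c63a3a.shift 1 0), (rha6816dee951f7ee6.shift 0 1)] (by decide +kernel))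
noncomputable def rh0eb8ff183492fb12 : CRef := CRef.mk (Pat.mk 0x4000000060000001a0000001800000010 0x4000000060000001a0000001f00000032 3 6) 0 0 (step_sound _ 33 [rh39f426ebe0691969, (rh71222050f2c63a3a.shift 1 0)] (by decide +kernel))
noncomputable def rh0b49aaa1a5c5d98d : CRef := CRef.mk (Pat.mk 0x100000001e0000000800000000 0x1000000010000000100000001f0000001800000008 3 5) 0 0 (step_sound _ 132 [rh2a09e4bb338a1742, (rh5c5e593799055d58.shift 3 1)] (by decide +kernel))
noncomputable def rhbe241b83c30f6a78 : CRef := CRef.mk (Pat.mk 0x20000007c00000000 0x30000007e0000000e 3 7) 0 0 (step_sound _ 33 [(rh3244c3cc8379b070.shift 0 1), (rheae1728ff4a56756.shift 1 0)] (by decide +kernel))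
noncomputable def rhc8a7d491c3699fdc : CRef := CRef.mk (Pat.mk 0xe0000001200000003 0x3e0000003e00000003 3 6) 0 0 (step_sound _ 68 [(rhe25b0a99195a5d59.shift 1 1), rhed380b2b2fe5761c] (by decide +kernel))
noncomputable def rh64923f3d308990c9 : CRef := CRef.mk (Pat.mk 0x1e0000000200000003 0x3e0000003e00000003 3 6) 0 0 (step_sound _ 34 [(rh18965a982d73c794.shift 1 1), rh2ff269158ca0cd3a] (by decide +kernel))
noncomputable def rhcdbf1d5c00434fa8 : CRef := CRef.mk (Pat.mk 0x600000002000000030000000300000000 0x10000000700000007000000030000000300000002 3 3) 0 0 (step_sound _ 128 [rh0e18a4b9269fe00c, (rh50fbb5868c909700.shift 0 1)] (by decide +kernel))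
noncomputable def rh9432b1ae36368bb3 : CRef := CRef.mk (Pat.mk 0x4000000040000001c00000010 0x400000004000000040000001e00000033 3 6) 0 0 (step_sound _ 33 [rh1ae4704ae86cb9a8, (rhe25b0a99195a5d59.shift 1 0)] (by decide +kernel))
noncomputable def rh94ae12ab680f223f : CRef := CRef.mk (Pat.mk 0x200000003000000010000000600000000 0x10000000300000003000000030000000600000006 3 3) 0 0 (step_sound _ 65 [(rh55afc6a59410cf00.shift 1 0), rhfc7c29d8e65d775f] (by decide +kernel))
noncomputable def rh1882a63a3ded37b1 : CRef := CRef.mk (Pat.mk 0x1a0000000c 0x3b0000001f 3 6) 0 0 (step_sound _ 1 [rh53b3c253cb0c65f4, rh5ec015d369888aae] (by decide +kernel))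
noncomputable def rh54c1a540a7f2de53 : CRef := CRef.mk (Pat.mk 0x80000001c0000000800000000 0x800000008000000080000001f0000003800000010 3 6) 0 0 (step_sound _ 36 [(rh3e595262c1b737ad.shift 3 0), (rhad5d8fc3675c15dd.shift 0 1)] (by decide +kernel))
noncomputable def rh1ee904a7d6618c6a : CRef := CRef.mk (Pat.mk 0x10000000f0000000e000000040000000000000000 0x10000000f0000000e000000060000000600000006 3 4) 0 0 (step_sound _ 34 [(rh71222050f2c63a3a.shift 2 0), rhecaf9472b61382c5] (by decide +kernel))
noncomputable def rhbd30744d1a6502a1 : CRef := CRef.mk (Pat.mk 0x400000006000000070000000200000000 0x20000000600000006000000070000001e0000000c 3 5) 0 0 (step_sound _ 34 [rh42afa1af9fffa0e1, (rhfc7c29d8e65d775f.shift 1 0)] (by decide +kernel))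
noncomputable def rh7b42d1443a53c59f : CRef := CRef.mk (Pat.mk 0x120000000a0000001c 0x330000001e0000003c 3 6) 0 0 (step_sound _ 34 [(rh5ec015d369888aae.shift 0 1), (rhf48373e13d2bc128.shift 1 0)] (by decide +kernel))
noncomputable def rhef0220b61c7c0424 : CRef := CRef.mk (Pat.mk 0xc000000080000000500000008 0x40000000c000000180000000f00000018 3 5) 0 0 (step_sound _ 35 [(rh50fbb5868c909700.shift 2 0), rhc924e5f7a4031fcc] (by decide +kernel))
noncomputable def rhe17e69e1de5088c4 : CRef := CRef.mk (Pat.mk 0x4000000040000000c0000000500000000 0x4000000040000001c0000000f0000000a 3 5) 0 0 (step_sound _ 35 [(rh55afc6a59410cf00.shift 2 0), rh9b98860b308510c2] (by decide +kernel))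
noncomputable def rh9dd6be3b36b4a2a5 : CRef := CRef.mk (Pat.mk 0x8000000080000000a0000000a00000000 0x8000000080000000b0000001e00000014 3 5) 0 0 (step_sound _ 36 [rh30fb2484d31c5faa, (rh55afc6a59410cf00.shift 3 0)] (by decide +kernel))
noncomputable def rhef6377b024c6b5ad : CRef := CRef.mk (Pat.mk 0x1400000014000000040000000e 0x1400000014000000140000001c0000000f 3 5) 0 0 (step_sound _ 35 [(rh2145e1d24b96a57e.shift 2 0), rh356cdfb49b9f1367] (by decide +kernel))
noncomputable def rhe13f543d54bec3ac : CRef := CRef.mk (Pat.mk 0x800000008000000010000000e00000000 0x8000000080000000b0000001e00000030 3 6) 0 0 (step_sound _ 36 [(rh3f8766e6ecb455ce.shift 0 1), (rh49bdc49f6b132823.shift 1 0)] (by decide +kernel))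
noncomputable def rh52fdf8a03c4b3282 : CRef := CRef.mk (Pat.mk 0x10000000180000001c000000040000000c00000000 0x300000001f0000001c000000040000000c00000008 3 6) 0 0 (step_sound _ 130 [(rh34517e326ddb5b25.shift 0 3), (rh55afc6a59410cf00.shift 2 0)] (by decide +kernel))
noncomputable def rh9335b6b2e35cefc0 : CRef := CRef.mk (Pat.mk 0x20000001c00000004 0x30000003e00000007 3 6) 0 0 (step_sound _ 33 [(rh3244c3cc8379b070.shift 0 1), rhaf9f2efc81a8312b] (by decide +kernel))
noncomputable def rh2ff75cf989b38397 : CRef := CRef.mk (Pat.mk 0x5a00000038 0x7b0000003f 3 7) 0 0 (step_sound _ 2 [(rh428265de8cd3cd2d.shift 2 0), rh5c36e97be8af272f] (by decide +kernel))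
noncomputable def rh975b751660206728 : CRef := CRef.mk (Pat.mk 0xc000000080000000e0000000600000002 0x40000000c000000080000000e0000003e00000003 3 6) 0 0 (step_sound _ 35 [(rh50fbb5868c909700.shift 2 1), rha9e1a5d55b907abf] (by decide +kernel))
noncomputable def rh6411cbf343c29ffa : CRef := CRef.mk (Pat.mk 0x60000000a0000000a0000000800000000 0x70000001e0000000b0000000800000008 3 5) 0 0 (step_sound _ 98 [(rh7b1f1fb55310c477.shift 2 0), (rhd9106766b9ff53c0.shift 0 2)] (by decide +kernel))
noncomputable def rhfdec563d82cb3456 : CRef := CRef.mk (Pat.mk 0xc00000008000000040000000e 0x40000000c000000080000003c0000000f 3 6) 0 0 (step_sound _ 35 [(rh50fbb5868c909700.shift 2 0), rhf9d36e158778ce35] (by decide +kernel))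
noncomputable def rh44fa22804623888a : CRef := CRef.mk (Pat.mk 0x80000000c0000000c0000000f0000000000000000 0x10000000180000000c0000000c0000000f0000001800000008 3 5) 0 0 (step_sound _ 164 [(rh2f68792b6b779e96.shift 3 2), rh78974448101547fe] (by decide +kernel))
noncomputable def rh7952ab2b25cb7119 : CRef := CRef.mk (Pat.mk 0x1000000010000000100000001e00000000 0x1000000010000000170000003e00000020 3 6) 0 0 (step_sound _ 65 [(rh252658d5f9b21822.shift 1 0), (rh3244c3cc8379b070.shift 0 1)] (by decide +kernel))
noncomputable def rh3bc48b4ce5df373b : CRef := CRef.mk (Pat.mk 0x30000000120000001e00000000 0x300000001e0000003e00000003 3 6) 0 0 (step_sound _ 1 [(rh567a326921e8af4d.shift 1 1), rheb0810cc63b001d8] (by decide +kernel))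
end Crest.Agent.S0047.Helper85.Cert
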