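import Crest.Agent.Lib.S0047.Helper85CertPL2F0
import Crest.Agent.Lib.S0047.Helper85CertPL2F1
set_option autoImplicit false
set_option linter.all false
set_option Elab.async false
namespace Crest.Agent.S0047.Helper85.Cert
open Crest.Agent.S0047.Helper85

noncomputable def rhf90a9b43adab6acc : CRef := CRef.mk (Pat.mk 0x1e00000008 0x1f0000003b 3 6) 0 0 (step_sound _ 1 [rha03f6e28ea70fc7d, rheb0810cc63b001d8] (by decide +kernel))
noncomputable def rh233e54df0f7555f1 : CRef := CRef.mk (Pat.mk 0x78000000180000000000000008 0x60000007f000000f80000000800000008 3 8) 0 0 (step_sound _ 98 [(rh0da3f8d18d3a0dfd.shift 1 0), (rh88333dd5482f2e1a.shift 2 2), (rhad5d8fc3675c15dd.shift 0 2)] (by decide +kernel))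
noncomputable def rh9d2d459698611001 : CRef := CRef.mk (Pat.mk 0x40000000000000002000000020000000300000000 0x4000000060000000200000002000000030000000300000001 3 3) 0 0 (step_sound _ 129 [rh932754581e0f4330, (rhb6385c749d93cf64.shift 0 1)] (by decide +kernel))
noncomputable def rhc899a53d3ddb953c : CRef := CRef.mk (Pat.mk 0xc0000000d000000080000000000000000 0x100000001c0000000f000000080000000800000008 3 5) 0 0 (step_sound _ 35 [(rh7b1f1fb55310c477.shift 2 0), (rh7e143111a189f2ad.shift 0 1)] (by decide +kernel))
noncomputable def rh5bcda155178c6892 : CRef := CRef.mk (Pat.mk 0x80000001a0000000e0000000c 0x60000000f0000001a0000000e0000000c 3 5) 0 0 (step_sound _ 98 [rh07ab335000a65efb, (rh50fbb5868c909700.shift 2 0)] (by decide +kernel))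
noncomputable def rh4f3382578ad057e7 : CRef := CRef.mk (Pat.mk 0x10000000f000000020000000400000000 0x30000001f000000020000000600000006 3 5) 0 0 (step_sound _ 33 [rh7b1f1fb55310c477, rh953997394dfdc3f2] (by decide +kernel))
noncomputable def rh44159304be4fc01e : CRef := CRef.mk (Pat.mk 0x7000000030000000c0000000000000000 0x400000007000000030000001e0000000200000002 3 5) 0 0 (step_sound _ 65 [rhb0c1e7919d9be92d, (rhf48373e13d2bc128.shift 0 2)] (by decide +kernel))
noncomputable def rhfdfeb5c085d24dd8 : CRef := CRef.mk (Pat.mk 0x800000008000000060000000c00000000 0x8000000080000000f0000003c00000010 3 6) 0 0 (step_sound _ 36 [rhbc4edabfec870e16, (rhf48373e13d2bc128.shift 1 1)] (by decide +kernel))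
noncomputable def rhe25f030b4156ee60 : CRef := CRef.mk (Pat.mk 0xc000000180000000a00000002 0x40000000f0000001a0000000a0000000a 3 5) 0 0 (step_sound _ 97 [(rh4cdd5d584b323226.shift 1 0), (rhb739f4f82bb681b4.shift 0 2)] (by decide +kernel))
noncomputable def rhbc1c8f78a6237e0f : CRef := CRef.mk (Pat.mk 0x80000001e0000000a00000004 0xa0000000b0000001e0000000e00000004 3 5) 0 0 (step_sound _ 34 [rh309fd0c3d364cd61, (rh5c5e593799055d58.shift 2 0)] (by decide +kernel))
noncomputable def rh81c53dc54a0b9b8d : CRef := CRef.mk (Pat.mk 0x2000000040000000f00000001 0x200000002000000070000003f00000001 3 6) 0 0 (step_sound _ 65 [rh5c5e593799055d58, (rh79b3c29022acbdf3.shift 0 1)] (by decide +kernel))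
noncomputable def rhfff8c50a7e82f208 : CRef := CRef.mk (Pat.mk 0x20000000600000004000000020000000200000000 0x20000000600000006000000030000000300000003 3 3) 0 0 (step_sound _ 97 [(rh71222050f2c63a3a.shift 1 0), rh7928877f9bf74a91] (by decide +kernel))
noncomputable def rh6531d33afb52924a : CRef := CRef.mk (Pat.mk 0x120000001a0000000c00000004 0x80000001f0000001b0000000c00000004 3 5) 0 0 (step_sound _ 99 [(rh086f6046fa319626.shift 0 2), (rh5c5e593799055d58.shift 2 0)] (by decide +kernel))
noncomputable def rh1a8dbc25a5363993 : CRef := CRef.mk (Pat.mk 0x2000000060000001a0000000200000000 0x200000002000000060000001e0000000700000004 3 5) 0 0 (step_sound _ 66 [(rh55a1f6c57a317ce6.shift 1 0), (rheb0810cc63b001d8.shift 0 1)] (by decide +kernel))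
noncomputable def rhded483a8fd5d9267 : CRef := CRef.mk (Pat.mk 0x40000001c0000000e0000000200000000 0x40000001f0000003e0000000200000002 3 6) 0 0 (step_sound _ 97 [(rh5c2ddd300f751bae.shift 0 2), (rh71222050f2c63a3a.shift 1 0)] (by decide +kernel))
noncomputable def rhb9a37cdd8d67e82d : CRef := CRef.mk (Pat.mk 0x400000003000000020000000200000000 0x50000000700000003000000020000000200000002 3 3) 0 0 (step_sound _ 129 [(rh2f68792b6b779e96.shift 1 1), rhe286c75f2739cce2] (by decide +kernel))
noncomputable def rh31523aaa9440ad73 : CRef := CRef.mk (Pat.mk 0x40000000700000001000000010000000100000000 0x40000000700000003000000030000000300000003 3 3) 0 0 (step_sound _ 33 [rh55afc6a59410cf00, rh848a0b98dfc71680] (by decide +kernel))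
noncomputable def rha114be24ebb8ca2d : CRef := CRef.mk (Pat.mk 0x4000000080000000e0000001a 0xc0000000c000000080000001e0000001b 3 5) 0 0 (step_sound _ 99 [rh0861ca7069f07210, (rh50fbb5868c909700.shift 2 0)] (by decide +kernel))
noncomputable def rh54d9c3881249402e : CRef := CRef.mk (Pat.mk 0x400000004000000020000001a00000008 0x4000000040000000c0000000f0000001a00000008 3 5) 0 0 (step_sound _ 66 [(rh5c5e593799055d58.shift 1 1), rh5f477dc411353e47] (by decide +kernel))
noncomputable def rh63cf34475ac5043f : CRef := CRef.mk (Pat.mk 0x80000001a0000000e0000000a00000000 0x60000000f0000001a0000000e0000000e00000004 3 5) 0 0 (step_sound _ 129 [(rh876344954e856662.shift 0 1), (rhd4b4beefcd67f51e.shift 1 0)] (by decide +kernel))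
noncomputable def rh1fbe85d3105cbbe7 : CRef := CRef.mk (Pat.mk 0xf0000000c000000080000000800000000 0x180000000f0000000c0000000c0000000c00000004 3 5) 0 0 (step_sound _ 163 [(rh0ec68e0bf4727743.shift 2 0), (rh33e738c4ed385b9f.shift 0 4)] (by decide +kernel))
noncomputable def rh4360cd61f767f81c : CRef := CRef.mk (Pat.mk 0x10000000d000000090000000900000000 0x10000000f000000190000000f00000002 3 5) 0 0 (step_sound _ 68 [(rhab22b5b56e7b3243.shift 0 2), rhe82112c8440f1b7b] (by decide +kernel))
noncomputable def rh6b915f727c374b5f : CRef := CRef.mk (Pat.mk 0x200000002000000120000001600000000 0x200000002000000320000001f00000003 3 6) 0 0 (step_sound _ 35 [(rh33e738c4ed385b9f.shift 1 1), rha37779f9238271b6] (by decide +kernel))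
noncomputable def rh3e0d73136cf00326 : CRef := CRef.mk (Pat.mk 0xf0000000d0000000800000000 0x180000000f0000000f0000001800000010 3 5) 0 0 (step_sound _ 131 [rh2d65c91b9f714cee, (rh33e738c4ed385b9f.shift 0 3)] (by decide +kernel))
noncomputable def rh0bd26cc0e9475bbe : CRef := CRef.mk (Pat.mk 0x1e0000000200000007 0x1e0000003e0000000f 3 6) 0 0 (step_sound _ 36 [(rhe25b0a99195a5d59.shift 1 1), rhfbf320ca8ea44173] (by decide +kernel))
noncomputable def rh53156af456fd2d9c : CRef := CRef.mk (Pat.mk 0x700000006000000380000000800000000 0x100000007000000060000003a0000001f00000002 3 6) 0 0 (step_sound _ 33 [rhc93583770a36d0f1, (rhfb815e3afead425a.shift 0 1)] (by decide +kernel))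
noncomputable def rhbe60949d458105f1 : CRef := CRef.mk (Pat.mk 0x300000002000000180000000a00000000 0x100000003000000020000001a0000000f00000001 3 5) 0 0 (step_sound _ 65 [(rh50fbb5868c909700.shift 0 1), rhabf42db7287f8a50] (by decide +kernel))
noncomputable def rh8c998fb5a707e3c7 : CRef := CRef.mk (Pat.mk 0x600000006000000180000000a00000000 0x6000000060000001c0000000f00000006 3 5) 0 0 (step_sound _ 34 [(rh53b3c253cb0c65f4.shift 0 1), (rhbcedfca2885d6e85.shift 1 0)] (by decide +kernel))
noncomputable def rh9e48b83af722b996 : CRef := CRef.mk (Pat.mk 0xe000000180000000c0000000400000000 0x20000000e0000001c0000000f0000000400000004 3 5) 0 0 (step_sound _ 65 [(rh1c69bb92c13f27a0.shift 1 0), (rh53b3c253cb0c65f4.shift 0 2)] (by decide +kernel))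
noncomputable def rhc75fe064731c60d2 : CRef := CRef.mk (Pat.mk 0x700000004000000040000000200000000 0x50000000700000006000000060000000200000002 3 3) 0 0 (step_sound _ 65 [rh1c69bb92c13f27a0, (rh5c5e593799055d58.shift 1 1)] (by decide +kernel))
noncomputable def rhe37fd36562dd8e20 : CRef := CRef.mk (Pat.mk 0x8000000380000000c00000000 0x800000008000000380000001f00000004 3 6) 0 0 (step_sound _ 2 [(rh5c5e593799055d58.shift 2 0), (rheea1a90336e79c71.shift 0 1)] (by decide +kernel))
noncomputable def rh8d28159b7968c977 : CRef := CRef.mk (Pat.mk 0x100000003a00000000 0x300000003e00000007 3 6) 0 0 (step_sound _ 34 [(rh33e738c4ed385b9f.shift 1 1), rheae1728ff4a56756] (by decide +kernel))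
noncomputable def rh970a6f8681b4e899 : CRef := CRef.mk (Pat.mk 0x30000000100000001e 0x300000001f0000001f 3 6) 0 0 (step_sound _ 33 [rh3244c3cc8379b070, rh658d988aa7ab3325] (by decide +kernel))
noncomputable def rh18e9457982ca2798 : CRef := CRef.mk (Pat.mk 0xe000000080000000e0000000c 0x130000001e0000000a0000000e0000000c 3 5) 0 0 (step_sound _ 100 [(rh2f68792b6b779e96.shift 3 0), rh7f8e4a6fbe0e1f11] (by decide +kernel))
noncomputable def rh30e1c1faf34c3d54 : CRef := CRef.mk (Pat.mk 0x18000000000000000c0000000e 0x1000000018000000080000003c0000000f 3 6) 0 0 (step_sound _ 67 [(rh2f68792b6b779e96.shift 3 0), rhf9d36e158778ce35] (by decide +kernel))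
noncomputable def rh7b0b47d000e89176 : CRef := CRef.mk (Pat.mk 0x1000000018000000160000000000000000 0x1000000010000000180000001f0000000800000008 3 5) 0 0 (step_sound _ 67 [(rh1e309b005ffa1b36.shift 3 0), (rh53b3c253cb0c65f4.shift 0 2)] (by decide +kernel))
noncomputable def rh1ed96fec3f239918 : CRef := CRef.mk (Pat.mk 0x100000001c000000100000000000000008 0x300000001f000000180000000800000008 3 6) 0 0 (step_sound _ 67 [(rh34517e326ddb5b25.shift 0 2), (rh9e3edb185cc347de.shift 3 0)] (by decide +kernel))
noncomputable def rh68505609e13da257 : CRef := CRef.mk (Pat.mk 0x80000001e000000020000000000000004 0xb0000001e000000060000000600000004 3 5) 0 0 (step_sound _ 34 [(rh04253f50b6dd0619.shift 2 0), rhddb9dd786dc1af2f] (by decide +kernel))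
noncomputable def rhc7a5435993e5e057 : CRef := CRef.mk (Pat.mk 0x60000000300000002000000030000000000000000 0x2000000060000000700000003000000030000000200000002 3 3) 0 0 (step_sound _ 96 [rh3eb26739ea0a224c, (rh5c5e593799055d58.shift 0 2)] (by decide +kernel))
noncomputable def rha5e04c769727c05c : CRef := CRef.mk (Pat.mk 0x100000001e000000140000000c00000000 0x100000001e000000170000003c00000008 3 6) 0 0 (step_sound _ 65 [(rh2b5eee94aa1708fe.shift 1 0), (rheb0810cc63b001d8.shift 0 2)] (by decide +kernel))
noncomputable def rh18fd060f871c7679 : CRef := CRef.mk (Pat.mk 0x3c000000000000001c 0x3e000000070000001e 3 6) 0 0 (step_sound _ 33 [(rh80fcd6d0a18cb2dd.shift 1 1), rhec729e1b81b076c3] (by decide +kernel))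
noncomputable def rhc9378d0ce28a8c13 : CRef := CRef.mk (Pat.mk 0x1000000010000000100000000e00000002 0x1000000010000000100000003e00000033 3 6) 0 0 (step_sound _ 36 [(rh2aa7c1d375387a4e.shift 1 0), rheb0810cc63b001d8] (by decide +kernel))
noncomputable def rh782d03dd4dc1a048 : CRef := CRef.mk (Pat.mk 0x1e00000004000000060000000000000000 0x40000001e00000007000000060000000200000002 3 5) 0 0 (step_sound _ 97 [(rh1e309b005ffa1b36.shift 1 0), (rheb0810cc63b001d8.shift 0 3)] (by decide +kernel))
noncomputable def rh8fe3e3b08a7b7854 : CRef := CRef.mk (Pat.mk 0x200000003000000030000000200000000 0x30000000300000003000000030000000300000001 3 2) 0 0 (step_sound _ 160 [rh1e309b005ffa1b36, (rhffd04209dc8ea796.shift 0 1)] (by decide +kernel))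
noncomputable def rh67fee7123398b213 : CRef := CRef.mk (Pat.mk 0x3000000030000000200000003 0x40000000600000007000000030000000300000003 3 3) 0 0 (step_sound _ 130 [rh6bd0ec98f6d010ee, (rhbaefcd01e0a8bca3.shift 1 0)] (by decide +kernel))
noncomputable def rh1bf8787eae2e7ba5 : CRef := CRef.mk (Pat.mk 0x400000007000000180000003800000000 0x100000003e00000017000000180000003800000020 3 6) 0 0 (step_sound _ 132 [(rh4fd54f6717f3e7ac.shift 0 3), (rh5105f69098a4a2c2.shift 3 0)] (by decide +kernel))
noncomputable def rhb93349b0bf2ce0d6 : CRef := CRef.mk (Pat.mk 0x800000003000000080000001800000000 0x10000000180000000f000000080000001800000010 3 5) 0 0 (step_sound _ 99 [(rh55afc6a59410cf00.shift 3 0), (rhddcd04bb31546311.shift 0 1)] (by decide +kernel))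
noncomputable def rh7eccc2cbeb7dc242 : CRef := CRef.mk (Pat.mk 0xa000000030000000c0000000c 0xc0000001e000000070000000c0000000c 3 5) 0 0 (step_sound _ 98 [(rh18965a982d73c794.shift 0 2), (rhd727bb41309b6841.shift 2 0)] (by decide +kernel))
noncomputable def rh7d52b8659bef9775 : CRef := CRef.mk (Pat.mk 0x70000000f00000004 0x8000000180000001f0000000f00000004 3 5) 0 0 (step_sound _ 67 [(rh33e738c4ed385b9f.shift 0 1), rh5421160f8e9bcf07] (by decide +kernel))
noncomputable def rhb941b29de30f9480 : CRef := CRef.mk (Pat.mk 0x200000007000000010000000500000000 0x2000000020000000300000007000000050000000500000004 3 3) 0 0 (step_sound _ 66 [(rh7b1f1fb55310c477.shift 1 0), (rhbfb5770941270498.shift 0 1)] (by decide +kernel))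
noncomputable def rh6d7ff615e02d7fe7 : CRef := CRef.mk (Pat.mk 0x1e00000010000000000000001800000000 0x100000001f00000018000000080000001800000010 3 5) 0 0 (step_sound _ 99 [(rh807d78fa6ca78542.shift 3 0), (rhb739f4f82bb681b4.shift 0 3)] (by decide +kernel))
noncomputable def rh1c6a6d78f1dd7a5d : CRef := CRef.mk (Pat.mk 0x100000007000000060000000300000000 0x2000000020000000300000007000000070000000300000001 3 3) 0 0 (step_sound _ 129 [(rh1ededbcb63c3ab78.shift 0 1), rh932754581e0f4330] (by decide +kernel))
noncomputable def rh376cb9575c5202b8 : CRef := CRef.mk (Pat.mk 0xf00000002000000010000000300000000 0x1f0000001b000000010000000300000002 3 5) 0 0 (step_sound _ 99 [rh6b737a76c1e003cc, (rhe25b0a99195a5d59.shift 0 3)] (by decide +kernel))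
noncomputable def rh27a7583438cc1cbd : CRef := CRef.mk (Pat.mk 0x1e0000001000000008 0x10000000300000001f0000001800000008 3 6) 0 0 (step_sound _ 100 [(rh33e738c4ed385b9f.shift 1 2), rh99058911f432ea9e] (by decide +kernel))
noncomputable def rh145d76ef68087b05 : CRef := CRef.mk (Pat.mk 0xe000000120000000a 0xf0000001e0000000f 3 5) 0 0 (step_sound _ 35 [(rhb739f4f82bb681b4.shift 0 1), rhda02c4ce0b224328] (by decide +kernel))
noncomputable def rh78ad236807632ac6 : CRef := CRef.mk (Pat.mk 0x40000000700000007000000000000000200000002 0x600000006000000060000000700000007000000040000000600000002 3 3) 0 0 (step_sound _ 193 [(rh16567ae718d9fd54.shift 1 3), (rh2f33d1d0bcfdca52.shift 0 2), (rh94f617b7df1a63af.shift 1 0)] (by decide +kernel))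
noncomputable def rh17b3b846c1da9bf1 : CRef := CRef.mk (Pat.mk 0x3000000000000000080000003c00000000 0x200000003000000010000000380000003f00000020 3 6) 0 0 (step_sound _ 68 [(rh85e0f5cc78e9cbe0.shift 4 0), (rhab2ad169e49f9c5e.shift 0 1)] (by decide +kernel))
noncomputable def rh81a1e94a189106b8 : CRef := CRef.mk (Pat.mk 0x300000002000000020000000000000002 0x40000000700000007000000020000000200000002 3 3) 0 0 (step_sound _ 33 [(rh44f453b84f013105.shift 1 0), rhffd04209dc8ea796] (by decide +kernel))
noncomputable def rhe866fbd028d6d944 : CRef := CRef.mk (Pat.mk 0x100000001000000010000000000000003 0x20000000300000003000000010000000300000003 3 2) 0 0 (step_sound _ 32 [rh44f453b84f013105, rhd3458b32566d63f7] (by decide +kernel))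
noncomputable def rhf0c55f46c7baed1e : CRef := CRef.mk (Pat.mk 0xa0000000b0000000e 0x1f0000001b0000000f 3 5) 0 0 (step_sound _ 36 [rh53b3c253cb0c65f4, (rhb4dc27738f3ce342.shift 0 1)] (by decide +kernel))
noncomputable def rha3d01d768e0fced7 : CRef := CRef.mk (Pat.mk 0xc0000001e00000018 0xc0000007e0000001f 3 7) 0 0 (step_sound _ 1 [(rh44f029253d5e06b4.shift 1 0), rheb0810cc63b001d8] (by decide +kernel))
noncomputable def rh22e11c42b8304225 : CRef := CRef.mk (Pat.mk 0x1c0000002c0000000000000004 0x30000001e0000003c0000000400000004 3 6) 0 0 (step_sound _ 97 [rh0da3f8d18d3a0dfd, (rh2fe78cc5ca4405d8.shift 1 2)] (by decide +kernel))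
noncomputable def rh9e99f5bbdcd89b67 : CRef := CRef.mk (Pat.mk 0x1c000000040000000800000008 0x100000003c0000000f0000000800000008 3 6) 0 0 (step_sound _ 67 [(rh2f68792b6b779e96.shift 3 0), (rh4dc133ee0ba1420a.shift 0 2)] (by decide +kernel))
noncomputable def rhe43a6f135ff7e8cb : CRef := CRef.mk (Pat.mk 0x80000000e000000000000000400000004 0x180000000f000000180000000c00000004 3 5) 0 0 (step_sound _ 96 [(rh33e738c4ed385b9f.shift 0 3), rhb5e747220bd827fa] (by decide +kernel))
noncomputable def rh437a274300fdb354 : CRef := CRef.mk (Pat.mk 0x200000003000000020000000000000001 0x10000000300000003000000020000000300000003 3 2) 0 0 (step_sound _ 33 [rh79877ebd3ef475dd, rhe286c75f2739cce2] (by decide +kernel))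
noncomputable def rh41b02ea8f007171b : CRef := CRef.mk (Pat.mk 0x10000000f00000002 0x30000001f0000001b 3 5) 0 0 (step_sound _ 4 [rh795d3e5d420177aa, rh96851dee118c1ba3] (by decide +kernel))
noncomputable def rhef11b31153f51c33 : CRef := CRef.mk (Pat.mk 0x80000000f000000000000000400000000 0x8000000080000000f0000001c0000000400000004 3 5) 0 0 (step_sound _ 66 [(rh71222050f2c63a3a.shift 2 0), (rhf125bcd6a8e76387.shift 0 1)] (by decide +kernel))
noncomputable def rh7a95c98369694404 : CRef := CRef.mk (Pat.mk 0x100000001e000000100000000800000000 0x180000001f000000100000001800000018 3 5) 0 0 (step_sound _ 131 [(rh53b3c253cb0c65f4.shift 0 3), (rhe437f081bfcdb831.shift 3 0)] (by decide +kernel))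
noncomputable def rhf8be2f0da0b4d587 : CRef := CRef.mk (Pat.mk 0x3000000020000000300000000 0x10000000300000003000000020000000300000003 3 2) 0 0 (step_sound _ 128 [rh7b1f1fb55310c477, rhbdd4e349c1dde679] (by decide +kernel))
noncomputable def rh07d5a3c8a94e90f6 : CRef := CRef.mk (Pat.mk 0x8000000080000001c0000000000000010 0x8000000380000001f0000001000000010 3 6) 0 0 (step_sound _ 100 [(rh9e07f76261b05888.shift 3 0), (rhab2ad169e49f9c5e.shift 0 2)] (by decide +kernel))
noncomputable def rhd1b8a9f57b921e3c : CRef := CRef.mk (Pat.mk 0x140000001e 0x1e0000007f 3 7) 0 0 (step_sound _ 35 [rh53b3c253cb0c65f4, (rh79b3c29022acbdf3.shift 1 0)] (by decide +kernel))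
noncomputable def rh5a5e49b4de57063c : CRef := CRef.mk (Pat.mk 0x1e00000014 0x700000007f0000001c 3 7) 0 0 (step_sound _ 37 [rh8216bf0da4f70608, (rh9890f9d77740bbed.shift 1 1)] (by decide +kernel))
noncomputable def rha3e2f7d2ab67b249 : CRef := CRef.mk (Pat.mk 0x40000000e0000001c0000000000000000 0x40000003e0000001f0000000300000002 3 6) 0 0 (step_sound _ 65 [rh9c40a739b57d6d20, (rhf9d36e158778ce35.shift 0 2)] (by decide +kernel))
noncomputable def rh8e75dfaff563cc3e : CRef := CRef.mk (Pat.mk 0x80000001c0000000800000010 0x8000000080000001f0000003800000010 3 6) 0 0 (step_sound _ 36 [(rh2145e1d24b96a57e.shift 3 0), (rhad5d8fc3675c15dd.shift 0 1)] (by decide +kernel))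
noncomputable def rh93fc97fccbd29730 : CRef := CRef.mk (Pat.mk 0x300000002000000300000000c00000000 0x10000000300000002000000320000001e00000004 3 6) 0 0 (step_sound _ 33 [(rh3fc040e777f1679e.shift 1 1), rh80c59fdbc00f388c] (by decide +kernel))
noncomputable def rh44a320595e197204 : CRef := CRef.mk (Pat.mk 0x8000000070000000400000004 0xa0000001e000000070000000400000004 3 5) 0 0 (step_sound _ 98 [(rh2f68792b6b779e96.shift 2 0), rh50457521e58be46d] (by decide +kernel))
noncomputable def rh69e72e84bbe83205 : CRef := CRef.mk (Pat.mk 0x4000000040000000e000000020000000000000000 0x4000000060000001e000000030000000200000002 3 5) 0 0 (step_sound _ 100 [(rheb0810cc63b001d8.shift 0 2), (rhf9af042da61fc652.shift 1 0)] (by decide +kernel))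
noncomputable def rhada37fa49c06dbc6 : CRef := CRef.mk (Pat.mk 0x200000002000000010000000100000000 0x2000000020000000200000003000000030000000100000001 3 2) 0 0 (step_sound _ 161 [rhe383b718e2292d99, (rheea67dfebd0f8008.shift 0 1)] (by decide +kernel))
noncomputable def rh7dd4d4c294d21292 : CRef := CRef.mk (Pat.mk 0xc00000000000000000000000f00000000 0x40000000c00000008000000180000000f00000004 3 5) 0 0 (step_sound _ 67 [(rh33e738c4ed385b9f.shift 0 1), (rh4176b1306bc070ea.shift 2 0)] (by decide +kernel))
noncomputable def rhd0aeaccd5a4b1cae : CRef := CRef.mk (Pat.mk 0x600000003000000040000000600000000 0x80000001e00000007000000040000000600000002 3 5) 0 0 (step_sound _ 131 [(rh18965a982d73c794.shift 0 3), (rhcddd2712883fd9b7.shift 1 0)] (by decide +kernel))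
noncomputable def rhe03efe4155d04a1d : CRef := CRef.mk (Pat.mk 0x600000014 0xf0000003e 3 6) 0 0 (step_sound _ 3 [rhd8e93bbc8568df99, (rhf48373e13d2bc128.shift 1 0)] (by decide +kernel))
noncomputable def rh20c7eff3986ad746 : CRef := CRef.mk (Pat.mk 0x200000002000000000000000100000001 0x20000000200000003000000030000000300000001 3 2) 0 0 (step_sound _ 65 [rh88f1a525075bdbb4, rheea67dfebd0f8008] (by decide +kernel))
noncomputable def rh8ef32249ce830675 : CRef := CRef.mk (Pat.mk 0x800000000000000080000000f00000000 0x800000008000000080000001f0000001c 3 5) 0 0 (step_sound _ 99 [rh2aa7c1d375387a4e, (rh932754581e0f4330.shift 2 0)] (by decide +kernel))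
noncomputable def rhedc88fc58de58bc7 : CRef := CRef.mk (Pat.mk 0x2000000000000001e0000000400000000 0x200000002000000020000001e0000000700000004 3 5) 0 0 (step_sound _ 33 [(rhda6cc5da102e1723.shift 1 0), (rheb0810cc63b001d8.shift 0 1)] (by decide +kernel))
noncomputable def rhc47beb0580934134 : CRef := CRef.mk (Pat.mk 0x8000000100000001e00000010 0x1800000018000000100000001f00000018 3 5) 0 0 (step_sound _ 100 [(rh50fbb5868c909700.shift 3 0), rh95300026e34db43e] (by decide +kernel))
noncomputable def rh287bbd72e6a03919 : CRef := CRef.mk (Pat.mk 0x100000006000000020000000200000000 0x50000000700000006000000020000000200000002 3 3) 0 0 (step_sound _ 129 [(rh50fbb5868c909700.shift 0 1), (rha707fb719e87fe6e.shift 1 0)] (by decide +kernel))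
noncomputable def rh574968158f67be7e : CRef := CRef.mk (Pat.mk 0x700000004000000060000000400000000 0x10000000700000006000000060000000600000006 3 3) 0 0 (step_sound _ 97 [rh40241bd608e5be1a, (rh7b1f1fb55310c477.shift 1 0)] (by decide +kernel))
noncomputable def rh9b6c1fe4ae4bd79e : CRef := CRef.mk (Pat.mk 0x20000000200000002000000020000000200000000 0x20000000200000002000000070000000700000004 3 3) 0 0 (step_sound _ 64 [(rh932754581e0f4330.shift 0 1), (rhd29a1fb688eae70f.shift 1 0)] (by decide +kernel))
noncomputable def rh623a364a51348aa3 : CRef := CRef.mk (Pat.mk 0x3c0000000c0000000000000004 0x30000003e0000007c0000000400000004 3 7) 0 0 (step_sound _ 97 [rh0da3f8d18d3a0dfd, (rh88333dd5482f2e1a.shift 1 2)] (by decide +kernel))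
noncomputable def rh81604a196d691a11 : CRef := CRef.mk (Pat.mk 0x20000000200000001000000010000000000000000 0x2000000020000000300000003000000010000000100000001 3 2) 0 0 (step_sound _ 32 [(rh1006c02ae4212ff0.shift 0 1), rh9d1165924047d7d0] (by decide +kernel))
noncomputable def rh6e0b3fe1b3f7935c : CRef := CRef.mk (Pat.mk 0x20000001e000000000000000000000004 0x20000003e000000070000000400000004 3 6) 0 0 (step_sound _ 65 [(rh47b6dad44b634851.shift 1 0), (rheb0810cc63b001d8.shift 0 2)] (by decide +kernel))
noncomputable def rh3646936a64188069 : CRef := CRef.mk (Pat.mk 0xc00000004000000180000000c00000000 0x80000000c000000040000001c0000000f00000002 3 5) 0 0 (step_sound _ 33 [(rh12cda698427604cb.shift 1 0), (rh53b3c253cb0c65f4.shift 0 1)] (by decide +kernel))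
noncomputable def rh5ee80bae93b5b7ab : CRef := CRef.mk (Pat.mk 0x40000000f000000000000000800000000 0x40000001c0000000f000000080000000800000008 3 5) 0 0 (step_sound _ 131 [(rh33e738c4ed385b9f.shift 0 3), (rhdd1b84382d19bcbb.shift 2 0)] (by decide +kernel))
noncomputable def rh8b247cb8ebd94ea2 : CRef := CRef.mk (Pat.mk 0x2000000000000000300000003000000000000000200000000 0x2000000020000000300000003000000010000000300000003 3 2) 0 0 (step_sound _ 64 [rh9b4df57cddcda711, (rhee230b994cc8b773.shift 0 2)] (by decide +kernel))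
noncomputable def rh7aac183e7656caeb : CRef := CRef.mk (Pat.mk 0x1000000010000000120000000e00000000 0x1000000010000000130000003e00000030 3 6) 0 0 (step_sound _ 36 [(rh2aa7c1d375387a4e.shift 1 0), (rh3244c3cc8379b070.shift 0 1)] (by decide +kernel))
noncomputable def rh1de586e433c0d790 : CRef := CRef.mk (Pat.mk 0x80000003c00000040 0x38000000ff000000c0 3 8) 0 0 (step_sound _ 68 [(rh8ef9dd588f33bbde.shift 3 0), (rhab2ad169e49f9c5e.shift 0 1)] (by decide +kernel))
noncomputable def rh7b02b14a596374a2 : CRef := CRef.mk (Pat.mk 0xa0000000a0000000e 0x1b0000003f0000001e 3 6) 0 0 (step_sound _ 34 [rhb762f327c85d41a0, rhcf86d050071af9b3] (by decide +kernel))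
noncomputable def rhfb46959d1faedad4 : CRef := CRef.mk (Pat.mk 0x100000001e00000008 0x1b0000001f00000018 3 5) 0 0 (step_sound _ 64 [(rh3f8766e6ecb455ce.shift 0 1), rhe3dc93746cbe6e7c] (by decide +kernel))
noncomputable def rh62b003815e541d93 : CRef := CRef.mk (Pat.mk 0x80000000e000000070000000500000000 0x20000001a0000000f000000070000000500000001 3 5) 0 0 (step_sound _ 129 [(rh2145e1d24b96a57e.shift 1 1), rhf0d853d0e55fa742] (by decide +kernel))
noncomputable def rh9abc085aad15fdbe : CRef := CRef.mk (Pat.mk 0x8000000040000001e0000000400000000 0x80000003c0000001f0000000400000004 3 6) 0 0 (step_sound _ 100 [(rh33e738c4ed385b9f.shift 1 2), rh4e9434ae4447084a] (by decide +kernel))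
noncomputable def rh06286bd0c451269d : CRef := CRef.mk (Pat.mk 0x40000000c0000000e00000004 0x2000000060000003c0000000f00000004 3 6) 0 0 (step_sound _ 97 [(rh50fbb5868c909700.shift 1 0), (rhf9d36e158778ce35.shift 0 1)] (by decide +kernel))
noncomputable def rh3fc06d4babbea075 : CRef := CRef.mk (Pat.mk 0x140000000e000000080000000000000000 0x100000001c0000000f000000080000000800000008 3 5) 0 0 (step_sound _ 131 [(rh53b3c253cb0c65f4.shift 0 3), (rhb0c1e7919d9be92d.shift 2 0)] (by decide +kernel))
noncomputable def rh7a30c616a3ea814b : CRef := CRef.mk (Pat.mk 0x40000000c000000070000000200000000 0x40000000c0000000f0000001e00000008 3 5) 0 0 (step_sound _ 35 [(rh478c4cadbcd4e066.shift 2 0), rhc76d142f049b7a48, (rhd5041491555e8d86.shift 0 1), rhf727a68250e6ca98] (by decide +kernel))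
noncomputable def rh26eb5e778c85dc1f : CRef := CRef.mk (Pat.mk 0x20000000380000001c 0x600000003f0000003c 3 7) 0 0 (step_sound _ 34 [(rh33e738c4ed385b9f.shift 2 1), rhe2b63c00a3d7bb73] (by decide +kernel))
noncomputable def rh392d2b106c34bd6c : CRef := CRef.mk (Pat.mk 0x800000008000000040000001e00000000 0x8000000080000003c0000001f00000010 3 6) 0 0 (step_sound _ 67 [(rh55afc6a59410cf00.shift 3 0), (rhf9d36e158778ce35.shift 0 1)] (by decide +kernel))
noncomputable def rhec182fccfe126c21 : CRef := CRef.mk (Pat.mk 0xe0000000b0000000600000000 0x40000000e0000000b0000001e0000000a 3 5) 0 0 (step_sound _ 130 [rh46d8aa7205a52b27, (rh71222050f2c63a3a.shift 1 0)] (by decide +kernel))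
noncomputable def rhf0d541925459d994 : CRef := CRef.mk (Pat.mk 0x20000003800000020 0x30000003e00000070 3 7) 0 0 (step_sound _ 34 [rh2d10cb31ad1cd784, (rhe25b0a99195a5d59.shift 2 0)] (by decide +kernel))
noncomputable def rhd616cfc6a452bc98 : CRef := CRef.mk (Pat.mk 0xc00000018000000060000000700000000 0x20000000f0000001a000000060000000700000001 3 5) 0 0 (step_sound _ 129 [(rhb739f4f82bb681b4.shift 0 3), rhe908f39dd8d66be2] (by decide +kernel))
noncomputable def rh292800f13ff43397 : CRef := CRef.mk (Pat.mk 0xc00000018000000020000000300000000 0x40000000f0000001a000000020000000300000001 3 5) 0 0 (step_sound _ 129 [(rhb739f4f82bb681b4.shift 0 3), rhcddd2712883fd9b7] (by decide +kernel))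
noncomputable def rh0bcc12a99d41656d : CRef := CRef.mk (Pat.mk 0x4000000080000000e0000000800000000 0x40000000c000000080000000f0000001800000010 3 5) 0 0 (step_sound _ 131 [(rh50fbb5868c909700.shift 2 1), rhbdde238153e38af9] (by decide +kernel))
noncomputable def rh20a9efe966282d13 : CRef := CRef.mk (Pat.mk 0x8000000100000001a00000016 0x1800000018000000100000001b0000001e 3 5) 0 0 (step_sound _ 3 [(rh16567ae718d9fd54.shift 3 0), rh3244c3cc8379b070] (by decide +kernel))
noncomputable def rhbdafbb846ab848c1 : CRef := CRef.mk (Pat.mk 0x20000003c00000010 0x3000000ff0000001c 3 8) 0 0 (step_sound _ 3 [rh22a65d20d3172694, (rh2612b4f73ba7c3b3.shift 2 0)] (by decide +kernel))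
noncomputable def rh89941d4a81c75adf : CRef := CRef.mk (Pat.mk 0x4000000040000001c0000000400000000 0x400000004000000040000001c0000000f00000002 3 5) 0 0 (step_sound _ 33 [(rh7433fdfa04207f2e.shift 0 1), (rh932754581e0f4330.shift 1 0)] (by decide +kernel))
noncomputable def rh5096cc29873d8ca4 : CRef := CRef.mk (Pat.mk 0x40000001c0000000c00000000 0x4000000040000001c0000000f0000000a 3 5) 0 0 (step_sound _ 33 [(rh53b3c253cb0c65f4.shift 0 1), (rhde10baa3043a2b46.shift 1 0)] (by decide +kernel))
noncomputable def rh8b0936874d02e3f5 : CRef := CRef.mk (Pat.mk 0x40000001e0000001a0000000a00000000 0x60000003e0000001a0000000f00000004 3 6) 0 0 (step_sound _ 129 [rh5d5b9b56c19874f2, (rhf48373e13d2bc128.shift 1 3)] (by decide +kernel))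
noncomputable def rha013a4e5cc54a92a : CRef := CRef.mk (Pat.mk 0x1000000000000000300000003000000000000000100000000 0x1000000010000000300000003000000020000000300000003 3 2) 0 0 (step_sound _ 65 [(rh6f1cbe15c631ee70.shift 0 2), rhe437f081bfcdb831] (by decide +kernel))
noncomputable def rh21f3176562ebe940 : CRef := CRef.mk (Pat.mk 0x40000001e00000010000000180000002000000000 0x40000001e000000130000001e0000003200000020 3 6) 0 0 (step_sound _ 65 [(rh3ea8f185d13574b4.shift 0 1), (rhe1b7f43db1d371d3.shift 1 0)] (by decide +kernel))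
noncomputable def rh05603a4008a2c69a : CRef := CRef.mk (Pat.mk 0x10000000040000000e00000008 0x1000000010000000370000003e00000008 3 6) 0 0 (step_sound _ 36 [(rh5ebae181afaa248a.shift 1 0), (rhe3060b190bc0bc78.shift 0 1)] (by decide +kernel))
noncomputable def rh9d2fb52dede2240d : CRef := CRef.mk (Pat.mk 0xe000000020000000200000004 0x30000001e000000030000000600000004 3 5) 0 0 (step_sound _ 100 [rh54e2670cb103b129, (rheb0810cc63b001d8.shift 0 2)] (by decide +kernel))
noncomputable def rh3bc4e4516a830a08 : CRef := CRef.mk (Pat.mk 0x1e00000006000000000000000800000008 0x2000000030000001e00000006000000040000000c00000008 3 5) 0 0 (step_sound _ 66 [(rh309fd0c3d364cd61.shift 0 2), (rhbe0e43a3bc50a43f.shift 2 0)] (by decide +kernel))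
noncomputable def rhc5247111446b6d2e : CRef := CRef.mk (Pat.mk 0x60000001c000000040000000800000000 0xf0000001c000000040000000c0000000c 3 5) 0 0 (step_sound _ 131 [(rh9b4df57cddcda711.shift 2 0), (rhb739f4f82bb681b4.shift 0 3)] (by decide +kernel))
noncomputable def rh9bb29785841f366b : CRef := CRef.mk (Pat.mk 0x100000000e0000000800000008 0x40000003c0000000f0000000800000008 3 6) 0 0 (step_sound _ 99 [(rh50457521e58be46d.shift 1 0), (rh53b3c253cb0c65f4.shift 0 2)] (by decide +kernel))
noncomputable def rh4eb1b4414d6cd41f : CRef := CRef.mk (Pat.mk 0x20000001e0000000400000000 0x200000002000000020000001e0000000700000004 3 5) 0 0 (step_sound _ 33 [(rh3e595262c1b737ad.shift 1 0), (rheb0810cc63b001d8.shift 0 1)] (by decide +kernel))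
noncomputable def rh55f7723b8b306d34 : CRef := CRef.mk (Pat.mk 0x10000000100000002000000020000000000000000 0x1000000010000000300000003000000020000000200000002 3 2) 0 0 (step_sound _ 33 [(rhcfdf45280693d3da.shift 0 1), rhe2ca67a12f9e4a24] (by decide +kernel))
noncomputable def rhf2a3cf652f94c008 : CRef := CRef.mk (Pat.mk 0x1c00000018000000080000000800000000 0x1f00000038000000080000000c00000004 3 6) 0 0 (step_sound _ 34 [(rh932754581e0f4330.shift 2 0), (rhad5d8fc3675c15dd.shift 0 3)] (by decide +kernel))
noncomputable def rh545103f8483e89f5 : CRef := CRef.mk (Pat.mk 0x1c00000014 0x3e00000037 3 6) 0 0 (step_sound _ 1 [(rh18965a982d73c794.shift 1 0), rhc8b21ffc3825c72d] (by decide +kernel))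
noncomputable def rh9cf3fca34694fb09 : CRef := CRef.mk (Pat.mk 0x200000002000000020000000200000002 0x40000000700000007000000020000000200000002 3 3) 0 0 (step_sound _ 96 [(rh44f453b84f013105.shift 1 0), rh50fbb5868c909700] (by decide +kernel))
noncomputable def rh795e733e9e2c2441 : CRef := CRef.mk (Pat.mk 0x800000000000000080000001e00000000 0x8000000080000000b0000001e00000030 3 6) 0 0 (step_sound _ 65 [(rh3098af7943687178.shift 1 0), (rh3244c3cc8379b070.shift 0 1)] (by decide +kernel))
noncomputable def rh354561cdc62d7b45 : CRef := CRef.mk (Pat.mk 0x2000000080000000f0000000900000004 0x20000000a0000000e0000000f0000000d00000004 3 4) 0 0 (step_sound _ 34 [rh4403e97f5cc1e4ef, (rh5c5e593799055d58.shift 2 0)] (by decide +kernel))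
noncomputable def rh30e5b8477b322538 : CRef := CRef.mk (Pat.mk 0xc00000000000000080000000f00000000 0x40000000c00000008000000080000001f00000018 3 5) 0 0 (step_sound _ 99 [rh2aa7c1d375387a4e, (rh50fbb5868c909700.shift 2 1)] (by decide +kernel))
noncomputable def rha574f551c21cda47 : CRef := CRef.mk (Pat.mk 0x8000000100000001e0000000000000000 0x8000000180000001f0000003000000010 3 6) 0 0 (step_sound _ 36 [rh1b54be821c3b0bdd, (rhe25b0a99195a5d59.shift 1 1)] (by decide +kernel))
noncomputable def rh01a0b8e803fdc72e : CRef := CRef.mk (Pat.mk 0x400000004000000000000001e0000001a 0x400000006000000030000003e0000001e 3 6) 0 0 (step_sound _ 2 [(rh33e738c4ed385b9f.shift 1 0), rha3d4138a5939a4eb] (by decide +kernel))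
noncomputable def rh3a67a67a2c163f9d : CRef := CRef.mk (Pat.mk 0x1e000000280000000000000004 0x30000007e0000006c0000000400000004 3 7) 0 0 (step_sound _ 66 [rh0da3f8d18d3a0dfd, (rhbca71ab025ef4262.shift 2 2)] (by decide +kernel))
noncomputable def rhc3c430660bfd8e67 : CRef := CRef.mk (Pat.mk 0x400000000000000280000001e00000000 0x4000000040000006c0000007e00000003 3 7) 0 0 (step_sound _ 66 [rh981be6707e4d9088, (rheff610e725081997.shift 2 1)] (by decide +kernel))
noncomputable def rhc05cde795a11620a : CRef := CRef.mk (Pat.mk 0x100000000000000020000000200000002 0x10000000100000003000000030000000300000002 3 2) 0 0 (step_sound _ 96 [rh6da1cd319b2afcb1, rhcfdf45280693d3da] (by decide +kernel))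
noncomputable def rhd4e6ea85f7c9b074 : CRef := CRef.mk (Pat.mk 0xe0000000c000000040000000400000000 0xf0000003c000000040000000c00000008 3 6) 0 0 (step_sound _ 35 [(rh55afc6a59410cf00.shift 2 0), (rh6292bd8784ece55f.shift 0 3)] (by decide +kernel))
noncomputable def rh6327be3b513cfde1 : CRef := CRef.mk (Pat.mk 0x1c0000001200000010 0x3c0000001f00000030 3 6) 0 0 (step_sound _ 34 [(rh18965a982d73c794.shift 1 1), rh5360fcf49c083c33] (by decide +kernel))
noncomputable def rh6951f5e21ed1e59d : CRef := CRef.mk (Pat.mk 0x60000001c0000000400000000 0x8000000080000000f0000001c0000000400000004 3 5) 0 0 (step_sound _ 99 [(rh84d1c02a8954c6a8.shift 2 0), (rhb739f4f82bb681b4.shift 0 2)] (by decide +kernel))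
noncomputable def rhd7d824b585272535 : CRef := CRef.mk (Pat.mk 0x100000001e0000000800000000 0x1000000010000000180000001f0000000800000008 3 5) 0 0 (step_sound _ 132 [rh22deb2b73a579c39, (rh5c5e593799055d58.shift 3 1)] (by decide +kernel))
noncomputable def rh2c47ddc722046413 : CRef := CRef.mk (Pat.mk 0x20000007c00000008 0x3000000ff00000018 3 8) 0 0 (step_sound _ 33 [(rh3244c3cc8379b070.shift 0 1), rh760a62bb8e478bc4] (by decide +kernel))
noncomputable def rh4ddbefb7ff5d58d4 : CRef := CRef.mk (Pat.mk 0x80000000e00000001 0x380000001f00000003 3 6) 0 0 (step_sound _ 36 [rh80fcd6d0a18cb2dd, (rhec46bd5500c722c9.shift 0 1)] (by decide +kernel))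
noncomputable def rhcb11e3e6c99d2a56 : CRef := CRef.mk (Pat.mk 0x4000000140000001c0000000200000000 0x4000000370000001e0000000200000002 3 6) 0 0 (step_sound _ 65 [(rh33e738c4ed385b9f.shift 1 2), rh4cdd80ef82c269a0] (by decide +kernel))
noncomputable def rh157c5ae8e36c309a : CRef := CRef.mk (Pat.mk 0x20000001e00000018 0x60000003e0000001f 3 6) 0 0 (step_sound _ 37 [rh0bdf8aa2e59fe114, (rh3f8766e6ecb455ce.shift 1 1)] (by decide +kernel))
noncomputable def rh78b6f51a89d5db79 : CRef := CRef.mk (Pat.mk 0x1c000000000000001e 0x3c000000070000003e 3 6) 0 0 (step_sound _ 33 [rh3244c3cc8379b070, (rha24df86d1c9bf0e5.shift 1 0)] (by decide +kernel))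
noncomputable def rhefaad809f4caea7c : CRef := CRef.mk (Pat.mk 0x4000000080000000c0000000d00000000 0x40000000c0000001c0000000f0000000a 3 5) 0 0 (step_sound _ 98 [(rh7b1f1fb55310c477.shift 2 0), rh9b98860b308510c2] (by decide +kernel))
noncomputable def rh79a931acdfeba449 : CRef := CRef.mk (Pat.mk 0x140000003c00000020 0x1c0000007f00000030 3 7) 0 0 (step_sound _ 33 [(rh2d8edb255b5ae37b.shift 0 1), (rh96851dee118c1ba3.shift 1 0)] (by decide +kernel))
noncomputable def rh40d24e690d449e99 : CRef := CRef.mk (Pat.mk 0x80000000f0000000400000000 0x800000008000000080000000f0000001c00000004 3 5) 0 0 (step_sound _ 35 [(rh503dd4575245365b.shift 2 0), (rhe25b0a99195a5d59.shift 0 1)] (by decide +kernel))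
noncomputable def rhadf9cce17c84b0f3 : CRef := CRef.mk (Pat.mk 0x1e000000060000000000000008 0x300000001f0000003e0000000800000008 3 6) 0 0 (step_sound _ 67 [(rh5c2ddd300f751bae.shift 0 2), (rh63bb75a038171f49.shift 1 0)] (by decide +kernel))
noncomputable def rh2ffd087f462feead : CRef := CRef.mk (Pat.mk 0x4000000040000001e0000000200000000 0x4000000070000001e0000003200000002 3 6) 0 0 (step_sound _ 37 [rh4cdd80ef82c269a0, (rh96851dee118c1ba3.shift 1 1)] (by decide +kernel))
noncomputable def rhb857dcc7a1c85f55 : CRef := CRef.mk (Pat.mk 0x20000001a000000020000000400000000 0x1000000030000001e000000020000000600000004 3 5) 0 0 (step_sound _ 128 [rh4cdb379841a0f429, (rh5419adcd928dba20.shift 0 3)] (by decide +kernel))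
noncomputable def rhddac4485108ceff1 : CRef := CRef.mk (Pat.mk 0x1000000030000000060000000800000000 0x100000003c0000000f0000000800000008 3 6) 0 0 (step_sound _ 99 [rh67a8d3c56f70f56e, (rhca9569cc80abfe76.shift 1 2)] (by decide +kernel))
noncomputable def rh8083d2db72f0a501 : CRef := CRef.mk (Pat.mk 0x10000000300000000c0000000800000000 0x100000003c0000000f0000000800000008 3 6) 0 0 (step_sound _ 99 [(rh1ed7a3503fa50fc8.shift 0 2), (rh71222050f2c63a3a.shift 3 0)] (by decide +kernel))
noncomputable def rh65a2a8f7d1e06dad : CRef := CRef.mk (Pat.mk 0x1800000018000000060000000400000000 0x180000001f000000070000000400000004 3 5) 0 0 (step_sound _ 98 [(rh71222050f2c63a3a.shift 2 0), (rhd74396e693bc7125.shift 0 2)] (by decide +kernel))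
noncomputable def rh58bb6555c3c5e5ba : CRef := CRef.mk (Pat.mk 0x8000000080000000a0000001c 0x800000008000000080000001b0000001f 3 5) 0 0 (step_sound _ 1 [rh3244c3cc8379b070, rhcd1d2dd80f69b75d] (by decide +kernel))
noncomputable def rh24cb449492be2f84 : CRef := CRef.mk (Pat.mk 0x1800000018000000140000000400000000 0x180000001f000000340000000400000004 3 6) 0 0 (step_sound _ 98 [(rh71222050f2c63a3a.shift 2 0), (rhf56e6bc5d2f7fe77.shift 0 2)] (by decide +kernel))
noncomputable def rh5ebad06bfebbcc6e : CRef := CRef.mk (Pat.mk 0x80000001800000018000000140000000000000000 0x80000001c0000001f000000340000000400000004 3 6) 0 0 (step_sound _ 98 [(rhf56e6bc5d2f7fe77.shift 0 2), (rhf9af042da61fc652.shift 2 0)] (by decide +kernel))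
noncomputable def rhe868a141a849ed8f : CRef := CRef.mk (Pat.mk 0x700000007000000020000000300000000 0x20000000700000007000000070000000700000004 3 3) 0 0 (step_sound _ 161 [(rh9e3edb185cc347de.shift 0 1), (rheb6520004608cff3.shift 1 0)] (by decide +kernel))
noncomputable def rh1a34acb628d8bc6d : CRef := CRef.mk (Pat.mk 0xc00000006000000040000000400000000 0x3c0000000f000000040000000400000004 3 6) 0 0 (step_sound _ 132 [(rh18965a982d73c794.shift 1 3), rhca2e2aed2d1c3a32] (by decide +kernel))
noncomputable def rh845e6e71a4239e6a : CRef := CRef.mk (Pat.mk 0x3a0000000c 0x70000003e0000007c 3 7) 0 0 (step_sound _ 34 [(rh88333dd5482f2e1a.shift 1 0), (rhd5eb272e07a4e288.shift 0 1)] (by decide +kernel))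
noncomputable def rhe0763fdc2d4b8725 : CRef := CRef.mk (Pat.mk 0x80000000a0000001c000000040000000000000000 0x80000000b0000001e0000000c0000000400000004 3 5) 0 0 (step_sound _ 97 [(rh3244c3cc8379b070.shift 0 3), (rh42548283029e2a39.shift 2 0)] (by decide +kernel))
noncomputable def rh28626621c96ee67e : CRef := CRef.mk (Pat.mk 0x1e000000000000000400000038 0x30000001e00000004000000060000003c 3 6) 0 0 (step_sound _ 2 [(rh3244c3cc8379b070.shift 1 0), rhea1977e228a6d74a] (by decide +kernel))
noncomputable def rhdde0e1a78f5059ea : CRef := CRef.mk (Pat.mk 0xe0000000a000000080000000800000000 0x1f0000001b000000080000000800000008 3 5) 0 0 (step_sound _ 132 [(rheb0810cc63b001d8.shift 0 3), rhfe3d17030513ae3d] (by decide +kernel))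
noncomputable def rh5ffd62fb6c1292e6 : CRef := CRef.mk (Pat.mk 0x400000004000000000000000e00000008 0x40000000c000000180000000f00000018 3 5) 0 0 (step_sound _ 32 [rhb5df3e7f22ccacad, rhe25b0a99195a5d59] (by decide +kernel))
noncomputable def rhc7baa1f2c07bff1b : CRef := CRef.mk (Pat.mk 0x6000000070000000400000000 0xa0000001e000000070000000400000004 3 5) 0 0 (step_sound _ 99 [(rh18965a982d73c794.shift 0 2), (rh261f868a429ae0e3.shift 1 0)] (by decide +kernel))
noncomputable def rh5f4b53094806b88a : CRef := CRef.mk (Pat.mk 0x700000004000000060000000200000000 0x30000000700000006000000060000000600000004 3 3) 0 0 (step_sound _ 34 [(rh50fbb5868c909700.shift 1 1), rhc5351dabd90740aa] (by decide +kernel))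
noncomputable def rh1c6244244cb1af79 : CRef := CRef.mk (Pat.mk 0x1e00000008 0x30000001f00000038 3 6) 0 0 (step_sound _ 64 [(rh3f8766e6ecb455ce.shift 0 1), rha03f6e28ea70fc7d] (by decide +kernel))
noncomputable def rh28acecebae2a05e3 : CRef := CRef.mk (Pat.mk 0x30000000200000002000000000000000400000000 0x1000000030000000300000002000000020000000600000004 3 3) 0 0 (step_sound _ 65 [(rh50fbb5868c909700.shift 0 2), rhdd25e32394858bbd] (by decide +kernel))
noncomputable def rh24d3f566c3de18ad : CRef := CRef.mk (Pat.mk 0x200000002000000060000000200000000 0x20000000200000002000000060000000700000005 3 3) 0 0 (step_sound _ 32 [rh932754581e0f4330, (rhd4b4beefcd67f51e.shift 1 0)] (by decide +kernel))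
noncomputable def rhff7aedbadce28866 : CRef := CRef.mk (Pat.mk 0x30000000100000001000000000000000200000000 0x2000000030000000300000001000000010000000300000002 3 2) 0 0 (step_sound _ 64 [(rh2f68792b6b779e96.shift 0 2), rhf48d93cb7a9e42c5] (by decide +kernel))
noncomputable def rh8acdb7b45075d8f3 : CRef := CRef.mk (Pat.mk 0x4000000040000001e00000000 0x400000004000000340000001e00000003 3 6) 0 0 (step_sound _ 68 [rh1ae4704ae86cb9a8, (rh33e738c4ed385b9f.shift 1 1)] (by decide +kernel))
noncomputable def rh4cb981e42e77f7fb : CRef := CRef.mk (Pat.mk 0x40000001e 0x370000003e 3 6) 0 0 (step_sound _ 37 [(rh428265de8cd3cd2d.shift 1 0), rhe3060b190bc0bc78] (by decide +kernel))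
noncomputable def rh24a794e6acc35618 : CRef := CRef.mk (Pat.mk 0x8000000080000001c0000000400000000 0x80000000f0000003c0000000400000004 3 6) 0 0 (step_sound _ 98 [(rh71222050f2c63a3a.shift 2 0), (rhe2b63c00a3d7bb73.shift 0 2)] (by decide +kernel))
noncomputable def rhdc97ad95ada259ad : CRef := CRef.mk (Pat.mk 0x40000001e00000000 0x70000003e00000030 3 6) 0 0 (step_sound _ 5 [(rh96851dee118c1ba3.shift 1 0), (rhe3060b190bc0bc78.shift 0 1)] (by decide +kernel))
noncomputable def rh273bf63065fffa35 : CRef := CRef.mk (Pat.mk 0x1e00000000000000100000000e 0x100000001e00000030000000180000000f 3 6) 0 0 (step_sound _ 35 [rh53b3c253cb0c65f4, (rh8c2ed6f91ff57e60.shift 1 0)] (by decide +kernel))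
noncomputable def rhe0e08a37546027f0 : CRef := CRef.mk (Pat.mk 0x60000000e0000000a 0x400000004000000070000001e0000000b 3 5) 0 0 (step_sound _ 98 [(rh2145e1d24b96a57e.shift 2 0), rhd9106766b9ff53c0] (by decide +kernel))
noncomputable def rhd99271f568c380bc : CRef := CRef.mk (Pat.mk 0x50000000f0000000b0000000000000000 0x1000000050000000f0000000b0000000a0000000a 3 4) 0 0 (step_sound _ 35 [rh3ebc98c19791ad58, (rh7b1f1fb55310c477.shift 2 0)] (by decide +kernel))
noncomputable def rh289d0c6aea675c87 : CRef := CRef.mk (Pat.mk 0x80000001e0000001000000000 0x800000008000000080000001f0000001800000010 3 5) 0 0 (step_sound _ 131 [rh06dad6edb7ce8d9c, (rh2145e1d24b96a57e.shift 3 1)] (by decide +kernel))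
noncomputable def rh8bd555bf7b11e1f1 : CRef := CRef.mk (Pat.mk 0x6000000180000001c00000000 0x8000000080000000f000000180000001c00000004 3 5) 0 0 (step_sound _ 99 [(rh37d9ceebb86d75d1.shift 2 0), (rhb739f4f82bb681b4.shift 0 2)] (by decide +kernel))
noncomputable def rhb915fcea497142c6 : CRef := CRef.mk (Pat.mk 0x3c00000018 0x3f0000001f 3 6) 0 0 (step_sound _ 33 [rh0bdf8aa2e59fe114, rhb739f4f82bb681b4] (by decide +kernel))
noncomputable def rhbedfcb340972cad3 : CRef := CRef.mk (Pat.mk 0x300000001000000010000000700000000 0x10000000300000003000000030000000700000005 3 3) 0 0 (step_sound _ 97 [rh71222050f2c63a3a, rh80c59fdbc00f388c] (by decide +kernel))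
noncomputable def rhf09f14e58e90af3a : CRef := CRef.mk (Pat.mk 0xc0000001c000000140000000400000000 0x20000000f0000001c000000140000001400000010 3 5) 0 0 (step_sound _ 36 [(rh277b01412deaec89.shift 0 1), (rh7b1f1fb55310c477.shift 3 0)] (by decide +kernel))
noncomputable def rhcb8383f82aaf08ab : CRef := CRef.mk (Pat.mk 0x220000003c00000000 0x330000003e00000006 3 6) 0 0 (step_sound _ 2 [(rheb0810cc63b001d8.shift 1 0), (rhfcf1119458f22b28.shift 0 1)] (by decide +kernel))
noncomputable def rhd47e89a378d0962e : CRef := CRef.mk (Pat.mk 0x200000006000000160000000000000000 0x400000006000000060000001e0000000300000003 3 5) 0 0 (step_sound _ 33 [(rh84d1c02a8954c6a8.shift 1 0), rh84f01cf2134210c0] (by decide +kernel))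
noncomputable def rh2944ff78a56ffb12 : CRef := CRef.mk (Pat.mk 0x200000000000000030000000600000000 0x20000000200000002000000070000000700000004 3 3) 0 0 (step_sound _ 97 [(rh55afc6a59410cf00.shift 1 0), (rh85a605aac6183f28.shift 0 1)] (by decide +kernel))
noncomputable def rh0d838079ea817434 : CRef := CRef.mk (Pat.mk 0x1c000000080000000600000004 0x30000001f0000003a0000000600000004 3 6) 0 0 (step_sound _ 97 [rh7f8e4a6fbe0e1f11, (rha03f6e28ea70fc7d.shift 0 2)] (by decide +kernel))
noncomputable def rheb3114fe5f0388b0 : CRef := CRef.mk (Pat.mk 0x18000000080000000e0000000800000000 0x40000001c000000180000000f0000000800000008 3 5) 0 0 (step_sound _ 130 [(rh50fbb5868c909700.shift 2 1), rh5bb287abdb6f055e] (by decide +kernel))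
noncomputable def rh8f60d479c90def20 : CRef := CRef.mk (Pat.mk 0x4000000080000000e0000000800000000 0x40000003c0000000f0000000800000008 3 6) 0 0 (step_sound _ 98 [(rh7b1f1fb55310c477.shift 2 0), (rhf9d36e158778ce35.shift 0 2)] (by decide +kernel))
noncomputable def rhe08f4ad8851692f6 : CRef := CRef.mk (Pat.mk 0x1e0000000c00000008 0x4000000070000003e0000000c00000008 3 6) 0 0 (step_sound _ 97 [(rh3244c3cc8379b070.shift 0 2), (rh7d408f601ae13d9d.shift 1 0)] (by decide +kernel))
noncomputable def rh65c117df1b3d9104 : CRef := CRef.mk (Pat.mk 0x1e0000000c00000008 0x4000000070000003e0000000c00000008 3 6) 0 0 (step_sound _ 98 [(rh2145e1d24b96a57e.shift 2 0), (rhe3060b190bc0bc78.shift 0 2)] (by decide +kernel))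
noncomputable def rh6448cb8e0bc77fe5 : CRef := CRef.mk (Pat.mk 0x40000000e000000070000000200000000 0x40000000e0000003f0000001b00000008 3 6) 0 0 (step_sound _ 67 [rh78974448101547fe, (rha9e1a5d55b907abf.shift 0 1)] (by decide +kernel))
noncomputable def rhbfa5ae416edbb4ba : CRef := CRef.mk (Pat.mk 0x40000000e0000000400000000 0x400000004000000040000003e0000000700000002 3 6) 0 0 (step_sound _ 33 [(rh2612b4f73ba7c3b3.shift 0 1), (rh503dd4575245365b.shift 1 0)] (by decide +kernel))
noncomputable def rhbd38afdbffc3d24e : CRef := CRef.mk (Pat.mk 0x80000000b0000000c0000000800000000 0x40000001c0000000f0000000c0000000800000008 3 5) 0 0 (step_sound _ 98 [(rh33e738c4ed385b9f.shift 0 3), (rhfc7c29d8e65d775f.shift 2 0)] (by decide +kernel))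
noncomputable def rhed7143d28310f0d3 : CRef := CRef.mk (Pat.mk 0x1c0000000a000000080000000800000000 0x1f0000001b000000080000000800000008 3 5) 0 0 (step_sound _ 129 [(rheb0810cc63b001d8.shift 0 3), rhfe3d17030513ae3d] (by decide +kernel))
noncomputable def rh61d35a2c96d183e9 : CRef := CRef.mk (Pat.mk 0x1e000000080000000000000004 0x30000003e0000000f0000000400000004 3 6) 0 0 (step_sound _ 66 [rh0da3f8d18d3a0dfd, (rh4dc133ee0ba1420a.shift 0 2)] (by decide +kernel))
noncomputable def rhb9bf88d3275d2f60 : CRef := CRef.mk (Pat.mk 0x1e0000000800000008 0x400000004000000070000003e0000000c00000008 3 6) 0 0 (step_sound _ 98 [(rhe072fffdd2fccf38.shift 2 0), (rhe3060b190bc0bc78.shift 0 2)] (by decide +kernel))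
noncomputable def rh1fb2830c3f2c259b : CRef := CRef.mk (Pat.mk 0xc0000000c0000001c0000000000000000 0x40000000c0000000c0000001e0000000700000006 3 5) 0 0 (step_sound _ 33 [(rh0c1db84848fdfb70.shift 0 1), (rh5769ed4fe2fe4c14.shift 1 0)] (by decide +kernel))
noncomputable def rh283da7982e0ab792 : CRef := CRef.mk (Pat.mk 0x20000000600000003000000020000000000000000 0x20000000700000007000000030000000300000003 3 3) 0 0 (step_sound _ 33 [rh2d5442cbf338480d, rh7928877f9bf74a91] (by decide +kernel))
noncomputable def rh81d56d6aa95e54dc : CRef := CRef.mk (Pat.mk 0x200000002000000060000000e00000000 0x200000002000000060000003f00000039 3 6) 0 0 (step_sound _ 4 [(rh8ef9dd588f33bbde.shift 1 0), rhce106f686e742a5f] (by decide +kernel))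
end Crest.Agent.S0047.Helper85.Cert
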