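import Crest.Agent.Lib.S0047.Helper85CertPL3F0
import Crest.Agent.Lib.S0047.Helper85CertPL3F1
import Crest.Agent.Lib.S0047.Helper85CertPL3F2
import Crest.Agent.Lib.S0047.Helper85CertPL3F3
import Crest.Agent.Lib.S0047.Helper85CertPL3F4
import Crest.Agent.Lib.S0047.Helper85CertPL3F5
set_option autoImplicit false
set_option linter.all false
set_option Elab.async false
namespace Crest.Agent.S0047.Helper85.Cert
open Crest.Agent.S0047.Helper85

noncomputable def rh15bfdba1faf37c2c : CRef := CRef.mk (Pat.mk 0x180000001a000000000000000800000000 0x40000001f0000001b000000080000000800000008 4 5) 0 0 (step_sound _ 67 [(rh71222050f2c63a3a.shift 3 0), (rh9cac931137f1cfa0.shift 0 1)] (by decide +kernel))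
noncomputable def rh1531355c34484325 : CRef := CRef.mk (Pat.mk 0x2000000070000000e00000000 0x8000000080000001b0000003f0000000e00000004 4 6) 0 0 (step_sound _ 67 [rh5ba2d67652840f34, (rhb762f327c85d41a0.shift 0 1)] (by decide +kernel))
noncomputable def rh6f9d0ef92c6bc639 : CRef := CRef.mk (Pat.mk 0xc0000000c0000000e00000008 0x100000003c0000003f0000000e00000008 4 6) 0 0 (step_sound _ 68 [(rh18965a982d73c794.shift 1 1), rhc0ddb33d3a52722b] (by decide +kernel))
noncomputable def rhe0946ec7555c4ca1 : CRef := CRef.mk (Pat.mk 0x8000000080000000c0000000a00000000 0x8000000080000001f0000003b00000010 4 6) 0 0 (step_sound _ 36 [(rh06c96bdcdd06e437.shift 0 1), (rh55afc6a59410cf00.shift 3 0)] (by decide +kernel))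
noncomputable def rhaa073ccf6512904d : CRef := CRef.mk (Pat.mk 0xc000000080000000c000000080000000000000008 0x100000003c0000000f0000000c000000080000000800000008 4 6) 0 0 (step_sound _ 130 [(rh9e07f76261b05888.shift 2 0), (rhc0ddb33d3a52722b.shift 0 2)] (by decide +kernel))
noncomputable def rh099a4ec72b73d1a6 : CRef := CRef.mk (Pat.mk 0xc00000004000000040000000400000000 0x20000000f0000003c000000040000000400000004 4 6) 0 0 (step_sound _ 99 [(rh71222050f2c63a3a.shift 2 0), (rhcf85c92937975d4d.shift 0 1)] (by decide +kernel))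
noncomputable def rh47c52a7e57d2da64 : CRef := CRef.mk (Pat.mk 0x10000000600000002000000020000000200000000 0x200000003000000030000000600000006000000060000000200000002 4 3) 0 0 (step_sound _ 161 [(rh50fbb5868c909700.shift 0 2), (rhf2568c0049eb2085.shift 1 0)] (by decide +kernel))
noncomputable def rh0c508dd24d4089fa : CRef := CRef.mk (Pat.mk 0x160000001a00000000 0x1000000010000000300000001e0000001b00000008 4 6) 0 0 (step_sound _ 67 [(rh5ba2d67652840f34.shift 1 0), (rheb0810cc63b001d8.shift 0 1)] (by decide +kernel))
noncomputable def rh293962040e7ea514 : CRef := CRef.mk (Pat.mk 0xa00000008000000080000000800000000 0x40000000f0000003c000000080000000800000008 4 6) 0 0 (step_sound _ 130 [(rh50fbb5868c909700.shift 2 1), rh8e9a52cb52d6b507] (by decide +kernel))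
noncomputable def rhb60f052e6681930f : CRef := CRef.mk (Pat.mk 0xa00000008000000080000000800000000 0x40000001f00000038000000080000000800000008 4 6) 0 0 (step_sound _ 130 [(rh50fbb5868c909700.shift 2 1), rhfd9bf52e4153cf20] (by decide +kernel))
noncomputable def rhf5152ac7cd56ad5c : CRef := CRef.mk (Pat.mk 0x500000004000000040000000400000000 0xa0000000f0000001c000000040000000400000004 4 5) 0 0 (step_sound _ 129 [(rh50fbb5868c909700.shift 1 1), rhfe21fdd79c5e4aa7] (by decide +kernel))
noncomputable def rh1d8af2a1b39e5c14 : CRef := CRef.mk (Pat.mk 0x40000000e0000000c00000006 0x2000000070000003e0000003c00000006 4 6) 0 0 (step_sound _ 37 [(rh361cc68994bd8a63.shift 1 0), rhaef2adbbd453a55b] (by decide +kernel))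
noncomputable def rh6a5cd2a70fe239de : CRef := CRef.mk (Pat.mk 0xe00000008000000080000000800000000 0x180000000f000000180000000c0000000c00000004 4 5) 0 0 (step_sound _ 128 [rhd3cb84f43d1823f0, (rhe25b0a99195a5d59.shift 0 3)] (by decide +kernel))
noncomputable def rhb000b47a35eee953 : CRef := CRef.mk (Pat.mk 0x40000003c00000002 0xec0000007e00000003 4 8) 0 0 (step_sound _ 33 [(rh790acd67f4fffd04.shift 2 1), rheb0810cc63b001d8] (by decide +kernel))
noncomputable def rhb91335287086cf76 : CRef := CRef.mk (Pat.mk 0xe000000000000000800000000 0x4000000040000000c0000000f0000007c0000000800000008 4 7) 0 0 (step_sound _ 67 [(rh7b24c4ccc068b0b2.shift 2 0), (rhb1a251d9bff81766.shift 2 0), (rhc21a95c499b3efdb.shift 0 2)] (by decide +kernel))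
noncomputable def rh21c9eb4e9f34f7fb : CRef := CRef.mk (Pat.mk 0x1e00000018000000100000000000000000 0x270000003e00000018000000100000001000000010 4 6) 0 0 (step_sound _ 36 [(rh17659c9d2e0466f4.shift 0 1), (rh7b1f1fb55310c477.shift 3 0)] (by decide +kernel))
noncomputable def rha210c422688bf4e3 : CRef := CRef.mk (Pat.mk 0x700000006000000040000000000000000 0x50000000700000006000000060000000600000006 4 3) 0 0 (step_sound _ 34 [rh521e60ddfe76d299, (rh7b1f1fb55310c477.shift 1 0)] (by decide +kernel))
noncomputable def rh16763889f7567d73 : CRef := CRef.mk (Pat.mk 0x100000001e00000000 0x1c000000ff00000070 4 8) 0 0 (step_sound _ 37 [(rh30d951fefd654979.shift 0 1), (rh4ad5fc38f1b69f65.shift 1 0)] (by decide +kernel))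
noncomputable def rh4203038acfa1c89f : CRef := CRef.mk (Pat.mk 0x3000000060000000500000000 0x30000000300000003000000060000000700000003 4 3) 0 0 (step_sound _ 129 [(rh2145e1d24b96a57e.shift 1 1), rh752c9303f297f9fa] (by decide +kernel))
noncomputable def rh681420f7738fc424 : CRef := CRef.mk (Pat.mk 0x1c00000018000000100000001000000000 0x300000001f00000018000000300000003000000020 4 6) 0 0 (step_sound _ 129 [(rh98297410a639a85a.shift 1 0), (rhb739f4f82bb681b4.shift 0 3)] (by decide +kernel))
noncomputable def rha30365077b15a33d : CRef := CRef.mk (Pat.mk 0x3000000070000000200000006 0x1c0000001f000000070000000600000006 4 5) 0 0 (step_sound _ 98 [(rh2f68792b6b779e96.shift 1 0), rhde6855bd4bb88943] (by decide +kernel))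
noncomputable def rhbfdaafe6cbbfd7f3 : CRef := CRef.mk (Pat.mk 0x400000003800000020 0x670000003e00000030 4 7) 0 0 (step_sound _ 34 [(rh428265de8cd3cd2d.shift 2 1), rhd1d05263fabc0227] (by decide +kernel))
noncomputable def rh63a29a5e89bddbd7 : CRef := CRef.mk (Pat.mk 0x1e000000000000000000000010 0x380000001f000000300000001000000010 4 6) 0 0 (step_sound _ 68 [rh8e3641487fbeb4ed, (rhe25b0a99195a5d59.shift 1 2)] (by decide +kernel))
noncomputable def rh5970bab9912d2fed : CRef := CRef.mk (Pat.mk 0x1e00000010000000000000000800000000 0x10000000100000001f00000018000000180000000800000008 4 5) 0 0 (step_sound _ 99 [(rh580df77fe152422b.shift 3 0), (rhb739f4f82bb681b4.shift 0 3)] (by decide +kernel))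
noncomputable def rh7b38a00019a0031b : CRef := CRef.mk (Pat.mk 0x600000007000000000000000800000000 0x3e0000003f000000180000000800000008 4 6) 0 0 (step_sound _ 99 [rh2bbc4934553ffbfd, (rh8c2361c727ab1a01.shift 0 3)] (by decide +kernel))
noncomputable def rh9edeb982515330c5 : CRef := CRef.mk (Pat.mk 0x1e00000000000000000000000800000000 0x40000001f00000038000000080000000800000008 4 6) 0 0 (step_sound _ 100 [rh77a20c8e0241bc50, (rhe25b0a99195a5d59.shift 1 3)] (by decide +kernel))
noncomputable def rhf842fc5c3001676e : CRef := CRef.mk (Pat.mk 0x1e00000014000000000000001000000000 0x80000001e0000001f000000300000001000000010 4 6) 0 0 (step_sound _ 68 [(rh50fbb5868c909700.shift 3 1), rhbbf7d90ba7a19a17] (by decide +kernel))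
noncomputable def rhf46246cf3f4adb4a : CRef := CRef.mk (Pat.mk 0x1e00000000000000000000001000000000 0x80000001f00000038000000100000001000000010 4 6) 0 0 (step_sound _ 100 [rh9b5f1d0019ee4eb9, (rhe25b0a99195a5d59.shift 1 3)] (by decide +kernel))
noncomputable def rh4b783bb445d2d96a : CRef := CRef.mk (Pat.mk 0x200000002000000020000000600000000 0x4000000060000000600000002000000060000000700000001 4 3) 0 0 (step_sound _ 0 [(rh73f605273a09a9d0.shift 1 1), rh79877ebd3ef475dd] (by decide +kernel))
noncomputable def rh8dce4397d6075b0b : CRef := CRef.mk (Pat.mk 0x800000008000000180000000800000000 0x800000008000000780000001f00000004 4 7) 0 0 (step_sound _ 34 [(rh574fdbf07bdd18b9.shift 0 1), (rh932754581e0f4330.shift 2 0)] (by decide +kernel))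
noncomputable def rh4ef25bfa5e10fc62 : CRef := CRef.mk (Pat.mk 0x20000000e00000002 0x60000003e00000073 4 7) 0 0 (step_sound _ 36 [(rh2aac33c566332a8c.shift 1 0), rheb0810cc63b001d8] (by decide +kernel))
noncomputable def rhe3961e3ead002362 : CRef := CRef.mk (Pat.mk 0x8000000080000000800000018 0x800000008000000080000001f0000007c 4 7) 0 0 (step_sound _ 34 [rh2cf3811cd806da5b, rh3c3e23a02e82b2ed, (rh85a605aac6183f28.shift 2 0)] (by decide +kernel))
noncomputable def rh3496008575b0c978 : CRef := CRef.mk (Pat.mk 0xf00000001000000010000000500000000 0x40000001f00000003000000030000000700000006 4 5) 0 0 (step_sound _ 97 [(rh18965a982d73c794.shift 0 3), rh82393b48a1e151ba] (by decide +kernel))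
noncomputable def rh7e99bad398b5e81a : CRef := CRef.mk (Pat.mk 0x600000006000000000000000c00000000 0x80000003e00000007000000040000000c00000008 4 6) 0 0 (step_sound _ 66 [(rh55afc6a59410cf00.shift 2 0), (rh861ee9d7304b9753.shift 0 1)] (by decide +kernel))
noncomputable def rhc8e4c908cab1a418 : CRef := CRef.mk (Pat.mk 0x2000000020000000300000003000000000000000400000000 0x400000006000000060000000300000003000000020000000600000006 4 3) 0 0 (step_sound _ 194 [(rh2f68792b6b779e96.shift 1 3), rh7857370417d15f39] (by decide +kernel))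
noncomputable def rhba50fd7aca570c30 : CRef := CRef.mk (Pat.mk 0x1e000000100000000000000000 0x10000000300000001f000000180000000800000008 4 6) 0 0 (step_sound _ 67 [(rh34b1188e635efc8d.shift 1 0), (rhb739f4f82bb681b4.shift 0 2)] (by decide +kernel))
noncomputable def rh66705069e76f670f : CRef := CRef.mk (Pat.mk 0x90000000700000000 0x1b0000001f00000038 4 6) 0 0 (step_sound _ 35 [rh2aac33c566332a8c, (rh33e738c4ed385b9f.shift 0 1)] (by decide +kernel))
noncomputable def rh358eeca2bd395639 : CRef := CRef.mk (Pat.mk 0x4000000080000001800000008 0xc0000000c000000080000007c0000001f 4 7) 0 0 (step_sound _ 2 [(rh279390dc89a6bb3a.shift 2 0), rh574fdbf07bdd18b9, rhd69c262cd33b94b3] (by decide +kernel))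
noncomputable def rh2793be06f124c05c : CRef := CRef.mk (Pat.mk 0x100000003800000004 0x370000003e00000006 4 6) 0 0 (step_sound _ 34 [(rheb0810cc63b001d8.shift 1 0), (rhedf6b6c69a16cbd5.shift 0 1)] (by decide +kernel))
noncomputable def rhafcb5a75269730e3 : CRef := CRef.mk (Pat.mk 0x1800000008000000080000000800000000 0x7c0000001f000000080000000800000008 4 7) 0 0 (step_sound _ 98 [(rh2d5442cbf338480d.shift 2 0), rh52b3bc442b8c6b35, (rh69012675dfdb1a5b.shift 0 3)] (by decide +kernel))
noncomputable def rhca014d4dbe230e87 : CRef := CRef.mk (Pat.mk 0xe0000000d000000040000000400000000 0x300000001e0000000f0000000c0000000c00000008 4 6) 0 0 (step_sound _ 132 [(rh4522ea7bef838818.shift 1 0), (rh80fcd6d0a18cb2dd.shift 0 3)] (by decide +kernel))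
noncomputable def rhfc21d93c70905a0f : CRef := CRef.mk (Pat.mk 0x40000000c0000000400000004 0xa0000000f0000003c0000000400000004 4 6) 0 0 (step_sound _ 99 [(rh2f68792b6b779e96.shift 2 0), rhcf85c92937975d4d] (by decide +kernel))
noncomputable def rh32ad22d6e9e34b55 : CRef := CRef.mk (Pat.mk 0x1000000010000000100000001000000000000000100000000 0x200000003000000030000000100000001000000030000000300000002 4 2) 0 0 (step_sound _ 193 [(rh2f68792b6b779e96.shift 0 3), rh3bc899f5e1481d41] (by decide +kernel))
noncomputable def rhfef1ab51412d1834 : CRef := CRef.mk (Pat.mk 0x200000007800000018 0x7c0000007f00000018 4 7) 0 0 (step_sound _ 67 [(rh3244c3cc8379b070.shift 2 1), rh41835ba1dc72c0ef] (by decide +kernel))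
noncomputable def rhd462f2ebc8407985 : CRef := CRef.mk (Pat.mk 0x7800000018 0xf0000007f00000038 4 7) 0 0 (step_sound _ 34 [rhad5d8fc3675c15dd, rhba89ab7cb81bcc90, (rhd5eb272e07a4e288.shift 1 1)] (by decide +kernel))
noncomputable def rh1ba597799b5c5efa : CRef := CRef.mk (Pat.mk 0x8000000180000001e00000006 0x60000000f0000001b0000001e00000006 4 5) 0 0 (step_sound _ 65 [(rh3244c3cc8379b070.shift 0 1), rhbad97a0fc5ad232d] (by decide +kernel))
noncomputable def rh12c8c2b9ec3eca9f : CRef := CRef.mk (Pat.mk 0x1a000000060000000200000000 0x200000006000000070000001e000000060000000600000002 4 5) 0 0 (step_sound _ 98 [(rh84d1c02a8954c6a8.shift 1 0), (rhbdb8dfd08861fbf7.shift 0 1)] (by decide +kernel))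
noncomputable def rh8a43f6f8aecc2e36 : CRef := CRef.mk (Pat.mk 0xf00000003000000000000000800000000 0x40000000f0000001f000000180000000800000008 4 5) 0 0 (step_sound _ 99 [rh0e555e8b4aaee7e2, (rhe25b0a99195a5d59.shift 0 3)] (by decide +kernel))
noncomputable def rhc7145c90d64786a7 : CRef := CRef.mk (Pat.mk 0xc000000040000000c0000000c00000000 0x20000000f0000003c0000000c0000000c00000004 4 6) 0 0 (step_sound _ 99 [(rh932754581e0f4330.shift 2 0), (rhcf85c92937975d4d.shift 0 1)] (by decide +kernel))
noncomputable def rh0eb10737238714ef : CRef := CRef.mk (Pat.mk 0x1600000002 0x70000003e00000007 4 6) 0 0 (step_sound _ 35 [rh4c6d407c2048a5bb, rheb0810cc63b001d8] (by decide +kernel))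
noncomputable def rh9ef3b07da8c55998 : CRef := CRef.mk (Pat.mk 0x18000000100000001e0000001000000000 0x20000000380000001f0000001e0000001000000010 4 6) 0 0 (step_sound _ 99 [(rh7b1f1fb55310c477.shift 3 0), (rhf9bd4bdd448a5193.shift 0 1)] (by decide +kernel))
noncomputable def rh7ea0777708e7d2eb : CRef := CRef.mk (Pat.mk 0x20000000b0000000200000002 0x50000001f0000001b0000000200000002 4 5) 0 0 (step_sound _ 96 [rh50fbb5868c909700, rhfed57f23c5f345ee] (by decide +kernel))
noncomputable def rha4ae2ee71608971a : CRef := CRef.mk (Pat.mk 0x180000003800000020 0x180000003f00000067 4 7) 0 0 (step_sound _ 34 [rhcc2be1f880c5ea3e, (rhe25b0a99195a5d59.shift 2 0)] (by decide +kernel))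
noncomputable def rhabf5497ec964aa6c : CRef := CRef.mk (Pat.mk 0x60000000e000000000000000800000000 0x60000003f000000380000000800000008 4 6) 0 0 (step_sound _ 67 [(rh02236cae5f77c8e6.shift 0 2), (rh7b1f1fb55310c477.shift 2 0)] (by decide +kernel))
noncomputable def rhcaf67e4505418626 : CRef := CRef.mk (Pat.mk 0x40000000e0000001c00000008 0x10000000770000007e0000001c00000008 4 7) 0 0 (step_sound _ 68 [(rh226655e3fe6b4a8a.shift 1 1), (rh5421160f8e9bcf07.shift 1 0), (rhb762f327c85d41a0.shift 1 1), (rhe3060b190bc0bc78.shift 0 2)] (by decide +kernel))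
noncomputable def rh0105b2139521f473 : CRef := CRef.mk (Pat.mk 0x20000000200000002000000020000000200000000 0x200000002000000030000000300000003000000030000000200000002 4 2) 0 0 (step_sound _ 128 [(rh50fbb5868c909700.shift 0 1), rhc4c6de062e376aad] (by decide +kernel))
noncomputable def rh08a30ea5f80f9528 : CRef := CRef.mk (Pat.mk 0xc00000008000000280000001800000000 0x80000000c0000001f000000380000001800000008 4 6) 0 0 (step_sound _ 68 [(rh2145e1d24b96a57e.shift 3 1), rhdc2f40eca053486f] (by decide +kernel))
noncomputable def rhf221f952be3bc70e : CRef := CRef.mk (Pat.mk 0x1e0000001e00000000 0x200000002000000030000001e0000001e00000007 4 5) 0 0 (step_sound _ 1 [rhbdb8dfd08861fbf7, rheb0810cc63b001d8] (by decide +kernel))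
noncomputable def rh3ad675a172d88c03 : CRef := CRef.mk (Pat.mk 0x60000001e000000180000000000000000 0x60000001e0000001f0000000300000003 4 5) 0 0 (step_sound _ 65 [rhe58a7845769190f3, (rheb0810cc63b001d8.shift 0 2)] (by decide +kernel))
noncomputable def rh330f820e7f44bd5b : CRef := CRef.mk (Pat.mk 0x300000003000000020000000200000000 0x200000002000000020000000300000003000000070000000600000004 4 3) 0 0 (step_sound _ 34 [(rh55afc6a59410cf00.shift 1 0), (rh7475811764a812de.shift 0 1)] (by decide +kernel))
noncomputable def rh5974029d68103ee7 : CRef := CRef.mk (Pat.mk 0x80000000c0000000800000010 0x8000000080000001f0000007800000010 4 7) 0 0 (step_sound _ 36 [(rh2145e1d24b96a57e.shift 3 0), (rh4ca5dae25f5c14ff.shift 0 1)] (by decide +kernel))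
noncomputable def rh53a46ddb51f5b71f : CRef := CRef.mk (Pat.mk 0x1e000000020000000200000000 0x2000000030000003e000000060000000600000004 4 6) 0 0 (step_sound _ 129 [(rh3244c3cc8379b070.shift 0 3), (rh38d88ed43fa202c6.shift 1 0)] (by decide +kernel))
noncomputable def rhc138c4cf5959f12b : CRef := CRef.mk (Pat.mk 0x80000000c0000000800000010 0x8000000080000000f0000007c00000010 4 7) 0 0 (step_sound _ 36 [(rh2145e1d24b96a57e.shift 3 0), (rhdeca8db941583de2.shift 0 1)] (by decide +kernel))
noncomputable def rh984a59dca0ad86bb : CRef := CRef.mk (Pat.mk 0x200000002000000020000000500000000 0x1000000030000000300000002000000030000000700000004 4 3) 0 0 (step_sound _ 161 [(rh79877ebd3ef475dd.shift 0 1), rhb687ca735479b4da] (by decide +kernel))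
noncomputable def rhd404a62a581ef695 : CRef := CRef.mk (Pat.mk 0xe000000000000000400000000 0x8000000080000007c0000000f0000000c0000000400000004 4 7) 0 0 (step_sound _ 131 [(rh580df77fe152422b.shift 2 0), (rhff7d63dcb3cf9f74.shift 0 3)] (by decide +kernel))
noncomputable def rh0b99daf88cf56646 : CRef := CRef.mk (Pat.mk 0x1e000000100000001000000000 0x280000003e000000170000001000000010 4 6) 0 0 (step_sound _ 4 [rh3ab5c2a171313cdf, (rh50fbb5868c909700.shift 3 0)] (by decide +kernel))
noncomputable def rh9f53941b2ebdb395 : CRef := CRef.mk (Pat.mk 0xe000000010000000200000000 0x400000004000000040000001e000000070000000200000002 4 5) 0 0 (step_sound _ 65 [(rh18965a982d73c794.shift 0 2), (rhb730ba14aa32bdb3.shift 1 0)] (by decide +kernel))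
noncomputable def rh2e7017bd00773d4a : CRef := CRef.mk (Pat.mk 0xc0000000c0000000c0000001c 0x20000000f0000003c0000000f0000001c 4 6) 0 0 (step_sound _ 33 [rh53cccbb248b8ab65, rhb739f4f82bb681b4] (by decide +kernel))
noncomputable def rh991484d3cbf908b4 : CRef := CRef.mk (Pat.mk 0xe000000180000003800000000 0x10000000100000001e0000001f0000003800000020 4 6) 0 0 (step_sound _ 65 [rh721d8ecdcc29ae89, (rhab22b5b56e7b3243.shift 1 1)] (by decide +kernel))
noncomputable def rh008b05f4778dc30d : CRef := CRef.mk (Pat.mk 0x3c00000000 0x3e00000077 4 7) 0 0 (step_sound _ 1 [(rh80fcd6d0a18cb2dd.shift 1 0), rh8c590dcbef2e4cc5] (by decide +kernel))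
noncomputable def rh5f7b3bfbaf903d4f : CRef := CRef.mk (Pat.mk 0x1e00000000 0x70000003e00000007 4 6) 0 0 (step_sound _ 65 [rh2d3cfdad8a2a86a9, (rh3244c3cc8379b070.shift 0 1)] (by decide +kernel))
noncomputable def rh4c0fcb205717f138 : CRef := CRef.mk (Pat.mk 0x1c00000010 0x380000001f00000038 4 6) 0 0 (step_sound _ 33 [rha4e794e69630f173, (rhe25b0a99195a5d59.shift 1 0)] (by decide +kernel))
noncomputable def rh622e448bbfbd38ee : CRef := CRef.mk (Pat.mk 0x40000000600000007000000020000000000000000 0x600000006000000070000001e0000000c0000000c 4 5) 0 0 (step_sound _ 66 [(rh3cb04db3dd2b6a55.shift 1 0), (rh42afa1af9fffa0e1.shift 0 1), (rh820d4e04d5dcd02e.shift 1 0)] (by decide +kernel))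
noncomputable def rh9a85f3aff7ea5cad : CRef := CRef.mk (Pat.mk 0x200000003000000060000000e00000000 0xc0000001e00000007000000060000000e00000008 4 5) 0 0 (step_sound _ 130 [(rh2f68792b6b779e96.shift 1 1), rh823293f69a08ad12] (by decide +kernel))
noncomputable def rhaaf7f80df1989e30 : CRef := CRef.mk (Pat.mk 0x3000000030000000500000000 0x30000000300000003000000030000000700000006 4 3) 0 0 (step_sound _ 129 [(rh5c5e593799055d58.shift 0 1), rhc7a10ee8d0d37048] (by decide +kernel))
noncomputable def rh0f88566f1a09c677 : CRef := CRef.mk (Pat.mk 0x80000000c0000000800000008 0x100000007c0000000f0000000800000008 4 7) 0 0 (step_sound _ 100 [(rh2f68792b6b779e96.shift 3 0), (rhd69c262cd33b94b3.shift 0 2)] (by decide +kernel))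
noncomputable def rh5f16ef4c2153b86a : CRef := CRef.mk (Pat.mk 0x70000000e0000000800000000 0x8000000180000003f0000000f0000000c00000004 4 6) 0 0 (step_sound _ 99 [(rh2612b4f73ba7c3b3.shift 0 2), rh7ff601fc6d1f05ff] (by decide +kernel))
noncomputable def rh0676f88fdf10751a : CRef := CRef.mk (Pat.mk 0xe0000001800000028 0x10000000300000003e0000001f00000038 4 6) 0 0 (step_sound _ 68 [(rh5421160f8e9bcf07.shift 1 0), rh5a05909f84352d1f] (by decide +kernel))
noncomputable def rh1d8750d28df937f5 : CRef := CRef.mk (Pat.mk 0x80000000e000000000000001400000000 0x180000000f000000180000001c00000014 4 5) 0 0 (step_sound _ 96 [(rh33e738c4ed385b9f.shift 0 3), rh60fd8cc80dd27878] (by decide +kernel))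
noncomputable def rh7edb682a906f5030 : CRef := CRef.mk (Pat.mk 0x20000000200000003000000000000000400000000 0x30000000300000003000000060000000600000006 4 3) 0 0 (step_sound _ 65 [rhc7a10ee8d0d37048, (rhd3458b32566d63f7.shift 1 1)] (by decide +kernel))
noncomputable def rh198ec020432d296e : CRef := CRef.mk (Pat.mk 0xe000000030000000600000004 0x80000000f0000001b0000001f00000004 4 5) 0 0 (step_sound _ 35 [(rhf48373e13d2bc128.shift 0 1), rhfbf32aaaa4505e73] (by decide +kernel))
noncomputable def rh76c4edc656936505 : CRef := CRef.mk (Pat.mk 0xc0000000f00000000 0xe0000007f00000038 4 7) 0 0 (step_sound _ 4 [(rh41a0b53fa256048c.shift 1 0), rh96851dee118c1ba3] (by decide +kernel))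
noncomputable def rhd125751b7dddda92 : CRef := CRef.mk (Pat.mk 0x200000003000000000000000500000000 0x2000000020000000700000007000000070000000500000004 4 3) 0 0 (step_sound _ 161 [(rh319673309b7ac683.shift 0 1), (rh615a42bddefc9f31.shift 0 1), (rhb5bfb93a69499a93.shift 1 0)] (by decide +kernel))
noncomputable def rh2489a6362d409e73 : CRef := CRef.mk (Pat.mk 0x60000000b 0x1f0000007f 4 7) 0 0 (step_sound _ 35 [rh18965a982d73c794, rhc21a95c499b3efdb] (by decide +kernel))
noncomputable def rhbd279f5f5cd2b8e8 : CRef := CRef.mk (Pat.mk 0x400000006000000080000000800000000 0x40000001f000000780000000800000008 4 7) 0 0 (step_sound _ 99 [(rh7b1f1fb55310c477.shift 2 0), (rh8ee80cc30e93a344.shift 0 2)] (by decide +kernel))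
noncomputable def rh588882c60a173ffc : CRef := CRef.mk (Pat.mk 0x40000000e000000000000000800000000 0x40000001f000000780000000800000008 4 7) 0 0 (step_sound _ 67 [(rh7b1f1fb55310c477.shift 2 0), (rh8ee80cc30e93a344.shift 0 2)] (by decide +kernel))
noncomputable def rh7b9364b1e35b54aa : CRef := CRef.mk (Pat.mk 0x1e000000000000000800000000 0x10000000380000001f000000080000000800000008 4 6) 0 0 (step_sound _ 132 [rh25bdc949d023a4d1, (rh33e738c4ed385b9f.shift 1 3)] (by decide +kernel))
noncomputable def rh77e74b92a6996e26 : CRef := CRef.mk (Pat.mk 0x7c00000000 0x70000007f0000003c 4 7) 0 0 (step_sound _ 33 [rh332d72a610d43947, (rhd5eb272e07a4e288.shift 0 1)] (by decide +kernel))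
noncomputable def rhc4f46c33f5dbf83b : CRef := CRef.mk (Pat.mk 0x700000004000000050000000400000000 0x50000000700000007000000070000000600000002 4 3) 0 0 (step_sound _ 33 [(rh3b822c12dc2c4f39.shift 0 1), (rh932754581e0f4330.shift 1 0)] (by decide +kernel))
noncomputable def rh6a5aad1075fb7119 : CRef := CRef.mk (Pat.mk 0x40000000f00000000 0x70000003f00000038 4 6) 0 0 (step_sound _ 4 [rh20aaab6250709fa0, rh96851dee118c1ba3] (by decide +kernel))
noncomputable def rha3804abfec7df74a : CRef := CRef.mk (Pat.mk 0x80000001c000000000000001000000000 0x380000001f000000300000001000000010 4 6) 0 0 (step_sound _ 68 [(rh3ce854f4a795c89f.shift 0 2), (rh7b1f1fb55310c477.shift 3 0)] (by decide +kernel))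
noncomputable def rh3e337bea931a14c4 : CRef := CRef.mk (Pat.mk 0xf000000020000000a0000000000000000 0xa0000000f0000001a0000000e0000000e00000004 4 5) 0 0 (step_sound _ 99 [(rh1c365c76821ab000.shift 1 0), (rhe25b0a99195a5d59.shift 0 3)] (by decide +kernel))
noncomputable def rh90b7179ed187cb22 : CRef := CRef.mk (Pat.mk 0x6000000160000001000000000 0x400000004000000060000001e0000003300000002 4 6) 0 0 (step_sound _ 67 [rh031a926e4a883687, (rhe25b0a99195a5d59.shift 1 1)] (by decide +kernel))
noncomputable def rh03ce508ffa76637b : CRef := CRef.mk (Pat.mk 0xc00000008000000100000000000000000 0x8000000080000000f0000007c000000180000001000000010 4 7) 0 0 (step_sound _ 100 [(rhc38f566cab2818e5.shift 3 0), (rhdeca8db941583de2.shift 0 3)] (by decide +kernel))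
noncomputable def rh1467579d82f7fd3f : CRef := CRef.mk (Pat.mk 0x1c000000060000001c00000008 0x2000000130000001e000000360000001c00000008 4 6) 0 0 (step_sound _ 68 [(rh5c5e593799055d58.shift 3 0), (rhfe3b4040a5e9fe0b.shift 0 1)] (by decide +kernel))
noncomputable def rh1202761e242e38e5 : CRef := CRef.mk (Pat.mk 0x2000000030000000600000006000000000000000000000000 0x400000006000000070000000700000006000000020000000200000002 4 3) 0 0 (step_sound _ 194 [(rh2f68792b6b779e96.shift 1 3), rha828c73cac252083] (by decide +kernel))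
noncomputable def rhada3ac4b811cf4f9 : CRef := CRef.mk (Pat.mk 0x600000003000000020000000000000000 0x1000000050000000700000003000000030000000200000002 4 3) 0 0 (step_sound _ 33 [(rh2f68792b6b779e96.shift 1 1), rhf9a6286f1d5377a2] (by decide +kernel))
noncomputable def rh8d970345f31a7d67 : CRef := CRef.mk (Pat.mk 0x800000007000000000000000400000000 0x800000008000000180000000f0000000c0000000400000004 4 5) 0 0 (step_sound _ 99 [(rh33e738c4ed385b9f.shift 0 3), (rh580df77fe152422b.shift 2 0)] (by decide +kernel))
noncomputable def rh68ea0a57ffa23c21 : CRef := CRef.mk (Pat.mk 0x80000000c00000018000000000000000000000000 0x8000000080000001f00000018000000100000001000000010 4 5) 0 0 (step_sound _ 129 [(rh046c5eb18e55a239.shift 3 0), (rhb739f4f82bb681b4.shift 0 3)] (by decide +kernel))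
noncomputable def rhb67cb32759fb664f : CRef := CRef.mk (Pat.mk 0x200000002000000060000000200000002 0x3000000030000000700000006000000060000000200000002 4 3) 0 0 (step_sound _ 98 [(rh2f68792b6b779e96.shift 1 0), (rh7b9fbdf6d2d059e4.shift 0 1)] (by decide +kernel))
noncomputable def rh8bfafb9e7ef9ac91 : CRef := CRef.mk (Pat.mk 0x40000000c000000080000001800000000 0x100000003c0000000f000000080000001800000010 4 6) 0 0 (step_sound _ 131 [(rh55afc6a59410cf00.shift 3 0), (rhc0ddb33d3a52722b.shift 0 1)] (by decide +kernel))
noncomputable def rh70bb96c7dfab8ffc : CRef := CRef.mk (Pat.mk 0x80000000c0000000c0000001800000000 0x10000000180000003c0000000f0000001800000008 4 6) 0 0 (step_sound _ 65 [(rhb739f4f82bb681b4.shift 0 1), (rhece3f14d484173c8.shift 1 0)] (by decide +kernel))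
noncomputable def rh33f5842b17e00b84 : CRef := CRef.mk (Pat.mk 0x50000000100000005000000020000000000000000 0x5000000050000000500000007000000060000000200000002 4 3) 0 0 (step_sound _ 97 [(rh2145e1d24b96a57e.shift 0 2), rha53095e9deeca150] (by decide +kernel))
noncomputable def rhac5757e976034cc0 : CRef := CRef.mk (Pat.mk 0x800000008000000080000000b0000000000000000 0x800000008000000080000001b0000001e00000014 4 5) 0 0 (step_sound _ 36 [rh2abc0c2990dfbd23, (rhd3458b32566d63f7.shift 3 1)] (by decide +kernel))
noncomputable def rhe220a3c60ae0ac17 : CRef := CRef.mk (Pat.mk 0xa0000000a000000080000000800000000 0x100000001e0000003b000000080000000800000008 4 6) 0 0 (step_sound _ 132 [(rh2f68792b6b779e96.shift 3 1), rh7f8022033f135641] (by decide +kernel))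
noncomputable def rh63c2419efac8f554 : CRef := CRef.mk (Pat.mk 0x2000000000000000500000005000000050000000000000000 0x2000000060000000500000005000000070000000700000002 4 3) 0 0 (step_sound _ 162 [rh257fa66c90152105, (rhffd04209dc8ea796.shift 1 2)] (by decide +kernel))
noncomputable def rh2004a6318a3c1582 : CRef := CRef.mk (Pat.mk 0x2000000000000000500000005000000050000000000000000 0xa0000000e0000000c0000000500000005000000070000000700000002 4 4) 0 0 (step_sound _ 162 [rh257fa66c90152105, (rhae372274d1226efc.shift 1 2)] (by decide +kernel))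
noncomputable def rh27ce058b59d72f64 : CRef := CRef.mk (Pat.mk 0x1e00000000 0x700000003e00000007 4 7) 0 0 (step_sound _ 69 [(rh428265de8cd3cd2d.shift 1 1), rha3b69f5d63cf6454] (by decide +kernel))
noncomputable def rh9c548838e8725ba1 : CRef := CRef.mk (Pat.mk 0x3c00000000 0x70000003e00000070 4 7) 0 0 (step_sound _ 65 [(rh3f8766e6ecb455ce.shift 1 1), rh9823d795ad2dac56] (by decide +kernel))
noncomputable def rh3340d8d890de195b : CRef := CRef.mk (Pat.mk 0x80000000f000000000000000400000000 0x40000000c0000000f000000180000000c0000000c 4 5) 0 0 (step_sound _ 67 [(rh752c9303f297f9fa.shift 2 0), (rhe25b0a99195a5d59.shift 0 2)] (by decide +kernel))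
noncomputable def rh516d1f4e96267bf8 : CRef := CRef.mk (Pat.mk 0xf0000000000000004000000000000000400000000 0xf0000001c0000000c0000000c0000000400000004 4 5) 0 0 (step_sound _ 131 [(rh3dd695ff357950cb.shift 2 0), (rhe25b0a99195a5d59.shift 0 4)] (by decide +kernel))
noncomputable def rh720338d7c09a2c09 : CRef := CRef.mk (Pat.mk 0xb0000000f0000000000000004 0x10000000180000000f0000000f0000001c00000004 4 5) 0 0 (step_sound _ 35 [rh54b0138fc9c15391, (rhe25b0a99195a5d59.shift 0 1)] (by decide +kernel))
noncomputable def rh98b64c5d74c79655 : CRef := CRef.mk (Pat.mk 0x7000000010000000500000000 0x2000000020000000600000007000000050000000500000005 4 3) 0 0 (step_sound _ 129 [rh71222050f2c63a3a, rha510588bba5f6b6d] (by decide +kernel))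
noncomputable def rh03a6f79dca3226c9 : CRef := CRef.mk (Pat.mk 0x4000000000000000f000000000000000000000000 0x400000004000000040000000f0000001c0000000800000008 4 5) 0 0 (step_sound _ 67 [(rh0588d2c7f2cab5e9.shift 2 0), (rhe25b0a99195a5d59.shift 0 2)] (by decide +kernel))
noncomputable def rh73a91115cefcd038 : CRef := CRef.mk (Pat.mk 0x2000000060000001a000000020000000000000000 0x2000000060000001e000000070000000600000006 4 5) 0 0 (step_sound _ 98 [(rh4053c12da95c0aa0.shift 1 0), (rheb0810cc63b001d8.shift 0 2)] (by decide +kernel))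
noncomputable def rh6f022302a8eeec88 : CRef := CRef.mk (Pat.mk 0x60000000200000002000000040000000000000000 0x60000000600000002000000070000000700000001 4 3) 0 0 (step_sound _ 65 [(rh55afc6a59410cf00.shift 1 1), rha8bc3cae4d77a08f] (by decide +kernel))
noncomputable def rhcf72250f78f7d72f : CRef := CRef.mk (Pat.mk 0xe000000000000000200000002 0x1000000070000001f000000020000000200000002 4 5) 0 0 (step_sound _ 65 [(rh2f68792b6b779e96.shift 1 0), rh5cbe34a540eef4f6] (by decide +kernel))
noncomputable def rhdec73fa5b5af4323 : CRef := CRef.mk (Pat.mk 0xe000000000000000800000008 0x100000001c0000001f000000080000000800000008 4 5) 0 0 (step_sound _ 67 [rh44f2ec19b3452892, (rh50fbb5868c909700.shift 2 0)] (by decide +kernel))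
noncomputable def rh636d52ee546f6b47 : CRef := CRef.mk (Pat.mk 0x100000000000000020000000200000002 0x50000000700000007000000020000000200000002 4 3) 0 0 (step_sound _ 97 [rhc52876b7d6d5e639, rhffd04209dc8ea796] (by decide +kernel))
noncomputable def rh8d7debc4db40f233 : CRef := CRef.mk (Pat.mk 0xf000000000000000400000000 0x8000000180000000f0000001c0000000400000004 4 5) 0 0 (step_sound _ 131 [(rh33e738c4ed385b9f.shift 0 3), rh4d3f507ea3e2b158] (by decide +kernel))
noncomputable def rh355c44d77d55be9b : CRef := CRef.mk (Pat.mk 0x18000000020000000800000000 0x100000001000000018000000780000001f0000000800000008 4 7) 0 0 (step_sound _ 67 [(rh0b786d94a31538a6.shift 0 2), (rh215e11e099257d75.shift 3 0)] (by decide +kernel))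
noncomputable def rhcd1fe2fd35e44d65 : CRef := CRef.mk (Pat.mk 0x30000000800000005000000040000000400000000 0x80000000f000000180000000f000000040000000400000004 4 5) 0 0 (step_sound _ 99 [(rh170679153ea11e3d.shift 0 2), (rh71222050f2c63a3a.shift 2 0)] (by decide +kernel))
noncomputable def rh02656b88bb9251f4 : CRef := CRef.mk (Pat.mk 0x100000000a0000000800000008 0x10000000780000001f0000000800000008 4 7) 0 0 (step_sound _ 99 [(rh0b786d94a31538a6.shift 0 2), (rh2f68792b6b779e96.shift 3 0)] (by decide +kernel))
noncomputable def rhbde3155b58799f90 : CRef := CRef.mk (Pat.mk 0x7000000100000000a 0xf000000780000001f 4 7) 0 0 (step_sound _ 35 [rh0b786d94a31538a6, (rhd6e447e81774439e.shift 0 1)] (by decide +kernel))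
noncomputable def rh9a4a6673d077c16f : CRef := CRef.mk (Pat.mk 0xf000000000000000800000008 0x300000001f000000380000001800000008 4 6) 0 0 (step_sound _ 68 [(rh2a3d50defe729df3.shift 1 0), (rh96851dee118c1ba3.shift 0 2)] (by decide +kernel))
noncomputable def rh1ca6a411c4d776d2 : CRef := CRef.mk (Pat.mk 0xe000000020000000a0000000a 0x390000001f0000000a0000000a0000000a 4 6) 0 0 (step_sound _ 96 [rh50fbb5868c909700, rh6a78fa75f0f8d5b0] (by decide +kernel))
noncomputable def rhd164152e216e11e5 : CRef := CRef.mk (Pat.mk 0x500000005000000050000000400000000 0x2000000030000000700000005000000070000000600000002 4 3) 0 0 (step_sound _ 33 [(rh932754581e0f4330.shift 1 0), (rhdaa94fbf024044dd.shift 0 1)] (by decide +kernel))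
noncomputable def rh65ea2becd35674d0 : CRef := CRef.mk (Pat.mk 0xa000000080000000800000008 0x40000001f000000780000000800000008 4 7) 0 0 (step_sound _ 98 [(rh50fbb5868c909700.shift 2 0), (rh8ee80cc30e93a344.shift 0 2)] (by decide +kernel))
noncomputable def rha94490687c60c4d4 : CRef := CRef.mk (Pat.mk 0x1000000010000000140000001000000000 0x1000000010000000300000001f0000001800000008 4 6) 0 0 (step_sound _ 35 [(rh932754581e0f4330.shift 3 0), (rhe989621af1e4961c.shift 0 1)] (by decide +kernel))
noncomputable def rh565a0c22519f57e9 : CRef := CRef.mk (Pat.mk 0x200000002000000020000000200000000 0x1000000030000000300000002000000030000000300000001 4 2) 0 0 (step_sound _ 32 [rh932754581e0f4330, (rha54302d5ccf5246c.shift 0 1)] (by decide +kernel))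
noncomputable def rh0bd0e5256aa45955 : CRef := CRef.mk (Pat.mk 0x20000000e00000006000000020000000000000000 0x20000003e00000006000000030000000300000003 4 6) 0 0 (step_sound _ 132 [(rh18965a982d73c794.shift 1 3), rh46530d756bdf8511] (by decide +kernel))
noncomputable def rhefac8fab10c1a954 : CRef := CRef.mk (Pat.mk 0x80000000a00000002000000020000000200000002 0x780000001f00000006000000020000000200000002 4 7) 0 0 (step_sound _ 130 [(rha11dfd15f08f96e3.shift 0 4), (rhbaefcd01e0a8bca3.shift 1 0)] (by decide +kernel))
noncomputable def rhcf9523056899b812 : CRef := CRef.mk (Pat.mk 0x14000000040000001400000018 0x1400000014000000340000001f00000018 4 6) 0 0 (step_sound _ 35 [(rh2145e1d24b96a57e.shift 2 0), rh5127e5a2c1eeaad8] (by decide +kernel))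
noncomputable def rhe57df5fd7b63fb6b : CRef := CRef.mk (Pat.mk 0xb000000080000000a 0xf000000780000001f 4 7) 0 0 (step_sound _ 36 [rh0b786d94a31538a6, (rhc10214bf3fe8094a.shift 0 1)] (by decide +kernel))
noncomputable def rh4f9005b8aab47599 : CRef := CRef.mk (Pat.mk 0x1e00000004 0x7f0000003e 4 7) 0 0 (step_sound _ 4 [(rhe25b0a99195a5d59.shift 1 0), rhf8c981c5d1d372d6] (by decide +kernel))
noncomputable def rh6a772b105410b9b5 : CRef := CRef.mk (Pat.mk 0x80000000a00000006000000020000000200000000 0x780000001f00000006000000020000000200000002 4 7) 0 0 (step_sound _ 130 [(rh71222050f2c63a3a.shift 1 0), (rha11dfd15f08f96e3.shift 0 4)] (by decide +kernel))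
noncomputable def rh52d1052ba61f0dfd : CRef := CRef.mk (Pat.mk 0x800000008000000080000000a00000000 0x800000008000000780000001f00000004 4 7) 0 0 (step_sound _ 34 [(rh932754581e0f4330.shift 2 0), (rha11dfd15f08f96e3.shift 0 1)] (by decide +kernel))
noncomputable def rh5f31868a4bdc1757 : CRef := CRef.mk (Pat.mk 0x80000000c0000000d000000000000000000000000 0xc0000000c0000000f000000180000001800000018 4 5) 0 0 (step_sound _ 67 [(rh2d65c91b9f714cee.shift 0 1), (rh3cb04db3dd2b6a55.shift 2 0), (rh5c651669912fbab1.shift 2 0), (rh820d4e04d5dcd02e.shift 2 0)] (by decide +kernel))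
noncomputable def rhb51e2403d3591ebc : CRef := CRef.mk (Pat.mk 0xf00000008000000080000000a00000000 0x180000000f00000008000000180000001f00000004 4 5) 0 0 (step_sound _ 163 [(rh33e738c4ed385b9f.shift 0 4), rh874a93a326de5814] (by decide +kernel))
noncomputable def rhd8e052951cb058e0 : CRef := CRef.mk (Pat.mk 0xf0000000000000000000000080000000800000000 0x40000000f00000018000000080000000c0000000c00000004 4 5) 0 0 (step_sound _ 131 [(rh0d419f8af7b85169.shift 2 0), (rhe25b0a99195a5d59.shift 0 4)] (by decide +kernel))
noncomputable def rh85405a0bd20a5d58 : CRef := CRef.mk (Pat.mk 0x90000000c0000000800000000 0x80000001c0000001c0000000f0000000c0000000c00000008 4 5) 0 0 (step_sound _ 98 [(rh312db2f1e4a01342.shift 0 1), (rhfc7c29d8e65d775f.shift 2 0)] (by decide +kernel))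
noncomputable def rhdf2a78e00ecc2be4 : CRef := CRef.mk (Pat.mk 0x10000000000000002000000020000000200000000 0x1000000030000000300000002000000030000000300000001 4 2) 0 0 (step_sound _ 129 [rha3729a4a67ef3381, (rhffd04209dc8ea796.shift 0 1)] (by decide +kernel))
noncomputable def rhe18541b2f26ec75a : CRef := CRef.mk (Pat.mk 0x40000000600000005000000040000000400000000 0x400000006000000070000003e0000000c00000004 4 6) 0 0 (step_sound _ 97 [(rh7b1f1fb55310c477.shift 1 0), (rhb0c6196f710d9a93.shift 0 1)] (by decide +kernel))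
noncomputable def rh14f1061ecd68f544 : CRef := CRef.mk (Pat.mk 0x7000000080000000a 0xf000000780000001f 4 7) 0 0 (step_sound _ 36 [rh0b786d94a31538a6, (rhd6e447e81774439e.shift 0 1)] (by decide +kernel))
noncomputable def rh41a2721b347cda5f : CRef := CRef.mk (Pat.mk 0x2000000020000000a0000000a00000000 0x2000000020000007a0000001f00000004 4 7) 0 0 (step_sound _ 34 [(rh55afc6a59410cf00.shift 1 0), (rha11dfd15f08f96e3.shift 0 1)] (by decide +kernel))
noncomputable def rhdc9dff940ad3a13b : CRef := CRef.mk (Pat.mk 0x180000000a0000000800000000 0x100000001000000018000000180000000f0000000800000008 4 5) 0 0 (step_sound _ 66 [(rh215e11e099257d75.shift 3 0), (rh53b3c253cb0c65f4.shift 0 2)] (by decide +kernel))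
noncomputable def rh613ce6606d767a7a : CRef := CRef.mk (Pat.mk 0x100000005000000050000000000000002 0x40000000500000007000000070000000700000002 4 3) 0 0 (step_sound _ 33 [(rh751f91025c6ba4fe.shift 1 0), rhbe0e43a3bc50a43f] (by decide +kernel))
noncomputable def rh12ffe27d1538d583 : CRef := CRef.mk (Pat.mk 0x1000000050000000500000000000000020000000000000000 0x400000005000000070000000700000006000000060000000200000002 4 3) 0 0 (step_sound _ 97 [(rh1f1e441d7d62538e.shift 0 1), (rh751f91025c6ba4fe.shift 1 2), (rhe83f0679b86b6627.shift 1 0)] (by decide +kernel))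
noncomputable def rha50ab434e2472bdb : CRef := CRef.mk (Pat.mk 0x1000000010000000020000000e00000000 0x1000000010000000330000003e00000030 4 6) 0 0 (step_sound _ 36 [(rh3244c3cc8379b070.shift 0 1), (rheba69208ec1d6f97.shift 1 0)] (by decide +kernel))
noncomputable def rha07b5798de7ea8fb : CRef := CRef.mk (Pat.mk 0x100000001000000000000000300000000 0x2000000030000000300000001000000030000000300000002 4 2) 0 0 (step_sound _ 64 [rh55afc6a59410cf00, (rha1447db93ca109b8.shift 0 1)] (by decide +kernel))
noncomputable def rhb079c41d94df98a4 : CRef := CRef.mk (Pat.mk 0x800000008000000000000000e0000000000000000 0x800000008000000080000001f0000001c00000010 4 5) 0 0 (step_sound _ 99 [rh0128904edcdedfa8, (rh932754581e0f4330.shift 2 1)] (by decide +kernel))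
noncomputable def rh5ef66011045fb859 : CRef := CRef.mk (Pat.mk 0x100000001000000010000000100000000 0x2000000030000000300000001000000030000000300000002 4 2) 0 0 (step_sound _ 33 [rh55afc6a59410cf00, (rha1447db93ca109b8.shift 0 1)] (by decide +kernel))
noncomputable def rh042fb9b5ab502ead : CRef := CRef.mk (Pat.mk 0x200000002000000020000000200000002000000020000000000000000 0x200000002000000060000000600000006000000030000000300000001 4 3) 0 0 (step_sound _ 130 [(rh55afc6a59410cf00.shift 1 3), rh91a545eb3be094e3] (by decide +kernel))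
noncomputable def rh0db24d183fcfcaaa : CRef := CRef.mk (Pat.mk 0x1000000050000000500000002000000000000000000000000 0x5000000050000000500000007000000060000000200000002 4 3) 0 0 (step_sound _ 65 [(rhbe0e43a3bc50a43f.shift 0 2), (rhe83f0679b86b6627.shift 1 0)] (by decide +kernel))
noncomputable def rh11aa37d4829402ae : CRef := CRef.mk (Pat.mk 0x1f00000004 0x700000007f0000001c 4 7) 0 0 (step_sound _ 3 [(rh226655e3fe6b4a8a.shift 1 0), rhe25b0a99195a5d59] (by decide +kernel))
noncomputable def rhdd55ad664c3c2145 : CRef := CRef.mk (Pat.mk 0x10000000100000001000000010000000100000000 0x1000000030000000300000003000000030000000300000001 4 2) 0 0 (step_sound _ 129 [(rh2f68792b6b779e96.shift 0 1), rhfcf5e7ae266cd72e] (by decide +kernel))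
noncomputable def rh9c6ef0ba0f8edd71 : CRef := CRef.mk (Pat.mk 0x400000004000000140000000400000000 0x400000004000000040000001c0000000f0000000a 4 5) 0 0 (step_sound _ 35 [rh26d2b5bcb258fc1d, (rh55afc6a59410cf00.shift 2 0)] (by decide +kernel))
noncomputable def rhe2b91cb871a6b61c : CRef := CRef.mk (Pat.mk 0xc00000008000000080000000800000000 0x1f0000007c000000080000000800000008 4 7) 0 0 (step_sound _ 100 [(rh2655ba5189834a5b.shift 1 0), (rhc705a4e0321a1bff.shift 2 0), (rhdeca8db941583de2.shift 0 3)] (by decide +kernel))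
noncomputable def rh23460d8e259a5482 : CRef := CRef.mk (Pat.mk 0x300000001000000010000000500000000 0x10000000300000003000000030000000700000007 4 3) 0 0 (step_sound _ 33 [rh55afc6a59410cf00, rhc25ad3976f9657c5] (by decide +kernel))
noncomputable def rh34154a504ce726d2 : CRef := CRef.mk (Pat.mk 0x1e00000014000000140000000400000000 0x300000001f0000001c0000001c0000000c00000008 4 6) 0 0 (step_sound _ 99 [(rh26d136862c8f0c30.shift 1 0), (rhb739f4f82bb681b4.shift 0 3)] (by decide +kernel))
noncomputable def rh755b1072f474bcda : CRef := CRef.mk (Pat.mk 0xc00000008000000080000000800000000 0x1f0000007c000000080000000800000008 4 7) 0 0 (step_sound _ 100 [(rhc705a4e0321a1bff.shift 2 0), (rhdeca8db941583de2.shift 0 3), (rhf3276dbea3628a1a.shift 1 0)] (by decide +kernel))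
noncomputable def rhaa633ebd3428d439 : CRef := CRef.mk (Pat.mk 0x1800000008000000280000000800000000 0x3c0000001f000000380000000800000008 4 6) 0 0 (step_sound _ 98 [(rh2d5442cbf338480d.shift 2 0), (rh3b915a8446bc88cf.shift 0 2), rh52b3bc442b8c6b35] (by decide +kernel))
noncomputable def rh22f2da900a513914 : CRef := CRef.mk (Pat.mk 0x180000000c0000000c00000020 0x8000000180000000f0000003e00000030 4 6) 0 0 (step_sound _ 65 [(rh446ab9ffb3faaa7b.shift 1 0), (rh53b3c253cb0c65f4.shift 0 2)] (by decide +kernel))
noncomputable def rh62dafca790b4f336 : CRef := CRef.mk (Pat.mk 0xf0000000a000000020000000200000000 0x180000000f0000000e0000000e0000000600000004 4 5) 0 0 (step_sound _ 34 [(rh55afc6a59410cf00.shift 1 0), (rh958cd49a9106c083.shift 0 1)] (by decide +kernel))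
noncomputable def rh83eb397d44d03c54 : CRef := CRef.mk (Pat.mk 0x6000000060000000700000004 0x80000003e0000001f0000000700000004 4 6) 0 0 (step_sound _ 67 [(rh18965a982d73c794.shift 0 1), rh861ee9d7304b9753] (by decide +kernel))
noncomputable def rh2ef84f03534d7885 : CRef := CRef.mk (Pat.mk 0xe000000040000001000000008 0x300000003e000000370000001800000008 4 6) 0 0 (step_sound _ 100 [(rhaf9f2efc81a8312b.shift 0 2), (rhe84bfd2bc1159083.shift 1 0)] (by decide +kernel))
noncomputable def rh0143939f2c16d700 : CRef := CRef.mk (Pat.mk 0x1e00000014000000040000001400000000 0x100000001f0000001c0000000c0000001c00000018 4 5) 0 0 (step_sound _ 99 [(rh82393b48a1e151ba.shift 2 0), (rhb739f4f82bb681b4.shift 0 3)] (by decide +kernel))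
noncomputable def rh63bf3aa6dd7b2cff : CRef := CRef.mk (Pat.mk 0x1c00000008000000000000001f00000001 0x1f0000003a000000030000001f00000001 4 6) 0 0 (step_sound _ 65 [(rh3244c3cc8379b070.shift 0 1), rh91682cd2ad8d7576] (by decide +kernel))
noncomputable def rh201e0132300fe417 : CRef := CRef.mk (Pat.mk 0x1c00000008000000010000001f00000000 0x1f0000000f000000010000001f00000003 4 5) 0 0 (step_sound _ 1 [rh12f10507d42085b0, rheb0810cc63b001d8] (by decide +kernel))
noncomputable def rh3cf1a66f5a1e4078 : CRef := CRef.mk (Pat.mk 0x100000001e000000000000000000000000 0x8000000180000001f000000300000001000000010 4 6) 0 0 (step_sound _ 131 [(rh53b3c253cb0c65f4.shift 0 3), (rhbbe16ff26f7822db.shift 1 0)] (by decide +kernel))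
noncomputable def rh05b9ad096e06d11f : CRef := CRef.mk (Pat.mk 0x3c00000000 0x700000003e00000007 4 7) 0 0 (step_sound _ 69 [rh2591032a0e7f4182, (rh33e738c4ed385b9f.shift 2 1)] (by decide +kernel))
noncomputable def rh10452bc14d0b4b6a : CRef := CRef.mk (Pat.mk 0x2000000020000000600000002000000020000000000000000 0x2000000020000000600000006000000070000000300000003 4 3) 0 0 (step_sound _ 32 [(rh79877ebd3ef475dd.shift 0 1), rhd9474782a2680774] (by decide +kernel))
noncomputable def rh8d3f0896c66a47a6 : CRef := CRef.mk (Pat.mk 0x40000001e000000080000000c00000000 0x40000001e0000003b0000000f00000002 4 6) 0 0 (step_sound _ 68 [rhc94597eb09ef68b2, (rhe25b0a99195a5d59.shift 1 2)] (by decide +kernel))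
noncomputable def rh5c62bbee060898ee : CRef := CRef.mk (Pat.mk 0x1c00000038000000100000000800000000 0x1c0000003f000000370000000c0000000c 4 6) 0 0 (step_sound _ 98 [(rh057b4130fe0cd6b1.shift 1 0), (rhcc2be1f880c5ea3e.shift 0 2), (rhf56e6bc5d2f7fe77.shift 0 2)] (by decide +kernel))
noncomputable def rhbde7d95c34984ecf : CRef := CRef.mk (Pat.mk 0x400000004000000040000000600000000 0x40000000400000004000000070000003e00000008 4 6) 0 0 (step_sound _ 65 [rh36d4d92ef3dad5f8, (rh5c5e593799055d58.shift 1 1)] (by decide +kernel))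
noncomputable def rha0fc30dd808625c1 : CRef := CRef.mk (Pat.mk 0x40000001c0000000c000000000000000000000000 0x4000000040000001e0000000f000000020000000200000002 4 5) 0 0 (step_sound _ 97 [(rh53b3c253cb0c65f4.shift 0 3), (rhfafeb437ceb8396d.shift 1 0)] (by decide +kernel))
noncomputable def rhc4658766f200b447 : CRef := CRef.mk (Pat.mk 0x4000000000000001e0000000000000000 0x4000000070000003e0000000300000002 4 6) 0 0 (step_sound _ 97 [(rh3244c3cc8379b070.shift 0 2), rhbce5a81d218abb3c] (by decide +kernel))
noncomputable def rh19d7976b44620358 : CRef := CRef.mk (Pat.mk 0x1c000000080000000e00000004 0x30000001f0000007c0000000e00000004 4 7) 0 0 (step_sound _ 68 [rh59b8ab533772ff61, (rh62ee6b8370225d67.shift 1 1), (rh80f90a60d87caa0d.shift 1 1)] (by decide +kernel))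
noncomputable def rh0fc46964bf36b470 : CRef := CRef.mk (Pat.mk 0x800000008000000080000000c00000000 0x800000008000000080000000f0000003c00000010 4 6) 0 0 (step_sound _ 66 [(rh5c5e593799055d58.shift 2 1), rhfe557af9112f51d6] (by decide +kernel))
noncomputable def rh8a8269f6d03330dc : CRef := CRef.mk (Pat.mk 0xc0000001e000000180000000800000000 0xc0000001e0000001b0000000f00000006 4 5) 0 0 (step_sound _ 65 [rh7a5caf50380aa00f, (rheb0810cc63b001d8.shift 0 2)] (by decide +kernel))
noncomputable def rh743e5764167214aa : CRef := CRef.mk (Pat.mk 0x1c0000001c00000000 0x1c0000007f00000007 4 7) 0 0 (step_sound _ 37 [rhcc2be1f880c5ea3e, (rhf48373e13d2bc128.shift 2 1)] (by decide +kernel))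
noncomputable def rh9657c25562dad1df : CRef := CRef.mk (Pat.mk 0x400000004000000040000000c00000000 0x400000004000000040000003c0000000f00000002 4 6) 0 0 (step_sound _ 67 [(rh2145e1d24b96a57e.shift 2 1), rha71afc656c87d410] (by decide +kernel))
noncomputable def rh36bba72bb2c41fbe : CRef := CRef.mk (Pat.mk 0x400000000000000040000003c00000000 0x4000000040000000c0000007e00000007 4 7) 0 0 (step_sound _ 38 [(rh3f8766e6ecb455ce.shift 2 1), rh927d5f9300832d4e] (by decide +kernel))
noncomputable def rh04d7e19c993f8872 : CRef := CRef.mk (Pat.mk 0x400000000000000000000001e00000000 0x400000004000000070000003e00000003 4 6) 0 0 (step_sound _ 65 [(rh3244c3cc8379b070.shift 0 1), rh67ae3f00abe2d22d] (by decide +kernel))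
noncomputable def rh41eb4a13b78c152f : CRef := CRef.mk (Pat.mk 0x1800000018000000380000000000000000 0x18000000180000003c0000000f0000000c 4 6) 0 0 (step_sound _ 35 [rh322e79f034282812, (rh71222050f2c63a3a.shift 3 0)] (by decide +kernel))
noncomputable def rh20e3cbe97aab9353 : CRef := CRef.mk (Pat.mk 0x600000006000000040000000000000000 0x80000003e00000007000000040000000400000004 4 6) 0 0 (step_sound _ 34 [(rh7b1f1fb55310c477.shift 1 0), (rh861ee9d7304b9753.shift 0 1)] (by decide +kernel))
noncomputable def rh04c8e9e087c1fa01 : CRef := CRef.mk (Pat.mk 0xc0000000c000000080000000c00000000 0xc0000000c0000003c0000001f00000013 4 6) 0 0 (step_sound _ 36 [rh2e488f599d10d45a, (rh55afc6a59410cf00.shift 3 0)] (by decide +kernel))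
noncomputable def rh3da89b94ccec94ed : CRef := CRef.mk (Pat.mk 0x2000000000000000c0000000e00000000 0x2000000030000003f0000003e00000004 4 6) 0 0 (step_sound _ 68 [(rh18965a982d73c794.shift 1 1), rhd5a70f59fea8f3da] (by decide +kernel))
noncomputable def rh1c24f3a102da336c : CRef := CRef.mk (Pat.mk 0x100000001e000000100000001800000000 0x100000001e0000001f0000003c00000020 4 6) 0 0 (step_sound _ 37 [(rh55afc6a59410cf00.shift 4 0), (rhc648f6a26d503573.shift 0 1)] (by decide +kernel))
noncomputable def rh474e80922aa6bfad : CRef := CRef.mk (Pat.mk 0x80000000c00000009000000000000000000000000 0x8000000080000000c0000000c0000000f0000001c0000001c0000000c 4 5) 0 0 (step_sound _ 98 [(rh281c6819542c66e6.shift 2 0), (rh503dd4575245365b.shift 2 2), rha85076c68f1f3e46] (by decide +kernel))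
noncomputable def rh44fae8d9c1045ff0 : CRef := CRef.mk (Pat.mk 0x1e00000000 0x380000001f00000038 4 6) 0 0 (step_sound _ 68 [rh2ebbcfe90e0f250d, (rh33e738c4ed385b9f.shift 1 1)] (by decide +kernel))
noncomputable def rha34c4b685132e310 : CRef := CRef.mk (Pat.mk 0x400000008000000180000000800000000 0x40000000f0000007c0000000800000008 4 7) 0 0 (step_sound _ 98 [(rh3c3e23a02e82b2ed.shift 0 2), (rh7b1f1fb55310c477.shift 2 0)] (by decide +kernel))
noncomputable def rh005ebe51266aeb22 : CRef := CRef.mk (Pat.mk 0x8000000080000000c000000070000000400000000 0x8000000180000003c000000170000003e00000010 4 6) 0 0 (step_sound _ 100 [rh00e4849a9c0a8d60, (rh18965a982d73c794.shift 1 2)] (by decide +kernel))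
noncomputable def rh3eedecf378a8a705 : CRef := CRef.mk (Pat.mk 0x2000000080000000c0000000600000004 0x20000007a0000001f0000000600000004 4 7) 0 0 (step_sound _ 65 [(rh6f1cbe15c631ee70.shift 1 0), (rha11dfd15f08f96e3.shift 0 2)] (by decide +kernel))
noncomputable def rh54968f8c0e71a67e : CRef := CRef.mk (Pat.mk 0x800000008000000080000000c00000000 0x80000000800000008000000380000001f00000010 4 6) 0 0 (step_sound _ 36 [(rh292e135d17d1e2e1.shift 0 1), (rh55afc6a59410cf00.shift 3 0)] (by decide +kernel))
noncomputable def rhc31ccd574348560f : CRef := CRef.mk (Pat.mk 0x10000000100000001000000038 0x1000000010000000100000001f0000007c 4 7) 0 0 (step_sound _ 35 [(rh5c5e593799055d58.shift 3 0), rha9fbfd4bb8cf890b] (by decide +kernel))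
noncomputable def rhb0de455c382c5b1c : CRef := CRef.mk (Pat.mk 0x800000008000000180000000800000000 0x8000000080000007c0000000f00000004 4 7) 0 0 (step_sound _ 34 [(rh932754581e0f4330.shift 2 0), (rhd69c262cd33b94b3.shift 0 1)] (by decide +kernel))
noncomputable def rh802c7087213427b5 : CRef := CRef.mk (Pat.mk 0x7000000040000000600000000 0xa0000001e00000007000000040000000600000002 4 5) 0 0 (step_sound _ 130 [(rh4017de503635a93b.shift 0 1), (rh932754581e0f4330.shift 1 0)] (by decide +kernel))
noncomputable def rhb0780e45bc59853d : CRef := CRef.mk (Pat.mk 0x38000000000000003800000000 0x100000001000000010000000380000001f0000007c00000008 4 7) 0 0 (step_sound _ 67 [(rha9fbfd4bb8cf890b.shift 0 1), (rhb730ba14aa32bdb3.shift 3 0), (rhbd3d56d68aaa590e.shift 0 1)] (by decide +kernel))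
noncomputable def rh0d1496a2afc0a0f6 : CRef := CRef.mk (Pat.mk 0x18000000000000003800000000 0x1000000018000000180000007c0000000f 4 7) 0 0 (step_sound _ 3 [rh2820ca9a6c4f41b4, (rh7d7eaefe27cdd7b0.shift 3 0)] (by decide +kernel))
noncomputable def rh2d9c817c453f955a : CRef := CRef.mk (Pat.mk 0x4000000000000001e0000000000000000 0x400000004000000040000003e0000000700000002 4 6) 0 0 (step_sound _ 33 [(rh1314431eddc75183.shift 1 0), (rheb0810cc63b001d8.shift 0 1)] (by decide +kernel))
noncomputable def rh9962464840ec1c04 : CRef := CRef.mk (Pat.mk 0x8000000000000001e00000000 0x80000000800000008000000380000001f00000004 4 6) 0 0 (step_sound _ 68 [rh2df96f83c49a9883, (rh33e738c4ed385b9f.shift 1 1)] (by decide +kernel))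
noncomputable def rhfc68b01d0e5ad7eb : CRef := CRef.mk (Pat.mk 0x8000000180000000c00000008 0x40000001f000000780000000c00000008 4 7) 0 0 (step_sound _ 98 [(rh235fe8d40f8e6f8a.shift 0 1), (rh50fbb5868c909700.shift 2 0)] (by decide +kernel))
noncomputable def rh284ba75b0c0cf61a : CRef := CRef.mk (Pat.mk 0x2000000060000000700000002 0x300000003000000030000001e0000000700000002 4 5) 0 0 (step_sound _ 67 [(rh18965a982d73c794.shift 0 1), rh7b9fbdf6d2d059e4] (by decide +kernel))
noncomputable def rh3a522686800c907f : CRef := CRef.mk (Pat.mk 0x3c00000000 0x3e00000077 4 7) 0 0 (step_sound _ 5 [rhdceeca65bdd8095a, (rhe25b0a99195a5d59.shift 2 0)] (by decide +kernel))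
noncomputable def rhbb5b2b3c114b4457 : CRef := CRef.mk (Pat.mk 0x200000001e00000010 0x60000000ff0000001c 4 8) 0 0 (step_sound _ 37 [(rh33e738c4ed385b9f.shift 2 1), rhc79769c0453a04d3] (by decide +kernel))
noncomputable def rhf720ef07e4a826a3 : CRef := CRef.mk (Pat.mk 0x3800000018000000080000001800000000 0x200000003800000018000000380000001f00000004 4 6) 0 0 (step_sound _ 68 [(rh2f68792b6b779e96.shift 4 1), rh6fae963f33cfdfd7] (by decide +kernel))
noncomputable def rh992f31992592569e : CRef := CRef.mk (Pat.mk 0x3e00000000 0xff0000003c 4 8) 0 0 (step_sound _ 4 [rhc79769c0453a04d3, (rhe25b0a99195a5d59.shift 1 0)] (by decide +kernel))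
noncomputable def rh8a973ed835cba0cf : CRef := CRef.mk (Pat.mk 0x80000000c00000009000000000000000000000000 0x80000000c0000000c0000000f0000001c0000001c00000008 4 5) 0 0 (step_sound _ 98 [(rh1e309b005ffa1b36.shift 2 1), rha85076c68f1f3e46] (by decide +kernel))
noncomputable def rh65601db2936d33af : CRef := CRef.mk (Pat.mk 0x2000000000000001e0000000000000000 0x2000000030000003e0000000700000004 4 6) 0 0 (step_sound _ 33 [rhb22d6bdf23873da3, (rheb0810cc63b001d8.shift 0 1)] (by decide +kernel))
noncomputable def rh0f3ad84b859387bc : CRef := CRef.mk (Pat.mk 0x8000000000000003e0000001000000000 0x80000000c000000ff0000001800000010 4 8) 0 0 (step_sound _ 35 [(rh730cf79924e223fc.shift 2 0), (rhb739f4f82bb681b4.shift 0 1)] (by decide +kernel))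
noncomputable def rh370af384ddd2082c : CRef := CRef.mk (Pat.mk 0xc0000000c000000040000000000000000 0x20000000f0000003c000000040000000400000004 4 6) 0 0 (step_sound _ 34 [(rh71222050f2c63a3a.shift 2 0), (rhcf85c92937975d4d.shift 0 1)] (by decide +kernel))
noncomputable def rhe2d67c06cce691aa : CRef := CRef.mk (Pat.mk 0x20000007c00000000 0x30000007f0000003c 4 7) 0 0 (step_sound _ 33 [(rh3244c3cc8379b070.shift 0 1), rh5108aaa789497f8e] (by decide +kernel))
noncomputable def rhe8bf3d9e427230f8 : CRef := CRef.mk (Pat.mk 0x80000000e000000180000000c00000000 0x40000000c0000000e0000001e0000000f00000002 4 5) 0 0 (step_sound _ 130 [(rh50fbb5868c909700.shift 2 1), rhebbf0f79de50f641] (by decide +kernel))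
noncomputable def rh54b8034e7f92149e : CRef := CRef.mk (Pat.mk 0x2000000020000000300000002000000020000000000000000 0x2000000020000000300000003000000070000000600000006 4 3) 0 0 (step_sound _ 96 [rh820d4e04d5dcd02e, (rh932754581e0f4330.shift 0 2)] (by decide +kernel))
noncomputable def rh4d6f8f3046a44da6 : CRef := CRef.mk (Pat.mk 0x180000000c0000000000000003000000010000000000000000 0x1a0000000f0000000200000003000000030000000100000001 4 5) 0 0 (step_sound _ 161 [rh02ef15e22aa7db92, (rh53b3c253cb0c65f4.shift 0 5)] (by decide +kernel))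
noncomputable def rh9475d379bc1053e3 : CRef := CRef.mk (Pat.mk 0x8000000080000000e0000001a000000000000000000000000 0x80000000c0000000e0000001e000000070000000200000002 4 5) 0 0 (step_sound _ 98 [(rh932754581e0f4330.shift 2 2), rh9a011a4d0ec8f646] (by decide +kernel))
noncomputable def rhf706828729e1b1e2 : CRef := CRef.mk (Pat.mk 0x40000003800000000 0x60000003e00000077 4 7) 0 0 (step_sound _ 34 [(rh3244c3cc8379b070.shift 1 1), rh8195a2d7794c7cd2] (by decide +kernel))
noncomputable def rhdd9aaa06458a6d73 : CRef := CRef.mk (Pat.mk 0xc0000001e000000180000000800000000 0xc0000001e0000001b0000000f00000006 4 5) 0 0 (step_sound _ 34 [(rh932754581e0f4330.shift 2 0), rhc94597eb09ef68b2] (by decide +kernel))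
noncomputable def rhc50c2b097dd5cced : CRef := CRef.mk (Pat.mk 0x4000000000000003c00000000 0x400000004000000060000003e00000007 4 6) 0 0 (step_sound _ 66 [(rh3244c3cc8379b070.shift 1 1), rh81cdd2836921eed0] (by decide +kernel))
noncomputable def rh3e50ec7680ad637d : CRef := CRef.mk (Pat.mk 0x80000000e0000000c0000000c00000000 0x80000000e0000003f0000003c00000010 4 6) 0 0 (step_sound _ 68 [(rhf48373e13d2bc128.shift 1 2), rhfe557af9112f51d6] (by decide +kernel))
noncomputable def rh08d810f24e5bb7e4 : CRef := CRef.mk (Pat.mk 0x140000003c00000000 0x1c0000007f00000007 4 7) 0 0 (step_sound _ 67 [rhcc2be1f880c5ea3e, (rhf48373e13d2bc128.shift 2 1)] (by decide +kernel))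
noncomputable def rh9cf8490bd2aa0c89 : CRef := CRef.mk (Pat.mk 0x4000000000000000c0000003c00000000 0x4000000040000007c0000003e00000003 4 7) 0 0 (step_sound _ 69 [(rh33e738c4ed385b9f.shift 2 1), rhdcddfa9f86531f39] (by decide +kernel))
noncomputable def rh62e53aa2fb15efd7 : CRef := CRef.mk (Pat.mk 0x2000000180000000c000000040000000000000000 0x2000000020000001a0000000f000000060000000400000004 4 5) 0 0 (step_sound _ 97 [(rh0588d2c7f2cab5e9.shift 1 0), (rh53b3c253cb0c65f4.shift 0 3)] (by decide +kernel))
noncomputable def rh8abb0b97c1e8cdf6 : CRef := CRef.mk (Pat.mk 0x6000000020000003800000000 0x400000006000000060000003e00000007 4 6) 0 0 (step_sound _ 34 [(rh3f8766e6ecb455ce.shift 1 1), rh653e3a2a6ec47080] (by decide +kernel))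
noncomputable def rh463e175230fcd751 : CRef := CRef.mk (Pat.mk 0x400000000000000040000003800000000 0x400000004000000060000003e00000007 4 6) 0 0 (step_sound _ 34 [(rh3244c3cc8379b070.shift 1 1), rh927d5f9300832d4e] (by decide +kernel))
noncomputable def rhdfac2c1abebe7817 : CRef := CRef.mk (Pat.mk 0x3000000060000000200000002000000020000000000000000 0x30000001e0000000600000002000000030000000300000001 4 5) 0 0 (step_sound _ 163 [rha8bc3cae4d77a08f, (rhf48373e13d2bc128.shift 0 5)] (by decide +kernel))
noncomputable def rh0d46191bda76a8f5 : CRef := CRef.mk (Pat.mk 0x4000000030000000200000002000000000000000000000000 0x4000000070000000300000002000000030000000300000001 4 3) 0 0 (step_sound _ 65 [(rhbaefcd01e0a8bca3.shift 1 2), rhe4441baab75a6f73] (by decide +kernel))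
noncomputable def rhedadd08d79153bfe : CRef := CRef.mk (Pat.mk 0x200000002000000020000000200000002000000020000000000000000 0x200000002000000030000000300000003000000060000000600000004 4 3) 0 0 (step_sound _ 128 [rh5c651669912fbab1, (rh932754581e0f4330.shift 0 3)] (by decide +kernel))
noncomputable def rh5c8c873042790be0 : CRef := CRef.mk (Pat.mk 0x20000001a00000002000000000000000000000000 0x2000000020000001e00000003000000030000000100000001 4 5) 0 0 (step_sound _ 96 [rh281c6819542c66e6, (rhb2a0b9ccfb5cecd5.shift 0 3)] (by decide +kernel))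
noncomputable def rhc94bc23426eb70c1 : CRef := CRef.mk (Pat.mk 0x30000000040000000e00000000 0x2000000030000000370000003e00000030 4 6) 0 0 (step_sound _ 36 [(rh4e474fff1e6bbb84.shift 1 0), (rhe3060b190bc0bc78.shift 0 1)] (by decide +kernel))
noncomputable def rhcf399c1b682b19b3 : CRef := CRef.mk (Pat.mk 0x38000000100000000000000008 0x60000007f0000003e0000000800000008 4 7) 0 0 (step_sound _ 67 [(rh4dc133ee0ba1420a.shift 1 2), rh99958e6426785a6d] (by decide +kernel))
noncomputable def rhf64cf2cfa0eeb0d9 : CRef := CRef.mk (Pat.mk 0x20000001a0000000200000000 0x100000003000000030000001f0000000200000002 4 5) 0 0 (step_sound _ 96 [(rh5419adcd928dba20.shift 0 2), rh7b24c4ccc068b0b2] (by decide +kernel))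
noncomputable def rh8a7159cc6254a4c8 : CRef := CRef.mk (Pat.mk 0x6000000080000000800000008 0x100000001c0000001f000000080000000800000008 4 5) 0 0 (step_sound _ 99 [rh44f2ec19b3452892, (rh50fbb5868c909700.shift 2 0)] (by decide +kernel))
noncomputable def rh9f9dcaefc8da8d65 : CRef := CRef.mk (Pat.mk 0x3800000002 0x70000003e00000007 4 6) 0 0 (step_sound _ 34 [(rh80fcd6d0a18cb2dd.shift 1 0), rhe902c9e8f416b192] (by decide +kernel))
noncomputable def rh4d70d27262289c21 : CRef := CRef.mk (Pat.mk 0x2000000020000000300000002000000020000000000000000 0x2000000020000000300000003000000070000000600000006 4 3) 0 0 (step_sound _ 34 [rh741304a5e4709799, (rhd3458b32566d63f7.shift 1 1)] (by decide +kernel))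
noncomputable def rhe333c4a685224437 : CRef := CRef.mk (Pat.mk 0x180000001e000000140000000000000000 0x180000001e0000001f0000003000000030 4 6) 0 0 (step_sound _ 65 [(rh4315e95d631a9818.shift 1 0), (rheb0810cc63b001d8.shift 0 2)] (by decide +kernel))
noncomputable def rhc3b91daee0ff521d : CRef := CRef.mk (Pat.mk 0x180000001e000000140000001000000000 0x180000001e000000170000003c0000000c 4 6) 0 0 (step_sound _ 34 [rh441cab25a9dc9d0c, (rh71222050f2c63a3a.shift 2 0)] (by decide +kernel))
noncomputable def rh3f7430a396d6fd4e : CRef := CRef.mk (Pat.mk 0x1c0000001c00000000 0x1c0000007f00000070 4 7) 0 0 (step_sound _ 33 [(rh0cb6a409506b34ea.shift 1 0), (rh53b3c253cb0c65f4.shift 0 1)] (by decide +kernel))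
noncomputable def rh74be7c372a8f2aff : CRef := CRef.mk (Pat.mk 0x40000000e000000070000000000000000 0x40000000f0000003f0000003800000008 4 6) 0 0 (step_sound _ 67 [(rh0cb6a409506b34ea.shift 0 1), (rh6292bd8784ece55f.shift 0 2), rh78974448101547fe] (by decide +kernel))
noncomputable def rh57993fbcf1098b52 : CRef := CRef.mk (Pat.mk 0x60000003a0000000800000000 0x40000000400000006000000060000003a0000001f00000002 4 6) 0 0 (step_sound _ 33 [(rh215e11e099257d75.shift 1 0), (rhfb815e3afead425a.shift 0 1)] (by decide +kernel))
noncomputable def rh873152f5c63c9e04 : CRef := CRef.mk (Pat.mk 0x2000000030000000a00000000 0x20000000200000002000000030000001f00000005 4 5) 0 0 (step_sound _ 34 [rhb23658ecdd7ce5df, (rhf48373e13d2bc128.shift 0 1)] (by decide +kernel))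
noncomputable def rhe4e4efb231e692a9 : CRef := CRef.mk (Pat.mk 0x20000001a0000000a000000000000000000000000 0x2000000020000001b0000000f000000010000000100000001 4 5) 0 0 (step_sound _ 96 [(rh1c62b6193297d9e3.shift 0 3), rhfafeb437ceb8396d] (by decide +kernel))
noncomputable def rh794501743a61ce18 : CRef := CRef.mk (Pat.mk 0x20000001a0000000a000000000000000000000000 0x2000000020000001a0000000f000000060000000400000004 4 5) 0 0 (step_sound _ 98 [(rh53b3c253cb0c65f4.shift 0 3), (rh70e33bfdf511e144.shift 1 0)] (by decide +kernel))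
noncomputable def rha4c1d69345b99268 : CRef := CRef.mk (Pat.mk 0x40000001e000000100000000000000000 0x10000000340000001f000000180000000800000008 4 6) 0 0 (step_sound _ 67 [(rha240d968d16a7f4e.shift 1 0), (rhb739f4f82bb681b4.shift 0 2)] (by decide +kernel))
noncomputable def rh662ee70a1f2158a1 : CRef := CRef.mk (Pat.mk 0x60000001e000000140000000000000000 0x60000001e0000001f0000000300000003 4 5) 0 0 (step_sound _ 65 [rh5610213daa1b6928, (rheb0810cc63b001d8.shift 0 2)] (by decide +kernel))
noncomputable def rh0aff0d2aba80e3a9 : CRef := CRef.mk (Pat.mk 0x80000000c000000180000001c00000000 0x40000000c0000000c0000001c0000001f00000003 4 5) 0 0 (step_sound _ 130 [(rh50fbb5868c909700.shift 2 1), rhbedc17f53a3d22d1] (by decide +kernel))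
noncomputable def rhe4cf73c4b95cc950 : CRef := CRef.mk (Pat.mk 0x80000000e0000001a0000000800000000 0x40000000c0000000e0000001a0000000f00000006 4 5) 0 0 (step_sound _ 130 [(rh50fbb5868c909700.shift 2 1), rhb721fc7336e8a22d] (by decide +kernel))
noncomputable def rha2d972724209a96f : CRef := CRef.mk (Pat.mk 0x40000000e0000001a0000000000000000 0x40000000e0000001e0000000f0000000a 4 5) 0 0 (step_sound _ 35 [rh487d1c85f5a48961, (rh7b1f1fb55310c477.shift 2 0)] (by decide +kernel))
noncomputable def rh00b85d5220e7ab18 : CRef := CRef.mk (Pat.mk 0x8000000080000001c0000001c00000000 0x40000000c0000000c0000001c0000001f00000003 4 5) 0 0 (step_sound _ 33 [rh52db8f9374849729, (rh53b3c253cb0c65f4.shift 0 1)] (by decide +kernel))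
noncomputable def rh86709eb05c5e133b : CRef := CRef.mk (Pat.mk 0x70000000e0000000d0000000000000000 0x1000000070000000e0000000f0000001a0000000a 4 5) 0 0 (step_sound _ 35 [rh1d0561441a8f1dfc, (rh7b1f1fb55310c477.shift 2 0)] (by decide +kernel))
noncomputable def rhf7c27e59b1d77735 : CRef := CRef.mk (Pat.mk 0x600000004000000080000000c00000000 0x200000006000000040000003c0000000f00000002 4 6) 0 0 (step_sound _ 66 [(rh50fbb5868c909700.shift 1 1), rha71afc656c87d410] (by decide +kernel))
noncomputable def rhdfff39a58a53ea82 : CRef := CRef.mk (Pat.mk 0x40000000c000000000000000e00000000 0x40000000c000000780000001f00000008 4 7) 0 0 (step_sound _ 67 [(rh7b1f1fb55310c477.shift 2 0), (rha11dfd15f08f96e3.shift 0 1)] (by decide +kernel))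
noncomputable def rh6750075f6e760f16 : CRef := CRef.mk (Pat.mk 0x40000000c000000000000000e00000000 0x40000000c000000080000000f0000007c 4 7) 0 0 (step_sound _ 3 [(rh2613c889e411427e.shift 2 0), rhc21a95c499b3efdb] (by decide +kernel))
noncomputable def rh3fb8e8d0c4e7ce04 : CRef := CRef.mk (Pat.mk 0xe0000001c000000080000000000000000 0x4000000060000000e0000001c0000000f0000000600000004 4 5) 0 0 (step_sound _ 162 [(rh2145e1d24b96a57e.shift 2 2), rh65110719f316d635] (by decide +kernel))
noncomputable def rhbd9dc4ea21b46b2c : CRef := CRef.mk (Pat.mk 0x200000002000000120000000200000010 0x2000000020000001a0000000f0000001d 4 5) 0 0 (step_sound _ 34 [rh516b276c7065b8d5, (rh55afc6a59410cf00.shift 1 0)] (by decide +kernel))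
noncomputable def rhc59a2df7a9768206 : CRef := CRef.mk (Pat.mk 0x800000038000000080000000800000000 0x8000000080000003c0000000f0000000c00000004 4 6) 0 0 (step_sound _ 34 [(rh932754581e0f4330.shift 2 0), (rhb08a3a1c514e52c3.shift 0 1)] (by decide +kernel))
noncomputable def rhf0e2c011005d3205 : CRef := CRef.mk (Pat.mk 0x60000001e000000020000000600000000 0x2000000060000001e0000003e0000000700000001 4 6) 0 0 (step_sound _ 66 [rh2cc2854bb928dcfb, (rh50fbb5868c909700.shift 1 1)] (by decide +kernel))
noncomputable def rh82cbe8aa729508e4 : CRef := CRef.mk (Pat.mk 0x4000000040000003800000000 0x400000004000000060000003e00000007 4 6) 0 0 (step_sound _ 34 [(rh3244c3cc8379b070.shift 1 1), rh81cdd2836921eed0] (by decide +kernel))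
noncomputable def rh1802206e5fe446ca : CRef := CRef.mk (Pat.mk 0x800000038000000180000000800000000 0x8000000380000003e0000000f00000004 4 6) 0 0 (step_sound _ 66 [(rh53b3c253cb0c65f4.shift 1 2), rhd65e52c5f80caa3b] (by decide +kernel))
noncomputable def rh339e9f32677d49c9 : CRef := CRef.mk (Pat.mk 0x1c0000001c000000040000000000000000 0x40000001c0000001f000000070000000200000002 4 5) 0 0 (step_sound _ 97 [(rh53b3c253cb0c65f4.shift 0 3), rha1a532725e6ae333] (by decide +kernel))
noncomputable def rh65a8cb0b49a1c5b8 : CRef := CRef.mk (Pat.mk 0x700000006000000050000000000000000 0x2000000030000000700000006000000070000000300000002 4 3) 0 0 (step_sound _ 161 [(rh2145e1d24b96a57e.shift 1 2), rha3fcae8ae3aacc9d] (by decide +kernel))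
noncomputable def rhafbc5f83f07aee35 : CRef := CRef.mk (Pat.mk 0x1c000000180000001400000000 0x8000000080000001c0000001f0000003400000004 4 6) 0 0 (step_sound _ 131 [(rh2145e1d24b96a57e.shift 3 1), rh9b0ef802d35b9eaa] (by decide +kernel))
noncomputable def rh5196894f25ccb47b : CRef := CRef.mk (Pat.mk 0xc0000000c000000140000000400000000 0x40000000c0000000c0000001c0000000f0000000a 4 5) 0 0 (step_sound _ 35 [rh04f06f8629e77b13, (rh55afc6a59410cf00.shift 2 0)] (by decide +kernel))
noncomputable def rh9e4f5f4a33433ac3 : CRef := CRef.mk (Pat.mk 0xe000000180000000a0000000000000000 0x4000000060000000e0000001c0000000f0000000600000004 4 5) 0 0 (step_sound _ 66 [(rh53b3c253cb0c65f4.shift 0 2), (rhf9418118d8a61ed7.shift 1 0)] (by decide +kernel))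
noncomputable def rh28513929020ef65a : CRef := CRef.mk (Pat.mk 0x80000001c000000100000001400000000 0x80000001c0000007f0000003600000004 4 7) 0 0 (step_sound _ 66 [(rh71222050f2c63a3a.shift 2 0), (rh9ce6df3bf8812881.shift 0 1)] (by decide +kernel))
noncomputable def rh84a604d40f7df241 : CRef := CRef.mk (Pat.mk 0x1000000010000000000000002800000008 0x1000000010000000100000007c0000000f 4 7) 0 0 (step_sound _ 36 [rh2820ca9a6c4f41b4, (rh3c88ce959c0e423f.shift 3 0)] (by decide +kernel))
noncomputable def rh7702f42df6cc12c2 : CRef := CRef.mk (Pat.mk 0x6000000010000000e00000000 0x4000000040000000600000006000000030000001e00000002 4 5) 0 0 (step_sound _ 65 [(rh215e11e099257d75.shift 1 0), (rhf48373e13d2bc128.shift 0 1)] (by decide +kernel))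
noncomputable def rh95b4c7d6d9b6685a : CRef := CRef.mk (Pat.mk 0x2000000000000001e000000000000000000000000 0x200000002000000030000001e000000060000000400000004 4 5) 0 0 (step_sound _ 129 [(rh3244c3cc8379b070.shift 0 3), (rh70e33bfdf511e144.shift 1 0)] (by decide +kernel))
noncomputable def rh3a50e0bca28fd04c : CRef := CRef.mk (Pat.mk 0x20000001800000003000000000000000000000000 0x2000000020000001f00000003000000010000000100000001 4 5) 0 0 (step_sound _ 129 [(rhb2a0b9ccfb5cecd5.shift 0 3), rhfafeb437ceb8396d] (by decide +kernel))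
noncomputable def rhfd9ad6a48a6b2ae5 : CRef := CRef.mk (Pat.mk 0x200000003000000020000000200000000 0x2000000020000000200000003000000070000000700000004 4 3) 0 0 (step_sound _ 34 [(rh55afc6a59410cf00.shift 1 0), (rhde43633b9e4abc31.shift 0 1)] (by decide +kernel))
noncomputable def rh42b77b88598f587a : CRef := CRef.mk (Pat.mk 0x70000000200000002000000000000000000000000 0x4000000070000000300000002000000060000000600000004 4 3) 0 0 (step_sound _ 65 [(rh2f68792b6b779e96.shift 1 2), rha613ffd40b6c9d24] (by decide +kernel))
noncomputable def rhca502ca6bc67fc1f : CRef := CRef.mk (Pat.mk 0x1800000000000000380000000000000000 0x100000001000000018000000180000000f0000007c0000000c00000004 4 7) 0 0 (step_sound _ 99 [(rh215e11e099257d75.shift 3 1), (rh6ce021e181db5f56.shift 2 0), (rha9fbfd4bb8cf890b.shift 0 2)] (by decide +kernel))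
noncomputable def rhd6dd8c60e72fc04d : CRef := CRef.mk (Pat.mk 0x80000000000000038000000000000000000000000 0x8000000080000000f0000007c000000180000001000000010 4 7) 0 0 (step_sound _ 131 [(rh70e33bfdf511e144.shift 3 0), (rha9fbfd4bb8cf890b.shift 0 3)] (by decide +kernel))
noncomputable def rhac3be1f21c7f3db7 : CRef := CRef.mk (Pat.mk 0x4000000000000001e00000000 0x400000004000000070000003e00000003 4 6) 0 0 (step_sound _ 65 [(rh3244c3cc8379b070.shift 0 1), rha477d073a567e5c1] (by decide +kernel))
noncomputable def rh1cba27e34096d111 : CRef := CRef.mk (Pat.mk 0x6000000000000001e00000000 0x4000000040000000600000006000000030000001e00000002 4 5) 0 0 (step_sound _ 65 [(rh215e11e099257d75.shift 1 0), (rh3244c3cc8379b070.shift 0 1)] (by decide +kernel))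
noncomputable def rh918bcafda8d5258e : CRef := CRef.mk (Pat.mk 0x80000001a0000001800000000 0x800000008000000080000001b0000001f00000004 4 5) 0 0 (step_sound _ 131 [rh114380420d2c6317, (rh2145e1d24b96a57e.shift 3 1)] (by decide +kernel))
noncomputable def rhf8afc0ca7e2ebc9d : CRef := CRef.mk (Pat.mk 0x200000002000000120000000200000000 0x200000002000000020000001e0000000700000005 4 5) 0 0 (step_sound _ 34 [(rh55afc6a59410cf00.shift 1 0), rh8299efcf31db39c9] (by decide +kernel))
noncomputable def rhecb2927e8250214b : CRef := CRef.mk (Pat.mk 0xf0000000c000000080000000000000000 0x180000000f0000000c0000000c0000000c0000000c 4 5) 0 0 (step_sound _ 163 [(rh33e738c4ed385b9f.shift 0 4), (rh53e41f96b2b88c97.shift 2 0)] (by decide +kernel))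
noncomputable def rhd9e126b8d991d1d4 : CRef := CRef.mk (Pat.mk 0x7c00000000 0x70000007f0000003c 4 7) 0 0 (step_sound _ 33 [rh5108aaa789497f8e, (rhd5eb272e07a4e288.shift 0 1)] (by decide +kernel))
noncomputable def rh7b18f3f209f14cd6 : CRef := CRef.mk (Pat.mk 0x2000000020000000600000006000000000000000000000000 0x2000000060000000600000007000000030000000300000002 4 3) 0 0 (step_sound _ 64 [(rh79877ebd3ef475dd.shift 0 2), rhe9ccaeb8e4b60a80] (by decide +kernel))
noncomputable def rhee98f72ecd39c1e9 : CRef := CRef.mk (Pat.mk 0x6000000040000001c0000000000000000 0x200000006000000040000001c0000000f0000000a 4 5) 0 0 (step_sound _ 34 [(rh50fbb5868c909700.shift 1 1), rhfbf2eae4035425b6] (by decide +kernel))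
noncomputable def rhfa4e74cf276cb686 : CRef := CRef.mk (Pat.mk 0xa000000180000000e0000000000000000 0x4000000060000000f0000001c0000000e0000000600000004 4 5) 0 0 (step_sound _ 130 [(rhb739f4f82bb681b4.shift 0 3), (rhf9418118d8a61ed7.shift 1 0)] (by decide +kernel))
noncomputable def rh4503fe5b977e0772 : CRef := CRef.mk (Pat.mk 0x9000000090000000900000009 0x160000001f0000000b0000000900000009 4 5) 0 0 (step_sound _ 97 [rh2f68792b6b779e96, rhe21c7e35b0bf6bf9] (by decide +kernel))
noncomputable def rh1b8205aeab53059f : CRef := CRef.mk (Pat.mk 0x50000000400000007000000000000000000000000 0x5000000050000000500000007000000030000000200000002 4 3) 0 0 (step_sound _ 65 [rh0588d2c7f2cab5e9, (rh5c5e593799055d58.shift 1 2)] (by decide +kernel))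
noncomputable def rh54e11f7298164b1c : CRef := CRef.mk (Pat.mk 0xc000000100000001c00000000 0x8000000080000000f0000007c0000001c00000004 4 7) 0 0 (step_sound _ 67 [(rh37d9ceebb86d75d1.shift 2 0), (rhda90a22cb7305047.shift 0 1)] (by decide +kernel))
noncomputable def rh58b3ccc609c7f9fc : CRef := CRef.mk (Pat.mk 0x3000000180000000200000000 0x10000000100000003000000030000001e0000000200000002 4 5) 0 0 (step_sound _ 65 [(rh5419adcd928dba20.shift 0 2), rhb1a251d9bff81766] (by decide +kernel))
noncomputable def rh1336b731aace5bfc : CRef := CRef.mk (Pat.mk 0x200000002000000000000000300000000 0x4000000060000000600000002000000030000000300000001 4 3) 0 0 (step_sound _ 65 [rh932754581e0f4330, (rh9a369cb82ea472da.shift 0 1)] (by decide +kernel))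
noncomputable def rhbb9f1ef96c38deb0 : CRef := CRef.mk (Pat.mk 0x6000000020000000000000006 0x10000000700000007000000020000000600000006 4 3) 0 0 (step_sound _ 33 [(rh2f68792b6b779e96.shift 1 0), rh5bd4bc0c2c48140c] (by decide +kernel))
noncomputable def rh88b0f0daa26b3579 : CRef := CRef.mk (Pat.mk 0x7000000030000000600000004 0x80000001f0000001b0000001e00000004 4 5) 0 0 (step_sound _ 35 [rhbd74dafabdc61080, (rhf48373e13d2bc128.shift 0 1)] (by decide +kernel))
noncomputable def rh278d046278528ed5 : CRef := CRef.mk (Pat.mk 0x3000000020000000000000003 0x40000000700000007000000020000000300000003 4 3) 0 0 (step_sound _ 33 [rh50fbb5868c909700, rh9a369cb82ea472da] (by decide +kernel))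
noncomputable def rh077dd41dfd272385 : CRef := CRef.mk (Pat.mk 0x800000028000000000000001000000010 0xf0000007c000000100000001000000010 4 7) 0 0 (step_sound _ 100 [(rh2613c889e411427e.shift 3 0), (rha9fbfd4bb8cf890b.shift 0 3)] (by decide +kernel))
noncomputable def rhed50ae5da72d9082 : CRef := CRef.mk (Pat.mk 0x1000000020000000200000006000000020000000000000000 0x300000003000000060000000600000006000000020000000200000002 4 3) 0 0 (step_sound _ 193 [(rh50fbb5868c909700.shift 0 3), (rh84c6bba3847605f7.shift 1 0)] (by decide +kernel))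
noncomputable def rh9317d1eb7655a28f : CRef := CRef.mk (Pat.mk 0x1000000018000000030000000000000000 0x100000001000000018000000180000000f0000000800000008 4 5) 0 0 (step_sound _ 67 [(rh1c62b6193297d9e3.shift 0 2), (rhf9366b6a121593ef.shift 3 0)] (by decide +kernel))
noncomputable def rh95a178aee1073030 : CRef := CRef.mk (Pat.mk 0x1000000018000000050000000000000000 0x100000001000000018000000180000000f0000000800000008 4 5) 0 0 (step_sound _ 67 [(rh24ae073cf30720c4.shift 0 2), (rhf9366b6a121593ef.shift 3 0)] (by decide +kernel))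
noncomputable def rh3593e1fdb4246637 : CRef := CRef.mk (Pat.mk 0x8000000080000001e000000000000000000000000 0x8000000080000001e0000003b0000001000000010 4 6) 0 0 (step_sound _ 65 [(rhc7b95363f9049b11.shift 1 0), (rheb0810cc63b001d8.shift 0 2)] (by decide +kernel))
noncomputable def rhbe1bbe945df355cd : CRef := CRef.mk (Pat.mk 0x1c000000080000000400000004 0x30000001f0000003b0000000600000004 4 6) 0 0 (step_sound _ 97 [rh04395309fba550d6, (rha03f6e28ea70fc7d.shift 0 2)] (by decide +kernel))
noncomputable def rh886e4067945ad57b : CRef := CRef.mk (Pat.mk 0x3c000000000000000000000004 0x70000003e000000060000000400000004 4 6) 0 0 (step_sound _ 129 [(rh3f8766e6ecb455ce.shift 1 3), rhaee0ed564a16aee1] (by decide +kernel))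
noncomputable def rh57006a2a21af6da3 : CRef := CRef.mk (Pat.mk 0xf000000010000000000000001 0x30000001f000000390000000100000001 4 6) 0 0 (step_sound _ 129 [(rh75c6fff53e4cbd6e.shift 0 2), rh9e3edb185cc347de] (by decide +kernel))
noncomputable def rh540f437d7ed50685 : CRef := CRef.mk (Pat.mk 0x2000000020000001a0000000000000000 0x2000000030000003e0000000700000004 4 6) 0 0 (step_sound _ 66 [rh2e6b473cb45f347f, (rh3244c3cc8379b070.shift 0 2)] (by decide +kernel))
noncomputable def rh5baa46239919fe38 : CRef := CRef.mk (Pat.mk 0x2000000020000000200000002000000020000000000000000 0x200000002000000030000000300000003000000030000000200000002 4 2) 0 0 (step_sound _ 96 [rh1406cafceeeef6c2, (rh932754581e0f4330.shift 0 2)] (by decide +kernel))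
noncomputable def rhe897af202bc68eb8 : CRef := CRef.mk (Pat.mk 0x6000000070000000200000002 0x2000000030000000300000007000000070000000300000002 4 3) 0 0 (step_sound _ 128 [(rhbe7adcf16e4dec1b.shift 0 1), rhffd04209dc8ea796] (by decide +kernel))
noncomputable def rhede225ed38d90938 : CRef := CRef.mk (Pat.mk 0x2000000020000001a000000000000000000000000 0x200000002000000030000001e000000060000000400000004 4 5) 0 0 (step_sound _ 98 [(rh3244c3cc8379b070.shift 0 3), (rh70e33bfdf511e144.shift 1 0)] (by decide +kernel))
noncomputable def rh7d91dec27a2fec16 : CRef := CRef.mk (Pat.mk 0x4000000040000003400000000 0x400000004000000060000003e00000007 4 6) 0 0 (step_sound _ 35 [(rh3244c3cc8379b070.shift 1 1), rh81cdd2836921eed0] (by decide +kernel))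
noncomputable def rh2d3e98d3b8972054 : CRef := CRef.mk (Pat.mk 0x2000000120000001a00000000 0x2000000020000001b0000001f00000005 4 5) 0 0 (step_sound _ 34 [rh306753d06e4b3044, (rh3244c3cc8379b070.shift 0 1)] (by decide +kernel))
noncomputable def rh612d1dc4588c6663 : CRef := CRef.mk (Pat.mk 0x40000000200000002000000020000000200000002 0x6000000060000000300000003000000030000000300000002 4 3) 0 0 (step_sound _ 161 [(rh2f68792b6b779e96.shift 1 2), rhad7f3a7ca7906542] (by decide +kernel))
noncomputable def rh73ba6c579e4b229a : CRef := CRef.mk (Pat.mk 0x400000004000000040000001400000000 0x40000000400000004000000070000001e0000000a 4 5) 0 0 (step_sound _ 33 [(rh932754581e0f4330.shift 1 0), rhe1ba4430f80ed85f] (by decide +kernel))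
noncomputable def rhd81088a8b1b98d93 : CRef := CRef.mk (Pat.mk 0x600000023000000000000001800000010 0x1e0000007b000000180000001800000010 4 7) 0 0 (step_sound _ 131 [(rh18965a982d73c794.shift 0 3), (rh729e664a9eeefc54.shift 2 0)] (by decide +kernel))
noncomputable def rh4d80a841e0cec192 : CRef := CRef.mk (Pat.mk 0x30000000600000020000000000000001800000010 0x30000001e00000078000000180000001800000010 4 7) 0 0 (step_sound _ 131 [(rh729e664a9eeefc54.shift 2 0), (rhf48373e13d2bc128.shift 0 4)] (by decide +kernel))
noncomputable def rhd2301139146462cf : CRef := CRef.mk (Pat.mk 0xe00000004000000340000002400000000 0x300000003e00000017000000340000002600000002 4 6) 0 0 (step_sound _ 33 [(rh05526a94dcfcda57.shift 0 1), (rh932754581e0f4330.shift 1 0)] (by decide +kernel))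
noncomputable def rh887f8898c25e39b6 : CRef := CRef.mk (Pat.mk 0x2000000006000000220000001a00000012 0x390000001f0000003a0000001a00000012 4 6) 0 0 (step_sound _ 96 [rh50fbb5868c909700, rhc6b792173f21927f] (by decide +kernel))
noncomputable def rh3d4288dcc933ddb6 : CRef := CRef.mk (Pat.mk 0x800000008000000080000003e00000000 0x40000000c0000000c0000000e0000003e00000003 4 6) 0 0 (step_sound _ 66 [(rh3244c3cc8379b070.shift 1 1), rh52db8f9374849729] (by decide +kernel))
noncomputable def rh98a2281efa777683 : CRef := CRef.mk (Pat.mk 0xc00000008000000080000000800000000 0x100000003c0000000f000000080000000800000008 4 6) 0 0 (step_sound _ 132 [(rh2f68792b6b779e96.shift 3 1), rhfe0270f45009c77d] (by decide +kernel))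
noncomputable def rhdf815e4f673b4ddd : CRef := CRef.mk (Pat.mk 0x400000005800000018 0x60000000ff00000038 4 8) 0 0 (step_sound _ 37 [(rh18965a982d73c794.shift 3 0), rh551a9ca0f9b08dd5] (by decide +kernel))
noncomputable def rh299977ca41c63e61 : CRef := CRef.mk (Pat.mk 0x2000000009000000020000000200000002 0x3d0000001f000000020000000200000002 4 6) 0 0 (step_sound _ 97 [rh50fbb5868c909700, rhad53ad1df1f08d5d] (by decide +kernel))
noncomputable def rhe82418d5d1e1558d : CRef := CRef.mk (Pat.mk 0x200000000800000002000000020000000200000001 0x340000001e00000003000000020000000300000001 4 6) 0 0 (step_sound _ 129 [rh79877ebd3ef475dd, (rhc2ef38e163bb4e4b.shift 0 1)] (by decide +kernel))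
noncomputable def rhaf58ac91a7f2c7aa : CRef := CRef.mk (Pat.mk 0xb000000220000003200000012 0x3c0000003f000000220000003200000012 4 6) 0 0 (step_sound _ 98 [(rh2f68792b6b779e96.shift 1 0), rhaa21d06d7396f2da] (by decide +kernel))
noncomputable def rh7ec945f88b66a691 : CRef := CRef.mk (Pat.mk 0x200000002000000120000001200000000 0x2000000020000001b0000001f00000005 4 5) 0 0 (step_sound _ 34 [(rh55afc6a59410cf00.shift 1 0), rha822b2efc28c880a] (by decide +kernel))
noncomputable def rhabc60700d1c5e650 : CRef := CRef.mk (Pat.mk 0x4000000020000000200000002000000020000001200000000 0x400000006000000020000000200000003000000030000001e00000004 4 5) 0 0 (step_sound _ 193 [(rh2f68792b6b779e96.shift 1 3), rhcc692650c4e9412d] (by decide +kernel))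
noncomputable def rhc36413e0a37e6551 : CRef := CRef.mk (Pat.mk 0x200000002000000120000000200000000 0x2000000020000001e0000000f00000005 4 5) 0 0 (step_sound _ 32 [rh932754581e0f4330, rh9938ce373ed9d77d] (by decide +kernel))
noncomputable def rhabbc875d2a4869df : CRef := CRef.mk (Pat.mk 0x3000000030000001200000000 0x2000000020000000200000003000000030000001f00000004 4 5) 0 0 (step_sound _ 34 [(rh2fe78cc5ca4405d8.shift 0 1), rh860fc38a6f91358e] (by decide +kernel))
noncomputable def rh43903eb41aa6ae4c : CRef := CRef.mk (Pat.mk 0x200000002000000120000000200000000 0x200000002000000030000003e0000000600000004 4 6) 0 0 (step_sound _ 34 [(rh55afc6a59410cf00.shift 1 0), (rhb008b0c579a72809.shift 0 1)] (by decide +kernel))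
noncomputable def rh7dd25d4dd608b71a : CRef := CRef.mk (Pat.mk 0x8000000120000001e000000020000000000000000 0x80000001a0000003f0000000e0000000400000004 4 6) 0 0 (step_sound _ 66 [(rh18965a982d73c794.shift 1 2), rh2e68674d27a64404] (by decide +kernel))
noncomputable def rh4581c8ee58392cc2 : CRef := CRef.mk (Pat.mk 0x4000000240000002c00000000 0x400000004000000360000003e00000003 4 6) 0 0 (step_sound _ 36 [(rh3244c3cc8379b070.shift 1 1), rhfa61abc0a8ce00f0] (by decide +kernel))
noncomputable def rh402d340225d74224 : CRef := CRef.mk (Pat.mk 0x2000000020000000200000002000000020000000400000000 0x200000002000000030000000300000003000000020000000600000006 4 3) 0 0 (step_sound _ 33 [(rh55afc6a59410cf00.shift 1 0), rhaa8ae7d48f3b2ec8] (by decide +kernel))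
noncomputable def rh0607660ff50d178c : CRef := CRef.mk (Pat.mk 0x240000003800000000 0x360000003e00000007 4 6) 0 0 (step_sound _ 34 [rh2591032a0e7f4182, (rh3244c3cc8379b070.shift 1 1)] (by decide +kernel))
noncomputable def rh12110a2e57be7e25 : CRef := CRef.mk (Pat.mk 0x1e0000001000000000 0x1000000010000000300000001f0000001800000008 4 6) 0 0 (step_sound _ 100 [(rh33e738c4ed385b9f.shift 1 2), rhad073aa40107bf75] (by decide +kernel))
noncomputable def rh69431ce95b46fe34 : CRef := CRef.mk (Pat.mk 0x8000000080000000c0000000d000000000000000000000000 0x10000000180000000c0000000c0000000f000000180000001800000008 4 5) 0 0 (step_sound _ 196 [(rh2f68792b6b779e96.shift 3 3), rha85076c68f1f3e46] (by decide +kernel))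
noncomputable def rh0dd67523025e596c : CRef := CRef.mk (Pat.mk 0x20000007c00000000 0x30000007f0000003c 4 7) 0 0 (step_sound _ 3 [rhbf77dad9b53157cf, (rheb0810cc63b001d8.shift 2 0)] (by decide +kernel))
noncomputable def rh2b40d254177f8dd3 : CRef := CRef.mk (Pat.mk 0x1e0000001400000000 0x800000008000000380000001f0000001400000010 4 6) 0 0 (step_sound _ 100 [(rh33e738c4ed385b9f.shift 1 2), rh3441484a69e677ec] (by decide +kernel))
noncomputable def rhc8d5c9136610b7ff : CRef := CRef.mk (Pat.mk 0x7c00000010 0x70000007f0000001c 4 7) 0 0 (step_sound _ 65 [(rh3f8766e6ecb455ce.shift 1 1), rhd1daa8edb501b3b0] (by decide +kernel))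
noncomputable def rh09916dc7d08ceeae : CRef := CRef.mk (Pat.mk 0x800000008000000000000000e00000000 0x800000008000000780000001f00000004 4 7) 0 0 (step_sound _ 67 [(rh932754581e0f4330.shift 2 0), (rha11dfd15f08f96e3.shift 0 1)] (by decide +kernel))
noncomputable def rh5731220f036fdad4 : CRef := CRef.mk (Pat.mk 0x1c00000002000000000000001c00000002 0x40000001e00000003000000030000001e00000003 4 5) 0 0 (step_sound _ 33 [(rh5b528f05be78b4e1.shift 0 1), rheb0810cc63b001d8] (by decide +kernel))
noncomputable def rh07ee5159656727e3 : CRef := CRef.mk (Pat.mk 0x400000000000000000000000f00000000 0x40000000c0000001c0000000f00000018 4 5) 0 0 (step_sound _ 3 [rh34fe1c1902744927, rhe25b0a99195a5d59] (by decide +kernel))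
noncomputable def rh1727d0471b276da2 : CRef := CRef.mk (Pat.mk 0x20000001e000000020000000600000000 0x20000001e0000003e0000000f00000001 4 6) 0 0 (step_sound _ 68 [rh1975b59df13fe119, (rhe25b0a99195a5d59.shift 1 2)] (by decide +kernel))
noncomputable def rh61a0202de37988d6 : CRef := CRef.mk (Pat.mk 0x1000000010000000000000003800000000 0x1000000010000000100000007c0000000f 4 7) 0 0 (step_sound _ 3 [rh2820ca9a6c4f41b4, (rh3c88ce959c0e423f.shift 3 0)] (by decide +kernel))
noncomputable def rh2d71bfb3e5699952 : CRef := CRef.mk (Pat.mk 0x80000000a0000000e000000000000000000000000 0x80000000b0000001e000000380000001000000010 4 6) 0 0 (step_sound _ 100 [(rh3244c3cc8379b070.shift 0 3), (rhc7b95363f9049b11.shift 1 0)] (by decide +kernel))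
noncomputable def rh4c85b653ffd59f79 : CRef := CRef.mk (Pat.mk 0x3000000030000000200000004 0x3000000030000000300000003000000030000000600000004 4 3) 0 0 (step_sound _ 160 [rh047ef4b5f2933661, (rh6f1cbe15c631ee70.shift 0 1)] (by decide +kernel))
noncomputable def rhd3ccd1061e77a241 : CRef := CRef.mk (Pat.mk 0x1000000020000000300000002 0x40000000700000007000000020000000300000003 4 3) 0 0 (step_sound _ 97 [rh50fbb5868c909700, rh79e70552f96217b9] (by decide +kernel))
noncomputable def rhaa738e8eddf7e18b : CRef := CRef.mk (Pat.mk 0x1e000000040000000000000000 0x200000002000000030000001e000000060000000400000004 4 5) 0 0 (step_sound _ 129 [(rh3244c3cc8379b070.shift 0 3), (rhc38f566cab2818e5.shift 1 0)] (by decide +kernel))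
noncomputable def rh5c160883f28e43e1 : CRef := CRef.mk (Pat.mk 0x3c00000000 0x700000003e00000007 4 7) 0 0 (step_sound _ 1 [(rh80fcd6d0a18cb2dd.shift 1 0), rh969f3c6b06e87f8b] (by decide +kernel))
noncomputable def rh3b88b15b9ca37db5 : CRef := CRef.mk (Pat.mk 0x40000000600000007000000050000000000000000 0xc0000000c0000000c0000000600000007000000050000000100000001 4 4) 0 0 (step_sound _ 0 [(rh5fa50b509d4ce753.shift 1 2), rh9e3edb185cc347de] (by decide +kernel))
noncomputable def rhb447be62e606bd33 : CRef := CRef.mk (Pat.mk 0x4000000070000000400000000 0x8000000080000000c0000003c0000000f0000000400000004 4 6) 0 0 (step_sound _ 99 [(rh215e11e099257d75.shift 2 0), (rh572132728df34c43.shift 0 2)] (by decide +kernel))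
noncomputable def rhaa548217957140a1 : CRef := CRef.mk (Pat.mk 0x40000000e0000000a0000000a00000000 0x100000003c0000000e0000000b0000001e00000014 4 6) 0 0 (step_sound _ 131 [rh11a243992b58ed44, (rh712526e472efe489.shift 1 1)] (by decide +kernel))
noncomputable def rh212d95e485501469 : CRef := CRef.mk (Pat.mk 0x3e00000040 0x1c000000ff000000c0 4 8) 0 0 (step_sound _ 38 [(rh9d23b6cb2a64f17a.shift 0 1), (rhe25b0a99195a5d59.shift 3 0)] (by decide +kernel))
noncomputable def rhfe5910dfd461105e : CRef := CRef.mk (Pat.mk 0x4000000050000000500000000000000020000000000000000 0x5000000050000000500000007000000030000000200000002 4 3) 0 0 (step_sound _ 97 [rhe482ee30a2733b5f, (rheea67dfebd0f8008.shift 1 2)] (by decide +kernel))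
noncomputable def rha0c0e9a3a194db35 : CRef := CRef.mk (Pat.mk 0x4000000380000000800000000 0x4000000040000000c0000000f0000003c0000000800000008 4 6) 0 0 (step_sound _ 99 [(rhb1a251d9bff81766.shift 2 0), (rhdbcea10a0fbe5ba6.shift 0 2)] (by decide +kernel))
noncomputable def rhf8482072d8419c4f : CRef := CRef.mk (Pat.mk 0x10000000e0000000200000000 0x10000000100000003000000030000001e0000000200000002 4 5) 0 0 (step_sound _ 97 [rhb1a251d9bff81766, (rhf48373e13d2bc128.shift 0 2)] (by decide +kernel))
noncomputable def rhb5ba847c57864cbc : CRef := CRef.mk (Pat.mk 0x20000000e0000000200000000 0x10000000100000003000000030000001e0000000200000002 4 5) 0 0 (step_sound _ 96 [rhb1a251d9bff81766, (rhf48373e13d2bc128.shift 0 2)] (by decide +kernel))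
noncomputable def rhd50d08631ad43fbf : CRef := CRef.mk (Pat.mk 0x2000000030000000200000002000000020000000000000000 0x2000000070000000700000006000000060000000200000002 4 3) 0 0 (step_sound _ 33 [(rh0a774309bb5a000b.shift 1 0), (rhffd04209dc8ea796.shift 0 1)] (by decide +kernel))
noncomputable def rhc36e35d9fcfbda70 : CRef := CRef.mk (Pat.mk 0x38000000080000000800000010 0xf0000007c000000080000001800000010 4 7) 0 0 (step_sound _ 131 [(rha9fbfd4bb8cf890b.shift 0 3), (rhd3458b32566d63f7.shift 3 0)] (by decide +kernel))
noncomputable def rha5c7b0e6a9c62578 : CRef := CRef.mk (Pat.mk 0x7000000040000000400000002 0x80000003c0000000f000000040000000600000002 4 6) 0 0 (step_sound _ 130 [(rh684e729394fba19d.shift 0 1), (rh79877ebd3ef475dd.shift 1 0)] (by decide +kernel))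
noncomputable def rhdb2dd61d1aef3fca : CRef := CRef.mk (Pat.mk 0x200000002000000020000000100000000 0x20000000200000002000000070000000700000005 4 3) 0 0 (step_sound _ 33 [rh932754581e0f4330, rhf3cdd189c46cffe9] (by decide +kernel))
noncomputable def rh07ccc6e4230bb59c : CRef := CRef.mk (Pat.mk 0x3000000070000000400000004 0x8000000080000001f0000001f0000000400000004 4 5) 0 0 (step_sound _ 67 [rh49606a42a30c7ac4, (rhf48373e13d2bc128.shift 0 2)] (by decide +kernel))
noncomputable def rh70343e0afd866a51 : CRef := CRef.mk (Pat.mk 0x7000000060000000400000004 0x80000003f0000003e0000000400000004 4 6) 0 0 (step_sound _ 99 [(rh2f68792b6b779e96.shift 2 0), (rhf5e124ec5c58a2dd.shift 0 2)] (by decide +kernel))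
noncomputable def rh69baf8aa117ba2ec : CRef := CRef.mk (Pat.mk 0x1c000000180000001000000010 0x270000003f000000180000001000000010 4 6) 0 0 (step_sound _ 101 [(rh2f68792b6b779e96.shift 4 0), (rhba89ab7cb81bcc90.shift 0 2)] (by decide +kernel))
noncomputable def rhd29496a0b66fc9ff : CRef := CRef.mk (Pat.mk 0x100000000e000000040000000000000000 0x8000000080000001c0000000f000000040000000400000004 4 5) 0 0 (step_sound _ 131 [(rh4821dcf828b9d7bf.shift 2 0), (rh53b3c253cb0c65f4.shift 0 3)] (by decide +kernel))
noncomputable def rhc38176d5265d3b20 : CRef := CRef.mk (Pat.mk 0x1000000002000000120000000200000002 0x1d0000000f0000001a0000000200000002 4 5) 0 0 (step_sound _ 98 [rh2ad16b16480fcf4b, (rh2f68792b6b779e96.shift 1 0)] (by decide +kernel))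
noncomputable def rhc897e2556d02e609 : CRef := CRef.mk (Pat.mk 0x1000000006000000020000000a0000000a 0x390000001f0000000a0000000a0000000a 4 6) 0 0 (step_sound _ 96 [rh50fbb5868c909700, rhd6d3c448b84eb122] (by decide +kernel))
noncomputable def rh5e8888c5a8b0359b : CRef := CRef.mk (Pat.mk 0x400000014000000040000000400000000 0xa0000000f0000001c000000040000000400000004 4 5) 0 0 (step_sound _ 131 [(rh2f68792b6b779e96.shift 2 1), rh8cde4f17a4496ff2] (by decide +kernel))
noncomputable def rhdf6e52dc69951ef8 : CRef := CRef.mk (Pat.mk 0x400000014000000040000000400000000 0x80000000f0000003c000000040000000400000004 4 6) 0 0 (step_sound _ 131 [(rh2f68792b6b779e96.shift 2 1), rhf9462d2b20259f10] (by decide +kernel))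
noncomputable def rh4d6ff7d31d8220d4 : CRef := CRef.mk (Pat.mk 0x60000001e00000008 0x10000000300000003e0000001f00000008 4 6) 0 0 (step_sound _ 68 [(rh33e738c4ed385b9f.shift 1 1), rhf8993406b52adb5c] (by decide +kernel))
noncomputable def rh39fe51eda3f2ba6d : CRef := CRef.mk (Pat.mk 0x200000001000000050000000500000000 0x2000000020000000700000007000000050000000500000004 4 3) 0 0 (step_sound _ 161 [(rh1006c02ae4212ff0.shift 0 1), (rh84e8b24e1b3c1ebb.shift 1 0)] (by decide +kernel))
noncomputable def rh04c47e9426fff8d3 : CRef := CRef.mk (Pat.mk 0x3800000010000000100000001000000000 0x7c0000001f000000100000001000000010 4 7) 0 0 (step_sound _ 99 [(rh2820ca9a6c4f41b4.shift 0 3), (rh7b1f1fb55310c477.shift 3 0)] (by decide +kernel))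
noncomputable def rhc3c5a9466d0b569d : CRef := CRef.mk (Pat.mk 0x8000000280000000800000000 0x4000000040000000c0000000f0000007c0000000800000008 4 7) 0 0 (step_sound _ 98 [(rh8c25cb665ab79ec0.shift 0 2), (rhb1a251d9bff81766.shift 2 0), (rhf9a6286f1d5377a2.shift 2 0)] (by decide +kernel))
noncomputable def rh3137f3db262c2e3f : CRef := CRef.mk (Pat.mk 0x1000000010000000000000000f00000000 0x1000000010000000380000003f00000030 4 6) 0 0 (step_sound _ 68 [(rh428265de8cd3cd2d.shift 0 1), (rhe3541bb398310790.shift 1 0)] (by decide +kernel))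
noncomputable def rh04ff14ccb3eb0c5e : CRef := CRef.mk (Pat.mk 0x2000000050000000500000001 0x2000000020000000600000007000000050000000500000005 4 3) 0 0 (step_sound _ 129 [rh1006c02ae4212ff0, (rh4d760d0d70847451.shift 1 0)] (by decide +kernel))
noncomputable def rh269fa17efa5fd3eb : CRef := CRef.mk (Pat.mk 0x20000000200000002000000060000000100000000 0x400000006000000060000000200000006000000060000000300000001 4 3) 0 0 (step_sound _ 33 [(rh73f605273a09a9d0.shift 1 2), rh932754581e0f4330] (by decide +kernel))
noncomputable def rhebedeba8ef332487 : CRef := CRef.mk (Pat.mk 0x400000004000000040000000e 0x400000004000000040000007c0000001f 4 7) 0 0 (step_sound _ 35 [(rh2145e1d24b96a57e.shift 2 0), rha11dfd15f08f96e3] (by decide +kernel))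
noncomputable def rh87648610ed2ca633 : CRef := CRef.mk (Pat.mk 0x1000000028000000280000003800000000 0x100000003c0000002f0000007800000020 4 7) 0 0 (step_sound _ 66 [rh085bcc7974ddbf15, (rhf48373e13d2bc128.shift 2 1)] (by decide +kernel))
noncomputable def rh9811135352b05f37 : CRef := CRef.mk (Pat.mk 0x20000000a0000000a0000000a00000000 0xa0000000a0000000b0000001e00000034 4 6) 0 0 (step_sound _ 34 [rh299a18a9bb09cab4, (rh55afc6a59410cf00.shift 1 0)] (by decide +kernel))
noncomputable def rheff558eebe4b8e86 : CRef := CRef.mk (Pat.mk 0x1000000028000000280000003800000000 0x100000003c0000002f0000007800000020 4 7) 0 0 (step_sound _ 100 [(rh7b1f1fb55310c477.shift 4 0), (rhec6ca4eaae8a1130.shift 0 1)] (by decide +kernel))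
noncomputable def rh2d151ceafdcfd52e : CRef := CRef.mk (Pat.mk 0x1e0000001c000000140000001400000000 0x1e0000001f000000170000003c00000020 4 6) 0 0 (step_sound _ 97 [rh81f4bde944249e68, (rheb0810cc63b001d8.shift 0 3)] (by decide +kernel))
noncomputable def rh1dbcb5e00a28937f : CRef := CRef.mk (Pat.mk 0x200000002000000020000000200000002 0x6000000060000000700000003000000030000000300000002 4 3) 0 0 (step_sound _ 96 [rh50fbb5868c909700, (rh51c6e968f434a54a.shift 0 1)] (by decide +kernel))
noncomputable def rhb7f088ebf5701d6e : CRef := CRef.mk (Pat.mk 0x400000002000000020000000200000000 0x1000000070000000700000002000000030000000300000001 4 3) 0 0 (step_sound _ 129 [rh0fd870c734e6c513, (rh2f68792b6b779e96.shift 1 1)] (by decide +kernel))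
noncomputable def rhd6c4655f6972a41c : CRef := CRef.mk (Pat.mk 0x200000002000000020000000200000000 0x1000000030000000300000002000000060000000600000004 4 3) 0 0 (step_sound _ 160 [rh4868915274d66678, (rhffd04209dc8ea796.shift 0 1)] (by decide +kernel))
noncomputable def rh38dab6a66c300bf2 : CRef := CRef.mk (Pat.mk 0x1c0000001400000004 0x200000002000000070000001e0000003400000004 4 6) 0 0 (step_sound _ 65 [rh1c1037cb5b3fe471, (rhe25b0a99195a5d59.shift 1 1)] (by decide +kernel))
noncomputable def rh81bb991d0b64e3e7 : CRef := CRef.mk (Pat.mk 0xe000000100000001400000014 0x330000003e000000130000001600000014 4 6) 0 0 (step_sound _ 100 [rh04395309fba550d6, (rh763788a68c67bc0c.shift 1 0)] (by decide +kernel))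
noncomputable def rhcdaa3be5a252d206 : CRef := CRef.mk (Pat.mk 0x380000000000000010000000100000000000000000 0x7c0000001f00000018000000180000001000000010 4 7) 0 0 (step_sound _ 131 [(rh2820ca9a6c4f41b4.shift 0 4), (rh74a43b9a483760f6.shift 3 0)] (by decide +kernel))
noncomputable def rh38da93742bbed16d : CRef := CRef.mk (Pat.mk 0x1600000006000000020000000800000008 0x3000000030000001e00000006000000060000000c00000008 4 5) 0 0 (step_sound _ 66 [(rh8ebc15871c473b31.shift 0 2), (rhbe0e43a3bc50a43f.shift 2 0)] (by decide +kernel))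
noncomputable def rhecdf19ca2805377f : CRef := CRef.mk (Pat.mk 0x200000002000000020000001a00000000 0x10000000300000003000000030000001e00000003 4 5) 0 0 (step_sound _ 128 [(rh50fbb5868c909700.shift 0 1), rhc2f3b1e0f0f2bbd4] (by decide +kernel))
noncomputable def rh1683b5e71e7f1dc2 : CRef := CRef.mk (Pat.mk 0x400000004000000140000000400000000 0x4000000040000003c0000000f0000000a 4 6) 0 0 (step_sound _ 33 [rh7226b7e12a1c05dd, (rh932754581e0f4330.shift 1 0)] (by decide +kernel))
noncomputable def rh7a0a50a400d2faa7 : CRef := CRef.mk (Pat.mk 0x1c0000000000000002000000020000001e00000000 0x1f0000000300000003000000020000001e00000003 4 5) 0 0 (step_sound _ 1 [rh87c9466c8591c250, rheb0810cc63b001d8] (by decide +kernel))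
noncomputable def rh7c65fdfd6a775418 : CRef := CRef.mk (Pat.mk 0x180000000800000002000000020000001e00000000 0x190000000f00000003000000020000001e00000003 4 5) 0 0 (step_sound _ 1 [rh71cb10c4645d4244, rheb0810cc63b001d8] (by decide +kernel))
noncomputable def rh06be8e5562dc7104 : CRef := CRef.mk (Pat.mk 0x1c0000001400000004 0x2000000030000001e0000003700000004 4 6) 0 0 (step_sound _ 65 [(rhe25b0a99195a5d59.shift 1 1), rhe4f9133a81c1dbc5] (by decide +kernel))
noncomputable def rh8225856b068764f0 : CRef := CRef.mk (Pat.mk 0x14000000140000001400000000 0x800000008000000180000003e000000370000001400000004 4 6) 0 0 (step_sound _ 99 [(rh99b216bb884ddd3c.shift 2 0), (rhdf1028bdcc8bfa19.shift 0 2)] (by decide +kernel))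
noncomputable def rhfee6cf4b1b804c14 : CRef := CRef.mk (Pat.mk 0x1c0000001400000004 0x200000002000000030000001e0000003600000004 4 6) 0 0 (step_sound _ 65 [rh768a472a1ebe455c, (rhe25b0a99195a5d59.shift 1 1)] (by decide +kernel))
noncomputable def rh475168db3ef08423 : CRef := CRef.mk (Pat.mk 0x60000000a0000000a0000000a 0x190000001f0000001a0000000a0000000a 4 5) 0 0 (step_sound _ 96 [rh50fbb5868c909700, rheb90acdf362e49d3] (by decide +kernel))
noncomputable def rh2ccbd86a7098bf36 : CRef := CRef.mk (Pat.mk 0xe0000000200000002 0x4000000070000003e0000000300000002 4 6) 0 0 (step_sound _ 68 [rh7b3460ecbfb1f98e, (rheb0810cc63b001d8.shift 0 1)] (by decide +kernel))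
noncomputable def rhe1e06f71f002e8e1 : CRef := CRef.mk (Pat.mk 0xa000000020000000200000002 0x1000000070000001f000000020000000200000002 4 5) 0 0 (step_sound _ 128 [rh64f890f8f4d01098, rhffd04209dc8ea796] (by decide +kernel))
noncomputable def rh757a9d81fa2f759f : CRef := CRef.mk (Pat.mk 0x1000000028000000080000000800000000 0x100000007c0000000f0000000800000008 4 7) 0 0 (step_sound _ 100 [(rh2820ca9a6c4f41b4.shift 0 2), (rh71222050f2c63a3a.shift 3 0)] (by decide +kernel))
noncomputable def rh775cf443270299f0 : CRef := CRef.mk (Pat.mk 0x800000038000000080000002800000000 0x80000003c0000000f0000007800000010 4 7) 0 0 (step_sound _ 36 [(rh55afc6a59410cf00.shift 3 0), (rhec6ca4eaae8a1130.shift 0 1)] (by decide +kernel))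
noncomputable def rha371b30a6f1169f8 : CRef := CRef.mk (Pat.mk 0x200000002000000020000000a00000003 0x4000000060000000600000002000000060000001e00000003 4 5) 0 0 (step_sound _ 34 [rh18965a982d73c794, (rh73f605273a09a9d0.shift 1 1)] (by decide +kernel))
noncomputable def rhb926de49454c6622 : CRef := CRef.mk (Pat.mk 0x100000001a0000000a00000002000000060000000000000000 0x100000001a0000000a0000000a0000001f0000000300000001 4 5) 0 0 (step_sound _ 32 [(rh79877ebd3ef475dd.shift 0 1), rh95ece849048fa521] (by decide +kernel))
noncomputable def rh6910e41b3fcd20f3 : CRef := CRef.mk (Pat.mk 0x3000000120000001a0000000a 0x40000001e00000017000000120000001a0000000a 4 5) 0 0 (step_sound _ 130 [rh8b05b7b445fa71e8, (rhbaefcd01e0a8bca3.shift 1 0)] (by decide +kernel))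
noncomputable def rha7e239a8204be023 : CRef := CRef.mk (Pat.mk 0x200000007000000040000000000000000 0xa0000001e00000007000000040000000400000004 4 5) 0 0 (step_sound _ 34 [(rh7b1f1fb55310c477.shift 1 0), (rhdb657c5fcfc6fcbb.shift 0 1)] (by decide +kernel))
noncomputable def rh3faee1d7441d631a : CRef := CRef.mk (Pat.mk 0x180000001e0000000400000000 0x30000001f0000003e0000000400000004 4 6) 0 0 (step_sound _ 97 [(rh3244c3cc8379b070.shift 0 2), rhc70cc62f290bb2d0] (by decide +kernel))
noncomputable def rha20eb734ea932873 : CRef := CRef.mk (Pat.mk 0x1e0000000400000000 0x200000002000000030000001e0000000700000004 4 5) 0 0 (step_sound _ 97 [(rh3244c3cc8379b070.shift 0 2), rh6048c5d3c2d53249] (by decide +kernel))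
noncomputable def rhfc8cf34224bea7a0 : CRef := CRef.mk (Pat.mk 0x2000000020000000200000002000000020000000400000000 0x2000000030000000300000003000000030000000600000006 4 3) 0 0 (step_sound _ 33 [rh1fe7bd026babc309, (rh55afc6a59410cf00.shift 1 0)] (by decide +kernel))
noncomputable def rha614bc41232bed61 : CRef := CRef.mk (Pat.mk 0x10000000500000007000000000000000000000000 0x5000000050000000500000007000000060000000200000002 4 3) 0 0 (step_sound _ 65 [(rh2145e1d24b96a57e.shift 0 2), (rhadf429772c25fde0.shift 1 0)] (by decide +kernel))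
noncomputable def rh27042fca60deae2b : CRef := CRef.mk (Pat.mk 0x4000000000000000500000007000000000000000000000000 0x5000000050000000700000007000000020000000200000002 4 3) 0 0 (step_sound _ 65 [rha40d42a2e34c408d, (rhee230b994cc8b773.shift 1 2)] (by decide +kernel))
noncomputable def rhfa924f7a70a26e42 : CRef := CRef.mk (Pat.mk 0x180000000000000002000000060000000200000000 0x40000001f0000000f00000002000000060000000600000004 4 5) 0 0 (step_sound _ 129 [(rh286a4225f59173b7.shift 0 1), (rhd4b4beefcd67f51e.shift 1 0), (rhee09af17e8a02ac2.shift 0 1)] (by decide +kernel))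
noncomputable def rh368d7bd9bf559600 : CRef := CRef.mk (Pat.mk 0x400000008000000280000000800000000 0x40000000f0000007c0000000800000008 4 7) 0 0 (step_sound _ 98 [(rh7b1f1fb55310c477.shift 2 0), (rh8c25cb665ab79ec0.shift 0 2)] (by decide +kernel))
noncomputable def rha293280c3563936a : CRef := CRef.mk (Pat.mk 0x2000000020000000a0000000200000000 0x200000002000000030000001e0000000700000004 4 5) 0 0 (step_sound _ 34 [(rh36d8e80ff909db74.shift 0 1), (rh55afc6a59410cf00.shift 1 0)] (by decide +kernel))
noncomputable def rh5032d5f9d016731b : CRef := CRef.mk (Pat.mk 0x1e000000000000000000000002000000020000000200000000 0x1f000000030000000300000003000000020000000200000002 4 5) 0 0 (step_sound _ 160 [(rh80fcd6d0a18cb2dd.shift 0 5), rhbce148b940337ede] (by decide +kernel))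
noncomputable def rh2bb3da8bc8afc618 : CRef := CRef.mk (Pat.mk 0x1e000000000000000000000002 0x70000003e000000030000000200000002 4 6) 0 0 (step_sound _ 129 [(rh3244c3cc8379b070.shift 0 3), rh915b7a04d91a9389] (by decide +kernel))
noncomputable def rh77502aab4757b0ce : CRef := CRef.mk (Pat.mk 0x1e0000000000000000000000020000000200000000 0x40000001e0000000300000002000000030000000300000001 4 5) 0 0 (step_sound _ 129 [rh0d4762219e385970, (rheb0810cc63b001d8.shift 0 4)] (by decide +kernel))
noncomputable def rh4e334354818c0f5c : CRef := CRef.mk (Pat.mk 0xd0000000c00000008 0x1800000018000000180000000f0000000c0000000c 4 5) 0 0 (step_sound _ 99 [(rh503dd4575245365b.shift 2 0), (rh5fa50b509d4ce753.shift 2 0), rh7e143111a189f2ad] (by decide +kernel))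
noncomputable def rhb610a44bb7d47cab : CRef := CRef.mk (Pat.mk 0xe000000000000000400000004 0x7c0000000f000000040000000400000004 4 7) 0 0 (step_sound _ 131 [(rh04253f50b6dd0619.shift 2 0), (rhff7d63dcb3cf9f74.shift 0 3)] (by decide +kernel))
noncomputable def rh4cdf5fe98ac0cc22 : CRef := CRef.mk (Pat.mk 0x8000000280000000800000004 0x8000000080000007c0000000f00000004 4 7) 0 0 (step_sound _ 34 [(rh5c5e593799055d58.shift 2 0), (rhe33d9496e10d8eb0.shift 0 1)] (by decide +kernel))
noncomputable def rh5961fa93b56e2bd1 : CRef := CRef.mk (Pat.mk 0x280000000800000070 0x7c0000000f00000078 4 7) 0 0 (step_sound _ 34 [(rh09d4dfe75d4407d6.shift 2 0), (rhe33d9496e10d8eb0.shift 0 1)] (by decide +kernel))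
noncomputable def rha51f537e042fce54 : CRef := CRef.mk (Pat.mk 0x28000000280000002000000020 0x100000007c0000002f0000002000000020 4 7) 0 0 (step_sound _ 100 [(rh2820ca9a6c4f41b4.shift 0 2), (rh50fbb5868c909700.shift 4 0)] (by decide +kernel))
noncomputable def rhb7ee8905496f843d : CRef := CRef.mk (Pat.mk 0x200000002000000020000000200000000 0x4000000060000000600000002000000030000000300000001 4 3) 0 0 (step_sound _ 32 [(rh1ae8cb0b33fd1844.shift 0 1), rh932754581e0f4330] (by decide +kernel))
noncomputable def rh54278b2574c8dca5 : CRef := CRef.mk (Pat.mk 0xa00000008000000080000000c 0x100000001c0000000f000000080000000c0000000c 4 5) 0 0 (step_sound _ 131 [(rh79877ebd3ef475dd.shift 2 0), rhcfae3e00d2022b76] (by decide +kernel))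
noncomputable def rh2c718f29f451ad95 : CRef := CRef.mk (Pat.mk 0xa000000080000000800000008 0x100000001c0000001f000000080000000800000008 4 5) 0 0 (step_sound _ 132 [rh157798f00ed3479b, (rhbaefcd01e0a8bca3.shift 3 0)] (by decide +kernel))
noncomputable def rh8d6ba5dde7b2f1d1 : CRef := CRef.mk (Pat.mk 0x400000016000000060000000000000000 0x2000000070000001e000000070000000400000004 4 5) 0 0 (step_sound _ 99 [rhe8ba5e25e7c74702, (rheb0810cc63b001d8.shift 0 2)] (by decide +kernel))
noncomputable def rh0aefef67a4f5e36d : CRef := CRef.mk (Pat.mk 0xe0000000a00000008 0x1000000010000000380000001e0000000b00000008 4 6) 0 0 (step_sound _ 68 [(rh49606a42a30c7ac4.shift 1 0), (rheb0810cc63b001d8.shift 0 1)] (by decide +kernel))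
noncomputable def rhf35bfcad7d6b18ce : CRef := CRef.mk (Pat.mk 0x8000000080000000a000000030000000000000000 0x800000008000000080000001e0000001b0000001000000010 4 5) 0 0 (step_sound _ 100 [(rh70e33bfdf511e144.shift 3 0), (rhb2a0b9ccfb5cecd5.shift 0 2)] (by decide +kernel))
noncomputable def rh028b73e3b7973375 : CRef := CRef.mk (Pat.mk 0x30000000a000000080000000800000000 0x10000000100000001b0000001e000000080000000800000008 4 5) 0 0 (step_sound _ 100 [(rh215e11e099257d75.shift 3 0), (rh5419adcd928dba20.shift 0 3)] (by decide +kernel))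
noncomputable def rh12b9cd66d8542877 : CRef := CRef.mk (Pat.mk 0x80000000e00000010000000000000000000000000 0x80000001f00000078000000180000001000000010 4 7) 0 0 (step_sound _ 68 [(rh1b8d735d1ec00cd4.shift 1 1), (rh7b93e260e30176fc.shift 0 3), rhd53312dad770d5e8] (by decide +kernel))
noncomputable def rhc670e222906b9586 : CRef := CRef.mk (Pat.mk 0x60000000e000000100000001000000000 0x3e0000003f000000100000001000000010 4 6) 0 0 (step_sound _ 100 [rha52af548f468201f, (rhf48373e13d2bc128.shift 1 3)] (by decide +kernel))
noncomputable def rh32bea5880f07e60b : CRef := CRef.mk (Pat.mk 0xc00000008000000020000000200000002 0x10000000f0000001f000000020000000200000002 4 5) 0 0 (step_sound _ 97 [rh31a21fb82c3d380d, (rhbaefcd01e0a8bca3.shift 1 0)] (by decide +kernel))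
noncomputable def rh4e316735d39c0b0f : CRef := CRef.mk (Pat.mk 0xc00000008000000200000006000000040 0x3f00000078000000200000006000000040 4 7) 0 0 (step_sound _ 101 [(rh126557da767e56cc.shift 0 3), (rh2145e1d24b96a57e.shift 5 0)] (by decide +kernel))
noncomputable def rh94ee8d585e13c95f : CRef := CRef.mk (Pat.mk 0x30000000200000008000000080000000b0000000000000000 0x130000001e00000008000000080000001f0000001800000010 4 5) 0 0 (step_sound _ 163 [(rh92849c133feb679d.shift 0 2), rhd8fc2fe14131b89c] (by decide +kernel))
noncomputable def rhd8fcc0fce79b987f : CRef := CRef.mk (Pat.mk 0x100000000a0000000800000008 0x100000007c0000000f0000000800000008 4 7) 0 0 (step_sound _ 99 [(rh2f68792b6b779e96.shift 3 0), (rhedf3a755fe019897.shift 0 2)] (by decide +kernel))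
noncomputable def rh5c2e6150b0ec0f38 : CRef := CRef.mk (Pat.mk 0x100000000300000002000000020000000b00000018000000000000000000000000 0x10000000130000001e0000001e0000000b00000018000000180000001000000010 4 5) 0 0 (step_sound _ 163 [(rh3288a4cd6c29f6f5.shift 0 2), (rh70e33bfdf511e144.shift 3 0), (rh8c3b7126860224f2.shift 0 2)] (by decide +kernel))
noncomputable def rh3a925e7b8292dc86 : CRef := CRef.mk (Pat.mk 0xa0000000b0000000800000000 0x1000000010000000180000001e0000000b0000000800000008 4 5) 0 0 (step_sound _ 100 [(rh215e11e099257d75.shift 3 0), (rhb2a0b9ccfb5cecd5.shift 0 2)] (by decide +kernel))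
noncomputable def rha66e4e5ada000089 : CRef := CRef.mk (Pat.mk 0x80000000b0000000a000000000000000000000000 0x8000000080000000b0000001e000000180000001000000010 4 5) 0 0 (step_sound _ 100 [(rh5419adcd928dba20.shift 0 3), (rh70e33bfdf511e144.shift 3 0)] (by decide +kernel))
noncomputable def rh8bb748aa3bd94306 : CRef := CRef.mk (Pat.mk 0x80000000a0000001e0000000c 0x60000000f0000003a0000001e0000000c 4 6) 0 0 (step_sound _ 97 [(rh2145e1d24b96a57e.shift 1 0), rh492a02e0f2edd80c] (by decide +kernel))
noncomputable def rhf32ad60d2824f85e : CRef := CRef.mk (Pat.mk 0x1c0000001c 0x70000007f0000001c 4 7) 0 0 (step_sound _ 33 [rh6e8a826a5508ce46, rhb739f4f82bb681b4] (by decide +kernel))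
noncomputable def rh34faa4ef2034f9f7 : CRef := CRef.mk (Pat.mk 0x1a000000060000000200000000 0x600000006000000070000001e000000060000000600000002 4 5) 0 0 (step_sound _ 98 [(rh215e11e099257d75.shift 1 0), (rh84d1c02a8954c6a8.shift 1 0), (rhbdb8dfd08861fbf7.shift 0 1)] (by decide +kernel))
noncomputable def rh5357388b2354ee7a : CRef := CRef.mk (Pat.mk 0x2000000060000001a0000000000000000 0x600000006000000060000001e0000000700000006 4 5) 0 0 (step_sound _ 66 [rh031a926e4a883687, (rh55a1f6c57a317ce6.shift 1 0)] (by decide +kernel))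
noncomputable def rhafa88c550ea36308 : CRef := CRef.mk (Pat.mk 0xc000000080000001e00000004 0x20000000f0000003b0000001e00000004 4 6) 0 0 (step_sound _ 68 [(rh33e738c4ed385b9f.shift 1 1), rhc1978c5ca7ecb4b1] (by decide +kernel))
noncomputable def rh64d324585ca865ad : CRef := CRef.mk (Pat.mk 0x400000004000000040000001400000000 0x40000000400000004000000070000003e00000002 4 6) 0 0 (step_sound _ 33 [(rh932754581e0f4330.shift 1 0), (rh9723ec244ab284e0.shift 0 1)] (by decide +kernel))
noncomputable def rh500fb1836ab2ed66 : CRef := CRef.mk (Pat.mk 0x4000000040000001400000002 0x400000004000000070000003e00000003 4 6) 0 0 (step_sound _ 33 [(rh5c5e593799055d58.shift 1 0), rh8aeae207ef4e32d0] (by decide +kernel))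
noncomputable def rh045fdf00b94dada8 : CRef := CRef.mk (Pat.mk 0x800000008000000280000000400000000 0x8000000080000007c0000000f00000004 4 7) 0 0 (step_sound _ 35 [(rh932754581e0f4330.shift 2 0), (rhe33d9496e10d8eb0.shift 0 1)] (by decide +kernel))
noncomputable def rh4ed8f83e52b7dbab : CRef := CRef.mk (Pat.mk 0x1e0000001a0000000000000000 0x4000000070000001e0000001e0000000300000003 4 5) 0 0 (step_sound _ 129 [(rh3244c3cc8379b070.shift 0 3), rhf7ede8521b5e3068] (by decide +kernel))
noncomputable def rh2456963ff1f7bf23 : CRef := CRef.mk (Pat.mk 0x3c0000000c 0x70000003e0000007c 4 7) 0 0 (step_sound _ 5 [rh9f15a3a342ec426e, (rhe25b0a99195a5d59.shift 2 0)] (by decide +kernel))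
noncomputable def rha6a040162bfeb7da : CRef := CRef.mk (Pat.mk 0xa0000000a0000000a0000000a 0x170000001f0000000a0000000a0000000a 4 5) 0 0 (step_sound _ 98 [(rh50fbb5868c909700.shift 2 0), rhdba1ec57949f823b] (by decide +kernel))
noncomputable def rh29efd1cb4ad9cce1 : CRef := CRef.mk (Pat.mk 0x80000000a0000000e000000000000000000000000 0x8000000080000000b0000001e000000180000001000000010 4 5) 0 0 (step_sound _ 100 [(rh3244c3cc8379b070.shift 0 3), (rh70e33bfdf511e144.shift 3 0)] (by decide +kernel))
noncomputable def rh1d991cfd4e134774 : CRef := CRef.mk (Pat.mk 0xa0000000a0000000a00000002 0x340000001e0000000b0000000a0000000a 4 6) 0 0 (step_sound _ 98 [(rh2f68792b6b779e96.shift 1 0), rh5bc090164f229948] (by decide +kernel))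
noncomputable def rh9765e413c7f50252 : CRef := CRef.mk (Pat.mk 0x80000000b00000008000000000000000000000000 0x8000000080000000f00000018000000180000001000000010 4 5) 0 0 (step_sound _ 100 [(rh70e33bfdf511e144.shift 3 0), (rhc10214bf3fe8094a.shift 0 3)] (by decide +kernel))
noncomputable def rh772b018c11e2d4b9 : CRef := CRef.mk (Pat.mk 0x100000001000000050000000500000004000000000000000000000000 0x100000005000000050000000700000006000000060000000200000002 4 3) 0 0 (step_sound _ 97 [(rh281c6819542c66e6.shift 1 0), (rhd3458b32566d63f7.shift 0 3)] (by decide +kernel))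
noncomputable def rh1c34848042744132 : CRef := CRef.mk (Pat.mk 0xb00000008000000080000000800000000 0x10000000180000001f00000008000000080000000c00000004 4 5) 0 0 (step_sound _ 2 [(rh79877ebd3ef475dd.shift 2 0), (rhd444dcb48ef11957.shift 0 1)] (by decide +kernel))
noncomputable def rh411c59e4c32629a3 : CRef := CRef.mk (Pat.mk 0x2e00000020000000200000002000000000 0x3e00000067000000200000003000000010 4 7) 0 0 (step_sound _ 4 [(rh18d8302ef044281c.shift 0 3), (rh79877ebd3ef475dd.shift 4 0)] (by decide +kernel))
noncomputable def rh9c8943d9f76f5c55 : CRef := CRef.mk (Pat.mk 0x120000000a000000080000000800000000 0x100000001e0000003b000000080000000800000008 4 6) 0 0 (step_sound _ 131 [(rh2f68792b6b779e96.shift 3 1), rhd62c7752c27835a7] (by decide +kernel))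
noncomputable def rhb930b94183d881f3 : CRef := CRef.mk (Pat.mk 0x8000000080000000700000000 0x800000008000000180000001f00000038 4 6) 0 0 (step_sound _ 35 [(rh33e738c4ed385b9f.shift 0 1), rh5e044f2a7fe8917d] (by decide +kernel))
noncomputable def rhfe7f98b401a6fced : CRef := CRef.mk (Pat.mk 0x80000000a0000001a000000000000000000000000 0x80000000b0000001e000000380000001000000010 4 6) 0 0 (step_sound _ 98 [(rh3244c3cc8379b070.shift 0 3), (rhc7b95363f9049b11.shift 1 0)] (by decide +kernel))
noncomputable def rh5eb5358db658effe : CRef := CRef.mk (Pat.mk 0x1e00000000000000180000003c00000000 0x30000001e0000000000000018000000fc000000e0 4 8) 0 0 (step_sound _ 161 [(rh0cb6a409506b34ea.shift 2 0), (rh3244c3cc8379b070.shift 0 4)] (by decide +kernel))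
noncomputable def rh0d55a8f032c5133e : CRef := CRef.mk (Pat.mk 0x80000000800000008000000000000000600000003 0x80000001800000018000000180000001e00000013 4 5) 0 0 (step_sound _ 36 [rh361cc68994bd8a63, (rhb5bfb93a69499a93.shift 3 0)] (by decide +kernel))
noncomputable def rh68ba80c74528fc46 : CRef := CRef.mk (Pat.mk 0x80000000800000008000000080000000200000006 0x80000000800000008000000180000003b0000001e 4 6) 0 0 (step_sound _ 36 [rhbb8c89c07b39c85e, (rhd3458b32566d63f7.shift 3 1)] (by decide +kernel))
noncomputable def rh1253bcc8ef5eaee7 : CRef := CRef.mk (Pat.mk 0xa0000000a0000000a0000000600000000 0xa0000000a0000001a0000001f00000019 4 5) 0 0 (step_sound _ 32 [rh932754581e0f4330, rhe3541bb398310790] (by decide +kernel))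
noncomputable def rh1ed6ce059cc64630 : CRef := CRef.mk (Pat.mk 0x10000000500000007000000000000000000000000 0x5000000050000000500000007000000060000000200000002 4 3) 0 0 (step_sound _ 65 [(rh2145e1d24b96a57e.shift 0 2), (rhcf80391c5046a495.shift 1 0)] (by decide +kernel))
noncomputable def rh2aafd2d1129ff35b : CRef := CRef.mk (Pat.mk 0xb0000000a000000000000001000000000 0x8000000080000000b0000001e000000180000001000000010 4 5) 0 0 (step_sound _ 100 [(rh5419adcd928dba20.shift 0 3), (rhb11d41c808e1ab4d.shift 3 0)] (by decide +kernel))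
noncomputable def rh715ef4deafe86686 : CRef := CRef.mk (Pat.mk 0x80000001e000000060000000000000000 0x80000001f0000003e0000003000000010 4 6) 0 0 (step_sound _ 68 [rh74ffba89182bafb4, (rhe25b0a99195a5d59.shift 1 2)] (by decide +kernel))
noncomputable def rh1b589b9e060c2166 : CRef := CRef.mk (Pat.mk 0x80000000800000028000000000000000000000000 0x8000000080000000f0000007c000000180000001000000010 4 7) 0 0 (step_sound _ 100 [(rh70e33bfdf511e144.shift 3 0), (rha9fbfd4bb8cf890b.shift 0 3)] (by decide +kernel))
noncomputable def rhcac28a47c48fba62 : CRef := CRef.mk (Pat.mk 0x400000004000000000000001e00000000 0x4000000040000000600000006000000030000001e00000002 4 5) 0 0 (step_sound _ 65 [(rh3244c3cc8379b070.shift 0 1), (rhd918c3fd221dc9f8.shift 1 0)] (by decide +kernel))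
noncomputable def rh9365dadaedfa8cc2 : CRef := CRef.mk (Pat.mk 0x400000004000000000000001e 0x4000000040000000600000006000000070000001e 4 5) 0 0 (step_sound _ 33 [rh3244c3cc8379b070, (rh751f91025c6ba4fe.shift 1 0)] (by decide +kernel))
noncomputable def rhfd5dd1735ba35f37 : CRef := CRef.mk (Pat.mk 0x34000000040000000400000000 0x70000003e000000060000000400000004 4 6) 0 0 (step_sound _ 99 [rh3998ad7415607566, (rheb0810cc63b001d8.shift 1 2)] (by decide +kernel))
noncomputable def rh24c6b7df9b0ea359 : CRef := CRef.mk (Pat.mk 0x1a00000002000000020000000000000001 0x1000000030000001e00000002000000030000000300000001 4 5) 0 0 (step_sound _ 32 [(rh07bd108289b75581.shift 0 1), rheea67dfebd0f8008] (by decide +kernel))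
noncomputable def rh26acb339ebd8d28a : CRef := CRef.mk (Pat.mk 0x20000000200000000000000010000000000000000 0x200000002000000030000000300000003000000030000000100000001 4 2) 0 0 (step_sound _ 96 [rh53c798c09177b7db, (rh751f91025c6ba4fe.shift 0 2), (rhd918c3fd221dc9f8.shift 0 1), rhe83f0679b86b6627] (by decide +kernel))
noncomputable def rh77b6660bf70ebfe3 : CRef := CRef.mk (Pat.mk 0x30000000b000000080000000a0000000800000000 0x30000000b000000090000000f0000001b00000010 4 5) 0 0 (step_sound _ 36 [(rh55afc6a59410cf00.shift 3 0), (rhe705e906aa13b22a.shift 0 1)] (by decide +kernel))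
noncomputable def rhbe9be45c05f15da8 : CRef := CRef.mk (Pat.mk 0x80000000b0000000b000000080000000a00000000 0x80000000b0000000b000000190000001f00000003 4 5) 0 0 (step_sound _ 68 [rh2d2d58f02b6beeef, (rh55afc6a59410cf00.shift 3 1)] (by decide +kernel))
noncomputable def rhaaa009f732ae62a1 : CRef := CRef.mk (Pat.mk 0x1400000014000000040000000400000000 0x20000001e00000037000000040000000400000004 4 6) 0 0 (step_sound _ 129 [rh3cf05ff9478ad15b, (rh50fbb5868c909700.shift 1 1)] (by decide +kernel))
noncomputable def rhea8f55b2140e6e8e : CRef := CRef.mk (Pat.mk 0xa0000000a0000000200000000 0x100000001000000030000000f0000001e0000000200000002 4 5) 0 0 (step_sound _ 96 [(rha6816dee951f7ee6.shift 0 2), rhb1a251d9bff81766] (by decide +kernel))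
noncomputable def rh125b6ad5e146425f : CRef := CRef.mk (Pat.mk 0x40000002c00000020 0x60000003e00000037 4 6) 0 0 (step_sound _ 36 [(rh3244c3cc8379b070.shift 1 1), rhdceeca65bdd8095a] (by decide +kernel))
noncomputable def rh1a8a9207dc162d62 : CRef := CRef.mk (Pat.mk 0x160000001400000004 0x200000002000000030000001e0000003600000004 4 6) 0 0 (step_sound _ 67 [rh768a472a1ebe455c, (rhe25b0a99195a5d59.shift 1 1)] (by decide +kernel))
noncomputable def rh6e563f5fc6ca0bf2 : CRef := CRef.mk (Pat.mk 0x6000000160000000400000000 0x400000004000000070000001e0000000700000002 4 5) 0 0 (step_sound _ 67 [(rh3244c3cc8379b070.shift 0 2), rhb91b7df0d06c1d96] (by decide +kernel))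
noncomputable def rhed06e1bbe137f765 : CRef := CRef.mk (Pat.mk 0x8000000080000000a0000001e00000000 0x40000000c0000000e0000000e0000001e00000003 4 5) 0 0 (step_sound _ 130 [(rh50fbb5868c909700.shift 2 1), rh946c4afeba2488e2] (by decide +kernel))
noncomputable def rh91be864ca810e1b3 : CRef := CRef.mk (Pat.mk 0x28000000380000000800000000 0x8000000080000003f0000003e0000000e00000004 4 6) 0 0 (step_sound _ 66 [(rh7fb660bc21ce4329.shift 0 2), (rhb91b7df0d06c1d96.shift 1 0)] (by decide +kernel))
noncomputable def rh6d7e9fbf5dfafd17 : CRef := CRef.mk (Pat.mk 0x30000000200000002000000000000000000000000 0x1000000030000000300000002000000060000000600000004 4 3) 0 0 (step_sound _ 65 [rh257d7200ab2a6828, (rh50fbb5868c909700.shift 0 2)] (by decide +kernel))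
noncomputable def rhb6b6ff48ea5cd546 : CRef := CRef.mk (Pat.mk 0x2000000060000000a0000000a00000000 0x70000003e0000000a0000000a0000000a 4 6) 0 0 (step_sound _ 130 [rh41fb73ed4f2e2426, (rh71222050f2c63a3a.shift 1 0)] (by decide +kernel))
noncomputable def rh9b7bbe4a4a7c90f5 : CRef := CRef.mk (Pat.mk 0x80000000b00000010000000000000000000000000 0x8000000080000000f00000018000000180000001000000010 4 5) 0 0 (step_sound _ 99 [(rh70e33bfdf511e144.shift 3 0), (rhc10214bf3fe8094a.shift 0 3)] (by decide +kernel))
noncomputable def rh1d14a583408e208e : CRef := CRef.mk (Pat.mk 0x20000000200000002000000320000001000000000 0x20000000200000002000000330000001f00000005 4 6) 0 0 (step_sound _ 32 [(rh79877ebd3ef475dd.shift 0 1), rha943fd546ce7caf3] (by decide +kernel))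
noncomputable def rh76ade6e409ca008f : CRef := CRef.mk (Pat.mk 0x2000000060000001e000000000000000000000000 0x2000000060000001e000000070000000600000006 4 5) 0 0 (step_sound _ 65 [(rh4053c12da95c0aa0.shift 1 0), (rheb0810cc63b001d8.shift 0 2)] (by decide +kernel))
noncomputable def rh8ee8460c7dea5243 : CRef := CRef.mk (Pat.mk 0x18000000100000000700000000 0x800000018000000180000001f00000038 4 6) 0 0 (step_sound _ 35 [rh27cad920bb8ece82, (rh428265de8cd3cd2d.shift 0 1)] (by decide +kernel))
noncomputable def rh568907dee4cb1303 : CRef := CRef.mk (Pat.mk 0x80000000a00000010000000000000000000000000 0x8000000080000001f00000078000000180000001000000010 4 7) 0 0 (step_sound _ 99 [(rh70e33bfdf511e144.shift 3 0), (rh9ebd639649ea671c.shift 0 3)] (by decide +kernel))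
noncomputable def rhf8e7a9b8065dda59 : CRef := CRef.mk (Pat.mk 0x7000000040000000c00000000 0x80000003e00000007000000040000000c00000008 4 6) 0 0 (step_sound _ 130 [(rh1eeec04e73117746.shift 0 1), (rh55afc6a59410cf00.shift 2 0)] (by decide +kernel))
noncomputable def rh180db5250f736738 : CRef := CRef.mk (Pat.mk 0xe0000000b0000000800000000 0x100000007c0000000e0000000b0000001e00000014 4 7) 0 0 (step_sound _ 131 [rh0c3873a75f5344d2, (rh1eeec04e73117746.shift 1 1)] (by decide +kernel))
noncomputable def rh8dc6f25384ef0701 : CRef := CRef.mk (Pat.mk 0xc0000000e000000180000001800000000 0xc0000000e0000001b0000001f00000006 4 5) 0 0 (step_sound _ 34 [rh00d9b181c423bdea, (rh932754581e0f4330.shift 2 0)] (by decide +kernel))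
noncomputable def rh42dffdfbdd7e3e3a : CRef := CRef.mk (Pat.mk 0x800000008000000100000003c00000000 0x8000000080000001f0000003f00000004 4 6) 0 0 (step_sound _ 67 [(rh932754581e0f4330.shift 2 0), (rhbe5fc5902345a0b9.shift 0 1)] (by decide +kernel))
noncomputable def rh1713b2a8615f2751 : CRef := CRef.mk (Pat.mk 0x240000003800000000 0x360000003e00000007 4 6) 0 0 (step_sound _ 34 [rh21d582c147e7e118, (rh3244c3cc8379b070.shift 1 1)] (by decide +kernel))
noncomputable def rh91996c881a145cdd : CRef := CRef.mk (Pat.mk 0x800000018000000080000000800000000 0x40000000f0000003c000000080000000800000008 4 6) 0 0 (step_sound _ 130 [rh2bdeb5670886328e, (rh50fbb5868c909700.shift 2 1)] (by decide +kernel))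
noncomputable def rhdd3ef923ff6c7ad5 : CRef := CRef.mk (Pat.mk 0x1e0000000400000000 0x200000002000000030000001e0000000700000004 4 5) 0 0 (step_sound _ 33 [rhbdb8dfd08861fbf7, (rheb0810cc63b001d8.shift 0 1)] (by decide +kernel))
noncomputable def rh2f2e76896831cbde : CRef := CRef.mk (Pat.mk 0x8000000080000002800000010 0x8000000080000000f0000007c00000010 4 7) 0 0 (step_sound _ 36 [(rh2145e1d24b96a57e.shift 3 0), (rha9fbfd4bb8cf890b.shift 0 1)] (by decide +kernel))
noncomputable def rh4f71fa61affe4b7c : CRef := CRef.mk (Pat.mk 0x400000004000000140000000400000000 0x400000004000000040000003c0000000f00000002 4 6) 0 0 (step_sound _ 33 [(rh10ff9d67cbd42e76.shift 0 1), (rh932754581e0f4330.shift 1 0)] (by decide +kernel))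
noncomputable def rh6ce782edb505263d : CRef := CRef.mk (Pat.mk 0x80000002c0000003800000010 0x200000007c0000002f0000003800000010 4 7) 0 0 (step_sound _ 65 [(rhb739f4f82bb681b4.shift 0 1), (rhccf8b66635a266db.shift 1 0)] (by decide +kernel))
noncomputable def rhfb7a1ccd3842fdc2 : CRef := CRef.mk (Pat.mk 0xc000000180000000c00000004 0x20000000f0000001e0000000f00000004 4 5) 0 0 (step_sound _ 97 [rh6ada8e261119cf37, (rhb739f4f82bb681b4.shift 0 2)] (by decide +kernel))
noncomputable def rhce9a49803a550f13 : CRef := CRef.mk (Pat.mk 0x200000002000000020000000200000000 0x20000000200000002000000070000000700000005 4 3) 0 0 (step_sound _ 34 [(rh55afc6a59410cf00.shift 1 0), rh7b60db5db6f7d331] (by decide +kernel))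
noncomputable def rha6bb3c974217aa24 : CRef := CRef.mk (Pat.mk 0x80000000a000000080000000800000008 0x100000001c0000000f000000080000001800000018 4 5) 0 0 (step_sound _ 36 [(rh55afc6a59410cf00.shift 3 0), rhcfae3e00d2022b76] (by decide +kernel))
noncomputable def rh36fd1324b046d62b : CRef := CRef.mk (Pat.mk 0x1c000000140000001000000014 0x270000003e000000140000001400000014 4 6) 0 0 (step_sound _ 101 [(rh2f68792b6b779e96.shift 4 0), rh9c9bdd729c643b84] (by decide +kernel))
noncomputable def rh040c71d7810d9ef3 : CRef := CRef.mk (Pat.mk 0x4000000040000001000000014000000100000001000000010 0x4000000040000003c0000001e000000130000001000000010 4 6) 0 0 (step_sound _ 99 [(rh50fbb5868c909700.shift 3 0), (rh872d4931201b889e.shift 0 2)] (by decide +kernel))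
noncomputable def rh6992f6e660b4e99e : CRef := CRef.mk (Pat.mk 0x4000000040000001c0000001800000000 0x4000000040000003f0000001f00000002 4 6) 0 0 (step_sound _ 65 [(rhb739f4f82bb681b4.shift 0 1), rhf48e3b1c16a6ad0f] (by decide +kernel))
noncomputable def rh688228c9ae2f6eca : CRef := CRef.mk (Pat.mk 0x38000000080000000800000000 0x40000000f0000007c000000080000000800000008 4 7) 0 0 (step_sound _ 130 [(rh4df35fbc131eb4ae.shift 0 3), (rh6279f4d0e372f7fa.shift 2 1), (rheeabf87925ab8a42.shift 1 0)] (by decide +kernel))
noncomputable def rha5278ed83dd9694e : CRef := CRef.mk (Pat.mk 0x100000003000000020000000800000018 0x100000003000000020000001f0000007a 4 7) 0 0 (step_sound _ 33 [rh7b1f1fb55310c477, rh9ebd639649ea671c] (by decide +kernel))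
noncomputable def rh9a426fb5a7f5d0e8 : CRef := CRef.mk (Pat.mk 0x2000000020000000a0000000c 0x200000002000000020000001f0000007c 4 7) 0 0 (step_sound _ 34 [(rh2145e1d24b96a57e.shift 1 0), rh8ee80cc30e93a344] (by decide +kernel))
noncomputable def rh72daaa274feb6686 : CRef := CRef.mk (Pat.mk 0x4000000040000001c000000180000000000000000 0x4000000040000001f0000001f0000000200000002 4 5) 0 0 (step_sound _ 97 [rh1e8d6e1ef30e2d92, (rhb739f4f82bb681b4.shift 0 2)] (by decide +kernel))
noncomputable def rh68369413e321f539 : CRef := CRef.mk (Pat.mk 0x8000000080000003000000010 0x8000000080000000f0000007c00000010 4 7) 0 0 (step_sound _ 35 [(rh2145e1d24b96a57e.shift 3 0), (rha9fbfd4bb8cf890b.shift 0 1)] (by decide +kernel))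
noncomputable def rhf1422681c6b900c2 : CRef := CRef.mk (Pat.mk 0x80000000a0000000a00000008 0x10000000380000001f0000000b00000008 4 6) 0 0 (step_sound _ 100 [(rh2f68792b6b779e96.shift 3 0), (rhdb11e2ee87c104a9.shift 0 1)] (by decide +kernel))
noncomputable def rh699c9c97b73f58ec : CRef := CRef.mk (Pat.mk 0x200000002000000120000000200000000 0x200000002000000020000001e0000000700000005 4 5) 0 0 (step_sound _ 34 [(rh55afc6a59410cf00.shift 1 0), rhb64f3cd5e262d11d] (by decide +kernel))
noncomputable def rh3b98845ede295126 : CRef := CRef.mk (Pat.mk 0x20000001c0000000200000000 0x400000004000000060000003e0000000300000002 4 6) 0 0 (step_sound _ 65 [(rhc333e2570e2bbdf1.shift 1 0), (rheb0810cc63b001d8.shift 0 1)] (by decide +kernel))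
noncomputable def rh44afbb496b7a3d6b : CRef := CRef.mk (Pat.mk 0x20000001e000000000000000000000000 0x2000000020000003e000000070000000400000004 4 6) 0 0 (step_sound _ 65 [(rh9ba4ddb3bd4a337d.shift 1 0), (rheb0810cc63b001d8.shift 0 2)] (by decide +kernel))
noncomputable def rh8bd0c5aa28568e2c : CRef := CRef.mk (Pat.mk 0x380000000800000028 0x780000000f0000007c 4 7) 0 0 (step_sound _ 34 [(rh18965a982d73c794.shift 2 1), rh84e31abbeda0403b] (by decide +kernel))
noncomputable def rhc486ae0fcc44be52 : CRef := CRef.mk (Pat.mk 0x8000000080000000a0000000800000000 0x8000000080000001f0000007800000010 4 7) 0 0 (step_sound _ 36 [(rh55afc6a59410cf00.shift 3 0), (rh9ebd639649ea671c.shift 0 1)] (by decide +kernel))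
noncomputable def rh8f13d5d6e6df802a : CRef := CRef.mk (Pat.mk 0x80000001c0000000c0000000000000000 0x60000000f0000001c0000000c0000000c0000000c 4 5) 0 0 (step_sound _ 34 [(rh71222050f2c63a3a.shift 2 0), rhe471e22e8815e2ce] (by decide +kernel))
noncomputable def rhc980ea7e6060b9d2 : CRef := CRef.mk (Pat.mk 0xfc00000000 0x7000000fe00000038 4 8) 0 0 (step_sound _ 4 [rh4f8edb321cf5b49d, (rheb0810cc63b001d8.shift 3 0)] (by decide +kernel))
noncomputable def rh666e4a2ed1e26534 : CRef := CRef.mk (Pat.mk 0x10000000180000000c0000002000000000 0x10000000180000000f0000007c00000008 4 7) 0 0 (step_sound _ 35 [(rh71222050f2c63a3a.shift 3 0), (rh8c25cb665ab79ec0.shift 0 1)] (by decide +kernel))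
noncomputable def rh53d1fdb8fd6cc20f : CRef := CRef.mk (Pat.mk 0x100000010000000080000000800000008 0x40000001f0000001c000000080000000800000008 4 5) 0 0 (step_sound _ 99 [(rh2f68792b6b779e96.shift 3 0), rh5cf9fa574fd2f332] (by decide +kernel))
noncomputable def rh68f4aa9286a5d728 : CRef := CRef.mk (Pat.mk 0x80000000b0000000a000000000000000000000000 0x8000000080000000b0000001e0000000c0000000400000004 4 5) 0 0 (step_sound _ 98 [(rh86bdd6388b8581ae.shift 1 0), (rhf48373e13d2bc128.shift 0 3)] (by decide +kernel))
noncomputable def rh0e94b26add1578f8 : CRef := CRef.mk (Pat.mk 0x100000001700000014000000000000000000000000 0x1000000010000000170000001e000000180000000800000008 4 5) 0 0 (step_sound _ 99 [(rh09d4dfe75d4407d6.shift 0 3), (rh86bdd6388b8581ae.shift 2 0)] (by decide +kernel))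
noncomputable def rhfd3b863ea463319a : CRef := CRef.mk (Pat.mk 0x200000003800000040 0x300000003e00000067 4 7) 0 0 (step_sound _ 34 [rh21d582c147e7e118, (rh96851dee118c1ba3.shift 2 0)] (by decide +kernel))
noncomputable def rhd8c37efe07b158de : CRef := CRef.mk (Pat.mk 0x800000008000000080000000a0000000000000000 0x800000008000000080000001f0000001c00000010 4 5) 0 0 (step_sound _ 36 [rh3b6e746ad960f3b8, (rhd3458b32566d63f7.shift 3 1)] (by decide +kernel))
noncomputable def rhcd1c1133d5a7e55c : CRef := CRef.mk (Pat.mk 0x7c00000002 0x38000000ff00000003 4 8) 0 0 (step_sound _ 33 [(rhe42f2966bf381171.shift 0 1), rheb0810cc63b001d8] (by decide +kernel))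
noncomputable def rhed837c80b955e6c0 : CRef := CRef.mk (Pat.mk 0x1c000000170000000400000000 0x800000008000000180000001c000000170000003e00000010 4 6) 0 0 (step_sound _ 36 [(rh68691964b29f233d.shift 0 1), (rhd01ed0cc6ce530d4.shift 2 0)] (by decide +kernel))
noncomputable def rhf11e5e44f310b79a : CRef := CRef.mk (Pat.mk 0x6000000120000001a0000000a 0x1000000130000001f000000120000001a0000000a 4 5) 0 0 (step_sound _ 100 [(rh5c5e593799055d58.shift 3 0), rhd87ffc78421e37d0] (by decide +kernel))
noncomputable def rhc3bb0f1b2af200a9 : CRef := CRef.mk (Pat.mk 0x1e0000000800000008 0x400000004000000070000003e0000000c00000008 4 6) 0 0 (step_sound _ 97 [(rh169294d496e5a0bf.shift 1 0), (rh3244c3cc8379b070.shift 0 2)] (by decide +kernel))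
noncomputable def rheb6185a3cf95fec2 : CRef := CRef.mk (Pat.mk 0x20000000600000002000000060000000000000000 0x2000000020000000600000006000000070000000300000003 4 3) 0 0 (step_sound _ 98 [(rh2145e1d24b96a57e.shift 1 2), rh46530d756bdf8511] (by decide +kernel))
noncomputable def rh8ee2a622c0b50b2d : CRef := CRef.mk (Pat.mk 0x1e00000008000000080000000000000000 0x100000003e0000000f000000080000000800000008 4 6) 0 0 (step_sound _ 97 [(rh4b073bc3c61505d9.shift 1 0), (rheb0810cc63b001d8.shift 0 3)] (by decide +kernel))
noncomputable def rh7e45d100b9a5bd3d : CRef := CRef.mk (Pat.mk 0x80000000800000008000000020000000600000000 0x800000008000000080000001f0000001e00000010 4 5) 0 0 (step_sound _ 67 [rh740a139e95ff9def, (rh79877ebd3ef475dd.shift 2 1)] (by decide +kernel))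
noncomputable def rh4a67a3dfce14aa56 : CRef := CRef.mk (Pat.mk 0x20000003c00000010 0x3000000ff0000001c 4 8) 0 0 (step_sound _ 33 [(rh3244c3cc8379b070.shift 0 1), rhc79769c0453a04d3] (by decide +kernel))
noncomputable def rhc2f5cb19e51fa5d5 : CRef := CRef.mk (Pat.mk 0xe00000001 0x770000003e00000003 4 7) 0 0 (step_sound _ 36 [rh80fcd6d0a18cb2dd, (rhf94411b389c3e54c.shift 0 1)] (by decide +kernel))
noncomputable def rhc277914c2ed71bf6 : CRef := CRef.mk (Pat.mk 0x1c00000002 0x70000003e00000007 4 6) 0 0 (step_sound _ 37 [(rh80fcd6d0a18cb2dd.shift 1 0), rhe902c9e8f416b192] (by decide +kernel))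
noncomputable def rhbcf36ec6de70fd1f : CRef := CRef.mk (Pat.mk 0x1e00000012000000120000001000000000 0x30000001e000000120000001e0000003400000020 4 6) 0 0 (step_sound _ 161 [(rh3244c3cc8379b070.shift 0 4), (rh6905164d7801518f.shift 1 0)] (by decide +kernel))
noncomputable def rhd3f6b0657da18a36 : CRef := CRef.mk (Pat.mk 0x10000000100000009000000180000000000000000 0x1000000010000000f0000001f0000000200000002 4 5) 0 0 (step_sound _ 97 [rh5a65e77046088e90, (rhc10214bf3fe8094a.shift 0 2)] (by decide +kernel))
noncomputable def rh2af0210ad3cd0058 : CRef := CRef.mk (Pat.mk 0x2000000030000000a000000000000000000000000 0x200000002000000030000001e000000060000000400000004 4 5) 0 0 (step_sound _ 98 [(rh70e33bfdf511e144.shift 1 0), (rhf48373e13d2bc128.shift 0 3)] (by decide +kernel))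
noncomputable def rh7156846f50bf0aca : CRef := CRef.mk (Pat.mk 0x1a0000000200000002 0x4000000070000003e0000000300000002 4 6) 0 0 (step_sound _ 66 [rh7b3460ecbfb1f98e, (rheb0810cc63b001d8.shift 0 1)] (by decide +kernel))
noncomputable def rh790ac6810732f4da : CRef := CRef.mk (Pat.mk 0x20000001a0000000600000002 0x600000006000000070000001e0000000600000002 4 5) 0 0 (step_sound _ 66 [(rh2ddd6c94c59240f8.shift 1 0), (rh3244c3cc8379b070.shift 0 2)] (by decide +kernel))
noncomputable def rh86037c85ad04cdf9 : CRef := CRef.mk (Pat.mk 0x4000000020000000200000003000000020000000000000000 0x600000006000000030000000300000003000000020000000200000002 4 3) 0 0 (step_sound _ 193 [rh1406cafceeeef6c2, (rh2f68792b6b779e96.shift 1 3)] (by decide +kernel))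
noncomputable def rh5ad181578d8e6357 : CRef := CRef.mk (Pat.mk 0x38000000180000000000000008 0x70000003f000000380000000800000008 4 6) 0 0 (step_sound _ 98 [(rh0da3f8d18d3a0dfd.shift 1 0), (rhad5d8fc3675c15dd.shift 0 2), (rhba89ab7cb81bcc90.shift 0 2)] (by decide +kernel))
noncomputable def rh6aa533c0d2516c17 : CRef := CRef.mk (Pat.mk 0x1a000000120000000200000000 0x50000001f0000001b0000000200000002 4 5) 0 0 (step_sound _ 98 [rh89ea35812f5b8c7e, (rheb0810cc63b001d8.shift 0 2)] (by decide +kernel))
noncomputable def rh9ab0ed084d168e00 : CRef := CRef.mk (Pat.mk 0xa000000030000000200000000 0x400000004000000060000001e000000030000000200000002 4 5) 0 0 (step_sound _ 98 [(rh18965a982d73c794.shift 0 2), (rh215e11e099257d75.shift 1 0)] (by decide +kernel))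
noncomputable def rhfc39f041bb105480 : CRef := CRef.mk (Pat.mk 0x800000000000000180000003800000000 0x800000008000000380000003f00000007 4 6) 0 0 (step_sound _ 34 [(rh981be6707e4d9088.shift 1 0), (rhab2ad169e49f9c5e.shift 0 1), rhcc2be1f880c5ea3e] (by decide +kernel))
noncomputable def rh6cbc7a273dc79062 : CRef := CRef.mk (Pat.mk 0x2000000120000001a00000000 0x2000000020000001b0000001f00000005 4 5) 0 0 (step_sound _ 34 [(rh3244c3cc8379b070.shift 0 1), rh5bfc346e721f693b] (by decide +kernel))
noncomputable def rh12452934acb847d5 : CRef := CRef.mk (Pat.mk 0x2000000030000001200000000 0x20000000200000002000000030000001f00000005 4 5) 0 0 (step_sound _ 34 [(rh2fe78cc5ca4405d8.shift 0 1), rhb23658ecdd7ce5df] (by decide +kernel))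
noncomputable def rh7e712a940a071591 : CRef := CRef.mk (Pat.mk 0x1c00000012000000080000000000000000 0x40000001f0000001b000000080000000800000008 4 5) 0 0 (step_sound _ 129 [rh1e68a8f8d4e6068c, (rheb0810cc63b001d8.shift 0 3)] (by decide +kernel))
noncomputable def rh1ed635f5a7ab102e : CRef := CRef.mk (Pat.mk 0x1e000000000000000400000000 0x200000002000000030000001e000000060000000400000004 4 5) 0 0 (step_sound _ 129 [(rh3244c3cc8379b070.shift 0 3), (rhb11d41c808e1ab4d.shift 1 0)] (by decide +kernel))
noncomputable def rh65b5b71720bdfb2f : CRef := CRef.mk (Pat.mk 0xe0000002400000004 0x200000002000000030000001e0000003600000004 4 6) 0 0 (step_sound _ 68 [rh768a472a1ebe455c, (rh96851dee118c1ba3.shift 1 1)] (by decide +kernel))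
noncomputable def rh6a6060c6b6bde3df : CRef := CRef.mk (Pat.mk 0x3000000120000001000000010 0x8000000080000000f0000001e0000001800000010 4 5) 0 0 (step_sound _ 67 [rh23625f181fa295a9, (rh5419adcd928dba20.shift 0 2)] (by decide +kernel))
noncomputable def rh6101fe544e2241cc : CRef := CRef.mk (Pat.mk 0x14000000020000000200000002 0x1000000070000001f000000020000000200000002 4 5) 0 0 (step_sound _ 97 [(rh2f68792b6b779e96.shift 1 0), rhd87ffc78421e37d0] (by decide +kernel))
noncomputable def rha304436d6f5c05c7 : CRef := CRef.mk (Pat.mk 0x1e000000000000000000000004 0x30000001e000000070000000600000004 4 5) 0 0 (step_sound _ 129 [(rh3244c3cc8379b070.shift 0 3), rhfa48dcf86c5928b9] (by decide +kernel))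
noncomputable def rh6550be38bfd67d88 : CRef := CRef.mk (Pat.mk 0x1e000000000000000000000005 0x30000001e000000030000000700000005 4 5) 0 0 (step_sound _ 65 [rhb97653b3e9aa2271, (rheb0810cc63b001d8.shift 0 2)] (by decide +kernel))
noncomputable def rhbc49f56af93ead8f : CRef := CRef.mk (Pat.mk 0x600000003000000000000000200000000 0x1000000050000000700000003000000030000000200000002 4 3) 0 0 (step_sound _ 65 [(rh2f68792b6b779e96.shift 1 1), rhf9a6286f1d5377a2] (by decide +kernel))
noncomputable def rh9d841b7cb789126b : CRef := CRef.mk (Pat.mk 0x380000001a00000008 0x4000000040000000f0000003f0000001b00000008 4 6) 0 0 (step_sound _ 66 [(rh1c1037cb5b3fe471.shift 1 0), (rh710860539a4c4362.shift 0 1), (rhba89ab7cb81bcc90.shift 0 1)] (by decide +kernel))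
noncomputable def rh29e0362802793f45 : CRef := CRef.mk (Pat.mk 0x600000006000000060000000000000000 0x2000000020000000600000006000000070000000300000003 4 3) 0 0 (step_sound _ 161 [(rh2145e1d24b96a57e.shift 1 2), rh46530d756bdf8511] (by decide +kernel))
noncomputable def rh3c3d6eca3b18f12d : CRef := CRef.mk (Pat.mk 0x1000000016000000160000000000000000 0x10000000160000003f0000003800000008 4 6) 0 0 (step_sound _ 67 [rh6de56787cc1605b6, (rhf48373e13d2bc128.shift 1 2)] (by decide +kernel))
noncomputable def rh99a8f12009454ac4 : CRef := CRef.mk (Pat.mk 0xf0000000b0000000200000000 0x40000001c0000000f0000000b0000001e0000000c 4 5) 0 0 (step_sound _ 131 [(rh33e738c4ed385b9f.shift 0 3), rhfb5a21d5a7d4a677] (by decide +kernel))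
noncomputable def rh2ee329c40df4056f : CRef := CRef.mk (Pat.mk 0x80000000b00000008000000000000000000000000 0x8000000080000001f00000018000000100000001000000010 4 5) 0 0 (step_sound _ 100 [(rh046c5eb18e55a239.shift 3 0), (rhc10214bf3fe8094a.shift 0 3)] (by decide +kernel))
noncomputable def rh376230f213e9a1a9 : CRef := CRef.mk (Pat.mk 0xc000000080000000b0000000a0000000a00000008 0x10000000f000000190000001b0000000b0000000a00000008 4 5) 0 0 (step_sound _ 132 [(rhbaefcd01e0a8bca3.shift 3 0), (rhc9e04fae2bb2ac37.shift 0 1)] (by decide +kernel))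
noncomputable def rhac8af6503ea94777 : CRef := CRef.mk (Pat.mk 0x100000000c000000080000000b0000000200000002 0x10000000190000000f000000090000000b0000000300000002 4 5) 0 0 (step_sound _ 163 [(rh2f68792b6b779e96.shift 3 2), rhaf5a997e5b9481b4] (by decide +kernel))
noncomputable def rhc7d27719f4944644 : CRef := CRef.mk (Pat.mk 0x10000000160000000400000004 0x200000002000000330000001e0000000600000004 4 6) 0 0 (step_sound _ 67 [(rh33e738c4ed385b9f.shift 1 2), rh768a472a1ebe455c] (by decide +kernel))
noncomputable def rheba1e230884d801b : CRef := CRef.mk (Pat.mk 0x100000001300000058000000000000000000000000 0x100000001b0000007e000000ec0000000800000008 4 8) 0 0 (step_sound _ 101 [(rh7782733ba8e51106.shift 0 2), (rhd1474a84c69f0140.shift 2 0)] (by decide +kernel))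
noncomputable def rhdd26ee9b6b0f1580 : CRef := CRef.mk (Pat.mk 0x600000003000000180000000000000000 0x500000007000000030000001e0000000200000002 4 5) 0 0 (step_sound _ 65 [rh000637b5a81e86aa, (rh5419adcd928dba20.shift 0 2)] (by decide +kernel))
noncomputable def rh481b2be359ac66f8 : CRef := CRef.mk (Pat.mk 0x200000003000000060000000000000000 0x30000000300000003000000060000000600000006 4 3) 0 0 (step_sound _ 34 [(rh2145e1d24b96a57e.shift 1 1), rhc7a10ee8d0d37048] (by decide +kernel))
noncomputable def rhe0c7925433db9a6b : CRef := CRef.mk (Pat.mk 0x60000000300000002000000000000000000000000 0x4000000070000000300000002000000060000000600000004 4 3) 0 0 (step_sound _ 65 [(rh2f68792b6b779e96.shift 1 2), rha8adab4bc30e0ea1] (by decide +kernel))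
noncomputable def rh1b78ef1451a464c3 : CRef := CRef.mk (Pat.mk 0xc000000180000000e0000000800000000 0x20000000f0000001e0000000e0000000c00000004 4 5) 0 0 (step_sound _ 34 [(rh3cb659a608caaffd.shift 0 1), (rh932754581e0f4330.shift 2 0)] (by decide +kernel))
noncomputable def rhc47fe1bc6b175f77 : CRef := CRef.mk (Pat.mk 0x1200000003000000020000000000000000 0x50000001f00000003000000020000000200000002 4 5) 0 0 (step_sound _ 130 [rh000637b5a81e86aa, (rh361cc68994bd8a63.shift 0 3)] (by decide +kernel))
noncomputable def rh4879f6181e9312ea : CRef := CRef.mk (Pat.mk 0x8000000120000001c00000000 0x800000008000000080000001b0000001f00000004 4 5) 0 0 (step_sound _ 33 [rh2df96f83c49a9883, (rh3244c3cc8379b070.shift 0 1)] (by decide +kernel))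
noncomputable def rhf3caf215570e71a5 : CRef := CRef.mk (Pat.mk 0x4000000000000001e000000000000000000000000 0x400000004000000060000001e000000030000000200000002 4 5) 0 0 (step_sound _ 65 [(rh16cbd58a1619e6a8.shift 1 0), (rheb0810cc63b001d8.shift 0 2)] (by decide +kernel))
noncomputable def rh976a453170fe60d9 : CRef := CRef.mk (Pat.mk 0x4000000240000000e000000000000000000000000 0x4000000360000001e000000030000000200000002 4 6) 0 0 (step_sound _ 100 [(rh428265de8cd3cd2d.shift 1 3), rhd1474a84c69f0140] (by decide +kernel))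
noncomputable def rh0fbbb92589a12005 : CRef := CRef.mk (Pat.mk 0x100000001000000012000000030000000000000000 0x10000000180000001e0000000f0000000800000008 4 5) 0 0 (step_sound _ 99 [(rhb2a0b9ccfb5cecd5.shift 0 2), rhc4713ca36c943a51] (by decide +kernel))
noncomputable def rh9798b455a139d0b5 : CRef := CRef.mk (Pat.mk 0x400000000000000000000001e00000000 0x400000006000000070000001e00000003 4 5) 0 0 (step_sound _ 1 [rheb0810cc63b001d8, rhf548d344de2a7f53] (by decide +kernel))
noncomputable def rh32d6d5f30900c50f : CRef := CRef.mk (Pat.mk 0x500000000000000000000001e00000000 0x500000007000000030000001e00000003 4 5) 0 0 (step_sound _ 65 [(rh3244c3cc8379b070.shift 0 1), rh4f9178be5dd8d55e] (by decide +kernel))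
noncomputable def rh46bfb734f58a0e67 : CRef := CRef.mk (Pat.mk 0x1000000060000000200000002000000000000000000000000 0x1000000070000000600000002000000060000000600000004 4 3) 0 0 (step_sound _ 65 [(rh8c3839f9b9075f23.shift 1 0), (rhffd04209dc8ea796.shift 0 2)] (by decide +kernel))
noncomputable def rh16fc365d6ae07ed0 : CRef := CRef.mk (Pat.mk 0x20000000000000003000000060000000000000000 0x2000000020000000300000003000000070000000500000001 4 3) 0 0 (step_sound _ 129 [(rh55afc6a59410cf00.shift 1 1), rhfafeb437ceb8396d] (by decide +kernel))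
noncomputable def rhcc201a0d2a0e1fad : CRef := CRef.mk (Pat.mk 0x80000001a00000038000000000000000000000000 0x80000001b0000003f0000000f0000000400000004 4 6) 0 0 (step_sound _ 98 [(rh1e8d6e1ef30e2d92.shift 1 0), (rh5c36e97be8af272f.shift 0 3), (rhcc2be1f880c5ea3e.shift 0 2)] (by decide +kernel))
noncomputable def rhc728c761ae7f7ea7 : CRef := CRef.mk (Pat.mk 0x80000000800000008000000100000000100000000 0x800000008000000080000001c0000001f00000004 4 5) 0 0 (step_sound _ 67 [rh2fac48111f756bf7, (rh55afc6a59410cf00.shift 3 1)] (by decide +kernel))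
noncomputable def rhb6428504fe0baec6 : CRef := CRef.mk (Pat.mk 0x600000006000000060000000000000000 0x3000000030000000700000006000000060000000200000002 4 3) 0 0 (step_sound _ 33 [(rh71222050f2c63a3a.shift 1 0), (rh7b9fbdf6d2d059e4.shift 0 1)] (by decide +kernel))
noncomputable def rh2fd51713639d5752 : CRef := CRef.mk (Pat.mk 0x160000001600000010 0x8000000380000003f0000001600000010 4 6) 0 0 (step_sound _ 67 [(rh18965a982d73c794.shift 1 1), rh2c9cc6ea898ce072] (by decide +kernel))
noncomputable def rh9006c400766e5336 : CRef := CRef.mk (Pat.mk 0x20000000b0000000f0000000000000000 0xc0000001e0000000b0000000f0000001c00000004 4 5) 0 0 (step_sound _ 35 [rhc67097bb8db3eb74, (rhe25b0a99195a5d59.shift 0 1)] (by decide +kernel))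
noncomputable def rh6a2e1aa217dd7cc7 : CRef := CRef.mk (Pat.mk 0x80000000a0000000a0000000b000000080000000c00000000 0x80000000a0000000b0000001b000000190000000f00000001 4 5) 0 0 (step_sound _ 68 [rhbf39e9e07032855f, (rhd3458b32566d63f7.shift 3 2)] (by decide +kernel))
noncomputable def rh8c034964301cf751 : CRef := CRef.mk (Pat.mk 0x2000000020000000b000000080000000c0000001000000000 0x2000000030000000b000000090000000f0000001900000010 4 5) 0 0 (step_sound _ 35 [(rh0f95fa3bd846a332.shift 0 1), (rh55afc6a59410cf00.shift 3 0)] (by decide +kernel))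
noncomputable def rh04ac465dcf32a7fa : CRef := CRef.mk (Pat.mk 0x40000000400000016000000100000000000000000 0x4000000060000001e000000330000000200000002 4 6) 0 0 (step_sound _ 99 [rhd1474a84c69f0140, (rhe25b0a99195a5d59.shift 1 2)] (by decide +kernel))
noncomputable def rh666dafc1813a67c7 : CRef := CRef.mk (Pat.mk 0x580000001300000010 0x800000008000000ec0000007e0000001b00000010 4 8) 0 0 (step_sound _ 69 [(rh2f1a85fb5a1a8ad0.shift 0 1), (rh768a472a1ebe455c.shift 2 0)] (by decide +kernel))
noncomputable def rhbd8f4f101439cb64 : CRef := CRef.mk (Pat.mk 0x18000000030000000600000000 0x2000000020000001e000000030000000700000005 4 5) 0 0 (step_sound _ 97 [rhb23658ecdd7ce5df, (rhb2a0b9ccfb5cecd5.shift 0 2)] (by decide +kernel))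
noncomputable def rhbfcaf333e353a827 : CRef := CRef.mk (Pat.mk 0x6000000030000000200000000 0x60000000600000006000000030000000300000003 4 3) 0 0 (step_sound _ 130 [rh1a44f6991f283c8d, (rh71222050f2c63a3a.shift 1 0)] (by decide +kernel))
noncomputable def rh7e653527db30a532 : CRef := CRef.mk (Pat.mk 0x2000000030000000600000000 0x4000000060000000600000002000000030000000700000004 4 3) 0 0 (step_sound _ 129 [(rh55afc6a59410cf00.shift 1 0), (rh79e70552f96217b9.shift 0 1)] (by decide +kernel))
noncomputable def rhc12c8ef9482391c2 : CRef := CRef.mk (Pat.mk 0x1400000016000000120000000800000000 0x1400000016000000330000001e0000000a 4 6) 0 0 (step_sound _ 36 [rh16a9bc9cfa703df6, (rh932754581e0f4330.shift 3 0)] (by decide +kernel))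
noncomputable def rh20b9aad33ac709bf : CRef := CRef.mk (Pat.mk 0xa0000000b000000090000000400000000 0xa0000000f000000190000000f00000005 4 5) 0 0 (step_sound _ 35 [(rh932754581e0f4330.shift 2 0), rhfc1b0c0705fe2ae1] (by decide +kernel))
noncomputable def rhc08717ac9a428dd2 : CRef := CRef.mk (Pat.mk 0x10000000580000000200000060000000c0 0x10000000780000000f00000078000000c8 4 8) 0 0 (step_sound _ 35 [(rhab22b5b56e7b3243.shift 3 0), rhcf351c341db21a74] (by decide +kernel))
noncomputable def rhe5f99ab32c0102de : CRef := CRef.mk (Pat.mk 0x180000001c0000000400000004 0x2000000020000001b0000001f0000000600000004 4 5) 0 0 (step_sound _ 65 [(rh53b3c253cb0c65f4.shift 0 2), rh768a472a1ebe455c] (by decide +kernel))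
noncomputable def rh892ac74514465007 : CRef := CRef.mk (Pat.mk 0x1000000060000000200000002000000020000000000000000 0x100000003000000060000000600000002000000030000000300000001 4 3) 0 0 (step_sound _ 193 [(rh50fbb5868c909700.shift 0 3), rha8bc3cae4d77a08f] (by decide +kernel))
noncomputable def rh3c87e23472cf1cd9 : CRef := CRef.mk (Pat.mk 0xa0000000a0000000a0000000c 0xc0000001e0000000b0000001e0000000c 4 5) 0 0 (step_sound _ 98 [(rh50fbb5868c909700.shift 2 0), rh85f24d6e9f0db100] (by decide +kernel))
noncomputable def rh2d1b82a7b018eef1 : CRef := CRef.mk (Pat.mk 0x7000000018000000180000000a00000000 0x80000000c0000007800000018000000180000000f00000004 4 7) 0 0 (step_sound _ 34 [(rh53b3c253cb0c65f4.shift 0 1), (rha56a0c08722120a8.shift 2 0)] (by decide +kernel))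
noncomputable def rh56627d55825cdb77 : CRef := CRef.mk (Pat.mk 0x100000001300000012000000c00000006000000000 0x100000001b0000001e000000c80000007800000008 4 8) 0 0 (step_sound _ 35 [(rh24ae073cf30720c4.shift 3 1), rh40a8197b8cbe9eb8] (by decide +kernel))
noncomputable def rhbdbcdcd0b4fdb578 : CRef := CRef.mk (Pat.mk 0x20000000a0000000b000000180000000400000000 0x20000000b0000000b000000190000000f00000005 4 5) 0 0 (step_sound _ 35 [(rh932754581e0f4330.shift 2 0), rhbf39e9e07032855f] (by decide +kernel))
noncomputable def rh3a58cf8460a1b69d : CRef := CRef.mk (Pat.mk 0xc0000000e00000002 0x7c0000007e00000003 4 7) 0 0 (step_sound _ 69 [(rh361cc68994bd8a63.shift 1 1), rh6343052d9db8e735] (by decide +kernel))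
noncomputable def rhcfd58ba2be642007 : CRef := CRef.mk (Pat.mk 0x100000001300000052000000020000000000000000 0x100000001b0000007e0000000f0000000800000008 4 7) 0 0 (step_sound _ 99 [(rh5419adcd928dba20.shift 0 3), rhad21df8c54d61a55] (by decide +kernel))
noncomputable def rh02ef3e159cbafa98 : CRef := CRef.mk (Pat.mk 0x40000001e00000010000000180000002000000000 0x40000001e000000130000001e0000003200000020 4 6) 0 0 (step_sound _ 36 [(rh55afc6a59410cf00.shift 4 0), (rhb55a98ead617469c.shift 0 1)] (by decide +kernel))
noncomputable def rhc05af83b35be5a82 : CRef := CRef.mk (Pat.mk 0x20000000a0000000c0000000800000000 0x1c0000001e0000000b0000000c0000000c00000004 4 5) 0 0 (step_sound _ 131 [(rh03dfdf12d5937476.shift 2 0), (rh9258736a7488cc35.shift 0 1)] (by decide +kernel))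
noncomputable def rh69c904193a3792b5 : CRef := CRef.mk (Pat.mk 0x100000001000000030000000100000000 0x1000000030000000300000003000000030000000300000001 4 2) 0 0 (step_sound _ 129 [(rh2f68792b6b779e96.shift 0 1), rh7aa6402c7a27a1be] (by decide +kernel))
noncomputable def rhec7a88c6dcaa5d28 : CRef := CRef.mk (Pat.mk 0x400000014000000040000000400000000 0xa0000000f0000001c000000040000000400000004 4 5) 0 0 (step_sound _ 131 [(rh2f68792b6b779e96.shift 2 1), rhcb3103b42e657b76] (by decide +kernel))
noncomputable def rhb15406c68698f062 : CRef := CRef.mk (Pat.mk 0x2000000020000000200000002000000020000000000000000 0x2000000060000000600000006000000070000000300000003 4 3) 0 0 (step_sound _ 33 [rh7928877f9bf74a91, (rha43277a93dc44e8f.shift 1 0)] (by decide +kernel))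
noncomputable def rh16d3859cf3270ce8 : CRef := CRef.mk (Pat.mk 0x180000000a0000000200000002000000020000000000000000 0x180000000f0000000300000002000000030000000300000001 4 5) 0 0 (step_sound _ 32 [rh59e91534b0e6ff89, (rh79877ebd3ef475dd.shift 0 1)] (by decide +kernel))
noncomputable def rhe8a9e0e6037b7c6e : CRef := CRef.mk (Pat.mk 0x20000001a0000000200000000 0x10000000100000003000000030000001e0000000200000002 4 5) 0 0 (step_sound _ 96 [(rh5419adcd928dba20.shift 0 2), rhb1a251d9bff81766] (by decide +kernel))
noncomputable def rh0b0198cd56a23f60 : CRef := CRef.mk (Pat.mk 0x8000000080000000c0000000800000000 0x8000000080000000f0000003c00000014 4 6) 0 0 (step_sound _ 34 [(rh932754581e0f4330.shift 2 0), rhfe557af9112f51d6] (by decide +kernel))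
noncomputable def rhcbef2b4ffc01099c : CRef := CRef.mk (Pat.mk 0x1c000000100000001000000010 0x270000003e000000300000001000000010 4 6) 0 0 (step_sound _ 101 [(rh2f68792b6b779e96.shift 4 0), (rh4f8edb321cf5b49d.shift 0 2)] (by decide +kernel))
noncomputable def rhdc5671191cba2261 : CRef := CRef.mk (Pat.mk 0x20000001a000000020000000200000000 0x50000000f0000001a000000020000000600000004 4 5) 0 0 (step_sound _ 34 [(rh330a005829cdd297.shift 0 1), (rh55afc6a59410cf00.shift 1 0)] (by decide +kernel))
noncomputable def rh257dde69fd76f487 : CRef := CRef.mk (Pat.mk 0x1c0000000c0000006000000004 0x30000001f0000003c0000006400000004 4 7) 0 0 (step_sound _ 68 [rh8f4c920c37cd7688, (rhd6e447e81774439e.shift 2 1)] (by decide +kernel))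
noncomputable def rhe21ae09da0455228 : CRef := CRef.mk (Pat.mk 0x2000000020000000000000000f00000000 0x2000000020000000300000003f00000038 4 6) 0 0 (step_sound _ 4 [rh96851dee118c1ba3, (rhfc710301586d357d.shift 1 0)] (by decide +kernel))
noncomputable def rh43995ca800cfc0d6 : CRef := CRef.mk (Pat.mk 0x6000000040000001c000000000000000000000000 0x6000000060000001c0000000f0000000e0000000a 4 5) 0 0 (step_sound _ 66 [(rha613ffd40b6c9d24.shift 1 0), (rhe4441baab75a6f73.shift 1 0), (rhfbf2eae4035425b6.shift 0 1)] (by decide +kernel))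
noncomputable def rh7c6141d2bb6519a4 : CRef := CRef.mk (Pat.mk 0x200000002600000036000000030000000000000000 0x200000003600000036000000130000001e00000016 4 6) 0 0 (step_sound _ 33 [rh6e9402b4673c83a8, (rh71222050f2c63a3a.shift 1 0)] (by decide +kernel))
noncomputable def rhca2368649289e662 : CRef := CRef.mk (Pat.mk 0x60000001e00000006 0x3000000030000003e0000001e00000006 4 6) 0 0 (step_sound _ 97 [(rh2145e1d24b96a57e.shift 1 0), rhae8938145796a1d1] (by decide +kernel))
noncomputable def rhb622aa591eacde43 : CRef := CRef.mk (Pat.mk 0x2000000060000000300000000 0x1000000030000000300000002000000060000000700000001 4 3) 0 0 (step_sound _ 129 [(rh3da62da861143b9a.shift 0 1), rh932754581e0f4330] (by decide +kernel))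
noncomputable def rh02ca81931d2dc5f6 : CRef := CRef.mk (Pat.mk 0x2000000020000001e00000002 0x1000000030000003e0000001f00000002 4 6) 0 0 (step_sound _ 68 [rh1171911d0ea2d00b, (rh33e738c4ed385b9f.shift 1 1)] (by decide +kernel))
noncomputable def rhc078b3dae8bdb359 : CRef := CRef.mk (Pat.mk 0x1e00000080 0x70000007e000000e0 4 8) 0 0 (step_sound _ 65 [(rh3244c3cc8379b070.shift 0 1), (rhf85dd19835c185aa.shift 1 0)] (by decide +kernel))
noncomputable def rh4189d026c588653f : CRef := CRef.mk (Pat.mk 0x1e00000080 0x7e000000e7 4 8) 0 0 (step_sound _ 1 [(rh03238141166ed50f.shift 1 0), rheb0810cc63b001d8] (by decide +kernel))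
noncomputable def rh277af3b23bacbfd2 : CRef := CRef.mk (Pat.mk 0x400000006000000000000000c00000018 0x4000000040000000600000006000000020000000f0000001a 4 5) 0 0 (step_sound _ 33 [(rh00d6a6e3c7e3bb40.shift 1 0), rhb739f4f82bb681b4] (by decide +kernel))
noncomputable def rh02e7bb29240e64f1 : CRef := CRef.mk (Pat.mk 0x80000000c0000000600000004 0x20000003b0000003f0000000600000004 4 6) 0 0 (step_sound _ 68 [(rh18965a982d73c794.shift 1 1), rhc39ffe1a68d3ccd8] (by decide +kernel))
noncomputable def rhd87c5e15275c3d7f : CRef := CRef.mk (Pat.mk 0x80000000e000000000000000400000000 0x780000001f000000040000000400000004 4 7) 0 0 (step_sound _ 66 [(rh71222050f2c63a3a.shift 2 0), (rha11dfd15f08f96e3.shift 0 3)] (by decide +kernel))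
noncomputable def rhb98e183a12ed98e4 : CRef := CRef.mk (Pat.mk 0x380000001000000010 0x8000000080000000f0000007c0000001800000010 4 7) 0 0 (step_sound _ 99 [(rha9fbfd4bb8cf890b.shift 0 2), (rhe072fffdd2fccf38.shift 3 0)] (by decide +kernel))
noncomputable def rh0f1f75917d11acd2 : CRef := CRef.mk (Pat.mk 0xf00000040 0x380000003f00000070 4 7) 0 0 (step_sound _ 68 [(rh428265de8cd3cd2d.shift 0 1), (rhbc75a3b1252ac504.shift 1 0)] (by decide +kernel))
noncomputable def rh75b63e46072e6b6d : CRef := CRef.mk (Pat.mk 0x1e000000000000000200000000 0x4000000070000001e000000030000000200000002 4 5) 0 0 (step_sound _ 65 [rh11acd801a78010b3, (rheb0810cc63b001d8.shift 0 2)] (by decide +kernel))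
noncomputable def rhb8e1e22c06ebc4eb : CRef := CRef.mk (Pat.mk 0x1e000000020000000400000000 0x4000000070000001e000000020000000600000006 4 5) 0 0 (step_sound _ 129 [(rh3244c3cc8379b070.shift 0 3), (rh8f4050c06a082165.shift 1 0)] (by decide +kernel))
noncomputable def rh2ca6829cf8c2858b : CRef := CRef.mk (Pat.mk 0x1400000004000000040000000400000000 0x20000003e00000007000000040000000400000004 4 6) 0 0 (step_sound _ 129 [rh2e27fcf69d69a754, (rh50fbb5868c909700.shift 1 1)] (by decide +kernel))
noncomputable def rhd0b5e121ccd1e6a2 : CRef := CRef.mk (Pat.mk 0x200000002000000020000003200000000 0x200000002000000030000003e00000074 4 7) 0 0 (step_sound _ 34 [(rh55afc6a59410cf00.shift 1 0), rhd8ebdc05f381a804] (by decide +kernel))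
noncomputable def rh0c072535b876ba69 : CRef := CRef.mk (Pat.mk 0x10000000080000000c0000001c000000000000000000000000 0x100000001c0000000f0000001c000000080000000800000008 4 5) 0 0 (step_sound _ 129 [(rhb739f4f82bb681b4.shift 0 3), (rhbd49d23711322180.shift 2 0)] (by decide +kernel))
noncomputable def rh7522f36d238d6d9a : CRef := CRef.mk (Pat.mk 0xa00000002000000020000000200000002 0x1000000030000001f00000006000000020000000200000002 4 5) 0 0 (step_sound _ 160 [rhb37359181f6a4da0, (rhffd04209dc8ea796.shift 0 1)] (by decide +kernel))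
noncomputable def rh7d76065933faa4ae : CRef := CRef.mk (Pat.mk 0x38000000000000000800000000 0x1000000010000000180000007c0000000f0000000800000008 4 7) 0 0 (step_sound _ 67 [(rh215e11e099257d75.shift 3 0), (rh2820ca9a6c4f41b4.shift 0 2)] (by decide +kernel))
noncomputable def rha50dfa6cdf7a7462 : CRef := CRef.mk (Pat.mk 0x200000002000000020000001a0000000100000000 0x40000000600000006000000020000001a0000000f00000004 4 5) 0 0 (step_sound _ 162 [(rh2f68792b6b779e96.shift 1 2), rh48cf2212fb0d177a] (by decide +kernel))
noncomputable def rhc5cdb6415db667c5 : CRef := CRef.mk (Pat.mk 0x6000000140000000400000004 0x80000003e000000370000000400000004 4 6) 0 0 (step_sound _ 99 [(rh1e42cdaa2b8276ac.shift 0 2), (rh2f68792b6b779e96.shift 2 0)] (by decide +kernel))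
noncomputable def rh63482c1755d01f9a : CRef := CRef.mk (Pat.mk 0x1200000006000000020000000000000000 0x200000007000000070000001e00000006000000060000000200000002 4 5) 0 0 (step_sound _ 130 [(rh84d1c02a8954c6a8.shift 1 1), (rh8e4d738d72204634.shift 0 2), (rhcf80391c5046a495.shift 1 0)] (by decide +kernel))
noncomputable def rha07f322cd977fa7a : CRef := CRef.mk (Pat.mk 0x20000001e000000000000000400000000 0x4000000060000001e000000030000000600000006 4 5) 0 0 (step_sound _ 65 [(rh8f4050c06a082165.shift 1 0), (rheb0810cc63b001d8.shift 0 2)] (by decide +kernel))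
noncomputable def rhe651a079a1096c29 : CRef := CRef.mk (Pat.mk 0x12000000060000000200000000 0x200000007000000070000001e000000060000000600000002 4 5) 0 0 (step_sound _ 98 [(rh84d1c02a8954c6a8.shift 1 0), (rh8e4d738d72204634.shift 0 1)] (by decide +kernel))
noncomputable def rh87141cb6ad5c8198 : CRef := CRef.mk (Pat.mk 0x6000000020000001a0000000000000000 0x400000006000000020000001a0000000f00000005 4 5) 0 0 (step_sound _ 33 [(rh2f68792b6b779e96.shift 1 1), rhd630af2e39ca770f] (by decide +kernel))
noncomputable def rh8c3854c636c67d2b : CRef := CRef.mk (Pat.mk 0x2000000040000001c0000003800000000 0x2000000060000001c0000003f00000077 4 7) 0 0 (step_sound _ 34 [rhcc2be1f880c5ea3e, rhe153806bfe3acc65, (rhf221129318455305.shift 1 0)] (by decide +kernel))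
noncomputable def rh61147287bacde07b : CRef := CRef.mk (Pat.mk 0x1800000008000000380000000000000000 0x100000001800000008000000380000001f00000004 4 6) 0 0 (step_sound _ 35 [(rh2f68792b6b779e96.shift 3 1), rh852e818bc8629e77] (by decide +kernel))
noncomputable def rh1dd82125e2be3053 : CRef := CRef.mk (Pat.mk 0x3000000030000001a0000000000000000 0x3000000030000001a0000000f00000007 4 5) 0 0 (step_sound _ 33 [rh36e6bb6cca6188da, rh7b1f1fb55310c477] (by decide +kernel))
noncomputable def rh6de9f2ff3549b970 : CRef := CRef.mk (Pat.mk 0xe000000400000000400000004 0x30000003e000000740000000400000004 4 7) 0 0 (step_sound _ 129 [(rh2613c889e411427e.shift 1 0), (rhe592f4561ded169a.shift 0 2)] (by decide +kernel))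
noncomputable def rh641084bb64cf8acf : CRef := CRef.mk (Pat.mk 0x1000000020000000200000002000000000000000000000000 0x1000000030000000200000002000000070000000700000005 4 3) 0 0 (step_sound _ 65 [rh3181373a30ceb9e3, (rhffd04209dc8ea796.shift 0 2)] (by decide +kernel))
noncomputable def rh6912cf8f42c51e89 : CRef := CRef.mk (Pat.mk 0x38000000100000007000000020 0xc0000000fc0000003f0000007000000020 4 8) 0 0 (step_sound _ 67 [(rh2612b4f73ba7c3b3.shift 2 2), (rh2820ca9a6c4f41b4.shift 0 2), (rh3694ccc47a1810b0.shift 3 0), (rhc02b3aee7ab87ee1.shift 1 1)] (by decide +kernel))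
noncomputable def rh7e3e36bcf939d2ae : CRef := CRef.mk (Pat.mk 0x200000002000000020000001a0000000000000000 0x40000000600000006000000020000001e0000000300000001 4 5) 0 0 (step_sound _ 162 [(rh2f68792b6b779e96.shift 1 2), rhba796ffe97880c75] (by decide +kernel))
noncomputable def rh84a994e387d68e2f : CRef := CRef.mk (Pat.mk 0x200000002000000020000001a000000000000000000000000 0x200000002000000020000001e000000070000000700000005 4 5) 0 0 (step_sound _ 65 [rh3181373a30ceb9e3, (rh5710f30ba40ee3ec.shift 0 1), (rhd29a1fb688eae70f.shift 1 1)] (by decide +kernel))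
noncomputable def rhf6ca3c18e3f5ead9 : CRef := CRef.mk (Pat.mk 0x1000000010000000700000004 0x20000000300000003000000030000000700000007 4 3) 0 0 (step_sound _ 128 [rh55afc6a59410cf00, rh82b9e43e77238ca0] (by decide +kernel))
noncomputable def rh64210d62cede1278 : CRef := CRef.mk (Pat.mk 0x4000000070000000400000000 0x8000000080000000c0000003e000000070000000400000004 4 6) 0 0 (step_sound _ 99 [(rh215e11e099257d75.shift 2 0), (rh80f90a60d87caa0d.shift 0 2)] (by decide +kernel))
noncomputable def rh39b036797fb07457 : CRef := CRef.mk (Pat.mk 0x30000000600000002000000000000000000000000 0x1000000070000000600000002000000060000000600000004 4 3) 0 0 (step_sound _ 65 [(rh301a6b3a9154ed36.shift 1 0), (rh50fbb5868c909700.shift 0 2)] (by decide +kernel))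
noncomputable def rh6afa0c82223be7ff : CRef := CRef.mk (Pat.mk 0x1c00000018000000380000000000000000 0x1f0000001f000000380000000800000008 4 6) 0 0 (step_sound _ 35 [(rh71222050f2c63a3a.shift 3 0), (rhace16348de435294.shift 0 2)] (by decide +kernel))
noncomputable def rh2c0c6ab943ebe285 : CRef := CRef.mk (Pat.mk 0x7800000018 0xe70000007f00000018 4 8) 0 0 (step_sound _ 34 [(rh9890f9d77740bbed.shift 2 1), rhba89ab7cb81bcc90] (by decide +kernel))
noncomputable def rh544fd3f279a4d968 : CRef := CRef.mk (Pat.mk 0x2000000020000000600000006000000000000000000000000 0x100000003000000070000000600000006000000020000000200000002 4 3) 0 0 (step_sound _ 192 [rh3a0a17dff5d34c4f, (rh50fbb5868c909700.shift 0 3)] (by decide +kernel))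
noncomputable def rh754f098ce4d3ee3e : CRef := CRef.mk (Pat.mk 0x1000000010000000300000001000000000000000000000000 0x3000000030000000300000003000000030000000300000002 4 2) 0 0 (step_sound _ 64 [rh301a6b3a9154ed36, (rha707fb719e87fe6e.shift 0 1), (rhd29a1fb688eae70f.shift 0 1)] (by decide +kernel))
noncomputable def rh71bc55fb4d1b3b62 : CRef := CRef.mk (Pat.mk 0x80000001800000038000000000000000000000000 0x80000001f0000003f0000000f0000000400000004 4 6) 0 0 (step_sound _ 98 [(rh1e8d6e1ef30e2d92.shift 1 0), (rhae036cc4ef671676.shift 1 1), (rhbe5fc5902345a0b9.shift 0 3), (rhcc2be1f880c5ea3e.shift 0 2)] (by decide +kernel))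
noncomputable def rhcd92c9961d7f9922 : CRef := CRef.mk (Pat.mk 0x1c00000080 0x770000007e000000e0 4 8) 0 0 (step_sound _ 37 [(rh00f1bb10334541e3.shift 0 1), (rheaa91b92daf0efc8.shift 2 0)] (by decide +kernel))
noncomputable def rhc659621193c2a0fe : CRef := CRef.mk (Pat.mk 0x8000000000000001a0000003800000000 0x8000000080000001b0000003f00000007 4 6) 0 0 (step_sound _ 34 [(rh5c36e97be8af272f.shift 0 1), (rh981be6707e4d9088.shift 1 0), rhcc2be1f880c5ea3e] (by decide +kernel))
noncomputable def rhcbce130df63aa989 : CRef := CRef.mk (Pat.mk 0x3c000000000000000400000004 0x70000003e000000030000000600000004 4 6) 0 0 (step_sound _ 129 [rh2950770e13690148, (rh3f8766e6ecb455ce.shift 1 3)] (by decide +kernel))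
noncomputable def rheaddb73221c872c2 : CRef := CRef.mk (Pat.mk 0x80000001a00000038000000000000000000000000 0x80000001b0000003f0000000e0000000400000004 4 6) 0 0 (step_sound _ 98 [(rh1e8d6e1ef30e2d92.shift 1 0), (rh5c36e97be8af272f.shift 0 3)] (by decide +kernel))
noncomputable def rh0e5cb3f678e965e5 : CRef := CRef.mk (Pat.mk 0x100000000e000000000000000400000000 0x8000000080000001c0000000f000000040000000400000004 4 5) 0 0 (step_sound _ 131 [(rh00d6a6e3c7e3bb40.shift 2 0), (rh53b3c253cb0c65f4.shift 0 3)] (by decide +kernel))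
noncomputable def rhb9166a57611d3858 : CRef := CRef.mk (Pat.mk 0x600000002000000020000000000000000 0x1000000070000000700000002000000030000000300000001 4 3) 0 0 (step_sound _ 33 [rh0fd870c734e6c513, (rh2f68792b6b779e96.shift 1 1)] (by decide +kernel))
noncomputable def rh5b1d16cb52c1e1e2 : CRef := CRef.mk (Pat.mk 0x1e00000100 0xe0000000fe000001c7 4 9) 0 0 (step_sound _ 37 [(rhd458cf0431fcb667.shift 2 0), rheae1728ff4a56756] (by decide +kernel))
noncomputable def rh675da2bd003e49f9 : CRef := CRef.mk (Pat.mk 0xe000000440000000400000000 0x30000003e000000740000000400000004 4 7) 0 0 (step_sound _ 129 [(rh7b1f1fb55310c477.shift 1 0), (rhe592f4561ded169a.shift 0 2)] (by decide +kernel))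
noncomputable def rh0d0fab9b7d00b2b5 : CRef := CRef.mk (Pat.mk 0x1000000020000000600000002000000000000000000000000 0x1000000070000000600000002000000060000000600000004 4 3) 0 0 (step_sound _ 65 [(rh301a6b3a9154ed36.shift 1 0), (rhffd04209dc8ea796.shift 0 2)] (by decide +kernel))
noncomputable def rhe96cc273fd1131e3 : CRef := CRef.mk (Pat.mk 0x20000000600000002000000010000000000000000 0x60000000600000002000000070000000700000004 4 3) 0 0 (step_sound _ 65 [(rh301a6b3a9154ed36.shift 1 0), (rh932754581e0f4330.shift 0 1)] (by decide +kernel))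
noncomputable def rhed1d60224f77d6f7 : CRef := CRef.mk (Pat.mk 0x2000000020000000e0000000a 0x1000000070000000700000006000000060000000e0000000a 4 4) 0 0 (step_sound _ 129 [(rh44f453b84f013105.shift 1 0), (rh5bd4bc0c2c48140c.shift 0 1), (rh74077b621f65b9d0.shift 1 0)] (by decide +kernel))
noncomputable def rh627e2191a242939e : CRef := CRef.mk (Pat.mk 0x20000000e00000080 0x70000007e000000e0 4 8) 0 0 (step_sound _ 36 [(rh3244c3cc8379b070.shift 0 1), (rhf85dd19835c185aa.shift 1 0)] (by decide +kernel))
noncomputable def rh4c7411087d622b9c : CRef := CRef.mk (Pat.mk 0x1e0000000400000004 0x8000000080000003c0000001f0000000400000004 4 6) 0 0 (step_sound _ 100 [(rh33e738c4ed385b9f.shift 1 2), rh5bb1a18b21659263] (by decide +kernel))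
noncomputable def rhdda7632047779180 : CRef := CRef.mk (Pat.mk 0xc00000008000000100000003000000020 0x1f0000007c000000100000003000000020 4 7) 0 0 (step_sound _ 100 [(rh2145e1d24b96a57e.shift 4 0), (rhdeca8db941583de2.shift 0 3)] (by decide +kernel))
noncomputable def rh4e95ff6e5f5780a1 : CRef := CRef.mk (Pat.mk 0x4000000050000001c00000004 0x80000003e0000000f0000001c00000004 4 6) 0 0 (step_sound _ 99 [(rh2f68792b6b779e96.shift 2 0), (rhd069c26308376489.shift 0 1)] (by decide +kernel))
noncomputable def rh86032c39eff35729 : CRef := CRef.mk (Pat.mk 0x20000001c00000014000000300000001000000000 0x30000001e00000014000000340000001e00000008 4 6) 0 0 (step_sound _ 129 [(rh3244c3cc8379b070.shift 0 4), (rhc97a067b7b382bbd.shift 1 0)] (by decide +kernel))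
noncomputable def rh2ea805e6ad9a2539 : CRef := CRef.mk (Pat.mk 0xc0000000c000000180000000000000000 0x100000003c0000000f000000180000000800000008 4 6) 0 0 (step_sound _ 97 [(rhb739f4f82bb681b4.shift 0 2), (rhf8d29f3cbeaf06f7.shift 1 0)] (by decide +kernel))
noncomputable def rhb1c06754cc0d7506 : CRef := CRef.mk (Pat.mk 0xc0000000c000000180000001800000000 0xc0000000c0000001c0000001f00000007 4 5) 0 0 (step_sound _ 34 [(rh932754581e0f4330.shift 2 0), rhbedc17f53a3d22d1] (by decide +kernel))
noncomputable def rh0ea7c0b623fbcc17 : CRef := CRef.mk (Pat.mk 0x3800000018 0xe7000000ff00000018 4 8) 0 0 (step_sound _ 34 [(rh226655e3fe6b4a8a.shift 2 0), rhba89ab7cb81bcc90] (by decide +kernel))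
noncomputable def rhfa0414344ad6364d : CRef := CRef.mk (Pat.mk 0xf000000000000002000000020 0x380000001f000000180000003000000020 4 6) 0 0 (step_sound _ 132 [rh2a89eb6cdc94454a, (rh428265de8cd3cd2d.shift 0 3)] (by decide +kernel))
noncomputable def rh22b38309c56a80eb : CRef := CRef.mk (Pat.mk 0x1e 0x770000003e 4 7) 0 0 (step_sound _ 33 [rh3244c3cc8379b070, (rh9cf60041f0c0abcb.shift 1 0)] (by decide +kernel))
noncomputable def rh3655b017e048a835 : CRef := CRef.mk (Pat.mk 0x3000000010000000600000004000000000000000000000000 0x100000003000000030000000700000007000000020000000200000002 4 3) 0 0 (step_sound _ 97 [(rh94b6e4c0b65a2a0c.shift 0 2), rhe451721295619d5a, (rhe482ee30a2733b5f.shift 0 1), (rhf6833c4bd292a3b4.shift 0 3)] (by decide +kernel))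
noncomputable def rhd436bd2e7b8da4e9 : CRef := CRef.mk (Pat.mk 0x400000006000000180000003800000000 0x200000006000000060000001c0000003f0000000f 4 6) 0 0 (step_sound _ 34 [(rh2f544a0a1f62b1e4.shift 1 0), rhbedc17f53a3d22d1, rhcc2be1f880c5ea3e] (by decide +kernel))
noncomputable def rh6a8c156e22ebb6c5 : CRef := CRef.mk (Pat.mk 0x3000000030000000600000000 0x3000000030000000300000003000000030000000600000004 4 3) 0 0 (step_sound _ 160 [rh22c7b9f73858deec, (rh6f1cbe15c631ee70.shift 0 1)] (by decide +kernel))
noncomputable def rhb7f3afec56e7e07e : CRef := CRef.mk (Pat.mk 0x1e0000000400000000 0x200000002000000070000001e0000000600000004 4 5) 0 0 (step_sound _ 97 [(rh11e0cfc1c5a72355.shift 1 0), (rh3244c3cc8379b070.shift 0 2)] (by decide +kernel))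
noncomputable def rh4fb723870936bb81 : CRef := CRef.mk (Pat.mk 0x8000000380000001a00000000 0x4000000040000000f0000003f0000001b00000008 4 6) 0 0 (step_sound _ 66 [(rh710860539a4c4362.shift 0 1), (rha3e1d11cef3fbde8.shift 1 0), (rhba89ab7cb81bcc90.shift 0 1)] (by decide +kernel))
noncomputable def rh3e3c77f21bb67fc6 : CRef := CRef.mk (Pat.mk 0x1e000000120000003000000000 0x2000000030000001e0000001e0000003400000004 4 6) 0 0 (step_sound _ 129 [(rh3244c3cc8379b070.shift 0 3), (rh7dc53c885dde6ace.shift 1 0)] (by decide +kernel))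
noncomputable def rhe433b7503f8e1e43 : CRef := CRef.mk (Pat.mk 0x4000000000000001e0000000800000008 0x4000000070000001e0000000f0000000a 4 5) 0 0 (step_sound _ 33 [rhc01c8460008663c1, (rheb0810cc63b001d8.shift 0 1)] (by decide +kernel))
noncomputable def rhaaa584095be142a6 : CRef := CRef.mk (Pat.mk 0xe0000004400000004 0x2000000030000003e0000007700000004 4 7) 0 0 (step_sound _ 68 [(rhaf9f2efc81a8312b.shift 0 1), rhe4f9133a81c1dbc5, (rheaa91b92daf0efc8.shift 1 1)] (by decide +kernel))
noncomputable def rh8a959940983384ce : CRef := CRef.mk (Pat.mk 0x3000000000000000600000004 0x1000000010000000300000003000000030000000600000006 4 3) 0 0 (step_sound _ 65 [(rh2145e1d24b96a57e.shift 1 0), rhf9a6286f1d5377a2] (by decide +kernel))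
noncomputable def rh483b36d2926fa52f : CRef := CRef.mk (Pat.mk 0x18000000180000000600000004 0x20000003f0000001f0000000600000004 4 6) 0 0 (step_sound _ 65 [rh2505e37b28f90391, (rh6d571b54e8dd9e33.shift 0 2), rhdab0e6f012231ab6] (by decide +kernel))
noncomputable def rh6db76a192117795b : CRef := CRef.mk (Pat.mk 0x600000006000000020000000200000000 0x300000003000000030000000600000006000000030000000300000001 4 3) 0 0 (step_sound _ 161 [rh7928877f9bf74a91, (rh7b9fbdf6d2d059e4.shift 0 2)] (by decide +kernel))
noncomputable def rh61c7a83a1300bbb6 : CRef := CRef.mk (Pat.mk 0x2000000070000000c0000000800000000 0xc0000001e000000070000000c0000000c00000004 4 5) 0 0 (step_sound _ 130 [(rh2145e1d24b96a57e.shift 2 1), rh4e448da1f2ebc7c7] (by decide +kernel))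
noncomputable def rhfce9cc94dfedd7c6 : CRef := CRef.mk (Pat.mk 0x2000000030000000c0000000c00000000 0xc0000001e000000070000000c0000000c00000004 4 5) 0 0 (step_sound _ 98 [(rh294ce561c6433800.shift 0 1), (rh7b1f1fb55310c477.shift 1 0)] (by decide +kernel))
noncomputable def rh7d70e2e65a4f8551 : CRef := CRef.mk (Pat.mk 0x40000000e0000001a0000001000000000 0x40000000e0000001b0000001f0000000a 4 5) 0 0 (step_sound _ 35 [(rh7b1f1fb55310c477.shift 2 0), rhd37c20d84762fac4] (by decide +kernel))
noncomputable def rha81916bd2c091619 : CRef := CRef.mk (Pat.mk 0x6000000030000000600000006 0x190000001f000000070000000600000006 4 5) 0 0 (step_sound _ 96 [rh3694ccc47a1810b0, rh50fbb5868c909700] (by decide +kernel))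
noncomputable def rhbdc736e7c68aa3b3 : CRef := CRef.mk (Pat.mk 0x200000003000000060000000600000000 0xc0000001e00000007000000060000000600000002 4 5) 0 0 (step_sound _ 130 [(rh2f68792b6b779e96.shift 1 1), rh36e5fea460606a7f] (by decide +kernel))
noncomputable def rh60a05b51c90bcdc0 : CRef := CRef.mk (Pat.mk 0x80000000400000030000000700000000000000000 0x80000001f0000003c000000780000001000000010 4 7) 0 0 (step_sound _ 99 [(rhb739f4f82bb681b4.shift 2 2), rhe6898e6c4f57a946] (by decide +kernel))
noncomputable def rh440277417d1344b0 : CRef := CRef.mk (Pat.mk 0x1000000000000000600000006000000020000000000000000 0x1000000030000000600000006000000030000000300000003 4 3) 0 0 (step_sound _ 161 [rh46530d756bdf8511, (rhffd04209dc8ea796.shift 0 2)] (by decide +kernel))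
noncomputable def rh20c29c94bc89e535 : CRef := CRef.mk (Pat.mk 0xc0000001c000000040000000c00000000 0xc0000001c000000370000003e00000012 4 6) 0 0 (step_sound _ 33 [(rh932754581e0f4330.shift 1 0), rhb9c6a0615d751a8b] (by decide +kernel))
noncomputable def rh1004d00650209aee : CRef := CRef.mk (Pat.mk 0x400000002000000180000001e00000000 0x40000000f0000001c0000001e0000000b 4 5) 0 0 (step_sound _ 1 [rh4343463f401da950, rheb0810cc63b001d8] (by decide +kernel))
noncomputable def rhad96261d3ec6aa9d : CRef := CRef.mk (Pat.mk 0x400000002000000180000003c000000200000000000000000 0x80000000c0000000f000000180000003c0000002c0000002000000020 4 6) 0 0 (step_sound _ 37 [(rh3c6e99dd47b9dca9.shift 0 2), (rh7b1f1fb55310c477.shift 4 0)] (by decide +kernel))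
noncomputable def rhd725c79ab5208c5e : CRef := CRef.mk (Pat.mk 0x400000002000000180000001c00000000 0x4000000060000001b0000001f00000003 4 5) 0 0 (step_sound _ 33 [(rh53b3c253cb0c65f4.shift 0 1), rha97167f4c6c83116] (by decide +kernel))
noncomputable def rhc87f7657c377b457 : CRef := CRef.mk (Pat.mk 0x4000000020000000200000002000000000000000000000000 0x4000000060000000200000002000000070000000700000005 4 3) 0 0 (step_sound _ 65 [rh3181373a30ceb9e3, (rhbaefcd01e0a8bca3.shift 1 2)] (by decide +kernel))
noncomputable def rhf37c6fa7e7b4e7c2 : CRef := CRef.mk (Pat.mk 0x38000000180000000800000008 0x40000003f0000001f0000000800000008 4 6) 0 0 (step_sound _ 98 [(rh50fbb5868c909700.shift 2 0), (rhb14e2588a8d71db8.shift 0 2)] (by decide +kernel))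
noncomputable def rh02f8541d9cf2aad5 : CRef := CRef.mk (Pat.mk 0x200000007000000030000001800000010 0x2000000020000001a0000001f0000000b0000001800000010 4 5) 0 0 (step_sound _ 161 [rh225f5067204dfb4f, (rh5c5e593799055d58.shift 0 2)] (by decide +kernel))
noncomputable def rhc0d27403de76d922 : CRef := CRef.mk (Pat.mk 0x18000000180000001000000008 0x140000001f000000380000001800000008 4 6) 0 0 (step_sound _ 35 [(rh5c5e593799055d58.shift 3 0), rhc647a25a08ddf0ec] (by decide +kernel))
noncomputable def rhc0693af77a9e9811 : CRef := CRef.mk (Pat.mk 0x200000002000000120000000200000000 0x200000002000000020000001f0000000700000001 4 5) 0 0 (step_sound _ 32 [rh932754581e0f4330, (rh94e77f9f35dec009.shift 0 1)] (by decide +kernel))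
noncomputable def rh9e5f12e1f97a0f3d : CRef := CRef.mk (Pat.mk 0x10000000500000007000000000000000000000000 0x5000000050000000500000007000000060000000200000002 4 3) 0 0 (step_sound _ 65 [(rh2145e1d24b96a57e.shift 0 2), rhb10481e8122aee97] (by decide +kernel))
noncomputable def rh7b3443d2b62c19d2 : CRef := CRef.mk (Pat.mk 0x20000000100000001000000190000000000000000 0x300000003000000010000001f0000000300000002 4 5) 0 0 (step_sound _ 32 [(rhbaefcd01e0a8bca3.shift 0 1), rhd98c38510daa35cb] (by decide +kernel))
noncomputable def rhc5b48f2c1b7901f8 : CRef := CRef.mk (Pat.mk 0x2000000020000000200000002000000020000000000000000 0x2000000030000000300000003000000070000000600000006 4 3) 0 0 (step_sound _ 33 [rh1fe7bd026babc309, (rhd29a1fb688eae70f.shift 1 0)] (by decide +kernel))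
noncomputable def rh841bfdd31e40da95 : CRef := CRef.mk (Pat.mk 0x20000001a00000012000000000000000000000000 0x2000000020000001b0000001f000000060000000400000004 4 5) 0 0 (step_sound _ 98 [(rh70e33bfdf511e144.shift 1 0), (rh7e2297059c77b3a4.shift 0 3)] (by decide +kernel))
noncomputable def rh653e1a044592a43c : CRef := CRef.mk (Pat.mk 0xc0000000a000000180000000000000000 0x100000003c0000000f000000180000000800000008 4 6) 0 0 (step_sound _ 98 [(rhb739f4f82bb681b4.shift 0 2), (rhf8d29f3cbeaf06f7.shift 1 0)] (by decide +kernel))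
noncomputable def rh06dcb19e21a0eafe : CRef := CRef.mk (Pat.mk 0xc00000083 0x7e000000e7 4 8) 0 0 (step_sound _ 36 [(rh03238141166ed50f.shift 1 0), rhca9569cc80abfe76] (by decide +kernel))
noncomputable def rhc1cffdf5ca849f14 : CRef := CRef.mk (Pat.mk 0xe000000000000001800000010 0x780000001f000000080000001800000010 4 7) 0 0 (step_sound _ 131 [(rha11dfd15f08f96e3.shift 0 3), (rhff0f29cb645b05f7.shift 3 0)] (by decide +kernel))
noncomputable def rh6ae1d99a9b0058f4 : CRef := CRef.mk (Pat.mk 0xe000000040000000400000000 0x780000001f000000040000000400000004 4 7) 0 0 (step_sound _ 131 [(rh71222050f2c63a3a.shift 2 0), (rha11dfd15f08f96e3.shift 0 3)] (by decide +kernel))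
noncomputable def rh1ee5a357bdbd18e7 : CRef := CRef.mk (Pat.mk 0x200000002000000320000000200000000 0x2000000020000003e0000000f00000005 4 6) 0 0 (step_sound _ 34 [(rh55afc6a59410cf00.shift 1 0), rhf52f64760f03115f] (by decide +kernel))
noncomputable def rhc97a246e65c86b18 : CRef := CRef.mk (Pat.mk 0xc0000001c000000080000001c 0x20000000f0000001c0000000e0000007c 4 7) 0 0 (step_sound _ 97 [(rh6307659a1e91bf84.shift 1 0), (rhb739f4f82bb681b4.shift 0 2)] (by decide +kernel))
noncomputable def rh67f38977494a28b8 : CRef := CRef.mk (Pat.mk 0x600000004000000040000000400000000 0x80000003e00000007000000040000000400000004 4 6) 0 0 (step_sound _ 131 [(rh2f68792b6b779e96.shift 2 1), rh7176893643e0a9ff] (by decide +kernel))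
noncomputable def rh3e9223db32cad240 : CRef := CRef.mk (Pat.mk 0x40000001e000000180000001000000000 0x40000001e0000001f0000003300000002 4 6) 0 0 (step_sound _ 65 [rhcd4eff53da13612e, (rheb0810cc63b001d8.shift 0 2)] (by decide +kernel))
noncomputable def rhfff448ac9b6751e1 : CRef := CRef.mk (Pat.mk 0x80000001800000038000000100000000000000000 0x8000000180000003f0000003e0000000400000004 4 6) 0 0 (step_sound _ 98 [(rh1e8d6e1ef30e2d92.shift 1 0), (rhf56e6bc5d2f7fe77.shift 0 2)] (by decide +kernel))
noncomputable def rh4b685788b9557979 : CRef := CRef.mk (Pat.mk 0x6000000060000000200000004 0x3000000030000000300000006000000060000000600000004 4 3) 0 0 (step_sound _ 129 [(rh7b9fbdf6d2d059e4.shift 0 1), (rh9e07f76261b05888.shift 1 0)] (by decide +kernel))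
noncomputable def rhcc0ec44f4a77daad : CRef := CRef.mk (Pat.mk 0x800000008000000380000000800000000 0x40000000c00000008000000380000001f00000004 4 6) 0 0 (step_sound _ 130 [(rh50fbb5868c909700.shift 2 1), rh852e818bc8629e77] (by decide +kernel))
noncomputable def rh0ec1fd8dc34e1a29 : CRef := CRef.mk (Pat.mk 0x1c000000380000000000000000 0x8000000080000001c0000003f0000007700000004 4 7) 0 0 (step_sound _ 66 [(rh031a926e4a883687.shift 1 0), (rhcc2be1f880c5ea3e.shift 0 1), (rhe153806bfe3acc65.shift 0 1)] (by decide +kernel))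
noncomputable def rha08de9eefe64cf20 : CRef := CRef.mk (Pat.mk 0x400000000000000080000001e00000000 0x4000000040000000e0000007e00000003 4 7) 0 0 (step_sound _ 1 [(rh1f4d44691e3bb3c1.shift 1 0), rheb0810cc63b001d8] (by decide +kernel))
noncomputable def rh102c06f3317148d0 : CRef := CRef.mk (Pat.mk 0x800000008000000080000001e00000000 0x40000000c0000000c0000000c0000001e0000000b 4 5) 0 0 (step_sound _ 130 [(rh50fbb5868c909700.shift 2 1), rheb0bd07e4b6e7aee] (by decide +kernel))
noncomputable def rh9d14abd203ea6f73 : CRef := CRef.mk (Pat.mk 0x80000001800000038000000000000000000000000 0x80000001f0000003f000000070000000400000004 4 6) 0 0 (step_sound _ 98 [(rhbe5fc5902345a0b9.shift 0 3), (rhcc2be1f880c5ea3e.shift 0 2), (rhd1474a84c69f0140.shift 1 0)] (by decide +kernel))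
noncomputable def rh46abe9950ad883d6 : CRef := CRef.mk (Pat.mk 0x40000000c0000001c0000000c0000000000000000 0x40000000c0000001f0000003e0000003200000010 4 6) 0 0 (step_sound _ 65 [(rh932754581e0f4330.shift 1 1), rhc4ba741110895e4c] (by decide +kernel))
noncomputable def rhc788304733c0a62d : CRef := CRef.mk (Pat.mk 0x2000000060000000f000000050000000000000000 0x2000000060000000f0000001f0000001900000008 4 5) 0 0 (step_sound _ 65 [rh3f420d1be4b84cac, (rh932754581e0f4330.shift 0 1)] (by decide +kernel))
noncomputable def rh9fd7910cf6797209 : CRef := CRef.mk (Pat.mk 0x70000000f0000000d0000000000000000 0x100000001000000070000000f0000000f0000001a00000008 4 5) 0 0 (step_sound _ 35 [(rh7b1f1fb55310c477.shift 2 0), (rhb1e3daacf76f6a81.shift 0 1)] (by decide +kernel))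
noncomputable def rh6735c2d255de3301 : CRef := CRef.mk (Pat.mk 0x410000000e00000000 0x630000003e00000070 4 7) 0 0 (step_sound _ 36 [(rh3f8766e6ecb455ce.shift 0 1), (rhc13dbb2602bbcc3a.shift 1 0)] (by decide +kernel))
noncomputable def rhd9eed210d492b25a : CRef := CRef.mk (Pat.mk 0x80000001800000018000000100000000000000000 0x40000000c0000001c000000380000001f0000000c00000008 4 6) 0 0 (step_sound _ 67 [(rh6fae963f33cfdfd7.shift 0 1), (rhdf997f77704b6375.shift 2 0)] (by decide +kernel))
noncomputable def rh0c1dff9b65503750 : CRef := CRef.mk (Pat.mk 0x80000001c000000380000001000000000 0x80000001c0000003f0000003700000004 4 6) 0 0 (step_sound _ 66 [(rh9c40a739b57d6d20.shift 1 0), (rhcc2be1f880c5ea3e.shift 0 1), (rhf56e6bc5d2f7fe77.shift 0 1)] (by decide +kernel))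
noncomputable def rh44375dcd393fca89 : CRef := CRef.mk (Pat.mk 0x200000002700000036000000040000000000000000 0x2100000037000000360000001e0000001200000012 4 6) 0 0 (step_sound _ 65 [rh40241bd608e5be1a, (rhc4713ca36c943a51.shift 1 0)] (by decide +kernel))
noncomputable def rhb6e62b71cb0f382c : CRef := CRef.mk (Pat.mk 0x400000004000000060000000080000001800000000 0x4000000060000000600000002f0000007c00000020 4 7) 0 0 (step_sound _ 37 [(rha9fbfd4bb8cf890b.shift 0 1), (rhdebc43b768884653.shift 5 0)] (by decide +kernel))
noncomputable def rh9c6fc39ad557aaae : CRef := CRef.mk (Pat.mk 0x18000000180000003800000008 0x40000001f0000001f0000003800000008 4 6) 0 0 (step_sound _ 65 [rh9cac931137f1cfa0, (rhab22b5b56e7b3243.shift 1 1)] (by decide +kernel))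
noncomputable def rh11fd92140ef78e92 : CRef := CRef.mk (Pat.mk 0x1c000000880000001a 0x7e000000ef0000001e 4 8) 0 0 (step_sound _ 33 [(rh03238141166ed50f.shift 1 1), rh5ef1c85688574b5a, rhd8be3b7ca6adb62f] (by decide +kernel))
noncomputable def rh4f5f1a99d6baeb5a : CRef := CRef.mk (Pat.mk 0x20000000e0000000f000000000000000000000000 0x20000000e0000000f0000001c0000000c0000000c 4 5) 0 0 (step_sound _ 34 [(rh9e07f76261b05888.shift 1 1), rhdc461deccfb05432] (by decide +kernel))
noncomputable def rh277cbd247e5e36c8 : CRef := CRef.mk (Pat.mk 0x220000002600000036000000040000000000000000 0x10000002300000037000000360000001e0000001200000012 4 6) 0 0 (step_sound _ 65 [(rhc4713ca36c943a51.shift 1 0), rhdf997f77704b6375] (by decide +kernel))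
noncomputable def rhdfed119a3454bc5d : CRef := CRef.mk (Pat.mk 0x80000001800000038000000100000000000000000 0x80000001c0000003f000000360000000400000004 4 6) 0 0 (step_sound _ 98 [(rhd1474a84c69f0140.shift 1 0), (rhf56e6bc5d2f7fe77.shift 0 2)] (by decide +kernel))
noncomputable def rh593658fd7da791c2 : CRef := CRef.mk (Pat.mk 0xc0000001e0000001a0000000000000000 0xc0000001e0000001e0000003300000012 4 6) 0 0 (step_sound _ 36 [(rh7b1f1fb55310c477.shift 3 0), rhcd4eff53da13612e] (by decide +kernel))
noncomputable def rh4df5bb42c0c62bd3 : CRef := CRef.mk (Pat.mk 0xc000000180000000e0000000000000000 0x4000000060000000f0000001c0000000e0000000600000004 4 5) 0 0 (step_sound _ 129 [(rhb739f4f82bb681b4.shift 0 3), (rhf9418118d8a61ed7.shift 1 0)] (by decide +kernel))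
noncomputable def rhb8a0a47969052ef0 : CRef := CRef.mk (Pat.mk 0x60000001c0000000800000000 0x400000004000000060000001f0000003b00000002 4 6) 0 0 (step_sound _ 130 [(rh2145e1d24b96a57e.shift 2 1), rh6ba96611d07a8138] (by decide +kernel))
noncomputable def rh06f7c36f0e544ee5 : CRef := CRef.mk (Pat.mk 0x80000001c0000000c0000000000000000 0x80000001f0000003f0000003000000010 4 6) 0 0 (step_sound _ 65 [(rh53b3c253cb0c65f4.shift 0 2), rhc4ba741110895e4c] (by decide +kernel))
noncomputable def rhe8721226ff0940be : CRef := CRef.mk (Pat.mk 0xc0000001c000000180000000c00000000 0x20000000f0000001c0000001c0000000f00000002 4 5) 0 0 (step_sound _ 129 [(rhb739f4f82bb681b4.shift 0 3), rhff637a26715c46ce] (by decide +kernel))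
noncomputable def rhe69392b3a45010cd : CRef := CRef.mk (Pat.mk 0x1c00000038000000100000000000000000 0x80000001c0000003f000000370000000400000004 4 6) 0 0 (step_sound _ 98 [(rh9a011a4d0ec8f646.shift 1 0), (rhcc2be1f880c5ea3e.shift 0 2), (rhf56e6bc5d2f7fe77.shift 0 2)] (by decide +kernel))
noncomputable def rhfcf0fc842d84b1a6 : CRef := CRef.mk (Pat.mk 0x220000002300000032000000040000000000000000 0x10000002300000033000000320000001e0000001200000010 4 6) 0 0 (step_sound _ 65 [(rhc4713ca36c943a51.shift 1 0), (rhe286c75f2739cce2.shift 0 1)] (by decide +kernel))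
noncomputable def rh49bc575c6f3dbdda : CRef := CRef.mk (Pat.mk 0x60000001c000000180000001800000000 0x2000000060000001c0000001f0000003f00000002 4 6) 0 0 (step_sound _ 66 [rh09d7875afd1d8601, (rhf56e6bc5d2f7fe77.shift 0 1)] (by decide +kernel))
noncomputable def rh45166f720c0a3f0d : CRef := CRef.mk (Pat.mk 0x40000000c0000001c0000000800000000 0x2000000060000000f0000001c0000000f00000006 4 5) 0 0 (step_sound _ 97 [rh64fc1037460b24cb, (rhb739f4f82bb681b4.shift 0 2)] (by decide +kernel))
noncomputable def rh0ae0522179bd31b9 : CRef := CRef.mk (Pat.mk 0x20000000600000016000000000000000000000000 0x6000000060000001e000000070000000700000002 4 5) 0 0 (step_sound _ 66 [rh37e540d481210cc1, (rh7b1f1fb55310c477.shift 1 1)] (by decide +kernel))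
noncomputable def rhc3ddc1a7c5d82f6d : CRef := CRef.mk (Pat.mk 0x2000000020000000600000016000000000000000000000000 0x10000000300000006000000060000001e000000030000000300000002 4 5) 0 0 (step_sound _ 192 [rh37e540d481210cc1, (rh50fbb5868c909700.shift 0 3)] (by decide +kernel))
noncomputable def rhbf5a232a605b66c9 : CRef := CRef.mk (Pat.mk 0x600000018000000180000001c 0x2000000060000001f0000003f0000007c 4 7) 0 0 (step_sound _ 34 [rh15046019fc1d2e12, (rh79b3c29022acbdf3.shift 1 0), rh99e49d04edd80d1c] (by decide +kernel))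
noncomputable def rhe94eefc7cd61cf70 : CRef := CRef.mk (Pat.mk 0x80000001c0000001c0000000400000000 0x20000000f0000001c0000003c0000000600000002 4 6) 0 0 (step_sound _ 33 [(rh18965a982d73c794.shift 1 1), rh63481a5b9557685c] (by decide +kernel))
noncomputable def rhfdd6cc2cbbab9f07 : CRef := CRef.mk (Pat.mk 0x1a000000060000000200000000 0x6000000070000001e000000060000000600000006 4 5) 0 0 (step_sound _ 98 [rh38a0850c9fea941e, (rh84d1c02a8954c6a8.shift 1 0)] (by decide +kernel))
noncomputable def rh22b41900c9ae2872 : CRef := CRef.mk (Pat.mk 0x4000000180000000c0000000e00000000 0x40000001c0000000f0000003e00000003 4 6) 0 0 (step_sound _ 65 [(rh53b3c253cb0c65f4.shift 0 2), rhcec7837146ab5006] (by decide +kernel))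
noncomputable def rhfdc18f1f459863a2 : CRef := CRef.mk (Pat.mk 0x60000000e0000001a0000000000000000 0x60000000e0000001a0000000f0000000b 4 5) 0 0 (step_sound _ 35 [(rh7b1f1fb55310c477.shift 2 0), rha120299dea79bd91] (by decide +kernel))
noncomputable def rh3211faaf6703964e : CRef := CRef.mk (Pat.mk 0xc0000000c000000040000000c00000000 0xc0000000c0000000f0000003e00000032 4 6) 0 0 (step_sound _ 33 [rh0839eefd3cc00e67, (rh932754581e0f4330.shift 1 0)] (by decide +kernel))
noncomputable def rh640f7d27b4b363ce : CRef := CRef.mk (Pat.mk 0x180000001c000000000000000800000000 0x180000001f000000300000001800000018 4 6) 0 0 (step_sound _ 97 [(rh53b3c253cb0c65f4.shift 0 3), (rhdc461deccfb05432.shift 1 0)] (by decide +kernel))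
noncomputable def rh58ffa0133807a088 : CRef := CRef.mk (Pat.mk 0xa0000001a0000000200000000 0x1000000030000000f0000001b0000000200000002 4 5) 0 0 (step_sound _ 96 [rh7b24c4ccc068b0b2, (rhc10214bf3fe8094a.shift 0 2)] (by decide +kernel))
noncomputable def rhbfa5fcc07811e7ad : CRef := CRef.mk (Pat.mk 0x400000008000000180000001e00000000 0x40000000f0000001e0000001e00000003 4 5) 0 0 (step_sound _ 1 [rh0863013c73b0cbc2, rheb0810cc63b001d8] (by decide +kernel))
noncomputable def rh21cc983f04d25e46 : CRef := CRef.mk (Pat.mk 0x800000018000000180000000800000000 0x800000018000000380000001f00000014 4 6) 0 0 (step_sound _ 36 [rh6fae963f33cfdfd7, (rh7b1f1fb55310c477.shift 3 0)] (by decide +kernel))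
noncomputable def rh090c358acdc95f29 : CRef := CRef.mk (Pat.mk 0x1800000018000000080000001800000000 0x80000001800000018000000380000001f00000004 4 6) 0 0 (step_sound _ 68 [(rh50fbb5868c909700.shift 3 1), rh6fae963f33cfdfd7] (by decide +kernel))
noncomputable def rhd40e69ae5befa4c3 : CRef := CRef.mk (Pat.mk 0x40000001c0000000200000000 0x400000004000000070000001e0000000300000002 4 5) 0 0 (step_sound _ 65 [rh03f9d36a2d6e8f0b, (rheb0810cc63b001d8.shift 0 1)] (by decide +kernel))
noncomputable def rhce84b681b9576197 : CRef := CRef.mk (Pat.mk 0x20000000600000006000000010000000000000000 0x1000000030000000700000006000000030000000300000002 4 3) 0 0 (step_sound _ 65 [(rh932754581e0f4330.shift 0 1), rhdf997f77704b6375] (by decide +kernel))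
noncomputable def rh426dce397529b38d : CRef := CRef.mk (Pat.mk 0x38000000080000000c00000000 0x40000001f00000038000000080000000c00000004 4 6) 0 0 (step_sound _ 131 [(rh79905f95cb2d899a.shift 0 1), (rh932754581e0f4330.shift 2 0)] (by decide +kernel))
noncomputable def rh9cb1ae0e1c12574f : CRef := CRef.mk (Pat.mk 0x2000000000000001e0000000000000000 0x200000002000000020000003e0000000700000004 4 6) 0 0 (step_sound _ 33 [(rheb0810cc63b001d8.shift 0 1), (rhf14db003df2db175.shift 1 0)] (by decide +kernel))
noncomputable def rhb70d9353a0c1e322 : CRef := CRef.mk (Pat.mk 0x80000001c000000340000000400000000 0x20000000f0000001c0000003c0000000600000002 4 6) 0 0 (step_sound _ 33 [rh63481a5b9557685c, (rhb2a0b9ccfb5cecd5.shift 1 1)] (by decide +kernel))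
noncomputable def rhc5858971fcb7c5ab : CRef := CRef.mk (Pat.mk 0x1000000010000000000000002800000008 0x100000001000000010000000780000001f 4 7) 0 0 (step_sound _ 36 [(rh3c88ce959c0e423f.shift 3 0), rhf0f55c4504412200] (by decide +kernel))
noncomputable def rh61f918dfd48e4d6c : CRef := CRef.mk (Pat.mk 0x8000000080000001e000000000000000000000000 0x80000000c0000003e000000070000000400000004 4 6) 0 0 (step_sound _ 65 [(rh69663fdfdca7aa47.shift 1 0), (rheb0810cc63b001d8.shift 0 2)] (by decide +kernel))
noncomputable def rhd9e9ec0b7dc2279e : CRef := CRef.mk (Pat.mk 0x800000018000000340000000600000000 0x20000000f0000001e000000340000000600000002 4 6) 0 0 (step_sound _ 98 [rh63481a5b9557685c, (rhb739f4f82bb681b4.shift 1 2)] (by decide +kernel))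
noncomputable def rh6afedd06c145487b : CRef := CRef.mk (Pat.mk 0x40000000c000000180000000200000000 0x400000004000000060000000f0000001a0000000200000002 4 5) 0 0 (step_sound _ 97 [(rh00d6a6e3c7e3bb40.shift 1 0), (rhb739f4f82bb681b4.shift 0 2)] (by decide +kernel))
noncomputable def rh89de19f2d001b1ec : CRef := CRef.mk (Pat.mk 0xc00000000000000180000001800000000 0x40000000c00000008000000380000001f00000004 4 6) 0 0 (step_sound _ 99 [(rh50fbb5868c909700.shift 2 1), rh6fae963f33cfdfd7] (by decide +kernel))
noncomputable def rh385995ab0a783966 : CRef := CRef.mk (Pat.mk 0x1c000000300000001400000000 0x8000000080000000c0000001c0000003f0000003600000004 4 6) 0 0 (step_sound _ 66 [(rh215e11e099257d75.shift 2 0), (rh70eb00692e28eccb.shift 0 1)] (by decide +kernel))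
noncomputable def rh31f1da862c8e9c76 : CRef := CRef.mk (Pat.mk 0x70000000400000007000000000000000000000000 0x1000000070000000700000007000000030000000200000002 4 3) 0 0 (step_sound _ 65 [rh0588d2c7f2cab5e9, (rhdb2909ac5c854515.shift 0 2), (rhf9af042da61fc652.shift 1 0)] (by decide +kernel))
noncomputable def rh22ded93bb1171860 : CRef := CRef.mk (Pat.mk 0x800000038000000100000000000000000 0xf0000007c000000100000001000000010 4 7) 0 0 (step_sound _ 36 [(rh7b1f1fb55310c477.shift 3 0), (rha9fbfd4bb8cf890b.shift 0 3)] (by decide +kernel))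
noncomputable def rh4022f56809afe20b : CRef := CRef.mk (Pat.mk 0x3c00000014 0x70000007f0000001c 4 7) 0 0 (step_sound _ 3 [(rh18965a982d73c794.shift 2 0), rhba89ab7cb81bcc90] (by decide +kernel))
noncomputable def rh5f0c231a26d4677a : CRef := CRef.mk (Pat.mk 0x2000000000000000e00000004 0x200000002000000030000003e00000007 4 6) 0 0 (step_sound _ 65 [(rh2145e1d24b96a57e.shift 1 0), rh9f93e2b24091a43d] (by decide +kernel))
noncomputable def rh361e5163f4e3dde9 : CRef := CRef.mk (Pat.mk 0x18000000380000000800000000 0xc0000000c0000000c000000180000003c0000000f00000004 4 6) 0 0 (step_sound _ 131 [rh322e79f034282812, (rh7b9fbdf6d2d059e4.shift 2 1)] (by decide +kernel))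
noncomputable def rh923bedb54c249860 : CRef := CRef.mk (Pat.mk 0x80000001c0000000c00000004 0x6000000060000000f0000001c0000000c0000000c 4 5) 0 0 (step_sound _ 98 [rh277b01412deaec89, (rh7b9fbdf6d2d059e4.shift 1 0), (rhfc7c29d8e65d775f.shift 2 0)] (by decide +kernel))
noncomputable def rh97336e2b123b307b : CRef := CRef.mk (Pat.mk 0x1c00000080000000020000000200000000 0x30000007f000000e7000000020000000200000002 4 8) 0 0 (step_sound _ 97 [(rh03238141166ed50f.shift 1 3), (rh155fa7b85b00c3f4.shift 1 0), (rh1da0b1a9875f0c00.shift 0 1)] (by decide +kernel))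
noncomputable def rh0efd964a4694c8da : CRef := CRef.mk (Pat.mk 0x600000006000000120000000200000000 0x20000000200000006000000060000001e0000000700000001 4 5) 0 0 (step_sound _ 32 [rh932754581e0f4330, (rhc4987603cda94696.shift 0 1)] (by decide +kernel))
noncomputable def rhde807367643436d4 : CRef := CRef.mk (Pat.mk 0x800000038000000080000000800000000 0x800000008000000380000001f0000000c00000004 4 6) 0 0 (step_sound _ 34 [(rh7cdab9d04a091ee9.shift 0 1), (rh932754581e0f4330.shift 2 0)] (by decide +kernel))
noncomputable def rh5e6da6f5b1e0c82f : CRef := CRef.mk (Pat.mk 0x700000004000000070000000200000000 0x10000000700000006000000070000001e0000000c 4 5) 0 0 (step_sound _ 97 [(rh50fbb5868c909700.shift 0 1), rhea41988f7b5d84ca] (by decide +kernel))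
noncomputable def rh26fd428daa97b787 : CRef := CRef.mk (Pat.mk 0x800000018000000080000000c00000000 0x800000008000000180000000f0000003c00000010 4 6) 0 0 (step_sound _ 66 [(rh5c5e593799055d58.shift 2 1), rh795ab08ece2a7e70] (by decide +kernel))
noncomputable def rh2df3579b0972037c : CRef := CRef.mk (Pat.mk 0x3000000120000000200000000 0x10000000100000001000000030000001f0000000200000002 4 5) 0 0 (step_sound _ 66 [(rh2fe78cc5ca4405d8.shift 0 2), rhf9a6286f1d5377a2] (by decide +kernel))
noncomputable def rh55b8fff06fd3e955 : CRef := CRef.mk (Pat.mk 0x220000002200000030000000050000000100000000 0x2200000032000000320000001f0000001100000010 4 6) 0 0 (step_sound _ 65 [(rh3c88ce959c0e423f.shift 0 1), (rhc4713ca36c943a51.shift 1 0)] (by decide +kernel))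
noncomputable def rhca003fc3e91a5ecd : CRef := CRef.mk (Pat.mk 0x400000000e00000001 0x600000003e00000073 4 7) 0 0 (step_sound _ 36 [rh80fcd6d0a18cb2dd, (rhc13dbb2602bbcc3a.shift 1 0)] (by decide +kernel))
noncomputable def rh48e942bb1296f20c : CRef := CRef.mk (Pat.mk 0xc0000001c0000000a00000000 0x4000000040000000f0000001e0000000e00000002 4 5) 0 0 (step_sound _ 130 [(rh2145e1d24b96a57e.shift 2 1), rh7d4361ae2019ee8a] (by decide +kernel))
noncomputable def rhcb9d2d3c1c03a5a3 : CRef := CRef.mk (Pat.mk 0xe000000180000000e0000000000000000 0x40000000e0000001b0000001e0000003300000010 4 6) 0 0 (step_sound _ 68 [(rh40bfdbfb16eaa264.shift 0 1), (rh78974448101547fe.shift 1 0)] (by decide +kernel))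
noncomputable def rh1d0fe99501a2f3ce : CRef := CRef.mk (Pat.mk 0x80000001a0000000e000000020000000000000000 0x30000000b0000001e0000000e000000060000000400000004 4 5) 0 0 (step_sound _ 66 [(rh55a1f6c57a317ce6.shift 1 0), (rh9dc6f17ef8893ffe.shift 0 2), (rhf9af042da61fc652.shift 2 0)] (by decide +kernel))
noncomputable def rhc6045640141cea3d : CRef := CRef.mk (Pat.mk 0x8000000080000001e000000000000000000000000 0x80000001b0000001e000000300000001000000010 4 6) 0 0 (step_sound _ 129 [(rh3244c3cc8379b070.shift 0 3), (rhd132b680030c88e0.shift 1 0)] (by decide +kernel))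
noncomputable def rhc1f1ae533ca3eb1e : CRef := CRef.mk (Pat.mk 0x40000000100000003000000010000000100000000 0x70000000700000003000000030000000300000002 4 3) 0 0 (step_sound _ 33 [rh55afc6a59410cf00, (rh8b83fcb45deae789.shift 0 1)] (by decide +kernel))
noncomputable def rh913b307903916f01 : CRef := CRef.mk (Pat.mk 0x180000001c0000000c 0x1f0000007f0000000c 4 7) 0 0 (step_sound _ 37 [(rh18965a982d73c794.shift 2 0), (rhbe5fc5902345a0b9.shift 0 1)] (by decide +kernel))
noncomputable def rh2a7fab4070057a4b : CRef := CRef.mk (Pat.mk 0x1c00000010000000140000000400000000 0x80000001c0000001f000000340000000400000004 4 6) 0 0 (step_sound _ 98 [(rh2f68792b6b779e96.shift 2 1), rhf9de3a27dc837f6e] (by decide +kernel))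
noncomputable def rh4878d65877923bf4 : CRef := CRef.mk (Pat.mk 0x20000001a0000000a0000000200000000 0x20000001f0000003e0000000300000001 4 6) 0 0 (step_sound _ 32 [(rh545b60c956bfd0d6.shift 0 1), rh932754581e0f4330] (by decide +kernel))
noncomputable def rh1808da1e54da954a : CRef := CRef.mk (Pat.mk 0x3000000060000000280000000800000000 0x10000000300000007000000078000000df00000058 4 8) 0 0 (step_sound _ 68 [(rhb7baffa3acbb3123.shift 3 0), (rhc9c4ae9ff9e4bb80.shift 2 0), (rhf0f55c4504412200.shift 0 1)] (by decide +kernel))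
noncomputable def rhffd74a4ae28208a9 : CRef := CRef.mk (Pat.mk 0x3000000120000000200000002000000020000000000000000 0x30000001e0000000600000002000000060000000600000004 4 5) 0 0 (step_sound _ 162 [(rh2fe78cc5ca4405d8.shift 0 5), (rh8c3839f9b9075f23.shift 1 0)] (by decide +kernel))
noncomputable def rh73b9bb010e52e87e : CRef := CRef.mk (Pat.mk 0x800000068000000280000000800000000 0x8000000680000003c0000001f00000004 4 7) 0 0 (step_sound _ 68 [(rh53b3c253cb0c65f4.shift 2 2), rh852e818bc8629e77] (by decide +kernel))
noncomputable def rha7445760dedd2f4f : CRef := CRef.mk (Pat.mk 0x800000018000000180000000000000004 0x80000001c0000001f0000003c00000014 4 6) 0 0 (step_sound _ 36 [(rh7b1f1fb55310c477.shift 3 0), rh91844a5e9775ae59] (by decide +kernel))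
noncomputable def rha525b2cd0382d64a : CRef := CRef.mk (Pat.mk 0x80000001800000018000000000000000400000000 0x80000001c0000001f000000340000001400000004 4 6) 0 0 (step_sound _ 68 [(rh7b1f1fb55310c477.shift 3 1), rhb673087e57e46634] (by decide +kernel))
noncomputable def rh41c74e6c0a42e997 : CRef := CRef.mk (Pat.mk 0x200000002000000020000000000000000f00000001 0x200000003000000030000000180000001f00000013 4 6) 0 0 (step_sound _ 36 [rh33b7ef7e7ab3e120, rh80fcd6d0a18cb2dd] (by decide +kernel))
noncomputable def rh175976049947b90e : CRef := CRef.mk (Pat.mk 0x2000000020000000000000000f00000000 0x2000000030000000180000001f00000038 4 6) 0 0 (step_sound _ 4 [rh479ad873722b48ad, rh96851dee118c1ba3] (by decide +kernel))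
noncomputable def rh67a45aff1ea551b3 : CRef := CRef.mk (Pat.mk 0x800000008000000040000000e00000000 0x8000000080000003e0000007f00000010 4 7) 0 0 (step_sound _ 67 [(rh36d4d92ef3dad5f8.shift 1 0), (rhf9d36e158778ce35.shift 0 1)] (by decide +kernel))
noncomputable def rh7e3a735964db830c : CRef := CRef.mk (Pat.mk 0x4000000000000001e00000008 0x400000006000000070000001e0000000b 4 5) 0 0 (step_sound _ 130 [rhc93f3ad81bc3b393, (rhff0f29cb645b05f7.shift 2 0)] (by decide +kernel))
noncomputable def rhb5fbd239a000a527 : CRef := CRef.mk (Pat.mk 0x20000000200000002000000020000001800000000 0x20000000200000002000000060000001f00000007 4 5) 0 0 (step_sound _ 34 [rh8b6aaf00be503b88, (rhd3458b32566d63f7.shift 1 1)] (by decide +kernel))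
noncomputable def rh3482ec0e1ecb7f35 : CRef := CRef.mk (Pat.mk 0x100000000000000060000000600000000 0x1000000030000000300000003000000070000000600000006 4 3) 0 0 (step_sound _ 97 [rh0dbc8abee7ad42d4, (rh3e595262c1b737ad.shift 1 0)] (by decide +kernel))
noncomputable def rh73f272a3392b1f45 : CRef := CRef.mk (Pat.mk 0x500000000000000020000001c00000000 0x500000007000000030000001e00000003 4 5) 0 0 (step_sound _ 33 [(rh3244c3cc8379b070.shift 0 1), rh4f9178be5dd8d55e] (by decide +kernel))
noncomputable def rh80a640509e94aeb8 : CRef := CRef.mk (Pat.mk 0x1c000000180000001800000006 0x30000001f0000001c0000003c00000006 4 6) 0 0 (step_sound _ 34 [(rh18965a982d73c794.shift 1 0), rh59b8ab533772ff61] (by decide +kernel))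
noncomputable def rha8c0be05041642b9 : CRef := CRef.mk (Pat.mk 0x180000001a0000000000000000 0x800000008000000180000001f0000003000000010 4 6) 0 0 (step_sound _ 66 [(rh53b3c253cb0c65f4.shift 0 2), (rhea719cc8bd0bdd28.shift 1 0)] (by decide +kernel))
noncomputable def rh4717434c66cc6827 : CRef := CRef.mk (Pat.mk 0x40000001e0000001a0000000800000000 0x70000001e0000001a0000000f00000003 4 5) 0 0 (step_sound _ 129 [(rh3244c3cc8379b070.shift 0 3), rha120299dea79bd91] (by decide +kernel))
noncomputable def rh77a67bf1f6025007 : CRef := CRef.mk (Pat.mk 0x1a00000006000000020000000000000000 0x200000006000000070000001e00000006000000060000000200000002 4 5) 0 0 (step_sound _ 130 [(rh84d1c02a8954c6a8.shift 1 1), (rhadf429772c25fde0.shift 1 0), (rhbdb8dfd08861fbf7.shift 0 2)] (by decide +kernel))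
noncomputable def rh3bde0bd801823f5c : CRef := CRef.mk (Pat.mk 0xc000000020000000200000002 0x1000000070000001f000000020000000200000002 4 5) 0 0 (step_sound _ 97 [(rh2f68792b6b779e96.shift 1 0), rh5cbe34a540eef4f6] (by decide +kernel))
noncomputable def rhab58eae299ce7b7b : CRef := CRef.mk (Pat.mk 0x100000000000000020000000600000004 0x1000000010000000300000003000000030000000600000006 4 3) 0 0 (step_sound _ 97 [rh0dbc8abee7ad42d4, (rh2145e1d24b96a57e.shift 1 0)] (by decide +kernel))
noncomputable def rhaf76838d9a78fff9 : CRef := CRef.mk (Pat.mk 0xc00000000000000380000000800000000 0x40000000c00000008000000380000001f00000004 4 6) 0 0 (step_sound _ 99 [(rh50fbb5868c909700.shift 2 1), rh852e818bc8629e77] (by decide +kernel))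
noncomputable def rhac392ddf8b7aad42 : CRef := CRef.mk (Pat.mk 0x40000000e000000180000001800000010 0x400000004000000060000000e0000001a0000001f00000032 4 6) 0 0 (step_sound _ 162 [(rh2145e1d24b96a57e.shift 2 2), rhed45b070ed1f03a6] (by decide +kernel))
noncomputable def rh03dc6678e49e2f26 : CRef := CRef.mk (Pat.mk 0x6000000000000001a00000010 0x400000006000000030000001e00000033 4 6) 0 0 (step_sound _ 34 [rh40bfdbfb16eaa264, (rhe25b0a99195a5d59.shift 1 0)] (by decide +kernel))
noncomputable def rhcc9b7f9cec94c987 : CRef := CRef.mk (Pat.mk 0x6000000180000001a00000000 0x40000000400000006000000060000001f0000001b00000002 4 5) 0 0 (step_sound _ 65 [(rh086f6046fa319626.shift 0 1), (rh215e11e099257d75.shift 1 0)] (by decide +kernel))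
noncomputable def rh2fb6a25f131e6388 : CRef := CRef.mk (Pat.mk 0x3c000000000000000200000002 0x30000003f000000070000000200000002 4 6) 0 0 (step_sound _ 65 [rh1da0b1a9875f0c00, (rh80fcd6d0a18cb2dd.shift 1 2)] (by decide +kernel))
noncomputable def rhf57aef432b6ec1e1 : CRef := CRef.mk (Pat.mk 0x20000000600000002000000040000000000000000 0x60000000600000002000000070000000700000001 4 3) 0 0 (step_sound _ 65 [(rh55afc6a59410cf00.shift 1 1), rh91a545eb3be094e3] (by decide +kernel))
noncomputable def rh55bd1d49f52856d6 : CRef := CRef.mk (Pat.mk 0x1a0000000e00000004 0xa0000000f0000001e0000000e00000004 4 5) 0 0 (step_sound _ 99 [rh2f32edc41b016dfb, (rh5c5e593799055d58.shift 2 0)] (by decide +kernel))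
noncomputable def rhd2b7f0ec558b2a82 : CRef := CRef.mk (Pat.mk 0x1a0000000600000006 0x70000000f0000001a0000000600000006 4 5) 0 0 (step_sound _ 97 [(rh2145e1d24b96a57e.shift 1 0), rh2f7aebebd7d680c3] (by decide +kernel))
noncomputable def rhaa9ac8a5d07cbbde : CRef := CRef.mk (Pat.mk 0xc000000180000001c0000000c00000000 0x20000000f0000001c0000001c0000000f00000002 4 5) 0 0 (step_sound _ 33 [(rh53b3c253cb0c65f4.shift 0 1), rhfb0ed1b59f16e7bb] (by decide +kernel))
noncomputable def rh05d37fbaec337859 : CRef := CRef.mk (Pat.mk 0x1a000000020000000200000002 0x50000000f0000001e000000020000000200000002 4 5) 0 0 (step_sound _ 129 [(rh2f7aebebd7d680c3.shift 0 1), (rh44f453b84f013105.shift 1 0), (rh5e05da03898e7023.shift 0 1)] (by decide +kernel))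
noncomputable def rhfd6c0d243878f96f : CRef := CRef.mk (Pat.mk 0x180000001e000000180000000000000000 0x180000001e0000001f0000003000000030 4 6) 0 0 (step_sound _ 65 [(rheb0810cc63b001d8.shift 0 2), (rhf43dfd17fa5ce038.shift 1 0)] (by decide +kernel))
noncomputable def rh51be11e2016289cc : CRef := CRef.mk (Pat.mk 0x2000000060000001a000000080000000000000000 0x400000006000000060000001a0000000f0000000700000004 4 5) 0 0 (step_sound _ 65 [(rh301a6b3a9154ed36.shift 1 0), (rha707fb719e87fe6e.shift 1 1), (rhabf42db7287f8a50.shift 0 1)] (by decide +kernel))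
noncomputable def rh5824808db832a621 : CRef := CRef.mk (Pat.mk 0x1000000050000000d000000070000000000000000 0x100000001000000050000000f0000001f0000001800000008 4 5) 0 0 (step_sound _ 97 [(rh2145e1d24b96a57e.shift 0 2), rh3f420d1be4b84cac] (by decide +kernel))
noncomputable def rh70c88061d19295ac : CRef := CRef.mk (Pat.mk 0x80000001a0000000a0000000000000000 0x80000001b0000001f0000003000000010 4 6) 0 0 (step_sound _ 66 [(rh53b3c253cb0c65f4.shift 0 2), rhb9784ff7a7632a57] (by decide +kernel))
noncomputable def rhde5b474548b482d7 : CRef := CRef.mk (Pat.mk 0x20000001a0000000a000000000000000000000000 0x2000000020000001a0000000f000000030000000100000001 4 5) 0 0 (step_sound _ 96 [(rh1c62b6193297d9e3.shift 0 3), rh281c6819542c66e6] (by decide +kernel))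
noncomputable def rhdd58f18b31870685 : CRef := CRef.mk (Pat.mk 0x1c00000018000000300000001000000000 0x1f0000001f000000300000003000000020 4 6) 0 0 (step_sound _ 37 [(rh55afc6a59410cf00.shift 4 0), (rhace16348de435294.shift 0 2)] (by decide +kernel))
noncomputable def rh552a0bb2e68ffa8c : CRef := CRef.mk (Pat.mk 0x400000002000000180000001c00000000 0x4000000060000001b0000001f00000003 4 5) 0 0 (step_sound _ 33 [(rh53b3c253cb0c65f4.shift 0 1), rh8273eedc182e6139] (by decide +kernel))
noncomputable def rhbb7ae24e47688dc2 : CRef := CRef.mk (Pat.mk 0x1000000010000000000000000800000038 0x1000000018000000080000000f0000007c 4 7) 0 0 (step_sound _ 99 [(rh04253f50b6dd0619.shift 3 0), rha9fbfd4bb8cf890b] (by decide +kernel))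
noncomputable def rhdb57bcbe4a84bd4b : CRef := CRef.mk (Pat.mk 0x200000002000000120000000200000000 0x2000000020000001e0000000f00000005 4 5) 0 0 (step_sound _ 34 [rh1975b59df13fe119, (rh55afc6a59410cf00.shift 1 0)] (by decide +kernel))
noncomputable def rh9fbe6440a5fd6b9c : CRef := CRef.mk (Pat.mk 0xc00000018000000020000001e00000000 0xf0000001f000000020000001e00000003 4 5) 0 0 (step_sound _ 1 [rhe4f9638036d9d0b9, rheb0810cc63b001d8] (by decide +kernel))
noncomputable def rh8e55015ec1d2de5d : CRef := CRef.mk (Pat.mk 0x700000006000000040000000600000000 0x10000000700000006000000070000003e00000008 4 6) 0 0 (step_sound _ 65 [rh36d4d92ef3dad5f8, (rh50fbb5868c909700.shift 0 1)] (by decide +kernel))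
noncomputable def rhd5a364a75d7e2018 : CRef := CRef.mk (Pat.mk 0x2000000000000000c0000001c0000000000000000 0x200000002000000020000000f0000001e0000000400000004 4 5) 0 0 (step_sound _ 97 [(rh0588d2c7f2cab5e9.shift 1 0), (rhb739f4f82bb681b4.shift 0 2)] (by decide +kernel))
noncomputable def rhddd42590a74ba97a : CRef := CRef.mk (Pat.mk 0x2000000000000000c0000001c0000000000000000 0x200000002000000060000000f0000001c0000000400000004 4 5) 0 0 (step_sound _ 97 [(rh28afc5b167f84184.shift 1 0), (rhb739f4f82bb681b4.shift 0 2)] (by decide +kernel))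
noncomputable def rh903bcc0673644d14 : CRef := CRef.mk (Pat.mk 0xc000000000000001a0000001800000000 0x40000000c000000080000001b0000001f00000004 4 5) 0 0 (step_sound _ 99 [rh114380420d2c6317, (rh50fbb5868c909700.shift 2 1)] (by decide +kernel))
noncomputable def rh5b2b4614291f6eec : CRef := CRef.mk (Pat.mk 0x1c000000000000000400000004 0xa0000003e000000070000000400000004 4 6) 0 0 (step_sound _ 66 [(rh2f68792b6b779e96.shift 2 0), rhe991b0a7f5491f5b] (by decide +kernel))
noncomputable def rh8275f95ea029efa2 : CRef := CRef.mk (Pat.mk 0x38000000000000000800000008 0x100000007c0000000f0000000800000008 4 7) 0 0 (step_sound _ 67 [(rh2820ca9a6c4f41b4.shift 0 2), (rh2f68792b6b779e96.shift 3 0)] (by decide +kernel))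
noncomputable def rha73137a1fd2de2a3 : CRef := CRef.mk (Pat.mk 0xe00000002000000020000000200000000 0x30000001e00000003000000030000000300000001 4 5) 0 0 (step_sound _ 132 [rhd9048603f1912b39, (rheb0810cc63b001d8.shift 0 3)] (by decide +kernel))
noncomputable def rh5c0d8bb27c0cb9b5 : CRef := CRef.mk (Pat.mk 0x8000000000000001a0000001800000000 0x800000008000000080000001b0000001f00000004 4 5) 0 0 (step_sound _ 99 [rh114380420d2c6317, (rh2145e1d24b96a57e.shift 3 1)] (by decide +kernel))
noncomputable def rhd75a7acf486622a5 : CRef := CRef.mk (Pat.mk 0x1a000000380000001c0000000000000000 0x1b0000003f0000007c0000006000000020 4 7) 0 0 (step_sound _ 98 [(rh3f420d1be4b84cac.shift 2 0), (rh5c36e97be8af272f.shift 0 3), (rhf56e6bc5d2f7fe77.shift 0 2)] (by decide +kernel))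
noncomputable def rh294cbd542416a599 : CRef := CRef.mk (Pat.mk 0x1c0000000c00000004 0xe0000000e0000000f0000001c0000000c00000004 4 5) 0 0 (step_sound _ 98 [rh039efe07c35de3d4, (rh2ddd6c94c59240f8.shift 2 0), (rh7b9fbdf6d2d059e4.shift 1 0)] (by decide +kernel))
noncomputable def rh5e5794ed45ae5668 : CRef := CRef.mk (Pat.mk 0x220000002600000036000000040000000000000000 0x2200000036000000360000001f0000001300000013 4 6) 0 0 (step_sound _ 65 [rh46530d756bdf8511, (rhc4713ca36c943a51.shift 1 0)] (by decide +kernel))
noncomputable def rhbf764494b74a9782 : CRef := CRef.mk (Pat.mk 0xc0000000c000000280000000c00000000 0xc0000000c0000003c0000001e00000013 4 6) 0 0 (step_sound _ 36 [(rh55afc6a59410cf00.shift 3 0), rhc2f471fc6ecada24] (by decide +kernel))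
noncomputable def rhe02964abf3a68a21 : CRef := CRef.mk (Pat.mk 0xa0000001a000000120000000600000000 0xa0000001a0000001a0000001f00000019 4 5) 0 0 (step_sound _ 32 [rh2786699d24a85bb3, rh932754581e0f4330] (by decide +kernel))
noncomputable def rhd1d2b52a1eea221e : CRef := CRef.mk (Pat.mk 0xc0000000c000000100000000600000010 0xc0000000c000000180000000f0000007c 4 7) 0 0 (step_sound _ 35 [rh00dff121ba7f8f65, rh3e9ad04b74812ebf, rh6aa0ed61cce1493b, (rhbcedfca2885d6e85.shift 2 0)] (by decide +kernel))
noncomputable def rhece6e0089c7424c3 : CRef := CRef.mk (Pat.mk 0x60000000f000000030000000200000000 0x60000000f0000001b0000001e0000000c 4 5) 0 0 (step_sound _ 34 [(rh55afc6a59410cf00.shift 1 0), rh82209b1a2ecb6f5a] (by decide +kernel))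
noncomputable def rhc24ef288f4895ae7 : CRef := CRef.mk (Pat.mk 0x1800000018000000080000000000000000 0x40000001f00000038000000080000000800000008 4 6) 0 0 (step_sound _ 35 [(rh71222050f2c63a3a.shift 3 0), (rhc647a25a08ddf0ec.shift 0 1)] (by decide +kernel))
noncomputable def rh1063862a70c9fa4f : CRef := CRef.mk (Pat.mk 0x8000000120000001600000014 0xa0000001e000000330000001600000014 4 6) 0 0 (step_sound _ 100 [(rh50fbb5868c909700.shift 3 0), rh93d30f8731c628d9] (by decide +kernel))
noncomputable def rhe18fc4146d3f3f2b : CRef := CRef.mk (Pat.mk 0x4000000090000000b0000000a 0x50000000f000000190000000f0000000a 4 5) 0 0 (step_sound _ 99 [(rh50fbb5868c909700.shift 2 0), rh75abbe0de1d0295d] (by decide +kernel))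
noncomputable def rhd04cc321ead33346 : CRef := CRef.mk (Pat.mk 0xc000000060000000020000005800000010 0xc8000000780000000f0000007800000010 4 8) 0 0 (step_sound _ 99 [(rh24ae073cf30720c4.shift 3 3), rhbed62d40be6f3488] (by decide +kernel))
noncomputable def rh477fdd9d2c1e98fc : CRef := CRef.mk (Pat.mk 0x4000000040000001c000000180000000000000000 0x4000000060000001f0000001b0000000200000002 4 5) 0 0 (step_sound _ 97 [(rhb739f4f82bb681b4.shift 0 2), rhd1474a84c69f0140] (by decide +kernel))
noncomputable def rhc247f2d7a10544ae : CRef := CRef.mk (Pat.mk 0x80000000a0000000a0000000800000000 0x80000000b0000001f0000003800000010 4 6) 0 0 (step_sound _ 36 [(rh55afc6a59410cf00.shift 3 0), (rha6815d932d68a32b.shift 0 1)] (by decide +kernel))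
noncomputable def rh683a190b8388b625 : CRef := CRef.mk (Pat.mk 0x20000000200000002000000060000000100000000 0x100000003000000030000000200000006000000060000000300000001 4 3) 0 0 (step_sound _ 33 [(rh5bd4bc0c2c48140c.shift 0 2), rh932754581e0f4330] (by decide +kernel))
noncomputable def rhabaa648d2bc9d61c : CRef := CRef.mk (Pat.mk 0x8000000080000000a0000000800000000 0x8000000080000000f0000007c00000010 4 7) 0 0 (step_sound _ 36 [(rh174a767562f03570.shift 0 1), (rh55afc6a59410cf00.shift 3 0)] (by decide +kernel))
noncomputable def rh3792a85d7f7b8435 : CRef := CRef.mk (Pat.mk 0x80000000a0000000a0000000800000000 0x10000000380000001e0000000b0000000800000008 4 6) 0 0 (step_sound _ 132 [(rh2f68792b6b779e96.shift 3 1), rh86bf295edf98b8a4] (by decide +kernel))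
noncomputable def rhea9bbcda97f27418 : CRef := CRef.mk (Pat.mk 0xc0000000a0000000a0000000a00000000 0xc0000001e0000000b0000001e0000000c 4 5) 0 0 (step_sound _ 34 [rh3131a22afb1e86f5, (rh932754581e0f4330.shift 2 0)] (by decide +kernel))
noncomputable def rhbaa32f624ded3670 : CRef := CRef.mk (Pat.mk 0xa0000001800000018000000700000000000000000 0x40000000f0000001800000018000000780000000c00000008 4 7) 0 0 (step_sound _ 162 [(rh27cd0def69443735.shift 2 0), (rhb739f4f82bb681b4.shift 0 4)] (by decide +kernel))
noncomputable def rh25f78a9683db91c3 : CRef := CRef.mk (Pat.mk 0x60000000c0000000120000001300000010 0x800000078000000c80000001e0000001b00000010 4 8) 0 0 (step_sound _ 131 [rha14d89f7e476d729, (rhab22b5b56e7b3243.shift 3 3)] (by decide +kernel))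
noncomputable def rh6ab6ad00a9f3d737 : CRef := CRef.mk (Pat.mk 0x4000000180000000b0000000a00000002 0x50000000f000000190000000b0000000b00000002 4 5) 0 0 (step_sound _ 131 [(rh50fbb5868c909700.shift 2 1), rhc9e04fae2bb2ac37] (by decide +kernel))
noncomputable def rhb9f0dbea8af93d44 : CRef := CRef.mk (Pat.mk 0x400000003e00000000 0xc0000000ff0000001c 4 8) 0 0 (step_sound _ 38 [(rh33e738c4ed385b9f.shift 3 1), rhb2e80ecb3a9bff29] (by decide +kernel))
noncomputable def rh610ac9a8eb925710 : CRef := CRef.mk (Pat.mk 0x20000000e0000000c 0x30000007e0000007c 4 7) 0 0 (step_sound _ 5 [(rh2fe78cc5ca4405d8.shift 1 0), rh6156b8b951a564ae] (by decide +kernel))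
noncomputable def rh11c83eeba4b864ca : CRef := CRef.mk (Pat.mk 0x2000000520000001300000010 0x8000000080000000f0000007e0000001b00000010 4 7) 0 0 (step_sound _ 67 [rh58d498e90c2a8584, (rhb2a0b9ccfb5cecd5.shift 0 1)] (by decide +kernel))
noncomputable def rhb02183d07db8479b : CRef := CRef.mk (Pat.mk 0x2000000018000000100000001e00000004 0x20000000320000001e000000130000001e00000004 4 6) 0 0 (step_sound _ 132 [(rh2f68792b6b779e96.shift 4 1), rhf0ee8fbc2a8fb7fd] (by decide +kernel))
noncomputable def rhd8f7bc1ffea72a9a : CRef := CRef.mk (Pat.mk 0x80000000c0000000a0000000200000000 0x40000000c0000000c0000000b0000001e0000001c 4 5) 0 0 (step_sound _ 35 [rh11a243992b58ed44, (rhe286c75f2739cce2.shift 2 0)] (by decide +kernel))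
noncomputable def rhf54eb268e673aa4b : CRef := CRef.mk (Pat.mk 0x10000000300000001000000010000000000000000 0x1000000030000000300000003000000030000000300000001 4 2) 0 0 (step_sound _ 65 [rh27d46029b79b5417, (rh55afc6a59410cf00.shift 0 1)] (by decide +kernel))
noncomputable def rh17a37d30d4d1a3d7 : CRef := CRef.mk (Pat.mk 0x200000002000000020000000200000002 0x3000000030000000700000006000000060000000600000002 4 3) 0 0 (step_sound _ 161 [(rh1f01239ae2eb1687.shift 1 0), (rh3ca48e2a6d60153d.shift 0 1)] (by decide +kernel))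
noncomputable def rh319bffbb0603e240 : CRef := CRef.mk (Pat.mk 0x200000002000000020000000a00000018 0x1000000030000000300000002000000030000000f00000018 4 5) 0 0 (step_sound _ 160 [rhaaa1a39a7240885f, (rhffd04209dc8ea796.shift 0 1)] (by decide +kernel))
noncomputable def rh89e4109e269109fd : CRef := CRef.mk (Pat.mk 0x1000000010000000100000001c00000000 0x1000000010000000300000003e00000027 4 6) 0 0 (step_sound _ 37 [(rh55afc6a59410cf00.shift 4 0), rh55c4ed4acec0f063] (by decide +kernel))
noncomputable def rh0095f0d853411769 : CRef := CRef.mk (Pat.mk 0x2000000020000001a0000000200000000 0x400000006000000020000001a0000000f00000005 4 5) 0 0 (step_sound _ 130 [(rh2f68792b6b779e96.shift 1 1), rh36e6bb6cca6188da] (by decide +kernel))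
noncomputable def rh65abb25e6451d760 : CRef := CRef.mk (Pat.mk 0x4000000600000000c0000001c00000000 0x4000000640000003c0000001f00000003 4 7) 0 0 (step_sound _ 68 [(rh3fc040e777f1679e.shift 2 2), rhb0453f21e70803bf] (by decide +kernel))
noncomputable def rh88ed6743a006af60 : CRef := CRef.mk (Pat.mk 0xf000000000000002000000020 0x380000003f000000300000002000000020 4 6) 0 0 (step_sound _ 132 [(rh17301a1fc5baa461.shift 1 0), (rh428265de8cd3cd2d.shift 0 3)] (by decide +kernel))
noncomputable def rhb1e7e9b89e1378a4 : CRef := CRef.mk (Pat.mk 0x1c0000000400000006 0xa0000000e0000000f0000001c0000000600000006 4 5) 0 0 (step_sound _ 98 [rh039efe07c35de3d4, (rh9a369cb82ea472da.shift 1 0), (rhe62cab2ff5ad6fe2.shift 1 0)] (by decide +kernel))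
noncomputable def rh6ed79afb053e7d95 : CRef := CRef.mk (Pat.mk 0x3000000360000002600000020 0x160000001e00000013000000360000003600000020 4 6) 0 0 (step_sound _ 129 [(rh2145e1d24b96a57e.shift 1 1), rhc670820df3c06b83] (by decide +kernel))
noncomputable def rh5bbb42b4dd96b3c7 : CRef := CRef.mk (Pat.mk 0x60000001e000000060000000000000000 0x60000001e0000003e0000000300000003 4 6) 0 0 (step_sound _ 33 [rh2cc2854bb928dcfb, (rh71222050f2c63a3a.shift 1 0)] (by decide +kernel))
noncomputable def rh49aee9455fa90a86 : CRef := CRef.mk (Pat.mk 0x30000000600000002000000000000000000000000 0x1000000070000000600000002000000030000000300000001 4 3) 0 0 (step_sound _ 65 [(rh50fbb5868c909700.shift 0 2), rh91a545eb3be094e3] (by decide +kernel))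
noncomputable def rh20b1b26cebdc24cf : CRef := CRef.mk (Pat.mk 0x20000001e000000020000000200000000 0x20000001f0000003e0000000300000001 4 6) 0 0 (step_sound _ 68 [rh7281bae95fecfb4c, (rhe25b0a99195a5d59.shift 1 2)] (by decide +kernel))
noncomputable def rhf0e41d6fe90b727a : CRef := CRef.mk (Pat.mk 0x800000001e00000000 0xe00000007e00000007 4 8) 0 0 (step_sound _ 1 [(rh0efba8540849bf1a.shift 1 0), rheb0810cc63b001d8] (by decide +kernel))
noncomputable def rh3e2531436cb70ef7 : CRef := CRef.mk (Pat.mk 0x800000001e 0xe70000007e 4 8) 0 0 (step_sound _ 33 [(rh06f87a331c7e5d9a.shift 1 0), rh3244c3cc8379b070] (by decide +kernel))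
noncomputable def rh70191dc3e851f633 : CRef := CRef.mk (Pat.mk 0x180000000c0000000000000006000000040000000000000000 0x1a0000000f0000000200000006000000060000000400000004 4 5) 0 0 (step_sound _ 161 [(rh0588d2c7f2cab5e9.shift 1 0), (rh53b3c253cb0c65f4.shift 0 5)] (by decide +kernel))
noncomputable def rh318c6514c4b07af1 : CRef := CRef.mk (Pat.mk 0x2000000060000001a000000000000000000000000 0x200000006000000060000001e000000070000000600000002 4 5) 0 0 (step_sound _ 98 [(rh55a1f6c57a317ce6.shift 1 1), rh9a011a4d0ec8f646] (by decide +kernel))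
noncomputable def rh0fcb228d13e9ff47 : CRef := CRef.mk (Pat.mk 0x4000000060000000c0000000800000000 0x4000000060000003f0000003b00000002 4 6) 0 0 (step_sound _ 68 [rh6ba96611d07a8138, (rhf48373e13d2bc128.shift 1 2)] (by decide +kernel))
noncomputable def rhc04b850ee3af86a8 : CRef := CRef.mk (Pat.mk 0x4000000000000000e00000008 0x400000004000000040000001f00000078 4 7) 0 0 (step_sound _ 66 [(rh2145e1d24b96a57e.shift 2 0), rh8ee80cc30e93a344] (by decide +kernel))
noncomputable def rh596def3aae05c2e3 : CRef := CRef.mk (Pat.mk 0x100000001000000038000000000000000000000000 0x10000000180000007c0000000f0000000800000008 4 7) 0 0 (step_sound _ 67 [(rh2820ca9a6c4f41b4.shift 0 2), (rhf9af042da61fc652.shift 3 0)] (by decide +kernel))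
noncomputable def rh6dd26613a1ae639b : CRef := CRef.mk (Pat.mk 0x400000000f00000000 0x700000003f00000038 4 7) 0 0 (step_sound _ 4 [(rh58068df83cc971eb.shift 1 0), rh96851dee118c1ba3] (by decide +kernel))
noncomputable def rh7655e1d834265650 : CRef := CRef.mk (Pat.mk 0x2000000000000001e0000000000000000 0x200000002000000030000001e0000000700000004 4 5) 0 0 (step_sound _ 97 [(rh3244c3cc8379b070.shift 0 2), rhc65f5dc89ddae11a] (by decide +kernel))
noncomputable def rh3b10f7c9e6b72717 : CRef := CRef.mk (Pat.mk 0x4000000020000001e0000000000000000 0x600000006000000020000001e0000000700000004 4 5) 0 0 (step_sound _ 33 [(rh4dec404a6c0e229a.shift 1 0), (rheb0810cc63b001d8.shift 0 1)] (by decide +kernel))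
noncomputable def rh9c4c5c988c3e824f : CRef := CRef.mk (Pat.mk 0x1e0000000a000000080000000800000000 0x30000001e0000000e0000000e0000000c00000004 4 5) 0 0 (step_sound _ 161 [(rh3244c3cc8379b070.shift 0 4), (rha825774af78ab731.shift 1 0)] (by decide +kernel))
noncomputable def rh0f7120a7b28fa607 : CRef := CRef.mk (Pat.mk 0x32000000020000000200000002 0x740000003e000000030000000200000002 4 7) 0 0 (step_sound _ 98 [(rh2f68792b6b779e96.shift 1 0), (rhd2c2708d43735168.shift 0 2)] (by decide +kernel))
noncomputable def rh2c5fdec6afa469ec : CRef := CRef.mk (Pat.mk 0x1c0000000c0000000800000010 0x800000008000000080000001c0000000f0000001c00000010 4 5) 0 0 (step_sound _ 65 [(rh53b3c253cb0c65f4.shift 0 2), (rh7475811764a812de.shift 2 0)] (by decide +kernel))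
noncomputable def rhacc6bd57f7d8409e : CRef := CRef.mk (Pat.mk 0x20000000200000002000000020000000a0000000000000000 0x20000000200000002000000060000001f0000000300000001 4 5) 0 0 (step_sound _ 32 [rh603ed58715ad6e7b, (rh79877ebd3ef475dd.shift 0 1)] (by decide +kernel))
noncomputable def rhf7a0a7e6b12e15c2 : CRef := CRef.mk (Pat.mk 0x10000001a00000002000000020000000200000000 0x40000000f0000001a00000002000000060000000600000004 4 5) 0 0 (step_sound _ 34 [(rh55afc6a59410cf00.shift 1 0), (rhec43fd55e50e0ef0.shift 0 1)] (by decide +kernel))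
noncomputable def rh3bbd61c3f937e3ba : CRef := CRef.mk (Pat.mk 0x400000004000000140000000600000000 0x400000004000000370000003e00000008 4 6) 0 0 (step_sound _ 35 [(rh55afc6a59410cf00.shift 2 0), (rhca6a4af813f68cee.shift 0 1)] (by decide +kernel))
noncomputable def rh6d5dd99310f86b92 : CRef := CRef.mk (Pat.mk 0x20000000600000012000000000000000000000000 0x20000000200000006000000060000001e000000070000000700000002 4 5) 0 0 (step_sound _ 98 [rh37e540d481210cc1, (rh55a1f6c57a317ce6.shift 1 1), (rhc2c7bae8f445c890.shift 1 1)] (by decide +kernel))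
noncomputable def rh6aa1e08010d2d040 : CRef := CRef.mk (Pat.mk 0x4000000000000001e0000000200000000 0x600000006000000030000001e0000000600000004 4 5) 0 0 (step_sound _ 97 [(rh3244c3cc8379b070.shift 0 2), (rh4dec404a6c0e229a.shift 1 0)] (by decide +kernel))
noncomputable def rhe3fe8fd3078f590f : CRef := CRef.mk (Pat.mk 0x1a000000020000000600000000 0x50000000f0000001a000000020000000600000004 4 5) 0 0 (step_sound _ 129 [(rh2f7aebebd7d680c3.shift 0 1), (rh55afc6a59410cf00.shift 1 0)] (by decide +kernel))
noncomputable def rh8f74ab5cf507d7a5 : CRef := CRef.mk (Pat.mk 0x380000001c0000000400000002 0x770000003f0000001c0000000600000002 4 7) 0 0 (step_sound _ 98 [(rhba89ab7cb81bcc90.shift 0 2), (rhe25191970535449e.shift 0 2), (rhf5e2c347e50c6617.shift 1 0)] (by decide +kernel))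
noncomputable def rh3470fcd67ff81181 : CRef := CRef.mk (Pat.mk 0x60000000300000003000000000000000000000000 0x4000000060000000300000003000000060000000600000006 4 3) 0 0 (step_sound _ 65 [(rh2f68792b6b779e96.shift 1 2), rh820d4e04d5dcd02e] (by decide +kernel))
noncomputable def rhb232fadadcf6cde8 : CRef := CRef.mk (Pat.mk 0x38000000080000001800000000 0x40000001f00000038000000080000001800000010 4 6) 0 0 (step_sound _ 131 [(rh55afc6a59410cf00.shift 3 0), (rh79905f95cb2d899a.shift 0 1)] (by decide +kernel))
noncomputable def rhddfc9ff189dc5aa0 : CRef := CRef.mk (Pat.mk 0x4000000000000001e0000000000000000 0x400000004000000060000001e0000000700000002 4 5) 0 0 (step_sound _ 33 [(rhb29f2a2dc5c2e536.shift 1 0), (rheb0810cc63b001d8.shift 0 1)] (by decide +kernel))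
noncomputable def rh3c03db1b8548c01f : CRef := CRef.mk (Pat.mk 0x1a0000000300000003 0x70000000f0000001a0000000300000003 4 5) 0 0 (step_sound _ 97 [rh330a005829cdd297, rh5c5e593799055d58] (by decide +kernel))
noncomputable def rh8966ae1067be186a : CRef := CRef.mk (Pat.mk 0x400000004000000400000000e00000000 0x400000004000000740000003e00000003 4 7) 0 0 (step_sound _ 1 [rh0fa62796f4844f7a, (rh3c88ce959c0e423f.shift 1 0)] (by decide +kernel))
noncomputable def rhcf217803b01e13b7 : CRef := CRef.mk (Pat.mk 0x1c0000001c000000080000000800000000 0x30000001f0000001c0000000c0000000c00000004 4 5) 0 0 (step_sound _ 129 [(rhb739f4f82bb681b4.shift 0 3), rhf53ee62ce7c07a09] (by decide +kernel))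
noncomputable def rhbf86953346e76381 : CRef := CRef.mk (Pat.mk 0x2000000020000000200000001 0x5000000070000000700000002000000020000000300000001 4 3) 0 0 (step_sound _ 129 [rh79877ebd3ef475dd, (rh7ef5fa5c39f1c762.shift 0 1)] (by decide +kernel))
noncomputable def rh5d0ec3add0332eba : CRef := CRef.mk (Pat.mk 0x2000000070000000100000003800000000 0x20000000700000003f000000fc000000c0 4 8) 0 0 (step_sound _ 67 [(rh23bcc2d6a6c0f37c.shift 3 0), (rh79b3c29022acbdf3.shift 2 1), (rha9fbfd4bb8cf890b.shift 0 1), (rheea1a90336e79c71.shift 1 2)] (by decide +kernel))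
noncomputable def rhba38a9dc25b1541b : CRef := CRef.mk (Pat.mk 0x1a00000002000000020000000200000000 0x1000000030000001e00000002000000060000000600000004 4 5) 0 0 (step_sound _ 34 [(rh111b2aed802e4bf1.shift 0 1), (rh55afc6a59410cf00.shift 1 0)] (by decide +kernel))
noncomputable def rh7d762c380b7df881 : CRef := CRef.mk (Pat.mk 0x1a000000020000000200000002 0x500000007000000070000001e000000020000000200000002 4 5) 0 0 (step_sound _ 129 [(rh44f453b84f013105.shift 1 0), (rh5e05da03898e7023.shift 0 1), (rh7ef5fa5c39f1c762.shift 0 1)] (by decide +kernel))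
noncomputable def rhd8ec223adb5076fe : CRef := CRef.mk (Pat.mk 0x40000000700000001000000010000000000000000 0x70000000700000003000000030000000300000002 4 3) 0 0 (step_sound _ 32 [(rh2f68792b6b779e96.shift 0 1), rh7c2892a6d7112911] (by decide +kernel))
noncomputable def rh3f069944e50c0cbf : CRef := CRef.mk (Pat.mk 0x40000000700000004000000000000000000000000 0x400000004000000070000003e0000000c0000000800000008 4 6) 0 0 (step_sound _ 99 [(rh70e33bfdf511e144.shift 2 0), (rh89ade209b3e28f13.shift 0 3)] (by decide +kernel))
noncomputable def rh57a06b43e72703e1 : CRef := CRef.mk (Pat.mk 0x2000000060000000300000000 0x4000000060000000600000002000000060000000700000001 4 3) 0 0 (step_sound _ 129 [(rh14f80659e6313cc6.shift 1 1), rh932754581e0f4330] (by decide +kernel))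
noncomputable def rha75e145a5bcea259 : CRef := CRef.mk (Pat.mk 0x38000000180000001c 0x800000008000000380000001f0000001f 4 6) 0 0 (step_sound _ 99 [(rh2145e1d24b96a57e.shift 3 0), rh87fb4af8316b9600] (by decide +kernel))
noncomputable def rhd78948c5f384d80f : CRef := CRef.mk (Pat.mk 0x180000007800000000 0x180000007f000000e7 4 8) 0 0 (step_sound _ 34 [(rh4ad5fc38f1b69f65.shift 2 0), rhcc2be1f880c5ea3e] (by decide +kernel))
noncomputable def rh66def040f105496b : CRef := CRef.mk (Pat.mk 0x1000000030000000100000001 0x2000000030000000300000003000000030000000300000003 4 2) 0 0 (step_sound _ 128 [(rh14f80659e6313cc6.shift 0 1), rh44f453b84f013105, rhd4b4beefcd67f51e] (by decide +kernel))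
noncomputable def rh1854c49e6a99a323 : CRef := CRef.mk (Pat.mk 0x380000001800000008 0x4000000040000000f0000003f0000001f00000008 4 6) 0 0 (step_sound _ 66 [(rh1c1037cb5b3fe471.shift 1 0), (rhb14e2588a8d71db8.shift 0 1), (rhba89ab7cb81bcc90.shift 0 1), (rhe4f9133a81c1dbc5.shift 1 0)] (by decide +kernel))
noncomputable def rha812867386aecac6 : CRef := CRef.mk (Pat.mk 0x1e000000020000000000000000 0x2000000030000003e000000060000000400000004 4 6) 0 0 (step_sound _ 129 [(rh3244c3cc8379b070.shift 0 3), (rh9ba4ddb3bd4a337d.shift 1 0)] (by decide +kernel))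
noncomputable def rh8d68598c2ad98dab : CRef := CRef.mk (Pat.mk 0x800000001c00000000 0xe00000007e00000077 4 8) 0 0 (step_sound _ 37 [(rh45e9dfbd6bd5d256.shift 2 1), rh8195a2d7794c7cd2] (by decide +kernel))
noncomputable def rha4cf3550c7ace5e4 : CRef := CRef.mk (Pat.mk 0x380000001a00000008 0x4000000040000000e0000003f0000001b00000008 4 6) 0 0 (step_sound _ 66 [(rh1c1037cb5b3fe471.shift 1 0), (rh710860539a4c4362.shift 0 1)] (by decide +kernel))
noncomputable def rhad4824d27d262a1c : CRef := CRef.mk (Pat.mk 0x4000000000000000e000000100000000000000000 0x400000004000000040000000f0000001c0000000800000008 4 5) 0 0 (step_sound _ 67 [(rh0588d2c7f2cab5e9.shift 2 0), (rhb739f4f82bb681b4.shift 0 2)] (by decide +kernel))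
noncomputable def rh9c86531250686527 : CRef := CRef.mk (Pat.mk 0x200000002000000060000000000000000 0x1000000030000000300000002000000070000000700000001 4 3) 0 0 (step_sound _ 161 [rh0c1c1b53bc5a1510, (rh55afc6a59410cf00.shift 1 1)] (by decide +kernel))
noncomputable def rh84d61bfb0e115296 : CRef := CRef.mk (Pat.mk 0x1000000001e00000000 0x1c7000000fe000000e0 4 9) 0 0 (step_sound _ 37 [(rh16c2b5900981f814.shift 2 0), (rhd5eb272e07a4e288.shift 0 1)] (by decide +kernel))
noncomputable def rh969492b52b32ccec : CRef := CRef.mk (Pat.mk 0x4000000440000000e00000000 0x400000004000000740000003e00000003 4 7) 0 0 (step_sound _ 1 [rh0fa62796f4844f7a, (rh5c5e593799055d58.shift 1 0)] (by decide +kernel))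
noncomputable def rh28ddb368dec7d952 : CRef := CRef.mk (Pat.mk 0x1000000020000000600000002 0x40000000700000007000000020000000600000006 4 3) 0 0 (step_sound _ 97 [(rh14f80659e6313cc6.shift 1 0), rh50fbb5868c909700] (by decide +kernel))
noncomputable def rh0375dd3a773d8ee2 : CRef := CRef.mk (Pat.mk 0xa0000000e0000000200000002000000000000000000000000 0xa0000000e0000000600000006000000070000000700000001 4 4) 0 0 (step_sound _ 65 [(rha171e17c78ad84df.shift 1 1), rha8bc3cae4d77a08f, (rhd29a1fb688eae70f.shift 1 1)] (by decide +kernel))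
noncomputable def rh3f8564bdea790926 : CRef := CRef.mk (Pat.mk 0x800000000e00000002 0xe00000007e00000007 4 8) 0 0 (step_sound _ 36 [(rh0efba8540849bf1a.shift 1 0), rheb0810cc63b001d8] (by decide +kernel))
noncomputable def rh42c212064b599c2b : CRef := CRef.mk (Pat.mk 0x4000000040000001e000000000000000000000000 0x4000000040000001f0000003c0000000800000008 4 6) 0 0 (step_sound _ 68 [rh5bb33c923daa4a63, (rhe25b0a99195a5d59.shift 1 2)] (by decide +kernel))
noncomputable def rh99c9c024d4aac679 : CRef := CRef.mk (Pat.mk 0x200000003000000010000000080000000c 0x2000000030000000100000007c0000001f 4 7) 0 0 (step_sound _ 36 [rh0bb882ba86b2372d, (rh71222050f2c63a3a.shift 4 0)] (by decide +kernel))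
noncomputable def rhe0a09114c3afcda3 : CRef := CRef.mk (Pat.mk 0x40000001c000000050000000400000000 0x40000001c0000000f0000003e00000008 4 6) 0 0 (step_sound _ 35 [(rh2366e5c1b90b7ba0.shift 0 1), (rh55afc6a59410cf00.shift 2 0)] (by decide +kernel))
noncomputable def rh3225c20e49536112 : CRef := CRef.mk (Pat.mk 0x1000000030000000140000001c00000002 0x80000001e00000034000000140000001e00000003 4 6) 0 0 (step_sound _ 33 [(rh36f3c046739e754d.shift 1 0), rheb0810cc63b001d8] (by decide +kernel))
noncomputable def rh2f7ff4e16e8026d2 : CRef := CRef.mk (Pat.mk 0x800000018000000080000000c00000000 0x800000008000000180000000f0000003c00000010 4 6) 0 0 (step_sound _ 66 [rh4892b0043cb46d74, (rh5c5e593799055d58.shift 2 1)] (by decide +kernel))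
noncomputable def rh708bc64a570577a3 : CRef := CRef.mk (Pat.mk 0x180000000c0000000c00000000 0x800000008000000180000000f0000003c00000010 4 6) 0 0 (step_sound _ 65 [(rh53b3c253cb0c65f4.shift 0 2), (rh8af73b7df2d2ba44.shift 1 0)] (by decide +kernel))
noncomputable def rh1f6db40266a7e837 : CRef := CRef.mk (Pat.mk 0x180000003800000000 0x18000000ff000000e7 4 8) 0 0 (step_sound _ 34 [(rh0cb6a409506b34ea.shift 2 0), rhcc2be1f880c5ea3e] (by decide +kernel))
noncomputable def rh01ce93e43e99afcb : CRef := CRef.mk (Pat.mk 0xc0000000c000000040000000c00000000 0x40000000c0000000c0000003c0000000f00000002 4 6) 0 0 (step_sound _ 67 [(rh50fbb5868c909700.shift 2 1), rha71afc656c87d410] (by decide +kernel))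
noncomputable def rhed57d1a6d4db2db6 : CRef := CRef.mk (Pat.mk 0xf00000004 0x380000003f00000007 4 6) 0 0 (step_sound _ 68 [(rh428265de8cd3cd2d.shift 0 1), rh7d1eb0a2ac11b171] (by decide +kernel))
noncomputable def rh0edd3afef6b5d7e0 : CRef := CRef.mk (Pat.mk 0x1e00000000 0x3e00000077 4 7) 0 0 (step_sound _ 1 [(rh4274f4328cb9f3fd.shift 1 0), rheb0810cc63b001d8] (by decide +kernel))
noncomputable def rh80d989ad9265e9fa : CRef := CRef.mk (Pat.mk 0x40000001e000000000000000400000000 0x70000001e000000030000000600000006 4 5) 0 0 (step_sound _ 129 [rh057b4130fe0cd6b1, (rh3244c3cc8379b070.shift 0 3)] (by decide +kernel))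
noncomputable def rh0a74f7641db5049f : CRef := CRef.mk (Pat.mk 0x100000007c00000000 0x1c0000007f00000007 4 7) 0 0 (step_sound _ 1 [rh6706206e08ecae9d, (rh80fcd6d0a18cb2dd.shift 1 0)] (by decide +kernel))
noncomputable def rh4ac2b63e4dd76562 : CRef := CRef.mk (Pat.mk 0x400000006000000010000000300000000 0x200000002000000020000000700000007000000030000000300000001 4 3) 0 0 (step_sound _ 129 [rh04329c1703284133, rh2738edcf84b3bede, (rha95399fea6cf73c4.shift 0 1), rhd918c3fd221dc9f8] (by decide +kernel))
noncomputable def rhcbe3bcc99153c2ad : CRef := CRef.mk (Pat.mk 0x3800000018000000060000000400000000 0xf0000003f0000001c000000060000000600000002 4 6) 0 0 (step_sound _ 130 [(rh59b8ab533772ff61.shift 0 1), (rh7522337cc24a4bff.shift 1 0), (rhba89ab7cb81bcc90.shift 0 3)] (by decide +kernel))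
noncomputable def rh8f27166e94cf51dc : CRef := CRef.mk (Pat.mk 0x60000000300000003000000000000000000000000 0x4000000060000000300000003000000030000000300000003 4 3) 0 0 (step_sound _ 32 [(rh9e3edb185cc347de.shift 0 1), rhc6b4e1276619034d] (by decide +kernel))
noncomputable def rha0cb3bbe8e8f737b : CRef := CRef.mk (Pat.mk 0x40000001e000000000000000000000000 0x4000000060000001e000000070000000200000002 4 5) 0 0 (step_sound _ 65 [(rheb0810cc63b001d8.shift 0 2), (rhf91b1398c815afd2.shift 1 0)] (by decide +kernel))
noncomputable def rh0b4976d2378ba76d : CRef := CRef.mk (Pat.mk 0x1a00000038000000080000000000000000 0x80000001b0000003f0000000f0000000400000004 4 6) 0 0 (step_sound _ 98 [(rh5c36e97be8af272f.shift 0 3), (rha1a532725e6ae333.shift 1 0), (rhcc2be1f880c5ea3e.shift 0 2)] (by decide +kernel))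
noncomputable def rhf35c99f515e747aa : CRef := CRef.mk (Pat.mk 0x30000000120000001e0000000000000000 0x4000000340000001e0000001e0000000300000002 4 6) 0 0 (step_sound _ 33 [(rhbdaf6b9afdad88f0.shift 1 0), (rheb0810cc63b001d8.shift 0 1)] (by decide +kernel))
noncomputable def rh63108cb551ec9b6e : CRef := CRef.mk (Pat.mk 0x8000000080000001e0000000000000004 0xa0000000f0000001e0000000700000004 4 5) 0 0 (step_sound _ 97 [rh2cfa6fcfa42c7f33, (rh3244c3cc8379b070.shift 0 2)] (by decide +kernel))
noncomputable def rh564b17f6250b4475 : CRef := CRef.mk (Pat.mk 0x20000007c00000000 0x3000000ff00000038 4 8) 0 0 (step_sound _ 33 [(rh3244c3cc8379b070.shift 0 1), rhe68627a77ac15289] (by decide +kernel))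
noncomputable def rhe819de87439f0195 : CRef := CRef.mk (Pat.mk 0x4000000440000000e0000000000000000 0x4000000770000003e0000000300000002 4 7) 0 0 (step_sound _ 68 [(rh45e9dfbd6bd5d256.shift 1 2), rhae036cc4ef671676, (rhe3060b190bc0bc78.shift 0 2)] (by decide +kernel))
noncomputable def rh81b70a595835fc77 : CRef := CRef.mk (Pat.mk 0x4000000060000000000000003000000000000000000000000 0x6000000060000000300000003000000030000000100000001 4 3) 0 0 (step_sound _ 129 [(rh71222050f2c63a3a.shift 1 2), rhfafeb437ceb8396d] (by decide +kernel))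
noncomputable def rh9f8260404b4a157e : CRef := CRef.mk (Pat.mk 0xd0000000e00000000 0xf0000007e00000070 4 7) 0 0 (step_sound _ 36 [(rh0cb6a409506b34ea.shift 1 0), (rh3f8766e6ecb455ce.shift 0 1)] (by decide +kernel))
noncomputable def rh701fef53c6222f22 : CRef := CRef.mk (Pat.mk 0x400000006000000180000001800000000 0x4000000060000001f0000003f00000002 4 6) 0 0 (step_sound _ 65 [rhcd4eff53da13612e, (rhcd6baf37b3e5de21.shift 0 1), rhd37c20d84762fac4] (by decide +kernel))
noncomputable def rh27583648a5859718 : CRef := CRef.mk (Pat.mk 0x2000000020000000600000006000000000000000000000000 0x100000003000000030000000600000006000000030000000300000003 4 3) 0 0 (step_sound _ 65 [(rh3ca48e2a6d60153d.shift 0 2), rh46530d756bdf8511] (by decide +kernel))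
noncomputable def rh48d5fcc0b87ffc25 : CRef := CRef.mk (Pat.mk 0x80000000c000000070000000200000000 0x40000000c0000000c000000070000001e0000000c 4 5) 0 0 (step_sound _ 34 [rh121397a93ef3afd3, (rh71222050f2c63a3a.shift 2 0)] (by decide +kernel))
noncomputable def rh3b6b218b1a1ae36f : CRef := CRef.mk (Pat.mk 0xc0000000c000000030000000200000000 0x40000000c0000000c000000070000001e0000000c 4 5) 0 0 (step_sound _ 66 [(rh5c5e593799055d58.shift 1 1), rhdc33407c88564b07] (by decide +kernel))
noncomputable def rhbfcc80f4b5225353 : CRef := CRef.mk (Pat.mk 0x100000001a0000000e00000004 0xa0000001f0000001b0000000e00000004 4 5) 0 0 (step_sound _ 99 [rh2505e37b28f90391, (rh5c5e593799055d58.shift 2 0)] (by decide +kernel))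
noncomputable def rhba2f5aa16a65f4be : CRef := CRef.mk (Pat.mk 0x80000000e0000001e000000000000000000000000 0x80000000e0000001e000000070000000600000006 4 5) 0 0 (step_sound _ 34 [rh057b4130fe0cd6b1, (rh9e3edb185cc347de.shift 2 1)] (by decide +kernel))
noncomputable def rh72340e602a6d535e : CRef := CRef.mk (Pat.mk 0x600000006000000030000000600000000 0x600000006000000070000001f00000019 4 5) 0 0 (step_sound _ 32 [rh23bcc2d6a6c0f37c, rh932754581e0f4330] (by decide +kernel))
noncomputable def rh7c5c9e3d7752e57e : CRef := CRef.mk (Pat.mk 0x600000006000000030000000200000000 0x20000000600000006000000070000001e0000000c 4 5) 0 0 (step_sound _ 34 [(rh55afc6a59410cf00.shift 1 0), rhc8a06f5deb37ed16] (by decide +kernel))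
noncomputable def rh97fe789148a6d7cb : CRef := CRef.mk (Pat.mk 0x70000000300000000400000008 0x1000000010000000780000003c0000001f00000008 4 7) 0 0 (step_sound _ 67 [(rh53b3c253cb0c65f4.shift 2 2), rh96217b139f91615f] (by decide +kernel))
noncomputable def rh93ae72e16f3e6ebe : CRef := CRef.mk (Pat.mk 0x200000006000000060000000000000001 0x3000000030000000300000006000000060000000300000001 4 3) 0 0 (step_sound _ 33 [rh79877ebd3ef475dd, (rh7b9fbdf6d2d059e4.shift 0 1)] (by decide +kernel))
noncomputable def rh67d25839cc1d1ea5 : CRef := CRef.mk (Pat.mk 0xc000000040000001c0000000c 0x120000003e000000370000001c0000000c 4 6) 0 0 (step_sound _ 97 [rh32e1d3c95004e2c1, (rh50fbb5868c909700.shift 1 0)] (by decide +kernel))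
noncomputable def rhc6a4b01c5e5b47a7 : CRef := CRef.mk (Pat.mk 0x1e000000180000000200000004 0xb0000001e0000001c0000000f00000004 4 5) 0 0 (step_sound _ 129 [(rh3244c3cc8379b070.shift 0 3), rh718561a92fdb3b64] (by decide +kernel))
noncomputable def rh06e4bec717d21e8c : CRef := CRef.mk (Pat.mk 0x200000003c00000018000000020000000400000000 0x20000000200000002c0000003c000000180000000f0000000c00000008 4 6) 0 0 (step_sound _ 197 [(rh5c5e593799055d58.shift 4 3), rh980bb75dbe12bee9] (by decide +kernel))
noncomputable def rhc80c82864fed3735 : CRef := CRef.mk (Pat.mk 0x1c000000180000000200000004 0x30000001f0000001b0000000600000004 4 5) 0 0 (step_sound _ 97 [(rhb739f4f82bb681b4.shift 0 2), rhc39ef2ee82f227a8] (by decide +kernel))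
noncomputable def rhde061a0c3cca9b80 : CRef := CRef.mk (Pat.mk 0x2000000020000000200000004 0x5000000070000000700000002000000020000000600000004 4 3) 0 0 (step_sound _ 129 [(rh7ef5fa5c39f1c762.shift 0 1), (rhd3458b32566d63f7.shift 1 0)] (by decide +kernel))
noncomputable def rhbb4d2dd95b6c151e : CRef := CRef.mk (Pat.mk 0x10000000180000000300000007000000020000000000000000 0x10000000180000000b0000001f0000001a0000000200000002 4 5) 0 0 (step_sound _ 33 [(rh18300c7b4da4a157.shift 0 2), rh7b1f1fb55310c477] (by decide +kernel))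
noncomputable def rheebe8ab979afbd72 : CRef := CRef.mk (Pat.mk 0x800000010000000180000001800000000 0x800000018000000380000001f00000014 4 6) 0 0 (step_sound _ 99 [rh6fae963f33cfdfd7, (rh7b1f1fb55310c477.shift 3 0)] (by decide +kernel))
noncomputable def rh6290225f7e481854 : CRef := CRef.mk (Pat.mk 0x200000012000000020000000200000000 0x1000000070000001f000000020000000200000002 4 5) 0 0 (step_sound _ 128 [rh41aa209c6ce1e2c5, (rh50fbb5868c909700.shift 0 1)] (by decide +kernel))
noncomputable def rh7c620dc4e2b65334 : CRef := CRef.mk (Pat.mk 0x7000000050000000100000000 0x2000000020000000600000007000000050000000500000005 4 3) 0 0 (step_sound _ 129 [rh71222050f2c63a3a, rhf71cb1a94bedb48c] (by decide +kernel))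
noncomputable def rh496ab4f0459a0ee9 : CRef := CRef.mk (Pat.mk 0x19000000010000000100000002 0x2000000030000001f000000010000000300000003 4 5) 0 0 (step_sound _ 128 [rha67bf539dc855cea, rhd3458b32566d63f7] (by decide +kernel))
noncomputable def rh35c52047b207528b : CRef := CRef.mk (Pat.mk 0x120000001a0000000200000000 0x400000004000000060000001f0000001b0000000200000002 4 5) 0 0 (step_sound _ 98 [(rh215e11e099257d75.shift 1 0), (rh3883177b4ab4119d.shift 0 2)] (by decide +kernel))
noncomputable def rh625e024e534c5ee6 : CRef := CRef.mk (Pat.mk 0x18000000180000000e0000000c 0x60000001f0000001b0000000e0000000c 4 5) 0 0 (step_sound _ 98 [(rh50fbb5868c909700.shift 2 0), rhc5170405e20c2ff6] (by decide +kernel))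
noncomputable def rh1392220268a7a143 : CRef := CRef.mk (Pat.mk 0x180000000a0000000c00000000 0x800000008000000180000000f0000003c00000010 4 6) 0 0 (step_sound _ 66 [(rh53b3c253cb0c65f4.shift 0 2), (rh8af73b7df2d2ba44.shift 1 0)] (by decide +kernel))
noncomputable def rhf5756da00139facb : CRef := CRef.mk (Pat.mk 0x830000000c 0xe70000007e 4 8) 0 0 (step_sound _ 4 [(rh06f87a331c7e5d9a.shift 1 0), rh09d4dfe75d4407d6] (by decide +kernel))
noncomputable def rh319c8c97ed2d5682 : CRef := CRef.mk (Pat.mk 0x1000000018000000000000000e00000000 0x1000000018000000080000001f00000078 4 7) 0 0 (step_sound _ 3 [(rh04253f50b6dd0619.shift 3 0), rh8ee80cc30e93a344] (by decide +kernel))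
noncomputable def rhd5979d9ced4acd89 : CRef := CRef.mk (Pat.mk 0x4000000040000000e00000000 0x400000004000000040000001f00000078 4 7) 0 0 (step_sound _ 3 [(rh2145e1d24b96a57e.shift 2 0), rh8ee80cc30e93a344] (by decide +kernel))
noncomputable def rh61043f70763267c4 : CRef := CRef.mk (Pat.mk 0x2000000120000000200000002 0x50000000f0000001e0000000200000002 4 5) 0 0 (step_sound _ 96 [rh50fbb5868c909700, rh794dbc5fabb61407] (by decide +kernel))
noncomputable def rh01b78e5ef59799ae : CRef := CRef.mk (Pat.mk 0x800000008000000080000001800000000 0x800000008000000080000000f0000003c00000004 4 6) 0 0 (step_sound _ 34 [(rh25903f9c548d38bc.shift 0 1), (rh932754581e0f4330.shift 2 0)] (by decide +kernel))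
noncomputable def rh7e2e28d96720284e : CRef := CRef.mk (Pat.mk 0x2000000320000000200000002 0x50000000f0000003e0000000200000002 4 6) 0 0 (step_sound _ 98 [(rh2f68792b6b779e96.shift 1 0), rhe099e41d5ec1fc1c] (by decide +kernel))
noncomputable def rh120e7ef9a8a5b2b5 : CRef := CRef.mk (Pat.mk 0x1c000000080000001c0000000c00000000 0x7c0000000e0000001c0000000f00000002 4 7) 0 0 (step_sound _ 33 [(rh35c3eb2315b5a0d0.shift 1 0), (rh53b3c253cb0c65f4.shift 0 1)] (by decide +kernel))
noncomputable def rh49c84b78421e0bb2 : CRef := CRef.mk (Pat.mk 0x400000004000000040000000600000000 0x40000000400000004000000070000003e00000008 4 6) 0 0 (step_sound _ 35 [(rh365a543efd1956a6.shift 0 1), (rh55afc6a59410cf00.shift 2 0)] (by decide +kernel))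
noncomputable def rh28122285637fe30b : CRef := CRef.mk (Pat.mk 0x10000000380000001800000008 0x4000000040000003e0000003f0000001800000008 4 6) 0 0 (step_sound _ 66 [(rh1c1037cb5b3fe471.shift 1 0), (rh34517e326ddb5b25.shift 0 1)] (by decide +kernel))
noncomputable def rhd88b01da517454f7 : CRef := CRef.mk (Pat.mk 0x800000038000000080000000800000000 0x40000001f00000038000000080000000c00000004 4 6) 0 0 (step_sound _ 34 [(rh79905f95cb2d899a.shift 0 1), (rh932754581e0f4330.shift 2 0)] (by decide +kernel))
noncomputable def rh67e7a1b48b08f3dd : CRef := CRef.mk (Pat.mk 0x380000001c0000000000000000 0x4000000770000003f0000001c0000000800000008 4 7) 0 0 (step_sound _ 98 [(rh38a0850c9fea941e.shift 1 0), (rhba89ab7cb81bcc90.shift 0 2), (rhe25191970535449e.shift 0 2)] (by decide +kernel))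
noncomputable def rh3c662dd0b2d81b5b : CRef := CRef.mk (Pat.mk 0x1e000000080000000000000004 0x30000007e0000000e0000000400000004 4 7) 0 0 (step_sound _ 129 [(rh1649dfcd93c5241d.shift 1 0), (rh3244c3cc8379b070.shift 0 3)] (by decide +kernel))
noncomputable def rh9b3a2aca8b56d34f : CRef := CRef.mk (Pat.mk 0x1e00000008000000080000000800000000 0xb0000001e0000000c0000000c0000000c00000004 4 5) 0 0 (step_sound _ 34 [(rh8e4017b60595db60.shift 0 1), (rh932754581e0f4330.shift 2 0)] (by decide +kernel))
noncomputable def rh0a0469db70299055 : CRef := CRef.mk (Pat.mk 0x380000001800000008 0x400000004000000070000003f0000001f00000008 4 6) 0 0 (step_sound _ 66 [(rh768a472a1ebe455c.shift 1 0), (rhb14e2588a8d71db8.shift 0 1), (rhba89ab7cb81bcc90.shift 0 1)] (by decide +kernel))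
noncomputable def rh9f1e47db95aa257e : CRef := CRef.mk (Pat.mk 0xc0000001c0000000c00000004 0x10000000320000003e0000001f0000000c00000004 4 6) 0 0 (step_sound _ 97 [(rh39a35a40b02cae73.shift 0 1), (rh50fbb5868c909700.shift 1 0)] (by decide +kernel))
noncomputable def rhea0adcb6e73c687a : CRef := CRef.mk (Pat.mk 0x50000000f0000000600000002 0x8000000190000001f0000000f0000000600000002 4 5) 0 0 (step_sound _ 97 [rh50fbb5868c909700, (rh5c91976553e30c5f.shift 0 1)] (by decide +kernel))
noncomputable def rh58a247e0069b3379 : CRef := CRef.mk (Pat.mk 0xd0000000f000000070000000000000000 0x80000001a0000000f0000000f000000070000000100000001 4 5) 0 0 (step_sound _ 163 [(rh5c5e593799055d58.shift 2 2), rhf0741a49c22e0ac5] (by decide +kernel))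
noncomputable def rh67e600e1a8caac9c : CRef := CRef.mk (Pat.mk 0xe00000041 0x700000003e00000063 4 7) 0 0 (step_sound _ 36 [(rh1a48baf448afc5e7.shift 1 0), rh80fcd6d0a18cb2dd] (by decide +kernel))
noncomputable def rh229d4058478c1b5f : CRef := CRef.mk (Pat.mk 0x1000000018000000180000000800000000 0x80000000c0000001f000000380000001c0000000c00000004 4 6) 0 0 (step_sound _ 131 [(rh925a1628dd8a50da.shift 2 0), (rhc647a25a08ddf0ec.shift 0 1)] (by decide +kernel))
noncomputable def rh6e840e952c9e7627 : CRef := CRef.mk (Pat.mk 0x10000000380000001c00000008 0x4000000370000003f0000001c00000008 4 6) 0 0 (step_sound _ 66 [(rh309fd0c3d364cd61.shift 1 0), (rh34517e326ddb5b25.shift 0 1), (rhba89ab7cb81bcc90.shift 0 1)] (by decide +kernel))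
noncomputable def rh9458e878ee940312 : CRef := CRef.mk (Pat.mk 0x100000001a000000060000000000000000 0x2000000330000001e000000060000000400000004 4 6) 0 0 (step_sound _ 98 [(rh33e738c4ed385b9f.shift 1 3), rh38a0850c9fea941e] (by decide +kernel))
noncomputable def rhcbec6b940adb7d73 : CRef := CRef.mk (Pat.mk 0x4000000360000002700000020 0x12000000120000001e000000360000003700000021 4 6) 0 0 (step_sound _ 97 [(rh23625f181fa295a9.shift 1 0), rh37d9ceebb86d75d1] (by decide +kernel))
noncomputable def rh415420bd363bb86f : CRef := CRef.mk (Pat.mk 0x1800000008000000600000004000000040 0x200000007c0000002f000000600000006000000040 4 7) 0 0 (step_sound _ 133 [(rh2820ca9a6c4f41b4.shift 0 3), (rhdf6eda84f2eabc48.shift 5 0)] (by decide +kernel))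
noncomputable def rhdbc8f3062b44c359 : CRef := CRef.mk (Pat.mk 0x1a000000880000001c 0x1e000000ef0000007e 4 8) 0 0 (step_sound _ 33 [(rh06f87a331c7e5d9a.shift 1 0), rh9aee5df5f4cb88e2, (rhda02c4ce0b224328.shift 0 1)] (by decide +kernel))
noncomputable def rhb5a5b9d9db627df0 : CRef := CRef.mk (Pat.mk 0xf0000000e00000002 0xc0000000c0000001c0000000f0000000e00000002 4 5) 0 0 (step_sound _ 130 [(rh4d8d614e03a7f6ad.shift 0 1), (rhee230b994cc8b773.shift 1 0)] (by decide +kernel))
noncomputable def rh218cb5b453957506 : CRef := CRef.mk (Pat.mk 0x400000036000000260000002200000000 0x12000000120000001e00000036000000370000002300000001 4 6) 0 0 (step_sound _ 129 [(rh23625f181fa295a9.shift 1 1), rh925a1628dd8a50da] (by decide +kernel))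
noncomputable def rhe6005a450c383c5e : CRef := CRef.mk (Pat.mk 0x10000000380000001800000008 0x400000004000000360000003f0000001c00000008 4 6) 0 0 (step_sound _ 66 [(rh34517e326ddb5b25.shift 0 1), (rh768a472a1ebe455c.shift 1 0)] (by decide +kernel))
noncomputable def rh6e737295f0bdfd68 : CRef := CRef.mk (Pat.mk 0x1a0000001e0000000c 0x12000000330000001e0000001e0000000c 4 6) 0 0 (step_sound _ 100 [(rh5c5e593799055d58.shift 3 0), rhdab0e6f012231ab6] (by decide +kernel))
noncomputable def rh40dd3ea875ee1f04 : CRef := CRef.mk (Pat.mk 0xe000000180000000c0000000000000000 0x4000000060000000e0000001c0000000f0000000600000004 4 5) 0 0 (step_sound _ 65 [(rh53b3c253cb0c65f4.shift 0 2), (rhf9418118d8a61ed7.shift 1 0)] (by decide +kernel))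
noncomputable def rhdc564b97248c4913 : CRef := CRef.mk (Pat.mk 0x80000001c000000060000000000000000 0x20000003b0000001f000000060000000400000004 4 6) 0 0 (step_sound _ 34 [(rh71222050f2c63a3a.shift 2 0), (rhc39ffe1a68d3ccd8.shift 0 1)] (by decide +kernel))
noncomputable def rh8e0a1be6c40a7b0d : CRef := CRef.mk (Pat.mk 0xc0000001c00000008 0x10000000300000003f0000001f00000008 4 6) 0 0 (step_sound _ 65 [rh39a35a40b02cae73, (rhb739f4f82bb681b4.shift 0 1)] (by decide +kernel))
noncomputable def rhf37f78650509d0e7 : CRef := CRef.mk (Pat.mk 0x10000000380000001c00000000 0x400000004000000370000003f0000001c00000008 4 6) 0 0 (step_sound _ 66 [(rh34517e326ddb5b25.shift 0 1), (rhba89ab7cb81bcc90.shift 0 1), (rhbdb8dfd08861fbf7.shift 1 0)] (by decide +kernel))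
noncomputable def rh2a7392229ba373dd : CRef := CRef.mk (Pat.mk 0x400000032000000230000002200000000 0x10000000120000001e00000032000000330000002300000001 4 6) 0 0 (step_sound _ 129 [rh03dfdf12d5937476, (rh23625f181fa295a9.shift 1 1)] (by decide +kernel))
noncomputable def rhadd49fb35924efaf : CRef := CRef.mk (Pat.mk 0x18000000180000001c0000000600000000 0x20000003f0000001f0000001c0000000600000002 4 6) 0 0 (step_sound _ 98 [(rh34517e326ddb5b25.shift 0 2), rh63481a5b9557685c] (by decide +kernel))
noncomputable def rh618ec59bff92b68e : CRef := CRef.mk (Pat.mk 0x80000001c0000000c0000000400000000 0x60000000f0000001c0000000f0000000600000002 4 5) 0 0 (step_sound _ 65 [(rh53b3c253cb0c65f4.shift 0 2), rhd4ae1995e458b8b0] (by decide +kernel))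
noncomputable def rh6876d7ccbebe604d : CRef := CRef.mk (Pat.mk 0x160000000600000002 0x200000007000000070000001e0000000600000006 4 5) 0 0 (step_sound _ 98 [(rh5c5e593799055d58.shift 1 0), rh8e4d738d72204634] (by decide +kernel))
noncomputable def rh91d0cd1c31ad60a6 : CRef := CRef.mk (Pat.mk 0x1600000006000000020000000200000000 0x200000003000000030000001e00000006000000060000000300000001 4 5) 0 0 (step_sound _ 32 [(rh8e4d738d72204634.shift 0 2), rh932754581e0f4330] (by decide +kernel))
noncomputable def rh59c20af28c07bdd5 : CRef := CRef.mk (Pat.mk 0x1c00000018000000180000000600000000 0x7c0000003f0000001f0000000600000002 4 7) 0 0 (step_sound _ 98 [(rh2612b4f73ba7c3b3.shift 1 3), rh46af0760dcab1b05, rhf455a135017a3282] (by decide +kernel))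
noncomputable def rh84bcff23bdb1974c : CRef := CRef.mk (Pat.mk 0x40000001c0000001c0000000800000000 0x2000000060000003c0000001c0000000f00000002 4 6) 0 0 (step_sound _ 129 [rh09d7875afd1d8601, (rhf48373e13d2bc128.shift 1 3)] (by decide +kernel))
noncomputable def rhdaadb9593e85f33a : CRef := CRef.mk (Pat.mk 0xe0000000c0000001800000004 0x30000003e0000000f0000001c00000004 4 6) 0 0 (step_sound _ 65 [rh81bbffadf94eb391, (rhb739f4f82bb681b4.shift 0 1)] (by decide +kernel))
noncomputable def rh60b8081e2dd2d3a6 : CRef := CRef.mk (Pat.mk 0x1a0000000e00000006 0xb0000000f0000001a0000000e00000006 4 5) 0 0 (step_sound _ 99 [rh543d12d1ce2f400c, (rh5c5e593799055d58.shift 2 0)] (by decide +kernel))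
noncomputable def rh499de316127b99d6 : CRef := CRef.mk (Pat.mk 0x8000000000000001c00000018 0x1800000018000000300000001f00000018 4 6) 0 0 (step_sound _ 33 [(rh4d8d614e03a7f6ad.shift 1 0), rhb739f4f82bb681b4] (by decide +kernel))
noncomputable def rh46d6183566ef1216 : CRef := CRef.mk (Pat.mk 0x30000000600000006000000000000000000000000 0x1000000030000000600000006000000030000000300000003 4 3) 0 0 (step_sound _ 65 [rh46530d756bdf8511, (rh50fbb5868c909700.shift 0 2)] (by decide +kernel))
noncomputable def rh58e6d0ca13cfa9ea : CRef := CRef.mk (Pat.mk 0x20000001a0000000a0000000000000000 0x2000000020000001b0000000f0000000300000001 4 5) 0 0 (step_sound _ 64 [(rh1c62b6193297d9e3.shift 0 2), rh9a1c12e64abc044e] (by decide +kernel))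
noncomputable def rhd0cc8472445c30dd : CRef := CRef.mk (Pat.mk 0x1e000000180000000800000004 0x30000001e0000001e0000000f00000004 4 5) 0 0 (step_sound _ 129 [rh2785d65cae5f9a52, (rh3244c3cc8379b070.shift 0 3)] (by decide +kernel))
noncomputable def rha5c3be8085bb5a37 : CRef := CRef.mk (Pat.mk 0x1800000008000000180000001800000000 0x40000001f00000038000000180000001800000008 4 6) 0 0 (step_sound _ 100 [(rh932754581e0f4330.shift 3 0), (rhc647a25a08ddf0ec.shift 0 1)] (by decide +kernel))
noncomputable def rh2d37945fbf6eddc9 : CRef := CRef.mk (Pat.mk 0x20000001c000000040000000000000000 0x2000000030000001e000000070000000400000004 4 5) 0 0 (step_sound _ 97 [(rh3244c3cc8379b070.shift 0 3), rhc33175bd4b4703fe] (by decide +kernel))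
noncomputable def rh0439fe1776192bec : CRef := CRef.mk (Pat.mk 0x100000006000000060000000200000000 0x2000000030000000300000006000000070000000300000001 4 3) 0 0 (step_sound _ 129 [(rh50fbb5868c909700.shift 0 1), rh925a1628dd8a50da] (by decide +kernel))
noncomputable def rh2e3891c714c60516 : CRef := CRef.mk (Pat.mk 0xc00000008000000380000000000000000 0x40000000c00000008000000380000001f00000004 4 6) 0 0 (step_sound _ 35 [(rh50fbb5868c909700.shift 2 1), rh852e818bc8629e77] (by decide +kernel))
end Crest.Agent.S0047.Helper85.Cert
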