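import Crest.Agent.Lib.S0047.Helper85CertPL3F0
import Crest.Agent.Lib.S0047.Helper85CertPL3F1
import Crest.Agent.Lib.S0047.Helper85CertPL3F2
import Crest.Agent.Lib.S0047.Helper85CertPL3F3
import Crest.Agent.Lib.S0047.Helper85CertPL3F4
import Crest.Agent.Lib.S0047.Helper85CertPL3F5
set_option autoImplicit false
set_option linter.all false
set_option Elab.async false
namespace Crest.Agent.S0047.Helper85.Cert
open Crest.Agent.S0047.Helper85

noncomputable def rh1acd7c8ef3e0031d : CRef := CRef.mk (Pat.mk 0x1e000000000000000200000000 0x4000000070000003e000000020000000200000002 4 6) 0 0 (step_sound _ 129 [(rh3244c3cc8379b070.shift 0 3), (rh61e27c8d1b2b4b1f.shift 1 0)] (by decide +kernel))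
noncomputable def rhb7844097d09c85bb : CRef := CRef.mk (Pat.mk 0x4000000340000001c0000000800000000 0x2000000060000003c0000001c0000000f00000002 4 6) 0 0 (step_sound _ 129 [rh09d7875afd1d8601, (rh5419adcd928dba20.shift 1 3)] (by decide +kernel))
noncomputable def rh931de0aafb3a2d56 : CRef := CRef.mk (Pat.mk 0x800000028000000000000001000000010 0x1f00000078000000100000001000000010 4 7) 0 0 (step_sound _ 100 [(rh2613c889e411427e.shift 3 0), (rhf60aa8aede119d3b.shift 0 3)] (by decide +kernel))
noncomputable def rh65ec91fb56e0d823 : CRef := CRef.mk (Pat.mk 0x600000034000000180000000800000000 0x200000006000000340000001e0000000f00000002 4 6) 0 0 (step_sound _ 66 [rh09d7875afd1d8601, (rh53b3c253cb0c65f4.shift 1 2)] (by decide +kernel))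
noncomputable def rh98c4fd04b3f5448e : CRef := CRef.mk (Pat.mk 0x1800000018000000000000000c00000000 0x40000001f00000038000000080000000c00000004 4 6) 0 0 (step_sound _ 67 [(rh932754581e0f4330.shift 2 0), (rhc647a25a08ddf0ec.shift 0 1)] (by decide +kernel))
noncomputable def rh35a0970f257c7e59 : CRef := CRef.mk (Pat.mk 0x3000000180000000200000000 0x10000000100000001000000030000001f0000000200000002 4 5) 0 0 (step_sound _ 65 [(rh5419adcd928dba20.shift 0 2), rhf9a6286f1d5377a2] (by decide +kernel))
noncomputable def rh3e1cfd1006139d22 : CRef := CRef.mk (Pat.mk 0x14000000300000001c000000000000000000000000 0x4000000360000003f0000001c0000000c0000000800000008 4 6) 0 0 (step_sound _ 130 [(rh38146ff2d053a047.shift 0 3), (rh70e33bfdf511e144.shift 2 0)] (by decide +kernel))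
noncomputable def rh086cb5958a3298b1 : CRef := CRef.mk (Pat.mk 0x7000000040000000700000000 0x2000000020000000300000007000000070000000700000001 4 3) 0 0 (step_sound _ 129 [rh00d6a6e3c7e3bb40, (rhe072fffdd2fccf38.shift 1 1), rhecb97fed8c7f1286] (by decide +kernel))
noncomputable def rhf4da0a6d018278ef : CRef := CRef.mk (Pat.mk 0x100000003800000008 0x1000000010000000100000007c0000000f 4 7) 0 0 (step_sound _ 100 [rh2820ca9a6c4f41b4, (rh5c5e593799055d58.shift 3 0)] (by decide +kernel))
noncomputable def rh56e4e454e4507d2a : CRef := CRef.mk (Pat.mk 0x40000000e000000000000000200000000 0x70000003e000000030000000200000002 4 6) 0 0 (step_sound _ 65 [(rh71222050f2c63a3a.shift 1 0), (rha83d0a1d851c6a27.shift 0 2)] (by decide +kernel))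
noncomputable def rhdfed4ebb0eb54f43 : CRef := CRef.mk (Pat.mk 0x380000001800000018 0xc0000000f0000003c0000001800000018 4 6) 0 0 (step_sound _ 99 [(rh2145e1d24b96a57e.shift 3 0), rh53509d91ff78ed56] (by decide +kernel))
noncomputable def rh05732d937c59a6d1 : CRef := CRef.mk (Pat.mk 0x80000003800000018000000000000000000000000 0x40000000f0000003c000000180000000c0000000c0000000c 4 6) 0 0 (step_sound _ 67 [(rh46530d756bdf8511.shift 2 0), (rh53509d91ff78ed56.shift 0 2)] (by decide +kernel))
noncomputable def rhf1229802d62f0ca4 : CRef := CRef.mk (Pat.mk 0x40000000c0000001c000000080000000000000000 0xc0000000c0000001c0000000f0000000600000006 4 5) 0 0 (step_sound _ 66 [(rh1e309b005ffa1b36.shift 2 0), (rh46530d756bdf8511.shift 1 0), (rhf5094ad2a427d4d3.shift 0 1)] (by decide +kernel))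
noncomputable def rh4fff2e1bc9425bbf : CRef := CRef.mk (Pat.mk 0x200000002000000800000001c00000000 0x20000000200000002000000e70000007f00000003 4 8) 0 0 (step_sound _ 65 [(rh06f87a331c7e5d9a.shift 1 1), rh848cc2cf8b37f7fe, (rhc9ca25976740a074.shift 1 1)] (by decide +kernel))
noncomputable def rh90af220f5f37e8a7 : CRef := CRef.mk (Pat.mk 0x20000001200000006000000060000000000000000 0x1000000070000001e00000006000000060000000200000002 4 5) 0 0 (step_sound _ 160 [rh0ba6c1112f8869be, (rh50fbb5868c909700.shift 0 2)] (by decide +kernel))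
noncomputable def rh5fb2fb5dd7a56f8b : CRef := CRef.mk (Pat.mk 0x200000007000000040000000700000000 0xc0000001e00000007000000060000000700000001 4 5) 0 0 (step_sound _ 65 [rh932754581e0f4330, (rhf9b9d723e110efd6.shift 0 1)] (by decide +kernel))
noncomputable def rh18e23c62acf1522d : CRef := CRef.mk (Pat.mk 0x20000001200000003000000000000000000000000 0x2000000020000001f00000003000000010000000100000001 4 5) 0 0 (step_sound _ 130 [(rh361cc68994bd8a63.shift 0 3), rhfafeb437ceb8396d] (by decide +kernel))
noncomputable def rha90cf224e1c1419c : CRef := CRef.mk (Pat.mk 0x100000005000000300000002200000022 0x10000000110000001f000000320000003200000022 4 6) 0 0 (step_sound _ 97 [(rh23625f181fa295a9.shift 1 0), rh2613c889e411427e] (by decide +kernel))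
noncomputable def rhfb70e015e1f6e042 : CRef := CRef.mk (Pat.mk 0x10000000e00000040 0x730000003e00000060 4 7) 0 0 (step_sound _ 36 [(rh1a48baf448afc5e7.shift 1 0), (rh3f8766e6ecb455ce.shift 0 1)] (by decide +kernel))
noncomputable def rhd079f97860062e85 : CRef := CRef.mk (Pat.mk 0xa0000001c0000000c0000000000000000 0x20000000e0000001e0000000f0000000400000004 4 5) 0 0 (step_sound _ 34 [(rh6b8b4586e78cebb8.shift 0 1), (rh71222050f2c63a3a.shift 2 0)] (by decide +kernel))
noncomputable def rhbe4b7eb4a8283e95 : CRef := CRef.mk (Pat.mk 0xe000000180000000e00000000 0x10000000330000001e0000001b0000000e00000004 4 6) 0 0 (step_sound _ 100 [(rh5421160f8e9bcf07.shift 1 1), rh71bbb00ef1ecd8fb] (by decide +kernel))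
noncomputable def rh0d2b701d57c77b87 : CRef := CRef.mk (Pat.mk 0x20000000e0000001a0000000800000000 0x400000004000000060000000e0000001e0000000b00000003 4 5) 0 0 (step_sound _ 130 [(rh84d1c02a8954c6a8.shift 1 1), (rhe072fffdd2fccf38.shift 2 1), rhe58a7845769190f3] (by decide +kernel))
noncomputable def rhd8584583625e3f54 : CRef := CRef.mk (Pat.mk 0x1e0000000800000008 0x1000000010000000300000001e0000001b00000008 4 6) 0 0 (step_sound _ 33 [(rh94246470f0e6fdf7.shift 1 0), (rheb0810cc63b001d8.shift 0 1)] (by decide +kernel))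
noncomputable def rh2a94466b0b83d379 : CRef := CRef.mk (Pat.mk 0x100000001000000030000000100000004 0x20000000300000003000000030000000700000007 4 3) 0 0 (step_sound _ 129 [(rh2f68792b6b779e96.shift 0 1), rh98f77bd35f19ea77] (by decide +kernel))
noncomputable def rhcf09f38993cff6c4 : CRef := CRef.mk (Pat.mk 0xc0000001c00000018 0xc0000007f0000001f 4 7) 0 0 (step_sound _ 37 [rhb14e2588a8d71db8, (rhf48373e13d2bc128.shift 2 1)] (by decide +kernel))
noncomputable def rhe5f2d0a876cd34bc : CRef := CRef.mk (Pat.mk 0x400000014000000100000001c00000000 0x400000004000000340000001f0000001c00000008 4 6) 0 0 (step_sound _ 66 [(rh55afc6a59410cf00.shift 2 0), (rh5f2872893710e223.shift 0 1)] (by decide +kernel))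
noncomputable def rh8f9f5854842e6dab : CRef := CRef.mk (Pat.mk 0x20000000a0000001a00000002 0x1000000030000003e0000001f00000002 4 6) 0 0 (step_sound _ 96 [rh50fbb5868c909700, (rhb79954c9e92791e3.shift 0 1)] (by decide +kernel))
noncomputable def rhc822135b956a18cd : CRef := CRef.mk (Pat.mk 0x800000028000000600000003000000000 0x58000000df00000078000000700000003000000010 4 8) 0 0 (step_sound _ 100 [(rh2103f37c1c4a3564.shift 2 1), (rhd81dc717682956d1.shift 3 0), (rhf60aa8aede119d3b.shift 0 3)] (by decide +kernel))
noncomputable def rhd226f490cad4d7ca : CRef := CRef.mk (Pat.mk 0x8000000280000006800000008 0x40000001f0000003c0000006800000008 4 7) 0 0 (step_sound _ 68 [rh79905f95cb2d899a, (rhb739f4f82bb681b4.shift 2 1)] (by decide +kernel))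
noncomputable def rhca2682a31a84d1e4 : CRef := CRef.mk (Pat.mk 0x400000000000000180000001800000008 0x140000003c0000001f0000001c00000008 4 6) 0 0 (step_sound _ 100 [rh3f01f594f3e643e9, (rh5c5e593799055d58.shift 3 0)] (by decide +kernel))
noncomputable def rhcd892f57b886ba7d : CRef := CRef.mk (Pat.mk 0x400000000000000180000001800000008 0x400000014000000340000001f0000001c00000008 4 6) 0 0 (step_sound _ 100 [(rh5c5e593799055d58.shift 3 0), rhd7f6e9900597045a] (by decide +kernel))
noncomputable def rh1ad068a2bd12dfd1 : CRef := CRef.mk (Pat.mk 0x10000000f00000000000000200000002000000020 0x130000001f00000018000000300000003000000020 4 6) 0 0 (step_sound _ 132 [(rh3f8766e6ecb455ce.shift 0 4), rh762a392bd40e4996] (by decide +kernel))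
noncomputable def rh8df030afdafb859f : CRef := CRef.mk (Pat.mk 0xe000000040000000800000008 0x100000007f0000003e0000000800000008 4 7) 0 0 (step_sound _ 67 [(rh6292bd8784ece55f.shift 0 2), (rh861ee9d7304b9753.shift 1 0)] (by decide +kernel))
noncomputable def rh237e9b41f21601a6 : CRef := CRef.mk (Pat.mk 0x80000001e000000000000000400000000 0xb0000001e000000070000000600000004 4 5) 0 0 (step_sound _ 2 [(rh04253f50b6dd0619.shift 2 0), rh483fbfd538e8380f] (by decide +kernel))
noncomputable def rhff514599ac705ffe : CRef := CRef.mk (Pat.mk 0x1800000002000000020000000200000002 0x70000001f00000006000000020000000200000002 4 5) 0 0 (step_sound _ 130 [(rh11db11650236b5ac.shift 0 1), (rhbaefcd01e0a8bca3.shift 1 0)] (by decide +kernel))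
noncomputable def rh10b09c4a1821db2a : CRef := CRef.mk (Pat.mk 0x60000000600000000000000010000000000000000 0x6000000060000000700000003000000030000000300000001 4 3) 0 0 (step_sound _ 97 [rh544d3caba1e1e2bb, (rhea7a1800d6f053bd.shift 1 1)] (by decide +kernel))
noncomputable def rh5f000102cb5eaa54 : CRef := CRef.mk (Pat.mk 0x1c000000020000000000000005 0x30000001e000000030000000700000005 4 5) 0 0 (step_sound _ 97 [rhb97653b3e9aa2271, (rheb0810cc63b001d8.shift 0 2)] (by decide +kernel))
noncomputable def rh7437f966bf9e856b : CRef := CRef.mk (Pat.mk 0x600000018000000180000001c00000000 0x60000003c0000001c0000001f00000003 4 6) 0 0 (step_sound _ 98 [rhbedc17f53a3d22d1, (rhf48373e13d2bc128.shift 1 3)] (by decide +kernel))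
noncomputable def rh03bee4f9a5b24ce0 : CRef := CRef.mk (Pat.mk 0x1a000000180000000000000000 0x10000000300000001f000000180000000800000008 4 6) 0 0 (step_sound _ 98 [(rh34b1188e635efc8d.shift 1 0), (rhb739f4f82bb681b4.shift 0 2)] (by decide +kernel))
noncomputable def rhf1caa18fadfe243b : CRef := CRef.mk (Pat.mk 0x80000001a0000001e00000004 0x30000000f0000001a0000001e00000007 4 5) 0 0 (step_sound _ 1 [rh543d12d1ce2f400c, rheb0810cc63b001d8] (by decide +kernel))
noncomputable def rha5319e3b7adbd777 : CRef := CRef.mk (Pat.mk 0x20000001a000000020000000000000000 0x2000000020000001f000000030000000300000001 4 5) 0 0 (step_sound _ 64 [rh9a1c12e64abc044e, (rhb2a0b9ccfb5cecd5.shift 0 2)] (by decide +kernel))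
noncomputable def rhdffb2354b62dc252 : CRef := CRef.mk (Pat.mk 0x2000000060000001a000000000000000000000000 0x20000000200000006000000060000001e000000070000000600000002 4 5) 0 0 (step_sound _ 98 [(rh55a1f6c57a317ce6.shift 1 1), rh9a011a4d0ec8f646, (rha40d42a2e34c408d.shift 1 1)] (by decide +kernel))
noncomputable def rh41aed169603b3217 : CRef := CRef.mk (Pat.mk 0x4000000060000000200000000000000010000000000000000 0x6000000060000000300000003000000030000000100000001 4 3) 0 0 (step_sound _ 97 [rh544d3caba1e1e2bb, (rh71222050f2c63a3a.shift 1 2)] (by decide +kernel))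
noncomputable def rh3d9fc58b50ff3185 : CRef := CRef.mk (Pat.mk 0xc000000080000000c0000000c 0x130000001f0000003c0000000c0000000c 4 6) 0 0 (step_sound _ 100 [(rh2f68792b6b779e96.shift 3 0), rh64d912a96d263ce3] (by decide +kernel))
noncomputable def rh8cb19a28260c04d1 : CRef := CRef.mk (Pat.mk 0x800000038000000000000000c00000000 0x40000001f00000038000000080000000c00000004 4 6) 0 0 (step_sound _ 67 [(rh79905f95cb2d899a.shift 0 1), (rh932754581e0f4330.shift 2 0)] (by decide +kernel))
noncomputable def rhe92c4a6b89bf4809 : CRef := CRef.mk (Pat.mk 0x1000000018000000180000000e000000040000000000000000 0x320000001f0000001a0000000e000000060000000400000004 4 6) 0 0 (step_sound _ 34 [(rh71222050f2c63a3a.shift 2 0), (rhbc155f4add859ecc.shift 0 1)] (by decide +kernel))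
noncomputable def rhc363dc9724f7518b : CRef := CRef.mk (Pat.mk 0x100000001a000000000000000600000000 0x330000001e000000030000000600000004 4 6) 0 0 (step_sound _ 98 [(rh33e738c4ed385b9f.shift 1 3), rh71bbb00ef1ecd8fb] (by decide +kernel))
noncomputable def rhd518d174b80f32e2 : CRef := CRef.mk (Pat.mk 0x1a0000001800000006000000000000000000000000 0x20000001b0000001f00000006000000060000000400000004 4 5) 0 0 (step_sound _ 129 [(rh6e1685e3533aff0e.shift 0 4), (rh70e33bfdf511e144.shift 1 0)] (by decide +kernel))
noncomputable def rh2f99e5d883eba31a : CRef := CRef.mk (Pat.mk 0x200000002000000000000003c00000000 0x200000002000000070000003f00000003 4 6) 0 0 (step_sound _ 65 [(rh3f8766e6ecb455ce.shift 1 1), rh848cc2cf8b37f7fe] (by decide +kernel))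
noncomputable def rh4cb43126e760f5cf : CRef := CRef.mk (Pat.mk 0x6000000060000001a0000000000000000 0x6000000060000001a0000000f00000007 4 5) 0 0 (step_sound _ 33 [(rh71222050f2c63a3a.shift 1 0), rhd630af2e39ca770f] (by decide +kernel))
noncomputable def rh3ba86853cdc9d88c : CRef := CRef.mk (Pat.mk 0x200000002000000020000001a0000000000000000 0x200000002000000020000001e0000000f00000005 4 5) 0 0 (step_sound _ 33 [rh5710f30ba40ee3ec, (rhd29a1fb688eae70f.shift 1 0), rhd630af2e39ca770f] (by decide +kernel))
noncomputable def rh7fae8aa228cbf251 : CRef := CRef.mk (Pat.mk 0x80000001a000000060000000200000000 0x4000000070000000f0000001a000000060000000600000004 4 5) 0 0 (step_sound _ 129 [(rh14f80659e6313cc6.shift 1 1), (rhb43b15493b096632.shift 0 1), (rhd4b4beefcd67f51e.shift 1 0)] (by decide +kernel))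
noncomputable def rh18858f5d94959510 : CRef := CRef.mk (Pat.mk 0x70000000d000000050000000100000000 0x8000000180000001f0000000f000000050000000100000001 4 5) 0 0 (step_sound _ 97 [(rh5c91976553e30c5f.shift 0 2), rh71222050f2c63a3a] (by decide +kernel))
noncomputable def rh3068e443d36f23f5 : CRef := CRef.mk (Pat.mk 0xa0000001a00000008 0x10000000300000001f0000001b00000008 4 6) 0 0 (step_sound _ 66 [rh644d796282c12cc5, (rhb739f4f82bb681b4.shift 0 1)] (by decide +kernel))
noncomputable def rh46990448042cc692 : CRef := CRef.mk (Pat.mk 0xa0000001a0000000200000000 0x100000001000000030000000f0000001a0000000200000002 4 5) 0 0 (step_sound _ 96 [rhb1a251d9bff81766, (rhc10214bf3fe8094a.shift 0 2)] (by decide +kernel))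
noncomputable def rh42e41b7f366f1c7e : CRef := CRef.mk (Pat.mk 0x1000000030000000180000001c 0x2000000030000000300000001f0000001f 4 6) 0 0 (step_sound _ 101 [(rh2f68792b6b779e96.shift 4 0), rh87fb4af8316b9600] (by decide +kernel))
noncomputable def rh2177f43a8b3a8b55 : CRef := CRef.mk (Pat.mk 0x3800000008000000000000001000000010 0x7c0000000f000000080000001800000010 4 7) 0 0 (step_sound _ 35 [(rh2820ca9a6c4f41b4.shift 0 3), (rhff0f29cb645b05f7.shift 3 0)] (by decide +kernel))
noncomputable def rhf79d7ba0e4773a6f : CRef := CRef.mk (Pat.mk 0x1e00000002000000180000000c 0x30000001e000000020000001f0000000f 4 5) 0 0 (step_sound _ 129 [(rh3244c3cc8379b070.shift 0 3), rh9ed4f14fedc98aa8] (by decide +kernel))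
noncomputable def rh34e73f5b30d76b09 : CRef := CRef.mk (Pat.mk 0x600000004000000060000000700000000 0x80000003e00000007000000060000000700000001 4 6) 0 0 (step_sound _ 97 [(rh861ee9d7304b9753.shift 0 1), rh932754581e0f4330] (by decide +kernel))
noncomputable def rh93b0e93fb9f63408 : CRef := CRef.mk (Pat.mk 0x1c0000000c000000000000000200000000 0x4000000040000001e0000000f000000020000000200000002 4 5) 0 0 (step_sound _ 97 [(rh00d6a6e3c7e3bb40.shift 1 0), (rh53b3c253cb0c65f4.shift 0 3)] (by decide +kernel))
noncomputable def rh3c77985752ac3c45 : CRef := CRef.mk (Pat.mk 0x1c0000000c000000000000000200000000 0x4000000040000001c0000000f000000060000000200000002 4 5) 0 0 (step_sound _ 97 [(rh53b3c253cb0c65f4.shift 0 3), (rh580df77fe152422b.shift 1 0)] (by decide +kernel))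
noncomputable def rh3d160e37afbc6421 : CRef := CRef.mk (Pat.mk 0x180000001a000000000000000c00000000 0x40000001f0000001b000000080000000c00000004 4 5) 0 0 (step_sound _ 67 [(rh932754581e0f4330.shift 2 0), (rh9cac931137f1cfa0.shift 0 1)] (by decide +kernel))
noncomputable def rhe8d40476d0dff265 : CRef := CRef.mk (Pat.mk 0x400000004000000000000001c00000000 0x400000004000000070000003e0000000a 4 6) 0 0 (step_sound _ 66 [(rh55afc6a59410cf00.shift 2 0), rhfa8c7f01b0685da6] (by decide +kernel))
noncomputable def rh4c6d4acee4521ac6 : CRef := CRef.mk (Pat.mk 0x800000008000000000000003800000000 0x8000000080000000f0000007c00000010 4 7) 0 0 (step_sound _ 67 [(rh55afc6a59410cf00.shift 3 0), (rha9fbfd4bb8cf890b.shift 0 1)] (by decide +kernel))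
noncomputable def rh76169ad10431134e : CRef := CRef.mk (Pat.mk 0x200000002000000020000000e00000000 0x10000000300000003000000030000001e00000003 4 5) 0 0 (step_sound _ 36 [(rh3244c3cc8379b070.shift 0 1), rhf6eaec10ea6e7bec] (by decide +kernel))
noncomputable def rhaec2d6327f2d3939 : CRef := CRef.mk (Pat.mk 0x1c000000380000001a 0x20000000600000007c0000003f0000001b 4 7) 0 0 (step_sound _ 34 [rh34517e326ddb5b25, (rh5c91976553e30c5f.shift 2 0), rh710860539a4c4362] (by decide +kernel))
noncomputable def rh025f5a8d72a8b681 : CRef := CRef.mk (Pat.mk 0x180000001a000000080000000000000000 0x40000001f0000001b000000080000000800000008 4 5) 0 0 (step_sound _ 35 [(rh71222050f2c63a3a.shift 3 0), (rh9cac931137f1cfa0.shift 0 1)] (by decide +kernel))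
noncomputable def rhb8568cd48cd0369c : CRef := CRef.mk (Pat.mk 0x40000000c0000001c000000000000000000000000 0x40000000c0000001c0000000f0000000e0000000e 4 5) 0 0 (step_sound _ 66 [(rh4053c12da95c0aa0.shift 2 0), (rh46530d756bdf8511.shift 1 0), (rhfbf2eae4035425b6.shift 0 1)] (by decide +kernel))
noncomputable def rh925f2a74e937f060 : CRef := CRef.mk (Pat.mk 0x4000000360000002600000022 0x13000000130000001f000000360000003600000022 4 6) 0 0 (step_sound _ 97 [(rh23625f181fa295a9.shift 1 0), rh7b9fbdf6d2d059e4] (by decide +kernel))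
noncomputable def rhf4e86e88e384a8c5 : CRef := CRef.mk (Pat.mk 0xc000000280000000c0000000c 0x130000001e0000003c0000000c0000000c 4 6) 0 0 (step_sound _ 100 [(rh2f68792b6b779e96.shift 3 0), rhbabbbc3ca8d43602] (by decide +kernel))
noncomputable def rhabac3201c0820485 : CRef := CRef.mk (Pat.mk 0x6000000120000001a0000000a 0x190000001f0000001a0000001a0000000a 4 5) 0 0 (step_sound _ 96 [rh116c50383f238874, rh50fbb5868c909700] (by decide +kernel))
noncomputable def rh9b536e29f6cf0416 : CRef := CRef.mk (Pat.mk 0x1000000006000000100000000c0000000c 0x7c0000000f000000180000000c0000000c 4 7) 0 0 (step_sound _ 99 [(rh4c61a8d65f05c464.shift 2 0), rh5765a4000fc97443, rh614308ef7a471852, (rh90fcc1b0fe0017ad.shift 0 3)] (by decide +kernel))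
noncomputable def rhf203402b4dc835d6 : CRef := CRef.mk (Pat.mk 0x2000000030000000f00000006 0xc0000001e0000001b0000000f00000006 4 5) 0 0 (step_sound _ 98 [(rh2f68792b6b779e96.shift 1 0), rh9ca149b7c900214b] (by decide +kernel))
noncomputable def rh78468d6e44643ee6 : CRef := CRef.mk (Pat.mk 0x180000009a 0x1f000000ff 4 8) 0 0 (step_sound _ 5 [(rh2fe78cc5ca4405d8.shift 3 0), rhe25176f89823b1c7] (by decide +kernel))
noncomputable def rh98ff2bdcd141d122 : CRef := CRef.mk (Pat.mk 0x10000000f00000001000000000000000000000000 0x1000000010000001f00000003000000030000000200000002 4 5) 0 0 (step_sound _ 97 [(rh18965a982d73c794.shift 0 3), rh70e33bfdf511e144] (by decide +kernel))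
noncomputable def rhb7596e3236d95ab6 : CRef := CRef.mk (Pat.mk 0x800000000000000100000003800000000 0x8000000080000003e0000007f00000006 4 7) 0 0 (step_sound _ 67 [rh6e71b3129cd4e324, (rhe2b63c00a3d7bb73.shift 1 1)] (by decide +kernel))
noncomputable def rh6b37188ebdd8ae16 : CRef := CRef.mk (Pat.mk 0x180000009a00000000 0x18000000ff00000007 4 8) 0 0 (step_sound _ 37 [(rh2fe78cc5ca4405d8.shift 3 1), rh32fdcf43850040ab] (by decide +kernel))
noncomputable def rh1eb7165168429537 : CRef := CRef.mk (Pat.mk 0x1e000000000000000c0000004c 0x20000001e000000030000000f0000007c 4 7) 0 0 (step_sound _ 4 [(rh2fe78cc5ca4405d8.shift 2 0), rhc6abfc31d33d1d74] (by decide +kernel))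
noncomputable def rh399b956f36739947 : CRef := CRef.mk (Pat.mk 0x38000000040000000400000000 0x70000003e000000060000000400000004 4 6) 0 0 (step_sound _ 98 [rh3998ad7415607566, (rheb0810cc63b001d8.shift 1 2)] (by decide +kernel))
noncomputable def rh9bf8ee21173d234c : CRef := CRef.mk (Pat.mk 0x1e000000000000001a00000018 0x40000001e000000030000001b0000001f 4 5) 0 0 (step_sound _ 65 [rh87e3b43fee1f5cf3, (rheb0810cc63b001d8.shift 0 2)] (by decide +kernel))
noncomputable def rhbd0b832b6a6e272b : CRef := CRef.mk (Pat.mk 0x40000001c0000001c000000000000000000000000 0x40000001c0000001f000000070000000200000002 4 5) 0 0 (step_sound _ 97 [rh1e8d6e1ef30e2d92, (rh53b3c253cb0c65f4.shift 0 3)] (by decide +kernel))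
noncomputable def rh1ab60030b8dde24e : CRef := CRef.mk (Pat.mk 0x1e000000000000000c0000004c 0x30000001e000000020000000f0000007c 4 7) 0 0 (step_sound _ 4 [(rh2fe78cc5ca4405d8.shift 2 0), rhb379b8cbf170aa8c] (by decide +kernel))
noncomputable def rh4ebd90bd92772a20 : CRef := CRef.mk (Pat.mk 0x20000001a0000001200000012 0x80000000c0000000f0000001a0000001a00000012 4 5) 0 0 (step_sound _ 98 [(rh2f68792b6b779e96.shift 1 0), rh4103e9b282220a03] (by decide +kernel))
noncomputable def rhb2aa47935e7ef7cb : CRef := CRef.mk (Pat.mk 0x20000001a0000001200000012 0x8000000090000000f0000001a0000001a00000012 4 5) 0 0 (step_sound _ 96 [rh23625f181fa295a9, rh50fbb5868c909700] (by decide +kernel))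
noncomputable def rhd134caa5b1076e60 : CRef := CRef.mk (Pat.mk 0x100000006000000020000001a0000001000000010 0x10000000b0000001e0000000a0000001a0000001800000010 4 5) 0 0 (step_sound _ 161 [rh423c0e480193ffca, (rh50fbb5868c909700.shift 0 2)] (by decide +kernel))
noncomputable def rha99139b99b82e6fa : CRef := CRef.mk (Pat.mk 0x30000000200000002000000010000000000000000 0x30000000300000002000000070000000700000004 4 3) 0 0 (step_sound _ 65 [rh257d7200ab2a6828, (rh932754581e0f4330.shift 0 1)] (by decide +kernel))
noncomputable def rh566659606c8abe04 : CRef := CRef.mk (Pat.mk 0x12000000030000000200000000 0x400000004000000060000001e000000030000000200000002 4 5) 0 0 (step_sound _ 98 [(rh215e11e099257d75.shift 1 0), (rh361cc68994bd8a63.shift 0 2)] (by decide +kernel))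
noncomputable def rhe36c74e0f2b34f1f : CRef := CRef.mk (Pat.mk 0x1a0000000300000002 0x5000000070000000f0000001a0000000300000003 4 5) 0 0 (step_sound _ 97 [rh330a005829cdd297, rh769be3fe24eee174, rha77f215723363df0] (by decide +kernel))
noncomputable def rh1af3d1b618cb15f5 : CRef := CRef.mk (Pat.mk 0x8000000080000000b000000080000000100000000 0x8000000080000000f0000001c0000000f00000004 4 5) 0 0 (step_sound _ 34 [(rh79877ebd3ef475dd.shift 2 1), rha737ec0e19a480ea] (by decide +kernel))
noncomputable def rh667145c8633d3ef4 : CRef := CRef.mk (Pat.mk 0x80000000800000008000000050000000000000000 0x800000008000000080000001f0000001c00000010 4 5) 0 0 (step_sound _ 67 [(rh932754581e0f4330.shift 2 1), rhfe9300be1de59db6] (by decide +kernel))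
noncomputable def rhb6a60781e2db6700 : CRef := CRef.mk (Pat.mk 0x800000008000000080000000a00000003 0x40000000c0000000c000000080000000c0000001e00000003 4 5) 0 0 (step_sound _ 162 [rhd32eb68ef02c938c, (rhffd04209dc8ea796.shift 2 1)] (by decide +kernel))
noncomputable def rh9b74c57545d0e73d : CRef := CRef.mk (Pat.mk 0x8000000080000000a0000000b00000008 0x18000000180000001c0000000c0000001e0000000b00000008 4 5) 0 0 (step_sound _ 163 [rh02f19566d2d8f909, (rh44f453b84f013105.shift 3 1)] (by decide +kernel))
noncomputable def rh630e8191ba09888d : CRef := CRef.mk (Pat.mk 0x80000000800000008000000080000000d 0x1000000018000000180000000800000018000000180000000f 4 5) 0 0 (step_sound _ 36 [rh24ae073cf30720c4, (rh73f605273a09a9d0.shift 3 1)] (by decide +kernel))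
noncomputable def rh3453b8d8ca7f70b3 : CRef := CRef.mk (Pat.mk 0xa0000000b0000000800000000 0x4000000040000000c0000001e0000000b0000000800000008 4 5) 0 0 (step_sound _ 98 [(rh18965a982d73c794.shift 0 2), (rhd01ed0cc6ce530d4.shift 1 0)] (by decide +kernel))
noncomputable def rhf23abc6050d50443 : CRef := CRef.mk (Pat.mk 0xd000000080000000800000008000000080000000000000000 0xf000000180000001800000008000000180000001800000010 4 5) 0 0 (step_sound _ 164 [(rh8c3839f9b9075f23.shift 3 0), (rhab22b5b56e7b3243.shift 0 5)] (by decide +kernel))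
noncomputable def rh0dc8b42ff0b64d8a : CRef := CRef.mk (Pat.mk 0x5000000080000000800000008 0x100000001c0000001f000000080000000800000008 4 5) 0 0 (step_sound _ 99 [(rh50fbb5868c909700.shift 2 0), rh5a0eebbb8f6c4318] (by decide +kernel))
noncomputable def rhcc7daa0651f59aff : CRef := CRef.mk (Pat.mk 0x20000001a000000020000000200000000 0x50000000f0000001a000000020000000300000001 4 5) 0 0 (step_sound _ 32 [(rh2f7aebebd7d680c3.shift 0 1), rh932754581e0f4330] (by decide +kernel))
noncomputable def rhdc5a42119449cd2e : CRef := CRef.mk (Pat.mk 0x200000000000000030000001200000000 0x20000000200000002000000030000001f00000005 4 5) 0 0 (step_sound _ 34 [(rh2fe78cc5ca4405d8.shift 0 1), rha7e5b30d6e5612d1] (by decide +kernel))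
noncomputable def rh41c226a5c3d0003c : CRef := CRef.mk (Pat.mk 0x1a000000030000000200000000 0x70000000f0000001a000000030000000300000001 4 5) 0 0 (step_sound _ 129 [rh03dfdf12d5937476, (rh330a005829cdd297.shift 0 1)] (by decide +kernel))
noncomputable def rh1da12c82c3218ac1 : CRef := CRef.mk (Pat.mk 0x1000000080000000b0000000800000008 0x40000000f0000001c0000000f0000000800000008 4 5) 0 0 (step_sound _ 130 [(rh2c7c8bc20544711c.shift 0 1), (rhffd04209dc8ea796.shift 2 0)] (by decide +kernel))
noncomputable def rh5ba049ffa16e58a5 : CRef := CRef.mk (Pat.mk 0x2000000180000001800000006 0x2000000020000001b0000003f00000006 4 6) 0 0 (step_sound _ 34 [rh15046019fc1d2e12, (rh18965a982d73c794.shift 1 0)] (by decide +kernel))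
noncomputable def rh2c5a6414b11f54f4 : CRef := CRef.mk (Pat.mk 0x800000008000000180000000800000000 0x800000008000000380000001f00000014 4 6) 0 0 (step_sound _ 36 [(rh55afc6a59410cf00.shift 3 0), rh6fae963f33cfdfd7] (by decide +kernel))
noncomputable def rh1455b602a2464eeb : CRef := CRef.mk (Pat.mk 0x70000000400000007000000000000000000000000 0x1000000070000000700000007000000030000000200000002 4 3) 0 0 (step_sound _ 65 [rh0588d2c7f2cab5e9, (rh1c69bb92c13f27a0.shift 0 1), (rhdb2909ac5c854515.shift 0 2), (rhf9af042da61fc652.shift 1 0)] (by decide +kernel))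
noncomputable def rh7154bbd92eca13ed : CRef := CRef.mk (Pat.mk 0x1e00000018000000180000000800000000 0x1e0000001f000000780000000c00000004 4 7) 0 0 (step_sound _ 97 [(rh6eea962ac0fe17b9.shift 1 0), (rheb0810cc63b001d8.shift 0 3)] (by decide +kernel))
noncomputable def rh9b923fc8ae04309b : CRef := CRef.mk (Pat.mk 0x1e0000001a0000000800000000 0x4000000070000001e0000001a0000000f00000006 4 5) 0 0 (step_sound _ 129 [(rh3244c3cc8379b070.shift 0 3), rhe83c92073c5d4312] (by decide +kernel))
noncomputable def rh378c544d8190faf9 : CRef := CRef.mk (Pat.mk 0x400000034000000140000000400000000 0x4000000340000001e0000000f0000000a 4 6) 0 0 (step_sound _ 33 [(rh932754581e0f4330.shift 1 0), rhb452d78269e1e1b5] (by decide +kernel))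
noncomputable def rh1df41c6aff28951f : CRef := CRef.mk (Pat.mk 0x180000001e00000006 0x3000000030000001f0000001e00000006 4 5) 0 0 (step_sound _ 65 [(rh3244c3cc8379b070.shift 0 1), rh9dc6f17ef8893ffe] (by decide +kernel))
noncomputable def rh46c394614903929b : CRef := CRef.mk (Pat.mk 0x800000000000000100000003800000000 0x8000000080000003c000000ff00000006 4 8) 0 0 (step_sound _ 67 [rh6e71b3129cd4e324, (rh79b3c29022acbdf3.shift 2 1)] (by decide +kernel))
noncomputable def rh0331dac5a18645bd : CRef := CRef.mk (Pat.mk 0x1a000000030000000200000000 0x70000000f0000001a000000030000000300000001 4 5) 0 0 (step_sound _ 129 [rh03dfdf12d5937476, (rh2f7aebebd7d680c3.shift 0 1)] (by decide +kernel))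
noncomputable def rh8b0f6dfa53ad9781 : CRef := CRef.mk (Pat.mk 0x4000000020000000300000002 0x10000000700000007000000020000000300000003 4 3) 0 0 (step_sound _ 97 [(rh2f68792b6b779e96.shift 1 0), rha77f215723363df0] (by decide +kernel))
noncomputable def rh4e85042e27484548 : CRef := CRef.mk (Pat.mk 0x9a00000018 0xff0000001f 4 8) 0 0 (step_sound _ 37 [(rh361cc68994bd8a63.shift 3 0), rhd268c6b2d65bf10d] (by decide +kernel))
noncomputable def rh562f03b97f8bf5c5 : CRef := CRef.mk (Pat.mk 0x10000000f0000000100000000 0x20000000200000003000000030000001f0000000100000001 4 5) 0 0 (step_sound _ 97 [rh215e11e099257d75, (rhf48373e13d2bc128.shift 0 2)] (by decide +kernel))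
noncomputable def rh660ef48beff2decc : CRef := CRef.mk (Pat.mk 0x9a00000018 0x7000000ff00000018 4 8) 0 0 (step_sound _ 37 [rh2e966cc2a51d47f2, (rh361cc68994bd8a63.shift 3 0)] (by decide +kernel))
noncomputable def rh8733b962e0b8dd30 : CRef := CRef.mk (Pat.mk 0x4c0000000c000000000000001e00000000 0x7c0000000f000000030000001e00000002 4 7) 0 0 (step_sound _ 132 [(rh361cc68994bd8a63.shift 2 3), rh4a33519bea140093] (by decide +kernel))
noncomputable def rhaf754fcaa50c128f : CRef := CRef.mk (Pat.mk 0x180000001a000000000000001e00000000 0x1f0000001b000000030000001e00000004 4 5) 0 0 (step_sound _ 65 [(rh3244c3cc8379b070.shift 0 1), rhde57d46008092c65] (by decide +kernel))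
noncomputable def rh5e8e503cdbced5c1 : CRef := CRef.mk (Pat.mk 0x1c0000001c00000004 0x200000002000000070000001f0000001c00000004 4 5) 0 0 (step_sound _ 65 [rh1c1037cb5b3fe471, (rhb739f4f82bb681b4.shift 0 1)] (by decide +kernel))
noncomputable def rh805582629f36f77d : CRef := CRef.mk (Pat.mk 0x4c0000000c000000000000001e00000000 0x7c0000000f000000020000001e00000003 4 7) 0 0 (step_sound _ 132 [(rh361cc68994bd8a63.shift 2 3), rha983756cb0c34718] (by decide +kernel))
noncomputable def rh5c735efb546c43d8 : CRef := CRef.mk (Pat.mk 0x12000000120000001a000000020000000000000000 0x120000001a0000001a0000000f0000000c00000008 4 5) 0 0 (step_sound _ 66 [rh1c53595118beee12, (rh55afc6a59410cf00.shift 1 1)] (by decide +kernel))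
noncomputable def rh22f11455a56364ec : CRef := CRef.mk (Pat.mk 0x12000000120000001a000000020000000000000000 0x120000001a0000001a0000000f0000000900000008 4 5) 0 0 (step_sound _ 64 [(rh932754581e0f4330.shift 0 1), rhc4713ca36c943a51] (by decide +kernel))
noncomputable def rh8f55412641f6b176 : CRef := CRef.mk (Pat.mk 0x10000000100000001a00000002000000060000000100000000 0x10000000180000001a0000000a0000001e0000000b00000001 4 5) 0 0 (step_sound _ 33 [rh932754581e0f4330, (rh9a84fbbd10dca47a.shift 0 1)] (by decide +kernel))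
noncomputable def rhcaf47705a2dc7a90 : CRef := CRef.mk (Pat.mk 0x1000000020000000200000003 0x40000000700000007000000020000000300000003 4 3) 0 0 (step_sound _ 97 [rh1ae8cb0b33fd1844, rh50fbb5868c909700] (by decide +kernel))
noncomputable def rh4c145d583973abd2 : CRef := CRef.mk (Pat.mk 0x20000000300000012000000000000000000000000 0x200000002000000030000001e000000060000000400000004 4 5) 0 0 (step_sound _ 98 [(rh2fe78cc5ca4405d8.shift 0 3), (rh70e33bfdf511e144.shift 1 0)] (by decide +kernel))
noncomputable def rh7db291d389567aa4 : CRef := CRef.mk (Pat.mk 0x2000000030000001a000000000000000000000000 0x3000000030000001a0000000f0000000700000005 4 5) 0 0 (step_sound _ 65 [(rh36e6bb6cca6188da.shift 0 1), rh5192e84255fe3228, rh5c651669912fbab1] (by decide +kernel))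
noncomputable def rhf6237156212ce777 : CRef := CRef.mk (Pat.mk 0x60000000300000002000000000000000000000000 0x4000000070000000300000002000000030000000300000001 4 3) 0 0 (step_sound _ 65 [(rh2f68792b6b779e96.shift 1 2), rh5192e84255fe3228] (by decide +kernel))
noncomputable def rh16f7b7fbf4829b11 : CRef := CRef.mk (Pat.mk 0x30000000a0000000800000008000000080000000000000000 0x30000001e0000000c000000080000000c0000000c00000004 4 5) 0 0 (step_sound _ 34 [(rh79877ebd3ef475dd.shift 2 1), rha66cabc1cbc7876a] (by decide +kernel))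
noncomputable def rh9e4b4aa58109e616 : CRef := CRef.mk (Pat.mk 0x80000000b0000000a00000008000000080000000000000000 0x80000000b0000001e0000000c0000001c0000001800000018 4 5) 0 0 (step_sound _ 35 [(rhd29a1fb688eae70f.shift 3 0), rhf76cc44b9aa69e97] (by decide +kernel))
noncomputable def rhbeda07e14bc28c05 : CRef := CRef.mk (Pat.mk 0x2000000020000001a0000000200000000 0x100000003000000020000001a0000000f00000005 4 5) 0 0 (step_sound _ 128 [(rh50fbb5868c909700.shift 0 1), rhd630af2e39ca770f] (by decide +kernel))
noncomputable def rh88cf35fd3b453281 : CRef := CRef.mk (Pat.mk 0x1200000003000000000000000200000000 0x50000001f00000003000000020000000200000002 4 5) 0 0 (step_sound _ 130 [(rh361cc68994bd8a63.shift 0 3), rh5a7dce561d0bf78d] (by decide +kernel))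
noncomputable def rhad376fbe1f0e053b : CRef := CRef.mk (Pat.mk 0x2000000030000001a0000000000000000 0x100000003000000030000001a0000000f00000007 4 5) 0 0 (step_sound _ 33 [rh36e6bb6cca6188da, rhe286c75f2739cce2] (by decide +kernel))
noncomputable def rhdf4ed50bba69fd94 : CRef := CRef.mk (Pat.mk 0x600000018000000180000000200000000 0x60000003f0000001b0000000200000002 4 6) 0 0 (step_sound _ 98 [rh46af0760dcab1b05, (rhf48373e13d2bc128.shift 1 3)] (by decide +kernel))
noncomputable def rh5aa5e9dc84124dd6 : CRef := CRef.mk (Pat.mk 0x8000000180000000800000008 0x140000001f000000380000000800000008 4 6) 0 0 (step_sound _ 100 [(rh2f68792b6b779e96.shift 3 0), rhc647a25a08ddf0ec] (by decide +kernel))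
noncomputable def rh788442b1d0408941 : CRef := CRef.mk (Pat.mk 0x7000000040000000700000000 0x2000000020000000300000007000000070000000700000001 4 3) 0 0 (step_sound _ 129 [rh00d6a6e3c7e3bb40, rh79a48be3ac30af6a, (rhe072fffdd2fccf38.shift 1 1), rhecb97fed8c7f1286] (by decide +kernel))
noncomputable def rhfeda66ef1656704d : CRef := CRef.mk (Pat.mk 0x800000018000000180000001e 0x40000000c000000780000001f0000001e 4 7) 0 0 (step_sound _ 33 [rh3244c3cc8379b070, (rhf7746e8ae5840ea8.shift 1 0)] (by decide +kernel))
noncomputable def rh18d4af882fdb0df8 : CRef := CRef.mk (Pat.mk 0x80000001a0000001e0000000000000000 0x60000000f0000001a0000001e0000000700000004 4 5) 0 0 (step_sound _ 33 [rh60563dce9de46764, (rheb0810cc63b001d8.shift 0 1)] (by decide +kernel))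
noncomputable def rh32867e3943f3c89e : CRef := CRef.mk (Pat.mk 0x4000000140000003400000004 0xa0000000f0000001e0000003400000004 4 6) 0 0 (step_sound _ 97 [(rh50fbb5868c909700.shift 1 0), rha1a11db028bf1d50] (by decide +kernel))
noncomputable def rh4cc7f36aab453f71 : CRef := CRef.mk (Pat.mk 0x38000000100000000000000008 0x6000000ff0000003c0000000800000008 4 8) 0 0 (step_sound _ 67 [(rh2612b4f73ba7c3b3.shift 2 2), rh99958e6426785a6d] (by decide +kernel))
noncomputable def rh91892f85951c505e : CRef := CRef.mk (Pat.mk 0x2000000030000001a0000000000000000 0x100000003000000030000001a0000000f00000007 4 5) 0 0 (step_sound _ 33 [rhd630af2e39ca770f, rhe286c75f2739cce2] (by decide +kernel))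
noncomputable def rh5f1f0ffeb6a8fa09 : CRef := CRef.mk (Pat.mk 0x20000000300000002000000040000000000000000 0x30000000300000002000000070000000700000001 4 3) 0 0 (step_sound _ 65 [rh5192e84255fe3228, (rh55afc6a59410cf00.shift 1 1)] (by decide +kernel))
noncomputable def rh3ba31b4b8ec53b11 : CRef := CRef.mk (Pat.mk 0x400000004000000440000000c00000000 0x400000004000000040000007c0000000f00000002 4 7) 0 0 (step_sound _ 67 [(rh2145e1d24b96a57e.shift 2 1), rh7ddfb8cba82847ee] (by decide +kernel))
noncomputable def rhbaebc0cc9cf01c79 : CRef := CRef.mk (Pat.mk 0x20000000600000002000000020000000200000000 0x300000003000000030000000600000006000000020000000200000002 4 3) 0 0 (step_sound _ 98 [(rh71222050f2c63a3a.shift 1 0), (rh7b9fbdf6d2d059e4.shift 0 2)] (by decide +kernel))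
noncomputable def rhda8b3d2a3e590da7 : CRef := CRef.mk (Pat.mk 0x400000007000000060000000600000000 0x4000000070000003e0000003e00000008 4 6) 0 0 (step_sound _ 68 [(rh2fe78cc5ca4405d8.shift 0 2), (rh509847d0837ffcc5.shift 1 0)] (by decide +kernel))
noncomputable def rhbad6ff9bdc3f8001 : CRef := CRef.mk (Pat.mk 0x600000006000000020000000200000000 0x1000000030000000700000006000000060000000600000004 4 3) 0 0 (step_sound _ 34 [(rh3a1005f9c0462cb3.shift 0 1), (rh55afc6a59410cf00.shift 1 0)] (by decide +kernel))
noncomputable def rh4bc3fb1b54fe76ba : CRef := CRef.mk (Pat.mk 0x600000006000000020000000200000000 0x20000000600000006000000070000000700000005 4 3) 0 0 (step_sound _ 34 [(rh55afc6a59410cf00.shift 1 0), rhe9b180ab0bcbe42c] (by decide +kernel))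
noncomputable def rhb84d4101fea63f8a : CRef := CRef.mk (Pat.mk 0x3c000000100000000800000008 0x40000003f0000001f0000000800000008 4 6) 0 0 (step_sound _ 67 [(rh50fbb5868c909700.shift 2 0), (rhb14e2588a8d71db8.shift 0 2)] (by decide +kernel))
noncomputable def rh4322abf74e56b92e : CRef := CRef.mk (Pat.mk 0x18000000030000000700000000 0x10000000180000001b0000001f00000018 4 5) 0 0 (step_sound _ 35 [rh4e474fff1e6bbb84, (rhf48373e13d2bc128.shift 0 1)] (by decide +kernel))
noncomputable def rhcee1a2e826d13404 : CRef := CRef.mk (Pat.mk 0x6000000060000000200000002 0x3000000030000000300000007000000060000000600000002 4 3) 0 0 (step_sound _ 129 [rh3ca48e2a6d60153d, (rh3e595262c1b737ad.shift 1 1), (rh7b9fbdf6d2d059e4.shift 0 1)] (by decide +kernel))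
noncomputable def rh20595ccdccbf31d9 : CRef := CRef.mk (Pat.mk 0x380000001800000008 0x4000000070000003f0000001f00000008 4 6) 0 0 (step_sound _ 66 [(rhb14e2588a8d71db8.shift 0 1), (rhba89ab7cb81bcc90.shift 0 1), (rhe4f9133a81c1dbc5.shift 1 0)] (by decide +kernel))
noncomputable def rh386773c202715e57 : CRef := CRef.mk (Pat.mk 0x20000000300000003000000020000000000000000 0x600000006000000060000000300000003000000020000000200000002 4 3) 0 0 (step_sound _ 33 [(rh5fa50b509d4ce753.shift 0 2), rh7b1f1fb55310c477] (by decide +kernel))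
noncomputable def rh8edb78d1f8c506a0 : CRef := CRef.mk (Pat.mk 0x10000000030000001a0000000200000000 0x40000001e000000030000001a0000000f00000005 4 5) 0 0 (step_sound _ 129 [(rh04e571695666b5c1.shift 0 1), rh36e6bb6cca6188da] (by decide +kernel))
noncomputable def rhbbad055adcf6b98d : CRef := CRef.mk (Pat.mk 0x40000000c000000180000001c00000000 0x40000000f0000001b0000001f00000002 4 5) 0 0 (step_sound _ 33 [(rh53b3c253cb0c65f4.shift 0 1), rhe063894bee813cd5] (by decide +kernel))
noncomputable def rhdb27e06ccf41b6c5 : CRef := CRef.mk (Pat.mk 0x300000018000000000000001000000000 0x8000000080000001f00000018000000100000001000000010 4 5) 0 0 (step_sound _ 131 [(rh95a80f84f48ac358.shift 3 0), (rhc10214bf3fe8094a.shift 0 3)] (by decide +kernel))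
noncomputable def rha75bcec463365ea9 : CRef := CRef.mk (Pat.mk 0x20000000200000002000000030000000200000000 0x400000006000000060000000200000003000000030000000600000004 4 3) 0 0 (step_sound _ 34 [(rh1ae8cb0b33fd1844.shift 0 2), (rh55afc6a59410cf00.shift 1 0)] (by decide +kernel))
noncomputable def rhf0fece33e6b49d9e : CRef := CRef.mk (Pat.mk 0x800000018000000030000000600000000 0x8000000080000001800000018000000130000001e00000010 4 5) 0 0 (step_sound _ 36 [(rh2fe78cc5ca4405d8.shift 0 1), (rh95a80f84f48ac358.shift 3 0)] (by decide +kernel))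
noncomputable def rh3808b57c450de6fc : CRef := CRef.mk (Pat.mk 0x10000000030000001a0000000a00000000 0x40000001e000000030000001a0000000f00000001 4 5) 0 0 (step_sound _ 32 [(rh1c62b6193297d9e3.shift 0 1), rh8ca74fa25325e393] (by decide +kernel))
noncomputable def rhfa6702f91f12be96 : CRef := CRef.mk (Pat.mk 0x10000000030000001a0000000a00000000 0x40000001e000000030000001a0000000f00000004 4 5) 0 0 (step_sound _ 34 [(rh53b3c253cb0c65f4.shift 0 1), rh625230e026c1189b] (by decide +kernel))
noncomputable def rh63582001efb17316 : CRef := CRef.mk (Pat.mk 0x200000002400000034000000040000000600000000 0x200000003400000034000000170000003e00000018 4 6) 0 0 (step_sound _ 35 [(rh55afc6a59410cf00.shift 2 0), rh7f94bc4e3805a7a0] (by decide +kernel))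
noncomputable def rh1dcec6fb95be00b0 : CRef := CRef.mk (Pat.mk 0x100000000300000002000000020000000200000000 0x40000001e0000000300000002000000030000000300000001 4 5) 0 0 (step_sound _ 32 [(rh43cd74d7441b0654.shift 0 1), rh932754581e0f4330] (by decide +kernel))
noncomputable def rh09234555bd5e60c4 : CRef := CRef.mk (Pat.mk 0x100000000300000002000000020000000200000000 0x40000001e0000000300000002000000060000000600000004 4 5) 0 0 (step_sound _ 34 [(rh409f6b1b8a667f8d.shift 0 1), (rh55afc6a59410cf00.shift 1 0)] (by decide +kernel))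
noncomputable def rh2cbe60a7542baf95 : CRef := CRef.mk (Pat.mk 0x110000001100000019000000010000000000000000 0x1100000019000000190000000f0000000a00000008 4 5) 0 0 (step_sound _ 65 [(rh55afc6a59410cf00.shift 0 1), rhc4713ca36c943a51] (by decide +kernel))
noncomputable def rh85fe8bf98f55243d : CRef := CRef.mk (Pat.mk 0x2000000020000000600000000 0x20000000200000002000000070000000700000005 4 3) 0 0 (step_sound _ 129 [rh50fc3837f5e8c53a, (rh55afc6a59410cf00.shift 1 0)] (by decide +kernel))
noncomputable def rhdce41fa93ed92335 : CRef := CRef.mk (Pat.mk 0x6000000320000000600000006 0x190000001f000000360000000600000006 4 6) 0 0 (step_sound _ 99 [(rhd6e447e81774439e.shift 1 2), rhee3972788bccf7a1] (by decide +kernel))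
noncomputable def rh4f66b8b299b10e60 : CRef := CRef.mk (Pat.mk 0x2000000020000000300000003000000000000000000000000 0x2000000030000000300000007000000060000000600000002 4 3) 0 0 (step_sound _ 66 [rh8f35b0f4caf214bc, (rhd3458b32566d63f7.shift 1 2)] (by decide +kernel))
noncomputable def rh61abea9b92003218 : CRef := CRef.mk (Pat.mk 0x600000006000000060000000200000000 0x600000006000000070000003e0000000c 4 6) 0 0 (step_sound _ 34 [rh36d4d92ef3dad5f8, (rh7b1f1fb55310c477.shift 1 0)] (by decide +kernel))
noncomputable def rh7f2a49c2502589b3 : CRef := CRef.mk (Pat.mk 0x40000000c0000000c0000000400000000 0x40000000c0000003c0000000f0000000a 4 6) 0 0 (step_sound _ 35 [(rh7b1f1fb55310c477.shift 2 0), rha71afc656c87d410] (by decide +kernel))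
noncomputable def rh58b51dcfc97ca552 : CRef := CRef.mk (Pat.mk 0x400000007000000060000000400000000 0x4000000070000001f0000003c00000008 4 6) 0 0 (step_sound _ 67 [rhc1ae51bfba5f1e57, (rhf48373e13d2bc128.shift 0 2)] (by decide +kernel))
noncomputable def rhd664060a7978cce7 : CRef := CRef.mk (Pat.mk 0x80000001a0000000e0000000800000000 0x60000000f0000001a0000000e0000000c00000004 4 5) 0 0 (step_sound _ 34 [(rh52970e956c8449d1.shift 0 1), (rh932754581e0f4330.shift 2 0)] (by decide +kernel))
noncomputable def rh6a302076658b223e : CRef := CRef.mk (Pat.mk 0xc0000000f0000000000000000 0x4000000040000000c0000000c0000000f0000001800000008 4 5) 0 0 (step_sound _ 35 [(rhb1a251d9bff81766.shift 2 0), (rhe25b0a99195a5d59.shift 0 1)] (by decide +kernel))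
noncomputable def rha1462bde2c4a46d6 : CRef := CRef.mk (Pat.mk 0x40000000700000004000000020000000000000000 0x400000004000000070000003e0000000e0000000800000008 4 6) 0 0 (step_sound _ 99 [(rh518d6f6eeebddcb2.shift 1 2), (rh70e33bfdf511e144.shift 2 0), (rh89ade209b3e28f13.shift 0 3)] (by decide +kernel))
noncomputable def rh4c1dde01eb9b3868 : CRef := CRef.mk (Pat.mk 0x1a0000009a00000000 0x1b000000fe00000070 4 8) 0 0 (step_sound _ 34 [(rh3244c3cc8379b070.shift 0 1), (rhb8546cc3e1ee40c7.shift 1 0)] (by decide +kernel))
noncomputable def rh9e086e2a41e8f3a8 : CRef := CRef.mk (Pat.mk 0x1a0000001a0000000000000000 0x8000000080000001b0000001e0000003000000010 4 6) 0 0 (step_sound _ 66 [(rh3244c3cc8379b070.shift 0 2), (rhea719cc8bd0bdd28.shift 1 0)] (by decide +kernel))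
noncomputable def rh4e1352852197e108 : CRef := CRef.mk (Pat.mk 0x8c0000001a0000001000000010 0x20000000ff0000001b0000001000000010 4 8) 0 0 (step_sound _ 97 [(rhb739f4f82bb681b4.shift 0 2), rhb82947d8142b45d6] (by decide +kernel))
noncomputable def rhba0980461ef7e7ca : CRef := CRef.mk (Pat.mk 0x2000000020000000600000002000000020000000000000000 0x200000002000000020000000600000006000000030000000300000003 4 3) 0 0 (step_sound _ 98 [(rh2145e1d24b96a57e.shift 1 3), rh46530d756bdf8511] (by decide +kernel))
noncomputable def rhfbd90be67f70f880 : CRef := CRef.mk (Pat.mk 0x1a0000008e00000000 0x1b000000fe00000070 4 8) 0 0 (step_sound _ 36 [(rh3244c3cc8379b070.shift 0 1), (rhb8546cc3e1ee40c7.shift 1 0)] (by decide +kernel))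
noncomputable def rh6811d9ed11d2c57c : CRef := CRef.mk (Pat.mk 0x1a0000000e000000000000000000000000 0x80000001b0000001e000000300000001000000010 4 6) 0 0 (step_sound _ 100 [(rh3244c3cc8379b070.shift 0 3), (rhbbe16ff26f7822db.shift 1 0)] (by decide +kernel))
noncomputable def rhfcde4125e83054cb : CRef := CRef.mk (Pat.mk 0x800000008000000090000000800000000 0x8000000080000000f0000001e00000014 4 5) 0 0 (step_sound _ 34 [rh29bcbb0ab6bb5c06, (rh932754581e0f4330.shift 2 0)] (by decide +kernel))
noncomputable def rh91c13f66a23a53b7 : CRef := CRef.mk (Pat.mk 0x2000000020000001c0000000000000000 0x2000000030000003e0000000700000004 4 6) 0 0 (step_sound _ 65 [rh2e6b473cb45f347f, (rh3244c3cc8379b070.shift 0 2)] (by decide +kernel))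
noncomputable def rhbc21ff68c0364fb0 : CRef := CRef.mk (Pat.mk 0x180000000a0000000c00000000 0x800000008000000180000000f0000003c00000010 4 6) 0 0 (step_sound _ 66 [(rh121397a93ef3afd3.shift 1 0), (rh53b3c253cb0c65f4.shift 0 2)] (by decide +kernel))
noncomputable def rh165dbd507babda64 : CRef := CRef.mk (Pat.mk 0x8000000080000000a0000001800000000 0x8000000080000003b0000001f00000004 4 6) 0 0 (step_sound _ 34 [(rh932754581e0f4330.shift 2 0), (rhd0ed6ce702d0de55.shift 0 1)] (by decide +kernel))
noncomputable def rhd830212f3f5feb56 : CRef := CRef.mk (Pat.mk 0x10000000120000001a000000030000000200000000 0x100000001a0000001a0000000b0000001e0000000c 4 5) 0 0 (step_sound _ 34 [rh3fc1b2455fa84f18, (rh55afc6a59410cf00.shift 1 0)] (by decide +kernel))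
noncomputable def rh4636d8947554fe71 : CRef := CRef.mk (Pat.mk 0x40000000e000000010000000000000000 0x400000004000000040000001e000000070000000200000002 4 5) 0 0 (step_sound _ 65 [(rh18965a982d73c794.shift 0 2), (rhcf80391c5046a495.shift 1 0)] (by decide +kernel))
noncomputable def rhd409ad6245f481f2 : CRef := CRef.mk (Pat.mk 0x800000008000000190000000800000000 0x8000000080000001b0000001f00000014 4 5) 0 0 (step_sound _ 34 [rh88444238f5d80176, (rh932754581e0f4330.shift 2 0)] (by decide +kernel))
noncomputable def rh5fb31cced3e2e440 : CRef := CRef.mk (Pat.mk 0xc0000001c000000080000000000000000 0x40000000c0000000c0000001c0000000f0000000600000004 4 5) 0 0 (step_sound _ 162 [(rh2145e1d24b96a57e.shift 2 2), rhc43c2d79be381ab2] (by decide +kernel))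
noncomputable def rh3dd04c196f70eb60 : CRef := CRef.mk (Pat.mk 0x600000006000000120000000800000000 0x6000000060000001a0000000f00000007 4 5) 0 0 (step_sound _ 33 [(rh71222050f2c63a3a.shift 1 0), rhf07568ca7607612e] (by decide +kernel))
noncomputable def rhaa65d48a25a1e631 : CRef := CRef.mk (Pat.mk 0x6000000020000001a0000000200000000 0x60000003f0000001b0000000200000002 4 6) 0 0 (step_sound _ 98 [(rh538191c675b00b35.shift 0 2), (rh71222050f2c63a3a.shift 1 0)] (by decide +kernel))
noncomputable def rhe53cd30921f5d00d : CRef := CRef.mk (Pat.mk 0xe00000004000000340000002400000000 0x100000001f0000003e000000340000002600000002 4 6) 0 0 (step_sound _ 33 [(rh2f2b90f0470456e4.shift 0 1), (rh932754581e0f4330.shift 1 0)] (by decide +kernel))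
noncomputable def rh89fa8203101ec029 : CRef := CRef.mk (Pat.mk 0x4000000140000003400000004 0xa0000000f0000001e0000003400000004 4 6) 0 0 (step_sound _ 67 [rh039efe07c35de3d4, (rhb739f4f82bb681b4.shift 1 1)] (by decide +kernel))
noncomputable def rh0fda8aa0520c2046 : CRef := CRef.mk (Pat.mk 0x400000034000000140000000400000000 0x4000000340000001e0000000f0000000a 4 6) 0 0 (step_sound _ 67 [(rh53b3c253cb0c65f4.shift 1 2), rhfbf2eae4035425b6] (by decide +kernel))
noncomputable def rheba11baa92df53a7 : CRef := CRef.mk (Pat.mk 0x40000000e000000010000000000000000 0x400000004000000060000001e000000030000000200000002 4 5) 0 0 (step_sound _ 65 [(rh18965a982d73c794.shift 0 2), (rhf9366b6a121593ef.shift 1 0)] (by decide +kernel))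
noncomputable def rh4464c1ac60871149 : CRef := CRef.mk (Pat.mk 0xe00000006000000030000000200000000 0x80000000e00000006000000070000001e0000000c 4 5) 0 0 (step_sound _ 34 [rh2853455034e02106, (rh55afc6a59410cf00.shift 1 0)] (by decide +kernel))
noncomputable def rhf52138b2abba0490 : CRef := CRef.mk (Pat.mk 0x8000000180000001e000000060000000000000000 0x60000001f0000001c0000001e0000000e0000000a00000008 4 5) 0 0 (step_sound _ 162 [(rh88b27e1475b6bec5.shift 1 2), (rhaeecc7287588a69b.shift 2 0), (rhfb0ed1b59f16e7bb.shift 0 1)] (by decide +kernel))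
noncomputable def rh126fa767d377009f : CRef := CRef.mk (Pat.mk 0xc0000000c000000100000001200000000 0x80000000c0000000c000000180000001f0000000c 4 5) 0 0 (step_sound _ 67 [(rh2145e1d24b96a57e.shift 3 1), rhd6a58b3dfd819371] (by decide +kernel))
noncomputable def rh303c77f7a1c96578 : CRef := CRef.mk (Pat.mk 0x180000008e0000000000000000 0x80000000800000018000000fe0000003700000010 4 8) 0 0 (step_sound _ 68 [(rhd89ac809456b9f74.shift 0 1), (rhea719cc8bd0bdd28.shift 1 0)] (by decide +kernel))
noncomputable def rh30692571948a20b7 : CRef := CRef.mk (Pat.mk 0x400000004000000080000001c00000000 0x4000000040000003f0000003f00000002 4 6) 0 0 (step_sound _ 66 [rha71afc656c87d410, (rhe2b63c00a3d7bb73.shift 0 1)] (by decide +kernel))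
noncomputable def rhb327c1a16f903a99 : CRef := CRef.mk (Pat.mk 0x400000004000000260000000400000000 0x400000004000000370000001e0000000a 4 6) 0 0 (step_sound _ 33 [rh8345db6d942cbb70, (rh932754581e0f4330.shift 1 0)] (by decide +kernel))
noncomputable def rh206c712a6cf53f05 : CRef := CRef.mk (Pat.mk 0x2000000006000000070000000600000000 0x80000003c00000006000000070000001e00000008 4 6) 0 0 (step_sound _ 35 [(rh625230e026c1189b.shift 1 0), (rhf48373e13d2bc128.shift 0 1)] (by decide +kernel))
noncomputable def rh19e0274e08a1e06d : CRef := CRef.mk (Pat.mk 0x8e0000001a 0x7000000fe0000001b 4 8) 0 0 (step_sound _ 36 [rh048a568a71929d31, rheb0810cc63b001d8] (by decide +kernel))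
noncomputable def rh621d707b746c8d85 : CRef := CRef.mk (Pat.mk 0x180000001a00000006000000000000000000000000 0x20000001f0000001b00000006000000060000000400000004 4 5) 0 0 (step_sound _ 161 [(rh086f6046fa319626.shift 0 4), (rh70e33bfdf511e144.shift 1 0)] (by decide +kernel))
noncomputable def rh72c11a6b449660d4 : CRef := CRef.mk (Pat.mk 0x1a0000009a00000000 0x1b000000fe00000007 4 8) 0 0 (step_sound _ 34 [(rh3244c3cc8379b070.shift 0 1), rhd89ac809456b9f74] (by decide +kernel))
noncomputable def rhcb13d5eb0d34c64c : CRef := CRef.mk (Pat.mk 0x60000000e0000001a0000000000000000 0x60000000e0000001a0000000f0000000e 4 5) 0 0 (step_sound _ 33 [rh2a18a8ec93879ad5, (rh71222050f2c63a3a.shift 1 0)] (by decide +kernel))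
noncomputable def rhf29347b59bdd5363 : CRef := CRef.mk (Pat.mk 0x1800000012000000030000000000000000 0x10000000180000001e0000000f0000000800000008 4 5) 0 0 (step_sound _ 99 [(rhb2a0b9ccfb5cecd5.shift 0 2), rhb9721bd954d8cfec] (by decide +kernel))
noncomputable def rhd4b284b9b74ef49c : CRef := CRef.mk (Pat.mk 0x80000001a0000001e000000020000000000000000 0x30000001f0000001a0000001e0000000e0000000c0000000c 4 5) 0 0 (step_sound _ 66 [(rh543d12d1ce2f400c.shift 0 2), (rh55a1f6c57a317ce6.shift 1 0), (rhe9ccaeb8e4b60a80.shift 2 0)] (by decide +kernel))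
noncomputable def rh4009421664267a20 : CRef := CRef.mk (Pat.mk 0x80000001a0000000e00000004 0x20000001f0000001b0000001e00000004 4 5) 0 0 (step_sound _ 97 [(rh2145e1d24b96a57e.shift 1 0), (rhbbae023e1eef1d4d.shift 0 1)] (by decide +kernel))
noncomputable def rhb1de7428f14a0f67 : CRef := CRef.mk (Pat.mk 0x34000000140000000e000000100000000000000000 0x2000000034000000140000001e000000170000000200000002 4 6) 0 0 (step_sound _ 100 [rh1e8d6e1ef30e2d92, (rh2f68792b6b779e96.shift 4 2)] (by decide +kernel))
noncomputable def rhed43c569f6d4e300 : CRef := CRef.mk (Pat.mk 0xa0000001800000018000000000000000000000000 0x40000001f0000001800000018000000080000000800000008 4 5) 0 0 (step_sound _ 162 [(rhaeecc7287588a69b.shift 2 0), (rhb739f4f82bb681b4.shift 0 4)] (by decide +kernel))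
noncomputable def rhc203f2247d99db91 : CRef := CRef.mk (Pat.mk 0x8000000180000001e00000006 0x30000000f0000001b0000001e00000006 4 5) 0 0 (step_sound _ 65 [(rh3244c3cc8379b070.shift 0 1), rh543d12d1ce2f400c] (by decide +kernel))
noncomputable def rh72ec092b6790b150 : CRef := CRef.mk (Pat.mk 0x1a0000000e00000006 0xe0000000f0000001a0000000e00000006 4 5) 0 0 (step_sound _ 97 [(rh2145e1d24b96a57e.shift 1 0), rh9fa40f28a4956172] (by decide +kernel))
noncomputable def rh81b7e492bbe9bc86 : CRef := CRef.mk (Pat.mk 0x2000000030000000200000002000000000000000000000000 0x20000000200000002000000030000000300000003000000030000000300000001 4 2) 0 0 (step_sound _ 65 [(rh7928877f9bf74a91.shift 0 1), (rhc4c6de062e376aad.shift 0 1), rhe4441baab75a6f73] (by decide +kernel))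
noncomputable def rhb90b092708b12638 : CRef := CRef.mk (Pat.mk 0x4000000050000000600000000 0x40000000400000004000000070000001e0000000a 4 5) 0 0 (step_sound _ 130 [rh4dbe158d8949f701, (rh932754581e0f4330.shift 1 0)] (by decide +kernel))
noncomputable def rhc5069345000a16e5 : CRef := CRef.mk (Pat.mk 0x1000000030000000140000001c00000002 0x80000001e00000034000000140000001e00000003 4 6) 0 0 (step_sound _ 33 [(rh5be47f9524d73d54.shift 1 0), rheb0810cc63b001d8] (by decide +kernel))
noncomputable def rh320e719a832634ce : CRef := CRef.mk (Pat.mk 0x400000008000000180000001e00000000 0x40000000f0000001b0000001e0000000a 4 5) 0 0 (step_sound _ 98 [(rh7b1f1fb55310c477.shift 2 0), rhe063894bee813cd5] (by decide +kernel))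
noncomputable def rh0e265529ce57de43 : CRef := CRef.mk (Pat.mk 0xc00000044000000040000000400000000 0x20000000f0000007c000000040000000400000004 4 7) 0 0 (step_sound _ 99 [(rh3347b70416d4b564.shift 0 1), (rh71222050f2c63a3a.shift 2 0)] (by decide +kernel))
noncomputable def rha57e27ffd18e5c84 : CRef := CRef.mk (Pat.mk 0x2000000020000000200000006000000020000000000000000 0x200000002000000020000000600000006000000030000000300000003 4 3) 0 0 (step_sound _ 130 [(rh2145e1d24b96a57e.shift 1 3), rh46530d756bdf8511] (by decide +kernel))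
noncomputable def rhc86e08a1a4264962 : CRef := CRef.mk (Pat.mk 0x20000000200000006000000060000000000000000 0x4000000060000000600000006000000070000000300000001 4 3) 0 0 (step_sound _ 162 [(rh2f68792b6b779e96.shift 1 2), rha7d9508cd8db1401] (by decide +kernel))
noncomputable def rhfb4b0c4778973b3d : CRef := CRef.mk (Pat.mk 0x200000002000000060000000600000000 0x50000000700000007000000060000000600000002 4 3) 0 0 (step_sound _ 130 [(rh2f68792b6b779e96.shift 1 1), rh3e596153592bbb27] (by decide +kernel))
noncomputable def rh006cf4540163ec52 : CRef := CRef.mk (Pat.mk 0x7000000030000001800000000 0x180000001f0000001b0000001800000010 4 5) 0 0 (step_sound _ 99 [(rh18965a982d73c794.shift 0 2), rh462e38951f77e0b1] (by decide +kernel))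
noncomputable def rh2c4176124d95c1a8 : CRef := CRef.mk (Pat.mk 0x2000000020000000600000006000000000000000000000000 0x2000000060000000600000007000000030000000300000003 4 3) 0 0 (step_sound _ 65 [rh46530d756bdf8511, (rh7928877f9bf74a91.shift 0 1), (rhea7a1800d6f053bd.shift 1 0)] (by decide +kernel))
noncomputable def rh66308995486c6adc : CRef := CRef.mk (Pat.mk 0x800000018000000380000000000000000 0x80000001f0000003f0000000700000004 4 6) 0 0 (step_sound _ 66 [(rhae036cc4ef671676.shift 1 0), (rhbe5fc5902345a0b9.shift 0 2), (rhcc2be1f880c5ea3e.shift 0 1)] (by decide +kernel))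
noncomputable def rhcb7ad7b81770003a : CRef := CRef.mk (Pat.mk 0x20000000300000003000000020000000000000000 0x200000002000000020000000300000003000000060000000600000006 4 3) 0 0 (step_sound _ 193 [(rh5c5e593799055d58.shift 0 3), rh820d4e04d5dcd02e] (by decide +kernel))
noncomputable def rh9f841c13ae1bbde2 : CRef := CRef.mk (Pat.mk 0x20000001a000000030000001000000000 0x50000000f0000001a000000030000001e00000004 4 5) 0 0 (step_sound _ 33 [(rh330a005829cdd297.shift 0 1), rhf8edb192cdea7ada] (by decide +kernel))
noncomputable def rh8ca955f0ffacb567 : CRef := CRef.mk (Pat.mk 0x1c000000180000000c00000004 0x20000001f0000001b0000000f00000004 4 5) 0 0 (step_sound _ 97 [rh9c846a23e89054fa, (rhb739f4f82bb681b4.shift 0 2)] (by decide +kernel))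
noncomputable def rhbfdf6b4e4f80c7c5 : CRef := CRef.mk (Pat.mk 0x100000000000000018000000030000000000000000 0x100000001000000010000000180000001f0000000800000008 4 5) 0 0 (step_sound _ 67 [(rh02ef15e22aa7db92.shift 3 0), (rh1c62b6193297d9e3.shift 0 2)] (by decide +kernel))
noncomputable def rh74e1e0c876e18749 : CRef := CRef.mk (Pat.mk 0x2000000030000000200000002000000020000000000000000 0x400000006000000030000000300000002000000060000000600000004 4 3) 0 0 (step_sound _ 194 [rh257d7200ab2a6828, (rh2f68792b6b779e96.shift 1 3)] (by decide +kernel))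
noncomputable def rhc296b91694a1b1e2 : CRef := CRef.mk (Pat.mk 0x60000000300000018000000080000000000000000 0x100000001e0000001300000018000000180000000800000008 4 5) 0 0 (step_sound _ 164 [(rh02ef15e22aa7db92.shift 3 0), (rh361cc68994bd8a63.shift 0 4)] (by decide +kernel))
noncomputable def rh454d8ac7255d5acb : CRef := CRef.mk (Pat.mk 0xa0000001a000000030000001000000000 0x10000000f0000001a000000030000001e00000004 4 5) 0 0 (step_sound _ 128 [rhb7ec845def264386, (rhc10214bf3fe8094a.shift 0 3)] (by decide +kernel))
noncomputable def rh43dacaa5d1728963 : CRef := CRef.mk (Pat.mk 0xa0000001a000000030000001000000000 0x40000000f0000001a000000030000001e00000004 4 5) 0 0 (step_sound _ 130 [rh4207619a77a8dc3c, (rhb739f4f82bb681b4.shift 0 3)] (by decide +kernel))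
noncomputable def rh5a4953a7a5c591a1 : CRef := CRef.mk (Pat.mk 0x600000004000000340000002400000020 0x180000003e00000017000000340000003400000020 4 6) 0 0 (step_sound _ 131 [rh2e3d6d9e5271d3d6, (rh2f68792b6b779e96.shift 2 1)] (by decide +kernel))
noncomputable def rh758e491264c39691 : CRef := CRef.mk (Pat.mk 0x20000000200000002000000030000001000000000 0x1000000030000000300000002000000030000001e00000004 4 5) 0 0 (step_sound _ 160 [(rh50fbb5868c909700.shift 0 2), rhfde929cdc02af4f4] (by decide +kernel))
noncomputable def rhb4ad15d6999021c8 : CRef := CRef.mk (Pat.mk 0x20000000200000002000000030000001000000000 0x4000000060000000600000002000000030000001e00000004 4 5) 0 0 (step_sound _ 162 [(rh2f68792b6b779e96.shift 1 2), rhd0d6cdfd26c03835] (by decide +kernel))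
noncomputable def rh58b55850b7852ac4 : CRef := CRef.mk (Pat.mk 0x1000000190000001100000011 0x80000000a0000000f000000190000001900000011 4 5) 0 0 (step_sound _ 97 [rh23625f181fa295a9, rh2f68792b6b779e96] (by decide +kernel))
noncomputable def rhd2b286e370d4a8f3 : CRef := CRef.mk (Pat.mk 0x600000002000000020000000000000000 0x50000000700000007000000020000000200000002 4 3) 0 0 (step_sound _ 33 [(rh2f68792b6b779e96.shift 1 1), rhffd0ff6f60fa3c9a] (by decide +kernel))
noncomputable def rh8edae1bea9ad1458 : CRef := CRef.mk (Pat.mk 0x600000006000000320000000600000000 0x600000006000000360000001f00000019 4 6) 0 0 (step_sound _ 35 [(rh3fc040e777f1679e.shift 1 1), rh8eae5ab75b2079be] (by decide +kernel))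
noncomputable def rh028809442a7beef4 : CRef := CRef.mk (Pat.mk 0x3000000030000000200000002 0x2000000060000000600000007000000030000000300000002 4 3) 0 0 (step_sound _ 130 [(rh3af666f171e8cb58.shift 0 1), (rhbaefcd01e0a8bca3.shift 1 0)] (by decide +kernel))
noncomputable def rh8334762365a0a050 : CRef := CRef.mk (Pat.mk 0x2000000060000000600000006 0xc0000003e000000070000000600000006 4 6) 0 0 (step_sound _ 98 [(rh5c5e593799055d58.shift 1 0), rh861ee9d7304b9753] (by decide +kernel))
noncomputable def rhc5c09fe147da0b41 : CRef := CRef.mk (Pat.mk 0x4000000060000000700000004 0x80000003c0000001f0000000700000004 4 6) 0 0 (step_sound _ 67 [(rh18965a982d73c794.shift 0 1), rhb974196174068d7d] (by decide +kernel))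
noncomputable def rh53defbd6160b1c0a : CRef := CRef.mk (Pat.mk 0x80000000e0000001a0000000800000000 0x40000000c0000000e0000001a0000000f00000006 4 5) 0 0 (step_sound _ 130 [(rh50fbb5868c909700.shift 2 1), rh7a5caf50380aa00f] (by decide +kernel))
noncomputable def rhd2e76835c45d2103 : CRef := CRef.mk (Pat.mk 0xf0000000c000000000000000000000000 0x8000000180000000f0000000c0000000c0000000400000004 4 5) 0 0 (step_sound _ 163 [(rh281c6819542c66e6.shift 2 0), (rh33e738c4ed385b9f.shift 0 4)] (by decide +kernel))
noncomputable def rh3b86b71807c2e412 : CRef := CRef.mk (Pat.mk 0x200000004000000070000000400000000 0x8000000080000000e0000003e000000070000000400000004 4 6) 0 0 (step_sound _ 99 [(rh215e11e099257d75.shift 2 0), (rh80f90a60d87caa0d.shift 0 2), (rhc705a4e0321a1bff.shift 1 0)] (by decide +kernel))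
noncomputable def rh516963541d5f8797 : CRef := CRef.mk (Pat.mk 0x400000005000000040000000400000000 0xa0000001e00000007000000040000000400000004 4 5) 0 0 (step_sound _ 129 [rh0a7b8a046be12bfe, (rh50fbb5868c909700.shift 1 1)] (by decide +kernel))
noncomputable def rh2bffe42818799cc9 : CRef := CRef.mk (Pat.mk 0x9a0000001a 0x70000000fe0000001b 4 8) 0 0 (step_sound _ 34 [(rh361215bab1155e5e.shift 1 0), rheb0810cc63b001d8] (by decide +kernel))
noncomputable def rha7ce9b621bac07ab : CRef := CRef.mk (Pat.mk 0x1a0000001a0000000000000000 0x10000000300000001e0000001b0000000800000008 4 6) 0 0 (step_sound _ 98 [(rh34b1188e635efc8d.shift 1 0), (rheb0810cc63b001d8.shift 0 2)] (by decide +kernel))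
noncomputable def rh9d16fcc6de9f79ad : CRef := CRef.mk (Pat.mk 0x10000000100000001a0000008c00000000 0x10000000100000001b000000ff00000020 4 8) 0 0 (step_sound _ 33 [(rh53b3c253cb0c65f4.shift 0 1), rhd1c4426d50152b76] (by decide +kernel))
noncomputable def rhdd862a2eaa76836b : CRef := CRef.mk (Pat.mk 0x20000000200000006000000020000000200000000 0x300000003000000030000000600000006000000020000000200000002 4 3) 0 0 (step_sound _ 130 [(rh71222050f2c63a3a.shift 1 0), (rh7b9fbdf6d2d059e4.shift 0 2)] (by decide +kernel))
noncomputable def rh78e525fbbf0c1cf1 : CRef := CRef.mk (Pat.mk 0x8e0000001a 0x70000000fe0000001b 4 8) 0 0 (step_sound _ 36 [(rh361215bab1155e5e.shift 1 0), rheb0810cc63b001d8] (by decide +kernel))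
noncomputable def rh833381308a6c8cf7 : CRef := CRef.mk (Pat.mk 0x1e000000100000000000000000 0x10000000300000001f000000180000000800000008 4 6) 0 0 (step_sound _ 132 [(rh33e738c4ed385b9f.shift 1 3), rh525b9792321e9079] (by decide +kernel))
noncomputable def rh6393c571f5ee53ef : CRef := CRef.mk (Pat.mk 0x1c0000000200000002 0x4000000070000003e0000000300000002 4 6) 0 0 (step_sound _ 65 [rh7b3460ecbfb1f98e, (rheb0810cc63b001d8.shift 0 1)] (by decide +kernel))
noncomputable def rh697471ba25650f84 : CRef := CRef.mk (Pat.mk 0xc0000000a000000180000000000000000 0x100000003c0000000f000000180000000800000008 4 6) 0 0 (step_sound _ 98 [(rh4e448da1f2ebc7c7.shift 1 0), (rhb739f4f82bb681b4.shift 0 2)] (by decide +kernel))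
noncomputable def rh30725b089a36a09f : CRef := CRef.mk (Pat.mk 0x2000000030000001a0000001200000010 0xc0000001e0000000b0000001a0000001a00000010 4 5) 0 0 (step_sound _ 130 [(rh2f68792b6b779e96.shift 1 1), rhb3cb3524985be5d0] (by decide +kernel))
noncomputable def rh2f7d45a89346db2c : CRef := CRef.mk (Pat.mk 0x20000001800000003000000000000000000000000 0x2000000020000001e00000003000000030000000100000001 4 5) 0 0 (step_sound _ 129 [rh281c6819542c66e6, (rhb2a0b9ccfb5cecd5.shift 0 3)] (by decide +kernel))
noncomputable def rh55c73d44b4618dfd : CRef := CRef.mk (Pat.mk 0x10000000e000000040000000000000000 0x200000002000000070000001e000000040000000400000004 4 5) 0 0 (step_sound _ 129 [(rhc2c7bae8f445c890.shift 1 0), (rhf48373e13d2bc128.shift 0 3)] (by decide +kernel))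
noncomputable def rh7551e4752fdd71e8 : CRef := CRef.mk (Pat.mk 0x8000000190000000800000008 0x140000001f0000001b0000000800000008 4 5) 0 0 (step_sound _ 98 [(rh50fbb5868c909700.shift 2 0), rhfe040d39a138ede2] (by decide +kernel))
noncomputable def rh277bb6ad403438ea : CRef := CRef.mk (Pat.mk 0x80000001c0000000c0000000000000000 0x4000000060000000f0000001c0000000c0000000c00000004 4 5) 0 0 (step_sound _ 34 [(rh59168b49c03abbdc.shift 0 1), (rh71222050f2c63a3a.shift 2 0)] (by decide +kernel))
noncomputable def rh452fb950e0614739 : CRef := CRef.mk (Pat.mk 0x8000000120000000600000006 0x70000000f0000001a0000000600000006 4 5) 0 0 (step_sound _ 97 [(rh2145e1d24b96a57e.shift 1 0), rh9da7ea51113f4f62] (by decide +kernel))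
noncomputable def rh7aabf6b85ac57c07 : CRef := CRef.mk (Pat.mk 0x20000001a0000000200000006 0x2000000020000001b0000003f00000006 4 6) 0 0 (step_sound _ 34 [(rh2145e1d24b96a57e.shift 1 0), rhbcdeaf385a0510d6] (by decide +kernel))
noncomputable def rh7e245d1360482e0d : CRef := CRef.mk (Pat.mk 0x2400000034000000040000000e00000000 0x200000026000000340000003e0000001f00000010 4 6) 0 0 (step_sound _ 129 [(rh50fbb5868c909700.shift 1 1), rhf248cd2f3686fd0f] (by decide +kernel))
noncomputable def rh972dbc07a0b18f2c : CRef := CRef.mk (Pat.mk 0x400000000000000000000001e00000000 0x400000004000000070000003e00000003 4 6) 0 0 (step_sound _ 65 [(rh3244c3cc8379b070.shift 0 1), rh5f2c415bfe1969e8] (by decide +kernel))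
noncomputable def rh7af235c0d499793a : CRef := CRef.mk (Pat.mk 0x10000000e000000040000000000000000 0x200000002000000030000001e000000060000000400000004 4 5) 0 0 (step_sound _ 129 [(rhc38f566cab2818e5.shift 1 0), (rhf48373e13d2bc128.shift 0 3)] (by decide +kernel))
noncomputable def rhe4bf60b8023fdb34 : CRef := CRef.mk (Pat.mk 0x200000003000000060000000e00000000 0xc0000001e00000007000000060000000e00000008 4 5) 0 0 (step_sound _ 130 [(rh2f68792b6b779e96.shift 1 1), rhc8042e18ce54d8f1] (by decide +kernel))
noncomputable def rh0d9382e6088855bc : CRef := CRef.mk (Pat.mk 0x1000000010000000000000003800000000 0x100000001000000010000000780000001f 4 7) 0 0 (step_sound _ 3 [(rh3c88ce959c0e423f.shift 3 0), rhf0f55c4504412200] (by decide +kernel))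
noncomputable def rh0487a6384922d21c : CRef := CRef.mk (Pat.mk 0x60000001e000000180000000800000000 0x80000000a0000000e0000001e0000001c0000001f00000006 4 5) 0 0 (step_sound _ 34 [(rh83e4086ccde87a9e.shift 1 0), (rhb69bc438e154a59a.shift 2 0), rhff637a26715c46ce] (by decide +kernel))
noncomputable def rha2ef5e791723ceeb : CRef := CRef.mk (Pat.mk 0x12000000100000000c0000000c00000000 0xc0000001f000000180000000c0000000c00000008 4 5) 0 0 (step_sound _ 99 [(rh2d13350b996028f0.shift 0 1), (rh71222050f2c63a3a.shift 3 0)] (by decide +kernel))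
noncomputable def rhd35359011c5dc39e : CRef := CRef.mk (Pat.mk 0x8e000000180000000000000000 0x1000000037000000fe000000180000000800000008 4 8) 0 0 (step_sound _ 100 [(rh048a568a71929d31.shift 0 2), (rh34b1188e635efc8d.shift 1 0)] (by decide +kernel))
noncomputable def rh51f1467e598c322f : CRef := CRef.mk (Pat.mk 0x4000000260000000400000004 0xa0000001e000000370000000400000004 4 6) 0 0 (step_sound _ 97 [rh4875fb3337fb6e60, (rh50fbb5868c909700.shift 1 0)] (by decide +kernel))
noncomputable def rh9cb13c23e4742c9d : CRef := CRef.mk (Pat.mk 0x600000007000000060000002000000000 0x80000001e00000007000000060000003c00000008 4 6) 0 0 (step_sound _ 131 [(rh18965a982d73c794.shift 0 3), (rh4207619a77a8dc3c.shift 1 0)] (by decide +kernel))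
noncomputable def rhafd6efcf336bc55c : CRef := CRef.mk (Pat.mk 0x1a0000008e00000000 0x1b000000fe00000007 4 8) 0 0 (step_sound _ 36 [(rh3244c3cc8379b070.shift 0 1), rhd89ac809456b9f74] (by decide +kernel))
noncomputable def rh1624a4bfbec88fde : CRef := CRef.mk (Pat.mk 0x60000001a0000001800000000 0x40000000400000006000000060000001b0000001f00000002 4 5) 0 0 (step_sound _ 33 [(rh215e11e099257d75.shift 1 0), (rh6e1685e3533aff0e.shift 0 1)] (by decide +kernel))
noncomputable def rh8142cb80c7cc6ba9 : CRef := CRef.mk (Pat.mk 0x9a0000001a 0x7000000fe0000001b 4 8) 0 0 (step_sound _ 34 [rh048a568a71929d31, rheb0810cc63b001d8] (by decide +kernel))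
noncomputable def rh64f890303e309f2d : CRef := CRef.mk (Pat.mk 0x3000000120000001800000000 0x8000000080000000f0000001e0000001800000010 4 5) 0 0 (step_sound _ 67 [(rh5419adcd928dba20.shift 0 2), rh69b7d5c51187046f] (by decide +kernel))
noncomputable def rh933f3ac7d57d09d8 : CRef := CRef.mk (Pat.mk 0x6000000060000000200000002 0x2000000030000000300000007000000060000000600000002 4 3) 0 0 (step_sound _ 128 [(rh52b6d936d37b9b6a.shift 0 1), rhffd04209dc8ea796] (by decide +kernel))
noncomputable def rhc37c11860256ba1f : CRef := CRef.mk (Pat.mk 0x20000001e0000001a0000000800000000 0xc0000000c0000000e0000001e0000001a0000001f00000003 4 5) 0 0 (step_sound _ 130 [(rh52b6d936d37b9b6a.shift 2 1), (rh84d1c02a8954c6a8.shift 1 1), rha120299dea79bd91] (by decide +kernel))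
noncomputable def rhf7fb508c4db37bd7 : CRef := CRef.mk (Pat.mk 0x40000000e0000001a0000000800000000 0x40000001e0000001b0000001f00000002 4 5) 0 0 (step_sound _ 33 [(rh71222050f2c63a3a.shift 1 0), (rhfb0c536c2898cf09.shift 0 1)] (by decide +kernel))
noncomputable def rhe243222b9392b392 : CRef := CRef.mk (Pat.mk 0x100000000e000000140000003400000000 0x200000002000000170000001e000000140000003400000020 4 6) 0 0 (step_sound _ 100 [(rh1c1037cb5b3fe471.shift 0 1), (rh55afc6a59410cf00.shift 4 0)] (by decide +kernel))
noncomputable def rh4a52ce5b87fe2b5a : CRef := CRef.mk (Pat.mk 0x18000000180000000a00000000 0x8000000080000000800000018000000180000001f00000004 4 5) 0 0 (step_sound _ 34 [(rh53b3c253cb0c65f4.shift 0 1), (rhb69bc438e154a59a.shift 2 0)] (by decide +kernel))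
noncomputable def rh57e49d4ee7cd34ec : CRef := CRef.mk (Pat.mk 0x60000001e000000180000000800000000 0x60000001e0000001b0000000f00000003 4 5) 0 0 (step_sound _ 65 [rha120299dea79bd91, (rheb0810cc63b001d8.shift 0 2)] (by decide +kernel))
noncomputable def rh8ff5e849f28319cc : CRef := CRef.mk (Pat.mk 0x20000000200000003000000020000000000000000 0x10000000300000003000000030000000300000003000000020000000200000002 4 2) 0 0 (step_sound _ 193 [rh1406cafceeeef6c2, (rh3ca48e2a6d60153d.shift 0 2), (rhe62cab2ff5ad6fe2.shift 0 3)] (by decide +kernel))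
noncomputable def rh5866ce709cbed5cc : CRef := CRef.mk (Pat.mk 0x600000005000000040000000000000000 0xa0000001e00000007000000040000000400000004 4 5) 0 0 (step_sound _ 34 [rh2120c2cf0ca2d550, (rh50fbb5868c909700.shift 1 1)] (by decide +kernel))
noncomputable def rha25b11d72c4a20a9 : CRef := CRef.mk (Pat.mk 0x20000001c00000014000000300000001000000000 0x30000001e00000014000000340000001e00000008 4 6) 0 0 (step_sound _ 129 [(rh3244c3cc8379b070.shift 0 4), (rhef14d2cb432b8636.shift 1 0)] (by decide +kernel))
noncomputable def rh8f69cb06f231bec3 : CRef := CRef.mk (Pat.mk 0x1e000000180000000800000004 0xa0000001e0000001b0000000f00000004 4 5) 0 0 (step_sound _ 34 [(rh5c5e593799055d58.shift 2 0), rh9c846a23e89054fa] (by decide +kernel))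
noncomputable def rh2ba2f6ef2c217e2c : CRef := CRef.mk (Pat.mk 0x200000002000000060000000e00000000 0x40000000600000006000000060000000f00000019 4 5) 0 0 (step_sound _ 32 [rh822a66c22e949fd4, rh932754581e0f4330] (by decide +kernel))
noncomputable def rh277593e967ce41e6 : CRef := CRef.mk (Pat.mk 0x2000000020000000700000006000000000000000000000000 0x2000000030000000700000007000000030000000300000002 4 3) 0 0 (step_sound _ 64 [(rh79877ebd3ef475dd.shift 0 2), rha3fcae8ae3aacc9d] (by decide +kernel))
noncomputable def rha650411bdb0e18aa : CRef := CRef.mk (Pat.mk 0x300000011000000130000001100000000 0x8000000080000000f0000001f0000001b0000001100000001 4 5) 0 0 (step_sound _ 99 [(rh23625f181fa295a9.shift 0 1), rhf4298d983bdb77d4] (by decide +kernel))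
noncomputable def rhc1389cfa6880b403 : CRef := CRef.mk (Pat.mk 0x80000001c000000340000001400000000 0x20000000f0000001c000000340000001e00000002 4 6) 0 0 (step_sound _ 33 [(rh1c62b6193297d9e3.shift 1 1), rh63481a5b9557685c] (by decide +kernel))
noncomputable def rh10fdd93ec2ad434c : CRef := CRef.mk (Pat.mk 0x80000001c000000300000000600000000 0x20000000f0000001c0000003c0000000600000002 4 6) 0 0 (step_sound _ 66 [rh63481a5b9557685c, (rhb2a0b9ccfb5cecd5.shift 1 1)] (by decide +kernel))
noncomputable def rh31009c83461f9eab : CRef := CRef.mk (Pat.mk 0x40000000c000000180000000a0000000200000000 0x40000000c0000001c0000001e0000003300000010 4 6) 0 0 (step_sound _ 66 [(rh3c88ce959c0e423f.shift 1 1), rhc9c4ae9ff9e4bb80] (by decide +kernel))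
noncomputable def rh7387ec55ffaa5dc8 : CRef := CRef.mk (Pat.mk 0x400000006000000180000000a00000000 0x4000000060000001f0000003b00000002 4 6) 0 0 (step_sound _ 65 [(rh71222050f2c63a3a.shift 1 0), (rhe32601bd65ae7334.shift 0 1)] (by decide +kernel))
noncomputable def rhe479c8b1c23ac11c : CRef := CRef.mk (Pat.mk 0x40000000c000000180000000e0000000000000000 0x40000000c0000001c0000001e0000003300000010 4 6) 0 0 (step_sound _ 33 [(rh3c88ce959c0e423f.shift 1 1), rhc9c4ae9ff9e4bb80] (by decide +kernel))
noncomputable def rh2b18b3bc5e226f06 : CRef := CRef.mk (Pat.mk 0x1a000000020000000600000000 0x50000000f0000001a000000020000000600000004 4 5) 0 0 (step_sound _ 129 [(rh330a005829cdd297.shift 0 1), (rh55afc6a59410cf00.shift 1 0)] (by decide +kernel))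
noncomputable def rhb9dd680bb9375a9f : CRef := CRef.mk (Pat.mk 0x1e000000040000000000000000 0x2000000030000001e000000070000000400000004 4 5) 0 0 (step_sound _ 65 [rh38a0850c9fea941e, (rheb0810cc63b001d8.shift 0 2)] (by decide +kernel))
noncomputable def rh8508eb63d8feaaff : CRef := CRef.mk (Pat.mk 0x120000000300000006000000000000000000000000 0x20000001e0000000300000006000000060000000400000004 4 5) 0 0 (step_sound _ 163 [(rh70e33bfdf511e144.shift 1 0), (rhb2a0b9ccfb5cecd5.shift 0 4)] (by decide +kernel))
noncomputable def rhfa40f754f1f7b88f : CRef := CRef.mk (Pat.mk 0x60000000200000002000000000000000000000000 0x4000000060000000200000002000000070000000700000005 4 3) 0 0 (step_sound _ 65 [(rh2f68792b6b779e96.shift 1 2), rh3181373a30ceb9e3] (by decide +kernel))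
noncomputable def rh3291de2d96fb8d58 : CRef := CRef.mk (Pat.mk 0x800000008000000380000000800000000 0x40000000c000000080000003c0000000f00000004 4 6) 0 0 (step_sound _ 130 [rh322e79f034282812, (rh50fbb5868c909700.shift 2 1)] (by decide +kernel))
noncomputable def rh771633e495961670 : CRef := CRef.mk (Pat.mk 0x80000003800000018000000000000000000000000 0x40000000f0000003c000000180000000c0000000c0000000c 4 6) 0 0 (step_sound _ 67 [(rh46530d756bdf8511.shift 2 0), (rh53509d91ff78ed56.shift 0 2), (rh674dd4f5f6cca5c0.shift 2 0)] (by decide +kernel))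
noncomputable def rhf18ba62d0c4d6338 : CRef := CRef.mk (Pat.mk 0xc000000440000000c0000000400000000 0x20000000f0000007c0000000c0000000400000004 4 7) 0 0 (step_sound _ 99 [(rh71222050f2c63a3a.shift 2 0), (rhbb501c45f07a70ba.shift 0 1)] (by decide +kernel))
noncomputable def rh9b400489e06189e2 : CRef := CRef.mk (Pat.mk 0xc000000080000000a0000000a00000002 0x100000001f0000000f0000000a0000000a00000002 4 5) 0 0 (step_sound _ 97 [rh27bdc6e92bdc33bb, (rhbaefcd01e0a8bca3.shift 1 0)] (by decide +kernel))
noncomputable def rh6790a55e80f40ed9 : CRef := CRef.mk (Pat.mk 0x1c00000008000000640000004400000040 0x220000007f0000003e000000640000006400000040 4 7) 0 0 (step_sound _ 98 [(rh23625f181fa295a9.shift 2 0), (rh2612b4f73ba7c3b3.shift 1 3), (rha6ec1fffe665b832.shift 0 1)] (by decide +kernel))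
noncomputable def rhd01055b3fe1764f7 : CRef := CRef.mk (Pat.mk 0x1c000000080000000400000004 0x20000003f0000003f0000000400000004 4 6) 0 0 (step_sound _ 66 [(rh4dc133ee0ba1420a.shift 0 2), rha6ec1fffe665b832] (by decide +kernel))
noncomputable def rh7af209439ba41089 : CRef := CRef.mk (Pat.mk 0x1000000018000000180000000800000000 0xc0000000c0000001f000000380000001c0000000c00000004 4 6) 0 0 (step_sound _ 131 [(rh7b9fbdf6d2d059e4.shift 2 1), (rh925a1628dd8a50da.shift 2 0), (rhc647a25a08ddf0ec.shift 0 1)] (by decide +kernel))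
noncomputable def rh35b4665b2842b167 : CRef := CRef.mk (Pat.mk 0x10000000380000001800000008 0x4000000040000003f0000003f0000001800000008 4 6) 0 0 (step_sound _ 66 [(rh1c1037cb5b3fe471.shift 1 0), (rh34517e326ddb5b25.shift 0 1), (rh71f2db6f0f8252e9.shift 0 1)] (by decide +kernel))
noncomputable def rh1c1fbe19b8c8ab54 : CRef := CRef.mk (Pat.mk 0xd0000000e0000000700000000 0xa0000001a0000000f0000000e0000000700000001 4 5) 0 0 (step_sound _ 131 [(rh5c5e593799055d58.shift 2 1), rh7aedaeecb64ec94c] (by decide +kernel))
noncomputable def rh938402d71b542cb1 : CRef := CRef.mk (Pat.mk 0x380000001c0000000000000000 0x4000000770000003f0000001c0000000800000008 4 7) 0 0 (step_sound _ 98 [(rh38a0850c9fea941e.shift 1 0), (rh71f2db6f0f8252e9.shift 0 2), (rhe25191970535449e.shift 0 2)] (by decide +kernel))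
noncomputable def rh7e4a2909218764e8 : CRef := CRef.mk (Pat.mk 0x1c00000008000000040000000600000000 0x20000001f0000003c000000040000000600000002 4 6) 0 0 (step_sound _ 98 [(rh932754581e0f4330.shift 1 0), (rha6ec1fffe665b832.shift 0 1)] (by decide +kernel))
noncomputable def rh114680e7a1ca66eb : CRef := CRef.mk (Pat.mk 0x100000001a0000000600000000 0x200000002000000330000001e0000000600000004 4 6) 0 0 (step_sound _ 66 [(rh33e738c4ed385b9f.shift 1 2), rhbdb8dfd08861fbf7] (by decide +kernel))
noncomputable def rh20c975f1626143e0 : CRef := CRef.mk (Pat.mk 0x20000000300000003000000100000000000000000 0x200000003000000030000001f0000000700000003 4 5) 0 0 (step_sound _ 32 [(rh9e3edb185cc347de.shift 0 1), rhdf3b7132ae87c72f] (by decide +kernel))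
noncomputable def rh7a700bf05d136a57 : CRef := CRef.mk (Pat.mk 0xe000000440000000800000008 0x700000003e0000006f0000000800000008 4 7) 0 0 (step_sound _ 100 [(rh1a48baf448afc5e7.shift 1 2), (rh4fc80024ed3db095.shift 1 0), (rhaf9f2efc81a8312b.shift 0 2)] (by decide +kernel))
noncomputable def rhe43b4aaaf26647b5 : CRef := CRef.mk (Pat.mk 0xe00000006000000020000000200000000 0x190000000f00000006000000060000000600000004 4 5) 0 0 (step_sound _ 128 [rh4522ea7bef838818, (rh50fbb5868c909700.shift 0 1)] (by decide +kernel))
noncomputable def rh2c7a27818daa572b : CRef := CRef.mk (Pat.mk 0x110000001300000011000000030000000000000000 0x1000000110000001b0000001f0000000f0000000800000008 4 5) 0 0 (step_sound _ 99 [(rh6abafb8c5a834d30.shift 0 2), rhc4713ca36c943a51] (by decide +kernel))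
noncomputable def rh573a4033e4c04025 : CRef := CRef.mk (Pat.mk 0x14000000340000001c0000000800000000 0x20000001e000000340000001c0000000f00000002 4 6) 0 0 (step_sound _ 129 [rh09d7875afd1d8601, (rhc10214bf3fe8094a.shift 1 3)] (by decide +kernel))
noncomputable def rh85272f69ef6f1f05 : CRef := CRef.mk (Pat.mk 0x6000000300000001c0000000800000000 0x2000000060000003c0000001c0000000f00000002 4 6) 0 0 (step_sound _ 98 [rh09d7875afd1d8601, (rh5419adcd928dba20.shift 1 3)] (by decide +kernel))
noncomputable def rhd8e0ede5418f9ab3 : CRef := CRef.mk (Pat.mk 0x20000000a000000180000000c00000004 0x10000000330000001e0000001c0000000c00000004 4 6) 0 0 (step_sound _ 98 [(rh2103f37c1c4a3564.shift 0 1), (rh2613c889e411427e.shift 1 0)] (by decide +kernel))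
noncomputable def rhad3bc24c2bfb5a3c : CRef := CRef.mk (Pat.mk 0xa000000180000000600000004 0x20000003b0000001f0000000600000004 4 6) 0 0 (step_sound _ 65 [(rh2145e1d24b96a57e.shift 1 0), (rhdb4b4dc20164ea80.shift 0 2)] (by decide +kernel))
noncomputable def rh387bce5bf9755530 : CRef := CRef.mk (Pat.mk 0xe000000180000000c00000004 0x10000000330000001e0000001c0000000c00000004 4 6) 0 0 (step_sound _ 129 [(rh2103f37c1c4a3564.shift 0 1), (rh2613c889e411427e.shift 1 0)] (by decide +kernel))
noncomputable def rh8ecfd56e19a4fe3c : CRef := CRef.mk (Pat.mk 0x6000000020000001a0000000000000000 0x400000006000000020000001a0000000f00000005 4 5) 0 0 (step_sound _ 33 [(rh2f68792b6b779e96.shift 1 1), rh36e6bb6cca6188da] (by decide +kernel))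
noncomputable def rh04029d7e2e3adf1c : CRef := CRef.mk (Pat.mk 0x40000001e0000000000000000 0x400000004000000070000001e0000000300000002 4 5) 0 0 (step_sound _ 97 [rh031a926e4a883687, (rh3244c3cc8379b070.shift 0 2)] (by decide +kernel))
noncomputable def rh82d79450ff36f4fe : CRef := CRef.mk (Pat.mk 0x6000000030000001200000000 0x4000000040000000600000006000000030000001e00000002 4 5) 0 0 (step_sound _ 35 [(rh215e11e099257d75.shift 1 0), (rh5419adcd928dba20.shift 0 1)] (by decide +kernel))
noncomputable def rhc0f6fe06378683f4 : CRef := CRef.mk (Pat.mk 0x2000000020000000600000000 0x5000000070000000700000002000000020000000600000004 4 3) 0 0 (step_sound _ 129 [(rh55afc6a59410cf00.shift 1 0), (rh7ef5fa5c39f1c762.shift 0 1)] (by decide +kernel))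
noncomputable def rh8292e11cff743ce0 : CRef := CRef.mk (Pat.mk 0x800000038000000080000000800000000 0x40000000f0000003c000000080000000c00000004 4 6) 0 0 (step_sound _ 34 [(rh53509d91ff78ed56.shift 0 1), (rh932754581e0f4330.shift 2 0)] (by decide +kernel))
noncomputable def rhf45ab07dedff8e50 : CRef := CRef.mk (Pat.mk 0x18000000380000000800000000 0xc0000000c0000000c000000180000003c0000000f00000004 4 6) 0 0 (step_sound _ 131 [rh322e79f034282812, (rh7b9fbdf6d2d059e4.shift 2 1), (rhbd1553ade3ecbf42.shift 2 0)] (by decide +kernel))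
noncomputable def rhe05257dad29a3298 : CRef := CRef.mk (Pat.mk 0x40000000c000000440000000c00000000 0x4000000040000000c0000007c0000000f00000002 4 7) 0 0 (step_sound _ 67 [(rh2145e1d24b96a57e.shift 2 1), rhc7bbce25984b10da] (by decide +kernel))
noncomputable def rh3847bd7367faf0ed : CRef := CRef.mk (Pat.mk 0x20000000a0000000a000000080000000c00000000 0x20000000a0000000a0000000f0000001f00000010 4 5) 0 0 (step_sound _ 65 [rh4fb3ab53827075f3, (rhd3458b32566d63f7.shift 1 1)] (by decide +kernel))
noncomputable def rh48736f10208f0e53 : CRef := CRef.mk (Pat.mk 0x400000004400000064000000080000001c00000000 0x4000000064000000640000003e0000007f00000022 4 7) 0 0 (step_sound _ 66 [rh672eaac2cc726467, (rh79b3c29022acbdf3.shift 1 1), (rhc4713ca36c943a51.shift 2 0)] (by decide +kernel))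
noncomputable def rh064b7adbe1cfe68f : CRef := CRef.mk (Pat.mk 0x400000004000000080000001c00000000 0x4000000040000003f0000003f00000002 4 6) 0 0 (step_sound _ 66 [rh672eaac2cc726467, (rhe2b63c00a3d7bb73.shift 0 1)] (by decide +kernel))
noncomputable def rhbd3bbf04399bfbf2 : CRef := CRef.mk (Pat.mk 0x80000001800000018000000100000000000000000 0x40000000c0000001c000000380000001f0000000c0000000c 4 6) 0 0 (step_sound _ 67 [(rh46530d756bdf8511.shift 2 0), (rh6fae963f33cfdfd7.shift 0 1), (rhdf997f77704b6375.shift 2 0)] (by decide +kernel))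
noncomputable def rhaa8d407810ab006e : CRef := CRef.mk (Pat.mk 0x80000001800000038000000100000000000000000 0x8000000180000003f0000003f0000000400000004 4 6) 0 0 (step_sound _ 98 [(rh0e1512cbacfbd48b.shift 0 2), (rh1e8d6e1ef30e2d92.shift 1 0), (rhf56e6bc5d2f7fe77.shift 0 2)] (by decide +kernel))
noncomputable def rh577cfffe9ccbe943 : CRef := CRef.mk (Pat.mk 0x1c000000380000000000000000 0x8000000080000001c0000003f0000007700000004 4 7) 0 0 (step_sound _ 66 [(rh031a926e4a883687.shift 1 0), (rh0e1512cbacfbd48b.shift 0 1), (rhe153806bfe3acc65.shift 0 1)] (by decide +kernel))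
noncomputable def rh96e9d4b88cd9f2e7 : CRef := CRef.mk (Pat.mk 0x600000004000000080000001c00000000 0x200000006000000040000003c0000001f00000002 4 6) 0 0 (step_sound _ 66 [(rh50fbb5868c909700.shift 1 1), rh672eaac2cc726467] (by decide +kernel))
noncomputable def rhc84abc3b64d5d36a : CRef := CRef.mk (Pat.mk 0x10000000030000000300000002 0x3000000070000001f000000030000000300000002 4 5) 0 0 (step_sound _ 128 [rh1c7ff5e3b9db7ee6, rh6f1cbe15c631ee70] (by decide +kernel))
noncomputable def rhaa949e9a0bbf6d6e : CRef := CRef.mk (Pat.mk 0x800000008000000440000000e00000000 0x8000000080000006f0000003e00000070 4 7) 0 0 (step_sound _ 36 [(rh49bdc49f6b132823.shift 1 0), (rhc13dbb2602bbcc3a.shift 1 0), (rhe3060b190bc0bc78.shift 0 1)] (by decide +kernel))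
noncomputable def rhe8cadfe0dda5d62d : CRef := CRef.mk (Pat.mk 0xc000000070000000600000000 0xc0000000c0000000c000000070000001e00000004 4 5) 0 0 (step_sound _ 36 [(rh2fe78cc5ca4405d8.shift 0 1), (rhcb109ba1167dd4ac.shift 1 0)] (by decide +kernel))
noncomputable def rh27cad864287abf00 : CRef := CRef.mk (Pat.mk 0x6000000030000001100000000 0x60000000600000006000000030000001f00000006 4 5) 0 0 (step_sound _ 129 [(rh5c5e593799055d58.shift 0 1), rh68687a86639d5bf7] (by decide +kernel))
noncomputable def rhee125f5a1648a3e2 : CRef := CRef.mk (Pat.mk 0x20000001a000000030000001000000000 0x50000000f0000001a000000030000001e00000004 4 5) 0 0 (step_sound _ 33 [(rh2f7aebebd7d680c3.shift 0 1), rhf8edb192cdea7ada] (by decide +kernel))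
noncomputable def rhbce3994acefff466 : CRef := CRef.mk (Pat.mk 0x800000008000000440000000e00000000 0x8000000080000006f0000003e00000070 4 7) 0 0 (step_sound _ 36 [(rh241ddf12d4fc9298.shift 1 1), (rh49bdc49f6b132823.shift 1 0), (rhc13dbb2602bbcc3a.shift 1 0), (rhe3060b190bc0bc78.shift 0 1)] (by decide +kernel))
noncomputable def rhd570a51be978f92b : CRef := CRef.mk (Pat.mk 0x2000000120000000300000002 0x50000000f0000001e0000000300000002 4 5) 0 0 (step_sound _ 67 [rh2f7aebebd7d680c3, (rhb2a0b9ccfb5cecd5.shift 0 1)] (by decide +kernel))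
noncomputable def rh361b7d07b7d79d82 : CRef := CRef.mk (Pat.mk 0x800000008000000080000000c00000000 0x800000008000000080000000f0000003c00000010 4 6) 0 0 (step_sound _ 36 [(rh25903f9c548d38bc.shift 0 1), (rh55afc6a59410cf00.shift 3 0)] (by decide +kernel))
noncomputable def rhbd4c2f053dfeea43 : CRef := CRef.mk (Pat.mk 0x700000003000000010000000000000000 0x50000000700000003000000030000000300000003 4 3) 0 0 (step_sound _ 32 [rh62be5c716da4c399, rh71222050f2c63a3a] (by decide +kernel))
noncomputable def rh3d6958a8460625bc : CRef := CRef.mk (Pat.mk 0xc0000000e000000160000000200000000 0x20000000e0000000e0000001e0000000700000005 4 5) 0 0 (step_sound _ 34 [rh2ad8311df70a0c9d, (rh71222050f2c63a3a.shift 2 0)] (by decide +kernel))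
noncomputable def rh0e8127070d63b4a2 : CRef := CRef.mk (Pat.mk 0xc0000001c000000080000001c 0x20000000f0000001c0000000f0000003c 4 6) 0 0 (step_sound _ 97 [(rhb739f4f82bb681b4.shift 0 2), rhd7f3a10f6d82f74f] (by decide +kernel))
noncomputable def rh18ac09fdec8bd05d : CRef := CRef.mk (Pat.mk 0x600000004000000080000001c 0x200000006000000040000001f0000007c 4 7) 0 0 (step_sound _ 34 [(rh50fbb5868c909700.shift 1 0), rh5c5a2014709044d0] (by decide +kernel))
noncomputable def rh5c6621e072cc1b67 : CRef := CRef.mk (Pat.mk 0x40000000e0000001c000000080000000000000000 0x60000000e0000001c0000000f0000000600000006 4 5) 0 0 (step_sound _ 66 [(rh40241bd608e5be1a.shift 1 0), (rh46530d756bdf8511.shift 1 0), (rhf5094ad2a427d4d3.shift 0 1)] (by decide +kernel))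
noncomputable def rha8bcb4927b3d3cd5 : CRef := CRef.mk (Pat.mk 0x180000001c0000000000000000 0x800000008000000180000001f0000003000000010 4 6) 0 0 (step_sound _ 65 [(rh53b3c253cb0c65f4.shift 0 2), (rhea719cc8bd0bdd28.shift 1 0)] (by decide +kernel))
noncomputable def rh934c2297862cf801 : CRef := CRef.mk (Pat.mk 0x6000000070000000c0000000000000000 0x40000001e000000070000000c0000000c0000000c 4 5) 0 0 (step_sound _ 132 [(rh361cc68994bd8a63.shift 0 3), (rhb8f06d94c10886cc.shift 1 0)] (by decide +kernel))
noncomputable def rha47388d92edd01b5 : CRef := CRef.mk (Pat.mk 0x1100000003000000060000000000000000 0x60000001f00000003000000060000000600000006 4 5) 0 0 (step_sound _ 33 [rh3d41e0ca9aad28d1, rh7b1f1fb55310c477] (by decide +kernel))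
noncomputable def rh0bbbf9a67ed808e0 : CRef := CRef.mk (Pat.mk 0x10000000030000001a0000000200000000 0x40000001e000000030000001a0000000f00000005 4 5) 0 0 (step_sound _ 129 [(rh04e571695666b5c1.shift 0 1), rhd630af2e39ca770f] (by decide +kernel))
noncomputable def rhc3a9559c72b00d0b : CRef := CRef.mk (Pat.mk 0xc00000008000000040000000600000000 0x20000000f0000003c000000040000000600000002 4 6) 0 0 (step_sound _ 98 [(rh932754581e0f4330.shift 1 0), (rhcf85c92937975d4d.shift 0 1)] (by decide +kernel))
noncomputable def rh63f440de99f9a65b : CRef := CRef.mk (Pat.mk 0xe000000440000000800000008 0x700000003e0000006f0000000800000008 4 7) 0 0 (step_sound _ 100 [(rh1a48baf448afc5e7.shift 1 2), (rh4fc80024ed3db095.shift 1 0), (rhaf9f2efc81a8312b.shift 0 2), (rhe80c67fb403a51c5.shift 1 2)] (by decide +kernel))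
noncomputable def rhc4e3c40b2115f7d4 : CRef := CRef.mk (Pat.mk 0x200000003000000120000000200000000 0x2000000030000001e0000000f00000005 4 5) 0 0 (step_sound _ 67 [(rh5419adcd928dba20.shift 0 2), rhd630af2e39ca770f] (by decide +kernel))
noncomputable def rh779905d92e259b46 : CRef := CRef.mk (Pat.mk 0x2000000160000000e0000000c00000000 0x5000000070000001e0000000e0000000e00000002 4 5) 0 0 (step_sound _ 130 [(rh2145e1d24b96a57e.shift 2 1), rhd551ee6f42a89349] (by decide +kernel))
noncomputable def rh376ceaca89a17906 : CRef := CRef.mk (Pat.mk 0x1c000000080000001c0000000c00000000 0x3c0000000f0000001c0000000f00000002 4 6) 0 0 (step_sound _ 33 [(rh53b3c253cb0c65f4.shift 0 1), rh7f7f6204a9220ffe] (by decide +kernel))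
noncomputable def rh306af9a6dde1f05a : CRef := CRef.mk (Pat.mk 0x1c00000008000000040000000600000000 0x7c0000001f000000040000000600000002 4 7) 0 0 (step_sound _ 98 [(rh69012675dfdb1a5b.shift 0 3), (rh932754581e0f4330.shift 1 0)] (by decide +kernel))
noncomputable def rh236fbfb40f14a851 : CRef := CRef.mk (Pat.mk 0x80000001c0000000e00000004 0x6000000060000000f0000001c0000000e00000006 4 5) 0 0 (step_sound _ 98 [rh277b01412deaec89, (rh37d9ceebb86d75d1.shift 1 0), (rh7b9fbdf6d2d059e4.shift 1 0)] (by decide +kernel))
noncomputable def rh8d364617c03d6975 : CRef := CRef.mk (Pat.mk 0x1c000000180000000000000000 0x10000000300000001f000000180000000800000008 4 6) 0 0 (step_sound _ 97 [(rh34b1188e635efc8d.shift 1 0), (rhb739f4f82bb681b4.shift 0 2)] (by decide +kernel))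
noncomputable def rh0932b8145dafe2b1 : CRef := CRef.mk (Pat.mk 0x20000001e000000000000000000000000 0x4000000060000003e000000030000000200000002 4 6) 0 0 (step_sound _ 130 [rh9a011a4d0ec8f646, (rhf48373e13d2bc128.shift 1 3)] (by decide +kernel))
noncomputable def rh89d9db27e43334f5 : CRef := CRef.mk (Pat.mk 0x240000003c0000001c0000000800000000 0x20000000280000002c0000003c0000001c0000000f00000006 4 6) 0 0 (step_sound _ 165 [(rh5c5e593799055d58.shift 4 2), rh7321b9a4d1c59bb1] (by decide +kernel))
noncomputable def rhb10f4d24ac97a26c : CRef := CRef.mk (Pat.mk 0x3c0000001c0000000400000000 0x60000003c0000001c0000000f0000000a 4 6) 0 0 (step_sound _ 130 [rh2c57b4404ea586d3, (rh3244c3cc8379b070.shift 1 3)] (by decide +kernel))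
noncomputable def rh04b16dac58336647 : CRef := CRef.mk (Pat.mk 0x800000008000000100000003800000000 0x8000000080000003e0000007f00000004 4 7) 0 0 (step_sound _ 67 [rh6fae963f33cfdfd7, (rhe2b63c00a3d7bb73.shift 1 1)] (by decide +kernel))
noncomputable def rh96b6bfc5eaf98210 : CRef := CRef.mk (Pat.mk 0x1a0000000e000000020000000000000000 0xb0000000b0000001e0000000e000000060000000400000004 4 5) 0 0 (step_sound _ 66 [(rh4821dcf828b9d7bf.shift 2 0), (rh55a1f6c57a317ce6.shift 1 0), (rh9dc6f17ef8893ffe.shift 0 2), (rha40d42a2e34c408d.shift 1 0)] (by decide +kernel))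
noncomputable def rh8689dfc46ad8ea14 : CRef := CRef.mk (Pat.mk 0x40000004c0000000c00000000 0x400000004000000040000007c0000000f00000002 4 7) 0 0 (step_sound _ 130 [(rh2145e1d24b96a57e.shift 2 1), rh95ef0526c2b625f5] (by decide +kernel))
noncomputable def rh2cbd2c3a155e12b7 : CRef := CRef.mk (Pat.mk 0x4000000100000001c00000006 0x600000006000000330000001e00000006 4 6) 0 0 (step_sound _ 33 [(rh33e738c4ed385b9f.shift 1 1), rhc6719c6594e47b00] (by decide +kernel))
noncomputable def rh3e039e30505c062d : CRef := CRef.mk (Pat.mk 0x1c000000080000000400000004 0x30000001f0000003b0000000600000004 4 6) 0 0 (step_sound _ 97 [rh483fbfd538e8380f, (rha03f6e28ea70fc7d.shift 0 2)] (by decide +kernel))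
noncomputable def rh4876ea08c31b92ca : CRef := CRef.mk (Pat.mk 0x600000004000000340000002400000020 0x180000001f0000001e000000340000003400000020 4 6) 0 0 (step_sound _ 131 [(rh2f68792b6b779e96.shift 2 1), rh4e1369133eb00a3f] (by decide +kernel))
noncomputable def rh66be565731889092 : CRef := CRef.mk (Pat.mk 0x40000000c000000180000000c00000000 0x40000000f0000001e0000000f00000002 4 5) 0 0 (step_sound _ 33 [(rh53b3c253cb0c65f4.shift 0 1), rh57ea04170973c7f1] (by decide +kernel))
noncomputable def rh6a4d800e94adb468 : CRef := CRef.mk (Pat.mk 0x1c00000008000000180000001e00000000 0x3c0000000f0000001c0000001e00000003 4 6) 0 0 (step_sound _ 1 [rhb340e97fdb5cfa29, rheb0810cc63b001d8] (by decide +kernel))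
noncomputable def rh0a7d651e6a98f2cf : CRef := CRef.mk (Pat.mk 0x80000001c0000003c000000240000000000000000 0x60000000f0000001c0000003c0000002c0000002800000020 4 6) 0 0 (step_sound _ 37 [(rh4947bc9d4fc7738a.shift 0 1), (rh7b1f1fb55310c477.shift 4 0)] (by decide +kernel))
noncomputable def rh76193cbf6b71e3ce : CRef := CRef.mk (Pat.mk 0x40000001c0000003c00000000 0xa0000000f0000001c0000003c00000006 4 6) 0 0 (step_sound _ 2 [rh2b8d30a06730aa00, (rheb0810cc63b001d8.shift 1 0)] (by decide +kernel))
noncomputable def rhe81c66e6b97ae1e3 : CRef := CRef.mk (Pat.mk 0x20000000e0000001a0000000000000000 0x400000004000000060000000e0000001e0000000b0000000b 4 5) 0 0 (step_sound _ 130 [(rh5d54cb79a67f97ab.shift 2 0), (rh84d1c02a8954c6a8.shift 1 1), (rhadf429772c25fde0.shift 1 0), rhe58a7845769190f3] (by decide +kernel))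
noncomputable def rha5be3a9dbf35f82f : CRef := CRef.mk (Pat.mk 0xc0000004c000000040000000000000000 0x20000000f0000007c000000040000000400000004 4 7) 0 0 (step_sound _ 34 [(rh71222050f2c63a3a.shift 2 0), (rh8a705ddac9c6681e.shift 0 1)] (by decide +kernel))
noncomputable def rhf46eab6356bde13e : CRef := CRef.mk (Pat.mk 0x60000001c000000100000000400000000 0x60000001e000000330000000600000006 4 6) 0 0 (step_sound _ 97 [rh057b4130fe0cd6b1, (rhe25b0a99195a5d59.shift 1 2)] (by decide +kernel))
noncomputable def rh3502d92c6cce609b : CRef := CRef.mk (Pat.mk 0x2000000020000000300000003000000000000000000000000 0x400000006000000070000000300000003000000020000000200000002 4 3) 0 0 (step_sound _ 194 [(rh2f68792b6b779e96.shift 1 3), rhbd49d23711322180] (by decide +kernel))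
noncomputable def rh1d9b563ceb4b1ed0 : CRef := CRef.mk (Pat.mk 0x400000004000000080000001c00000000 0x4000000060000003b0000001f00000003 4 6) 0 0 (step_sound _ 33 [rhc93f3ad81bc3b393, (rhec46bd5500c722c9.shift 0 1)] (by decide +kernel))
noncomputable def rha5a496d8a2ce15d5 : CRef := CRef.mk (Pat.mk 0x200000002400000034000000040000000600000000 0x2000000034000000340000001e0000001f00000018 4 6) 0 0 (step_sound _ 35 [rh519668b03a22ca50, (rh55afc6a59410cf00.shift 2 0)] (by decide +kernel))
noncomputable def rh6fb36688710dc1cc : CRef := CRef.mk (Pat.mk 0x1e00000018000000080000001c 0x30000001e0000001c0000000f0000003c 4 6) 0 0 (step_sound _ 129 [rh2d19837779e46d10, (rh3244c3cc8379b070.shift 0 3)] (by decide +kernel))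
noncomputable def rh69c106917011e488 : CRef := CRef.mk (Pat.mk 0x1a0000008c00000004 0x1b000000ff00000006 4 8) 0 0 (step_sound _ 33 [rh307639ad70b4c542, (rh53b3c253cb0c65f4.shift 0 1)] (by decide +kernel))
noncomputable def rh0109c1f5b269e043 : CRef := CRef.mk (Pat.mk 0x2000000034 0x770000003e 4 7) 0 0 (step_sound _ 3 [(rh33e738c4ed385b9f.shift 2 0), rh7fb660bc21ce4329] (by decide +kernel))
noncomputable def rh2f487d89e467c1ec : CRef := CRef.mk (Pat.mk 0xe000000180000000e00000004 0x10000000330000001e0000001a0000000e00000004 4 6) 0 0 (step_sound _ 129 [(rh2103f37c1c4a3564.shift 0 1), (rhff0f29cb645b05f7.shift 1 0)] (by decide +kernel))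
noncomputable def rh5d9b544e5d59a29d : CRef := CRef.mk (Pat.mk 0x380000001800000008 0x4000000070000003f0000001f00000008 4 6) 0 0 (step_sound _ 66 [(rh71f2db6f0f8252e9.shift 0 1), (rhb14e2588a8d71db8.shift 0 1), (rhe4f9133a81c1dbc5.shift 1 0)] (by decide +kernel))
noncomputable def rhc5b3fe51a0686e3b : CRef := CRef.mk (Pat.mk 0xc0000001c0000000e0000000000000000 0x40000000c0000001c0000001e0000003300000010 4 6) 0 0 (step_sound _ 33 [(rh5c5e593799055d58.shift 1 1), rhc9c4ae9ff9e4bb80] (by decide +kernel))
noncomputable def rhee7dc6826bc99ade : CRef := CRef.mk (Pat.mk 0x40000001e000000000000000000000000 0x400000004000000060000001e000000030000000200000002 4 5) 0 0 (step_sound _ 65 [(rheb0810cc63b001d8.shift 0 2), (rhf9366b6a121593ef.shift 1 0)] (by decide +kernel))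
noncomputable def rha7e63793ac992cd7 : CRef := CRef.mk (Pat.mk 0xe0000000c000000180000000800000000 0x20000000e0000000c0000001c0000000f00000006 4 5) 0 0 (step_sound _ 34 [(rh932754581e0f4330.shift 2 0), rhff637a26715c46ce] (by decide +kernel))
noncomputable def rhbd1729a7c00d4f1f : CRef := CRef.mk (Pat.mk 0x380000001800000010 0x2000000020000000770000003f0000001800000010 4 7) 0 0 (step_sound _ 66 [(rh49606a42a30c7ac4.shift 2 0), (rhba89ab7cb81bcc90.shift 0 1), (rhe25191970535449e.shift 0 1)] (by decide +kernel))
noncomputable def rhff426caa39996863 : CRef := CRef.mk (Pat.mk 0x100000000e0000000400000004 0x200000002000000330000001e0000000600000004 4 6) 0 0 (step_sound _ 68 [(rh33e738c4ed385b9f.shift 1 2), rh768a472a1ebe455c] (by decide +kernel))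
noncomputable def rhee2f2527188aceae : CRef := CRef.mk (Pat.mk 0x180000001e000000180000000000000000 0x180000001e0000001f0000003000000030 4 6) 0 0 (step_sound _ 36 [(rh7b1f1fb55310c477.shift 3 0), rhc1307820daa2ac22] (by decide +kernel))
noncomputable def rhc2ab03e1b0c4d423 : CRef := CRef.mk (Pat.mk 0x10000000180000001a00000012 0x20000000300000001f0000001e00000013 4 6) 0 0 (step_sound _ 34 [rheb0810cc63b001d8, rhf9bd4bdd448a5193] (by decide +kernel))
noncomputable def rh15def365646b8c1c : CRef := CRef.mk (Pat.mk 0x1a000000020000000200000000 0x400000004000000060000001e000000030000000200000002 4 5) 0 0 (step_sound _ 98 [(rh215e11e099257d75.shift 1 0), (rheb0810cc63b001d8.shift 0 2)] (by decide +kernel))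
noncomputable def rh95038703d14cdbe3 : CRef := CRef.mk (Pat.mk 0x80000001c0000000e0000000c 0x120000003b0000001e0000000e0000000c 4 6) 0 0 (step_sound _ 100 [(rh2f68792b6b779e96.shift 3 0), rha91d406a344da597] (by decide +kernel))
noncomputable def rh83f358df21e4124f : CRef := CRef.mk (Pat.mk 0x80000004c0000000c00000008 0x10000000380000007f0000000c00000008 4 7) 0 0 (step_sound _ 100 [(rh2f68792b6b779e96.shift 3 0), (rhe3129cd3008827ba.shift 0 1)] (by decide +kernel))
noncomputable def rh0319fff1212f577b : CRef := CRef.mk (Pat.mk 0x20000000200000002000000020000000200000002 0x100000003000000030000000600000006000000060000000200000002 4 3) 0 0 (step_sound _ 98 [(rh2f68792b6b779e96.shift 1 0), (rh3da62da861143b9a.shift 0 2)] (by decide +kernel))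
noncomputable def rh654a5d57fd8b9734 : CRef := CRef.mk (Pat.mk 0xe00000006000000020000000200000000 0x190000000f00000006000000060000000600000004 4 5) 0 0 (step_sound _ 34 [(rh55afc6a59410cf00.shift 1 0), (rheb3b918c0e59493a.shift 0 1)] (by decide +kernel))
noncomputable def rhd79951b7e7cb3972 : CRef := CRef.mk (Pat.mk 0x40000008c0000001a 0x6000000ff0000001b 4 8) 0 0 (step_sound _ 33 [rh0cd737db2dac9aa8, rhb739f4f82bb681b4] (by decide +kernel))
noncomputable def rhc53f9fe7f57ba697 : CRef := CRef.mk (Pat.mk 0x40000000e000000180000000e0000000000000000 0x40000000e0000001a0000001e0000003300000010 4 6) 0 0 (step_sound _ 33 [(rh04253f50b6dd0619.shift 1 1), rhc9c4ae9ff9e4bb80] (by decide +kernel))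
noncomputable def rh1ee6fca8f7941981 : CRef := CRef.mk (Pat.mk 0x800000018000000380000000000000000 0x80000001f0000003f0000000700000004 4 6) 0 0 (step_sound _ 66 [(rh0e1512cbacfbd48b.shift 0 1), (rhae036cc4ef671676.shift 1 0), (rhbe5fc5902345a0b9.shift 0 2)] (by decide +kernel))
noncomputable def rh7047dba8614dda66 : CRef := CRef.mk (Pat.mk 0xe0000001c0000000c00000000 0x10000000330000001e0000001c0000000c00000004 4 6) 0 0 (step_sound _ 129 [(rh2103f37c1c4a3564.shift 0 1), (rh7b1f1fb55310c477.shift 1 0)] (by decide +kernel))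
noncomputable def rh227a46cdd402ca16 : CRef := CRef.mk (Pat.mk 0x8000000180000000c0000000e00000000 0x60000000f0000001c0000000c0000000e00000002 4 5) 0 0 (step_sound _ 130 [(rh50fbb5868c909700.shift 2 1), rhfb0ed1b59f16e7bb] (by decide +kernel))
noncomputable def rha18e7c91109963bc : CRef := CRef.mk (Pat.mk 0x100000001800000038000000000000000000000000 0x10000000180000003f000000770000002000000020 4 7) 0 0 (step_sound _ 98 [(rhc7b95363f9049b11.shift 2 0), (rhcc2be1f880c5ea3e.shift 0 2), (rhe153806bfe3acc65.shift 0 2)] (by decide +kernel))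
noncomputable def rhf7703d9737976b13 : CRef := CRef.mk (Pat.mk 0x4000000040000000e000000100000000000000000 0x4000000060000001e000000330000000200000002 4 6) 0 0 (step_sound _ 100 [rhd1474a84c69f0140, (rhe25b0a99195a5d59.shift 1 2)] (by decide +kernel))
noncomputable def rh62ff3fbd6319a3bd : CRef := CRef.mk (Pat.mk 0x120000001a000000180000001000000000 0x130000001e0000001f0000003000000020 4 6) 0 0 (step_sound _ 98 [(rh3244c3cc8379b070.shift 0 3), rhc1307820daa2ac22] (by decide +kernel))
noncomputable def rh2090ae2add1536ae : CRef := CRef.mk (Pat.mk 0xc0000000e0000001c0000000800000000 0xc0000000e0000001e0000003b00000012 4 6) 0 0 (step_sound _ 36 [(rh55afc6a59410cf00.shift 3 0), rh593d20ba42f5a889] (by decide +kernel))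
noncomputable def rh85b49f3bce2e594d : CRef := CRef.mk (Pat.mk 0x80000000c0000004c0000000800000000 0x80000000c0000007f0000003800000010 4 7) 0 0 (step_sound _ 36 [(rh55afc6a59410cf00.shift 3 0), (rhca2f8e4ecd08d7b4.shift 0 1)] (by decide +kernel))
noncomputable def rh612ef52cf48a41cc : CRef := CRef.mk (Pat.mk 0x200000002000000060000000e00000000 0x40000000600000006000000060000000f00000019 4 5) 0 0 (step_sound _ 130 [(rh2f68792b6b779e96.shift 1 1), rhd55fa0ee8b79702e] (by decide +kernel))
noncomputable def rhbc82adaadbf2c16f : CRef := CRef.mk (Pat.mk 0x80000001c0000000c0000000800000000 0x60000000f0000001c0000000c0000000c00000004 4 5) 0 0 (step_sound _ 130 [(rh50fbb5868c909700.shift 2 1), rhda49d08e88765cc3] (by decide +kernel))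
noncomputable def rh4f6041012a992d1e : CRef := CRef.mk (Pat.mk 0xc0000000e000000180000000c00000000 0x80000000c0000000e0000001b0000001f00000002 4 5) 0 0 (step_sound _ 33 [rh37ad459c936cd724, (rh53b3c253cb0c65f4.shift 0 1)] (by decide +kernel))
noncomputable def rh3123287b48aef0cd : CRef := CRef.mk (Pat.mk 0xc0000000e000000180000000800000000 0xc0000000e0000001e0000000f00000006 4 5) 0 0 (step_sound _ 34 [(rh932754581e0f4330.shift 2 0), rhebbf0f79de50f641] (by decide +kernel))
noncomputable def rhdbafaf79daddd1d6 : CRef := CRef.mk (Pat.mk 0x2000000020000000700000006000000000000000000000000 0x400000006000000070000000700000006000000020000000200000002 4 3) 0 0 (step_sound _ 194 [(rh2f68792b6b779e96.shift 1 3), rhd9907c6fa023d767] (by decide +kernel))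
noncomputable def rh13f8617d7544d4b1 : CRef := CRef.mk (Pat.mk 0x180000001a0000000c00000004 0x20000001f0000001b0000000f00000004 4 5) 0 0 (step_sound _ 33 [rh2505e37b28f90391, (rh53b3c253cb0c65f4.shift 0 1)] (by decide +kernel))
noncomputable def rhc0f6a93bf472824a : CRef := CRef.mk (Pat.mk 0x8000000080000001c0000000800000000 0x40000000c000000080000001f0000003800000010 4 6) 0 0 (step_sound _ 130 [(rh50fbb5868c909700.shift 2 1), rhdd954a6f2f77cc64] (by decide +kernel))
noncomputable def rhe21cf8b1df011734 : CRef := CRef.mk (Pat.mk 0xc0000000e000000180000000c00000000 0xc0000000e0000001b0000001f00000012 4 5) 0 0 (step_sound _ 33 [(rh53b3c253cb0c65f4.shift 0 1), rh8d866a3334050d5c] (by decide +kernel))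
noncomputable def rh4edb157f09354d7e : CRef := CRef.mk (Pat.mk 0x1c0000001c000000080000000800000000 0x30000001f0000001c0000000c0000000c00000004 4 5) 0 0 (step_sound _ 34 [(rh8f4c920c37cd7688.shift 0 1), (rh932754581e0f4330.shift 2 0)] (by decide +kernel))
noncomputable def rh501207f89dcab93e : CRef := CRef.mk (Pat.mk 0x8000000180000000e0000000c 0x60000000f0000001e0000000e0000000c 4 5) 0 0 (step_sound _ 98 [rh3cb659a608caaffd, (rh50fbb5868c909700.shift 2 0)] (by decide +kernel))
noncomputable def rh24a34f35aea5db15 : CRef := CRef.mk (Pat.mk 0x4000000260000000600000000 0x40000000400000004000000370000001e00000008 4 6) 0 0 (step_sound _ 130 [(rh5c5e593799055d58.shift 1 1), rh8345db6d942cbb70] (by decide +kernel))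
noncomputable def rh8a1f0403f6889c03 : CRef := CRef.mk (Pat.mk 0x1e00000000000000000000001e00000000 0x1e00000007000000030000001e00000003 4 5) 0 0 (step_sound _ 97 [rh8273eedc182e6139, (rheb0810cc63b001d8.shift 0 3)] (by decide +kernel))
noncomputable def rhc355bcc39d2b9dce : CRef := CRef.mk (Pat.mk 0x80000000c0000000c00000000 0x800000008000000080000000f0000003c00000010 4 6) 0 0 (step_sound _ 131 [(rh5c5e593799055d58.shift 2 1), rhfe557af9112f51d6] (by decide +kernel))
noncomputable def rhd8b043fc3420d8cd : CRef := CRef.mk (Pat.mk 0xc0000004c000000040000000000000000 0x20000000f0000007c000000040000000400000004 4 7) 0 0 (step_sound _ 100 [(rh2fe78cc5ca4405d8.shift 2 3), rh3f09e2870ec06b4b] (by decide +kernel))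
noncomputable def rh031efd0c1d4222ac : CRef := CRef.mk (Pat.mk 0x38000000180000001800000004 0x8000000380000001f0000001f00000004 4 6) 0 0 (step_sound _ 65 [(rh24ae073cf30720c4.shift 1 2), rh9349c6aeae2ff0f3] (by decide +kernel))
noncomputable def rh4dd03d15956e18bf : CRef := CRef.mk (Pat.mk 0x40000000000000002000000020000000300000000 0x5000000070000000300000002000000020000000300000001 4 3) 0 0 (step_sound _ 129 [(rh76a03e5c89c078ed.shift 0 1), rh932754581e0f4330] (by decide +kernel))
noncomputable def rhe758b50d40a7a7bf : CRef := CRef.mk (Pat.mk 0xc0000001c0000000e0000000000000000 0xc0000001e0000003e0000003300000012 4 6) 0 0 (step_sound _ 68 [rh256606d9ada06318, (rh78974448101547fe.shift 1 0)] (by decide +kernel))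
noncomputable def rh43d8dfd721575dfb : CRef := CRef.mk (Pat.mk 0x30000000200000002000000000000000000000000 0x1000000030000000300000002000000030000000300000001 4 2) 0 0 (step_sound _ 65 [rh1f3a6ba70a310ab1, (rh50fbb5868c909700.shift 0 2)] (by decide +kernel))
noncomputable def rh6d579815265cbca7 : CRef := CRef.mk (Pat.mk 0xc0000000c000000180000000800000000 0x80000000c0000000c0000001c0000000f00000006 4 5) 0 0 (step_sound _ 34 [rh239579d2322518d3, (rh932754581e0f4330.shift 2 0)] (by decide +kernel))
noncomputable def rh0b01da669bda3c44 : CRef := CRef.mk (Pat.mk 0x80000000c0000001c0000000800000000 0x40000000c0000000c0000001c0000000f00000006 4 5) 0 0 (step_sound _ 34 [(rh932754581e0f4330.shift 2 0), rhd188899883dd9128] (by decide +kernel))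
noncomputable def rh5f1c29a01ddb2cd0 : CRef := CRef.mk (Pat.mk 0xc000000180000000e0000000c00000000 0x20000001f0000001b0000000e0000000c00000008 4 5) 0 0 (step_sound _ 129 [(rhb739f4f82bb681b4.shift 0 3), rhbbcd34a2fec6d65b] (by decide +kernel))
noncomputable def rh257cac3f88c56b7b : CRef := CRef.mk (Pat.mk 0x600000007000000020000000200000000 0x200000002000000020000000600000007000000070000000600000004 4 3) 0 0 (step_sound _ 34 [(rh4b4dde78fe1cd3e6.shift 0 1), (rh55afc6a59410cf00.shift 1 0)] (by decide +kernel))
noncomputable def rh3c2aa4c676dc45fc : CRef := CRef.mk (Pat.mk 0x40000000c0000001a0000001800000000 0x40000000f0000001b0000001f00000002 4 5) 0 0 (step_sound _ 97 [(rhb739f4f82bb681b4.shift 0 2), rhd37c20d84762fac4] (by decide +kernel))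
noncomputable def rh8dce9a5566bc2590 : CRef := CRef.mk (Pat.mk 0x80000001c000000080000000800000000 0x10000000380000001f000000080000000c00000004 4 6) 0 0 (step_sound _ 34 [(rh932754581e0f4330.shift 2 0), (rhccf6c53fa88468fc.shift 0 1)] (by decide +kernel))
noncomputable def rh7113f685ac44ea2f : CRef := CRef.mk (Pat.mk 0xc000000180000000e0000000c 0x120000001f0000001b0000000e0000000c 4 5) 0 0 (step_sound _ 97 [rh2dc94419c4a8036d, (rhb739f4f82bb681b4.shift 0 2)] (by decide +kernel))
noncomputable def rh2c477938a297ae1a : CRef := CRef.mk (Pat.mk 0x8000000080000001c0000001c00000000 0x40000000c0000000c0000001c0000001f00000003 4 5) 0 0 (step_sound _ 130 [(rh50fbb5868c909700.shift 2 1), rhb0453f21e70803bf] (by decide +kernel))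
noncomputable def rh94eecf20a5b238dd : CRef := CRef.mk (Pat.mk 0xc000000000000001c0000000800000000 0xc0000000c000000040000001c0000000f00000002 4 5) 0 0 (step_sound _ 98 [(rh2145e1d24b96a57e.shift 2 1), rh675ab9d4ddf88e9c] (by decide +kernel))
noncomputable def rhe5ecef804aa4c1a7 : CRef := CRef.mk (Pat.mk 0x600000026000000040000000000000000 0x80000001e00000037000000040000000400000004 4 6) 0 0 (step_sound _ 34 [(rh4875fb3337fb6e60.shift 0 1), (rh7b1f1fb55310c477.shift 1 0)] (by decide +kernel))
noncomputable def rh3b97d7f13c8c247f : CRef := CRef.mk (Pat.mk 0x1e00000000000000000000001e 0x30000001e00000003000000070000001e 4 5) 0 0 (step_sound _ 33 [rh3244c3cc8379b070, rh991b8e21f1003e1c] (by decide +kernel))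
noncomputable def rh677e6fbb651585de : CRef := CRef.mk (Pat.mk 0xc0000000c000000080000000000000000 0x100000003c0000000f000000080000000800000008 4 6) 0 0 (step_sound _ 35 [(rh7b1f1fb55310c477.shift 2 0), (rhc0ddb33d3a52722b.shift 0 1)] (by decide +kernel))
noncomputable def rh53e00373d4310763 : CRef := CRef.mk (Pat.mk 0x40000004c0000000c00000000 0x400000004000000040000007c0000000f00000002 4 7) 0 0 (step_sound _ 68 [(rh361cc68994bd8a63.shift 2 1), rh3af54b5f78790764] (by decide +kernel))
noncomputable def rh239b3aff0a9ab77c : CRef := CRef.mk (Pat.mk 0x400000018000000180000003800000000 0x40000001f0000001f0000003800000008 4 6) 0 0 (step_sound _ 65 [rh9577b0c22c260ad0, (rhab22b5b56e7b3243.shift 1 1)] (by decide +kernel))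
noncomputable def rh3af49ec8327b3828 : CRef := CRef.mk (Pat.mk 0x30000000200000002000000000000000400000000 0x1000000030000000200000002000000030000000700000005 4 3) 0 0 (step_sound _ 65 [(rh50fbb5868c909700.shift 0 2), rh73329e8902d29e57] (by decide +kernel))
noncomputable def rh12b86433d4e96731 : CRef := CRef.mk (Pat.mk 0xe0000001c0000000c 0x12000000330000003e0000001e0000000c 4 6) 0 0 (step_sound _ 68 [(rh5421160f8e9bcf07.shift 1 0), rhed9a93d9f6a3fb5f] (by decide +kernel))
noncomputable def rh9e3680845ae0253e : CRef := CRef.mk (Pat.mk 0x8000000180000000c0000000c00000000 0x60000000f0000001c0000000c0000000c00000008 4 5) 0 0 (step_sound _ 130 [(rh50fbb5868c909700.shift 2 1), rhb3b70aab91499ec2] (by decide +kernel))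
noncomputable def rh750c877a06d1a565 : CRef := CRef.mk (Pat.mk 0x180000001a0000003000000038 0x40000001f0000001b0000003e00000078 4 7) 0 0 (step_sound _ 35 [rh9cac931137f1cfa0, (rhad5d8fc3675c15dd.shift 1 0)] (by decide +kernel))
noncomputable def rhd9fe5b86fad30047 : CRef := CRef.mk (Pat.mk 0x4000000000000001e0000000000000000 0x400000004000000070000001e0000000300000002 4 5) 0 0 (step_sound _ 97 [rh088d7cb9b7494237, (rh3244c3cc8379b070.shift 0 2)] (by decide +kernel))
noncomputable def rh9b5857224768a516 : CRef := CRef.mk (Pat.mk 0x180000003400000020 0x180000003f00000067 4 7) 0 0 (step_sound _ 35 [rhcc2be1f880c5ea3e, (rhe25b0a99195a5d59.shift 2 0)] (by decide +kernel))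
noncomputable def rhc89d3265e5632fc6 : CRef := CRef.mk (Pat.mk 0x80000001a0000001800000008 0x140000001f0000001b0000001800000008 4 5) 0 0 (step_sound _ 100 [(rh5c5e593799055d58.shift 3 0), rh9cac931137f1cfa0] (by decide +kernel))
noncomputable def rhc9d5b668377e3797 : CRef := CRef.mk (Pat.mk 0x80000000c0000001c000000000000000400000000 0x80000000c0000001f000000380000001c0000001c 4 6) 0 0 (step_sound _ 67 [(rh820d4e04d5dcd02e.shift 2 0), (rhdd954a6f2f77cc64.shift 0 1), (rhe437f081bfcdb831.shift 2 0)] (by decide +kernel))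
noncomputable def rhd708b95eb90384f1 : CRef := CRef.mk (Pat.mk 0x1000000010000000180000001800000000 0x10000000100000001f0000007c00000020 4 7) 0 0 (step_sound _ 37 [(rh55afc6a59410cf00.shift 4 0), (rha9fbfd4bb8cf890b.shift 0 1)] (by decide +kernel))
noncomputable def rhbe1da03a03321223 : CRef := CRef.mk (Pat.mk 0x40000000c0000000c00000008 0x18000000180000003c0000000f0000000c0000000c 4 6) 0 0 (step_sound _ 99 [(rh503dd4575245365b.shift 2 0), (rh769be3fe24eee174.shift 2 0), rhc0ddb33d3a52722b] (by decide +kernel))
noncomputable def rh4c5b10657a4a9e14 : CRef := CRef.mk (Pat.mk 0x100000003000000000000001800000018 0x1000000010000000300000003000000020000001f0000003a 4 6) 0 0 (step_sound _ 33 [rh95a80f84f48ac358, rhcd6baf37b3e5de21] (by decide +kernel))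
noncomputable def rhfc563ba998ba7564 : CRef := CRef.mk (Pat.mk 0x18000000380000000800000000 0xc0000000c0000000c00000018000000380000001f00000004 4 6) 0 0 (step_sound _ 131 [(rh3e595262c1b737ad.shift 3 1), (rh7b9fbdf6d2d059e4.shift 2 1), rh852e818bc8629e77] (by decide +kernel))
noncomputable def rh3bcc3b100d33c9ff : CRef := CRef.mk (Pat.mk 0xe0000000c000000080000000800000000 0x130000001e0000000c0000000c0000000c00000004 4 5) 0 0 (step_sound _ 132 [(rh2f68792b6b779e96.shift 3 1), rhf53ee62ce7c07a09] (by decide +kernel))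
noncomputable def rh1c516df976aad272 : CRef := CRef.mk (Pat.mk 0x38000000000000001800000010 0xf0000007c000000080000001800000010 4 7) 0 0 (step_sound _ 131 [(rha9fbfd4bb8cf890b.shift 0 3), (rhff0f29cb645b05f7.shift 3 0)] (by decide +kernel))
noncomputable def rh4d13272a9959cc95 : CRef := CRef.mk (Pat.mk 0xc00000018000000380000000800000000 0xf00000018000000380000001f00000004 4 6) 0 0 (step_sound _ 129 [rh852e818bc8629e77, (rhb739f4f82bb681b4.shift 0 3)] (by decide +kernel))
noncomputable def rh0b48232756d2831b : CRef := CRef.mk (Pat.mk 0x1800000008000000040000000c00000000 0x1000000018000000080000000f0000003c00000010 4 6) 0 0 (step_sound _ 67 [(rh2f68792b6b779e96.shift 3 1), rhfe557af9112f51d6] (by decide +kernel))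
noncomputable def rhdfbe4f8abf08e9f6 : CRef := CRef.mk (Pat.mk 0x38000000300000001a0000001800000000 0x780000003e0000001b0000001f00000004 4 7) 0 0 (step_sound _ 99 [rh114380420d2c6317, (rhab2ad169e49f9c5e.shift 1 3)] (by decide +kernel))
noncomputable def rhfcd0957979bf6d9d : CRef := CRef.mk (Pat.mk 0x1e000000000000000400000000 0x2000000030000001e000000070000000400000004 4 5) 0 0 (step_sound _ 65 [rhb90229dde928a72d, (rheb0810cc63b001d8.shift 0 2)] (by decide +kernel))
noncomputable def rh85d8fbe61f816818 : CRef := CRef.mk (Pat.mk 0x200000003400000018 0x670000003f00000018 4 7) 0 0 (step_sound _ 35 [(rh33e738c4ed385b9f.shift 2 1), rhba89ab7cb81bcc90] (by decide +kernel))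
noncomputable def rhf98a3e7b0a58e1df : CRef := CRef.mk (Pat.mk 0x8000000180000001a0000000800000000 0x8000000180000001b0000001f00000014 4 5) 0 0 (step_sound _ 36 [rh114380420d2c6317, (rh7b1f1fb55310c477.shift 3 0)] (by decide +kernel))
noncomputable def rhdba0a7a944617c85 : CRef := CRef.mk (Pat.mk 0x4000000000000001c0000000c00000008 0x1c0000001c000000380000001f0000000c00000008 4 6) 0 0 (step_sound _ 99 [(rh16567ae718d9fd54.shift 2 1), (rh5fa50b509d4ce753.shift 2 0), rhccf6c53fa88468fc] (by decide +kernel))
noncomputable def rh24475f7678211b71 : CRef := CRef.mk (Pat.mk 0x20000000300000002000000010000000000000000 0x30000000300000002000000070000000700000004 4 3) 0 0 (step_sound _ 65 [rh5c651669912fbab1, (rh932754581e0f4330.shift 0 1)] (by decide +kernel))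
noncomputable def rhaba08230c1b81f56 : CRef := CRef.mk (Pat.mk 0x80000000c0000000c000000040000000000000000 0xc0000000c0000000f0000003c0000001800000018 4 6) 0 0 (step_sound _ 67 [(rh3cb04db3dd2b6a55.shift 2 0), (rh5c651669912fbab1.shift 2 0), (rhfe557af9112f51d6.shift 0 1)] (by decide +kernel))
noncomputable def rhc9c91d2fbcbb1281 : CRef := CRef.mk (Pat.mk 0x18000000180000000000000003000000010000000000000000 0x3a0000001f0000000200000003000000030000000100000001 4 6) 0 0 (step_sound _ 161 [rh02ef15e22aa7db92, (rh6d571b54e8dd9e33.shift 0 5)] (by decide +kernel))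
noncomputable def rh1204b827b0674525 : CRef := CRef.mk (Pat.mk 0x80000003800000018000000000000000000000000 0x40000001f00000038000000180000000c0000000c0000000c 4 6) 0 0 (step_sound _ 67 [(rh46530d756bdf8511.shift 2 0), (rh79905f95cb2d899a.shift 0 2), (rhea7a1800d6f053bd.shift 3 0)] (by decide +kernel))
noncomputable def rha76ca9ce157db44d : CRef := CRef.mk (Pat.mk 0x4000000020000000200000003 0x10000000700000007000000020000000300000003 4 3) 0 0 (step_sound _ 97 [(rh2f68792b6b779e96.shift 1 0), rha54302d5ccf5246c] (by decide +kernel))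
noncomputable def rh622e1e57e499877e : CRef := CRef.mk (Pat.mk 0x8000000080000000c0000000e00000000 0x40000000c0000000c0000000c0000001e00000013 4 5) 0 0 (step_sound _ 36 [rh52db8f9374849729, (rh55afc6a59410cf00.shift 3 0)] (by decide +kernel))
noncomputable def rhd8970f20df7aae31 : CRef := CRef.mk (Pat.mk 0x1000000018000000000000003800000000 0x1000000018000000080000007c0000000f 4 7) 0 0 (step_sound _ 3 [(rh04253f50b6dd0619.shift 3 0), rh2820ca9a6c4f41b4] (by decide +kernel))
noncomputable def rh8d411b6ae1d96538 : CRef := CRef.mk (Pat.mk 0x800000038000000180000000c 0x40000001f00000038000000180000000f 4 6) 0 0 (step_sound _ 1 [rh53b3c253cb0c65f4, rh79905f95cb2d899a] (by decide +kernel))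
noncomputable def rh8309b68334354bd1 : CRef := CRef.mk (Pat.mk 0x800000008000000180000000800000000 0x40000000c0000000f0000007c0000000800000008 4 7) 0 0 (step_sound _ 98 [(rh3c3e23a02e82b2ed.shift 0 2), (rhe286c75f2739cce2.shift 2 0)] (by decide +kernel))
noncomputable def rhf97c42f9753351c8 : CRef := CRef.mk (Pat.mk 0x40000000c000000000000000000000038 0x40000000c000000080000000f0000007c 4 7) 0 0 (step_sound _ 35 [(rh2613c889e411427e.shift 2 0), rha9fbfd4bb8cf890b] (by decide +kernel))
noncomputable def rhf33c9c7cd497f89c : CRef := CRef.mk (Pat.mk 0x40000000c000000180000000c00000000 0x40000000f0000001e0000000f00000002 4 5) 0 0 (step_sound _ 97 [(rhb739f4f82bb681b4.shift 0 2), rhebbf0f79de50f641] (by decide +kernel))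
noncomputable def rh3355b765474647cb : CRef := CRef.mk (Pat.mk 0x20000000300000002000000030000000000000000 0x2000000020000000300000003000000070000000600000006 4 3) 0 0 (step_sound _ 96 [(rh5c5e593799055d58.shift 0 2), rh820d4e04d5dcd02e] (by decide +kernel))
noncomputable def rh38113f037141da33 : CRef := CRef.mk (Pat.mk 0x1000000003000000060000000200000000 0x60000001e00000003000000070000000700000001 4 5) 0 0 (step_sound _ 129 [(rh04e571695666b5c1.shift 0 1), rhf7168fb62545c8f0] (by decide +kernel))
noncomputable def rhfc6b69bb98114330 : CRef := CRef.mk (Pat.mk 0x3000000120000000200000000 0x10000000100000003000000030000001e0000000200000002 4 5) 0 0 (step_sound _ 66 [(rh2fe78cc5ca4405d8.shift 0 2), rhb1a251d9bff81766] (by decide +kernel))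
noncomputable def rhf6678364aa8fad05 : CRef := CRef.mk (Pat.mk 0x400000000c000000180000000800000000 0x18000000780000000f000000180000001800000010 4 7) 0 0 (step_sound _ 97 [(rh3d41e0ca9aad28d1.shift 2 0), (rhb739f4f82bb681b4.shift 0 2)] (by decide +kernel))
noncomputable def rhaca319b46cef3987 : CRef := CRef.mk (Pat.mk 0x6000000200000000e00000000 0x400000006000000330000001e00000003 4 6) 0 0 (step_sound _ 36 [(rh428265de8cd3cd2d.shift 1 1), rh4dde45b6cee3e19c] (by decide +kernel))
noncomputable def rh67ed513a7af76093 : CRef := CRef.mk (Pat.mk 0x200000006000000030000001000000000 0x10000000700000007000000030000001e00000006 4 5) 0 0 (step_sound _ 33 [rh04ee05071d91faba, rhf8edb192cdea7ada] (by decide +kernel))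
noncomputable def rha670ede437c3112f : CRef := CRef.mk (Pat.mk 0x20000001200000003000000000000000000000000 0x2000000020000001e00000003000000030000000100000001 4 5) 0 0 (step_sound _ 130 [rh281c6819542c66e6, (rh361cc68994bd8a63.shift 0 3)] (by decide +kernel))
noncomputable def rhe5a2f7eaf7af2bb4 : CRef := CRef.mk (Pat.mk 0x8000000180000000c0000004000000000 0x1000000018000000180000000f0000007800000018 4 7) 0 0 (step_sound _ 65 [(rh53b3c253cb0c65f4.shift 0 2), (rh68687a86639d5bf7.shift 2 0)] (by decide +kernel))
noncomputable def rh777b1608eac7f27b : CRef := CRef.mk (Pat.mk 0x800000018000000080000000800000000 0x8000000080000007c0000000f0000000c00000004 4 7) 0 0 (step_sound _ 66 [(rh03dfdf12d5937476.shift 2 0), (rhd69c262cd33b94b3.shift 0 2)] (by decide +kernel))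
noncomputable def rh7beb340e8ab4fee6 : CRef := CRef.mk (Pat.mk 0xe000000200000000600000000 0x30000001e000000330000000600000004 4 6) 0 0 (step_sound _ 100 [rh3ab02240dc5ff474, (rh96851dee118c1ba3.shift 1 2)] (by decide +kernel))
noncomputable def rh6fdf43a88718b318 : CRef := CRef.mk (Pat.mk 0x80000000a0000000b000000000000000000000000 0x8000000080000000b0000001f000000380000001000000010 4 6) 0 0 (step_sound _ 68 [(rh0b53f85fa0591956.shift 0 1), (rh2977b00063528966.shift 3 0), (rh42a8aa31729a4595.shift 0 2), (rh5420708ceecc8de3.shift 0 2)] (by decide +kernel))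
noncomputable def rh85dc1815e914335e : CRef := CRef.mk (Pat.mk 0xc00000018000000030000000200000000 0x60000000f0000001a000000030000000300000001 4 5) 0 0 (step_sound _ 129 [rh7522337cc24a4bff, (rhb739f4f82bb681b4.shift 0 3)] (by decide +kernel))
noncomputable def rh1c3674258eec14b2 : CRef := CRef.mk (Pat.mk 0x800000058000000020000000a 0x40000000f0000007a0000000a0000000a 4 7) 0 0 (step_sound _ 98 [(rh2fe78cc5ca4405d8.shift 2 2), rh48cf204894095689] (by decide +kernel))
noncomputable def rh653221b698c39cf0 : CRef := CRef.mk (Pat.mk 0x20000001a0000000c000000000000000000000000 0x2000000020000001a0000000f000000060000000400000004 4 5) 0 0 (step_sound _ 97 [(rh53b3c253cb0c65f4.shift 0 3), (rh70e33bfdf511e144.shift 1 0)] (by decide +kernel))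
noncomputable def rh74149de5d3e000b2 : CRef := CRef.mk (Pat.mk 0x30000001a0000000c00000000 0x10000000100000001000000030000001b0000000f00000002 4 5) 0 0 (step_sound _ 33 [(rh53b3c253cb0c65f4.shift 0 1), rhf9a6286f1d5377a2] (by decide +kernel))
noncomputable def rh63dc2b656e521f0a : CRef := CRef.mk (Pat.mk 0x20000000200000002000000020000000000000000 0x1000000030000000300000002000000030000000300000001 4 2) 0 0 (step_sound _ 32 [rh3ce9c3f96caebe13, (rh79877ebd3ef475dd.shift 0 1)] (by decide +kernel))
noncomputable def rh1205a6aa72d92e21 : CRef := CRef.mk (Pat.mk 0x300000002000000030000000200000000 0x6000000060000000700000003000000030000000200000002 4 3) 0 0 (step_sound _ 96 [(rh5fa50b509d4ce753.shift 0 1), rh7b1f1fb55310c477] (by decide +kernel))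
noncomputable def rh6da38dbe36491ba4 : CRef := CRef.mk (Pat.mk 0x16000000140000001400000000 0xa0000000a0000003b0000003e000000160000001400000010 4 6) 0 0 (step_sound _ 99 [(rh4621828ea5f4dfbb.shift 1 0), (rh768a472a1ebe455c.shift 0 1), (rhd01ed0cc6ce530d4.shift 2 0)] (by decide +kernel))
noncomputable def rh83a4c5c0feb85724 : CRef := CRef.mk (Pat.mk 0x1600000004000000160000000000000000 0x2000000030000003e000000060000003e0000000300000002 4 6) 0 0 (step_sound _ 97 [rhc28dd09875fb2825, (rhd6c5c8b1c02f21f5.shift 0 2)] (by decide +kernel))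
noncomputable def rh3ad823cc352a02e6 : CRef := CRef.mk (Pat.mk 0x10000000140000001400000016000000000000000000000000 0x1000000014000000160000001e0000000b0000000200000002 4 5) 0 0 (step_sound _ 99 [(rh932754581e0f4330.shift 3 2), rhd1474a84c69f0140] (by decide +kernel))
noncomputable def rhc0378c037ae8bbdc : CRef := CRef.mk (Pat.mk 0x2000000120000000300000002 0x50000000f0000001e0000000300000002 4 5) 0 0 (step_sound _ 67 [rh330a005829cdd297, (rhb2a0b9ccfb5cecd5.shift 0 1)] (by decide +kernel))
noncomputable def rhb8af8f259fde3659 : CRef := CRef.mk (Pat.mk 0x16000000040000001c 0x2000000030000003e000000060000003c 4 6) 0 0 (step_sound _ 33 [rhd6c5c8b1c02f21f5, (rhf48373e13d2bc128.shift 1 0)] (by decide +kernel))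
noncomputable def rh5e7599abd927fa28 : CRef := CRef.mk (Pat.mk 0x100000001b000000520000000000000000 0x100000001b000000fe0000000c00000008 4 8) 0 0 (step_sound _ 67 [(rh5419adcd928dba20.shift 0 2), (rhc28dd09875fb2825.shift 2 0)] (by decide +kernel))
noncomputable def rh84f330d47c138f9f : CRef := CRef.mk (Pat.mk 0x18000000160000000400000004 0x2000000020000001b0000001f0000000600000004 4 5) 0 0 (step_sound _ 67 [(rh53b3c253cb0c65f4.shift 0 2), rh768a472a1ebe455c] (by decide +kernel))
noncomputable def rh74505ac74f60a4e7 : CRef := CRef.mk (Pat.mk 0x800000008000000180000000100000000 0x140000001c0000001c00000008000000180000001c0000000f00000004 4 5) 0 0 (step_sound _ 163 [rh2fac48111f756bf7, (rh5bd4bc0c2c48140c.shift 2 2), (rh73f605273a09a9d0.shift 3 2)] (by decide +kernel))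
noncomputable def rhbf5d9e90d56c2a5f : CRef := CRef.mk (Pat.mk 0x2c00000020 0x3e00000077 4 7) 0 0 (step_sound _ 36 [rhdceeca65bdd8095a, (rhe25b0a99195a5d59.shift 2 0)] (by decide +kernel))
noncomputable def rhf4aa316f4710e1c1 : CRef := CRef.mk (Pat.mk 0x10000000580000000100000060000000c0 0x10000000780000000f00000078000000c8 4 8) 0 0 (step_sound _ 35 [(rhab22b5b56e7b3243.shift 3 0), rhc27e04dcc04317ca] (by decide +kernel))
noncomputable def rh825d374ef4df7137 : CRef := CRef.mk (Pat.mk 0x30000005800000000 0x30000007e000000ee 4 8) 0 0 (step_sound _ 34 [(rh09d4dfe75d4407d6.shift 0 1), (rh3194727a60434116.shift 1 0)] (by decide +kernel))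
noncomputable def rhda2741948fcf686a : CRef := CRef.mk (Pat.mk 0x200000002000000120000000100000000 0x200000002000000020000001e0000000700000005 4 5) 0 0 (step_sound _ 33 [rh5e22dec736637a4b, rh932754581e0f4330] (by decide +kernel))
noncomputable def rhd77307199f2ae7b1 : CRef := CRef.mk (Pat.mk 0x600000002000000120000000100000000 0x400000006000000020000001e0000000f00000004 4 5) 0 0 (step_sound _ 33 [(rh2f68792b6b779e96.shift 1 1), rh9938ce373ed9d77d] (by decide +kernel))
noncomputable def rhf1e5cbdcfc437bc0 : CRef := CRef.mk (Pat.mk 0x130000001b0000000b0000000000000000 0x130000001b0000000b0000001e0000000e 4 5) 0 0 (step_sound _ 33 [rh1c355eaf0ab21ee1, rh7b1f1fb55310c477] (by decide +kernel))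
noncomputable def rhbd9da586cd4293bc : CRef := CRef.mk (Pat.mk 0x2000000120000000300000002 0x50000000f0000001e0000000300000002 4 5) 0 0 (step_sound _ 96 [rh50fbb5868c909700, rha4e8b74f9e01b86c] (by decide +kernel))
noncomputable def rhcfcd2037840c80a2 : CRef := CRef.mk (Pat.mk 0x20000001a00000003000000000000000000000000 0x2000000020000001a0000000f000000060000000400000004 4 5) 0 0 (step_sound _ 98 [(rh3fc040e777f1679e.shift 0 3), (rh70e33bfdf511e144.shift 1 0)] (by decide +kernel))
noncomputable def rha009eea60430f826 : CRef := CRef.mk (Pat.mk 0x140000001e000000000000000000000000 0x10000000140000001f000000380000000800000008 4 6) 0 0 (step_sound _ 68 [rhc058b1555d2882b5, (rhe25b0a99195a5d59.shift 1 2)] (by decide +kernel))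
noncomputable def rheb4c23b636fa57f1 : CRef := CRef.mk (Pat.mk 0x4000000040000000c000000380000000800000000 0x4000000060000000f0000003a0000001f00000002 4 6) 0 0 (step_sound _ 97 [rhb6140890372f3936, (rhb739f4f82bb681b4.shift 0 2)] (by decide +kernel))
noncomputable def rha00fd5ca7cf8d1be : CRef := CRef.mk (Pat.mk 0x100000000300000002000000030000000200000000 0x60000001e0000000300000003000000030000000200000002 4 5) 0 0 (step_sound _ 96 [rh7b1f1fb55310c477, (rh85c2755186779c7f.shift 0 2)] (by decide +kernel))
noncomputable def rhdf41b505ca82b549 : CRef := CRef.mk (Pat.mk 0x20000001e00000000000000000000001c 0x20000001e00000003000000070000001f 4 5) 0 0 (step_sound _ 65 [rh55848bfd9a3ec20d, (rheb0810cc63b001d8.shift 0 2)] (by decide +kernel))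
noncomputable def rhb89be806f5e541fe : CRef := CRef.mk (Pat.mk 0x30000005800000040 0x30000007e0000006e 4 7) 0 0 (step_sound _ 34 [(rh09d4dfe75d4407d6.shift 0 1), (rhcaa5fac0e2741756.shift 1 0)] (by decide +kernel))
noncomputable def rh133713279a235f1c : CRef := CRef.mk (Pat.mk 0x30000005800000040 0x30000007e000000ce 4 8) 0 0 (step_sound _ 37 [rhcd3666e3c2d6988d, (rhe25b0a99195a5d59.shift 3 0)] (by decide +kernel))
noncomputable def rh60be6bea0ea1f35f : CRef := CRef.mk (Pat.mk 0xa00000008000000080000000800000008 0x1f0000007c000000080000000800000008 4 7) 0 0 (step_sound _ 100 [(rh174a767562f03570.shift 0 3), (rh2f68792b6b779e96.shift 3 0)] (by decide +kernel))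
noncomputable def rh08d112cb492f14c2 : CRef := CRef.mk (Pat.mk 0x2700000006000000020000000200000000 0x180000003f00000006000000060000000600000004 4 6) 0 0 (step_sound _ 131 [(rh361cc68994bd8a63.shift 1 3), rh4522ea7bef838818] (by decide +kernel))
noncomputable def rh86623c6e5957dd8e : CRef := CRef.mk (Pat.mk 0xc0000000a0000000a0000000a00000000 0xc0000001e0000000b0000001e0000000c 4 5) 0 0 (step_sound _ 34 [rh85683fc5b01951d6, (rh932754581e0f4330.shift 2 0)] (by decide +kernel))
noncomputable def rh107e52fd5f4b8643 : CRef := CRef.mk (Pat.mk 0x40000001600000002 0x60000003e00000073 4 7) 0 0 (step_sound _ 35 [(rh695f888db18ad7c7.shift 1 0), rheb0810cc63b001d8] (by decide +kernel))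
noncomputable def rh177e91fc0ec8c431 : CRef := CRef.mk (Pat.mk 0x80000000e00000006000000020000000000000000 0x3000000030000000b0000000e00000006000000060000000600000006 4 4) 0 0 (step_sound _ 161 [(rh3e595262c1b737ad.shift 1 2), (rh6a3ba3a6fd570301.shift 1 0), (rh7b9fbdf6d2d059e4.shift 0 2)] (by decide +kernel))
noncomputable def rha345732665d48f90 : CRef := CRef.mk (Pat.mk 0x4000000060000000200000001000000000000000000000000 0x6000000060000000300000003000000030000000100000001 4 3) 0 0 (step_sound _ 97 [(rh71222050f2c63a3a.shift 1 2), rhfafeb437ceb8396d] (by decide +kernel))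
noncomputable def rhf7862bb4af013b88 : CRef := CRef.mk (Pat.mk 0x380000001c00000008 0xc0000000c0000001f000000380000001c0000000c 4 6) 0 0 (step_sound _ 99 [(rh37d9ceebb86d75d1.shift 2 0), rh79905f95cb2d899a, (rh7b9fbdf6d2d059e4.shift 2 0)] (by decide +kernel))
noncomputable def rh0307b7c2a2d5b9f6 : CRef := CRef.mk (Pat.mk 0x800000038000000180000001800000000 0x8000000380000001f0000001f00000004 4 6) 0 0 (step_sound _ 34 [(rh87fb4af8316b9600.shift 0 1), (rh932754581e0f4330.shift 2 0)] (by decide +kernel))
noncomputable def rh6bf58f3d6259bf81 : CRef := CRef.mk (Pat.mk 0x16000000120000001a000000010000000000000000 0x4000000160000001a0000001a0000000f0000000800000008 4 5) 0 0 (step_sound _ 65 [(rh2f68792b6b779e96.shift 1 2), rhc4713ca36c943a51] (by decide +kernel))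
noncomputable def rh199b75e937e0c6d9 : CRef := CRef.mk (Pat.mk 0x100000001a000000080000000c00000000 0x40000001f0000001b000000080000000c00000004 4 5) 0 0 (step_sound _ 131 [(rh932754581e0f4330.shift 2 0), (rh9cac931137f1cfa0.shift 0 1)] (by decide +kernel))
noncomputable def rh08c0a4b24e0c6ff9 : CRef := CRef.mk (Pat.mk 0x18000000080000000c0000000400000000 0x1000000018000000080000000f0000003c00000010 4 6) 0 0 (step_sound _ 35 [(rh2f68792b6b779e96.shift 3 1), rhfe557af9112f51d6] (by decide +kernel))
noncomputable def rhca0d1eb9a72d6fbe : CRef := CRef.mk (Pat.mk 0x8000000180000000a0000000b00000001 0x100000003a0000001f0000000a0000000b00000001 4 6) 0 0 (step_sound _ 97 [(rh0642b69abcb616cf.shift 0 1), rh5c5e593799055d58] (by decide +kernel))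
noncomputable def rhab6d3ee7760ef9d1 : CRef := CRef.mk (Pat.mk 0x80000004a0000000c00000008 0x10000000380000007f0000000c00000008 4 7) 0 0 (step_sound _ 100 [(rh2f68792b6b779e96.shift 3 0), (rh6035f1465d609914.shift 0 1)] (by decide +kernel))
noncomputable def rh7dd863f70d807e13 : CRef := CRef.mk (Pat.mk 0x8000000180000001c000000000000000000000000 0x18000000180000003c0000000f0000000c00000008 4 6) 0 0 (step_sound _ 67 [(rhd65e52c5f80caa3b.shift 0 1), (rhea7a1800d6f053bd.shift 3 0)] (by decide +kernel))
noncomputable def rha8c5bd59cda30112 : CRef := CRef.mk (Pat.mk 0x8000000080000000e0000000e000000000000000000000000 0x80000000c0000000e0000001e000000130000000200000002 4 5) 0 0 (step_sound _ 100 [(rh55afc6a59410cf00.shift 3 2), rh9a011a4d0ec8f646] (by decide +kernel))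
noncomputable def rhdc5051f206574e66 : CRef := CRef.mk (Pat.mk 0x1a0000000600000002 0x5000000070000000f0000001a0000000600000006 4 5) 0 0 (step_sound _ 97 [(rh14f80659e6313cc6.shift 1 0), rh2f7aebebd7d680c3, rh3da62da861143b9a] (by decide +kernel))
noncomputable def rheaf7323e7f660408 : CRef := CRef.mk (Pat.mk 0x600000007000000010000000000000000 0x60000000600000007000000030000000300000003 4 3) 0 0 (step_sound _ 32 [rh0f425d217b2c46cb, rh71222050f2c63a3a] (by decide +kernel))
noncomputable def rhc9bd55f0a7b1a259 : CRef := CRef.mk (Pat.mk 0xc0000001e000000160000000000000000 0xc0000001e0000001e0000003300000012 4 6) 0 0 (step_sound _ 33 [(rh71222050f2c63a3a.shift 1 0), rhe13a0e3af63b4ef1] (by decide +kernel))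
noncomputable def rh39b305ff33103625 : CRef := CRef.mk (Pat.mk 0xc0000001c000000040000000c00000000 0xc0000001c000000170000003e00000032 4 6) 0 0 (step_sound _ 33 [(rh932754581e0f4330.shift 1 0), rhd7c212e4554c17ce] (by decide +kernel))
noncomputable def rh13114270456eb896 : CRef := CRef.mk (Pat.mk 0x1000000030000000180000000e000000000000000000000000 0x200000003000000038000000180000003e000000370000001000000010 4 6) 0 0 (step_sound _ 100 [(rh6c5b90ba2a83bd67.shift 0 2), (rh8379dda7bed67b0f.shift 3 0), (rha707fb719e87fe6e.shift 4 2), (rhbbe16ff26f7822db.shift 1 0)] (by decide +kernel))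
noncomputable def rhe9619fa0d732683d : CRef := CRef.mk (Pat.mk 0x80000000180000000a0000000b00000001 0x1000000010000000fa0000001e0000000a0000000b00000001 4 8) 0 0 (step_sound _ 97 [(rh4d94a112bed62cd9.shift 1 1), rh5c5e593799055d58] (by decide +kernel))
noncomputable def rh5f38919bb63ff723 : CRef := CRef.mk (Pat.mk 0x180000003a00000000 0x1f0000003e00000007 4 6) 0 0 (step_sound _ 65 [rhab087011127a035a, (rhab22b5b56e7b3243.shift 1 1)] (by decide +kernel))
noncomputable def rhf1cf5c2b9141cce8 : CRef := CRef.mk (Pat.mk 0x180000009a 0x1f000000ff 4 8) 0 0 (step_sound _ 5 [(rh2fe78cc5ca4405d8.shift 3 0), rh38e967ba5ff0a028] (by decide +kernel))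
noncomputable def rh2cf83a9545f16b9d : CRef := CRef.mk (Pat.mk 0x180000001a000000000000000000000000 0x8000000180000001f000000300000001000000010 4 6) 0 0 (step_sound _ 98 [(rh53b3c253cb0c65f4.shift 0 3), (rhbbe16ff26f7822db.shift 1 0)] (by decide +kernel))
noncomputable def rhbe0f45732cd1136c : CRef := CRef.mk (Pat.mk 0x1000000003000000030000000200000000 0x2000000060000001e00000003000000070000000600000004 4 5) 0 0 (step_sound _ 129 [(rh04e571695666b5c1.shift 0 1), rh6655c67851f4b756] (by decide +kernel))
noncomputable def rh43c2b98e2d068867 : CRef := CRef.mk (Pat.mk 0x180000003a00000000 0x1f0000003e00000070 4 7) 0 0 (step_sound _ 65 [rh97d20052fbbd40fd, (rhab22b5b56e7b3243.shift 1 1)] (by decide +kernel))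
noncomputable def rhbd17bf3452ac8c76 : CRef := CRef.mk (Pat.mk 0x1a000000060000000200000000 0x4000000070000000f0000001a000000060000000600000004 4 5) 0 0 (step_sound _ 129 [(rh14f80659e6313cc6.shift 1 1), (rh2f7aebebd7d680c3.shift 0 1), (rhd4b4beefcd67f51e.shift 1 0)] (by decide +kernel))
noncomputable def rh4a01c680587ccf27 : CRef := CRef.mk (Pat.mk 0x60000001a00000002000000020000000000000000 0xf0000001b00000002000000060000000600000004 4 5) 0 0 (step_sound _ 160 [rha613ffd40b6c9d24, (rhd6e447e81774439e.shift 0 4)] (by decide +kernel))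
noncomputable def rh47a759ddc34a2afd : CRef := CRef.mk (Pat.mk 0x8000000090000000b0000000900000000 0x120000001a0000000f0000000b0000000900000001 4 5) 0 0 (step_sound _ 132 [(rh2f68792b6b779e96.shift 3 1), rhbdaf6b9afdad88f0] (by decide +kernel))
noncomputable def rh7fa6bc5c2a9f3ea6 : CRef := CRef.mk (Pat.mk 0x10000000f0000000d000000000000000000000000 0x100000001000000070000000f0000000f0000001a0000000a00000008 4 5) 0 0 (step_sound _ 97 [(rha40d42a2e34c408d.shift 0 1), rhbbe16ff26f7822db] (by decide +kernel))
noncomputable def rh699a3d9fbbc9e241 : CRef := CRef.mk (Pat.mk 0x10000000130000001b000000010000000000000000 0x110000001b0000001b0000000f0000000a0000000a 4 5) 0 0 (step_sound _ 65 [rh3cb04db3dd2b6a55, rhc4713ca36c943a51] (by decide +kernel))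
noncomputable def rh9bfdca6de417b6c6 : CRef := CRef.mk (Pat.mk 0x20000000e0000001a0000000000000000 0x4000000040000000e0000000e0000001e0000000b0000000b 4 5) 0 0 (step_sound _ 130 [(rh5d54cb79a67f97ab.shift 2 0), (rh7e1098702e50f2b0.shift 2 0), (rh84d1c02a8954c6a8.shift 1 1), rhe58a7845769190f3] (by decide +kernel))
noncomputable def rh57c01229e6bca406 : CRef := CRef.mk (Pat.mk 0x400000000e00000002 0x600000003e00000073 4 7) 0 0 (step_sound _ 36 [(rhc13dbb2602bbcc3a.shift 1 0), rheb0810cc63b001d8] (by decide +kernel))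
noncomputable def rh805f552c45eb3f1a : CRef := CRef.mk (Pat.mk 0x2000000060000000e000000080000000000000000 0x60000000600000006000000060000000e0000000b0000000300000003 4 4) 0 0 (step_sound _ 65 [rh46530d756bdf8511, (rh9be513b18bc3ec68.shift 1 2), (rhea7a1800d6f053bd.shift 1 0)] (by decide +kernel))
noncomputable def rhff28e042d2131524 : CRef := CRef.mk (Pat.mk 0x1000000020000000600000004 0x1000000010000000300000003000000030000000600000006 4 3) 0 0 (step_sound _ 97 [(rh2145e1d24b96a57e.shift 1 0), rhf9a6286f1d5377a2] (by decide +kernel))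
noncomputable def rhb2289d78f1aaaf2f : CRef := CRef.mk (Pat.mk 0x80000001c00000038000000000000000000000000 0xc0000001c000000380000001f0000000c0000000c 4 6) 0 0 (step_sound _ 67 [(rh40241bd608e5be1a.shift 2 0), (rh46530d756bdf8511.shift 2 0), (rh852e818bc8629e77.shift 0 1)] (by decide +kernel))
noncomputable def rhd54094d5453241f9 : CRef := CRef.mk (Pat.mk 0x18000000180000003800000008 0x40000001f0000001f0000003800000008 4 6) 0 0 (step_sound _ 98 [(rh50fbb5868c909700.shift 2 0), (rhace16348de435294.shift 0 1)] (by decide +kernel))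
noncomputable def rh4dba48564e184892 : CRef := CRef.mk (Pat.mk 0x200000003800000004 0x370000003e00000006 4 6) 0 0 (step_sound _ 34 [(rheb0810cc63b001d8.shift 1 0), (rhf015c446b680a84f.shift 0 1)] (by decide +kernel))
noncomputable def rhcfa3ce0d1154c7da : CRef := CRef.mk (Pat.mk 0x10000001a000000120000001600000000 0x8000000080000000f0000001a0000001a0000001600000004 4 5) 0 0 (step_sound _ 129 [(rh23625f181fa295a9.shift 0 1), (rh55afc6a59410cf00.shift 1 0)] (by decide +kernel))
noncomputable def rhc74e5087263440f3 : CRef := CRef.mk (Pat.mk 0xc000000080000001a0000001000000000 0x40000000c000000080000001b0000001f00000004 4 5) 0 0 (step_sound _ 35 [rh114380420d2c6317, (rh50fbb5868c909700.shift 2 1)] (by decide +kernel))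
noncomputable def rh417229f5e9012f38 : CRef := CRef.mk (Pat.mk 0x10000000b0000000a000000180000000800000000 0x10000000b0000000a0000001f0000003a00000010 4 6) 0 0 (step_sound _ 65 [rh1ec2204a0e2e30f2, (rh7b1f1fb55310c477.shift 0 1)] (by decide +kernel))
noncomputable def rhe7399ba2b689e637 : CRef := CRef.mk (Pat.mk 0x80000000c0000004a0000000800000000 0x80000000c0000007f0000003800000010 4 7) 0 0 (step_sound _ 36 [(rh55afc6a59410cf00.shift 3 0), (rh92e60e63006ebc81.shift 0 1)] (by decide +kernel))
noncomputable def rh1916590dd7a90ab5 : CRef := CRef.mk (Pat.mk 0x1c0000001800000008 0x80000000c0000000f0000003c0000001800000018 4 6) 0 0 (step_sound _ 99 [(rh3e595262c1b737ad.shift 3 0), rh8f2453f412d57a0e] (by decide +kernel))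
noncomputable def rh400dcec132c42705 : CRef := CRef.mk (Pat.mk 0xe0000000e0000000800000008 0x200000002000000130000001e0000000e0000000c00000008 4 5) 0 0 (step_sound _ 100 [(rh2f68792b6b779e96.shift 3 0), (rhbdb8dfd08861fbf7.shift 0 1)] (by decide +kernel))
noncomputable def rhe0a6ad54b03f60d6 : CRef := CRef.mk (Pat.mk 0x2000000060000001a000000000000000000000000 0x6000000060000001a0000000f0000000700000005 4 5) 0 0 (step_sound _ 65 [(rh301a6b3a9154ed36.shift 1 0), rh91a545eb3be094e3, (rhd630af2e39ca770f.shift 0 1)] (by decide +kernel))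
noncomputable def rhe4ad1bd83b2bbdeb : CRef := CRef.mk (Pat.mk 0x1000000070000000600000000 0x30000000300000003000000070000000600000006 4 3) 0 0 (step_sound _ 128 [(rh2145e1d24b96a57e.shift 0 1), rh94af4e54d015da96] (by decide +kernel))
noncomputable def rh3f853f49a57da585 : CRef := CRef.mk (Pat.mk 0x160000001e0000000c 0x12000000330000001e0000001e0000000c 4 6) 0 0 (step_sound _ 97 [(rh2145e1d24b96a57e.shift 1 0), rh2f50e1924537f66e] (by decide +kernel))
noncomputable def rhb89ec8cd6b8f44e1 : CRef := CRef.mk (Pat.mk 0x1c00000000000000000000001e00000002 0x1f00000007000000030000001e00000002 4 5) 0 0 (step_sound _ 65 [rh22841d3dc3f0d7f8, (rh3244c3cc8379b070.shift 0 1)] (by decide +kernel))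
noncomputable def rhd8846ddc5ae26e22 : CRef := CRef.mk (Pat.mk 0xe00000018000000300000001000000000 0x1000000010000000370000003e00000018000000380000003000000020 4 6) 0 0 (step_sound _ 132 [(rh17659c9d2e0466f4.shift 0 1), (rh5ba2d67652840f34.shift 1 2), (rh860fc38a6f91358e.shift 3 1), (rhd4b4beefcd67f51e.shift 4 0)] (by decide +kernel))
noncomputable def rh5bb004db7372fa2f : CRef := CRef.mk (Pat.mk 0x10000000b0000000a00000018000000800000000000000000 0x10000000b0000000a0000001e000000fa0000001000000010 4 8) 0 0 (step_sound _ 97 [(rh391e17c00743530b.shift 1 0), (rh7b1f1fb55310c477.shift 0 2)] (by decide +kernel))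
noncomputable def rh8c162a45b2c34459 : CRef := CRef.mk (Pat.mk 0x3a00000018 0x70000003e0000001f 4 6) 0 0 (step_sound _ 1 [(rh24ae073cf30720c4.shift 1 0), rha4d0a9d7ac239863] (by decide +kernel))
noncomputable def rh14ee6c800684e33b : CRef := CRef.mk (Pat.mk 0x9a00000018 0xff0000001f 4 8) 0 0 (step_sound _ 37 [(rh361cc68994bd8a63.shift 3 0), rh71a32b9c15671a4e] (by decide +kernel))
noncomputable def rh6060dcef09fac923 : CRef := CRef.mk (Pat.mk 0x20000000300000003000000100000000000000000 0x40000000600000007000000030000001e0000000600000002 4 5) 0 0 (step_sound _ 65 [rh15a1b6b82d9fd81f, (rhf8edb192cdea7ada.shift 0 1)] (by decide +kernel))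
noncomputable def rh0f3809613a57ef80 : CRef := CRef.mk (Pat.mk 0x3a00000018 0x700000003e0000001f 4 7) 0 0 (step_sound _ 1 [(rh24ae073cf30720c4.shift 1 0), rh35024012c177fdf9] (by decide +kernel))
noncomputable def rhf5351443a469f34e : CRef := CRef.mk (Pat.mk 0x2000000060000001a000000000000000000000000 0x400000006000000060000001a0000000f0000000700000004 4 5) 0 0 (step_sound _ 65 [(rh301a6b3a9154ed36.shift 1 0), (rha707fb719e87fe6e.shift 1 1), (rhd630af2e39ca770f.shift 0 1)] (by decide +kernel))
noncomputable def rh74575fcb2c947490 : CRef := CRef.mk (Pat.mk 0x2000000020000001a00000006 0x40000000600000006000000020000001b0000000f 4 5) 0 0 (step_sound _ 0 [rh3fc040e777f1679e, rh9a369cb82ea472da] (by decide +kernel))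
noncomputable def rh03d31f6d89a46618 : CRef := CRef.mk (Pat.mk 0x90000000b000000090000000800000000 0x1000000090000000b0000000f0000001a00000012 4 5) 0 0 (step_sound _ 36 [(rh55afc6a59410cf00.shift 3 0), rh7dc53c885dde6ace] (by decide +kernel))
noncomputable def rh172a9b91721ca148 : CRef := CRef.mk (Pat.mk 0x1000000010000000180000001c00000000 0x10000000100000001f0000003f00000020 4 6) 0 0 (step_sound _ 37 [(rh55afc6a59410cf00.shift 4 0), (rhbe5fc5902345a0b9.shift 0 1)] (by decide +kernel))
noncomputable def rh0572ca70d3a56462 : CRef := CRef.mk (Pat.mk 0xd0000000f000000010000000000000000 0x80000000a0000001a0000000f0000000f000000070000000100000001 4 5) 0 0 (step_sound _ 129 [(rh5ba2d67652840f34.shift 0 2), rhadf429772c25fde0] (by decide +kernel))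
noncomputable def rh38aa8dd09980796f : CRef := CRef.mk (Pat.mk 0x10000001b0000001300000010 0xa0000000a0000000f0000001b0000001b00000011 4 5) 0 0 (step_sound _ 97 [rh23625f181fa295a9, rh503dd4575245365b] (by decide +kernel))
noncomputable def rhed52f6d15229a2fa : CRef := CRef.mk (Pat.mk 0x1a0000000e000000020000000000000000 0xb0000000b0000001e0000000e0000000e0000000400000004 4 5) 0 0 (step_sound _ 66 [(rh4821dcf828b9d7bf.shift 2 0), (rh55a1f6c57a317ce6.shift 1 0), (rh9cdee070315fb032.shift 2 1), (rh9dc6f17ef8893ffe.shift 0 2)] (by decide +kernel))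
noncomputable def rhddaa03e5893ce3c5 : CRef := CRef.mk (Pat.mk 0x20000000e00000040 0x730000003e00000060 4 7) 0 0 (step_sound _ 36 [(rh1a48baf448afc5e7.shift 1 0), (rh3244c3cc8379b070.shift 0 1)] (by decide +kernel))
noncomputable def rhbf739a2069d3147e : CRef := CRef.mk (Pat.mk 0x20000007c00000000 0x30000007f0000003c 4 7) 0 0 (step_sound _ 33 [(rh3244c3cc8379b070.shift 0 1), rh332d72a610d43947] (by decide +kernel))
noncomputable def rh2ad107ca13ef818e : CRef := CRef.mk (Pat.mk 0x10000002d0000000900000009 0x400000006000000070000003d0000000d00000009 4 6) 0 0 (step_sound _ 97 [rh2f68792b6b779e96, (rh45e74562920dda87.shift 1 0)] (by decide +kernel))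
noncomputable def rh4ed399e733b291be : CRef := CRef.mk (Pat.mk 0x2000000000000001e00000000 0x200000002000000030000003e00000007 4 6) 0 0 (step_sound _ 1 [rh1329f9090cb91163, rheb0810cc63b001d8] (by decide +kernel))
noncomputable def rhd81976f5609d641c : CRef := CRef.mk (Pat.mk 0x1c000000300000001400000000 0x8000000080000000c0000001c0000003f0000003600000004 4 6) 0 0 (step_sound _ 66 [(rh215e11e099257d75.shift 2 0), (rh70eb00692e28eccb.shift 0 1), (rhb730ba14aa32bdb3.shift 2 0)] (by decide +kernel))
noncomputable def rh15d2d2578b54b533 : CRef := CRef.mk (Pat.mk 0x6000000000000000c0000001c00000000 0x200000006000000040000003c0000001f00000002 4 6) 0 0 (step_sound _ 98 [(rh50fbb5868c909700.shift 1 1), rh672eaac2cc726467] (by decide +kernel))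
noncomputable def rh784d8ea627962b40 : CRef := CRef.mk (Pat.mk 0x3c0000000000000003000000010000000000000000 0x20000003e0000000600000003000000030000000100000001 4 6) 0 0 (step_sound _ 129 [(rh80fcd6d0a18cb2dd.shift 1 4), rhadf429772c25fde0] (by decide +kernel))
noncomputable def rh893b2dff2bcd2a94 : CRef := CRef.mk (Pat.mk 0x1a000000030000000200000000 0x4000000070000000f0000001a000000030000000300000001 4 5) 0 0 (step_sound _ 129 [rh03dfdf12d5937476, (rh330a005829cdd297.shift 0 1), (rh769be3fe24eee174.shift 0 1)] (by decide +kernel))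
noncomputable def rh0f9436f541fd22fa : CRef := CRef.mk (Pat.mk 0x1c0000001c00000004 0x2000000030000003f0000001e00000004 4 6) 0 0 (step_sound _ 33 [(rh18965a982d73c794.shift 1 1), rh1a9e74d77ec446c9] (by decide +kernel))
noncomputable def rhdef75d31131e4a4a : CRef := CRef.mk (Pat.mk 0x2000000260000000600000006 0xc0000001e000000370000000600000006 4 6) 0 0 (step_sound _ 98 [rh4875fb3337fb6e60, (rh5c5e593799055d58.shift 1 0)] (by decide +kernel))
noncomputable def rh75fb09de0c589f41 : CRef := CRef.mk (Pat.mk 0xe000000080000001c0000000000000000 0x200000002000000020000000e0000000f0000003c0000000400000004 4 6) 0 0 (step_sound _ 98 [(rh40241bd608e5be1a.shift 1 0), (rhe2b63c00a3d7bb73.shift 0 2), (rhf9a6286f1d5377a2.shift 1 1)] (by decide +kernel))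
noncomputable def rh660e64ff291cb876 : CRef := CRef.mk (Pat.mk 0x40000001e000000180000000000000000 0x4000000040000001e0000001f0000000300000002 4 5) 0 0 (step_sound _ 65 [rhdc9c04356d8c439c, (rheb0810cc63b001d8.shift 0 2)] (by decide +kernel))
noncomputable def rh050a00b12dcdc633 : CRef := CRef.mk (Pat.mk 0xc0000001c000000180000001000000000 0xc0000001c0000003f0000003600000006 4 6) 0 0 (step_sound _ 66 [(rh98dcf83e06bbd9f9.shift 1 0), (rhf56e6bc5d2f7fe77.shift 0 1)] (by decide +kernel))
noncomputable def rhffa9269c5f8430e5 : CRef := CRef.mk (Pat.mk 0x80000001c0000000e0000000000000000 0x80000001f0000003e0000007000000010 4 7) 0 0 (step_sound _ 68 [(rh695f888db18ad7c7.shift 1 1), (rh78974448101547fe.shift 1 0), (rhe3060b190bc0bc78.shift 0 2)] (by decide +kernel))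
noncomputable def rh04e877282bc382ca : CRef := CRef.mk (Pat.mk 0x800000008000000180000000800000000 0x800000008000000080000003c0000000f00000004 4 6) 0 0 (step_sound _ 34 [(rh1fa63894a0cb894a.shift 0 1), (rh932754581e0f4330.shift 2 0)] (by decide +kernel))
noncomputable def rh6d2f6e9aa2e81a1a : CRef := CRef.mk (Pat.mk 0x100000001e000000100000001800000000 0x100000001e0000001f0000003c00000020 4 6) 0 0 (step_sound _ 65 [(rh29bcbb0ab6bb5c06.shift 1 0), (rheb0810cc63b001d8.shift 0 2)] (by decide +kernel))
noncomputable def rh2983cafbadf8e393 : CRef := CRef.mk (Pat.mk 0x580000001300000010 0x800000008000001ec000000fe0000001b00000010 4 9) 0 0 (step_sound _ 69 [(rh62a51e5e348b9e49.shift 3 1), (rh768a472a1ebe455c.shift 2 0), (rh9667e0f75e1192a8.shift 0 1)] (by decide +kernel))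
noncomputable def rh379321b70c9537f3 : CRef := CRef.mk (Pat.mk 0x800000008000000440000000e00000000 0x8000000080000007f0000003f00000010 4 7) 0 0 (step_sound _ 67 [(rh9938ce373ed9d77d.shift 2 0), (rhf9d36e158778ce35.shift 0 1), rhfe557af9112f51d6] (by decide +kernel))
noncomputable def rh485a653f93bbf986 : CRef := CRef.mk (Pat.mk 0x300000002000000100000000300000000 0x100000003000000020000001e0000000f00000004 4 5) 0 0 (step_sound _ 65 [(rh50fbb5868c909700.shift 0 1), rh9938ce373ed9d77d] (by decide +kernel))
noncomputable def rhb9d63ffe7f077fd8 : CRef := CRef.mk (Pat.mk 0x3c 0x770000003e 4 7) 0 0 (step_sound _ 33 [(rh3f8766e6ecb455ce.shift 1 0), rhb65bed9e8add8527] (by decide +kernel))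
noncomputable def rhe1f1aab5318cd34b : CRef := CRef.mk (Pat.mk 0x1000000120000000300000002 0x50000000f0000001e0000000300000002 4 5) 0 0 (step_sound _ 97 [rh50fbb5868c909700, rha4e8b74f9e01b86c] (by decide +kernel))
noncomputable def rh7dc624d7dc927e44 : CRef := CRef.mk (Pat.mk 0x18000000080000003800000010 0x200000007c0000003f0000003800000010 4 7) 0 0 (step_sound _ 66 [(rh0bb882ba86b2372d.shift 0 2), (rh4969d2d75ade0a4c.shift 2 0), (rhc02b3aee7ab87ee1.shift 0 1)] (by decide +kernel))
noncomputable def rh92011a909a77227f : CRef := CRef.mk (Pat.mk 0x40000000c0000001800000008 0x10000000370000003f0000001800000008 4 6) 0 0 (step_sound _ 65 [(rhb739f4f82bb681b4.shift 0 1), rhee752aa48069abb2] (by decide +kernel))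
noncomputable def rhbfcfb6dda3b7c143 : CRef := CRef.mk (Pat.mk 0x300000010000000030000000600000000 0x40000000f0000001e000000030000000600000004 4 5) 0 0 (step_sound _ 97 [(rh55afc6a59410cf00.shift 1 0), (rha4e8b74f9e01b86c.shift 0 1)] (by decide +kernel))
noncomputable def rhd626cb2a88a0bee7 : CRef := CRef.mk (Pat.mk 0x100000012000000030000000600000000 0x40000000f0000001e000000030000000600000004 4 5) 0 0 (step_sound _ 129 [(rh55afc6a59410cf00.shift 1 0), (rha4e8b74f9e01b86c.shift 0 1)] (by decide +kernel))
noncomputable def rhbeabb5977a5d4798 : CRef := CRef.mk (Pat.mk 0x2400000034000000140000000c00000000 0x2400000034000000170000003e00000012 4 6) 0 0 (step_sound _ 36 [(rh71222050f2c63a3a.shift 4 0), rhfa8c7f01b0685da6] (by decide +kernel))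
noncomputable def rh10773b53a9d72d47 : CRef := CRef.mk (Pat.mk 0x10000000100000001600000002 0x1000000010000000100000003e00000073 4 7) 0 0 (step_sound _ 35 [(rh5e044f2a7fe8917d.shift 1 0), rheb0810cc63b001d8] (by decide +kernel))
noncomputable def rh769475dd0d42f086 : CRef := CRef.mk (Pat.mk 0x100000001000000010000000120000000200000000 0x1000000010000000100000003b0000001e00000008 4 6) 0 0 (step_sound _ 35 [(rh79877ebd3ef475dd.shift 3 1), rhd7d5a17daaf616a3] (by decide +kernel))
noncomputable def rhf4944603f7a2747c : CRef := CRef.mk (Pat.mk 0x100000001400000016000000020000000000000000 0x1000000010000000140000001e0000001b0000000800000008 4 5) 0 0 (step_sound _ 99 [(rh86bdd6388b8581ae.shift 2 0), (rheb0810cc63b001d8.shift 0 2)] (by decide +kernel))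
noncomputable def rh09fa1a26dd206053 : CRef := CRef.mk (Pat.mk 0xc000000060000000010000005800000010 0xc8000000780000000f0000007800000010 4 8) 0 0 (step_sound _ 99 [(rh24ae073cf30720c4.shift 3 3), rhb8595fa0ccd547f4] (by decide +kernel))
noncomputable def rhd4b5c1aee1219b2a : CRef := CRef.mk (Pat.mk 0x5800000003 0xee0000007e00000003 4 8) 0 0 (step_sound _ 34 [rhca9569cc80abfe76, (rhd7b8cc4eecb9e3ae.shift 1 1)] (by decide +kernel))
noncomputable def rh2231434a217bd613 : CRef := CRef.mk (Pat.mk 0x200000002c 0x770000003e 4 7) 0 0 (step_sound _ 4 [(rh33e738c4ed385b9f.shift 2 0), rhf015c446b680a84f] (by decide +kernel))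
noncomputable def rh0af92005833c4fe2 : CRef := CRef.mk (Pat.mk 0x1000000000000000180000009c00000000 0x100000001000000018000000ff00000060 4 8) 0 0 (step_sound _ 33 [(rh53b3c253cb0c65f4.shift 0 1), (rhd892d47406e6a88d.shift 2 0)] (by decide +kernel))
noncomputable def rh93917f859014f1fa : CRef := CRef.mk (Pat.mk 0x4000000180000000e0000000400000004 0xa0000000f0000001a0000000e0000000600000004 4 5) 0 0 (step_sound _ 131 [(rh5c5e593799055d58.shift 2 1), rh85809ffb3db59441] (by decide +kernel))
noncomputable def rha6cbd052c746e3e6 : CRef := CRef.mk (Pat.mk 0x20000000400000006000000020000000000000000 0x1000000030000000700000006000000030000000300000003 4 3) 0 0 (step_sound _ 33 [(rh71222050f2c63a3a.shift 1 0), rha57dd671b2547de5] (by decide +kernel))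
noncomputable def rhb1fb8fa58a43835e : CRef := CRef.mk (Pat.mk 0x80000003000000018000000080000000800000000 0x40000000f0000003c00000018000000180000001800000010 4 6) 0 0 (step_sound _ 131 [(rh3ca48e2a6d60153d.shift 2 1), (rh53509d91ff78ed56.shift 0 2), (rheb6520004608cff3.shift 3 0)] (by decide +kernel))
noncomputable def rh46a6e9a4a08f20b3 : CRef := CRef.mk (Pat.mk 0x180000009c00000000 0x18000000ff00000007 4 8) 0 0 (step_sound _ 37 [(rh2fe78cc5ca4405d8.shift 3 1), rhcc2be1f880c5ea3e] (by decide +kernel))
noncomputable def rh5a913b318216cdb5 : CRef := CRef.mk (Pat.mk 0x70000000a 0x380000001f0000001b 4 6) 0 0 (step_sound _ 35 [rh62a51e5e348b9e49, rhe25b0a99195a5d59] (by decide +kernel))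
noncomputable def rh02a219798ccd00cd : CRef := CRef.mk (Pat.mk 0x8000000120000001600000014 0xa0000001e000000130000001e00000014 4 5) 0 0 (step_sound _ 100 [(rh50fbb5868c909700.shift 3 0), rhab6a356458e70b84] (by decide +kernel))
noncomputable def rh57e904acb908a42d : CRef := CRef.mk (Pat.mk 0x8000000120000001600000014 0xa0000001e000000330000001600000014 4 6) 0 0 (step_sound _ 97 [(rh2145e1d24b96a57e.shift 1 0), rhd35d4683565f4b53] (by decide +kernel))
noncomputable def rhee3dcc851cfeecaf : CRef := CRef.mk (Pat.mk 0x400000005800000003 0x6e0000007e00000003 4 7) 0 0 (step_sound _ 34 [(rh521deb6e4daf8596.shift 1 1), rhca9569cc80abfe76] (by decide +kernel))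
noncomputable def rhec5e79449ea30f2b : CRef := CRef.mk (Pat.mk 0x80000000800000008000000080000000a 0x800000008000000080000007c0000001f 4 7) 0 0 (step_sound _ 36 [(rh55afc6a59410cf00.shift 3 0), rhedf3a755fe019897] (by decide +kernel))
noncomputable def rh741b6cc286b94df1 : CRef := CRef.mk (Pat.mk 0x100000000800000008000000080000000a 0x100000001800000008000000080000001c0000001f 4 5) 0 0 (step_sound _ 131 [(rh2f68792b6b779e96.shift 3 1), rh397d88edef2dd6bb] (by decide +kernel))
noncomputable def rh964a59538a450821 : CRef := CRef.mk (Pat.mk 0x800000018000000080000000a 0x80000000800000008000000180000007c0000001f 4 7) 0 0 (step_sound _ 36 [rh0b786d94a31538a6, (rh3e595262c1b737ad.shift 3 0), rhedf3a755fe019897] (by decide +kernel))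
noncomputable def rha231d15fdff27146 : CRef := CRef.mk (Pat.mk 0x100000012000000030000000200000000 0x60000000f0000001e000000030000000300000001 4 5) 0 0 (step_sound _ 99 [rh58d5fb7943e18d52, (rhb2a0b9ccfb5cecd5.shift 0 2)] (by decide +kernel))
noncomputable def rhfceee77b133dacc5 : CRef := CRef.mk (Pat.mk 0x7c00000002 0x3c0000007f00000003 4 7) 0 0 (step_sound _ 33 [(rh9a1dd945b4f11bb2.shift 0 1), rheb0810cc63b001d8] (by decide +kernel))
noncomputable def rh74f00d2c2e35345d : CRef := CRef.mk (Pat.mk 0x9000000090000002d000000010000000000000000 0x90000000d0000003d000000070000000600000004 4 6) 0 0 (step_sound _ 65 [(rh55afc6a59410cf00.shift 0 1), (rhf749bf2360b78922.shift 1 0)] (by decide +kernel))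
noncomputable def rhfbd142acd04e79a5 : CRef := CRef.mk (Pat.mk 0x200000002000000020000000200000000 0x1000000030000000300000002000000030000000300000001 4 2) 0 0 (step_sound _ 160 [rhc4307a5759f1ed24, (rhffd04209dc8ea796.shift 0 1)] (by decide +kernel))
noncomputable def rh6ed37a46f1e42752 : CRef := CRef.mk (Pat.mk 0x1e000000000000000200000000 0x70000003e000000030000000200000002 4 6) 0 0 (step_sound _ 129 [(rh3244c3cc8379b070.shift 0 3), rh911fc1e3ba39b2c6] (by decide +kernel))
noncomputable def rh697b6d46448d3c68 : CRef := CRef.mk (Pat.mk 0x14000000300000001c000000000000000000000000 0x4000000360000003f0000001c0000000c0000000800000008 4 6) 0 0 (step_sound _ 130 [(rh046c5eb18e55a239.shift 2 0), (rh38146ff2d053a047.shift 0 3), (rh70e33bfdf511e144.shift 2 0)] (by decide +kernel))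
noncomputable def rh65271c6153afc2e0 : CRef := CRef.mk (Pat.mk 0x1c0000000c000000000000000600000000 0x20000001f0000003c000000040000000600000002 4 6) 0 0 (step_sound _ 66 [(rh932754581e0f4330.shift 1 0), (rha6ec1fffe665b832.shift 0 1)] (by decide +kernel))
noncomputable def rha7b5dc9ddcd9f09d : CRef := CRef.mk (Pat.mk 0x200000003000000180000000c00000000 0x100000003000000030000001a0000000f00000006 4 5) 0 0 (step_sound _ 33 [rh2f544a0a1f62b1e4, (rh53b3c253cb0c65f4.shift 0 1)] (by decide +kernel))
noncomputable def rhb86390622f7cdb9c : CRef := CRef.mk (Pat.mk 0xa00000002000000580000000800000000 0xa0000000a0000007a0000000f00000004 4 7) 0 0 (step_sound _ 34 [(rh361cc68994bd8a63.shift 2 1), rhb3460b29e55f22d2] (by decide +kernel))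
noncomputable def rhb420e2f32691659a : CRef := CRef.mk (Pat.mk 0x100000003000000000000003c00000000 0x1000000010000000300000003000000060000003e00000002 4 6) 0 0 (step_sound _ 65 [(rh3f8766e6ecb455ce.shift 1 1), rha40d42a2e34c408d] (by decide +kernel))
noncomputable def rhff883eeb52774e9d : CRef := CRef.mk (Pat.mk 0x2000000030000001a000000000000000000000000 0x100000003000000030000001a0000000f0000000700000004 4 5) 0 0 (step_sound _ 65 [(rh36e6bb6cca6188da.shift 0 1), rh5c651669912fbab1, (rhe286c75f2739cce2.shift 0 1)] (by decide +kernel))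
noncomputable def rh7ef648bffff0c07b : CRef := CRef.mk (Pat.mk 0x40000001c0000001c0000000000000000 0x40000001e0000003f0000000300000002 4 6) 0 0 (step_sound _ 97 [rhaa63e65ef79086bf, (rhf48373e13d2bc128.shift 1 2)] (by decide +kernel))
noncomputable def rhe7bcbfb0035c90e7 : CRef := CRef.mk (Pat.mk 0x600000006000000260000000200000000 0x600000006000000370000001e0000000c 4 6) 0 0 (step_sound _ 34 [(rh7b1f1fb55310c477.shift 1 0), rh8345db6d942cbb70] (by decide +kernel))
noncomputable def rh87980f366b100a8e : CRef := CRef.mk (Pat.mk 0x1c000000080000000e000000000000000000000000 0x4000000040000003c0000000f0000000e000000020000000200000002 4 6) 0 0 (step_sound _ 130 [(rh37d9ceebb86d75d1.shift 1 2), (rh4dc133ee0ba1420a.shift 0 4), (rhfafeb437ceb8396d.shift 1 0)] (by decide +kernel))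
noncomputable def rhb5a7f92cc27b3f13 : CRef := CRef.mk (Pat.mk 0x180000001e0000000400000000 0x2000000030000001f0000001e0000000400000004 4 5) 0 0 (step_sound _ 97 [(rh3244c3cc8379b070.shift 0 2), rh3e9262c7804b2d1d] (by decide +kernel))
noncomputable def rh50a1daef835fae7e : CRef := CRef.mk (Pat.mk 0x10000000180000001c0000000c 0x6000000360000003f0000001c0000000c 4 6) 0 0 (step_sound _ 66 [(rh34517e326ddb5b25.shift 0 1), (rhcec05e2f45773d62.shift 1 0)] (by decide +kernel))
noncomputable def rh6abdd6f58fb93772 : CRef := CRef.mk (Pat.mk 0xe0000001c00000008 0x10000000700000003e0000001f00000008 4 7) 0 0 (step_sound _ 68 [(rh5421160f8e9bcf07.shift 1 0), (rh62a51e5e348b9e49.shift 1 1), (rhaf9f2efc81a8312b.shift 0 1)] (by decide +kernel))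
noncomputable def rh1edccfff645534d3 : CRef := CRef.mk (Pat.mk 0x800000018000000080000000800000000 0x40000000f0000003c000000080000000800000008 4 6) 0 0 (step_sound _ 130 [rh13c496b0c058d1b3, (rh50fbb5868c909700.shift 2 1)] (by decide +kernel))
noncomputable def rh1a2f22a65ad20718 : CRef := CRef.mk (Pat.mk 0x100000001300000058000000000000000000000000 0x100000001b000000fe000001ec0000000800000008 4 9) 0 0 (step_sound _ 101 [(rh2e85ec7b47efa312.shift 0 2), (rh695f888db18ad7c7.shift 3 2), (rhd1474a84c69f0140.shift 2 0)] (by decide +kernel))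
noncomputable def rhad3ade5dceadddb4 : CRef := CRef.mk (Pat.mk 0xe000000440000000800000008 0x100000003f0000007f0000000800000008 4 7) 0 0 (step_sound _ 67 [(rh6292bd8784ece55f.shift 0 2), (rh794dbc5fabb61407.shift 2 0), rhc0ddb33d3a52722b] (by decide +kernel))
noncomputable def rh9b972fc44974c080 : CRef := CRef.mk (Pat.mk 0x300000010000000020000000300000000 0x40000000f0000001e000000020000000300000001 4 5) 0 0 (step_sound _ 97 [(rh794dbc5fabb61407.shift 0 1), rh932754581e0f4330] (by decide +kernel))
noncomputable def rh75bd2b7f2bf50fe2 : CRef := CRef.mk (Pat.mk 0x200000003000000120000000100000000 0x2000000030000001e0000000f00000005 4 5) 0 0 (step_sound _ 33 [rh932754581e0f4330, rhf961d3b1ca3fff24] (by decide +kernel))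
noncomputable def rhc4f7c28c47f045d9 : CRef := CRef.mk (Pat.mk 0x1000000038000000080000001800000000 0x10000000380000003f0000007c00000020 4 7) 0 0 (step_sound _ 66 [(rh36bdd71eb75150ba.shift 2 0), (rhdeca8db941583de2.shift 0 1), (rheea1a90336e79c71.shift 0 2)] (by decide +kernel))
noncomputable def rh82c32eec533ffa4c : CRef := CRef.mk (Pat.mk 0x8000000180000000c0000000400000000 0x8000000180000003f0000003700000010 4 6) 0 0 (step_sound _ 65 [rh05ac7dc28e633609, (rh53b3c253cb0c65f4.shift 0 2)] (by decide +kernel))
noncomputable def rh0104cc8cade74c86 : CRef := CRef.mk (Pat.mk 0x600000003000000100000000300000000 0x400000006000000030000001e0000000f00000004 4 5) 0 0 (step_sound _ 65 [(rh2f68792b6b779e96.shift 1 1), rhf961d3b1ca3fff24] (by decide +kernel))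
noncomputable def rh950a87af91ef39cc : CRef := CRef.mk (Pat.mk 0x600000003000000120000000100000000 0x400000006000000030000001e0000000f00000004 4 5) 0 0 (step_sound _ 33 [(rh2f68792b6b779e96.shift 1 1), rhf961d3b1ca3fff24] (by decide +kernel))
noncomputable def rh83a5231d12339864 : CRef := CRef.mk (Pat.mk 0xc000000140000003400000024 0x120000003e000000170000003400000024 4 6) 0 0 (step_sound _ 100 [(rh2145e1d24b96a57e.shift 4 0), rhe991b0a7f5491f5b] (by decide +kernel))
noncomputable def rhfb1db1011d1c5929 : CRef := CRef.mk (Pat.mk 0x200000016000000100000001000000000 0x730000003e000000100000001000000010 4 7) 0 0 (step_sound _ 99 [(rh3244c3cc8379b070.shift 0 3), (rh4ab9c4dc4d42970a.shift 1 0)] (by decide +kernel))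
noncomputable def rha566c92c412176c9 : CRef := CRef.mk (Pat.mk 0x200000012000000100000001000000010 0x80000001e0000003b000000100000001000000010 4 6) 0 0 (step_sound _ 131 [(rhd35d4683565f4b53.shift 0 1), (rhffd04209dc8ea796.shift 3 0)] (by decide +kernel))
noncomputable def rh221fe539b29f7cc4 : CRef := CRef.mk (Pat.mk 0x200000016000000140000001000000000 0x8000000080000001b0000001e000000140000001000000010 4 5) 0 0 (step_sound _ 99 [(rh3244c3cc8379b070.shift 0 3), (rhd01ed0cc6ce530d4.shift 2 0)] (by decide +kernel))
noncomputable def rh3c37d9d76af39d76 : CRef := CRef.mk (Pat.mk 0x60000000000000002000000060000000000000000 0x60000000600000002000000070000000700000001 4 3) 0 0 (step_sound _ 129 [(rh55afc6a59410cf00.shift 1 1), rha8bc3cae4d77a08f] (by decide +kernel))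
noncomputable def rh4787bd8799cfdbb8 : CRef := CRef.mk (Pat.mk 0x9c000000180000000000000010 0x60000000ff000000180000001000000010 4 8) 0 0 (step_sound _ 97 [(rh2e35f0268e686879.shift 2 0), (rhb739f4f82bb681b4.shift 0 2)] (by decide +kernel))
noncomputable def rh613f18a14bcdc478 : CRef := CRef.mk (Pat.mk 0x4000000040000000e000000180000000400000000 0x4000000060000000e0000001a0000000f0000000a 4 5) 0 0 (step_sound _ 35 [(rh7b1f1fb55310c477.shift 2 0), rhc666d7a360fc8485] (by decide +kernel))
noncomputable def rh54cc50c8d4991b16 : CRef := CRef.mk (Pat.mk 0x200000006000000040000000200000000 0x3000000030000000300000006000000070000000300000001 4 3) 0 0 (step_sound _ 161 [(rh2145e1d24b96a57e.shift 1 2), rh576a263695f5bb82] (by decide +kernel))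
noncomputable def rhb25e23e515bd9515 : CRef := CRef.mk (Pat.mk 0x80000000800000018000000300000000800000000 0x100000001800000018000000180000003c0000000f00000004 4 6) 0 0 (step_sound _ 67 [rh322e79f034282812, (rh54070bb3a14e7306.shift 3 1), (rh7928877f9bf74a91.shift 2 0)] (by decide +kernel))
noncomputable def rhbd3a02da2ec9d25f : CRef := CRef.mk (Pat.mk 0x9c00000018 0x7000000ff00000018 4 8) 0 0 (step_sound _ 37 [(rh361cc68994bd8a63.shift 3 0), rhba89ab7cb81bcc90] (by decide +kernel))
noncomputable def rh415fcfe4e9f7a6d1 : CRef := CRef.mk (Pat.mk 0xa0000000700000000 0x1b0000001f00000038 4 6) 0 0 (step_sound _ 35 [(rh33e738c4ed385b9f.shift 0 1), rh695f888db18ad7c7] (by decide +kernel))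
noncomputable def rh45afb35caab0b0f7 : CRef := CRef.mk (Pat.mk 0x1400000016000000120000000800000000 0x140000001e000000130000001e0000000a 4 5) 0 0 (step_sound _ 36 [(rh932754581e0f4330.shift 3 0), rhcc77840040279a7d] (by decide +kernel))
noncomputable def rhb6dca7745189bd5d : CRef := CRef.mk (Pat.mk 0x1400000016000000120000000800000000 0x1400000016000000330000001e0000000a 4 6) 0 0 (step_sound _ 33 [(rh71222050f2c63a3a.shift 1 0), rhd7d5a17daaf616a3] (by decide +kernel))
noncomputable def rh75befd57d7780d6f : CRef := CRef.mk (Pat.mk 0xa0000000800000008000000080000001000000000 0x1f0000001c00000008000000080000001800000010 4 5) 0 0 (step_sound _ 35 [(rh55afc6a59410cf00.shift 3 0), (rhfa546310bb60b111.shift 0 1)] (by decide +kernel))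
noncomputable def rh92ed6038b28a5d89 : CRef := CRef.mk (Pat.mk 0xa0000000800000018000000080000000000000000 0x1f0000007c00000018000000080000000800000008 4 7) 0 0 (step_sound _ 132 [(rh174a767562f03570.shift 0 4), (rh9ebd639649ea671c.shift 0 4), (rhea7a1800d6f053bd.shift 3 0)] (by decide +kernel))
noncomputable def rh2b2e2610b580dbe9 : CRef := CRef.mk (Pat.mk 0x200000003000000120000000100000000 0x100000003000000030000001e0000000f00000006 4 5) 0 0 (step_sound _ 67 [(rh5419adcd928dba20.shift 0 2), rh58abe30e6aebccc3] (by decide +kernel))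
noncomputable def rhcecd9a94f2dc3209 : CRef := CRef.mk (Pat.mk 0x400000004000000440000000e 0x40000000400000004000000770000003e 4 7) 0 0 (step_sound _ 33 [rh4115c02c20bfbac7, (rh5c5e593799055d58.shift 1 0)] (by decide +kernel))
noncomputable def rh638374c40abf23b1 : CRef := CRef.mk (Pat.mk 0x20000000300000013000000030000000000000000 0x2000000030000001f000000070000000600000006 4 5) 0 0 (step_sound _ 98 [(rh361cc68994bd8a63.shift 0 2), rh820d4e04d5dcd02e] (by decide +kernel))
noncomputable def rhcc665d498e5a5a88 : CRef := CRef.mk (Pat.mk 0x200000003000000100000000300000000 0x100000003000000030000001e0000000f00000006 4 5) 0 0 (step_sound _ 65 [rh9938ce373ed9d77d, rhe286c75f2739cce2] (by decide +kernel))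
noncomputable def rha55e9a51d19a998f : CRef := CRef.mk (Pat.mk 0x1e00000000 0x3e00000077 4 7) 0 0 (step_sound _ 5 [rh372205b881c0ac90, (rh96851dee118c1ba3.shift 1 0)] (by decide +kernel))
noncomputable def rh5623f966371d87d6 : CRef := CRef.mk (Pat.mk 0x1e00000016000000000000000400000000 0x30000001e0000001e000000030000000700000006 4 5) 0 0 (step_sound _ 161 [(rh3244c3cc8379b070.shift 0 4), rh983b208f71e94d64] (by decide +kernel))
noncomputable def rh409ef0033743d2be : CRef := CRef.mk (Pat.mk 0x2000000400000000e00000004 0x200000002000000730000003e00000004 4 7) 0 0 (step_sound _ 65 [(rh2145e1d24b96a57e.shift 1 0), (rh4115c02c20bfbac7.shift 0 1)] (by decide +kernel))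
noncomputable def rh9d1adc2f6da05dba : CRef := CRef.mk (Pat.mk 0x4000000040000001c000000000000000000000000 0x400000004000000060000001f0000003b0000000200000002 4 6) 0 0 (step_sound _ 97 [(rh975c4ddca9e0d579.shift 0 2), rhd1474a84c69f0140, (rhde10baa3043a2b46.shift 1 2)] (by decide +kernel))
noncomputable def rhb944afd64c605958 : CRef := CRef.mk (Pat.mk 0x4000000040000001c000000200000000000000000 0x4000000060000001e000000330000000200000002 4 6) 0 0 (step_sound _ 97 [(rh96851dee118c1ba3.shift 1 2), rhd1474a84c69f0140] (by decide +kernel))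
noncomputable def rh3d164a09ad92dabc : CRef := CRef.mk (Pat.mk 0x10000000100000003800000000 0x1000000010000000100000007c0000000f 4 7) 0 0 (step_sound _ 3 [rh2820ca9a6c4f41b4, (rh5c5e593799055d58.shift 3 0)] (by decide +kernel))
noncomputable def rh12986f6786da0443 : CRef := CRef.mk (Pat.mk 0x6000000030000000040000003c00000000 0x640000003c000000040000003e00000007 4 7) 0 0 (step_sound _ 1 [rh0ecfdabb15282866, (rh80fcd6d0a18cb2dd.shift 1 0)] (by decide +kernel))
noncomputable def rh694c04153ed77deb : CRef := CRef.mk (Pat.mk 0x1000000018000000000000003800000000 0x10000000180000000f0000007c00000008 4 7) 0 0 (step_sound _ 67 [(rh71222050f2c63a3a.shift 3 0), (rha9fbfd4bb8cf890b.shift 0 1)] (by decide +kernel))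
noncomputable def rh6e4c5959d08fc253 : CRef := CRef.mk (Pat.mk 0x1000000003000000120000000300000000 0x40000001e000000030000001e0000000300000001 4 5) 0 0 (step_sound _ 66 [(rh361cc68994bd8a63.shift 0 1), rh8ca74fa25325e393] (by decide +kernel))
noncomputable def rh66fb79ba164271da : CRef := CRef.mk (Pat.mk 0x400000004000000240000000600000000 0x40000000400000004000000370000001e00000008 4 6) 0 0 (step_sound _ 65 [(rh5c5e593799055d58.shift 1 1), rh8345db6d942cbb70] (by decide +kernel))
noncomputable def rh7a3be9fb1b7679f9 : CRef := CRef.mk (Pat.mk 0x1e000000000000001c 0x2000000030000001e000000070000003c 4 6) 0 0 (step_sound _ 33 [rh080361040008edb7, (rheb0810cc63b001d8.shift 0 1)] (by decide +kernel))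
noncomputable def rh2d458025f6a354be : CRef := CRef.mk (Pat.mk 0xa000000080000001e000000000000000000000000 0x20000000a0000000b0000001e0000000c0000000400000004 4 5) 0 0 (step_sound _ 129 [(rh3244c3cc8379b070.shift 0 3), (rh4893cff807d9b440.shift 1 0)] (by decide +kernel))
noncomputable def rh5e9057b506575dde : CRef := CRef.mk (Pat.mk 0x20000000060000000c000000070000000000000000 0xc0000003c000000060000000c0000000f0000001800000008 4 6) 0 0 (step_sound _ 67 [rh78974448101547fe, (rhb0ec3bbf712aa524.shift 1 2)] (by decide +kernel))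
noncomputable def rhf66943792be19228 : CRef := CRef.mk (Pat.mk 0x600000002000000000000000300000000 0x60000000600000002000000070000000700000004 4 3) 0 0 (step_sound _ 65 [(rh2f68792b6b779e96.shift 1 1), rh72ce697a3a7a83f7] (by decide +kernel))
noncomputable def rh8b752e8fba7632d2 : CRef := CRef.mk (Pat.mk 0x800000000000000180000003800000000 0x8000000080000001f0000003f00000006 4 6) 0 0 (step_sound _ 65 [rh7cc270b2cae3e066, (rhab22b5b56e7b3243.shift 1 1)] (by decide +kernel))
noncomputable def rha5ef98d9768becaf : CRef := CRef.mk (Pat.mk 0x80000000c0000001e000000000000000000000000 0xc0000000c0000001e000000070000000600000002 4 5) 0 0 (step_sound _ 66 [(rh71222050f2c63a3a.shift 2 1), rha1a532725e6ae333] (by decide +kernel))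
noncomputable def rh12a0abf7001a24f5 : CRef := CRef.mk (Pat.mk 0x4000000440000000e0000000000000000 0x4000000770000003e0000007300000002 4 7) 0 0 (step_sound _ 68 [(rh45e9dfbd6bd5d256.shift 1 2), (rh695f888db18ad7c7.shift 1 1), rhae036cc4ef671676, (rhe3060b190bc0bc78.shift 0 2)] (by decide +kernel))
noncomputable def rh865cf161b9b29643 : CRef := CRef.mk (Pat.mk 0x6000000060000000300000002 0x2000000030000000300000007000000070000000300000002 4 3) 0 0 (step_sound _ 128 [(rhe7cb73a5f8869358.shift 0 1), rhffd04209dc8ea796] (by decide +kernel))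
noncomputable def rhd52e3929053d9d5f : CRef := CRef.mk (Pat.mk 0x1e00000000 0x70000003e00000007 4 6) 0 0 (step_sound _ 1 [rheb0810cc63b001d8, rhfb89c5de8c2d962e] (by decide +kernel))
noncomputable def rhcc60a17a1a87c612 : CRef := CRef.mk (Pat.mk 0x1c000000040000000c00000000 0xa0000000f0000001c000000040000000c00000008 4 5) 0 0 (step_sound _ 130 [(rh039efe07c35de3d4.shift 0 1), (rh55afc6a59410cf00.shift 2 0)] (by decide +kernel))
noncomputable def rh8db6518e827e68b4 : CRef := CRef.mk (Pat.mk 0x3000000120000000300000000 0x10000000100000001000000030000001f0000000300000002 4 5) 0 0 (step_sound _ 66 [(rh361cc68994bd8a63.shift 0 1), rhf9a6286f1d5377a2] (by decide +kernel))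
noncomputable def rh07f41384b0a1975e : CRef := CRef.mk (Pat.mk 0x3000000120000000300000000 0x10000000100000003000000030000001e0000000300000002 4 5) 0 0 (step_sound _ 66 [(rh361cc68994bd8a63.shift 0 1), rhb1a251d9bff81766] (by decide +kernel))
noncomputable def rhf0ab1ab592ea3c19 : CRef := CRef.mk (Pat.mk 0x200000003800000018 0x600000003f0000001f 4 7) 0 0 (step_sound _ 1 [(rh24ae073cf30720c4.shift 1 0), rhec5da64b6932079e] (by decide +kernel))
noncomputable def rh1a9922713ba80f42 : CRef := CRef.mk (Pat.mk 0x1e00000000 0x70000003e00000070 4 7) 0 0 (step_sound _ 65 [(rh3244c3cc8379b070.shift 0 1), (rh60e95adc726bb530.shift 1 0)] (by decide +kernel))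
noncomputable def rhd341f37b0904818d : CRef := CRef.mk (Pat.mk 0x20000000000000007c00000002 0x2000000020000000300000007e00000053 4 7) 0 0 (step_sound _ 33 [(rh37dfb417f148200e.shift 1 0), rheb0810cc63b001d8] (by decide +kernel))
noncomputable def rhaabd50e4d2f78cb3 : CRef := CRef.mk (Pat.mk 0x800000018000000020000000600000004 0x3a0000001f000000060000000600000004 4 6) 0 0 (step_sound _ 98 [(rh04253f50b6dd0619.shift 2 0), rh28d1d93b05783e2d] (by decide +kernel))
noncomputable def rh4f09a66dbfe8c2f7 : CRef := CRef.mk (Pat.mk 0x3800000018000000180000001800000000 0x380000001e000000380000001f00000004 4 6) 0 0 (step_sound _ 98 [(rh53b3c253cb0c65f4.shift 1 3), rh6fae963f33cfdfd7] (by decide +kernel))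
noncomputable def rhf33f845d08d79ab1 : CRef := CRef.mk (Pat.mk 0x2000000010000000e000000000000000000000000 0x200000002000000030000001e000000060000000400000004 4 5) 0 0 (step_sound _ 129 [(rh70e33bfdf511e144.shift 1 0), (rhf48373e13d2bc128.shift 0 3)] (by decide +kernel))
noncomputable def rh4b0f872c23b8b926 : CRef := CRef.mk (Pat.mk 0x80000001800000018000000100000000000000000 0x1800000018000000380000001f0000000c0000000c 4 6) 0 0 (step_sound _ 67 [(rh6fae963f33cfdfd7.shift 0 1), (rh91a545eb3be094e3.shift 2 0), (rhea7a1800d6f053bd.shift 3 0)] (by decide +kernel))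
noncomputable def rhedad3a56e453d4a1 : CRef := CRef.mk (Pat.mk 0x80000001c000000040000000800000000 0x20000000f0000001c000000040000000c0000000c 4 5) 0 0 (step_sound _ 34 [(rh71222050f2c63a3a.shift 2 0), rhc2f06c7a97a2ad79] (by decide +kernel))
noncomputable def rhbf52db6f1f0800fd : CRef := CRef.mk (Pat.mk 0x300000003000000010000000400000000 0x10000000300000003000000030000000700000007 4 3) 0 0 (step_sound _ 32 [rh4c9b7a2d8c4aee8b, rh71222050f2c63a3a] (by decide +kernel))
noncomputable def rh3d12b22a3a27ac9e : CRef := CRef.mk (Pat.mk 0x8000000000000001e0000000000000000 0x8000000380000001f0000003000000010 4 6) 0 0 (step_sound _ 100 [(rh33e738c4ed385b9f.shift 1 2), rha822a3cd88cd40bd] (by decide +kernel))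
noncomputable def rh6f819ab0e2f6cdd3 : CRef := CRef.mk (Pat.mk 0x4000000000000001e0000000000000000 0x400000004000000070000003e0000000200000002 4 6) 0 0 (step_sound _ 97 [(rh3244c3cc8379b070.shift 0 2), (rhcf6f2001e865b56c.shift 1 0)] (by decide +kernel))
noncomputable def rh945a15344669bc6d : CRef := CRef.mk (Pat.mk 0x1800000003c00000000 0x1f00000003e00000007 4 9) 0 0 (step_sound _ 69 [rh21d582c147e7e118, (rhb2a0b9ccfb5cecd5.shift 4 1)] (by decide +kernel))
noncomputable def rh1c29b3d691cb9c17 : CRef := CRef.mk (Pat.mk 0x8000000100000000e000000000000000000000000 0x8000000080000001c0000000f000000040000000400000004 4 5) 0 0 (step_sound _ 131 [(rh53b3c253cb0c65f4.shift 0 3), (rhfafeb437ceb8396d.shift 2 0)] (by decide +kernel))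
noncomputable def rhe93eae4d14599fab : CRef := CRef.mk (Pat.mk 0x20000000020000003c00000000 0x2000000020000000330000003e00000030 4 6) 0 0 (step_sound _ 33 [(rh3244c3cc8379b070.shift 0 1), (rh6a5f391bf8ffe91b.shift 1 0)] (by decide +kernel))
noncomputable def rhbe4b6aad05318df6 : CRef := CRef.mk (Pat.mk 0x30000000000000003000000020000000000000000 0x30000000300000003000000070000000700000007 4 3) 0 0 (step_sound _ 33 [rh3a1cc22ead2eadb0, rh50a14b5cf38c0cd7, rhe590139e3ec00efc] (by decide +kernel))
noncomputable def rh7e6f5f75b1ea60e8 : CRef := CRef.mk (Pat.mk 0xe00000044000000040000000400000000 0x3e00000077000000040000000400000004 4 7) 0 0 (step_sound _ 97 [(rh7b1f1fb55310c477.shift 1 0), (rhcf4316681f1a3ab1.shift 0 3)] (by decide +kernel))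
noncomputable def rh48b1fafb6c0406a9 : CRef := CRef.mk (Pat.mk 0x3000000130000000300000002 0x600000006000000070000001f0000000300000002 4 5) 0 0 (step_sound _ 66 [(rh2fe78cc5ca4405d8.shift 0 2), rh5fa50b509d4ce753] (by decide +kernel))
noncomputable def rhe1224f3a51caebb6 : CRef := CRef.mk (Pat.mk 0x300000010000000030000000200000000 0x60000000f0000001e000000030000000300000001 4 5) 0 0 (step_sound _ 97 [rh03dfdf12d5937476, (rh794dbc5fabb61407.shift 0 1)] (by decide +kernel))
noncomputable def rh2eb4aa0a5736a97d : CRef := CRef.mk (Pat.mk 0x100000012000000020000000200000000 0x5000000070000001e000000020000000200000002 4 5) 0 0 (step_sound _ 129 [rh38c505f499dd072a, (rh50fbb5868c909700.shift 0 1)] (by decide +kernel))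
noncomputable def rh0cc4c691701426ad : CRef := CRef.mk (Pat.mk 0x1e 0x770000003e 4 7) 0 0 (step_sound _ 37 [(rh428265de8cd3cd2d.shift 1 0), rhe13c843cb515c32f] (by decide +kernel))
noncomputable def rh7c7181d97df29415 : CRef := CRef.mk (Pat.mk 0x400000000000000160000001e00000000 0x600000007000000030000001e0000001e00000003 4 5) 0 0 (step_sound _ 1 [rh53e4dcd8217a9d7d, rheb0810cc63b001d8] (by decide +kernel))
noncomputable def rhf67e4f36c4d6af24 : CRef := CRef.mk (Pat.mk 0x40000000e000000400000000200000000 0x40000003e000000730000000200000002 4 7) 0 0 (step_sound _ 65 [(rh71222050f2c63a3a.shift 1 0), (rhcf4316681f1a3ab1.shift 0 2)] (by decide +kernel))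
noncomputable def rh66d77eebe2839fad : CRef := CRef.mk (Pat.mk 0x1c000000040000000400000000 0x2000000020000003b0000001f000000060000000400000004 4 6) 0 0 (step_sound _ 97 [(rh261f868a429ae0e3.shift 1 0), rh371357d551e5b98c, (rh768a472a1ebe455c.shift 0 1)] (by decide +kernel))
noncomputable def rh081bb9bfedfba735 : CRef := CRef.mk (Pat.mk 0x200000001c0000000400000004 0x200000002000000330000001e0000000600000004 4 6) 0 0 (step_sound _ 65 [(rh428265de8cd3cd2d.shift 1 2), rh768a472a1ebe455c] (by decide +kernel))
noncomputable def rh3c854e66629c2f4d : CRef := CRef.mk (Pat.mk 0x38000000100000001000000000 0xf0000007c000000100000001000000010 4 7) 0 0 (step_sound _ 131 [(rh7b1f1fb55310c477.shift 3 0), (rha9fbfd4bb8cf890b.shift 0 3)] (by decide +kernel))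
noncomputable def rh947224325a2e89d6 : CRef := CRef.mk (Pat.mk 0x3c000000040000003000000060 0x70000003e000000040000003c00000064 4 7) 0 0 (step_sound _ 129 [(rh3f8766e6ecb455ce.shift 1 3), rh92b314c2f459e528] (by decide +kernel))
noncomputable def rh099d444677688b93 : CRef := CRef.mk (Pat.mk 0x38000000000000001800000010 0x80000007c0000000f0000001800000010 4 7) 0 0 (step_sound _ 67 [(rh2145e1d24b96a57e.shift 3 0), (rh2820ca9a6c4f41b4.shift 0 2)] (by decide +kernel))
noncomputable def rh78def76628ab8d9a : CRef := CRef.mk (Pat.mk 0x70000000200000002000000000000000000000000 0x1000000070000000600000002000000030000000300000001 4 3) 0 0 (step_sound _ 65 [(rh50fbb5868c909700.shift 0 2), rha8bc3cae4d77a08f] (by decide +kernel))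
noncomputable def rh007b8c853ca5ccaf : CRef := CRef.mk (Pat.mk 0x300000012000000030000001000000000 0x1000000030000001e000000030000001e00000004 4 5) 0 0 (step_sound _ 98 [(rh2fe78cc5ca4405d8.shift 0 3), rhb7ec845def264386] (by decide +kernel))
noncomputable def rh242850d06b020ddd : CRef := CRef.mk (Pat.mk 0x600000024000000040000000400000000 0x80000001e00000037000000040000000400000004 4 6) 0 0 (step_sound _ 97 [(rh4875fb3337fb6e60.shift 0 1), (rh7b1f1fb55310c477.shift 1 0)] (by decide +kernel))
noncomputable def rh2a234c628119f8f5 : CRef := CRef.mk (Pat.mk 0x1c000000000000001e0000000000000000 0x3c000000070000001e0000000300000002 4 6) 0 0 (step_sound _ 97 [(rh3244c3cc8379b070.shift 0 2), rh4ce348bf0482f41e] (by decide +kernel))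
noncomputable def rha10cffaac4a90a7a : CRef := CRef.mk (Pat.mk 0x1e000000080000000a00000000 0x4000000040000000c0000001e0000000b0000000a00000002 4 5) 0 0 (step_sound _ 65 [(rh99b216bb884ddd3c.shift 1 0), (rheb0810cc63b001d8.shift 0 2)] (by decide +kernel))
noncomputable def rhdfaa07d5d51ac401 : CRef := CRef.mk (Pat.mk 0x70000000c000000060000002000000000 0x8000000180000000f0000000c000000060000003c0000000c 4 6) 0 0 (step_sound _ 131 [(rh5421160f8e9bcf07.shift 0 2), (rh8288d9644328b41d.shift 1 0)] (by decide +kernel))
noncomputable def rha2e49881a7a7bf50 : CRef := CRef.mk (Pat.mk 0x300000000000000020000000600000000 0x40000000700000007000000020000000600000006 4 3) 0 0 (step_sound _ 97 [(rh55afc6a59410cf00.shift 1 0), rhd22616887d452319] (by decide +kernel))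
noncomputable def rh4762f6d21f76e63a : CRef := CRef.mk (Pat.mk 0x38000000180000000000000008 0x60000003f0000001f0000000800000008 4 6) 0 0 (step_sound _ 65 [(rh24ae073cf30720c4.shift 1 2), rh4055ac74e73b6e08] (by decide +kernel))
noncomputable def rh013c36449a7cbf87 : CRef := CRef.mk (Pat.mk 0x8000000180000000800000004 0x8000000080000007c0000000f00000004 4 7) 0 0 (step_sound _ 34 [(rh5c5e593799055d58.shift 2 0), (rhd69c262cd33b94b3.shift 0 1)] (by decide +kernel))
noncomputable def rh0bd5ecf4a3398dd5 : CRef := CRef.mk (Pat.mk 0x1e0000000c00000008 0x200000006000000070000001e0000000c0000000c 4 5) 0 0 (step_sound _ 98 [(rh2145e1d24b96a57e.shift 2 0), rha3e1d11cef3fbde8] (by decide +kernel))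
noncomputable def rhf4f867732b231e78 : CRef := CRef.mk (Pat.mk 0xe0000004400000004 0x2000000730000003e0000007700000004 4 7) 0 0 (step_sound _ 68 [(rh62a51e5e348b9e49.shift 1 1), (rhaf9f2efc81a8312b.shift 0 1), rhe4f9133a81c1dbc5, (rheaa91b92daf0efc8.shift 1 1)] (by decide +kernel))
noncomputable def rh1152aee0afa96cae : CRef := CRef.mk (Pat.mk 0x2000000030000000600000006000000000000000000000000 0x2000000030000000700000007000000030000000300000002 4 3) 0 0 (step_sound _ 64 [(rh79877ebd3ef475dd.shift 0 2), rh8889cf29d64d79dd] (by decide +kernel))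
noncomputable def rh0859b418392d751e : CRef := CRef.mk (Pat.mk 0xe0000000100000006000000000000000000000000 0x20000001e0000000300000006000000060000000400000004 4 5) 0 0 (step_sound _ 129 [(rh18965a982d73c794.shift 0 4), (rh70e33bfdf511e144.shift 1 0)] (by decide +kernel))
noncomputable def rhaeebc73f5a9c796a : CRef := CRef.mk (Pat.mk 0x1e00000000 0x70000003e00000007 4 6) 0 0 (step_sound _ 65 [(rh3244c3cc8379b070.shift 0 1), rhdc2729b77246fcd3] (by decide +kernel))
noncomputable def rhb2bdfbd0153d3403 : CRef := CRef.mk (Pat.mk 0xc000000040000001c0000000000000000 0x80000000c000000040000001c0000000f0000000a 4 5) 0 0 (step_sound _ 34 [(rh2f68792b6b779e96.shift 2 1), rhfbf2eae4035425b6] (by decide +kernel))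
noncomputable def rh8d10a241ee292d9c : CRef := CRef.mk (Pat.mk 0x30000001200000003000000000000000000000000 0x2000000030000001f00000003000000010000000100000001 4 5) 0 0 (step_sound _ 130 [(rh2fe78cc5ca4405d8.shift 0 4), rhfafeb437ceb8396d] (by decide +kernel))
noncomputable def rhf43b1ce8c68849a0 : CRef := CRef.mk (Pat.mk 0x30000001200000003000000000000000000000000 0x2000000030000001e00000003000000030000000100000001 4 5) 0 0 (step_sound _ 130 [rh281c6819542c66e6, (rh2fe78cc5ca4405d8.shift 0 4)] (by decide +kernel))
noncomputable def rh6cc0f305be0098c0 : CRef := CRef.mk (Pat.mk 0x1e00000000 0x700000003e00000007 4 7) 0 0 (step_sound _ 1 [(rh3f9c2fb96516703c.shift 1 0), rheb0810cc63b001d8] (by decide +kernel))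
noncomputable def rh5c6e6667de9735fd : CRef := CRef.mk (Pat.mk 0x20000007c000000000000002000000000 0x530000007e000000300000002000000020 4 7) 0 0 (step_sound _ 97 [(rh3244c3cc8379b070.shift 0 3), (rhda68cdcfe2900fb5.shift 1 0)] (by decide +kernel))
noncomputable def rhf74ce67f3915b2a9 : CRef := CRef.mk (Pat.mk 0x400000006000000020000001800000008 0x400000006000000060000001f0000003a 4 6) 0 0 (step_sound _ 34 [rhde65fb0dba9c4937, (rhff0f29cb645b05f7.shift 2 0)] (by decide +kernel))
noncomputable def rh851e6f554e188616 : CRef := CRef.mk (Pat.mk 0x18000000180000001800000038 0x40000001f000000380000001e00000038 4 6) 0 0 (step_sound _ 34 [(rhb739f4f82bb681b4.shift 1 0), rhc647a25a08ddf0ec] (by decide +kernel))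
noncomputable def rh57b148fe4dfb8bc5 : CRef := CRef.mk (Pat.mk 0xe000000010000000200000000 0x400000004000000060000001e000000030000000200000002 4 5) 0 0 (step_sound _ 65 [(rh18965a982d73c794.shift 0 2), (rh215e11e099257d75.shift 1 0)] (by decide +kernel))
noncomputable def rhf09e2a9e9ed2c074 : CRef := CRef.mk (Pat.mk 0x10000000180000001800000008 0xc0000000c0000001f000000380000001800000018 4 6) 0 0 (step_sound _ 99 [(rh3da62da861143b9a.shift 2 0), (rh3e595262c1b737ad.shift 3 0), rhc647a25a08ddf0ec] (by decide +kernel))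
noncomputable def rh1e8f96b5740c0428 : CRef := CRef.mk (Pat.mk 0x8000000040000001c0000000800000000 0xc0000000c000000040000001c0000000f00000002 4 5) 0 0 (step_sound _ 130 [(rh2145e1d24b96a57e.shift 2 1), rh675ab9d4ddf88e9c] (by decide +kernel))
noncomputable def rhec445915ac45f0bd : CRef := CRef.mk (Pat.mk 0x400000001000000030000000300000000 0x70000000700000003000000030000000300000001 4 3) 0 0 (step_sound _ 128 [(rh2145e1d24b96a57e.shift 0 1), rh6b8a8ca391abd15f] (by decide +kernel))
noncomputable def rhfab75c4621a59c2e : CRef := CRef.mk (Pat.mk 0x1e0000000000000008 0x10000000300000001f0000003800000008 4 6) 0 0 (step_sound _ 36 [rh4f62cb2fa9bdc029, (rhe25b0a99195a5d59.shift 1 1)] (by decide +kernel))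
noncomputable def rh93003b35b5f82d32 : CRef := CRef.mk (Pat.mk 0x1e000000000000000400000000 0x2000000020000003e000000070000000400000004 4 6) 0 0 (step_sound _ 65 [(rh93ad910762009708.shift 1 0), (rheb0810cc63b001d8.shift 0 2)] (by decide +kernel))
noncomputable def rhbf514b0117492d60 : CRef := CRef.mk (Pat.mk 0x1e00000000000000080000000000000000 0x40000001f00000038000000080000000800000008 4 6) 0 0 (step_sound _ 100 [rh1e68a8f8d4e6068c, (rhe25b0a99195a5d59.shift 1 3)] (by decide +kernel))
noncomputable def rh60a3029b8dc1e046 : CRef := CRef.mk (Pat.mk 0x3c00000180 0x70000003e000001f0 4 9) 0 0 (step_sound _ 5 [(rh5419adcd928dba20.shift 4 0), rhd1d05263fabc0227] (by decide +kernel))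
noncomputable def rh5a34004ac0df15c9 : CRef := CRef.mk (Pat.mk 0xe000000100000000800000000 0x400000004000000040000000f0000001c0000000800000008 4 5) 0 0 (step_sound _ 67 [(rhb739f4f82bb681b4.shift 0 2), (rhf9a6286f1d5377a2.shift 2 0)] (by decide +kernel))
noncomputable def rhae11b466571defe2 : CRef := CRef.mk (Pat.mk 0x3c000000020000002000000000 0x300000003e000000330000002000000020 4 6) 0 0 (step_sound _ 97 [(rha0d9161879284904.shift 1 0), (rheb0810cc63b001d8.shift 0 2)] (by decide +kernel))
noncomputable def rh649d6608ffe40c31 : CRef := CRef.mk (Pat.mk 0x2000000030000000000000003 0x70000000700000007000000030000000300000003 4 3) 0 0 (step_sound _ 129 [rh319673309b7ac683, rh615a42bddefc9f31, rh926290641404bff9] (by decide +kernel))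
noncomputable def rhc697557386494b9d : CRef := CRef.mk (Pat.mk 0x600000000000000060000001c00000000 0x60000000600000002000000060000001f00000003 4 5) 0 0 (step_sound _ 97 [rh1c3e172d3fc471b4, (rh2145e1d24b96a57e.shift 1 1)] (by decide +kernel))
noncomputable def rhf02dc5f8674b7c2c : CRef := CRef.mk (Pat.mk 0x80000000c000000380000000000000000 0x80000000c0000003c0000001f00000004 4 6) 0 0 (step_sound _ 34 [(rh225a3d7126aa42af.shift 1 0), (rh5ddbeed5d869bf16.shift 2 0), (rhe1c32197ffb40f8f.shift 0 1), rhf76dea324f6fa589] (by decide +kernel))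
noncomputable def rhb49626ece8ba93be : CRef := CRef.mk (Pat.mk 0xc000000080000001c0000001800000000 0xc0000000c0000001c0000001f00000007 4 5) 0 0 (step_sound _ 34 [(rh932754581e0f4330.shift 2 0), rhb0453f21e70803bf] (by decide +kernel))
noncomputable def rhb3a47b2ad93f1de3 : CRef := CRef.mk (Pat.mk 0x4000000280000000c 0x1f0000007c0000000c 4 7) 0 0 (step_sound _ 36 [(rh18965a982d73c794.shift 2 0), (rh40811da85268475d.shift 0 1)] (by decide +kernel))
noncomputable def rh402ca2b2702bce41 : CRef := CRef.mk (Pat.mk 0x10000000800000003000000060000000000000000 0x70000001f00000003000000070000000600000006 4 5) 0 0 (step_sound _ 33 [rh3a1cc22ead2eadb0, rh50a14b5cf38c0cd7, rh82ed03a6bd80b657] (by decide +kernel))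
noncomputable def rh63e85d7360b5230b : CRef := CRef.mk (Pat.mk 0x60000000e000000120000000800000000 0x60000000e0000001e0000000b0000000b 4 5) 0 0 (step_sound _ 33 [rh217f9bda55ff9371, (rh71222050f2c63a3a.shift 1 0)] (by decide +kernel))
noncomputable def rh4c2adb5bda817a45 : CRef := CRef.mk (Pat.mk 0x4000000020000000600000002 0x10000000700000007000000020000000600000006 4 3) 0 0 (step_sound _ 97 [(rh2f68792b6b779e96.shift 1 0), rh812b908590c67662] (by decide +kernel))
noncomputable def rh829bec36f65a49b6 : CRef := CRef.mk (Pat.mk 0x1200000006000000020000000000000000 0x200000003000000070000001e00000006000000060000000200000002 4 5) 0 0 (step_sound _ 130 [(rh8e4d738d72204634.shift 0 2), (rhea7a1800d6f053bd.shift 1 0)] (by decide +kernel))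
noncomputable def rh76807867c75da168 : CRef := CRef.mk (Pat.mk 0x200000003800000010 0x600000003e00000037 4 7) 0 0 (step_sound _ 34 [(rh33e738c4ed385b9f.shift 2 1), rhfcb55d5dc3b78d1f] (by decide +kernel))
noncomputable def rh12d9e0f7f83c5840 : CRef := CRef.mk (Pat.mk 0x38000000000000001000000000 0x8000000080000001f0000007c000000100000001000000010 4 7) 0 0 (step_sound _ 131 [(rh95a80f84f48ac358.shift 3 0), (rha9fbfd4bb8cf890b.shift 0 3), (rhf60aa8aede119d3b.shift 0 3)] (by decide +kernel))
noncomputable def rhf9e36269fdb9e191 : CRef := CRef.mk (Pat.mk 0x380000001000000010 0x8000000080000001f000000780000001800000010 4 7) 0 0 (step_sound _ 99 [(rhc89253ff58c66167.shift 3 0), (rhe072fffdd2fccf38.shift 3 0), (rhf60aa8aede119d3b.shift 0 2)] (by decide +kernel))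
noncomputable def rh16d94f2eb9024526 : CRef := CRef.mk (Pat.mk 0x20000007800000018 0xe30000007f00000018 4 8) 0 0 (step_sound _ 70 [(rh33e738c4ed385b9f.shift 3 1), rha49ee13f6a0dcfce] (by decide +kernel))
noncomputable def rhbbfb944354d9e46e : CRef := CRef.mk (Pat.mk 0xc0000000b0000000a0000000000000000 0x40000000c0000000b0000001f0000001800000010 4 5) 0 0 (step_sound _ 35 [(rh50fbb5868c909700.shift 2 1), rhb1f3a7c439f61073] (by decide +kernel))
noncomputable def rh6a8bc3ce66b827c6 : CRef := CRef.mk (Pat.mk 0x1400000008000000080000000800000000 0x100000003c0000000f000000080000000800000008 4 6) 0 0 (step_sound _ 131 [(rh2f68792b6b779e96.shift 3 1), rhfe0270f45009c77d] (by decide +kernel))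
noncomputable def rha6e03927a90d6449 : CRef := CRef.mk (Pat.mk 0x20000001a0000001a00000010 0xc0000000f0000001a0000001a0000001a 4 5) 0 0 (step_sound _ 99 [(rh2145e1d24b96a57e.shift 3 0), rh482dbb16cfbb812d] (by decide +kernel))
noncomputable def rhc0f16577d60c5686 : CRef := CRef.mk (Pat.mk 0x2000000180000001800000010 0x80000000f0000007c0000001800000010 4 7) 0 0 (step_sound _ 99 [(rh174a767562f03570.shift 0 2), (rh2145e1d24b96a57e.shift 3 0)] (by decide +kernel))
noncomputable def rh2cb2f677c4cfd632 : CRef := CRef.mk (Pat.mk 0x2000000120000001a0000000200000000 0x4000000060000003f0000001a0000000200000002 4 6) 0 0 (step_sound _ 130 [(rh2f68792b6b779e96.shift 1 1), rh89b843dc4e8b52a9] (by decide +kernel))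
noncomputable def rhcbca2407627b5588 : CRef := CRef.mk (Pat.mk 0x1000000010000000180000001a00000000 0x1000000010000000180000003f00000027 4 6) 0 0 (step_sound _ 34 [(rh53b3c253cb0c65f4.shift 0 1), rh6c5b90ba2a83bd67] (by decide +kernel))
noncomputable def rhe4801b90a56dc753 : CRef := CRef.mk (Pat.mk 0x2000000120000000600000000 0x200000002000000030000003e0000000600000004 4 6) 0 0 (step_sound _ 129 [(rh55afc6a59410cf00.shift 1 0), (rhb008b0c579a72809.shift 0 1)] (by decide +kernel))
noncomputable def rhfc9a4267b53187c3 : CRef := CRef.mk (Pat.mk 0x20000001200000006000000020000000000000000 0x1000000030000001f00000006000000020000000200000002 4 5) 0 0 (step_sound _ 160 [rh15cee1d1e500bb64, (rh50fbb5868c909700.shift 0 2)] (by decide +kernel))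
noncomputable def rha96ad946351762dd : CRef := CRef.mk (Pat.mk 0xf000000010000000000000000 0x200000002000000030000001f000000030000000100000001 4 5) 0 0 (step_sound _ 129 [rh4821dcf828b9d7bf, (rh7b030ba967bf927e.shift 0 2), rhadf429772c25fde0] (by decide +kernel))
noncomputable def rhd1e32e33403ffb70 : CRef := CRef.mk (Pat.mk 0x80000001c0000000c0000000000000000 0x4000000060000000f0000001c0000000c0000000c00000004 4 5) 0 0 (step_sound _ 34 [(rh71222050f2c63a3a.shift 2 0), (rh9d9a9483e3b87821.shift 0 1)] (by decide +kernel))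
noncomputable def rhf9d33626830989d0 : CRef := CRef.mk (Pat.mk 0x400000008000000180000000800000000 0x40000001f000000780000000800000008 4 7) 0 0 (step_sound _ 98 [(rh5c5a2014709044d0.shift 0 2), (rh7b1f1fb55310c477.shift 2 0)] (by decide +kernel))
noncomputable def rh3a2543d39b758482 : CRef := CRef.mk (Pat.mk 0x200000002000000060000000e0000000000000000 0x40000000600000006000000060000001e0000000300000001 4 5) 0 0 (step_sound _ 162 [rh03a83241a7aa000a, (rh2f68792b6b779e96.shift 1 2)] (by decide +kernel))
noncomputable def rh4e4f0d5e3b7752e7 : CRef := CRef.mk (Pat.mk 0x20000000200000012000000100000000000000000 0x200000002000000070000001e000000340000000400000004 4 6) 0 0 (step_sound _ 98 [(rh046c5eb18e55a239.shift 1 0), (rh665fa2b016ee28ae.shift 0 2)] (by decide +kernel))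
noncomputable def rhecbd96f9e94bfd4d : CRef := CRef.mk (Pat.mk 0x200000002000000020000000200000000 0x500000007000000070000000200000002000000030000000300000001 4 3) 0 0 (step_sound _ 161 [rh7928877f9bf74a91, (rh7ef5fa5c39f1c762.shift 0 2)] (by decide +kernel))
noncomputable def rh2a4e135be18dd43b : CRef := CRef.mk (Pat.mk 0x800000008000000080000000c0000000800000008 0x80000000c0000000f0000003c0000001800000008 4 6) 0 0 (step_sound _ 98 [(rh50fbb5868c909700.shift 2 0), (rhfe557af9112f51d6.shift 0 1)] (by decide +kernel))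
noncomputable def rhf04942fd11223790 : CRef := CRef.mk (Pat.mk 0x10000000200000002000000020000000200000002 0x3000000030000000600000006000000060000000600000002 4 3) 0 0 (step_sound _ 161 [(rh1f01239ae2eb1687.shift 1 0), (rh50fbb5868c909700.shift 0 2)] (by decide +kernel))
noncomputable def rheecca8248285d065 : CRef := CRef.mk (Pat.mk 0x8000000080000000c0000000800000000 0x8000000080000001f0000003c00000010 4 6) 0 0 (step_sound _ 36 [(rh55afc6a59410cf00.shift 3 0), (rhb0121edee88fe839.shift 0 1)] (by decide +kernel))
noncomputable def rh59428f635936b362 : CRef := CRef.mk (Pat.mk 0x6000000000000001e0000000000000000 0x600000006000000040000001e0000000700000002 4 5) 0 0 (step_sound _ 33 [(rhe2076a175ec10f59.shift 1 0), (rheb0810cc63b001d8.shift 0 1)] (by decide +kernel))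
noncomputable def rh48c955e90eee0521 : CRef := CRef.mk (Pat.mk 0x80000000c0000000b000000020000000000000000 0x40000000c0000000c0000000b0000001e0000001c00000010 4 5) 0 0 (step_sound _ 67 [(rh33b92f427999e8d7.shift 0 1), (rh5c651669912fbab1.shift 2 0), (rh8ffd6c73cfd2ea71.shift 0 1), (rhe286c75f2739cce2.shift 2 1)] (by decide +kernel))
noncomputable def rha9be558c675aaaa9 : CRef := CRef.mk (Pat.mk 0x4000000120000001200000006 0x600000006000000330000001e00000006 4 6) 0 0 (step_sound _ 97 [rh24fbb0ca185257f8, (rh2f68792b6b779e96.shift 1 0)] (by decide +kernel))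
noncomputable def rh3bc2d8b78487d218 : CRef := CRef.mk (Pat.mk 0x100000001000000030000000b00000000 0x20000000300000003000000030000001f00000005 4 5) 0 0 (step_sound _ 129 [rh0b16a0a30547aadf, (rh2f68792b6b779e96.shift 0 1)] (by decide +kernel))
noncomputable def rh9778b70343cc975b : CRef := CRef.mk (Pat.mk 0x200000002000000020000001600000000 0x10000000300000003000000020000001f00000003 4 5) 0 0 (step_sound _ 128 [(rh50fbb5868c909700.shift 0 1), rh5383d8cb25d9f61c] (by decide +kernel))
noncomputable def rha16588eac53d6b31 : CRef := CRef.mk (Pat.mk 0x200000012000000060000000600000000 0x4000000070000003e000000060000000600000002 4 6) 0 0 (step_sound _ 130 [(rh2f68792b6b779e96.shift 1 1), rh41378a89bc9abb6f] (by decide +kernel))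
noncomputable def rhda0c8f9f6c183d35 : CRef := CRef.mk (Pat.mk 0x18000000180000001800000018 0x240000003f000000380000001800000018 4 6) 0 0 (step_sound _ 101 [(rh2f68792b6b779e96.shift 4 0), rhc647a25a08ddf0ec] (by decide +kernel))
noncomputable def rh26573b44c6125f29 : CRef := CRef.mk (Pat.mk 0x6000000030000001200000010 0x80000001e0000000f0000001e00000010 4 5) 0 0 (step_sound _ 35 [rh27631d0aaeff99f4, (rh5419adcd928dba20.shift 0 1)] (by decide +kernel))
noncomputable def rhaa2146dcdc353af5 : CRef := CRef.mk (Pat.mk 0x1c0000000a00000008 0x1000000010000000380000001e0000000b00000008 4 6) 0 0 (step_sound _ 65 [(rh49606a42a30c7ac4.shift 1 0), (rheb0810cc63b001d8.shift 0 1)] (by decide +kernel))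
noncomputable def rhed1419bd24fead7d : CRef := CRef.mk (Pat.mk 0x1e0000000000000010 0x8000000380000001f0000003000000010 4 6) 0 0 (step_sound _ 100 [(rh33e738c4ed385b9f.shift 1 2), rh62fcb4a3c4a53017] (by decide +kernel))
noncomputable def rh338840d5137dcab7 : CRef := CRef.mk (Pat.mk 0x1e00000000 0x700000003e00000007 4 7) 0 0 (step_sound _ 69 [rh24806a4aaf7813c3, (rh428265de8cd3cd2d.shift 1 1)] (by decide +kernel))
noncomputable def rh1e092fbadfab2d2c : CRef := CRef.mk (Pat.mk 0x2000000060000001a0000000000000000 0x400000006000000060000001a0000000f00000007 4 5) 0 0 (step_sound _ 33 [rh36e6bb6cca6188da, (rha707fb719e87fe6e.shift 1 0)] (by decide +kernel))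
noncomputable def rh297b4ac2caea85c8 : CRef := CRef.mk (Pat.mk 0x1e0000001a0000000000000000 0x4000000040000003e0000001e0000000300000002 4 6) 0 0 (step_sound _ 66 [rh031a926e4a883687, (rh18965a982d73c794.shift 1 2)] (by decide +kernel))
noncomputable def rh1830a026b526961e : CRef := CRef.mk (Pat.mk 0x1e0000000800000008 0x10000000100000003b0000001e0000000800000008 4 6) 0 0 (step_sound _ 97 [(rh3244c3cc8379b070.shift 0 2), (rh49606a42a30c7ac4.shift 1 0)] (by decide +kernel))
noncomputable def rh7481ff37f0ea658b : CRef := CRef.mk (Pat.mk 0x800000018000000380000000000000000 0x100000001800000018000000380000001f0000000c 4 6) 0 0 (step_sound _ 35 [(rh84d1c02a8954c6a8.shift 3 0), rh852e818bc8629e77] (by decide +kernel))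
noncomputable def rh82ca4d13b15beb50 : CRef := CRef.mk (Pat.mk 0x20000000200000002000000020000000000000000 0x4000000060000000600000002000000030000000300000001 4 3) 0 0 (step_sound _ 32 [(rh79877ebd3ef475dd.shift 0 1), rhf854eee9274d7140] (by decide +kernel))
noncomputable def rha29636a05f167d4f : CRef := CRef.mk (Pat.mk 0x7000000060000000400000000 0x800000008000000180000003f0000003e0000000400000004 4 6) 0 0 (step_sound _ 99 [(rhb730ba14aa32bdb3.shift 2 0), rhd4d36b4007f546b1, (rhf5e124ec5c58a2dd.shift 0 2)] (by decide +kernel))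
noncomputable def rh25710ea91b217312 : CRef := CRef.mk (Pat.mk 0x60000001e000000080000000000000000 0x400000004000000060000001e0000000b0000000a00000008 4 5) 0 0 (step_sound _ 35 [(rh031a926e4a883687.shift 0 1), (rh7b1f1fb55310c477.shift 2 0)] (by decide +kernel))
noncomputable def rh7cd27a71ce016d8d : CRef := CRef.mk (Pat.mk 0x1e000000100000001000000000 0x670000003e000000100000001000000010 4 7) 0 0 (step_sound _ 129 [(rh3244c3cc8379b070.shift 0 3), (rha3b183b0d65a8f10.shift 1 0)] (by decide +kernel))
noncomputable def rhf8367319461b97e0 : CRef := CRef.mk (Pat.mk 0x60000001e00000006 0x3000000030000003e0000001e00000006 4 6) 0 0 (step_sound _ 68 [(rh33e738c4ed385b9f.shift 1 1), rh8ebc15871c473b31] (by decide +kernel))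
noncomputable def rha5ad71a109986e64 : CRef := CRef.mk (Pat.mk 0x800000008000000180000001000000000 0x800000008000000380000001f00000014 4 6) 0 0 (step_sound _ 35 [(rh55afc6a59410cf00.shift 3 0), rh6fae963f33cfdfd7] (by decide +kernel))
noncomputable def rh9a8eeb17648f6035 : CRef := CRef.mk (Pat.mk 0x8000000280000000c00000008 0x40000000f0000007c0000000c00000008 4 7) 0 0 (step_sound _ 68 [(rh18965a982d73c794.shift 2 1), rh53509d91ff78ed56] (by decide +kernel))
noncomputable def rha7eccd7931365243 : CRef := CRef.mk (Pat.mk 0x14000000060000000400000000 0x2000000020000003e000000070000000400000004 4 6) 0 0 (step_sound _ 99 [(rh18965a982d73c794.shift 1 2), rh6e40f9c39a3f3b97] (by decide +kernel))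
noncomputable def rh5deaed7f1c5b350b : CRef := CRef.mk (Pat.mk 0x60000001c000000000000000000000000 0x4000000070000001e000000030000000200000002 4 5) 0 0 (step_sound _ 97 [(rh3244c3cc8379b070.shift 0 3), rh9a011a4d0ec8f646] (by decide +kernel))
noncomputable def rh0c73e4f17f3bd5be : CRef := CRef.mk (Pat.mk 0x8000000080000000a0000001e00000000 0x40000000c0000000c0000000e0000003e00000003 4 6) 0 0 (step_sound _ 66 [rh52db8f9374849729, (rhf48373e13d2bc128.shift 1 1)] (by decide +kernel))
noncomputable def rhb57ff43456187b66 : CRef := CRef.mk (Pat.mk 0x10000000070000000c000000000000000000000000 0x40000003e000000070000000c0000000c0000000800000008 4 6) 0 0 (step_sound _ 162 [(rh4fd54f6717f3e7ac.shift 0 4), (rh70e33bfdf511e144.shift 2 0)] (by decide +kernel))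
noncomputable def rhf73c5abcc141758b : CRef := CRef.mk (Pat.mk 0x1e0000000a000000080000000800000000 0x30000003e0000000e0000000c0000000c00000004 4 6) 0 0 (step_sound _ 98 [(rh18965a982d73c794.shift 1 3), rhf53ee62ce7c07a09] (by decide +kernel))
noncomputable def rha0e12cb1ec7d3fc8 : CRef := CRef.mk (Pat.mk 0xc000000070000001000000000 0x8000000080000000c0000000c000000070000003e00000004 4 6) 0 0 (step_sound _ 34 [(rh215e11e099257d75.shift 2 0), (rh68691964b29f233d.shift 0 1)] (by decide +kernel))
noncomputable def rh44abd4fb20e6dd41 : CRef := CRef.mk (Pat.mk 0x1c0000000600000000 0x200000002000000030000001e0000000700000004 4 5) 0 0 (step_sound _ 65 [rhbdb8dfd08861fbf7, (rheb0810cc63b001d8.shift 0 1)] (by decide +kernel))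
noncomputable def rhaa02d759ac0b5be0 : CRef := CRef.mk (Pat.mk 0xa00000003000000020000000000000000 0x50000001f00000003000000020000000200000002 4 5) 0 0 (step_sound _ 130 [rh000637b5a81e86aa, (rh18965a982d73c794.shift 0 3)] (by decide +kernel))
noncomputable def rha3fd83893c3ef42f : CRef := CRef.mk (Pat.mk 0x200000002c00000000 0x700000003e00000007 4 7) 0 0 (step_sound _ 36 [rh21d582c147e7e118, (rh33e738c4ed385b9f.shift 2 1)] (by decide +kernel))
noncomputable def rhfa69f2377056ccc5 : CRef := CRef.mk (Pat.mk 0x120000001a000000120000000200000000 0x120000001a0000001e0000000f00000009 4 5) 0 0 (step_sound _ 32 [rh932754581e0f4330, rhb48cca10e0efa9f2] (by decide +kernel))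
noncomputable def rha8ddd09d1ad82129 : CRef := CRef.mk (Pat.mk 0x380000000e0000000400000004 0xa0000001f0000003a0000000e0000000600000004 4 6) 0 0 (step_sound _ 131 [rh4ebc94ac63d8ec57, (rh5c5e593799055d58.shift 2 1)] (by decide +kernel))
noncomputable def rhec708e6f46cad756 : CRef := CRef.mk (Pat.mk 0x200000002000000120000000200000000 0x2000000020000001e0000000f00000005 4 5) 0 0 (step_sound _ 32 [rh932754581e0f4330, rhf1ce2a38d2d19dce] (by decide +kernel))
noncomputable def rh4289f1f21bc106a3 : CRef := CRef.mk (Pat.mk 0x800000038000000080000000000000000 0x140000001f0000003c000000080000000800000008 4 6) 0 0 (step_sound _ 130 [(rh668fc65514a55b16.shift 2 0), (rhdbcea10a0fbe5ba6.shift 0 3)] (by decide +kernel))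
noncomputable def rhdfdbc1e383b2f115 : CRef := CRef.mk (Pat.mk 0x1c00000018000000020000001e00000000 0x1f0000001f000000020000001e00000003 4 5) 0 0 (step_sound _ 129 [rhabb4851180943e06, (rhb739f4f82bb681b4.shift 0 3)] (by decide +kernel))
noncomputable def rh596b68a6fe9159ab : CRef := CRef.mk (Pat.mk 0x4000000040000000e000000380000000000000000 0x4000000060000000e0000003a0000001f0000000a 4 6) 0 0 (step_sound _ 35 [(rh7b1f1fb55310c477.shift 2 0), rhb6140890372f3936] (by decide +kernel))
noncomputable def rh996a7e870a3e3226 : CRef := CRef.mk (Pat.mk 0x2000000120000000200000002 0x50000000f0000001e0000000200000002 4 5) 0 0 (step_sound _ 96 [rh50fbb5868c909700, rh797d4ef7d0f603cf] (by decide +kernel))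
noncomputable def rh10082ecbc154be46 : CRef := CRef.mk (Pat.mk 0x8000000380000000800000000 0x800000008000000080000003c0000001f00000014 4 6) 0 0 (step_sound _ 34 [(rh1ed7a3503fa50fc8.shift 0 1), (rhbb339bb7e4e96b38.shift 2 0)] (by decide +kernel))
noncomputable def rh311ef152027b2125 : CRef := CRef.mk (Pat.mk 0x1e00000002000000180000001c 0x30000001e000000020000001f0000001f 4 5) 0 0 (step_sound _ 1 [rh53b3c253cb0c65f4, rh6fe30d99cf392f3c] (by decide +kernel))
noncomputable def rhc2100785131b9586 : CRef := CRef.mk (Pat.mk 0x10000000180000001a0000001200000002 0x20000000310000001f0000001e0000001200000002 4 6) 0 0 (step_sound _ 133 [rh13a5a8f0211a12ff, (rh2f68792b6b779e96.shift 4 1)] (by decide +kernel))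
noncomputable def rhc8450956778d39a6 : CRef := CRef.mk (Pat.mk 0x200000002c00000020 0x300000003e00000067 4 7) 0 0 (step_sound _ 36 [rh21d582c147e7e118, (rhe25b0a99195a5d59.shift 2 0)] (by decide +kernel))
noncomputable def rh84f7e5ad0cdf98bf : CRef := CRef.mk (Pat.mk 0x4000000280000000800000000 0x4000000040000000c0000001f000000780000000800000008 4 7) 0 0 (step_sound _ 99 [(rh126557da767e56cc.shift 0 2), (rhb1a251d9bff81766.shift 2 0)] (by decide +kernel))
noncomputable def rh46ddfec63ed2a094 : CRef := CRef.mk (Pat.mk 0xc00000008000000180000000800000000 0x100000003c0000000f000000180000000800000008 4 6) 0 0 (step_sound _ 132 [(rh2f68792b6b779e96.shift 3 1), rh584459a8069090cc] (by decide +kernel))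
noncomputable def rh4331da5e27ad89d1 : CRef := CRef.mk (Pat.mk 0x20000000a00000003000000000000000000000000 0x2000000020000001e00000003000000030000000100000001 4 5) 0 0 (step_sound _ 130 [(rh18965a982d73c794.shift 0 3), rh281c6819542c66e6] (by decide +kernel))
noncomputable def rh5aa55c7caa2ef26f : CRef := CRef.mk (Pat.mk 0x30000000a000000030000000000000000 0x5000000070000001e000000030000000200000002 4 5) 0 0 (step_sound _ 98 [(rh18965a982d73c794.shift 0 2), rh668fc65514a55b16] (by decide +kernel))
noncomputable def rh41341977c0a884ba : CRef := CRef.mk (Pat.mk 0x80000000c0000000800000008 0x140000003c0000000f0000000800000008 4 6) 0 0 (step_sound _ 100 [(rh2f68792b6b779e96.shift 3 0), rha02d33ba7ce23b39] (by decide +kernel))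
noncomputable def rh31d8278b7e19baad : CRef := CRef.mk (Pat.mk 0x200000012000000020000000200000000 0x4000000060000003e000000030000000200000002 4 6) 0 0 (step_sound _ 130 [(rh2f68792b6b779e96.shift 1 1), rhaded399a68d16757] (by decide +kernel))
noncomputable def rha01c240a652a6443 : CRef := CRef.mk (Pat.mk 0x300000002400000020 0x7c0000003f00000060 4 7) 0 0 (step_sound _ 35 [(rh5360fcf49c083c33.shift 1 0), (rhabf575676fe0ef70.shift 2 0), (rhbd2e91c3fdbfa961.shift 0 1)] (by decide +kernel))
noncomputable def rh39d6bb11efda4c42 : CRef := CRef.mk (Pat.mk 0xe000000200000000c000000000000000000000000 0x80000000f000000780000000c0000000c0000000400000004 4 7) 0 0 (step_sound _ 131 [(rh281c6819542c66e6.shift 2 0), (rh5527e1c2855de68c.shift 0 3)] (by decide +kernel))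
noncomputable def rhc2e619bb47d3bea9 : CRef := CRef.mk (Pat.mk 0x10000000180000001800000008 0x80000000c0000001f000000380000001800000018 4 6) 0 0 (step_sound _ 99 [rhc647a25a08ddf0ec, (rhfc7c29d8e65d775f.shift 3 0)] (by decide +kernel))
noncomputable def rh58aa26c47e50de25 : CRef := CRef.mk (Pat.mk 0x20000001600000002000000000000000000000000 0x2000000020000001f00000003000000010000000100000001 4 5) 0 0 (step_sound _ 96 [(rh361cc68994bd8a63.shift 0 3), rhfafeb437ceb8396d] (by decide +kernel))
noncomputable def rh066a2ed17f0079fa : CRef := CRef.mk (Pat.mk 0x2000000120000001a000000180000001000000000 0x2000000120000001e0000001f0000003100000020 4 6) 0 0 (step_sound _ 37 [(rh55afc6a59410cf00.shift 4 0), (rhc311d5b471b2bfb3.shift 0 1)] (by decide +kernel))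
noncomputable def rh7fd0535f176819d9 : CRef := CRef.mk (Pat.mk 0x600000012000000020000000000000000 0x4000000060000003e000000030000000200000002 4 6) 0 0 (step_sound _ 33 [(rh2f68792b6b779e96.shift 1 1), rhaded399a68d16757] (by decide +kernel))
noncomputable def rhc8ffc5931fd66d8a : CRef := CRef.mk (Pat.mk 0x200000002c00000020 0x670000003e00000030 4 7) 0 0 (step_sound _ 36 [(rh33e738c4ed385b9f.shift 2 1), rhd1d05263fabc0227] (by decide +kernel))
noncomputable def rh573b6453abfc1e40 : CRef := CRef.mk (Pat.mk 0x80000002800000004000000000000000000000000 0x800000008000000780000001f0000000c0000000400000004 4 7) 0 0 (step_sound _ 99 [(rh281c6819542c66e6.shift 2 0), (rhcadd85ff2a73e8c7.shift 0 3)] (by decide +kernel))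
noncomputable def rhd19af14e4509e964 : CRef := CRef.mk (Pat.mk 0x800000018000000080000000c00000000 0x800000008000000180000000f0000003c00000010 4 6) 0 0 (step_sound _ 36 [(rh55afc6a59410cf00.shift 3 0), (rhb4aa4f704a185866.shift 0 1)] (by decide +kernel))
noncomputable def rh75e158ceab9afbd9 : CRef := CRef.mk (Pat.mk 0x30000000a0000000200000000 0x10000000100000003000000030000001e0000000200000002 4 5) 0 0 (step_sound _ 66 [rhb1a251d9bff81766, (rhf48373e13d2bc128.shift 0 2)] (by decide +kernel))
noncomputable def rh5af195974a0ec195 : CRef := CRef.mk (Pat.mk 0x30000000a0000000300000000 0x200000002000000030000001e0000000700000005 4 5) 0 0 (step_sound _ 66 [rhbb339bb7e4e96b38, (rhf48373e13d2bc128.shift 0 2)] (by decide +kernel))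
noncomputable def rhc9c1a6ade0802ee3 : CRef := CRef.mk (Pat.mk 0x8000000080000000c0000000800000000 0x8000000080000000f0000003c00000014 4 6) 0 0 (step_sound _ 36 [(rh55afc6a59410cf00.shift 3 0), rh91dd4941780e98f6] (by decide +kernel))
noncomputable def rh698bc218bb526124 : CRef := CRef.mk (Pat.mk 0x200000002400000030 0x600000003f0000007c 4 7) 0 0 (step_sound _ 35 [(rh086172e1ea5e5fe6.shift 1 0), rh95f73988d2dec2c0, (rhabf575676fe0ef70.shift 2 0)] (by decide +kernel))
noncomputable def rh798ce58a419a7c26 : CRef := CRef.mk (Pat.mk 0xc000000200000000e00000000 0x4000000040000000c0000000c000000780000000f00000008 4 7) 0 0 (step_sound _ 67 [(rh498fff5a01c6ea1d.shift 0 1), (rhb1a251d9bff81766.shift 2 0)] (by decide +kernel))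
noncomputable def rhbfbe640d96d6aa18 : CRef := CRef.mk (Pat.mk 0x80000001800000018000000100000000000000000 0x1800000018000000380000001f0000000c00000008 4 6) 0 0 (step_sound _ 67 [(rh1e309b005ffa1b36.shift 3 0), (rh6fae963f33cfdfd7.shift 0 1)] (by decide +kernel))
noncomputable def rhb3a7e953166bc519 : CRef := CRef.mk (Pat.mk 0x2000000160000000200000000 0x10000000100000001000000030000001f0000000200000002 4 5) 0 0 (step_sound _ 96 [(rh2fe78cc5ca4405d8.shift 0 2), rhf9a6286f1d5377a2] (by decide +kernel))
noncomputable def rh78e424ef2951d21e : CRef := CRef.mk (Pat.mk 0x6000000050000000500000000 0x2000000020000000300000007000000050000000500000005 4 3) 0 0 (step_sound _ 129 [(rh7b1f1fb55310c477.shift 1 0), rhd918c3fd221dc9f8] (by decide +kernel))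
noncomputable def rhc19018457b391e9a : CRef := CRef.mk (Pat.mk 0x200000003400000020 0x670000003e00000030 4 7) 0 0 (step_sound _ 35 [(rh33e738c4ed385b9f.shift 2 1), rhd1d05263fabc0227] (by decide +kernel))
noncomputable def rh84fe0656e9bf9ace : CRef := CRef.mk (Pat.mk 0x3400000024 0x70000003e00000036 4 6) 0 0 (step_sound _ 35 [rhd1d05263fabc0227, (rheb0810cc63b001d8.shift 1 0)] (by decide +kernel))
noncomputable def rhb9cc2547849575bc : CRef := CRef.mk (Pat.mk 0x10000000d0000000900000008 0x20000000600000007000000070000003f0000000d00000009 4 6) 0 0 (step_sound _ 97 [rh215e11e099257d75, rh76b2a07ef794d933] (by decide +kernel))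
noncomputable def rh9ecbf812f1a555a9 : CRef := CRef.mk (Pat.mk 0xa000000180000000800000000 0x400000004000000040000000f0000001c0000000800000008 4 5) 0 0 (step_sound _ 98 [(rhb739f4f82bb681b4.shift 0 2), (rhf9a6286f1d5377a2.shift 2 0)] (by decide +kernel))
noncomputable def rhd6cf46f2b20b840a : CRef := CRef.mk (Pat.mk 0x2000000180000001e00000000 0x1000000030000001f0000001e00000003 4 5) 0 0 (step_sound _ 65 [(rh3244c3cc8379b070.shift 0 1), rhd92709f94034dab9] (by decide +kernel))
noncomputable def rhdd17fd55617d70f9 : CRef := CRef.mk (Pat.mk 0x20000001a0000000200000000 0x10000000100000001000000030000001f0000000200000002 4 5) 0 0 (step_sound _ 96 [(rh5419adcd928dba20.shift 0 2), rhf9a6286f1d5377a2] (by decide +kernel))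
noncomputable def rhb4f5b1f88c9a7c13 : CRef := CRef.mk (Pat.mk 0x3c00000010 0x7f0000003e 4 7) 0 0 (step_sound _ 2 [rh2e295417587fb037, (rheb0810cc63b001d8.shift 1 0)] (by decide +kernel))
noncomputable def rh9df6cf614317fa1d : CRef := CRef.mk (Pat.mk 0x2000000020000000a0000000a0000001a00000000 0x200000002000000060000000e0000000f0000001a0000000a 4 5) 0 0 (step_sound _ 66 [(rh393bc83f7c0e323b.shift 1 0), (rhb739f4f82bb681b4.shift 0 1)] (by decide +kernel))
noncomputable def rhf4b80757651261c4 : CRef := CRef.mk (Pat.mk 0x200000002000000020000000a00000018 0x4000000060000000600000002000000060000000f00000018 4 5) 0 0 (step_sound _ 162 [(rhbaefcd01e0a8bca3.shift 1 1), rhf62a1dd482e6bb7f] (by decide +kernel))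
noncomputable def rh349858425db3a66a : CRef := CRef.mk (Pat.mk 0x8000000180000001a00000000 0x4000000040000000f0000003f0000001b00000008 4 6) 0 0 (step_sound _ 66 [rh5555e418daff3bad, (rh710860539a4c4362.shift 0 1)] (by decide +kernel))
noncomputable def rhcddd9137cc3db518 : CRef := CRef.mk (Pat.mk 0x300000002400000020 0x7c0000003f00000060 4 7) 0 0 (step_sound _ 35 [(rh18106ac0f60c265a.shift 1 1), (rh5360fcf49c083c33.shift 1 0), (rhabf575676fe0ef70.shift 2 0), (rhbd2e91c3fdbfa961.shift 0 1)] (by decide +kernel))
noncomputable def rh4f7aa851c68c5803 : CRef := CRef.mk (Pat.mk 0x50000000500000006000000000000000000000000 0x5000000050000000500000007000000030000000200000002 4 3) 0 0 (step_sound _ 65 [(rh5c5e593799055d58.shift 1 2), rhe482ee30a2733b5f] (by decide +kernel))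
noncomputable def rh97e8acde19298b21 : CRef := CRef.mk (Pat.mk 0x200000003400000020 0x300000003e00000067 4 7) 0 0 (step_sound _ 35 [rh21d582c147e7e118, (rhe25b0a99195a5d59.shift 2 0)] (by decide +kernel))
noncomputable def rh91adc3212af498ba : CRef := CRef.mk (Pat.mk 0x240000003400000000 0x360000003e00000007 4 6) 0 0 (step_sound _ 35 [rh21d582c147e7e118, (rh3244c3cc8379b070.shift 1 1)] (by decide +kernel))
noncomputable def rha2317065dc49f08e : CRef := CRef.mk (Pat.mk 0x8000000090000000d00000001000000000000000000000000 0x90000000d0000003f00000007000000070000000600000002 4 6) 0 0 (step_sound _ 97 [rh70e33bfdf511e144, (rhb924647ebc4c545e.shift 0 1)] (by decide +kernel))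
noncomputable def rh6dbcdca4faa24dea : CRef := CRef.mk (Pat.mk 0x20000001c00000000 0x70000003e00000007 4 6) 0 0 (step_sound _ 37 [rh00b511fddce6f168, (rh3f8766e6ecb455ce.shift 1 1)] (by decide +kernel))
noncomputable def rhc4dfd09c7d84fa19 : CRef := CRef.mk (Pat.mk 0x8000000180000000a000000000000000000000000 0x8000000080000001c0000000f000000040000000400000004 4 5) 0 0 (step_sound _ 98 [(rh53b3c253cb0c65f4.shift 0 3), (rhfafeb437ceb8396d.shift 2 0)] (by decide +kernel))
noncomputable def rh6b20c526ec8deffc : CRef := CRef.mk (Pat.mk 0x200000003400000000 0x700000003e00000007 4 7) 0 0 (step_sound _ 35 [rh21d582c147e7e118, (rh33e738c4ed385b9f.shift 2 1)] (by decide +kernel))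
noncomputable def rh54c5be17d36e99bc : CRef := CRef.mk (Pat.mk 0x1e000000180000000200000000 0x30000001e0000001f0000000300000001 4 5) 0 0 (step_sound _ 65 [rh78a7df122b37ab7e, (rheb0810cc63b001d8.shift 0 2)] (by decide +kernel))
noncomputable def rh712b6e7d90bff97a : CRef := CRef.mk (Pat.mk 0x20000001a00000002000000000000000000000000 0x2000000020000001f00000003000000010000000100000001 4 5) 0 0 (step_sound _ 96 [(rhb2a0b9ccfb5cecd5.shift 0 3), rhfafeb437ceb8396d] (by decide +kernel))
noncomputable def rh4dbed1f4fe75234c : CRef := CRef.mk (Pat.mk 0x100000003c 0x3e0000007f 4 7) 0 0 (step_sound _ 34 [(rh3244c3cc8379b070.shift 1 0), rh9c3ddc1a1a8204df] (by decide +kernel))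
noncomputable def rh78939c3f3c2bce20 : CRef := CRef.mk (Pat.mk 0x1a0000000a0000000a000000020000000200000000 0xa0000001a0000000f0000000e000000060000000200000002 4 5) 0 0 (step_sound _ 130 [(rh53b3c253cb0c65f4.shift 0 4), (rha43e0e886cc8b59e.shift 1 0)] (by decide +kernel))
noncomputable def rhbb71650e724fd1b2 : CRef := CRef.mk (Pat.mk 0x180000000a0000000200000002000000020000000000000000 0x180000000f0000000600000002000000060000000600000004 4 5) 0 0 (step_sound _ 34 [(rhd3458b32566d63f7.shift 1 1), rhde2c99ee2257631c] (by decide +kernel))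
noncomputable def rh47886619858c4f12 : CRef := CRef.mk (Pat.mk 0x1a00000018000000080000000000000000 0x80000001b0000003f0000000f0000000400000004 4 6) 0 0 (step_sound _ 98 [rh5b16e5ce3dbbe89f, (rh5c36e97be8af272f.shift 0 3)] (by decide +kernel))
noncomputable def rhacd5dee6b90f3061 : CRef := CRef.mk (Pat.mk 0x200000002400000030 0x600000003f0000007c 4 7) 0 0 (step_sound _ 35 [(rh086172e1ea5e5fe6.shift 1 0), (rh52f53d3a55b22c68.shift 1 0), rh95f73988d2dec2c0, (rhabf575676fe0ef70.shift 2 0)] (by decide +kernel))
noncomputable def rh4e61b61d0b91fb70 : CRef := CRef.mk (Pat.mk 0x140000001e00000006 0x3000000030000001f0000001e00000006 4 5) 0 0 (step_sound _ 65 [(rh3244c3cc8379b070.shift 0 1), rh8ebc15871c473b31] (by decide +kernel))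
noncomputable def rha7b4d1f149b42657 : CRef := CRef.mk (Pat.mk 0x40000000d0000000c000000080000000000000000 0x1a0000001e0000000f0000000c0000000c0000000400000004 4 5) 0 0 (step_sound _ 66 [(rh147fc9d3b8351d24.shift 0 2), (rha707fb719e87fe6e.shift 2 1), (rhdf997f77704b6375.shift 1 0)] (by decide +kernel))
noncomputable def rhcc2f921af643b00a : CRef := CRef.mk (Pat.mk 0x180000001e0000001000000008 0x20000000300000001f0000001e0000001800000008 4 6) 0 0 (step_sound _ 132 [(rh79877ebd3ef475dd.shift 3 0), (rhf9bd4bdd448a5193.shift 0 1)] (by decide +kernel))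
noncomputable def rhc49d85044c340509 : CRef := CRef.mk (Pat.mk 0x1a000000060000000200000038 0x3000000030000001e00000006000000060000003c 4 6) 0 0 (step_sound _ 34 [(rh09d4dfe75d4407d6.shift 1 0), (rh9dc6f17ef8893ffe.shift 0 1)] (by decide +kernel))
noncomputable def rhcc3a3cb083175d99 : CRef := CRef.mk (Pat.mk 0x1a0000000e000000020000000000000000 0xb0000000b0000001e0000000e000000060000000400000004 4 5) 0 0 (step_sound _ 66 [(rh55a1f6c57a317ce6.shift 1 0), (rh9dc6f17ef8893ffe.shift 0 2), (rhf9366b6a121593ef.shift 2 0)] (by decide +kernel))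
noncomputable def rh9e51d6d3d9549a92 : CRef := CRef.mk (Pat.mk 0x80000001c0000001000000038 0x40000000f0000003c0000001e00000078 4 7) 0 0 (step_sound _ 98 [(rhd7f3a10f6d82f74f.shift 1 0), (rhe2b63c00a3d7bb73.shift 0 2)] (by decide +kernel))
noncomputable def rh92e8af02f8c05b34 : CRef := CRef.mk (Pat.mk 0xc000000180000000e00000004 0x60000000f0000001a0000000e0000000e 4 5) 0 0 (step_sound _ 97 [(rhb739f4f82bb681b4.shift 0 2), (rhb76c5a0c52a69678.shift 1 0)] (by decide +kernel))
noncomputable def rhdbabc815483b1bd9 : CRef := CRef.mk (Pat.mk 0x380000001000000010 0x8000000080000001f000000780000001800000010 4 7) 0 0 (step_sound _ 99 [(rhe072fffdd2fccf38.shift 3 0), (rhf60aa8aede119d3b.shift 0 2)] (by decide +kernel))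
noncomputable def rhd44e315eab5a9a28 : CRef := CRef.mk (Pat.mk 0x80000000c0000000d000000000000000000000000 0xc0000000c0000000f000000180000001800000018 4 5) 0 0 (step_sound _ 67 [(rh2d65c91b9f714cee.shift 0 1), (rh3cb04db3dd2b6a55.shift 2 0), (rh820d4e04d5dcd02e.shift 2 0)] (by decide +kernel))
noncomputable def rh5bf3064767471257 : CRef := CRef.mk (Pat.mk 0x80000000c0000000d0000000400000000 0x4000000040000000c0000000c0000000f0000001e0000001a 4 5) 0 0 (step_sound _ 130 [(rh925a1628dd8a50da.shift 1 0), (rhd4b4beefcd67f51e.shift 2 0), rhf43dfd17fa5ce038] (by decide +kernel))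
noncomputable def rhd002a3e9dd0dc9ef : CRef := CRef.mk (Pat.mk 0x8000000100000001e000000180000000000000000 0x8000000180000001e0000001f0000003000000020 4 6) 0 0 (step_sound _ 36 [rhc1307820daa2ac22, (rhffd04209dc8ea796.shift 3 1)] (by decide +kernel))
noncomputable def rhab4d14c6cdcd2633 : CRef := CRef.mk (Pat.mk 0x3800000002000000060000001a0000000000000000 0x3c00000006000000060000001e0000000300000003 4 6) 0 0 (step_sound _ 130 [(rhca9569cc80abfe76.shift 1 4), rhe58a7845769190f3] (by decide +kernel))
noncomputable def rhd276c2bab5ecfd05 : CRef := CRef.mk (Pat.mk 0x20000000e0000001a0000000000000000 0x400000004000000060000000e0000001e0000000b0000000b 4 5) 0 0 (step_sound _ 130 [(rh84d1c02a8954c6a8.shift 1 1), (rhc38f566cab2818e5.shift 2 0), rhe58a7845769190f3] (by decide +kernel))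
noncomputable def rh490fe2e9dd9b0129 : CRef := CRef.mk (Pat.mk 0x38000000100000001c0000000800000000 0x780000001e0000003c0000000f00000004 4 7) 0 0 (step_sound _ 34 [(rh4dc133ee0ba1420a.shift 0 1), (rh7f7f6204a9220ffe.shift 1 0)] (by decide +kernel))
noncomputable def rh8c2964f45bc4fea3 : CRef := CRef.mk (Pat.mk 0x40000000e000000180000000c00000000 0xe0000000e0000001a0000000f00000006 4 5) 0 0 (step_sound _ 33 [(rh53b3c253cb0c65f4.shift 0 1), (rhe669ff3944f9a019.shift 1 0)] (by decide +kernel))
noncomputable def rhb6a924ca89d60b54 : CRef := CRef.mk (Pat.mk 0x100000001000000038000000000000000000000000 0x1000000018000000780000001f0000000800000008 4 7) 0 0 (step_sound _ 67 [(rhf0f55c4504412200.shift 0 2), (rhf9af042da61fc652.shift 3 0)] (by decide +kernel))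
noncomputable def rhfea4bcd7fdd2584d : CRef := CRef.mk (Pat.mk 0x1c00000038000000000000000000000000 0x80000003c0000003f000000060000000400000004 4 6) 0 0 (step_sound _ 98 [(rh9a011a4d0ec8f646.shift 1 0), (rhab2ad169e49f9c5e.shift 0 3)] (by decide +kernel))
noncomputable def rh6a46548993957203 : CRef := CRef.mk (Pat.mk 0x30000000f0000000600000002 0x80000001c0000001f0000000f0000000600000002 4 5) 0 0 (step_sound _ 98 [(rh5c5e593799055d58.shift 1 0), (rh5c91976553e30c5f.shift 0 1)] (by decide +kernel))
noncomputable def rh8d77f51b3713ec08 : CRef := CRef.mk (Pat.mk 0x4000000000000000f0000000f000000010000000000000000 0xc0000000c000000180000000f0000000f000000010000000100000001 4 5) 0 0 (step_sound _ 32 [(rh4d8d614e03a7f6ad.shift 0 3), rh71222050f2c63a3a] (by decide +kernel))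
noncomputable def rhf807ef2bc9602478 : CRef := CRef.mk (Pat.mk 0x3000000018000000080000000800000000 0x2c0000003f00000038000000180000001800000010 4 6) 0 0 (step_sound _ 131 [(rh62be5c716da4c399.shift 3 0), (rhc647a25a08ddf0ec.shift 0 1)] (by decide +kernel))
noncomputable def rhf690a1120ef747b0 : CRef := CRef.mk (Pat.mk 0x3800000004000000180000001800000000 0x780000000c000000380000001f00000004 4 7) 0 0 (step_sound _ 99 [(rh18965a982d73c794.shift 2 3), rh6fae963f33cfdfd7] (by decide +kernel))
noncomputable def rh18b3f06961656b37 : CRef := CRef.mk (Pat.mk 0x1e00000002000000120000000a00000000 0x30000001e000000020000001a0000000f00000005 4 5) 0 0 (step_sound _ 161 [(rh3244c3cc8379b070.shift 0 4), rhf07568ca7607612e] (by decide +kernel))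
noncomputable def rhe360cad595d4e85a : CRef := CRef.mk (Pat.mk 0x100000001800000038000000000000000000000000 0x10000000380000003f000000670000002000000020 4 7) 0 0 (step_sound _ 98 [(rhcc2be1f880c5ea3e.shift 0 2), (rhd132b680030c88e0.shift 2 0)] (by decide +kernel))
noncomputable def rhe9d1bf37bafa27f9 : CRef := CRef.mk (Pat.mk 0xd0000000f000000010000000100000000 0x20000000f0000000f0000000f000000050000000500000004 4 4) 0 0 (step_sound _ 66 [(rh000637b5a81e86aa.shift 1 0), (rh28f7c203f178e979.shift 0 1), (rhea7a1800d6f053bd.shift 2 0)] (by decide +kernel))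
noncomputable def rh1f5ed24d8bcfc0cf : CRef := CRef.mk (Pat.mk 0x380000001c00000000 0x400000004000000060000003f0000003c00000008 4 6) 0 0 (step_sound _ 66 [(rhad5d8fc3675c15dd.shift 0 1), (rhbdb8dfd08861fbf7.shift 1 0)] (by decide +kernel))
noncomputable def rhfc369a7f27d1ec1d : CRef := CRef.mk (Pat.mk 0x2000000060000000f000000030000000000000000 0x2000000060000000f0000001f0000001c00000008 4 5) 0 0 (step_sound _ 66 [rh3f420d1be4b84cac, (rh7b1f1fb55310c477.shift 1 1)] (by decide +kernel))
noncomputable def rh489123e77495ea2b : CRef := CRef.mk (Pat.mk 0x10000000f0000000f000000000000000400000000 0x100000001000000010000000f0000000f000000180000000c0000000c 4 5) 0 0 (step_sound _ 192 [(rh2145e1d24b96a57e.shift 0 3), rhdc461deccfb05432] (by decide +kernel))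
noncomputable def rhba035a58d35ce5fb : CRef := CRef.mk (Pat.mk 0x800000008000000180000003000000000 0x100000001800000018000000380000003f0000002c 4 6) 0 0 (step_sound _ 35 [rh6fae963f33cfdfd7, (rhb32faae6e8187273.shift 3 0)] (by decide +kernel))
noncomputable def rhba4c79d012a3bd5f : CRef := CRef.mk (Pat.mk 0x18000000180000000400000038 0x40000001f000000380000000c00000078 4 7) 0 0 (step_sound _ 35 [rhc647a25a08ddf0ec, (rhf48373e13d2bc128.shift 2 0)] (by decide +kernel))
noncomputable def rhdc408a89938afb58 : CRef := CRef.mk (Pat.mk 0xa00000012000000020000001e00000000 0x50000000f0000001a000000020000001e00000003 4 5) 0 0 (step_sound _ 1 [(rh9da7ea51113f4f62.shift 0 1), rheb0810cc63b001d8] (by decide +kernel))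
noncomputable def rh1fd74e78d89ec75e : CRef := CRef.mk (Pat.mk 0x38000000020000000600000000 0x70000003e000000060000000600000004 4 6) 0 0 (step_sound _ 98 [(rh80fcd6d0a18cb2dd.shift 1 2), rhe31d01bb44986368] (by decide +kernel))
noncomputable def rh4accb275d9204b93 : CRef := CRef.mk (Pat.mk 0x380000001800000010 0x2000000020000000670000003f0000003800000010 4 7) 0 0 (step_sound _ 66 [(rh94246470f0e6fdf7.shift 2 0), (rhba89ab7cb81bcc90.shift 0 1)] (by decide +kernel))
noncomputable def rhcd9e747d03f909d8 : CRef := CRef.mk (Pat.mk 0x1000000010000000f0000000d0000000000000000 0x400000005000000050000000f0000000f0000000f00000002 4 4) 0 0 (step_sound _ 130 [(rh3e595262c1b737ad.shift 2 1), rh96542b57e9ab27d3, (rhb23658ecdd7ce5df.shift 1 1)] (by decide +kernel))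
noncomputable def rh3d46de1b96c343f7 : CRef := CRef.mk (Pat.mk 0x80000000c000000180000001c00000000 0x40000000c0000000c0000001c0000001f00000003 4 5) 0 0 (step_sound _ 33 [(rh53b3c253cb0c65f4.shift 0 1), rh71a7f499e4f3ab7c] (by decide +kernel))
noncomputable def rh84a67cf0073779b6 : CRef := CRef.mk (Pat.mk 0x10000000f0000000d000000000000000000000000 0x1000000050000000f0000000f0000001a0000000a00000008 4 5) 0 0 (step_sound _ 97 [(rh55a1f6c57a317ce6.shift 0 1), rhbbe16ff26f7822db] (by decide +kernel))
noncomputable def rh78a360d7c0e0d8d2 : CRef := CRef.mk (Pat.mk 0x6000000060000001a0000000000000000 0x6000000060000001a0000000f00000007 4 5) 0 0 (step_sound _ 33 [rh36e6bb6cca6188da, (rh71222050f2c63a3a.shift 1 0)] (by decide +kernel))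
noncomputable def rh070e4356f7cc8a1a : CRef := CRef.mk (Pat.mk 0x180000001a000000020000000000000000 0x8000000180000001e000000330000001000000010 4 6) 0 0 (step_sound _ 98 [(rhbbe16ff26f7822db.shift 1 0), (rheb0810cc63b001d8.shift 0 2)] (by decide +kernel))
noncomputable def rhc36216947a8c6f8e : CRef := CRef.mk (Pat.mk 0xc000000090000000900000009 0x130000001f0000000b0000000900000009 4 5) 0 0 (step_sound _ 100 [(rh2f68792b6b779e96.shift 3 0), rh88bb1f3bd94c46c0] (by decide +kernel))
noncomputable def rhb9834bf7884fd26e : CRef := CRef.mk (Pat.mk 0x12000000020000000200000002 0x1000000070000001f000000020000000200000002 4 5) 0 0 (step_sound _ 98 [(rh2f68792b6b779e96.shift 1 0), rhd87ffc78421e37d0] (by decide +kernel))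
noncomputable def rh0b4b7ae5c383f530 : CRef := CRef.mk (Pat.mk 0x400000006000000180000000a00000000 0x200000006000000060000001c0000000f00000006 4 5) 0 0 (step_sound _ 34 [(rh53b3c253cb0c65f4.shift 0 1), (rhfff8953c7af09ce5.shift 1 0)] (by decide +kernel))
noncomputable def rh31981161ce3fe160 : CRef := CRef.mk (Pat.mk 0x40000000e000000180000000e0000000000000000 0x40000000e0000001b0000001e0000003200000010 4 6) 0 0 (step_sound _ 97 [(rh71222050f2c63a3a.shift 1 1), rhb9784ff7a7632a57] (by decide +kernel))
noncomputable def rh0b268d1e3b08da39 : CRef := CRef.mk (Pat.mk 0x80000001c000000340000001400000000 0x20000000f0000001c000000340000001e00000008 4 6) 0 0 (step_sound _ 35 [(rh53b3c253cb0c65f4.shift 1 1), rhc2f06c7a97a2ad79] (by decide +kernel))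
noncomputable def rh51698cea9087386d : CRef := CRef.mk (Pat.mk 0x1200000003000000020000000000000000 0x40000001f00000007000000020000000200000002 4 5) 0 0 (step_sound _ 130 [(rh361cc68994bd8a63.shift 0 3), rh9bb5c7e5c08d4582] (by decide +kernel))
noncomputable def rhdff86dfbc559b7c4 : CRef := CRef.mk (Pat.mk 0x800000008000000100000003800000000 0x80000000c000000370000003e00000007 4 6) 0 0 (step_sound _ 34 [(rh503775339733bab1.shift 0 1), rh55c4ed4acec0f063, (rheb505ef94539da28.shift 1 0)] (by decide +kernel))
noncomputable def rhe053ff186ad2b33b : CRef := CRef.mk (Pat.mk 0x1c000000180000000c0000000800000000 0x30000001f0000001c0000000c0000000c00000004 4 5) 0 0 (step_sound _ 129 [(rhb739f4f82bb681b4.shift 0 3), rhb9739f1ab700cea6] (by decide +kernel))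
noncomputable def rh77bb8b66e073a633 : CRef := CRef.mk (Pat.mk 0xd0000000f0000000100000000 0x80000000a0000001a0000000f0000000f0000000500000001 4 5) 0 0 (step_sound _ 97 [(rh5ba2d67652840f34.shift 0 1), rh84d1c02a8954c6a8] (by decide +kernel))
noncomputable def rh2b408ac967bdf1eb : CRef := CRef.mk (Pat.mk 0x1a0000000600000006 0x70000000f0000001a0000000600000006 4 5) 0 0 (step_sound _ 97 [(rh2145e1d24b96a57e.shift 1 0), rh330a005829cdd297] (by decide +kernel))
noncomputable def rh04934d4036f52a12 : CRef := CRef.mk (Pat.mk 0x20000001a0000001800000000 0x1000000010000000330000001e0000001800000008 4 6) 0 0 (step_sound _ 66 [(rh3244c3cc8379b070.shift 0 2), (rh5ba2d67652840f34.shift 1 0)] (by decide +kernel))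
noncomputable def rhdfc7171a4d738d7a : CRef := CRef.mk (Pat.mk 0x900000009000000090000000c00000000 0x9000000090000000b0000001f00000013 4 5) 0 0 (step_sound _ 36 [(rh55afc6a59410cf00.shift 3 0), rhfe5aaaa5b2356484] (by decide +kernel))
noncomputable def rh8a473ec674e844c5 : CRef := CRef.mk (Pat.mk 0xa00000018000000060000000400000000 0x60000000f0000001c000000060000000600000002 4 5) 0 0 (step_sound _ 130 [(rh045a29dae8c97265.shift 1 0), (rhb739f4f82bb681b4.shift 0 3)] (by decide +kernel))
noncomputable def rh02f4f158f1f80c2a : CRef := CRef.mk (Pat.mk 0xe000000180000000e00000004 0x10000000320000001e0000001b0000000e00000004 4 6) 0 0 (step_sound _ 65 [(rh2145e1d24b96a57e.shift 1 0), (rh644d796282c12cc5.shift 0 1)] (by decide +kernel))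
noncomputable def rh1e1c23ae07d7b94c : CRef := CRef.mk (Pat.mk 0x14000000340000001c0000000800000000 0x80000001e000000340000001c0000000f00000002 4 6) 0 0 (step_sound _ 131 [rh675ab9d4ddf88e9c, (rhb739f4f82bb681b4.shift 1 3)] (by decide +kernel))
noncomputable def rh9c2924c8c4127d86 : CRef := CRef.mk (Pat.mk 0x2000000030000001200000000 0x20000000200000002000000070000001f00000004 4 5) 0 0 (step_sound _ 34 [(rh2fe78cc5ca4405d8.shift 0 1), rhea6bef6447d37a6a] (by decide +kernel))
noncomputable def rhe46155d475d08818 : CRef := CRef.mk (Pat.mk 0x38000000100000000800000008 0x70000003e000000370000000c00000008 4 6) 0 0 (step_sound _ 98 [(rh04395309fba550d6.shift 1 0), (rh4f8edb321cf5b49d.shift 0 2), (rhb2432c16363a7e8d.shift 0 2)] (by decide +kernel))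
noncomputable def rhccd1134496526620 : CRef := CRef.mk (Pat.mk 0x40000000e0000000c0000000400000000 0x40000000e0000003c0000000f0000000a 4 6) 0 0 (step_sound _ 35 [(rh7b1f1fb55310c477.shift 2 0), rh9cc5d980c4667d10] (by decide +kernel))
noncomputable def rh4f7c000fb666917c : CRef := CRef.mk (Pat.mk 0xc0000000c0000000c0000000400000000 0xc0000000c0000000f0000003c00000018 4 6) 0 0 (step_sound _ 35 [(rh7b1f1fb55310c477.shift 2 0), rhfe557af9112f51d6] (by decide +kernel))
noncomputable def rh2b577870cede931c : CRef := CRef.mk (Pat.mk 0x80000001c000000180000000000000000 0x80000003c0000007f0000000600000004 4 7) 0 0 (step_sound _ 69 [rh4a652af6261b5a9e, (rhf48373e13d2bc128.shift 2 2)] (by decide +kernel))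
noncomputable def rhf8d9ac5b35cc26f5 : CRef := CRef.mk (Pat.mk 0xc00000008000000040000000c00000000 0x40000000c000000080000000f0000003c00000010 4 6) 0 0 (step_sound _ 67 [(rh50fbb5868c909700.shift 2 1), rhfe557af9112f51d6] (by decide +kernel))
noncomputable def rhba9afb95c345922b : CRef := CRef.mk (Pat.mk 0xc0000000c000000440000000c00000000 0x40000000c0000000c0000007c0000000f00000002 4 7) 0 0 (step_sound _ 67 [(rh50fbb5868c909700.shift 2 1), rhc7bbce25984b10da] (by decide +kernel))
noncomputable def rhdd729eb0b4069efb : CRef := CRef.mk (Pat.mk 0x1a00000006000000020000000000000000 0x200000006000000070000001e00000006000000060000000200000002 4 5) 0 0 (step_sound _ 130 [(rh84d1c02a8954c6a8.shift 1 1), (rhadf429772c25fde0.shift 1 0), (rhbdb8dfd08861fbf7.shift 0 2), (rhea7a1800d6f053bd.shift 1 0)] (by decide +kernel))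
noncomputable def rhbcb524b1b314fc79 : CRef := CRef.mk (Pat.mk 0x40000000c0000000e00000004 0xa0000000f0000003c0000000e00000004 4 6) 0 0 (step_sound _ 99 [rh53cccbb248b8ab65, (rh5c5e593799055d58.shift 2 0)] (by decide +kernel))
noncomputable def rh293859eed95ff14f : CRef := CRef.mk (Pat.mk 0x40000000c0000000c0000000c 0x180000003c0000000f0000000c0000000c 4 6) 0 0 (step_sound _ 99 [(rh5c5e593799055d58.shift 2 0), rhc0ddb33d3a52722b] (by decide +kernel))
noncomputable def rh1eb520e6f2e56a5a : CRef := CRef.mk (Pat.mk 0x180000001c00000008 0x4000000060000007f0000003c00000008 4 7) 0 0 (step_sound _ 69 [(rh18965a982d73c794.shift 2 1), rh39a7ed93c3e90ebd] (by decide +kernel))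
noncomputable def rhee6e41f347a62869 : CRef := CRef.mk (Pat.mk 0xc00000004000000080000000c00000000 0x100000003c0000000f000000080000000c00000004 4 6) 0 0 (step_sound _ 99 [(rh932754581e0f4330.shift 2 0), (rhc0ddb33d3a52722b.shift 0 1)] (by decide +kernel))
noncomputable def rhca012b1710fc194f : CRef := CRef.mk (Pat.mk 0xc000000440000000c0000000c00000000 0x20000000f0000007c0000000c0000000c00000004 4 7) 0 0 (step_sound _ 99 [(rh932754581e0f4330.shift 2 0), (rhbb501c45f07a70ba.shift 0 1)] (by decide +kernel))
noncomputable def rh3dcd80652d67cf83 : CRef := CRef.mk (Pat.mk 0x2000000060000001a000000000000000000000000 0x20000000200000006000000060000001e000000070000000600000002 4 5) 0 0 (step_sound _ 98 [(rh3e595262c1b737ad.shift 1 2), (rh55a1f6c57a317ce6.shift 1 1), rh9a011a4d0ec8f646, (rha40d42a2e34c408d.shift 1 1)] (by decide +kernel))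
noncomputable def rh626cca2d83e6311d : CRef := CRef.mk (Pat.mk 0x1000000018000000080000001800000000 0x40000001f00000038000000080000001800000010 4 6) 0 0 (step_sound _ 131 [(rh55afc6a59410cf00.shift 3 0), (rhc647a25a08ddf0ec.shift 0 1)] (by decide +kernel))
noncomputable def rhe1fafb62d66eba59 : CRef := CRef.mk (Pat.mk 0x200000002000000100000000300000000 0x2000000020000001e0000000f00000005 4 5) 0 0 (step_sound _ 65 [rh932754581e0f4330, rhf1ce2a38d2d19dce] (by decide +kernel))
noncomputable def rh2da0ea28af51d92c : CRef := CRef.mk (Pat.mk 0x60000000600000003800000010 0x80000007c0000007f0000007800000010 4 7) 0 0 (step_sound _ 67 [(rh2f32edc41b016dfb.shift 2 0), (rhabdc3ccfcc1c7da9.shift 2 0), (rhf60aa8aede119d3b.shift 0 1)] (by decide +kernel))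
noncomputable def rha4a90701732bc6b6 : CRef := CRef.mk (Pat.mk 0x1800000008000000180000001000000000 0x100000001800000008000000380000001f00000004 4 6) 0 0 (step_sound _ 35 [(rh2f68792b6b779e96.shift 3 1), rh6fae963f33cfdfd7] (by decide +kernel))
noncomputable def rh692de1f1b989c1c1 : CRef := CRef.mk (Pat.mk 0x3000000100000000200000002 0x50000000f0000001e0000000200000002 4 5) 0 0 (step_sound _ 65 [rh50fbb5868c909700, rh797d4ef7d0f603cf] (by decide +kernel))
noncomputable def rhd186de56a721691f : CRef := CRef.mk (Pat.mk 0x1000000038000000600000006000000000 0x10000000780000007f0000007c00000008 4 7) 0 0 (step_sound _ 67 [(rh487d1c85f5a48961.shift 2 0), (rh4efa0adc8286e0a8.shift 2 0), (rhf0f55c4504412200.shift 0 2)] (by decide +kernel))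
noncomputable def rhaaf4e29c7679cdb1 : CRef := CRef.mk (Pat.mk 0x300000000c000000180000001800000000 0x780000000c000000380000001f00000004 4 7) 0 0 (step_sound _ 131 [(rh18965a982d73c794.shift 2 3), rh6fae963f33cfdfd7] (by decide +kernel))
noncomputable def rhf6fbbd65bb36f450 : CRef := CRef.mk (Pat.mk 0x18000000180000000c00000030 0x40000001f000000380000000c00000078 4 7) 0 0 (step_sound _ 3 [rhc647a25a08ddf0ec, (rhf48373e13d2bc128.shift 2 0)] (by decide +kernel))
noncomputable def rhdce7344d7fe15ffb : CRef := CRef.mk (Pat.mk 0x20000000e0000001a0000000000000000 0x400000004000000060000000e0000001e0000000b0000000b 4 5) 0 0 (step_sound _ 130 [(rhadf429772c25fde0.shift 1 0), (rhc38f566cab2818e5.shift 2 0), rhe58a7845769190f3, (rhea7a1800d6f053bd.shift 1 0)] (by decide +kernel))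
noncomputable def rhfe52b50a4070aff4 : CRef := CRef.mk (Pat.mk 0x40000000c0000001a0000000200000000 0x40000000c0000001f0000003b00000008 4 6) 0 0 (step_sound _ 66 [rha309f1affcf4d51b, (rheb0810cc63b001d8.shift 0 1)] (by decide +kernel))
noncomputable def rhbe253d1426d5780c : CRef := CRef.mk (Pat.mk 0x80000001c000000060000000000000000 0x60000000f0000001c000000060000000600000006 4 5) 0 0 (step_sound _ 34 [(rh71222050f2c63a3a.shift 2 0), rhd4ae1995e458b8b0] (by decide +kernel))
noncomputable def rh85069a6d037617f9 : CRef := CRef.mk (Pat.mk 0x40000000f000000000000000000000000 0x4000000040000000c0000000f000000180000000800000008 4 5) 0 0 (step_sound _ 67 [(rhc2c7bae8f445c890.shift 2 0), (rhe25b0a99195a5d59.shift 0 2)] (by decide +kernel))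
noncomputable def rh7b3ca0aa5193219e : CRef := CRef.mk (Pat.mk 0x100000001000000038000000200000000000000000 0x1000000018000000780000003f0000000800000008 4 7) 0 0 (step_sound _ 67 [(rh51fce1c34e57939e.shift 1 1), (rhd64d7be5d7225cce.shift 3 1), (rhf0f55c4504412200.shift 0 2), (rhf9af042da61fc652.shift 3 0)] (by decide +kernel))
noncomputable def rh0163168cc088e075 : CRef := CRef.mk (Pat.mk 0x1000000003000000020000000200000000 0x40000001f00000007000000020000000200000002 4 5) 0 0 (step_sound _ 1 [rh0458c62fd03c11b7, rh50fbb5868c909700] (by decide +kernel))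
noncomputable def rhdc9874b03b232223 : CRef := CRef.mk (Pat.mk 0x1a0000000e000000020000000000000000 0xb0000000b0000001e0000000e000000060000000400000004 4 5) 0 0 (step_sound _ 66 [(rh3e595262c1b737ad.shift 1 1), (rh9dc6f17ef8893ffe.shift 0 2), (rha40d42a2e34c408d.shift 1 0), (rhf9366b6a121593ef.shift 2 0)] (by decide +kernel))
noncomputable def rhb1f6c7657f492432 : CRef := CRef.mk (Pat.mk 0x20000001a0000000c00000004 0x80000003b0000001f0000000c00000004 4 6) 0 0 (step_sound _ 66 [(rh3244c3cc8379b070.shift 0 2), rh9687edfb9a4610f2] (by decide +kernel))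
noncomputable def rhc04acbc801fe9a40 : CRef := CRef.mk (Pat.mk 0x60000001c0000000800000000 0x600000006000000060000001c0000000f00000006 4 5) 0 0 (step_sound _ 130 [(rh2145e1d24b96a57e.shift 2 1), rh64fc1037460b24cb] (by decide +kernel))
noncomputable def rhe5ad44e27e846693 : CRef := CRef.mk (Pat.mk 0xf000000040000000000000000 0x800000008000000180000000f0000000c0000000400000004 4 5) 0 0 (step_sound _ 131 [(rh33e738c4ed385b9f.shift 0 3), (rhcf80391c5046a495.shift 2 0)] (by decide +kernel))
noncomputable def rh009ae82a642315c6 : CRef := CRef.mk (Pat.mk 0x20000000380000001000000010 0x8000000080000003f000000780000001800000010 4 7) 0 0 (step_sound _ 99 [(rh0b744d3af5b77181.shift 1 0), (rha3df16ea9c8576c8.shift 3 0), (rhe072fffdd2fccf38.shift 3 0), (rhf60aa8aede119d3b.shift 0 2)] (by decide +kernel))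
noncomputable def rh995ae866d9508489 : CRef := CRef.mk (Pat.mk 0x200000002000000030000001000000000 0x20000000200000002000000070000001f00000004 4 5) 0 0 (step_sound _ 161 [rh89810a54557d14e5, (rh932754581e0f4330.shift 0 1)] (by decide +kernel))
noncomputable def rh9fffeeac53327eff : CRef := CRef.mk (Pat.mk 0xd0000000f000000010000000000000000 0x8000000080000001a0000000f0000000f000000050000000100000001 4 5) 0 0 (step_sound _ 129 [(rh5ba2d67652840f34.shift 0 2), rhea7a1800d6f053bd] (by decide +kernel))
noncomputable def rh8aaf6f94dabeb3c9 : CRef := CRef.mk (Pat.mk 0xc000000180000000c0000000c 0x130000001f0000001c0000000c0000000c 4 5) 0 0 (step_sound _ 100 [(rh2f68792b6b779e96.shift 3 0), rh59b8ab533772ff61] (by decide +kernel))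
noncomputable def rh1659cb662a8a4b7d : CRef := CRef.mk (Pat.mk 0x1e000000000000001000000010 0x200000003e000000370000001000000010 4 6) 0 0 (step_sound _ 65 [(rh90b2a9b33a13c18c.shift 1 0), (rheb0810cc63b001d8.shift 0 2)] (by decide +kernel))
noncomputable def rhe103f3b245eccdf2 : CRef := CRef.mk (Pat.mk 0x8000000180000001e0000000200000000 0x60000000f0000001b0000001e0000000600000004 4 5) 0 0 (step_sound _ 97 [(rh3244c3cc8379b070.shift 0 2), rh60563dce9de46764] (by decide +kernel))
noncomputable def rh28879c8a0fd1da92 : CRef := CRef.mk (Pat.mk 0x1e00000006000000000000000000000000 0x2000000030000001e00000006000000060000000400000004 4 5) 0 0 (step_sound _ 161 [(rh3244c3cc8379b070.shift 0 4), (rh70e33bfdf511e144.shift 1 0)] (by decide +kernel))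
noncomputable def rhbbe3ea43537fadcb : CRef := CRef.mk (Pat.mk 0x800000018000000180000001800000000 0x100000001800000018000000380000001f00000004 4 6) 0 0 (step_sound _ 164 [rh6fae963f33cfdfd7, (rhee230b994cc8b773.shift 3 1)] (by decide +kernel))
noncomputable def rhe41d0219d4e1df88 : CRef := CRef.mk (Pat.mk 0x4000000140000000c0000000c00000000 0xa0000000f0000001c0000000c0000000c00000004 4 5) 0 0 (step_sound _ 131 [(rh2f68792b6b779e96.shift 2 1), rh69553f89ec47d787] (by decide +kernel))
noncomputable def rhf5c1ef464aae2412 : CRef := CRef.mk (Pat.mk 0x6800000030 0x7f0000007c 4 7) 0 0 (step_sound _ 3 [(rh53b3c253cb0c65f4.shift 2 0), rhf60aa8aede119d3b] (by decide +kernel))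
noncomputable def rha7b4cd11312f72e7 : CRef := CRef.mk (Pat.mk 0x2000000060000001a000000000000000000000000 0x200000006000000060000001e000000070000000600000002 4 5) 0 0 (step_sound _ 98 [(rh55a1f6c57a317ce6.shift 1 1), rh9a011a4d0ec8f646, (rhc65f5dc89ddae11a.shift 0 1)] (by decide +kernel))
noncomputable def rh50c0383edfc08921 : CRef := CRef.mk (Pat.mk 0x38000000100000000800000008 0x40000007f0000003f0000000800000008 4 7) 0 0 (step_sound _ 67 [(rh2820ca9a6c4f41b4.shift 0 2), (rh4dc133ee0ba1420a.shift 1 2), rhc647a25a08ddf0ec] (by decide +kernel))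
noncomputable def rhba00811e2116ed6c : CRef := CRef.mk (Pat.mk 0x7800000000000000180000001800000000 0x780000000c000000380000001f00000004 4 7) 0 0 (step_sound _ 99 [rh6fae963f33cfdfd7, (rheb0810cc63b001d8.shift 2 3)] (by decide +kernel))
noncomputable def rhd03be1cfdd2e96a0 : CRef := CRef.mk (Pat.mk 0x1c000000180000001c0000000c00000000 0x3c0000001f0000001c0000000f00000002 4 6) 0 0 (step_sound _ 33 [(rh53b3c253cb0c65f4.shift 0 1), rhcedc9a1d714703df] (by decide +kernel))
noncomputable def rh30c6e80cdfda4ed2 : CRef := CRef.mk (Pat.mk 0x10000000f0000000d000000000000000000000000 0x100000001000000050000000f0000000f0000001a0000000800000008 4 5) 0 0 (step_sound _ 97 [(rh3e595262c1b737ad.shift 0 2), rhbbe16ff26f7822db] (by decide +kernel))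
noncomputable def rhc93ed808f6c269a4 : CRef := CRef.mk (Pat.mk 0xc0000000c000000180000000c00000000 0xc0000000c0000001c0000001f00000013 4 5) 0 0 (step_sound _ 36 [(rh55afc6a59410cf00.shift 3 0), rhbedc17f53a3d22d1] (by decide +kernel))
noncomputable def rhb6dd664740077d60 : CRef := CRef.mk (Pat.mk 0x1000000010000000000000001e00000000 0x1000000010000000370000003e00000020 4 6) 0 0 (step_sound _ 65 [(rh05bd3f77a7a27350.shift 1 0), (rh3244c3cc8379b070.shift 0 1)] (by decide +kernel))
noncomputable def rh1ff38a4f94cedc54 : CRef := CRef.mk (Pat.mk 0x20000001e000000180000000800000000 0x4000000060000001e0000001b0000000f00000006 4 5) 0 0 (step_sound _ 65 [rhe83c92073c5d4312, (rheb0810cc63b001d8.shift 0 2)] (by decide +kernel))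
noncomputable def rh37ea0e2bbdf51851 : CRef := CRef.mk (Pat.mk 0x60000001e0000000000000000 0x40000000400000006000000060000001e0000000300000002 4 5) 0 0 (step_sound _ 33 [(rh215e11e099257d75.shift 1 0), (rheb0810cc63b001d8.shift 0 1)] (by decide +kernel))
noncomputable def rh2559ab5a9948594c : CRef := CRef.mk (Pat.mk 0x1800000018000000180000000800000000 0x40000001f00000038000000180000001800000010 4 6) 0 0 (step_sound _ 4 [(rh9e07f76261b05888.shift 3 0), (rhc647a25a08ddf0ec.shift 0 1)] (by decide +kernel))
noncomputable def rhb658cb508a14169b : CRef := CRef.mk (Pat.mk 0x3000000068 0x7c0000007f 4 7) 0 0 (step_sound _ 35 [(rhb739f4f82bb681b4.shift 2 0), rhf0f55c4504412200] (by decide +kernel))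
noncomputable def rh8776aeea89141b68 : CRef := CRef.mk (Pat.mk 0x1a000000060000000200000000 0x200000006000000070000001e000000060000000600000002 4 5) 0 0 (step_sound _ 98 [rh11acd801a78010b3, (rh84d1c02a8954c6a8.shift 1 0), (rhbdb8dfd08861fbf7.shift 0 1)] (by decide +kernel))
noncomputable def rhd6b9bed501d4d192 : CRef := CRef.mk (Pat.mk 0x800000008000000100000003800000000 0x8000000080000003f0000007f00000004 4 7) 0 0 (step_sound _ 67 [rh6fae963f33cfdfd7, (rha9fbfd4bb8cf890b.shift 0 1), (rhe2b63c00a3d7bb73.shift 1 1)] (by decide +kernel))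
noncomputable def rh0823dec8a6dbdb01 : CRef := CRef.mk (Pat.mk 0x18000000180000000000000078 0x40000001f000000380000000c00000078 4 7) 0 0 (step_sound _ 35 [(rh3244c3cc8379b070.shift 2 0), rhc647a25a08ddf0ec] (by decide +kernel))
noncomputable def rhd8bc781b795b752f : CRef := CRef.mk (Pat.mk 0xc0000001c000000180000001c 0x20000000f0000001c0000001f0000003c 4 6) 0 0 (step_sound _ 97 [(rhb739f4f82bb681b4.shift 0 2), rhea7b9eedea36c816] (by decide +kernel))
noncomputable def rh66f5162a0455f5fc : CRef := CRef.mk (Pat.mk 0x22000000070000000c0000000000000000 0x80000003e0000000f0000000c0000000400000004 4 6) 0 0 (step_sound _ 34 [(rh49d70996e36647de.shift 0 1), (rh7b1f1fb55310c477.shift 1 0)] (by decide +kernel))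
noncomputable def rh4da3e6be34f94b62 : CRef := CRef.mk (Pat.mk 0x1800000010000000080000000c00000000 0x40000001f00000038000000080000000c00000004 4 6) 0 0 (step_sound _ 99 [(rh932754581e0f4330.shift 2 0), (rhc647a25a08ddf0ec.shift 0 1)] (by decide +kernel))
noncomputable def rh93e3746ea7a92ddc : CRef := CRef.mk (Pat.mk 0x100000001a00000038000000000000000000000000 0x100000003b0000003f000000600000002000000020 4 7) 0 0 (step_sound _ 98 [(rh5c36e97be8af272f.shift 0 3), (rhab2ad169e49f9c5e.shift 0 3), (rhd132b680030c88e0.shift 2 0)] (by decide +kernel))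
noncomputable def rhe7e9fb0f2608dd2e : CRef := CRef.mk (Pat.mk 0xe000000060000000600000002 0x800000008000000190000000f0000000e0000000600000002 4 5) 0 0 (step_sound _ 96 [rh50fbb5868c909700, (rh94246470f0e6fdf7.shift 0 1)] (by decide +kernel))
noncomputable def rh0bf19fab06097111 : CRef := CRef.mk (Pat.mk 0x40000001e000000180000000800000000 0x40000001e0000001f0000000f00000002 4 5) 0 0 (step_sound _ 65 [rh487d1c85f5a48961, (rheb0810cc63b001d8.shift 0 2)] (by decide +kernel))
noncomputable def rh4e7c1350891c9e1b : CRef := CRef.mk (Pat.mk 0x400000006000000400000001c00000000 0x400000006000000670000003e00000002 4 7) 0 0 (step_sound _ 37 [(rh428265de8cd3cd2d.shift 2 1), rhd6bdcf42eacc3245] (by decide +kernel))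
noncomputable def rhf581dbec858cde0b : CRef := CRef.mk (Pat.mk 0xc000000070000002200000000 0x4000000040000000c0000000f0000003e00000008 4 6) 0 0 (step_sound _ 130 [(rh5c5e593799055d58.shift 1 1), rhfde351cfc6d8ff57] (by decide +kernel))
noncomputable def rhff9c0a7688d5638d : CRef := CRef.mk (Pat.mk 0xc00000008000000100000001800000000 0x40000000c00000008000000380000001f00000004 4 6) 0 0 (step_sound _ 67 [(rh50fbb5868c909700.shift 2 1), rh6fae963f33cfdfd7] (by decide +kernel))
noncomputable def rh5987d466e82b46b5 : CRef := CRef.mk (Pat.mk 0x380000001a00000010 0x2000000020000000600000003f0000003b00000010 4 7) 0 0 (step_sound _ 66 [(rh710860539a4c4362.shift 0 1), (rh94246470f0e6fdf7.shift 2 0), (rhad5d8fc3675c15dd.shift 0 1)] (by decide +kernel))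
noncomputable def rhcf0be5240bb46a0d : CRef := CRef.mk (Pat.mk 0x200000006000000060000000e000000000000000000000000 0x2000000060000000e0000000f000000190000000800000008 4 5) 0 0 (step_sound _ 96 [(rh932754581e0f4330.shift 0 2), rhd132b680030c88e0] (by decide +kernel))
noncomputable def rhf560d5018c3a7833 : CRef := CRef.mk (Pat.mk 0x1c000000400000000600000004 0x20000003e000000670000000600000004 4 7) 0 0 (step_sound _ 101 [(rh96851dee118c1ba3.shift 2 2), rhb5c8c9ad79bacc08] (by decide +kernel))
noncomputable def rh6b58076deebb465a : CRef := CRef.mk (Pat.mk 0x20000000e0000000d0000000800000000 0x80000000a0000000e0000000f0000001c00000014 4 5) 0 0 (step_sound _ 34 [(rh7b1f1fb55310c477.shift 1 0), rhcbcc5a257edbc6de] (by decide +kernel))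
noncomputable def rh5a4d5d5a295c242c : CRef := CRef.mk (Pat.mk 0xf000000000000000400000000 0x180000000f0000001c0000000c00000004 4 5) 0 0 (step_sound _ 131 [(rh33e738c4ed385b9f.shift 0 3), rh6eb13c7f206c3d49] (by decide +kernel))
noncomputable def rh24fb4bd02f51debc : CRef := CRef.mk (Pat.mk 0x200000002000000120000000a00000000 0x400000006000000020000001a0000000f00000005 4 5) 0 0 (step_sound _ 162 [(rhbaefcd01e0a8bca3.shift 1 1), rhf07568ca7607612e] (by decide +kernel))
noncomputable def rh8257211cbce8bb99 : CRef := CRef.mk (Pat.mk 0x240000000f000000000000000000000000 0x40000003c0000000f000000180000000800000008 4 6) 0 0 (step_sound _ 131 [(rh361cc68994bd8a63.shift 1 3), rhbbe16ff26f7822db] (by decide +kernel))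
noncomputable def rh1d829167b917eec6 : CRef := CRef.mk (Pat.mk 0x200000002000000020000000a00000008 0x40000000600000002000000020000000f0000001d 4 5) 0 0 (step_sound _ 162 [(rhbaefcd01e0a8bca3.shift 1 1), rhcca48c881f96823d] (by decide +kernel))
noncomputable def rh81e2bec735c1c310 : CRef := CRef.mk (Pat.mk 0x60000000e000000120000000800000000 0x60000000e0000001a0000000f0000000e 4 5) 0 0 (step_sound _ 33 [(rh71222050f2c63a3a.shift 1 0), rha5b5a8d513a1f7f3] (by decide +kernel))
noncomputable def rh30106afc83a92050 : CRef := CRef.mk (Pat.mk 0x20000000e0000001a0000000800000000 0x4000000040000000e0000000e0000001a0000000f00000006 4 5) 0 0 (step_sound _ 130 [(rhc89253ff58c66167.shift 2 1), rhe0486e85e8f6c68a, (rhea7a1800d6f053bd.shift 1 0)] (by decide +kernel))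
noncomputable def rha143ffc671f01c76 : CRef := CRef.mk (Pat.mk 0x8000000090000000b000000090000000000000000 0x100000001a0000000f0000000b000000090000000100000001 4 5) 0 0 (step_sound _ 164 [(rh2f68792b6b779e96.shift 3 2), rhf348e8372f095d24] (by decide +kernel))
noncomputable def rh4679a35a2a652574 : CRef := CRef.mk (Pat.mk 0x6000000120000001200000012 0x190000001f0000001a0000001200000012 4 5) 0 0 (step_sound _ 96 [rh50fbb5868c909700, rh64a83c5c5f058052] (by decide +kernel))
noncomputable def rh0b550571d3414394 : CRef := CRef.mk (Pat.mk 0x10000000b000000090000000c0000001000000000 0x2000000030000000b000000090000000f0000001900000010 4 5) 0 0 (step_sound _ 35 [(rh55afc6a59410cf00.shift 3 0), (rh978fad83d3287704.shift 0 1)] (by decide +kernel))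
noncomputable def rh298087a7ec517908 : CRef := CRef.mk (Pat.mk 0x7000000100000001800000000 0x380000001f000000180000001800000008 4 6) 0 0 (step_sound _ 99 [(rh96851dee118c1ba3.shift 0 2), rhec1f98bc300b66e4] (by decide +kernel))
noncomputable def rh8f0a9efa03bf9f6c : CRef := CRef.mk (Pat.mk 0x3000000060000000000000018000000100000000000000000 0xb0000001e0000000800000018000000180000001000000010 4 5) 0 0 (step_sound _ 163 [(rh0588d2c7f2cab5e9.shift 3 0), (rhf48373e13d2bc128.shift 0 5)] (by decide +kernel))
noncomputable def rh1112bf7ecf6cbade : CRef := CRef.mk (Pat.mk 0x4000000000000000f00000000 0x40000000c0000001c0000000f00000018 4 5) 0 0 (step_sound _ 3 [rha6399794a59e7d61, rhe25b0a99195a5d59] (by decide +kernel))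
noncomputable def rh389259316771c07b : CRef := CRef.mk (Pat.mk 0xa00000012000000020000000200000000 0x50000000f0000001a000000020000000600000004 4 5) 0 0 (step_sound _ 2 [(rh9da7ea51113f4f62.shift 0 1), (rhd3458b32566d63f7.shift 1 0)] (by decide +kernel))
noncomputable def rh41756e67fc64428a : CRef := CRef.mk (Pat.mk 0xf0000002400000000 0x800000008000000180000000f0000003c00000004 4 6) 0 0 (step_sound _ 35 [(rh2fe78cc5ca4405d8.shift 1 1), rh5ba2d67652840f34] (by decide +kernel))
noncomputable def rhf2e85560d03275a7 : CRef := CRef.mk (Pat.mk 0x80000000a00000002000000020000000200000000 0x1d0000000f00000002000000020000000600000004 4 5) 0 0 (step_sound _ 2 [(rh44386a7e86fbdb58.shift 0 1), (rhd3458b32566d63f7.shift 1 0)] (by decide +kernel))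
noncomputable def rhbb01d504274db35a : CRef := CRef.mk (Pat.mk 0x8000000120000000e00000006 0xe0000000f0000001a0000000e00000006 4 5) 0 0 (step_sound _ 97 [rh208b7de0cc69000f, (rh2145e1d24b96a57e.shift 1 0)] (by decide +kernel))
noncomputable def rh33ac12255c7271d0 : CRef := CRef.mk (Pat.mk 0x80000001a0000000e000000020000000000000000 0x60000000f0000001a0000000e0000000e0000000400000004 4 5) 0 0 (step_sound _ 66 [(rh3e595262c1b737ad.shift 1 1), (rh42548283029e2a39.shift 2 0), (rhbad97a0fc5ad232d.shift 0 2)] (by decide +kernel))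
noncomputable def rhaec89d66b3a9b96c : CRef := CRef.mk (Pat.mk 0x90000000b000000090000000800000000 0x100000001000000090000000b0000000f0000001a00000010 4 5) 0 0 (step_sound _ 36 [(rh55afc6a59410cf00.shift 3 0), (rhe9ea452019cb53f9.shift 0 1)] (by decide +kernel))
noncomputable def rhabff1a05b293764f : CRef := CRef.mk (Pat.mk 0x1200000012000000120000000600000000 0x12000000120000001a0000001f00000019 4 5) 0 0 (step_sound _ 32 [rh19f04371b14ac53c, rh932754581e0f4330] (by decide +kernel))
noncomputable def rhc6ce3acda2655488 : CRef := CRef.mk (Pat.mk 0x100000000c000000090000000b0000000100000000 0x10000000190000000f000000090000000b0000000300000002 4 5) 0 0 (step_sound _ 163 [(rh2f68792b6b779e96.shift 3 2), rh56d0cf1fb306da76] (by decide +kernel))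
noncomputable def rhbaebd98167d6138a : CRef := CRef.mk (Pat.mk 0x1000000018000000000000000600000003 0x10000000100000001800000018000000080000001e0000000b 4 5) 0 0 (step_sound _ 35 [(rh00d6a6e3c7e3bb40.shift 3 0), rh18965a982d73c794] (by decide +kernel))
noncomputable def rh8babcc3eadc4ff45 : CRef := CRef.mk (Pat.mk 0x6000000240000000400000004 0x80000001f0000007c0000000400000004 4 7) 0 0 (step_sound _ 99 [(rh2f68792b6b779e96.shift 2 0), (rhf1af73716833b731.shift 0 2)] (by decide +kernel))
noncomputable def rha4e29d00f9cbded5 : CRef := CRef.mk (Pat.mk 0x200000006000000070000000200000000 0x40000000600000006000000070000001e0000000c 4 5) 0 0 (step_sound _ 34 [(rh7b1f1fb55310c477.shift 1 0), rh8af73b7df2d2ba44] (by decide +kernel))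
noncomputable def rh15590a39afd9a120 : CRef := CRef.mk (Pat.mk 0x60000000200000002000000000000000000000000 0x4000000060000000600000002000000030000000300000001 4 3) 0 0 (step_sound _ 65 [(rh2f68792b6b779e96.shift 1 2), rh8aec56c4ee12918c] (by decide +kernel))
noncomputable def rh8e7d7a38ae31ce04 : CRef := CRef.mk (Pat.mk 0x480000000c000000400000000e 0x10000000780000000c000000780000000f 4 7) 0 0 (step_sound _ 100 [(rh361cc68994bd8a63.shift 2 2), rh6eba9a6cc09894e4] (by decide +kernel))
noncomputable def rh0aa20f94c2053ddd : CRef := CRef.mk (Pat.mk 0x20000000600000002000000020000000100000000 0x200000002000000020000000600000006000000060000000300000003 4 3) 0 0 (step_sound _ 33 [rh932754581e0f4330, (rhf2568c0049eb2085.shift 1 0)] (by decide +kernel))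
noncomputable def rhd11e991ec7b8bb18 : CRef := CRef.mk (Pat.mk 0x800000008000000180000000800000000 0x80000000800000008000000380000001f00000004 4 6) 0 0 (step_sound _ 36 [(rh2145e1d24b96a57e.shift 3 1), rh6fae963f33cfdfd7] (by decide +kernel))
noncomputable def rh60310a71edd4a6ab : CRef := CRef.mk (Pat.mk 0x10000000180000001800000018 0xc0000001f000000380000001800000018 4 6) 0 0 (step_sound _ 99 [(rh50fbb5868c909700.shift 3 0), rhc647a25a08ddf0ec] (by decide +kernel))
noncomputable def rh821743bf98774625 : CRef := CRef.mk (Pat.mk 0x80000000100000002000000020000000600000000 0x40000001e0000000300000002000000060000000600000004 4 5) 0 0 (step_sound _ 129 [(rh55afc6a59410cf00.shift 1 0), (rhc95dcd868e038ffd.shift 0 1)] (by decide +kernel))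
noncomputable def rhd5e3c8f7bcc6884c : CRef := CRef.mk (Pat.mk 0x4000000240000000e0000000000000000 0x4000000370000001e0000000300000002 4 6) 0 0 (step_sound _ 68 [(rh428265de8cd3cd2d.shift 1 2), rhae036cc4ef671676] (by decide +kernel))
noncomputable def rh23a7189115558792 : CRef := CRef.mk (Pat.mk 0x40000000c00000007000000000000000000000000 0x80000000c0000000c0000000f0000003c0000000c00000008 4 6) 0 0 (step_sound _ 66 [(rh301a6b3a9154ed36.shift 2 0), (rha707fb719e87fe6e.shift 2 1), (rhd9397e4126e81439.shift 0 1)] (by decide +kernel))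
end Crest.Agent.S0047.Helper85.Cert
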