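import Crest.Agent.Lib.S0047.Helper85CertPL3F0
import Crest.Agent.Lib.S0047.Helper85CertPL3F1
import Crest.Agent.Lib.S0047.Helper85CertPL3F2
import Crest.Agent.Lib.S0047.Helper85CertPL3F3
import Crest.Agent.Lib.S0047.Helper85CertPL3F4
import Crest.Agent.Lib.S0047.Helper85CertPL3F5
set_option autoImplicit false
set_option linter.all false
set_option Elab.async false
namespace Crest.Agent.S0047.Helper85.Cert
open Crest.Agent.S0047.Helper85

noncomputable def rh8d358dde56f9cfc6 : CRef := CRef.mk (Pat.mk 0x80000000100000003000000030000000600000000 0x60000001e0000000300000003000000030000000600000004 4 5) 0 0 (step_sound _ 129 [(rh2c94cc78cc898595.shift 0 2), (rh55afc6a59410cf00.shift 1 0)] (by decide +kernel))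
noncomputable def rh832cf0f1aa8f67ef : CRef := CRef.mk (Pat.mk 0x10000000030000000200000002000000000000000000000000 0x40000001e000000070000000300000002000000060000000600000004 4 5) 0 0 (step_sound _ 65 [(rh0458c62fd03c11b7.shift 0 2), rha613ffd40b6c9d24] (by decide +kernel))
noncomputable def rh586b343be2471f50 : CRef := CRef.mk (Pat.mk 0x2000000060000000300000002 0x60000000600000006000000070000000700000002 4 3) 0 0 (step_sound _ 130 [(rh17a556309cbe1030.shift 0 1), (rhbaefcd01e0a8bca3.shift 1 0)] (by decide +kernel))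
noncomputable def rh496f5570bd96474b : CRef := CRef.mk (Pat.mk 0x1000000020000001200000003 0x300000003000000020000001f00000007 4 5) 0 0 (step_sound _ 97 [rh11e271fc6df71935, rh50fbb5868c909700] (by decide +kernel))
noncomputable def rh167758b835438f03 : CRef := CRef.mk (Pat.mk 0x20000000060000000c000000070000000000000000 0xc0000003c000000060000000c0000000f0000001800000008 4 6) 0 0 (step_sound _ 67 [(rh55a1f6c57a317ce6.shift 2 0), rh78974448101547fe, (rhb0ec3bbf712aa524.shift 1 2)] (by decide +kernel))
noncomputable def rhfa39b4415c8c7a83 : CRef := CRef.mk (Pat.mk 0x600000000000000060000000400000002 0x70000000700000003000000060000000600000002 4 3) 0 0 (step_sound _ 97 [(rh2145e1d24b96a57e.shift 1 1), rh6dfc19d8fb05b5e5] (by decide +kernel))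
noncomputable def rh58b20c5512b3c07e : CRef := CRef.mk (Pat.mk 0x80000000800000018000000300000000800000000 0x40000000c0000000c000000380000003f0000000f00000004 4 6) 0 0 (step_sound _ 67 [rh322e79f034282812, (rh3ca48e2a6d60153d.shift 2 1), (rh6fae963f33cfdfd7.shift 0 1)] (by decide +kernel))
noncomputable def rhaaa31fc581a8d47e : CRef := CRef.mk (Pat.mk 0x10000000180000001c 0x300000001f0000003f 4 6) 0 0 (step_sound _ 1 [rh53b3c253cb0c65f4, rh9c14e3cb4927e8b1] (by decide +kernel))
noncomputable def rh6d8eb858c51c3f4f : CRef := CRef.mk (Pat.mk 0x2000000120000000300000006 0x400000006000000060000001e0000000700000006 4 5) 0 0 (step_sound _ 66 [(rh361cc68994bd8a63.shift 0 1), (rh73f605273a09a9d0.shift 1 0)] (by decide +kernel))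
noncomputable def rhc6caea4112c2545d : CRef := CRef.mk (Pat.mk 0x400000004000000040000000c00000000 0x40000000400000004000000070000003e00000002 4 6) 0 0 (step_sound _ 33 [(rh365a543efd1956a6.shift 0 1), (rh932754581e0f4330.shift 1 0)] (by decide +kernel))
noncomputable def rhdddca37c4662ca83 : CRef := CRef.mk (Pat.mk 0x300000012000000030000000000000000 0x5000000070000001e000000030000000200000002 4 5) 0 0 (step_sound _ 98 [(rh361cc68994bd8a63.shift 0 2), rh668fc65514a55b16] (by decide +kernel))
noncomputable def rh3c0e29dc5062068f : CRef := CRef.mk (Pat.mk 0x800000001000000020000000300000002 0x40000001f00000003000000020000000300000003 4 5) 0 0 (step_sound _ 97 [rh50fbb5868c909700, rhd4803e9ceb634242] (by decide +kernel))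
noncomputable def rhf3d47a2f85ecef05 : CRef := CRef.mk (Pat.mk 0x180000008c00000004 0x38000000ff00000006 4 8) 0 0 (step_sound _ 33 [(rh53b3c253cb0c65f4.shift 0 1), (rhc2205c51d9b8af26.shift 1 0)] (by decide +kernel))
noncomputable def rh916c6ea577483915 : CRef := CRef.mk (Pat.mk 0x8000000180000000c0000000000000000 0x8000000380000001f0000003000000010 4 6) 0 0 (step_sound _ 65 [(rh53b3c253cb0c65f4.shift 0 2), (rh9be069fbbecfe378.shift 1 0)] (by decide +kernel))
noncomputable def rhbcc4fe5ed04bfb24 : CRef := CRef.mk (Pat.mk 0x80000001e000000140000000200000000 0x80000001e0000001f0000003300000010 4 6) 0 0 (step_sound _ 65 [rhe13a0e3af63b4ef1, (rheb0810cc63b001d8.shift 0 2)] (by decide +kernel))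
noncomputable def rhaad951dfb9c73db4 : CRef := CRef.mk (Pat.mk 0x1000000000000000100000001e00000000 0x1000000010000000170000003e00000060 4 7) 0 0 (step_sound _ 65 [(rh3244c3cc8379b070.shift 0 1), (rhcd2bd3fc839dcd04.shift 1 0)] (by decide +kernel))
noncomputable def rhd11fbfd75114ae00 : CRef := CRef.mk (Pat.mk 0x80000001e000000040000000c00000000 0x80000001e000000370000003c00000010 4 6) 0 0 (step_sound _ 65 [(rh82209b1a2ecb6f5a.shift 1 0), (rheb0810cc63b001d8.shift 0 2)] (by decide +kernel))
noncomputable def rhe8c19771975f4a9d : CRef := CRef.mk (Pat.mk 0x10000000f000000000000000000000000 0x100000001000000030000001f000000030000000200000002 4 5) 0 0 (step_sound _ 65 [(rh795d3e5d420177aa.shift 0 2), rha40d42a2e34c408d, rhc38f566cab2818e5] (by decide +kernel))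
noncomputable def rh499a8f5b4f2e3126 : CRef := CRef.mk (Pat.mk 0xf000000010000000000000000 0x200000002000000030000001f000000030000000100000001 4 5) 0 0 (step_sound _ 129 [(rh7b030ba967bf927e.shift 0 2), rhadf429772c25fde0, rhf9366b6a121593ef] (by decide +kernel))
noncomputable def rh19b19bf0872cfe73 : CRef := CRef.mk (Pat.mk 0x20000000e00000002000000000000000000000000 0x2000000020000001e00000003000000030000000100000001 4 5) 0 0 (step_sound _ 96 [(rh18965a982d73c794.shift 0 3), rh281c6819542c66e6] (by decide +kernel))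
noncomputable def rhc82d36bfb2f35839 : CRef := CRef.mk (Pat.mk 0x3000000070000000200000002 0x2000000060000000600000007000000070000000600000002 4 3) 0 0 (step_sound _ 130 [(rh97ffe9f7c907aa77.shift 0 1), (rhbaefcd01e0a8bca3.shift 1 0)] (by decide +kernel))
noncomputable def rhc92a87466e403616 : CRef := CRef.mk (Pat.mk 0x200000006000000030000000700000000 0x40000000600000006000000070000001f00000018 4 5) 0 0 (step_sound _ 130 [rh23bcc2d6a6c0f37c, (rh2f68792b6b779e96.shift 1 1)] (by decide +kernel))
noncomputable def rh0a341794b13bba9d : CRef := CRef.mk (Pat.mk 0x200000007c00000000 0x300000007f0000003c 4 7) 0 0 (step_sound _ 33 [(rh428265de8cd3cd2d.shift 1 1), rh5108aaa789497f8e] (by decide +kernel))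
noncomputable def rh0511ae9ffd0e9541 : CRef := CRef.mk (Pat.mk 0x1c0000001c000000080000000800000000 0x30000001e0000003c0000000c0000000c00000004 4 6) 0 0 (step_sound _ 129 [(rhf48373e13d2bc128.shift 1 3), rhf53ee62ce7c07a09] (by decide +kernel))
noncomputable def rh4481494b8c6286f7 : CRef := CRef.mk (Pat.mk 0x7c00000000 0x3c0000007f00000007 4 7) 0 0 (step_sound _ 33 [(rh6ea0c6639065f1d7.shift 0 1), rheae1728ff4a56756] (by decide +kernel))
noncomputable def rhdaa34f01e5e560a1 : CRef := CRef.mk (Pat.mk 0x2000000020000000700000003000000000000000000000000 0x2000000060000000700000007000000060000000600000002 4 3) 0 0 (step_sound _ 66 [rhc633eb9d57dee3b1, (rhd3458b32566d63f7.shift 1 2)] (by decide +kernel))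
noncomputable def rh6d6bcec3cb40a78e : CRef := CRef.mk (Pat.mk 0x700000003000000060000000200000000 0x180000001f00000007000000060000000600000004 4 5) 0 0 (step_sound _ 34 [(rh3694ccc47a1810b0.shift 0 1), (rh55afc6a59410cf00.shift 1 0)] (by decide +kernel))
noncomputable def rha05938dd7e0a683e : CRef := CRef.mk (Pat.mk 0x7c00000020 0x3c0000007f00000030 4 7) 0 0 (step_sound _ 33 [(rh6ea0c6639065f1d7.shift 0 1), (rh96851dee118c1ba3.shift 1 0)] (by decide +kernel))
noncomputable def rhabbc4ac3dadd65e8 : CRef := CRef.mk (Pat.mk 0x8000000080000001c0000001c00000000 0x40000000c0000000c0000003c0000001e00000003 4 6) 0 0 (step_sound _ 33 [(rh18965a982d73c794.shift 1 1), rh52db8f9374849729] (by decide +kernel))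
noncomputable def rh94c710ab1ea57720 : CRef := CRef.mk (Pat.mk 0x7c00000000 0xff0000003c 4 8) 0 0 (step_sound _ 3 [rh3696295804471b76, (rheb0810cc63b001d8.shift 2 0)] (by decide +kernel))
noncomputable def rh30bb319167ae3296 : CRef := CRef.mk (Pat.mk 0x100000003000000000000000c00000018 0x1000000010000000300000003000000020000000f0000001a 4 5) 0 0 (step_sound _ 33 [rh95a80f84f48ac358, rhb739f4f82bb681b4] (by decide +kernel))
noncomputable def rh8035cc4411da4afd : CRef := CRef.mk (Pat.mk 0x1e0000001c000000000000000000000000 0x40000001e0000001f000000030000000200000002 4 5) 0 0 (step_sound _ 97 [rh9a011a4d0ec8f646, (rheb0810cc63b001d8.shift 0 3)] (by decide +kernel))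
noncomputable def rh086d0ff3c7edae2c : CRef := CRef.mk (Pat.mk 0xa0000000300000003000000000000000100000000 0x40000001e0000000300000003000000020000000300000003 4 5) 0 0 (step_sound _ 162 [(rh18965a982d73c794.shift 0 4), rhc6b4e1276619034d] (by decide +kernel))
noncomputable def rhc1bdba7c8457e5a3 : CRef := CRef.mk (Pat.mk 0x4000000060000000f000000000000000000000000 0x40000000e0000000f0000001a0000000a00000008 4 5) 0 0 (step_sound _ 65 [(rh71222050f2c63a3a.shift 1 1), rhd132b680030c88e0] (by decide +kernel))
noncomputable def rh99515cbbb29e1be5 : CRef := CRef.mk (Pat.mk 0x1a00000016000000000000000000000000 0x80000001b0000001e000000300000001000000010 4 6) 0 0 (step_sound _ 99 [(rh3244c3cc8379b070.shift 0 3), (rhbbe16ff26f7822db.shift 1 0)] (by decide +kernel))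
noncomputable def rh1a088ebc49a2614c : CRef := CRef.mk (Pat.mk 0x7000000050000000100000000 0x2000000020000000200000007000000070000000500000005 4 3) 0 0 (step_sound _ 129 [rh71222050f2c63a3a, (rhc38f566cab2818e5.shift 1 0)] (by decide +kernel))
noncomputable def rh5ab13697a1e10053 : CRef := CRef.mk (Pat.mk 0x200000003000000120000000200000000 0x2000000030000001e0000000f00000005 4 5) 0 0 (step_sound _ 67 [rh36e6bb6cca6188da, (rh5419adcd928dba20.shift 0 2)] (by decide +kernel))
noncomputable def rh984b24d45fbc0911 : CRef := CRef.mk (Pat.mk 0x10000000000000003000000030000000a00000000 0x3000000030000000200000003000000030000001e00000004 4 5) 0 0 (step_sound _ 34 [rh22c7b9f73858deec, (rhf48373e13d2bc128.shift 0 1)] (by decide +kernel))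
noncomputable def rh5ed935544b1a1654 : CRef := CRef.mk (Pat.mk 0xf0000000600000004 0x80000000a0000001a0000000f0000000e00000004 4 5) 0 0 (step_sound _ 97 [(rh2145e1d24b96a57e.shift 1 0), rh94246470f0e6fdf7] (by decide +kernel))
noncomputable def rh50d4d0fd838213a3 : CRef := CRef.mk (Pat.mk 0x800000008000000280000000800000000 0x800000008000000780000001f00000004 4 7) 0 0 (step_sound _ 34 [(rh932754581e0f4330.shift 2 0), (rhcadd85ff2a73e8c7.shift 0 1)] (by decide +kernel))
noncomputable def rhd01938b442f37426 : CRef := CRef.mk (Pat.mk 0x10000000500000007000000000000000000000000 0x5000000050000000700000007000000020000000200000002 4 3) 0 0 (step_sound _ 65 [(rh2145e1d24b96a57e.shift 0 2), (rhf9366b6a121593ef.shift 1 0)] (by decide +kernel))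
noncomputable def rh52f94888bbeb9de6 : CRef := CRef.mk (Pat.mk 0x800000000000000000000000f00000000 0x800000008000000180000001f00000038 4 6) 0 0 (step_sound _ 67 [(rh33e738c4ed385b9f.shift 0 1), rhaf89196ed7f199b4] (by decide +kernel))
noncomputable def rhe4587a882b729654 : CRef := CRef.mk (Pat.mk 0x1e000000000000000000000002 0x70000003e000000030000000200000002 4 6) 0 0 (step_sound _ 129 [(rh3244c3cc8379b070.shift 0 3), rh3be7f6b81357a21d] (by decide +kernel))
noncomputable def rh8fc6e84d6e407574 : CRef := CRef.mk (Pat.mk 0x20000001e000000000000000000000000 0x4000000060000003e000000030000000200000002 4 6) 0 0 (step_sound _ 65 [(rh7c44f8de8ceba237.shift 1 0), (rheb0810cc63b001d8.shift 0 2)] (by decide +kernel))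
noncomputable def rh3a2e0da897283d2e : CRef := CRef.mk (Pat.mk 0x200000003800000020 0x600000003e00000037 4 7) 0 0 (step_sound _ 34 [rh0de499e0455c9c14, (rh33e738c4ed385b9f.shift 2 1)] (by decide +kernel))
noncomputable def rhac8e16d0ae38a800 : CRef := CRef.mk (Pat.mk 0x4000000060000000700000000 0x400000004000000070000003f00000038 4 6) 0 0 (step_sound _ 35 [rh0cb6a409506b34ea, rh75c6fff53e4cbd6e, (rh79b3c29022acbdf3.shift 0 1), rhba04d77b039f69d9] (by decide +kernel))
noncomputable def rhde83e62c415bcc31 : CRef := CRef.mk (Pat.mk 0x400000000000000060000000700000000 0x400000004000000070000003f00000038 4 6) 0 0 (step_sound _ 35 [rh0cb6a409506b34ea, rh3098af7943687178, (rh79b3c29022acbdf3.shift 0 1)] (by decide +kernel))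
noncomputable def rhcf4b42018da64cc7 : CRef := CRef.mk (Pat.mk 0x1000000000000000080000000a0000000800000000 0x100000001000000010000000780000001f0000000800000008 4 7) 0 0 (step_sound _ 100 [(rh0b786d94a31538a6.shift 0 2), (rha5c1ac488360e009.shift 3 0), (rhb009278fdd334770.shift 3 1)] (by decide +kernel))
noncomputable def rh1d48077d84cc1ebc : CRef := CRef.mk (Pat.mk 0x800000000000000080000000700000000 0x800000008000000180000001f00000038 4 6) 0 0 (step_sound _ 35 [(rh33e738c4ed385b9f.shift 0 1), rhaf89196ed7f199b4] (by decide +kernel))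
noncomputable def rh50d505fb0cd92109 : CRef := CRef.mk (Pat.mk 0x40000001e000000180000000400000000 0x40000001e0000001b0000000f0000000a 4 5) 0 0 (step_sound _ 35 [(rh7b1f1fb55310c477.shift 2 0), rhc94597eb09ef68b2] (by decide +kernel))
noncomputable def rh1861173042f24e9a : CRef := CRef.mk (Pat.mk 0x400000004000000060000000400000000 0x400000004000000070000003e0000000a 4 6) 0 0 (step_sound _ 33 [rh36d4d92ef3dad5f8, (rh932754581e0f4330.shift 1 0)] (by decide +kernel))
noncomputable def rh4d6502f3efa43d2b : CRef := CRef.mk (Pat.mk 0x40000000f000000070000000200000000 0x1c0000000f000000070000001e0000000c 4 5) 0 0 (step_sound _ 131 [(rh33e738c4ed385b9f.shift 0 3), rhdc33407c88564b07] (by decide +kernel))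
noncomputable def rhfe6afc976ddf028b : CRef := CRef.mk (Pat.mk 0x800000000000000000000000e00000006000000000000000300000000 0x800000008000000080000000e00000006000000060000000700000005 4 4) 0 0 (step_sound _ 65 [rh932754581e0f4330, (rhbb16c22d8bb54c90.shift 1 0)] (by decide +kernel))
noncomputable def rhb079932701f32a02 : CRef := CRef.mk (Pat.mk 0x800000000000000000000000f00000007000000000000000200000000 0x800000008000000080000000f00000007000000060000000600000006 4 4) 0 0 (step_sound _ 65 [rh7b1f1fb55310c477, (rhbb16c22d8bb54c90.shift 1 0)] (by decide +kernel))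
noncomputable def rh2f29f5fd3aa2e974 : CRef := CRef.mk (Pat.mk 0xc0000000800000020000000200000002000000020 0xf0000007c00000030000000200000002000000020 4 7) 0 0 (step_sound _ 132 [(rhdeca8db941583de2.shift 0 4), (rhffd04209dc8ea796.shift 4 0)] (by decide +kernel))
noncomputable def rhbc808d4d9e8b71b2 : CRef := CRef.mk (Pat.mk 0x20000000200000002000000010000000000000000 0x4000000060000000600000002000000070000000700000004 4 3) 0 0 (step_sound _ 65 [(rh932754581e0f4330.shift 0 1), (rhec588a0d7783acc6.shift 1 0)] (by decide +kernel))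
noncomputable def rh5cec23cb9f993674 : CRef := CRef.mk (Pat.mk 0x800000000000000180000007800000000 0x800000008000000380000007f000000c6 4 8) 0 0 (step_sound _ 6 [rh6e71b3129cd4e324, (rhe25b0a99195a5d59.shift 3 0)] (by decide +kernel))
noncomputable def rh37aed1c9caf4a2d8 : CRef := CRef.mk (Pat.mk 0x800000008000000000000000e00000004 0x800000018000000300000003e00000037 4 6) 0 0 (step_sound _ 36 [(rh6797c410c820e91e.shift 1 0), rhaf9f2efc81a8312b] (by decide +kernel))
noncomputable def rhc2a30e66e4f91bfc : CRef := CRef.mk (Pat.mk 0x2000000020000000200000002000000020000000100000000 0x2000000060000000600000006000000060000000300000003 4 3) 0 0 (step_sound _ 33 [rh932754581e0f4330, (rha43277a93dc44e8f.shift 1 0)] (by decide +kernel))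
noncomputable def rh66a420705aa4c3b0 : CRef := CRef.mk (Pat.mk 0x400000000000000020000000280000003800000000 0x400000004000000040000000600000003f0000003c00000020 4 7) 0 0 (step_sound _ 66 [(rh38ee46920402d80a.shift 2 0), (rhdbcea10a0fbe5ba6.shift 0 1)] (by decide +kernel))
noncomputable def rhc59c9f6e11dc219c : CRef := CRef.mk (Pat.mk 0xc0000000e00000001 0xc0000007e00000073 4 7) 0 0 (step_sound _ 36 [(rh0cb6a409506b34ea.shift 1 0), rh80fcd6d0a18cb2dd] (by decide +kernel))
noncomputable def rh51e1c6fcf00b5e70 : CRef := CRef.mk (Pat.mk 0x400000004000000030000000700000000 0x40000000c0000001b0000001f00000018 4 5) 0 0 (step_sound _ 35 [rh6797c410c820e91e, (rhf48373e13d2bc128.shift 0 1)] (by decide +kernel))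
noncomputable def rhd697d02ffa0645e5 : CRef := CRef.mk (Pat.mk 0x800000000000000080000000700000001 0x800000008000000180000001f00000033 4 6) 0 0 (step_sound _ 35 [(rh33e738c4ed385b9f.shift 0 1), rhcec6e8d910b4f91f] (by decide +kernel))
noncomputable def rh2c238a09e92daa45 : CRef := CRef.mk (Pat.mk 0x180000000a0000000800000008000000080000000000000000 0x180000000f0000000c000000080000000c0000000c00000004 4 5) 0 0 (step_sound _ 34 [(rh79877ebd3ef475dd.shift 2 1), rhe26e998a14434bc9] (by decide +kernel))
noncomputable def rh8a0fefa1af4cde73 : CRef := CRef.mk (Pat.mk 0x8000000080000003a00000008 0x40000000c000000780000003e0000000f 4 7) 0 0 (step_sound _ 98 [(rh50fbb5868c909700.shift 2 0), rh5d31d350d6081d55] (by decide +kernel))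
noncomputable def rhbcdc711872321c00 : CRef := CRef.mk (Pat.mk 0xa0000000200000000000000090000000c0000000800000000 0xa0000001e0000001c0000000f0000000c0000000800000008 4 5) 0 0 (step_sound _ 98 [(rh9658209abb2466de.shift 1 0), (rha72bf666c45f9c99.shift 0 1)] (by decide +kernel))
noncomputable def rh48377ce3ccce6cb7 : CRef := CRef.mk (Pat.mk 0x20000001e00000010 0x60000007f0000001e 4 7) 0 0 (step_sound _ 37 [rh123702e3a929e394, (rh3f8766e6ecb455ce.shift 1 1)] (by decide +kernel))
noncomputable def rhf5244b03d2a97778 : CRef := CRef.mk (Pat.mk 0x1000000001000000020000000200000002 0x40000001f00000007000000020000000200000002 4 5) 0 0 (step_sound _ 97 [rh0458c62fd03c11b7, rh50fbb5868c909700] (by decide +kernel))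
noncomputable def rh242d04f3e31b8ffb : CRef := CRef.mk (Pat.mk 0x200000006000000020000000e0000000000000000 0x20000000200000006000000060000003e0000000300000002 4 6) 0 0 (step_sound _ 98 [(rh2145e1d24b96a57e.shift 1 2), rhf32f861d69cb038f] (by decide +kernel))
noncomputable def rhe3a96fe3bfc1461d : CRef := CRef.mk (Pat.mk 0x1000000000000000000000000700000008 0x1000000010000000380000001f00000018 4 6) 0 0 (step_sound _ 35 [rhb27e63f82e0a6668, rhe25b0a99195a5d59] (by decide +kernel))
noncomputable def rh3d8b13f45fa02e2e : CRef := CRef.mk (Pat.mk 0x100000001c000000100000000000000000 0x8000000180000001f000000300000001000000010 4 6) 0 0 (step_sound _ 97 [rha0e9bf4f2fe2c0ad, (rhe25b0a99195a5d59.shift 1 2)] (by decide +kernel))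
noncomputable def rhcea95bd1ecd58bb2 : CRef := CRef.mk (Pat.mk 0x180000001e00000004 0x2000000030000001f0000003e00000004 4 6) 0 0 (step_sound _ 65 [(rh3244c3cc8379b070.shift 0 1), rh3f1f65112e81949f] (by decide +kernel))
noncomputable def rhff07f2b53ee23b53 : CRef := CRef.mk (Pat.mk 0x60000000e0000000a0000000a00000000 0x60000003e0000003a0000000f00000001 4 6) 0 0 (step_sound _ 100 [rhe417fb97609ebbe7, (rhf48373e13d2bc128.shift 1 3)] (by decide +kernel))
noncomputable def rh981d69d292ec3bee : CRef := CRef.mk (Pat.mk 0x14000000140000001400000000 0x8000000080000000f0000001e000000340000001400000014 4 6) 0 0 (step_sound _ 99 [(rh04c86c4dc256e77a.shift 2 0), rhb1e85508c6bcb2d1, (rhd8a13c7f042cc6ea.shift 2 0)] (by decide +kernel))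
noncomputable def rh9dbf587d2da5af8d : CRef := CRef.mk (Pat.mk 0x1000000002000000020000000200000002 0x40000001f00000007000000020000000200000002 4 5) 0 0 (step_sound _ 96 [rh0458c62fd03c11b7, rh50fbb5868c909700] (by decide +kernel))
noncomputable def rhd8c5ad32e0255fe4 : CRef := CRef.mk (Pat.mk 0x400000004000000000000000b0000000f00000000 0x40000001c000000180000000f0000000f00000018 4 5) 0 0 (step_sound _ 99 [rh63821641ca6fcacd, (rhcfdf45280693d3da.shift 2 1)] (by decide +kernel))
noncomputable def rh2abcdce65b0f666c : CRef := CRef.mk (Pat.mk 0xc00000008000000200000006000000040 0x2f0000007c000000200000006000000040 4 7) 0 0 (step_sound _ 101 [(rh2145e1d24b96a57e.shift 5 0), (rh8c25cb665ab79ec0.shift 0 3)] (by decide +kernel))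
noncomputable def rh494ed70d2f70c43b : CRef := CRef.mk (Pat.mk 0xc0000000c0000000c00000006 0x20000000f0000003c0000003c00000006 4 6) 0 0 (step_sound _ 37 [(rh361cc68994bd8a63.shift 1 0), rhcf85c92937975d4d] (by decide +kernel))
noncomputable def rh3b2fe3ab14852c84 : CRef := CRef.mk (Pat.mk 0x1e00000006000000020000000000000000 0x30000001e00000006000000030000000300000003 4 5) 0 0 (step_sound _ 161 [(rh3244c3cc8379b070.shift 0 4), rh46530d756bdf8511] (by decide +kernel))
noncomputable def rheece3a6582754a6e : CRef := CRef.mk (Pat.mk 0x180000001c000000080000000c 0x70000001f0000001c0000000c0000000c 4 5) 0 0 (step_sound _ 98 [(rh50fbb5868c909700.shift 2 0), rh8f4c920c37cd7688] (by decide +kernel))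
noncomputable def rhe27eb8489a333d1c : CRef := CRef.mk (Pat.mk 0xc000000080000001e00000004 0x20000000f0000003b0000001e00000004 4 6) 0 0 (step_sound _ 68 [(rh33e738c4ed385b9f.shift 1 1), rhc30999405e79726f] (by decide +kernel))
noncomputable def rh8ac4b10a053cad09 : CRef := CRef.mk (Pat.mk 0x80000000a0000000600000006 0x70000000f0000001a0000000600000006 4 5) 0 0 (step_sound _ 97 [(rh2145e1d24b96a57e.shift 1 0), rhefe6a054a8eff004] (by decide +kernel))
noncomputable def rhdfe67b24fcc3b045 : CRef := CRef.mk (Pat.mk 0xe00000002 0x700000003e00000073 4 7) 0 0 (step_sound _ 36 [(rh35e918dd76851f8c.shift 1 0), rheb0810cc63b001d8] (by decide +kernel))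
noncomputable def rhd5c831412170e0ad : CRef := CRef.mk (Pat.mk 0x1400000004000000000000000b0000000800000000 0x10000000140000001c000000180000000f0000000800000008 4 5) 0 0 (step_sound _ 99 [rh38ee46920402d80a, (rhcfdf45280693d3da.shift 2 1)] (by decide +kernel))
noncomputable def rhdee64f70e180fa19 : CRef := CRef.mk (Pat.mk 0xa0000001e00000006 0x3000000030000003e0000001e00000006 4 6) 0 0 (step_sound _ 97 [rh120fbab6b72cf5c6, (rh2145e1d24b96a57e.shift 1 0)] (by decide +kernel))
noncomputable def rh4569bd9aa4440d20 : CRef := CRef.mk (Pat.mk 0x40000000f000000000000000000000000 0x40000001c0000000f000000180000000800000008 4 5) 0 0 (step_sound _ 131 [(rh33e738c4ed385b9f.shift 0 3), rhbbe16ff26f7822db] (by decide +kernel))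
noncomputable def rh8ada1313726d863b : CRef := CRef.mk (Pat.mk 0x80000001e000000000000000400000007 0x80000001e000000300000003c0000001f 4 6) 0 0 (step_sound _ 68 [(rhe25b0a99195a5d59.shift 1 2), rhe548bb72d7fdc1e2] (by decide +kernel))
noncomputable def rh68eb33a74fda9aa8 : CRef := CRef.mk (Pat.mk 0x400000004000000140000001400000000 0x400000004000000370000003e00000002 4 6) 0 0 (step_sound _ 33 [(rh6a8fbe22e34a927e.shift 0 1), (rh932754581e0f4330.shift 1 0)] (by decide +kernel))
noncomputable def rhffee83555a285083 : CRef := CRef.mk (Pat.mk 0x400000007000000100000001c00000020 0x3c0000001f000000100000003c00000060 4 7) 0 0 (step_sound _ 37 [rhac602ae2ded323a7, (rhe25b0a99195a5d59.shift 2 0)] (by decide +kernel))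
noncomputable def rh9c0c987cd4d55b29 : CRef := CRef.mk (Pat.mk 0x700000010 0x380000001f00000038 4 6) 0 0 (step_sound _ 35 [rh00b22401a0bf2d5e, rh96851dee118c1ba3] (by decide +kernel))
noncomputable def rh7d467d8e237726f9 : CRef := CRef.mk (Pat.mk 0x700000004000000040000000200000000 0x80000000f0000001c000000040000000600000006 4 5) 0 0 (step_sound _ 34 [(rh932754581e0f4330.shift 1 0), rhfe21fdd79c5e4aa7] (by decide +kernel))
noncomputable def rheebfba92566fef3d : CRef := CRef.mk (Pat.mk 0x700000004000000040000000800000000 0x80000000f0000001c000000040000000c0000000c 4 5) 0 0 (step_sound _ 34 [(rh55afc6a59410cf00.shift 2 0), rhfe21fdd79c5e4aa7] (by decide +kernel))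
noncomputable def rhbbdb8ee59ca3931f : CRef := CRef.mk (Pat.mk 0x40000000f000000000000000000000000 0x40000000c0000000f0000001c0000000800000008 4 5) 0 0 (step_sound _ 67 [(rh7e1098702e50f2b0.shift 2 0), (rhe25b0a99195a5d59.shift 0 2)] (by decide +kernel))
noncomputable def rhbade3b1553fee5d1 : CRef := CRef.mk (Pat.mk 0x3c00000000000000000000000400000000 0xf0000007e0000000c000000040000000400000004 4 7) 0 0 (step_sound _ 98 [(rh25abe125d2876a55.shift 2 0), (rh4c6d407c2048a5bb.shift 1 3), (rh9c9bdd729c643b84.shift 0 1)] (by decide +kernel))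
noncomputable def rh5cac334ca64bdc84 : CRef := CRef.mk (Pat.mk 0x1e00000000000000000000000200000000 0x40000003e00000007000000020000000200000002 4 6) 0 0 (step_sound _ 97 [(rh25abe125d2876a55.shift 1 0), (rheb0810cc63b001d8.shift 0 3)] (by decide +kernel))
noncomputable def rh3661252e83d8054a : CRef := CRef.mk (Pat.mk 0xa00000006 0x7e0000001f 4 7) 0 0 (step_sound _ 36 [rh3ec8ec076f6e0db2, rh942f4d7792c17731, (rhaff4d66ab2235e4f.shift 1 0), rhfe7c844806756e31] (by decide +kernel))
noncomputable def rh835be2162ef72c9c : CRef := CRef.mk (Pat.mk 0x10000000100000001d0000000800000000 0x10000000100000003f000000f800000020 4 8) 0 0 (step_sound _ 36 [(rhab22b5b56e7b3243.shift 0 1), (rhd9397e4126e81439.shift 2 0)] (by decide +kernel))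
noncomputable def rheb4d08aa211d1b03 : CRef := CRef.mk (Pat.mk 0x80000000e00000004 0x800000008000000780000001f00000004 4 7) 0 0 (step_sound _ 99 [(rh5c5e593799055d58.shift 2 0), (rha11dfd15f08f96e3.shift 0 1)] (by decide +kernel))
noncomputable def rhfffbbe7d1d55a025 : CRef := CRef.mk (Pat.mk 0x800000004000000070000000600000000 0x80000003c0000000f0000001e00000004 4 6) 0 0 (step_sound _ 35 [rhe91807ca17b16c53, (rhf48373e13d2bc128.shift 0 1)] (by decide +kernel))
noncomputable def rh0321fa5f1441d911 : CRef := CRef.mk (Pat.mk 0x1000000000000000020000000a0000000e 0x1000000010000000330000007e0000001e 4 7) 0 0 (step_sound _ 36 [rh0ea7de2da709317e, (rh572132728df34c43.shift 1 0), (rh80f90a60d87caa0d.shift 1 0), rhcd2d91134b2bed5e] (by decide +kernel))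
noncomputable def rh17038b5ac487329e : CRef := CRef.mk (Pat.mk 0xc0000000c000000070000000000000000 0xc0000000c0000000f0000003c0000000c 4 6) 0 0 (step_sound _ 34 [(rh71222050f2c63a3a.shift 2 0), rhd9397e4126e81439] (by decide +kernel))
noncomputable def rh38177c7aa33d7786 : CRef := CRef.mk (Pat.mk 0x80000001a000000000000001e00000000 0x40000000f0000001a000000030000001e00000004 4 5) 0 0 (step_sound _ 65 [(rh3244c3cc8379b070.shift 0 1), rhfacd956b16ee3283] (by decide +kernel))
noncomputable def rhcb500f09795e10dd : CRef := CRef.mk (Pat.mk 0x2000000000000001e0000000000000000 0x2000000030000003e0000000700000004 4 6) 0 0 (step_sound _ 33 [rh076ceb4308ef53bf, (rheb0810cc63b001d8.shift 0 1)] (by decide +kernel))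
noncomputable def rh0996f01e7cad56a2 : CRef := CRef.mk (Pat.mk 0x200000006000000000000000f00000008 0x170000001e000000180000000f00000008 4 5) 0 0 (step_sound _ 67 [rh31abe589319b24d9, (rh33e738c4ed385b9f.shift 0 1)] (by decide +kernel))
noncomputable def rhad0b6c022d68b56f : CRef := CRef.mk (Pat.mk 0x2000000020000000600000000000000020000000000000000 0x100000003000000070000000600000002000000030000000300000001 4 3) 0 0 (step_sound _ 97 [(rh3ca48e2a6d60153d.shift 0 2), rh91a545eb3be094e3] (by decide +kernel))
noncomputable def rh700bedf92a002ef8 : CRef := CRef.mk (Pat.mk 0x20000000200000002000000000000000400000000 0x1000000030000000300000002000000060000000600000004 4 3) 0 0 (step_sound _ 65 [rh46137ff9626501bb, (rhd3458b32566d63f7.shift 1 1)] (by decide +kernel))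
noncomputable def rhfb5bdf9bea979eb6 : CRef := CRef.mk (Pat.mk 0x28000000a8 0x7c000001ef 4 9) 0 0 (step_sound _ 36 [rh2820ca9a6c4f41b4, (rhc1db5918def9f13b.shift 3 0), (rhd5b85d579310c48e.shift 2 0)] (by decide +kernel))
noncomputable def rh654bea7ae5e2bebd : CRef := CRef.mk (Pat.mk 0x4000000000000000a0000000a0000000000000000 0x400000004000000060000001f0000007a0000000200000002 4 7) 0 0 (step_sound _ 98 [(rh16cbd58a1619e6a8.shift 1 0), (rh8ee80cc30e93a344.shift 0 2)] (by decide +kernel))
noncomputable def rh04cb187b8574b039 : CRef := CRef.mk (Pat.mk 0x40000000200000002000000020000000000000000 0x4000000060000000600000002000000030000000300000001 4 3) 0 0 (step_sound _ 161 [(rh2f68792b6b779e96.shift 1 2), rha8bc3cae4d77a08f] (by decide +kernel))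
noncomputable def rh5d9c23adad4f4ee5 : CRef := CRef.mk (Pat.mk 0xe0000000f000000080000000800000000 0x200000002000000020000000e0000000f0000000d0000000c00000004 4 4) 0 0 (step_sound _ 34 [(rh4b4dde78fe1cd3e6.shift 0 1), (rh932754581e0f4330.shift 2 0)] (by decide +kernel))
noncomputable def rhb607629adf202b8c : CRef := CRef.mk (Pat.mk 0x80000001e000000080000003800000000 0xb0000001e000000780000003c00000004 4 7) 0 0 (step_sound _ 129 [(rh0c12e6013034d86b.shift 1 0), (rh3244c3cc8379b070.shift 0 3)] (by decide +kernel))
noncomputable def rhfc7222e14a194fa6 : CRef := CRef.mk (Pat.mk 0x400000004000000000000000e00000000 0x400000004000000040000001f00000078 4 7) 0 0 (step_sound _ 3 [rh8ee80cc30e93a344, (rhff0f29cb645b05f7.shift 2 0)] (by decide +kernel))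
noncomputable def rh4dee6a4c2358bafa : CRef := CRef.mk (Pat.mk 0x40000001e000000080000000c00000000 0x40000001e0000003b0000000f00000002 4 6) 0 0 (step_sound _ 68 [rh57235e612a1e0285, (rhe25b0a99195a5d59.shift 1 2)] (by decide +kernel))
noncomputable def rh144d0e472a55c6e4 : CRef := CRef.mk (Pat.mk 0x2000000060000001e00000000 0x30000000300000003000000060000001e00000003 4 5) 0 0 (step_sound _ 129 [(rh2145e1d24b96a57e.shift 1 1), rhf6eaec10ea6e7bec] (by decide +kernel))
noncomputable def rh93ef61b51a2d6895 : CRef := CRef.mk (Pat.mk 0x800000008000000000000000e00000001 0x800000018000000300000001e00000033 4 6) 0 0 (step_sound _ 36 [(rh6797c410c820e91e.shift 1 0), rh80fcd6d0a18cb2dd] (by decide +kernel))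
noncomputable def rh17c2d6a3bf856828 : CRef := CRef.mk (Pat.mk 0x3000000070000000400000002 0x3000000030000000300000003000000070000000600000002 4 3) 0 0 (step_sound _ 128 [(rh4f89f797aa397115.shift 0 1), rh9e07f76261b05888] (by decide +kernel))
noncomputable def rhe4da84b12fe4f25b : CRef := CRef.mk (Pat.mk 0xa0000000e0000001a0000000000000000 0x4000000040000000e0000000e0000001e0000000b00000003 4 5) 0 0 (step_sound _ 130 [(rhd8a13c7f042cc6ea.shift 1 1), rhe58a7845769190f3, (rhfc7c29d8e65d775f.shift 2 1)] (by decide +kernel))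
noncomputable def rh8ad27d4aa4fb1329 : CRef := CRef.mk (Pat.mk 0x100000000200000002000000020000000200000002 0x40000001e0000000700000003000000020000000200000002 4 5) 0 0 (step_sound _ 162 [(rhbaefcd01e0a8bca3.shift 1 1), rhc2575802e16fdcb1] (by decide +kernel))
noncomputable def rhfa0fe087be6464ae : CRef := CRef.mk (Pat.mk 0x400000004000000000000000e00000002000000020000000200000002 0x40000000c000000180000000f0000001b000000020000000200000002 4 5) 0 0 (step_sound _ 128 [(rh6797c410c820e91e.shift 0 3), rhffd04209dc8ea796] (by decide +kernel))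
noncomputable def rh52f8698f7232fb89 : CRef := CRef.mk (Pat.mk 0x1400000004000000100000000e0000000000000000 0x10000000140000001c000000180000000f0000000800000008 4 5) 0 0 (step_sound _ 99 [(rh53b3c253cb0c65f4.shift 0 2), (rha92108593a7da4f1.shift 2 0)] (by decide +kernel))
noncomputable def rh6d71ead2a2fb3ae0 : CRef := CRef.mk (Pat.mk 0x800000018000000080000000800000000 0x1f0000007c000000080000000800000008 4 7) 0 0 (step_sound _ 130 [(rhc705a4e0321a1bff.shift 2 0), (rhdeca8db941583de2.shift 0 3), (rhf3276dbea3628a1a.shift 1 0)] (by decide +kernel))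
noncomputable def rhf0af91ceeb6f9504 : CRef := CRef.mk (Pat.mk 0x1e00000004000000040000000000000000 0x20000001f0000003c000000040000000400000004 4 6) 0 0 (step_sound _ 100 [rh8b748b3879485ac0, (rhe25b0a99195a5d59.shift 1 3)] (by decide +kernel))
noncomputable def rh3a6e7f5bed81e621 : CRef := CRef.mk (Pat.mk 0x80000000c000000080000000800000000 0x7c0000001f000000080000000800000008 4 7) 0 0 (step_sound _ 132 [(rh0bb882ba86b2372d.shift 0 3), (rh2d5442cbf338480d.shift 2 0), (rh69012675dfdb1a5b.shift 0 3)] (by decide +kernel))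
noncomputable def rhbf580582f289d177 : CRef := CRef.mk (Pat.mk 0x800000000000000100000003800000000 0x8000000080000003e000000ff00000006 4 8) 0 0 (step_sound _ 67 [(rh5c5a2014709044d0.shift 1 1), rh6e71b3129cd4e324, (rhe2b63c00a3d7bb73.shift 1 1)] (by decide +kernel))
noncomputable def rh225933e894b4bbc0 : CRef := CRef.mk (Pat.mk 0x900000009000000090000001800000000 0x9000000090000000b0000001f00000007 4 5) 0 0 (step_sound _ 34 [(rh932754581e0f4330.shift 2 0), rhfe5aaaa5b2356484] (by decide +kernel))
noncomputable def rh30a68598243a7dc0 : CRef := CRef.mk (Pat.mk 0x40000000e00000002 0x400000004000000070000003e00000003 4 6) 0 0 (step_sound _ 130 [rha83d0a1d851c6a27, (rhee230b994cc8b773.shift 1 0)] (by decide +kernel))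
noncomputable def rh9bdb2f981711dfd3 : CRef := CRef.mk (Pat.mk 0x20000001c000000020000000000000000 0x2000000030000003e000000060000000400000004 4 6) 0 0 (step_sound _ 97 [(rh3244c3cc8379b070.shift 0 3), (rh9ba4ddb3bd4a337d.shift 1 0)] (by decide +kernel))
noncomputable def rh5643c3929946780a : CRef := CRef.mk (Pat.mk 0x2000000028000000080000001000000010 0x200000007c0000001f0000001000000010 4 7) 0 0 (step_sound _ 100 [(rh04253f50b6dd0619.shift 4 0), (rh2820ca9a6c4f41b4.shift 0 2)] (by decide +kernel))
noncomputable def rh693739d6de12afdc : CRef := CRef.mk (Pat.mk 0x1800000001000000030000000700000000 0x30000001f00000003000000030000000700000004 4 5) 0 0 (step_sound _ 128 [(rh2145e1d24b96a57e.shift 0 1), rha0a255a24301f39b] (by decide +kernel))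
noncomputable def rha4116840cc282390 : CRef := CRef.mk (Pat.mk 0x1a00000002 0x70000003e00000007 4 6) 0 0 (step_sound _ 34 [rheb0810cc63b001d8, rhfb89c5de8c2d962e] (by decide +kernel))
noncomputable def rha6fc0d3d47b3b66d : CRef := CRef.mk (Pat.mk 0x160000000600000000 0x200000002000000030000001e0000000700000004 4 5) 0 0 (step_sound _ 67 [rhbdb8dfd08861fbf7, (rheb0810cc63b001d8.shift 0 1)] (by decide +kernel))
noncomputable def rh96a08700f8ae5abb : CRef := CRef.mk (Pat.mk 0x200000003c00000000 0x360000003e00000007 4 6) 0 0 (step_sound _ 66 [rh21d582c147e7e118, (rh3244c3cc8379b070.shift 1 1)] (by decide +kernel))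
noncomputable def rh6e6db073cb0f6563 : CRef := CRef.mk (Pat.mk 0x700000009 0x380000001f0000001b 4 6) 0 0 (step_sound _ 35 [rh3f9c2fb96516703c, rhe25b0a99195a5d59] (by decide +kernel))
noncomputable def rhd2a5f72b122cd36d : CRef := CRef.mk (Pat.mk 0x800000000000000080000000700000001 0x800000008000000180000001f00000017 4 5) 0 0 (step_sound _ 35 [(rh33e738c4ed385b9f.shift 0 1), rh732f3bfedc04a179] (by decide +kernel))
noncomputable def rhc72356ee9f9f43e8 : CRef := CRef.mk (Pat.mk 0x3000000004000000040000000400000000 0x80000007c0000000f000000040000000400000004 4 7) 0 0 (step_sound _ 131 [(rh155fa7b85b00c3f4.shift 2 0), (rh3cc5c7fb74c49f61.shift 0 3), (rh85432018c7d7e334.shift 1 1)] (by decide +kernel))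
noncomputable def rh38f1e3ab5014b965 : CRef := CRef.mk (Pat.mk 0x1800000002000000020000000200000000 0x70000003f00000006000000020000000200000002 4 6) 0 0 (step_sound _ 130 [(rh11db11650236b5ac.shift 0 1), (rh155fa7b85b00c3f4.shift 1 0)] (by decide +kernel))
noncomputable def rhfd7ded15bb65c3b3 : CRef := CRef.mk (Pat.mk 0x4000000000000000a0000001a0000000000000000 0x400000004000000060000000f0000001a0000000200000002 4 5) 0 0 (step_sound _ 98 [(rh16cbd58a1619e6a8.shift 1 0), (rhb739f4f82bb681b4.shift 0 2)] (by decide +kernel))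
noncomputable def rh009aada4df56d738 : CRef := CRef.mk (Pat.mk 0x3800000000000000040000000400000000 0x60000007e0000000f000000040000000400000004 4 7) 0 0 (step_sound _ 98 [(rh155fa7b85b00c3f4.shift 2 0), (rh1da0b1a9875f0c00.shift 1 1), (rh3cc5c7fb74c49f61.shift 0 3)] (by decide +kernel))
noncomputable def rh8065c10b3cae6218 : CRef := CRef.mk (Pat.mk 0x200000002000000020000000200000000 0x1000000030000000300000002000000060000000600000004 4 3) 0 0 (step_sound _ 34 [(rh55afc6a59410cf00.shift 1 0), (rh65909b08999dc522.shift 0 1)] (by decide +kernel))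
noncomputable def rh4c11c491f4d8ec0e : CRef := CRef.mk (Pat.mk 0x40000001e000000060000000000000000 0x40000001f0000003e0000000300000002 4 6) 0 0 (step_sound _ 68 [rhc4f9434c7e34da59, (rhe25b0a99195a5d59.shift 1 2)] (by decide +kernel))
noncomputable def rhf63fad18013868a1 : CRef := CRef.mk (Pat.mk 0x100000007800000018 0x300000007f000000f8 4 8) 0 0 (step_sound _ 6 [rh77aff2a1b006188a, (rhe25b0a99195a5d59.shift 3 0)] (by decide +kernel))
noncomputable def rh3337059d65e56aaa : CRef := CRef.mk (Pat.mk 0x200000003800000020 0x300000003e00000067 4 7) 0 0 (step_sound _ 34 [rh21d582c147e7e118, (rhe25b0a99195a5d59.shift 2 0)] (by decide +kernel))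
noncomputable def rhe74f96057964b96f : CRef := CRef.mk (Pat.mk 0x180000007800000000 0x380000007f000000e0 4 8) 0 0 (step_sound _ 6 [rh6febad34ef473bb0, (rhe25b0a99195a5d59.shift 3 0)] (by decide +kernel))
noncomputable def rhbd68d223a126eb87 : CRef := CRef.mk (Pat.mk 0x40000001e000000060000000000000000 0x4000000040000001f0000003e0000000800000008 4 6) 0 0 (step_sound _ 68 [rh7d59b22dd1de8ac0, (rhe25b0a99195a5d59.shift 1 2)] (by decide +kernel))
noncomputable def rhc8f2cc1727a01e82 : CRef := CRef.mk (Pat.mk 0x80000001e000000020000000000000000 0x20000000b0000003e000000060000000400000004 4 6) 0 0 (step_sound _ 66 [(rh18965a982d73c794.shift 1 2), rh2314a9727c37b748] (by decide +kernel))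
noncomputable def rhfc68a422060517d8 : CRef := CRef.mk (Pat.mk 0x800000008000000000000001c000000060000000000000000 0x80000001a000000330000001e000000360000000400000004 4 6) 0 0 (step_sound _ 97 [rh38a0850c9fea941e, (rh6797c410c820e91e.shift 1 2)] (by decide +kernel))
noncomputable def rhfc6b0a375435a4d9 : CRef := CRef.mk (Pat.mk 0xc0000000f00000000 0xc0000007f0000007f 4 7) 0 0 (step_sound _ 36 [(rh0cb6a409506b34ea.shift 1 0), rh4ad5fc38f1b69f65, rh8a88abf038d31fd2] (by decide +kernel))
noncomputable def rha56a23aa3f71903e : CRef := CRef.mk (Pat.mk 0x100000003000000080000001c00000000 0x10000000100000003000000030000000f0000003e00000002 4 6) 0 0 (step_sound _ 65 [(rh508d31626b5d2be8.shift 0 1), rha40d42a2e34c408d] (by decide +kernel))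
noncomputable def rh16e36070ae0d26ac : CRef := CRef.mk (Pat.mk 0xc0000000f00000000 0xe0000007f00000078 4 7) 0 0 (step_sound _ 36 [(rh0cb6a409506b34ea.shift 1 0), rh4ad5fc38f1b69f65, (rh79b3c29022acbdf3.shift 1 1)] (by decide +kernel))
noncomputable def rh942711138a1792c8 : CRef := CRef.mk (Pat.mk 0xc0000000c000000080000000a00000000 0xc0000000c0000000c0000001e00000017 4 5) 0 0 (step_sound _ 34 [rh60175c36124b0cbc, (rh932754581e0f4330.shift 2 0)] (by decide +kernel))
noncomputable def rhbc9525f19cc6ec4a : CRef := CRef.mk (Pat.mk 0x380000001c0000000000000000 0x4000000070000003f0000003c0000000800000008 4 6) 0 0 (step_sound _ 98 [(rh38a0850c9fea941e.shift 1 0), (rhad5d8fc3675c15dd.shift 0 2), (rhba89ab7cb81bcc90.shift 0 2)] (by decide +kernel))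
noncomputable def rh6e750d361b5f2525 : CRef := CRef.mk (Pat.mk 0x2800000008000000180000000800000000 0x40000003c0000000f000000180000000800000008 4 6) 0 0 (step_sound _ 130 [(rh50fbb5868c909700.shift 2 1), rha56ebfed872bba50] (by decide +kernel))
noncomputable def rhfb37b32a794a2140 : CRef := CRef.mk (Pat.mk 0x40000000e000000010000000000000000 0x400000004000000040000001e000000070000000200000002 4 5) 0 0 (step_sound _ 65 [(rh18965a982d73c794.shift 0 2), (rhadf429772c25fde0.shift 1 0)] (by decide +kernel))
noncomputable def rhf4afda61a686fdfb : CRef := CRef.mk (Pat.mk 0x100000001e000000100000001000000000 0x100000003e0000001f0000003000000020 4 6) 0 0 (step_sound _ 65 [(rhb674cdcc0018a090.shift 1 0), (rheb0810cc63b001d8.shift 0 2)] (by decide +kernel))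
noncomputable def rh9a44118ce1dc73f2 : CRef := CRef.mk (Pat.mk 0xc0000000f000000050000000000000000 0xc0000000f0000001f0000001800000018 4 5) 0 0 (step_sound _ 67 [(rhe25b0a99195a5d59.shift 0 2), rhf43dfd17fa5ce038] (by decide +kernel))
noncomputable def rh4ab6fb4bdbc94f50 : CRef := CRef.mk (Pat.mk 0x400000004000000000000000700000003 0x40000000c000000180000001f0000001b 4 5) 0 0 (step_sound _ 35 [rh18965a982d73c794, rh6797c410c820e91e] (by decide +kernel))
noncomputable def rh19a90a8a4ea29d9b : CRef := CRef.mk (Pat.mk 0x8000000180000000800000004 0x8000000080000007c0000000f00000004 4 7) 0 0 (step_sound _ 34 [(rh0bb882ba86b2372d.shift 0 1), (rh5c5e593799055d58.shift 2 0)] (by decide +kernel))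
noncomputable def rhc22d6a49cb2cc1ec : CRef := CRef.mk (Pat.mk 0x80000000800000000000000100000001e0000000000000000 0x80000001800000010000000100000001f0000003800000008 4 6) 0 0 (step_sound _ 132 [rh6de56787cc1605b6, (rhcfdf45280693d3da.shift 3 2)] (by decide +kernel))
noncomputable def rh23054d216486b9e9 : CRef := CRef.mk (Pat.mk 0x200000003800000058 0x370000003e00000078 4 7) 0 0 (step_sound _ 34 [(rh2fe78cc5ca4405d8.shift 2 0), (rh7fb660bc21ce4329.shift 0 1)] (by decide +kernel))
noncomputable def rh045eb03ae04c46fa : CRef := CRef.mk (Pat.mk 0x40000000c0000000c00000000 0x400000004000000040000003c0000000f00000002 4 6) 0 0 (step_sound _ 130 [(rh2145e1d24b96a57e.shift 2 1), rha71afc656c87d410] (by decide +kernel))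
noncomputable def rh0c561658b8646091 : CRef := CRef.mk (Pat.mk 0xe000000060000000000000000 0x2000000030000003e000000060000000400000004 4 6) 0 0 (step_sound _ 100 [(rh18965a982d73c794.shift 1 2), rh38a0850c9fea941e] (by decide +kernel))
noncomputable def rh954ab0752c7eb2bd : CRef := CRef.mk (Pat.mk 0x800000008000000010000000e00000000 0x800000018000000330000001e00000030 4 6) 0 0 (step_sound _ 36 [(rh3f8766e6ecb455ce.shift 0 1), (rh6797c410c820e91e.shift 1 0)] (by decide +kernel))
noncomputable def rh2aafe128d79bbf48 : CRef := CRef.mk (Pat.mk 0x800000008000000000000001600000002 0x800000018000000300000001e00000033 4 6) 0 0 (step_sound _ 35 [(rhb677d5483aaebfd8.shift 1 0), rheb0810cc63b001d8] (by decide +kernel))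
noncomputable def rh80204b337f1f9113 : CRef := CRef.mk (Pat.mk 0x400000004000000000000000b00000003 0x40000000c000000180000001f0000001b 4 5) 0 0 (step_sound _ 34 [rh18965a982d73c794, rhb677d5483aaebfd8] (by decide +kernel))
noncomputable def rh15a2b73944acc7e4 : CRef := CRef.mk (Pat.mk 0x7800000018 0xe0000007f00000038 4 7) 0 0 (step_sound _ 66 [(rh3f8766e6ecb455ce.shift 2 1), rhcf74954e50707057] (by decide +kernel))
noncomputable def rha0a83d7551f054ad : CRef := CRef.mk (Pat.mk 0xe00000007000000000000000000000000 0x40000000f0000003f000000380000000800000008 4 6) 0 0 (step_sound _ 99 [(rh0cb6a409506b34ea.shift 0 2), (rh79b3c29022acbdf3.shift 0 3), rhbbe16ff26f7822db] (by decide +kernel))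
noncomputable def rh816debf2b169d216 : CRef := CRef.mk (Pat.mk 0x20000000600000002000000010000000000000000 0x60000000600000002000000070000000700000004 4 3) 0 0 (step_sound _ 65 [(rh127b405bd7f7b930.shift 1 0), (rh932754581e0f4330.shift 0 1)] (by decide +kernel))
noncomputable def rh96f119fce01cb5f6 : CRef := CRef.mk (Pat.mk 0x2000000020000000600000002000000020000000000000000 0x2000000020000000600000006000000070000000300000003 4 3) 0 0 (step_sound _ 98 [rh46530d756bdf8511, (rh55afc6a59410cf00.shift 1 2)] (by decide +kernel))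
noncomputable def rh301737bbc1902a26 : CRef := CRef.mk (Pat.mk 0x1000000000000000020000001a0000000c00000004 0x10000000180000003b0000001e0000000c00000004 4 6) 0 0 (step_sound _ 99 [(rh5c5e593799055d58.shift 2 0), (rhcd2d91134b2bed5e.shift 0 1)] (by decide +kernel))
noncomputable def rh7c20ffe7059869dd : CRef := CRef.mk (Pat.mk 0x40000000700000006000000000000000000000000 0x80000003c0000000f000000060000000c0000000c0000000c 4 6) 0 0 (step_sound _ 66 [(rh684e729394fba19d.shift 0 2), (rh820d4e04d5dcd02e.shift 1 0)] (by decide +kernel))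
noncomputable def rh4bda4bc0d95c438c : CRef := CRef.mk (Pat.mk 0xe0000000c00000004 0x8000000780000001f0000000c00000004 4 7) 0 0 (step_sound _ 99 [(rh5c5e593799055d58.shift 2 0), (rha11dfd15f08f96e3.shift 0 2)] (by decide +kernel))
noncomputable def rhd3a54786a1bf4b9b : CRef := CRef.mk (Pat.mk 0xc0000000c000000070000000000000000 0xc0000000c000000070000003e0000000c 4 6) 0 0 (step_sound _ 34 [(rh71222050f2c63a3a.shift 2 0), rhb0c6196f710d9a93] (by decide +kernel))
noncomputable def rhf0e1bc209faeb733 : CRef := CRef.mk (Pat.mk 0x40000000400000000000000100000001e0000000000000000 0x40000000c00000008000000180000001f0000003000000010 4 6) 0 0 (step_sound _ 99 [(rh53b3c253cb0c65f4.shift 0 2), (rh7845da34e388d333.shift 1 0)] (by decide +kernel))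
noncomputable def rh33c2b5bc253e6685 : CRef := CRef.mk (Pat.mk 0x20000000f000000020000000400000000 0x1a0000000f0000001a0000000e00000004 4 5) 0 0 (step_sound _ 131 [(rh33e738c4ed385b9f.shift 0 3), rhda44aabcf4b9a25c] (by decide +kernel))
noncomputable def rh2427cfbc99a0c8b7 : CRef := CRef.mk (Pat.mk 0x100000003800000004 0x370000003e00000006 4 6) 0 0 (step_sound _ 34 [(rh503775339733bab1.shift 0 1), (rheb0810cc63b001d8.shift 1 0)] (by decide +kernel))
noncomputable def rhce0f13be68529444 : CRef := CRef.mk (Pat.mk 0xe0000000400000004 0x800000008000000780000001f0000000c00000004 4 7) 0 0 (step_sound _ 99 [(rh69755ef358ebfd54.shift 2 0), (rha11dfd15f08f96e3.shift 0 2)] (by decide +kernel))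
noncomputable def rhf1e664470437524b : CRef := CRef.mk (Pat.mk 0x100000000000000002000000120000000e 0x1000000010000000330000001e0000000f 4 6) 0 0 (step_sound _ 35 [rh53b3c253cb0c65f4, rhcd2d91134b2bed5e] (by decide +kernel))
noncomputable def rh6d3439b2ebcbd624 : CRef := CRef.mk (Pat.mk 0x10000000e00000002 0x30000003e00000076 4 7) 0 0 (step_sound _ 36 [(rh3f8766e6ecb455ce.shift 0 1), (rhf3baec4a0a3dd35e.shift 1 0)] (by decide +kernel))
noncomputable def rhaaff43875781a942 : CRef := CRef.mk (Pat.mk 0x3f00000000 0xe00000007f0000001c 4 8) 0 0 (step_sound _ 3 [(rh84d84ec8e59a0da5.shift 2 0), rhe25b0a99195a5d59] (by decide +kernel))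
noncomputable def rh1b8cd460823eec00 : CRef := CRef.mk (Pat.mk 0x40000000400000000000000000000001e0000001000000000 0x40000000c00000008000000380000001f0000001000000010 4 6) 0 0 (step_sound _ 100 [(rh33e738c4ed385b9f.shift 1 2), rh3e5c2f9e47a41519] (by decide +kernel))
noncomputable def rh68ad2d31fe6607bc : CRef := CRef.mk (Pat.mk 0x100000001000000038000000000000000000000000 0x10000000100000007c0000001f0000000800000008 4 7) 0 0 (step_sound _ 67 [(rh2820ca9a6c4f41b4.shift 0 2), (rh42548283029e2a39.shift 3 0)] (by decide +kernel))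
noncomputable def rhce5df7e7e845d32f : CRef := CRef.mk (Pat.mk 0x80000001a0000001e0000000000000000 0x30000000f0000001a0000001e0000000700000004 4 5) 0 0 (step_sound _ 33 [rh92c50e3596fc50e0, (rheb0810cc63b001d8.shift 0 1)] (by decide +kernel))
noncomputable def rh5744ed557bb5a452 : CRef := CRef.mk (Pat.mk 0x80000003c 0x1f8000000ff 4 9) 0 0 (step_sound _ 6 [rh01cc9eaefce5f3df, (rh790acd67f4fffd04.shift 3 0), (rh9890f9d77740bbed.shift 2 0)] (by decide +kernel))
noncomputable def rhe00fa71c1064dda3 : CRef := CRef.mk (Pat.mk 0x80000003c00000040 0x38000000ff000000c0 4 8) 0 0 (step_sound _ 38 [(rh01cc9eaefce5f3df.shift 0 1), (rhe25b0a99195a5d59.shift 3 0)] (by decide +kernel))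
noncomputable def rh25fe3fcdfa1135bc : CRef := CRef.mk (Pat.mk 0x140000001e000000040000000000000008 0x1c0000001f000000340000001c00000008 4 6) 0 0 (step_sound _ 96 [(rh428265de8cd3cd2d.shift 0 3), (rhd30d680e9a0ee51a.shift 1 0)] (by decide +kernel))
noncomputable def rh9eb06f772dbcf4c5 : CRef := CRef.mk (Pat.mk 0x180000001e000000000000000000000000 0x80000001b0000001e000000300000001000000010 4 6) 0 0 (step_sound _ 129 [(rh3244c3cc8379b070.shift 0 3), (rhbbe16ff26f7822db.shift 1 0)] (by decide +kernel))
noncomputable def rh28d782e6e855ec21 : CRef := CRef.mk (Pat.mk 0x100000001e0000000400000000 0x800000008000000180000001f0000003400000010 4 6) 0 0 (step_sound _ 99 [(rh53b3c253cb0c65f4.shift 0 2), (rh98c388e5d73ac446.shift 1 0)] (by decide +kernel))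
noncomputable def rhf7d912bd89a7cc01 : CRef := CRef.mk (Pat.mk 0x800000008000000090000000800000001 0x8000000080000000b0000001e00000017 4 5) 0 0 (step_sound _ 34 [rh5f8293a1c64321fb, (rh932754581e0f4330.shift 2 0)] (by decide +kernel))
noncomputable def rhd047788c50e063bb : CRef := CRef.mk (Pat.mk 0x1400000014000000100000001800000002 0x1400000014000000140000003e00000027 4 6) 0 0 (step_sound _ 37 [(rh55afc6a59410cf00.shift 4 0), rhf9a19c2b3737ead9] (by decide +kernel))
noncomputable def rh18c82c74b13f9793 : CRef := CRef.mk (Pat.mk 0x100000001800000010000000060000000200000000 0x1800000018000000100000003e0000003b00000020 4 6) 0 0 (step_sound _ 68 [(rh2306b091ad6b1beb.shift 1 0), (rh5c651669912fbab1.shift 3 0), (rhad627b0bc5857a63.shift 0 1)] (by decide +kernel))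
noncomputable def rh5e5eace92e2cdd88 : CRef := CRef.mk (Pat.mk 0x18000000080000000a0000000b00000001 0x40000003e0000000f0000000a0000000b00000001 4 6) 0 0 (step_sound _ 97 [rh5c5e593799055d58, (rh67bb5362fcdd6142.shift 0 1)] (by decide +kernel))
noncomputable def rh567f88318b6efdbd : CRef := CRef.mk (Pat.mk 0x80000000a0000000a000000020000000600000000 0x80000000a0000000a0000001e0000001f00000001 4 5) 0 0 (step_sound _ 67 [(rh79877ebd3ef475dd.shift 2 1), rhd779b978b6c083ff] (by decide +kernel))
noncomputable def rhbac4a8ff81a82abe : CRef := CRef.mk (Pat.mk 0x400000006000000020000000080000000c 0x4000000060000000200000007c0000002f 4 7) 0 0 (step_sound _ 37 [(rh71222050f2c63a3a.shift 5 0), rhe33d9496e10d8eb0] (by decide +kernel))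
noncomputable def rh4b86594633f64a7b : CRef := CRef.mk (Pat.mk 0x8000000080000002800000008000000080000000800000000 0x80000000f0000007c00000018000000180000000800000008 4 7) 0 0 (step_sound _ 132 [(rh2867a7c45dfd885a.shift 3 0), (rha9fbfd4bb8cf890b.shift 0 4)] (by decide +kernel))
noncomputable def rh5a6074de9ee7c6f1 : CRef := CRef.mk (Pat.mk 0x80000002800000008000000080000000800000008 0xf0000007c00000018000000080000000800000008 4 7) 0 0 (step_sound _ 132 [(rha9fbfd4bb8cf890b.shift 0 4), (rhbaefcd01e0a8bca3.shift 3 0)] (by decide +kernel))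
noncomputable def rhca4bad3113a59c85 : CRef := CRef.mk (Pat.mk 0x60000000b00000008000000000000001000000000 0x80000001e0000000b00000018000000180000001000000010 4 5) 0 0 (step_sound _ 163 [(rh18965a982d73c794.shift 0 4), (rh1b85b0bb4cee0ea8.shift 3 0)] (by decide +kernel))
noncomputable def rh2e9d459809ccd5a6 : CRef := CRef.mk (Pat.mk 0x20000000a0000001a000000020000000000000000 0x30000000f0000001a000000030000000300000001 4 5) 0 0 (step_sound _ 32 [(rh79877ebd3ef475dd.shift 0 1), rhd97c4752af930d49] (by decide +kernel))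
noncomputable def rhf64821747b7b1be1 : CRef := CRef.mk (Pat.mk 0x1000000010000000300000000 0x2000000030000000300000001000000030000000300000002 4 2) 0 0 (step_sound _ 128 [rh55afc6a59410cf00, (rha1447db93ca109b8.shift 0 1)] (by decide +kernel))
noncomputable def rh3b06583a7967cba4 : CRef := CRef.mk (Pat.mk 0x2000000020000000280000002800000000 0x20000000200000002f0000007c00000010 4 7) 0 0 (step_sound _ 36 [(rh932754581e0f4330.shift 4 0), (rha9fbfd4bb8cf890b.shift 0 1)] (by decide +kernel))
noncomputable def rh6cc0817e14e273da : CRef := CRef.mk (Pat.mk 0x800000008000000080000000a0000000200000000 0x800000008000000080000001f0000001e00000010 4 5) 0 0 (step_sound _ 36 [rhbee5c2b5b5db2060, (rhd3458b32566d63f7.shift 3 1)] (by decide +kernel))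
noncomputable def rh21a90e67e5aabcc8 : CRef := CRef.mk (Pat.mk 0x80000000a0000000a000000120000000200000000 0x80000000a0000000a0000001a0000001f00000005 4 5) 0 0 (step_sound _ 67 [(rh55afc6a59410cf00.shift 3 1), rhd630af2e39ca770f] (by decide +kernel))
noncomputable def rh1ffe1036236442be : CRef := CRef.mk (Pat.mk 0x60000000b00000018000000000000000000000000 0x80000001e0000000b00000018000000180000001000000010 4 5) 0 0 (step_sound _ 163 [(rh18965a982d73c794.shift 0 4), (rh70e33bfdf511e144.shift 3 0)] (by decide +kernel))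
noncomputable def rh3dc21273173ad94e : CRef := CRef.mk (Pat.mk 0x4000000040000000500000005000000010000000200000000 0x400000004000000050000000d0000000d0000000f00000002 4 4) 0 0 (step_sound _ 1 [rhbe0e43a3bc50a43f, (rhcd83dbefad77513f.shift 1 0)] (by decide +kernel))
noncomputable def rh93af014fd6478c8e : CRef := CRef.mk (Pat.mk 0x20000000280000002800000010 0x20000000200000002f0000007c00000010 4 7) 0 0 (step_sound _ 36 [(rh5c5e593799055d58.shift 4 0), (rha9fbfd4bb8cf890b.shift 0 1)] (by decide +kernel))
noncomputable def rhebd06d99576aa589 : CRef := CRef.mk (Pat.mk 0x4000000080000000a0000000a00000002 0x40000000c000000080000000b0000001e00000013 4 5) 0 0 (step_sound _ 131 [(rh50fbb5868c909700.shift 2 1), rh5a58f5def5f08142] (by decide +kernel))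
noncomputable def rhd27c8fcc2b2e465e : CRef := CRef.mk (Pat.mk 0x1400000014000000140000000400000000 0x1000000014000000140000003c0000000f00000008 4 6) 0 0 (step_sound _ 35 [(rh55afc6a59410cf00.shift 2 0), (rh9fc1e22109fe8df3.shift 0 1)] (by decide +kernel))
noncomputable def rh86c5959807151eba : CRef := CRef.mk (Pat.mk 0x80000000a0000000a000000020000000000000000 0x8000000080000000b0000001e0000001b0000001000000010 4 5) 0 0 (step_sound _ 100 [(rh01e48cd9f335aa73.shift 0 2), (rh70e33bfdf511e144.shift 3 0)] (by decide +kernel))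
noncomputable def rh840a02bbd56aedea : CRef := CRef.mk (Pat.mk 0x8000000080000000a0000000800000000 0x8000000080000000f0000003c00000014 4 6) 0 0 (step_sound _ 36 [rh3a045cb7a2c14e47, (rh55afc6a59410cf00.shift 3 0)] (by decide +kernel))
noncomputable def rhd7a3eadaefec4bde : CRef := CRef.mk (Pat.mk 0x14000000140000001c0000001e 0x200000003c000000170000001f0000001e 4 6) 0 0 (step_sound _ 33 [rh10dd44bbd8691259, rh3244c3cc8379b070] (by decide +kernel))
noncomputable def rhb8e4566a62104c84 : CRef := CRef.mk (Pat.mk 0x180000007c00000000 0x180000007f000000c7 4 8) 0 0 (step_sound _ 6 [rhcc2be1f880c5ea3e, (rhe25b0a99195a5d59.shift 3 0)] (by decide +kernel))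
noncomputable def rhdf0c55f245815411 : CRef := CRef.mk (Pat.mk 0x60000000a000000080000000b0000000000000000 0x100000001e0000000b000000080000001f0000001800000010 4 5) 0 0 (step_sound _ 163 [(rhc49ca0b9223e2b96.shift 0 2), rhd8fc2fe14131b89c] (by decide +kernel))
noncomputable def rh4f401f7171d285c7 : CRef := CRef.mk (Pat.mk 0xf000000080000000b0000000200000000 0x180000000f000000080000001b0000001e00000010 4 5) 0 0 (step_sound _ 163 [(rh33e738c4ed385b9f.shift 0 4), rh7905062dd02ce5b6] (by decide +kernel))
noncomputable def rh48541fb16625d794 : CRef := CRef.mk (Pat.mk 0x800000008000000100000000c00000000 0x8000000080000007c0000000f00000004 4 7) 0 0 (step_sound _ 67 [(rh0bb882ba86b2372d.shift 0 1), (rh932754581e0f4330.shift 2 0)] (by decide +kernel))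
noncomputable def rh01c69e5435d5d41a : CRef := CRef.mk (Pat.mk 0x40000000200000002000000020000001200000000 0x4000000060000000200000002000000030000001f00000004 4 5) 0 0 (step_sound _ 161 [(rh2f68792b6b779e96.shift 1 2), rhe90a92718ce88642] (by decide +kernel))
noncomputable def rhc9d4bdedfbc5dd5f : CRef := CRef.mk (Pat.mk 0x10000000800000008000000080000000800000008 0x40000000f0000001c00000018000000080000000800000008 4 5) 0 0 (step_sound _ 162 [rhd6ee7b9e9e8c7861, (rhffd04209dc8ea796.shift 2 1)] (by decide +kernel))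
noncomputable def rh0c20bb4cbdbf717c : CRef := CRef.mk (Pat.mk 0xe0000000c000000180000001800000000 0x20000000e0000000c0000001f0000003c00000004 4 6) 0 0 (step_sound _ 34 [(rh932754581e0f4330.shift 2 0), (rhea7b9eedea36c816.shift 0 1)] (by decide +kernel))
noncomputable def rh2f07637c0aa62b76 : CRef := CRef.mk (Pat.mk 0xc0000001c000000180000001c00000000 0xf0000001c0000001c0000001f00000003 4 5) 0 0 (step_sound _ 129 [(rhb739f4f82bb681b4.shift 0 3), rhbedc17f53a3d22d1] (by decide +kernel))
noncomputable def rh30e03c9ae1d9a7fa : CRef := CRef.mk (Pat.mk 0x400000018000000180000000a00000000 0x40000001f0000001b0000000a0000000a 4 5) 0 0 (step_sound _ 98 [rh46af0760dcab1b05, (rh7b1f1fb55310c477.shift 2 0)] (by decide +kernel))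
noncomputable def rh72a786a9a1ce5403 : CRef := CRef.mk (Pat.mk 0x1c00000001 0x770000003e00000003 4 7) 0 0 (step_sound _ 33 [rh80fcd6d0a18cb2dd, (rhf94411b389c3e54c.shift 0 1)] (by decide +kernel))
noncomputable def rh3488745cee9b3890 : CRef := CRef.mk (Pat.mk 0x2000000000000001e0000000000000000 0x2000000030000003e0000000700000004 4 6) 0 0 (step_sound _ 97 [rh2e6b473cb45f347f, (rh3244c3cc8379b070.shift 0 2)] (by decide +kernel))
noncomputable def rhb6b531a77164b301 : CRef := CRef.mk (Pat.mk 0x1000000180000001e00000000 0x1000000030000001f0000001e00000003 4 5) 0 0 (step_sound _ 65 [(rh3244c3cc8379b070.shift 0 1), rh3f9b97402b2cc792] (by decide +kernel))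
noncomputable def rh9358f36a14bbabd2 : CRef := CRef.mk (Pat.mk 0x1c00000002000000100000001a00000000 0x1e00000003000000330000001e00000004 4 6) 0 0 (step_sound _ 34 [(rh33e738c4ed385b9f.shift 1 1), rhb9d795941d9a4efb] (by decide +kernel))
noncomputable def rhb344d3f08d400fa7 : CRef := CRef.mk (Pat.mk 0xe000000080000000800000000 0x770000003e000000080000000800000008 4 7) 0 0 (step_sound _ 100 [(rh261f868a429ae0e3.shift 2 0), rhc6bd36cea86c6c63, (rhd4d36b4007f546b1.shift 1 0), (rhf94411b389c3e54c.shift 0 3)] (by decide +kernel))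
noncomputable def rh5b11d35235f20a35 : CRef := CRef.mk (Pat.mk 0x2000000020000000200000002000000020000000400000000 0x2000000030000000300000003000000030000000600000006 4 3) 0 0 (step_sound _ 96 [(rh932754581e0f4330.shift 0 2), rhc7a10ee8d0d37048] (by decide +kernel))
noncomputable def rh9e6e84d9a913172b : CRef := CRef.mk (Pat.mk 0x3800000024 0x70000003e00000036 4 6) 0 0 (step_sound _ 34 [rh7d5bf828111ca202, (rheb0810cc63b001d8.shift 1 0)] (by decide +kernel))
noncomputable def rh42ae9b4d759f2f28 : CRef := CRef.mk (Pat.mk 0x10000000080000000a0000000800000000 0x10000000780000001f0000000800000008 4 7) 0 0 (step_sound _ 100 [(rh0b786d94a31538a6.shift 0 2), (rh71222050f2c63a3a.shift 3 0)] (by decide +kernel))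
noncomputable def rhb2bb391ea59f1a58 : CRef := CRef.mk (Pat.mk 0xe000000010000000500000005 0x1a0000000f000000190000000d00000005 4 5) 0 0 (step_sound _ 96 [rh2f68792b6b779e96, rh9c9de8a82d5e4ca8] (by decide +kernel))
noncomputable def rhd54b5190a70df573 : CRef := CRef.mk (Pat.mk 0x90000000c000000080000000000000000 0x80000001c0000001c0000000f0000000c0000000c0000000800000008 4 5) 0 0 (step_sound _ 130 [(rh312db2f1e4a01342.shift 0 2), (rhc38f566cab2818e5.shift 2 0), (rhfc7c29d8e65d775f.shift 2 1)] (by decide +kernel))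
noncomputable def rhb97863e637ac38f7 : CRef := CRef.mk (Pat.mk 0xe000000080000000500000004 0x80000001e000000780000000f00000004 4 7) 0 0 (step_sound _ 35 [(rh5c5e593799055d58.shift 2 0), (rhf3c17de7c7474c46.shift 0 1)] (by decide +kernel))
noncomputable def rh73248f6169943a03 : CRef := CRef.mk (Pat.mk 0xe000000080000000400000004 0x7c0000000f000000080000000c00000004 4 7) 0 0 (step_sound _ 131 [(rheea67dfebd0f8008.shift 2 0), (rhff7d63dcb3cf9f74.shift 0 3)] (by decide +kernel))
noncomputable def rhd33e9632c9816c96 : CRef := CRef.mk (Pat.mk 0xe000000000000000400000004000000000000000200000000 0x1f0000007c0000000c00000004000000040000000600000002 4 7) 0 0 (step_sound _ 163 [(rh8ee80cc30e93a344.shift 0 5), (rhd66b6bee9400da95.shift 1 0)] (by decide +kernel))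
noncomputable def rh28e3c2bc65e8de75 : CRef := CRef.mk (Pat.mk 0xa0000000a0000000a0000000a0000000000000000 0xa0000000a0000000a0000001f0000001900000010 4 5) 0 0 (step_sound _ 36 [rha9461d7e5eefe055, (rhd3458b32566d63f7.shift 3 1)] (by decide +kernel))
noncomputable def rh0ab7f80194410269 : CRef := CRef.mk (Pat.mk 0x10000000030000000a000000080000000000000000 0x10000000100000001b0000001e000000080000000800000008 4 5) 0 0 (step_sound _ 100 [(rh16cbd58a1619e6a8.shift 3 0), (rh5419adcd928dba20.shift 0 3)] (by decide +kernel))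
noncomputable def rhc13329c8cf1e23e2 : CRef := CRef.mk (Pat.mk 0x80000000800000008000000080000000700000000 0x10000000180000001800000008000000080000001f00000018 4 5) 0 0 (step_sound _ 164 [(rh2f68792b6b779e96.shift 3 2), rh68782e78f6380396] (by decide +kernel))
noncomputable def rh814e31ecfe909248 : CRef := CRef.mk (Pat.mk 0x40000001e000000000000000800000000 0x340000001f000000380000000800000008 4 6) 0 0 (step_sound _ 132 [(rh33e738c4ed385b9f.shift 1 3), rh5b18f4340a453a5c] (by decide +kernel))
noncomputable def rh324391d1b082787f : CRef := CRef.mk (Pat.mk 0x80000001c000000000000001000000000 0x180000001f000000380000001000000010 4 6) 0 0 (step_sound _ 68 [(rh251facab2e282844.shift 0 2), (rh7b1f1fb55310c477.shift 3 0)] (by decide +kernel))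
noncomputable def rh179131209f27b1f6 : CRef := CRef.mk (Pat.mk 0x60000000200000002000000000000000400000000 0x60000000600000002000000070000000700000001 4 3) 0 0 (step_sound _ 65 [rha8bc3cae4d77a08f, (rhd3458b32566d63f7.shift 1 1)] (by decide +kernel))
noncomputable def rh42930dc66327fa1f : CRef := CRef.mk (Pat.mk 0x1e00000000000000000000003c 0x40000001e00000003000000070000003e 4 6) 0 0 (step_sound _ 33 [(rh3f8766e6ecb455ce.shift 1 0), rha05e09279682451d] (by decide +kernel))
noncomputable def rhf98a6b10db879a91 : CRef := CRef.mk (Pat.mk 0x5000000050000000500000000 0x2000000020000000700000007000000070000000500000005 4 3) 0 0 (step_sound _ 129 [rh150947578a63ac51, (rh5890386c1f942fa1.shift 0 1), (rh8b14df1b185c100a.shift 0 1), (rh9afa84a329eda939.shift 0 1)] (by decide +kernel))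
noncomputable def rhf84ca43ee1ffbf7f : CRef := CRef.mk (Pat.mk 0x200000002000000000000000e0000000000000000 0x200000002000000020000001f0000000700000001 4 5) 0 0 (step_sound _ 97 [rh13104bf9491e5713, (rh55afc6a59410cf00.shift 1 1)] (by decide +kernel))
noncomputable def rhea3ca5d52ed23da3 : CRef := CRef.mk (Pat.mk 0x18000000020000000800000000 0x100000001000000018000000780000001f0000000800000008 4 7) 0 0 (step_sound _ 67 [(rh0b786d94a31538a6.shift 0 2), (rh215e11e099257d75.shift 3 0), (rhb730ba14aa32bdb3.shift 3 0)] (by decide +kernel))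
noncomputable def rha28726814a3beaac : CRef := CRef.mk (Pat.mk 0x1e0000000200000000 0x200000002000000030000003e0000000600000004 4 6) 0 0 (step_sound _ 97 [(rh3244c3cc8379b070.shift 0 2), (rh6224572d868f7c64.shift 1 0)] (by decide +kernel))
noncomputable def rhcc2a2baa9246395a : CRef := CRef.mk (Pat.mk 0x8000000080000000c0000000800000000 0x8000000080000001f0000007800000010 4 7) 0 0 (step_sound _ 36 [(rh4ca5dae25f5c14ff.shift 0 1), (rh55afc6a59410cf00.shift 3 0)] (by decide +kernel))
noncomputable def rh8cae4dc543f70a95 : CRef := CRef.mk (Pat.mk 0x20000000e0000001a0000000800000000 0x40000000400000006000000060000000e0000001e0000000b00000003 4 5) 0 0 (step_sound _ 130 [(rh215e11e099257d75.shift 1 1), (rhe072fffdd2fccf38.shift 2 1), rhe58a7845769190f3] (by decide +kernel))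
noncomputable def rh8d7eda3b6a8a2015 : CRef := CRef.mk (Pat.mk 0x10000000f000000050000000000000000 0x200000002000000070000001f000000050000000400000004 4 5) 0 0 (step_sound _ 129 [(rhf48373e13d2bc128.shift 0 3), rhf71cb1a94bedb48c] (by decide +kernel))
noncomputable def rh184ca551843f9973 : CRef := CRef.mk (Pat.mk 0x1f00000000 0x1e0000007f00000070 4 7) 0 0 (step_sound _ 37 [(rh4ad5fc38f1b69f65.shift 1 0), (rh83ffee8fd2daac03.shift 0 1)] (by decide +kernel))
noncomputable def rhe6214c1c44b2bb43 : CRef := CRef.mk (Pat.mk 0x100000000300000002000000020000000200000000 0x2000000060000001e0000000300000003000000030000000200000002 4 5) 0 0 (step_sound _ 96 [rh7b1f1fb55310c477, (rhe339534680e67676.shift 0 2)] (by decide +kernel))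
noncomputable def rhbcc6f886ba73a011 : CRef := CRef.mk (Pat.mk 0x1400000004000000040000000400000000 0xa0000001e00000007000000040000000400000004 4 5) 0 0 (step_sound _ 129 [(rh50fbb5868c909700.shift 1 1), rhe671be6b65f67432] (by decide +kernel))
noncomputable def rh8189445942598317 : CRef := CRef.mk (Pat.mk 0x100000006000000020000000e000000080000000000000000 0x300000003000000060000000e0000000e000000080000000800000008 4 4) 0 0 (step_sound _ 193 [(rh50fbb5868c909700.shift 0 3), (rh5d3a7ae93c0d6f57.shift 1 0)] (by decide +kernel))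
noncomputable def rh34c51e703bdbd1b9 : CRef := CRef.mk (Pat.mk 0x1800000062000000000000000600000000 0x40000003e00000063000000020000000600000004 4 7) 0 0 (step_sound _ 130 [rh437c45b5c7456c2e, (rhd6e447e81774439e.shift 2 3)] (by decide +kernel))
noncomputable def rh5641ed1c27a23066 : CRef := CRef.mk (Pat.mk 0x1c000000020000000800000008 0x40000001f0000003b0000000800000008 4 6) 0 0 (step_sound _ 97 [(rheb0810cc63b001d8.shift 0 2), rhfe95d117df8e9311] (by decide +kernel))
noncomputable def rh856116d2c601fcb3 : CRef := CRef.mk (Pat.mk 0x4000000010000000400000007000000000000000000000000 0x5000000050000000500000007000000030000000200000002 4 3) 0 0 (step_sound _ 65 [rh0588d2c7f2cab5e9, (rhee230b994cc8b773.shift 1 2)] (by decide +kernel))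
noncomputable def rh8665c592092b269a : CRef := CRef.mk (Pat.mk 0x400000003800000002 0x670000003e00000003 4 7) 0 0 (step_sound _ 34 [(rh428265de8cd3cd2d.shift 2 1), rhe902c9e8f416b192] (by decide +kernel))
noncomputable def rh7e2b9951da22c484 : CRef := CRef.mk (Pat.mk 0x3800000022 0x70000003e00000063 4 7) 0 0 (step_sound _ 34 [(rhe25b0a99195a5d59.shift 2 0), rhe902c9e8f416b192] (by decide +kernel))
noncomputable def rh67fc5628a4cda3d1 : CRef := CRef.mk (Pat.mk 0x3c 0x770000003e 4 7) 0 0 (step_sound _ 37 [(rh33e738c4ed385b9f.shift 2 0), rhf015c446b680a84f] (by decide +kernel))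
noncomputable def rhd908ba6d9975de61 : CRef := CRef.mk (Pat.mk 0x100000000a0000001800000008 0x140000001e0000000f0000001800000008 4 5) 0 0 (step_sound _ 99 [(rh2f68792b6b779e96.shift 3 0), rhcfeae3ee379d8e99] (by decide +kernel))
noncomputable def rh64b90283dd5064ca : CRef := CRef.mk (Pat.mk 0x18000000020000001800000008 0x100000007c0000000f0000001800000008 4 7) 0 0 (step_sound _ 67 [(rh2f68792b6b779e96.shift 3 0), (rhf55a4ea8be7eb910.shift 0 1)] (by decide +kernel))
noncomputable def rhce476da58b652c73 : CRef := CRef.mk (Pat.mk 0x18000000020000001800000008 0x140000001e0000000f0000001800000008 4 5) 0 0 (step_sound _ 67 [(rh2f68792b6b779e96.shift 3 0), rhcfeae3ee379d8e99] (by decide +kernel))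
noncomputable def rhf7ec0c0bf5669b43 : CRef := CRef.mk (Pat.mk 0x200000004c000000400000004400000040 0x800000088000000fc000000cf000000440000004400000044 4 8) 0 0 (step_sound _ 131 [(rh00d6a6e3c7e3bb40.shift 2 0), (rh45fc423c1a8927ec.shift 2 0), (rhe33d9496e10d8eb0.shift 0 3)] (by decide +kernel))
noncomputable def rh52351bc4066e3cbb : CRef := CRef.mk (Pat.mk 0x60000001a0000000200000000 0x100000001000000030000000f0000001a0000000200000002 4 5) 0 0 (step_sound _ 96 [rhb1a251d9bff81766, (rhd6e447e81774439e.shift 0 2)] (by decide +kernel))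
noncomputable def rh648704db37c0fcc4 : CRef := CRef.mk (Pat.mk 0x80000000a0000001800000008 0x100000007c0000000f0000001800000008 4 7) 0 0 (step_sound _ 100 [(rh2f68792b6b779e96.shift 3 0), (rhf55a4ea8be7eb910.shift 0 1)] (by decide +kernel))
noncomputable def rh97df2128bc730876 : CRef := CRef.mk (Pat.mk 0x60000000300000038000000280000000000000000 0x100000001e0000003300000038000000280000002000000020 4 6) 0 0 (step_sound _ 164 [(rh361cc68994bd8a63.shift 0 4), (rhd302a01a4e6865cd.shift 3 0)] (by decide +kernel))
noncomputable def rhe8b1bf46e6b65faa : CRef := CRef.mk (Pat.mk 0x3000000060000000000000038000000280000000000000000 0x130000001e0000003000000038000000280000002000000020 4 6) 0 0 (step_sound _ 164 [(rh2fe78cc5ca4405d8.shift 0 5), (rhd302a01a4e6865cd.shift 3 0)] (by decide +kernel))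
noncomputable def rh436b44d34414ee83 : CRef := CRef.mk (Pat.mk 0x1e0000001a0000000800000000 0x4000000040000003e0000001e0000000b00000002 4 6) 0 0 (step_sound _ 66 [rh079470f290abda33, (rh18965a982d73c794.shift 1 2)] (by decide +kernel))
noncomputable def rhef0c7f45c46c2d64 : CRef := CRef.mk (Pat.mk 0x200000003000000180000000c00000000 0x20000000200000002000000030000001b0000000f00000001 4 5) 0 0 (step_sound _ 32 [(rh24ae073cf30720c4.shift 0 1), rh580df77fe152422b] (by decide +kernel))
noncomputable def rh7197886dcad71dea : CRef := CRef.mk (Pat.mk 0x200000002c0000002000000020 0x100000007c0000002f0000002000000020 4 7) 0 0 (step_sound _ 100 [(rh50fbb5868c909700.shift 4 0), (rhbd2e91c3fdbfa961.shift 0 2)] (by decide +kernel))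
noncomputable def rh7035f48ce7c5b210 : CRef := CRef.mk (Pat.mk 0x40000003400000018 0x760000003f00000018 4 7) 0 0 (step_sound _ 35 [rh15c6bd118a09e701, (rh3244c3cc8379b070.shift 1 1)] (by decide +kernel))
noncomputable def rh1f1124cdb70aa310 : CRef := CRef.mk (Pat.mk 0x10000000180000001c00000010 0x300000003000000030000000180000001f00000010 4 6) 0 0 (step_sound _ 33 [(rh53b3c253cb0c65f4.shift 0 1), (rh5fa50b509d4ce753.shift 3 0)] (by decide +kernel))
noncomputable def rh8f62a481ce9293f6 : CRef := CRef.mk (Pat.mk 0x40000000c0000001c000000080000000000000000 0x80000000c0000000c0000001c0000000f0000000600000006 4 5) 0 0 (step_sound _ 66 [(rh46530d756bdf8511.shift 1 0), (rh503dd4575245365b.shift 2 1), (rhf5094ad2a427d4d3.shift 0 1)] (by decide +kernel))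
noncomputable def rh006fb59e5a4558ab : CRef := CRef.mk (Pat.mk 0x20000000b0000000e00000004 0x80000001f0000001b0000000f00000004 4 5) 0 0 (step_sound _ 99 [(rh51d49590e2895e39.shift 0 1), (rh5c5e593799055d58.shift 2 0)] (by decide +kernel))
noncomputable def rhec7286d79d970a12 : CRef := CRef.mk (Pat.mk 0x4000000060000000c0000000800000000 0x200000006000000060000003c0000000f00000006 4 6) 0 0 (step_sound _ 68 [rh64fc1037460b24cb, (rhf48373e13d2bc128.shift 1 2)] (by decide +kernel))
noncomputable def rh109640f491574d7e : CRef := CRef.mk (Pat.mk 0x2000000030000000f00000004 0x80000001e0000001f0000000f00000004 4 5) 0 0 (step_sound _ 67 [(rh33e738c4ed385b9f.shift 0 1), rhc7fbeba8b6af5dd2] (by decide +kernel))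
noncomputable def rha4b0ec85c2214d8e : CRef := CRef.mk (Pat.mk 0x180000007800000020 0xf80000007f00000030 4 8) 0 0 (step_sound _ 70 [(rh33e738c4ed385b9f.shift 3 1), rh3f51ae0d7f3ff828] (by decide +kernel))
noncomputable def rh427f925b08200aad : CRef := CRef.mk (Pat.mk 0x800000007000000060000001000000000 0x180000003f000000360000001000000010 4 6) 0 0 (step_sound _ 99 [(rh33e738c4ed385b9f.shift 0 3), (rhb22225e795fa2243.shift 1 0)] (by decide +kernel))
noncomputable def rh70f75251a6f67951 : CRef := CRef.mk (Pat.mk 0xf0000000c 0x380000007f0000000e 4 7) 0 0 (step_sound _ 68 [(rh428265de8cd3cd2d.shift 0 1), (rh660749286c9d8296.shift 1 0)] (by decide +kernel))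
noncomputable def rhcf7cf28850787f4e : CRef := CRef.mk (Pat.mk 0xe0000000900000008 0x1000000010000000380000001e0000000b00000008 4 6) 0 0 (step_sound _ 68 [(rh49606a42a30c7ac4.shift 1 0), (rh80fcd6d0a18cb2dd.shift 0 1)] (by decide +kernel))
noncomputable def rh6f9f6dd84423ca40 : CRef := CRef.mk (Pat.mk 0xe0000001000000010 0x8000000380000001f0000003000000010 4 6) 0 0 (step_sound _ 68 [rh2c9cc6ea898ce072, (rhe25b0a99195a5d59.shift 1 1)] (by decide +kernel))
noncomputable def rhcb054c600a87078d : CRef := CRef.mk (Pat.mk 0x20000000e0000000c 0x730000007e0000000c 4 7) 0 0 (step_sound _ 36 [(rh3244c3cc8379b070.shift 0 1), (rh9462503d16fc4086.shift 1 0)] (by decide +kernel))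
noncomputable def rh6d2a808545573a13 : CRef := CRef.mk (Pat.mk 0xe0000000d 0x700000007e0000000f 4 7) 0 0 (step_sound _ 36 [rh80fcd6d0a18cb2dd, (rh9462503d16fc4086.shift 1 0)] (by decide +kernel))
noncomputable def rh7d21396ac91cee51 : CRef := CRef.mk (Pat.mk 0x40000000e0000001800000018000000000000000000000000 0xc0000000e0000001f0000001f000000070000000400000004 4 5) 0 0 (step_sound _ 98 [(rh00d9b181c423bdea.shift 0 2), (rhbedc17f53a3d22d1.shift 0 2), (rhfafeb437ceb8396d.shift 2 0)] (by decide +kernel))
noncomputable def rh17c9f13d6a1c2afb : CRef := CRef.mk (Pat.mk 0x80000001c0000003c0000000000000000 0x4000000060000000f0000001c0000003c0000000e00000008 4 6) 0 0 (step_sound _ 34 [rhdcee634ff9e820ea, (rheb0810cc63b001d8.shift 1 1)] (by decide +kernel))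
noncomputable def rhc6956c01bebae6c8 : CRef := CRef.mk (Pat.mk 0x80000001e00000018 0xc000000fe0000001f 4 8) 0 0 (step_sound _ 1 [(rh2ac9a64f05a71e1c.shift 1 0), rheb0810cc63b001d8] (by decide +kernel))
noncomputable def rh5f4ebaa0ad71bbd5 : CRef := CRef.mk (Pat.mk 0x40000001c0000000c000000000000000000000000 0x4000000040000001c0000000f000000060000000200000002 4 5) 0 0 (step_sound _ 97 [(rh281c6819542c66e6.shift 1 0), (rh53b3c253cb0c65f4.shift 0 3)] (by decide +kernel))
noncomputable def rh4563b2e7153378e8 : CRef := CRef.mk (Pat.mk 0x6000000030000000600000004000000000000000000000000 0x400000006000000030000000700000007000000030000000300000002 4 3) 0 0 (step_sound _ 97 [rh1c214b98c27a159d, (rh2f68792b6b779e96.shift 1 3)] (by decide +kernel))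
noncomputable def rhaa4f5ada35419d37 : CRef := CRef.mk (Pat.mk 0x70000000600000004 0x8000000080000003c0000003f0000000700000004 4 6) 0 0 (step_sound _ 67 [(rh2612b4f73ba7c3b3.shift 0 1), rh49606a42a30c7ac4, (rh9462503d16fc4086.shift 0 1)] (by decide +kernel))
noncomputable def rhca94598dce6b754e : CRef := CRef.mk (Pat.mk 0x2000000030000000600000006000000000000000000000000 0x400000006000000030000000700000007000000030000000300000002 4 3) 0 0 (step_sound _ 194 [rh1c214b98c27a159d, (rh2f68792b6b779e96.shift 1 3)] (by decide +kernel))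
noncomputable def rh2f01f8afb9019df1 : CRef := CRef.mk (Pat.mk 0x60000001c0000000c000000000000000000000000 0x2000000060000001e0000000f000000040000000400000004 4 5) 0 0 (step_sound _ 97 [(rh53b3c253cb0c65f4.shift 0 3), (rh6abf65651ac164b5.shift 1 0)] (by decide +kernel))
noncomputable def rhc2c09d2cca6704a9 : CRef := CRef.mk (Pat.mk 0x400000006000000180000000900000000 0x40000000400000006000000060000001a0000000f00000002 4 5) 0 0 (step_sound _ 33 [(rh00d6a6e3c7e3bb40.shift 1 0), (rh1c62b6193297d9e3.shift 0 1)] (by decide +kernel))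
noncomputable def rh6753e24591d0cacc : CRef := CRef.mk (Pat.mk 0x8000000080000000a0000001800000008 0x18000000180000001c0000000c0000000f0000001800000008 4 5) 0 0 (step_sound _ 163 [(rh44f453b84f013105.shift 3 1), rhd3e0ee2e58f99ad0] (by decide +kernel))
noncomputable def rh5435a63a27e44fb9 : CRef := CRef.mk (Pat.mk 0x800000008000000080000000a00000018 0x40000000c0000000c000000080000000c0000000f00000018 4 5) 0 0 (step_sound _ 162 [rh7b6f5613b5920f6e, (rhffd04209dc8ea796.shift 2 1)] (by decide +kernel))
noncomputable def rha1b6a7ccaa103011 : CRef := CRef.mk (Pat.mk 0x8000000010000000e0000000c00000004 0xc0000000e000000070000001e0000000c00000004 4 5) 0 0 (step_sound _ 97 [(rh98aa821e0e601aa5.shift 1 0), (rhf48373e13d2bc128.shift 0 2)] (by decide +kernel))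
noncomputable def rh181bfa7f292ff3dd : CRef := CRef.mk (Pat.mk 0x30000001c000000140000000000000000 0x8000000080000001f0000001c000000140000001000000010 4 5) 0 0 (step_sound _ 131 [(rhc10214bf3fe8094a.shift 0 3), (rhf71cb1a94bedb48c.shift 2 0)] (by decide +kernel))
noncomputable def rheff388bd46fcfcaa : CRef := CRef.mk (Pat.mk 0x8000000380000000c0000000400000004 0x20000001f0000003a0000000f0000000600000004 4 6) 0 0 (step_sound _ 65 [rh4ebc94ac63d8ec57, (rh53b3c253cb0c65f4.shift 0 2)] (by decide +kernel))
noncomputable def rh97e9b8aefb4c3c5c : CRef := CRef.mk (Pat.mk 0x2000000380000000e000000000000000000000000 0xa0000001f0000003a0000000e000000060000000400000004 4 6) 0 0 (step_sound _ 66 [(rh0588d2c7f2cab5e9.shift 1 0), (rh74c61e969e71c48a.shift 0 2)] (by decide +kernel))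
noncomputable def rhdeb26f2c1965e74f : CRef := CRef.mk (Pat.mk 0x50000001c000000140000000000000000 0x8000000080000001f0000001c000000140000001000000010 4 5) 0 0 (step_sound _ 131 [(rhab22b5b56e7b3243.shift 0 3), (rhf71cb1a94bedb48c.shift 2 0)] (by decide +kernel))
noncomputable def rhc2b978e6dcd8bb51 : CRef := CRef.mk (Pat.mk 0x80000000c0000000800000010 0x8000000080000000f0000007c00000010 4 7) 0 0 (step_sound _ 36 [(rh2145e1d24b96a57e.shift 3 0), (rh3c3e23a02e82b2ed.shift 0 1)] (by decide +kernel))
noncomputable def rh4254176a2453c670 : CRef := CRef.mk (Pat.mk 0x800000000000000180000001e00000010 0x1800000038000000300000001f0000001e00000010 4 6) 0 0 (step_sound _ 65 [(rh3244c3cc8379b070.shift 0 1), (rh4f92b6ce9f3964c8.shift 1 0)] (by decide +kernel))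
noncomputable def rh64ab8015a8c26b6a : CRef := CRef.mk (Pat.mk 0x2000000020000001a00000009 0x10000000300000003000000020000001b0000000f 4 5) 0 0 (step_sound _ 129 [rh79877ebd3ef475dd, rhf1275406625c4529] (by decide +kernel))
noncomputable def rh3c41c563fd95de1d : CRef := CRef.mk (Pat.mk 0x80000000c0000000800000000 0x1000000010000000180000007c0000000f0000000800000008 4 7) 0 0 (step_sound _ 100 [(rh215e11e099257d75.shift 3 0), (rhd69c262cd33b94b3.shift 0 2)] (by decide +kernel))
noncomputable def rh643ee7d79253bead : CRef := CRef.mk (Pat.mk 0x1c000000080000000c00000004 0x30000001f0000007c0000000f00000004 4 7) 0 0 (step_sound _ 68 [rh59b8ab533772ff61, (rh62ee6b8370225d67.shift 1 1), (rhd69c262cd33b94b3.shift 0 1)] (by decide +kernel))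
noncomputable def rhdd715bdc41a6788d : CRef := CRef.mk (Pat.mk 0x4000000000000001c0000000800000000 0x400000004000000040000001c0000000f0000000a 4 5) 0 0 (step_sound _ 98 [(rh2145e1d24b96a57e.shift 2 1), rhffb35f5e5ddd6656] (by decide +kernel))
noncomputable def rh2f5c1f7004ec74ce : CRef := CRef.mk (Pat.mk 0x1a000000020000000000000002 0x70000001f000000030000000200000002 4 5) 0 0 (step_sound _ 98 [(rheb0810cc63b001d8.shift 0 2), rhff683014c19dc64a] (by decide +kernel))
noncomputable def rh3fdc65c26121fc5d : CRef := CRef.mk (Pat.mk 0x40000000300000002000000020000000200000000 0x200000006000000060000000300000003000000030000000200000002 4 3) 0 0 (step_sound _ 161 [(rh2f68792b6b779e96.shift 1 2), rhc4c6de062e376aad] (by decide +kernel))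
noncomputable def rh99db6f2591fa1dc7 : CRef := CRef.mk (Pat.mk 0x40000000c000000020000000000000002 0x70000003e000000030000000200000002 4 6) 0 0 (step_sound _ 97 [(rh9e3edb185cc347de.shift 1 0), (rha83d0a1d851c6a27.shift 0 2)] (by decide +kernel))
noncomputable def rh0073af956b115b56 : CRef := CRef.mk (Pat.mk 0x600000001000000040000000500000000 0x2000000020000000700000007000000050000000500000001 4 3) 0 0 (step_sound _ 161 [(rh2613c889e411427e.shift 1 1), rhe575b29da8f222e6] (by decide +kernel))
noncomputable def rhbe01a68e96627bfe : CRef := CRef.mk (Pat.mk 0xc000000020000001800000008 0x140000003c0000000f0000001800000008 4 6) 0 0 (step_sound _ 67 [(rh50fbb5868c909700.shift 2 0), rhc15edef8df16c571] (by decide +kernel))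
noncomputable def rh371e63d99a2375b6 : CRef := CRef.mk (Pat.mk 0x1800000003000000000000000100000000 0x2000000020000001f00000003000000010000000100000001 4 5) 0 0 (step_sound _ 129 [rh00d6a6e3c7e3bb40, (rhb2a0b9ccfb5cecd5.shift 0 3)] (by decide +kernel))
noncomputable def rh252bad32582c99d7 : CRef := CRef.mk (Pat.mk 0x2000000060000000200000002 0x4000000070000000700000003000000060000000600000002 4 3) 0 0 (step_sound _ 129 [(rh14f80659e6313cc6.shift 1 1), rh3ca48e2a6d60153d] (by decide +kernel))
noncomputable def rh9b369c25e38cd91a : CRef := CRef.mk (Pat.mk 0xe000000000000000c00000004 0x7c0000000f000000080000000c00000004 4 7) 0 0 (step_sound _ 131 [(rh3c88ce959c0e423f.shift 2 0), (rhff7d63dcb3cf9f74.shift 0 3)] (by decide +kernel))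
noncomputable def rhd39a9343b15da591 : CRef := CRef.mk (Pat.mk 0xe000000000000000c00000004 0x80000001f000000780000000c00000004 4 7) 0 0 (step_sound _ 67 [(rh5c5e593799055d58.shift 2 0), (rh8ee80cc30e93a344.shift 0 2)] (by decide +kernel))
noncomputable def rha5eed815a86aaa93 : CRef := CRef.mk (Pat.mk 0x1c0000000c0000000000000000 0x1000000018000000380000001f0000000c0000000c00000004 4 6) 0 0 (step_sound _ 131 [(rh0c9598d853c5906f.shift 0 1), (rh1e309b005ffa1b36.shift 2 0)] (by decide +kernel))
noncomputable def rh4e52571c9b7deb8d : CRef := CRef.mk (Pat.mk 0x80000000c0000000c000000040000000000000000 0xc0000000c0000000f0000003c0000001800000008 4 6) 0 0 (step_sound _ 67 [(rh3cb04db3dd2b6a55.shift 2 0), (rhfe557af9112f51d6.shift 0 1)] (by decide +kernel))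
noncomputable def rhbb928ac00fbfafb3 : CRef := CRef.mk (Pat.mk 0x8000000180000001c000000000000001000000000 0x8000000180000003c0000000f0000001c0000001c 4 6) 0 0 (step_sound _ 67 [(rh46530d756bdf8511.shift 2 0), (rh73329e8902d29e57.shift 2 0), (rh9b4df57cddcda711.shift 3 0), (rhd65e52c5f80caa3b.shift 0 1)] (by decide +kernel))
noncomputable def rhe6c357c9e3c8d320 : CRef := CRef.mk (Pat.mk 0x70000000200000002000000000000000000000000 0x4000000070000000300000002000000030000000300000001 4 3) 0 0 (step_sound _ 65 [(rh2f68792b6b779e96.shift 1 2), rhe4441baab75a6f73] (by decide +kernel))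
noncomputable def rha813eb03930c4935 : CRef := CRef.mk (Pat.mk 0x80000000c000000040000000600000000 0x20000000f0000003c000000040000000600000002 4 6) 0 0 (step_sound _ 130 [(rh932754581e0f4330.shift 1 0), (rhcf85c92937975d4d.shift 0 1)] (by decide +kernel))
noncomputable def rh45e9bbc9c117588b : CRef := CRef.mk (Pat.mk 0xa000000020000000e0000000600000002 0xc0000000f0000001b0000000e0000000600000002 4 5) 0 0 (step_sound _ 130 [rh289ecbeeb3e7c29b, (rh2f68792b6b779e96.shift 1 1)] (by decide +kernel))
noncomputable def rh32af3ac9501babcd : CRef := CRef.mk (Pat.mk 0x400000007000000040000000400000000 0x80000003c0000000f000000040000000600000002 4 6) 0 0 (step_sound _ 33 [(rh684e729394fba19d.shift 0 1), (rh932754581e0f4330.shift 1 0)] (by decide +kernel))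
noncomputable def rh9a6f86e8f4a0ec0a : CRef := CRef.mk (Pat.mk 0x30000000000000001000000010000000000000000 0x2000000030000000300000001000000030000000300000002 4 2) 0 0 (step_sound _ 128 [(rh2f68792b6b779e96.shift 0 2), rh8c3839f9b9075f23] (by decide +kernel))
noncomputable def rhdce86e7aa11c891c : CRef := CRef.mk (Pat.mk 0x100000000c000000080000000b0000000100000001 0x100000001a0000000f0000000a0000000b0000000300000001 4 5) 0 0 (step_sound _ 163 [(rh2f68792b6b779e96.shift 3 2), rhbd067feee95d75a2] (by decide +kernel))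
noncomputable def rh7f34300b9d064442 : CRef := CRef.mk (Pat.mk 0x300000002000000020000000600000000 0x600000006000000060000000300000003000000060000000600000002 4 3) 0 0 (step_sound _ 161 [rh50c14aaf14ae5553, (rhd3458b32566d63f7.shift 1 1)] (by decide +kernel))
noncomputable def rhad5157b407008106 : CRef := CRef.mk (Pat.mk 0x180000001c000000000000003400000000 0x180000001f000000070000003c00000004 4 6) 0 0 (step_sound _ 66 [(rh71222050f2c63a3a.shift 2 0), (rhe41758cc10d2270b.shift 0 1)] (by decide +kernel))
noncomputable def rh7fbb723c5f662f62 : CRef := CRef.mk (Pat.mk 0x10000000380000000c0000000800000000 0xc0000001e000000380000000f0000000c00000004 4 6) 0 0 (step_sound _ 65 [(rh53b3c253cb0c65f4.shift 0 2), (rhd4ae1995e458b8b0.shift 1 0)] (by decide +kernel))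
noncomputable def rh7f5ee5bbfdef1c38 : CRef := CRef.mk (Pat.mk 0x2000000020000000600000001 0x1000000030000000300000002000000060000000700000001 4 3) 0 0 (step_sound _ 129 [(rh65909b08999dc522.shift 0 1), rh79877ebd3ef475dd] (by decide +kernel))
noncomputable def rh721b3ada8ab0e270 : CRef := CRef.mk (Pat.mk 0xf00000003000000060000000400000000 0x80000000f0000001b0000001e0000000600000002 4 5) 0 0 (step_sound _ 33 [rh7b1f1fb55310c477, (rhac075e0b88624d80.shift 0 1)] (by decide +kernel))
noncomputable def rh0a444d2316a5537b : CRef := CRef.mk (Pat.mk 0xc0000000c000000180000000000000000 0x100000003c0000000f000000180000000800000008 4 6) 0 0 (step_sound _ 97 [(rh4e448da1f2ebc7c7.shift 1 0), (rhb739f4f82bb681b4.shift 0 2)] (by decide +kernel))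
noncomputable def rh18ca8b2ce8e5adeb : CRef := CRef.mk (Pat.mk 0x8000000000000000e00000004 0x8000000080000007c0000000f00000004 4 7) 0 0 (step_sound _ 67 [(rh5c5e593799055d58.shift 2 0), (rhff7d63dcb3cf9f74.shift 0 1)] (by decide +kernel))
noncomputable def rh89390e923f7aeebc : CRef := CRef.mk (Pat.mk 0x30000000e0000000600000002 0x80000001c0000003f0000000f0000000600000002 4 6) 0 0 (step_sound _ 98 [(rh5c5e593799055d58.shift 1 0), (rhcd82bac3c5754d02.shift 0 1)] (by decide +kernel))
noncomputable def rh3954d8619329fa8d : CRef := CRef.mk (Pat.mk 0xb0000000600000004 0x8000000080000001c0000003f0000003e00000004 4 6) 0 0 (step_sound _ 66 [rh49606a42a30c7ac4, (rhf5e124ec5c58a2dd.shift 0 1)] (by decide +kernel))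
noncomputable def rh29f9e4111bbfef67 : CRef := CRef.mk (Pat.mk 0xb0000000600000004 0x8000000080000001c0000003f0000000700000004 4 6) 0 0 (step_sound _ 66 [(rh2612b4f73ba7c3b3.shift 0 1), rh49606a42a30c7ac4] (by decide +kernel))
noncomputable def rhc26a734abad09058 : CRef := CRef.mk (Pat.mk 0x3000000030000000600000006 0x1c0000001f000000070000000600000006 4 5) 0 0 (step_sound _ 98 [(rh2f68792b6b779e96.shift 1 0), rh3694ccc47a1810b0] (by decide +kernel))
noncomputable def rhe11bc280e54b6337 : CRef := CRef.mk (Pat.mk 0x10000000e000000040000000000000000 0x200000002000000030000001e000000060000000400000004 4 5) 0 0 (step_sound _ 129 [(rh5d54cb79a67f97ab.shift 1 0), (rhf48373e13d2bc128.shift 0 3)] (by decide +kernel))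
noncomputable def rhc5aaa18b61c4d968 : CRef := CRef.mk (Pat.mk 0x3000000050000000400000004 0x2000000020000000300000007000000050000000500000005 4 3) 0 0 (step_sound _ 129 [rh4821dcf828b9d7bf, (rhcfdf45280693d3da.shift 1 0)] (by decide +kernel))
noncomputable def rh82242c0ae96d2a2d : CRef := CRef.mk (Pat.mk 0x2000000030000000200000002 0x2000000060000000700000007000000030000000300000002 4 3) 0 0 (step_sound _ 96 [rh50fbb5868c909700, rh60caaf96997f0fe3] (by decide +kernel))
noncomputable def rh1406536fc593550f : CRef := CRef.mk (Pat.mk 0x80000001c0000000c0000000e00000000 0x120000001f0000001c0000000c0000000e00000002 4 5) 0 0 (step_sound _ 132 [(rh2f68792b6b779e96.shift 3 1), rh63481a5b9557685c] (by decide +kernel))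
noncomputable def rh15f565d0e11abf5c : CRef := CRef.mk (Pat.mk 0xc0000001c000000080000000800000000 0xa0000000f0000001c0000000c0000000c00000004 4 5) 0 0 (step_sound _ 34 [(rh932754581e0f4330.shift 2 0), (rhe1d9f4d2adc14fb9.shift 0 1)] (by decide +kernel))
noncomputable def rhc9657af766e3888f : CRef := CRef.mk (Pat.mk 0x200000003000000180000000c00000000 0x2000000020000000300000003000000190000000f00000001 4 5) 0 0 (step_sound _ 32 [rh00d6a6e3c7e3bb40, (rh24ae073cf30720c4.shift 0 1)] (by decide +kernel))
noncomputable def rh436f4c10dd3f39d7 : CRef := CRef.mk (Pat.mk 0x1c0000001600000000 0x200000002000000030000001e0000003600000004 4 6) 0 0 (step_sound _ 65 [rhbdb8dfd08861fbf7, (rhe25b0a99195a5d59.shift 1 1)] (by decide +kernel))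
noncomputable def rhfc0c2df79ac338e6 : CRef := CRef.mk (Pat.mk 0xa0000000b0000001a0000000800000000 0x10000000b0000000b0000001a0000000f00000006 4 5) 0 0 (step_sound _ 34 [(rh932754581e0f4330.shift 2 0), rhcf90ba45386ce6fc] (by decide +kernel))
noncomputable def rh49b9b33e602300ad : CRef := CRef.mk (Pat.mk 0x18000000160000000400000000 0x30000003e000000360000000400000004 4 6) 0 0 (step_sound _ 98 [(rh18965a982d73c794.shift 1 2), rhb1e85508c6bcb2d1] (by decide +kernel))
noncomputable def rhfc3c268ec51aa194 : CRef := CRef.mk (Pat.mk 0x3800000018000000100000001000000000 0x60000003f00000038000000180000001800000008 4 6) 0 0 (step_sound _ 35 [(rh932754581e0f4330.shift 3 0), (rh99958e6426785a6d.shift 0 1)] (by decide +kernel))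
noncomputable def rhf40270103ba82e7c : CRef := CRef.mk (Pat.mk 0x400000007000000040000000400000000 0x80000003c0000000f000000040000000600000002 4 6) 0 0 (step_sound _ 1 [(rh684e729394fba19d.shift 0 1), (rh79877ebd3ef475dd.shift 1 0)] (by decide +kernel))
noncomputable def rhaf82daf3f22b29cf : CRef := CRef.mk (Pat.mk 0xe0000000c00000008 0x1000000010000000380000003e0000000f00000008 4 6) 0 0 (step_sound _ 68 [(rh49606a42a30c7ac4.shift 1 0), (rhaf9f2efc81a8312b.shift 0 1)] (by decide +kernel))
noncomputable def rha7c666192f458a6e : CRef := CRef.mk (Pat.mk 0x1e0000000e0000000800000000 0x6000000070000001e0000000e0000000c00000004 4 5) 0 0 (step_sound _ 130 [(rh2145e1d24b96a57e.shift 2 1), rh38a0850c9fea941e] (by decide +kernel))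
noncomputable def rhd77f5ef34256fc46 : CRef := CRef.mk (Pat.mk 0x4000000070000000600000004 0x80000003e000000070000001e00000004 4 6) 0 0 (step_sound _ 36 [rh1eeec04e73117746, (rh2fe78cc5ca4405d8.shift 0 1)] (by decide +kernel))
noncomputable def rh02141ff03484786c : CRef := CRef.mk (Pat.mk 0x80000000e0000001a000000020000000000000000 0x80000000e0000001e000000070000000600000006 4 5) 0 0 (step_sound _ 98 [(rh6a3ba3a6fd570301.shift 1 0), (rheb0810cc63b001d8.shift 0 2)] (by decide +kernel))
noncomputable def rhe821dd2a9165c708 : CRef := CRef.mk (Pat.mk 0x8000000180000001c0000000400000000 0x4000000060000000f0000001f0000003c0000000c00000008 4 6) 0 0 (step_sound _ 98 [(rhad5d8fc3675c15dd.shift 0 2), rhdcee634ff9e820ea] (by decide +kernel))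
noncomputable def rh998f0b184bcc059b : CRef := CRef.mk (Pat.mk 0x180000001c0000000c0000000400000000 0x60000001f0000001c0000000c0000000c00000008 4 5) 0 0 (step_sound _ 35 [(rh1a1ff760019a7e53.shift 0 1), (rh71222050f2c63a3a.shift 3 0)] (by decide +kernel))
noncomputable def rh8df5795807c01d70 : CRef := CRef.mk (Pat.mk 0x1c0000000c0000000c 0xe0000000f0000001c0000000c0000000c 4 5) 0 0 (step_sound _ 98 [(rh2145e1d24b96a57e.shift 2 0), rh2b8d30a06730aa00] (by decide +kernel))
noncomputable def rh420f120aaee04983 : CRef := CRef.mk (Pat.mk 0x1c0000001c00000014 0xe0000000e0000000f0000001c0000001c00000014 4 5) 0 0 (step_sound _ 98 [rh2b8d30a06730aa00, (rh7b9fbdf6d2d059e4.shift 1 0), (rh9be513b18bc3ec68.shift 2 0)] (by decide +kernel))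
noncomputable def rhfea2cc2f5edf90c1 : CRef := CRef.mk (Pat.mk 0x4000000060000000c0000000800000000 0x4000000060000003e0000000f00000002 4 6) 0 0 (step_sound _ 68 [rh98d235376c9a5dd3, (rhf48373e13d2bc128.shift 1 2)] (by decide +kernel))
noncomputable def rh8a962ce9d7529bca : CRef := CRef.mk (Pat.mk 0x1c0000000e00000006 0xe0000000f0000001c0000000e00000006 4 5) 0 0 (step_sound _ 98 [rh2b8d30a06730aa00, (rh5c5e593799055d58.shift 1 0)] (by decide +kernel))
noncomputable def rh2a3da572bcee6168 : CRef := CRef.mk (Pat.mk 0x8000000000000001c0000001e00000004 0x180000001a000000330000001e0000001e00000004 4 6) 0 0 (step_sound _ 65 [rh309fd0c3d364cd61, (rh4d8d614e03a7f6ad.shift 1 1)] (by decide +kernel))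
noncomputable def rh1a65fd664a8b8455 : CRef := CRef.mk (Pat.mk 0x1200000006000000020000000000000000 0x200000007000000070000001e00000006000000060000000200000002 4 5) 0 0 (step_sound _ 130 [(rh84d1c02a8954c6a8.shift 1 1), (rh8e4d738d72204634.shift 0 2), (rhadf429772c25fde0.shift 1 0)] (by decide +kernel))
noncomputable def rh67dadc490f6a2b0a : CRef := CRef.mk (Pat.mk 0x100000001e00000002 0x1e0000007f00000006 4 7) 0 0 (step_sound _ 37 [(rh2a6f165495c008c6.shift 0 1), (rh80fcd6d0a18cb2dd.shift 1 0)] (by decide +kernel))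
noncomputable def rhd8b83107b84ab88d : CRef := CRef.mk (Pat.mk 0x80000001c0000000c0000000400000000 0x6000000060000000f0000001c0000000c0000000c00000008 4 5) 0 0 (step_sound _ 130 [(rh277b01412deaec89.shift 0 1), (rh3cb04db3dd2b6a55.shift 2 0), (rh3e595262c1b737ad.shift 2 1), (rh7b9fbdf6d2d059e4.shift 1 1)] (by decide +kernel))
noncomputable def rheef7d5e789be0456 : CRef := CRef.mk (Pat.mk 0x60000001a0000000c00000004 0x10000000380000001e0000001b0000000c00000004 4 6) 0 0 (step_sound _ 99 [(rh5c5e593799055d58.shift 2 0), (rh644d796282c12cc5.shift 0 1)] (by decide +kernel))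
noncomputable def rhe0af9f7b1164cb64 : CRef := CRef.mk (Pat.mk 0x2000000030000000e00000006 0xc0000001e0000000f0000000e00000006 4 5) 0 0 (step_sound _ 98 [(rh2f68792b6b779e96.shift 1 0), rh4969d2d75ade0a4c] (by decide +kernel))
noncomputable def rhcffc1100afbc4aef : CRef := CRef.mk (Pat.mk 0x14000000160000000200000002 0x30000003f000000360000000200000002 4 6) 0 0 (step_sound _ 99 [(rh18965a982d73c794.shift 1 2), rh4118eb83563389a5] (by decide +kernel))
noncomputable def rh327d12bec9a5544d : CRef := CRef.mk (Pat.mk 0x7000000060000001800000008 0x100000003f0000003e0000001800000008 4 6) 0 0 (step_sound _ 68 [(rh2fe78cc5ca4405d8.shift 0 2), (rh42f51f75e12ec48b.shift 1 0)] (by decide +kernel))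
noncomputable def rh4a9aba01fee4029c : CRef := CRef.mk (Pat.mk 0x60000001c0000000c00000004 0x10000000380000003e0000001f0000000c00000004 4 6) 0 0 (step_sound _ 99 [(rh39a35a40b02cae73.shift 0 1), (rh5c5e593799055d58.shift 2 0)] (by decide +kernel))
noncomputable def rha8849b2c5e97fde1 : CRef := CRef.mk (Pat.mk 0x70000000600000006 0xc0000003e000000070000000600000006 4 6) 0 0 (step_sound _ 98 [rh1eeec04e73117746, (rh5c5e593799055d58.shift 1 0)] (by decide +kernel))
noncomputable def rhbe2ed2200cd61245 : CRef := CRef.mk (Pat.mk 0x30000000400000006000000020000000000000000 0x1000000030000000600000006000000030000000300000003 4 3) 0 0 (step_sound _ 129 [rh46530d756bdf8511, (rh50fbb5868c909700.shift 0 2)] (by decide +kernel))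
noncomputable def rha24f73eabc846c73 : CRef := CRef.mk (Pat.mk 0x2000000060000000e0000000a0000000000000000 0x30000000300000003000000060000000e0000000a0000000800000008 4 4) 0 0 (step_sound _ 35 [(rh7b1f1fb55310c477.shift 2 0), (rh7b9fbdf6d2d059e4.shift 0 2)] (by decide +kernel))
noncomputable def rh42c82c3a21b75df8 : CRef := CRef.mk (Pat.mk 0x200000003000000180000000900000000 0x100000003000000030000001a0000000f00000003 4 5) 0 0 (step_sound _ 33 [(rh1c62b6193297d9e3.shift 0 1), rhfff8953c7af09ce5] (by decide +kernel))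
noncomputable def rh6ef7c64351579691 : CRef := CRef.mk (Pat.mk 0x20000000200000002000000300000001400000000 0x20000000200000002000000330000001f00000005 4 6) 0 0 (step_sound _ 33 [(rh1c62b6193297d9e3.shift 1 1), rha3711ed12866f068] (by decide +kernel))
noncomputable def rh5229f61174a0bd58 : CRef := CRef.mk (Pat.mk 0xe000000020000001a0000000a 0x390000001f000000120000001a0000000a 4 6) 0 0 (step_sound _ 96 [rh0729e794b6b0c7c1, rh50fbb5868c909700] (by decide +kernel))
noncomputable def rhba05f89746b26b59 : CRef := CRef.mk (Pat.mk 0x1000000070000000500000004 0x30000000300000007000000070000000700000006 4 3) 0 0 (step_sound _ 129 [rh4403e97f5cc1e4ef, rh4dec404a6c0e229a, (rh92d527fd57e151ef.shift 1 0)] (by decide +kernel))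
noncomputable def rhf6e608969d9be0a7 : CRef := CRef.mk (Pat.mk 0x80000003c00000000 0xf8000000ff00000007 4 8) 0 0 (step_sound _ 68 [(rh8c2361c727ab1a01.shift 2 1), (rhab2ad169e49f9c5e.shift 0 1), rhcc2be1f880c5ea3e] (by decide +kernel))
noncomputable def rh726ed8e3d0fdcf87 : CRef := CRef.mk (Pat.mk 0x20000000f0000000c 0x3e0000007f0000000c 4 7) 0 0 (step_sound _ 68 [(rh428265de8cd3cd2d.shift 0 1), (rha3352c11960fccad.shift 1 0)] (by decide +kernel))
noncomputable def rh0693a0ad7c8af654 : CRef := CRef.mk (Pat.mk 0x40000001c000000180000000000000000 0x10000000340000001f000000180000000800000008 4 6) 0 0 (step_sound _ 35 [(rh7b1f1fb55310c477.shift 2 0), (rhee92c360535a626f.shift 0 1)] (by decide +kernel))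
noncomputable def rh1fe3a09d52af9009 : CRef := CRef.mk (Pat.mk 0x40000001c00000018 0xfc000000ff00000018 4 8) 0 0 (step_sound _ 37 [rh15c6bd118a09e701, (rh790acd67f4fffd04.shift 2 1), (rh8abea2a7b1fd427a.shift 2 0)] (by decide +kernel))
noncomputable def rhdd02f250a5673105 : CRef := CRef.mk (Pat.mk 0x40000001c0000001c0000001000000000 0xa0000000f0000001c0000001c0000001400000004 4 5) 0 0 (step_sound _ 131 [(rh2145e1d24b96a57e.shift 3 1), rh3f09e2870ec06b4b] (by decide +kernel))
noncomputable def rh8c29b1e2f83d279d : CRef := CRef.mk (Pat.mk 0x60000000e0000000800000000 0x400000004000000060000003e0000000b00000002 4 6) 0 0 (step_sound _ 130 [(rh2145e1d24b96a57e.shift 2 1), rh7478433a598f2371] (by decide +kernel))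
noncomputable def rhb0f6c4e3b49711e9 : CRef := CRef.mk (Pat.mk 0x40000000c0000001c000000080000000000000000 0x80000000c0000000c0000001c0000000f0000000600000002 4 5) 0 0 (step_sound _ 66 [(rh91a545eb3be094e3.shift 1 0), (rha707fb719e87fe6e.shift 2 1), (rhf5094ad2a427d4d3.shift 0 1)] (by decide +kernel))
noncomputable def rhafcd5012ed06e599 : CRef := CRef.mk (Pat.mk 0x18000000180000003800000018 0x40000001f00000038000000f800000018 4 8) 0 0 (step_sound _ 38 [(rh18965a982d73c794.shift 3 0), rhc647a25a08ddf0ec] (by decide +kernel))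
noncomputable def rh31edea79c38d604a : CRef := CRef.mk (Pat.mk 0x40000000e000000100000000000000000 0x400000004000000040000000f0000001c0000000800000008 4 5) 0 0 (step_sound _ 67 [(rh5d54cb79a67f97ab.shift 2 0), (rhb739f4f82bb681b4.shift 0 2)] (by decide +kernel))
noncomputable def rh98a63dd6e568c558 : CRef := CRef.mk (Pat.mk 0x80000001c0000000c0000000400000000 0x6000000060000000f0000001c0000000c0000000c00000008 4 5) 0 0 (step_sound _ 130 [(rh277b01412deaec89.shift 0 1), (rh55a1f6c57a317ce6.shift 2 0), (rh7b9fbdf6d2d059e4.shift 1 1)] (by decide +kernel))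
noncomputable def rh98c86f3947f6fc11 : CRef := CRef.mk (Pat.mk 0x30000000f0000000800000000 0x18000000180000001f0000000f0000000c00000004 4 5) 0 0 (step_sound _ 99 [(rh33e738c4ed385b9f.shift 0 2), rh79a2cce65bf4035c] (by decide +kernel))
noncomputable def rhaecfc33e0c5083e3 : CRef := CRef.mk (Pat.mk 0x20000000340000000c0000001c0000000800000000 0x600000003c0000000c0000001c0000000f00000006 4 7) 0 0 (step_sound _ 131 [(rh33e738c4ed385b9f.shift 2 4), rhd66ee6899528ffc2] (by decide +kernel))
noncomputable def rh8a99b3cd292b8285 : CRef := CRef.mk (Pat.mk 0x2000000180000000c00000004 0x80000001f000000780000000c00000004 4 7) 0 0 (step_sound _ 99 [(rh5c5e593799055d58.shift 2 0), (rh9ebd639649ea671c.shift 0 2)] (by decide +kernel))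
noncomputable def rh947d1a4ef379615e : CRef := CRef.mk (Pat.mk 0x10000000100000001e 0x300000001f0000003f 4 6) 0 0 (step_sound _ 33 [rh3244c3cc8379b070, rh6ca17ce3da085c6f] (by decide +kernel))
noncomputable def rhea8014c6e0bdabf0 : CRef := CRef.mk (Pat.mk 0x400000014000000140000000400000000 0x400000004000000340000001e0000000700000002 4 6) 0 0 (step_sound _ 33 [(rh242e6d3f76f8ac12.shift 0 1), (rh932754581e0f4330.shift 1 0)] (by decide +kernel))
noncomputable def rhb0f20cdbadfe44b1 : CRef := CRef.mk (Pat.mk 0x40000001c00000018 0xfc000000ff0000001c 4 8) 0 0 (step_sound _ 37 [rh15c6bd118a09e701, (rh2612b4f73ba7c3b3.shift 2 0), (rh790acd67f4fffd04.shift 2 1), (rh8abea2a7b1fd427a.shift 2 0)] (by decide +kernel))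
noncomputable def rh6daba3c24b34fd80 : CRef := CRef.mk (Pat.mk 0xa000000080000000e 0x1f000000780000000f 4 7) 0 0 (step_sound _ 36 [rh53b3c253cb0c65f4, (rh9ebd639649ea671c.shift 0 1)] (by decide +kernel))
noncomputable def rhe5a8a2bc75f52c7a : CRef := CRef.mk (Pat.mk 0x80000002c0000003000000010 0x200000007c0000002f0000003000000010 4 7) 0 0 (step_sound _ 101 [(rh5c5e593799055d58.shift 4 0), (rhe33d9496e10d8eb0.shift 0 2)] (by decide +kernel))
noncomputable def rh270726bdc5476fed : CRef := CRef.mk (Pat.mk 0x40000000200000002000000020000000200000002 0x6000000060000000300000003000000030000000300000002 4 3) 0 0 (step_sound _ 96 [(rh1a44f6991f283c8d.shift 0 1), rh50fbb5868c909700] (by decide +kernel))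
noncomputable def rh7334dc525def6ee8 : CRef := CRef.mk (Pat.mk 0x100000002000000020000000a0000000a00000000 0x10000000300000002000000020000001a0000000f00000005 4 5) 0 0 (step_sound _ 161 [(rh50fbb5868c909700.shift 0 2), rh65a643973921d367] (by decide +kernel))
noncomputable def rh37f79a77f29c8bfd : CRef := CRef.mk (Pat.mk 0x100000001400000004000000040000000400000000 0x320000001e00000007000000040000000400000004 4 6) 0 0 (step_sound _ 129 [(rh50fbb5868c909700.shift 1 1), rh9962e8355f993b95] (by decide +kernel))
noncomputable def rh80027b375d3c4b74 : CRef := CRef.mk (Pat.mk 0x20000000a0000000a00000002000000020000000200000000 0x20000001b0000000f00000006000000060000000200000002 4 5) 0 0 (step_sound _ 98 [(rh55afc6a59410cf00.shift 1 2), rh6a760c278d102e3d] (by decide +kernel))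
noncomputable def rh788a22f0a7933700 : CRef := CRef.mk (Pat.mk 0x80000000a0000000200000002000000020000000400000000 0x190000000f0000000600000002000000020000000600000004 4 5) 0 0 (step_sound _ 33 [(rh55afc6a59410cf00.shift 1 0), (rhe4a86ce8a6cab4d0.shift 0 1)] (by decide +kernel))
noncomputable def rh71090ae86bf2cc7f : CRef := CRef.mk (Pat.mk 0x1400000016000000040000000800000000 0x370000001e000000040000000c0000000c 4 6) 0 0 (step_sound _ 34 [rh3f0b1ea237a8ab93, (rh55afc6a59410cf00.shift 2 0)] (by decide +kernel))
noncomputable def rhdb6f32be950dbaea : CRef := CRef.mk (Pat.mk 0x3c000000180000003000000018 0x70000003f00000018000000f000000018 4 8) 0 0 (step_sound _ 39 [(rh361cc68994bd8a63.shift 3 0), (rhba89ab7cb81bcc90.shift 0 2)] (by decide +kernel))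
noncomputable def rh06b43d49e338fab7 : CRef := CRef.mk (Pat.mk 0x300000007000000060000000000000000 0x2000000020000000300000007000000070000000300000003 4 3) 0 0 (step_sound _ 161 [(rh2145e1d24b96a57e.shift 1 2), rh53e41f96b2b88c97] (by decide +kernel))
noncomputable def rh1fa70f435c0d960e : CRef := CRef.mk (Pat.mk 0xb0000000e 0x380000003f0000000f 4 6) 0 0 (step_sound _ 36 [rh53b3c253cb0c65f4, rha4a74bc4821388a0] (by decide +kernel))
noncomputable def rh764116375c147c5a : CRef := CRef.mk (Pat.mk 0x40000001e000000040000000000000000 0x2000000070000001e000000070000000400000004 4 5) 0 0 (step_sound _ 65 [rhe8ba5e25e7c74702, (rheb0810cc63b001d8.shift 0 2)] (by decide +kernel))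
noncomputable def rh1c5eb2973b6be816 : CRef := CRef.mk (Pat.mk 0x1e0000000c00000008 0x200000006000000070000001e0000000c0000000c 4 5) 0 0 (step_sound _ 97 [(rh3244c3cc8379b070.shift 0 2), (rha98aa09c828dcf00.shift 1 0)] (by decide +kernel))
noncomputable def rh25c2458e723639d7 : CRef := CRef.mk (Pat.mk 0x100000001e000000000000000000000000 0x1000000010000000180000001f000000180000000800000008 4 5) 0 0 (step_sound _ 67 [(rh4821dcf828b9d7bf.shift 3 0), (rhe3dc93746cbe6e7c.shift 0 2), rhfef9784a86ed4d7b] (by decide +kernel))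
noncomputable def rh28668c0e8f6621b1 : CRef := CRef.mk (Pat.mk 0x2000000160000000c 0x730000007e0000000c 4 7) 0 0 (step_sound _ 35 [(rh226655e3fe6b4a8a.shift 1 0), (rh3244c3cc8379b070.shift 0 1)] (by decide +kernel))
noncomputable def rh67c56d36b3f405ac : CRef := CRef.mk (Pat.mk 0x2000000060000001e00000008 0x10000000330000003e0000001e00000008 4 6) 0 0 (step_sound _ 68 [rh2f50e1924537f66e, (rh33e738c4ed385b9f.shift 1 1)] (by decide +kernel))
noncomputable def rh89fda17218741938 : CRef := CRef.mk (Pat.mk 0x60000000c0000000500000000 0x400000004000000060000003c0000000f00000008 4 6) 0 0 (step_sound _ 68 [rhe6f6b91cc24c8046, (rhf48373e13d2bc128.shift 1 2)] (by decide +kernel))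
noncomputable def rh3c92a9c9419476ca : CRef := CRef.mk (Pat.mk 0x800000008000000080000000c 0x800000008000000080000007c0000001f 4 7) 0 0 (step_sound _ 36 [(rh518d6f6eeebddcb2.shift 2 0), rh69012675dfdb1a5b, rhd69c262cd33b94b3] (by decide +kernel))
noncomputable def rh032744bb2bad25b1 : CRef := CRef.mk (Pat.mk 0x800000008000000080000000a00000018 0x40000000c0000000c000000080000000c0000000f00000018 4 5) 0 0 (step_sound _ 34 [rhb739f4f82bb681b4, (rhe62cab2ff5ad6fe2.shift 2 1)] (by decide +kernel))
noncomputable def rh5e7d5b3d9aae96f3 : CRef := CRef.mk (Pat.mk 0x800000008000000080000000e00000000 0x800000008000000080000000f0000003e00000010 4 6) 0 0 (step_sound _ 36 [(rh55afc6a59410cf00.shift 3 0), (rh5c383ce67d990d7d.shift 0 1)] (by decide +kernel))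
noncomputable def rh5d664ca4448c70a6 : CRef := CRef.mk (Pat.mk 0x800000007000000000000001000000000 0x180000001f000000380000001000000010 4 6) 0 0 (step_sound _ 99 [(rh33e738c4ed385b9f.shift 0 3), rh86b0b8788beef0aa] (by decide +kernel))
noncomputable def rhfac0aba0b3f0cd24 : CRef := CRef.mk (Pat.mk 0x1a0000000c000000080000000800000000 0x70000001e0000000c0000000c0000000c00000004 4 5) 0 0 (step_sound _ 130 [(rh50fbb5868c909700.shift 2 1), rhf53ee62ce7c07a09] (by decide +kernel))
noncomputable def rhd9f38d00c87ab561 : CRef := CRef.mk (Pat.mk 0x600000006000000080000000c00000000 0x200000006000000060000003c0000000f00000002 4 6) 0 0 (step_sound _ 66 [(rh50fbb5868c909700.shift 1 1), rh9cc5d980c4667d10] (by decide +kernel))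
noncomputable def rhbd5b7e268e60d8c7 : CRef := CRef.mk (Pat.mk 0x200000002000000030000000200000002 0x400000006000000060000000700000003000000030000000200000002 4 3) 0 0 (step_sound _ 161 [rh3553f66ad66bb717, (rh44f453b84f013105.shift 1 1), (rh9a369cb82ea472da.shift 0 2)] (by decide +kernel))
noncomputable def rh9da83f2bc1f368ec : CRef := CRef.mk (Pat.mk 0x1c0000001a0000000000000004 0x30000001f0000001e0000000600000004 4 5) 0 0 (step_sound _ 97 [(rhb739f4f82bb681b4.shift 0 2), rhc1e84657de453407] (by decide +kernel))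
noncomputable def rh8963eeeb48e2c8aa : CRef := CRef.mk (Pat.mk 0x40000000e000000020000000b00000000 0x40000001e0000007e0000000b00000008 4 7) 0 0 (step_sound _ 67 [(rh3bbf9a23bd5e2612.shift 0 1), (rh7b1f1fb55310c477.shift 2 0)] (by decide +kernel))
noncomputable def rh584d90930a979f99 : CRef := CRef.mk (Pat.mk 0x800000018000000040000001600000000 0x8000000180000003f0000001700000010 4 6) 0 0 (step_sound _ 68 [(rh6a159b1535d67e15.shift 0 1), (rh7b1f1fb55310c477.shift 3 0)] (by decide +kernel))
noncomputable def rh8910848717c4eff5 : CRef := CRef.mk (Pat.mk 0x4000000140000001a000000000000000000000000 0x4000000340000001e000000070000000200000002 4 6) 0 0 (step_sound _ 98 [rh1e8d6e1ef30e2d92, (rh33e738c4ed385b9f.shift 1 3)] (by decide +kernel))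
noncomputable def rhe6b6cb55e74be843 : CRef := CRef.mk (Pat.mk 0x180000001e0000000200000004 0x1000000030000001f0000001e0000000600000004 4 5) 0 0 (step_sound _ 97 [rh111b2aed802e4bf1, (rh3244c3cc8379b070.shift 0 2)] (by decide +kernel))
noncomputable def rhdce6bd79c5f793f1 : CRef := CRef.mk (Pat.mk 0x100000001e000000000000002000000000 0x170000003e000000600000002000000020 4 7) 0 0 (step_sound _ 129 [(rh3244c3cc8379b070.shift 0 3), (rh74eddb27fec640dd.shift 1 0)] (by decide +kernel))
noncomputable def rh4d21a4f18ff372b1 : CRef := CRef.mk (Pat.mk 0x8000000180000000800000004 0x800000008000000780000001f00000004 4 7) 0 0 (step_sound _ 34 [(rh574fdbf07bdd18b9.shift 0 1), (rh5c5e593799055d58.shift 2 0)] (by decide +kernel))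
noncomputable def rh402171a2c2c50b85 : CRef := CRef.mk (Pat.mk 0x40000001e000000180000000000000000 0x40000003e0000001f0000000300000002 4 6) 0 0 (step_sound _ 65 [rhe87bbd448a59fed8, (rheb0810cc63b001d8.shift 0 2)] (by decide +kernel))
noncomputable def rhe1a136e2584efaaa : CRef := CRef.mk (Pat.mk 0x4000000140000001c000000000000000000000000 0x4000000340000001e000000070000000200000002 4 6) 0 0 (step_sound _ 97 [rh1e8d6e1ef30e2d92, (rh33e738c4ed385b9f.shift 1 3)] (by decide +kernel))
noncomputable def rh6d404ae96ba5755f : CRef := CRef.mk (Pat.mk 0x20000000a0000000e00000006 0x1000000030000003e0000003e00000006 4 6) 0 0 (step_sound _ 36 [rh120fbab6b72cf5c6, (rh18965a982d73c794.shift 1 0)] (by decide +kernel))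
noncomputable def rh3700f99776e1695c : CRef := CRef.mk (Pat.mk 0x20000000e0000001a0000000800000000 0x4000000040000000e0000000e0000001e0000000b00000003 4 5) 0 0 (step_sound _ 130 [(rh8045a4749be85c44.shift 1 1), (rha3df16ea9c8576c8.shift 2 1), rhe58a7845769190f3] (by decide +kernel))
noncomputable def rh98b9822c82c3aa8f : CRef := CRef.mk (Pat.mk 0x10000000500000006000000000000000000000000 0x100000001000000030000000700000007000000030000000200000002 4 3) 0 0 (step_sound _ 65 [(rh0188917d0a15b7ff.shift 0 2), rh4f5da4dafb6dd81a, rhe482ee30a2733b5f] (by decide +kernel))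
noncomputable def rh229125b02bb7866b : CRef := CRef.mk (Pat.mk 0xa000000080000000e 0x1e0000007c0000000f 4 7) 0 0 (step_sound _ 36 [rh53b3c253cb0c65f4, (rhe56c8cee21685643.shift 1 0)] (by decide +kernel))
noncomputable def rh921fcc14caaf48a6 : CRef := CRef.mk (Pat.mk 0x10000000f000000040000000400000000 0x3000000030000001f000000060000000600000002 4 5) 0 0 (step_sound _ 129 [rh95b222a9daeac532, (rhf48373e13d2bc128.shift 0 3)] (by decide +kernel))
noncomputable def rh4173edafc27ebb95 : CRef := CRef.mk (Pat.mk 0x2000000070000000400000004 0x8000000080000001e0000000f0000000c00000004 4 5) 0 0 (step_sound _ 99 [rh3d750d636bdbe94f, (rh5890386c1f942fa1.shift 2 0), (rh6870ff15d3813450.shift 0 2), rhc96d793cb48cf7f5] (by decide +kernel))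
noncomputable def rh2e88faa7cc86f648 : CRef := CRef.mk (Pat.mk 0x400000004000000140000001400000000 0x40000000400000004000000370000001e00000002 4 6) 0 0 (step_sound _ 33 [(rh0cc37d62274a43af.shift 0 1), (rh932754581e0f4330.shift 1 0)] (by decide +kernel))
noncomputable def rh210928190827b327 : CRef := CRef.mk (Pat.mk 0x400000004000000140000001400000000 0x40000000400000004000000370000001e00000008 4 6) 0 0 (step_sound _ 35 [(rh55afc6a59410cf00.shift 2 0), (rh8d35ee02bbc003d6.shift 0 1)] (by decide +kernel))
noncomputable def rh39e72124de2421f5 : CRef := CRef.mk (Pat.mk 0x2000000020000000a0000000e 0x10000000300000003000000020000001b0000000f 4 5) 0 0 (step_sound _ 0 [rh33e738c4ed385b9f, rhe62cab2ff5ad6fe2] (by decide +kernel))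
noncomputable def rhdeebb54323221089 : CRef := CRef.mk (Pat.mk 0x20000000a0000000a000000000000000000000000 0x2000000020000001e0000000f000000030000000100000001 4 5) 0 0 (step_sound _ 96 [rh281c6819542c66e6, (rh9f2591205204f08d.shift 0 3)] (by decide +kernel))
noncomputable def rh68488e09e7079b3e : CRef := CRef.mk (Pat.mk 0xa0000000b000000060000001000000000 0xb0000003f0000001e0000001000000010 4 6) 0 0 (step_sound _ 68 [(rh2fe78cc5ca4405d8.shift 0 2), rh6775c0d922f65c63] (by decide +kernel))
noncomputable def rhe96f9041f60d5c91 : CRef := CRef.mk (Pat.mk 0x2000000120000000e00000006 0xc0000000f0000001a0000000f00000006 4 5) 0 0 (step_sound _ 67 [(rh53b3c253cb0c65f4.shift 0 1), rh9fa40f28a4956172] (by decide +kernel))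
noncomputable def rhaf0f129d6243b702 : CRef := CRef.mk (Pat.mk 0x80000000a000000000000000400000004 0x7c0000000f000000040000000400000004 4 7) 0 0 (step_sound _ 98 [(rh04253f50b6dd0619.shift 2 0), (rhff7d63dcb3cf9f74.shift 0 3)] (by decide +kernel))
noncomputable def rhddc6202572942df2 : CRef := CRef.mk (Pat.mk 0xa000000030000000e00000004 0x80000001b0000003f0000000e00000004 4 6) 0 0 (step_sound _ 67 [(rh5c5e593799055d58.shift 2 0), (rhfc74e0dde1b3d6d7.shift 0 1)] (by decide +kernel))
noncomputable def rh27efd6a479973834 : CRef := CRef.mk (Pat.mk 0x1c000000060000001c00000008 0x2000000330000001e000000160000001c00000008 4 6) 0 0 (step_sound _ 132 [(rh3c88ce959c0e423f.shift 3 0), (rha91d406a344da597.shift 0 1)] (by decide +kernel))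
noncomputable def rhf5ae4681f99292ca : CRef := CRef.mk (Pat.mk 0x200000002000000020000000300000002 0x2000000020000000600000006000000070000000700000002 4 3) 0 0 (step_sound _ 161 [(rh79877ebd3ef475dd.shift 0 1), (rhb6e139a614cb25d6.shift 1 0)] (by decide +kernel))
noncomputable def rhdc17cc499b796620 : CRef := CRef.mk (Pat.mk 0x100000002000000020000000200000000 0x50000000700000007000000020000000200000002 4 3) 0 0 (step_sound _ 1 [rhae372274d1226efc, rhffd04209dc8ea796] (by decide +kernel))
noncomputable def rh68a2217402ab2ead : CRef := CRef.mk (Pat.mk 0x1c0000000e00000004 0xa0000000b0000001f0000003e00000004 4 6) 0 0 (step_sound _ 99 [(rh5c5e593799055d58.shift 2 0), rhf8f2801687f78b0b] (by decide +kernel))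
noncomputable def rh756bbb27ba7b9330 : CRef := CRef.mk (Pat.mk 0xe0000000d00000008 0x4000000060000007e0000000f00000008 4 7) 0 0 (step_sound _ 68 [(rh1b048598a8b37bd5.shift 1 0), (rh80fcd6d0a18cb2dd.shift 0 1)] (by decide +kernel))
noncomputable def rh6876f05cc9661702 : CRef := CRef.mk (Pat.mk 0x70000000600000004 0xe0000000e0000001e000000070000000600000004 4 5) 0 0 (step_sound _ 98 [rh4017de503635a93b, (rh5fa50b509d4ce753.shift 1 0), (rh7f9f3607ee25a93b.shift 1 0)] (by decide +kernel))
noncomputable def rhccc9a49c13851aaf : CRef := CRef.mk (Pat.mk 0x1e0000001e0000001000000000 0xa0000000b0000001e0000001e0000001400000004 4 5) 0 0 (step_sound _ 131 [(rh2145e1d24b96a57e.shift 3 1), rh2314a9727c37b748] (by decide +kernel))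
noncomputable def rh848867ba30e8c9fb : CRef := CRef.mk (Pat.mk 0x1800000000000000180000001800000000 0x100000001800000008000000380000001f00000004 4 6) 0 0 (step_sound _ 99 [(rh2f68792b6b779e96.shift 3 1), rh6fae963f33cfdfd7] (by decide +kernel))
noncomputable def rh05bd55df537f83ce : CRef := CRef.mk (Pat.mk 0x180000003800000000 0x38000000ff0000000e 4 8) 0 0 (step_sound _ 38 [rh8cb1021d3ca4b73b, (rhf48373e13d2bc128.shift 3 1)] (by decide +kernel))
noncomputable def rh9dbf2da3fc59a178 : CRef := CRef.mk (Pat.mk 0x38000000180000000800000000 0x70000003f0000001f0000000800000008 4 6) 0 0 (step_sound _ 98 [(rh132883a60cd8aed8.shift 1 0), (rhb14e2588a8d71db8.shift 0 2), (rhba89ab7cb81bcc90.shift 0 2)] (by decide +kernel))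
noncomputable def rhbbcffa81b3b7626a : CRef := CRef.mk (Pat.mk 0x2000000070000000600000004 0x8000000080000003f0000003f0000000600000004 4 6) 0 0 (step_sound _ 67 [(rh226655e3fe6b4a8a.shift 0 1), rh49606a42a30c7ac4, (rhb762f327c85d41a0.shift 0 1)] (by decide +kernel))
noncomputable def rhabaa2cb0d19e8906 : CRef := CRef.mk (Pat.mk 0x180000000900000003000000010000000000000000 0x20000001a0000000f00000003000000030000000100000001 4 5) 0 0 (step_sound _ 129 [(rh1c62b6193297d9e3.shift 0 4), rhadf429772c25fde0] (by decide +kernel))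
noncomputable def rh6153ca5282c9993b : CRef := CRef.mk (Pat.mk 0x1e0000000600000002 0x600000006000000070000001e0000000600000002 4 5) 0 0 (step_sound _ 130 [(rhc6719c6594e47b00.shift 0 1), (rhee230b994cc8b773.shift 1 0)] (by decide +kernel))
noncomputable def rh0e2ebd05cc0aa605 : CRef := CRef.mk (Pat.mk 0x1600000000000000060000000600000000 0x30000001f00000003000000060000000600000002 4 5) 0 0 (step_sound _ 97 [(rh2145e1d24b96a57e.shift 1 1), rh72bb58e5f16dca41] (by decide +kernel))
noncomputable def rhad5ee2db9c11a5ec : CRef := CRef.mk (Pat.mk 0x1600000000000000020000000200000000 0x50000001f00000003000000020000000200000002 4 5) 0 0 (step_sound _ 97 [(rh2f68792b6b779e96.shift 1 1), rh72bb58e5f16dca41] (by decide +kernel))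
noncomputable def rh352530a4321bd71a : CRef := CRef.mk (Pat.mk 0x4000000060000000a0000000800000000 0x400000004000000060000003e0000000b00000002 4 6) 0 0 (step_sound _ 66 [(rh2145e1d24b96a57e.shift 2 1), rh7478433a598f2371] (by decide +kernel))
noncomputable def rh1acc902755b48b28 : CRef := CRef.mk (Pat.mk 0xc00000014000000040000000000000000 0x20000000f0000007c000000060000000400000004 4 7) 0 0 (step_sound _ 99 [rh3f09e2870ec06b4b, (rha9e1a5d55b907abf.shift 1 2), (rhe2b63c00a3d7bb73.shift 0 3)] (by decide +kernel))
noncomputable def rhc0490f0dbe0fb27c : CRef := CRef.mk (Pat.mk 0x1800000028000000080000000000000000 0x40000001f0000007c0000000f0000000800000008 4 7) 0 0 (step_sound _ 100 [(rh2820ca9a6c4f41b4.shift 0 2), (rh3f09e2870ec06b4b.shift 1 0), (rha9fbfd4bb8cf890b.shift 0 3), (rhe2b63c00a3d7bb73.shift 1 3)] (by decide +kernel))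
noncomputable def rha16a40efbfaed6b5 : CRef := CRef.mk (Pat.mk 0x3000000000000000300000002 0x40000000700000007000000020000000300000003 4 3) 0 0 (step_sound _ 65 [rh50fbb5868c909700, rh769be3fe24eee174] (by decide +kernel))
noncomputable def rh23e8e8e874e3cb38 : CRef := CRef.mk (Pat.mk 0x1e000000000000000600000000 0x30000001e000000330000000600000004 4 6) 0 0 (step_sound _ 69 [rh71bbb00ef1ecd8fb, (rh96851dee118c1ba3.shift 1 2)] (by decide +kernel))
noncomputable def rh91d8ce4dac8e4598 : CRef := CRef.mk (Pat.mk 0x7000000000000000500000004 0x2000000020000000300000007000000050000000500000005 4 3) 0 0 (step_sound _ 129 [rh00d6a6e3c7e3bb40, (rh2613c889e411427e.shift 1 0)] (by decide +kernel))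
noncomputable def rhbf73b95edfc5bae4 : CRef := CRef.mk (Pat.mk 0x1e000000000000000600000000 0x4000000070000001e000000020000000600000006 4 5) 0 0 (step_sound _ 129 [(rh1b249a9225fcaf51.shift 1 0), (rh3244c3cc8379b070.shift 0 3)] (by decide +kernel))
noncomputable def rh6a56180c10599970 : CRef := CRef.mk (Pat.mk 0xe000000000000000e00000008 0x330000001e0000000b0000000e0000000c 4 6) 0 0 (step_sound _ 100 [(rh4fc80024ed3db095.shift 1 0), rh71bbb00ef1ecd8fb] (by decide +kernel))
noncomputable def rh42738b493da31e25 : CRef := CRef.mk (Pat.mk 0x20000007c000000000000006000000000 0xc30000007e000000c00000006000000020 4 8) 0 0 (step_sound _ 97 [(rh3244c3cc8379b070.shift 0 3), (rh7eaf814fd0a6a93e.shift 3 0)] (by decide +kernel))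
noncomputable def rh6a095597f920c223 : CRef := CRef.mk (Pat.mk 0x80000001c0000000c00000004 0x6000000060000000f0000001c0000000c0000000c 4 5) 0 0 (step_sound _ 98 [rh277b01412deaec89, (rh3e595262c1b737ad.shift 2 0), (rh7b9fbdf6d2d059e4.shift 1 0)] (by decide +kernel))
noncomputable def rhf2687490c9ee6157 : CRef := CRef.mk (Pat.mk 0x60000000e0000001800000008000000000000000000000000 0x20000000e0000000e0000001e0000000f000000060000000400000004 4 5) 0 0 (step_sound _ 98 [(rhb47b1b9304bf34c0.shift 0 2), (rhdd1b84382d19bcbb.shift 1 2), (rhfafeb437ceb8396d.shift 2 0), (rhff637a26715c46ce.shift 0 2)] (by decide +kernel))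
noncomputable def rh39e9d303c9235226 : CRef := CRef.mk (Pat.mk 0x40000001c0000000c000000000000000000000000 0xa0000000f0000001c0000000c0000000c0000000c0000000c 4 5) 0 0 (step_sound _ 66 [(rh2b8d30a06730aa00.shift 0 2), (rh4053c12da95c0aa0.shift 2 0), (rha707fb719e87fe6e.shift 2 1), (rhea7a1800d6f053bd.shift 2 0)] (by decide +kernel))
noncomputable def rh476af4e76dfe292e : CRef := CRef.mk (Pat.mk 0x100000003800000040 0x370000003e00000060 4 7) 0 0 (step_sound _ 34 [(rh96851dee118c1ba3.shift 2 0), (rhedf6b6c69a16cbd5.shift 0 1)] (by decide +kernel))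
noncomputable def rh81368bc224c326e4 : CRef := CRef.mk (Pat.mk 0x600000006000000120000000200000000 0x200000006000000060000001e0000000700000005 4 5) 0 0 (step_sound _ 34 [(rh55afc6a59410cf00.shift 1 0), rh8ba68edab38ce259] (by decide +kernel))
noncomputable def rhd3f197dc983a41f0 : CRef := CRef.mk (Pat.mk 0x100000000700000004 0x380000003f00000007 4 6) 0 0 (step_sound _ 35 [(rh428265de8cd3cd2d.shift 0 1), rh7d1eb0a2ac11b171] (by decide +kernel))
noncomputable def rhf3afdd1b4b9b596e : CRef := CRef.mk (Pat.mk 0x1000000010000000700000004 0x30000000300000003000000030000000700000006 4 3) 0 0 (step_sound _ 128 [rh55afc6a59410cf00, rh74077b621f65b9d0] (by decide +kernel))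
noncomputable def rhf224bf8f5ccc8764 : CRef := CRef.mk (Pat.mk 0x800000031000000110000001700000004 0x80000001e00000033000000130000001700000005 4 6) 0 0 (step_sound _ 132 [rh4ce4c5039e008768, (rh50fbb5868c909700.shift 3 1)] (by decide +kernel))
noncomputable def rh44c6665d8922f192 : CRef := CRef.mk (Pat.mk 0x7000000100000000000000010 0x180000001f000000380000001000000010 4 6) 0 0 (step_sound _ 99 [rh7a39068762897bbc, (rh96851dee118c1ba3.shift 0 2)] (by decide +kernel))
noncomputable def rhe3d434e27a605579 : CRef := CRef.mk (Pat.mk 0x1c00000008000000000000003000000020 0x1f0000007c000000100000003000000020 4 7) 0 0 (step_sound _ 100 [(rhdeca8db941583de2.shift 0 3), (rhff0f29cb645b05f7.shift 4 0)] (by decide +kernel))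
noncomputable def rh99367f08e66d2cf5 : CRef := CRef.mk (Pat.mk 0x1c0000000e0000000c 0x2000000030000001f0000003e0000000f 4 6) 0 0 (step_sound _ 36 [rh1a9e74d77ec446c9, rh4dc133ee0ba1420a] (by decide +kernel))
noncomputable def rh1090e459624ad3a7 : CRef := CRef.mk (Pat.mk 0x70000000700000004 0x800000008000000180000001f0000000f00000004 4 5) 0 0 (step_sound _ 67 [(rh18965a982d73c794.shift 0 1), rh94246470f0e6fdf7] (by decide +kernel))
noncomputable def rha96e545ecf4c54e9 : CRef := CRef.mk (Pat.mk 0x80000001800000018000000000000000000000000 0x8000000080000003c0000001f000000040000000400000004 4 6) 0 0 (step_sound _ 98 [(rhab2ad169e49f9c5e.shift 0 3), (rhfafeb437ceb8396d.shift 2 0)] (by decide +kernel))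
noncomputable def rhd250cef9733fcca5 : CRef := CRef.mk (Pat.mk 0x70000000600000006 0xc0000003c0000000f0000000600000006 4 6) 0 0 (step_sound _ 98 [(rh5c5e593799055d58.shift 1 0), rh684e729394fba19d] (by decide +kernel))
noncomputable def rh2fe7fc5c8eedc242 : CRef := CRef.mk (Pat.mk 0x80000001800000038000000000000000000000000 0x800000018000000780000001f0000001c00000018 4 7) 0 0 (step_sound _ 67 [(rh157b220518f94713.shift 2 1), (rh4053c12da95c0aa0.shift 3 0), (rhf0f55c4504412200.shift 0 2)] (by decide +kernel))
noncomputable def rh157ff1c9038f6a9d : CRef := CRef.mk (Pat.mk 0x60000001c0000001800000000 0x400000004000000060000001f0000001b00000002 4 5) 0 0 (step_sound _ 65 [rh079470f290abda33, (rhb739f4f82bb681b4.shift 0 1)] (by decide +kernel))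
noncomputable def rhefbdda40bcd96fe8 : CRef := CRef.mk (Pat.mk 0xc0000000c0000001c00000018 0x100000003c0000000f0000001f00000018 4 6) 0 0 (step_sound _ 33 [rh49042301112ca92b, rhb739f4f82bb681b4] (by decide +kernel))
noncomputable def rh64507f4dc8342fdc : CRef := CRef.mk (Pat.mk 0x40000001e00000018 0xc000000fe0000001f 4 8) 0 0 (step_sound _ 1 [(rh7157290cd5333b89.shift 1 0), rheb0810cc63b001d8] (by decide +kernel))
noncomputable def rh8335cee50bf8d60c : CRef := CRef.mk (Pat.mk 0x400000004000000040000001400000000 0x40000000400000004000000070000001e0000000a 4 5) 0 0 (step_sound _ 33 [rh565a368595b800f5, (rh932754581e0f4330.shift 1 0)] (by decide +kernel))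
noncomputable def rh7e4251f6a933aad7 : CRef := CRef.mk (Pat.mk 0x600000002000000080000000800000008 0x100000001e0000001f000000080000000800000008 4 5) 0 0 (step_sound _ 99 [rhdd33c5e9bc288b5b, (rhffd04209dc8ea796.shift 2 0)] (by decide +kernel))
noncomputable def rh16c7ee6e1ca5897a : CRef := CRef.mk (Pat.mk 0x100000002000000020000000200000000 0x4000000070000000700000002000000060000000600000004 4 3) 0 0 (step_sound _ 129 [(rh426f403fa814630c.shift 1 0), (rh50fbb5868c909700.shift 0 1)] (by decide +kernel))
noncomputable def rh6cd1dd557c78c9a4 : CRef := CRef.mk (Pat.mk 0x180000003800000020 0x1f0000003f00000060 4 7) 0 0 (step_sound _ 34 [(rhbe5fc5902345a0b9.shift 0 1), (rhe25b0a99195a5d59.shift 2 0)] (by decide +kernel))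
noncomputable def rhfe2e9b575c3c8e91 : CRef := CRef.mk (Pat.mk 0x2000000003000000060000001000000010 0x2000000020000000330000003e0000003000000010 4 6) 0 0 (step_sound _ 68 [(rh2fe78cc5ca4405d8.shift 0 2), (rh9c1db2c8967fb481.shift 4 0)] (by decide +kernel))
noncomputable def rhe7f189f63c05ca8e : CRef := CRef.mk (Pat.mk 0x600000006000000080000000b 0x60000003f000000380000000f 4 6) 0 0 (step_sound _ 36 [rh1c62b6193297d9e3, (rhfd415344e5749271.shift 0 1)] (by decide +kernel))
noncomputable def rhf389780122f41e70 : CRef := CRef.mk (Pat.mk 0x200000002000000020000000a0000000800000000 0x200000002000000020000001b0000000f00000005 4 5) 0 0 (step_sound _ 32 [(rh79877ebd3ef475dd.shift 0 1), rhd4bcee02b78f02c0] (by decide +kernel))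
noncomputable def rhb1403b591a73e9d4 : CRef := CRef.mk (Pat.mk 0x1e00000006000000020000000000000000 0x30000001e00000006000000030000000300000003 4 5) 0 0 (step_sound _ 33 [(rh71222050f2c63a3a.shift 1 0), rhd9048603f1912b39] (by decide +kernel))
noncomputable def rh13d54427c4631d50 : CRef := CRef.mk (Pat.mk 0xc000000180000000c00000004 0x20000000f0000001e0000000f00000004 4 5) 0 0 (step_sound _ 33 [rh3cb659a608caaffd, (rh53b3c253cb0c65f4.shift 0 1)] (by decide +kernel))
noncomputable def rh1069dcc4c6d7d888 : CRef := CRef.mk (Pat.mk 0x200000007800000000 0x3f0000007e00000007 4 7) 0 0 (step_sound _ 34 [rh21d582c147e7e118, (rh7fb660bc21ce4329.shift 0 1), (rhd5eb272e07a4e288.shift 1 1)] (by decide +kernel))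
noncomputable def rhe14642c44471547b : CRef := CRef.mk (Pat.mk 0xc00000008000000080000002800000020 0x1f0000007c000000280000002800000028 4 7) 0 0 (step_sound _ 100 [(rh64165c754c9db441.shift 1 0), (rhc705a4e0321a1bff.shift 2 0), (rhdeca8db941583de2.shift 0 3)] (by decide +kernel))
noncomputable def rh92356f9bb5b9c0ff : CRef := CRef.mk (Pat.mk 0x600000002000000020000000a00000008 0x60000003e0000000b0000000a0000000a 4 6) 0 0 (step_sound _ 98 [rh5f8fb1ce5bff7d7f, (rh71222050f2c63a3a.shift 1 0)] (by decide +kernel))
noncomputable def rh708536f06d9bd241 : CRef := CRef.mk (Pat.mk 0x20000000e00000002 0x60000003e00000073 4 7) 0 0 (step_sound _ 36 [(rh60e95adc726bb530.shift 1 0), rheb0810cc63b001d8] (by decide +kernel))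
noncomputable def rh90ae8c21274ef341 : CRef := CRef.mk (Pat.mk 0x1c000000060000001200000010 0x80000001e0000003e0000001700000010 4 6) 0 0 (step_sound _ 68 [(rh50fbb5868c909700.shift 3 0), (rhdc45162e28a620df.shift 0 1)] (by decide +kernel))
noncomputable def rh72925834e2064d56 : CRef := CRef.mk (Pat.mk 0x8000000180000000c0000000700000000 0x400000004000000060000001f0000001c0000000c0000000f0000001a 4 5) 0 0 (step_sound _ 130 [rh0767028e5e81ea83, rh357ca9a019b90b0d, (rhf9a6286f1d5377a2.shift 2 1)] (by decide +kernel))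
noncomputable def rh2c4109f05c7a9534 : CRef := CRef.mk (Pat.mk 0x8000000180000001c000000060000000000000000 0x400000004000000060000001f0000001c0000001c0000000e0000000a00000008 4 5) 0 0 (step_sound _ 162 [(rh357ca9a019b90b0d.shift 0 1), (rhaeecc7287588a69b.shift 2 0), (rhf9a6286f1d5377a2.shift 2 2)] (by decide +kernel))
noncomputable def rh66f5103bde2adfa6 : CRef := CRef.mk (Pat.mk 0x180000000e00000022 0x1c000000fe00000063 4 8) 0 0 (step_sound _ 36 [(rh41a0b53fa256048c.shift 2 0), rheb0810cc63b001d8] (by decide +kernel))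
noncomputable def rh716dec2b1ddf78d2 : CRef := CRef.mk (Pat.mk 0x400000016000000130000001200000000 0x200000003c00000016000000130000001e00000008 4 6) 0 0 (step_sound _ 35 [(rh5419adcd928dba20.shift 0 1), (rh6999b50581539baa.shift 1 0)] (by decide +kernel))
noncomputable def rh6a0e9ad42869ccdd : CRef := CRef.mk (Pat.mk 0x20000000b000000080000000900000000 0x100000001e0000000f000000180000000f00000004 4 5) 0 0 (step_sound _ 131 [(rh1df1df71a80a171b.shift 0 1), rh2d35244774484961] (by decide +kernel))
noncomputable def rh7d6b7fe41d7986d2 : CRef := CRef.mk (Pat.mk 0x400000016000000120000001200000000 0x200000003c00000016000000330000001e00000008 4 6) 0 0 (step_sound _ 132 [rh002bc47f98a8938d, (rh1df1df71a80a171b.shift 1 1)] (by decide +kernel))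
noncomputable def rh75b62c1dd21b1329 : CRef := CRef.mk (Pat.mk 0x20000001200000012000000000000000000000000 0x200000002000000370000001e000000040000000400000004 4 6) 0 0 (step_sound _ 98 [(rh046c5eb18e55a239.shift 1 0), (rh12d50e65fdd458b1.shift 0 3)] (by decide +kernel))
noncomputable def rhfe505b911fd36a2b : CRef := CRef.mk (Pat.mk 0xe0000001c00000004 0x200000002000000730000007e0000001e00000004 4 7) 0 0 (step_sound _ 68 [(rh226655e3fe6b4a8a.shift 1 1), rh768a472a1ebe455c, (rhf9d36e158778ce35.shift 1 1)] (by decide +kernel))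
noncomputable def rh4aa76acab27553ea : CRef := CRef.mk (Pat.mk 0x180000001a000000180000000800000000 0x40000001f0000001b000000180000001800000010 4 5) 0 0 (step_sound _ 36 [(rh7b1f1fb55310c477.shift 3 0), (rh9cac931137f1cfa0.shift 0 1)] (by decide +kernel))
noncomputable def rh88a8c9d3f20b7c45 : CRef := CRef.mk (Pat.mk 0x80000001c000000180000000800000000 0x40000000f0000003c000000180000001800000010 4 6) 0 0 (step_sound _ 4 [(rh8f2453f412d57a0e.shift 0 1), (rh9e07f76261b05888.shift 3 0)] (by decide +kernel))
noncomputable def rha294781f2efe6a2a : CRef := CRef.mk (Pat.mk 0xc0000000c0000000c0000000400000000 0x20000000f0000003c0000000c0000000c00000008 4 6) 0 0 (step_sound _ 3 [(rh9e07f76261b05888.shift 2 0), (rhcf85c92937975d4d.shift 0 1)] (by decide +kernel))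
noncomputable def rhfa078ba4eef4f432 : CRef := CRef.mk (Pat.mk 0x300000003000000090000000900000000 0x100000003000000030000001b0000000f00000006 4 5) 0 0 (step_sound _ 33 [rh55afc6a59410cf00, rhf0cde9f3e3a850df] (by decide +kernel))
noncomputable def rh4752cf450ee1f99f : CRef := CRef.mk (Pat.mk 0x60000001e000000180000000800000000 0x60000001e0000001b0000000f00000006 4 5) 0 0 (step_sound _ 65 [rhe0486e85e8f6c68a, (rheb0810cc63b001d8.shift 0 2)] (by decide +kernel))
noncomputable def rh087578e26bef426a : CRef := CRef.mk (Pat.mk 0x2000000030000000b0000000800000008 0x100000001e0000001f0000001b0000000800000008 4 5) 0 0 (step_sound _ 99 [rh1df1df71a80a171b, rh6d4e4609024b81df, rheca207e390c8f755] (by decide +kernel))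
noncomputable def rhac95d28812a29a01 : CRef := CRef.mk (Pat.mk 0x100000001a0000001e0000000800000000 0x4000000340000001e0000001e0000000b00000002 4 6) 0 0 (step_sound _ 98 [rh079470f290abda33, (rh33e738c4ed385b9f.shift 1 3)] (by decide +kernel))
noncomputable def rh8f85c9a024eb9602 : CRef := CRef.mk (Pat.mk 0x80000001c0000000600000024 0x20000003b0000001f000000060000003c 4 6) 0 0 (step_sound _ 3 [(rh2fe78cc5ca4405d8.shift 1 0), rhc39ffe1a68d3ccd8] (by decide +kernel))
noncomputable def rh89e73f054267eaca : CRef := CRef.mk (Pat.mk 0x7c00000008 0x7000000ff00000018 4 8) 0 0 (step_sound _ 4 [(rh18965a982d73c794.shift 3 0), rhba89ab7cb81bcc90] (by decide +kernel))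
noncomputable def rh6a336740706270b1 : CRef := CRef.mk (Pat.mk 0x80000000a0000001e00000006 0x60000000f0000003a0000001e00000006 4 6) 0 0 (step_sound _ 97 [(rh2145e1d24b96a57e.shift 1 0), rh753c304cb655374b] (by decide +kernel))
noncomputable def rh890ac8a98ba850b1 : CRef := CRef.mk (Pat.mk 0x1c0000000600000010 0x200000002000000030000001f0000003e00000034 4 6) 0 0 (step_sound _ 65 [rha8f0bb47ccc0d695, rhbdb8dfd08861fbf7] (by decide +kernel))
noncomputable def rh0ea1e9572398c6d8 : CRef := CRef.mk (Pat.mk 0x1c00000012000000100000001a 0x40000001e00000032000000330000001e 4 6) 0 0 (step_sound _ 97 [rh8dc3e50d8ff8c71d, (rhe25b0a99195a5d59.shift 1 2)] (by decide +kernel))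
noncomputable def rh5ce1d71398a3b99a : CRef := CRef.mk (Pat.mk 0x1400000016000000120000001000000000 0x1400000016000000330000001e0000000a 4 6) 0 0 (step_sound _ 33 [rh002bc47f98a8938d, (rh71222050f2c63a3a.shift 1 0)] (by decide +kernel))
noncomputable def rh065f466862183727 : CRef := CRef.mk (Pat.mk 0xa0000000b000000090000000800000000 0xa0000000f000000190000000f00000005 4 5) 0 0 (step_sound _ 32 [rh498ac7c130e1377d, rh71222050f2c63a3a] (by decide +kernel))
noncomputable def rh24dc7b831b52881b : CRef := CRef.mk (Pat.mk 0x1400000016000000120000001000000000 0x140000001e000000130000001e0000000a 4 5) 0 0 (step_sound _ 64 [(rh361cc68994bd8a63.shift 0 2), rha79f50479099360c] (by decide +kernel))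
noncomputable def rh63bd1d8342766b11 : CRef := CRef.mk (Pat.mk 0x500000003000000010000001300000000 0x60000000700000003000000030000001f00000004 4 5) 0 0 (step_sound _ 129 [(rh2f68792b6b779e96.shift 0 1), rh86a03807261acf08] (by decide +kernel))
noncomputable def rh86ba51e3fef6772f : CRef := CRef.mk (Pat.mk 0xa0000001e0000000000000004 0x80000000a0000000e0000001e0000000700000004 4 5) 0 0 (step_sound _ 33 [(rh61c929bbed6a7028.shift 1 0), (rheb0810cc63b001d8.shift 0 1)] (by decide +kernel))
noncomputable def rh0f4eadd452a7fff7 : CRef := CRef.mk (Pat.mk 0x400000006000000100000001200000000 0x400000006000000360000001e00000003 4 6) 0 0 (step_sound _ 1 [(rh04253f50b6dd0619.shift 1 0), rh7b7542505e5c2734] (by decide +kernel))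
noncomputable def rhb4fe47bd93c50a74 : CRef := CRef.mk (Pat.mk 0x100000001c000000020000000000000000 0x1000000010000000180000001f0000001b0000000800000008 4 5) 0 0 (step_sound _ 67 [(rh8879ba4a7e56171d.shift 0 2), (rhcf80391c5046a495.shift 3 0), (rhf9366b6a121593ef.shift 3 0)] (by decide +kernel))
noncomputable def rhdb781f88dea9f0ff : CRef := CRef.mk (Pat.mk 0xc000000080000000d 0x1f000000780000000f 4 7) 0 0 (step_sound _ 36 [rh24ae073cf30720c4, (rh4ca5dae25f5c14ff.shift 0 1)] (by decide +kernel))
noncomputable def rh581496e46a110a3e : CRef := CRef.mk (Pat.mk 0x60000000e0000000800000000 0x400000004000000060000003e0000000b00000002 4 6) 0 0 (step_sound _ 130 [(rh2145e1d24b96a57e.shift 2 1), rhf32f861d69cb038f] (by decide +kernel))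
noncomputable def rh3760d8507877455e : CRef := CRef.mk (Pat.mk 0x7000000010000000400000004 0x2000000020000000300000007000000050000000500000005 4 3) 0 0 (step_sound _ 129 [(rh2613c889e411427e.shift 1 0), rh4821dcf828b9d7bf] (by decide +kernel))
noncomputable def rh834988c384b1e37f : CRef := CRef.mk (Pat.mk 0x200000003000000180000000a00000000 0x20000000300000003000000190000000f00000003 4 5) 0 0 (step_sound _ 32 [(rh1c62b6193297d9e3.shift 0 1), rhec2955f76c307292] (by decide +kernel))
noncomputable def rh64a6c84a6d089730 : CRef := CRef.mk (Pat.mk 0x1a0000000e000000020000000000000000 0xb0000000b0000001e0000000e0000000e0000000400000004 4 5) 0 0 (step_sound _ 66 [(rh9dc6f17ef8893ffe.shift 0 2), (rhcf80391c5046a495.shift 2 0), (rhf9366b6a121593ef.shift 2 0)] (by decide +kernel))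
noncomputable def rh8f17af7e187d9ab9 : CRef := CRef.mk (Pat.mk 0x2000000050000000500000004 0x2000000020000000300000007000000050000000500000005 4 3) 0 0 (step_sound _ 129 [(rhcfdf45280693d3da.shift 1 0), rhd918c3fd221dc9f8] (by decide +kernel))
noncomputable def rh53e1cbd896b152b9 : CRef := CRef.mk (Pat.mk 0x80000001e0000000200000004 0x80000000a0000000b0000001e0000000e00000004 4 5) 0 0 (step_sound _ 97 [(rh1c7e31de666bf50b.shift 1 0), (rh3244c3cc8379b070.shift 0 2)] (by decide +kernel))
noncomputable def rh742323df17b8c9a6 : CRef := CRef.mk (Pat.mk 0x180000001a00000002000000060000000100000000 0x10000000180000001a0000000a0000001e0000000b00000001 4 5) 0 0 (step_sound _ 33 [(rh1b4ccb2a91bfb31e.shift 0 1), rh932754581e0f4330] (by decide +kernel))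
noncomputable def rha824c0078c17a338 : CRef := CRef.mk (Pat.mk 0x60000000300000000000000030000000000000000 0x6000000070000000300000003000000030000000200000002 4 3) 0 0 (step_sound _ 97 [(rh2f68792b6b779e96.shift 1 2), rh4f2a0c07c3790d4b] (by decide +kernel))
noncomputable def rh3b9460ceb992f88f : CRef := CRef.mk (Pat.mk 0x100000003c00000008 0x180000003f0000001f 4 6) 0 0 (step_sound _ 1 [(rh80fcd6d0a18cb2dd.shift 1 0), rh8879ba4a7e56171d] (by decide +kernel))
noncomputable def rh8d88e35d1550fc8b : CRef := CRef.mk (Pat.mk 0x1e0000000400000010 0x1f0000003f00000030 4 6) 0 0 (step_sound _ 36 [rhd2d5ea5feb171b53, (rhe25b0a99195a5d59.shift 1 1)] (by decide +kernel))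
noncomputable def rh8f6ac4756b9a6be8 : CRef := CRef.mk (Pat.mk 0x7000000010000000400000004 0x180000001f0000003f0000000c00000004 4 6) 0 0 (step_sound _ 99 [rh33280df2e6526ec7, rh4fc80024ed3db095, (rhf3baec4a0a3dd35e.shift 0 2)] (by decide +kernel))
noncomputable def rh282dcf2abcd74723 : CRef := CRef.mk (Pat.mk 0xf000000000000000000000010 0x180000001f000000380000001000000010 4 6) 0 0 (step_sound _ 68 [rh7a39068762897bbc, (rh96851dee118c1ba3.shift 0 2)] (by decide +kernel))
noncomputable def rh161838138d27525b : CRef := CRef.mk (Pat.mk 0x100000007000000080000000000000008 0x330000001f000000180000000800000008 4 6) 0 0 (step_sound _ 99 [rh8847b75c5e4513b5, (rhe25b0a99195a5d59.shift 0 2)] (by decide +kernel))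
noncomputable def rha0d2d254997cad6c : CRef := CRef.mk (Pat.mk 0x90000000700000000 0x1b0000001f00000038 4 6) 0 0 (step_sound _ 35 [(rh33e738c4ed385b9f.shift 0 1), rh60e95adc726bb530] (by decide +kernel))
noncomputable def rh32a8050024678535 : CRef := CRef.mk (Pat.mk 0x380000001800000008 0xc0000000c0000000f0000003c0000001800000018 4 6) 0 0 (step_sound _ 99 [(rh3e595262c1b737ad.shift 3 0), rh53509d91ff78ed56, (rh7b9fbdf6d2d059e4.shift 2 0)] (by decide +kernel))
noncomputable def rh441f3098d3a9709b : CRef := CRef.mk (Pat.mk 0x80000001a0000000e00000004 0x20000001f0000001b0000001e00000004 4 5) 0 0 (step_sound _ 97 [(rh2145e1d24b96a57e.shift 1 0), (rh5e8db12e00e6be92.shift 0 1)] (by decide +kernel))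
noncomputable def rh93d1c5fd225d9985 : CRef := CRef.mk (Pat.mk 0x280000002800000038 0x7c0000003f00000038 4 7) 0 0 (step_sound _ 34 [rh29b9bbf62cfdeff1, (rh9f2591205204f08d.shift 2 1), rhc02b3aee7ab87ee1, (rhe33d9496e10d8eb0.shift 0 1)] (by decide +kernel))
noncomputable def rh81fa5e29d8b2e2b8 : CRef := CRef.mk (Pat.mk 0x40000003800000010 0x60000003e00000037 4 6) 0 0 (step_sound _ 34 [(rh3244c3cc8379b070.shift 1 1), rhfcb55d5dc3b78d1f] (by decide +kernel))
noncomputable def rh293be33b778343b4 : CRef := CRef.mk (Pat.mk 0x300000007000000000000000400000004 0x1b0000001f000000180000000c00000004 4 5) 0 0 (step_sound _ 99 [rh9c9de8a82d5e4ca8, (rhf48373e13d2bc128.shift 0 3)] (by decide +kernel))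
noncomputable def rh56b1f3275e5bfb30 : CRef := CRef.mk (Pat.mk 0x100000001a0000000c0000000c 0xc0000001f0000001b0000000c0000000c 4 5) 0 0 (step_sound _ 99 [(rh5c5e593799055d58.shift 2 0), rh9cac931137f1cfa0] (by decide +kernel))
noncomputable def rh0877361953863fc7 : CRef := CRef.mk (Pat.mk 0x180000001c00000020 0x180000003f00000067 4 7) 0 0 (step_sound _ 33 [rh372205b881c0ac90, (rh53b3c253cb0c65f4.shift 0 1)] (by decide +kernel))
noncomputable def rhf60085a7356fb2fe : CRef := CRef.mk (Pat.mk 0x20000000e0000000800000008 0x1000000010000000330000001e0000001800000008 4 6) 0 0 (step_sound _ 68 [(rh3244c3cc8379b070.shift 0 2), (rh94246470f0e6fdf7.shift 1 0)] (by decide +kernel))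
noncomputable def rh857b80967ee3d489 : CRef := CRef.mk (Pat.mk 0x1e00000010000000000000000800000008 0x8000000380000001f00000010000000100000001800000008 4 6) 0 0 (step_sound _ 68 [(rh2c9cc6ea898ce072.shift 0 2), (rheea67dfebd0f8008.shift 3 0)] (by decide +kernel))
noncomputable def rhae07e98b348875d7 : CRef := CRef.mk (Pat.mk 0x20000000200000002000000080000000900000000 0x200000002000000020000001b0000000f00000005 4 5) 0 0 (step_sound _ 65 [(rh79877ebd3ef475dd.shift 0 1), rhd4bcee02b78f02c0] (by decide +kernel))
noncomputable def rh2656824f78be4f5b : CRef := CRef.mk (Pat.mk 0x200000003000000080000000b00000000 0x100000003000000030000001a0000000f00000006 4 5) 0 0 (step_sound _ 34 [rh2f544a0a1f62b1e4, (rh33e738c4ed385b9f.shift 0 1)] (by decide +kernel))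
noncomputable def rh72ddbefe89b0241f : CRef := CRef.mk (Pat.mk 0x100000003c00000008 0x1f0000003f00000018 4 6) 0 0 (step_sound _ 65 [(rh3f8766e6ecb455ce.shift 1 1), rhaae8b720d0693dd9] (by decide +kernel))
noncomputable def rh162ca783742f2cda : CRef := CRef.mk (Pat.mk 0x1800000008000000020000000300000001 0x7a0000001f000000020000000300000001 4 7) 0 0 (step_sound _ 97 [(rh0b786d94a31538a6.shift 0 3), rh5c5e593799055d58] (by decide +kernel))
noncomputable def rh6fdd17ee988c81a0 : CRef := CRef.mk (Pat.mk 0x18000000100000001e00000010 0x200000003c0000001f0000001e00000010 4 6) 0 0 (step_sound _ 101 [(rh2f68792b6b779e96.shift 4 0), (rh97a89bdd81429253.shift 0 1)] (by decide +kernel))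
noncomputable def rhbdae503d04582bad : CRef := CRef.mk (Pat.mk 0x40000000000000007000000020000000000000000 0x1000000050000000700000007000000060000000200000002 4 3) 0 0 (step_sound _ 33 [rh261f868a429ae0e3, (rh7451f34b061ea69b.shift 1 1), rhb1a251d9bff81766] (by decide +kernel))
noncomputable def rh115831bebd212858 : CRef := CRef.mk (Pat.mk 0x6000000000000000600000002 0x10000000700000007000000020000000600000006 4 3) 0 0 (step_sound _ 65 [(rh2f68792b6b779e96.shift 1 0), rh3da62da861143b9a] (by decide +kernel))
noncomputable def rha7e001a1a361e023 : CRef := CRef.mk (Pat.mk 0x38000000000000001800000010 0x1f00000078000000080000001800000010 4 7) 0 0 (step_sound _ 131 [(rhf60aa8aede119d3b.shift 0 3), (rhff0f29cb645b05f7.shift 3 0)] (by decide +kernel))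
noncomputable def rh40e2246689cf65bb : CRef := CRef.mk (Pat.mk 0x380000000000000018000000100000000000000000 0x7c0000001f00000018000000100000001000000010 4 7) 0 0 (step_sound _ 131 [(rh08edf065357d68e5.shift 3 0), (rh2820ca9a6c4f41b4.shift 0 4)] (by decide +kernel))
noncomputable def rhbc2b647dbc0ffc03 : CRef := CRef.mk (Pat.mk 0xc000000080000000e0000000c 0x120000001f0000003b0000000e0000000c 4 6) 0 0 (step_sound _ 100 [rh109e2dd7f1c0f217, (rh2f68792b6b779e96.shift 3 0)] (by decide +kernel))
noncomputable def rh492208f1043c36f8 : CRef := CRef.mk (Pat.mk 0xe00000002 0x3e00000077 4 7) 0 0 (step_sound _ 36 [(rh4274f4328cb9f3fd.shift 1 0), rheb0810cc63b001d8] (by decide +kernel))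
noncomputable def rh85beefbe0a175746 : CRef := CRef.mk (Pat.mk 0x180000000a0000000b00000008 0x70000001e0000000b0000000b00000009 4 5) 0 0 (step_sound _ 98 [(rh50fbb5868c909700.shift 2 0), rh6091758768fb3633] (by decide +kernel))
noncomputable def rh45a6c9f32f66a586 : CRef := CRef.mk (Pat.mk 0x160000001000000010 0x8000000380000001f0000003000000010 4 6) 0 0 (step_sound _ 67 [rh2c9cc6ea898ce072, (rhe25b0a99195a5d59.shift 1 1)] (by decide +kernel))
noncomputable def rhd8f1c770aaeb050a : CRef := CRef.mk (Pat.mk 0x4000000180000000b0000000b00000000 0x50000000f000000190000000b0000000b00000002 4 5) 0 0 (step_sound _ 131 [(rh50fbb5868c909700.shift 2 1), rhe48e8affd04084e0] (by decide +kernel))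
noncomputable def rhe53cd0b90f5329a4 : CRef := CRef.mk (Pat.mk 0x200000003000000080000000d00000000 0x100000003000000030000001a0000000f00000003 4 5) 0 0 (step_sound _ 33 [(rh33e738c4ed385b9f.shift 0 1), rhfff8953c7af09ce5] (by decide +kernel))
noncomputable def rh458ab99d1bfd8b30 : CRef := CRef.mk (Pat.mk 0x30000000b000000080000000c00000000 0x1000000030000000f0000001a0000000f00000002 4 5) 0 0 (step_sound _ 68 [rh1e5fe1cb6b536125, (rhc10214bf3fe8094a.shift 0 2)] (by decide +kernel))
noncomputable def rh9ce3a16f91dcd4b0 : CRef := CRef.mk (Pat.mk 0x1c0000001c00000000 0x1c0000007f00000007 4 7) 0 0 (step_sound _ 33 [(rh53b3c253cb0c65f4.shift 0 1), rhf10fa853c2693a25] (by decide +kernel))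
noncomputable def rh97ca5a0d65ac2a87 : CRef := CRef.mk (Pat.mk 0x20000000200000002000000030000000600000003 0x100000003000000030000000200000003000000030000001e00000003 4 5) 0 0 (step_sound _ 35 [rh18965a982d73c794, (rhe62cab2ff5ad6fe2.shift 0 2)] (by decide +kernel))
noncomputable def rhf3decfc5437fae50 : CRef := CRef.mk (Pat.mk 0xa0000000a0000000a0000000a0000000000000000 0xa0000000a0000000a0000000f0000000700000005 4 4) 0 0 (step_sound _ 34 [rh73329e8902d29e57, (rh79877ebd3ef475dd.shift 2 1)] (by decide +kernel))
noncomputable def rhe4c42cf86209de53 : CRef := CRef.mk (Pat.mk 0x190000000b0000000a00000000 0x50000000f000000190000000b0000001e00000010 4 5) 0 0 (step_sound _ 131 [rh8ffd6c73cfd2ea71, (rhb25b922e66da09ef.shift 0 1)] (by decide +kernel))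
noncomputable def rh4d5fe445aa18b8ce : CRef := CRef.mk (Pat.mk 0x300000002000000080000000a00000000 0x100000003000000020000001a0000000f00000005 4 5) 0 0 (step_sound _ 65 [(rh50fbb5868c909700.shift 0 1), rhe8768a83bdb59c61] (by decide +kernel))
noncomputable def rhce5d96c98ad5f8ff : CRef := CRef.mk (Pat.mk 0x7000000010000000400000004 0x2000000020000000200000007000000070000000500000005 4 3) 0 0 (step_sound _ 129 [(rh2613c889e411427e.shift 1 0), rhadf429772c25fde0] (by decide +kernel))
noncomputable def rhd6ce1e450980fc2b : CRef := CRef.mk (Pat.mk 0xe000000000000000800000008 0x40000000f0000007c0000000800000008 4 7) 0 0 (step_sound _ 67 [(rh50fbb5868c909700.shift 2 0), (rhc21a95c499b3efdb.shift 0 2)] (by decide +kernel))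
noncomputable def rh62f2cb24ccadc3b7 : CRef := CRef.mk (Pat.mk 0x78000000180000000000000008 0xc60000007f000000380000000800000008 4 8) 0 0 (step_sound _ 134 [(rh33e738c4ed385b9f.shift 3 3), rh99958e6426785a6d] (by decide +kernel))
noncomputable def rhb539eee60d29bf85 : CRef := CRef.mk (Pat.mk 0x200000002000000120000000200000000 0x200000002000000020000001e0000000700000005 4 5) 0 0 (step_sound _ 32 [rh5e22dec736637a4b, rh932754581e0f4330] (by decide +kernel))
noncomputable def rh50cfa82f61bf1f99 : CRef := CRef.mk (Pat.mk 0x2000000030000000f0000000c 0xc0000001e0000001b0000000f0000000c 4 5) 0 0 (step_sound _ 67 [(rh33e738c4ed385b9f.shift 0 1), rh4ffe0988b9ad5f21] (by decide +kernel))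
noncomputable def rh87cd46f44fe7c0d6 : CRef := CRef.mk (Pat.mk 0xf0000000c 0x780000007f0000000e 4 7) 0 0 (step_sound _ 36 [(rh2612b4f73ba7c3b3.shift 1 0), (rh9462503d16fc4086.shift 1 0), (rh9890f9d77740bbed.shift 0 1)] (by decide +kernel))
noncomputable def rh971dc3c4871dc881 : CRef := CRef.mk (Pat.mk 0x200000002000000020000000a0000000800000000 0x200000002000000020000001e0000000f00000005 4 5) 0 0 (step_sound _ 34 [rh09e3de9652e65ee7, (rhd3458b32566d63f7.shift 1 1)] (by decide +kernel))
noncomputable def rhfb34009a59c70ca1 : CRef := CRef.mk (Pat.mk 0x800000008000000280000003800000000 0x8000000080000003f0000003e00000004 4 6) 0 0 (step_sound _ 34 [(rh7fb660bc21ce4329.shift 0 1), (rh932754581e0f4330.shift 2 0)] (by decide +kernel))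
noncomputable def rh9b260c977cab37ab : CRef := CRef.mk (Pat.mk 0x200000002c00000004 0x370000003e00000006 4 6) 0 0 (step_sound _ 36 [(rh7fb660bc21ce4329.shift 0 1), (rheb0810cc63b001d8.shift 1 0)] (by decide +kernel))
noncomputable def rh3d6f4c573b4653c6 : CRef := CRef.mk (Pat.mk 0xc000000060000000b0000000000000000 0x100000003c0000001e0000000b0000000800000008 4 6) 0 0 (step_sound _ 99 [(rh18965a982d73c794.shift 0 2), (rhf8d29f3cbeaf06f7.shift 1 0)] (by decide +kernel))
noncomputable def rhcb1fef223c62f2ee : CRef := CRef.mk (Pat.mk 0x40000001c0000001c0000000000000000 0x2000000070000001f0000001c0000000400000004 4 5) 0 0 (step_sound _ 97 [(rhb739f4f82bb681b4.shift 0 2), rhe8ba5e25e7c74702] (by decide +kernel))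
noncomputable def rh7f668c601417d6ef : CRef := CRef.mk (Pat.mk 0x140000001c000000040000000000000000 0x2000000370000001e000000040000000400000004 4 6) 0 0 (step_sound _ 97 [(rh33e738c4ed385b9f.shift 1 3), rhe8ba5e25e7c74702] (by decide +kernel))
noncomputable def rhd6fe83ff08837e5a : CRef := CRef.mk (Pat.mk 0xc0000000a0000000a0000000c 0x130000001e0000000b0000000e0000000c 4 5) 0 0 (step_sound _ 100 [rh262161747f515fa0, (rh2f68792b6b779e96.shift 3 0)] (by decide +kernel))
noncomputable def rh78a2812fed4b90af : CRef := CRef.mk (Pat.mk 0x1c0000000a0000000a00000004 0x30000001f0000007a0000001f00000004 4 7) 0 0 (step_sound _ 68 [(rh0b786d94a31538a6.shift 0 1), (rh6292bd8784ece55f.shift 1 2), rhb5b316df1e682d62] (by decide +kernel))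
noncomputable def rh1c598a83d71ae701 : CRef := CRef.mk (Pat.mk 0x8000000080000000a00000004 0x800000008000000780000001f00000004 4 7) 0 0 (step_sound _ 34 [(rh5c5e593799055d58.shift 2 0), (rha11dfd15f08f96e3.shift 0 1)] (by decide +kernel))
noncomputable def rh77556517df5b800d : CRef := CRef.mk (Pat.mk 0x200000008000000070000000200000000 0x2000000020000001a0000001f0000000300000001 4 5) 0 0 (step_sound _ 67 [rh331de7c3a8189cab, (rh33e738c4ed385b9f.shift 0 2)] (by decide +kernel))
noncomputable def rh69aca83be817a68c : CRef := CRef.mk (Pat.mk 0x80000000c00000008000000000000001000000000 0x8000000080000001f00000078000000100000001000000010 4 7) 0 0 (step_sound _ 100 [(rh3b5346b2e316d790.shift 3 0), (rh5c5a2014709044d0.shift 0 3), (rh9d021f793ef14721.shift 3 0)] (by decide +kernel))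
noncomputable def rhf502d5eed419924f : CRef := CRef.mk (Pat.mk 0x20000001a000000020000000200000000 0x50000000f0000001a000000020000000300000001 4 5) 0 0 (step_sound _ 32 [(rh330a005829cdd297.shift 0 1), rh932754581e0f4330] (by decide +kernel))
noncomputable def rh0d65a1675d5ec7ba : CRef := CRef.mk (Pat.mk 0x1c000000020000000800000008 0x40000001f0000003b0000000800000008 4 6) 0 0 (step_sound _ 97 [rh4351f9aef6e5447e, (rheb0810cc63b001d8.shift 0 2)] (by decide +kernel))
noncomputable def rh065c71259074db46 : CRef := CRef.mk (Pat.mk 0x3800000004 0x70000003e00000076 4 7) 0 0 (step_sound _ 34 [rh2ba551de881ca4cd, (rheb0810cc63b001d8.shift 1 0)] (by decide +kernel))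
noncomputable def rh333e7d595dc8b49b : CRef := CRef.mk (Pat.mk 0x1a000000020000000800000008 0x300000001e000000330000001800000008 4 6) 0 0 (step_sound _ 98 [(rh1fbc9fee05401eba.shift 1 0), (rheb0810cc63b001d8.shift 0 2)] (by decide +kernel))
noncomputable def rhf4d867fa86ae1c14 : CRef := CRef.mk (Pat.mk 0x30000000d000000000000000400000004 0x1b0000001f000000180000000c00000004 4 5) 0 0 (step_sound _ 97 [rh1fbc9fee05401eba, (rhf48373e13d2bc128.shift 0 3)] (by decide +kernel))
noncomputable def rh88ceeeeb0cade4fa : CRef := CRef.mk (Pat.mk 0x20000001a0000000200000002 0x40000001f0000003b0000000200000002 4 6) 0 0 (step_sound _ 98 [(rh2f68792b6b779e96.shift 1 0), (rh60c8c357ee95cc83.shift 0 2)] (by decide +kernel))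
noncomputable def rhc033698fcd6a6122 : CRef := CRef.mk (Pat.mk 0x16000000060000000200000002 0x390000003f000000060000000200000002 4 6) 0 0 (step_sound _ 99 [(rh18965a982d73c794.shift 1 2), rh50b5135431ad0103] (by decide +kernel))
noncomputable def rhc04bdb4f52da4841 : CRef := CRef.mk (Pat.mk 0x1c0000001800000000 0x1000000010000000300000001f0000001800000008 4 6) 0 0 (step_sound _ 65 [(rh5ba2d67652840f34.shift 1 0), (rhb739f4f82bb681b4.shift 0 1)] (by decide +kernel))
noncomputable def rh23960e9e60179cb6 : CRef := CRef.mk (Pat.mk 0x80000000a0000000800000008 0x140000003c0000000f0000000800000008 4 6) 0 0 (step_sound _ 100 [(rh2f68792b6b779e96.shift 3 0), rha5ba3fdedad1585e] (by decide +kernel))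
noncomputable def rh5f6e55153a82500a : CRef := CRef.mk (Pat.mk 0x100000001c0000001000000010 0x80000007c0000001f0000001000000010 4 7) 0 0 (step_sound _ 99 [(rh50fbb5868c909700.shift 3 0), (rhd69c262cd33b94b3.shift 0 2)] (by decide +kernel))
noncomputable def rh2e7bc60d2f4d5c8c : CRef := CRef.mk (Pat.mk 0xc0000003c000000180000000800000000 0xc0000003c0000001e0000000f00000006 4 6) 0 0 (step_sound _ 66 [rhd66ee6899528ffc2, (rheb0810cc63b001d8.shift 1 2)] (by decide +kernel))
noncomputable def rh7e006c20120efa8c : CRef := CRef.mk (Pat.mk 0x100000001c000000100000001000000000 0x10000000300000001f000000180000001800000008 4 6) 0 0 (step_sound _ 35 [(rh6e1375cb8442c417.shift 0 1), (rh932754581e0f4330.shift 3 0)] (by decide +kernel))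
noncomputable def rhde521b32de5760db : CRef := CRef.mk (Pat.mk 0xc0000001e0000001a0000000800000000 0xc0000007e0000001a0000000f00000006 4 7) 0 0 (step_sound _ 102 [(rh2fe78cc5ca4405d8.shift 2 3), rh7a5caf50380aa00f] (by decide +kernel))
noncomputable def rh17bd2cd2946d1280 : CRef := CRef.mk (Pat.mk 0x20000000600000016000000000000000000000000 0x400000006000000060000001e000000030000000300000003 4 5) 0 0 (step_sound _ 65 [rh46530d756bdf8511, (rh84d1c02a8954c6a8.shift 1 1), (rh84f01cf2134210c0.shift 0 1)] (by decide +kernel))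
noncomputable def rh0515900207948dc3 : CRef := CRef.mk (Pat.mk 0x4000000080000000b00000008 0x100000001c0000001c000000080000001f00000018 4 5) 0 0 (step_sound _ 99 [rh25b9d14b9f1a6908, (rh50fbb5868c909700.shift 2 0)] (by decide +kernel))
noncomputable def rh1c63ae79d6e8f8cf : CRef := CRef.mk (Pat.mk 0x1a000000020000000200000000 0x4000000070000001e000000030000000200000002 4 5) 0 0 (step_sound _ 98 [rh11acd801a78010b3, (rheb0810cc63b001d8.shift 0 2)] (by decide +kernel))
noncomputable def rhd62f6518548eace3 : CRef := CRef.mk (Pat.mk 0x800000009000000090000000b000000080000000c00000000 0x800000009000000090000001b0000001b0000000f00000002 4 5) 0 0 (step_sound _ 68 [rh9c21902ebdde9648, (rhd3458b32566d63f7.shift 3 2)] (by decide +kernel))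
noncomputable def rh0095e2980a3fdaab : CRef := CRef.mk (Pat.mk 0xe0000001a0000000800000000 0x4000000040000000c0000000e0000001e0000000f00000002 4 5) 0 0 (step_sound _ 130 [rh487d1c85f5a48961, (rha3df16ea9c8576c8.shift 2 1), (rhc89253ff58c66167.shift 2 1), (rhe072fffdd2fccf38.shift 2 1)] (by decide +kernel))
noncomputable def rh30ce7ebb6ec38f49 : CRef := CRef.mk (Pat.mk 0x20000000600000016000000000000000000000000 0x2000000060000001e000000070000000700000006 4 5) 0 0 (step_sound _ 34 [rh983b208f71e94d64, (rh9e07f76261b05888.shift 1 1)] (by decide +kernel))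
noncomputable def rh93efb160633cac86 : CRef := CRef.mk (Pat.mk 0x2000000030000000f00000006 0xc0000001e0000001b0000000f00000006 4 5) 0 0 (step_sound _ 67 [(rh33e738c4ed385b9f.shift 0 1), rhf176be69a1727a7f] (by decide +kernel))
noncomputable def rhe69649f511ed4b04 : CRef := CRef.mk (Pat.mk 0x140000007000000018 0x360000007f0000001c 4 7) 0 0 (step_sound _ 35 [(rheb0810cc63b001d8.shift 2 0), rhf3c0837ef67ba892] (by decide +kernel))
noncomputable def rh1e66368eb2587cec : CRef := CRef.mk (Pat.mk 0x1e0000000800000008 0x10000000300000001e0000003b00000008 4 6) 0 0 (step_sound _ 33 [(rhbbda3e5cf400e6dd.shift 1 0), (rheb0810cc63b001d8.shift 0 1)] (by decide +kernel))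
noncomputable def rh75b88764718332ac : CRef := CRef.mk (Pat.mk 0x18000000180000001000000038 0x40000001f000000380000001e00000078 4 7) 0 0 (step_sound _ 35 [rhc647a25a08ddf0ec, (rhe2b63c00a3d7bb73.shift 1 0)] (by decide +kernel))
noncomputable def rhc83e9ec0799d0336 : CRef := CRef.mk (Pat.mk 0x800000008000000100000003800000000 0x8000000080000003e000000ff00000004 4 8) 0 0 (step_sound _ 67 [(rh5c5a2014709044d0.shift 1 1), rh6fae963f33cfdfd7, (rhe2b63c00a3d7bb73.shift 1 1)] (by decide +kernel))
noncomputable def rh9eee85ee015596a3 : CRef := CRef.mk (Pat.mk 0x60000000c0000000c00000000 0x400000004000000060000003c0000000f00000002 4 6) 0 0 (step_sound _ 68 [rhd188899883dd9128, (rhf48373e13d2bc128.shift 1 2)] (by decide +kernel))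
noncomputable def rhedf200999b964984 : CRef := CRef.mk (Pat.mk 0x200000002000000020000000300000000 0x1000000030000000300000002000000030000000700000004 4 3) 0 0 (step_sound _ 2 [(rhd3458b32566d63f7.shift 1 0), (rhe62cab2ff5ad6fe2.shift 0 1)] (by decide +kernel))
noncomputable def rhc3147fe3ea6a289f : CRef := CRef.mk (Pat.mk 0x1000000038000000280000001800000000 0x100000003c0000002f0000007800000020 4 7) 0 0 (step_sound _ 37 [(rh7b1f1fb55310c477.shift 4 0), (rhec6ca4eaae8a1130.shift 0 1)] (by decide +kernel))
noncomputable def rhcfae0ab48d560436 : CRef := CRef.mk (Pat.mk 0x1e00000002000000000000001c 0x30000001e00000002000000070000001f 4 5) 0 0 (step_sound _ 129 [(rh3244c3cc8379b070.shift 0 3), rh55848bfd9a3ec20d] (by decide +kernel))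
noncomputable def rhe08572ddd8f22032 : CRef := CRef.mk (Pat.mk 0x800000008000000080000001400000000 0x800000008000000080000000f0000003c00000010 4 6) 0 0 (step_sound _ 35 [(rh25903f9c548d38bc.shift 0 1), (rh55afc6a59410cf00.shift 3 0)] (by decide +kernel))
noncomputable def rh1d16fbcfb0a27976 : CRef := CRef.mk (Pat.mk 0x28000000180000001000000010 0x20000000200000002f0000007c0000003000000010 4 7) 0 0 (step_sound _ 69 [(rh69755ef358ebfd54.shift 4 0), (rha9fbfd4bb8cf890b.shift 0 2)] (by decide +kernel))
noncomputable def rh38c8ae4c14db107e : CRef := CRef.mk (Pat.mk 0x80000001800000008000000000000000000000000 0x8000000080000007c0000000f0000000c0000000400000004 4 7) 0 0 (step_sound _ 98 [(rh0bb882ba86b2372d.shift 0 3), (rh281c6819542c66e6.shift 2 0), (rhfafeb437ceb8396d.shift 2 0)] (by decide +kernel))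
noncomputable def rh8d78c49dee8c0e0c : CRef := CRef.mk (Pat.mk 0x8000000180000000800000000 0x400000004000000040000001f0000007c0000000800000008 4 7) 0 0 (step_sound _ 98 [(rh4ca5dae25f5c14ff.shift 0 2), (rhf9a6286f1d5377a2.shift 2 0)] (by decide +kernel))
noncomputable def rhbfb35f0d4f251661 : CRef := CRef.mk (Pat.mk 0x8000000180000000800000000 0x4000000040000000c0000001f000000780000000800000008 4 7) 0 0 (step_sound _ 98 [(rh4ca5dae25f5c14ff.shift 0 2), (rhb1a251d9bff81766.shift 2 0)] (by decide +kernel))
noncomputable def rha2fd40363c1e66d6 : CRef := CRef.mk (Pat.mk 0x1e000000040000001400000000 0x8000000080000001f0000003c0000001400000010 4 6) 0 0 (step_sound _ 68 [rh79954c6cccd1ca69, (rhe25b0a99195a5d59.shift 1 2)] (by decide +kernel))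
noncomputable def rhfaedff4dd69392fa : CRef := CRef.mk (Pat.mk 0x140000001e00000000 0x1c0000007f00000070 4 7) 0 0 (step_sound _ 67 [(rh0cb6a409506b34ea.shift 1 0), (rh53b3c253cb0c65f4.shift 0 1)] (by decide +kernel))
noncomputable def rh88e5d8ffef9aeecb : CRef := CRef.mk (Pat.mk 0x18000000080000000a0000000800000000 0x3c0000001f0000000b0000000800000008 4 6) 0 0 (step_sound _ 98 [(rh16d99c005e546a04.shift 0 2), (rh2d5442cbf338480d.shift 2 0), rh52b3bc442b8c6b35] (by decide +kernel))
noncomputable def rh94ef155844fb36ae : CRef := CRef.mk (Pat.mk 0xa0000000a0000000a0000000c00000000 0xa0000000a0000000b0000001f00000013 4 5) 0 0 (step_sound _ 36 [(rh55afc6a59410cf00.shift 3 0), rh848cc2cf8b37f7fe] (by decide +kernel))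
noncomputable def rhd632969bf26569e4 : CRef := CRef.mk (Pat.mk 0x1c00000002000000020000000200000000 0x30000001e00000003000000030000000300000001 4 5) 0 0 (step_sound _ 129 [rhd9048603f1912b39, (rheb0810cc63b001d8.shift 0 3)] (by decide +kernel))
noncomputable def rhe842e6b8415de155 : CRef := CRef.mk (Pat.mk 0x4000000040000000400000003000000010000000000000000 0x400000006000000060000000700000003000000010000000100000001 4 3) 0 0 (step_sound _ 129 [rh4821dcf828b9d7bf, (rh5c5e593799055d58.shift 1 3)] (by decide +kernel))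
noncomputable def rha784650af9a02bc8 : CRef := CRef.mk (Pat.mk 0x1800000010000000140000001400000000 0x380000001f000000140000001400000014 4 6) 0 0 (step_sound _ 99 [rh236eb15634ba7d7d, (rh7b1f1fb55310c477.shift 3 0)] (by decide +kernel))
noncomputable def rh8ec5b4b95a3b1ed5 : CRef := CRef.mk (Pat.mk 0x1000000030000000080000000800000000 0x100000007c0000000f0000000800000008 4 7) 0 0 (step_sound _ 99 [(rh2820ca9a6c4f41b4.shift 0 2), (rh71222050f2c63a3a.shift 3 0)] (by decide +kernel))
noncomputable def rh034dc94632998acb : CRef := CRef.mk (Pat.mk 0x10000000380000000800000008 0x100000001f0000007c0000000800000008 4 7) 0 0 (step_sound _ 99 [(rh2f68792b6b779e96.shift 3 0), (rha9fbfd4bb8cf890b.shift 0 2)] (by decide +kernel))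
noncomputable def rh1a8d3c4a274ccad8 : CRef := CRef.mk (Pat.mk 0x200000002000000020000000200000002800000008 0x200000002000000020000000300000007c0000000f 4 7) 0 0 (step_sound _ 36 [rh2820ca9a6c4f41b4, (rh79877ebd3ef475dd.shift 4 1)] (by decide +kernel))
noncomputable def rh7c9b66778db0afe8 : CRef := CRef.mk (Pat.mk 0xc0000000a0000000a0000000800000000 0xe0000007e0000000b0000000800000008 4 7) 0 0 (step_sound _ 98 [(rh0127acd528cd93fb.shift 0 2), (rh7b1f1fb55310c477.shift 2 0)] (by decide +kernel))
noncomputable def rh32af4a381a110b23 : CRef := CRef.mk (Pat.mk 0x4000000160000000700000005 0xa0000003e000000360000000700000005 4 6) 0 0 (step_sound _ 97 [rh5c5e593799055d58, (rhfed57f23c5f345ee.shift 1 0)] (by decide +kernel))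
noncomputable def rh44266d646d763f2b : CRef := CRef.mk (Pat.mk 0x380000001c00000010 0x2000000020000000700000003f0000003c00000010 4 7) 0 0 (step_sound _ 66 [(rh49606a42a30c7ac4.shift 2 0), (rhe2b63c00a3d7bb73.shift 0 1)] (by decide +kernel))
noncomputable def rhd14e3bc9eb0a8e4d : CRef := CRef.mk (Pat.mk 0x7000000020000000380000000800000000 0xf00000003f0000007c0000000800000008 4 8) 0 0 (step_sound _ 99 [(rh155fa7b85b00c3f4.shift 3 0), (rh72297cd55a503360.shift 2 3), (rha9fbfd4bb8cf890b.shift 0 2)] (by decide +kernel))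
noncomputable def rh73944ebaffc31344 : CRef := CRef.mk (Pat.mk 0x40000000800000008000000080000000a00000002 0x40000000c00000008000000080000001c0000001e00000003 4 5) 0 0 (step_sound _ 163 [(rh50fbb5868c909700.shift 2 2), rha4709bd9df1d4ef9] (by decide +kernel))
noncomputable def rh4226d4ec3820d08f : CRef := CRef.mk (Pat.mk 0x4000000040000000f00000004 0x600000006000000060000001c0000000f00000004 4 5) 0 0 (step_sound _ 67 [(rh33e738c4ed385b9f.shift 0 1), (rh7b9fbdf6d2d059e4.shift 1 0)] (by decide +kernel))
noncomputable def rh907ed7275486ec25 : CRef := CRef.mk (Pat.mk 0x1c0000001000000010 0x8000000380000001f0000003000000010 4 6) 0 0 (step_sound _ 65 [rh2c9cc6ea898ce072, (rhe25b0a99195a5d59.shift 1 1)] (by decide +kernel))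
noncomputable def rh4d0fd3e3728b9a77 : CRef := CRef.mk (Pat.mk 0x30000000600000000000000080000000800000008 0x130000001e00000018000000180000001800000008 4 5) 0 0 (step_sound _ 132 [(rh2fe78cc5ca4405d8.shift 0 4), (rh9c1db2c8967fb481.shift 3 0)] (by decide +kernel))
noncomputable def rh383598045977c91e : CRef := CRef.mk (Pat.mk 0x1000000004000000140000001c00000000 0x1400000014000000140000003e00000073 4 7) 0 0 (step_sound _ 33 [rh1ae4704ae86cb9a8, (rhaf89196ed7f199b4.shift 1 0)] (by decide +kernel))
noncomputable def rh80d5a76dceac5bf5 : CRef := CRef.mk (Pat.mk 0x800000000000000080000000e0000000000000000 0x800000008000000080000001f0000001c00000010 4 5) 0 0 (step_sound _ 131 [rh0128904edcdedfa8, (rh932754581e0f4330.shift 2 1)] (by decide +kernel))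
noncomputable def rhe0a22e92b2d25ab1 : CRef := CRef.mk (Pat.mk 0x70000000100000001c0000000c0000000000000000 0x780000003e0000001c0000000f0000000400000004 4 7) 0 0 (step_sound _ 64 [(rh24ae073cf30720c4.shift 0 2), (rh53cd150eddcb7e9c.shift 1 0)] (by decide +kernel))
noncomputable def rh70d2b48204a32adc : CRef := CRef.mk (Pat.mk 0x200000007c00000000 0x3c0000007e00000007 4 7) 0 0 (step_sound _ 67 [rh21d582c147e7e118, (rh3244c3cc8379b070.shift 2 1)] (by decide +kernel))
noncomputable def rh8c4d04d42036efdb : CRef := CRef.mk (Pat.mk 0x2000000020000000300000002800000008 0x200000002000000020000000300000007c0000000f 4 7) 0 0 (step_sound _ 36 [rh2820ca9a6c4f41b4, (rh5c5e593799055d58.shift 4 1)] (by decide +kernel))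
noncomputable def rh87989b7190b1af07 : CRef := CRef.mk (Pat.mk 0x40000000f0000000400000000 0x200000002000000060000003e0000003f0000000400000004 4 6) 0 0 (step_sound _ 97 [(rh8c2361c727ab1a01.shift 0 2), (rhb1a251d9bff81766.shift 1 0)] (by decide +kernel))
noncomputable def rhaee7c0b4dc7f00e5 : CRef := CRef.mk (Pat.mk 0x28000000080000000800000000 0x1000000010000000180000007c0000000f0000000800000008 4 7) 0 0 (step_sound _ 100 [(rh215e11e099257d75.shift 3 0), (rh2820ca9a6c4f41b4.shift 0 2)] (by decide +kernel))
noncomputable def rh8ab55b40e69fd43a : CRef := CRef.mk (Pat.mk 0x60000000e000000000000000800000000 0x60000003f000000380000000800000008 4 6) 0 0 (step_sound _ 100 [rh193797501577d6c4, (rhf48373e13d2bc128.shift 1 3)] (by decide +kernel))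
noncomputable def rh0d55e9eacd53618e : CRef := CRef.mk (Pat.mk 0x2000000000000000280000001800000010 0x20000000200000002f0000007c00000010 4 7) 0 0 (step_sound _ 37 [(rha9fbfd4bb8cf890b.shift 0 1), (rhee230b994cc8b773.shift 4 0)] (by decide +kernel))
noncomputable def rh7df5364a3d204f54 : CRef := CRef.mk (Pat.mk 0xa0000000a0000000a0000001400000000 0xa0000000a0000000b0000001f00000013 4 5) 0 0 (step_sound _ 35 [(rh55afc6a59410cf00.shift 3 0), rh848cc2cf8b37f7fe] (by decide +kernel))
noncomputable def rhc3a068eea6cd7f76 : CRef := CRef.mk (Pat.mk 0x200000012000000020000000a0000000a00000008 0x12000000120000001a0000001b0000000f00000008 4 5) 0 0 (step_sound _ 100 [(rh1006c02ae4212ff0.shift 3 0), (rhbfcb47823175afda.shift 0 1)] (by decide +kernel))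
noncomputable def rh24eecd8b5ef368d2 : CRef := CRef.mk (Pat.mk 0x8000000000000001e00000000 0x800000008000000380000001f00000030 4 6) 0 0 (step_sound _ 4 [rha11400879c037ec8, (rhe25b0a99195a5d59.shift 1 0)] (by decide +kernel))
noncomputable def rh87cae43ec75ccfe5 : CRef := CRef.mk (Pat.mk 0x1000000050000000000000007000000000000000000000000 0x5000000050000000500000007000000060000000200000002 4 3) 0 0 (step_sound _ 65 [(rh02ef15e22aa7db92.shift 1 0), (rhff0f29cb645b05f7.shift 0 2)] (by decide +kernel))
noncomputable def rhe2f9df6c3da22a82 : CRef := CRef.mk (Pat.mk 0x200000002000000000000001e00000000 0x10000000300000003000000030000001e00000003 4 5) 0 0 (step_sound _ 65 [(rh3244c3cc8379b070.shift 0 1), rhf6eaec10ea6e7bec] (by decide +kernel))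
noncomputable def rh15bb890f8606eef4 : CRef := CRef.mk (Pat.mk 0x10000000000000001e0000000000000000 0x1000000010000000100000001f0000003800000008 4 6) 0 0 (step_sound _ 36 [rh03341f7b59bafd03, (rhe25b0a99195a5d59.shift 1 1)] (by decide +kernel))
noncomputable def rh28b4d56deb3194fd : CRef := CRef.mk (Pat.mk 0x400000004000000000000001e00000000 0x40000000600000006000000030000001e00000006 4 5) 0 0 (step_sound _ 65 [(rh3244c3cc8379b070.shift 0 1), (rhf00f5d9955b1187a.shift 1 0)] (by decide +kernel))
noncomputable def rhca19ccd73b9f0e62 : CRef := CRef.mk (Pat.mk 0x400000004000000010000000e00000000 0x40000000600000006000000030000001e00000006 4 5) 0 0 (step_sound _ 65 [(rhf00f5d9955b1187a.shift 1 0), (rhf48373e13d2bc128.shift 0 1)] (by decide +kernel))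
noncomputable def rhb716eb9d78c2f1a9 : CRef := CRef.mk (Pat.mk 0x80000000800000002000000060000000200000000 0x1f0000000f00000002000000060000000600000004 4 5) 0 0 (step_sound _ 129 [(rhcad6ab7a21746611.shift 0 1), (rhd4b4beefcd67f51e.shift 1 0)] (by decide +kernel))
noncomputable def rh144b554482559a94 : CRef := CRef.mk (Pat.mk 0x30000000080000000800000008 0x100000007c0000000f0000000800000008 4 7) 0 0 (step_sound _ 99 [(rh2820ca9a6c4f41b4.shift 0 2), (rh2f68792b6b779e96.shift 3 0)] (by decide +kernel))
noncomputable def rh932cfd328bc80f1b : CRef := CRef.mk (Pat.mk 0x8000000080000000200000006000000160000000000000000 0x80000000c00000006000000060000001e0000000300000003 4 5) 0 0 (step_sound _ 130 [(rh1006c02ae4212ff0.shift 2 2), rh5610213daa1b6928] (by decide +kernel))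
noncomputable def rhad70d0fdc149d4f7 : CRef := CRef.mk (Pat.mk 0x20000000200000002000000020000000200000000 0x2000000030000000300000003000000030000000300000002 4 2) 0 0 (step_sound _ 64 [(rh932754581e0f4330.shift 0 1), rhbeb7aa8aa1e01d6a] (by decide +kernel))
noncomputable def rh5185aff44ac7341e : CRef := CRef.mk (Pat.mk 0x800000002000000020000000200000002 0x40000001f00000007000000020000000200000002 4 5) 0 0 (step_sound _ 130 [(rhbaefcd01e0a8bca3.shift 1 0), rhbf39cc8175c2be88] (by decide +kernel))
noncomputable def rh432fa726ab0675ec : CRef := CRef.mk (Pat.mk 0x30000000200000002000000000000000100000000 0x30000000300000002000000070000000700000004 4 3) 0 0 (step_sound _ 65 [(rh79877ebd3ef475dd.shift 0 1), rha613ffd40b6c9d24] (by decide +kernel))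
noncomputable def rh5fb0fd9fb2a32eb5 : CRef := CRef.mk (Pat.mk 0x1000000028000000280000002000000000 0x100000007c0000002f0000002000000020 4 7) 0 0 (step_sound _ 100 [(rh2820ca9a6c4f41b4.shift 0 2), (rh7b1f1fb55310c477.shift 4 0)] (by decide +kernel))
noncomputable def rhd65720eb79fdb844 : CRef := CRef.mk (Pat.mk 0xc0000000e0000000a0000000800000000 0xc0000001e0000000b0000001e00000012 4 5) 0 0 (step_sound _ 64 [(rh18965a982d73c794.shift 0 2), rhe88dd9ec1a6d3b9a] (by decide +kernel))
noncomputable def rh82abf8c4a8761b47 : CRef := CRef.mk (Pat.mk 0x1000000008000000080000000a0000000b00000008 0x18000000180000000c0000000c0000001e0000000b00000008 4 5) 0 0 (step_sound _ 66 [(rh0daa6b2fbb863075.shift 2 0), (rh18965a982d73c794.shift 0 1)] (by decide +kernel))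
noncomputable def rh7e024c044149193a : CRef := CRef.mk (Pat.mk 0x80000000e0000000a0000000800000000 0x80000001e0000000b0000001e00000014 4 5) 0 0 (step_sound _ 64 [rh0c3873a75f5344d2, (rh18965a982d73c794.shift 0 2)] (by decide +kernel))
noncomputable def rh7bc5905cc768f168 : CRef := CRef.mk (Pat.mk 0x80000001a0000000a0000000800000000 0x80000001e0000000b0000001e00000014 4 5) 0 0 (step_sound _ 64 [rh0c3873a75f5344d2, (rhb2a0b9ccfb5cecd5.shift 0 2)] (by decide +kernel))
noncomputable def rh6f071b2982a02fe4 : CRef := CRef.mk (Pat.mk 0x7000000050000000400000000 0x2000000020000000300000007000000050000000500000005 4 3) 0 0 (step_sound _ 129 [rh4821dcf828b9d7bf, (rh7b1f1fb55310c477.shift 1 0)] (by decide +kernel))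
noncomputable def rhfd38024b71f8de68 : CRef := CRef.mk (Pat.mk 0x20000000a0000000a0000000a00000008 0x2000000060000001e0000000b0000000b00000009 4 5) 0 0 (step_sound _ 98 [(rh50fbb5868c909700.shift 2 0), rh91eb5f83fd73c291] (by decide +kernel))
noncomputable def rh70013765feee3903 : CRef := CRef.mk (Pat.mk 0x180000000c0000000000000002000000020000000200000000 0x190000000f0000000300000003000000020000000200000002 4 5) 0 0 (step_sound _ 160 [(rh24ae073cf30720c4.shift 0 5), rhbce148b940337ede] (by decide +kernel))
noncomputable def rhcf49c152420fa38f : CRef := CRef.mk (Pat.mk 0x400000008000000080000001a00000002 0xc0000000c00000008000000380000001e00000003 4 6) 0 0 (step_sound _ 131 [rh33d92b8d5554479f, (rh50fbb5868c909700.shift 2 1)] (by decide +kernel))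
noncomputable def rhea0849f06735466a : CRef := CRef.mk (Pat.mk 0x6000000080000000a0000000a0000000800000000 0x4000000060000000a0000000a0000000b0000001f00000014 4 5) 0 0 (step_sound _ 64 [rh0c3873a75f5344d2, (rhcddd2712883fd9b7.shift 0 1)] (by decide +kernel))
noncomputable def rh5ab4659ad6b2714b : CRef := CRef.mk (Pat.mk 0x3c000000040000003000000018 0x70000003e00000004000000340000001e 4 6) 0 0 (step_sound _ 129 [(rh3f8766e6ecb455ce.shift 1 3), rhb9305a8c0d1114ce] (by decide +kernel))
noncomputable def rh191c76fdc0c0a4dc : CRef := CRef.mk (Pat.mk 0x6000000020000000a0000000a00000000 0x70000003e0000000a0000000a0000000a 4 6) 0 0 (step_sound _ 98 [rh41fb73ed4f2e2426, (rh71222050f2c63a3a.shift 1 0)] (by decide +kernel))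
noncomputable def rh83b79ea19c694d98 : CRef := CRef.mk (Pat.mk 0x200000002000000020000000a0000000000000000 0x200000002000000020000001f0000000700000001 4 5) 0 0 (step_sound _ 66 [rh13104bf9491e5713, (rh55afc6a59410cf00.shift 1 1)] (by decide +kernel))
noncomputable def rhbcd52c91d552d530 : CRef := CRef.mk (Pat.mk 0x800000000000000000000001e00000000 0x800000008000000380000001f00000030 4 6) 0 0 (step_sound _ 68 [(rh33e738c4ed385b9f.shift 1 1), rh7dfbed8b06662aa0] (by decide +kernel))
noncomputable def rh2caa8bc7256d61dc : CRef := CRef.mk (Pat.mk 0x2c000000200000000400000004 0x70000003e000000640000000400000004 4 7) 0 0 (step_sound _ 100 [rh7f9cf53e19811b79, (rhe25b0a99195a5d59.shift 2 2)] (by decide +kernel))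
noncomputable def rh63115c26214a9f23 : CRef := CRef.mk (Pat.mk 0x400000002000000020000000200000000 0x50000000700000007000000020000000200000002 4 3) 0 0 (step_sound _ 1 [rh76a03e5c89c078ed, (rhbaefcd01e0a8bca3.shift 1 0)] (by decide +kernel))
noncomputable def rh292f98a440d92d53 : CRef := CRef.mk (Pat.mk 0x9000000050000000500000004 0x20000000f0000000f000000050000000500000004 4 4) 0 0 (step_sound _ 98 [(rh2f68792b6b779e96.shift 2 0), rhafab112a4c4dda0f] (by decide +kernel))
noncomputable def rha78b327dad5d6a04 : CRef := CRef.mk (Pat.mk 0x20000000200000002000000020000000000000000 0x4000000060000000600000002000000030000000300000001 4 3) 0 0 (step_sound _ 162 [(rh2f68792b6b779e96.shift 1 2), rh8aec56c4ee12918c] (by decide +kernel))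
noncomputable def rh634c2f63f715f226 : CRef := CRef.mk (Pat.mk 0x14000000140000001400000010 0xb0000001e000000340000001400000014 4 6) 0 0 (step_sound _ 99 [(rh50fbb5868c909700.shift 3 0), rhb1e85508c6bcb2d1] (by decide +kernel))
noncomputable def rhab1e46f41215c745 : CRef := CRef.mk (Pat.mk 0x2000000020000000a0000000a000000080000000400000000 0x2000000020000000a0000000b0000000b0000000f00000004 4 4) 0 0 (step_sound _ 2 [rhe6ec9fe470ba90ee, (rheea67dfebd0f8008.shift 2 0)] (by decide +kernel))
noncomputable def rhb1d97d8e0e577eea : CRef := CRef.mk (Pat.mk 0x20000000200000002000000000000000c00000018 0x20000000300000003000000030000000f00000019 4 5) 0 0 (step_sound _ 32 [rh2a3f83f36967c785, rhab22b5b56e7b3243] (by decide +kernel))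
noncomputable def rh8904cf9c30458946 : CRef := CRef.mk (Pat.mk 0x180000000a000000020000000200000000 0x1000000010000001b0000000f000000020000000200000002 4 5) 0 0 (step_sound _ 96 [(rh1c62b6193297d9e3.shift 0 3), rhb1a251d9bff81766] (by decide +kernel))
noncomputable def rh76f960073657fc09 : CRef := CRef.mk (Pat.mk 0x180000000a0000000a0000000a 0x70000001f0000000b0000000a0000000a 4 5) 0 0 (step_sound _ 98 [rh1da0b1a9875f0c00, (rh50fbb5868c909700.shift 2 0)] (by decide +kernel))
noncomputable def rh7fb0735095db9f59 : CRef := CRef.mk (Pat.mk 0x10000000000000000a0000000a00000008 0x1000000010000000380000001e0000000b00000008 4 6) 0 0 (step_sound _ 100 [(rh1006c02ae4212ff0.shift 3 0), (rh31a0fd3913f749ac.shift 0 1)] (by decide +kernel))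
noncomputable def rh375674a65c557bba : CRef := CRef.mk (Pat.mk 0x2000000030000001a0000000a00000008 0x140000001e0000001b0000001a0000000a00000008 4 5) 0 0 (step_sound _ 130 [(rh2f68792b6b779e96.shift 1 1), rh67bf3ab75a8db2ec] (by decide +kernel))
noncomputable def rhe162ec1e3ee087bd : CRef := CRef.mk (Pat.mk 0x2000000030000000a000000020000000000000000 0x3000000030000001e000000030000000300000001 4 5) 0 0 (step_sound _ 98 [rh5192e84255fe3228, (rhf48373e13d2bc128.shift 0 3)] (by decide +kernel))
noncomputable def rh1fe1990399eaff20 : CRef := CRef.mk (Pat.mk 0x80000000c000000080000000800000000 0x100000003c0000000f000000080000000800000008 4 6) 0 0 (step_sound _ 132 [(rh2f68792b6b779e96.shift 3 1), rh52b3bc442b8c6b35] (by decide +kernel))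
noncomputable def rhd98f993cc48297b4 : CRef := CRef.mk (Pat.mk 0x3000000020000000a0000000a0000000800000008 0x40000001f0000001a0000001a0000000a0000000800000008 4 5) 0 0 (step_sound _ 132 [(rh06955937afad4434.shift 0 1), (rhbaefcd01e0a8bca3.shift 3 0)] (by decide +kernel))
noncomputable def rhe0ea504c6b991d52 : CRef := CRef.mk (Pat.mk 0x6000000030000000000000008000000080000000800000010 0x1e0000001b0000001800000008000000080000001800000010 4 5) 0 0 (step_sound _ 131 [(rhd3458b32566d63f7.shift 3 0), (rhec7e4cfff4b058cc.shift 0 1)] (by decide +kernel))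
noncomputable def rh2aea2d122d965746 : CRef := CRef.mk (Pat.mk 0x200000002000000020000000a00000008 0x200000002000000020000001f0000007c 4 7) 0 0 (step_sound _ 34 [(rh55afc6a59410cf00.shift 1 0), rh8ee80cc30e93a344] (by decide +kernel))
noncomputable def rh54b196cf4ecf5778 : CRef := CRef.mk (Pat.mk 0xc00000004000000140000003400000020 0x20000001f0000003c000000140000003400000020 4 6) 0 0 (step_sound _ 129 [(rh50fbb5868c909700.shift 1 1), rh8b20738f4a481673] (by decide +kernel))
noncomputable def rh13cc8d9145f13b6b : CRef := CRef.mk (Pat.mk 0x1000000020000000a0000000a0000000800000008 0x1000000130000001e0000001a0000000a0000000800000008 4 5) 0 0 (step_sound _ 132 [(rh9f8f2b29a33c6e0f.shift 0 1), (rhbaefcd01e0a8bca3.shift 3 0)] (by decide +kernel))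
noncomputable def rh060a1852313b8263 : CRef := CRef.mk (Pat.mk 0x200000002000000020000001a 0x1000000030000000300000002000000030000001f 4 5) 0 0 (step_sound _ 32 [rh5419adcd928dba20, rha77f215723363df0] (by decide +kernel))
noncomputable def rh8e7b99dad8ac09d5 : CRef := CRef.mk (Pat.mk 0x1a0000000a00000008 0x1000000010000000380000001e0000000b00000008 4 6) 0 0 (step_sound _ 66 [(rh49606a42a30c7ac4.shift 1 0), (rheb0810cc63b001d8.shift 0 1)] (by decide +kernel))
noncomputable def rha41236eefcfa9b57 : CRef := CRef.mk (Pat.mk 0x6000000020000000a0000001a00000010 0x1000000030000001f0000000a0000000a0000001a00000010 4 5) 0 0 (step_sound _ 160 [rh26a6677bc6b3a37d, (rhffd04209dc8ea796.shift 0 1)] (by decide +kernel))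
noncomputable def rh00e36127c32ceb4f : CRef := CRef.mk (Pat.mk 0xa0000001a00000012000000030000000000000000 0xa0000001a00000012000000170000001e00000004 4 5) 0 0 (step_sound _ 34 [rh870fecc57b49543c, (rhd3458b32566d63f7.shift 1 1)] (by decide +kernel))
noncomputable def rh6e33ab5aa25752db : CRef := CRef.mk (Pat.mk 0x2000000020000000a0000000200000000 0x200000002000000030000003e0000000600000004 4 6) 0 0 (step_sound _ 34 [(rh55afc6a59410cf00.shift 1 0), (rhb22c07a08b77f466.shift 0 1)] (by decide +kernel))
noncomputable def rha635f467eacf8643 : CRef := CRef.mk (Pat.mk 0x28000000080000003800000008 0x10000000780000000f0000003c00000008 4 7) 0 0 (step_sound _ 100 [(rh2f68792b6b779e96.shift 3 0), (rhba383f90293b839d.shift 0 1)] (by decide +kernel))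
noncomputable def rha57f73c097f86f2b : CRef := CRef.mk (Pat.mk 0x2000000020000000a00000002000000020000000200000000 0x2000000030000003e00000006000000060000000200000002 4 6) 0 0 (step_sound _ 98 [(rh55afc6a59410cf00.shift 1 2), rhfc326055ff4c5110] (by decide +kernel))
noncomputable def rhe8ea5f2a637fddf3 : CRef := CRef.mk (Pat.mk 0x2000000020000000e0000000000000000 0x2000000030000003e0000000700000004 4 6) 0 0 (step_sound _ 68 [rh2e6b473cb45f347f, (rh3244c3cc8379b070.shift 0 2)] (by decide +kernel))
noncomputable def rh8070539ee69ae688 : CRef := CRef.mk (Pat.mk 0x20000000200000002000000120000001000000000 0x20000000200000002000000370000001e00000004 4 6) 0 0 (step_sound _ 34 [rhba5101f68a03814f, (rhd3458b32566d63f7.shift 1 1)] (by decide +kernel))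
noncomputable def rh056788732addd150 : CRef := CRef.mk (Pat.mk 0xa0000000a000000020000001200000010 0xa0000000a0000000a0000001f00000033 4 6) 0 0 (step_sound _ 35 [rh622389d5a53e6e37, (rhff0f29cb645b05f7.shift 3 0)] (by decide +kernel))
noncomputable def rh4c261014b05358ef : CRef := CRef.mk (Pat.mk 0x200000002000000120000001100000000 0x2000000020000003a0000001f00000005 4 6) 0 0 (step_sound _ 33 [rh932754581e0f4330, rhed872fddc4d72821] (by decide +kernel))
noncomputable def rh0c5b5e98d743188f : CRef := CRef.mk (Pat.mk 0x1a0000001a000000120000000600000000 0x1a0000001a0000001a0000001f00000019 4 5) 0 0 (step_sound _ 36 [(rh7b1f1fb55310c477.shift 3 0), rhba606863b5a24b18] (by decide +kernel))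
noncomputable def rhb5986f28c05a4f3a : CRef := CRef.mk (Pat.mk 0x60000001e00000000 0x3e0000001f00000038 4 6) 0 0 (step_sound _ 68 [(rh33e738c4ed385b9f.shift 1 1), rhc7ab6ff7fed296ae] (by decide +kernel))
noncomputable def rh881531014c0789fb : CRef := CRef.mk (Pat.mk 0x80000000800000008000000030000001000000000 0x800000008000000080000001b0000001e00000014 4 5) 0 0 (step_sound _ 67 [rh2abc0c2990dfbd23, (rhd3458b32566d63f7.shift 3 1)] (by decide +kernel))
noncomputable def rh33fc227eb92896a4 : CRef := CRef.mk (Pat.mk 0xa0000000a000000020000001100000010 0xa0000001a0000001e0000001b00000011 4 5) 0 0 (step_sound _ 33 [rh8fe9e6590f9f8f49, rh932754581e0f4330] (by decide +kernel))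
noncomputable def rh1189c60906519afd : CRef := CRef.mk (Pat.mk 0x20000000a0000000a000000020000001000000010 0x20000000a0000001a0000001f0000001c00000010 4 5) 0 0 (step_sound _ 66 [(rh55afc6a59410cf00.shift 1 1), rh8482ecef5fb8c625] (by decide +kernel))
noncomputable def rh0d41b5929f428e99 : CRef := CRef.mk (Pat.mk 0xf000000040000000000000000 0x8000000180000000f0000001c0000000400000004 4 5) 0 0 (step_sound _ 67 [rh34b1188e635efc8d, (rhe25b0a99195a5d59.shift 0 2)] (by decide +kernel))
noncomputable def rh0a5277e23879c9de : CRef := CRef.mk (Pat.mk 0x20000000a0000000a000000020000001000000010 0x20000000a0000000a0000000f0000001e00000030 4 6) 0 0 (step_sound _ 34 [rh218211d2f85bab41, (rhd3458b32566d63f7.shift 1 1)] (by decide +kernel))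
noncomputable def rh66079a9ea4188942 : CRef := CRef.mk (Pat.mk 0x2000000020000000a0000000a000000000000000000000010 0x2000000020000000b0000001e000000340000001000000010 4 6) 0 0 (step_sound _ 98 [(rh55afc6a59410cf00.shift 1 2), rhf58a4d0f3dcf418c] (by decide +kernel))
noncomputable def rh9348db714d399ad7 : CRef := CRef.mk (Pat.mk 0x400000004000000000000000e000000180000000000000000 0x400000016000000330000001e0000001b0000000800000008 4 6) 0 0 (step_sound _ 100 [(rh34b1188e635efc8d.shift 1 0), (rheb505ef94539da28.shift 0 2)] (by decide +kernel))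
noncomputable def rhaeb6e39a4f45dd68 : CRef := CRef.mk (Pat.mk 0x7000000030000000400000004 0x180000001f0000001b0000000c00000004 4 5) 0 0 (step_sound _ 99 [(rh18965a982d73c794.shift 0 2), rh9c9de8a82d5e4ca8] (by decide +kernel))
noncomputable def rh5275446c61cecf1b : CRef := CRef.mk (Pat.mk 0x400000004000000100000001a00000000 0x400000006000000330000001e00000003 4 6) 0 0 (step_sound _ 34 [(rh33e738c4ed385b9f.shift 1 1), rheb505ef94539da28] (by decide +kernel))
noncomputable def rh1e5b32304cb1377e : CRef := CRef.mk (Pat.mk 0x400000004000000040000001400000000 0x400000004000000070000003e0000000a 4 6) 0 0 (step_sound _ 35 [(rh55afc6a59410cf00.shift 2 0), rhfa8c7f01b0685da6] (by decide +kernel))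
noncomputable def rha970c75d37f8ff40 : CRef := CRef.mk (Pat.mk 0x800000008000000080000000c 0x800000008000000080000007c0000001f 4 7) 0 0 (step_sound _ 36 [rh0bb882ba86b2372d, (rh518d6f6eeebddcb2.shift 2 0), (rha9a8e846eaf7b675.shift 1 0)] (by decide +kernel))
noncomputable def rhe4d90ce7a82e1a53 : CRef := CRef.mk (Pat.mk 0x1a0000001a0000000200000000 0x70000003f0000001a0000000200000002 4 6) 0 0 (step_sound _ 98 [(rhb739f4f82bb681b4.shift 0 2), rhf77beb34d2f35d2d] (by decide +kernel))
noncomputable def rhf6cc3bca7fd67107 : CRef := CRef.mk (Pat.mk 0x1a000000020000000200000000 0x70000003e000000030000000200000002 4 6) 0 0 (step_sound _ 98 [(rheb0810cc63b001d8.shift 0 2), rhf77beb34d2f35d2d] (by decide +kernel))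
noncomputable def rh3ec4be2ba1ab21f4 : CRef := CRef.mk (Pat.mk 0x20000000b0000000f0000000e0000000000000000 0x180000001e0000000b0000000f0000000e0000000200000002 4 5) 0 0 (step_sound _ 33 [(rh6ca9ab4dec5e9e3c.shift 0 2), rh7b1f1fb55310c477] (by decide +kernel))
noncomputable def rh204f82f8a7f1a371 : CRef := CRef.mk (Pat.mk 0x1c0000001800000010 0x3f0000001f00000030 4 6) 0 0 (step_sound _ 65 [rh83e8cf56ff216dad, (rhb739f4f82bb681b4.shift 0 1)] (by decide +kernel))
noncomputable def rha8d0bf7048b21769 : CRef := CRef.mk (Pat.mk 0x40000001e0000000c0000000000000000 0x40000001e0000003f0000000300000002 4 6) 0 0 (step_sound _ 65 [(rheb0810cc63b001d8.shift 0 2), rhf32f861d69cb038f] (by decide +kernel))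
noncomputable def rh1eb98654cd6fa330 : CRef := CRef.mk (Pat.mk 0x100000001a0000001e000000000000000000000000 0x340000001e0000001e000000030000000200000002 4 6) 0 0 (step_sound _ 130 [(rh33e738c4ed385b9f.shift 1 4), rh9a011a4d0ec8f646] (by decide +kernel))
noncomputable def rh36ba762ebee57178 : CRef := CRef.mk (Pat.mk 0x40000001c0000001e0000000000000000 0x2000000070000001f0000001e0000000400000004 4 5) 0 0 (step_sound _ 97 [(rh3244c3cc8379b070.shift 0 2), rhe8ba5e25e7c74702] (by decide +kernel))
noncomputable def rh38347c51c779f6ed : CRef := CRef.mk (Pat.mk 0x10000000100000001e 0x300000001f0000003f 4 6) 0 0 (step_sound _ 35 [rh53b3c253cb0c65f4, rh9c14e3cb4927e8b1] (by decide +kernel))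
noncomputable def rh84c6ea69d5090d99 : CRef := CRef.mk (Pat.mk 0x1a0000001e0000000000000000 0x2000000030000001e0000003e0000000400000004 4 6) 0 0 (step_sound _ 98 [rh38a0850c9fea941e, (rhf48373e13d2bc128.shift 1 2)] (by decide +kernel))
noncomputable def rh93e8fe2ae070d0cb : CRef := CRef.mk (Pat.mk 0x80000001e000000080000000000000000 0x8000000080000003e0000000f0000000400000004 4 6) 0 0 (step_sound _ 65 [(rh42c913fde21eca20.shift 1 0), (rheb0810cc63b001d8.shift 0 2)] (by decide +kernel))
noncomputable def rh07aca0bcb8448107 : CRef := CRef.mk (Pat.mk 0x80000001e000000080000000000000000 0x80000000b0000007e0000000e0000000400000004 4 7) 0 0 (step_sound _ 129 [(rh264949414700eca3.shift 1 0), (rh3244c3cc8379b070.shift 0 3)] (by decide +kernel))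
noncomputable def rhadfe5ab2c92776e3 : CRef := CRef.mk (Pat.mk 0x600000002000000060000000200000000 0x3000000030000000700000006000000060000000200000002 4 3) 0 0 (step_sound _ 98 [(rh71222050f2c63a3a.shift 1 0), (rh7b9fbdf6d2d059e4.shift 0 1)] (by decide +kernel))
noncomputable def rhccac3f9c8caee45e : CRef := CRef.mk (Pat.mk 0x40000000e000000100000000000000000 0x4000000040000000c0000000f000000180000000800000008 4 5) 0 0 (step_sound _ 67 [(rha40d42a2e34c408d.shift 2 0), (rhb739f4f82bb681b4.shift 0 2)] (by decide +kernel))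
noncomputable def rh26b0866c012c17a4 : CRef := CRef.mk (Pat.mk 0x400000007c000000200000000000000000 0x470000007e000000300000002000000020 4 7) 0 0 (step_sound _ 37 [(rh71222050f2c63a3a.shift 5 0), (rhd1d05263fabc0227.shift 0 2)] (by decide +kernel))
noncomputable def rh3777a3542158374f : CRef := CRef.mk (Pat.mk 0x1800000018000000100000001800000000 0x100000001800000018000000380000001f00000004 4 6) 0 0 (step_sound _ 67 [(rh5c5e593799055d58.shift 3 1), rh6fae963f33cfdfd7] (by decide +kernel))
noncomputable def rh14f0bd2dbea76b43 : CRef := CRef.mk (Pat.mk 0x4000000080000000c0000000a 0xc0000000c000000080000003c0000000f 4 6) 0 0 (step_sound _ 99 [(rh50fbb5868c909700.shift 2 0), rhef4c033451a9838c] (by decide +kernel))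
noncomputable def rh7aeb5dd0e973b740 : CRef := CRef.mk (Pat.mk 0x80000000c0000000a00000008 0x1800000018000000180000003c0000000f00000008 4 6) 0 0 (step_sound _ 34 [(rh5fa50b509d4ce753.shift 2 0), (rhf9d36e158778ce35.shift 0 1)] (by decide +kernel))
noncomputable def rhf5b2efd978155053 : CRef := CRef.mk (Pat.mk 0xc0000000e0000000a0000000800000000 0xc0000000e0000000b0000001e00000016 4 5) 0 0 (step_sound _ 33 [rh11a243992b58ed44, (rh71222050f2c63a3a.shift 1 0)] (by decide +kernel))
noncomputable def rhc01662bd1036beb8 : CRef := CRef.mk (Pat.mk 0xc0000000e0000000b0000000000000000 0xc0000000e0000000b0000001e0000001a 4 5) 0 0 (step_sound _ 35 [(rh7b1f1fb55310c477.shift 2 0), rhe88dd9ec1a6d3b9a] (by decide +kernel))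
noncomputable def rh343d335c0d96ff4e : CRef := CRef.mk (Pat.mk 0x6000000060000000b0000000300000000 0x60000000e0000000b0000001f0000001c 4 5) 0 0 (step_sound _ 34 [(rh55afc6a59410cf00.shift 1 0), rhe859282db680a715] (by decide +kernel))
noncomputable def rh40dfdc6f98d3f7a5 : CRef := CRef.mk (Pat.mk 0xc000000060000000a00000000 0x4000000040000003c0000000f0000000a00000008 4 6) 0 0 (step_sound _ 130 [(rh5c5e593799055d58.shift 1 1), rhd39a05d45e46beec] (by decide +kernel))
noncomputable def rhbc28e4fe7a5d86d6 : CRef := CRef.mk (Pat.mk 0x1000000030000000180000002800000000 0x10000000300000007c0000002f00000020 4 7) 0 0 (step_sound _ 69 [(rh2820ca9a6c4f41b4.shift 0 1), (rh7b1f1fb55310c477.shift 4 0)] (by decide +kernel))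
noncomputable def rha5f24c89d51c7855 : CRef := CRef.mk (Pat.mk 0xd0000000c00000008 0x1800000018000000180000000f0000000c0000000c 4 5) 0 0 (step_sound _ 99 [(rh503dd4575245365b.shift 2 0), (rh769be3fe24eee174.shift 2 0), rh7e143111a189f2ad] (by decide +kernel))
noncomputable def rhc111b7216b72d2fb : CRef := CRef.mk (Pat.mk 0xf000000000000000400000000 0x8000000180000000f0000001c0000000400000004 4 5) 0 0 (step_sound _ 67 [(rhe25b0a99195a5d59.shift 0 2), rhfb08427eb4ea3628] (by decide +kernel))
noncomputable def rh68ea42903d7a7e03 : CRef := CRef.mk (Pat.mk 0x1e000000060000000a0000000000000000 0x100000001e0000003e0000000b0000000800000008 4 6) 0 0 (step_sound _ 100 [rh47a4a16823380241, (rhe25b0a99195a5d59.shift 1 3)] (by decide +kernel))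
noncomputable def rhaf11573d62e172ac : CRef := CRef.mk (Pat.mk 0xc000000060000000b0000000200000000 0xc0000001e0000000b0000001e00000018 4 5) 0 0 (step_sound _ 99 [(rh18965a982d73c794.shift 0 2), rh59d0aa10d09b9b49] (by decide +kernel))
noncomputable def rh9f12fa405e36b051 : CRef := CRef.mk (Pat.mk 0x100000000800000008000000080000000a00000002 0x100000001800000008000000080000001c0000001e00000003 4 5) 0 0 (step_sound _ 163 [(rh2f68792b6b779e96.shift 3 2), rha4709bd9df1d4ef9] (by decide +kernel))
noncomputable def rhe7f4f9551833c17b : CRef := CRef.mk (Pat.mk 0x400000004000000000000003c00000002 0x400000006000000730000003e00000002 4 7) 0 0 (step_sound _ 69 [rh0361a9aa5553e85b, (rh33e738c4ed385b9f.shift 2 1)] (by decide +kernel))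
noncomputable def rh61b2e0e2428d5638 : CRef := CRef.mk (Pat.mk 0x800000008000000080000000e00000002 0x800000008000000080000000e0000007e00000003 4 7) 0 0 (step_sound _ 66 [rh0127acd528cd93fb, (rh5c5e593799055d58.shift 2 1)] (by decide +kernel))
noncomputable def rha328890dc6ff34c6 : CRef := CRef.mk (Pat.mk 0x8000000040000000400000007 0xc0000000c000000040000003e0000000f 4 6) 0 0 (step_sound _ 98 [(rh2f68792b6b779e96.shift 2 0), rh6f1c63b4eccb343b] (by decide +kernel))
noncomputable def rhec56f430ca5e7051 : CRef := CRef.mk (Pat.mk 0x1c00000002000000020000000200000000 0x70000001e00000002000000030000000300000001 4 5) 0 0 (step_sound _ 129 [(rh2f68792b6b779e96.shift 1 1), rhd9048603f1912b39] (by decide +kernel))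
noncomputable def rh30f9fdac5a2aaf35 : CRef := CRef.mk (Pat.mk 0x8000000280000000800000004 0x800000008000000780000001f00000004 4 7) 0 0 (step_sound _ 34 [(rh5c5e593799055d58.shift 2 0), (rhcadd85ff2a73e8c7.shift 0 1)] (by decide +kernel))
noncomputable def rh73c42531adaf2c9a : CRef := CRef.mk (Pat.mk 0x80000000a000000080000000800000000 0x100000003c0000000f000000080000000800000008 4 6) 0 0 (step_sound _ 132 [(rh2f68792b6b779e96.shift 3 1), rhef137b4c3b2b13d5] (by decide +kernel))
noncomputable def rh055331f574142fff : CRef := CRef.mk (Pat.mk 0x6000000010000000500000001 0x2000000020000000600000007000000050000000500000005 4 3) 0 0 (step_sound _ 129 [rh1006c02ae4212ff0, (rh95a80f84f48ac358.shift 1 0)] (by decide +kernel))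
noncomputable def rh26d3c8e348470fe9 : CRef := CRef.mk (Pat.mk 0x30000000180000000c0000000400000004 0x2000000320000001e0000000f0000000600000004 4 6) 0 0 (step_sound _ 65 [(rh3ce632961d69a8e7.shift 1 0), (rh53b3c253cb0c65f4.shift 0 2)] (by decide +kernel))
noncomputable def rh1e083b2718dab40e : CRef := CRef.mk (Pat.mk 0x1a000000060000000200000000 0x6000000070000001e000000060000000600000006 4 5) 0 0 (step_sound _ 98 [(rh84d1c02a8954c6a8.shift 1 0), rha7149f89a51ff247] (by decide +kernel))
noncomputable def rh5ee4a2c5b412d957 : CRef := CRef.mk (Pat.mk 0x80000001c000000380000000000000000 0x80000003c0000003f0000000700000004 4 6) 0 0 (step_sound _ 66 [(rh4dc133ee0ba1420a.shift 0 2), (rh9c40a739b57d6d20.shift 1 0), (rhcc2be1f880c5ea3e.shift 0 1)] (by decide +kernel))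
noncomputable def rhe1d7b89b539c0d0e : CRef := CRef.mk (Pat.mk 0x2000000020000000200000002 0x50000000700000007000000020000000200000002 4 3) 0 0 (step_sound _ 130 [(rhbaefcd01e0a8bca3.shift 1 0), rhc1897dcc52446b96] (by decide +kernel))
noncomputable def rh95520c767fb5ad95 : CRef := CRef.mk (Pat.mk 0x8000000000000000f00000000 0x800000008000000180000001f00000038 4 6) 0 0 (step_sound _ 67 [(rh33e738c4ed385b9f.shift 0 1), rh5e044f2a7fe8917d] (by decide +kernel))
noncomputable def rh384f358b9353a6bd : CRef := CRef.mk (Pat.mk 0x4000000000000000e000000010000000000000000 0x400000004000000040000001e000000070000000200000002 4 5) 0 0 (step_sound _ 65 [(rh02ef15e22aa7db92.shift 1 0), (rh18965a982d73c794.shift 0 2)] (by decide +kernel))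
noncomputable def rhe34c2a4bad6c590c : CRef := CRef.mk (Pat.mk 0x10000000100000001e00000000 0x1000000010000000100000003e0000002f 4 6) 0 0 (step_sound _ 132 [rh6c5b90ba2a83bd67, (rh932754581e0f4330.shift 3 0)] (by decide +kernel))
noncomputable def rhb730f1529b3f9bbe : CRef := CRef.mk (Pat.mk 0x800000000000000060000001e00000000 0x8000000080000003e0000001f00000030 4 6) 0 0 (step_sound _ 68 [rh0fdf8d3c475e26a4, (rh33e738c4ed385b9f.shift 1 1)] (by decide +kernel))
noncomputable def rh5b0dbee318df315e : CRef := CRef.mk (Pat.mk 0x1e00000006000000020000000000000000 0x30000001e00000006000000060000000600000006 4 5) 0 0 (step_sound _ 161 [(rh3244c3cc8379b070.shift 0 4), (rh4053c12da95c0aa0.shift 1 0)] (by decide +kernel))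
noncomputable def rhb1f11fdfc32eb594 : CRef := CRef.mk (Pat.mk 0x4000000140000000400000004 0xa0000000f0000003c0000000400000004 4 6) 0 0 (step_sound _ 97 [(rh50fbb5868c909700.shift 1 0), rh917163f1880c874a] (by decide +kernel))
noncomputable def rh0886b62f7b9b89bc : CRef := CRef.mk (Pat.mk 0x60000000a00000002 0x1f0000007e00000003 4 7) 0 0 (step_sound _ 36 [rh01e48cd9f335aa73, rh1210e962428a2e05, (rh83ec37ff6e78b01f.shift 0 1)] (by decide +kernel))
noncomputable def rhdf1883e877820e72 : CRef := CRef.mk (Pat.mk 0xe00000008000000020000000200000000 0xf0000003e000000030000000200000002 4 6) 0 0 (step_sound _ 100 [rh3820aa2231c97288, (rhb739f4f82bb681b4.shift 0 3)] (by decide +kernel))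
noncomputable def rh6f2fcdf9cb354735 : CRef := CRef.mk (Pat.mk 0x20000000d000000050000000500000000 0x8000000080000001e0000000f000000050000000500000001 4 5) 0 0 (step_sound _ 97 [(rh49606a42a30c7ac4.shift 0 1), rh71222050f2c63a3a] (by decide +kernel))
noncomputable def rh31d1c76bc3cbcdc5 : CRef := CRef.mk (Pat.mk 0x2000000060000001a0000000a00000008 0x11000000130000001e0000001a0000001a00000008 4 5) 0 0 (step_sound _ 128 [rh50182613d7c6aafc, (rh50fbb5868c909700.shift 0 1)] (by decide +kernel))
noncomputable def rh2d8763047f9d51f6 : CRef := CRef.mk (Pat.mk 0x20000001f00000000 0x60000007f0000001e 4 7) 0 0 (step_sound _ 37 [(rh3f8766e6ecb455ce.shift 1 1), rhc4a7e630329de108] (by decide +kernel))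
noncomputable def rhb3c9533f45f83bb3 : CRef := CRef.mk (Pat.mk 0x1c000000100000000400000014 0x670000003e000000140000001400000014 4 7) 0 0 (step_sound _ 101 [(rh63bb75a038171f49.shift 2 0), rh7f9cf53e19811b79] (by decide +kernel))
noncomputable def rhb4e0cb6c5e508224 : CRef := CRef.mk (Pat.mk 0xf00000004000000000000000400000000 0x8000000080000000f0000001c0000000c0000000400000004 4 5) 0 0 (step_sound _ 99 [(rh580df77fe152422b.shift 2 0), (rhe25b0a99195a5d59.shift 0 3)] (by decide +kernel))
noncomputable def rh9b3fa22109589eb0 : CRef := CRef.mk (Pat.mk 0x40000000c000000080000000200000002 0x40000001f0000007a0000000200000002 4 7) 0 0 (step_sound _ 97 [(rh04253f50b6dd0619.shift 1 0), (rh8ee80cc30e93a344.shift 0 2)] (by decide +kernel))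
noncomputable def rhac917a7a6fd43377 : CRef := CRef.mk (Pat.mk 0x30000000100000001000000000000000000000000 0x2000000030000000300000001000000030000000300000002 4 2) 0 0 (step_sound _ 64 [(rh2f68792b6b779e96.shift 0 2), rh999c66e1f1e798df] (by decide +kernel))
noncomputable def rh9847b492d4cb1fe4 : CRef := CRef.mk (Pat.mk 0x2000000060000000200000002 0x1000000070000000700000006000000060000000600000002 4 3) 0 0 (step_sound _ 129 [(rh44f453b84f013105.shift 1 0), (rh812b908590c67662.shift 0 1)] (by decide +kernel))
noncomputable def rh218cd2e070c414fb : CRef := CRef.mk (Pat.mk 0x2000000060000000200000002000000000000000000000000 0x2000000060000000600000003000000070000000700000004 4 3) 0 0 (step_sound _ 65 [(rh7928877f9bf74a91.shift 0 1), (rh8c3839f9b9075f23.shift 1 0)] (by decide +kernel))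
noncomputable def rh1d87b4e963406cc8 : CRef := CRef.mk (Pat.mk 0x200000002000000060000000200000002 0x3000000030000000700000006000000060000000200000002 4 3) 0 0 (step_sound _ 98 [(rh2f68792b6b779e96.shift 1 0), (rh90b823c913a425e8.shift 0 1)] (by decide +kernel))
noncomputable def rh1db71118bee297d0 : CRef := CRef.mk (Pat.mk 0x2000000020000000600000002 0x4000000070000000700000003000000060000000600000002 4 3) 0 0 (step_sound _ 129 [rh3ca48e2a6d60153d, (rh73f605273a09a9d0.shift 1 1)] (by decide +kernel))
noncomputable def rh2fb7851f2066c386 : CRef := CRef.mk (Pat.mk 0x180000001e000000000000000000000000 0x8000000180000001e000000330000001000000010 4 6) 0 0 (step_sound _ 64 [(rh80fcd6d0a18cb2dd.shift 0 2), (rhbbe16ff26f7822db.shift 1 0)] (by decide +kernel))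
noncomputable def rh9a9da32be8ed85a7 : CRef := CRef.mk (Pat.mk 0x140000001c000000140000000000000000 0x4000000140000001c0000003f0000000f0000000a 4 6) 0 0 (step_sound _ 67 [(rh3ebc98c19791ad58.shift 2 0), rh59671bed9a6cba8c, (rhcd81cb1eedf15ca5.shift 0 1)] (by decide +kernel))
noncomputable def rh98b477c1d1c885aa : CRef := CRef.mk (Pat.mk 0x40000001c00000018000000000000000000000000 0xc0000003c0000003f000000060000000600000004 4 6) 0 0 (step_sound _ 98 [(rhab2ad169e49f9c5e.shift 0 3), (rhb24a71b8e8f17f47.shift 1 0)] (by decide +kernel))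
noncomputable def rhf222870040a7c7c5 : CRef := CRef.mk (Pat.mk 0x340000001c0000000800000000 0x6000000060000003c0000001c0000000f00000002 4 6) 0 0 (step_sound _ 130 [rh0e7b8fbdca9cff95, (rh2145e1d24b96a57e.shift 2 1)] (by decide +kernel))
noncomputable def rh07b37f185ca779be : CRef := CRef.mk (Pat.mk 0x20000001a0000000e00000008 0x600000006000000070000001e0000000e00000008 4 5) 0 0 (step_sound _ 66 [(rh3244c3cc8379b070.shift 0 2), (rh4f89f797aa397115.shift 1 0)] (by decide +kernel))
noncomputable def rh3b3c5f0896cd3517 : CRef := CRef.mk (Pat.mk 0xc000000180000000800000000 0x400000004000000040000000f0000001c0000000800000008 4 5) 0 0 (step_sound _ 96 [(rhab22b5b56e7b3243.shift 0 2), (rhf9a6286f1d5377a2.shift 2 0)] (by decide +kernel))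
noncomputable def rh53e5c1cd464022b3 : CRef := CRef.mk (Pat.mk 0x70000000c0000000400000000 0xe0000001e000000070000000c0000000c00000008 4 5) 0 0 (step_sound _ 130 [(rh4017de503635a93b.shift 0 1), (rhd4b4beefcd67f51e.shift 2 0)] (by decide +kernel))
noncomputable def rhc3acf276632c9051 : CRef := CRef.mk (Pat.mk 0x40000000c000000040000000e00000000 0x80000000c0000000c0000000f0000003e00000030 4 6) 0 0 (step_sound _ 131 [rh0839eefd3cc00e67, (rh2f68792b6b779e96.shift 2 1)] (by decide +kernel))
noncomputable def rhceadcece2e06eb7f : CRef := CRef.mk (Pat.mk 0x200000006000000120000000000000000 0x600000006000000060000001e0000000700000007 4 5) 0 0 (step_sound _ 33 [rh6e79e3444505d7e6, (rha707fb719e87fe6e.shift 1 0)] (by decide +kernel))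
noncomputable def rh5a26ed1c01b25f18 : CRef := CRef.mk (Pat.mk 0x2000000030000000200000002000000000000000000000000 0x2000000030000000300000006000000070000000700000001 4 3) 0 0 (step_sound _ 65 [rh1f3a6ba70a310ab1, (rhd29a1fb688eae70f.shift 1 1)] (by decide +kernel))
noncomputable def rh4b961a3659b5c1c1 : CRef := CRef.mk (Pat.mk 0x1e000000180000000000000000 0x10000000330000001e000000180000000800000008 4 6) 0 0 (step_sound _ 128 [(rh34b1188e635efc8d.shift 1 0), (rh3f8766e6ecb455ce.shift 0 3)] (by decide +kernel))
noncomputable def rhbbbd93658923a9ea : CRef := CRef.mk (Pat.mk 0x20000001e000000020000000200000000 0x20000001f0000003e0000000300000001 4 6) 0 0 (step_sound _ 32 [(rh187ba29792d1fcb7.shift 0 1), rh932754581e0f4330] (by decide +kernel))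
noncomputable def rh904704d491079fa0 : CRef := CRef.mk (Pat.mk 0x1800000018000000080000003800000000 0x1800000018000000380000003f00000024 4 6) 0 0 (step_sound _ 34 [rh63c89f625da04790, (rh932754581e0f4330.shift 2 0)] (by decide +kernel))
noncomputable def rhb508637072eea9c2 : CRef := CRef.mk (Pat.mk 0x200000002000000020000000e00000000 0x2000000020000007e0000003f00000071 4 7) 0 0 (step_sound _ 36 [(rh35e918dd76851f8c.shift 1 0), (rh60e95adc726bb530.shift 1 0), rh736ad3523bdf45b7] (by decide +kernel))
noncomputable def rhc9f2430cd24d42d7 : CRef := CRef.mk (Pat.mk 0x200000002000000020000000e00000000 0x2000000020000003a0000001f00000039 4 6) 0 0 (step_sound _ 32 [rh35e918dd76851f8c, rh932754581e0f4330] (by decide +kernel))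
noncomputable def rh70342c075ca5d2a1 : CRef := CRef.mk (Pat.mk 0x20000000a000000010000000700000000 0xa0000000a0000003b0000001f0000003c 4 6) 0 0 (step_sound _ 35 [rh0eb7cf27b8728940, rh35e918dd76851f8c, rhbccd7d98031f7fb9] (by decide +kernel))
noncomputable def rh531cacad9958d8ca : CRef := CRef.mk (Pat.mk 0x1e000000180000000000000000 0x10000000300000001e0000001b0000000800000008 4 6) 0 0 (step_sound _ 64 [(rh34b1188e635efc8d.shift 1 0), (rh80fcd6d0a18cb2dd.shift 0 2)] (by decide +kernel))
noncomputable def rh1b27b9187a4eb1ec : CRef := CRef.mk (Pat.mk 0x10000000100000001e000000100000000000000000 0x20000000380000001f0000001e000000100000001000000010 4 6) 0 0 (step_sound _ 131 [(rh3cb04db3dd2b6a55.shift 3 0), (rhf9bd4bdd448a5193.shift 0 2)] (by decide +kernel))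
noncomputable def rha00d5fd66c277a7a : CRef := CRef.mk (Pat.mk 0x20000000e0000001a0000000000000000 0x40000000e0000000e0000001e0000000b0000000b 4 5) 0 0 (step_sound _ 130 [(rh7e1098702e50f2b0.shift 2 0), rhe58a7845769190f3, (rhea7a1800d6f053bd.shift 1 0)] (by decide +kernel))
noncomputable def rhf4ff9e08276e1750 : CRef := CRef.mk (Pat.mk 0xf0000000d000000000000000000000000 0x1c0000000f0000000f000000180000001800000008 4 5) 0 0 (step_sound _ 163 [(rh33e738c4ed385b9f.shift 0 4), rha85076c68f1f3e46] (by decide +kernel))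
noncomputable def rh15f2c4b4eb9acae9 : CRef := CRef.mk (Pat.mk 0x8000000180000000c00000000 0x80000000800000008000000180000001f00000014 4 5) 0 0 (step_sound _ 32 [(rh24ae073cf30720c4.shift 0 1), (rhbb339bb7e4e96b38.shift 2 0)] (by decide +kernel))
noncomputable def rhaf7f6e8c35513447 : CRef := CRef.mk (Pat.mk 0x40000000c000000180000000c0000000000000000 0x40000000c0000001c0000001f0000003300000010 4 6) 0 0 (step_sound _ 65 [(rh53b3c253cb0c65f4.shift 0 2), rh6273c82fcf2ee2f3] (by decide +kernel))
noncomputable def rhbc1d8a6d7ec99b28 : CRef := CRef.mk (Pat.mk 0x140000001c000000040000000000000000 0x1400000014000000140000001c0000001f0000000a00000008 4 5) 0 0 (step_sound _ 67 [(rh3af54b5f78790764.shift 0 1), (rh3ebc98c19791ad58.shift 2 0), (rhcf80391c5046a495.shift 3 0)] (by decide +kernel))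
noncomputable def rh9b0758b4b74a6645 : CRef := CRef.mk (Pat.mk 0x4000000020000000600000006000000000000000000000000 0x4000000060000000600000006000000030000000300000003 4 3) 0 0 (step_sound _ 65 [(rhbaefcd01e0a8bca3.shift 1 2), rhbb83b53687587fb2] (by decide +kernel))
noncomputable def rha8ca8b4e49361e06 : CRef := CRef.mk (Pat.mk 0x80000000b00000008000000000000000000000000 0x10000000180000000f000000080000001c0000001c00000014 4 5) 0 0 (step_sound _ 67 [(rh3181373a30ceb9e3.shift 2 0), (rhddcd04bb31546311.shift 0 2)] (by decide +kernel))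
noncomputable def rh8f45cf598832e136 : CRef := CRef.mk (Pat.mk 0x30000000800000008000000080000000000000000 0x1c0000001f0000001800000008000000180000001800000010 4 5) 0 0 (step_sound _ 163 [(rhb563636add13c44e.shift 0 2), (rhec588a0d7783acc6.shift 3 0), (rheca207e390c8f755.shift 0 2)] (by decide +kernel))
noncomputable def rh01ef892b7b4a6cf4 : CRef := CRef.mk (Pat.mk 0x1000000010000000b0000000f000000000000000000000000 0x2000000030000000b0000000b0000000f0000001c0000000400000004 4 5) 0 0 (step_sound _ 67 [rh1aca9ac1f25d6127, (rhe25b0a99195a5d59.shift 0 2)] (by decide +kernel))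
noncomputable def rh9bb455da33111465 : CRef := CRef.mk (Pat.mk 0x600000016000000000000000000000000 0x4000000070000001e000000030000000200000002 4 5) 0 0 (step_sound _ 99 [(rh3244c3cc8379b070.shift 0 3), rh9a011a4d0ec8f646] (by decide +kernel))
noncomputable def rhc9986520d3323e56 : CRef := CRef.mk (Pat.mk 0x1000000020000000600000006000000000000000000000000 0x1000000030000000600000006000000030000000300000003 4 3) 0 0 (step_sound _ 65 [rhbb83b53687587fb2, (rhffd04209dc8ea796.shift 0 2)] (by decide +kernel))
noncomputable def rhc2638b18262e5471 : CRef := CRef.mk (Pat.mk 0x3000000030000000200000001 0x6000000060000000600000003000000030000000300000001 4 3) 0 0 (step_sound _ 129 [(rh5fa50b509d4ce753.shift 0 1), rh9e3edb185cc347de] (by decide +kernel))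
noncomputable def rhe3465b3d36b3aa2f : CRef := CRef.mk (Pat.mk 0x18000000180000001800000018 0x40000001f0000001f000000780000001e 4 7) 0 0 (step_sound _ 65 [(rh2bdebcdaacf9cb3d.shift 1 0), (rh39f426ebe0691969.shift 0 1), rh9cac931137f1cfa0] (by decide +kernel))
noncomputable def rhc88670001f015565 : CRef := CRef.mk (Pat.mk 0x40000000c000000080000001c00000000 0x40000000f0000007c0000001f00000003 4 7) 0 0 (step_sound _ 68 [(rhab2ad169e49f9c5e.shift 0 1), rhbedc17f53a3d22d1, (rhdeca8db941583de2.shift 0 2)] (by decide +kernel))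
noncomputable def rh5d4854bc4abcd7d3 : CRef := CRef.mk (Pat.mk 0x1800000018000000100000000000000000 0x80000001800000018000000380000001f0000000c00000008 4 6) 0 0 (step_sound _ 67 [(rhea7a1800d6f053bd.shift 3 0), (rhfba219b2ab1310a3.shift 0 1)] (by decide +kernel))
noncomputable def rha4ea59bf6dd353dc : CRef := CRef.mk (Pat.mk 0xc0000000f000000030000000000000000 0xc0000000f0000001f0000001800000018 4 5) 0 0 (step_sound _ 67 [rh4315e95d631a9818, (rhe25b0a99195a5d59.shift 0 2)] (by decide +kernel))
noncomputable def rhfe5a22e59d96e86a : CRef := CRef.mk (Pat.mk 0x40000003800000010 0x60000003e00000037 4 6) 0 0 (step_sound _ 34 [(rh3244c3cc8379b070.shift 1 1), rhb2432c16363a7e8d] (by decide +kernel))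
noncomputable def rhcae8a2fac9277962 : CRef := CRef.mk (Pat.mk 0x5000000040000000080000001c00000000 0x50000000500000007e0000007f00000060 4 7) 0 0 (step_sound _ 37 [(rh0a92ced11df7295e.shift 2 0), rh356351e5e00d71eb, (rhe3060b190bc0bc78.shift 1 1)] (by decide +kernel))
noncomputable def rh78cee31f8d2cacac : CRef := CRef.mk (Pat.mk 0x12000000080000000b00000009 0x170000001e0000000a0000000b00000009 4 5) 0 0 (step_sound _ 99 [(rh2f68792b6b779e96.shift 3 0), rh7df5ace0d109a2c8] (by decide +kernel))
noncomputable def rh174091987c79fdcd : CRef := CRef.mk (Pat.mk 0x12000000080000000800000008 0x140000001f000000380000000800000008 4 6) 0 0 (step_sound _ 99 [(rh2f68792b6b779e96.shift 3 0), rh56f53cc8b1f93b99] (by decide +kernel))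
noncomputable def rh51573b6314c3db61 : CRef := CRef.mk (Pat.mk 0x20000000100000001000000010000000000000000 0x2000000030000000300000001000000030000000300000002 4 2) 0 0 (step_sound _ 32 [rh588c730e4dc12811, (rhbaefcd01e0a8bca3.shift 0 1)] (by decide +kernel))
noncomputable def rh9d174b0015e1ad19 : CRef := CRef.mk (Pat.mk 0x80000001800000009000000000000000000000000 0x800000008000000180000000f0000000c0000000400000004 4 5) 0 0 (step_sound _ 98 [(rh24ae073cf30720c4.shift 0 3), (rh281c6819542c66e6.shift 2 0)] (by decide +kernel))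
noncomputable def rh8d3a297c774b7bae : CRef := CRef.mk (Pat.mk 0x8000000180000000900000000 0x80000000800000008000000180000001f00000014 4 5) 0 0 (step_sound _ 34 [(rh24ae073cf30720c4.shift 0 1), (rhbb339bb7e4e96b38.shift 2 0)] (by decide +kernel))
noncomputable def rha301ac20cab67f14 : CRef := CRef.mk (Pat.mk 0xb000000080000000800000008000000000000000000000000 0xf0000001800000018000000180000001c0000001c00000004 4 5) 0 0 (step_sound _ 67 [rh8f81cb0b6fd9ca05, (rhd29a1fb688eae70f.shift 3 1)] (by decide +kernel))
noncomputable def rh85c21c815b0eebe9 : CRef := CRef.mk (Pat.mk 0xb0000000900000009000000080000000000000000 0xf0000001b0000000f0000001e0000001200000002 4 5) 0 0 (step_sound _ 97 [(rh51e51e8d2827a2be.shift 0 3), (rh5f11ee373cbffcaa.shift 0 1), rhf1aa495fbd784339] (by decide +kernel))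
noncomputable def rh38e5c1466cbaf724 : CRef := CRef.mk (Pat.mk 0xb0000000900000009000000080000000000000000 0xf0000001b0000000f0000001e0000000600000002 4 5) 0 0 (step_sound _ 97 [rh472c3da4898be877, (rh51e51e8d2827a2be.shift 0 3), (rhabf575676fe0ef70.shift 0 2)] (by decide +kernel))
noncomputable def rha13b9c0a2f2b60cd : CRef := CRef.mk (Pat.mk 0xb000000080000000800000008000000000000000000000000 0xf00000018000000180000000c0000001c0000001c00000010 4 5) 0 0 (step_sound _ 67 [rh3fd938282bb2e1e8, (rh7928877f9bf74a91.shift 2 1)] (by decide +kernel))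
noncomputable def rhf7368754ecc653c9 : CRef := CRef.mk (Pat.mk 0x8000000080000000900000010 0x800000008000000180000001f0000001c 4 5) 0 0 (step_sound _ 131 [rh0210b65b723b6dc8, (rhd3458b32566d63f7.shift 3 0)] (by decide +kernel))
noncomputable def rh49e63ed25cffb9b6 : CRef := CRef.mk (Pat.mk 0x800000008000000090000001000000000 0x8000000080000000f0000001e00000014 4 5) 0 0 (step_sound _ 35 [(rh55afc6a59410cf00.shift 3 0), rh6b91fec65d08eb0f] (by decide +kernel))
noncomputable def rh89a7bf8f08a4d3f0 : CRef := CRef.mk (Pat.mk 0x1e0000004a0000000200000000 0x170000001e0000007a0000000f0000000c 4 7) 0 0 (step_sound _ 35 [(rh261f868a429ae0e3.shift 2 0), rh4bf79d8885cef4a2] (by decide +kernel))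
noncomputable def rh2eac2498fadf2c61 : CRef := CRef.mk (Pat.mk 0x1e00000002000000020000000000000000 0x30000001e00000002000000070000000700000005 4 5) 0 0 (step_sound _ 161 [rh3181373a30ceb9e3, (rh3244c3cc8379b070.shift 0 4)] (by decide +kernel))
noncomputable def rhd5c83ac304b29784 : CRef := CRef.mk (Pat.mk 0x1e00000002000000020000000000000000 0x70000001e00000002000000030000000300000001 4 5) 0 0 (step_sound _ 33 [(rh2f68792b6b779e96.shift 1 1), rha8098973813043ea] (by decide +kernel))
noncomputable def rhd1f95657bcbb399e : CRef := CRef.mk (Pat.mk 0x1e000000020000000000000000 0x4000000070000003e000000020000000200000002 4 6) 0 0 (step_sound _ 129 [(rh3244c3cc8379b070.shift 0 3), (rh7c44f8de8ceba237.shift 1 0)] (by decide +kernel))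
noncomputable def rh8a20ca1b5ac6e588 : CRef := CRef.mk (Pat.mk 0x600000006000000040000000600000000 0x40000000600000006000000070000003e00000008 4 6) 0 0 (step_sound _ 35 [(rh55afc6a59410cf00.shift 2 0), (rh5dbf98ab059c5a22.shift 0 1)] (by decide +kernel))
noncomputable def rh4f45ae9129c0c822 : CRef := CRef.mk (Pat.mk 0x1800000008000000100000001800000000 0x100000001800000008000000380000001f00000004 4 6) 0 0 (step_sound _ 67 [(rh2f68792b6b779e96.shift 3 1), rh6fae963f33cfdfd7] (by decide +kernel))
noncomputable def rhafd7e43aad9bac8b : CRef := CRef.mk (Pat.mk 0xa0000000b000000020000000200000000 0xa0000000a0000000b0000001e0000000600000004 4 5) 0 0 (step_sound _ 34 [(rh55afc6a59410cf00.shift 1 0), (rhfb3bc5848474ac0d.shift 0 1)] (by decide +kernel))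
noncomputable def rhfc60cf662bc146cb : CRef := CRef.mk (Pat.mk 0x20000000b0000000300000000 0x200000002000000020000001b0000001f00000004 4 5) 0 0 (step_sound _ 129 [rh509847d0837ffcc5, (rh5c5e593799055d58.shift 0 1)] (by decide +kernel))
noncomputable def rh5b42d230652d96f8 : CRef := CRef.mk (Pat.mk 0xc0000000c000000040000000400000000 0x20000000f0000003c000000040000000c00000008 4 6) 0 0 (step_sound _ 3 [(rhcf85c92937975d4d.shift 0 1), (rhd3458b32566d63f7.shift 2 0)] (by decide +kernel))
noncomputable def rhcd18ca68bbf0da6e : CRef := CRef.mk (Pat.mk 0x100000001a00000038000000000000000000000000 0x100000001b0000003f000000700000002000000020 4 7) 0 0 (step_sound _ 69 [(rh79ad7b82ec8c35e2.shift 4 0), (rh95ce53963b10250e.shift 0 2)] (by decide +kernel))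
noncomputable def rh992b6aa0d62e15e3 : CRef := CRef.mk (Pat.mk 0x20000000e0000001a0000000000000000 0x400000004000000060000000e0000001e0000000b0000000b 4 5) 0 0 (step_sound _ 130 [(rh5d54cb79a67f97ab.shift 2 0), rhe58a7845769190f3, (rhea7a1800d6f053bd.shift 1 0)] (by decide +kernel))
noncomputable def rh589343d0e5aa03f1 : CRef := CRef.mk (Pat.mk 0x4000000060000000e000000000000000200000000 0x4000000060000000f0000003c0000000e00000006 4 6) 0 0 (step_sound _ 66 [(rhc1ae51bfba5f1e57.shift 0 1), (rhe437f081bfcdb831.shift 1 0)] (by decide +kernel))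
noncomputable def rh1a7f741d6c5a91ec : CRef := CRef.mk (Pat.mk 0x1e0000001a0000000800000000 0x4000000070000001e0000001e0000000f00000002 4 5) 0 0 (step_sound _ 129 [(rh3244c3cc8379b070.shift 0 3), rh9840497ad487be8d] (by decide +kernel))
noncomputable def rh5002fd5ca5291a69 : CRef := CRef.mk (Pat.mk 0xa0000001e000000000000000000000000 0x20000000a0000003e000000070000000400000004 4 6) 0 0 (step_sound _ 65 [(rh318cdda39fd482c1.shift 1 0), (rheb0810cc63b001d8.shift 0 2)] (by decide +kernel))
noncomputable def rhba645c87a2f1b337 : CRef := CRef.mk (Pat.mk 0x20000001a0000000a000000000000000000000000 0x2000000020000003b0000001e000000060000000400000004 4 6) 0 0 (step_sound _ 98 [(rh5ec015d369888aae.shift 0 3), (rha768b229dc254047.shift 1 0)] (by decide +kernel))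
noncomputable def rh9025223dca583e9f : CRef := CRef.mk (Pat.mk 0x20000000200000002000000000000000000000000 0x100000003000000030000000300000003000000070000000700000005 4 3) 0 0 (step_sound _ 65 [(rh0fd870c734e6c513.shift 0 1), rh3181373a30ceb9e3, rhcae87bda2c3c01d2] (by decide +kernel))
noncomputable def rh6ad50b7aa9c37b6a : CRef := CRef.mk (Pat.mk 0x180000003c000000200000000000000000 0x1f0000003f000000200000002000000020 4 6) 0 0 (step_sound _ 5 [(rh9e07f76261b05888.shift 4 0), (rhcda410b351c20b9b.shift 0 3)] (by decide +kernel))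
noncomputable def rh4d4dbfb784103e7f : CRef := CRef.mk (Pat.mk 0xc0000001e000000020000000200000000 0xa0000000f0000001e000000060000000600000004 4 5) 0 0 (step_sound _ 129 [(rh3244c3cc8379b070.shift 0 3), (rh62be5c716da4c399.shift 1 0)] (by decide +kernel))
noncomputable def rh70cfad7a15d735cc : CRef := CRef.mk (Pat.mk 0x4000000060000000600000000 0x40000000400000004000000070000003e00000008 4 6) 0 0 (step_sound _ 130 [rh36d4d92ef3dad5f8, (rh5c5e593799055d58.shift 1 1)] (by decide +kernel))
noncomputable def rhd6531bef82e24fd2 : CRef := CRef.mk (Pat.mk 0x600000006000000000000000e00000000 0x70000003e000000080000000f0000007c 4 7) 0 0 (step_sound _ 3 [rh73af02fed8a1a372, rhc21a95c499b3efdb] (by decide +kernel))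
noncomputable def rh07fbf0f6557fba82 : CRef := CRef.mk (Pat.mk 0x1800000018000000000000003800000000 0x1c000000f8000000e70000007e0000002f 4 8) 0 0 (step_sound _ 34 [(rh24245ef5f19ae4cb.shift 2 0), rh2cc7d62e70c02209, (rhdd4fe9fd28ed4c0f.shift 1 0)] (by decide +kernel))
noncomputable def rh63c1829c38829c44 : CRef := CRef.mk (Pat.mk 0x1800000018000000000000003800000000 0x1c000000f8000000270000003e00000077 4 8) 0 0 (step_sound _ 34 [rh2ba551de881ca4cd, rh2cc7d62e70c02209, (rh46ec3e016fcab74a.shift 2 0), rh8195a2d7794c7cd2] (by decide +kernel))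
noncomputable def rhe773f5a8d58253f2 : CRef := CRef.mk (Pat.mk 0x1c00000000 0xf00000007e000000ef 4 8) 0 0 (step_sound _ 37 [rh2c1baeadcd4b32f5, (rh35e918dd76851f8c.shift 2 0), (rh8db7f7558b75b2b1.shift 1 0)] (by decide +kernel))
noncomputable def rh3097e1ab2069af80 : CRef := CRef.mk (Pat.mk 0x1000000010000000000000003800000000 0x1000000030000000670000003e00000067 4 7) 0 0 (step_sound _ 34 [rh2cc7d62e70c02209, (rh6797c410c820e91e.shift 2 0)] (by decide +kernel))
noncomputable def rh4f9790ca635104b3 : CRef := CRef.mk (Pat.mk 0x3800000000 0xe70000007e0000007e 4 8) 0 0 (step_sound _ 34 [rh2ba551de881ca4cd, (rhdd4fe9fd28ed4c0f.shift 1 0)] (by decide +kernel))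
noncomputable def rh0b00437bea36af96 : CRef := CRef.mk (Pat.mk 0x1600000006000000000000000e00000000 0x170000003e000000300000003e0000007f 4 7) 0 0 (step_sound _ 36 [rh83a66e7255dec210, rh8db7f7558b75b2b1] (by decide +kernel))
noncomputable def rh1cadd69c0a759449 : CRef := CRef.mk (Pat.mk 0x1000000010000000000000003800000000 0x1000000030000000e00000007e0000007f 4 8) 0 0 (step_sound _ 34 [(rh6797c410c820e91e.shift 2 0), rh8195a2d7794c7cd2, (rhdd4fe9fd28ed4c0f.shift 1 0)] (by decide +kernel))
noncomputable def rh208c73c66d2a62cd : CRef := CRef.mk (Pat.mk 0x600000006000000020000000000000000 0x300000003000000030000000600000006000000060000000600000006 4 3) 0 0 (step_sound _ 161 [(rh55a1f6c57a317ce6.shift 1 1), (rh90b823c913a425e8.shift 0 2), (rhf57bd6481b8b2ca7.shift 1 0)] (by decide +kernel))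
noncomputable def rh10a02da165ab67e1 : CRef := CRef.mk (Pat.mk 0x1000000018000000080000001c00000000 0x100000003c0000001f0000007c00000060 4 7) 0 0 (step_sound _ 66 [(rh23bcc2d6a6c0f37c.shift 2 0), (rh557b120f072744ca.shift 0 2), (rh79b3c29022acbdf3.shift 1 1)] (by decide +kernel))
noncomputable def rh2c94cac119825510 : CRef := CRef.mk (Pat.mk 0x80000001800000038000000000000000000000000 0x80000001f0000003f000000070000000400000004 4 6) 0 0 (step_sound _ 98 [(rh0e1512cbacfbd48b.shift 0 2), (rhcda410b351c20b9b.shift 0 3), (rhd1474a84c69f0140.shift 1 0)] (by decide +kernel))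
noncomputable def rh23070a1f15e38fa9 : CRef := CRef.mk (Pat.mk 0x180000003800000000 0xf8000000ff00000007 4 8) 0 0 (step_sound _ 34 [rh0e1512cbacfbd48b, (rhab2ad169e49f9c5e.shift 0 1), (rhb31f6f32a56ccabd.shift 2 1)] (by decide +kernel))
noncomputable def rh30a4868b309e476b : CRef := CRef.mk (Pat.mk 0x6000000060000000e0000000000000000 0x6000000060000000f0000003c0000000c 4 6) 0 0 (step_sound _ 34 [(rh7b1f1fb55310c477.shift 1 0), rhc1ae51bfba5f1e57] (by decide +kernel))
noncomputable def rh88f33f0d9b55649e : CRef := CRef.mk (Pat.mk 0xa000000030000000d000000000000000000000000 0x80000000a0000001f0000001f000000040000000400000004 4 5) 0 0 (step_sound _ 97 [rhc498cab64f6f6c1e, (rhf48373e13d2bc128.shift 0 3)] (by decide +kernel))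
noncomputable def rh7b587c2c8034e3e1 : CRef := CRef.mk (Pat.mk 0xc0000000c00000016000000000000000000000000 0xc0000001e0000001e000000330000001200000012 4 6) 0 0 (step_sound _ 99 [(rhd132b680030c88e0.shift 1 0), rhd1474a84c69f0140] (by decide +kernel))
noncomputable def rh7d6ffcd81296fb9c : CRef := CRef.mk (Pat.mk 0x8000000180000002c000000000000000000000000 0x80000001f0000003f000000070000000400000004 4 6) 0 0 (step_sound _ 100 [(rh0e1512cbacfbd48b.shift 0 2), (rhcda410b351c20b9b.shift 0 3), (rhd1474a84c69f0140.shift 1 0)] (by decide +kernel))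
noncomputable def rh4cbff558d965cd2c : CRef := CRef.mk (Pat.mk 0xa0000000300000007000000000000000000000000 0x80000000a0000001f0000001f000000040000000400000004 4 5) 0 0 (step_sound _ 99 [rhc498cab64f6f6c1e, (rhf48373e13d2bc128.shift 0 3)] (by decide +kernel))
noncomputable def rh439bf0635d7fe455 : CRef := CRef.mk (Pat.mk 0x10000000060000000e00000000 0x1000000010000000360000003f00000038 4 6) 0 0 (step_sound _ 36 [rh7137c5f4ed615661, (rhf48373e13d2bc128.shift 1 1)] (by decide +kernel))
noncomputable def rh101a15b0de2c271e : CRef := CRef.mk (Pat.mk 0x40000000e000000080000000000000000 0x40000001f000000780000000800000008 4 7) 0 0 (step_sound _ 3 [(rh8ee80cc30e93a344.shift 0 2), (rh9e07f76261b05888.shift 2 0)] (by decide +kernel))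
noncomputable def rh73b2bd5cd3a6f807 : CRef := CRef.mk (Pat.mk 0x180000003800000020 0x180000003f00000067 4 7) 0 0 (step_sound _ 34 [rh0e1512cbacfbd48b, (rhe25b0a99195a5d59.shift 2 0)] (by decide +kernel))
noncomputable def rh631daf01e256bd58 : CRef := CRef.mk (Pat.mk 0xc0000000c000000040000000e00000000 0x20000000e0000000c0000000f0000003e00000030 4 6) 0 0 (step_sound _ 129 [rh0839eefd3cc00e67, (rh50fbb5868c909700.shift 1 1)] (by decide +kernel))
noncomputable def rhee2ff9d90efa8c59 : CRef := CRef.mk (Pat.mk 0x8000000000000003800000000 0x8000000080000000f0000007e00000077 4 7) 0 0 (step_sound _ 34 [rh2ba551de881ca4cd, rh2cc7d62e70c02209, rh8195a2d7794c7cd2, (rhab8fac7c98d4cbba.shift 1 0)] (by decide +kernel))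
noncomputable def rh0789fb5060e9c65e : CRef := CRef.mk (Pat.mk 0x1c00000000 0xe00000007e000000ff 4 8) 0 0 (step_sound _ 37 [(rh35e918dd76851f8c.shift 2 0), rh8195a2d7794c7cd2, (rh8db7f7558b75b2b1.shift 1 0), (rhdd4fe9fd28ed4c0f.shift 1 0)] (by decide +kernel))
noncomputable def rh7f22250bd2200f62 : CRef := CRef.mk (Pat.mk 0x180000001e000000000000000800000000 0x180000001e000000330000001800000018 4 6) 0 0 (step_sound _ 64 [(rh80fcd6d0a18cb2dd.shift 0 2), (rhdc461deccfb05432.shift 1 0)] (by decide +kernel))
noncomputable def rh6789f6f2074baf8a : CRef := CRef.mk (Pat.mk 0x800000038000000080000000800000000 0x40000001f00000038000000080000000c00000004 4 6) 0 0 (step_sound _ 2 [(rh79877ebd3ef475dd.shift 2 0), (rh79905f95cb2d899a.shift 0 1)] (by decide +kernel))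
noncomputable def rh442739a4e83bb21b : CRef := CRef.mk (Pat.mk 0xe0000001a0000000200000000 0x1000000030000001e0000001e0000000300000001 4 5) 0 0 (step_sound _ 32 [(rhb2a0b9ccfb5cecd5.shift 0 1), rhf81f683ce2bac988] (by decide +kernel))
noncomputable def rhbdecaeed4a59cb58 : CRef := CRef.mk (Pat.mk 0x200000002000000020000000600000000 0x1000000030000000300000002000000060000000700000001 4 3) 0 0 (step_sound _ 0 [(rh65909b08999dc522.shift 0 1), rh79877ebd3ef475dd] (by decide +kernel))
noncomputable def rhdbc400e79194dff9 : CRef := CRef.mk (Pat.mk 0x2000000020000000200000006 0x40000000700000007000000020000000600000006 4 3) 0 0 (step_sound _ 96 [rh50fbb5868c909700, (rh73f605273a09a9d0.shift 1 0)] (by decide +kernel))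
noncomputable def rh3851deeccfe01e45 : CRef := CRef.mk (Pat.mk 0x8000000180000000a000000000000000000000000 0x800000008000000180000000f0000000c0000000400000004 4 5) 0 0 (step_sound _ 98 [(rh281c6819542c66e6.shift 2 0), (rh53b3c253cb0c65f4.shift 0 3)] (by decide +kernel))
noncomputable def rh5b34634c0415f4c9 : CRef := CRef.mk (Pat.mk 0x8000000080000000e00000000 0x800000008000000780000001f00000004 4 7) 0 0 (step_sound _ 2 [(rh5c5e593799055d58.shift 2 0), (rha11dfd15f08f96e3.shift 0 1)] (by decide +kernel))
noncomputable def rh6cf4c37417009e6c : CRef := CRef.mk (Pat.mk 0x10000000100000001c0000000000000000 0x10000000300000001f0000003800000008 4 6) 0 0 (step_sound _ 65 [(rh33e738c4ed385b9f.shift 1 2), rh6de56787cc1605b6] (by decide +kernel))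
noncomputable def rh523f9e75314c8231 : CRef := CRef.mk (Pat.mk 0x8000000080000000e00000000 0x800000008000000180000001f00000038 4 6) 0 0 (step_sound _ 32 [(rh33e738c4ed385b9f.shift 0 1), rh5e044f2a7fe8917d] (by decide +kernel))
noncomputable def rh3df8ed82c9c6fdfc : CRef := CRef.mk (Pat.mk 0x4000000040000000c000000300000000000000000 0x40000000c0000001f000000380000000800000008 4 6) 0 0 (step_sound _ 97 [rh979411b26c167c02, (rhd6e447e81774439e.shift 1 2)] (by decide +kernel))
noncomputable def rh23891cd3704c2248 : CRef := CRef.mk (Pat.mk 0x9000000080000000800000008 0x100000001c0000001f000000080000000800000008 4 5) 0 0 (step_sound _ 98 [(rh50fbb5868c909700.shift 2 0), rh5a0eebbb8f6c4318] (by decide +kernel))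
noncomputable def rhee5195e1d3b9776d : CRef := CRef.mk (Pat.mk 0x1000000090000000b000000080000000c0000000000000000 0x10000000b0000000b0000000a0000001f0000001a00000010 4 5) 0 0 (step_sound _ 36 [(rhd3458b32566d63f7.shift 3 1), rhe868cd39a7646675] (by decide +kernel))
noncomputable def rh607b2fb0b48170ae : CRef := CRef.mk (Pat.mk 0x9000000090000000800000008 0x140000001f0000001b0000000800000008 4 5) 0 0 (step_sound _ 98 [(rh50fbb5868c909700.shift 2 0), rh841ce78b9b40bcf3] (by decide +kernel))
noncomputable def rhaa12a0717d8bf97a : CRef := CRef.mk (Pat.mk 0x1000000016000000100000000000000000 0x10000000300000001f000000180000000800000008 4 6) 0 0 (step_sound _ 99 [(rh33e738c4ed385b9f.shift 1 3), rh525b9792321e9079] (by decide +kernel))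
noncomputable def rh5db3055cb1477846 : CRef := CRef.mk (Pat.mk 0x10000000100000003000000000000000800000018 0x10000000300000003000000020000001f0000007a 4 7) 0 0 (step_sound _ 33 [rh3b5346b2e316d790, rh9ebd639649ea671c] (by decide +kernel))
noncomputable def rh808be1e307eb79cb : CRef := CRef.mk (Pat.mk 0x20000000200000016000000100000001000000018 0x20000001600000016000000340000001f0000001c 4 6) 0 0 (step_sound _ 35 [(rh5c5e593799055d58.shift 3 0), rha6d57089da8b640d] (by decide +kernel))
noncomputable def rhe322c2de940e0a96 : CRef := CRef.mk (Pat.mk 0x400000004000000040000000a00000000 0x40000000400000004000000070000003e00000008 4 6) 0 0 (step_sound _ 34 [(rh365a543efd1956a6.shift 0 1), (rh55afc6a59410cf00.shift 2 0)] (by decide +kernel))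
noncomputable def rh1304afa51da96399 : CRef := CRef.mk (Pat.mk 0x10000000b00000008000000080000001400000000 0x10000000b0000000a0000003b0000001f00000010 4 6) 0 0 (step_sound _ 35 [(rh55afc6a59410cf00.shift 3 0), (rhe97efe51a389792b.shift 0 1)] (by decide +kernel))
noncomputable def rhb0745e8fa5190a71 : CRef := CRef.mk (Pat.mk 0x1000000010000000b00000008000000080000000c 0x10000000b0000000b0000000a0000000f0000003e 4 6) 0 0 (step_sound _ 34 [(rh5c5e593799055d58.shift 2 0), rh6198eb1ed35c9199] (by decide +kernel))
noncomputable def rh24179d2c84f9dca0 : CRef := CRef.mk (Pat.mk 0x1000000010000000b0000000800000008000000080000001000000000 0x90000000b0000000b0000001e0000000e0000000e0000001800000018 4 5) 0 0 (step_sound _ 130 [(rh61caf197a7d52df1.shift 2 0), (rh87237765692068d6.shift 0 2)] (by decide +kernel))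
noncomputable def rhd926ca940cd31527 : CRef := CRef.mk (Pat.mk 0xb0000000a0000000800000008000000000000000000000000 0xb0000001e0000000c000000180000001c0000001c00000004 4 5) 0 0 (step_sound _ 67 [rh56d9f43f4d9cb1ea, (rhd29a1fb688eae70f.shift 3 1)] (by decide +kernel))
noncomputable def rha2bafc7b816d841b : CRef := CRef.mk (Pat.mk 0x11000000090000000b000000080000000800000000 0x10000000190000000b0000000b0000001a0000001f00000006 4 5) 0 0 (step_sound _ 33 [rh3b5346b2e316d790, rhcfdaa9f809e0b477] (by decide +kernel))
noncomputable def rha9ee0978a1ca3201 : CRef := CRef.mk (Pat.mk 0x10000000100000003000000080000000c00000000 0x100000003000000030000003e0000001f00000002 4 6) 0 0 (step_sound _ 33 [rh3b5346b2e316d790, (rha0198dc55831a65f.shift 0 1)] (by decide +kernel))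
noncomputable def rhe1ddf13712368261 : CRef := CRef.mk (Pat.mk 0x11000000090000000b000000080000000000000000 0x10000000190000000b0000000b0000001e0000001200000002 4 5) 0 0 (step_sound _ 163 [(rh2f68792b6b779e96.shift 3 2), rhf1aa495fbd784339] (by decide +kernel))
noncomputable def rha5b8a25f920fca0e : CRef := CRef.mk (Pat.mk 0x10000000800000008000000080000000c 0x40000001f00000018000000080000000c0000000c 4 5) 0 0 (step_sound _ 100 [(rh2f68792b6b779e96.shift 3 0), rh44981a1c260bcd63] (by decide +kernel))
noncomputable def rh7c836f2e0ccdad14 : CRef := CRef.mk (Pat.mk 0x1000000030000000100000001000000000000000000000000 0x10000000100000001000000030000000300000003000000030000000300000002 4 2) 0 0 (step_sound _ 64 [rh8c3839f9b9075f23, (rhd29a1fb688eae70f.shift 0 1), (rhf2568c0049eb2085.shift 0 1)] (by decide +kernel))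
noncomputable def rh3ae891c991e0756d : CRef := CRef.mk (Pat.mk 0x1000000010000000b0000000800000008000000080000000400000000 0x90000000b0000000b0000001e0000001a0000001a0000000c0000000c 4 5) 0 0 (step_sound _ 132 [(rh0a33887607d4a541.shift 2 0), (rh30559b490f5d9b7a.shift 0 2)] (by decide +kernel))
noncomputable def rhfa7a3865ca0aff2f : CRef := CRef.mk (Pat.mk 0xb0000000a0000000800000008000000000000000000000000 0xb0000001e000000180000000c0000001c0000001c00000010 4 5) 0 0 (step_sound _ 67 [rh18d5ed7e20230762, (rh7928877f9bf74a91.shift 2 1)] (by decide +kernel))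
noncomputable def rh217391f8b8e9b1b1 : CRef := CRef.mk (Pat.mk 0x100000008000000080000000800000018 0x40000001f00000018000000080000001800000018 4 5) 0 0 (step_sound _ 100 [(rh2f68792b6b779e96.shift 3 0), rh8bebf6a287438797] (by decide +kernel))
noncomputable def rhcbb1d16a4a87cf8a : CRef := CRef.mk (Pat.mk 0x1000000090000000b000000080000001000000000 0x90000000b0000000b0000001e0000001200000002 4 5) 0 0 (step_sound _ 68 [(rh2145e1d24b96a57e.shift 3 1), rh30559b490f5d9b7a] (by decide +kernel))
noncomputable def rh7befe82df5285beb : CRef := CRef.mk (Pat.mk 0xb0000000a0000000800000008000000000000000000000000 0xb0000001e0000000c0000000c0000001c0000001c00000010 4 5) 0 0 (step_sound _ 67 [(rh7928877f9bf74a91.shift 2 1), rhf14f628ad52a175a] (by decide +kernel))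
noncomputable def rh93304cda6bfb2d93 : CRef := CRef.mk (Pat.mk 0xb00000008000000080000000800000008000000000000000000000000 0xb0000001e0000001c0000001c0000000c000000180000001800000010 4 5) 0 0 (step_sound _ 67 [(rh1fe7bd026babc309.shift 2 1), (rh5537815e93ad0a8c.shift 0 2), (rhec588a0d7783acc6.shift 3 0)] (by decide +kernel))
noncomputable def rhfe26a6cd9ed02b5b : CRef := CRef.mk (Pat.mk 0x300000008000000080000000800000008000000000000000000000000 0x30000001e0000001c00000008000000080000001c0000001c00000014 4 5) 0 0 (step_sound _ 67 [(rh3181373a30ceb9e3.shift 2 0), (rh5537815e93ad0a8c.shift 0 2)] (by decide +kernel))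
noncomputable def rh2bccbf0fa098d91a : CRef := CRef.mk (Pat.mk 0x1000000090000000b000000080000000400000000 0x90000000b0000000b0000001e0000000600000002 4 5) 0 0 (step_sound _ 66 [(rh5c5e593799055d58.shift 2 1), rh87237765692068d6] (by decide +kernel))
noncomputable def rh6421c88b2ab4acb3 : CRef := CRef.mk (Pat.mk 0x1000000010000000b000000080000000000000000 0x1000000030000000f0000001e0000000200000002 4 5) 0 0 (step_sound _ 68 [rh30559b490f5d9b7a, (rhc10214bf3fe8094a.shift 0 2)] (by decide +kernel))
noncomputable def rh0af46ddd73526378 : CRef := CRef.mk (Pat.mk 0x40000000f000000000000000000000000 0x4000000040000000c0000000f000000180000000800000008 4 5) 0 0 (step_sound _ 67 [(rha40d42a2e34c408d.shift 2 0), (rhe25b0a99195a5d59.shift 0 2)] (by decide +kernel))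
noncomputable def rhe63ff2e3b86cb17e : CRef := CRef.mk (Pat.mk 0x20000000300000003000000000000000000000000 0x300000003000000030000000300000003000000060000000600000006 4 3) 0 0 (step_sound _ 65 [rh3cb04db3dd2b6a55, (rh7f9f3607ee25a93b.shift 0 2), rh820d4e04d5dcd02e] (by decide +kernel))
noncomputable def rh04444455d6a3ea76 : CRef := CRef.mk (Pat.mk 0x100000000000000010000000300000000 0x2000000030000000300000001000000030000000300000002 4 2) 0 0 (step_sound _ 96 [rh55afc6a59410cf00, (rh73f605273a09a9d0.shift 0 1)] (by decide +kernel))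
noncomputable def rha68cb1e01b1f0d4d : CRef := CRef.mk (Pat.mk 0x200000000000000020000000600000000 0x1000000030000000300000002000000060000000600000004 4 3) 0 0 (step_sound _ 97 [(rh55afc6a59410cf00.shift 1 0), (rh65909b08999dc522.shift 0 1)] (by decide +kernel))
noncomputable def rhbedbebafb838237e : CRef := CRef.mk (Pat.mk 0x80000000a0000000b00000008 0x140000003c0000001e0000000b00000008 4 6) 0 0 (step_sound _ 66 [(rh18965a982d73c794.shift 0 1), (rh4017de503635a93b.shift 1 0)] (by decide +kernel))
noncomputable def rhedc4acb9011023a1 : CRef := CRef.mk (Pat.mk 0x80000000a0000000b000000080000000000000000 0x160000001e0000000b0000000b0000000b0000000100000001 4 5) 0 0 (step_sound _ 161 [rh281c6819542c66e6, (rh9258736a7488cc35.shift 0 2), rhfafeb437ceb8396d] (by decide +kernel))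
noncomputable def rh0e6049b7d58d80d7 : CRef := CRef.mk (Pat.mk 0x38000000000000003800000020 0x100000007c0000001f0000003800000028 4 7) 0 0 (step_sound _ 67 [(rh2820ca9a6c4f41b4.shift 0 2), (rhfdd14058eaa9f9ec.shift 3 0)] (by decide +kernel))
noncomputable def rh2a7290f520cbd832 : CRef := CRef.mk (Pat.mk 0x3000000000000000700000004 0x2000000020000000300000003000000030000000700000005 4 3) 0 0 (step_sound _ 129 [rh00d6a6e3c7e3bb40, (rhff0f29cb645b05f7.shift 1 0)] (by decide +kernel))
noncomputable def rh9e01b63668d56f8a : CRef := CRef.mk (Pat.mk 0x1c00000000 0x770000007e000000ef 4 8) 0 0 (step_sound _ 37 [(rh00f1bb10334541e3.shift 0 1), rh2c1baeadcd4b32f5, (rh8db7f7558b75b2b1.shift 1 0)] (by decide +kernel))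
noncomputable def rh42a67b4064628394 : CRef := CRef.mk (Pat.mk 0x3800000000 0xff0000007e00000007 4 8) 0 0 (step_sound _ 34 [rh2c1baeadcd4b32f5, rh2cc7d62e70c02209, (rhf94411b389c3e54c.shift 1 1)] (by decide +kernel))
noncomputable def rh7f2d4fb1201451cc : CRef := CRef.mk (Pat.mk 0xe00000000000000070000000c 0xc0000001f000000780000000f0000000c 4 7) 0 0 (step_sound _ 67 [rh6ec5dd38a40999e4, (rh8ee80cc30e93a344.shift 0 2), (rhda9c0827c24abf7d.shift 2 0)] (by decide +kernel))
noncomputable def rh2488556ec5e0b74d : CRef := CRef.mk (Pat.mk 0x1c000000100000000a00000018 0x300000001e000000300000001f00000018 4 6) 0 0 (step_sound _ 32 [(rh87ec52b0a4a7ddb0.shift 1 0), rhc10214bf3fe8094a] (by decide +kernel))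
noncomputable def rhe53d37d182896806 : CRef := CRef.mk (Pat.mk 0x3800000020 0x770000003e00000060 4 7) 0 0 (step_sound _ 34 [(rh00f1bb10334541e3.shift 0 1), (rhe25b0a99195a5d59.shift 2 0)] (by decide +kernel))
noncomputable def rh9d046a20edcb2617 : CRef := CRef.mk (Pat.mk 0x38000000000000000c000000000000000000000000 0x80000007c0000000f0000000c0000000c0000000400000004 4 7) 0 0 (step_sound _ 131 [(rh281c6819542c66e6.shift 2 0), (rh2820ca9a6c4f41b4.shift 0 4)] (by decide +kernel))
noncomputable def rhc09e2a1c8d9a31fb : CRef := CRef.mk (Pat.mk 0xe000000000000000800000018 0x7f0000003e000000700000001800000018 4 7) 0 0 (step_sound _ 100 [(rh2eb6cac0fecf3e9c.shift 0 2), (rh4dfe14e1416680c8.shift 1 0), (rhf94411b389c3e54c.shift 0 3)] (by decide +kernel))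
noncomputable def rhc3d03b61e91ba236 : CRef := CRef.mk (Pat.mk 0x38000000000000000c00000000 0x770000003e000000070000000c00000008 4 7) 0 0 (step_sound _ 98 [(rh00f1bb10334541e3.shift 0 3), (rh2c1baeadcd4b32f5.shift 0 2), (rh71bbb00ef1ecd8fb.shift 1 0)] (by decide +kernel))
noncomputable def rh4d5cd5f8129947c3 : CRef := CRef.mk (Pat.mk 0xe000000000000000b00000018 0x1b0000001e000000330000001b00000019 4 6) 0 0 (step_sound _ 100 [(rh4dfe14e1416680c8.shift 1 0), rhee7ff23a5259ed94] (by decide +kernel))
noncomputable def rhf5982d504aa8acb7 : CRef := CRef.mk (Pat.mk 0xc000000040000000e000000180000000000000000 0x180000001c000000360000001e0000001b0000000200000002 4 6) 0 0 (step_sound _ 100 [(rh4d8d614e03a7f6ad.shift 1 2), rhd1474a84c69f0140] (by decide +kernel))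
noncomputable def rh4765374b72d4e9b7 : CRef := CRef.mk (Pat.mk 0x30000000080000003800000000 0x1000000010000000180000003c0000000f0000007800000008 4 7) 0 0 (step_sound _ 99 [(rh215e11e099257d75.shift 3 0), (rhec6ca4eaae8a1130.shift 0 1)] (by decide +kernel))
noncomputable def rh6170761c038352c1 : CRef := CRef.mk (Pat.mk 0x2000000010000000700000004 0x2000000020000000300000003000000030000000700000005 4 3) 0 0 (step_sound _ 129 [rhd918c3fd221dc9f8, (rhff0f29cb645b05f7.shift 1 0)] (by decide +kernel))
noncomputable def rh5def6e493bd88cad : CRef := CRef.mk (Pat.mk 0x1c000000000000000800000008 0x700000003e000000770000001800000008 4 7) 0 0 (step_sound _ 97 [(rh8db7f7558b75b2b1.shift 0 2), (rh9c9de8a82d5e4ca8.shift 1 0), (rhdd4fe9fd28ed4c0f.shift 0 2)] (by decide +kernel))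
noncomputable def rh5102f8a121f54c5c : CRef := CRef.mk (Pat.mk 0x38000000000000001000000030 0x770000003e000000670000003000000030 4 7) 0 0 (step_sound _ 98 [(rh2c1baeadcd4b32f5.shift 0 2), (rh2cc7d62e70c02209.shift 0 2), (rh4dfe14e1416680c8.shift 2 0)] (by decide +kernel))
noncomputable def rh7fb14ebfe418da3c : CRef := CRef.mk (Pat.mk 0x3800000000 0xf70000007e0000000f 4 8) 0 0 (step_sound _ 34 [(rh00f1bb10334541e3.shift 0 1), rh2c1baeadcd4b32f5, rh2cc7d62e70c02209, (rhdd4fe9fd28ed4c0f.shift 1 0)] (by decide +kernel))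
noncomputable def rh836b4df7f8d2289a : CRef := CRef.mk (Pat.mk 0x1c000000000000000e00000010 0xe80000007c000000f70000001e00000010 4 8) 0 0 (step_sound _ 101 [rh12bccaf83f741cb5, (rh35e918dd76851f8c.shift 2 2), rhc26bf37127c9d11d] (by decide +kernel))
noncomputable def rh5159673be6d944c3 : CRef := CRef.mk (Pat.mk 0x3800000000 0x770000007e000000ef 4 8) 0 0 (step_sound _ 34 [(rh00f1bb10334541e3.shift 0 1), rh2c1baeadcd4b32f5, (rh8db7f7558b75b2b1.shift 1 0)] (by decide +kernel))
noncomputable def rhdd710599d85d7ce4 : CRef := CRef.mk (Pat.mk 0x38000000000000001000000030 0x700000007e000000ef0000003000000030 4 8) 0 0 (step_sound _ 98 [(rh2c1baeadcd4b32f5.shift 0 2), (rh4dfe14e1416680c8.shift 2 0), (rh8db7f7558b75b2b1.shift 1 2)] (by decide +kernel))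
noncomputable def rhcae8a8f2988c5d75 : CRef := CRef.mk (Pat.mk 0x1e00000000 0x700000003e00000073 4 7) 0 0 (step_sound _ 1 [(rh35e918dd76851f8c.shift 1 0), rheb0810cc63b001d8] (by decide +kernel))
noncomputable def rhcfe1f9bacb7353a6 : CRef := CRef.mk (Pat.mk 0x1e000000000000000800000018 0x180000001e000000330000001800000018 4 6) 0 0 (step_sound _ 64 [(rh4dfe14e1416680c8.shift 1 0), (rh80fcd6d0a18cb2dd.shift 0 2)] (by decide +kernel))
noncomputable def rhf7c73d30bab1d669 : CRef := CRef.mk (Pat.mk 0x38000000080000000800000000 0x100000007c0000000f0000000800000008 4 7) 0 0 (step_sound _ 3 [(rh2820ca9a6c4f41b4.shift 0 2), (rh2f68792b6b779e96.shift 3 0)] (by decide +kernel))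
noncomputable def rhc8f0662c663e4f49 : CRef := CRef.mk (Pat.mk 0x38000000080000000800000000 0x10000000780000001f0000000800000008 4 7) 0 0 (step_sound _ 3 [(rh2f68792b6b779e96.shift 3 0), (rhf0f55c4504412200.shift 0 2)] (by decide +kernel))
noncomputable def rh294f5f83edc0bdd3 : CRef := CRef.mk (Pat.mk 0x1e00000000000000020000000000000000 0x40000003e00000007000000020000000200000002 4 6) 0 0 (step_sound _ 97 [(rh8dda00fda75f913e.shift 1 0), (rheb0810cc63b001d8.shift 0 3)] (by decide +kernel))
noncomputable def rh7fcca4453be139e0 : CRef := CRef.mk (Pat.mk 0x1e000000000000000400000000 0x30000001e000000070000000600000004 4 5) 0 0 (step_sound _ 65 [rha7a9b166934c570d, (rheb0810cc63b001d8.shift 0 2)] (by decide +kernel))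
noncomputable def rh2b71281928d807e6 : CRef := CRef.mk (Pat.mk 0x40000000c000000000000000e00000018 0x1c0000001e000000330000001e0000001b 4 6) 0 0 (step_sound _ 36 [(rh4d8d614e03a7f6ad.shift 1 0), rheb505ef94539da28] (by decide +kernel))
noncomputable def rh7e90affc6ee08a22 : CRef := CRef.mk (Pat.mk 0x80000000a0000000800000008 0x140000001e0000000f0000000800000008 4 5) 0 0 (step_sound _ 98 [rh33b6a8266a95d2d6, (rh50fbb5868c909700.shift 2 0)] (by decide +kernel))
noncomputable def rhdce38a407e35177f : CRef := CRef.mk (Pat.mk 0xa000000020000000e00000008 0x500000007000000070000001e000000060000000e00000008 4 5) 0 0 (step_sound _ 129 [(rh65909b08999dc522.shift 0 1), (rh74077b621f65b9d0.shift 1 0), (rh7ef5fa5c39f1c762.shift 0 1), rh805a9f3a92da1f3a] (by decide +kernel))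
noncomputable def rh662fbc5c774bd894 : CRef := CRef.mk (Pat.mk 0x2800000008000000300000002000000000 0x300000007c0000001f000000300000003000000010 4 7) 0 0 (step_sound _ 132 [(rh2820ca9a6c4f41b4.shift 0 3), (rhbd16ea6c0f465530.shift 3 0)] (by decide +kernel))
noncomputable def rhc38a75233fd47e49 : CRef := CRef.mk (Pat.mk 0x1a0000000e0000000800000000 0x1000000012000000330000001e0000001e0000000c00000004 4 6) 0 0 (step_sound _ 98 [rh38a0850c9fea941e, (rh94246470f0e6fdf7.shift 1 1)] (by decide +kernel))
noncomputable def rh19762886095df8b6 : CRef := CRef.mk (Pat.mk 0x2000000030000000200000002 0x1000000070000000700000006000000030000000300000002 4 3) 0 0 (step_sound _ 129 [(rh44f453b84f013105.shift 1 0), (rhd2c74283b7b6e6b8.shift 0 1)] (by decide +kernel))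
noncomputable def rh8d42293ee24181ff : CRef := CRef.mk (Pat.mk 0x140000003400000000 0x360000003e00000007 4 6) 0 0 (step_sound _ 35 [(rh3244c3cc8379b070.shift 1 1), rh4c063b89d42a2070] (by decide +kernel))
noncomputable def rhe71984e1e06c53b9 : CRef := CRef.mk (Pat.mk 0x28000000280000000800000000 0x1000000010000000180000007c0000002f0000000800000008 4 7) 0 0 (step_sound _ 100 [(rh2820ca9a6c4f41b4.shift 0 2), (rh7f36f639160ea2c8.shift 3 0)] (by decide +kernel))
noncomputable def rh2f7ea2d2c6b43cfc : CRef := CRef.mk (Pat.mk 0x200000002000000020000000200000000 0x5000000070000000700000002000000020000000300000001 4 3) 0 0 (step_sound _ 0 [rh79877ebd3ef475dd, (rh7ef5fa5c39f1c762.shift 0 1)] (by decide +kernel))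
noncomputable def rhe237c81e29a50bee : CRef := CRef.mk (Pat.mk 0x50000000d00000009000000080000000000000000 0x1000000050000000f0000001b0000001f0000000200000002 4 5) 0 0 (step_sound _ 65 [(rh2d2119f1543fedf0.shift 0 2), rh2f7ef8ef5c94975a, rh8b3ea03c23fe5ab7, (rh8cb2eb9576ef3de0.shift 0 1), rhf8a7b81bbeef57cd] (by decide +kernel))
noncomputable def rh36062883057175d6 : CRef := CRef.mk (Pat.mk 0x100000003400000020 0x300000003e00000067 4 7) 0 0 (step_sound _ 35 [rh4c063b89d42a2070, (rhe25b0a99195a5d59.shift 2 0)] (by decide +kernel))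
noncomputable def rhdafe66deb977d175 : CRef := CRef.mk (Pat.mk 0x4000000140000003c000000200000000000000000 0x400000004000000140000003e000000270000002000000020 4 6) 0 0 (step_sound _ 5 [(rh81cdd2836921eed0.shift 0 2), (rh9e07f76261b05888.shift 4 0)] (by decide +kernel))
noncomputable def rhed21e45804eeb376 : CRef := CRef.mk (Pat.mk 0x2000000020000001e000000000000000000000000 0x6000000060000001e000000070000000600000006 4 5) 0 0 (step_sound _ 65 [(rh17ebc3e771625541.shift 1 0), (rheb0810cc63b001d8.shift 0 2)] (by decide +kernel))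
noncomputable def rh727e844f3a16c7de : CRef := CRef.mk (Pat.mk 0x1000000050000000f000000080000000000000000 0x100000001000000070000000f0000000a0000000a0000000a 4 4) 0 0 (step_sound _ 3 [rh235edbdf3bbc6c03, (rh9e07f76261b05888.shift 2 0)] (by decide +kernel))
noncomputable def rh30473dc56de15b6b : CRef := CRef.mk (Pat.mk 0x400000003800000000 0x670000003e00000007 4 7) 0 0 (step_sound _ 34 [rh2cc7d62e70c02209, (rh428265de8cd3cd2d.shift 2 1)] (by decide +kernel))
noncomputable def rhabc9f29a1080dfa0 : CRef := CRef.mk (Pat.mk 0xa00000006000000020000000000000000 0x3000000070000001e00000006000000060000000600000002 4 5) 0 0 (step_sound _ 161 [rh1a91935e2a6049d7, (rhd4b4beefcd67f51e.shift 1 1)] (by decide +kernel))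
noncomputable def rh3a931f413557dd3e : CRef := CRef.mk (Pat.mk 0x50000000f000000090000000000000000 0x400000007000000070000000f0000000b0000000300000003 4 4) 0 0 (step_sound _ 33 [rh403e55a9007f792d, rh8f4050c06a082165, (rh9b6e9f640c4e03df.shift 0 1)] (by decide +kernel))
noncomputable def rhc887fee19ea332ac : CRef := CRef.mk (Pat.mk 0x50000000f000000010000000100000000 0x400000006000000070000000f0000001b0000000300000002 4 5) 0 0 (step_sound _ 129 [(rh2f68792b6b779e96.shift 0 1), rh378e43e411464d2b] (by decide +kernel))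
noncomputable def rh43d708b5987f5c5a : CRef := CRef.mk (Pat.mk 0x400000014000000040000000400000000 0xa0000000f0000001c000000040000000400000004 4 5) 0 0 (step_sound _ 129 [(rh50fbb5868c909700.shift 1 1), rhe16111888c098d6c] (by decide +kernel))
noncomputable def rh2d8abb7cdac0a219 : CRef := CRef.mk (Pat.mk 0x20000000600000006000000000000000000000000 0x600000006000000060000000600000006000000030000000300000003 4 3) 0 0 (step_sound _ 65 [rhbb83b53687587fb2, (rhc0301b400ca2a736.shift 1 2), (rhea7a1800d6f053bd.shift 1 0)] (by decide +kernel))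
noncomputable def rh7f0f728c796044ac : CRef := CRef.mk (Pat.mk 0x200000003800000000 0x700000003e00000007 4 7) 0 0 (step_sound _ 34 [rh2591032a0e7f4182, (rh33e738c4ed385b9f.shift 2 1)] (by decide +kernel))
noncomputable def rh3b328ebfc5b9f1de : CRef := CRef.mk (Pat.mk 0xa00000006000000060000000000000000 0x3000000070000001e00000006000000060000000200000002 4 5) 0 0 (step_sound _ 161 [rh1a91935e2a6049d7, (rh2145e1d24b96a57e.shift 1 2)] (by decide +kernel))
noncomputable def rhe53958ffbb9ed408 : CRef := CRef.mk (Pat.mk 0x10000000100000003000000010000000000000000 0x20000000300000003000000030000000300000003000000010000000100000001 4 2) 0 0 (step_sound _ 192 [(rh44f453b84f013105.shift 0 2), (rh73f605273a09a9d0.shift 0 3), rh84c6bba3847605f7] (by decide +kernel))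
noncomputable def rha81d3ff40d2376f1 : CRef := CRef.mk (Pat.mk 0x2000000020000000e0000001a000000000000000000000000 0xf0000003e0000001e0000001a000000120000001200000010 4 6) 0 0 (step_sound _ 163 [(rh046c5eb18e55a239.shift 3 0), (rh8a07ce527407702e.shift 0 1)] (by decide +kernel))
noncomputable def rh4d4087477a9b70ee : CRef := CRef.mk (Pat.mk 0x20000000200000006000000020000000000000000 0x300000003000000070000000600000006000000020000000200000002 4 3) 0 0 (step_sound _ 192 [rhc9bca0ac38057db5, (rhffd04209dc8ea796.shift 0 2)] (by decide +kernel))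
noncomputable def rhe615d7cdadf5ff3f : CRef := CRef.mk (Pat.mk 0x2000000020000000e00000002 0x50000000700000007000000020000001e00000003 4 5) 0 0 (step_sound _ 0 [rh18965a982d73c794, rh7ef5fa5c39f1c762] (by decide +kernel))
noncomputable def rh0a9ce388a01e6043 : CRef := CRef.mk (Pat.mk 0xc0000001c0000003000000000 0x20000000770000007f0000001c0000003000000020 4 7) 0 0 (step_sound _ 100 [rh4991627462617fa0, (rh6656f69a80793b12.shift 0 2), (rhe60c387bdae8ab2b.shift 2 0)] (by decide +kernel))
noncomputable def rh0826da00a5e6925c : CRef := CRef.mk (Pat.mk 0x2000000020000001a0000001a00000000 0x1c0000001e0000001b0000001a0000001a00000010 4 5) 0 0 (step_sound _ 131 [(rh0a8ab86593a646ca.shift 0 1), (rhda6cc5da102e1723.shift 3 0), rhf5f86febe187cbf8] (by decide +kernel))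
noncomputable def rh96f504339671f375 : CRef := CRef.mk (Pat.mk 0x20000000a00000002000000020000000400000000 0x70000001e00000003000000020000000600000004 4 5) 0 0 (step_sound _ 33 [(rh3202a075762861dd.shift 0 1), (rh55afc6a59410cf00.shift 1 0)] (by decide +kernel))
noncomputable def rh9cfb411dd8334f80 : CRef := CRef.mk (Pat.mk 0x1800000008000000280000006800000000 0x20000000780000003f000000780000006c00000044 4 7) 0 0 (step_sound _ 133 [(rh44b5806cb17fd0fa.shift 2 0), (rhf0f55c4504412200.shift 0 3)] (by decide +kernel))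
noncomputable def rhd93b72d5352bf3d4 : CRef := CRef.mk (Pat.mk 0xc000000080000002000000060000000000000000000000000 0x2f0000007c0000006000000060000000400000004000000040 4 7) 0 0 (step_sound _ 165 [(rh046c5eb18e55a239.shift 5 0), (rh4b687b01c54530ec.shift 1 4), (rh8c25cb665ab79ec0.shift 0 5)] (by decide +kernel))
noncomputable def rhfa2e681ef328425e : CRef := CRef.mk (Pat.mk 0x200000006000000060000000600000000 0x40000000600000006000000070000003e00000008 4 6) 0 0 (step_sound _ 130 [(rh2f68792b6b779e96.shift 1 1), rh36d4d92ef3dad5f8] (by decide +kernel))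
noncomputable def rh2da36fefa6f60f2b : CRef := CRef.mk (Pat.mk 0x2000000060000000e 0x30000003e0000003f 4 6) 0 0 (step_sound _ 4 [rh9fdcb09dfa6419d9, (rhf48373e13d2bc128.shift 1 0)] (by decide +kernel))
noncomputable def rhea49dfc76365a620 : CRef := CRef.mk (Pat.mk 0xc0000000c000000080000001c 0x20000000f0000003c0000000e0000007c 4 7) 0 0 (step_sound _ 34 [(rh79b3c29022acbdf3.shift 1 0), rhcf85c92937975d4d] (by decide +kernel))
noncomputable def rh224e94a65592e6b0 : CRef := CRef.mk (Pat.mk 0xc0000001c000000180000000000000000 0x20000000f0000001c0000001f0000003400000014 4 6) 0 0 (step_sound _ 66 [rh1357d49ef66cf2d8, rhda49d08e88765cc3] (by decide +kernel))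
noncomputable def rhc1bb45faee7822b9 : CRef := CRef.mk (Pat.mk 0x40000000c0000000c0000001800000000 0x8000000080000000c0000000c0000000f0000001c00000010 4 5) 0 0 (step_sound _ 64 [(rhab22b5b56e7b3243.shift 0 1), (rhce35c839632b1f38.shift 2 0)] (by decide +kernel))
noncomputable def rh9768c1ba0652f8cc : CRef := CRef.mk (Pat.mk 0x80000000300000006000000040000000000000000 0x8000000080000000b0000001e0000000c0000000400000004 4 5) 0 0 (step_sound _ 34 [(rh7b1f1fb55310c477.shift 1 0), (rhcfbba3f5affe15b2.shift 0 1)] (by decide +kernel))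
noncomputable def rh593c461c37a56aa7 : CRef := CRef.mk (Pat.mk 0x38000000000000000800000000 0x770000007e0000000f0000000800000008 4 7) 0 0 (step_sound _ 98 [(rh00f1bb10334541e3.shift 0 3), (rh2c1baeadcd4b32f5.shift 0 2), (rh2cc7d62e70c02209.shift 0 2), (rh86187105f3711ca4.shift 1 0)] (by decide +kernel))
noncomputable def rh9def86bbd50a3389 : CRef := CRef.mk (Pat.mk 0x3800000000 0xff0000007e00000007 4 8) 0 0 (step_sound _ 34 [(rh00f1bb10334541e3.shift 0 1), rh2c1baeadcd4b32f5, rh2cc7d62e70c02209, (rhf94411b389c3e54c.shift 1 1)] (by decide +kernel))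
noncomputable def rhb523094c70e912c8 : CRef := CRef.mk (Pat.mk 0x8000000180000000800000004 0x8000000080000003c0000001f00000004 4 6) 0 0 (step_sound _ 34 [(rh557b120f072744ca.shift 0 1), (rh5c5e593799055d58.shift 2 0)] (by decide +kernel))
noncomputable def rh51f5a245ef7eb6cb : CRef := CRef.mk (Pat.mk 0x800000018000000180000000800000000 0x800000018000000380000001f00000014 4 6) 0 0 (step_sound _ 34 [(rh932754581e0f4330.shift 2 0), rhe67dc69a65b12c9c] (by decide +kernel))
noncomputable def rhaf97d21e7fb8f8b8 : CRef := CRef.mk (Pat.mk 0x200000006000000060000000200000000 0x6000000060000000600000006000000060000000300000001 4 3) 0 0 (step_sound _ 0 [rh79877ebd3ef475dd, (rhc0301b400ca2a736.shift 1 1)] (by decide +kernel))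
noncomputable def rh1e0e98aae06e11bf : CRef := CRef.mk (Pat.mk 0x80000001800000018000000180000000000000000 0x800000018000000380000001f0000000c00000008 4 6) 0 0 (step_sound _ 3 [(rh6fae963f33cfdfd7.shift 0 1), (rh9e3edb185cc347de.shift 3 0)] (by decide +kernel))
noncomputable def rhe332155115ae088b : CRef := CRef.mk (Pat.mk 0x600000004000000020000000600000000 0x20000000600000004000000070000003e00000008 4 6) 0 0 (step_sound _ 66 [rh36d4d92ef3dad5f8, (rh50fbb5868c909700.shift 1 1)] (by decide +kernel))
noncomputable def rh4f129d8f37c2c70a : CRef := CRef.mk (Pat.mk 0x40000001e000000000000000000000000 0x4000000070000001e000000030000000200000002 4 5) 0 0 (step_sound _ 65 [rh6f3dc38b3a3a4dac, (rheb0810cc63b001d8.shift 0 2)] (by decide +kernel))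
noncomputable def rh7003bb3e107c4a7a : CRef := CRef.mk (Pat.mk 0x50000000000000002000000020000000200000000 0x4000000070000000300000002000000060000000600000004 4 3) 0 0 (step_sound _ 129 [(rh588c730e4dc12811.shift 1 0), (rhffd04209dc8ea796.shift 0 1)] (by decide +kernel))
noncomputable def rh344b2a22d3a9f67b : CRef := CRef.mk (Pat.mk 0x400000004000000000000001c00000008 0x400000006000000030000001f0000003b 4 6) 0 0 (step_sound _ 33 [rha03f6e28ea70fc7d, rheb505ef94539da28] (by decide +kernel))
noncomputable def rh8e6d340472c520ef : CRef := CRef.mk (Pat.mk 0x1c000000380000001000000010 0x400000004000000260000003c0000003f0000001f00000010 4 6) 0 0 (step_sound _ 66 [(rh0e1512cbacfbd48b.shift 0 1), (rh81777937c9fee079.shift 1 0), (rhab2ad169e49f9c5e.shift 0 2)] (by decide +kernel))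
noncomputable def rhddef047dca96f678 : CRef := CRef.mk (Pat.mk 0x2000000020000000700000000 0x4000000060000000600000002000000060000000700000001 4 3) 0 0 (step_sound _ 129 [(rh73f605273a09a9d0.shift 1 1), rh932754581e0f4330] (by decide +kernel))
noncomputable def rhc3d226678c927710 : CRef := CRef.mk (Pat.mk 0x4000000020000000300000002 0x10000000700000007000000020000000300000003 4 3) 0 0 (step_sound _ 97 [(rh2f68792b6b779e96.shift 1 0), rhd2c74283b7b6e6b8] (by decide +kernel))
noncomputable def rh124052dc1b3819ff : CRef := CRef.mk (Pat.mk 0x40000000600000006000000020000000000000000 0x600000006000000070000003e0000000c0000000c 4 6) 0 0 (step_sound _ 66 [(rh36d4d92ef3dad5f8.shift 0 1), (rh3cb04db3dd2b6a55.shift 1 0), (rh820d4e04d5dcd02e.shift 1 0)] (by decide +kernel))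
noncomputable def rh3f4be0b61c73837e : CRef := CRef.mk (Pat.mk 0x400000007000000060000000600000000 0x4000000070000003e0000003e00000008 4 6) 0 0 (step_sound _ 35 [(rh55afc6a59410cf00.shift 2 0), (rh7b90c2a6748da57b.shift 0 1)] (by decide +kernel))
noncomputable def rh99159522e87bb798 : CRef := CRef.mk (Pat.mk 0xe00000018000000080000000c 0x130000001e0000001e0000000f0000000c 4 5) 0 0 (step_sound _ 129 [rh2785d65cae5f9a52, rh4f7106e6f46c2542] (by decide +kernel))
noncomputable def rh866dd02c2b7e3e6b : CRef := CRef.mk (Pat.mk 0x4000000030000000600000002 0x20000000600000006000000030000000700000007 4 3) 0 0 (step_sound _ 97 [(rh2f68792b6b779e96.shift 1 0), rhb23658ecdd7ce5df] (by decide +kernel))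
noncomputable def rhcb5a8713d0f9ccab : CRef := CRef.mk (Pat.mk 0x2000000060000000200000003 0x2000000020000000600000006000000060000000700000003 4 3) 0 0 (step_sound _ 98 [rh001df559c085f6ec, (rh2f68792b6b779e96.shift 1 0)] (by decide +kernel))
noncomputable def rhf16db0eb618c30d7 : CRef := CRef.mk (Pat.mk 0x4000000030000000200000006 0x20000000600000006000000030000000700000007 4 3) 0 0 (step_sound _ 97 [(rh2f68792b6b779e96.shift 1 0), rhde43633b9e4abc31] (by decide +kernel))
noncomputable def rh49b34f9698d3d62b : CRef := CRef.mk (Pat.mk 0x1e0000001a000000080000000000000000 0x30000001e0000001e0000000f0000000f00000004 4 5) 0 0 (step_sound _ 65 [rh45e2d5b19bce43a1, (rh8fb76a6ec2a97fe2.shift 0 1), (rhda02c4ce0b224328.shift 0 2)] (by decide +kernel))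
noncomputable def rh786c105b04fc44c2 : CRef := CRef.mk (Pat.mk 0xe00000008000000080000000c00000000 0x130000001e0000000c0000000e0000007c00000010 4 7) 0 0 (step_sound _ 66 [(rh36d4d92ef3dad5f8.shift 1 0), (rhaedc8de5fbcd0332.shift 0 1)] (by decide +kernel))
noncomputable def rhd24778b085d8f6e1 : CRef := CRef.mk (Pat.mk 0xc0000000c000000040000000400000000 0x20000000f0000003c000000040000000600000002 4 6) 0 0 (step_sound _ 1 [(rh79877ebd3ef475dd.shift 1 0), (rhcf85c92937975d4d.shift 0 1)] (by decide +kernel))
noncomputable def rhc6f96d0082a29cc4 : CRef := CRef.mk (Pat.mk 0x40000000e000000000000000e00000000 0x40000000f000000780000001e00000008 4 7) 0 0 (step_sound _ 67 [(rh7b1f1fb55310c477.shift 2 0), (rhd88389edd11f7737.shift 0 1)] (by decide +kernel))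
noncomputable def rhb81886e6487fe765 : CRef := CRef.mk (Pat.mk 0x800000000000000000000000f00000000 0x800000008000000180000001f00000038 4 6) 0 0 (step_sound _ 4 [rh7263bdfa48a70307, rh96851dee118c1ba3] (by decide +kernel))
noncomputable def rh41af8696f4579ab3 : CRef := CRef.mk (Pat.mk 0x180000001c00000000 0x1f000000ff000000e0 4 8) 0 0 (step_sound _ 37 [(rh79b3c29022acbdf3.shift 2 1), (rh87ee923877636e52.shift 2 0), (rhcda410b351c20b9b.shift 0 1)] (by decide +kernel))
noncomputable def rh375f643453e42b7a : CRef := CRef.mk (Pat.mk 0x8000000080000001e000000000000000000000000 0x8000000080000003e0000000f0000000400000004 4 6) 0 0 (step_sound _ 65 [(rh1b3d8ff1ee6df623.shift 1 0), (rheb0810cc63b001d8.shift 0 2)] (by decide +kernel))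
noncomputable def rhcdfb68dad19a8b95 : CRef := CRef.mk (Pat.mk 0xc0000000e00000002 0xc0000007e00000073 4 7) 0 0 (step_sound _ 36 [(rh87ee923877636e52.shift 1 0), rheb0810cc63b001d8] (by decide +kernel))
noncomputable def rh03de97f287044cf6 : CRef := CRef.mk (Pat.mk 0x800000008000000080000001e00000000 0x40000000c0000000c0000000f0000003e00000003 4 6) 0 0 (step_sound _ 130 [rh1e44bee8957b27af, (rh50fbb5868c909700.shift 2 1)] (by decide +kernel))
noncomputable def rhbefd0a664f0bf60a : CRef := CRef.mk (Pat.mk 0x80000001c0000001c0000000000000000 0x2000000020000000f0000001f0000001c0000000400000004 4 5) 0 0 (step_sound _ 129 [(rh22a65d20d3172694.shift 0 2), rh91d35bee2a77c554, rh926a427b4bfc36ca] (by decide +kernel))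
noncomputable def rh4af7b6c08b1d2dc8 : CRef := CRef.mk (Pat.mk 0x80000001c0000001c0000000000000000 0x20000000f0000001c0000003c0000000600000006 4 6) 0 0 (step_sound _ 34 [(rh71222050f2c63a3a.shift 2 0), rh875c97190b619476] (by decide +kernel))
noncomputable def rh2f6aab5bda7497b7 : CRef := CRef.mk (Pat.mk 0x6000000060000000200000001 0x3000000030000000300000006000000060000000300000001 4 3) 0 0 (step_sound _ 129 [rh79877ebd3ef475dd, (rh90b823c913a425e8.shift 0 1)] (by decide +kernel))
noncomputable def rhd52f7a8c90844d66 : CRef := CRef.mk (Pat.mk 0x80000001a000000180000000000000000 0x80000001f0000001f0000001000000010 4 5) 0 0 (step_sound _ 4 [(rh9e07f76261b05888.shift 3 0), (rhd268c6b2d65bf10d.shift 0 2)] (by decide +kernel))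
noncomputable def rh6380ca6fab66e38a : CRef := CRef.mk (Pat.mk 0xa0000001a0000000a00000000 0x400000014000000360000001e0000001b0000000a00000002 4 6) 0 0 (step_sound _ 98 [(rh644d796282c12cc5.shift 0 1), (rh7f36f639160ea2c8.shift 1 0)] (by decide +kernel))
noncomputable def rha4526ab414a0412b : CRef := CRef.mk (Pat.mk 0x400000000000000060000000600000000 0x40000000400000004000000070000003e00000008 4 6) 0 0 (step_sound _ 98 [rh36d4d92ef3dad5f8, (rh5c5e593799055d58.shift 1 1)] (by decide +kernel))
noncomputable def rhfc441f2c09ed4f3e : CRef := CRef.mk (Pat.mk 0x600000000000000060000000600000000 0x20000000600000004000000070000003e00000008 4 6) 0 0 (step_sound _ 98 [rh36d4d92ef3dad5f8, (rh50fbb5868c909700.shift 1 1)] (by decide +kernel))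
noncomputable def rhd22efb4d25a74e1a : CRef := CRef.mk (Pat.mk 0xf00000000 0x3f0000003f00000070 4 7) 0 0 (step_sound _ 36 [rh2eb6cac0fecf3e9c, (rh9890f9d77740bbed.shift 0 1)] (by decide +kernel))
noncomputable def rh2b760c800e41f981 : CRef := CRef.mk (Pat.mk 0x1e000000000000001600000006 0x80000001e00000030000000170000003e 4 6) 0 0 (step_sound _ 68 [(rhe25b0a99195a5d59.shift 1 2), rheb4502c709f440db] (by decide +kernel))
noncomputable def rheada948350da0ce1 : CRef := CRef.mk (Pat.mk 0xf000000000000000b0000000200000000 0x40000000f000000180000000b0000001e00000004 4 5) 0 0 (step_sound _ 99 [rh7fb47808ecb71818, (rhe25b0a99195a5d59.shift 0 3)] (by decide +kernel))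
noncomputable def rhbada6463504b2331 : CRef := CRef.mk (Pat.mk 0x200000002000000020000000000000000 0x500000007000000070000000700000002000000030000000300000001 4 3) 0 0 (step_sound _ 161 [rh0c1c1b53bc5a1510, rh32c2123a4016d1a7, (rh6d2125986d3f5221.shift 0 1), (rh7ef5fa5c39f1c762.shift 0 2)] (by decide +kernel))
noncomputable def rh486e5a86147aba03 : CRef := CRef.mk (Pat.mk 0x700000006000000040000000000000000 0x4000000070000001f0000003c0000000800000008 4 6) 0 0 (step_sound _ 99 [rh86bd88d8b6da2a4f, (rhf48373e13d2bc128.shift 0 3)] (by decide +kernel))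
noncomputable def rhb9c6296f38ebc9a3 : CRef := CRef.mk (Pat.mk 0x20000000200000002000000020000000200000000 0x500000007000000070000000200000002000000020000000600000004 4 3) 0 0 (step_sound _ 34 [(rh55afc6a59410cf00.shift 1 0), (rh7ef5fa5c39f1c762.shift 0 2)] (by decide +kernel))
noncomputable def rh58658ea5ab4d59f8 : CRef := CRef.mk (Pat.mk 0x180000001e000000100000001000000000 0x10000000180000001e0000001f0000003800000028 4 6) 0 0 (step_sound _ 67 [rh3c6e42263892b9bf, (rhea7a1800d6f053bd.shift 3 0)] (by decide +kernel))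
noncomputable def rh8df1faa89e760cc6 : CRef := CRef.mk (Pat.mk 0x1a0000000e000000020000000000000000 0x30000000b0000001e0000000e0000000e0000000400000004 4 5) 0 0 (step_sound _ 66 [(rh3ebc98c19791ad58.shift 1 0), (rh9dc6f17ef8893ffe.shift 0 2), (rhf91b1398c815afd2.shift 2 0)] (by decide +kernel))
noncomputable def rha45b9a4d75ac9a9b : CRef := CRef.mk (Pat.mk 0xc000000180000000800000000 0x4000000040000000c0000000f000000180000000800000008 4 5) 0 0 (step_sound _ 96 [(rhab22b5b56e7b3243.shift 0 2), (rhb1a251d9bff81766.shift 2 0)] (by decide +kernel))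
noncomputable def rh16bf9e2d725c658d : CRef := CRef.mk (Pat.mk 0x20000001a0000000e0000000000000000 0x1000000030000001e0000001e0000000300000001 4 5) 0 0 (step_sound _ 128 [rh3f83a2c833fc763b, (rh5419adcd928dba20.shift 0 3)] (by decide +kernel))
end Crest.Agent.S0047.Helper85.Cert
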