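import Crest.Agent.Lib.S0047.Helper85CertPL3F0
import Crest.Agent.Lib.S0047.Helper85CertPL3F1
import Crest.Agent.Lib.S0047.Helper85CertPL3F2
import Crest.Agent.Lib.S0047.Helper85CertPL3F3
import Crest.Agent.Lib.S0047.Helper85CertPL3F4
import Crest.Agent.Lib.S0047.Helper85CertPL3F5
set_option autoImplicit false
set_option linter.all false
set_option Elab.async false
namespace Crest.Agent.S0047.Helper85.Cert
open Crest.Agent.S0047.Helper85

noncomputable def rh2b453b0a235b0bb8 : CRef := CRef.mk (Pat.mk 0x1a00000006000000020000000000000000 0x2000000070000001e00000006000000060000000600000002 4 5) 0 0 (step_sound _ 130 [(rh38a0850c9fea941e.shift 0 1), (rhea7a1800d6f053bd.shift 1 0)] (by decide +kernel))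
noncomputable def rh90773902682b32a8 : CRef := CRef.mk (Pat.mk 0x10000000f0000000100000003 0x200000003000000030000000f0000001b00000003 4 5) 0 0 (step_sound _ 35 [rh73f605273a09a9d0, (rhe25b0a99195a5d59.shift 0 1)] (by decide +kernel))
noncomputable def rh9b548e3f1df0b784 : CRef := CRef.mk (Pat.mk 0x200000016000000020000000000000000 0x1000000070000001f000000020000000200000002 4 5) 0 0 (step_sound _ 128 [(rh2fe78cc5ca4405d8.shift 0 3), rhfa2242deaca05a59] (by decide +kernel))
noncomputable def rhf3731febd9c20499 : CRef := CRef.mk (Pat.mk 0x1000000000000000080000003c00000000 0x1000000010000000380000003f00000060 4 7) 0 0 (step_sound _ 5 [rhaadde2037a7a7ff0, (rhe25b0a99195a5d59.shift 2 0)] (by decide +kernel))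
noncomputable def rhf7c9ddb911c4a3ce : CRef := CRef.mk (Pat.mk 0x1200000006000000020000000000000000 0x3000000070000001e00000006000000060000000600000002 4 5) 0 0 (step_sound _ 161 [rh989f904136cf46d0, (rhd4b4beefcd67f51e.shift 1 1)] (by decide +kernel))
noncomputable def rhe8915d9db8b9f3f2 : CRef := CRef.mk (Pat.mk 0x2000000020000000300000002 0x1000000070000000700000006000000030000000300000002 4 3) 0 0 (step_sound _ 129 [(rh44f453b84f013105.shift 1 0), (rha54302d5ccf5246c.shift 0 1)] (by decide +kernel))
noncomputable def rh9d1baf208daab0d1 : CRef := CRef.mk (Pat.mk 0x3c00000002 0x700000003e00000063 4 7) 0 0 (step_sound _ 5 [rhdf4d0e51ca454953, (rhe25b0a99195a5d59.shift 2 0)] (by decide +kernel))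
noncomputable def rhd5aa0b9d8e48871e : CRef := CRef.mk (Pat.mk 0x3c00000002 0x70000003e00000063 4 7) 0 0 (step_sound _ 5 [(rhe25b0a99195a5d59.shift 2 0), rhe902c9e8f416b192] (by decide +kernel))
noncomputable def rh92438d8f3801022c : CRef := CRef.mk (Pat.mk 0x80000000900000008000000080000000800000000 0x100000001c0000000f00000008000000080000000c00000004 4 5) 0 0 (step_sound _ 2 [(rh0c64cb4eda0300f1.shift 0 1), (rh79877ebd3ef475dd.shift 2 0)] (by decide +kernel))
noncomputable def rh290f8cd721815869 : CRef := CRef.mk (Pat.mk 0x160000001a000000000000000000000000 0x4000000360000001e000000030000000200000002 4 6) 0 0 (step_sound _ 98 [(rh33e738c4ed385b9f.shift 1 3), rh9a011a4d0ec8f646] (by decide +kernel))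
noncomputable def rh36e79de7ab0f1030 : CRef := CRef.mk (Pat.mk 0x8000000380000001a00000000 0x4000000040000000e0000003f0000001b00000008 4 6) 0 0 (step_sound _ 66 [(rh710860539a4c4362.shift 0 1), (rha3e1d11cef3fbde8.shift 1 0)] (by decide +kernel))
noncomputable def rhe3f7cef3f94c4de3 : CRef := CRef.mk (Pat.mk 0x80000000c0000000c000000000000000400000000 0x10000000780000001f0000000c000000080000000c0000000c 4 7) 0 0 (step_sound _ 164 [(rh69012675dfdb1a5b.shift 0 4), (rhc6b4e1276619034d.shift 2 0)] (by decide +kernel))
noncomputable def rha2eb5bc710929d51 : CRef := CRef.mk (Pat.mk 0x7000000010000000500000000 0x2000000020000000600000007000000050000000500000005 4 3) 0 0 (step_sound _ 129 [rh71222050f2c63a3a, (rh95a80f84f48ac358.shift 1 0)] (by decide +kernel))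
noncomputable def rhb5dfa3026e34583e : CRef := CRef.mk (Pat.mk 0xc0000000c0000001800000008 0x100000003c0000000f0000007800000008 4 7) 0 0 (step_sound _ 37 [rhd88e1e5c6d7f696b, (rhf48373e13d2bc128.shift 2 1)] (by decide +kernel))
noncomputable def rh8600bdee62c8ef94 : CRef := CRef.mk (Pat.mk 0xc000000040000000c0000000c00000000 0x100000003c0000000f0000000c0000000c00000004 4 6) 0 0 (step_sound _ 99 [(rh71222050f2c63a3a.shift 2 0), (rhc0ddb33d3a52722b.shift 0 1)] (by decide +kernel))
noncomputable def rh2c1577f3d651e872 : CRef := CRef.mk (Pat.mk 0x7000000020000001600000004 0x180000001f0000003e0000001f00000004 4 6) 0 0 (step_sound _ 68 [rh061c79ec8bac419a, (rh49525a1a7acf004b.shift 0 1), (rhc29273f1bf96f971.shift 0 2), (rhf4f22ba63d5247f3.shift 0 1)] (by decide +kernel))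
noncomputable def rhb130a20996b46871 : CRef := CRef.mk (Pat.mk 0xd0000000f0000000000000000 0x18000000180000000f0000000f0000001c00000004 4 5) 0 0 (step_sound _ 35 [rh79e8159902b0bda5, (rhe25b0a99195a5d59.shift 0 1)] (by decide +kernel))
noncomputable def rhcc1ade6255d3ea8f : CRef := CRef.mk (Pat.mk 0x1c000000080000000c00000004 0x30000001f0000007c0000000f00000004 4 7) 0 0 (step_sound _ 68 [(rh3e11480408ba39c3.shift 0 1), rh59b8ab533772ff61, (rh6292bd8784ece55f.shift 1 2)] (by decide +kernel))
noncomputable def rha51923682849ffc5 : CRef := CRef.mk (Pat.mk 0x80000000b000000080000000300000000 0x8000000080000000f000000180000001f00000010 4 5) 0 0 (step_sound _ 68 [rhbf7c3780f634db8a, (rhc10214bf3fe8094a.shift 0 2)] (by decide +kernel))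
noncomputable def rh719897680cafda13 : CRef := CRef.mk (Pat.mk 0x80000000800000008000000030000000000000000 0x10000000180000001800000008000000180000001f0000001c00000010 4 5) 0 0 (step_sound _ 67 [(rh426f403fa814630c.shift 3 1), (rh666d338a5c9a6892.shift 0 1), rhd8fc2fe14131b89c] (by decide +kernel))
noncomputable def rhb1535db44b778aa6 : CRef := CRef.mk (Pat.mk 0xf0000000b000000010000000100000000 0x40000001c0000000f0000000b0000000b0000000b00000002 4 5) 0 0 (step_sound _ 163 [rh1cbff5cabf26a882, (rh33e738c4ed385b9f.shift 0 4)] (by decide +kernel))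
noncomputable def rha4d655741e78f7b9 : CRef := CRef.mk (Pat.mk 0x6000000060000000200000004 0x3000000030000000300000006000000060000000600000004 4 3) 0 0 (step_sound _ 129 [(rh90b823c913a425e8.shift 0 1), (rh9e07f76261b05888.shift 1 0)] (by decide +kernel))
noncomputable def rh3edb27f69f04d7c4 : CRef := CRef.mk (Pat.mk 0x1600000006000000020000000200000000 0xa0000001e00000007000000060000000600000004 4 5) 0 0 (step_sound _ 34 [(rh55afc6a59410cf00.shift 1 0), (rhb6d7bf451b357532.shift 0 1)] (by decide +kernel))
noncomputable def rh80d10083eb6a67cd : CRef := CRef.mk (Pat.mk 0xc0000000c000000080000000800000000 0x100000003c0000000f000000080000001800000010 4 6) 0 0 (step_sound _ 4 [(rhc0ddb33d3a52722b.shift 0 1), (rhd3458b32566d63f7.shift 3 0)] (by decide +kernel))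
noncomputable def rh858d3565f635b249 : CRef := CRef.mk (Pat.mk 0x20000000200000006000000020000000200000000 0x100000003000000030000000200000006000000060000000300000001 4 3) 0 0 (step_sound _ 0 [rh79877ebd3ef475dd, (rh812b908590c67662.shift 0 2)] (by decide +kernel))
noncomputable def rh2307074d56e2a9fc : CRef := CRef.mk (Pat.mk 0x1e0000001e0000000000000000 0x2000000030000001e0000001e0000000700000004 4 5) 0 0 (step_sound _ 32 [rh38a0850c9fea941e, (rh80fcd6d0a18cb2dd.shift 0 1)] (by decide +kernel))
noncomputable def rh6dc2d17b5ce1ca6f : CRef := CRef.mk (Pat.mk 0x8000000080000001c0000000800000000 0x1000000018000000380000001f0000000800000008 4 6) 0 0 (step_sound _ 132 [rh129370a198de3f49, (rh2f68792b6b779e96.shift 3 1)] (by decide +kernel))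
noncomputable def rhb6683bf8ce83f2d6 : CRef := CRef.mk (Pat.mk 0x400000004000000070000000400000000 0x4000000040000000f0000003e0000000a 4 6) 0 0 (step_sound _ 1 [(rh79877ebd3ef475dd.shift 1 0), rhd9397e4126e81439] (by decide +kernel))
noncomputable def rh30bb9d2f8b796b13 : CRef := CRef.mk (Pat.mk 0x40000000400000007000000040000000200000000 0x4000000040000000f0000003c0000000e00000002 4 6) 0 0 (step_sound _ 1 [(rhd9397e4126e81439.shift 0 1), (rheea67dfebd0f8008.shift 1 0)] (by decide +kernel))
noncomputable def rhb18b4f8c9a8f37bc : CRef := CRef.mk (Pat.mk 0x20000000200000002000000060000000100000000 0x400000006000000060000000200000006000000060000000300000001 4 3) 0 0 (step_sound _ 0 [(rh73f605273a09a9d0.shift 1 2), rheea67dfebd0f8008] (by decide +kernel))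
noncomputable def rh31908ea6c46a950c : CRef := CRef.mk (Pat.mk 0xe000000040000000c0000000400000000 0x300000003e0000000f0000000c0000000c00000008 4 6) 0 0 (step_sound _ 35 [(rh355f0dc964d44ac2.shift 0 1), (rh55afc6a59410cf00.shift 2 0)] (by decide +kernel))
noncomputable def rheacedd262407fad2 : CRef := CRef.mk (Pat.mk 0x20000000200000006000000020000000000000000 0x60000000600000006000000030000000300000003 4 3) 0 0 (step_sound _ 32 [rh2e95f0771a0e88ed, (rh79877ebd3ef475dd.shift 0 1)] (by decide +kernel))
noncomputable def rh141b3859064a7cc2 : CRef := CRef.mk (Pat.mk 0x140000001c000000040000000000000000 0xf0000007f0000001c000000040000000400000004 4 7) 0 0 (step_sound _ 131 [(rh6656f69a80793b12.shift 0 3), rhda49d08e88765cc3, (rhea7a1800d6f053bd.shift 2 0)] (by decide +kernel))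
noncomputable def rh9c230147b0521339 : CRef := CRef.mk (Pat.mk 0x180000001c0000000000000000 0x4000000060000007f0000003c0000000800000008 4 7) 0 0 (step_sound _ 98 [(rh073589708c2d81a3.shift 1 0), (rhe2b63c00a3d7bb73.shift 0 2)] (by decide +kernel))
noncomputable def rh8575980c6a163be1 : CRef := CRef.mk (Pat.mk 0x80000001c000000340000000000000000 0x20000000f0000001c0000003c0000000600000006 4 6) 0 0 (step_sound _ 34 [(rh71222050f2c63a3a.shift 2 0), rha34c10df98dd88fd] (by decide +kernel))
noncomputable def rhc16287f285781cd8 : CRef := CRef.mk (Pat.mk 0x100000001e000000000000000000000000 0x8000000180000001f000000300000001000000010 4 6) 0 0 (step_sound _ 68 [rha0e9bf4f2fe2c0ad, (rhe25b0a99195a5d59.shift 1 2)] (by decide +kernel))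
noncomputable def rh3a87e075e1c8fc12 : CRef := CRef.mk (Pat.mk 0x100000001000000010000000f00000000 0x2000000030000000300000001000000030000000f00000018 4 5) 0 0 (step_sound _ 3 [(rh73f605273a09a9d0.shift 0 1), rhe25b0a99195a5d59] (by decide +kernel))
noncomputable def rh45d4a843c8feda1b : CRef := CRef.mk (Pat.mk 0xe000000040000002000000028 0x300000003f0000007f0000002800000028 4 7) 0 0 (step_sound _ 100 [(rhac92018423ac23c8.shift 1 0), (rhaf9f2efc81a8312b.shift 0 2), rhfca9438864b0a63a] (by decide +kernel))
noncomputable def rh73764d626becc087 : CRef := CRef.mk (Pat.mk 0x200000002000000020000001e00000000 0x1000000030000000300000002000000060000001e00000030 4 6) 0 0 (step_sound _ 4 [(rh65909b08999dc522.shift 0 1), (rhe25b0a99195a5d59.shift 1 0)] (by decide +kernel))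
noncomputable def rhae412c11e8a32e50 : CRef := CRef.mk (Pat.mk 0x90000000b000000080000001200000000 0x90000000b0000000a0000001e00000017 4 5) 0 0 (step_sound _ 1 [rh2613c889e411427e, rhf1ce3581a1c74bc5] (by decide +kernel))
noncomputable def rh9acd28e27504db9d : CRef := CRef.mk (Pat.mk 0x800000008000000080000001200000000 0x800000008000000380000001f00000014 4 6) 0 0 (step_sound _ 35 [rh2b3fe405c5e62233, (rh55afc6a59410cf00.shift 3 0)] (by decide +kernel))
noncomputable def rhd3d54a871825ad17 : CRef := CRef.mk (Pat.mk 0x9000000180000000800000000 0x4000000040000000c0000000f000000180000000800000008 4 5) 0 0 (step_sound _ 98 [(rhab22b5b56e7b3243.shift 0 2), (rhb1a251d9bff81766.shift 2 0)] (by decide +kernel))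
noncomputable def rh1c5f24c0745fd8a8 : CRef := CRef.mk (Pat.mk 0x900000018000000080000000000000000 0x140000001f00000018000000080000000800000008 4 5) 0 0 (step_sound _ 130 [(rh668fc65514a55b16.shift 2 0), (rhab22b5b56e7b3243.shift 0 3)] (by decide +kernel))
noncomputable def rh21c15f9070403438 : CRef := CRef.mk (Pat.mk 0x800000008000000080000000b 0x40000001c0000001c0000001800000018000000180000000f 4 5) 0 0 (step_sound _ 131 [(rh44f453b84f013105.shift 3 0), rhca15ef3ffecfb961] (by decide +kernel))
noncomputable def rh00791f29c690d9b1 : CRef := CRef.mk (Pat.mk 0x800000009000000090000000b 0x2000000120000001e0000000f0000001b0000000f 4 5) 0 0 (step_sound _ 65 [rh51e51e8d2827a2be, rh9632cd427b31131a] (by decide +kernel))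
noncomputable def rh51f3cb18376f31fa : CRef := CRef.mk (Pat.mk 0x800000009000000090000000b 0x2000000060000001e0000000f0000001b0000000f 4 5) 0 0 (step_sound _ 65 [rh51e51e8d2827a2be, rhc0b229266c960235] (by decide +kernel))
noncomputable def rh04f114aaecefdbd4 : CRef := CRef.mk (Pat.mk 0x800000008000000080000000b 0x100000001c0000001c0000000c00000018000000180000000f 4 5) 0 0 (step_sound _ 131 [rh04d9373a4537ca60, (rh3ca48e2a6d60153d.shift 2 0)] (by decide +kernel))
noncomputable def rh35f73fa4676bfd5f : CRef := CRef.mk (Pat.mk 0xd00000008000000080000000000000000 0x140000001f00000018000000080000000800000008 4 5) 0 0 (step_sound _ 35 [(rh50fbb5868c909700.shift 2 1), rh7667cdcdd03b9e2e] (by decide +kernel))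
noncomputable def rhd78cfb539bf34ebf : CRef := CRef.mk (Pat.mk 0xd00000009 0x380000001f0000001b 4 6) 0 0 (step_sound _ 33 [rhd584a578337d0023, rhe25b0a99195a5d59] (by decide +kernel))
noncomputable def rh9846b30ca65be1e9 : CRef := CRef.mk (Pat.mk 0xd000000080000000800000000 0x380000001f000000180000000800000008 4 6) 0 0 (step_sound _ 97 [rh4ab9c4dc4d42970a, (rhe25b0a99195a5d59.shift 0 2)] (by decide +kernel))
noncomputable def rh6cf15cfcfa447745 : CRef := CRef.mk (Pat.mk 0x1a000000060000000000000000 0x2000000030000001e000000070000000400000004 4 5) 0 0 (step_sound _ 98 [rh38a0850c9fea941e, (rheb0810cc63b001d8.shift 0 2)] (by decide +kernel))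
noncomputable def rhdcb8aa14549c35dc : CRef := CRef.mk (Pat.mk 0x1800000016000000000000000000000000 0x8000000180000001f000000300000001000000010 4 6) 0 0 (step_sound _ 99 [(rh53b3c253cb0c65f4.shift 0 3), (rhbbe16ff26f7822db.shift 1 0)] (by decide +kernel))
noncomputable def rh3110541e74b7acc2 : CRef := CRef.mk (Pat.mk 0x40000000d0000000b000000000000000000000000 0x400000004000000040000000f0000000f000000020000000200000002 4 4) 0 0 (step_sound _ 194 [(rh2145e1d24b96a57e.shift 2 3), rh91dfa05bb1518401] (by decide +kernel))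
noncomputable def rhd4544548cec165bc : CRef := CRef.mk (Pat.mk 0xd0000000b0000000800000000 0x10000000180000000f0000000f0000001800000010 4 5) 0 0 (step_sound _ 36 [(rhc10214bf3fe8094a.shift 0 1), rhe062dc4d292ad3be] (by decide +kernel))
noncomputable def rh253d435fa1031887 : CRef := CRef.mk (Pat.mk 0x30000000b000000020000000000000000 0x40000001f0000001b000000020000000200000002 4 5) 0 0 (step_sound _ 33 [rh7b1f1fb55310c477, (rhfed57f23c5f345ee.shift 0 1)] (by decide +kernel))
noncomputable def rh6ecdd18e5ed65c1a : CRef := CRef.mk (Pat.mk 0x4000000000000001c0000000c00000008 0xc0000001c000000380000001f0000000c00000008 4 6) 0 0 (step_sound _ 99 [(rh16567ae718d9fd54.shift 2 1), rhccf6c53fa88468fc] (by decide +kernel))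
noncomputable def rhf85bc9858ee6fb4e : CRef := CRef.mk (Pat.mk 0x40000000c0000000d0000000000000000 0x60000007c0000000f0000000800000008 4 7) 0 0 (step_sound _ 3 [(rh770a805a6060c652.shift 0 2), (rh9e07f76261b05888.shift 2 0)] (by decide +kernel))
noncomputable def rh575d50f69cb144b3 : CRef := CRef.mk (Pat.mk 0x8000000180000001a0000000000000000 0x80000001f0000001f0000001000000010 4 5) 0 0 (step_sound _ 4 [(rh9e07f76261b05888.shift 3 0), (rhe25176f89823b1c7.shift 0 2)] (by decide +kernel))
noncomputable def rh4f1df453014b0993 : CRef := CRef.mk (Pat.mk 0xa00000018000000100000000000000000 0x1f00000078000000100000001000000010 4 7) 0 0 (step_sound _ 4 [(rh9e07f76261b05888.shift 3 0), (rh9ebd639649ea671c.shift 0 3)] (by decide +kernel))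
noncomputable def rh9b373150cdf4efef : CRef := CRef.mk (Pat.mk 0x1c000000000000000c0000000c 0x780000003e000000100000003c0000000f 4 7) 0 0 (step_sound _ 132 [rh5430a6c0e1c09461, (rha0198dc55831a65f.shift 1 3)] (by decide +kernel))
noncomputable def rh72858623438d879e : CRef := CRef.mk (Pat.mk 0x38000000000000001800000018 0x2f0000007e000000e7000000780000001e 4 8) 0 0 (step_sound _ 98 [(rh2cc7d62e70c02209.shift 0 2), (rh2eb6cac0fecf3e9c.shift 1 2), (rh724d723d6bfdb8a6.shift 1 0)] (by decide +kernel))
noncomputable def rh61eab3dfe16d8626 : CRef := CRef.mk (Pat.mk 0x38000000000000001800000018 0x770000003e00000027000000780000001e 4 7) 0 0 (step_sound _ 98 [(rh2c1baeadcd4b32f5.shift 0 2), (rh2cc7d62e70c02209.shift 0 2), (rhb187a42cb8160ac8.shift 1 0)] (by decide +kernel))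
noncomputable def rh839694f7087737eb : CRef := CRef.mk (Pat.mk 0x1c00000000 0xef0000007e000000f0 4 8) 0 0 (step_sound _ 37 [rh2ba551de881ca4cd, (rh2eb6cac0fecf3e9c.shift 1 0), (rh35e918dd76851f8c.shift 2 0), (rhf94411b389c3e54c.shift 1 1)] (by decide +kernel))
noncomputable def rhd3527382b170398a : CRef := CRef.mk (Pat.mk 0x38000000000000001000000010 0x670000003e000000670000003000000010 4 7) 0 0 (step_sound _ 98 [(rh2cc7d62e70c02209.shift 0 2), (rh9c9de8a82d5e4ca8.shift 2 0)] (by decide +kernel))
noncomputable def rhc886af0c19e5a3a5 : CRef := CRef.mk (Pat.mk 0x3800000000 0x7e0000007e000000e7 4 8) 0 0 (step_sound _ 34 [rh2c1baeadcd4b32f5, (rh2eb6cac0fecf3e9c.shift 1 0)] (by decide +kernel))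
noncomputable def rhc4ab2840dc579186 : CRef := CRef.mk (Pat.mk 0xe000000000000000600000016 0x7f0000003e000000700000003e00000017 4 7) 0 0 (step_sound _ 100 [(rh2eb6cac0fecf3e9c.shift 0 2), rh3cbe5718e8191f65, (rhf94411b389c3e54c.shift 0 3)] (by decide +kernel))
noncomputable def rh599593534120762a : CRef := CRef.mk (Pat.mk 0x38000000000000001000000010 0x6f0000007e000000e70000003000000010 4 8) 0 0 (step_sound _ 98 [(rh2cc7d62e70c02209.shift 0 2), (rh2eb6cac0fecf3e9c.shift 1 2), (rh9c9de8a82d5e4ca8.shift 2 0)] (by decide +kernel))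
noncomputable def rhd6bddf675aae9b87 : CRef := CRef.mk (Pat.mk 0x1c000000080000001800000010 0x600000007c0000001f0000007c00000010 4 7) 0 0 (step_sound _ 66 [(rh3694ccc47a1810b0.shift 2 0), (rh4dc133ee0ba1420a.shift 0 2), (rha355876672dc863a.shift 0 1)] (by decide +kernel))
noncomputable def rhfb59f5994f5eeb4d : CRef := CRef.mk (Pat.mk 0x1c0000000c0000000c 0x18000000380000001f0000000c0000000c 4 6) 0 0 (step_sound _ 99 [(rh5c5e593799055d58.shift 2 0), rhccf6c53fa88468fc] (by decide +kernel))
noncomputable def rh181d5ab87aff9399 : CRef := CRef.mk (Pat.mk 0xd000000030000000b00000000 0x6000000060000001f0000001b0000000b00000008 4 5) 0 0 (step_sound _ 97 [rh0f338bb235119347, (rh18965a982d73c794.shift 0 2)] (by decide +kernel))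
noncomputable def rhbb20792b3fb400d5 : CRef := CRef.mk (Pat.mk 0x160000000c0000000c 0x12000000330000001e0000003f0000000c 4 6) 0 0 (step_sound _ 67 [(rha4c5bcb51a1da0a7.shift 1 0), rhe51eaebe8d693828] (by decide +kernel))
noncomputable def rhd166a190eea08e30 : CRef := CRef.mk (Pat.mk 0x2c0000001800000008 0x4000000070000003f0000001f00000008 4 6) 0 0 (step_sound _ 68 [(rh583cd2949503eb8f.shift 0 1), (rhba89ab7cb81bcc90.shift 0 1), (rhe51eaebe8d693828.shift 1 0)] (by decide +kernel))
noncomputable def rha3eb0745c7730869 : CRef := CRef.mk (Pat.mk 0x3800000018 0x7000000ff000000f8 4 8) 0 0 (step_sound _ 34 [(rh6292bd8784ece55f.shift 1 0), rhba89ab7cb81bcc90, (rhf5e124ec5c58a2dd.shift 2 0)] (by decide +kernel))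
noncomputable def rhb8f5a25926f148d6 : CRef := CRef.mk (Pat.mk 0x7000000030000000b00000000 0x6000000060000001f0000001b0000000b00000008 4 5) 0 0 (step_sound _ 99 [rh0f338bb235119347, (rh18965a982d73c794.shift 0 2)] (by decide +kernel))
noncomputable def rh1f0767c7fefae130 : CRef := CRef.mk (Pat.mk 0xe000000060000001000000000 0x380000003f000000360000001000000010 4 6) 0 0 (step_sound _ 100 [(rh18965a982d73c794.shift 1 2), rh6d93b2abe1340970] (by decide +kernel))
noncomputable def rha3774eaddfa491d5 : CRef := CRef.mk (Pat.mk 0x380000001800000008 0x4000000070000003f0000001f00000008 4 6) 0 0 (step_sound _ 66 [(rh583cd2949503eb8f.shift 0 1), (rhba89ab7cb81bcc90.shift 0 1), (rhe51eaebe8d693828.shift 1 0)] (by decide +kernel))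
noncomputable def rh0483ac4b5864783c : CRef := CRef.mk (Pat.mk 0xe000000040000000c0000000c00000000 0x300000003e0000000f0000000c0000000e00000002 4 6) 0 0 (step_sound _ 33 [(rh355f0dc964d44ac2.shift 0 1), (rh932754581e0f4330.shift 1 0)] (by decide +kernel))
noncomputable def rhdeb5ac9ca57fe4a7 : CRef := CRef.mk (Pat.mk 0x8000000000000001e00000018 0x1800000018000000300000001e0000001b 4 6) 0 0 (step_sound _ 0 [(rh4d8d614e03a7f6ad.shift 1 0), rh80fcd6d0a18cb2dd] (by decide +kernel))
noncomputable def rhc44238f1c20af7fd : CRef := CRef.mk (Pat.mk 0x8000000000000001e00000018 0x1800000018000000330000001e00000018 4 6) 0 0 (step_sound _ 64 [(rh3f8766e6ecb455ce.shift 0 1), (rh4d8d614e03a7f6ad.shift 1 0)] (by decide +kernel))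
noncomputable def rh04b80be1dd2c7952 : CRef := CRef.mk (Pat.mk 0x1c00000000 0xff0000007e000000e0 4 8) 0 0 (step_sound _ 37 [(rh00f1bb10334541e3.shift 0 1), (rh2eb6cac0fecf3e9c.shift 1 0), (rh35e918dd76851f8c.shift 2 0)] (by decide +kernel))
noncomputable def rh343d1fd3368a933d : CRef := CRef.mk (Pat.mk 0x380000001a00000010 0x2000000020000000700000003f0000001b00000010 4 7) 0 0 (step_sound _ 101 [(rhbfb5770941270498.shift 4 0), (rhec5da64b6932079e.shift 0 1)] (by decide +kernel))
noncomputable def rh12e953d774aafc9e : CRef := CRef.mk (Pat.mk 0x180000001e000000100000001000000000 0x20000000300000001f0000001e000000180000001800000008 4 6) 0 0 (step_sound _ 129 [(rh3244c3cc8379b070.shift 0 3), (rhe98786ef5ee582a1.shift 1 0)] (by decide +kernel))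
noncomputable def rhb6022c8b4e3bf0ea : CRef := CRef.mk (Pat.mk 0xa000000180000000800000000 0x4000000040000000c0000000f000000180000000800000008 4 5) 0 0 (step_sound _ 98 [(rhb1a251d9bff81766.shift 2 0), (rhb739f4f82bb681b4.shift 0 2)] (by decide +kernel))
noncomputable def rh61afa6d7bed914c4 : CRef := CRef.mk (Pat.mk 0xa000000080000000b 0x1f000000780000000f 4 7) 0 0 (step_sound _ 36 [rh1c62b6193297d9e3, (rh9ebd639649ea671c.shift 0 1)] (by decide +kernel))
noncomputable def rh4a18dd0a1b89a7b5 : CRef := CRef.mk (Pat.mk 0xe000000080000000800000000 0x4000000040000000c0000000f000000180000000800000008 4 5) 0 0 (step_sound _ 68 [(rhb1a251d9bff81766.shift 2 0), (rhb739f4f82bb681b4.shift 0 2)] (by decide +kernel))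
noncomputable def rh5325751301e7c463 : CRef := CRef.mk (Pat.mk 0xe000000080000000800000000 0x100000001c0000001f000000080000000800000008 4 5) 0 0 (step_sound _ 3 [rh44f2ec19b3452892, (rh50fbb5868c909700.shift 2 0)] (by decide +kernel))
noncomputable def rh34d6385eab491db0 : CRef := CRef.mk (Pat.mk 0xe000000080000000800000000 0x40000001f000000780000000800000008 4 7) 0 0 (step_sound _ 3 [(rh50fbb5868c909700.shift 2 0), (rh8ee80cc30e93a344.shift 0 2)] (by decide +kernel))
noncomputable def rh507b9d90c088b3f0 : CRef := CRef.mk (Pat.mk 0x8000000080000000f00000000 0x140000001c0000001c000000080000000f00000018 4 5) 0 0 (step_sound _ 3 [(rh7ef5fa5c39f1c762.shift 2 0), rhe25b0a99195a5d59] (by decide +kernel))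
noncomputable def rh7004e0a8c598abb6 : CRef := CRef.mk (Pat.mk 0x1000000016000000100000000000000000 0x8000000180000001f000000300000001000000010 4 6) 0 0 (step_sound _ 99 [rha0e9bf4f2fe2c0ad, (rhe25b0a99195a5d59.shift 1 2)] (by decide +kernel))
noncomputable def rh11fd272cb5992d12 : CRef := CRef.mk (Pat.mk 0xc000000080000000b0000000900000001 0x100000001a0000001f0000000a0000000b0000000b00000001 4 5) 0 0 (step_sound _ 164 [(rhbaefcd01e0a8bca3.shift 3 1), rhf939b1ab33988cc0] (by decide +kernel))
noncomputable def rh6167c9816cf4762b : CRef := CRef.mk (Pat.mk 0x180000000800000000000000030000000100000001 0x7a0000001f00000002000000030000000300000001 4 7) 0 0 (step_sound _ 129 [(rh0b786d94a31538a6.shift 0 4), rhb009278fdd334770] (by decide +kernel))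
noncomputable def rh2abc9afeb59f252d : CRef := CRef.mk (Pat.mk 0x1800000010000000100000001600000002 0x1c0000001f000000340000001600000016 4 6) 0 0 (step_sound _ 99 [rh4b0a0b8b1d7a68bd, (rh7b1f1fb55310c477.shift 3 0)] (by decide +kernel))
noncomputable def rhe76333e819872155 : CRef := CRef.mk (Pat.mk 0x1400000008000000080000000800000000 0x100000003c0000000f000000080000000800000008 4 6) 0 0 (step_sound _ 98 [(rh336e2d74b331720f.shift 0 1), (rh7b1f1fb55310c477.shift 2 0)] (by decide +kernel))
noncomputable def rhd59063e0c67b40c1 : CRef := CRef.mk (Pat.mk 0x1400000008000000080000000b00000001 0x100000001f0000003b0000000a0000000b00000001 4 6) 0 0 (step_sound _ 131 [(rh2f68792b6b779e96.shift 3 1), rh90b85f7760e141ab] (by decide +kernel))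
noncomputable def rhaaff34b08612206f : CRef := CRef.mk (Pat.mk 0x1800000010000000100000001600000002 0x3c0000001f000000140000001600000016 4 6) 0 0 (step_sound _ 99 [(rh7b1f1fb55310c477.shift 3 0), rhfe405070155d49ba] (by decide +kernel))
noncomputable def rheb37ac6a0daaaba3 : CRef := CRef.mk (Pat.mk 0x100000000800000008000000080000000b0000000100000001 0x18000000180000000e0000000e0000001e0000000b0000000b00000009 4 5) 0 0 (step_sound _ 98 [(rh22e4692fc0b8bac4.shift 2 0), rh9dd7a22ddf5a1787] (by decide +kernel))
noncomputable def rh8912f19c16d7f53e : CRef := CRef.mk (Pat.mk 0x8000000080000000a0000000b 0x40000001c0000001c000000180000000c0000001e0000000b 4 5) 0 0 (step_sound _ 131 [rh18f1d957841163d1, (rh44f453b84f013105.shift 3 0)] (by decide +kernel))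
noncomputable def rh85eb91a220f5070a : CRef := CRef.mk (Pat.mk 0x80000000b000000090000001100000000 0x2000000120000001e0000000b0000000b0000001900000010 4 5) 0 0 (step_sound _ 35 [(rh55afc6a59410cf00.shift 3 0), (rh9632cd427b31131a.shift 0 1)] (by decide +kernel))
noncomputable def rh1954ed0d9ea4c7c3 : CRef := CRef.mk (Pat.mk 0xc00000008000000030000000100000001 0x20000001f0000007a000000030000000300000001 4 7) 0 0 (step_sound _ 129 [(rh8ee80cc30e93a344.shift 0 3), rhb009278fdd334770] (by decide +kernel))
noncomputable def rh3ad9965346963acf : CRef := CRef.mk (Pat.mk 0x40000000800000008000000080000000b0000000100000001 0xc0000000c0000001a0000001a0000001e0000000b0000000b00000009 4 5) 0 0 (step_sound _ 100 [rh7e46dfea8e293018, (rhc9bca0ac38057db5.shift 2 0)] (by decide +kernel))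
noncomputable def rh8f2d710dd4ae4542 : CRef := CRef.mk (Pat.mk 0x8000000080000000a0000000b 0x100000001c0000001c0000000c000000180000001e0000000b 4 5) 0 0 (step_sound _ 131 [(rh3ca48e2a6d60153d.shift 2 0), rh95cad3b3219b3427] (by decide +kernel))
noncomputable def rh0f2ccc0dd23053dc : CRef := CRef.mk (Pat.mk 0x1800000008000000030000000100000001 0x20000007e0000001e000000030000000300000001 4 7) 0 0 (step_sound _ 97 [rh69755ef358ebfd54, (rhbe16fe098452d544.shift 0 2)] (by decide +kernel))
noncomputable def rh49db67ea0c0f33ac : CRef := CRef.mk (Pat.mk 0x8000000080000000a0000000b 0x100000001c0000001c0000000c0000000c0000001e0000000b 4 5) 0 0 (step_sound _ 131 [(rh3ca48e2a6d60153d.shift 2 0), rhccd2826ff3aac686] (by decide +kernel))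
noncomputable def rhb4273c35f1cde739 : CRef := CRef.mk (Pat.mk 0x80000000800000008000000080000000b 0x1000000018000000180000000c0000001c0000001c0000001e0000000b 4 5) 0 0 (step_sound _ 163 [(rh1bcc0ee4b9efe8d2.shift 2 0), (rh426f403fa814630c.shift 3 1), rh8764201842eec5e1] (by decide +kernel))
noncomputable def rh0473af495c1e2600 : CRef := CRef.mk (Pat.mk 0x800000008000000080000000800000003 0x40000000c0000000c000000080000001c0000001e00000003 4 5) 0 0 (step_sound _ 163 [(rh3ca48e2a6d60153d.shift 2 1), rh8764201842eec5e1] (by decide +kernel))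
noncomputable def rh32b120fe634ad3db : CRef := CRef.mk (Pat.mk 0x800000008000000080000000800000003 0x40000000c0000000c000000080000001c0000001c0000001e00000003 4 5) 0 0 (step_sound _ 163 [(rh0fd870c734e6c513.shift 2 1), (rh29dd5384d80ecb1e.shift 2 1), rh8764201842eec5e1] (by decide +kernel))
noncomputable def rh31387895e755a011 : CRef := CRef.mk (Pat.mk 0x300000003000000020000000000000000 0x600000006000000060000000300000003000000030000000300000003 4 3) 0 0 (step_sound _ 161 [(rh1e309b005ffa1b36.shift 0 1), (rh5fa50b509d4ce753.shift 0 2), rhbdf73b26f73f8159] (by decide +kernel))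
noncomputable def rh5d80382ac3a74c83 : CRef := CRef.mk (Pat.mk 0x2000000020000000300000002000000000000000000000000 0x2000000030000000300000006000000070000000700000001 4 3) 0 0 (step_sound _ 65 [rh24b4f41f846cb1d8, (rhd29a1fb688eae70f.shift 1 1)] (by decide +kernel))
noncomputable def rhbd78a571ffa91fb9 : CRef := CRef.mk (Pat.mk 0x20000000200000003000000020000000000000000 0x30000000300000003000000060000000600000006 4 3) 0 0 (step_sound _ 34 [rhc7a10ee8d0d37048, (rhd3458b32566d63f7.shift 1 1)] (by decide +kernel))
noncomputable def rh174f5121708c891e : CRef := CRef.mk (Pat.mk 0x80000000b0000000a0000000800000000 0x80000000b0000001e0000003c00000014 4 6) 0 0 (step_sound _ 34 [rh338d1ab1167989a9, (rh932754581e0f4330.shift 2 0)] (by decide +kernel))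
noncomputable def rh46e27c7e279c1ec2 : CRef := CRef.mk (Pat.mk 0x1000000016000000140000001000000000 0x10000000370000003e0000003000000020 4 6) 0 0 (step_sound _ 5 [(rh799b546ddd265bb3.shift 0 2), (rhd3458b32566d63f7.shift 4 0)] (by decide +kernel))
noncomputable def rhd6251b13e4ace983 : CRef := CRef.mk (Pat.mk 0x1000000016000000140000001000000000 0x10000000370000003e0000001800000008 4 6) 0 0 (step_sound _ 3 [(rh79877ebd3ef475dd.shift 3 0), (rh799b546ddd265bb3.shift 0 2)] (by decide +kernel))
noncomputable def rhbfc2752e88253928 : CRef := CRef.mk (Pat.mk 0x80000000b0000000a000000080000000000000000 0x10000000b0000000b0000000b0000001e0000001600000004 4 5) 0 0 (step_sound _ 65 [(rh11a243992b58ed44.shift 0 1), rh3b2071d8ef65be7d, (rh7b24c4ccc068b0b2.shift 0 1)] (by decide +kernel))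
noncomputable def rh6a02af414051caec : CRef := CRef.mk (Pat.mk 0x80000000b0000000a0000000800000000 0x80000000b0000001f0000001c00000014 4 5) 0 0 (step_sound _ 2 [(rh79877ebd3ef475dd.shift 2 0), rhe85af660bf4151dd] (by decide +kernel))
noncomputable def rhb6cae17d472dd660 : CRef := CRef.mk (Pat.mk 0x2000000038000000000000003800000000 0x28000000380000001f0000007c00000010 4 7) 0 0 (step_sound _ 67 [(rhd6e64bb7d1c8c62d.shift 3 0), (rhfd99604093c09fe0.shift 0 1)] (by decide +kernel))
noncomputable def rhf22063b6e12572dd : CRef := CRef.mk (Pat.mk 0x4000000070000000000000003000000000000000000000000 0x5000000070000000300000003000000030000000200000002 4 3) 0 0 (step_sound _ 65 [(rh04253f50b6dd0619.shift 1 2), rh0588d2c7f2cab5e9] (by decide +kernel))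
noncomputable def rh16917461a2af9020 : CRef := CRef.mk (Pat.mk 0x1c00000000 0xef0000007e00000077 4 8) 0 0 (step_sound _ 37 [rh2ba551de881ca4cd, rh8195a2d7794c7cd2, (rhf94411b389c3e54c.shift 1 1)] (by decide +kernel))
noncomputable def rhb54390edcf8a95c3 : CRef := CRef.mk (Pat.mk 0x3800000000 0x70000007e000000ff 4 8) 0 0 (step_sound _ 34 [rh2ba551de881ca4cd, rh2cc7d62e70c02209, rh8195a2d7794c7cd2, (rh8db7f7558b75b2b1.shift 1 0)] (by decide +kernel))
noncomputable def rh0c6bdea858fdba6a : CRef := CRef.mk (Pat.mk 0xc00000007000000000000000e00000000 0xc0000000f000000780000001f0000000c 4 7) 0 0 (step_sound _ 67 [(rha11dfd15f08f96e3.shift 0 1), (rhd4e38fcad27edc47.shift 0 1), (rhdc23d12011095348.shift 2 0)] (by decide +kernel))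
noncomputable def rhb31ed74e4c4d2f19 : CRef := CRef.mk (Pat.mk 0x1000000018000000000000003800000000 0x100000001800000008000000780000001f 4 7) 0 0 (step_sound _ 3 [(rh04253f50b6dd0619.shift 3 0), rhf0f55c4504412200] (by decide +kernel))
noncomputable def rh74109dc06a003107 : CRef := CRef.mk (Pat.mk 0x200000003800000000 0x600000003e00000077 4 7) 0 0 (step_sound _ 34 [(rh33e738c4ed385b9f.shift 2 1), rh8195a2d7794c7cd2] (by decide +kernel))
noncomputable def rh90111ab63c1cb216 : CRef := CRef.mk (Pat.mk 0x1000000000000000000000000f00000000 0x1000000010000000380000001f00000018 4 6) 0 0 (step_sound _ 3 [rhb27e63f82e0a6668, rhe25b0a99195a5d59] (by decide +kernel))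
noncomputable def rha4576749d8ce5073 : CRef := CRef.mk (Pat.mk 0xc00000000000000380000000000000000 0xc0000000c0000000f0000007c0000001800000010 4 7) 0 0 (step_sound _ 99 [(rha9fbfd4bb8cf890b.shift 0 2), (rhab92366f0179162d.shift 2 0)] (by decide +kernel))
noncomputable def rhdfcb0bd691cb0040 : CRef := CRef.mk (Pat.mk 0x800000008000000000000000e00000000 0x800000018000000700000003e00000077 4 7) 0 0 (step_sound _ 36 [(rh6797c410c820e91e.shift 1 0), rh8db7f7558b75b2b1, rhdd4fe9fd28ed4c0f] (by decide +kernel))
noncomputable def rh83cc5b56a0fe54bf : CRef := CRef.mk (Pat.mk 0xc000000000000003800000000 0x80000000c000000070000003e00000077 4 7) 0 0 (step_sound _ 34 [rh2ba551de881ca4cd, (rh4dde45b6cee3e19c.shift 1 0), rh8195a2d7794c7cd2] (by decide +kernel))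
noncomputable def rhfc91f7ac1b4d8bb8 : CRef := CRef.mk (Pat.mk 0x80000000b000000000000000e00000000 0x90000001b000000330000001e00000033 4 6) 0 0 (step_sound _ 36 [(rh6797c410c820e91e.shift 1 0), rhff16e84bf8b4ed74] (by decide +kernel))
noncomputable def rhdfb0db7019a6fa1a : CRef := CRef.mk (Pat.mk 0x180000000e000000040000000c00000000 0x20000001b0000001e000000370000001c00000018 4 6) 0 0 (step_sound _ 100 [(rhdc461deccfb05432.shift 1 0), (rhe4f9133a81c1dbc5.shift 0 1)] (by decide +kernel))
noncomputable def rh198f6e45d5dea666 : CRef := CRef.mk (Pat.mk 0x4000000070000000100000002000000000000000000000000 0x5000000070000000300000003000000030000000200000002 4 3) 0 0 (step_sound _ 65 [(rh04253f50b6dd0619.shift 1 2), rhe482ee30a2733b5f] (by decide +kernel))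
noncomputable def rhaace04c8f30afe3d : CRef := CRef.mk (Pat.mk 0x380000000800000030000000000000000000000000 0x8000000780000000f0000003c000000180000001000000010 4 7) 0 0 (step_sound _ 99 [(rh70e33bfdf511e144.shift 3 0), (rhce7d5f98db881521.shift 0 3)] (by decide +kernel))
noncomputable def rh4f68b5a7ce794fa7 : CRef := CRef.mk (Pat.mk 0x380000000000000070 0x78000001df000000f8 4 9) 0 0 (step_sound _ 35 [(rh487b88e88b0840f2.shift 3 0), (rh8288fb599a75c6d0.shift 2 0), rhb3888086d5460b3f, (rhf0f55c4504412200.shift 0 1)] (by decide +kernel))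
noncomputable def rhabb630fbfb9348e3 : CRef := CRef.mk (Pat.mk 0x1000000010000000000000003800000000 0x1000000030000000670000003e00000077 4 7) 0 0 (step_sound _ 34 [rh2ba551de881ca4cd, rh2cc7d62e70c02209, (rh6797c410c820e91e.shift 2 0)] (by decide +kernel))
noncomputable def rheafa19b129158648 : CRef := CRef.mk (Pat.mk 0x3800000000 0xf0000007e000000f7 4 8) 0 0 (step_sound _ 34 [rh2ba551de881ca4cd, rh2cc7d62e70c02209, (rh2eb6cac0fecf3e9c.shift 1 0), rh8195a2d7794c7cd2] (by decide +kernel))
noncomputable def rh9243bb8874ce0207 : CRef := CRef.mk (Pat.mk 0x180000000e000000000000001c00000000 0x180000001e000000f70000007c000000f0 4 8) 0 0 (step_sound _ 37 [(rh35e918dd76851f8c.shift 2 0), rh916e81c92ee89fc2, rha7f757d8f6d0eda7] (by decide +kernel))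
noncomputable def rhed3511690575b210 : CRef := CRef.mk (Pat.mk 0x3800000000 0xef0000007e00000077 4 8) 0 0 (step_sound _ 34 [rh2ba551de881ca4cd, rh8195a2d7794c7cd2, (rhf94411b389c3e54c.shift 1 1)] (by decide +kernel))
noncomputable def rha70022fdee1445c8 : CRef := CRef.mk (Pat.mk 0x1000000010000000000000003800000000 0x1000000030000000ef0000007e00000070 4 8) 0 0 (step_sound _ 34 [rh2ba551de881ca4cd, (rh6797c410c820e91e.shift 2 0), (rhf94411b389c3e54c.shift 1 1)] (by decide +kernel))
noncomputable def rhdd788b0787760312 : CRef := CRef.mk (Pat.mk 0x4000000040000001c00000000 0x400000004000000060000003e00000007 4 6) 0 0 (step_sound _ 37 [(rh3244c3cc8379b070.shift 1 1), rh81cdd2836921eed0] (by decide +kernel))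
noncomputable def rh85a0d1c6f8209481 : CRef := CRef.mk (Pat.mk 0x2000000000000001e000000000000000000000000 0x200000002000000070000001e000000040000000400000004 4 5) 0 0 (step_sound _ 129 [(rh046c5eb18e55a239.shift 1 0), (rh3244c3cc8379b070.shift 0 3)] (by decide +kernel))
noncomputable def rhdc42aff5a1888dc1 : CRef := CRef.mk (Pat.mk 0x2000000000000001e0000000000000000 0x200000002000000030000001e0000000700000004 4 5) 0 0 (step_sound _ 33 [rh588313057d8c81d0, (rheb0810cc63b001d8.shift 0 1)] (by decide +kernel))
noncomputable def rhcfa1331ee75eea2b : CRef := CRef.mk (Pat.mk 0x4000000000000001e0000000000000000 0x400000004000000070000001e0000000300000002 4 5) 0 0 (step_sound _ 33 [rhaaec5bddae1722ba, (rheb0810cc63b001d8.shift 0 1)] (by decide +kernel))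
noncomputable def rh266e53b94f915c3d : CRef := CRef.mk (Pat.mk 0x180000000e000000000000000c00000004 0x1b0000001e000000330000001e0000001c 4 6) 0 0 (step_sound _ 100 [rh483fbfd538e8380f, (rhdc461deccfb05432.shift 1 0)] (by decide +kernel))
noncomputable def rhc32899ca69d8b859 : CRef := CRef.mk (Pat.mk 0x8000000080000000a0000000800000000 0x8000000080000000f0000001e00000014 4 5) 0 0 (step_sound _ 34 [(rh932754581e0f4330.shift 2 0), rhecf53791081c87c9] (by decide +kernel))
noncomputable def rh04b9c9d4cca65bce : CRef := CRef.mk (Pat.mk 0x80000000e000000020000000a000000000000000000000000 0x80000000e000000060000001e000000070000000700000005 4 5) 0 0 (step_sound _ 65 [rh3181373a30ceb9e3, rh8aec56c4ee12918c, (rh8c3839f9b9075f23.shift 1 0), (rhc4ddf431cfa64f6c.shift 0 1)] (by decide +kernel))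
noncomputable def rhb3cb9bd695510282 : CRef := CRef.mk (Pat.mk 0x2000000038000000080000002800000000 0x1000000030000000380000001f0000007c00000030 4 7) 0 0 (step_sound _ 36 [(rhf0afbb9e5bf25ffb.shift 3 0), (rhfd99604093c09fe0.shift 0 1)] (by decide +kernel))
noncomputable def rhd23c45b6a91bed6f : CRef := CRef.mk (Pat.mk 0x80000000e0000001a000000000000000000000000 0xc0000001e0000001e000000330000001200000012 4 6) 0 0 (step_sound _ 98 [rh9a011a4d0ec8f646, (rhd132b680030c88e0.shift 1 0)] (by decide +kernel))
noncomputable def rha40f8f78fb75e358 : CRef := CRef.mk (Pat.mk 0x3400000014 0x70000003e00000036 4 6) 0 0 (step_sound _ 35 [rh4f8edb321cf5b49d, (rheb0810cc63b001d8.shift 1 0)] (by decide +kernel))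
noncomputable def rh28aca3f80a7edfeb : CRef := CRef.mk (Pat.mk 0x40000001400000014000000000000000000000000 0x400000004000000370000003e0000000c0000000800000008 4 6) 0 0 (step_sound _ 99 [(rha768b229dc254047.shift 2 0), (rhd117684c4a851b90.shift 0 3)] (by decide +kernel))
noncomputable def rh9235486165d5c3a8 : CRef := CRef.mk (Pat.mk 0x400000004000000140000000400000000 0x4000000040000003c0000000f0000000a 4 6) 0 0 (step_sound _ 33 [(rh932754581e0f4330.shift 1 0), rh938cdfd658daca9c] (by decide +kernel))
noncomputable def rhf390196cc2b77191 : CRef := CRef.mk (Pat.mk 0x8000000090000000d0000000500000000 0x2000000020000001f0000001b0000000f0000000500000001 4 5) 0 0 (step_sound _ 129 [rh08d50fe567eb1045, rh0e981e81158acd36, (rh228e4e408958f7d9.shift 0 1), rh7a55675dcc8d1379, rhbc836787db0e95ca] (by decide +kernel))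
noncomputable def rh34f01bbeada41651 : CRef := CRef.mk (Pat.mk 0x20000000200000002000000000000000000000000 0x500000007000000070000000200000002000000070000000700000005 4 3) 0 0 (step_sound _ 65 [rh3181373a30ceb9e3, (rh7ef5fa5c39f1c762.shift 0 2)] (by decide +kernel))
noncomputable def rhc6d97e87e239aaa7 : CRef := CRef.mk (Pat.mk 0x200000003400000010 0x670000003e00000030 4 7) 0 0 (step_sound _ 35 [(rh33e738c4ed385b9f.shift 2 1), rh4f8edb321cf5b49d] (by decide +kernel))
noncomputable def rh12008a569febfbdd : CRef := CRef.mk (Pat.mk 0x40000000c0000001c000000000000000000000000 0xc0000000c0000001c0000000f0000000e00000004 4 5) 0 0 (step_sound _ 67 [(rh7b1f1fb55310c477.shift 2 1), rhc43c2d79be381ab2] (by decide +kernel))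
noncomputable def rhf57d39be65f1710c : CRef := CRef.mk (Pat.mk 0x2000000060000000a0000000000000000 0x600000006000000060000001e0000000700000007 4 5) 0 0 (step_sound _ 33 [rh524de033d158b363, (rha707fb719e87fe6e.shift 1 0)] (by decide +kernel))
noncomputable def rhde96ca082bae2d88 : CRef := CRef.mk (Pat.mk 0x90000000f000000050000000000000000 0x3000000030000000b0000000f000000070000000700000004 4 4) 0 0 (step_sound _ 161 [(rh4dec404a6c0e229a.shift 0 1), rh8ceefd112fa892f2, (rhf8e7b16e4fee91e5.shift 0 1)] (by decide +kernel))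
noncomputable def rhbff386e5c565a487 : CRef := CRef.mk (Pat.mk 0x1000000010000000f00000005000000000000000000000000 0x2000000030000000b0000000f00000007000000060000000400000004 4 4) 0 0 (step_sound _ 97 [(rh55afc6a59410cf00.shift 0 2), rh81ffe778af49aeed] (by decide +kernel))
noncomputable def rh626d66e11a785aae : CRef := CRef.mk (Pat.mk 0x6000000060000000a0000000000000000 0x200000006000000060000001e0000000700000007 4 5) 0 0 (step_sound _ 33 [(rh71222050f2c63a3a.shift 1 0), rh92b0e62ae2cb50e6] (by decide +kernel))
noncomputable def rhf72e9f6382081269 : CRef := CRef.mk (Pat.mk 0x2000000060000000200000002000000000000000000000000 0x2000000060000000600000006000000070000000700000001 4 3) 0 0 (step_sound _ 65 [rh8aec56c4ee12918c, (rhd29a1fb688eae70f.shift 1 1)] (by decide +kernel))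
noncomputable def rh4b97adfc09ba9c0a : CRef := CRef.mk (Pat.mk 0x1a0000000e000000020000000200000000 0x120000001b0000001e0000003e0000000f0000000c 4 6) 0 0 (step_sound _ 67 [rh2d80077e040d7c36, rh5b822dfc3a470df5] (by decide +kernel))
noncomputable def rh80a078ff2631050c : CRef := CRef.mk (Pat.mk 0x20000000600000002000000020000000000000000 0x200000002000000020000000600000006000000070000000300000003 4 3) 0 0 (step_sound _ 32 [rh0a33887607d4a541, (rh79877ebd3ef475dd.shift 0 1)] (by decide +kernel))
noncomputable def rh99a909c62208922e : CRef := CRef.mk (Pat.mk 0x340000001c0000000c0000000000000000 0x20000000340000001c0000007f0000007700000022 4 7) 0 0 (step_sound _ 68 [rh59671bed9a6cba8c, (rh9c15644f0cdc1e2d.shift 2 0), (rhb7449ccef11896f2.shift 1 0)] (by decide +kernel))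
noncomputable def rh9bc060a7598ec347 : CRef := CRef.mk (Pat.mk 0x1a0000001a000000020000000200000000 0x100000001a0000001a0000001b0000001e0000001c 4 5) 0 0 (step_sound _ 35 [(rh2c7fc7a7cc8a47be.shift 3 0), rhae871c5f1e311506, rhb368d453bce0a7e3] (by decide +kernel))
noncomputable def rh3d5133f2492a1115 : CRef := CRef.mk (Pat.mk 0x6800000028000000080000001800000000 0x440000006c000000780000003f00000078000000e0 4 8) 0 0 (step_sound _ 37 [(rh4e6309acfb5177d2.shift 2 0), (rhdce853976e9f519e.shift 2 0), (rhf60aa8aede119d3b.shift 0 1), (rhf990d612de23e789.shift 2 0)] (by decide +kernel))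
noncomputable def rh75473f57dd7188f8 : CRef := CRef.mk (Pat.mk 0x6800000028000000080000001800000000 0x440000006c000000780000002f0000007c000000e0 4 8) 0 0 (step_sound _ 37 [(rh4e6309acfb5177d2.shift 2 0), (rha9fbfd4bb8cf890b.shift 0 1), (rhdce853976e9f519e.shift 2 0), (rhf990d612de23e789.shift 2 0)] (by decide +kernel))
noncomputable def rh87c928345dac61e4 : CRef := CRef.mk (Pat.mk 0x6000000020000000080000000c 0x40000000400000004000000060000000600000007c0000002f 4 7) 0 0 (step_sound _ 37 [(rhb730ba14aa32bdb3.shift 5 0), rhe33d9496e10d8eb0] (by decide +kernel))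
noncomputable def rh1c91efc42f47d779 : CRef := CRef.mk (Pat.mk 0x6000000020000000080000000c 0x4000000040000000400000006000000060000000780000003f 4 7) 0 0 (step_sound _ 37 [(rh842ec5de9e712c95.shift 2 0), (rhb730ba14aa32bdb3.shift 5 0), rhcadd85ff2a73e8c7] (by decide +kernel))
noncomputable def rhd8589df49ad97764 : CRef := CRef.mk (Pat.mk 0x1e000000020000000200000000 0x400000006000000070000001e000000060000000600000004 4 5) 0 0 (step_sound _ 129 [(rh3244c3cc8379b070.shift 0 3), (rh426f403fa814630c.shift 1 0)] (by decide +kernel))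
noncomputable def rha95d08f4398e77ca : CRef := CRef.mk (Pat.mk 0x1e000000080000000000000000 0x10000000300000001f000000180000000800000008 4 6) 0 0 (step_sound _ 68 [(rh34b1188e635efc8d.shift 1 0), (rhb739f4f82bb681b4.shift 0 2)] (by decide +kernel))
noncomputable def rh92f835c4c997855c : CRef := CRef.mk (Pat.mk 0x20000001e0000001a0000000000000000 0x4000000360000001e0000001e0000000300000003 4 6) 0 0 (step_sound _ 132 [(rh33e738c4ed385b9f.shift 1 3), rhf7ede8521b5e3068] (by decide +kernel))
noncomputable def rh48cde597676806b0 : CRef := CRef.mk (Pat.mk 0x400000004000000160000000400000000 0x400000004000000370000001e0000000a 4 6) 0 0 (step_sound _ 33 [(rh932754581e0f4330.shift 1 0), rha5333d3cbf4b2811] (by decide +kernel))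
noncomputable def rha7670e59654a6d36 : CRef := CRef.mk (Pat.mk 0x800000018000000180000001800000000 0xc000000f80000001f0000001f00000004 4 8) 0 0 (step_sound _ 65 [rh114380420d2c6317, (rh6d571b54e8dd9e33.shift 0 2), (rh770a805a6060c652.shift 1 2)] (by decide +kernel))
noncomputable def rh0932b2cd875b271e : CRef := CRef.mk (Pat.mk 0x3800000010000000180000001800000000 0x780000001e000000380000001f00000004 4 7) 0 0 (step_sound _ 99 [(rh4dc133ee0ba1420a.shift 1 3), rh6fae963f33cfdfd7] (by decide +kernel))
noncomputable def rh719a4defb16e1b89 : CRef := CRef.mk (Pat.mk 0x100000007800000018 0x3e0000007f00000018 4 7) 0 0 (step_sound _ 66 [(rh3f8766e6ecb455ce.shift 2 1), rhf3c0837ef67ba892] (by decide +kernel))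
noncomputable def rhbaa1833de38f2430 : CRef := CRef.mk (Pat.mk 0x180000001c0000000c0000000400000000 0x10000000340000001f0000001c0000000f0000000600000002 4 6) 0 0 (step_sound _ 130 [rh401a88058b37bc41, (rhee92c360535a626f.shift 0 2)] (by decide +kernel))
noncomputable def rh83fe195d1da49e28 : CRef := CRef.mk (Pat.mk 0x600000007000000000000000200000000 0x1e00000007000000060000000600000006 4 5) 0 0 (step_sound _ 132 [(rh361cc68994bd8a63.shift 0 3), (rhdd8e0f2deaaf4e1f.shift 1 0)] (by decide +kernel))
noncomputable def rhe4843177ab222a54 : CRef := CRef.mk (Pat.mk 0xf00000006000000000000000200000000 0x190000000f00000006000000060000000600000004 4 5) 0 0 (step_sound _ 65 [rh4522ea7bef838818, (rh50fbb5868c909700.shift 0 1)] (by decide +kernel))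
noncomputable def rh9c894faa9536d93e : CRef := CRef.mk (Pat.mk 0x3c0000001c000000000000000800000000 0x630000003f0000001c0000001c0000001c00000014 4 7) 0 0 (step_sound _ 34 [(rh76abbab67b3b12d0.shift 2 0), (rh8f4c920c37cd7688.shift 0 1), (rhecb97fed8c7f1286.shift 2 0)] (by decide +kernel))
noncomputable def rhb951f025be5c276e : CRef := CRef.mk (Pat.mk 0xc0000000e000000000000000e00000000 0xc0000000e0000000a0000001e00000033 4 6) 0 0 (step_sound _ 1 [rh03993b22b78ea9c5, (rh04253f50b6dd0619.shift 1 0)] (by decide +kernel))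
noncomputable def rhec8dcf80a94f4250 : CRef := CRef.mk (Pat.mk 0x180000001c000000000000001c00000000 0x20000001f0000001c000000160000003c00000068 4 7) 0 0 (step_sound _ 66 [rhc2f06c7a97a2ad79, (rhdb45285efcab6b7a.shift 2 0), (rhdce853976e9f519e.shift 1 0)] (by decide +kernel))
noncomputable def rhaae13352adda1013 : CRef := CRef.mk (Pat.mk 0x800000008000000000000000e00000000 0x800000008000000080000003e00000077 4 7) 0 0 (step_sound _ 36 [(rh49bdc49f6b132823.shift 1 0), rh60cbd488643f0e6e, rh8db7f7558b75b2b1] (by decide +kernel))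
noncomputable def rh94629b4e21199a0d : CRef := CRef.mk (Pat.mk 0x80000001c000000000000001c00000000 0xc0000001c000000140000001e00000037 4 6) 0 0 (step_sound _ 66 [(rh71222050f2c63a3a.shift 2 0), rhce2f1d6ebb98fcec] (by decide +kernel))
noncomputable def rh82b45f9bc7ec6902 : CRef := CRef.mk (Pat.mk 0x40000000c000000000000000e00000000 0x40000000c000000080000001f00000078 4 7) 0 0 (step_sound _ 3 [(rh2613c889e411427e.shift 2 0), rh8ee80cc30e93a344] (by decide +kernel))
noncomputable def rh978a56e9da7ed62c : CRef := CRef.mk (Pat.mk 0x20000000200000002000000060000000100000000 0x100000003000000030000000200000006000000060000000300000001 4 3) 0 0 (step_sound _ 0 [(rh65909b08999dc522.shift 0 2), rheea67dfebd0f8008] (by decide +kernel))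
noncomputable def rhd3e77c93b93b67fe : CRef := CRef.mk (Pat.mk 0x20000000200000006000000000000000500000000 0x60000000600000006000000030000000700000006 4 3) 0 0 (step_sound _ 65 [(rh79877ebd3ef475dd.shift 0 1), (rh8f4050c06a082165.shift 1 0)] (by decide +kernel))
noncomputable def rhd6abfd4082649c62 : CRef := CRef.mk (Pat.mk 0x80000001c000000000000000400000004 0x3b0000001f000000030000000600000004 4 6) 0 0 (step_sound _ 97 [rh483fbfd538e8380f, (rhec46bd5500c722c9.shift 0 3)] (by decide +kernel))
noncomputable def rh85e5f3dad717c2fe : CRef := CRef.mk (Pat.mk 0x1000000010000000380000001c000000000000000000000000 0x100000001f0000003f0000003c000000260000000400000004 4 6) 0 0 (step_sound _ 130 [(rh0e9804663e9ab184.shift 1 2), (rhba633729191eaa0a.shift 1 0), (rhba89ab7cb81bcc90.shift 0 3)] (by decide +kernel))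
noncomputable def rh338385865bbd87ac : CRef := CRef.mk (Pat.mk 0x70000000200000002000000000000000000000000 0x1000000070000000600000002000000060000000600000004 4 3) 0 0 (step_sound _ 65 [(rh50fbb5868c909700.shift 0 2), (rh8c3839f9b9075f23.shift 1 0)] (by decide +kernel))
noncomputable def rh7f8e2dc642e0c1d7 : CRef := CRef.mk (Pat.mk 0x20000000300000002000000040000000000000000 0x30000000300000002000000070000000700000001 4 3) 0 0 (step_sound _ 65 [rh24b4f41f846cb1d8, (rh55afc6a59410cf00.shift 1 1)] (by decide +kernel))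
noncomputable def rhad08522259e87e33 : CRef := CRef.mk (Pat.mk 0x40000000c0000000c0000000800000000 0x180000003c0000000f0000000c0000000c00000004 4 6) 0 0 (step_sound _ 131 [(rhc0ddb33d3a52722b.shift 0 1), (rhea7a1800d6f053bd.shift 2 0)] (by decide +kernel))
noncomputable def rh1728b446c037fdbd : CRef := CRef.mk (Pat.mk 0x2000000030000000200000002 0x60000000600000006000000030000000300000003 4 3) 0 0 (step_sound _ 130 [rh1a44f6991f283c8d, (rhbaefcd01e0a8bca3.shift 1 0)] (by decide +kernel))
noncomputable def rhf5b9771386dae5ad : CRef := CRef.mk (Pat.mk 0x80000000800000008000000180000000c0000000000000000 0x8000000080000001800000018000000180000000f0000000800000008 4 5) 0 0 (step_sound _ 64 [(rh24ae073cf30720c4.shift 0 2), (rh84c6bba3847605f7.shift 3 0)] (by decide +kernel))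
noncomputable def rh6ed5e6501b92e21f : CRef := CRef.mk (Pat.mk 0x20000000200000006000000020000000000000000 0x1000000070000000700000006000000020000000200000002 4 3) 0 0 (step_sound _ 160 [(rh50fbb5868c909700.shift 0 2), rhedb11bef59254b8a] (by decide +kernel))
noncomputable def rhe1bc0107055531ad : CRef := CRef.mk (Pat.mk 0xc00000008000000180000000e00000000 0xc0000000f0000001e0000001e00000013 4 5) 0 0 (step_sound _ 1 [rh0863013c73b0cbc2, rhfe26b971575d20c5] (by decide +kernel))
noncomputable def rh6edcaa92401bc585 : CRef := CRef.mk (Pat.mk 0x400000008000000180000000800000000 0x40000000f0000007c0000000800000008 4 7) 0 0 (step_sound _ 98 [(rh7b1f1fb55310c477.shift 2 0), (rhdeca8db941583de2.shift 0 2)] (by decide +kernel))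
noncomputable def rh28f495a60bbf0485 : CRef := CRef.mk (Pat.mk 0x40000000c0000000c00000008 0x8000000180000003c0000000f0000000c0000000c 4 6) 0 0 (step_sound _ 99 [(rh84d1c02a8954c6a8.shift 2 0), rhc0ddb33d3a52722b] (by decide +kernel))
noncomputable def rh8fbd842454c2a343 : CRef := CRef.mk (Pat.mk 0x80000003c0000001800000000 0x4000000040000000e0000003f0000001800000008 4 6) 0 0 (step_sound _ 64 [(rha3e1d11cef3fbde8.shift 1 0), (rhab22b5b56e7b3243.shift 0 1)] (by decide +kernel))
noncomputable def rh846e86aba5476f31 : CRef := CRef.mk (Pat.mk 0x40000001e000000060000000000000000 0x200000002000000070000001e000000060000000600000002 4 5) 0 0 (step_sound _ 1 [(rh9e3edb185cc347de.shift 1 0), (rha3e1d11cef3fbde8.shift 0 1)] (by decide +kernel))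
noncomputable def rhcc01d2023db431ae : CRef := CRef.mk (Pat.mk 0x80000003c0000001c0000000000000000 0x780000003f0000001c0000000400000004 4 7) 0 0 (step_sound _ 2 [(rh9e3edb185cc347de.shift 2 0), (rhe25191970535449e.shift 0 2)] (by decide +kernel))
noncomputable def rh6e26d416aa3e0ff0 : CRef := CRef.mk (Pat.mk 0x80000003c0000001c0000000000000000 0xf0000003f0000001c0000000400000004 4 6) 0 0 (step_sound _ 2 [(rh9e3edb185cc347de.shift 2 0), (rhba89ab7cb81bcc90.shift 0 2)] (by decide +kernel))
noncomputable def rh0776fb12a04abd29 : CRef := CRef.mk (Pat.mk 0x380000001800000010 0x2000000020000000770000003f0000001800000010 4 7) 0 0 (step_sound _ 66 [(rh49606a42a30c7ac4.shift 2 0), (rhba89ab7cb81bcc90.shift 0 1)] (by decide +kernel))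
noncomputable def rh8c616eee48d946df : CRef := CRef.mk (Pat.mk 0x1c000000080000000000000004 0x30000003f0000003f0000000400000004 4 6) 0 0 (step_sound _ 66 [rh32a4ece3e03161fd, (rh4dc133ee0ba1420a.shift 0 2)] (by decide +kernel))
noncomputable def rh728e423be2ca0478 : CRef := CRef.mk (Pat.mk 0xe000000180000000800000018 0x70000000fe0000001f0000001800000018 4 8) 0 0 (step_sound _ 100 [(rh2f68792b6b779e96.shift 3 0), rhf5632e46cbf9b58b] (by decide +kernel))
noncomputable def rha51b5b82969cadee : CRef := CRef.mk (Pat.mk 0x80000001a0000001e00000000 0x40000000f0000000f0000001e0000001e00000003 4 5) 0 0 (step_sound _ 97 [rha1d7f30b3dd3fb23, (rhd8be3b7ca6adb62f.shift 0 2), rhd92709f94034dab9] (by decide +kernel))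
noncomputable def rh2499c14181a1a6e7 : CRef := CRef.mk (Pat.mk 0x80000001a0000001e0000000000000000 0x20000000f0000001e0000001e0000000700000004 4 5) 0 0 (step_sound _ 33 [rh0a421be76e1ce404, (rheb0810cc63b001d8.shift 0 1)] (by decide +kernel))
noncomputable def rh390c9be5a0cda388 : CRef := CRef.mk (Pat.mk 0x1c000000040000000c0000000c 0x120000001f0000003c0000000c0000000c 4 6) 0 0 (step_sound _ 67 [(rh2f68792b6b779e96.shift 3 0), rhcf85c92937975d4d] (by decide +kernel))
noncomputable def rha0decd859dcaa5d8 : CRef := CRef.mk (Pat.mk 0xe000000020000000200000002 0x710000003f0000007e0000000200000002 4 7) 0 0 (step_sound _ 100 [(rh35e918dd76851f8c.shift 1 2), rh3ade54013ae3e615, (rhd584a578337d0023.shift 1 2)] (by decide +kernel))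
noncomputable def rheacddab827c09d5e : CRef := CRef.mk (Pat.mk 0xe000000020000000200000002 0x390000001f0000003a0000000200000002 4 6) 0 0 (step_sound _ 96 [(rh35e918dd76851f8c.shift 0 2), rh50fbb5868c909700] (by decide +kernel))
noncomputable def rh498101ec27235a97 : CRef := CRef.mk (Pat.mk 0x7000000010000000a00000002 0x3c0000001f0000003b0000000a0000000a 4 6) 0 0 (step_sound _ 99 [rh1d5d3e565edd74c8, (rh35e918dd76851f8c.shift 0 2), rhd518b3b5c3e528fc] (by decide +kernel))
noncomputable def rh786570fbfde18451 : CRef := CRef.mk (Pat.mk 0xe00000002000000060000000600000000 0x190000000f00000006000000060000000700000001 4 5) 0 0 (step_sound _ 0 [rh79877ebd3ef475dd, (rhee3972788bccf7a1.shift 0 1)] (by decide +kernel))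
noncomputable def rh2f270258cc317492 : CRef := CRef.mk (Pat.mk 0xe0000000c00000008 0x10000000300000003e0000003f00000008 4 6) 0 0 (step_sound _ 36 [rhafb56784a889a615, (rhf48373e13d2bc128.shift 1 1)] (by decide +kernel))
noncomputable def rhcaa080098f0e9e4a : CRef := CRef.mk (Pat.mk 0x200000006000000060000000200000000 0x3000000030000000300000006000000060000000300000001 4 3) 0 0 (step_sound _ 0 [rh79877ebd3ef475dd, (rh90b823c913a425e8.shift 0 1)] (by decide +kernel))
noncomputable def rh43e209586d371ca9 : CRef := CRef.mk (Pat.mk 0xe000000000000000600000007 0x3c0000001f000000080000001e00000007 4 6) 0 0 (step_sound _ 131 [rh1696e6d3c4174249, (rha0198dc55831a65f.shift 0 3)] (by decide +kernel))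
noncomputable def rhf301274585ae89ae : CRef := CRef.mk (Pat.mk 0xe000000000000000600000013 0x7f0000003e000000700000001e00000013 4 7) 0 0 (step_sound _ 100 [(rh2eb6cac0fecf3e9c.shift 0 2), (rh35e918dd76851f8c.shift 1 2), rh9d82de33bd886c8a, (rhf94411b389c3e54c.shift 0 3)] (by decide +kernel))
noncomputable def rhab598014f2475697 : CRef := CRef.mk (Pat.mk 0xe000000000000000600000007 0x80000000f000000180000001f00000007 4 5) 0 0 (step_sound _ 35 [rh18965a982d73c794, rhfbf32aaaa4505e73] (by decide +kernel))
noncomputable def rh2e265f303379d08c : CRef := CRef.mk (Pat.mk 0x3c0000001c0000000000000000 0x4000000060000003f0000001c0000000800000008 4 6) 0 0 (step_sound _ 96 [(rh38a0850c9fea941e.shift 1 0), (rhab22b5b56e7b3243.shift 0 2)] (by decide +kernel))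
noncomputable def rhf2c3983630ce55c5 : CRef := CRef.mk (Pat.mk 0x1c00000018 0xe0000000ff0000001f 4 8) 0 0 (step_sound _ 37 [(rh226655e3fe6b4a8a.shift 2 0), (rh4dc133ee0ba1420a.shift 1 0), rh583cd2949503eb8f] (by decide +kernel))
noncomputable def rh495bb6f556213da9 : CRef := CRef.mk (Pat.mk 0x1c000000080000000c00000004 0x30000001f0000007c0000001f00000004 4 7) 0 0 (step_sound _ 68 [rh59b8ab533772ff61, (rh6292bd8784ece55f.shift 1 2), (rhea5ad313ff444aaf.shift 0 1)] (by decide +kernel))
noncomputable def rh72084b7e32357294 : CRef := CRef.mk (Pat.mk 0xc00000008000000180000000e00000000 0x100000003c0000000f0000001e0000001e00000013 4 6) 0 0 (step_sound _ 98 [rh76860ba85bb00b71, (rhd88e1e5c6d7f696b.shift 0 1), rhddd2d3a9deee3e27] (by decide +kernel))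
noncomputable def rh06d79b177cf9f49c : CRef := CRef.mk (Pat.mk 0xa0000001a0000000a000000000000000000000000 0x20000000a0000001b0000001e000000360000001400000004 4 6) 0 0 (step_sound _ 98 [(rha768b229dc254047.shift 1 0), (rhb9784ff7a7632a57.shift 0 1)] (by decide +kernel))
noncomputable def rh498fe5fb759cf945 : CRef := CRef.mk (Pat.mk 0x7800000000 0x70000007e0000007e 4 7) 0 0 (step_sound _ 34 [rh2ba551de881ca4cd, (rheae1728ff4a56756.shift 1 0)] (by decide +kernel))
noncomputable def rh61f73186b2b2a38b : CRef := CRef.mk (Pat.mk 0x1800000018000000000000003c00000000 0x380000001f000000040000003c00000006 4 6) 0 0 (step_sound _ 2 [rh8a50dadc3bfde1ea, (rheb0810cc63b001d8.shift 1 0)] (by decide +kernel))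
noncomputable def rh06331c10b54d3536 : CRef := CRef.mk (Pat.mk 0x1800000018000000000000003c00000000 0x380000001f000000060000003c00000004 4 6) 0 0 (step_sound _ 66 [rh236eb15634ba7d7d, (rh3244c3cc8379b070.shift 1 1)] (by decide +kernel))
noncomputable def rh079ecb7be5cb60ab : CRef := CRef.mk (Pat.mk 0x7800000000 0xe0000007e00000077 4 7) 0 0 (step_sound _ 34 [rh8195a2d7794c7cd2, (rhd5eb272e07a4e288.shift 1 1)] (by decide +kernel))
noncomputable def rh225da09fa9a83b25 : CRef := CRef.mk (Pat.mk 0xf00000000 0x700000003f0000003f 4 7) 0 0 (step_sound _ 36 [rh4ad5fc38f1b69f65, rhdd4fe9fd28ed4c0f] (by decide +kernel))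
noncomputable def rhb79d15cd82de7f04 : CRef := CRef.mk (Pat.mk 0x600000016000000000000001e00000000 0x3e00000017000000300000001e00000008 4 6) 0 0 (step_sound _ 68 [rh14c398eee0b473c6, (rh33e738c4ed385b9f.shift 1 1)] (by decide +kernel))
noncomputable def rhb78fc817e5a8ce9a : CRef := CRef.mk (Pat.mk 0x10000000000000001e0000000000000000 0x10000000300000001f0000003800000008 4 6) 0 0 (step_sound _ 36 [rhdd3ee7f0d6132edf, (rhe25b0a99195a5d59.shift 1 1)] (by decide +kernel))
noncomputable def rh125bacfa1843677c : CRef := CRef.mk (Pat.mk 0x8000000000000000f0000000000000000 0x800000008000000180000000f0000001c00000004 4 5) 0 0 (step_sound _ 35 [rhbf729291db99350b, (rhe25b0a99195a5d59.shift 0 1)] (by decide +kernel))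
noncomputable def rh4e3b7a7e3b11280d : CRef := CRef.mk (Pat.mk 0x80000000d0000000c000000000000000400000000 0x10000000180000000f0000000c000000080000000c0000000c 4 5) 0 0 (step_sound _ 164 [(rh24ae073cf30720c4.shift 0 4), (rhc6b4e1276619034d.shift 2 0)] (by decide +kernel))
noncomputable def rhfa3fe75667f8f384 : CRef := CRef.mk (Pat.mk 0x20000000200000002000000000000000000000000 0x100000003000000030000000200000007000000070000000700000005 4 3) 0 0 (step_sound _ 65 [(rh0fd870c734e6c513.shift 0 1), (rh29dd5384d80ecb1e.shift 0 1), rh3181373a30ceb9e3, (rhabedd109a9a37101.shift 0 1)] (by decide +kernel))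
noncomputable def rh794ba2cfb6e850e2 : CRef := CRef.mk (Pat.mk 0x1e00000018000000080000000800000000 0x60000000fe0000001f000000180000001800000010 4 8) 0 0 (step_sound _ 36 [(rh55afc6a59410cf00.shift 3 0), (rhf5632e46cbf9b58b.shift 0 1)] (by decide +kernel))
noncomputable def rhe743265c8df4f80e : CRef := CRef.mk (Pat.mk 0x1c0000001c000000080000000000000000 0x4000000040000001c0000001f0000000f0000000200000002 4 5) 0 0 (step_sound _ 65 [(rh076be03eb7063320.shift 0 2), rh42037a7546c1e13c, (rh931244f04c55416a.shift 0 1), (rhd74396e693bc7125.shift 0 2)] (by decide +kernel))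
noncomputable def rhed3612245a510f53 : CRef := CRef.mk (Pat.mk 0x80000000c0000000e0000000000000000 0x10000000380000003f0000000e0000000800000008 4 6) 0 0 (step_sound _ 100 [(rh18965a982d73c794.shift 1 2), rhcb6278a17751f6e9] (by decide +kernel))
noncomputable def rh210813553596681c : CRef := CRef.mk (Pat.mk 0x20000000600000002000000000000000000000000 0x400000006000000060000000600000006000000070000000700000005 4 3) 0 0 (step_sound _ 65 [rh3181373a30ceb9e3, (rh426f403fa814630c.shift 1 1), (rha707fb719e87fe6e.shift 1 1)] (by decide +kernel))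
noncomputable def rhf2c9e98e20c57a0a : CRef := CRef.mk (Pat.mk 0x80000000c000000090000000000000000 0xc0000000c0000000c0000000f0000001c0000001c 4 5) 0 0 (step_sound _ 35 [rhd171a669e7c6da66, (rhe286c75f2739cce2.shift 2 0)] (by decide +kernel))
noncomputable def rh296bb5e2f0a5b11e : CRef := CRef.mk (Pat.mk 0x20000000600000016000000000000000000000000 0x20000000200000006000000060000001e000000030000000300000002 4 5) 0 0 (step_sound _ 193 [(rh2145e1d24b96a57e.shift 1 3), rh37e540d481210cc1] (by decide +kernel))
noncomputable def rh1dc98d0196bf4a4f : CRef := CRef.mk (Pat.mk 0x90000000c000000080000000000000000 0x180000001c0000000f0000000c0000000c0000000c00000008 4 5) 0 0 (step_sound _ 163 [(rh03dfdf12d5937476.shift 2 1), rhbfadbefefbb2f628] (by decide +kernel))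
noncomputable def rhd3dc70699c0e4a3f : CRef := CRef.mk (Pat.mk 0x160000000600000002 0x200000007000000070000001e0000000600000006 4 5) 0 0 (step_sound _ 98 [(rh5c5e593799055d58.shift 1 0), rhd2185b22cd9754f9] (by decide +kernel))
noncomputable def rh3b44e29800a3160c : CRef := CRef.mk (Pat.mk 0x1600000006000000020000000000000000 0x200000003000000030000001e00000006000000060000000200000002 4 5) 0 0 (step_sound _ 33 [(rh71222050f2c63a3a.shift 1 0), (rh8e4d738d72204634.shift 0 2)] (by decide +kernel))
noncomputable def rh3f1941ac6bab30b4 : CRef := CRef.mk (Pat.mk 0x3800000048000000080000001800000000 0x2000000038000000780000003e0000007f00000004 4 7) 0 0 (step_sound _ 68 [rh6fae963f33cfdfd7, (rh9636e5593b7fa209.shift 1 1)] (by decide +kernel))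
noncomputable def rh3b774877ccc192f0 : CRef := CRef.mk (Pat.mk 0xf0000000f00000001 0xe0000000e0000001e0000000f0000000f00000003 4 5) 0 0 (step_sound _ 130 [(rh4d8d614e03a7f6ad.shift 0 1), rh5de2677fe9bb084d, (rhe908f39dd8d66be2.shift 1 0)] (by decide +kernel))
noncomputable def rhea202aa5ec9b8810 : CRef := CRef.mk (Pat.mk 0x1c0000001a000000020000000000000000 0x40000001c0000001e0000000f0000000800000008 4 5) 0 0 (step_sound _ 64 [(rhb2a0b9ccfb5cecd5.shift 0 2), rhe117d8f2aeb1fdc3] (by decide +kernel))
noncomputable def rha4d87ea3a5548f50 : CRef := CRef.mk (Pat.mk 0x180000001a000000020000000000000000 0x10000000180000001e0000000f0000000800000008 4 5) 0 0 (step_sound _ 64 [(rhb2a0b9ccfb5cecd5.shift 0 2), rhb9721bd954d8cfec] (by decide +kernel))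
noncomputable def rhc5be69ae9d3be62d : CRef := CRef.mk (Pat.mk 0x8000000080000000c00000009000000000000000000000000 0x80000000c0000000c0000000f0000001c0000001800000008 4 5) 0 0 (step_sound _ 98 [(rh932754581e0f4330.shift 2 2), rha85076c68f1f3e46] (by decide +kernel))
noncomputable def rhdb915bcfa2726be9 : CRef := CRef.mk (Pat.mk 0x80000000c0000000d000000000000000000000000 0xc0000000c0000000f0000001c0000001c00000008 4 5) 0 0 (step_sound _ 66 [(rh71222050f2c63a3a.shift 2 1), rha85076c68f1f3e46] (by decide +kernel))
noncomputable def rhbfb012736252aba9 : CRef := CRef.mk (Pat.mk 0x80000000c0000000d000000000000000000000000 0x8000000080000000c0000000c0000000f000000180000001800000008 4 5) 0 0 (step_sound _ 195 [(rh5c5e593799055d58.shift 2 3), rha85076c68f1f3e46] (by decide +kernel))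
noncomputable def rh6468899bc58a05a7 : CRef := CRef.mk (Pat.mk 0xd0000000c00000008 0x80000001c0000001c0000000f0000000c0000000c 4 5) 0 0 (step_sound _ 98 [(rh2145e1d24b96a57e.shift 2 0), rh3db05fa6da1c120b] (by decide +kernel))
noncomputable def rh21c98b16948174e1 : CRef := CRef.mk (Pat.mk 0xd0000000c000000080000000000000000 0x800000018000000180000000f0000000c0000000c0000000800000008 4 5) 0 0 (step_sound _ 35 [(rh312db2f1e4a01342.shift 0 2), (rh7b1f1fb55310c477.shift 2 0)] (by decide +kernel))
noncomputable def rhc973da068051d287 : CRef := CRef.mk (Pat.mk 0x8000000080000001c0000001c00000000 0x40000000c0000000c0000001c0000001f00000003 4 5) 0 0 (step_sound _ 33 [(rh53b3c253cb0c65f4.shift 0 1), rhbe88e915edfa789d] (by decide +kernel))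
noncomputable def rh8365b2ccf6b6e1b6 : CRef := CRef.mk (Pat.mk 0xc000000080000001c0000000e00000000 0x100000003c0000000f0000001c0000000e00000002 4 6) 0 0 (step_sound _ 98 [(rh932754581e0f4330.shift 1 0), (rhd88e1e5c6d7f696b.shift 0 1)] (by decide +kernel))
noncomputable def rh576fe90dac99d593 : CRef := CRef.mk (Pat.mk 0x80000003800000018000000080000000000000000 0x40000000f0000003c00000018000000080000000800000008 4 6) 0 0 (step_sound _ 3 [(rh53509d91ff78ed56.shift 0 2), (rh9e3edb185cc347de.shift 3 0)] (by decide +kernel))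
noncomputable def rhf0eae3109e9a967c : CRef := CRef.mk (Pat.mk 0x800000038000000080000000800000000 0x40000000f0000003c000000080000000c00000004 4 6) 0 0 (step_sound _ 2 [(rh53509d91ff78ed56.shift 0 1), (rh79877ebd3ef475dd.shift 2 0)] (by decide +kernel))
noncomputable def rh51eaacb6a9bbb57b : CRef := CRef.mk (Pat.mk 0x40000000c0000000c0000000c 0x180000003c0000000f0000000c0000000c 4 6) 0 0 (step_sound _ 99 [(rh2f68792b6b779e96.shift 2 0), rhc0ddb33d3a52722b] (by decide +kernel))
noncomputable def rhaab0b73245454834 : CRef := CRef.mk (Pat.mk 0x1c0000000c0000000400000000 0x18000000380000001f0000000c0000000c00000008 4 6) 0 0 (step_sound _ 131 [(rh5c5e593799055d58.shift 2 1), rhcb6278a17751f6e9] (by decide +kernel))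
noncomputable def rhb93d72fc074b8c15 : CRef := CRef.mk (Pat.mk 0x20000001200000002000000020000000200000000 0x1000000070000001e00000002000000020000000300000001 4 5) 0 0 (step_sound _ 0 [(rh775b5b9fdaf893f2.shift 0 1), rh79877ebd3ef475dd] (by decide +kernel))
noncomputable def rh72d3f1f08ab4836e : CRef := CRef.mk (Pat.mk 0x80000001c0000001c000000040000000000000000 0x60000000f0000001c0000001c0000001c0000001800000018 4 5) 0 0 (step_sound _ 67 [(rh1a1ff760019a7e53.shift 0 2), (rh40241bd608e5be1a.shift 2 0), (rhf57bd6481b8b2ca7.shift 3 0)] (by decide +kernel))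
noncomputable def rh325b0ecb3609134c : CRef := CRef.mk (Pat.mk 0x1c00000000 0xf00000007e000000ef 4 8) 0 0 (step_sound _ 37 [rh2c1baeadcd4b32f5, (rh35e918dd76851f8c.shift 2 0), (rh8db7f7558b75b2b1.shift 1 0), (rhdd4fe9fd28ed4c0f.shift 1 0)] (by decide +kernel))
noncomputable def rh971b179dae9f8386 : CRef := CRef.mk (Pat.mk 0x700000006000000040000000600000000 0x10000000700000006000000070000003e00000008 4 6) 0 0 (step_sound _ 35 [(rh55afc6a59410cf00.shift 2 0), (rh6307659a1e91bf84.shift 0 1)] (by decide +kernel))
noncomputable def rhcf8df7483fed4f0a : CRef := CRef.mk (Pat.mk 0xe0000001e000000020000000200000000 0x20000000e0000001e0000003e0000000700000005 4 6) 0 0 (step_sound _ 66 [rh34d0a8890b48de57, (rh40241bd608e5be1a.shift 1 0)] (by decide +kernel))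
noncomputable def rh03d7b74730dc6ef6 : CRef := CRef.mk (Pat.mk 0x80000000c000000180000001c00000000 0x40000000c0000000c0000001c0000001f00000003 4 5) 0 0 (step_sound _ 33 [(rh53b3c253cb0c65f4.shift 0 1), rhe19311ba2a0a1080] (by decide +kernel))
noncomputable def rh9db2ffb490ffba6c : CRef := CRef.mk (Pat.mk 0x1c00000038000000000000000000000000 0x80000001c0000003f000000770000000400000004 4 7) 0 0 (step_sound _ 98 [(rh0e1512cbacfbd48b.shift 0 2), (rh9a011a4d0ec8f646.shift 1 0), (rhf56dc6c929980f59.shift 0 2)] (by decide +kernel))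
noncomputable def rh0317dc778457b218 : CRef := CRef.mk (Pat.mk 0x2000000020000000600000002000000000000000000000000 0x400000006000000060000000600000002000000070000000700000005 4 3) 0 0 (step_sound _ 65 [rh3181373a30ceb9e3, (rh44f453b84f013105.shift 1 2), (rha707fb719e87fe6e.shift 1 1)] (by decide +kernel))
noncomputable def rhead39abee82512be : CRef := CRef.mk (Pat.mk 0x6000000030000000a0000000000000000 0x600000006000000030000001e0000000600000004 4 5) 0 0 (step_sound _ 33 [rh1d16976ebe541f5b, (rh2f68792b6b779e96.shift 1 1)] (by decide +kernel))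
noncomputable def rh8b1c2af1f4d43d0f : CRef := CRef.mk (Pat.mk 0x40000001c0000001c0000000800000000 0x18000000180000001c0000001c0000001c0000000f00000006 4 5) 0 0 (step_sound _ 131 [rh5eb33fb39f0ce454, (rhc0301b400ca2a736.shift 3 1), (rhea7a1800d6f053bd.shift 2 0)] (by decide +kernel))
noncomputable def rh015c28ef3e281b41 : CRef := CRef.mk (Pat.mk 0xe000000000000000c00000004 0x3c0000001f000000080000000c00000004 4 6) 0 0 (step_sound _ 131 [(rh3c88ce959c0e423f.shift 2 0), (rha0198dc55831a65f.shift 0 3)] (by decide +kernel))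
noncomputable def rh676ad4546ffc5d28 : CRef := CRef.mk (Pat.mk 0xe000000000000000e00000004 0x80000001e000000780000000f00000004 4 7) 0 0 (step_sound _ 67 [(rh5c5e593799055d58.shift 2 0), (rhbe364b29d623b14d.shift 0 1)] (by decide +kernel))
noncomputable def rhc6b796e8914de8cc : CRef := CRef.mk (Pat.mk 0x1c00000000 0xff0000007e000000e0 4 8) 0 0 (step_sound _ 37 [(rh00f1bb10334541e3.shift 0 1), (rh2eb6cac0fecf3e9c.shift 1 0), (rh35e918dd76851f8c.shift 2 0), (rhf94411b389c3e54c.shift 1 1)] (by decide +kernel))
noncomputable def rh46d2bdd3f03cd5a5 : CRef := CRef.mk (Pat.mk 0x2000000020000001e000000020000000000000000 0x1000000070000003e0000001e000000020000000200000002 4 6) 0 0 (step_sound _ 130 [(rhae8938145796a1d1.shift 0 2), (rhea7a1800d6f053bd.shift 1 0)] (by decide +kernel))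
noncomputable def rhde73d0b91a24a8a5 : CRef := CRef.mk (Pat.mk 0xc0000000c000000000000000600000000 0x20000000f0000003c000000040000000600000002 4 6) 0 0 (step_sound _ 66 [(rh932754581e0f4330.shift 1 0), (rhcf85c92937975d4d.shift 0 1)] (by decide +kernel))
noncomputable def rhc2ec0d612c2e04db : CRef := CRef.mk (Pat.mk 0x200000002000000020000000200000000 0x500000007000000070000000200000002000000060000000600000004 4 3) 0 0 (step_sound _ 161 [(rh7ef5fa5c39f1c762.shift 0 2), (rhd29a1fb688eae70f.shift 1 0)] (by decide +kernel))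
noncomputable def rh73809aa94a4f5e64 : CRef := CRef.mk (Pat.mk 0xa000000030000000600000000 0x2000000020000001e000000030000000700000005 4 5) 0 0 (step_sound _ 98 [(rh18965a982d73c794.shift 0 2), rhb23658ecdd7ce5df] (by decide +kernel))
noncomputable def rh44b50b6b69065810 : CRef := CRef.mk (Pat.mk 0x1e000000040000000000000000 0x2000000070000001e000000060000000400000004 4 5) 0 0 (step_sound _ 129 [(rh3244c3cc8379b070.shift 0 3), (rh7e1098702e50f2b0.shift 1 0)] (by decide +kernel))
noncomputable def rhed3630b57b16b048 : CRef := CRef.mk (Pat.mk 0x2000000070000000600000006 0xd0000001f000000070000000600000006 4 5) 0 0 (step_sound _ 96 [rh50fbb5868c909700, rhc04a13a5df742017] (by decide +kernel))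
noncomputable def rh4fe4d7a5510902ea : CRef := CRef.mk (Pat.mk 0x2000000070000000600000002 0x30000000300000003000000070000001e00000002 4 5) 0 0 (step_sound _ 35 [rh90b823c913a425e8, (rhf48373e13d2bc128.shift 0 1)] (by decide +kernel))
noncomputable def rh1dc900ed663fe718 : CRef := CRef.mk (Pat.mk 0x1000000030000000700000000 0x30000000300000003000000030000000700000005 4 3) 0 0 (step_sound _ 128 [(rh2145e1d24b96a57e.shift 0 1), rh6b423afcc975f198] (by decide +kernel))
noncomputable def rh59ea434ed71c4dba : CRef := CRef.mk (Pat.mk 0x2000000060000000e000000000000000000000000 0x6000000060000000f0000003c0000000c00000008 4 6) 0 0 (step_sound _ 66 [(rh7b1f1fb55310c477.shift 1 1), rh86bd88d8b6da2a4f] (by decide +kernel))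
noncomputable def rh4b0a39b29844ef60 : CRef := CRef.mk (Pat.mk 0x70000000e0000000400000000 0xe0000001e000000070000000e0000000c00000008 4 5) 0 0 (step_sound _ 129 [(rh2145e1d24b96a57e.shift 1 1), rha84357fa6686b26d] (by decide +kernel))
noncomputable def rh71a88667e709f03b : CRef := CRef.mk (Pat.mk 0x40000000600000006000000020000000000000000 0x600000006000000070000003e0000000c00000004 4 6) 0 0 (step_sound _ 66 [(rh36d4d92ef3dad5f8.shift 0 1), (rh3cb04db3dd2b6a55.shift 1 0)] (by decide +kernel))
noncomputable def rh6f528457195a32b1 : CRef := CRef.mk (Pat.mk 0x100000000000000018000000180000000c00000000 0x18000000180000000800000018000000180000000f00000004 4 5) 0 0 (step_sound _ 32 [(rh24ae073cf30720c4.shift 0 1), (rh9ac2d92c09d7ce5d.shift 2 0)] (by decide +kernel))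
noncomputable def rh63dbcfae63aa4130 : CRef := CRef.mk (Pat.mk 0x400000007000000040000000400000000 0xa0000001e00000007000000040000000c00000008 4 5) 0 0 (step_sound _ 3 [(rh4017de503635a93b.shift 0 1), (rhd3458b32566d63f7.shift 2 0)] (by decide +kernel))
noncomputable def rh6503f139e7e502e6 : CRef := CRef.mk (Pat.mk 0x200000002000000060000000e00000000 0x40000000600000006000000060000000f00000019 4 5) 0 0 (step_sound _ 32 [rh932754581e0f4330, rh9b63f7c12f28b716] (by decide +kernel))
noncomputable def rh7176a54275fd3e59 : CRef := CRef.mk (Pat.mk 0x200000002000000070000000600000000 0x40000000600000006000000070000001e0000000a 4 5) 0 0 (step_sound _ 35 [(rh6b423afcc975f198.shift 1 0), (rhf48373e13d2bc128.shift 0 1)] (by decide +kernel))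
noncomputable def rh47ddfe18b3a75d0f : CRef := CRef.mk (Pat.mk 0x6000000040000000c0000001c00000000 0x80000000f0000003c0000000c0000001c00000010 4 6) 0 0 (step_sound _ 131 [rh166d27a1dae4a6ab, (rh2f68792b6b779e96.shift 2 1)] (by decide +kernel))
noncomputable def rhb0857dede1614316 : CRef := CRef.mk (Pat.mk 0x200000002000000070000000700000000 0x40000000600000006000000070000001f00000018 4 5) 0 0 (step_sound _ 35 [rh9b63f7c12f28b716, (rhf48373e13d2bc128.shift 0 1)] (by decide +kernel))
noncomputable def rh63ff2d56bf77ff36 : CRef := CRef.mk (Pat.mk 0x2000000000000000e0000000c 0x200000002000000030000003e0000000f 4 6) 0 0 (step_sound _ 65 [(rh2145e1d24b96a57e.shift 1 0), rh25a1ad798521b87e] (by decide +kernel))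
noncomputable def rhc14e05cbbaaf54c9 : CRef := CRef.mk (Pat.mk 0x400000007000000040000000400000000 0x80000003e00000007000000040000000c00000008 4 6) 0 0 (step_sound _ 3 [(rh1eeec04e73117746.shift 0 1), (rhd3458b32566d63f7.shift 2 0)] (by decide +kernel))
noncomputable def rhe139380d68eae545 : CRef := CRef.mk (Pat.mk 0x4000000070000001c000000080000000000000000 0x100000003e000000170000001c000000180000000800000008 4 6) 0 0 (step_sound _ 35 [(rh7b1f1fb55310c477.shift 2 0), (rhce710208d4cc2f5c.shift 0 1)] (by decide +kernel))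
noncomputable def rh9f6c9c0d9945753c : CRef := CRef.mk (Pat.mk 0x14000000130000001000000000 0x800000008000000180000001e000000130000001000000010 4 5) 0 0 (step_sound _ 99 [(rhb1a251d9bff81766.shift 3 0), (rhca9569cc80abfe76.shift 0 2)] (by decide +kernel))
noncomputable def rh8ad0a1141242d503 : CRef := CRef.mk (Pat.mk 0x140000001300000010000000000000000000000000 0x80000001e0000001300000010000000380000003800000028 4 6) 0 0 (step_sound _ 68 [(rh3181373a30ceb9e3.shift 3 0), (rhf4cf2e806547c7c1.shift 0 2)] (by decide +kernel))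
noncomputable def rh0becfb987d6e48b6 : CRef := CRef.mk (Pat.mk 0x80000000b0000000a000000000000000000000000 0x8000000080000001b0000001e000000100000001000000010 4 5) 0 0 (step_sound _ 100 [(rh046c5eb18e55a239.shift 3 0), (rh5419adcd928dba20.shift 0 3)] (by decide +kernel))
noncomputable def rh63e3e58eda49bb28 : CRef := CRef.mk (Pat.mk 0x80000000b0000000a000000000000000000000000 0x8000000080000000b0000001e0000000c0000000400000004 4 5) 0 0 (step_sound _ 98 [(rh281c6819542c66e6.shift 2 0), (rhf48373e13d2bc128.shift 0 3)] (by decide +kernel))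
noncomputable def rh6c03a9ef5fb89cef : CRef := CRef.mk (Pat.mk 0x2000000020000000300000000 0x5000000070000000700000002000000020000000300000001 4 3) 0 0 (step_sound _ 129 [(rh7ef5fa5c39f1c762.shift 0 1), rh932754581e0f4330] (by decide +kernel))
noncomputable def rhd4e5ad3e38a471bb : CRef := CRef.mk (Pat.mk 0x40000000400000007000000000000000000000000 0x80000000c0000000c000000070000001e0000000e0000000a 4 5) 0 0 (step_sound _ 66 [(rh32c2123a4016d1a7.shift 1 0), (rhb379f99078aafa2d.shift 0 1), (rhec588a0d7783acc6.shift 2 0)] (by decide +kernel))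
noncomputable def rh3b5c42403893e747 : CRef := CRef.mk (Pat.mk 0x8000000180000000c00000008 0x40000001f000000780000000c00000008 4 7) 0 0 (step_sound _ 69 [(rh18965a982d73c794.shift 2 1), rh79905f95cb2d899a] (by decide +kernel))
noncomputable def rhce8c51cdc0a964a5 : CRef := CRef.mk (Pat.mk 0x80000000c0000000e00000008 0x10000000380000003f0000000e00000008 4 6) 0 0 (step_sound _ 68 [(rh18965a982d73c794.shift 1 1), rhccf6c53fa88468fc] (by decide +kernel))
noncomputable def rh982b63b1a3105b40 : CRef := CRef.mk (Pat.mk 0xe0000000400000003 0x700000003e0000007f00000003 4 7) 0 0 (step_sound _ 68 [(rh35e918dd76851f8c.shift 1 1), rh37c7edfd88ec3914, (rhaf9f2efc81a8312b.shift 0 1)] (by decide +kernel))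
noncomputable def rhc0bb46660c04d705 : CRef := CRef.mk (Pat.mk 0x200000001c 0x770000003e 4 7) 0 0 (step_sound _ 1 [(rh428265de8cd3cd2d.shift 1 0), rhb383fa265348aff0] (by decide +kernel))
noncomputable def rhfb6eb4c11fbcd31e : CRef := CRef.mk (Pat.mk 0xe0000000400000003 0x700000003f0000007e00000003 4 7) 0 0 (step_sound _ 68 [(rh35e918dd76851f8c.shift 1 1), (rh84d84ec8e59a0da5.shift 1 1), rheacfb60dda22d33d] (by decide +kernel))
noncomputable def rh0dd414d1a72dbe92 : CRef := CRef.mk (Pat.mk 0x20000000e00000000 0x3b0000001f00000038 4 6) 0 0 (step_sound _ 36 [rh1a91b9eb8e32063e, (rh3244c3cc8379b070.shift 0 1)] (by decide +kernel))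
noncomputable def rh364e82d9d07dbeab : CRef := CRef.mk (Pat.mk 0x8000000380000000000000004 0x80000003f0000003f0000000700000004 4 6) 0 0 (step_sound _ 66 [(rhc554838dd23febb3.shift 0 2), (rhcd6299606635f9e2.shift 1 0), (rhf871e666d90bcf29.shift 0 1)] (by decide +kernel))
noncomputable def rh38997752f3734f72 : CRef := CRef.mk (Pat.mk 0x20000000e00000000 0x7e0000003f00000078 4 7) 0 0 (step_sound _ 36 [rh1a91b9eb8e32063e, (rh60e95adc726bb530.shift 1 0), (rh790acd67f4fffd04.shift 1 1)] (by decide +kernel))
noncomputable def rhe9f6f0aede50e55e : CRef := CRef.mk (Pat.mk 0x1800000018000000380000000000000000 0x40000001f0000001f000000380000000800000008 4 6) 0 0 (step_sound _ 97 [rh3a8c39a005159e2c, (rhab22b5b56e7b3243.shift 1 2)] (by decide +kernel))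
noncomputable def rh0d728b4996fe6371 : CRef := CRef.mk (Pat.mk 0x1800000018000000380000000000000000 0x1800000018000000380000001f0000000c 4 6) 0 0 (step_sound _ 35 [(rh71222050f2c63a3a.shift 3 0), rh852e818bc8629e77] (by decide +kernel))
noncomputable def rh9a3bfb7fb0179462 : CRef := CRef.mk (Pat.mk 0xc0000000c000000180000000000000000 0x100000003c0000000f000000180000000800000008 4 6) 0 0 (step_sound _ 35 [(rh7b1f1fb55310c477.shift 2 0), (rhd88e1e5c6d7f696b.shift 0 1)] (by decide +kernel))
noncomputable def rh8f2ec7d8df44323f : CRef := CRef.mk (Pat.mk 0x70000000200000002000000000000000000000000 0x1000000070000000600000002000000030000000300000001 4 3) 0 0 (step_sound _ 65 [(rh50fbb5868c909700.shift 0 2), rh8aec56c4ee12918c] (by decide +kernel))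
noncomputable def rhcd1deb4e4ba974f7 : CRef := CRef.mk (Pat.mk 0x380000001000000060 0x70000007e0000003f00000060 4 7) 0 0 (step_sound _ 66 [(rh2cc7d62e70c02209.shift 0 1), (rh303b46e28d2c79de.shift 1 0), (rh4f8edb321cf5b49d.shift 0 1), (rhb2432c16363a7e8d.shift 0 1)] (by decide +kernel))
noncomputable def rhdce36306e73f2622 : CRef := CRef.mk (Pat.mk 0x38000000200000002000000020 0x470000007e0000003f0000002000000020 4 7) 0 0 (step_sound _ 98 [(rh03148200ae2fbb73.shift 1 0), (rh2cc7d62e70c02209.shift 0 2), (rhd1d05263fabc0227.shift 0 2)] (by decide +kernel))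
noncomputable def rh3be4140aed8b8732 : CRef := CRef.mk (Pat.mk 0xe000000080000000c0000000800000000 0x130000001e0000000c0000000c0000000c00000004 4 5) 0 0 (step_sound _ 34 [(rh932754581e0f4330.shift 2 0), (rhaedc8de5fbcd0332.shift 0 1)] (by decide +kernel))
noncomputable def rhfa73d75afc395988 : CRef := CRef.mk (Pat.mk 0x1c000000100000001000000010 0x270000003e000000170000001000000010 4 6) 0 0 (step_sound _ 101 [(rh2cc7d62e70c02209.shift 0 2), (rh2f68792b6b779e96.shift 4 0)] (by decide +kernel))
noncomputable def rh9eca49714bbbfc0a : CRef := CRef.mk (Pat.mk 0x1e00000000000000040000000000000000 0x80000003e00000007000000040000000400000004 4 6) 0 0 (step_sound _ 97 [(rh7a11af99b17b0a70.shift 1 0), (rheb0810cc63b001d8.shift 0 3)] (by decide +kernel))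
noncomputable def rh691a31cf2ab123f8 : CRef := CRef.mk (Pat.mk 0x70000000000000002000000020000000000000000 0x4000000070000000300000002000000030000000300000001 4 3) 0 0 (step_sound _ 129 [rh1f3a6ba70a310ab1, (rh2f68792b6b779e96.shift 1 2)] (by decide +kernel))
noncomputable def rhcd09009c9a2b0532 : CRef := CRef.mk (Pat.mk 0x80000000e000000000000000000000010 0x180000001f000000380000001000000010 4 6) 0 0 (step_sound _ 96 [rh145caf37755048e4, (rh33e738c4ed385b9f.shift 0 3)] (by decide +kernel))
noncomputable def rhef8b10f41b6c2c53 : CRef := CRef.mk (Pat.mk 0x1e000000000000000c0000000800000000 0x80000001f000000380000000c0000000c00000004 4 6) 0 0 (step_sound _ 100 [rh00eb965a943a7739, (rhe25b0a99195a5d59.shift 1 3)] (by decide +kernel))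
noncomputable def rh98f49802b3144551 : CRef := CRef.mk (Pat.mk 0x1000000038000000000000000800000000 0x100000007c0000000f0000000800000008 4 7) 0 0 (step_sound _ 67 [(rh2820ca9a6c4f41b4.shift 0 2), (rh71222050f2c63a3a.shift 3 0)] (by decide +kernel))
noncomputable def rh3a463f8d3d15292d : CRef := CRef.mk (Pat.mk 0x80000001c00000000 0xff0000007f000000e0 4 8) 0 0 (step_sound _ 37 [(rh35e918dd76851f8c.shift 2 0), (rhc554838dd23febb3.shift 0 1), (rhe3060b190bc0bc78.shift 1 1)] (by decide +kernel))
noncomputable def rh85178f6b26a9361b : CRef := CRef.mk (Pat.mk 0xe000000020000000200000000 0x400000004000000060000001e000000030000000200000002 4 5) 0 0 (step_sound _ 64 [(rh18965a982d73c794.shift 0 2), (rh215e11e099257d75.shift 1 0)] (by decide +kernel))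
noncomputable def rh93cace0b8de74af5 : CRef := CRef.mk (Pat.mk 0xe000000020000000200000000 0x1000000070000001f000000020000000200000002 4 5) 0 0 (step_sound _ 1 [(rh2f68792b6b779e96.shift 1 0), rh5cbe34a540eef4f6] (by decide +kernel))
noncomputable def rh1fe32ecf9115bef1 : CRef := CRef.mk (Pat.mk 0x1c00000004000000040000000000000000 0xa0000001e00000007000000040000000400000004 4 5) 0 0 (step_sound _ 34 [(rh2f68792b6b779e96.shift 2 1), rhd9bed81dc2893f9b] (by decide +kernel))
noncomputable def rhb17e54761414237f : CRef := CRef.mk (Pat.mk 0x700000006000000040000000000000000 0x50000000700000006000000060000000600000006 4 3) 0 0 (step_sound _ 34 [rh474875b2ab064539, (rh7b1f1fb55310c477.shift 1 0)] (by decide +kernel))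
noncomputable def rhffa9dce49202a604 : CRef := CRef.mk (Pat.mk 0x180000003c000000100000001000000000 0x180000003f000000170000001800000008 4 6) 0 0 (step_sound _ 3 [(rh0e1512cbacfbd48b.shift 0 2), (rh79877ebd3ef475dd.shift 3 0)] (by decide +kernel))
noncomputable def rh7f0aebd6a74d269a : CRef := CRef.mk (Pat.mk 0xc0000001e000000080000000800000000 0xc0000001e0000003b0000000f00000006 4 6) 0 0 (step_sound _ 68 [rh64b4b204cc48c2cf, (rhe25b0a99195a5d59.shift 1 2)] (by decide +kernel))
noncomputable def rhbac57ba73c4fb941 : CRef := CRef.mk (Pat.mk 0x60000001e0000000a0000000000000000 0x60000001e0000003e0000000300000003 4 6) 0 0 (step_sound _ 33 [rh00d8aa4d39605ccc, (rh71222050f2c63a3a.shift 1 0)] (by decide +kernel))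
noncomputable def rh4e1785f2d3eab0e1 : CRef := CRef.mk (Pat.mk 0x180000003c000000100000000000000000 0x180000003f000000170000001000000010 4 6) 0 0 (step_sound _ 4 [(rh0e1512cbacfbd48b.shift 0 2), (rh9e07f76261b05888.shift 3 0)] (by decide +kernel))
noncomputable def rhf37039dc6cc1e75a : CRef := CRef.mk (Pat.mk 0xc000000100000001800000018 0x40000000c0000003c0000001f00000018 4 6) 0 0 (step_sound _ 130 [(rh2613c889e411427e.shift 2 0), rhf666b85c746523c7] (by decide +kernel))
noncomputable def rh7f92eae285641ce5 : CRef := CRef.mk (Pat.mk 0x200000003000000020000000200000002000000000000000000000000 0x200000003000000070000000600000006000000030000000300000001 4 3) 0 0 (step_sound _ 65 [rh5f8ccb07a6b3855f, (rhffd04209dc8ea796.shift 0 2)] (by decide +kernel))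
noncomputable def rh571054b9674ed498 : CRef := CRef.mk (Pat.mk 0x3000000020000000e00000006 0x30000003e0000003f00000006 4 6) 0 0 (step_sound _ 36 [(rh18965a982d73c794.shift 1 0), (rh3d5449bf3f9fe7b3.shift 0 1)] (by decide +kernel))
noncomputable def rh4c3f48492504c0f6 : CRef := CRef.mk (Pat.mk 0x1c0000000c000000000000000000000000 0x80000001e0000007f000000300000001000000010 4 7) 0 0 (step_sound _ 100 [(rh79b3c29022acbdf3.shift 1 3), rhcb68da4f2dc5e7fd] (by decide +kernel))
noncomputable def rhb444e71ef922ad5e : CRef := CRef.mk (Pat.mk 0x400000007000000040000000400000000 0xa0000001e00000007000000040000000600000002 4 5) 0 0 (step_sound _ 1 [(rh4017de503635a93b.shift 0 1), (rh79877ebd3ef475dd.shift 1 0)] (by decide +kernel))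
noncomputable def rh702f3f1d58e81308 : CRef := CRef.mk (Pat.mk 0x18000000380000000800000000 0xc0000000c0000000c000000180000003c0000000f00000004 4 6) 0 0 (step_sound _ 131 [rh322e79f034282812, (rh90b823c913a425e8.shift 2 1)] (by decide +kernel))
noncomputable def rh6af4d1e77dd150b6 : CRef := CRef.mk (Pat.mk 0x200000007000000060000000200000000 0xc0000001e00000007000000060000000600000004 4 5) 0 0 (step_sound _ 34 [(rh7b1f1fb55310c477.shift 1 0), (rhc04a13a5df742017.shift 0 1)] (by decide +kernel))
noncomputable def rh125f8901361ab076 : CRef := CRef.mk (Pat.mk 0x2000000060000000600000002 0x60000000700000007000000060000000600000002 4 3) 0 0 (step_sound _ 96 [rh50fbb5868c909700, (rhc0301b400ca2a736.shift 1 0)] (by decide +kernel))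
noncomputable def rhb313d89573cddecd : CRef := CRef.mk (Pat.mk 0x2000000020000001e00000000 0x1000000070000000700000007000000060000001e00000003 4 5) 0 0 (step_sound _ 129 [(rh65909b08999dc522.shift 0 1), rhf6eaec10ea6e7bec, rhfe5ab67337d6131f] (by decide +kernel))
noncomputable def rh1b880c036631c575 : CRef := CRef.mk (Pat.mk 0x2000000020000001e000000000000000000000000 0x200000002000000060000001e000000070000000400000004 4 5) 0 0 (step_sound _ 64 [(rh046c5eb18e55a239.shift 1 0), (rh80fcd6d0a18cb2dd.shift 0 2)] (by decide +kernel))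
noncomputable def rh6bdb929a1a73e24b : CRef := CRef.mk (Pat.mk 0x200000002000000070000000600000000 0x40000000600000006000000070000001f00000019 4 5) 0 0 (step_sound _ 35 [rhb5c361f64e48c28f, (rhf48373e13d2bc128.shift 0 1)] (by decide +kernel))
noncomputable def rha43eb3efb4cca69e : CRef := CRef.mk (Pat.mk 0x300000003000000020000000200000000 0x600000006000000060000000300000003000000060000000600000004 4 3) 0 0 (step_sound _ 161 [(rh5fa50b509d4ce753.shift 0 2), (rhd29a1fb688eae70f.shift 1 0)] (by decide +kernel))
noncomputable def rh7f8bb07996f68c30 : CRef := CRef.mk (Pat.mk 0x600000006000000020000000000000000 0x20000000600000006000000070000000700000007 4 3) 0 0 (step_sound _ 33 [rh2cfc8c34bad4c294, (rh71222050f2c63a3a.shift 1 0)] (by decide +kernel))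
noncomputable def rh0b5523572e849cbc : CRef := CRef.mk (Pat.mk 0x600000006000000020000000000000000 0x40000000600000006000000070000003e0000000c00000004 4 6) 0 0 (step_sound _ 66 [(rh3cb04db3dd2b6a55.shift 1 0), (rhf7ac44032989c9ef.shift 0 1)] (by decide +kernel))
noncomputable def rh406bfc4f631a2f4f : CRef := CRef.mk (Pat.mk 0x30000000200000002000000000000000000000000 0x2000000030000000300000007000000070000000700000005 4 3) 0 0 (step_sound _ 65 [rh1f3a6ba70a310ab1, rha613ffd40b6c9d24, (rhabedd109a9a37101.shift 0 1)] (by decide +kernel))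
noncomputable def rhf888686ded5effa4 : CRef := CRef.mk (Pat.mk 0x50000000500000003000000000000000000000000 0x5000000050000000500000007000000060000000200000002 4 3) 0 0 (step_sound _ 65 [(rh2145e1d24b96a57e.shift 0 2), rh54537de9527c3937] (by decide +kernel))
noncomputable def rh9ccba12e5ed12512 : CRef := CRef.mk (Pat.mk 0x4000000140000000c000000000000000000000000 0x400000004000000370000003e000000030000000200000002 4 6) 0 0 (step_sound _ 97 [(rhca6a4af813f68cee.shift 0 3), (rhf77d4b883f0eea14.shift 0 2), (rhfafeb437ceb8396d.shift 1 0)] (by decide +kernel))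
noncomputable def rh198336ceab80f814 : CRef := CRef.mk (Pat.mk 0x10000000140000000c000000000000000000000000 0x1000000010000000370000003e000000180000000800000008 4 6) 0 0 (step_sound _ 100 [(rh281c6819542c66e6.shift 3 0), (rhd117684c4a851b90.shift 0 3)] (by decide +kernel))
noncomputable def rh96fbad571715fd8b : CRef := CRef.mk (Pat.mk 0x2000000020000000600000000 0x1000000030000000300000002000000030000000700000005 4 3) 0 0 (step_sound _ 129 [rh0fd870c734e6c513, (rh55afc6a59410cf00.shift 1 0)] (by decide +kernel))
noncomputable def rh4376b188bbdfbbf8 : CRef := CRef.mk (Pat.mk 0x4000000040000000600000008 0x400000004000000040000000f0000007c 4 7) 0 0 (step_sound _ 35 [(rh2145e1d24b96a57e.shift 2 0), rhc21a95c499b3efdb] (by decide +kernel))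
noncomputable def rh77f4fa36e85995bb : CRef := CRef.mk (Pat.mk 0x80000000c00000010 0x380000001f0000007c 4 7) 0 0 (step_sound _ 33 [(rh0d3c8bf4bf97ae4a.shift 1 0), rh6765e7960b108c8d, rhd159b9f11adb40ba] (by decide +kernel))
noncomputable def rh3eb188fb253f07ac : CRef := CRef.mk (Pat.mk 0x8000000380000000800000000 0x800000008000000080000003c0000001f00000014 4 6) 0 0 (step_sound _ 131 [rh322e79f034282812, (rhd4b4beefcd67f51e.shift 3 0)] (by decide +kernel))
noncomputable def rh4bcb18fc14cd73eb : CRef := CRef.mk (Pat.mk 0x80000000c000000380000000000000000 0x40000000c0000000c000000380000001f0000000c 4 6) 0 0 (step_sound _ 35 [rh852e818bc8629e77, (rhe286c75f2739cce2.shift 2 0)] (by decide +kernel))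
noncomputable def rhe7b3cb943067fd4d : CRef := CRef.mk (Pat.mk 0x80000000c000000080000000000000000 0x10000000100000001c0000007c0000000f000000080000000800000008 4 7) 0 0 (step_sound _ 132 [(rh000637b5a81e86aa.shift 2 0), (rh215e11e099257d75.shift 3 1), (rhd69c262cd33b94b3.shift 0 3)] (by decide +kernel))
noncomputable def rh2eddee460ee53bc0 : CRef := CRef.mk (Pat.mk 0x1c0000000800000002 0x3f0000007f00000003 4 7) 0 0 (step_sound _ 33 [(rh076be03eb7063320.shift 0 1), (rh72297cd55a503360.shift 0 1), rhc33cd7cdeebea5e1, (rhd526f9b20c752965.shift 0 1)] (by decide +kernel))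
noncomputable def rh1f7cdca6e3e06448 : CRef := CRef.mk (Pat.mk 0x2c00000020 0x70000003e00000067 4 7) 0 0 (step_sound _ 36 [rh2cc7d62e70c02209, (rhe25b0a99195a5d59.shift 2 0)] (by decide +kernel))
noncomputable def rhd27908c03515d08d : CRef := CRef.mk (Pat.mk 0x160000001e0000000000000000 0x3000000030000001e0000001e0000000700000004 4 5) 0 0 (step_sound _ 33 [rh8bdf8fb9c9df5586, (rheb0810cc63b001d8.shift 0 1)] (by decide +kernel))
noncomputable def rh5b6d2bf6893374d1 : CRef := CRef.mk (Pat.mk 0x140000001c000000000000000000000000 0x80000001c0000007f000000370000001400000014 4 7) 0 0 (step_sound _ 131 [(rh8b20b1ef24f2c4de.shift 0 2), (rh92e8f86a47ca4f2b.shift 1 0), rhcb68da4f2dc5e7fd] (by decide +kernel))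
noncomputable def rhf1be397b60ad9686 : CRef := CRef.mk (Pat.mk 0x140000001e000000000000000800000000 0x40000000c0000001c0000001e0000003b0000001800000010 4 6) 0 0 (step_sound _ 131 [(rhb1b2755a6a19b20c.shift 0 1), (rhbbe16ff26f7822db.shift 1 0)] (by decide +kernel))
noncomputable def rh6612f1eec9752ffc : CRef := CRef.mk (Pat.mk 0x80000000e000000000000000400000000 0x40000000c0000001f000000780000000c0000000c 4 7) 0 0 (step_sound _ 67 [(rh752c9303f297f9fa.shift 2 0), (rh8ee80cc30e93a344.shift 0 2)] (by decide +kernel))
noncomputable def rh5438cee5f4aea154 : CRef := CRef.mk (Pat.mk 0x80000000e000000000000000400000004 0x80000001f000000780000000c00000004 4 7) 0 0 (step_sound _ 67 [(rh8ee80cc30e93a344.shift 0 2), (rheea67dfebd0f8008.shift 2 0)] (by decide +kernel))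
noncomputable def rh7fe3849afaeeddfd : CRef := CRef.mk (Pat.mk 0x180000001c000000000000000000000000 0x8000000180000001f000000300000001000000010 4 6) 0 0 (step_sound _ 97 [(rh53b3c253cb0c65f4.shift 0 3), (rhbbe16ff26f7822db.shift 1 0)] (by decide +kernel))
noncomputable def rh5c42f8da43409903 : CRef := CRef.mk (Pat.mk 0x160000001e000000000000000000000000 0x20000000b0000001e0000001e000000340000001400000010 4 6) 0 0 (step_sound _ 131 [(rh38a0850c9fea941e.shift 0 1), (rhbbe16ff26f7822db.shift 1 0)] (by decide +kernel))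
noncomputable def rh6991441ea091e864 : CRef := CRef.mk (Pat.mk 0x78000000180000000000000000 0x100000003e0000007f000000180000000800000008 4 7) 0 0 (step_sound _ 132 [(rh1e309b005ffa1b36.shift 3 0), (rh4f1f07ff00e8574c.shift 0 2)] (by decide +kernel))
noncomputable def rh052e39142d95d5e8 : CRef := CRef.mk (Pat.mk 0x80000002c0000000c000000000000000000000000 0x80000003c0000000f0000001c0000001c0000001c 4 6) 0 0 (step_sound _ 67 [(rh820d4e04d5dcd02e.shift 2 0), (rh92c13d720c69d2fb.shift 0 1), (rhbdf73b26f73f8159.shift 2 0)] (by decide +kernel))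
noncomputable def rh743e19cd6045f524 : CRef := CRef.mk (Pat.mk 0x20000000300000003000000000000000000000000 0x600000006000000060000000300000003000000060000000600000006 4 3) 0 0 (step_sound _ 65 [(rh5fa50b509d4ce753.shift 0 2), rh820d4e04d5dcd02e] (by decide +kernel))
noncomputable def rh688d87e93e3219a5 : CRef := CRef.mk (Pat.mk 0x20000001600000006000000000000000000000000 0x1000000070000001e00000006000000020000000200000002 4 5) 0 0 (step_sound _ 160 [(rh2fe78cc5ca4405d8.shift 0 4), rhaeecc7287588a69b] (by decide +kernel))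
noncomputable def rhe36aedd5d85a136a : CRef := CRef.mk (Pat.mk 0x80000003800000018000000000000000000000000 0x40000001f0000003800000018000000180000001800000018 4 6) 0 0 (step_sound _ 67 [(rh79905f95cb2d899a.shift 0 2), (rhea7a1800d6f053bd.shift 3 0), (rhf57bd6481b8b2ca7.shift 3 0)] (by decide +kernel))
noncomputable def rhfe7da3c073d75bd5 : CRef := CRef.mk (Pat.mk 0x20000000600000006000000000000000000000000 0x300000003000000070000000600000006000000020000000200000002 4 3) 0 0 (step_sound _ 193 [(rh2145e1d24b96a57e.shift 1 3), rh7ffbcda9e2e33190] (by decide +kernel))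
noncomputable def rh05737698542ad308 : CRef := CRef.mk (Pat.mk 0x80000001c0000000c0000000000000000 0x60000000f0000001c0000000c0000000c0000000c 4 5) 0 0 (step_sound _ 34 [rh4947bc9d4fc7738a, (rh71222050f2c63a3a.shift 2 0)] (by decide +kernel))
noncomputable def rh2ed4ea5d5088228d : CRef := CRef.mk (Pat.mk 0x1c0000001c00000000 0x1c0000007f00000070 4 7) 0 0 (step_sound _ 33 [(rh53b3c253cb0c65f4.shift 0 1), (rh87ee923877636e52.shift 1 0)] (by decide +kernel))
noncomputable def rh0eb09afa9815783c : CRef := CRef.mk (Pat.mk 0x200000002000000020000000000000000 0x100000003000000030000000300000003000000070000000700000005 4 3) 0 0 (step_sound _ 161 [(rh0fd870c734e6c513.shift 0 1), rh3181373a30ceb9e3, rhcae87bda2c3c01d2] (by decide +kernel))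
noncomputable def rhf33a0594b60184d8 : CRef := CRef.mk (Pat.mk 0x20000000200000002000000020000000400000000 0x600000006000000070000000300000003000000030000000600000004 4 3) 0 0 (step_sound _ 193 [(rh44f453b84f013105.shift 1 2), rh950c319ddf224c8d] (by decide +kernel))
noncomputable def rh63ec579283f3d560 : CRef := CRef.mk (Pat.mk 0x2000000020000000200000002 0x1000000070000000700000006000000030000000300000003 4 3) 0 0 (step_sound _ 129 [rh0fd870c734e6c513, (rh44f453b84f013105.shift 1 0)] (by decide +kernel))
noncomputable def rh92c0f357a6062ed6 : CRef := CRef.mk (Pat.mk 0xa0000000a00000002000000020000000100000000 0x40000000f0000001b00000002000000020000000300000001 4 5) 0 0 (step_sound _ 33 [rh932754581e0f4330, (rh956200bc081bce13.shift 0 1)] (by decide +kernel))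
noncomputable def rhac69fad8e5cbaee9 : CRef := CRef.mk (Pat.mk 0xa0000000a00000002000000020000000400000000 0x40000000f0000001b00000002000000020000000600000004 4 5) 0 0 (step_sound _ 33 [(rh55afc6a59410cf00.shift 1 0), (rh956200bc081bce13.shift 0 1)] (by decide +kernel))
noncomputable def rh4e9d0b2b6a8ba645 : CRef := CRef.mk (Pat.mk 0xa0000000a00000002000000000000000000000000 0x50000000f0000001b00000002000000070000000700000005 4 5) 0 0 (step_sound _ 65 [rh0c1c1b53bc5a1510, rh3181373a30ceb9e3, rhcae87bda2c3c01d2, (rhe3ca3d7b4fee55d8.shift 0 2)] (by decide +kernel))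
noncomputable def rhe742449d3a23b976 : CRef := CRef.mk (Pat.mk 0xc0000000a000000080000000c00000000 0x100000003c0000000e0000007e0000001f00000012 4 7) 0 0 (step_sound _ 33 [(rh282ed8d8f102dc19.shift 1 0), rha9a87af2238a69fc, (rhff7d63dcb3cf9f74.shift 0 1)] (by decide +kernel))
noncomputable def rh6119e99be32c3c3a : CRef := CRef.mk (Pat.mk 0x100000003800000000 0xff0000007e00000007 4 8) 0 0 (step_sound _ 34 [rh2cc7d62e70c02209, (rhec46bd5500c722c9.shift 1 1), (rhf94411b389c3e54c.shift 1 1)] (by decide +kernel))
noncomputable def rh02a92d1802aaacf6 : CRef := CRef.mk (Pat.mk 0x800000008000000380000001000000000 0x40000000c0000000f0000003c0000001e0000000c 4 6) 0 0 (step_sound _ 35 [rh987b780eda1b16be, (rhf5094ad2a427d4d3.shift 1 0)] (by decide +kernel))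
noncomputable def rh8a7e2ad037db1a90 : CRef := CRef.mk (Pat.mk 0x3c00000010 0xff0000003c 4 8) 0 0 (step_sound _ 33 [rhc79769c0453a04d3, (rhe25b0a99195a5d59.shift 1 0)] (by decide +kernel))
noncomputable def rhce12f85975fbaead : CRef := CRef.mk (Pat.mk 0x40000001e000000000000000000000000 0x4000000040000003e000000070000000200000002 4 6) 0 0 (step_sound _ 65 [(rh9d3266848e9c2ac0.shift 1 0), (rheb0810cc63b001d8.shift 0 2)] (by decide +kernel))
noncomputable def rha87bd76817e3db94 : CRef := CRef.mk (Pat.mk 0x3800000020 0x3e00000077 4 7) 0 0 (step_sound _ 34 [rhdceeca65bdd8095a, (rhe25b0a99195a5d59.shift 2 0)] (by decide +kernel))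
noncomputable def rh22efc2a422dde30e : CRef := CRef.mk (Pat.mk 0x2000000028000000380000001000000000 0x18000000780000002f0000003c000000f000000040 4 8) 0 0 (step_sound _ 132 [(rhb7aea7a74bead576.shift 3 0), (rhf8f87b937a82bdcc.shift 0 1)] (by decide +kernel))
noncomputable def rh269ec8aea54f7124 : CRef := CRef.mk (Pat.mk 0x3c00000008 0xff0000003c 4 8) 0 0 (step_sound _ 38 [rh3696295804471b76, (rheb0810cc63b001d8.shift 2 0)] (by decide +kernel))
noncomputable def rh9bf0be42223291ee : CRef := CRef.mk (Pat.mk 0x80000001e000000000000000000000000 0x8000000080000001f000000380000001000000010 4 6) 0 0 (step_sound _ 68 [rha9f42e38d7a37ecb, (rhe25b0a99195a5d59.shift 1 2)] (by decide +kernel))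
noncomputable def rh24e797fe2d505814 : CRef := CRef.mk (Pat.mk 0xa0000000a0000000a000000000000000000000000 0x40000000f0000000f0000000b0000000a000000060000000600000004 4 4) 0 0 (step_sound _ 65 [(rh28f7c203f178e979.shift 1 2), rhcae87bda2c3c01d2] (by decide +kernel))
noncomputable def rh5d8b3f773a050a7a : CRef := CRef.mk (Pat.mk 0x28000000280000002800000000 0x10000000380000007c0000002f0000002800000020 4 7) 0 0 (step_sound _ 100 [(rh2820ca9a6c4f41b4.shift 0 2), (rhace5f246289dffb8.shift 3 0)] (by decide +kernel))
noncomputable def rha2ead9223fc6d248 : CRef := CRef.mk (Pat.mk 0x2000000020000001a000000000000000000000000 0x100000003000000030000001a0000000f0000000700000005 4 5) 0 0 (step_sound _ 65 [rh0c1c1b53bc5a1510, (rh36e6bb6cca6188da.shift 0 1), rhcae87bda2c3c01d2] (by decide +kernel))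
noncomputable def rh349d1013248e817b : CRef := CRef.mk (Pat.mk 0x28000000280000002800000000 0x100000007c0000002f0000002800000028 4 7) 0 0 (step_sound _ 100 [(rh2820ca9a6c4f41b4.shift 0 2), (rhd8a13c7f042cc6ea.shift 3 0)] (by decide +kernel))
noncomputable def rhcc7c28e4c9a2f586 : CRef := CRef.mk (Pat.mk 0x2000000020000001a0000000000000000 0x50000000700000007000000020000001a0000000f00000005 4 5) 0 0 (step_sound _ 33 [rh36e6bb6cca6188da, (rh7ef5fa5c39f1c762.shift 0 1)] (by decide +kernel))
noncomputable def rh08ff1a9078a560c4 : CRef := CRef.mk (Pat.mk 0xa0000000a00000008000000000000000000000000 0x140000001e0000000b000000080000001c0000001c00000014 4 5) 0 0 (step_sound _ 67 [(rh3181373a30ceb9e3.shift 2 0), (rh9258736a7488cc35.shift 0 2)] (by decide +kernel))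
noncomputable def rh8e9bcea9f50c2144 : CRef := CRef.mk (Pat.mk 0x20000000200000002000000000000000000000000 0x500000007000000070000000300000002000000070000000700000005 4 3) 0 0 (step_sound _ 65 [rh3181373a30ceb9e3, (rh7ef5fa5c39f1c762.shift 0 2), rhcae87bda2c3c01d2] (by decide +kernel))
noncomputable def rh47082137e9cd2755 : CRef := CRef.mk (Pat.mk 0x20000001a00000000 0x30000003e00000077 4 7) 0 0 (step_sound _ 34 [(rh3244c3cc8379b070.shift 0 1), rh8db7f7558b75b2b1] (by decide +kernel))
noncomputable def rhdda2af28db18e8cb : CRef := CRef.mk (Pat.mk 0x20000000b0000001a000000000000000000000000 0x40000000c0000001e0000000b0000001a0000001a0000001000000010 4 5) 0 0 (step_sound _ 163 [(rh45f2f07bb206b5fd.shift 0 2), (rh70e33bfdf511e144.shift 3 0), (rh73f90196e9cc56f0.shift 0 2)] (by decide +kernel))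
noncomputable def rh50ea52579ffb6e6e : CRef := CRef.mk (Pat.mk 0x80000002c00000060000000000000000000000000 0x200000007c0000002f00000060000000600000004000000040 4 7) 0 0 (step_sound _ 165 [(rh70e33bfdf511e144.shift 5 0), (rhe33d9496e10d8eb0.shift 0 4)] (by decide +kernel))
noncomputable def rhc81f2a94a3368baf : CRef := CRef.mk (Pat.mk 0x80000002c0000002c000000000000000000000000 0x100000007c0000002f0000002c000000280000000800000008 4 7) 0 0 (step_sound _ 164 [(rh8379dda7bed67b0f.shift 2 0), (rhcdaff4a5bb03fe5f.shift 2 2), (rhd69c262cd33b94b3.shift 0 4)] (by decide +kernel))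
noncomputable def rh97e16619180d8576 : CRef := CRef.mk (Pat.mk 0x20000000b0000000b00000000 0x6000000060000001e0000000b0000000b0000000a 4 5) 0 0 (step_sound _ 130 [rh62e2ef59a7ae44f9, (rhbd55d8419891313d.shift 0 1)] (by decide +kernel))
noncomputable def rhee04577b5ae6061f : CRef := CRef.mk (Pat.mk 0x200000001000000050000000500000000 0x2000000020000000700000007000000050000000500000004 4 3) 0 0 (step_sound _ 161 [(rh1006c02ae4212ff0.shift 0 1), rh3f81c9bf6a32c078] (by decide +kernel))
noncomputable def rh51243668a0d18e2e : CRef := CRef.mk (Pat.mk 0x20000000200000003000000020000000000000000 0x10000000300000003000000030000000300000003000000020000000200000002 4 2) 0 0 (step_sound _ 193 [rh1406cafceeeef6c2, (rh3ca48e2a6d60153d.shift 0 2), (rha54302d5ccf5246c.shift 0 3)] (by decide +kernel))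
noncomputable def rha593eb9b98e91083 : CRef := CRef.mk (Pat.mk 0xc00000008000000080000000800000000 0x1f0000007c000000080000000800000008 4 7) 0 0 (step_sound _ 100 [(rh4ca5dae25f5c14ff.shift 0 3), (rhc705a4e0321a1bff.shift 2 0), (rhdeca8db941583de2.shift 0 3)] (by decide +kernel))
noncomputable def rh0e20652d24f0c98a : CRef := CRef.mk (Pat.mk 0x6000000020000000a0000000a00000000 0x60000003e0000000b0000000a0000000a 4 6) 0 0 (step_sound _ 98 [(rh71222050f2c63a3a.shift 1 0), rha32e3a75f17220dd] (by decide +kernel))
noncomputable def rh15d755e7f91f812b : CRef := CRef.mk (Pat.mk 0x100000002000000020000000200000000 0x4000000070000000700000002000000030000000300000001 4 3) 0 0 (step_sound _ 129 [rh402d223d12d7377d, (rh50fbb5868c909700.shift 0 1)] (by decide +kernel))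
noncomputable def rhb1fe3b4617adc8ef : CRef := CRef.mk (Pat.mk 0xc00000004000000140000001400000000 0x220000003f0000007e000000160000001400000010 4 7) 0 0 (step_sound _ 100 [rh47c80674ab0824ee, (rh64111dda4f00239a.shift 1 0), (rhb24b7e1fadc8438a.shift 0 1), (rhdd99a5f1523b7423.shift 1 1)] (by decide +kernel))
noncomputable def rhc095807b70b89e70 : CRef := CRef.mk (Pat.mk 0x200000002000000020000000200000000 0x50000000700000007000000020000000300000003 4 3) 0 0 (step_sound _ 0 [rh6d2125986d3f5221, rh79877ebd3ef475dd] (by decide +kernel))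
noncomputable def rhbf195e7afaf21bd1 : CRef := CRef.mk (Pat.mk 0x200000002000000020000000200000000 0x5000000070000000700000002000000020000000600000004 4 3) 0 0 (step_sound _ 34 [(rh55afc6a59410cf00.shift 1 0), (rh7ef5fa5c39f1c762.shift 0 1)] (by decide +kernel))
noncomputable def rhe3ce308f70071d98 : CRef := CRef.mk (Pat.mk 0x20000000a0000000b0000000800000000 0x100000007000000070000000e0000000b0000000f0000000c00000004 4 4) 0 0 (step_sound _ 161 [(rh939ab9c1ccba6e4d.shift 1 0), (rha54302d5ccf5246c.shift 0 2)] (by decide +kernel))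
noncomputable def rh987c0ee189b8c805 : CRef := CRef.mk (Pat.mk 0x20000000a00000008000000080000000000000000 0x140000001e0000000b000000080000001c0000001c00000014 4 5) 0 0 (step_sound _ 163 [(rh3181373a30ceb9e3.shift 2 0), (rh9258736a7488cc35.shift 0 2)] (by decide +kernel))
noncomputable def rha5fd98e4f23f42fe : CRef := CRef.mk (Pat.mk 0x1800000028000000280000000800000000 0xe40000007c0000002f000000380000003800000010 4 8) 0 0 (step_sound _ 133 [(rh2820ca9a6c4f41b4.shift 0 3), (rh5bc090164f229948.shift 2 1), (rh6109952a9d592831.shift 2 0)] (by decide +kernel))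
noncomputable def rh1561ff1fafeb7917 : CRef := CRef.mk (Pat.mk 0x20000000e00000000 0x30000003e00000077 4 7) 0 0 (step_sound _ 36 [(rh3244c3cc8379b070.shift 0 1), rh8db7f7558b75b2b1] (by decide +kernel))
noncomputable def rha83956d09585cdd6 : CRef := CRef.mk (Pat.mk 0x280000003c000000080000000000000000 0x80000002f0000003f000000180000001000000010 4 6) 0 0 (step_sound _ 129 [rh0864121c5db8c170, (rh3f8766e6ecb455ce.shift 1 3)] (by decide +kernel))
noncomputable def rh79abcfe46f0b65ba : CRef := CRef.mk (Pat.mk 0x20000000700000002000000000000000000000000 0x2000000020000000700000007000000070000000700000007 4 3) 0 0 (step_sound _ 65 [rh3181373a30ceb9e3, rh5b49bae9be9e59a0, rha79362f4ed781fc9, (rhabedd109a9a37101.shift 0 1)] (by decide +kernel))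
noncomputable def rhc0d3e82dfe617fcf : CRef := CRef.mk (Pat.mk 0x200000007800000000 0x370000007e0000000e 4 7) 0 0 (step_sound _ 34 [(rh7fb660bc21ce4329.shift 0 1), (rheae1728ff4a56756.shift 1 0)] (by decide +kernel))
noncomputable def rhcc935990d76b4797 : CRef := CRef.mk (Pat.mk 0x20000000300000002000000020000000000000000 0x200000002000000020000000300000003000000070000000600000006 4 3) 0 0 (step_sound _ 34 [rh61caf197a7d52df1, (rhd3458b32566d63f7.shift 1 1)] (by decide +kernel))
noncomputable def rh5313d5bb1e61521b : CRef := CRef.mk (Pat.mk 0x80000000a0000000e000000000000000000000000 0x80000001b0000001e000000300000001000000010 4 6) 0 0 (step_sound _ 100 [(rh3244c3cc8379b070.shift 0 3), (rhd132b680030c88e0.shift 1 0)] (by decide +kernel))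
noncomputable def rh0092c88cb1cbef18 : CRef := CRef.mk (Pat.mk 0xa0000000a0000000a000000000000000000000000 0xa0000000a0000000b0000001e000000360000000400000004 4 6) 0 0 (step_sound _ 98 [(rh299a18a9bb09cab4.shift 0 2), (rh5fc67bac28a8b5bb.shift 1 2), (rha768b229dc254047.shift 1 0)] (by decide +kernel))
noncomputable def rha60d91ce4063f31c : CRef := CRef.mk (Pat.mk 0x500000007000000050000000000000000 0xa0000000e0000000e0000000500000007000000070000000700000002 4 4) 0 0 (step_sound _ 162 [(rh03dfdf12d5937476.shift 1 1), rh257fa66c90152105, (rh7ef5fa5c39f1c762.shift 1 2)] (by decide +kernel))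
noncomputable def rh0115c66452a97d07 : CRef := CRef.mk (Pat.mk 0x80000002800000008000000000000000000000000 0x8000000080000007c0000001f000000040000000400000004 4 7) 0 0 (step_sound _ 98 [(rhcadd85ff2a73e8c7.shift 0 3), (rhfafeb437ceb8396d.shift 2 0)] (by decide +kernel))
noncomputable def rh79f3cd96a7fdfe31 : CRef := CRef.mk (Pat.mk 0x50000000500000005000000010000000000000000 0x80000000c0000000d000000050000000d0000000f0000000f00000002 4 4) 0 0 (step_sound _ 66 [(rh426f403fa814630c.shift 2 1), rh96542b57e9ab27d3] (by decide +kernel))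
noncomputable def rh92e2f8b4cfd19cc9 : CRef := CRef.mk (Pat.mk 0x1400000014000000040000000c00000000 0x1000000014000000160000007e0000003f00000022 4 7) 0 0 (step_sound _ 68 [(rh1784e36706d84b88.shift 1 0), rh65819e2c862420da, (rhd4138be29732e1c5.shift 1 1)] (by decide +kernel))
noncomputable def rh136022f8d3357dc3 : CRef := CRef.mk (Pat.mk 0x40000001c0000000800000000 0x400000004000000040000003f0000003f00000002 4 6) 0 0 (step_sound _ 33 [(rh076be03eb7063320.shift 0 1), (rh3e3a0e4b62353dd3.shift 1 0), (rhd526f9b20c752965.shift 0 1)] (by decide +kernel))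
noncomputable def rh2140e04d90a4f0d4 : CRef := CRef.mk (Pat.mk 0x20000000300000002000000000000000000000000 0x100000003000000030000000300000003000000070000000700000005 4 3) 0 0 (step_sound _ 65 [(rh0fd870c734e6c513.shift 0 1), rh3181373a30ceb9e3, (rhe286c75f2739cce2.shift 0 1)] (by decide +kernel))
noncomputable def rhb8470ec026c25e22 : CRef := CRef.mk (Pat.mk 0x200000003800000020 0x600000003e00000037 4 7) 0 0 (step_sound _ 34 [(rh33e738c4ed385b9f.shift 2 1), rhdceeca65bdd8095a] (by decide +kernel))
noncomputable def rhe75dc8626c525ad9 : CRef := CRef.mk (Pat.mk 0x200000003000000020000000000000000 0x4000000070000000700000003000000030000000300000003 4 3) 0 0 (step_sound _ 33 [rh402d223d12d7377d, rhe286c75f2739cce2] (by decide +kernel))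
noncomputable def rh1b0e16c6885fbc54 : CRef := CRef.mk (Pat.mk 0x7000000040000000400000000 0x80000000e0000001e000000070000000e0000000e0000000a 4 5) 0 0 (step_sound _ 130 [(rh4017de503635a93b.shift 0 1), (rh402d223d12d7377d.shift 1 0), (rh426f403fa814630c.shift 2 0), (rhabedd109a9a37101.shift 1 0)] (by decide +kernel))
noncomputable def rhd50b0766e685eb90 : CRef := CRef.mk (Pat.mk 0x200000002000000020000000000000000 0x400000006000000060000000200000007000000070000000700000005 4 3) 0 0 (step_sound _ 161 [rh3181373a30ceb9e3, (rh402d223d12d7377d.shift 0 1), (rh426f403fa814630c.shift 1 1), (rhabedd109a9a37101.shift 0 1)] (by decide +kernel))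
noncomputable def rh8fab68ed1f68f810 : CRef := CRef.mk (Pat.mk 0x1c000000080000000a 0x1f0000007f0000000f 4 7) 0 0 (step_sound _ 36 [(rh6292bd8784ece55f.shift 1 1), rh9eddddb89d6a505d, rhd032edc217a9adf0] (by decide +kernel))
noncomputable def rh300a67a763d4303b : CRef := CRef.mk (Pat.mk 0x80000000a0000000800000000 0x1000000010000000180000007c0000000f0000000800000008 4 7) 0 0 (step_sound _ 100 [(rh215e11e099257d75.shift 3 0), (rhedf3a755fe019897.shift 0 2)] (by decide +kernel))
noncomputable def rh1cb572e2d40704ad : CRef := CRef.mk (Pat.mk 0x20000000200000002000000020000000200000000 0x600000006000000070000000300000003000000020000000200000002 4 3) 0 0 (step_sound _ 128 [rh50c14aaf14ae5553, (rh50fbb5868c909700.shift 0 1)] (by decide +kernel))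
noncomputable def rh62becfab7e3beb2a : CRef := CRef.mk (Pat.mk 0xc000000080000000a0000000c00000000 0x20000001f0000007e0000000e0000003c00000010 4 7) 0 0 (step_sound _ 129 [(rh8ee80cc30e93a344.shift 0 3), (rhc21a95c499b3efdb.shift 0 3), (rheec755feae78352d.shift 1 0)] (by decide +kernel))
noncomputable def rhd5aa4d55fe61ae5f : CRef := CRef.mk (Pat.mk 0xa0000000a0000001a00000000 0x140000001c0000000f0000000a0000001a00000012 4 5) 0 0 (step_sound _ 131 [rh23fb9bcb0fbfb6d7, (rh55afc6a59410cf00.shift 3 0)] (by decide +kernel))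
noncomputable def rh87a3a8a8a3fd85be : CRef := CRef.mk (Pat.mk 0x200000003000000020000000000000000 0x500000007000000070000000300000003000000030000000300000003 4 3) 0 0 (step_sound _ 161 [(rh03dfdf12d5937476.shift 0 1), (rh7ef5fa5c39f1c762.shift 0 2), rh9ee82b97cdeec3bd] (by decide +kernel))
noncomputable def rhc96bac694659f707 : CRef := CRef.mk (Pat.mk 0x7000000040000000400000000 0x80000000e0000001e000000070000000e0000000e0000000a 4 5) 0 0 (step_sound _ 130 [(rh4017de503635a93b.shift 0 1), (rh426f403fa814630c.shift 2 0), (rhabedd109a9a37101.shift 1 0)] (by decide +kernel))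
noncomputable def rh0681fa8d2c5db297 : CRef := CRef.mk (Pat.mk 0x1e0000000200000002000000000000000000000000 0x30000001e0000000600000003000000070000000700000005 4 5) 0 0 (step_sound _ 65 [rh8aec56c4ee12918c, (rh8c3839f9b9075f23.shift 1 0), (rha8098973813043ea.shift 0 1)] (by decide +kernel))
noncomputable def rh08b88d1e4376d1d4 : CRef := CRef.mk (Pat.mk 0x600000007000000020000000200000000 0x190000001f00000007000000060000000600000004 4 5) 0 0 (step_sound _ 131 [(rh18965a982d73c794.shift 0 3), rhec24e52a48ce1ed1] (by decide +kernel))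
noncomputable def rh09cfd2320161a382 : CRef := CRef.mk (Pat.mk 0x4000000040000000700000002000000000000000000000000 0x80000000c0000000e000000070000001e0000000c0000000400000004 4 5) 0 0 (step_sound _ 98 [(rh33c3b913cf582fec.shift 1 0), (rh42afa1af9fffa0e1.shift 0 2)] (by decide +kernel))
noncomputable def rh85fa5d4252c97823 : CRef := CRef.mk (Pat.mk 0x80000000b0000000800000000 0x140000001e0000000f0000000800000008 4 5) 0 0 (step_sound _ 100 [(rh1c62b6193297d9e3.shift 0 2), rhbc8a66df3ed8af65] (by decide +kernel))
noncomputable def rh0aa9e6fdda88fcbb : CRef := CRef.mk (Pat.mk 0x80000000b000000080000000000000000 0x140000001c0000001e0000000b000000180000001800000010 4 5) 0 0 (step_sound _ 35 [(rh29dd5384d80ecb1e.shift 2 0), (rh426f403fa814630c.shift 3 0), (rha78afc937ca94db4.shift 0 1)] (by decide +kernel))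
noncomputable def rhc570c09f7c0268b1 : CRef := CRef.mk (Pat.mk 0x200000003c00000000 0x370000003e00000060 4 7) 0 0 (step_sound _ 5 [(rh7fb660bc21ce4329.shift 0 1), (rhe25b0a99195a5d59.shift 2 0)] (by decide +kernel))
noncomputable def rhea5721b8cb81d352 : CRef := CRef.mk (Pat.mk 0x20000001600000006000000000000000000000000 0x1000000030000001f00000006000000020000000200000002 4 5) 0 0 (step_sound _ 160 [(rh2fe78cc5ca4405d8.shift 0 4), rh6abf65651ac164b5] (by decide +kernel))
noncomputable def rh35e7f72034095f2a : CRef := CRef.mk (Pat.mk 0x40000000c0000000c0000000000000000 0x180000003c0000000f0000000c0000000c0000000c 4 6) 0 0 (step_sound _ 131 [rha31e2286f1ebea1b, (rhea7a1800d6f053bd.shift 2 0)] (by decide +kernel))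
noncomputable def rhb83c12541a772d12 : CRef := CRef.mk (Pat.mk 0x20000000600000006000000000000000000000000 0x200000002000000060000000600000007000000030000000300000002 4 3) 0 0 (step_sound _ 193 [(rh2145e1d24b96a57e.shift 1 3), rhf5e15cdcea0762c2] (by decide +kernel))
noncomputable def rhf3a34eed4ff8d16f : CRef := CRef.mk (Pat.mk 0x2000000020000000300000000 0x5000000070000000700000007000000030000000300000002 4 3) 0 0 (step_sound _ 129 [rh6d2125986d3f5221, (rh9a369cb82ea472da.shift 0 1), (rha54302d5ccf5246c.shift 0 1)] (by decide +kernel))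
noncomputable def rh7a79318099681926 : CRef := CRef.mk (Pat.mk 0x60000000200000003000000000000000000000000 0x4000000070000000300000003000000030000000300000003 4 3) 0 0 (step_sound _ 65 [(rh2f68792b6b779e96.shift 1 2), rh9ee82b97cdeec3bd] (by decide +kernel))
noncomputable def rh7455bb6f93900b28 : CRef := CRef.mk (Pat.mk 0xc000000140000000400000000 0x200000002000000030000003e000000370000000400000004 4 6) 0 0 (step_sound _ 97 [(rh1e42cdaa2b8276ac.shift 0 2), rha077024870a355a3, (rhf9a6286f1d5377a2.shift 1 0)] (by decide +kernel))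
noncomputable def rheb18720e2c78d829 : CRef := CRef.mk (Pat.mk 0x18000000280000002000000000 0x1000000010000000700000007c0000002f0000002000000020 4 7) 0 0 (step_sound _ 101 [(rh2820ca9a6c4f41b4.shift 0 2), (rh4621828ea5f4dfbb.shift 2 0), (rhb1a251d9bff81766.shift 4 0)] (by decide +kernel))
noncomputable def rhf8346b0c2a63de92 : CRef := CRef.mk (Pat.mk 0x3000000050000000500000000 0x2000000020000000600000007000000050000000500000005 4 3) 0 0 (step_sound _ 129 [(rh4d760d0d70847451.shift 1 0), rh71222050f2c63a3a] (by decide +kernel))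
noncomputable def rhe7a687206514a34a : CRef := CRef.mk (Pat.mk 0x200000002c00000000 0x700000003e00000007 4 7) 0 0 (step_sound _ 36 [rh2591032a0e7f4182, (rh33e738c4ed385b9f.shift 2 1)] (by decide +kernel))
noncomputable def rh2f68fb68062f97ae : CRef := CRef.mk (Pat.mk 0x100000001600000000 0x380000001f00000038 4 6) 0 0 (step_sound _ 35 [rh2ebbcfe90e0f250d, (rh33e738c4ed385b9f.shift 1 1)] (by decide +kernel))
noncomputable def rhf0ef40909356f8b0 : CRef := CRef.mk (Pat.mk 0x800000038000000080000000000000000 0x140000001f0000003c000000080000000800000008 4 6) 0 0 (step_sound _ 35 [(rh29245de5933fbe8d.shift 1 0), (rh79905f95cb2d899a.shift 0 1), (rha707fb719e87fe6e.shift 3 0)] (by decide +kernel))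
noncomputable def rh541160d578a25bcf : CRef := CRef.mk (Pat.mk 0x380000000c0000000800000000 0xc0000001f000000380000000c0000000c00000004 4 6) 0 0 (step_sound _ 131 [(rh03dfdf12d5937476.shift 2 0), (rh79905f95cb2d899a.shift 0 1)] (by decide +kernel))
noncomputable def rh2435341cfb2f3a3e : CRef := CRef.mk (Pat.mk 0x180000000c00000008000000000000000000000000 0x8000000180000000f0000007c000000180000001000000010 4 7) 0 0 (step_sound _ 100 [(rh70e33bfdf511e144.shift 3 0), (rha355876672dc863a.shift 0 3)] (by decide +kernel))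
noncomputable def rha8cf5de1ad3c4800 : CRef := CRef.mk (Pat.mk 0x100000000c000000080000000800000000 0x300000001f000000380000000800000008 4 6) 0 0 (step_sound _ 100 [(rh5dec5e73a267a1c4.shift 0 2), (rh71222050f2c63a3a.shift 3 0)] (by decide +kernel))
noncomputable def rhbaa0df2fa75ff0e5 : CRef := CRef.mk (Pat.mk 0x100000000c00000008 0x7c0000001f00000078 4 7) 0 0 (step_sound _ 33 [rh8ee80cc30e93a344, (rhba3fefaa894766da.shift 1 1), rhe3dc93746cbe6e7c] (by decide +kernel))
noncomputable def rh972c26a3ced8aa05 : CRef := CRef.mk (Pat.mk 0x800000008000000080000000a0000000800000000 0x40000000c0000000c000000080000000c0000000f0000001800000010 4 5) 0 0 (step_sound _ 194 [rh7441123125caeb79, (rhffd04209dc8ea796.shift 2 2)] (by decide +kernel))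
noncomputable def rh6a482b3a3ff1648e : CRef := CRef.mk (Pat.mk 0x8000000080000000a0000000800000000 0x800000008000000080000000f0000003c00000010 4 6) 0 0 (step_sound _ 36 [(rh0154bdb644eac556.shift 0 1), (rh55afc6a59410cf00.shift 3 0)] (by decide +kernel))
noncomputable def rh42b378d898b13c4e : CRef := CRef.mk (Pat.mk 0x2000000080000001c 0x70000007f0000007f 4 7) 0 0 (step_sound _ 34 [(rh79b3c29022acbdf3.shift 1 0), (rh895a6df74b2928d4.shift 1 0), rheb84943c662af34d] (by decide +kernel))
noncomputable def rh068160dc2cd1b1ad : CRef := CRef.mk (Pat.mk 0x1e00000016000000000000000000000000 0x70000001e0000001e000000030000000300000002 4 5) 0 0 (step_sound _ 161 [(rh3244c3cc8379b070.shift 0 4), rh37e540d481210cc1] (by decide +kernel))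
noncomputable def rh3aab2036ca4e8d0a : CRef := CRef.mk (Pat.mk 0x1c000000140000000000000000 0x14000000370000007f0000001c0000000800000008 4 7) 0 0 (step_sound _ 67 [(rh073589708c2d81a3.shift 1 0), (rh6656f69a80793b12.shift 0 2), rhb00c6cda7b230383] (by decide +kernel))
noncomputable def rh2b1c276a6b56355c : CRef := CRef.mk (Pat.mk 0x200000006000000020000000000000000 0x500000007000000070000000600000006000000060000000600000006 4 3) 0 0 (step_sound _ 161 [(rh17ebc3e771625541.shift 1 0), (rh7ef5fa5c39f1c762.shift 0 2), (rhd4b4beefcd67f51e.shift 1 1)] (by decide +kernel))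
noncomputable def rhf42e780814dbdbac : CRef := CRef.mk (Pat.mk 0x400000004000000140000000400000000 0x400000004000000040000001c0000000f0000000a 4 5) 0 0 (step_sound _ 33 [(rh932754581e0f4330.shift 1 0), rhb9e21f9b3b352a18] (by decide +kernel))
noncomputable def rhca1e4df97f377a88 : CRef := CRef.mk (Pat.mk 0xe00000001 0x700000003e00000073 4 7) 0 0 (step_sound _ 36 [(rh35e918dd76851f8c.shift 1 0), rh80fcd6d0a18cb2dd] (by decide +kernel))
noncomputable def rh5290e990b58c20e2 : CRef := CRef.mk (Pat.mk 0x3e00000000 0x1c000000ff000000e0 4 8) 0 0 (step_sound _ 38 [(rh4ad5fc38f1b69f65.shift 2 0), (rh9d23b6cb2a64f17a.shift 0 1)] (by decide +kernel))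
noncomputable def rh9ba416347aeaaec1 : CRef := CRef.mk (Pat.mk 0x1e00000016000000000000000000000000 0x10000000340000001e0000001e0000000b0000000a00000002 4 6) 0 0 (step_sound _ 99 [(rh34b1188e635efc8d.shift 1 1), rh9a011a4d0ec8f646] (by decide +kernel))
noncomputable def rhff639e83b81c1040 : CRef := CRef.mk (Pat.mk 0x1800000078000000000000000000000000 0x8000000180000007f0000003e0000001000000010 4 7) 0 0 (step_sound _ 68 [(rh355644ee8f81c0ca.shift 0 2), (rh3cb04db3dd2b6a55.shift 3 0)] (by decide +kernel))
noncomputable def rh3714570065478976 : CRef := CRef.mk (Pat.mk 0x180000005800000010 0x3800000038000000380000001f0000007800000010 4 7) 0 0 (step_sound _ 100 [(rh5fa50b509d4ce753.shift 3 0), (rh77aff2a1b006188a.shift 0 1), (rh7f9f3607ee25a93b.shift 3 0)] (by decide +kernel))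
noncomputable def rh4dc6bbc83d5aeafb : CRef := CRef.mk (Pat.mk 0x300000003000000020000000000000000 0x600000006000000060000000300000003000000060000000600000006 4 3) 0 0 (step_sound _ 161 [(rh5fa50b509d4ce753.shift 0 2), rh820d4e04d5dcd02e] (by decide +kernel))
noncomputable def rhe0f805967f3463ab : CRef := CRef.mk (Pat.mk 0x80000003c00000010 0x1f0000003f00000018 4 6) 0 0 (step_sound _ 65 [(rh3f8766e6ecb455ce.shift 1 1), rhf3192d8756e251cb] (by decide +kernel))
noncomputable def rh1207e140cca14bac : CRef := CRef.mk (Pat.mk 0x20000000e00000001 0x60000003e00000073 4 7) 0 0 (step_sound _ 36 [(rh60e95adc726bb530.shift 1 0), rh80fcd6d0a18cb2dd] (by decide +kernel))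
noncomputable def rh0c81615e7fb0eb8e : CRef := CRef.mk (Pat.mk 0x80000001c0000001400000004 0x2000000020000001f0000001f0000001c00000004 4 5) 0 0 (step_sound _ 65 [rh1c1037cb5b3fe471, (rh6765e7960b108c8d.shift 0 1)] (by decide +kernel))
noncomputable def rhad7b0257cb10a0bd : CRef := CRef.mk (Pat.mk 0x18000000380000000800000000 0x18000000180000001800000018000000380000001f00000014 4 6) 0 0 (step_sound _ 131 [(rh55a1f6c57a317ce6.shift 3 0), rh852e818bc8629e77, (rhc0301b400ca2a736.shift 3 1)] (by decide +kernel))
noncomputable def rh97d7d5a6f82c94ae : CRef := CRef.mk (Pat.mk 0x1c0000001c 0x700000007f0000001c 4 7) 0 0 (step_sound _ 33 [(rh226655e3fe6b4a8a.shift 1 0), rhb739f4f82bb681b4] (by decide +kernel))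
noncomputable def rh65d9579421890e6c : CRef := CRef.mk (Pat.mk 0x100000003800000028 0xff000000fe00000038 4 8) 0 0 (step_sound _ 34 [(rh6765e7960b108c8d.shift 1 0), (rhcd66880aa8253b24.shift 2 0), rhd1d05263fabc0227, (rhec46bd5500c722c9.shift 1 1)] (by decide +kernel))
noncomputable def rh0be62550ae19a47b : CRef := CRef.mk (Pat.mk 0x20000000a0000000a00000000 0x50000000700000007000000020000001b0000000f00000005 4 5) 0 0 (step_sound _ 129 [rh0fd870c734e6c513, rh402d223d12d7377d, (rh7ef5fa5c39f1c762.shift 0 1), rhe8768a83bdb59c61] (by decide +kernel))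
noncomputable def rhc2e8c4735a3891ff : CRef := CRef.mk (Pat.mk 0x3800000010 0x70000007e000000ff 4 8) 0 0 (step_sound _ 34 [rh2cc7d62e70c02209, (rh8db7f7558b75b2b1.shift 1 0), (rha03f6e28ea70fc7d.shift 1 0)] (by decide +kernel))
noncomputable def rh0e32f96b4c3f9c68 : CRef := CRef.mk (Pat.mk 0x1000000038000000080000000800000000 0xc0000001e0000003c0000000f0000000c00000004 4 6) 0 0 (step_sound _ 131 [(rh277b01412deaec89.shift 1 1), rhd7d6cfa7727a2776] (by decide +kernel))
noncomputable def rh7d0322e2c55dccc0 : CRef := CRef.mk (Pat.mk 0x200000007000000050000000000000000 0x2000000020000000600000007000000050000000500000005 4 3) 0 0 (step_sound _ 0 [rh9e3edb185cc347de, (rha40d42a2e34c408d.shift 1 0)] (by decide +kernel))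
noncomputable def rhdcce0c85f0324b5d : CRef := CRef.mk (Pat.mk 0x80000001e000000040000000000000000 0x20000000f0000003e000000040000000400000004 4 6) 0 0 (step_sound _ 34 [(rh71222050f2c63a3a.shift 2 0), (rheddd3d8f7db62149.shift 0 1)] (by decide +kernel))
noncomputable def rh89a146b7668a3aca : CRef := CRef.mk (Pat.mk 0x100000003c000000080000000000000000 0x370000003e000000080000000800000008 4 6) 0 0 (step_sound _ 3 [(rh9e3edb185cc347de.shift 3 0), (rhedf6b6c69a16cbd5.shift 0 3)] (by decide +kernel))
noncomputable def rh024ba64e1071b56a : CRef := CRef.mk (Pat.mk 0x1000000038000000280000002000000000 0x40000000f80000003c0000002f0000007800000018 4 8) 0 0 (step_sound _ 36 [(rh9a156db74dae0595.shift 3 0), (rhbb6a43af3da63556.shift 3 0), rhdbc566a19c652eb2] (by decide +kernel))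
noncomputable def rh32692bd2ae87a9f8 : CRef := CRef.mk (Pat.mk 0x40000001e000000080000000000000000 0x100000003c0000001f000000080000000800000008 4 6) 0 0 (step_sound _ 35 [(rh13cff1aaa4924947.shift 0 1), (rh7b1f1fb55310c477.shift 2 0)] (by decide +kernel))
noncomputable def rhd396a17a5afda9de : CRef := CRef.mk (Pat.mk 0x20000000f000000010000000000000000 0x3b0000001f000000010000000100000001 4 6) 0 0 (step_sound _ 0 [rh9e3edb185cc347de, (rhb6f72982232a8164.shift 0 3)] (by decide +kernel))
noncomputable def rhe3b05a7bd5ea0632 : CRef := CRef.mk (Pat.mk 0x2000000020000000200000004 0x1000000030000000300000002000000030000000700000005 4 3) 0 0 (step_sound _ 129 [rh0fd870c734e6c513, (rhd3458b32566d63f7.shift 1 0)] (by decide +kernel))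
noncomputable def rh3ae32833f6db8739 : CRef := CRef.mk (Pat.mk 0x50000000500000001000000020000000000000000 0x4000000050000000500000007000000070000000200000002 4 3) 0 0 (step_sound _ 33 [rh99b039cfbb06b042, (rhbe0e43a3bc50a43f.shift 0 1)] (by decide +kernel))
noncomputable def rh94c0e9449de701f9 : CRef := CRef.mk (Pat.mk 0x1a0000000b000000020000000000000000 0x10000000100000001a0000001a0000000b0000001e0000000e00000004 4 5) 0 0 (step_sound _ 67 [(rh215e11e099257d75.shift 3 1), rh35f6e365521131e7, (rhcb70e1b2667f61ac.shift 0 1)] (by decide +kernel))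
noncomputable def rh10e6f057ab9524f8 : CRef := CRef.mk (Pat.mk 0x280000002c00000008000000000000000000000000 0x28000000280000002f0000007c000000180000001000000010 4 7) 0 0 (step_sound _ 100 [(rh70e33bfdf511e144.shift 3 0), (rh721afcb8e9f735cc.shift 2 2), (rhdeca8db941583de2.shift 0 3)] (by decide +kernel))
noncomputable def rh61a556e2f692585f : CRef := CRef.mk (Pat.mk 0x600000002c0000000800000000 0x400000004000000060000000600000002f0000007c00000020 4 7) 0 0 (step_sound _ 37 [(rh215e11e099257d75.shift 5 0), (rh8c25cb665ab79ec0.shift 0 1)] (by decide +kernel))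
noncomputable def rhfaa2ea8d3894ed71 : CRef := CRef.mk (Pat.mk 0x2000000030000000200000002000000000000000000000000 0x2000000030000000300000003000000070000000700000004 4 3) 0 0 (step_sound _ 65 [(rh7928877f9bf74a91.shift 0 1), rha613ffd40b6c9d24] (by decide +kernel))
noncomputable def rh5547166cf2eef4d8 : CRef := CRef.mk (Pat.mk 0x800000008000000080000000c 0x800000008000000080000003c0000001f 4 6) 0 0 (step_sound _ 36 [(rh518d6f6eeebddcb2.shift 2 0), rh557b120f072744ca, rh59799d3582b0c64a, rh8c82fb0d205db583] (by decide +kernel))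
noncomputable def rh2ddb109e0a64b9c4 : CRef := CRef.mk (Pat.mk 0xa0000000a0000000200000006 0xa0000000a0000000b0000003e00000006 4 6) 0 0 (step_sound _ 34 [(rh2145e1d24b96a57e.shift 1 0), rha66b7dbe161991d1] (by decide +kernel))
noncomputable def rhfc626445786b5066 : CRef := CRef.mk (Pat.mk 0x20000000200000002000000010000000000000000 0x1000000030000000300000002000000070000000700000004 4 3) 0 0 (step_sound _ 65 [(rh932754581e0f4330.shift 0 1), rhcae87bda2c3c01d2] (by decide +kernel))
noncomputable def rhb8e7bc1c35558329 : CRef := CRef.mk (Pat.mk 0x1400000014000000040000000c00000000 0x1000000014000000160000007e0000003f00000022 4 7) 0 0 (step_sound _ 68 [(rh1784e36706d84b88.shift 1 0), rh4736e33ddf9c57a1, rh65819e2c862420da, (rhd4138be29732e1c5.shift 1 1)] (by decide +kernel))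
noncomputable def rhf64ae35667378b04 : CRef := CRef.mk (Pat.mk 0x80000002800000028000000000000000000000000 0x8000000080000002f0000007c000000180000001000000010 4 7) 0 0 (step_sound _ 100 [(rha768b229dc254047.shift 3 0), (rha9fbfd4bb8cf890b.shift 0 3)] (by decide +kernel))
noncomputable def rh5ea34e0a5987e837 : CRef := CRef.mk (Pat.mk 0x280000002800000028000000000000000000000000 0x20000000280000002f0000007c000000180000001000000010 4 7) 0 0 (step_sound _ 100 [(rha56f4c4626a53b18.shift 3 0), (rha9fbfd4bb8cf890b.shift 0 3)] (by decide +kernel))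
noncomputable def rh80a5a644583a2421 : CRef := CRef.mk (Pat.mk 0x1a000000020000000200000000 0x5000000070000000f0000001a000000030000000300000001 4 5) 0 0 (step_sound _ 129 [rh0fd870c734e6c513, (rh330a005829cdd297.shift 0 1), rh402d223d12d7377d] (by decide +kernel))
noncomputable def rh31c08fc223b4ad72 : CRef := CRef.mk (Pat.mk 0x1a00000002000000020000000000000000 0x50000000f0000001a00000002000000070000000700000005 4 5) 0 0 (step_sound _ 161 [rh3181373a30ceb9e3, (rh330a005829cdd297.shift 0 2)] (by decide +kernel))
noncomputable def rh6d22e4af4868beec : CRef := CRef.mk (Pat.mk 0x80000000a0000000a00000000 0x140000001c0000001c000000080000000b0000001e00000014 4 5) 0 0 (step_sound _ 131 [rh11a243992b58ed44, (rh7ef5fa5c39f1c762.shift 2 1)] (by decide +kernel))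
noncomputable def rh8d0e56b8a78c5a56 : CRef := CRef.mk (Pat.mk 0x1a00000002 0x770000003e00000003 4 7) 0 0 (step_sound _ 34 [rheb0810cc63b001d8, (rhf94411b389c3e54c.shift 0 1)] (by decide +kernel))
noncomputable def rh0cec621464cd72f0 : CRef := CRef.mk (Pat.mk 0xa0000000a0000000a0000000200000000 0x40000000c0000000e0000000a0000000e0000000700000005 4 4) 0 0 (step_sound _ 0 [rh79877ebd3ef475dd, (rh79d2d2d05d30a4b0.shift 1 0)] (by decide +kernel))
noncomputable def rh70c5d9b9abbf8327 : CRef := CRef.mk (Pat.mk 0x500000005000000050000000100000000 0x2000000060000000700000005000000070000000300000002 4 3) 0 0 (step_sound _ 33 [rh55afc6a59410cf00, (rhb9145a3cd45f4975.shift 0 1)] (by decide +kernel))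
noncomputable def rh216281f58bc5c0de : CRef := CRef.mk (Pat.mk 0x1400000004000000040000000400000000 0xa0000001e00000007000000040000000400000004 4 5) 0 0 (step_sound _ 129 [(rh50fbb5868c909700.shift 1 1), rhc38efdf8a82a4029] (by decide +kernel))
noncomputable def rh6228443e62b344a2 : CRef := CRef.mk (Pat.mk 0xa0000000a0000000a0000000200000000 0xa0000000a0000001b0000001f00000015 4 5) 0 0 (step_sound _ 34 [rh1784e36706d84b88, (rh55afc6a59410cf00.shift 1 0)] (by decide +kernel))
noncomputable def rhdfb2bc6cc6712b39 : CRef := CRef.mk (Pat.mk 0xa0000000a0000000a000000000000000000000000 0x90000000b0000000b0000001e000000070000000700000005 4 5) 0 0 (step_sound _ 65 [rh0c1c1b53bc5a1510, rhcae87bda2c3c01d2, (rhd27cbd481e65015c.shift 0 1)] (by decide +kernel))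
noncomputable def rha0aeeb8d11372fc7 : CRef := CRef.mk (Pat.mk 0x400000014000000140000000c0000000000000000 0x80000001c0000001c000000170000003e0000007200000020 4 7) 0 0 (step_sound _ 68 [(rh2191f4291a5eebdf.shift 1 0), (rh299a18a9bb09cab4.shift 1 1), (rhfa8c7f01b0685da6.shift 0 1)] (by decide +kernel))
noncomputable def rh5024bbfb5139b661 : CRef := CRef.mk (Pat.mk 0xe00000002 0x770000003e00000003 4 7) 0 0 (step_sound _ 36 [rheb0810cc63b001d8, (rhf94411b389c3e54c.shift 0 1)] (by decide +kernel))
noncomputable def rhbfe0975c5a194269 : CRef := CRef.mk (Pat.mk 0x80000003c000000080000000000000000 0x10000000180000003f0000000f0000000800000008 4 6) 0 0 (step_sound _ 65 [rh01450d5fb00cd85b, (rh80fcd6d0a18cb2dd.shift 1 2)] (by decide +kernel))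
noncomputable def rh974ec0839e421a5f : CRef := CRef.mk (Pat.mk 0x200000007000000020000000000000000 0x700000007000000070000000700000007000000020000000200000002 4 3) 0 0 (step_sound _ 161 [rh4795b9e44fef6e27, (rh566164537f328d1a.shift 0 2), (rh7ef5fa5c39f1c762.shift 0 2), (rh8fa618f359c055c7.shift 0 2)] (by decide +kernel))
noncomputable def rh522ed139a2d80d2d : CRef := CRef.mk (Pat.mk 0x7800000020 0xe0000007e00000037 4 7) 0 0 (step_sound _ 34 [(rhd5eb272e07a4e288.shift 1 1), rhdceeca65bdd8095a] (by decide +kernel))
noncomputable def rhfa2e65bbb3da669e : CRef := CRef.mk (Pat.mk 0x180000001c00000004 0x2000000030000001f0000003f00000004 4 6) 0 0 (step_sound _ 65 [rh25e6ff2107f1496b, (rh508d31626b5d2be8.shift 0 1), (rh5c36e97be8af272f.shift 0 1)] (by decide +kernel))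
noncomputable def rh335ac039d3ee5275 : CRef := CRef.mk (Pat.mk 0x2000000020000000300000002000000000000000000000000 0x100000003000000030000000300000002000000070000000700000005 4 3) 0 0 (step_sound _ 65 [rh3181373a30ceb9e3, (rh3ca48e2a6d60153d.shift 0 2), (rhe286c75f2739cce2.shift 0 1)] (by decide +kernel))
noncomputable def rh65348d474ffcdcda : CRef := CRef.mk (Pat.mk 0x20000000200000003000000020000000000000000 0x600000006000000070000000300000003000000020000000200000002 4 3) 0 0 (step_sound _ 194 [rh22e4692fc0b8bac4, (rhbaefcd01e0a8bca3.shift 1 2)] (by decide +kernel))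
noncomputable def rh3ac5868c153fd914 : CRef := CRef.mk (Pat.mk 0x28000000280000002800000000 0x1000000038000000780000003f0000002800000008 4 7) 0 0 (step_sound _ 100 [(rh286c43ff135d2c48.shift 3 0), (rhf0f55c4504412200.shift 0 2)] (by decide +kernel))
noncomputable def rh424984f5923fd3fa : CRef := CRef.mk (Pat.mk 0x28000000280000002800000000 0x10000000780000003f0000002800000028 4 7) 0 0 (step_sound _ 100 [(rhd8a13c7f042cc6ea.shift 3 0), (rhf0f55c4504412200.shift 0 2)] (by decide +kernel))
noncomputable def rh7732c4d7e7206c1d : CRef := CRef.mk (Pat.mk 0x50000000700000005000000000000000000000000 0x2000000070000000700000007000000050000000e0000000e0000000a 4 4) 0 0 (step_sound _ 66 [(rh3181373a30ceb9e3.shift 1 0), (rhafab112a4c4dda0f.shift 0 2), (rhe286c75f2739cce2.shift 1 1)] (by decide +kernel))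
noncomputable def rh8ffb89172b03b779 : CRef := CRef.mk (Pat.mk 0x8000000280000000800000000 0x40000000c0000001f0000007c0000000800000008 4 7) 0 0 (step_sound _ 98 [(rh126557da767e56cc.shift 0 2), (rh7b24c4ccc068b0b2.shift 2 0), (rh8c25cb665ab79ec0.shift 0 2)] (by decide +kernel))
noncomputable def rh4320bd0bbc7f2f19 : CRef := CRef.mk (Pat.mk 0x20000000a0000000a0000000a0000000000000000 0x40000001e0000001e0000001b0000000a0000001a0000001800000010 4 5) 0 0 (step_sound _ 163 [(rh28f7c203f178e979.shift 1 2), (rhd7f025ab3fc6fe79.shift 0 2), (rhec588a0d7783acc6.shift 3 0)] (by decide +kernel))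
noncomputable def rhc89ee3608750cd83 : CRef := CRef.mk (Pat.mk 0x2000000020000000200000002000000000000000000000000 0x3000000030000000300000006000000070000000700000001 4 3) 0 0 (step_sound _ 65 [rh0c1c1b53bc5a1510, (rhd29a1fb688eae70f.shift 1 1)] (by decide +kernel))
noncomputable def rhd3dd3144bb653b20 : CRef := CRef.mk (Pat.mk 0xc00000004000000140000001400000000 0x220000003f0000007e000000160000001400000010 4 7) 0 0 (step_sound _ 100 [rh47c80674ab0824ee, (rh64111dda4f00239a.shift 1 0), (rhdd99a5f1523b7423.shift 1 1)] (by decide +kernel))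
noncomputable def rha2fcba06d0b3e0b0 : CRef := CRef.mk (Pat.mk 0x80000001c000000040000000000000000 0x20000003f0000003f000000040000000400000004 4 6) 0 0 (step_sound _ 129 [(rh54c49bb299227e8d.shift 0 3), (rh7c54922dcc04cd2b.shift 1 0), (rhd0ed6ce702d0de55.shift 0 3)] (by decide +kernel))
noncomputable def rh498dffc738f2231f : CRef := CRef.mk (Pat.mk 0x200000003000000020000000000000000 0x2000000030000000300000003000000070000000700000006 4 3) 0 0 (step_sound _ 161 [(rh03dfdf12d5937476.shift 0 1), rh2c9da192bea44cf6] (by decide +kernel))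
noncomputable def rh444784e422ce030e : CRef := CRef.mk (Pat.mk 0x40000000400000007000000000000000000000000 0x80000000e0000000e000000070000001e0000000e0000000e 4 5) 0 0 (step_sound _ 66 [(rh2c9da192bea44cf6.shift 1 0), (rh9ee82b97cdeec3bd.shift 1 0), (rhb379f99078aafa2d.shift 0 1), (rhec588a0d7783acc6.shift 2 0)] (by decide +kernel))
noncomputable def rh5142cf6cc3d2b1bc : CRef := CRef.mk (Pat.mk 0x20000000200000003000000000000000000000000 0x500000007000000070000000700000003000000060000000600000006 4 3) 0 0 (step_sound _ 65 [rh2c9da192bea44cf6, (rh7ef5fa5c39f1c762.shift 0 2), (rhec588a0d7783acc6.shift 1 0)] (by decide +kernel))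
noncomputable def rh8704327f51d000d7 : CRef := CRef.mk (Pat.mk 0x4000000040000000600000008 0x400000004000000040000001f0000003c 4 6) 0 0 (step_sound _ 35 [(rh2145e1d24b96a57e.shift 2 0), rh9909eeda0ef2ed2c] (by decide +kernel))
noncomputable def rh8e09092b4eda607c : CRef := CRef.mk (Pat.mk 0x1000000014000000100000001000000000 0x8000000380000001f000000100000001000000010 4 6) 0 0 (step_sound _ 131 [(rh50fbb5868c909700.shift 3 1), rh5dd444571d34c674] (by decide +kernel))
noncomputable def rh4df2b5b5453abb7b : CRef := CRef.mk (Pat.mk 0x3e00000000 0xe0000000ff0000001c 4 8) 0 0 (step_sound _ 38 [(rh9890f9d77740bbed.shift 2 1), rhb2e80ecb3a9bff29] (by decide +kernel))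
noncomputable def rh1136b81d2c6924ee : CRef := CRef.mk (Pat.mk 0x10000000e00000000 0x730000003e00000070 4 7) 0 0 (step_sound _ 36 [(rh35e918dd76851f8c.shift 1 0), (rh3f8766e6ecb455ce.shift 0 1)] (by decide +kernel))
noncomputable def rha1e5862de6645f69 : CRef := CRef.mk (Pat.mk 0x200000003800000040 0x300000003e00000067 4 7) 0 0 (step_sound _ 34 [rh2591032a0e7f4182, (rh96851dee118c1ba3.shift 2 0)] (by decide +kernel))
noncomputable def rh9c566f8b4c659c7b : CRef := CRef.mk (Pat.mk 0x80000000a0000000800000008000000080000000000000000 0x10000000180000000f0000000c000000080000000c0000000c00000004 4 5) 0 0 (step_sound _ 34 [(rh79877ebd3ef475dd.shift 2 1), rhdda7ed8398654d39] (by decide +kernel))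
noncomputable def rha662aad92baac064 : CRef := CRef.mk (Pat.mk 0x80000000a00000008000000080000000400000000 0x100000001c0000000f00000008000000080000000c00000004 4 5) 0 0 (step_sound _ 35 [(rh932754581e0f4330.shift 2 0), (rhcfae3e00d2022b76.shift 0 1)] (by decide +kernel))
noncomputable def rhb0e0115751768830 : CRef := CRef.mk (Pat.mk 0x80000000a00000008000000080000001000000000 0x100000001c0000000f00000008000000080000001800000010 4 5) 0 0 (step_sound _ 35 [(rh55afc6a59410cf00.shift 3 0), (rhcfae3e00d2022b76.shift 0 1)] (by decide +kernel))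
noncomputable def rhe9a6c9a2648933b8 : CRef := CRef.mk (Pat.mk 0x1c0000000800000002 0x3f0000003f00000003 4 6) 0 0 (step_sound _ 33 [(rh076be03eb7063320.shift 0 1), (rh72297cd55a503360.shift 0 1), rhb894c93bbc82b7ea, (rhd526f9b20c752965.shift 0 1)] (by decide +kernel))
noncomputable def rhfbde202fb584c928 : CRef := CRef.mk (Pat.mk 0xc00000008000000080000000800000000 0x1f0000007c000000080000000800000008 4 7) 0 0 (step_sound _ 100 [(rh4ca5dae25f5c14ff.shift 0 3), (rh94f1a52185fc620a.shift 1 0), (rhc705a4e0321a1bff.shift 2 0)] (by decide +kernel))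
noncomputable def rh3fac2a6697ad6a8c : CRef := CRef.mk (Pat.mk 0xc0000000400000014000000140000000000000000 0x220000003f0000003e000000140000001c0000001800000008 4 6) 0 0 (step_sound _ 132 [(rh36c1fbc148658e34.shift 2 0), (rhb24b7e1fadc8438a.shift 0 2), (rhdd99a5f1523b7423.shift 1 2)] (by decide +kernel))
noncomputable def rh1a51c59e70cece8e : CRef := CRef.mk (Pat.mk 0x140000001e000000100000000000000000 0x400000004000000140000001f0000001c0000000800000008 4 5) 0 0 (step_sound _ 67 [(rhade0f4c81793f68e.shift 2 0), (rhb739f4f82bb681b4.shift 0 2)] (by decide +kernel))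
noncomputable def rh36828a462ed988a0 : CRef := CRef.mk (Pat.mk 0x80000000a0000000a0000000c 0x8000000080000000b0000003e0000000f 4 6) 0 0 (step_sound _ 34 [rh25a1ad798521b87e, (rh5c5e593799055d58.shift 2 0)] (by decide +kernel))
noncomputable def rhf257bb9a69beadc9 : CRef := CRef.mk (Pat.mk 0x8000000080000001e000000000000000000000000 0x8000000080000001e0000003b0000001000000010 4 6) 0 0 (step_sound _ 64 [(rh80fcd6d0a18cb2dd.shift 0 2), (rhc7b95363f9049b11.shift 1 0)] (by decide +kernel))
noncomputable def rha475531719705764 : CRef := CRef.mk (Pat.mk 0x8000000080000000e000000040000000000000000 0x8000000080000003e0000003f0000001000000010 4 6) 0 0 (step_sound _ 100 [(rhaf9f2efc81a8312b.shift 0 2), (rhc7b95363f9049b11.shift 1 0)] (by decide +kernel))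
noncomputable def rhff22ab043b310713 : CRef := CRef.mk (Pat.mk 0x80000000a0000000a0000000000000000 0x40000000c0000000c0000000b0000001e0000001c00000014 4 5) 0 0 (step_sound _ 163 [(rh0c1c1b53bc5a1510.shift 2 0), (rh11a243992b58ed44.shift 0 1), (rhcae87bda2c3c01d2.shift 2 0)] (by decide +kernel))
noncomputable def rha241df300d9d679e : CRef := CRef.mk (Pat.mk 0x2000000080000001c 0x30000003f0000003f 4 6) 0 0 (step_sound _ 33 [rh508d31626b5d2be8, rh54c49bb299227e8d, rhd0ed6ce702d0de55, rhfc7885cbf64dae3d] (by decide +kernel))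
noncomputable def rh26fe2cca2b347534 : CRef := CRef.mk (Pat.mk 0xa0000000a0000000a0000000000000000 0x100000003000000030000000a0000000b0000000f0000000f00000005 4 4) 0 0 (step_sound _ 161 [(rh0fd870c734e6c513.shift 0 1), rh3181373a30ceb9e3, (rh96542b57e9ab27d3.shift 1 0)] (by decide +kernel))
noncomputable def rh164510e3b7baa136 : CRef := CRef.mk (Pat.mk 0x28000000280000002800000000 0x28000000280000002f0000007c00000010 4 7) 0 0 (step_sound _ 36 [(rh5fc67bac28a8b5bb.shift 3 0), (rha9fbfd4bb8cf890b.shift 0 1)] (by decide +kernel))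
noncomputable def rh73e0ebf8a9646397 : CRef := CRef.mk (Pat.mk 0x200000002000000020000000000000000 0x500000007000000070000000200000003000000070000000700000005 4 3) 0 0 (step_sound _ 161 [(rh0fd870c734e6c513.shift 0 1), rh3181373a30ceb9e3, (rh7ef5fa5c39f1c762.shift 0 2)] (by decide +kernel))
noncomputable def rh30dbc5e77bdc2087 : CRef := CRef.mk (Pat.mk 0x4000000020000000200000002000000020000000000000000 0x400000006000000030000000300000003000000070000000600000006 4 3) 0 0 (step_sound _ 33 [rh37774cec3643f560, (rhd29a1fb688eae70f.shift 1 0)] (by decide +kernel))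
noncomputable def rhfd63d445a1d800d1 : CRef := CRef.mk (Pat.mk 0x80000000b0000000a00000002000000000000000000000000 0x40000000c0000000f0000000b0000000e000000070000000700000001 4 4) 0 0 (step_sound _ 65 [rh1f3a6ba70a310ab1, (rhb4a3999b927db1fe.shift 1 1)] (by decide +kernel))
noncomputable def rhceccb363515cb277 : CRef := CRef.mk (Pat.mk 0x40000000500000005000000010000000000000000 0xa0000000e0000000e0000000500000005000000070000000700000002 4 4) 0 0 (step_sound _ 66 [rh257fa66c90152105, (rh7ef5fa5c39f1c762.shift 1 2)] (by decide +kernel))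
noncomputable def rhe181d564227a886f : CRef := CRef.mk (Pat.mk 0x30000000200000002000000000000000000000000 0x1000000030000000200000002000000070000000700000005 4 3) 0 0 (step_sound _ 65 [rh3181373a30ceb9e3, (rh50fbb5868c909700.shift 0 2)] (by decide +kernel))
noncomputable def rh3d33fc40c2b99a62 : CRef := CRef.mk (Pat.mk 0xc0000001800000008000000000000000000000000 0x80000000c000000780000001f0000000c0000000400000004 4 7) 0 0 (step_sound _ 98 [(rh281c6819542c66e6.shift 2 0), (rhea5ad313ff444aaf.shift 0 3)] (by decide +kernel))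
noncomputable def rh436ac7da9146a88d : CRef := CRef.mk (Pat.mk 0xe000000080000000c000000040000000000000000 0x20000000e0000007b0000003f000000070000000400000004 4 7) 0 0 (step_sound _ 97 [(rh0621c7385865f5e8.shift 1 0), (rh5fc78e7870faec40.shift 0 2), (rhb37e485dff1e07aa.shift 0 3)] (by decide +kernel))
noncomputable def rh46685aadd858aed8 : CRef := CRef.mk (Pat.mk 0x4000000100000001800000008 0x400000004000000360000007f0000003e 4 7) 0 0 (step_sound _ 34 [rh5dec5e73a267a1c4, (rh5fc78e7870faec40.shift 1 0)] (by decide +kernel))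
noncomputable def rhac79635ca9d536ac : CRef := CRef.mk (Pat.mk 0x2000000020000000200000001 0x4000000060000000600000002000000060000000700000005 4 3) 0 0 (step_sound _ 129 [(rh426f403fa814630c.shift 1 0), rh79877ebd3ef475dd] (by decide +kernel))
noncomputable def rhe4af16219ab19a40 : CRef := CRef.mk (Pat.mk 0x1000000040000000e 0x30000003f0000003f 4 6) 0 0 (step_sound _ 36 [rh7dcd5319f4f71bec, rh97881daf8cdbd57b, rhca6a4af813f68cee] (by decide +kernel))
noncomputable def rh98b5e869a127ef67 : CRef := CRef.mk (Pat.mk 0x10000000500000005000000050000000000000000 0x2000000030000000700000005000000070000000600000002 4 3) 0 0 (step_sound _ 33 [rh5a3d9738df9b01e3, (rhd3458b32566d63f7.shift 0 1)] (by decide +kernel))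
noncomputable def rhf88ae983e463ce96 : CRef := CRef.mk (Pat.mk 0x20000000a0000000a0000000a 0x150000001f0000001b0000000a0000000a 4 5) 0 0 (step_sound _ 98 [(rh2f68792b6b779e96.shift 1 0), rhdd99a5f1523b7423] (by decide +kernel))
noncomputable def rhbdf7da801bd7795d : CRef := CRef.mk (Pat.mk 0xa0000000a0000000a00000000 0x500000007000000070000001e0000000b0000000b00000009 4 5) 0 0 (step_sound _ 129 [rh0fd870c734e6c513, rh256e40981049d95d, rh402d223d12d7377d, (rh7ef5fa5c39f1c762.shift 0 1)] (by decide +kernel))
noncomputable def rh369225b5d41e1569 : CRef := CRef.mk (Pat.mk 0x300000002000000020000000000000000 0x30000000300000002000000070000000700000005 4 3) 0 0 (step_sound _ 33 [(rh50fbb5868c909700.shift 0 1), rhabedd109a9a37101] (by decide +kernel))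
noncomputable def rh2734157314de9e95 : CRef := CRef.mk (Pat.mk 0x200000003800000010 0x300000007e000000ff 4 8) 0 0 (step_sound _ 34 [rh2591032a0e7f4182, (rh8db7f7558b75b2b1.shift 1 0), (rha03f6e28ea70fc7d.shift 1 0)] (by decide +kernel))
noncomputable def rh7e83efc0c0d75a40 : CRef := CRef.mk (Pat.mk 0x4000000040000001c000000080000000000000000 0x4000000040000001f0000003f0000000200000002 4 6) 0 0 (step_sound _ 97 [rh1e8d6e1ef30e2d92, (rha03f6e28ea70fc7d.shift 0 2)] (by decide +kernel))
noncomputable def rh946a116aad97a44e : CRef := CRef.mk (Pat.mk 0xa0000000a00000002000000000000000000000000 0x50000000f0000001a00000002000000070000000700000005 4 5) 0 0 (step_sound _ 65 [rh3181373a30ceb9e3, (rhe3ca3d7b4fee55d8.shift 0 2)] (by decide +kernel))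
noncomputable def rh0aea810a1a2d0444 : CRef := CRef.mk (Pat.mk 0x500000007000000040000000000000000 0x50000000500000005000000070000001f0000000a00000002 4 5) 0 0 (step_sound _ 65 [(rh121397a93ef3afd3.shift 0 1), (rh1e309b005ffa1b36.shift 1 0), rhade0f4c81793f68e] (by decide +kernel))
noncomputable def rh29a7dbd7acded370 : CRef := CRef.mk (Pat.mk 0x20000000280000003800000020 0x50000000780000002f0000003c00000020 4 7) 0 0 (step_sound _ 100 [(rh50fbb5868c909700.shift 4 0), rhcc1a6f93569113d3] (by decide +kernel))
noncomputable def rh86023375cda3ec19 : CRef := CRef.mk (Pat.mk 0x28000000280000000800000000 0x10000000140000001e0000007c0000002f0000000800000008 4 7) 0 0 (step_sound _ 100 [(rh2820ca9a6c4f41b4.shift 0 2), (rh7f36f639160ea2c8.shift 3 0), (rhfb9953e9a73eee19.shift 1 0)] (by decide +kernel))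
noncomputable def rhb5b13aa9d0936b45 : CRef := CRef.mk (Pat.mk 0x20000000b0000000a00000000 0x6000000060000001e0000000b0000000b0000000b 4 5) 0 0 (step_sound _ 130 [rh1a44f6991f283c8d, rh62e2ef59a7ae44f9] (by decide +kernel))
noncomputable def rh776b8354b93632dc : CRef := CRef.mk (Pat.mk 0x80000002c0000002800000000 0x1000000010000000180000007c0000002f0000002800000028 4 7) 0 0 (step_sound _ 100 [(rh215e11e099257d75.shift 3 0), (rh9290e062b07aaa45.shift 2 0), (rhd69c262cd33b94b3.shift 0 2)] (by decide +kernel))
noncomputable def rh73cc2f8d08e13824 : CRef := CRef.mk (Pat.mk 0x20000000200000002000000020000000200000000 0x600000006000000060000000300000003000000030000000200000002 4 3) 0 0 (step_sound _ 193 [rh3f44037e5442bcb5, (rh44f453b84f013105.shift 1 2)] (by decide +kernel))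
noncomputable def rh72c5a87cf41a6352 : CRef := CRef.mk (Pat.mk 0xa0000000a0000000a00000004 0x100000011000000190000000f0000000b0000000e00000006 4 5) 0 0 (step_sound _ 96 [rh54b0138fc9c15391, rhf9a6286f1d5377a2] (by decide +kernel))
noncomputable def rhd0637df081da5ef4 : CRef := CRef.mk (Pat.mk 0xa0000000a0000000a0000000400000000 0x140000001e0000000b0000000f0000001e00000010 4 5) 0 0 (step_sound _ 35 [(rh9258736a7488cc35.shift 0 1), rhecf53791081c87c9] (by decide +kernel))
noncomputable def rh0d0aa2c2b8dc1257 : CRef := CRef.mk (Pat.mk 0xa0000000a000000080000000400000000 0x140000001e0000000b000000080000000c00000004 4 5) 0 0 (step_sound _ 35 [(rh9258736a7488cc35.shift 0 1), (rh932754581e0f4330.shift 2 0)] (by decide +kernel))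
noncomputable def rh5c6919873fc4b56c : CRef := CRef.mk (Pat.mk 0x20000000a0000000a0000000a00000000 0x140000001e0000001e0000000b0000001a0000001a00000010 4 5) 0 0 (step_sound _ 131 [(rh28f7c203f178e979.shift 1 1), (rh426f403fa814630c.shift 3 0), (rhd7f025ab3fc6fe79.shift 0 1)] (by decide +kernel))
noncomputable def rh69cd88111a9b413a : CRef := CRef.mk (Pat.mk 0x4000000060000000e000000000000000000000000 0x6000000060000000f0000003c0000000c0000000c 4 6) 0 0 (step_sound _ 66 [(rh3cb04db3dd2b6a55.shift 1 0), (rh820d4e04d5dcd02e.shift 1 0), (rhc1ae51bfba5f1e57.shift 0 1)] (by decide +kernel))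
noncomputable def rhbe6d38c19b5f5f20 : CRef := CRef.mk (Pat.mk 0x18000000380000000800000000 0xc0000000c0000000c00000018000000380000001f00000014 4 6) 0 0 (step_sound _ 131 [(rh55a1f6c57a317ce6.shift 3 0), rh852e818bc8629e77, (rh90b823c913a425e8.shift 2 1)] (by decide +kernel))
noncomputable def rha31874b0016a57c8 : CRef := CRef.mk (Pat.mk 0x700000006000000020000000000000000 0x30000000700000006000000070000000700000005 4 3) 0 0 (step_sound _ 33 [rh2cfc8c34bad4c294, (rh50fbb5868c909700.shift 0 1)] (by decide +kernel))
noncomputable def rh333bba90a4f5e365 : CRef := CRef.mk (Pat.mk 0x200000006000000060000000200000000 0x40000000600000006000000070000003e0000000c 4 6) 0 0 (step_sound _ 34 [rh6759a8bbc457c8e7, (rh7b1f1fb55310c477.shift 1 0)] (by decide +kernel))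
noncomputable def rhe176932f9df76e0d : CRef := CRef.mk (Pat.mk 0x60000000a000000180000000000000000 0x4000000060000003e0000007f0000000200000002 4 7) 0 0 (step_sound _ 98 [(rh89ade209b3e28f13.shift 1 2), rh92e8f86a47ca4f2b] (by decide +kernel))
noncomputable def rh6409a73f86fd55c6 : CRef := CRef.mk (Pat.mk 0xe0000000a0000001800000000 0x400000004000000060000000e0000003b0000001f00000002 4 6) 0 0 (step_sound _ 33 [(rh7f36f639160ea2c8.shift 1 0), (rhdb4b4dc20164ea80.shift 0 1)] (by decide +kernel))
noncomputable def rh6afd1e5cb0d197a2 : CRef := CRef.mk (Pat.mk 0x100000001000000030000000080000000000000000 0x10000000180000007c0000000f0000000800000008 4 7) 0 0 (step_sound _ 99 [(rh2820ca9a6c4f41b4.shift 0 2), (rhf9af042da61fc652.shift 3 0)] (by decide +kernel))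
noncomputable def rh7759315ec94af6eb : CRef := CRef.mk (Pat.mk 0x300000002800000020 0x7c0000003f00000060 4 7) 0 0 (step_sound _ 34 [(rh18106ac0f60c265a.shift 1 1), (rh5360fcf49c083c33.shift 1 0), (rhabf575676fe0ef70.shift 2 0), (rhbd2e91c3fdbfa961.shift 0 1)] (by decide +kernel))
noncomputable def rhc9d9911fa6afb9b1 : CRef := CRef.mk (Pat.mk 0x1800000014000000100000000000000000 0x8000000380000001f000000100000001000000010 4 6) 0 0 (step_sound _ 36 [(rh50fbb5868c909700.shift 3 1), rh5dd444571d34c674] (by decide +kernel))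
noncomputable def rhc9a9bfc18426107e : CRef := CRef.mk (Pat.mk 0x80000000a00000008000000000000000000000000 0x8000000080000000f0000007c000000180000001000000010 4 7) 0 0 (step_sound _ 100 [(rh174a767562f03570.shift 0 3), (rh70e33bfdf511e144.shift 3 0)] (by decide +kernel))
noncomputable def rhbec0a5329cfc9f4f : CRef := CRef.mk (Pat.mk 0x4000000040000000600000008 0x400000004000000040000001f00000078 4 7) 0 0 (step_sound _ 35 [(rh2145e1d24b96a57e.shift 2 0), rh8ee80cc30e93a344] (by decide +kernel))
noncomputable def rh6a2abf98d2f26bd0 : CRef := CRef.mk (Pat.mk 0x2000000020000000300000000 0x4000000060000000600000002000000060000000700000005 4 3) 0 0 (step_sound _ 129 [(rh426f403fa814630c.shift 1 0), rh932754581e0f4330] (by decide +kernel))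
noncomputable def rh3af8616525509f3c : CRef := CRef.mk (Pat.mk 0x6000000080000001c00000000 0x4000000060000003b0000001f00000003 4 6) 0 0 (step_sound _ 33 [rh4dde45b6cee3e19c, (rhec46bd5500c722c9.shift 0 1)] (by decide +kernel))
noncomputable def rhf2cc7d47ec58b7ff : CRef := CRef.mk (Pat.mk 0x200000003800000000 0x670000003e00000007 4 7) 0 0 (step_sound _ 34 [rh2cc7d62e70c02209, (rh33e738c4ed385b9f.shift 2 1)] (by decide +kernel))
noncomputable def rh150cb69972e36607 : CRef := CRef.mk (Pat.mk 0xe000000080000000e000000000000000000000000 0x40000000e0000001b0000001e000000330000001000000010 4 6) 0 0 (step_sound _ 100 [(rh4dde45b6cee3e19c.shift 0 2), (rhd132b680030c88e0.shift 1 0)] (by decide +kernel))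
noncomputable def rh6e6c54f3dc1923ed : CRef := CRef.mk (Pat.mk 0x1800000000000000380000000000000000 0x18000000180000000f0000007c0000001c00000014 4 7) 0 0 (step_sound _ 99 [(rh6ce021e181db5f56.shift 2 0), (rhe8f9550119ab603c.shift 3 0), (rhfd99604093c09fe0.shift 0 2)] (by decide +kernel))
noncomputable def rh54a11c8c6848d893 : CRef := CRef.mk (Pat.mk 0x2000000020000000300000000 0x1000000030000000300000002000000060000000700000005 4 3) 0 0 (step_sound _ 129 [rh29dd5384d80ecb1e, rh932754581e0f4330] (by decide +kernel))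
noncomputable def rh463075d27e519a4f : CRef := CRef.mk (Pat.mk 0xe000000080000000a0000000800000000 0x130000001e0000000e0000000e0000000c00000004 4 5) 0 0 (step_sound _ 34 [(rh932754581e0f4330.shift 2 0), (rhbd683bc8f73ffcd8.shift 0 1)] (by decide +kernel))
noncomputable def rhe3a5dbda587956eb : CRef := CRef.mk (Pat.mk 0x1c00000010000000140000001000000000 0x40000001c0000003c0000001f0000001800000008 4 6) 0 0 (step_sound _ 35 [(rh932754581e0f4330.shift 3 0), (rhff30192e7e3949f2.shift 0 1)] (by decide +kernel))
noncomputable def rh1708f61860215cbe : CRef := CRef.mk (Pat.mk 0x1c00000010000000100000001000000000 0x200000003e00000037000000100000001800000008 4 6) 0 0 (step_sound _ 3 [(rh79877ebd3ef475dd.shift 3 0), (rhc0eda32cdef19d21.shift 0 1)] (by decide +kernel))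
noncomputable def rh6ce4e20cab3d27ba : CRef := CRef.mk (Pat.mk 0x3000000030000000200000002 0x60000000600000007000000030000000300000003 4 3) 0 0 (step_sound _ 130 [rh4a79a0e991fdb85d, (rhbaefcd01e0a8bca3.shift 1 0)] (by decide +kernel))
noncomputable def rh8b0e308a0d323c6c : CRef := CRef.mk (Pat.mk 0x1800000008000000280000002800000000 0x800000018000000780000002f0000007c00000028 4 7) 0 0 (step_sound _ 66 [(rh62e2ef59a7ae44f9.shift 2 0), (rh899f885acab7361f.shift 1 1), (rh8c25cb665ab79ec0.shift 0 1)] (by decide +kernel))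
noncomputable def rh78c0988ea62fb244 : CRef := CRef.mk (Pat.mk 0xc00000004000000140000001400000000 0x220000003f0000003e000000140000001400000010 4 6) 0 0 (step_sound _ 100 [rh47c80674ab0824ee, (rh7e64d7b7c31b8053.shift 1 0), (rhb24b7e1fadc8438a.shift 0 1), (rhdd99a5f1523b7423.shift 1 1)] (by decide +kernel))
noncomputable def rhaf5075ff20fb9919 : CRef := CRef.mk (Pat.mk 0x80000000b000000080000000000000000 0x40000000c0000000c0000000b0000001e0000001c00000014 4 5) 0 0 (step_sound _ 163 [(rh0c1c1b53bc5a1510.shift 2 0), (rh0c3873a75f5344d2.shift 0 1), (rhcae87bda2c3c01d2.shift 2 0)] (by decide +kernel))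
noncomputable def rhbb71a2bdefaefdd9 : CRef := CRef.mk (Pat.mk 0x80000000b00000008000000000000000000000000 0x140000001e0000000b000000080000001c0000001c00000014 4 5) 0 0 (step_sound _ 67 [(rh3181373a30ceb9e3.shift 2 0), (rha78afc937ca94db4.shift 0 2)] (by decide +kernel))
noncomputable def rh0cf047ac59f5fe28 : CRef := CRef.mk (Pat.mk 0x200000002c00000020 0x600000003e00000037 4 7) 0 0 (step_sound _ 36 [(rh33e738c4ed385b9f.shift 2 1), rhdceeca65bdd8095a] (by decide +kernel))
noncomputable def rheea89be93e4ede89 : CRef := CRef.mk (Pat.mk 0x1000000016000000100000000000000000 0x280000003800000038000000180000001f000000180000001800000008 4 6) 0 0 (step_sound _ 164 [(rh0c1c1b53bc5a1510.shift 3 0), (rh58ca6c8485b5d441.shift 0 1), (rh7ef5fa5c39f1c762.shift 3 2)] (by decide +kernel))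
noncomputable def rh42aecd61070a011b : CRef := CRef.mk (Pat.mk 0x80000000b000000080000000000000000 0x1000000018000000180000000b0000001e0000001c00000014 4 5) 0 0 (step_sound _ 163 [(rh0c3873a75f5344d2.shift 0 1), (rh32c2123a4016d1a7.shift 2 0), (rhec588a0d7783acc6.shift 3 0)] (by decide +kernel))
noncomputable def rh90759a9a80e5ab81 : CRef := CRef.mk (Pat.mk 0x200000002c0000002000000000 0x1000000010000000700000007c0000002f0000002000000020 4 7) 0 0 (step_sound _ 100 [(rh351e2f84a5c68d7e.shift 2 0), (rhb1a251d9bff81766.shift 4 0), (rhbd2e91c3fdbfa961.shift 0 2)] (by decide +kernel))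
noncomputable def rh865de6395c50e5f4 : CRef := CRef.mk (Pat.mk 0x80000000b0000000800000000 0x140000001c0000001c000000080000000b0000001e00000014 4 5) 0 0 (step_sound _ 131 [rh0c3873a75f5344d2, (rh7ef5fa5c39f1c762.shift 2 1)] (by decide +kernel))
noncomputable def rh42aaf58786ba7cf1 : CRef := CRef.mk (Pat.mk 0x80000000b000000080000000000000000 0x1c0000001e0000000b0000001c0000001c00000014 4 5) 0 0 (step_sound _ 35 [(rha78afc937ca94db4.shift 0 1), (rhabedd109a9a37101.shift 2 0)] (by decide +kernel))
noncomputable def rh5a0d7aafdb6b71a6 : CRef := CRef.mk (Pat.mk 0x80000000c0000000e0000000400000000 0x140000003c0000000f0000000e0000000e0000000a 4 6) 0 0 (step_sound _ 130 [(rh03dfdf12d5937476.shift 1 0), rha31e2286f1ebea1b] (by decide +kernel))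
noncomputable def rh371e9c582b755347 : CRef := CRef.mk (Pat.mk 0x10000000180000001c00000008 0x4000000360000007f0000001c00000008 4 7) 0 0 (step_sound _ 69 [(rh18965a982d73c794.shift 2 1), rhec27e8300e40ac9e] (by decide +kernel))
noncomputable def rh52e7c88313c6f830 : CRef := CRef.mk (Pat.mk 0x80000000c000000060000000400000000 0x60000000f0000003c000000060000000600000002 4 6) 0 0 (step_sound _ 130 [(rh03dfdf12d5937476.shift 1 0), (rh53cccbb248b8ab65.shift 0 1)] (by decide +kernel))
noncomputable def rh7b8e523e0c581b56 : CRef := CRef.mk (Pat.mk 0x180000000a000000060000000000000000 0x20000007f0000003e000000060000000400000004 4 7) 0 0 (step_sound _ 98 [rh332036fc5e7a15a7, (rh80f90a60d87caa0d.shift 1 3), (rh8284118167888cf9.shift 1 2)] (by decide +kernel))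
noncomputable def rh8b9018bcdef783d1 : CRef := CRef.mk (Pat.mk 0x180000000a0000000e000000000000000000000000 0x20000001f0000003b0000000e000000060000000400000004 4 6) 0 0 (step_sound _ 161 [(rha768b229dc254047.shift 1 0), (rhe32601bd65ae7334.shift 0 4)] (by decide +kernel))
noncomputable def rh358e1c2d69865b61 : CRef := CRef.mk (Pat.mk 0x200000002000000020000000300000002 0x100000003000000030000000600000006000000070000000300000002 4 3) 0 0 (step_sound _ 161 [(rh79877ebd3ef475dd.shift 0 1), rhf8f1c70b1c0d3608] (by decide +kernel))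
noncomputable def rhe8eb80f1344c3d24 : CRef := CRef.mk (Pat.mk 0x1000000010000000140000001000000000 0x1000000010000000100000001f0000003800000008 4 6) 0 0 (step_sound _ 35 [(rh932754581e0f4330.shift 3 0), (rhc9af331fef9eb9f9.shift 0 1)] (by decide +kernel))
noncomputable def rh6b22a9ecbe5baeca : CRef := CRef.mk (Pat.mk 0x8000000300000001000000010 0x8000000080000000f0000007c0000001800000010 4 7) 0 0 (step_sound _ 67 [(rha9fbfd4bb8cf890b.shift 0 2), (rhe072fffdd2fccf38.shift 3 0)] (by decide +kernel))
noncomputable def rhcaefbb96361b9b5e : CRef := CRef.mk (Pat.mk 0x200000002800000030 0x600000003f0000007c 4 7) 0 0 (step_sound _ 34 [(rh086172e1ea5e5fe6.shift 1 0), rh95f73988d2dec2c0, (rhe2971afac17a6ffc.shift 2 0)] (by decide +kernel))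
noncomputable def rhedeacfdd5dd9b35b : CRef := CRef.mk (Pat.mk 0x40000000200000002000000020000000200000000 0x5000000070000000300000002000000020000000600000004 4 3) 0 0 (step_sound _ 2 [(rhc1897dcc52446b96.shift 0 1), (rhd3458b32566d63f7.shift 1 0)] (by decide +kernel))
noncomputable def rh93de45030b92d2cb : CRef := CRef.mk (Pat.mk 0x30000000200000002000000000000000000000000 0x5000000070000000600000002000000060000000600000004 4 3) 0 0 (step_sound _ 65 [(rh50fbb5868c909700.shift 0 2), (rhec588a0d7783acc6.shift 1 0)] (by decide +kernel))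
noncomputable def rh1cade5f7702f04e7 : CRef := CRef.mk (Pat.mk 0x1c000000080000000600000000 0x30000001f0000003b0000000600000004 4 6) 0 0 (step_sound _ 97 [rh71bbb00ef1ecd8fb, (rha03f6e28ea70fc7d.shift 0 2)] (by decide +kernel))
noncomputable def rh36d2c89188238b29 : CRef := CRef.mk (Pat.mk 0xe000000080000000e00000000 0x10000000330000001e0000003b0000000e00000004 4 6) 0 0 (step_sound _ 100 [rh71bbb00ef1ecd8fb, (rhbbda3e5cf400e6dd.shift 1 1)] (by decide +kernel))
noncomputable def rh543662e29fd8164d : CRef := CRef.mk (Pat.mk 0x3800000000000000180000000000000000 0x180000007c0000000f000000180000001800000010 4 7) 0 0 (step_sound _ 99 [(rh2820ca9a6c4f41b4.shift 0 3), (rhe8f9550119ab603c.shift 3 0)] (by decide +kernel))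
noncomputable def rhc2ba441c4f7d47bc : CRef := CRef.mk (Pat.mk 0x8000000080000000a00000018 0x100000001800000018000000080000000f0000001c 4 5) 0 0 (step_sound _ 34 [(rh769be3fe24eee174.shift 2 0), rhb739f4f82bb681b4] (by decide +kernel))
noncomputable def rh618a89ae50f6698f : CRef := CRef.mk (Pat.mk 0x1000000010000000100000001c00000000 0x1000000010000000300000003e00000027 4 6) 0 0 (step_sound _ 33 [(rh33e738c4ed385b9f.shift 1 1), rhd9f8c390d5d490f4] (by decide +kernel))
noncomputable def rh80cb0b9e692a15bc : CRef := CRef.mk (Pat.mk 0x80000000a000000080000000e00000000 0x40000000c0000000e0000000e0000001e00000013 4 5) 0 0 (step_sound _ 130 [rh105b1a9abc2a0670, (rh50fbb5868c909700.shift 2 1)] (by decide +kernel))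
noncomputable def rh14c17a1071bb5129 : CRef := CRef.mk (Pat.mk 0x1000000014000000100000001c00000000 0x8000000180000001f0000003c0000001c00000004 4 6) 0 0 (step_sound _ 131 [(rh50fbb5868c909700.shift 3 1), rh70961b7b9a002b34] (by decide +kernel))
noncomputable def rh9a6139bcf03e1a79 : CRef := CRef.mk (Pat.mk 0x1c0000000800000002 0x7e0000007f00000006 4 7) 0 0 (step_sound _ 37 [(rh1e42cdaa2b8276ac.shift 1 1), (rh7344b4efa7925350.shift 1 1), rhec155f76c26177c7] (by decide +kernel))
noncomputable def rh66ed3053cf458f43 : CRef := CRef.mk (Pat.mk 0x400000007000000050000000000000000 0x20000000a0000001f00000007000000050000000500000005 4 5) 0 0 (step_sound _ 129 [rh32f6277f14b47a8f, (rh3cb04db3dd2b6a55.shift 1 0), rhf8d29f3cbeaf06f7] (by decide +kernel))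
noncomputable def rh2f0429c80284f638 : CRef := CRef.mk (Pat.mk 0x2000000038000000280000002000000000 0x200000003c0000002f0000007800000050 4 7) 0 0 (step_sound _ 36 [rh67d48f419126b414, (rh932754581e0f4330.shift 4 0)] (by decide +kernel))
noncomputable def rh7170e6ecf107531a : CRef := CRef.mk (Pat.mk 0xa0000000b00000002000000000000000000000000 0xb0000000b0000000b0000001e000000060000000600000004 4 5) 0 0 (step_sound _ 66 [(rh2f7ef8ef5c94975a.shift 1 0), (rhc7a10ee8d0d37048.shift 0 1), (rhfb3bc5848474ac0d.shift 0 2)] (by decide +kernel))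
noncomputable def rh41b43696a8919fe3 : CRef := CRef.mk (Pat.mk 0x1400000014000000040000000c00000000 0x140000003e000000170000003c0000000c00000004 4 6) 0 0 (step_sound _ 97 [rhc33a122286ca3b89, (rhfb3bc5848474ac0d.shift 1 1)] (by decide +kernel))
noncomputable def rhc8c80e872382daad : CRef := CRef.mk (Pat.mk 0x1400000014000000040000000c00000000 0x1000000014000000140000003e0000003f00000022 4 6) 0 0 (step_sound _ 68 [(rh1784e36706d84b88.shift 1 0), rh4736e33ddf9c57a1, rh65819e2c862420da, (rhb98f3a634582a9d7.shift 1 0)] (by decide +kernel))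
noncomputable def rh3910c77a3553bfa3 : CRef := CRef.mk (Pat.mk 0xc00000008000000280000000800000000 0x1f0000007c000000680000000800000008 4 7) 0 0 (step_sound _ 100 [(rh4ca5dae25f5c14ff.shift 0 3), (rhc705a4e0321a1bff.shift 2 0), (rhd72d3ccf57320452.shift 1 2)] (by decide +kernel))
noncomputable def rh07c019240d9e9aaa : CRef := CRef.mk (Pat.mk 0x200000002000000020000000000000000 0x500000007000000070000000700000002000000060000000600000004 4 3) 0 0 (step_sound _ 161 [(rh7ef5fa5c39f1c762.shift 0 2), rhcae87bda2c3c01d2, (rhec588a0d7783acc6.shift 1 0)] (by decide +kernel))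
noncomputable def rh516bbb2dd0416ae7 : CRef := CRef.mk (Pat.mk 0x200000002c00000020000000000000000000000000 0x20000000200000002f0000007c000000300000001000000010 4 7) 0 0 (step_sound _ 100 [(rh281c6819542c66e6.shift 4 0), (rh95f73988d2dec2c0.shift 0 3)] (by decide +kernel))
noncomputable def rh21c5f0dd63e59670 : CRef := CRef.mk (Pat.mk 0xa000000080000001c 0xf0000007f0000001f 4 7) 0 0 (step_sound _ 36 [rh35470ceaa270cce2, rh48ac5493fe9116e0, rhab2ad169e49f9c5e] (by decide +kernel))
noncomputable def rh019ff7e35dd8c55e : CRef := CRef.mk (Pat.mk 0x2000000020000000200000002000000020000000000000000 0x200000002000000030000000300000003000000060000000600000006 4 3) 0 0 (step_sound _ 33 [rhaa8ae7d48f3b2ec8, (rhd29a1fb688eae70f.shift 1 0)] (by decide +kernel))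
noncomputable def rh13e194725e09c75f : CRef := CRef.mk (Pat.mk 0x40000000a0000000a0000000a000000000000000000000000 0x60000000e0000000b0000000f000000190000001100000001 4 5) 0 0 (step_sound _ 96 [(rha614af53a5db1f25.shift 0 1), rhfafeb437ceb8396d] (by decide +kernel))
noncomputable def rh94a686022a09d363 : CRef := CRef.mk (Pat.mk 0x40000000a0000000a0000000a00000000 0x100000001e0000000f0000000b0000001e00000014 4 5) 0 0 (step_sound _ 131 [rh11a243992b58ed44, (rh33b6a8266a95d2d6.shift 0 1)] (by decide +kernel))
noncomputable def rh843696907668fbcf : CRef := CRef.mk (Pat.mk 0x4000000080000000a0000000a00000000 0x40000000c000000080000000b0000001e00000014 4 5) 0 0 (step_sound _ 131 [rh11a243992b58ed44, (rh50fbb5868c909700.shift 2 1)] (by decide +kernel))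
noncomputable def rhd6e5a9ce6b93fae8 : CRef := CRef.mk (Pat.mk 0xa0000000a0000000a000000020000000000000000 0x100000001a0000001a0000000b0000001e0000001e00000014 4 5) 0 0 (step_sound _ 67 [(rh96542b57e9ab27d3.shift 1 0), (rhc274c15ae0e52e8c.shift 0 1), (rhec588a0d7783acc6.shift 3 0)] (by decide +kernel))
noncomputable def rh5f9368802ad142aa : CRef := CRef.mk (Pat.mk 0x500000005000000050000000100000000 0x2000000070000000700000005000000050000000300000002 4 3) 0 0 (step_sound _ 1 [(rh28f7c203f178e979.shift 0 1), rhd3458b32566d63f7] (by decide +kernel))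
noncomputable def rh066599b5fd8ad27d : CRef := CRef.mk (Pat.mk 0x2000000020000000200000002000000020000000000000000 0x200000002000000060000000600000006000000030000000300000003 4 3) 0 0 (step_sound _ 33 [(rh551f36dd2a96f0b0.shift 1 0), rh7928877f9bf74a91] (by decide +kernel))
noncomputable def rh84b6691cd8651792 : CRef := CRef.mk (Pat.mk 0x20000000e00000006000000000000000000000000 0x60000003e0000003e000000030000000300000003 4 6) 0 0 (step_sound _ 65 [rhbb83b53687587fb2, (rhe15164ba884db0cb.shift 0 1), (rhea7a1800d6f053bd.shift 1 0)] (by decide +kernel))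
noncomputable def rh1e97d2214162b404 : CRef := CRef.mk (Pat.mk 0x140000001c0000000c000000000000000000000000 0x1c0000001c0000003f000000370000003600000014 4 6) 0 0 (step_sound _ 100 [(rh3a6c1689b3bee428.shift 1 0), (rh59671bed9a6cba8c.shift 0 1), (rhb24a71b8e8f17f47.shift 1 0)] (by decide +kernel))
noncomputable def rh6f4bfd08ec0e6e10 : CRef := CRef.mk (Pat.mk 0x20000000200000002000000000000000000000000 0x500000007000000070000000300000002000000070000000700000005 4 3) 0 0 (step_sound _ 65 [rh0c1c1b53bc5a1510, rh3181373a30ceb9e3, (rh7ef5fa5c39f1c762.shift 0 2)] (by decide +kernel))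
noncomputable def rh2569de4d91a2a4f2 : CRef := CRef.mk (Pat.mk 0x80000002800000028000000000000000000000000 0x8000000080000003f00000078000000180000001000000010 4 7) 0 0 (step_sound _ 100 [(rha768b229dc254047.shift 3 0), (rhf60aa8aede119d3b.shift 0 3)] (by decide +kernel))
noncomputable def rhe8aa5379acc38eb0 : CRef := CRef.mk (Pat.mk 0x28000000280000002800000000 0x28000000280000003f0000007800000010 4 7) 0 0 (step_sound _ 36 [(rh5fc67bac28a8b5bb.shift 3 0), (rhf60aa8aede119d3b.shift 0 1)] (by decide +kernel))
noncomputable def rhd544065fa370d9f2 : CRef := CRef.mk (Pat.mk 0x2000000020000000200000003 0x10000000700000007000000020000000300000003 4 3) 0 0 (step_sound _ 98 [(rh2f68792b6b779e96.shift 1 0), rha54302d5ccf5246c] (by decide +kernel))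
noncomputable def rhcb7e86a5e81c54a5 : CRef := CRef.mk (Pat.mk 0x20000000a0000000a0000000a0000000000000000 0x130000001e0000000b0000000e0000000c00000004 4 5) 0 0 (step_sound _ 34 [rh261dc2dc933a7b8b, (rhd3458b32566d63f7.shift 1 1)] (by decide +kernel))
noncomputable def rh9247ff4e03de9d0a : CRef := CRef.mk (Pat.mk 0x20000000a0000000a0000000a00000000 0x4000000060000003e0000000b0000000a00000008 4 6) 0 0 (step_sound _ 130 [(rh2f68792b6b779e96.shift 1 1), rh64111dda4f00239a] (by decide +kernel))
noncomputable def rh28f824af16ab12c7 : CRef := CRef.mk (Pat.mk 0x200000002000000020000000e 0x100000007000000070000000600000003000000030000001e 4 5) 0 0 (step_sound _ 129 [(rh44f453b84f013105.shift 1 0), rh48c198951d50ec58] (by decide +kernel))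
noncomputable def rh557279e14160d975 : CRef := CRef.mk (Pat.mk 0x200000002000000020000000e 0x400000007000000070000000300000003000000030000001e 4 5) 0 0 (step_sound _ 129 [rh3ca48e2a6d60153d, rh66905ecf78b94b4b] (by decide +kernel))
noncomputable def rh6db88f78dfee7e03 : CRef := CRef.mk (Pat.mk 0x1a0000001e0000000000000000 0x12000000330000001e0000001e0000000c0000000c 4 6) 0 0 (step_sound _ 98 [(rh34b1188e635efc8d.shift 1 0), rh38a0850c9fea941e] (by decide +kernel))
noncomputable def rh4d749f6df2bdc6ad : CRef := CRef.mk (Pat.mk 0x4000000040000000600000002000000000000000000000000 0x80000000c0000000e000000070000003e0000000c0000000400000004 4 6) 0 0 (step_sound _ 98 [(rh33c3b913cf582fec.shift 1 0), (rh36d4d92ef3dad5f8.shift 0 2)] (by decide +kernel))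
noncomputable def rhe418daf8de52e604 : CRef := CRef.mk (Pat.mk 0x1800000018000000080000000c00000000 0x80000001800000018000000380000001f00000010 4 6) 0 0 (step_sound _ 36 [(rh35e781682c635410.shift 0 1), (rh55afc6a59410cf00.shift 3 0)] (by decide +kernel))
noncomputable def rh5a576f4aa77ac87c : CRef := CRef.mk (Pat.mk 0x600000006000000020000000200000000 0x300000003000000030000000600000006000000030000000300000001 4 3) 0 0 (step_sound _ 161 [rh7928877f9bf74a91, (rh90b823c913a425e8.shift 0 2)] (by decide +kernel))
noncomputable def rh7ce307151020a294 : CRef := CRef.mk (Pat.mk 0x800000008000000080000003800000000 0x8000000080000003f0000003f00000004 4 6) 0 0 (step_sound _ 34 [(rh932754581e0f4330.shift 2 0), (rhc554838dd23febb3.shift 0 1)] (by decide +kernel))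
noncomputable def rhf094991f52b781e5 : CRef := CRef.mk (Pat.mk 0x200000016000000020000000e00000000 0x12000000160000007e0000001f00000019 4 7) 0 0 (step_sound _ 68 [(rh459abeb1b0542bfa.shift 1 1), rh64dc83248a382cff, rhd05b50139866a421] (by decide +kernel))
noncomputable def rh0956114827151fc1 : CRef := CRef.mk (Pat.mk 0x800000018000000080000003800000000 0x8000000180000001f0000007c00000004 4 7) 0 0 (step_sound _ 2 [(rh79877ebd3ef475dd.shift 2 0), (rha3204d5dbf1e6777.shift 0 1)] (by decide +kernel))
noncomputable def rhf7a8a7928680e5ad : CRef := CRef.mk (Pat.mk 0x800000018000000080000001800000000 0x1000000018000000180000003c000000ff00000024 4 8) 0 0 (step_sound _ 68 [(rh6759a8bbc457c8e7.shift 2 0), rh6fae963f33cfdfd7] (by decide +kernel))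
noncomputable def rh96d177a9882c6787 : CRef := CRef.mk (Pat.mk 0x400000006000000060000000600000000 0x4000000070000003e0000003f00000008 4 6) 0 0 (step_sound _ 35 [(rh28107c44fe017516.shift 0 1), (rh55afc6a59410cf00.shift 2 0)] (by decide +kernel))
noncomputable def rhef48121b77c6528b : CRef := CRef.mk (Pat.mk 0xc0000001e000000020000000000000000 0xa0000000f0000001e000000060000000600000006 4 5) 0 0 (step_sound _ 129 [(rh3244c3cc8379b070.shift 0 3), (rhe0b6922e710db782.shift 1 0)] (by decide +kernel))
noncomputable def rhcd4e30cc39602f0f : CRef := CRef.mk (Pat.mk 0x400000006000000060000000400000000 0x400000006000000070000003e0000000a 4 6) 0 0 (step_sound _ 33 [rh36d4d92ef3dad5f8, (rh71222050f2c63a3a.shift 1 0)] (by decide +kernel))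
noncomputable def rh2cf28d5ae7153859 : CRef := CRef.mk (Pat.mk 0x2000000060000000e000000000000000000000000 0x2000000060000001e000000070000000700000006 4 5) 0 0 (step_sound _ 34 [rh1e42fc0fd1882d44, (rh9e07f76261b05888.shift 1 1)] (by decide +kernel))
noncomputable def rh7fea1cd4dd592f36 : CRef := CRef.mk (Pat.mk 0x2000000060000000e00000000 0x30000000300000003000000060000003e00000003 4 6) 0 0 (step_sound _ 36 [rh0e0bdb128162e444, (rhf48373e13d2bc128.shift 1 1)] (by decide +kernel))
noncomputable def rh6765b4e0435a0cf6 : CRef := CRef.mk (Pat.mk 0x1a00000038000000000000000000000000 0x10000000100000001b0000003f000001f00000002000000020 4 9) 0 0 (step_sound _ 69 [(rh5d54cb79a67f97ab.shift 4 0), (rh95ce53963b10250e.shift 0 2), (rhc21a95c499b3efdb.shift 2 2)] (by decide +kernel))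
noncomputable def rh1035255a6236d9b8 : CRef := CRef.mk (Pat.mk 0x100000001800000038000000000000000000000000 0x10000000180000003f000000770000002000000020 4 7) 0 0 (step_sound _ 98 [(rh0e1512cbacfbd48b.shift 0 2), (rhc7b95363f9049b11.shift 2 0)] (by decide +kernel))
noncomputable def rha56575060dea98c8 : CRef := CRef.mk (Pat.mk 0x40000000c0000001c0000000800000000 0x40000000f0000001f0000003b00000002 4 6) 0 0 (step_sound _ 97 [rh6ba96611d07a8138, (rhb739f4f82bb681b4.shift 0 2)] (by decide +kernel))
noncomputable def rh1667afd8536871df : CRef := CRef.mk (Pat.mk 0x180000003800000010 0x18000000ff000000f7 4 8) 0 0 (step_sound _ 34 [rh0e1512cbacfbd48b, (rh87ee923877636e52.shift 2 0), (rha03f6e28ea70fc7d.shift 1 0)] (by decide +kernel))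
noncomputable def rhba6453b9bae976ec : CRef := CRef.mk (Pat.mk 0x20000000200000006000000020000000100000000 0x400000006000000060000000200000006000000060000000300000001 4 3) 0 0 (step_sound _ 0 [(rh14f80659e6313cc6.shift 1 2), rheea67dfebd0f8008] (by decide +kernel))
noncomputable def rh6bf66c1a8fb23f9f : CRef := CRef.mk (Pat.mk 0x200000006000000020000000000000000 0x100000003000000030000000200000007000000070000000700000005 4 3) 0 0 (step_sound _ 161 [(rh0fd870c734e6c513.shift 0 1), rh3181373a30ceb9e3, (rhd4b4beefcd67f51e.shift 1 1)] (by decide +kernel))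
noncomputable def rh80cd780d41226bcb : CRef := CRef.mk (Pat.mk 0x1c0000001c00000000 0x1800000018000000380000001f0000001c00000014 4 6) 0 0 (step_sound _ 131 [(rh9b32778d424b58d6.shift 2 0), (rhda6cc5da102e1723.shift 3 0), (rhee6a2840b930d427.shift 0 1)] (by decide +kernel))
noncomputable def rh3b50022fa73ccc4f : CRef := CRef.mk (Pat.mk 0x180000001c00000000 0x1c000000ff00000007 4 8) 0 0 (step_sound _ 33 [(rh53b3c253cb0c65f4.shift 0 1), rhc5b6c3e7bb45db36] (by decide +kernel))
noncomputable def rh3e03b24069e6320e : CRef := CRef.mk (Pat.mk 0x200000003000000030000000200000000 0x6000000060000000600000003000000030000000600000004 4 3) 0 0 (step_sound _ 2 [(rh5fa50b509d4ce753.shift 0 1), (rhd3458b32566d63f7.shift 1 0)] (by decide +kernel))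
noncomputable def rhe97098a026a3bff4 : CRef := CRef.mk (Pat.mk 0x200000003000000030000000200000000 0x3000000030000000300000003000000030000000600000004 4 3) 0 0 (step_sound _ 2 [(rh7f9f3607ee25a93b.shift 0 1), (rhd3458b32566d63f7.shift 1 0)] (by decide +kernel))
noncomputable def rhe7b9e29060a626da : CRef := CRef.mk (Pat.mk 0x4000000000000000c0000000c00000008000000000000000000000000 0xc0000000c000000080000000c0000001f00000078000000100000001000000010 4 7) 0 0 (step_sound _ 100 [(rh046c5eb18e55a239.shift 3 0), (rh22c7b9f73858deec.shift 2 2), (rh4ca5dae25f5c14ff.shift 0 3)] (by decide +kernel))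
noncomputable def rh0a663cc7e49c4be9 : CRef := CRef.mk (Pat.mk 0x80000000c000000080000000800000000 0x8000000080000001f000000780000001800000010 4 7) 0 0 (step_sound _ 68 [(rh4ca5dae25f5c14ff.shift 0 2), (rhd4b4beefcd67f51e.shift 3 0)] (by decide +kernel))
noncomputable def rhb99a491b9a372cca : CRef := CRef.mk (Pat.mk 0x600000006000000040000000000000000 0x4000000070000003f0000003c0000000800000008 4 6) 0 0 (step_sound _ 99 [(rh79b3c29022acbdf3.shift 0 3), rh86bd88d8b6da2a4f] (by decide +kernel))
noncomputable def rh007120adcd852062 : CRef := CRef.mk (Pat.mk 0x60000000c000000040000000c 0x380000003e0000000f0000000c0000000c 4 6) 0 0 (step_sound _ 99 [(rh2f68792b6b779e96.shift 2 0), rh42a1016b2f2c2f3f] (by decide +kernel))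
noncomputable def rh2e18376c5973c8ab : CRef := CRef.mk (Pat.mk 0x4000000180000001800000008 0x80000000c0000000c000000380000001f0000000c 4 6) 0 0 (step_sound _ 99 [(rh50fbb5868c909700.shift 2 0), rhfba219b2ab1310a3] (by decide +kernel))
noncomputable def rha0ae7fdea48043dc : CRef := CRef.mk (Pat.mk 0xc0000000c000000040000000c 0x320000003e0000000f0000000c0000000c 4 6) 0 0 (step_sound _ 97 [rh42a1016b2f2c2f3f, (rh50fbb5868c909700.shift 1 0)] (by decide +kernel))
noncomputable def rh9bbeab39414f51f0 : CRef := CRef.mk (Pat.mk 0x80000001c00000000 0xe0000007e00000077 4 7) 0 0 (step_sound _ 37 [rh8195a2d7794c7cd2, (rhe3060b190bc0bc78.shift 1 1)] (by decide +kernel))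
noncomputable def rh84d6414620c8cc4f : CRef := CRef.mk (Pat.mk 0x400000014000000020000000e00000000 0x1400000014000000370000001e00000008 4 6) 0 0 (step_sound _ 3 [rhdc2f50c792a947f0, (rhff0f29cb645b05f7.shift 2 0)] (by decide +kernel))
noncomputable def rh5aed140c492706dd : CRef := CRef.mk (Pat.mk 0x1e0000000a000000000000000000000000 0x2000000070000001e0000003e000000070000000600000002 4 6) 0 0 (step_sound _ 98 [(rh38a0850c9fea941e.shift 0 1), rh92e8f86a47ca4f2b] (by decide +kernel))
noncomputable def rhbcfeb8c1664fe113 : CRef := CRef.mk (Pat.mk 0x1c0000001c000000080000000000000000 0x30000001f0000001c0000000c0000000c0000000c 4 5) 0 0 (step_sound _ 129 [rhacc6d81309980c86, (rhb739f4f82bb681b4.shift 0 3)] (by decide +kernel))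
noncomputable def rh15c5b67713fe7920 : CRef := CRef.mk (Pat.mk 0x8000000180000000c00000008 0x40000000f0000007c0000000c00000008 4 7) 0 0 (step_sound _ 69 [(rh18965a982d73c794.shift 2 1), rh53509d91ff78ed56] (by decide +kernel))
noncomputable def rh7bee4587ac150c6b : CRef := CRef.mk (Pat.mk 0x600000006000000020000000000000000 0x1000000030000000700000006000000030000000300000003 4 3) 0 0 (step_sound _ 33 [rh0fd870c734e6c513, (rh71222050f2c63a3a.shift 1 0)] (by decide +kernel))
noncomputable def rh492f9b65681ee3d3 : CRef := CRef.mk (Pat.mk 0xe0000000c000000040000000400000000 0x300000003e0000000f0000000c0000000c00000008 4 6) 0 0 (step_sound _ 35 [(rh42a1016b2f2c2f3f.shift 0 1), (rh55afc6a59410cf00.shift 2 0)] (by decide +kernel))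
noncomputable def rh27969391d059ac76 : CRef := CRef.mk (Pat.mk 0x38000000180000000800000008 0x40000003f0000001f0000000800000008 4 6) 0 0 (step_sound _ 65 [(rh24ae073cf30720c4.shift 1 2), rh9cac931137f1cfa0] (by decide +kernel))
noncomputable def rhbde193c2d1f6a1f9 : CRef := CRef.mk (Pat.mk 0x600000006000000020000000200000000 0x1000000030000000700000006000000060000000600000004 4 3) 0 0 (step_sound _ 34 [(rh55afc6a59410cf00.shift 1 0), (rhcec4a60e90085f66.shift 0 1)] (by decide +kernel))
noncomputable def rh160f31942be1aa6d : CRef := CRef.mk (Pat.mk 0x8000000180000000c0000000c 0x160000003f0000001f0000000c0000000c 4 6) 0 0 (step_sound _ 66 [rh1a1ff760019a7e53, rhccf6c53fa88468fc] (by decide +kernel))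
noncomputable def rh26867cd58eaba758 : CRef := CRef.mk (Pat.mk 0x100000001e000000000000000000000000 0x10000000180000001f000000180000000800000008 4 5) 0 0 (step_sound _ 67 [rhb7d8158a86f5db49, (rhe3dc93746cbe6e7c.shift 0 2), (rhf91b1398c815afd2.shift 3 0), rhfef9784a86ed4d7b] (by decide +kernel))
noncomputable def rhd2ce3c0b56044e7f : CRef := CRef.mk (Pat.mk 0x1e000000100000000000000000 0x8000000180000001f000000180000001000000010 4 5) 0 0 (step_sound _ 131 [rh1bf44ebefabc2f91, (rh6765e7960b108c8d.shift 0 2), (rh7e1098702e50f2b0.shift 3 0), rha9f42e38d7a37ecb] (by decide +kernel))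
noncomputable def rh47a3fd1a15766578 : CRef := CRef.mk (Pat.mk 0x80000001e000000040000000000000000 0x2000000020000000b0000001e000000060000000400000004 4 5) 0 0 (step_sound _ 34 [(rh71222050f2c63a3a.shift 2 0), (rh768a472a1ebe455c.shift 0 1)] (by decide +kernel))
noncomputable def rh125d4eaf14c79638 : CRef := CRef.mk (Pat.mk 0x400000003800000020 0x600000003e00000037 4 7) 0 0 (step_sound _ 34 [(rh428265de8cd3cd2d.shift 2 1), rhdceeca65bdd8095a] (by decide +kernel))
noncomputable def rh82ef742646ff04c8 : CRef := CRef.mk (Pat.mk 0x200000007000000050000000000000000 0x2000000020000000300000007000000050000000500000005 4 3) 0 0 (step_sound _ 2 [rh32f6277f14b47a8f, (rh9e07f76261b05888.shift 1 0)] (by decide +kernel))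
noncomputable def rhbfbe9dd950c1b510 : CRef := CRef.mk (Pat.mk 0x80000001e000000040000000000000000 0x2000000020000000f0000001e000000040000000400000004 4 5) 0 0 (step_sound _ 34 [(rh1c1037cb5b3fe471.shift 0 1), (rh71222050f2c63a3a.shift 2 0)] (by decide +kernel))
noncomputable def rh3c8bd952beff0cd8 : CRef := CRef.mk (Pat.mk 0x100000003c000000200000000000000000 0x370000003e000000200000002000000020 4 6) 0 0 (step_sound _ 5 [(rh9e07f76261b05888.shift 4 0), (rhedf6b6c69a16cbd5.shift 0 3)] (by decide +kernel))
noncomputable def rhc57657ad4f4a31a6 : CRef := CRef.mk (Pat.mk 0x40000000f800000000 0x67000000fe00000038 4 8) 0 0 (step_sound _ 34 [(rh428265de8cd3cd2d.shift 2 1), rh817202e9645d07db] (by decide +kernel))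
noncomputable def rhba16b5390b669ed1 : CRef := CRef.mk (Pat.mk 0x100000003c000000200000000000000000 0x300000003e000000270000002000000020 4 6) 0 0 (step_sound _ 5 [(rh4c063b89d42a2070.shift 0 2), (rh9e07f76261b05888.shift 4 0)] (by decide +kernel))
noncomputable def rh3d02c07d3f35972b : CRef := CRef.mk (Pat.mk 0x200000006000000120000000200000000 0x20000000200000002000000060000001e0000000700000001 4 5) 0 0 (step_sound _ 32 [rh932754581e0f4330, (rhb3181cade1db963e.shift 0 1)] (by decide +kernel))
noncomputable def rhe39d0df8eefd0083 : CRef := CRef.mk (Pat.mk 0xc0000000d000000000000000000000000 0x80000000c0000000c0000000f0000001c0000001c00000008 4 5) 0 0 (step_sound _ 67 [(rh3cb04db3dd2b6a55.shift 2 0), (rhb91352555acd317c.shift 0 1)] (by decide +kernel))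
noncomputable def rhbdd2b72cf64f00f5 : CRef := CRef.mk (Pat.mk 0x1800000018000000020000000000000000 0x80000001800000018000000180000001f0000001c00000008 4 5) 0 0 (step_sound _ 67 [(rh34cb105570d8999e.shift 0 1), (rhea7a1800d6f053bd.shift 3 0)] (by decide +kernel))
noncomputable def rha14065e084a0308e : CRef := CRef.mk (Pat.mk 0xe0000000d000000000000000000000000 0x80000000e0000000e0000000f0000001c0000001c0000000c 4 5) 0 0 (step_sound _ 67 [(rh3cb04db3dd2b6a55.shift 2 0), (rha0f16c71b89af744.shift 1 0), (rhb91352555acd317c.shift 0 1)] (by decide +kernel))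
noncomputable def rhc565705de530abef : CRef := CRef.mk (Pat.mk 0x1e000000100000001c00000000 0x200000002000000170000001e000000160000003c00000060 4 7) 0 0 (step_sound _ 66 [(rh0b9199034629ad07.shift 0 1), (rh1c1037cb5b3fe471.shift 0 1), (rh299a18a9bb09cab4.shift 1 0)] (by decide +kernel))
noncomputable def rh55d33d94a16d4872 : CRef := CRef.mk (Pat.mk 0x8000000080000000e00000000 0x800000008000000080000003e00000077 4 7) 0 0 (step_sound _ 36 [rh8db7f7558b75b2b1, (rhba04d77b039f69d9.shift 1 0), rhf2ad921c726c5f65] (by decide +kernel))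
noncomputable def rhcb3702bd3ab6deea : CRef := CRef.mk (Pat.mk 0x50000000400000007000000000000000000000000 0x5000000050000000500000007000000030000000200000002 4 3) 0 0 (step_sound _ 65 [rh0621c7385865f5e8, (rh5c5e593799055d58.shift 1 2)] (by decide +kernel))
noncomputable def rhd8b58c4237ac84a8 : CRef := CRef.mk (Pat.mk 0x10000000f000000080000000c0000000000000000 0x100000001000000030000000f0000000f0000003e0000000600000004 4 6) 0 0 (step_sound _ 97 [(rh135119dea187185e.shift 0 1), rh4b57fbdb2d89f35e, (rha40d42a2e34c408d.shift 0 1)] (by decide +kernel))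
noncomputable def rh6a32123fc974cd4f : CRef := CRef.mk (Pat.mk 0xc000000080000000e00000000 0x4000000040000000c0000000c0000000c0000001e00000033 4 6) 0 0 (step_sound _ 130 [(rh79a48be3ac30af6a.shift 1 0), rh7bdaf38c7582b244, (rhc89253ff58c66167.shift 2 1)] (by decide +kernel))
noncomputable def rhf6d6166b63dad2f7 : CRef := CRef.mk (Pat.mk 0x6000000040000000700000000 0x20000000600000006000000070000003f00000019 4 6) 0 0 (step_sound _ 65 [rh37d9ceebb86d75d1, rh5f99a340f54a2fa1] (by decide +kernel))
noncomputable def rh0f30d45dabfb2bc0 : CRef := CRef.mk (Pat.mk 0x60000001e000000120000000000000000 0x20000000b0000000b0000001e0000001e0000001e0000001000000010 4 5) 0 0 (step_sound _ 131 [(rh2f56672d8e554c94.shift 0 2), (rh5d54cb79a67f97ab.shift 3 0), (rh7e1098702e50f2b0.shift 3 0)] (by decide +kernel))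
noncomputable def rh61de1d04c1f3e086 : CRef := CRef.mk (Pat.mk 0x10000000f0000000b000000000000000000000000 0x4000000040000000d0000000f0000000f0000001e0000000a00000008 4 5) 0 0 (step_sound _ 67 [(rh44db075ab2be56d3.shift 0 1), rhaf10c1251f13c126, (rhb1a251d9bff81766.shift 2 1)] (by decide +kernel))
noncomputable def rhcada65aa1761b6fb : CRef := CRef.mk (Pat.mk 0x10000000f00000007000000000000000000000000 0x3000000030000000b0000000f00000007000000040000000400000004 4 4) 0 0 (step_sound _ 192 [(rh2145e1d24b96a57e.shift 0 3), rh81ffe778af49aeed] (by decide +kernel))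
noncomputable def rhaf75a02a061d2a76 : CRef := CRef.mk (Pat.mk 0xf00000007000000000000000000000000 0x40000000f0000001f000000180000000800000008 4 5) 0 0 (step_sound _ 99 [rhbbe16ff26f7822db, (rhf48373e13d2bc128.shift 0 3)] (by decide +kernel))
noncomputable def rhf330b95805dc6d21 : CRef := CRef.mk (Pat.mk 0x200000016000000020000000000000000 0x5000000070000001e000000020000000200000002 4 5) 0 0 (step_sound _ 128 [(rh2fe78cc5ca4405d8.shift 0 3), rh668fc65514a55b16] (by decide +kernel))
noncomputable def rh66aaae7f6c35085c : CRef := CRef.mk (Pat.mk 0x80000000c0000001800000008 0x140000003c0000000f0000001800000008 4 6) 0 0 (step_sound _ 65 [(rh4017de503635a93b.shift 1 0), (rhb739f4f82bb681b4.shift 0 1)] (by decide +kernel))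
noncomputable def rh6687bfcaaf8111f3 : CRef := CRef.mk (Pat.mk 0x18000000180000001800000008 0x40000003f0000001f0000003800000008 4 6) 0 0 (step_sound _ 98 [(rh4151cdc63c0644d2.shift 0 1), (rh50fbb5868c909700.shift 2 0)] (by decide +kernel))
noncomputable def rh7a9666c0375a5d9b : CRef := CRef.mk (Pat.mk 0x400000007000000060000000200000000 0xa0000001e00000007000000070000003e00000008 4 6) 0 0 (step_sound _ 34 [rh36d4d92ef3dad5f8, (rh4017de503635a93b.shift 0 1)] (by decide +kernel))
noncomputable def rh3fe0ee7c7bc71c57 : CRef := CRef.mk (Pat.mk 0xc0000000c0000000c00000004 0x320000003e0000000f0000000c0000000c 4 6) 0 0 (step_sound _ 97 [(rh50fbb5868c909700.shift 1 0), rha7ca83aade42e521] (by decide +kernel))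
noncomputable def rh78a1e5dbf4d41d6e : CRef := CRef.mk (Pat.mk 0x4000000160000000e000000000000000000000000 0x4000000160000003f0000003c0000000800000008 4 6) 0 0 (step_sound _ 100 [rh5a6d07b3d8dd1a2d, (rhf48373e13d2bc128.shift 1 3)] (by decide +kernel))
noncomputable def rh78bfe224667cade6 : CRef := CRef.mk (Pat.mk 0x3c0000001200000010 0x2000000020000000700000003e0000001300000010 4 7) 0 0 (step_sound _ 32 [(rh49606a42a30c7ac4.shift 2 0), (rhca9569cc80abfe76.shift 0 1)] (by decide +kernel))
noncomputable def rhd146bcd74edbf400 : CRef := CRef.mk (Pat.mk 0x80000001c000000080000000c 0xe0000000f0000001c0000000c0000000c 4 5) 0 0 (step_sound _ 34 [rh1a1ff760019a7e53, (rh5c5e593799055d58.shift 2 0)] (by decide +kernel))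
noncomputable def rheeb7d772e3f539a4 : CRef := CRef.mk (Pat.mk 0xc0000001c000000080000000800000000 0x130000001f0000001c0000000c0000000c00000004 4 5) 0 0 (step_sound _ 129 [(rhb739f4f82bb681b4.shift 0 3), rhe7af0f3ed7d920fb] (by decide +kernel))
noncomputable def rh39e6d1b68049e362 : CRef := CRef.mk (Pat.mk 0x2000000070000000200000002 0x60000000600000006000000070000000700000002 4 3) 0 0 (step_sound _ 130 [(rhbaefcd01e0a8bca3.shift 1 0), (rhcaf837ac73d47cbf.shift 0 1)] (by decide +kernel))
noncomputable def rh1b49a77e883412ed : CRef := CRef.mk (Pat.mk 0x2000000070000000200000002 0x30000000300000003000000070000000700000002 4 3) 0 0 (step_sound _ 128 [(rh0048248714ab53ea.shift 0 1), rhffd04209dc8ea796] (by decide +kernel))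
noncomputable def rh674a6e48d541f5ef : CRef := CRef.mk (Pat.mk 0x380000001000000010 0x20000000670000003e0000007700000010 4 7) 0 0 (step_sound _ 66 [(rh2cc7d62e70c02209.shift 0 1), (rha03f6e28ea70fc7d.shift 1 1), (rhbbda3e5cf400e6dd.shift 2 0)] (by decide +kernel))
noncomputable def rh87289cd8b0c00f9e : CRef := CRef.mk (Pat.mk 0x2000000020000000300000003000000000000000000000000 0x400000006000000060000000300000003000000060000000600000006 4 3) 0 0 (step_sound _ 65 [(rh44f453b84f013105.shift 1 2), rh820d4e04d5dcd02e] (by decide +kernel))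
noncomputable def rh53b1449e32f872d4 : CRef := CRef.mk (Pat.mk 0x400000007c000000200000000000000000 0x470000007e000000300000002000000020 4 7) 0 0 (step_sound _ 5 [(rh9e3edb185cc347de.shift 5 0), (rhd1d05263fabc0227.shift 0 2)] (by decide +kernel))
noncomputable def rh59d8f484e1d7be5e : CRef := CRef.mk (Pat.mk 0x40000001e000000080000000000000000 0x400000004000000040000001e0000000f0000000200000002 4 5) 0 0 (step_sound _ 65 [(rhdabfcd0659c2d3c8.shift 1 0), (rheb0810cc63b001d8.shift 0 2)] (by decide +kernel))
noncomputable def rh50db0e2fb5908894 : CRef := CRef.mk (Pat.mk 0x40000001e000000080000000000000000 0x400000004000000060000001e0000000b0000000200000002 4 5) 0 0 (step_sound _ 65 [(rh32f6277f14b47a8f.shift 1 0), (rheb0810cc63b001d8.shift 0 2)] (by decide +kernel))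
noncomputable def rh7c385ddcf2f16619 : CRef := CRef.mk (Pat.mk 0xf800000040 0x38000000fe00000067 4 8) 0 0 (step_sound _ 34 [rh73837bcf3a458ed6, (rh96851dee118c1ba3.shift 2 0)] (by decide +kernel))
noncomputable def rh3f8463b1b243085b : CRef := CRef.mk (Pat.mk 0x3800000040 0x70000003e00000067 4 7) 0 0 (step_sound _ 34 [rh2cc7d62e70c02209, (rh96851dee118c1ba3.shift 2 0)] (by decide +kernel))
noncomputable def rh59739e398bea7e84 : CRef := CRef.mk (Pat.mk 0x200000003c000000100000000000000000 0x270000003e000000300000001000000010 4 6) 0 0 (step_sound _ 4 [(rh4f8edb321cf5b49d.shift 0 2), (rh9e3edb185cc347de.shift 4 0)] (by decide +kernel))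
noncomputable def rh439d04a0aade1de0 : CRef := CRef.mk (Pat.mk 0x20000001200000006000000020000000000000000 0x1000000070000001e00000006000000020000000200000002 4 5) 0 0 (step_sound _ 160 [rh3c3bf9381ed3b1d8, (rh50fbb5868c909700.shift 0 2)] (by decide +kernel))
noncomputable def rh49169c227bd3b85b : CRef := CRef.mk (Pat.mk 0x3c000000040000001c00000000 0x2000000020000000740000003c000000340000001e00000003 4 7) 0 0 (step_sound _ 68 [(rh49606a42a30c7ac4.shift 2 1), rh681d9f8e79458a8b, (rh6a35b50b41de814f.shift 2 1)] (by decide +kernel))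
noncomputable def rhf2dc415bde563b36 : CRef := CRef.mk (Pat.mk 0x8000000080000003800000000 0x800000008000000080000003e00000077 4 7) 0 0 (step_sound _ 34 [(rh1ae4704ae86cb9a8.shift 1 0), rh8195a2d7794c7cd2, (rh975c4ddca9e0d579.shift 1 0)] (by decide +kernel))
noncomputable def rh73770d9950ef0c9f : CRef := CRef.mk (Pat.mk 0x50000000100000007000000000000000000000000 0x5000000050000000500000007000000060000000200000002 4 3) 0 0 (step_sound _ 65 [(rh2145e1d24b96a57e.shift 0 2), rh61ebbcc17f085e4b] (by decide +kernel))
noncomputable def rh3c22d4328262c4b1 : CRef := CRef.mk (Pat.mk 0x1e000000000000000e00000000 0x10000000300000001e000000180000000f00000008 4 6) 0 0 (step_sound _ 132 [(rh33e738c4ed385b9f.shift 1 3), rh75bc752fa2211ffe] (by decide +kernel))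
noncomputable def rh9e01df2f97002581 : CRef := CRef.mk (Pat.mk 0x2000000038000000040000000c0000000000000000 0x2000000030000000380000003c0000001f0000001800000008 4 6) 0 0 (step_sound _ 100 [(rh1b2cb6fb802fe0cd.shift 1 1), rh45e428941b3ba780, (rhad16b5eaa35fdc40.shift 3 1)] (by decide +kernel))
noncomputable def rh373ef7ad455a3268 : CRef := CRef.mk (Pat.mk 0xf000000000000000400000000 0x80000001c0000000f0000000c0000000400000004 4 5) 0 0 (step_sound _ 131 [(rh33e738c4ed385b9f.shift 0 3), (rh3efafc482874f7b3.shift 2 0)] (by decide +kernel))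
noncomputable def rh84c0d86f81821536 : CRef := CRef.mk (Pat.mk 0xc000000040000001c00000000 0x8000000080000000c0000000c0000000c0000001e00000033 4 6) 0 0 (step_sound _ 131 [rh1f065b4d39646e29, (rhab2ae83e2bc2464b.shift 2 0), (rhbfb5770941270498.shift 2 1)] (by decide +kernel))
noncomputable def rh2ef7cde364c47e57 : CRef := CRef.mk (Pat.mk 0x18000000080000003800000000 0x100000001800000018000000380000003f00000026 4 6) 0 0 (step_sound _ 68 [(rh571950d89739e871.shift 3 0), rhf2314cb4a4676849] (by decide +kernel))
noncomputable def rh80377887b27585f8 : CRef := CRef.mk (Pat.mk 0x20000001a000000180000000000000000 0x80000000f0000001e000000180000001000000010 4 5) 0 0 (step_sound _ 128 [(rh5419adcd928dba20.shift 0 3), rhea6844c285c65a69] (by decide +kernel))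
noncomputable def rhacff866e75f47049 : CRef := CRef.mk (Pat.mk 0xd0000000c000000000000000000000000 0x180000001c0000000f0000000c0000000c0000000c00000008 4 5) 0 0 (step_sound _ 163 [(rh1e309b005ffa1b36.shift 2 1), rh2640a98fcd49a510] (by decide +kernel))
noncomputable def rha421730389e7a745 : CRef := CRef.mk (Pat.mk 0x20000001800000018000000000000000000000000 0xc0000001f0000001800000018000000180000001800000008 4 5) 0 0 (step_sound _ 163 [(rh55a1f6c57a317ce6.shift 3 1), rhcf39c4adc3adf8bf] (by decide +kernel))
noncomputable def rhb126857f9a8e0fb6 : CRef := CRef.mk (Pat.mk 0x20000001a000000180000000000000000 0x10000000330000001e000000180000000800000008 4 6) 0 0 (step_sound _ 98 [(rh3244c3cc8379b070.shift 0 3), (rh34b1188e635efc8d.shift 1 0)] (by decide +kernel))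
noncomputable def rh920ef05c1996cc46 : CRef := CRef.mk (Pat.mk 0xd0000000e000000000000000000000000 0xc0000001c0000001c0000000f0000000e0000000e0000000c00000008 4 5) 0 0 (step_sound _ 163 [(rh1e309b005ffa1b36.shift 2 1), rh2640a98fcd49a510, (rh27c8111cf125e4dd.shift 1 2)] (by decide +kernel))
noncomputable def rhe56c26b91606c0b7 : CRef := CRef.mk (Pat.mk 0x120000001e00000006000000000000000000000000 0x10000000100000001e0000001e0000001e0000000b0000000b00000002 4 5) 0 0 (step_sound _ 99 [rhb24a71b8e8f17f47, (rhf91b1398c815afd2.shift 3 1), (rhf9366b6a121593ef.shift 3 1)] (by decide +kernel))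
noncomputable def rh6e809d429c52317f : CRef := CRef.mk (Pat.mk 0x30000000600000002000000000000000000000000 0x1000000070000000600000002000000030000000300000001 4 3) 0 0 (step_sound _ 65 [rh33032410a9908d45, (rh50fbb5868c909700.shift 0 2)] (by decide +kernel))
noncomputable def rhd03dc3b7a42c1589 : CRef := CRef.mk (Pat.mk 0x200000002000000020000000000000000 0x100000003000000030000000200000007000000070000000700000005 4 3) 0 0 (step_sound _ 161 [(rh0fd870c734e6c513.shift 0 1), (rh29dd5384d80ecb1e.shift 0 1), rh3181373a30ceb9e3, (rhabedd109a9a37101.shift 0 1)] (by decide +kernel))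
noncomputable def rh59485bb996540d89 : CRef := CRef.mk (Pat.mk 0x40000000c000000080000000800000000 0x180000003c0000000f0000001c0000001c00000014 4 6) 0 0 (step_sound _ 131 [(rhc0ddb33d3a52722b.shift 0 1), (rhc8e755934d85ce20.shift 2 0)] (by decide +kernel))
noncomputable def rh2e766644aa6156f6 : CRef := CRef.mk (Pat.mk 0x40000000c0000000c000000020000000000000000 0x60000000f0000003c000000060000000600000004 4 6) 0 0 (step_sound _ 66 [rh8f1158d9f5036793, (rh932754581e0f4330.shift 1 1)] (by decide +kernel))
noncomputable def rh6f9e9ef275383a5c : CRef := CRef.mk (Pat.mk 0x4000000040000000c0000000e00000000 0x80000000c0000000c0000000f0000003e00000030 4 6) 0 0 (step_sound _ 131 [(rh2f68792b6b779e96.shift 2 1), rhc5bd220501814205] (by decide +kernel))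
noncomputable def rhd8767e2e2d81c26b : CRef := CRef.mk (Pat.mk 0x8000000080000000c0000000800000000 0x1000000018000000780000001f0000000800000008 4 7) 0 0 (step_sound _ 100 [(rh69012675dfdb1a5b.shift 0 2), (rha707fb719e87fe6e.shift 3 0)] (by decide +kernel))
noncomputable def rh289b5452442d1bb6 : CRef := CRef.mk (Pat.mk 0x80000000c0000000c000000000000000400000000 0x10000000780000001f0000000c000000080000000c0000000c 4 7) 0 0 (step_sound _ 164 [(rh69012675dfdb1a5b.shift 0 4), (rh84bebdeadf3219f3.shift 2 0), (rhc6b4e1276619034d.shift 2 0)] (by decide +kernel))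
noncomputable def rh3701152bc77ed296 : CRef := CRef.mk (Pat.mk 0x80000000c0000000c0000000800000000 0x80000000c0000000f0000003c00000014 4 6) 0 0 (step_sound _ 34 [(rh71222050f2c63a3a.shift 2 0), rhfe557af9112f51d6] (by decide +kernel))
noncomputable def rhd68debcabac8dad3 : CRef := CRef.mk (Pat.mk 0x380000001a0000000000000000 0x2000000020000000700000003f0000001b0000001000000010 4 7) 0 0 (step_sound _ 133 [(rh41835ba1dc72c0ef.shift 0 2), (rhec5da64b6932079e.shift 0 2), (rhf9366b6a121593ef.shift 4 0)] (by decide +kernel))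
noncomputable def rhaeedb1293e26287c : CRef := CRef.mk (Pat.mk 0x10000000380000001800000008 0x4000000360000003f0000001e00000008 4 6) 0 0 (step_sound _ 34 [(rh53b3c253cb0c65f4.shift 1 1), rhec27e8300e40ac9e] (by decide +kernel))
noncomputable def rha4f89db2d82eac15 : CRef := CRef.mk (Pat.mk 0x100000003800000018 0xf7000000ff00000018 4 8) 0 0 (step_sound _ 34 [(rh226655e3fe6b4a8a.shift 2 0), rh34517e326ddb5b25, rhba89ab7cb81bcc90] (by decide +kernel))
noncomputable def rhbe172af05515d347 : CRef := CRef.mk (Pat.mk 0x80000000c0000000c0000000000000000 0x10000000380000003f0000000f0000000800000008 4 6) 0 0 (step_sound _ 100 [(rh4dc133ee0ba1420a.shift 0 2), rhcb6278a17751f6e9] (by decide +kernel))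
noncomputable def rh41aa79ea02151d40 : CRef := CRef.mk (Pat.mk 0xa0000001e000000000000000000000000 0x2000000070000003e0000001e000000070000000600000002 4 6) 0 0 (step_sound _ 130 [(rh4b31f610a48c50e3.shift 0 1), rh9a011a4d0ec8f646] (by decide +kernel))
noncomputable def rh39a83bd891d985d7 : CRef := CRef.mk (Pat.mk 0x20000000700000006000000000000000000000000 0x300000003000000070000000700000006000000020000000200000002 4 3) 0 0 (step_sound _ 193 [(rh2145e1d24b96a57e.shift 1 3), rha1003484e567b271] (by decide +kernel))
noncomputable def rhbd422d7511699c3a : CRef := CRef.mk (Pat.mk 0x80000001c0000001c00000000 0xc0000000c0000000c0000001c0000001f00000003 4 5) 0 0 (step_sound _ 33 [(rh53b3c253cb0c65f4.shift 0 1), rhfb479af1805e9996] (by decide +kernel))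
noncomputable def rhce6d1b7e5a1e8958 : CRef := CRef.mk (Pat.mk 0x80000000c000000180000000800000000 0x80000000c0000007c0000000f00000004 4 7) 0 0 (step_sound _ 34 [(rh3e11480408ba39c3.shift 0 1), (rh932754581e0f4330.shift 2 0)] (by decide +kernel))
noncomputable def rhbf8c5c56221397de : CRef := CRef.mk (Pat.mk 0x2000000020000000600000000 0x20000000200000002000000070000000700000005 4 3) 0 0 (step_sound _ 129 [(rh55afc6a59410cf00.shift 1 0), rh7b60db5db6f7d331] (by decide +kernel))
noncomputable def rhaabc6f8103fee775 : CRef := CRef.mk (Pat.mk 0x3800000008000000080000000800000000 0x7c0000000f000000080000000c00000004 4 7) 0 0 (step_sound _ 2 [(rh2820ca9a6c4f41b4.shift 0 3), (rh79877ebd3ef475dd.shift 2 0)] (by decide +kernel))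
noncomputable def rh9099e5624e826e01 : CRef := CRef.mk (Pat.mk 0x38000000080000000800000008 0x40000003f0000003f0000000800000008 4 6) 0 0 (step_sound _ 98 [(rh0a31c7f562fb8d12.shift 0 2), (rh50fbb5868c909700.shift 2 0)] (by decide +kernel))
noncomputable def rh93a085db8b03a068 : CRef := CRef.mk (Pat.mk 0xe000000020000001200000002 0x190000001f0000007e0000001200000012 4 7) 0 0 (step_sound _ 68 [(rh0d3c8bf4bf97ae4a.shift 1 2), rh5bec6b7f9ab41c51, rh7c1c65f2f59f3834] (by decide +kernel))
noncomputable def rhc8b6bc0be9b994f6 : CRef := CRef.mk (Pat.mk 0x3800000008000000080000000800000000 0x780000001f000000080000000c00000004 4 7) 0 0 (step_sound _ 2 [(rh79877ebd3ef475dd.shift 2 0), (rhf0f55c4504412200.shift 0 3)] (by decide +kernel))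
noncomputable def rh34199e0dafc05e04 : CRef := CRef.mk (Pat.mk 0xc000000040000000c0000000400000000 0x120000003f0000003f0000000c0000000c00000008 4 6) 0 0 (step_sound _ 99 [rha31e2286f1ebea1b, (rhcf85c92937975d4d.shift 0 1)] (by decide +kernel))
noncomputable def rh62541da2aba74983 : CRef := CRef.mk (Pat.mk 0x1e0000000e00000000 0x600000006000000070000001e0000000e0000000a 4 5) 0 0 (step_sound _ 97 [(rh1a64fdb454ca4f39.shift 1 0), (rh3244c3cc8379b070.shift 0 2)] (by decide +kernel))
noncomputable def rh184544a20610c98e : CRef := CRef.mk (Pat.mk 0x6000000060000000600000004 0x80000003f0000003e0000000700000004 4 6) 0 0 (step_sound _ 99 [(rh2f68792b6b779e96.shift 2 0), (rhfb9da68baa54e605.shift 0 1)] (by decide +kernel))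
noncomputable def rh2f7f929276407391 : CRef := CRef.mk (Pat.mk 0xe0000000600000002 0x600000006000000070000003e0000000600000002 4 6) 0 0 (step_sound _ 130 [(rhee230b994cc8b773.shift 1 0), (rhf8c4e45f393a51a6.shift 0 1)] (by decide +kernel))
noncomputable def rh5f3c8044188c4a66 : CRef := CRef.mk (Pat.mk 0xe00000006000000020000000000000000 0x30000003e00000006000000030000000300000003 4 6) 0 0 (step_sound _ 33 [(rh71222050f2c63a3a.shift 1 0), rh77cea48ae909294c] (by decide +kernel))
noncomputable def rh278d04e89480acf0 : CRef := CRef.mk (Pat.mk 0x380000001800000010 0x2000000020000000770000003f0000001f00000010 4 7) 0 0 (step_sound _ 66 [(rh49606a42a30c7ac4.shift 2 0), (rh583cd2949503eb8f.shift 0 1), (rhba89ab7cb81bcc90.shift 0 1)] (by decide +kernel))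
noncomputable def rhf1e1851a90b9a6d0 : CRef := CRef.mk (Pat.mk 0xc0000000c000000180000000800000000 0xc0000000c0000001e0000007f00000016 4 7) 0 0 (step_sound _ 66 [rh5eb33fb39f0ce454, (rhc1ae51bfba5f1e57.shift 1 0)] (by decide +kernel))
noncomputable def rhd39cc1d53f443718 : CRef := CRef.mk (Pat.mk 0x800000008000000180000000c 0x100000001800000018000000080000001c0000000f 4 5) 0 0 (step_sound _ 0 [rh24ae073cf30720c4, (rh9a369cb82ea472da.shift 2 0)] (by decide +kernel))
noncomputable def rh5cca0af71485fe89 : CRef := CRef.mk (Pat.mk 0x800000008000000180000000c 0x40000000c0000000c000000080000001c0000000f 4 5) 0 0 (step_sound _ 0 [rh24ae073cf30720c4, (rha54302d5ccf5246c.shift 2 0)] (by decide +kernel))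
noncomputable def rh6beee22691896d95 : CRef := CRef.mk (Pat.mk 0x200000006000000020000000000000000 0x1000000070000000700000006000000030000000300000003 4 3) 0 0 (step_sound _ 33 [rh0fd870c734e6c513, (rha707fb719e87fe6e.shift 1 0)] (by decide +kernel))
noncomputable def rhf8122e575c46b027 : CRef := CRef.mk (Pat.mk 0x1e0000001a0000000000000000 0x2000000030000003e0000001e0000000400000004 4 6) 0 0 (step_sound _ 66 [(rh33e738c4ed385b9f.shift 1 2), rh38a0850c9fea941e] (by decide +kernel))
noncomputable def rh6a264a410cc9c051 : CRef := CRef.mk (Pat.mk 0x1c0000001c000000000000000000000000 0x140000001c0000001f000000380000001800000018 4 6) 0 0 (step_sound _ 35 [(rh2c7fc7a7cc8a47be.shift 3 0), (rhd1f9989d6034576a.shift 2 1), rhdb3212ed6dfd725f] (by decide +kernel))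
noncomputable def rh92e1a33d56d48131 : CRef := CRef.mk (Pat.mk 0x1c00000018 0x70000003f0000001f 4 6) 0 0 (step_sound _ 33 [rhb739f4f82bb681b4, rhee89d0112810b2f3] (by decide +kernel))
noncomputable def rhf16166e16dbfa564 : CRef := CRef.mk (Pat.mk 0x1e0000000c0000000000000000 0x2000000030000001e0000000f0000000400000004 4 5) 0 0 (step_sound _ 65 [rh38a0850c9fea941e, (rh53b3c253cb0c65f4.shift 0 2)] (by decide +kernel))
noncomputable def rh856688073845c308 : CRef := CRef.mk (Pat.mk 0x400000002000000060000000600000000 0x400000006000000070000003e0000000a 4 6) 0 0 (step_sound _ 98 [rh36d4d92ef3dad5f8, (rh71222050f2c63a3a.shift 1 0)] (by decide +kernel))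
noncomputable def rh9eea4556e9e2a897 : CRef := CRef.mk (Pat.mk 0x1c00000008 0x770000007e0000000e 4 7) 0 0 (step_sound _ 37 [(rh00f1bb10334541e3.shift 0 1), (rhaf9f2efc81a8312b.shift 1 0)] (by decide +kernel))
noncomputable def rh95e8db7891d71e5b : CRef := CRef.mk (Pat.mk 0xe000000000000000400000004 0x3c0000001f000000040000000400000004 4 6) 0 0 (step_sound _ 131 [(rh04253f50b6dd0619.shift 2 0), (rha0198dc55831a65f.shift 0 3)] (by decide +kernel))
noncomputable def rh1be3352c84aca6a9 : CRef := CRef.mk (Pat.mk 0x800000008000000180000003800000000 0x8000000080000001f0000003f00000004 4 6) 0 0 (step_sound _ 34 [(rh932754581e0f4330.shift 2 0), (rhcda410b351c20b9b.shift 0 1)] (by decide +kernel))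
noncomputable def rha63ee835bef81994 : CRef := CRef.mk (Pat.mk 0xe00000006000000020000000000000000 0x30000003e00000006000000030000000300000003 4 6) 0 0 (step_sound _ 132 [(rh18965a982d73c794.shift 1 3), rhde5e7cc7b63db1a6] (by decide +kernel))
noncomputable def rhe62a67d1fb42663c : CRef := CRef.mk (Pat.mk 0xc0000000c000000180000000800000000 0x100000003c0000000f000000180000001800000010 4 6) 0 0 (step_sound _ 4 [(rhd3458b32566d63f7.shift 3 0), (rhd88e1e5c6d7f696b.shift 0 1)] (by decide +kernel))
noncomputable def rh140c38ccbbf6a2a2 : CRef := CRef.mk (Pat.mk 0xc0000000c000000180000000800000000 0x100000003c0000000f000000180000000c00000004 4 6) 0 0 (step_sound _ 2 [(rh79877ebd3ef475dd.shift 2 0), (rhd88e1e5c6d7f696b.shift 0 1)] (by decide +kernel))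
noncomputable def rhb808fcc9ebf74c61 : CRef := CRef.mk (Pat.mk 0x10000000100000001e00000010 0x280000003800000038000000130000001e00000010 4 6) 0 0 (step_sound _ 65 [(rh3244c3cc8379b070.shift 0 1), (rh7ef5fa5c39f1c762.shift 3 0)] (by decide +kernel))
noncomputable def rhc733e4350e53d24f : CRef := CRef.mk (Pat.mk 0x1e0000001a000000000000000000000000 0xc0000001e0000001e000000330000001200000012 4 6) 0 0 (step_sound _ 98 [rh9a011a4d0ec8f646, (rhbbe16ff26f7822db.shift 1 0)] (by decide +kernel))
noncomputable def rhdd8b04b529655521 : CRef := CRef.mk (Pat.mk 0x180000003c00000000 0x1f0000003f00000060 4 7) 0 0 (step_sound _ 5 [(rhcda410b351c20b9b.shift 0 1), (rhe25b0a99195a5d59.shift 2 0)] (by decide +kernel))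
noncomputable def rha0be9a2cc03511e6 : CRef := CRef.mk (Pat.mk 0x20000000200000006000000020000000100000000 0x100000003000000030000000200000006000000060000000300000001 4 3) 0 0 (step_sound _ 0 [(rh812b908590c67662.shift 0 2), rheea67dfebd0f8008] (by decide +kernel))
noncomputable def rhb0475da6d985088e : CRef := CRef.mk (Pat.mk 0xe00000000000000160000000600000000 0x80000001f00000078000000170000003e00000010 4 7) 0 0 (step_sound _ 100 [rh1a59c84bf6b8dc6c, (rh71efda916732b25a.shift 0 3), (rhf79d98dc0cc10121.shift 0 1)] (by decide +kernel))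
noncomputable def rh4bd42e0bc41d815d : CRef := CRef.mk (Pat.mk 0x38000000000000000800000008 0x770000003e000000070000000c00000008 4 7) 0 0 (step_sound _ 98 [(rh00f1bb10334541e3.shift 0 3), (rh2c1baeadcd4b32f5.shift 0 2), (rh483fbfd538e8380f.shift 1 0)] (by decide +kernel))
noncomputable def rh56e781b88ef6f6f5 : CRef := CRef.mk (Pat.mk 0xe000000000000001600000006 0x7f0000003e00000070000000170000003e 4 7) 0 0 (step_sound _ 100 [(rh2eb6cac0fecf3e9c.shift 0 2), rhc711e45949532200, (rhf94411b389c3e54c.shift 0 3)] (by decide +kernel))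
noncomputable def rhcb9e9144c122bccf : CRef := CRef.mk (Pat.mk 0x38000000000000000800000008 0x7e0000007e000000e70000000c00000008 4 8) 0 0 (step_sound _ 98 [(rh2c1baeadcd4b32f5.shift 0 2), (rh2eb6cac0fecf3e9c.shift 1 2), (rh483fbfd538e8380f.shift 1 0)] (by decide +kernel))
noncomputable def rhb484b2f7f9771e1a : CRef := CRef.mk (Pat.mk 0x1000000014000000100000001000000000 0x8000000180000001f000000300000001000000010 4 6) 0 0 (step_sound _ 131 [(rh50fbb5868c909700.shift 3 1), rh90a9bf21dd1935e4] (by decide +kernel))
noncomputable def rh2f1986f271a0b8cb : CRef := CRef.mk (Pat.mk 0x380000002c0000000800000000 0x100000001000000030000000380000002f0000007c00000020 4 7) 0 0 (step_sound _ 37 [(rhb1a251d9bff81766.shift 4 0), (rhe901d1c101dc9830.shift 0 1)] (by decide +kernel))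
noncomputable def rh86bb4a1a30deb6a3 : CRef := CRef.mk (Pat.mk 0xe000000020000000200000002000000000000000000000000 0x1e000000030000000300000006000000070000000700000001 4 5) 0 0 (step_sound _ 65 [(rhd29a1fb688eae70f.shift 1 1), rhe75c547ac3c3ba33] (by decide +kernel))
noncomputable def rhdb4acdce9896e0d3 : CRef := CRef.mk (Pat.mk 0x380000002c00000008000000000000000000000000 0x28000000380000002f0000007c000000180000001000000010 4 7) 0 0 (step_sound _ 100 [(rh3d1e784e4d22dffa.shift 2 0), (rh70e33bfdf511e144.shift 3 0), (rha355876672dc863a.shift 0 3)] (by decide +kernel))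
noncomputable def rh2f5bc0b1b50835b8 : CRef := CRef.mk (Pat.mk 0xe000000020000000200000002000000000000000000000000 0x1e000000030000000300000003000000070000000700000004 4 5) 0 0 (step_sound _ 65 [rh0df8ca87300c8973, (rh7928877f9bf74a91.shift 0 1)] (by decide +kernel))
noncomputable def rhd62c73b158a418d7 : CRef := CRef.mk (Pat.mk 0x200000003800000020 0x300000003e00000067 4 7) 0 0 (step_sound _ 34 [rh2591032a0e7f4182, (rhe25b0a99195a5d59.shift 2 0)] (by decide +kernel))
noncomputable def rh692d6d31ac739cab : CRef := CRef.mk (Pat.mk 0x4000000040000001400000002 0x400000004000000060000003e00000007 4 6) 0 0 (step_sound _ 33 [(rh5c5e593799055d58.shift 1 0), rhdc45162e28a620df] (by decide +kernel))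
noncomputable def rh066a40d8deeec79e : CRef := CRef.mk (Pat.mk 0x2800000008000000080000000400000000 0x100000007c0000000f000000080000000c00000004 4 7) 0 0 (step_sound _ 132 [(rh2820ca9a6c4f41b4.shift 0 3), (rh8c01e5409b730b8b.shift 2 0)] (by decide +kernel))
noncomputable def rh822c60d64322cb98 : CRef := CRef.mk (Pat.mk 0xa0000000a0000000a000000010000000000000000 0x80000000a0000000a0000001e0000001b0000001100000010 4 5) 0 0 (step_sound _ 100 [(rh70e33bfdf511e144.shift 3 0), (rhb3c0ca2f03116be9.shift 0 1)] (by decide +kernel))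
noncomputable def rh4338a685e0064fea : CRef := CRef.mk (Pat.mk 0x28000000280000002800000000 0x10000000780000007c0000002f0000002800000020 4 7) 0 0 (step_sound _ 100 [(rh2820ca9a6c4f41b4.shift 0 2), (rh4621828ea5f4dfbb.shift 2 0), (rhace5f246289dffb8.shift 3 0)] (by decide +kernel))
noncomputable def rha952ef69c1428d13 : CRef := CRef.mk (Pat.mk 0xa0000000a0000000a0000000100000000 0x40000000e0000000e0000000a0000000a0000000300000001 4 4) 0 0 (step_sound _ 33 [(rh28f7c203f178e979.shift 1 1), rh932754581e0f4330] (by decide +kernel))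
noncomputable def rhd7e9c837e0c18098 : CRef := CRef.mk (Pat.mk 0x200000001000000050000000500000000 0x2000000020000000600000007000000050000000500000005 4 3) 0 0 (step_sound _ 97 [(rh4d760d0d70847451.shift 1 0), rh71222050f2c63a3a] (by decide +kernel))
noncomputable def rhdff8f78dd27f0860 : CRef := CRef.mk (Pat.mk 0x1800000028000000280000000800000000 0xe40000007c0000002f000000380000003800000010 4 8) 0 0 (step_sound _ 133 [(rh2820ca9a6c4f41b4.shift 0 3), (rh5bc090164f229948.shift 2 1), (rh6109952a9d592831.shift 2 0), (rh93a3687fbae61bc3.shift 2 1)] (by decide +kernel))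
noncomputable def rhab195b323f08b6c2 : CRef := CRef.mk (Pat.mk 0x200000002c0000002000000000 0x1000000010000000300000007c0000002f0000002000000020 4 7) 0 0 (step_sound _ 100 [(rhb1a251d9bff81766.shift 4 0), (rhbd2e91c3fdbfa961.shift 0 2)] (by decide +kernel))
noncomputable def rh68c9779632d871b4 : CRef := CRef.mk (Pat.mk 0x200000002c0000003800000000 0x280000007c0000002f0000003800000010 4 7) 0 0 (step_sound _ 65 [(rh3d476ecda2fa95c3.shift 1 0), (rhb739f4f82bb681b4.shift 0 1)] (by decide +kernel))
noncomputable def rh5d799d0cb78e61a1 : CRef := CRef.mk (Pat.mk 0x8000000080000000e0000000000000000 0x100000001800000018000000080000000f0000001c00000010 4 5) 0 0 (step_sound _ 163 [(rh932754581e0f4330.shift 2 1), rha4dffa91218301a0] (by decide +kernel))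
noncomputable def rh4f55370d8d5413fd : CRef := CRef.mk (Pat.mk 0x1c000000160000001000000000 0xa0000003b0000001f000000160000001400000004 4 6) 0 0 (step_sound _ 97 [(rh2c9cc6ea898ce072.shift 0 1), rh38a0850c9fea941e] (by decide +kernel))
noncomputable def rh84b5149100f92e96 : CRef := CRef.mk (Pat.mk 0x380000002c000000200000000000000000 0x100000001000000038000000380000002f0000003c0000000c00000004 4 6) 0 0 (step_sound _ 67 [(rh286c43ff135d2c48.shift 3 1), (rh99b216bb884ddd3c.shift 3 1), rhaa35abccf28cfbd8] (by decide +kernel))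
noncomputable def rh64d21086688febc5 : CRef := CRef.mk (Pat.mk 0x7000000050000000400000000 0x2000000020000000300000007000000050000000500000005 4 3) 0 0 (step_sound _ 129 [rh32f6277f14b47a8f, (rh7b1f1fb55310c477.shift 1 0)] (by decide +kernel))
noncomputable def rh135d9bded605e7ab : CRef := CRef.mk (Pat.mk 0x2000000030000000a00000000 0x5000000070000000700000002000000030000001e00000004 4 5) 0 0 (step_sound _ 129 [rh6a56790be92093bf, (rh7ef5fa5c39f1c762.shift 0 1)] (by decide +kernel))
noncomputable def rh8dd0e254f9bfc580 : CRef := CRef.mk (Pat.mk 0x200000002000000020000000200000000 0x4000000060000000600000002000000060000000700000005 4 3) 0 0 (step_sound _ 0 [(rh426f403fa814630c.shift 1 0), rh79877ebd3ef475dd] (by decide +kernel))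
noncomputable def rh1e6b922be6950b72 : CRef := CRef.mk (Pat.mk 0xa0000001f000000000000000000000000 0x40000000e0000003f000000180000000800000008 4 6) 0 0 (step_sound _ 67 [(rhd4e11f07f56e452b.shift 1 0), (rhe25b0a99195a5d59.shift 0 2)] (by decide +kernel))
noncomputable def rh5552dde8c1f3348e : CRef := CRef.mk (Pat.mk 0x10000000140000001000000010000000100000000000000000 0x2000000030000000300000001f0000001800000018000000100000001000000010 4 6) 0 0 (step_sound _ 131 [(rh3735133ce295ee66.shift 3 0), (rh769be3fe24eee174.shift 3 3), (rhd2623a067cb37755.shift 0 1)] (by decide +kernel))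
noncomputable def rh6a8535796e72c599 : CRef := CRef.mk (Pat.mk 0xe0000000400000004 0x200000002000000770000003e0000007400000004 4 7) 0 0 (step_sound _ 68 [rh1c1037cb5b3fe471, (rh35e918dd76851f8c.shift 1 1), rheddd3d8f7db62149] (by decide +kernel))
noncomputable def rh047316c6d5431acc : CRef := CRef.mk (Pat.mk 0x2c00000030000000100000000000000000 0x8000000080000002f0000003c000000180000001000000010 4 6) 0 0 (step_sound _ 36 [(rh71222050f2c63a3a.shift 4 0), (rhb23ff653868c9390.shift 0 1)] (by decide +kernel))
noncomputable def rh9e64eca2d4f0c1b3 : CRef := CRef.mk (Pat.mk 0x40000000400000006000000100000000000000000 0x600000006000000070000001e0000000e0000000e 4 5) 0 0 (step_sound _ 66 [(rh2c9da192bea44cf6.shift 1 0), (rh9ee82b97cdeec3bd.shift 1 0), (rhbc1d7ae32ca66bdf.shift 0 1)] (by decide +kernel))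
noncomputable def rh758ac51bff9b188d : CRef := CRef.mk (Pat.mk 0x20000000a0000000b00000008 0x100000007000000070000000e0000000b0000000b0000000a 4 4) 0 0 (step_sound _ 129 [(rh6c780b68fbbf1fb0.shift 1 0), (rha54302d5ccf5246c.shift 0 1)] (by decide +kernel))
noncomputable def rhe2515e7b46350f1f : CRef := CRef.mk (Pat.mk 0xa0000000a0000000a000000000000000000000000 0x40000000e0000000e0000000a0000000a000000070000000700000005 4 4) 0 0 (step_sound _ 65 [(rh28f7c203f178e979.shift 1 2), rh3181373a30ceb9e3] (by decide +kernel))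
noncomputable def rh453ecec85772d86c : CRef := CRef.mk (Pat.mk 0x28000000280000006000000000 0x40000000e00000007c0000002f0000006000000040 4 8) 0 0 (step_sound _ 100 [(rh2820ca9a6c4f41b4.shift 0 2), (rh4e06a35b4632f484.shift 2 0), (rhf01a233ff056f4e5.shift 2 0)] (by decide +kernel))
noncomputable def rh5137f13256cae3f2 : CRef := CRef.mk (Pat.mk 0x140000001400000014000000080000000000000000 0x1000000014000000160000001e0000000f0000000200000002 4 5) 0 0 (step_sound _ 65 [(rh0961d13580367ddb.shift 0 1), (rh3743dbe66b959104.shift 1 0), (rhacb21b0519115518.shift 0 2), rhf5473443834f3ff9] (by decide +kernel))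
noncomputable def rh5ea62a2b1664fc65 : CRef := CRef.mk (Pat.mk 0xa0000000a0000000a0000000400000000 0x140000001e0000000b0000000f0000003c00000010 4 6) 0 0 (step_sound _ 35 [rh73d97e8c533f78f2, (rh9258736a7488cc35.shift 0 1)] (by decide +kernel))
noncomputable def rhf173ba0b287474a8 : CRef := CRef.mk (Pat.mk 0x5000000050000000500000002 0x20000000600000007000000050000000700000007 4 3) 0 0 (step_sound _ 130 [(rh79877ebd3ef475dd.shift 1 0), rhb607d50461c9141f] (by decide +kernel))
noncomputable def rhc800a3c3ac49c1c6 : CRef := CRef.mk (Pat.mk 0x28000000280000002000000010 0x40000000e00000007c0000002f0000003000000010 4 8) 0 0 (step_sound _ 100 [(rh15a206fde95ee1c3.shift 2 0), (rh2820ca9a6c4f41b4.shift 0 2), (rhbf32dde4d6f48b3d.shift 2 0)] (by decide +kernel))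
noncomputable def rh7a6818fc9a9bd989 : CRef := CRef.mk (Pat.mk 0xf0000000f000000000000000000000000 0x2000000020000000f0000000f0000001d0000000d0000000c 4 5) 0 0 (step_sound _ 34 [(rh3c2b3b2b62b3a75b.shift 0 1), (rhc93583770a36d0f1.shift 1 0), rhdc461deccfb05432] (by decide +kernel))
noncomputable def rh5a3f21d3024952d1 : CRef := CRef.mk (Pat.mk 0x1e0000001e0000000000000000 0x2000000030000001e0000001e0000003400000004 4 6) 0 0 (step_sound _ 36 [rh38a0850c9fea941e, (rhe25b0a99195a5d59.shift 1 1)] (by decide +kernel))
noncomputable def rh4910557f52b068ce : CRef := CRef.mk (Pat.mk 0x1a0000000e00000004 0xa0000000f0000001e0000000e00000004 4 5) 0 0 (step_sound _ 97 [rh1817e26bfcb175b7, (rh2145e1d24b96a57e.shift 1 0)] (by decide +kernel))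
noncomputable def rh39eb400d9739dcc8 : CRef := CRef.mk (Pat.mk 0x20000000200000006000000020000000000000000 0x10000000700000007000000060000000600000006000000020000000200000002 4 3) 0 0 (step_sound _ 193 [(rh44f453b84f013105.shift 1 2), (rh65909b08999dc522.shift 0 3), (rh84c6bba3847605f7.shift 1 0)] (by decide +kernel))
noncomputable def rh86ca330250f07f68 : CRef := CRef.mk (Pat.mk 0x2000000120000001e000000020000000000000000 0x10000000b0000001e0000001e000000320000001000000010 4 6) 0 0 (step_sound _ 68 [rh1fec7cd079ad3402, (rhe25b0a99195a5d59.shift 1 2)] (by decide +kernel))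
noncomputable def rhfd82a586dbb552cd : CRef := CRef.mk (Pat.mk 0x2000000120000001e000000020000000000000000 0x1000000070000001e0000001e000000320000000200000002 4 6) 0 0 (step_sound _ 68 [rh989f904136cf46d0, (rhe25b0a99195a5d59.shift 1 2)] (by decide +kernel))
noncomputable def rha936b34c98bdaa88 : CRef := CRef.mk (Pat.mk 0x90000000f000000090000000000000000 0x50000000d0000000f0000000f0000001a0000001a 4 5) 0 0 (step_sound _ 35 [(rhe286c75f2739cce2.shift 2 0), rhfc771f064b81f9c0] (by decide +kernel))
noncomputable def rh74e26e816cb211fd : CRef := CRef.mk (Pat.mk 0x1800000018000000080000001800000000 0x20000000780000001e000000380000001f00000004 4 7) 0 0 (step_sound _ 68 [rh6fae963f33cfdfd7, (rhc0ddb33d3a52722b.shift 1 1)] (by decide +kernel))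
noncomputable def rhdf46b40eb1674b4a : CRef := CRef.mk (Pat.mk 0xc0000000c000000040000000c00000000 0x100000003c0000000f0000000e0000007c00000010 4 7) 0 0 (step_sound _ 67 [(rh36d4d92ef3dad5f8.shift 1 0), (rhc0ddb33d3a52722b.shift 0 1)] (by decide +kernel))
noncomputable def rh86450771c0b856e0 : CRef := CRef.mk (Pat.mk 0xc0000000c0000000000000008 0x140000003c0000000f0000000800000008 4 6) 0 0 (step_sound _ 35 [(rh50fbb5868c909700.shift 2 0), rhc0ddb33d3a52722b] (by decide +kernel))
noncomputable def rhe356df07f45cace4 : CRef := CRef.mk (Pat.mk 0x200000003c000000100000000000000000 0x300000003e000000170000001000000010 4 6) 0 0 (step_sound _ 4 [(rh2591032a0e7f4182.shift 0 2), (rh9e3edb185cc347de.shift 4 0)] (by decide +kernel))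
noncomputable def rhf7746864c2897465 : CRef := CRef.mk (Pat.mk 0x200000002000000020000000e00000000 0x2000000020000003e0000003f00000079 4 7) 0 0 (step_sound _ 36 [rh00ad60fca4aa5649, (rh60e95adc726bb530.shift 1 0), rh736ad3523bdf45b7] (by decide +kernel))
noncomputable def rh58bb16c40a51c4f7 : CRef := CRef.mk (Pat.mk 0xe00000006000000020000000200000000 0x30000003f00000006000000020000000300000001 4 6) 0 0 (step_sound _ 0 [(rh4bb890e0ba8c5a6b.shift 0 1), rh79877ebd3ef475dd] (by decide +kernel))
noncomputable def rh32f03abbd3c6b1d1 : CRef := CRef.mk (Pat.mk 0x1c00000018000000000000000000000000 0x80000001c0000007f000000760000001400000014 4 7) 0 0 (step_sound _ 98 [(rh92e8f86a47ca4f2b.shift 1 0), rhcb68da4f2dc5e7fd, (rhe3e8c074aa83e8bd.shift 0 2)] (by decide +kernel))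
noncomputable def rhfaeb45e0b84ef968 : CRef := CRef.mk (Pat.mk 0x600000006000000020000000200000000 0x20000000600000006000000070000000700000005 4 3) 0 0 (step_sound _ 32 [rh908afc43b6711d8a, rh932754581e0f4330] (by decide +kernel))
noncomputable def rh818524f0c7aed6e0 : CRef := CRef.mk (Pat.mk 0x40000001e0000001800000008000000000000000000000000 0xa0000000f0000001e0000001c0000001f000000160000000400000004 4 5) 0 0 (step_sound _ 98 [(rh2fd9b57482dec4c7.shift 2 2), (rh90c3912a8f22d744.shift 0 2), (rhc0e2decd61e116a0.shift 0 2), (rhfafeb437ceb8396d.shift 2 0)] (by decide +kernel))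
noncomputable def rhdfe1a8eb5c2b549e : CRef := CRef.mk (Pat.mk 0x40000001e0000001800000008000000000000000000000000 0x80000000c0000001e0000001e0000001f000000160000000400000004 4 5) 0 0 (step_sound _ 98 [(rh2fd9b57482dec4c7.shift 2 2), (rhebbf0f79de50f641.shift 0 2), (rhfafeb437ceb8396d.shift 2 0)] (by decide +kernel))
noncomputable def rhff137734614369fa : CRef := CRef.mk (Pat.mk 0x1000000038000000280000000000000000 0x10000000780000003f0000002000000020 4 7) 0 0 (step_sound _ 5 [(rh9e07f76261b05888.shift 4 0), (rhf0f55c4504412200.shift 0 2)] (by decide +kernel))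
noncomputable def rh128a9e9d4f95ff41 : CRef := CRef.mk (Pat.mk 0x40000000e000000020000000000000000 0x70000003e000000030000000200000002 4 6) 0 0 (step_sound _ 1 [(rh9e3edb185cc347de.shift 1 0), (rha83d0a1d851c6a27.shift 0 2)] (by decide +kernel))
noncomputable def rhd45cd9e98ba3f25a : CRef := CRef.mk (Pat.mk 0x2000000020000000300000002 0x40000000700000007000000020000000300000003 4 3) 0 0 (step_sound _ 96 [rh50fbb5868c909700, rh769be3fe24eee174] (by decide +kernel))
noncomputable def rhd22b66c0f3e8b39b : CRef := CRef.mk (Pat.mk 0x2000000020000000200000006000000000000000000000000 0x300000003000000070000000600000006000000020000000200000002 4 3) 0 0 (step_sound _ 130 [(rh2145e1d24b96a57e.shift 1 3), rh7ffbcda9e2e33190] (by decide +kernel))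
noncomputable def rhdd7c0a24bee13535 : CRef := CRef.mk (Pat.mk 0x1800000008000000180000001000000000 0x240000007f0000003e000000180000001800000008 4 7) 0 0 (step_sound _ 100 [rh9ed49c34a595f0ef, (rhc0ddb33d3a52722b.shift 1 1)] (by decide +kernel))
noncomputable def rh5a6a973ba2190e82 : CRef := CRef.mk (Pat.mk 0x3800000008000000180000000000000000 0x4000000260000003f0000003e000000180000001000000010 4 6) 0 0 (step_sound _ 130 [rh835a153549f8fb91, (rhe4f9133a81c1dbc5.shift 1 2)] (by decide +kernel))
noncomputable def rh31f1a1d2920ebf5f : CRef := CRef.mk (Pat.mk 0xe000000020000000600000000 0x80000000c0000003c0000001f0000000e0000000600000004 4 6) 0 0 (step_sound _ 131 [(rh444fa8da4d2a2bf8.shift 1 0), (rh580df77fe152422b.shift 2 0), (rha0198dc55831a65f.shift 0 3)] (by decide +kernel))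
noncomputable def rhc1b5d17a350cbb83 : CRef := CRef.mk (Pat.mk 0x40000000c000000070000000000000000 0x80000000c0000000c000000070000001e0000000e 4 5) 0 0 (step_sound _ 34 [(rha707fb719e87fe6e.shift 2 0), rhb379f99078aafa2d] (by decide +kernel))
noncomputable def rh755c413ec79f71a0 : CRef := CRef.mk (Pat.mk 0x200000006000000020000000000000000 0x60000000600000006000000070000000700000007 4 3) 0 0 (step_sound _ 33 [(rha707fb719e87fe6e.shift 1 0), rhabedd109a9a37101] (by decide +kernel))
noncomputable def rhf3744f46e4c6cd92 : CRef := CRef.mk (Pat.mk 0xe000000180000000000000000 0x10000000370000003e0000001f0000000800000008 4 6) 0 0 (step_sound _ 100 [(rh34b1188e635efc8d.shift 1 0), (rhee89d0112810b2f3.shift 0 2)] (by decide +kernel))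
noncomputable def rhc978c825f9f262c3 : CRef := CRef.mk (Pat.mk 0x180000001e0000000000000000 0x10000000300000001f0000003e0000000800000008 4 6) 0 0 (step_sound _ 97 [(rh3244c3cc8379b070.shift 0 2), (rh3376277ffe630400.shift 1 0)] (by decide +kernel))
noncomputable def rh44724f5fd0856700 : CRef := CRef.mk (Pat.mk 0x80000000e000000040000000000000000 0x2000000020000000f0000003e000000070000000400000004 4 6) 0 0 (step_sound _ 129 [(rh9f93e2b24091a43d.shift 0 2), (rhab292f7f30e6ad1f.shift 1 0), (rhbe707112c53dab40.shift 1 0)] (by decide +kernel))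
noncomputable def rhe68a42dfe442c636 : CRef := CRef.mk (Pat.mk 0x8000000180000000e00000004 0x20000000f0000001f0000003e00000007 4 6) 0 0 (step_sound _ 65 [rh2f32edc41b016dfb, rh9f93e2b24091a43d] (by decide +kernel))
noncomputable def rh483977ec4c7a5d44 : CRef := CRef.mk (Pat.mk 0x600000002000000020000000000000000 0x60000000600000002000000070000000700000005 4 3) 0 0 (step_sound _ 33 [(rh2f68792b6b779e96.shift 1 1), rhabedd109a9a37101] (by decide +kernel))
noncomputable def rh717e0b4c10cdb5db : CRef := CRef.mk (Pat.mk 0x200000003000000020000000000000000 0x30000000300000003000000070000000700000007 4 3) 0 0 (step_sound _ 33 [rhabedd109a9a37101, rhe286c75f2739cce2] (by decide +kernel))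
noncomputable def rh0368f485681c63ab : CRef := CRef.mk (Pat.mk 0x4000000070000000400000000 0xa0000000e0000000e00000004000000070000001e0000000a 4 5) 0 0 (step_sound _ 130 [(rh03dfdf12d5937476.shift 1 0), (rh7ef5fa5c39f1c762.shift 1 1), rhb379f99078aafa2d] (by decide +kernel))
noncomputable def rh31f2d44cd8372de6 : CRef := CRef.mk (Pat.mk 0x180000001e0000000200000000 0x3000000030000001f0000001e0000000600000004 4 5) 0 0 (step_sound _ 97 [(rh3244c3cc8379b070.shift 0 2), rhaaf1dc7285a08c48] (by decide +kernel))
noncomputable def rhb3f6887c6db1d53e : CRef := CRef.mk (Pat.mk 0xe0000001800000008 0x10000000370000003e0000001f00000008 4 6) 0 0 (step_sound _ 68 [(rh5421160f8e9bcf07.shift 1 0), (rhee89d0112810b2f3.shift 0 1)] (by decide +kernel))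
noncomputable def rh7b6a49b501baf4d8 : CRef := CRef.mk (Pat.mk 0x100000007800000008 0x380000007f000000f8 4 8) 0 0 (step_sound _ 34 [(rh4ad5fc38f1b69f65.shift 2 0), rh5dec5e73a267a1c4, rh6558fc11d90a948b] (by decide +kernel))
noncomputable def rh4a6f9d53d0edabe6 : CRef := CRef.mk (Pat.mk 0x60000000300000002000000000000000000000000 0x4000000070000000300000002000000060000000600000004 4 3) 0 0 (step_sound _ 65 [(rh2f68792b6b779e96.shift 1 2), rh5c651669912fbab1] (by decide +kernel))
noncomputable def rh953e410617738e80 : CRef := CRef.mk (Pat.mk 0x60000000300000002000000000000000000000000 0x4000000070000000300000002000000030000000300000001 4 3) 0 0 (step_sound _ 65 [rh24b4f41f846cb1d8, (rh2f68792b6b779e96.shift 1 2)] (by decide +kernel))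
noncomputable def rh5ae6de4c9bd76265 : CRef := CRef.mk (Pat.mk 0x40000000700000004000000020000000000000000 0x400000004000000070000003e0000000e0000000800000008 4 6) 0 0 (step_sound _ 99 [(rh70e33bfdf511e144.shift 2 0), (rh89ade209b3e28f13.shift 0 3), (rhb7ff2e6ec654f9e0.shift 0 2)] (by decide +kernel))
noncomputable def rh0682f3909eac0657 : CRef := CRef.mk (Pat.mk 0x140000001e000000000000000000000000 0x400000004000000140000001f0000003c0000000800000008 4 6) 0 0 (step_sound _ 67 [(rha03f6e28ea70fc7d.shift 0 2), (rhade0f4c81793f68e.shift 2 0)] (by decide +kernel))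
noncomputable def rh6852947d3e67d303 : CRef := CRef.mk (Pat.mk 0x300000003000000020000000000000000 0x20000000300000003000000070000000700000007 4 3) 0 0 (step_sound _ 33 [rh7b1f1fb55310c477, rhc8e755934d85ce20] (by decide +kernel))
noncomputable def rhee3013890ee4ed34 : CRef := CRef.mk (Pat.mk 0x20000000b000000080000000300000000 0x20000000f0000001e0000000f00000004 4 5) 0 0 (step_sound _ 68 [rh18650cae7335f350, (rhc10214bf3fe8094a.shift 0 2)] (by decide +kernel))
noncomputable def rh9bc5f2d3a8fa62f2 : CRef := CRef.mk (Pat.mk 0x400000006000000120000000600000000 0x4000000070000003e0000003f00000008 4 6) 0 0 (step_sound _ 66 [(rh509847d0837ffcc5.shift 1 0), (rh51246ab843efda05.shift 0 1), (rhfd0f316c42bbba52.shift 0 2)] (by decide +kernel))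
noncomputable def rh71680c987f46b870 : CRef := CRef.mk (Pat.mk 0x80000002c000000240000000c00000000 0xc0000003c0000006c0000003e00000033 4 7) 0 0 (step_sound _ 36 [rh1f065b4d39646e29, (rhf428b1dc658d16d8.shift 2 1)] (by decide +kernel))
noncomputable def rhc2e3c99efce61506 : CRef := CRef.mk (Pat.mk 0x40000001600000012000000060000000000000000 0x40000001f0000001e0000000f0000000800000008 4 5) 0 0 (step_sound _ 99 [(rh3ec8ec076f6e0db2.shift 0 2), (rh43cbe8b40a1a7398.shift 0 3), rh826e97f6a5f377b5] (by decide +kernel))
noncomputable def rheb3045a8dc0b60d5 : CRef := CRef.mk (Pat.mk 0x160000001000000006 0x1e000000780000001f 4 7) 0 0 (step_sound _ 37 [(rhc10214bf3fe8094a.shift 1 1), rhc13ae28137ba9813] (by decide +kernel))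
noncomputable def rh2e4411665b33ac0e : CRef := CRef.mk (Pat.mk 0x58000000000000001c00000000 0x78000000e00000007e00000077 4 8) 0 0 (step_sound _ 37 [rh8195a2d7794c7cd2, (rhcff92de188dbe599.shift 2 1)] (by decide +kernel))
noncomputable def rh4ebb7785c1ae9019 : CRef := CRef.mk (Pat.mk 0x20000000e000000180000000400000000 0x400000006000000060000000e0000001e0000000f0000000a 4 5) 0 0 (step_sound _ 130 [(rh6a5235d0d51b5cbb.shift 1 0), rh7a4fd64af72a5b1e, (rhf47b4f939007e04f.shift 1 0), rhfa9a29c2ea6d2e16] (by decide +kernel))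
noncomputable def rh8ec1d73f32a345b3 : CRef := CRef.mk (Pat.mk 0x20000001e00000018000000040000000000000000 0x4000000060000001e0000001a0000000f0000000f00000008 4 5) 0 0 (step_sound _ 65 [(rh1b249a9225fcaf51.shift 1 1), (rh96132c15c538fca5.shift 0 1), rha184ce06413230ad] (by decide +kernel))
noncomputable def rhcf7947f2b9d25bf5 : CRef := CRef.mk (Pat.mk 0x100000001e00000018000000000000000000000000 0x180000001e0000001f000000300000003000000010 4 6) 0 0 (step_sound _ 97 [(rha85076c68f1f3e46.shift 1 0), (rheb0810cc63b001d8.shift 0 3)] (by decide +kernel))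
noncomputable def rh18572505c2536e63 : CRef := CRef.mk (Pat.mk 0x1800000008000000180000001800000000 0x40000001f000000380000001c000000f800000020 4 8) 0 0 (step_sound _ 100 [(rh36d4d92ef3dad5f8.shift 2 0), (rhc647a25a08ddf0ec.shift 0 1)] (by decide +kernel))
noncomputable def rh5d142d6bb7be033f : CRef := CRef.mk (Pat.mk 0x2000000020000000600000012000000000000000000000000 0x200000006000000060000001e000000070000000300000002 4 5) 0 0 (step_sound _ 98 [rh37e540d481210cc1, (rh55afc6a59410cf00.shift 1 2)] (by decide +kernel))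
noncomputable def rh0831436ee42a9467 : CRef := CRef.mk (Pat.mk 0x200000006000000120000000200000000 0x60000000600000006000000060000001e0000000300000001 4 5) 0 0 (step_sound _ 162 [(rhbaefcd01e0a8bca3.shift 1 1), rhbb0ff12596d5b5a5] (by decide +kernel))
noncomputable def rh8cd0d3e12fc7abe8 : CRef := CRef.mk (Pat.mk 0x2000000bc00000000 0x3000000ff00000038 4 8) 0 0 (step_sound _ 33 [(rh3244c3cc8379b070.shift 0 1), rhd74dfcf162c14063] (by decide +kernel))
noncomputable def rheeef459075011f45 : CRef := CRef.mk (Pat.mk 0xbc00000002 0xff0000003b 4 8) 0 0 (step_sound _ 33 [rhd74dfcf162c14063, rheb0810cc63b001d8] (by decide +kernel))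
noncomputable def rh8f17fc2010aa48d0 : CRef := CRef.mk (Pat.mk 0xbe00000000 0xff0000003b 4 8) 0 0 (step_sound _ 0 [rh80fcd6d0a18cb2dd, rhd74dfcf162c14063] (by decide +kernel))
noncomputable def rh55daa26adcd643af : CRef := CRef.mk (Pat.mk 0x3c00000008 0x70000003f00000038 4 6) 0 0 (step_sound _ 65 [(rh3f8766e6ecb455ce.shift 1 1), rhbf77dad9b53157cf] (by decide +kernel))
noncomputable def rheba4198a8fb876bd : CRef := CRef.mk (Pat.mk 0x7c00000002 0x3c0000007f00000003 4 7) 0 0 (step_sound _ 33 [(rh6ea0c6639065f1d7.shift 0 1), rheb0810cc63b001d8] (by decide +kernel))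
noncomputable def rh69b0642f384125a8 : CRef := CRef.mk (Pat.mk 0x7e00000000 0x3c0000007f00000030 4 7) 0 0 (step_sound _ 4 [(rh6ea0c6639065f1d7.shift 0 1), (rhe25b0a99195a5d59.shift 1 0)] (by decide +kernel))
noncomputable def rh1664e4b7c75eeaa3 : CRef := CRef.mk (Pat.mk 0xc0000000d000000040000000400000000 0x320000001e0000000f0000000c0000000c00000008 4 6) 0 0 (step_sound _ 132 [(rh24ae073cf30720c4.shift 0 3), (rhec24e52a48ce1ed1.shift 1 0)] (by decide +kernel))
noncomputable def rh058285cbe4247c2a : CRef := CRef.mk (Pat.mk 0x180000007800000000 0x180000007f000000e7 4 8) 0 0 (step_sound _ 34 [rh0e1512cbacfbd48b, (rh4ad5fc38f1b69f65.shift 2 0)] (by decide +kernel))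
noncomputable def rh718933e317476327 : CRef := CRef.mk (Pat.mk 0x80000000d0000000c0000000400000000 0x10000000180000000f0000000e0000007c00000010 4 7) 0 0 (step_sound _ 35 [(rh36d4d92ef3dad5f8.shift 1 0), (rh7e143111a189f2ad.shift 0 1)] (by decide +kernel))
noncomputable def rh06684c8288200ce9 : CRef := CRef.mk (Pat.mk 0x100000001a000000180000000800000000 0x80000000c0000001f0000001b0000001c0000000c00000004 4 5) 0 0 (step_sound _ 131 [(rh9cac931137f1cfa0.shift 0 1), (rhbd1553ade3ecbf42.shift 2 0)] (by decide +kernel))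
noncomputable def rhd101176a990e4581 : CRef := CRef.mk (Pat.mk 0x1c000000080000000800000000 0x40000001c0000003c0000001f0000000c0000000c00000004 4 6) 0 0 (step_sound _ 131 [(rh0fd870c734e6c513.shift 2 0), (rhccf6c53fa88468fc.shift 0 1)] (by decide +kernel))
noncomputable def rh3439abf423ee2a2a : CRef := CRef.mk (Pat.mk 0x2000000060000000200000002 0x2000000030000000700000007000000060000000600000002 4 3) 0 0 (step_sound _ 98 [(rh2f68792b6b779e96.shift 1 0), rh8d99d90023130d2c] (by decide +kernel))
noncomputable def rh31744790bdf5cc7c : CRef := CRef.mk (Pat.mk 0x300000003000000030000000000000000 0x6000000060000000700000003000000030000000200000002 4 3) 0 0 (step_sound _ 33 [(rh5fa50b509d4ce753.shift 0 1), rh7b1f1fb55310c477] (by decide +kernel))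
noncomputable def rhae1bcba6ae280830 : CRef := CRef.mk (Pat.mk 0x1c0000001800000010 0x1800000018000000380000001f0000001800000010 4 6) 0 0 (step_sound _ 131 [(rh6f1cbe15c631ee70.shift 3 0), (rhee6a2840b930d427.shift 0 1)] (by decide +kernel))
noncomputable def rh3eca660905602a30 : CRef := CRef.mk (Pat.mk 0x1c00000018000000100000000000000000 0x300000001f00000018000000300000003000000030 4 6) 0 0 (step_sound _ 129 [(rha3b55b63c828e6bd.shift 1 0), (rhb739f4f82bb681b4.shift 0 3)] (by decide +kernel))
noncomputable def rh070eafe5b822ddc7 : CRef := CRef.mk (Pat.mk 0x380000001800000008 0x1c0000001c0000001f000000380000001800000008 4 6) 0 0 (step_sound _ 99 [rh79905f95cb2d899a, (rh90b823c913a425e8.shift 2 0), (rhc0301b400ca2a736.shift 3 0)] (by decide +kernel))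
noncomputable def rhe5e848c436e5b70f : CRef := CRef.mk (Pat.mk 0x600000006000000020000000000000000 0x300000003000000030000000600000006000000030000000300000003 4 3) 0 0 (step_sound _ 161 [(rh90b823c913a425e8.shift 0 2), rhbb83b53687587fb2] (by decide +kernel))
noncomputable def rheb7a135e564f674e : CRef := CRef.mk (Pat.mk 0x8000000180000001e000000040000000000000000 0x60000001f0000001e0000001e0000000c0000000800000008 4 5) 0 0 (step_sound _ 162 [(rh3cb659a608caaffd.shift 0 2), (rhaeecc7287588a69b.shift 2 0)] (by decide +kernel))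
noncomputable def rh9af14f7c56ee08f3 : CRef := CRef.mk (Pat.mk 0x400000003800000008 0x670000003f00000038 4 7) 0 0 (step_sound _ 34 [(rh428265de8cd3cd2d.shift 2 1), rh882a3e8c7bd7762b] (by decide +kernel))
noncomputable def rh0fe9ffd52e1cd12f : CRef := CRef.mk (Pat.mk 0x1a0000000e00000004 0x2000000030000001f0000003e00000004 4 6) 0 0 (step_sound _ 36 [(rh3244c3cc8379b070.shift 0 1), rh3f1f65112e81949f] (by decide +kernel))
noncomputable def rh024032792f4e6cd0 : CRef := CRef.mk (Pat.mk 0x80000001e000000000000000000000000 0x800000008000000080000003e0000000f0000000400000004 4 6) 0 0 (step_sound _ 66 [(rhaf9f2efc81a8312b.shift 0 2), (rhcf80391c5046a495.shift 2 0)] (by decide +kernel))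
noncomputable def rhd653b0a23862ec68 : CRef := CRef.mk (Pat.mk 0x180000000e000000000000000000000000 0x80000001f0000003e000000370000001000000010 4 6) 0 0 (step_sound _ 100 [(rh56f43794bcf10c2f.shift 0 2), (rhbbe16ff26f7822db.shift 1 0)] (by decide +kernel))
noncomputable def rha7cb36a6213edff3 : CRef := CRef.mk (Pat.mk 0x180000001e0000001000000000 0x30000000300000001f0000001e0000001800000008 4 6) 0 0 (step_sound _ 97 [(rh3244c3cc8379b070.shift 0 2), (rh79e8159902b0bda5.shift 1 0)] (by decide +kernel))
noncomputable def rh41e5267f1849c6d4 : CRef := CRef.mk (Pat.mk 0x80000007800000010 0xf80000007f00000038 4 8) 0 0 (step_sound _ 34 [rh251facab2e282844, (rh9890f9d77740bbed.shift 2 1)] (by decide +kernel))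
noncomputable def rh6cd649d652e06885 : CRef := CRef.mk (Pat.mk 0x80000000c0000000c0000000000000000 0x60000000f0000003c0000000c0000000c0000000c 4 6) 0 0 (step_sound _ 130 [(rh3cb04db3dd2b6a55.shift 2 0), rh8f1158d9f5036793] (by decide +kernel))
noncomputable def rh32d7223c72ad6738 : CRef := CRef.mk (Pat.mk 0x1e000000140000000000000000 0x8000000080000003c0000001f000000140000000400000004 4 6) 0 0 (step_sound _ 131 [(rh32f6277f14b47a8f.shift 2 0), (rhec46bd5500c722c9.shift 0 3)] (by decide +kernel))
noncomputable def rh692b2a08eaddb505 : CRef := CRef.mk (Pat.mk 0x800000008000000180000000800000000 0x40000000c0000000f0000007c0000000800000008 4 7) 0 0 (step_sound _ 98 [(rhdeca8db941583de2.shift 0 2), (rhe286c75f2739cce2.shift 2 0)] (by decide +kernel))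
noncomputable def rh8dc67c40af20bac6 : CRef := CRef.mk (Pat.mk 0x80000001800000018000000000000001000000000 0x40000000f0000007c00000018000000080000001800000018 4 7) 0 0 (step_sound _ 162 [(rh6abf65651ac164b5.shift 2 0), (rh893cc38141f4926a.shift 2 0), (rhdeca8db941583de2.shift 0 4)] (by decide +kernel))
noncomputable def rha3ca4086e697a698 : CRef := CRef.mk (Pat.mk 0x3000000080000000b00000002 0x40000000f0000001e0000000f00000002 4 5) 0 0 (step_sound _ 68 [(rh1c62b6193297d9e3.shift 0 1), rh50ce0fd33f58c7cc] (by decide +kernel))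
noncomputable def rh44342267c74ce3da : CRef := CRef.mk (Pat.mk 0xc000000240000002c00000008 0x330000003e0000006c0000003c0000000c 4 7) 0 0 (step_sound _ 100 [(rh4b676234a5ebf2d3.shift 2 1), rhd4d7bd6aebf1d75b] (by decide +kernel))
noncomputable def rha8ad8d8976a37e2c : CRef := CRef.mk (Pat.mk 0x6000000120000000600000004 0x80000000f0000001e0000000f00000004 4 5) 0 0 (step_sound _ 67 [rh12eeb0fa447cba5e, (rh3ec8ec076f6e0db2.shift 0 1), (rh43cbe8b40a1a7398.shift 0 2)] (by decide +kernel))
noncomputable def rh0946f2cb9a4f6fe4 : CRef := CRef.mk (Pat.mk 0x6000000100000001600000004 0x80000000f000000380000001f00000004 4 6) 0 0 (step_sound _ 35 [(rh33e738c4ed385b9f.shift 1 1), rhb39c450cef28fa60] (by decide +kernel))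
noncomputable def rhb9a51cd4ed6b104f : CRef := CRef.mk (Pat.mk 0x6000000120000000600000004 0x80000003f0000003e0000000700000004 4 6) 0 0 (step_sound _ 66 [(rh51246ab843efda05.shift 0 1), (rhfd0f316c42bbba52.shift 0 2), (rhfed57f23c5f345ee.shift 1 0)] (by decide +kernel))
noncomputable def rhfe60bf5898282303 : CRef := CRef.mk (Pat.mk 0x1c0000000000000058 0x770000007e000000e000000078 4 8) 0 0 (step_sound _ 69 [(rh00f1bb10334541e3.shift 0 2), (rh3dc42f86b7869091.shift 2 0)] (by decide +kernel))
noncomputable def rh02cdfe1ba2278b7c : CRef := CRef.mk (Pat.mk 0x1200000006000000020000000200000000 0x1000000070000001e00000006000000060000000600000004 4 5) 0 0 (step_sound _ 130 [(rh2f68792b6b779e96.shift 1 1), rh882ad2e74ca92b0b] (by decide +kernel))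
noncomputable def rhc343ab2d747dbce2 : CRef := CRef.mk (Pat.mk 0x20000001200000006000000020000000000000000 0x1000000030000001e00000006000000060000000600000006 4 5) 0 0 (step_sound _ 34 [rh914fc4fa8475b0dd, (rhd3458b32566d63f7.shift 1 1)] (by decide +kernel))
noncomputable def rhf542bc25b6b1d6f9 : CRef := CRef.mk (Pat.mk 0x20000001600000002000000000000000000000000 0x2000000020000001e00000003000000030000000100000001 4 5) 0 0 (step_sound _ 96 [rh281c6819542c66e6, (rh361cc68994bd8a63.shift 0 3)] (by decide +kernel))
noncomputable def rh40d5f0580e634f07 : CRef := CRef.mk (Pat.mk 0x8000000180000000c0000000800000000 0x8000000180000001f0000007800000010 4 7) 0 0 (step_sound _ 36 [(rh55afc6a59410cf00.shift 3 0), (rhfdaba9284cdfee4b.shift 0 1)] (by decide +kernel))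
noncomputable def rh5f4fb9541f0899b7 : CRef := CRef.mk (Pat.mk 0x200000006000000020000000000000000 0x2000000060000000600000006000000070000000700000003 4 3) 0 0 (step_sound _ 161 [rh2d94e8e3c3d1054b, (rhd4b4beefcd67f51e.shift 1 1)] (by decide +kernel))
noncomputable def rha49d7d8e130a2d39 : CRef := CRef.mk (Pat.mk 0x2000000bc 0x3b000000ff 4 8) 0 0 (step_sound _ 1 [rh3244c3cc8379b070, rh9ffbea7eb7ea5d5f] (by decide +kernel))
noncomputable def rhe77d296d59445be7 : CRef := CRef.mk (Pat.mk 0xbc00000002 0x38000000ff00000003 4 8) 0 0 (step_sound _ 33 [(rh9ffbea7eb7ea5d5f.shift 0 1), rheb0810cc63b001d8] (by decide +kernel))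
noncomputable def rhe43ed89caea3d56d : CRef := CRef.mk (Pat.mk 0x7e000000100000000000000000 0x80000001c0000007f000000100000001000000010 4 7) 0 0 (step_sound _ 131 [rh1bf44ebefabc2f91, (rh3244c3cc8379b070.shift 2 3)] (by decide +kernel))
noncomputable def rh47386f791a2c91d7 : CRef := CRef.mk (Pat.mk 0xf00000001 0x380000001f0000001b 4 6) 0 0 (step_sound _ 3 [rhd584a578337d0023, rhe25b0a99195a5d59] (by decide +kernel))
noncomputable def rhc57e375175472ace : CRef := CRef.mk (Pat.mk 0x800000008000000180000001c00000000 0x1000000018000000180000001f0000003f00000060 4 7) 0 0 (step_sound _ 37 [(rh9b63f7c12f28b716.shift 2 0), (rhcda410b351c20b9b.shift 0 1)] (by decide +kernel))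
noncomputable def rh833e21fd28e210a9 : CRef := CRef.mk (Pat.mk 0x80000001800000018000000040000000000000000 0xc0000001f000000380000000c0000000c00000008 4 6) 0 0 (step_sound _ 67 [(rh932754581e0f4330.shift 2 1), rh9ed49c34a595f0ef] (by decide +kernel))
noncomputable def rh5027d1cffcd04893 : CRef := CRef.mk (Pat.mk 0x80000000a0000001e000000000000000000000000 0x20000000f0000003e0000001e000000070000000600000002 4 6) 0 0 (step_sound _ 130 [(rh5068e712cf2621fb.shift 0 1), rh9a011a4d0ec8f646] (by decide +kernel))
noncomputable def rhc6d4b397af50472c : CRef := CRef.mk (Pat.mk 0x8000000080000001c0000000c00000000 0x40000000c0000000c0000001c0000001f00000013 4 5) 0 0 (step_sound _ 33 [(rh53b3c253cb0c65f4.shift 0 1), rh8b63367476e56b14] (by decide +kernel))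
noncomputable def rhd29460d2e2b12fa0 : CRef := CRef.mk (Pat.mk 0x100000001000000038000000000000000000000000 0x10000000770000003e000000670000002000000020 4 7) 0 0 (step_sound _ 98 [(rh2cc7d62e70c02209.shift 0 2), (rhd132b680030c88e0.shift 2 0), (rhec46bd5500c722c9.shift 1 3)] (by decide +kernel))
noncomputable def rh18e155a35aa8a1a4 : CRef := CRef.mk (Pat.mk 0xe000000020000000200000002 0x390000003f0000007e0000000200000002 4 7) 0 0 (step_sound _ 100 [rh3ade54013ae3e615, (rh4274f4328cb9f3fd.shift 1 2), rh50b5135431ad0103] (by decide +kernel))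
noncomputable def rhb32e821411fee84d : CRef := CRef.mk (Pat.mk 0x4000000040000000d0000000c00000000 0x80000000c0000000c0000000f0000001e00000032 4 6) 0 0 (step_sound _ 36 [(rhab22b5b56e7b3243.shift 0 1), (rhb5c361f64e48c28f.shift 1 0)] (by decide +kernel))
noncomputable def rhce3c4e918b2b9681 : CRef := CRef.mk (Pat.mk 0xe0000001600000004 0x8000000080000003c0000003f0000001600000004 4 6) 0 0 (step_sound _ 68 [(rh18965a982d73c794.shift 1 1), rh6c87f444a07d2934] (by decide +kernel))
noncomputable def rhd561be1bbbb08ec2 : CRef := CRef.mk (Pat.mk 0x20000000600000002000000000000000000000000 0x100000003000000070000000600000003000000070000000700000005 4 3) 0 0 (step_sound _ 65 [(rh0fd870c734e6c513.shift 0 1), (rh301a6b3a9154ed36.shift 1 0), rh3181373a30ceb9e3] (by decide +kernel))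
noncomputable def rhf3670f9792a5f0a6 : CRef := CRef.mk (Pat.mk 0x20000000600000002000000000000000000000000 0x100000007000000070000000600000003000000070000000700000005 4 3) 0 0 (step_sound _ 65 [(rh0fd870c734e6c513.shift 0 1), rh3181373a30ceb9e3, (rha707fb719e87fe6e.shift 1 1)] (by decide +kernel))
noncomputable def rhfc588645a054f795 : CRef := CRef.mk (Pat.mk 0xc0000000c000000180000000800000000 0xc0000000c0000001f0000003f00000016 4 6) 0 0 (step_sound _ 66 [rh5eb33fb39f0ce454, rhdd954a6f2f77cc64] (by decide +kernel))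
noncomputable def rh5475f300f61ba577 : CRef := CRef.mk (Pat.mk 0x300000003000000030000000000000000 0x2000000020000000300000003000000070000000600000006 4 3) 0 0 (step_sound _ 33 [rh0ff7ca71cb891e23, rh7b1f1fb55310c477] (by decide +kernel))
noncomputable def rhc56f823419c7a996 : CRef := CRef.mk (Pat.mk 0x80000000c0000000e000000000000000000000000 0x80000000c0000000f0000001c0000001c0000000c 4 5) 0 0 (step_sound _ 34 [(rh9e3edb185cc347de.shift 2 1), rhbf43576ddc093dbb] (by decide +kernel))
noncomputable def rh83b31e17e2bdf45f : CRef := CRef.mk (Pat.mk 0x10000000180000001c00000000 0x300000003000000030000000180000001f00000030 4 6) 0 0 (step_sound _ 33 [(rh1eb2aa83e480b8c5.shift 1 0), (rh53b3c253cb0c65f4.shift 0 1)] (by decide +kernel))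
noncomputable def rh289b3ddd1d209975 : CRef := CRef.mk (Pat.mk 0x80000001800000038000000000000000000000000 0x800000018000000380000001f0000001c0000001c 4 6) 0 0 (step_sound _ 67 [(rh852e818bc8629e77.shift 0 1), (rhbb83b53687587fb2.shift 2 0), (rhf57bd6481b8b2ca7.shift 3 0)] (by decide +kernel))
noncomputable def rh40f30c696fac1423 : CRef := CRef.mk (Pat.mk 0x20000000600000006000000000000000000000000 0x300000003000000030000000600000006000000030000000300000003 4 3) 0 0 (step_sound _ 65 [(rh90b823c913a425e8.shift 0 2), rhbb83b53687587fb2] (by decide +kernel))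
noncomputable def rh543bd638c2d5bc08 : CRef := CRef.mk (Pat.mk 0xf0000000e000000000000000000000000 0xc0000000c0000001d0000000f0000000e000000020000000200000002 4 5) 0 0 (step_sound _ 194 [(rh4d8d614e03a7f6ad.shift 0 3), rhd9907c6fa023d767, (rhe908f39dd8d66be2.shift 1 2)] (by decide +kernel))
noncomputable def rh6e90a8ee29ce3f22 : CRef := CRef.mk (Pat.mk 0x40000000e0000001a0000000000000000 0x40000000e0000001e0000000f0000000a 4 5) 0 0 (step_sound _ 33 [(rh71222050f2c63a3a.shift 1 0), rhd5bfe9c6b42059f8] (by decide +kernel))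
noncomputable def rh1fb98e13390916bd : CRef := CRef.mk (Pat.mk 0x20000001e000000120000000200000000 0x10000000320000001e0000001e0000000b00000009 4 6) 0 0 (step_sound _ 132 [(rh33e738c4ed385b9f.shift 1 3), rha5bd2cf73a1a3cc2] (by decide +kernel))
noncomputable def rha8785c78927ee064 : CRef := CRef.mk (Pat.mk 0x120000001e000000120000000000000000 0x14000000160000001e0000001e0000000b0000000b 4 5) 0 0 (step_sound _ 33 [rha5bd2cf73a1a3cc2, (rha707fb719e87fe6e.shift 1 0)] (by decide +kernel))
noncomputable def rh1f31bf584e9d3dcb : CRef := CRef.mk (Pat.mk 0xc000000040000000c0000000c00000000 0x20000000f0000003c0000000e0000007c00000010 4 7) 0 0 (step_sound _ 99 [(rh36d4d92ef3dad5f8.shift 1 0), (rhcf85c92937975d4d.shift 0 1)] (by decide +kernel))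
noncomputable def rh774af61f58f47c45 : CRef := CRef.mk (Pat.mk 0xc000000040000000c0000000c00000000 0x100000003c0000000f0000000e0000007c00000010 4 7) 0 0 (step_sound _ 99 [(rh36d4d92ef3dad5f8.shift 1 0), (rhc0ddb33d3a52722b.shift 0 1)] (by decide +kernel))
noncomputable def rh135d882044ccd500 : CRef := CRef.mk (Pat.mk 0xe000000020000000600000004 0x80000003f0000003e0000000700000004 4 6) 0 0 (step_sound _ 66 [(rh2f68792b6b779e96.shift 2 0), (rhfb9da68baa54e605.shift 0 1)] (by decide +kernel))
noncomputable def rha5a5910e461c87f9 : CRef := CRef.mk (Pat.mk 0x180000001c0000000000000000 0x14000000760000007f0000001c0000000800000008 4 7) 0 0 (step_sound _ 98 [(rh073589708c2d81a3.shift 1 0), (rh1b80270a8621e059.shift 0 2), rhb00c6cda7b230383] (by decide +kernel))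
noncomputable def rh26c15e3faa95dd92 : CRef := CRef.mk (Pat.mk 0x380000002c0000002000000000 0x10000000380000002f0000007c00000028 4 7) 0 0 (step_sound _ 65 [(rh53b3c253cb0c65f4.shift 0 2), (rha49dd0862b9dfa26.shift 1 0)] (by decide +kernel))
noncomputable def rh6e7e3cba669c167e : CRef := CRef.mk (Pat.mk 0xe00000008000000080000000000000000 0x100000001c0000000f00000008000000180000001800000010 4 5) 0 0 (step_sound _ 35 [(rh50fbb5868c909700.shift 2 1), rhc9ebcc38f3a761b8] (by decide +kernel))
noncomputable def rh9de5058cdf97d043 : CRef := CRef.mk (Pat.mk 0x10000000160000001c000000000000000000000000 0x14000000160000001f0000003b0000000a00000002 4 6) 0 0 (step_sound _ 97 [(rh6de56787cc1605b6.shift 0 1), rh9a011a4d0ec8f646] (by decide +kernel))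
noncomputable def rhad45f14da56c6966 : CRef := CRef.mk (Pat.mk 0x200000002c00000038000000000000000000000000 0xc0000003c0000002f00000038000000380000001800000010 4 6) 0 0 (step_sound _ 163 [(rh4893cff807d9b440.shift 3 0), (rha768b229dc254047.shift 3 0), (rhc3c26720a00da2cf.shift 0 1)] (by decide +kernel))
noncomputable def rh4acb5ed9a4e192df : CRef := CRef.mk (Pat.mk 0x40000000500000007000000000000000000000000 0x5000000050000000500000007000000030000000200000002 4 3) 0 0 (step_sound _ 65 [(rh5c5e593799055d58.shift 1 2), rhade0f4c81793f68e] (by decide +kernel))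
noncomputable def rh6fce4132410535d0 : CRef := CRef.mk (Pat.mk 0xa0000000300000002000000000000000000000000 0x40000001e0000000300000002000000070000000700000005 4 5) 0 0 (step_sound _ 65 [rh3181373a30ceb9e3, (rh8797c67fe3ac847a.shift 0 2)] (by decide +kernel))
noncomputable def rh7adda3dfe9451016 : CRef := CRef.mk (Pat.mk 0x2000000020000000200000003 0x40000000700000007000000020000000300000003 4 3) 0 0 (step_sound _ 96 [rh50fbb5868c909700, rh9a369cb82ea472da] (by decide +kernel))
noncomputable def rh15dcc863be0132cc : CRef := CRef.mk (Pat.mk 0x400000002000000020000000200000000 0x50000000700000007000000020000000200000002 4 3) 0 0 (step_sound _ 1 [(rhbaefcd01e0a8bca3.shift 1 0), rhc1897dcc52446b96] (by decide +kernel))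
noncomputable def rh0a7752e39cd85550 : CRef := CRef.mk (Pat.mk 0x800000008000000080000000a000000080000000000000000 0x800000008000000080000000c0000000c0000000f000000180000001800000010 4 5) 0 0 (step_sound _ 130 [(rh10bf0466a1087b04.shift 2 1), (rh5c651669912fbab1.shift 2 0), (rhc006c5fe36d9e964.shift 0 1)] (by decide +kernel))
noncomputable def rh3a6b817682f21fb4 : CRef := CRef.mk (Pat.mk 0x4000000040000000e000000000000000000000000 0x4000000740000003e000000770000000200000002 4 7) 0 0 (step_sound _ 100 [rh1e8d6e1ef30e2d92, (rh35e918dd76851f8c.shift 1 2)] (by decide +kernel))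
noncomputable def rh9a366e202e4c713d : CRef := CRef.mk (Pat.mk 0x10000000300000002c0000000000000000 0x1000000010000000180000003c0000002f0000000800000008 4 6) 0 0 (step_sound _ 164 [(rh2145e1d24b96a57e.shift 4 2), rh5ce10f7e276dbc40] (by decide +kernel))
noncomputable def rh650ed19754d54b54 : CRef := CRef.mk (Pat.mk 0x300000002c000000200000002000000000 0x3c0000003f000000200000003000000010 4 6) 0 0 (step_sound _ 4 [(rh7401e8cf466f4e5b.shift 0 3), (rh79877ebd3ef475dd.shift 4 0)] (by decide +kernel))
noncomputable def rh12b4a26f370c6b53 : CRef := CRef.mk (Pat.mk 0x80000000b0000000a000000020000000000000000 0xb0000000b0000000a0000000e0000000600000004 4 4) 0 0 (step_sound _ 33 [(rh0df5261e9cb045e0.shift 1 0), (rh50fbb5868c909700.shift 0 1)] (by decide +kernel))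
noncomputable def rh55122b896fc1631c : CRef := CRef.mk (Pat.mk 0x1000000006000000040000000400000000 0xa0000000e0000001e00000007000000060000000600000002 4 5) 0 0 (step_sound _ 130 [(rh0fd870c734e6c513.shift 1 0), (rh32a32f08de912052.shift 0 1), (rh402d223d12d7377d.shift 1 0)] (by decide +kernel))
noncomputable def rh8fb682efa3b47682 : CRef := CRef.mk (Pat.mk 0x80000000b0000000a00000002000000000000000000000000 0xa0000000b0000000b0000000e000000070000000700000005 4 4) 0 0 (step_sound _ 65 [(rh0df5261e9cb045e0.shift 1 1), rh1f3a6ba70a310ab1, rha613ffd40b6c9d24] (by decide +kernel))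
noncomputable def rh46b23caea9da4ad7 : CRef := CRef.mk (Pat.mk 0x10000000200000002000000020000000000000000 0x1000000030000000300000002000000060000000600000004 4 3) 0 0 (step_sound _ 33 [rh4868915274d66678, (rhffd04209dc8ea796.shift 0 1)] (by decide +kernel))
noncomputable def rh3cc7a495b667248d : CRef := CRef.mk (Pat.mk 0x200000014000000040000000400000000 0x30000003e000000070000000400000004 4 6) 0 0 (step_sound _ 97 [(rh7b1f1fb55310c477.shift 1 0), (rhae2b5525c7916744.shift 0 2)] (by decide +kernel))
noncomputable def rh2322ab45583e9f4c : CRef := CRef.mk (Pat.mk 0x10000000a0000000a0000000800000000 0x10000000100000001b0000001e0000000b0000000800000008 4 5) 0 0 (step_sound _ 100 [(rh215e11e099257d75.shift 3 0), (rhfb9f3e24adf33097.shift 0 2)] (by decide +kernel))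
noncomputable def rh1bf146767542bce1 : CRef := CRef.mk (Pat.mk 0x280000002800000028000000000000000000000000 0x20000000280000002f0000007c000000d80000001000000010 4 8) 0 0 (step_sound _ 100 [(rh299a18a9bb09cab4.shift 2 2), (rha56f4c4626a53b18.shift 3 0), (rha9fbfd4bb8cf890b.shift 0 3)] (by decide +kernel))
noncomputable def rh0f06ac4ba7e90f34 : CRef := CRef.mk (Pat.mk 0x10000000a0000000a0000000a0000000000000000 0x1000000030000000a0000000a0000000e0000000e00000004 4 4) 0 0 (step_sound _ 161 [(rh50fbb5868c909700.shift 0 2), (rh96542b57e9ab27d3.shift 1 0)] (by decide +kernel))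
noncomputable def rh2d0605d02b4834b4 : CRef := CRef.mk (Pat.mk 0x50000000500000001000000020000000000000000 0x5000000050000000500000007000000060000000200000002 4 3) 0 0 (step_sound _ 97 [(rh2145e1d24b96a57e.shift 0 2), rh54537de9527c3937] (by decide +kernel))
noncomputable def rh69c25857e678d93e : CRef := CRef.mk (Pat.mk 0xa0000000a0000000a0000000000000000 0x500000007000000070000000a0000000a0000000e0000000e00000004 4 4) 0 0 (step_sound _ 161 [(rh7ef5fa5c39f1c762.shift 0 2), (rh96542b57e9ab27d3.shift 1 0)] (by decide +kernel))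
noncomputable def rh13a00653c6536dcd : CRef := CRef.mk (Pat.mk 0x6000000028000000280000000000000000 0x40000000600000002f0000007c000000e000000040 4 8) 0 0 (step_sound _ 68 [(rh6b7f68f39ca47ffc.shift 2 0), (rha9fbfd4bb8cf890b.shift 0 2), (rhb7449ccef11896f2.shift 2 0)] (by decide +kernel))
noncomputable def rh61f98e0342be62ca : CRef := CRef.mk (Pat.mk 0x1a00000002000000020000000000000000 0x4000000070000000f0000001a00000003000000070000000700000005 4 5) 0 0 (step_sound _ 161 [rh3181373a30ceb9e3, (rh330a005829cdd297.shift 0 2), (rh402d223d12d7377d.shift 0 1)] (by decide +kernel))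
noncomputable def rh3d0ad82b26bacea7 : CRef := CRef.mk (Pat.mk 0x200000002000000020000000200000000 0x5000000070000000700000002000000020000000600000004 4 3) 0 0 (step_sound _ 2 [(rh7ef5fa5c39f1c762.shift 0 1), (rhd3458b32566d63f7.shift 1 0)] (by decide +kernel))
noncomputable def rh88e77392c1128ef6 : CRef := CRef.mk (Pat.mk 0x800000014000000140000001400000000 0x2000000020000000f0000001e000000160000001400000010 4 5) 0 0 (step_sound _ 129 [rh10a6b07dd61e411b, rh8e183c2017c94b8c, rhb5f1ba4ade952c56, (rhbab796f6dafe9186.shift 1 1)] (by decide +kernel))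
noncomputable def rh6671f38654124b28 : CRef := CRef.mk (Pat.mk 0x400000008000000080000000a0000000000000000 0xc0000000c000000080000000f0000001c00000014 4 5) 0 0 (step_sound _ 35 [rhc37884b8bcc4b237, (rhffd04209dc8ea796.shift 2 1)] (by decide +kernel))
noncomputable def rh642a7b2d193ef6bc : CRef := CRef.mk (Pat.mk 0x20000000500000005000000050000000000000000 0x70000000700000005000000070000000600000002 4 3) 0 0 (step_sound _ 34 [rh03cc326bf07d2d6d, (rhffd04209dc8ea796.shift 1 1)] (by decide +kernel))
noncomputable def rh36ab2ba4b2cbb68e : CRef := CRef.mk (Pat.mk 0x100000002000000028000000280000000000000000 0x10000000300000002f0000007c000000e000000040 4 8) 0 0 (step_sound _ 68 [(rh0f78e0f694da1d7a.shift 2 0), (rh6781dd1e017ed782.shift 2 0), (rha9fbfd4bb8cf890b.shift 0 2)] (by decide +kernel))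
noncomputable def rh3689db93d6d3021f : CRef := CRef.mk (Pat.mk 0x800000008000000080000000a00000000 0x8000000080000007c0000000f00000004 4 7) 0 0 (step_sound _ 34 [(rh932754581e0f4330.shift 2 0), (rhff7d63dcb3cf9f74.shift 0 1)] (by decide +kernel))
noncomputable def rh1b142d6be47ea6d5 : CRef := CRef.mk (Pat.mk 0x8000000080000000a000000000000000000000000 0x8000000080000007c0000000f0000000c0000000400000004 4 7) 0 0 (step_sound _ 98 [(rh281c6819542c66e6.shift 2 0), (rhfafeb437ceb8396d.shift 2 0), (rhff7d63dcb3cf9f74.shift 0 3)] (by decide +kernel))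
noncomputable def rh144a868e56c42483 : CRef := CRef.mk (Pat.mk 0x40000000400000007000000020000000000000000 0x80000000e0000000e000000070000001e0000000c00000004 4 5) 0 0 (step_sound _ 66 [(rh42afa1af9fffa0e1.shift 0 1), (rh80c6e1b9aaf50bed.shift 1 0)] (by decide +kernel))
noncomputable def rhd69392d0442b2f37 : CRef := CRef.mk (Pat.mk 0x400000014000000140000000c0000000000000000 0x80000001c0000001c000000170000003e0000007200000020 4 7) 0 0 (step_sound _ 68 [(rh2191f4291a5eebdf.shift 1 0), (rh299a18a9bb09cab4.shift 1 1), (rhd661abf8252fdf90.shift 1 0), (rhfa8c7f01b0685da6.shift 0 1)] (by decide +kernel))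
noncomputable def rh50973ba4f36cba7d : CRef := CRef.mk (Pat.mk 0x8000000080000000a00000018 0x100000001800000018000000080000001f00000018 4 5) 0 0 (step_sound _ 32 [(rh73f605273a09a9d0.shift 3 0), rhc10214bf3fe8094a] (by decide +kernel))
noncomputable def rh7a45d140ef8bd2ef : CRef := CRef.mk (Pat.mk 0x1400000014000000140000000400000000 0x1000000014000000140000001c0000000f0000000a 4 5) 0 0 (step_sound _ 33 [rh61e4c592c7826d44, (rh932754581e0f4330.shift 1 0)] (by decide +kernel))
noncomputable def rh629275bdc452af79 : CRef := CRef.mk (Pat.mk 0x40000001400000016000000000000000000000000 0x4000000360000001e000000030000000200000002 4 6) 0 0 (step_sound _ 99 [(rh33e738c4ed385b9f.shift 1 3), rhd1474a84c69f0140] (by decide +kernel))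
noncomputable def rh14b92085b87f2eff : CRef := CRef.mk (Pat.mk 0x400000014000000160000000000000000 0x2000000070000001f0000001f0000000700000006 4 5) 0 0 (step_sound _ 97 [rh3cd58d40cba215a3, rh96687141d1e034b0] (by decide +kernel))
noncomputable def rhe42899a825168d95 : CRef := CRef.mk (Pat.mk 0x4000000140000001c000000000000000000000000 0x4000000360000001e000000030000000200000002 4 6) 0 0 (step_sound _ 97 [(rh33e738c4ed385b9f.shift 1 3), rhd1474a84c69f0140] (by decide +kernel))
noncomputable def rhf3137a9730661f0a : CRef := CRef.mk (Pat.mk 0x80000000a00000008000000000000000000000000 0x8000000080000001f0000007c000000100000001000000010 4 7) 0 0 (step_sound _ 100 [(rh046c5eb18e55a239.shift 3 0), (rh174a767562f03570.shift 0 3)] (by decide +kernel))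
noncomputable def rh728be417877c0b2d : CRef := CRef.mk (Pat.mk 0x10000000140000001400000018 0x1000000010000000170000003f00000018 4 6) 0 0 (step_sound _ 35 [(rh5c5e593799055d58.shift 3 0), rhc0a44ba021841f88] (by decide +kernel))
noncomputable def rh5da74c997181eb33 : CRef := CRef.mk (Pat.mk 0x20000000280000002800000020 0x50000000780000002f0000007c00000020 4 7) 0 0 (step_sound _ 66 [(rh8c25cb665ab79ec0.shift 0 1), (rha78afc937ca94db4.shift 2 0)] (by decide +kernel))
noncomputable def rh107c33abc44dc2a8 : CRef := CRef.mk (Pat.mk 0x200000003000000020000000000000000 0x500000007000000070000000700000003000000030000000200000002 4 3) 0 0 (step_sound _ 161 [(rh769be3fe24eee174.shift 0 2), rh80c6e1b9aaf50bed, (rhd2c74283b7b6e6b8.shift 0 2)] (by decide +kernel))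
noncomputable def rhbcb2a9407659e3e4 : CRef := CRef.mk (Pat.mk 0x80000002c000000280000000000000000 0x140000007c0000002f000000280000002800000008 4 7) 0 0 (step_sound _ 132 [(rh000637b5a81e86aa.shift 2 0), (rhcdaff4a5bb03fe5f.shift 2 1), (rhd69c262cd33b94b3.shift 0 3)] (by decide +kernel))
noncomputable def rha06c4909f1a0e49c : CRef := CRef.mk (Pat.mk 0x200000002000000020000000200000000 0x1000000030000000300000002000000060000000700000005 4 3) 0 0 (step_sound _ 0 [rh29dd5384d80ecb1e, rh79877ebd3ef475dd] (by decide +kernel))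
noncomputable def rh89834aef0d875a8b : CRef := CRef.mk (Pat.mk 0x120000001e000000100000000000000000 0x30000000340000001e0000001e0000001b0000000a00000002 4 6) 0 0 (step_sound _ 130 [(rh79a2cce65bf4035c.shift 1 1), rh9a011a4d0ec8f646] (by decide +kernel))
noncomputable def rhf2134d14b7b2a553 : CRef := CRef.mk (Pat.mk 0x30000000a0000000200000002000000000000000000000000 0x30000001e0000000600000003000000070000000700000004 4 5) 0 0 (step_sound _ 65 [rh2d2f8694785c35ab, (rh7928877f9bf74a91.shift 0 1)] (by decide +kernel))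
noncomputable def rh528921958bcedb00 : CRef := CRef.mk (Pat.mk 0x80000003800000008000000000000000000000000 0x800000008000000380000001f0000000c0000000400000004 4 6) 0 0 (step_sound _ 98 [(rh281c6819542c66e6.shift 2 0), (rheea1a90336e79c71.shift 0 3)] (by decide +kernel))
noncomputable def rha69f04554756c3b5 : CRef := CRef.mk (Pat.mk 0x2000000030000000a0000000200000000 0x200000002000000030000001e0000000700000005 4 5) 0 0 (step_sound _ 0 [rh1d16976ebe541f5b, rh79877ebd3ef475dd] (by decide +kernel))
noncomputable def rh13e54efef84ebbc5 : CRef := CRef.mk (Pat.mk 0x1c0000001c000000040000000000000000 0xc0000000c0000001c0000001c0000001f0000001a00000018 4 5) 0 0 (step_sound _ 67 [(rh2a29dad2e8793f76.shift 2 0), (rh3af54b5f78790764.shift 0 1), (rh40241bd608e5be1a.shift 2 0)] (by decide +kernel))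
noncomputable def rh4afc61ff5e37b62a : CRef := CRef.mk (Pat.mk 0x80000003800000018000000000000000000000000 0x40000001f00000038000000180000000c0000000c0000000c 4 6) 0 0 (step_sound _ 67 [(rh79905f95cb2d899a.shift 0 2), (rhbb83b53687587fb2.shift 2 0), (rhea7a1800d6f053bd.shift 3 0)] (by decide +kernel))
noncomputable def rh136da48a6dbd44d0 : CRef := CRef.mk (Pat.mk 0x8000000380000000800000000 0x140000001c0000001c00000008000000380000001f00000014 4 6) 0 0 (step_sound _ 131 [(rh7ef5fa5c39f1c762.shift 2 1), rh852e818bc8629e77, (rhd4b4beefcd67f51e.shift 3 0)] (by decide +kernel))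
noncomputable def rhee8e4698f5c5baf4 : CRef := CRef.mk (Pat.mk 0x18000000580000000000000000 0x10000000300000001f000000780000000800000008 4 7) 0 0 (step_sound _ 98 [(rh2fe78cc5ca4405d8.shift 2 2), rhb00c6cda7b230383] (by decide +kernel))
noncomputable def rh642752d4da841eec : CRef := CRef.mk (Pat.mk 0x100000003c000000080000000000000000 0x180000003f0000001f0000000800000008 4 6) 0 0 (step_sound _ 3 [(rh9e3edb185cc347de.shift 3 0), (rhc0ea125976484735.shift 0 2)] (by decide +kernel))
noncomputable def rhb4564b24112592e6 : CRef := CRef.mk (Pat.mk 0x10000000e00000002 0x30000003e00000076 4 7) 0 0 (step_sound _ 36 [(rh3f8766e6ecb455ce.shift 0 1), (rh4274f4328cb9f3fd.shift 1 0)] (by decide +kernel))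
noncomputable def rh3464eab5c90daa28 : CRef := CRef.mk (Pat.mk 0x80000000e000000060000000000000000 0x80000003f0000003e0000003000000010 4 6) 0 0 (step_sound _ 68 [rh9dee069434d3cdfc, (rhbca71ab025ef4262.shift 1 2), (rhfd0f316c42bbba52.shift 0 2)] (by decide +kernel))
noncomputable def rh8d0e031673c01724 : CRef := CRef.mk (Pat.mk 0x20000000280000003800000020 0x50000000780000002f0000003c00000020 4 7) 0 0 (step_sound _ 102 [(rh2f68792b6b779e96.shift 5 0), rh57ca0737d0c5d7c5] (by decide +kernel))
noncomputable def rh76f5053606c02db0 : CRef := CRef.mk (Pat.mk 0x2800000028000000280000000400000000 0x500000007c0000002f000000280000002c00000004 4 7) 0 0 (step_sound _ 132 [(rh2820ca9a6c4f41b4.shift 0 3), (rh4621828ea5f4dfbb.shift 2 1), (rh8c01e5409b730b8b.shift 2 0)] (by decide +kernel))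
noncomputable def rh6a53f30f9ea1efed : CRef := CRef.mk (Pat.mk 0xa0000000a0000000a0000000000000000 0x140000001e0000001e0000000b0000001a0000001800000010 4 5) 0 0 (step_sound _ 35 [(rh426f403fa814630c.shift 3 0), (rh9258736a7488cc35.shift 0 1), (rhafab112a4c4dda0f.shift 1 1)] (by decide +kernel))
noncomputable def rh88e9726e1d2c2c8d : CRef := CRef.mk (Pat.mk 0x5000000020000000a0000000a00000000 0x140000001f0000001e0000000b0000000a00000008 4 5) 0 0 (step_sound _ 99 [(rh392a3540aad13897.shift 2 0), (rh8b14df1b185c100a.shift 1 1), rha488b4f498469230] (by decide +kernel))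
noncomputable def rhc3b23dc7990b5783 : CRef := CRef.mk (Pat.mk 0x20000000b0000001a000000000000000000000000 0xd0000001f0000000b0000001a0000001a0000001200000010 4 5) 0 0 (step_sound _ 163 [(rh70e33bfdf511e144.shift 3 0), (rh73f90196e9cc56f0.shift 0 2), (rhe30c2e094d0da457.shift 0 1)] (by decide +kernel))
noncomputable def rh956d5aec1a1e4135 : CRef := CRef.mk (Pat.mk 0x4000000080000002c0000002800000000 0x140000007c0000002f0000002800000028 4 7) 0 0 (step_sound _ 100 [(rhc705a4e0321a1bff.shift 2 0), (rhcdaff4a5bb03fe5f.shift 2 0), (rhd69c262cd33b94b3.shift 0 2)] (by decide +kernel))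
noncomputable def rhf789f85c97b30c5e : CRef := CRef.mk (Pat.mk 0x1000000020000000b0000000a00000000 0x5000000070000001e0000000b0000000a0000000a 4 5) 0 0 (step_sound _ 130 [rh62e2ef59a7ae44f9, (rh9c0a5dbd188ab718.shift 0 1)] (by decide +kernel))
noncomputable def rha74cda93f6987eec : CRef := CRef.mk (Pat.mk 0x200000001c00000000 0x370000003e00000007 4 6) 0 0 (step_sound _ 33 [(rh428265de8cd3cd2d.shift 1 1), rh56f43794bcf10c2f] (by decide +kernel))
noncomputable def rh9ed0193af4147ace : CRef := CRef.mk (Pat.mk 0x90000000c000000080000000800000000 0x100000001c0000000f0000000c0000000c0000000c00000004 4 5) 0 0 (step_sound _ 130 [(rh50fbb5868c909700.shift 2 1), rhe98786ef5ee582a1] (by decide +kernel))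
noncomputable def rhca89228d51456c25 : CRef := CRef.mk (Pat.mk 0x200000006000000020000000600000000 0x60000000600000006000000070000003e00000008 4 6) 0 0 (step_sound _ 66 [(rh2145e1d24b96a57e.shift 1 1), rh6759a8bbc457c8e7] (by decide +kernel))
noncomputable def rhab1d70f87bdc4aa6 : CRef := CRef.mk (Pat.mk 0x600000004000000060000000200000000 0x20000000600000004000000070000003e00000008 4 6) 0 0 (step_sound _ 34 [rh36d4d92ef3dad5f8, (rh50fbb5868c909700.shift 1 1)] (by decide +kernel))
noncomputable def rhad9e8d2ebfdbf25d : CRef := CRef.mk (Pat.mk 0x80000000c0000000c0000000400000000 0x4000000060000000f0000003c0000000e0000000600000002 4 6) 0 0 (step_sound _ 130 [(rhbd1553ade3ecbf42.shift 1 0), (rhcf85c92937975d4d.shift 0 1)] (by decide +kernel))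
end Crest.Agent.S0047.Helper85.Cert
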