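import Crest.Agent.Lib.S0047.Helper85CertPL3F0
import Crest.Agent.Lib.S0047.Helper85CertPL3F1
import Crest.Agent.Lib.S0047.Helper85CertPL3F2
import Crest.Agent.Lib.S0047.Helper85CertPL3F3
import Crest.Agent.Lib.S0047.Helper85CertPL3F4
import Crest.Agent.Lib.S0047.Helper85CertPL3F5
set_option autoImplicit false
set_option linter.all false
set_option Elab.async false
namespace Crest.Agent.S0047.Helper85.Cert
open Crest.Agent.S0047.Helper85

noncomputable def rhe52b813a96e8d504 : CRef := CRef.mk (Pat.mk 0x80000000c0000000c000000040000000000000000 0x180000003c0000000f0000007c0000001800000018 4 7) 0 0 (step_sound _ 67 [(rh36d4d92ef3dad5f8.shift 1 1), (rh820d4e04d5dcd02e.shift 2 0), rha31e2286f1ebea1b] (by decide +kernel))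
noncomputable def rhf55e960decbfe488 : CRef := CRef.mk (Pat.mk 0x80000000c0000000c0000000400000000 0x60000000f0000003c0000000c0000000c00000008 4 6) 0 0 (step_sound _ 130 [(rh3cb04db3dd2b6a55.shift 2 0), (rhcf85c92937975d4d.shift 0 1)] (by decide +kernel))
noncomputable def rhfefdd13a953a891c : CRef := CRef.mk (Pat.mk 0x8000000180000001c000000000000000000000000 0x8000000180000003f0000000f0000000400000004 4 6) 0 0 (step_sound _ 97 [rh2f2a476ff54e80e6, (rh53b3c253cb0c65f4.shift 0 3)] (by decide +kernel))
noncomputable def rh08431d7c12d28f34 : CRef := CRef.mk (Pat.mk 0x40000000c0000000e000000000000000000000000 0x40000000c0000007e000000770000000200000002 4 7) 0 0 (step_sound _ 100 [rh1e8d6e1ef30e2d92, (rh87ee923877636e52.shift 1 2)] (by decide +kernel))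
noncomputable def rh77e68f229e542bff : CRef := CRef.mk (Pat.mk 0x40000000c0000000c0000000800000000 0x8000000180000003c0000000f0000001c0000001800000010 4 6) 0 0 (step_sound _ 131 [(rh0ff7ca71cb891e23.shift 2 0), (rhc0ddb33d3a52722b.shift 0 1)] (by decide +kernel))
noncomputable def rhc665bdf6ab87ec80 : CRef := CRef.mk (Pat.mk 0x1c00000018000000100000000000000000 0x300000001f00000018000000300000003000000030 4 6) 0 0 (step_sound _ 36 [(rh7b1f1fb55310c477.shift 3 0), rhcb834dc62fd737be] (by decide +kernel))
noncomputable def rhc76c27cdb4043c57 : CRef := CRef.mk (Pat.mk 0x8000000090000000c000000080000000000000000 0x10000000180000000f0000000c0000000c0000000c0000000c 4 5) 0 0 (step_sound _ 34 [(rh79877ebd3ef475dd.shift 2 1), rh892742f9fc10f0d2] (by decide +kernel))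
noncomputable def rh37aabad5c6ff43b9 : CRef := CRef.mk (Pat.mk 0x8000000080000000f000000000000000000000000 0xc0000000c0000000f0000001c0000000c0000000c 4 5) 0 0 (step_sound _ 67 [(rh9ee82b97cdeec3bd.shift 2 0), (rhe25b0a99195a5d59.shift 0 2)] (by decide +kernel))
noncomputable def rh156fc6e5108dea8d : CRef := CRef.mk (Pat.mk 0x8000000080000000f00000000 0x100000001c0000001c0000000c0000000c0000000f00000018 4 5) 0 0 (step_sound _ 131 [rh19cadee9b8878b41, (rh9a369cb82ea472da.shift 2 1)] (by decide +kernel))
noncomputable def rh00ce1533870109ed : CRef := CRef.mk (Pat.mk 0x6000000070000000400000000 0x6000000060000000600000006000000070000003e00000008 4 6) 0 0 (step_sound _ 130 [(rh503dd4575245365b.shift 1 1), (rh7f9f3607ee25a93b.shift 1 1), rhb0c6196f710d9a93] (by decide +kernel))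
noncomputable def rhb7995f00ab02a5de : CRef := CRef.mk (Pat.mk 0x1c0000000e000000000000000000000000 0x80000001c0000007e000000370000001000000010 4 7) 0 0 (step_sound _ 100 [(rhbbe16ff26f7822db.shift 1 0), (rhf10fa853c2693a25.shift 0 2)] (by decide +kernel))
noncomputable def rhae19bf54c38378fd : CRef := CRef.mk (Pat.mk 0x800000038000000180000001000000000 0x40000001f00000038000000380000001f00000004 4 6) 0 0 (step_sound _ 35 [rh6fae963f33cfdfd7, (rh79905f95cb2d899a.shift 0 1)] (by decide +kernel))
noncomputable def rh7571ce46bcb9b97c : CRef := CRef.mk (Pat.mk 0x380000000800000018000000100000000000000000 0x20000000380000002f0000007c000000300000001000000010 4 7) 0 0 (step_sound _ 101 [(rh61ebbcc17f085e4b.shift 3 0), (rhfd99604093c09fe0.shift 0 3)] (by decide +kernel))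
noncomputable def rhc9428ff8564c0dea : CRef := CRef.mk (Pat.mk 0x3000000030000000600000000 0x3000000030000000300000003000000030000000600000004 4 3) 0 0 (step_sound _ 129 [(rh55afc6a59410cf00.shift 1 0), (rh7f9f3607ee25a93b.shift 0 1)] (by decide +kernel))
noncomputable def rhfc2fa7d2f788329b : CRef := CRef.mk (Pat.mk 0x1c0000000c0000001800000000 0x800000008000000080000001c0000000f0000001c00000010 4 5) 0 0 (step_sound _ 64 [(rh24ae073cf30720c4.shift 0 2), (rh860fc38a6f91358e.shift 2 0)] (by decide +kernel))
noncomputable def rh7fac0ba50ebd42b6 : CRef := CRef.mk (Pat.mk 0x3000000030000000600000000 0x2000000020000000200000003000000030000001f00000004 4 5) 0 0 (step_sound _ 35 [rh860fc38a6f91358e, (rhf48373e13d2bc128.shift 0 1)] (by decide +kernel))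
noncomputable def rhf73d24657be753d5 : CRef := CRef.mk (Pat.mk 0x7000000010000000600000000 0x2000000020000000700000007000000070000000700000004 4 3) 0 0 (step_sound _ 129 [(rh935da622f8ebc962.shift 1 0), (rh95a80f84f48ac358.shift 1 0), (rh9cdee070315fb032.shift 0 1)] (by decide +kernel))
noncomputable def rhea45e02b54b84628 : CRef := CRef.mk (Pat.mk 0x380000000800000030 0x380000003f000000fc 4 8) 0 0 (step_sound _ 34 [(rh368dc3085932390d.shift 2 0), rh544c81fbbd507825, (rheea1a90336e79c71.shift 0 1)] (by decide +kernel))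
noncomputable def rh00a187acd9599501 : CRef := CRef.mk (Pat.mk 0x20000000e00000000 0x730000003e00000070 4 7) 0 0 (step_sound _ 36 [(rh3244c3cc8379b070.shift 0 1), (rh35e918dd76851f8c.shift 1 0)] (by decide +kernel))
noncomputable def rhe550fa1cacc360f4 : CRef := CRef.mk (Pat.mk 0x1c000000040000001c00000000 0xc0000001c000000340000001e00000033 4 6) 0 0 (step_sound _ 33 [rh1ae4704ae86cb9a8, (rhb8d97c085975ccce.shift 1 0)] (by decide +kernel))
noncomputable def rhe75edc6582963f18 : CRef := CRef.mk (Pat.mk 0x4000000040000001c00000000 0x400000004000000740000003e00000073 4 7) 0 0 (step_sound _ 33 [rh1ae4704ae86cb9a8, (rh35e918dd76851f8c.shift 1 0)] (by decide +kernel))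
noncomputable def rh5ba9479dd9ef8e04 : CRef := CRef.mk (Pat.mk 0x180000000400000018000000000000000000000000 0x8000000180000001f0000007c000000100000001000000010 4 7) 0 0 (step_sound _ 131 [(rh046c5eb18e55a239.shift 3 0), (rha355876672dc863a.shift 0 3)] (by decide +kernel))
noncomputable def rh510c42660c1ea792 : CRef := CRef.mk (Pat.mk 0xc000000000000000e000000000000000000000000 0x80000000c000000780000001f0000000c0000000400000004 4 7) 0 0 (step_sound _ 131 [(rh281c6819542c66e6.shift 2 0), (rhb37e485dff1e07aa.shift 0 3)] (by decide +kernel))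
noncomputable def rhb39d7c26da27ccad : CRef := CRef.mk (Pat.mk 0x1c000000040000001c000000000000000000000000 0x80000001c000000360000001e000000330000000200000002 4 6) 0 0 (step_sound _ 97 [(rhb8d97c085975ccce.shift 1 2), rhd1474a84c69f0140] (by decide +kernel))
noncomputable def rh24a97d9f305cf032 : CRef := CRef.mk (Pat.mk 0x6000000070000000400000000 0x60000000600000006000000060000000f0000003c00000008 4 6) 0 0 (step_sound _ 130 [(rh7f9f3607ee25a93b.shift 1 1), rhd9397e4126e81439] (by decide +kernel))
noncomputable def rh7a5965c44a8225db : CRef := CRef.mk (Pat.mk 0x200000003000000000000000300000000 0x3000000030000000300000003000000070000000700000004 4 3) 0 0 (step_sound _ 161 [(rh06181a2dc624c6f8.shift 0 1), (rh319673309b7ac683.shift 0 1), (rh615a42bddefc9f31.shift 0 1), rh8f94fa36ae1e9d19] (by decide +kernel))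
noncomputable def rhb88b2bfcded23270 : CRef := CRef.mk (Pat.mk 0x2000000060000000000000006 0x70000000700000007000000060000000600000006 4 3) 0 0 (step_sound _ 129 [(rh54abdced1742da06.shift 1 0), rh926290641404bff9, (rhc140869848ea0f2e.shift 1 0), (rhfc77473044a95557.shift 1 0)] (by decide +kernel))
noncomputable def rh1175891b13b4515d : CRef := CRef.mk (Pat.mk 0x70000000000000002000000020000000000000000 0x1000000070000000600000002000000030000000300000001 4 3) 0 0 (step_sound _ 129 [(rh50fbb5868c909700.shift 0 2), rh8aec56c4ee12918c] (by decide +kernel))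
noncomputable def rhe1f523da4fff994f : CRef := CRef.mk (Pat.mk 0x80000001c000000080000000c00000000 0x60000000f0000001c0000000e0000007c00000010 4 7) 0 0 (step_sound _ 66 [(rh1a1ff760019a7e53.shift 0 1), (rh36d4d92ef3dad5f8.shift 1 0)] (by decide +kernel))
noncomputable def rh8ddddf9cef9155e6 : CRef := CRef.mk (Pat.mk 0x200000002000000020000000300000000 0x1000000030000000300000002000000030000000700000004 4 3) 0 0 (step_sound _ 2 [(rha54302d5ccf5246c.shift 0 1), (rhd3458b32566d63f7.shift 1 0)] (by decide +kernel))
noncomputable def rh213f367a66b10f54 : CRef := CRef.mk (Pat.mk 0x1000000018000000100000001800000000 0x180000001800000018000000380000001f00000004 4 6) 0 0 (step_sound _ 67 [(rh5c5e593799055d58.shift 3 1), rh6d3602f45702e5fd] (by decide +kernel))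
noncomputable def rh51d88c43a6072807 : CRef := CRef.mk (Pat.mk 0x80000000e000000080000000c00000000 0x40000000c0000000e0000007c0000001f00000013 4 7) 0 0 (step_sound _ 33 [rh06cb93baffa4712e, rha9a87af2238a69fc, (rhb4cf4243a8d6b246.shift 0 1)] (by decide +kernel))
noncomputable def rh3905ea413cf31557 : CRef := CRef.mk (Pat.mk 0x200000002000000020000000200000000 0x5000000070000000700000002000000020000000300000001 4 3) 0 0 (step_sound _ 32 [(rh7ef5fa5c39f1c762.shift 0 1), rh932754581e0f4330] (by decide +kernel))
noncomputable def rh406e596b02533a07 : CRef := CRef.mk (Pat.mk 0x70000000000000006000000000000000000000000 0x7000000070000000600000006000000060000000400000004 4 3) 0 0 (step_sound _ 129 [(rh046c5eb18e55a239.shift 1 0), (rh261f868a429ae0e3.shift 0 2)] (by decide +kernel))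
noncomputable def rh85aebd8c617736f7 : CRef := CRef.mk (Pat.mk 0x38000000080000001800000010 0x20000000380000006f000000fe0000007c 4 8) 0 0 (step_sound _ 37 [(rh9f93e2b24091a43d.shift 2 0), (rhd623d5160984650b.shift 1 0), (rhfd99604093c09fe0.shift 0 1)] (by decide +kernel))
noncomputable def rhe78b37986e143ce6 : CRef := CRef.mk (Pat.mk 0xc000000000000000e00000004 0x80000000c000000780000001f00000004 4 7) 0 0 (step_sound _ 67 [(rh5c5e593799055d58.shift 2 0), (rhb37e485dff1e07aa.shift 0 1)] (by decide +kernel))
noncomputable def rh6b9df646b7babe1b : CRef := CRef.mk (Pat.mk 0x1c00000008 0xe00000007f000000ff 4 8) 0 0 (step_sound _ 37 [rh0a31c7f562fb8d12, (rh35e918dd76851f8c.shift 2 0), (rhaf9f2efc81a8312b.shift 1 0)] (by decide +kernel))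
noncomputable def rh645e136e7f4e2ccd : CRef := CRef.mk (Pat.mk 0x600000006000000030000000000000000 0x600000006000000070000003f0000001c00000004 4 6) 0 0 (step_sound _ 66 [(rh3cb04db3dd2b6a55.shift 1 0), (rh5f99a340f54a2fa1.shift 0 1)] (by decide +kernel))
noncomputable def rhb6fc2c2dcd594eaf : CRef := CRef.mk (Pat.mk 0xc0000000c000000060000000000000000 0xc0000000c0000000e0000007f0000003800000018 4 7) 0 0 (step_sound _ 67 [rh312eadfd36a7b554, (rh3cb04db3dd2b6a55.shift 2 0), (rh5f99a340f54a2fa1.shift 1 1)] (by decide +kernel))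
noncomputable def rh11203abb954732bf : CRef := CRef.mk (Pat.mk 0x8000000080000000e000000000000000000000000 0x80000001f0000003e000000770000001000000010 4 7) 0 0 (step_sound _ 100 [(rh56f43794bcf10c2f.shift 0 2), (rh8db7f7558b75b2b1.shift 0 2), (rhd132b680030c88e0.shift 1 0)] (by decide +kernel))
noncomputable def rhb9216f5f29d394d8 : CRef := CRef.mk (Pat.mk 0x1c00000000 0xf0000007e000000ef 4 8) 0 0 (step_sound _ 37 [rh2cc7d62e70c02209, (rh2eb6cac0fecf3e9c.shift 1 0), (rh8db7f7558b75b2b1.shift 1 0)] (by decide +kernel))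
noncomputable def rhf18ef4a8fbb6690e : CRef := CRef.mk (Pat.mk 0x60000000100000003800000000 0x600000003f0000007e00000007 4 7) 0 0 (step_sound _ 34 [rh2cc7d62e70c02209, rh4c063b89d42a2070, (rhb29d95cbf1e304de.shift 1 1)] (by decide +kernel))
noncomputable def rhc481bd2c215c394f : CRef := CRef.mk (Pat.mk 0x2000000070000000000000001 0x2000000020000000200000007000000070000000700000001 4 3) 0 0 (step_sound _ 129 [rh06181a2dc624c6f8, (rh1c4565005575659e.shift 0 1), rh615a42bddefc9f31] (by decide +kernel))
noncomputable def rh4a3d7c69087edf6b : CRef := CRef.mk (Pat.mk 0x200000002000000020000000300000000 0x4000000060000000600000002000000030000000700000004 4 3) 0 0 (step_sound _ 2 [(rh9a369cb82ea472da.shift 0 1), (rhd3458b32566d63f7.shift 1 0)] (by decide +kernel))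
noncomputable def rh85605263a07226a5 : CRef := CRef.mk (Pat.mk 0x40000000c000000000000000e 0x40000000c0000000c0000007c0000001f 4 7) 0 0 (step_sound _ 35 [(rha3df16ea9c8576c8.shift 2 0), rhb37e485dff1e07aa] (by decide +kernel))
noncomputable def rha7c19cbe0494ee24 : CRef := CRef.mk (Pat.mk 0x200000007000000000000000300000000 0x2000000020000000600000007000000070000000700000004 4 3) 0 0 (step_sound _ 161 [(rh046c5eb18e55a239.shift 1 0), rh1fefa67dc6e412ed, (rh615a42bddefc9f31.shift 0 1), (rhde10baa3043a2b46.shift 0 2)] (by decide +kernel))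
noncomputable def rh5b603ec830095063 : CRef := CRef.mk (Pat.mk 0x40000000c000000000000000e00000000 0x40000000c000000780000001f00000008 4 7) 0 0 (step_sound _ 67 [(rh7b1f1fb55310c477.shift 2 0), (rhb37e485dff1e07aa.shift 0 1)] (by decide +kernel))
noncomputable def rhac9ee2aeb2fe9ce0 : CRef := CRef.mk (Pat.mk 0x8000000000000003800000000 0x800000008000000fe0000007e00000007 4 8) 0 0 (step_sound _ 34 [rh2c1baeadcd4b32f5, (rhab8fac7c98d4cbba.shift 1 0), (rhf94411b389c3e54c.shift 1 1)] (by decide +kernel))
noncomputable def rh9bc6128627c29644 : CRef := CRef.mk (Pat.mk 0x1000000038000000080000001800000000 0x100000001000000030000000380000002f0000007c00000020 4 7) 0 0 (step_sound _ 37 [(rh95a80f84f48ac358.shift 4 0), (rhfd99604093c09fe0.shift 0 1)] (by decide +kernel))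
noncomputable def rh263028e65b1ac528 : CRef := CRef.mk (Pat.mk 0x80000001c000000040000000c000000000000000000000000 0x20000000f0000001c000000170000003e000000320000000200000002 4 6) 0 0 (step_sound _ 97 [(rh63481a5b9557685c.shift 0 2), (rhd7c212e4554c17ce.shift 0 2), (rhfafeb437ceb8396d.shift 1 0)] (by decide +kernel))
noncomputable def rhd2a5556f8f889ba0 : CRef := CRef.mk (Pat.mk 0x200000007000000000000000100000000 0x2000000020000000700000007000000070000000500000004 4 3) 0 0 (step_sound _ 161 [(rh046c5eb18e55a239.shift 1 0), (rh06181a2dc624c6f8.shift 0 1)] (by decide +kernel))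
noncomputable def rh9632a0afe4554a72 : CRef := CRef.mk (Pat.mk 0x200000002000000000000000700000000 0x1000000030000000300000002000000060000000700000001 4 3) 0 0 (step_sound _ 65 [(rh65909b08999dc522.shift 0 1), rh932754581e0f4330] (by decide +kernel))
noncomputable def rh0c8c6ce6f623e21f : CRef := CRef.mk (Pat.mk 0x10000000000000000700000008 0x1000000010000000380000001f00000018 4 6) 0 0 (step_sound _ 35 [rhc6a09b7b20e918dc, rhe25b0a99195a5d59] (by decide +kernel))
noncomputable def rhe7826c533c01579e : CRef := CRef.mk (Pat.mk 0x30000000000000003800000000 0x1000000030000000670000003e00000067 4 7) 0 0 (step_sound _ 34 [rh2cc7d62e70c02209, (rhb8d97c085975ccce.shift 2 0)] (by decide +kernel))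
noncomputable def rh5eadc9d00e5b3196 : CRef := CRef.mk (Pat.mk 0xc000000000000001e0000000000000000 0x40000000c000000080000001f0000003800000010 4 6) 0 0 (step_sound _ 36 [rh3835434a8d03cc1d, (rhe25b0a99195a5d59.shift 1 1)] (by decide +kernel))
noncomputable def rhb5ec004ea5811efc : CRef := CRef.mk (Pat.mk 0x6000000000000000e00000000 0x400000006000000730000003e00000073 4 7) 0 0 (step_sound _ 36 [(rh35e918dd76851f8c.shift 1 0), rh4dde45b6cee3e19c] (by decide +kernel))
noncomputable def rh0534d8a281156e73 : CRef := CRef.mk (Pat.mk 0x8000000000000001e0000000000000000 0x8000000380000001f0000003000000010 4 6) 0 0 (step_sound _ 36 [rha7a725c2fa3d3f6a, (rhe25b0a99195a5d59.shift 1 1)] (by decide +kernel))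
noncomputable def rh302b1df20b75da19 : CRef := CRef.mk (Pat.mk 0x38000000000000001e00000000 0x800000008000000380000003f0000001e00000004 4 6) 0 0 (step_sound _ 68 [rh20ffb5226af2495b, (rh33e738c4ed385b9f.shift 1 1)] (by decide +kernel))
noncomputable def rh3a22e68ed53b502d : CRef := CRef.mk (Pat.mk 0x200000002000000000000000300000000 0x1000000030000000300000002000000060000000700000005 4 3) 0 0 (step_sound _ 65 [rh29dd5384d80ecb1e, rh932754581e0f4330] (by decide +kernel))
noncomputable def rh69cbdfbecafaa00d : CRef := CRef.mk (Pat.mk 0x1000000038000000080000001800000000 0x1000000030000000380000002f0000007c00000030 4 7) 0 0 (step_sound _ 37 [(rhac640c8fd4633ef8.shift 4 0), (rhfd99604093c09fe0.shift 0 1)] (by decide +kernel))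
noncomputable def rh06744fb13cee60d7 : CRef := CRef.mk (Pat.mk 0x30000000000000003800000000 0x1000000030000000e00000007e0000007f 4 8) 0 0 (step_sound _ 34 [rh8195a2d7794c7cd2, (rhb8d97c085975ccce.shift 2 0), (rhdd4fe9fd28ed4c0f.shift 1 0)] (by decide +kernel))
noncomputable def rh488b16ad003e5a09 : CRef := CRef.mk (Pat.mk 0x70000000000000003000000000000000000000000 0x6000000070000000700000003000000030000000300000001 4 3) 0 0 (step_sound _ 129 [rh281c6819542c66e6, (rh435fb3ef4ac648b4.shift 0 1), rhfafeb437ceb8396d] (by decide +kernel))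
noncomputable def rh60ee202e31ad7bce : CRef := CRef.mk (Pat.mk 0x18000000100000001800000000 0x1800000018000000180000003c000000ff00000024 4 8) 0 0 (step_sound _ 67 [(rhf7ac44032989c9ef.shift 2 0), rhfba219b2ab1310a3] (by decide +kernel))
noncomputable def rh9fb6d5ba96f77917 : CRef := CRef.mk (Pat.mk 0x70000000000000003000000000000000000000000 0x5000000070000000700000003000000030000000200000002 4 3) 0 0 (step_sound _ 65 [rh0588d2c7f2cab5e9, (rh5a4df29f20c07a62.shift 0 2), (rh63624046dbd83126.shift 0 1)] (by decide +kernel))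
noncomputable def rh83b9ad1122fbd747 : CRef := CRef.mk (Pat.mk 0x70000000000000003000000000000000000000000 0x7000000070000000300000003000000030000000100000001 4 3) 0 0 (step_sound _ 129 [(rh261f868a429ae0e3.shift 0 2), rhfafeb437ceb8396d] (by decide +kernel))
noncomputable def rhbe29b54a853e8f08 : CRef := CRef.mk (Pat.mk 0x80000000c000000090000000800000000 0xc0000000c0000000c0000000c0000000f0000001800000010 4 5) 0 0 (step_sound _ 162 [rhcd8028d351a3f391, (rhffd04209dc8ea796.shift 2 1)] (by decide +kernel))
noncomputable def rhfb21238adaac4bf0 : CRef := CRef.mk (Pat.mk 0xf00000008000000080000000000000000 0x1c0000000f000000080000000c0000000c00000004 4 5) 0 0 (step_sound _ 35 [rh21e297ba020e9d20, (rh50fbb5868c909700.shift 2 1)] (by decide +kernel))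
noncomputable def rh6c7c0e518e45e0f5 : CRef := CRef.mk (Pat.mk 0xf000000080000000800000000 0x40000000c0000001c0000000f0000000c0000000c00000004 4 5) 0 0 (step_sound _ 131 [(rh0fd870c734e6c513.shift 2 0), (rh33e738c4ed385b9f.shift 0 3)] (by decide +kernel))
noncomputable def rh5aedf4360cdad7f4 : CRef := CRef.mk (Pat.mk 0xf0000000800000008000000000000000000000000 0x180000000f0000000c0000000c0000001c0000001c00000014 4 5) 0 0 (step_sound _ 67 [(rh1f3a6ba70a310ab1.shift 2 0), (rh21e297ba020e9d20.shift 0 1), (rha613ffd40b6c9d24.shift 2 0)] (by decide +kernel))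
noncomputable def rh23fbf73b322139a5 : CRef := CRef.mk (Pat.mk 0x6000000020000000300000000 0x4000000040000000600000006000000060000000300000003 4 3) 0 0 (step_sound _ 0 [rh5c5e593799055d58, (rhb730ba14aa32bdb3.shift 1 0)] (by decide +kernel))
noncomputable def rh8fe6a7b93cc0af88 : CRef := CRef.mk (Pat.mk 0x4000000020000000300000002000000000000000000000000 0x4000000070000000300000002000000030000000300000001 4 3) 0 0 (step_sound _ 65 [rh24b4f41f846cb1d8, (rhbaefcd01e0a8bca3.shift 1 2)] (by decide +kernel))
noncomputable def rhe6a37cdc23d9d441 : CRef := CRef.mk (Pat.mk 0x30000000000000003000000020000000000000000 0x4000000070000000700000003000000030000000300000003 4 3) 0 0 (step_sound _ 33 [rh03006bccc11e0be3, rh3a1cc22ead2eadb0, rh50a14b5cf38c0cd7] (by decide +kernel))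
noncomputable def rh1e8f3448920a9955 : CRef := CRef.mk (Pat.mk 0x6000000000000000700000000 0x2000000020000000600000006000000070000000700000005 4 3) 0 0 (step_sound _ 129 [rh08288fcdb14b309b, (rh935da622f8ebc962.shift 1 0), (rh95a80f84f48ac358.shift 1 0), rhbf726fa7097229f2] (by decide +kernel))
noncomputable def rhf9d1b77bacd15c12 : CRef := CRef.mk (Pat.mk 0x60000000000000006000000020000000000000000 0x60000000600000006000000070000000700000007 4 3) 0 0 (step_sound _ 33 [(rh42a7bbf213dec003.shift 1 0), (rh514fa720804abbca.shift 1 0), rhe590139e3ec00efc] (by decide +kernel))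
noncomputable def rh973167d6786c7b24 : CRef := CRef.mk (Pat.mk 0xc000000080000001c0000000800000000 0x100000003c0000000f0000001c0000000f00000006 4 6) 0 0 (step_sound _ 98 [rh5eb33fb39f0ce454, (rhd88e1e5c6d7f696b.shift 0 1)] (by decide +kernel))
noncomputable def rh4db5081f3e83463a : CRef := CRef.mk (Pat.mk 0xc000000080000000c0000000800000000 0x130000001f0000007c0000000c0000000c00000004 4 7) 0 0 (step_sound _ 129 [rh299b6b564d8333ea, (rh8ee80cc30e93a344.shift 0 3), (rhc21a95c499b3efdb.shift 0 3)] (by decide +kernel))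
noncomputable def rh7e93cab1fff43488 : CRef := CRef.mk (Pat.mk 0xc000000040000000e0000000400000000 0x120000003f0000003f0000000e0000000c00000008 4 6) 0 0 (step_sound _ 99 [(rh53cccbb248b8ab65.shift 0 1), rha31e2286f1ebea1b] (by decide +kernel))
noncomputable def rh98eeda96fd8e3365 : CRef := CRef.mk (Pat.mk 0x1000000018000000080000002000000000 0x7c000000fe0000006f0000002000000020 4 8) 0 0 (step_sound _ 101 [(rh2820ca9a6c4f41b4.shift 0 2), (rh81856f8078098c11.shift 1 0), (rha83d0a1d851c6a27.shift 2 2)] (by decide +kernel))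
noncomputable def rh69a090d1484f48a7 : CRef := CRef.mk (Pat.mk 0x1000000018000000080000002000000000 0x1000000010000000300000007c0000002f0000002000000020 4 7) 0 0 (step_sound _ 101 [(rh2820ca9a6c4f41b4.shift 0 2), (rh95a80f84f48ac358.shift 4 0)] (by decide +kernel))
noncomputable def rhab7bf266c6608c6c : CRef := CRef.mk (Pat.mk 0x30000000000000002000000020000000000000000 0x1000000030000000200000002000000070000000700000005 4 3) 0 0 (step_sound _ 129 [rh3181373a30ceb9e3, (rh50fbb5868c909700.shift 0 2)] (by decide +kernel))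
noncomputable def rha34d670511270f6b : CRef := CRef.mk (Pat.mk 0xe000000000000000c000000040000000000000000 0x1f0000007c0000000c000000040000000400000004 4 7) 0 0 (step_sound _ 131 [(rh8ee80cc30e93a344.shift 0 4), (rhf9af042da61fc652.shift 2 0)] (by decide +kernel))
noncomputable def rhf96ebf920e2b41e8 : CRef := CRef.mk (Pat.mk 0x60000000000000002000000020000000000000000 0x4000000060000000200000002000000070000000700000005 4 3) 0 0 (step_sound _ 129 [(rh2f68792b6b779e96.shift 1 2), rh3181373a30ceb9e3] (by decide +kernel))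
noncomputable def rhfb2dc840317dabeb : CRef := CRef.mk (Pat.mk 0xe000000000000000400000004 0x780000001f000000040000000400000004 4 7) 0 0 (step_sound _ 131 [(rh04253f50b6dd0619.shift 2 0), (rha11dfd15f08f96e3.shift 0 3)] (by decide +kernel))
noncomputable def rhf6a940288d7d08ea : CRef := CRef.mk (Pat.mk 0x38000000000000000800000000 0x70000007e000000fe0000000800000008 4 8) 0 0 (step_sound _ 98 [(rh2ba551de881ca4cd.shift 0 2), (rh857fce16ab573409.shift 1 0), (rh8db7f7558b75b2b1.shift 1 2)] (by decide +kernel))
noncomputable def rh1d114e90e09a2157 : CRef := CRef.mk (Pat.mk 0x180000000800000038000000100000000000000000 0x200000007c0000002f00000038000000300000001000000010 4 7) 0 0 (step_sound _ 165 [(rh2820ca9a6c4f41b4.shift 0 4), (rh61ebbcc17f085e4b.shift 3 0)] (by decide +kernel))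
noncomputable def rhb8b64e15c55b6665 : CRef := CRef.mk (Pat.mk 0xc000000040000001c0000000800000000 0x120000003e000000370000001c0000000f00000002 4 6) 0 0 (step_sound _ 129 [rh09d7875afd1d8601, (rh32e1d3c95004e2c1.shift 0 1)] (by decide +kernel))
noncomputable def rhda87c0beeb733ee8 : CRef := CRef.mk (Pat.mk 0x1000000000000000700000002000000000000000000000000 0x1000000070000000700000007000000020000000200000002 4 3) 0 0 (step_sound _ 65 [(rh261f868a429ae0e3.shift 0 1), rh435fb3ef4ac648b4, (rh92d527fd57e151ef.shift 0 2)] (by decide +kernel))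
noncomputable def rh31e0e017d3feadb2 : CRef := CRef.mk (Pat.mk 0x38000000000000003000000000 0x670000003e000000670000003000000010 4 7) 0 0 (step_sound _ 98 [(rh2cc7d62e70c02209.shift 0 2), (rh7eaf814fd0a6a93e.shift 2 0)] (by decide +kernel))
noncomputable def rh9c811058092aeaa2 : CRef := CRef.mk (Pat.mk 0xe000000000000000c000000000000000000000000 0x80000001f000000780000000c0000000c0000000400000004 4 7) 0 0 (step_sound _ 131 [(rh281c6819542c66e6.shift 2 0), (rh8ee80cc30e93a344.shift 0 4)] (by decide +kernel))
noncomputable def rh4f11dcd1c06a1ee5 : CRef := CRef.mk (Pat.mk 0xe000000000000000600000000 0x730000003e000000730000000600000004 4 7) 0 0 (step_sound _ 100 [(rh35e918dd76851f8c.shift 1 2), rh71bbb00ef1ecd8fb] (by decide +kernel))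
noncomputable def rh84e2c0325879ff31 : CRef := CRef.mk (Pat.mk 0x1e00000000000000040000000000000000 0x20000003e00000007000000040000000400000004 4 6) 0 0 (step_sound _ 97 [(rhb7a3682d1d9eb506.shift 1 0), (rheb0810cc63b001d8.shift 0 3)] (by decide +kernel))
noncomputable def rh9be32beaf5c2fa0a : CRef := CRef.mk (Pat.mk 0x1e00000000000000380000000000000000 0x40000001e0000003f000000380000000800000008 4 6) 0 0 (step_sound _ 100 [rh272edc0eee48e1a5, (rhe25b0a99195a5d59.shift 1 3)] (by decide +kernel))
noncomputable def rh4e9d2d98dbed1e71 : CRef := CRef.mk (Pat.mk 0x1c000000040000001c00000000 0x2000000330000001e000000370000001c00000008 4 6) 0 0 (step_sound _ 97 [(rh7eaf814fd0a6a93e.shift 1 0), (rhe4f9133a81c1dbc5.shift 0 1)] (by decide +kernel))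
noncomputable def rhd63e5c19147ed538 : CRef := CRef.mk (Pat.mk 0x60000000200000002000000000000000000000000 0x5000000070000000300000002000000030000000300000001 4 3) 0 0 (step_sound _ 65 [rh0c1c1b53bc5a1510, (rh2f68792b6b779e96.shift 1 2)] (by decide +kernel))
noncomputable def rha7216fcd19efbcc6 : CRef := CRef.mk (Pat.mk 0x30000000000000006000000000000000000000000 0x10000000100000003000000030000000700000006000000060000000400000004 4 3) 0 0 (step_sound _ 129 [(rh046c5eb18e55a239.shift 1 0), (rhf9a6286f1d5377a2.shift 0 2)] (by decide +kernel))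
noncomputable def rhba61acd9a87b90f0 : CRef := CRef.mk (Pat.mk 0xc000000080000000c0000000000000000 0x120000003f0000003f0000000c0000000c0000000c 4 6) 0 0 (step_sound _ 98 [rh8f1158d9f5036793, rha31e2286f1ebea1b] (by decide +kernel))
noncomputable def rhcedd5e9fe4530936 : CRef := CRef.mk (Pat.mk 0x3000000000000000700000000 0x2000000020000000300000003000000070000000700000005 4 3) 0 0 (step_sound _ 129 [rh00d6a6e3c7e3bb40, rh6d796465eef217ca, rhbf726fa7097229f2, rhecb97fed8c7f1286] (by decide +kernel))
noncomputable def rh7a1ec20aaa476afd : CRef := CRef.mk (Pat.mk 0x3000000000000000700000000 0x1000000010000000300000003000000030000000700000007 4 3) 0 0 (step_sound _ 65 [rhde10baa3043a2b46, rhf9a6286f1d5377a2] (by decide +kernel))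
noncomputable def rhde0ae81b70105bed : CRef := CRef.mk (Pat.mk 0x40000000c000000080000000c00000000 0x100000003c0000000f000000080000000c00000004 4 6) 0 0 (step_sound _ 131 [(rh932754581e0f4330.shift 2 0), (rhc0ddb33d3a52722b.shift 0 1)] (by decide +kernel))
noncomputable def rha03bfacd308df03b : CRef := CRef.mk (Pat.mk 0x40000000c000000180000000c00000000 0x40000000f0000001e0000000f00000002 4 5) 0 0 (step_sound _ 33 [(rh53b3c253cb0c65f4.shift 0 1), rh76860ba85bb00b71] (by decide +kernel))
noncomputable def rh74e90413bd5343f9 : CRef := CRef.mk (Pat.mk 0x40000000c0000000c0000000800000000 0x18000000180000003c0000000f0000000c0000000c00000004 4 6) 0 0 (step_sound _ 131 [(rh5fa50b509d4ce753.shift 2 1), (rhc0ddb33d3a52722b.shift 0 1), (rhea7a1800d6f053bd.shift 2 0)] (by decide +kernel))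
noncomputable def rhda30ab8c50a03cc1 : CRef := CRef.mk (Pat.mk 0x40000000c0000000c00000008 0x18000000180000003c0000000f0000007c00000018 4 7) 0 0 (step_sound _ 99 [(rh5fa50b509d4ce753.shift 2 0), rhc0ddb33d3a52722b, (rhf7ac44032989c9ef.shift 1 0)] (by decide +kernel))
noncomputable def rh07fdade4340cae78 : CRef := CRef.mk (Pat.mk 0x80000001800000018000000100000000000000000 0x1800000018000000380000001f0000000c00000008 4 6) 0 0 (step_sound _ 67 [(rh6fae963f33cfdfd7.shift 0 1), (rhea7a1800d6f053bd.shift 3 0)] (by decide +kernel))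
noncomputable def rh9a3074a8bfba6b6f : CRef := CRef.mk (Pat.mk 0x180000003800000000 0x18000000ff000000e7 4 8) 0 0 (step_sound _ 34 [rh0e1512cbacfbd48b, (rh87ee923877636e52.shift 2 0)] (by decide +kernel))
noncomputable def rhae7e98e196d5d6c2 : CRef := CRef.mk (Pat.mk 0x200000002000000020000000e00000000 0x2000000020000003e0000003f00000071 4 7) 0 0 (step_sound _ 36 [(rh60e95adc726bb530.shift 1 0), rh736ad3523bdf45b7] (by decide +kernel))
noncomputable def rheac93968ba841aec : CRef := CRef.mk (Pat.mk 0x1c0000001800000008 0x4000000040000000f0000003f0000001800000008 4 6) 0 0 (step_sound _ 65 [rh79dc201a991d9ce1, (rhb739f4f82bb681b4.shift 0 1)] (by decide +kernel))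
noncomputable def rhe1323e51c7b14ae8 : CRef := CRef.mk (Pat.mk 0xe0000000c00000004 0x200000002000000770000007e0000000c00000004 4 7) 0 0 (step_sound _ 68 [rh1c1037cb5b3fe471, (rh226655e3fe6b4a8a.shift 1 1), (rh771383521b68d2cd.shift 0 1)] (by decide +kernel))
noncomputable def rhb6b14370d559cc09 : CRef := CRef.mk (Pat.mk 0x40000000600000006000000020000000000000000 0x80000000c0000000e000000070000003e0000000c00000004 4 6) 0 0 (step_sound _ 66 [(rh15a1b6b82d9fd81f.shift 1 0), (rh36d4d92ef3dad5f8.shift 0 1)] (by decide +kernel))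
noncomputable def rh2393fd08fc2a6a29 : CRef := CRef.mk (Pat.mk 0x80000000c0000000e0000000000000000 0x1800000018000000180000000c0000000f0000001800000010 4 5) 0 0 (step_sound _ 163 [(rh5c5e593799055d58.shift 2 2), rha4dffa91218301a0] (by decide +kernel))
noncomputable def rh4026222baf5f003b : CRef := CRef.mk (Pat.mk 0x800000038000000080000000000000000 0x140000001f0000003c000000080000000800000008 4 6) 0 0 (step_sound _ 35 [(rh29245de5933fbe8d.shift 1 0), (rh53509d91ff78ed56.shift 0 1), (rha707fb719e87fe6e.shift 3 0)] (by decide +kernel))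
noncomputable def rh7698605c01c21143 : CRef := CRef.mk (Pat.mk 0x2000000020000000a00000003 0x4000000070000000700000003000000060000001e00000003 4 5) 0 0 (step_sound _ 129 [rh3ca48e2a6d60153d, rhc4e6b3e7d2fc63fc] (by decide +kernel))
noncomputable def rh5840dbfc019b4d17 : CRef := CRef.mk (Pat.mk 0x8000000380000000800000000 0x4000000040000000c0000001f000000380000000800000008 4 6) 0 0 (step_sound _ 98 [(rhb1a251d9bff81766.shift 2 0), (rhc02b3aee7ab87ee1.shift 0 2)] (by decide +kernel))
noncomputable def rh00f02f6d7291dc0e : CRef := CRef.mk (Pat.mk 0x20000000a00000003000000020000000000000000 0x60000001e00000003000000030000000300000001 4 5) 0 0 (step_sound _ 32 [(rh79877ebd3ef475dd.shift 0 1), rhbad73f65045509eb] (by decide +kernel))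
noncomputable def rh8027a5bd520e3737 : CRef := CRef.mk (Pat.mk 0x20000000a00000003000000020000000000000000 0x60000001e00000003000000060000000600000004 4 5) 0 0 (step_sound _ 34 [rha81a080b97a85d56, (rhd3458b32566d63f7.shift 1 1)] (by decide +kernel))
noncomputable def rh319540ef991e663b : CRef := CRef.mk (Pat.mk 0x40000001c0000001c0000000000000000 0x180000001a0000001f0000001c0000001c0000000c0000000c 4 5) 0 0 (step_sound _ 131 [(rh120c112a4b59c2f6.shift 2 0), rhda49d08e88765cc3, (rhea7a1800d6f053bd.shift 2 0)] (by decide +kernel))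
noncomputable def rh5a9dd23916780b87 : CRef := CRef.mk (Pat.mk 0x18000000380000000800000000 0xc0000000c0000000c00000018000000380000001f00000004 4 6) 0 0 (step_sound _ 131 [(rh3e595262c1b737ad.shift 3 1), rh852e818bc8629e77, (rh90b823c913a425e8.shift 2 1)] (by decide +kernel))
noncomputable def rha3866330d05cd2df : CRef := CRef.mk (Pat.mk 0x1f0000000a0000000000000000 0x8000000180000003f0000000e0000000400000004 4 6) 0 0 (step_sound _ 66 [(rh18965a982d73c794.shift 1 2), rh34b1188e635efc8d] (by decide +kernel))
noncomputable def rhf4ff21b4046eeb56 : CRef := CRef.mk (Pat.mk 0x60000000e00000008 0x10000000300000003e0000003f00000008 4 6) 0 0 (step_sound _ 68 [(rh7dcd5319f4f71bec.shift 0 1), rha92bab927db6c750, (rheff610e725081997.shift 1 1)] (by decide +kernel))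
noncomputable def rhec719051bea4f0d3 : CRef := CRef.mk (Pat.mk 0x20000000200000002000000000000000000000000 0x3000000030000000300000007000000070000000700000005 4 3) 0 0 (step_sound _ 65 [rh0c1c1b53bc5a1510, rh3181373a30ceb9e3, (rhabedd109a9a37101.shift 0 1), rhcae87bda2c3c01d2] (by decide +kernel))
noncomputable def rhc42981b223c36d37 : CRef := CRef.mk (Pat.mk 0x2000000038000000280000002000000000 0x200000003c0000002f0000007800000050 4 7) 0 0 (step_sound _ 38 [(rh55afc6a59410cf00.shift 5 0), rha493d639829a8be6] (by decide +kernel))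
noncomputable def rhdc00b03058d32899 : CRef := CRef.mk (Pat.mk 0x500000005000000010000000200000000 0x50000000500000005000000070000000700000002 4 3) 0 0 (step_sound _ 1 [rhbe0e43a3bc50a43f, rhce7cdf4dcbca80ec] (by decide +kernel))
noncomputable def rh646420a554b33481 : CRef := CRef.mk (Pat.mk 0x1400000014000000040000000a00000000 0x1000000014000000140000003e0000003f00000028 4 6) 0 0 (step_sound _ 68 [rh77cd9d39e17a4dc8, (rh898b00843c8cec29.shift 3 0), (rhacb21b0519115518.shift 0 1), (rhe38ad39d05c44887.shift 2 0)] (by decide +kernel))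
noncomputable def rh05f1ca4498dcb1f9 : CRef := CRef.mk (Pat.mk 0xc00000028000000080000000800000000 0xf0000007c000000080000001800000010 4 7) 0 0 (step_sound _ 4 [(rh8c25cb665ab79ec0.shift 0 3), (rhd3458b32566d63f7.shift 3 0)] (by decide +kernel))
noncomputable def rh2416aa61ab8e10c1 : CRef := CRef.mk (Pat.mk 0x10000000a0000000a0000000a00000000 0x10000000b0000000a0000000b0000001e00000034 4 6) 0 0 (step_sound _ 34 [rh299a18a9bb09cab4, (rh5fc67bac28a8b5bb.shift 1 0), rh6196b452c518de56] (by decide +kernel))
noncomputable def rh749b9667ede37e67 : CRef := CRef.mk (Pat.mk 0xa0000000a0000000a0000000000000000 0x10000000180000001a0000000b0000001e0000001e00000014 4 5) 0 0 (step_sound _ 163 [(rh11a243992b58ed44.shift 0 1), (rh257fa66c90152105.shift 1 0), (rhec588a0d7783acc6.shift 3 0)] (by decide +kernel))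
noncomputable def rhddb4a0ef75b6f42a : CRef := CRef.mk (Pat.mk 0x1a0000000b0000000200000000 0x10000000120000001a0000001a0000000b0000001f0000000d 4 5) 0 0 (step_sound _ 35 [rh1de9ce977e52b750, (rh215e11e099257d75.shift 3 0), rhcb70e1b2667f61ac] (by decide +kernel))
noncomputable def rhfe2da682bd6eedad : CRef := CRef.mk (Pat.mk 0x14000000160000000400000002 0x1400000014000000170000003e0000000b 4 6) 0 0 (step_sound _ 35 [(rh518d6f6eeebddcb2.shift 1 0), (rh721afcb8e9f735cc.shift 1 0), rha42c5dfa6c5d377a] (by decide +kernel))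
noncomputable def rhbdfb121dfc6094f5 : CRef := CRef.mk (Pat.mk 0xa0000000b000000020000000100000000 0xa0000000a0000000b0000001e0000000700000005 4 5) 0 0 (step_sound _ 34 [rh2818863d77d69ed0, (rhfb3bc5848474ac0d.shift 0 1)] (by decide +kernel))
noncomputable def rhc16b154d96117f13 : CRef := CRef.mk (Pat.mk 0x2800000028000000280000000000000000 0x20000000280000002f0000007c0000003800000010 4 7) 0 0 (step_sound _ 68 [(rha9fbfd4bb8cf890b.shift 0 2), (rheb0b9bc7ed312347.shift 3 0)] (by decide +kernel))
noncomputable def rhc6be2ee08ede4beb : CRef := CRef.mk (Pat.mk 0x1c00000020 0x70000003e00000037 4 6) 0 0 (step_sound _ 33 [rh56f43794bcf10c2f, (rh96851dee118c1ba3.shift 1 0)] (by decide +kernel))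
noncomputable def rh9d31e15352f55df1 : CRef := CRef.mk (Pat.mk 0x2000000030000000200000002000000000000000000000000 0x20000000200000002000000030000000300000003000000030000000300000001 4 2) 0 0 (step_sound _ 65 [rh1f3a6ba70a310ab1, (rh7928877f9bf74a91.shift 0 1), (rhc4c6de062e376aad.shift 0 1)] (by decide +kernel))
noncomputable def rh0b06a33457de4f66 : CRef := CRef.mk (Pat.mk 0x20000000300000002000000000000000000000000 0x2000000030000000300000007000000070000000700000005 4 3) 0 0 (step_sound _ 65 [rh24b4f41f846cb1d8, rh5c651669912fbab1, (rhabedd109a9a37101.shift 0 1)] (by decide +kernel))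
noncomputable def rhdcaf1ec7c116ff42 : CRef := CRef.mk (Pat.mk 0x1c0000000c0000000400000000 0xe0000000f0000001c0000000c0000000c00000008 4 5) 0 0 (step_sound _ 131 [rh4947bc9d4fc7738a, (rh5c5e593799055d58.shift 2 1)] (by decide +kernel))
noncomputable def rh289a9faa53cb18d7 : CRef := CRef.mk (Pat.mk 0x80000000a00000008000000000000000000000000 0x8000000080000001f00000078000000180000001000000010 4 7) 0 0 (step_sound _ 100 [(rh046c5eb18e55a239.shift 3 0), (rh70e33bfdf511e144.shift 3 0), (rh9ebd639649ea671c.shift 0 3)] (by decide +kernel))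
noncomputable def rhc47f609b2fd0067e : CRef := CRef.mk (Pat.mk 0x80000002c0000003800000000 0x280000007c0000002f0000003800000010 4 7) 0 0 (step_sound _ 65 [(rh28f46a23d17b767e.shift 1 0), (rhb739f4f82bb681b4.shift 0 1)] (by decide +kernel))
noncomputable def rh04c5071cb5100cfe : CRef := CRef.mk (Pat.mk 0x1000000018000000280000002000000000 0x100000007c0000002f0000002000000020 4 7) 0 0 (step_sound _ 101 [(rh2820ca9a6c4f41b4.shift 0 2), (rh7b1f1fb55310c477.shift 4 0)] (by decide +kernel))
noncomputable def rh8f3ff1f06441ae19 : CRef := CRef.mk (Pat.mk 0x20000000200000007000000020000000000000000 0x20000000700000007000000030000000300000003 4 3) 0 0 (step_sound _ 32 [rh64717c9e42d9142b, (rh79877ebd3ef475dd.shift 0 1)] (by decide +kernel))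
noncomputable def rhfdb1dff4519802f9 : CRef := CRef.mk (Pat.mk 0x200000007000000040000000400000000 0xc0000001e000000070000000e0000000e0000000a 4 5) 0 0 (step_sound _ 130 [(rh712526e472efe489.shift 0 1), (rhc8e755934d85ce20.shift 1 0)] (by decide +kernel))
noncomputable def rh191f0b20fb59d354 : CRef := CRef.mk (Pat.mk 0x4000000140000000c00000000 0x400000004000000370000003e0000000a 4 6) 0 0 (step_sound _ 33 [(rhca6a4af813f68cee.shift 0 1), (rhde10baa3043a2b46.shift 1 0)] (by decide +kernel))
noncomputable def rh4dc330df97fccfba : CRef := CRef.mk (Pat.mk 0x20000000300000002000000020000000000000000 0x400000006000000060000000300000003000000070000000600000006 4 3) 0 0 (step_sound _ 193 [rh0b1c741f303116e4, (rh44f453b84f013105.shift 1 2)] (by decide +kernel))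
noncomputable def rhf917bbeedb4756d9 : CRef := CRef.mk (Pat.mk 0x38000000680000000800000000 0x40000001f00000038000000680000003c00000014 4 7) 0 0 (step_sound _ 131 [(rh36e6bb6cca6188da.shift 2 0), (rh79905f95cb2d899a.shift 0 1)] (by decide +kernel))
noncomputable def rh998f9f61c36f0fe1 : CRef := CRef.mk (Pat.mk 0xe0000001a00000002000000000000000000000000 0x20000000e0000007a0000001f000000060000000400000004 4 7) 0 0 (step_sound _ 98 [(rh70e33bfdf511e144.shift 1 0), (rhe07596e03a7802b0.shift 0 3)] (by decide +kernel))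
noncomputable def rhe82f3fda10522c6e : CRef := CRef.mk (Pat.mk 0x5800000018000000000000000800000000 0x30000000780000001f000000380000003800000030 4 7) 0 0 (step_sound _ 68 [(rh57af0e2014b3ba61.shift 2 0), (rh7e9ba19755485a04.shift 0 2), (rhd05a505f1d32709e.shift 3 0)] (by decide +kernel))
noncomputable def rh10863a750668a450 : CRef := CRef.mk (Pat.mk 0x5800000018000000000000000800000000 0x780000001f000000300000001800000018 4 7) 0 0 (step_sound _ 98 [(rh361cc68994bd8a63.shift 2 3), rhdb3212ed6dfd725f] (by decide +kernel))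
noncomputable def rh3bd77ad381b0c7ec : CRef := CRef.mk (Pat.mk 0x20000000f00000004 0x60000003f0000003e 4 6) 0 0 (step_sound _ 4 [rh96851dee118c1ba3, (rhe913bbd8998b6509.shift 1 0)] (by decide +kernel))
noncomputable def rh432fa23f6add3573 : CRef := CRef.mk (Pat.mk 0x80000000a0000000a000000020000000000000000 0x40000000f0000000f0000000b0000000a000000060000000600000004 4 4) 0 0 (step_sound _ 161 [(rh28f7c203f178e979.shift 1 2), rhcae87bda2c3c01d2] (by decide +kernel))
noncomputable def rha6a311f8ea7d5aec : CRef := CRef.mk (Pat.mk 0x80000000a0000000a000000020000000000000000 0x40000000f0000001f0000000b0000000a000000030000000300000001 4 5) 0 0 (step_sound _ 161 [rh0c1c1b53bc5a1510, (rh28f7c203f178e979.shift 1 2), (rh7119698359dc4f54.shift 0 1)] (by decide +kernel))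
noncomputable def rh84122a39d6427990 : CRef := CRef.mk (Pat.mk 0x800000008000000180000000200000000 0x140000001c0000001c00000008000000180000000f00000004 4 5) 0 0 (step_sound _ 35 [rh3cf2764919f34f47, (rh7ef5fa5c39f1c762.shift 2 1)] (by decide +kernel))
noncomputable def rhbccd62fc0b48f4f2 : CRef := CRef.mk (Pat.mk 0x14000000140000001400000000 0x80000000a0000000f0000003e000000140000001400000014 4 6) 0 0 (step_sound _ 99 [(rh176ee440f82a3750.shift 2 0), (rhd8a13c7f042cc6ea.shift 2 0), rhfb9953e9a73eee19] (by decide +kernel))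
noncomputable def rh2ff636bca25f9b29 : CRef := CRef.mk (Pat.mk 0x2000000020000001a000000000000000000000000 0x100000003000000030000001a0000000f0000000700000005 4 5) 0 0 (step_sound _ 65 [rh0c1c1b53bc5a1510, rh3181373a30ceb9e3, (rh36e6bb6cca6188da.shift 0 1), rhcae87bda2c3c01d2] (by decide +kernel))
noncomputable def rh5500df95bcd0a978 : CRef := CRef.mk (Pat.mk 0x28000000280000002800000000 0x1000000010000000180000007c0000002f0000002800000020 4 7) 0 0 (step_sound _ 100 [(rh176ee440f82a3750.shift 3 0), (rh2820ca9a6c4f41b4.shift 0 2)] (by decide +kernel))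
noncomputable def rhce75c71b10208671 : CRef := CRef.mk (Pat.mk 0xa0000000a0000000a0000000100000000 0x340000001e0000000b0000000a0000000b00000001 4 6) 0 0 (step_sound _ 130 [(rh5bc090164f229948.shift 0 1), rh8c01e5409b730b8b] (by decide +kernel))
noncomputable def rh0a93c3a226ab5515 : CRef := CRef.mk (Pat.mk 0x80000000a0000000a0000000a000000000000000000000000 0xa0000000a0000000b0000001f000000190000001100000001 4 5) 0 0 (step_sound _ 96 [(rhd8fc2fe14131b89c.shift 0 1), rhfafeb437ceb8396d] (by decide +kernel))
noncomputable def rhebb08da54ae1dbff : CRef := CRef.mk (Pat.mk 0x2000000028000000280000002800000000 0x200000007c0000002f0000007800000040 4 7) 0 0 (step_sound _ 66 [(rh8ffd6c73cfd2ea71.shift 2 0), (rhe33d9496e10d8eb0.shift 0 2)] (by decide +kernel))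
noncomputable def rhb0253a3e7d0d0b81 : CRef := CRef.mk (Pat.mk 0x400000014000000140000000c00000000 0x40000001400000014000000f70000003e00000060 4 8) 0 0 (step_sound _ 36 [(rh299a18a9bb09cab4.shift 1 0), (rh8d35ee02bbc003d6.shift 0 1), (rha11dfd15f08f96e3.shift 1 1), (rhd117684c4a851b90.shift 0 1)] (by decide +kernel))
noncomputable def rh33739ad108f4ab8a : CRef := CRef.mk (Pat.mk 0x100000001e00000016000000000000000000000000 0x10000000140000001e0000001e0000000b0000000a00000002 4 5) 0 0 (step_sound _ 99 [(rh1e309b005ffa1b36.shift 3 1), rh9a011a4d0ec8f646] (by decide +kernel))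
noncomputable def rh892ab8a2b117741d : CRef := CRef.mk (Pat.mk 0x4000000060000000700000000 0x60000000600000006000000060000000700000005 4 3) 0 0 (step_sound _ 130 [rh18b49738f4e5d343, (rh5c5e593799055d58.shift 1 1)] (by decide +kernel))
noncomputable def rh22c629e4a6e420ad : CRef := CRef.mk (Pat.mk 0xc000000080000001c 0xf0000007e0000007e 4 7) 0 0 (step_sound _ 37 [rh77c1eb2ea3b85b7a, (rhca6a4af813f68cee.shift 1 0), (rhcc68d7d890acd330.shift 1 0)] (by decide +kernel))
noncomputable def rhec0ccef5ca3b2f96 : CRef := CRef.mk (Pat.mk 0x2c00000008 0x70000003f0000007f 4 7) 0 0 (step_sound _ 33 [rh3194727a60434116, rh8ee80cc30e93a344, rhc21a95c499b3efdb, rhe2f6b10c50f22ead] (by decide +kernel))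
noncomputable def rh3510ab7567d2e047 : CRef := CRef.mk (Pat.mk 0x80000001800000010000000180000000000000000 0x40000000c0000001c000000380000001f0000000c0000000c 4 6) 0 0 (step_sound _ 99 [(rh6fae963f33cfdfd7.shift 0 1), (rhbb83b53687587fb2.shift 2 0), (rhdf997f77704b6375.shift 2 0)] (by decide +kernel))
noncomputable def rh7288738e7e470e0c : CRef := CRef.mk (Pat.mk 0x800000018000000100000001800000000 0x1800000018000000f80000003f00000066 4 8) 0 0 (step_sound _ 34 [(rh7bdaf38c7582b244.shift 1 0), rh81c26abf9d8afa53, (rhb37e485dff1e07aa.shift 1 1)] (by decide +kernel))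
noncomputable def rh6293d88f3ea86f49 : CRef := CRef.mk (Pat.mk 0x800000010000000040000000e00000000 0x800000018000000770000003e00000070 4 7) 0 0 (step_sound _ 36 [(rh13f5c1d6008ee49f.shift 1 0), (rh35e918dd76851f8c.shift 1 0), (rhe3060b190bc0bc78.shift 0 1)] (by decide +kernel))
noncomputable def rhbef07ed30a8da009 : CRef := CRef.mk (Pat.mk 0x400000000000000080000001c00000000 0x4000000040000003e0000007f00000003 4 7) 0 0 (step_sound _ 33 [rh9e997e947f201f41, (rhec46bd5500c722c9.shift 0 1)] (by decide +kernel))
noncomputable def rh0322be6950086bf2 : CRef := CRef.mk (Pat.mk 0x1e00000014000000000000000000000000 0x10000000380000001e0000001f000000380000001800000010 4 6) 0 0 (step_sound _ 99 [(rh34b1188e635efc8d.shift 1 1), rhcb68da4f2dc5e7fd] (by decide +kernel))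
noncomputable def rhccd9e2db9de096f0 : CRef := CRef.mk (Pat.mk 0x20000000300000003000000000000000000000000 0x200000002000000030000000300000007000000060000000600000002 4 3) 0 0 (step_sound _ 193 [(rh5c5e593799055d58.shift 0 3), rhcad990ca8c19677f] (by decide +kernel))
noncomputable def rhbbf91d47b34e7516 : CRef := CRef.mk (Pat.mk 0x20000000700000003000000000000000000000000 0x200000002000000060000000700000007000000060000000600000002 4 3) 0 0 (step_sound _ 193 [(rh5c5e593799055d58.shift 0 3), rha18922c1423cfe79] (by decide +kernel))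
noncomputable def rh169a10e15cf40b85 : CRef := CRef.mk (Pat.mk 0x20000000700000003000000000000000000000000 0x600000006000000070000000700000003000000020000000200000002 4 3) 0 0 (step_sound _ 193 [(rh5c5e593799055d58.shift 0 3), rha1cf18b944036215] (by decide +kernel))
noncomputable def rhf965a04dd07383ce : CRef := CRef.mk (Pat.mk 0x2000000070000000700000000 0x60000000600000006000000070000001f00000018 4 5) 0 0 (step_sound _ 35 [rh2b4ffbe8d274482e, (rhf48373e13d2bc128.shift 0 1)] (by decide +kernel))
noncomputable def rhc7b77bdee57ef422 : CRef := CRef.mk (Pat.mk 0x40000000c000000020000000e00000000 0xc0000000c0000000b0000001e00000038 4 6) 0 0 (step_sound _ 36 [(rh2f17a786a3c0ef27.shift 1 0), (rh3244c3cc8379b070.shift 0 1)] (by decide +kernel))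
noncomputable def rh99b591344dbb0eed : CRef := CRef.mk (Pat.mk 0x1000000038000000080000001800000000 0x10000000380000003f0000007c00000020 4 7) 0 0 (step_sound _ 37 [(rh935da622f8ebc962.shift 4 0), (rhfd99604093c09fe0.shift 0 1)] (by decide +kernel))
noncomputable def rh1aaa189d4f02b3a2 : CRef := CRef.mk (Pat.mk 0x1e00000006000000000000000000000000 0x70000001e0000003e000000030000000300000002 4 6) 0 0 (step_sound _ 65 [(rhad3425bb5b48f59f.shift 0 1), (rhea7a1800d6f053bd.shift 1 0)] (by decide +kernel))
noncomputable def rh38ba892b2edb6461 : CRef := CRef.mk (Pat.mk 0x80000000e0000000b0000000000000000 0x4000000040000000e0000000e0000000f0000001a0000001a 4 5) 0 0 (step_sound _ 130 [(rh32f6277f14b47a8f.shift 1 0), (rh3cb04db3dd2b6a55.shift 2 0), rh4315e95d631a9818] (by decide +kernel))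
noncomputable def rh87ab934dccf3be80 : CRef := CRef.mk (Pat.mk 0xe0000001a000000100000000000000000 0x270000003e0000001b000000100000001000000010 4 6) 0 0 (step_sound _ 132 [(rheb0810cc63b001d8.shift 0 3), rheeacadb0b08e9b09] (by decide +kernel))
noncomputable def rh70f299eb0feb11ea : CRef := CRef.mk (Pat.mk 0xe0000001a000000000000000000000000 0x2000000070000003e0000001e000000070000000600000002 4 6) 0 0 (step_sound _ 98 [(rh4b31f610a48c50e3.shift 0 1), rh9a011a4d0ec8f646] (by decide +kernel))
noncomputable def rhf2df2d8ed1ee06ea : CRef := CRef.mk (Pat.mk 0x1c00000034000000200000000000000000 0x80000001c0000003f000000360000000400000004 4 6) 0 0 (step_sound _ 99 [(rh8d917b916e5f3510.shift 0 2), (rh9a011a4d0ec8f646.shift 1 0)] (by decide +kernel))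
noncomputable def rh9bc836a8979923b7 : CRef := CRef.mk (Pat.mk 0x1c00000038000000200000000000000000 0x80000001c0000003f000000360000000400000004 4 6) 0 0 (step_sound _ 98 [(rh8d917b916e5f3510.shift 0 2), (rh9a011a4d0ec8f646.shift 1 0)] (by decide +kernel))
noncomputable def rh93ef6bf81f530cf5 : CRef := CRef.mk (Pat.mk 0xc0000001c000000180000000000000000 0x20000000f0000001c0000003c0000000e0000000e 4 6) 0 0 (step_sound _ 34 [rh18dc926f2a3cb231, (rh494a41fc39ea97f6.shift 1 0), (rh5ddbeed5d869bf16.shift 2 0), (rhe437f081bfcdb831.shift 2 0)] (by decide +kernel))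
noncomputable def rh8efb1167143e9d1b : CRef := CRef.mk (Pat.mk 0xc0000001c000000180000000000000000 0x60000000f0000001c0000001f0000000700000004 4 5) 0 0 (step_sound _ 66 [(rhcd81cb1eedf15ca5.shift 0 1), rhda49d08e88765cc3] (by decide +kernel))
noncomputable def rh19851a06bb997c71 : CRef := CRef.mk (Pat.mk 0xc0000001e0000000000000000 0x2000000030000003f0000001e0000000400000004 4 6) 0 0 (step_sound _ 97 [(rh3244c3cc8379b070.shift 0 2), rh4b31f610a48c50e3] (by decide +kernel))
noncomputable def rh3f43f7848c6f36b2 : CRef := CRef.mk (Pat.mk 0xc0000001c000000000000000800000000 0x20000000f0000001c0000000c0000000c0000000c 4 5) 0 0 (step_sound _ 129 [(rhb739f4f82bb681b4.shift 0 3), (rhe7da32e943c0a63f.shift 1 0)] (by decide +kernel))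
noncomputable def rh659f7d67a4f94d02 : CRef := CRef.mk (Pat.mk 0xc0000001c000000100000000800000000 0x20000000f0000001c000000fc0000001e00000014 4 8) 0 0 (step_sound _ 34 [(rh7fdd6220b14a6b61.shift 1 0), rhc928c025bc3efe2d, (rhecb97fed8c7f1286.shift 2 0)] (by decide +kernel))
noncomputable def rh1ea67c0a1ed603cb : CRef := CRef.mk (Pat.mk 0x200000007000000040000000200000000 0x80000001e00000007000000040000000600000006 4 5) 0 0 (step_sound _ 34 [(rh7b1f1fb55310c477.shift 1 0), rh9a156db74dae0595] (by decide +kernel))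
noncomputable def rhfbccdf9a1a6e967b : CRef := CRef.mk (Pat.mk 0xc00000018000000100000001800000000 0x270000003f00000018000000100000001800000008 4 6) 0 0 (step_sound _ 132 [(rh703032655ec1637c.shift 0 1), (rh932754581e0f4330.shift 3 0)] (by decide +kernel))
noncomputable def rh26f820cb19a930a5 : CRef := CRef.mk (Pat.mk 0xe0000000c0000000000000000 0x6000000070000003e0000000c0000000c0000000c 4 6) 0 0 (step_sound _ 130 [(rh55a1f6c57a317ce6.shift 2 0), rh77e5fdcadba6b29b] (by decide +kernel))
noncomputable def rh2ae694e25f74369c : CRef := CRef.mk (Pat.mk 0xf000000060000000000000000 0x8000000180000000f0000001e0000000400000004 4 5) 0 0 (step_sound _ 67 [rh34b1188e635efc8d, (rhf48373e13d2bc128.shift 0 2)] (by decide +kernel))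
noncomputable def rhee24d2c19eefd14b : CRef := CRef.mk (Pat.mk 0x1e0000000c00000000 0x200000002000000030000001e0000000f00000004 4 5) 0 0 (step_sound _ 33 [(rh53b3c253cb0c65f4.shift 0 1), rhbdb8dfd08861fbf7] (by decide +kernel))
noncomputable def rh062109d6dc26638f : CRef := CRef.mk (Pat.mk 0x2c00000018 0x70000003f0000001f 4 6) 0 0 (step_sound _ 33 [rh88870a0d15efe576, rhb739f4f82bb681b4] (by decide +kernel))
noncomputable def rhb8d2417141105456 : CRef := CRef.mk (Pat.mk 0x160000001c000000000000000000000000 0x10000000380000001e0000001f000000380000001800000010 4 6) 0 0 (step_sound _ 131 [(rh34b1188e635efc8d.shift 1 1), rhcb68da4f2dc5e7fd] (by decide +kernel))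
noncomputable def rhe4b795096bf5c3ed : CRef := CRef.mk (Pat.mk 0x1e0000001e00000000 0x200000002000000030000001e0000001e00000007 4 5) 0 0 (step_sound _ 0 [rh80fcd6d0a18cb2dd, rhbdb8dfd08861fbf7] (by decide +kernel))
noncomputable def rh6855fc9e85954cf1 : CRef := CRef.mk (Pat.mk 0x80000001800000018000000100000000000000000 0x1800000018000000380000001f0000000c0000000c 4 6) 0 0 (step_sound _ 67 [(rh6fae963f33cfdfd7.shift 0 1), (rhbb83b53687587fb2.shift 2 0), (rhea7a1800d6f053bd.shift 3 0)] (by decide +kernel))
noncomputable def rh972f0859fbdb0652 : CRef := CRef.mk (Pat.mk 0x10000000140000001c00000000 0x1800000018000000380000001f0000001c00000014 4 6) 0 0 (step_sound _ 67 [(rh27c8111cf125e4dd.shift 2 0), (rh34517e326ddb5b25.shift 0 1)] (by decide +kernel))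
noncomputable def rh74b24ff451159608 : CRef := CRef.mk (Pat.mk 0x180000001c000000180000000000000000 0x180000001c0000007c0000000f0000000c 4 7) 0 0 (step_sound _ 34 [(rh099c45842d56bde1.shift 1 0), (rh5769ed4fe2fe4c14.shift 2 0), (rh5ddbeed5d869bf16.shift 2 0), rh810e085dbcd2f4a9] (by decide +kernel))
noncomputable def rh1808265f8363394e : CRef := CRef.mk (Pat.mk 0xe00000007000000020000000000000000 0x40000000c0000000e000000070000001e0000000c00000004 4 5) 0 0 (step_sound _ 162 [(rh5c5e593799055d58.shift 1 2), rh8d348b209915a49a] (by decide +kernel))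
noncomputable def rh73664858c405e7d4 : CRef := CRef.mk (Pat.mk 0x380000001c00000000 0x400000004000000770000003f0000001c00000008 4 7) 0 0 (step_sound _ 66 [(rhba89ab7cb81bcc90.shift 0 1), (rhbdb8dfd08861fbf7.shift 1 0), (rhe25191970535449e.shift 0 1)] (by decide +kernel))
noncomputable def rhc7d2ebc749000ff9 : CRef := CRef.mk (Pat.mk 0x180000000c0000000800000010 0x8000000180000000f0000007c00000010 4 7) 0 0 (step_sound _ 36 [(rh2145e1d24b96a57e.shift 3 0), (rha355876672dc863a.shift 0 1)] (by decide +kernel))
noncomputable def rh7b3b5f331ea7dfb9 : CRef := CRef.mk (Pat.mk 0x4000000000000000e000000000000000000000000 0x4000000040000000c0000000f0000007c0000000800000008 4 7) 0 0 (step_sound _ 67 [(rh28afc5b167f84184.shift 2 0), (rhc21a95c499b3efdb.shift 0 2)] (by decide +kernel))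
noncomputable def rh24cf49d24ddf9638 : CRef := CRef.mk (Pat.mk 0x40000001c000000180000000800000000 0x40000003f0000001f0000000f00000002 4 6) 0 0 (step_sound _ 65 [(rh076be03eb7063320.shift 0 2), rh0da1913e651f50c0, (rh6d571b54e8dd9e33.shift 0 2), (rh710860539a4c4362.shift 0 2)] (by decide +kernel))
noncomputable def rhfe6a98f104f907c3 : CRef := CRef.mk (Pat.mk 0x40000001c00000018000000000000000800000000 0x40000003c0000003f000000060000000e0000000c 4 6) 0 0 (step_sound _ 98 [(rh1e42fc0fd1882d44.shift 1 0), (rhab2ad169e49f9c5e.shift 0 3)] (by decide +kernel))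
noncomputable def rhf45095608ef5c016 : CRef := CRef.mk (Pat.mk 0x40000001e000000180000000000000000 0x40000003e0000001f0000000300000002 4 6) 0 0 (step_sound _ 65 [rh076c5c198c4c9fd2, (rheb0810cc63b001d8.shift 0 2)] (by decide +kernel))
noncomputable def rh421cce82bb1068e3 : CRef := CRef.mk (Pat.mk 0x60000000200000002000000000000000000000000 0x2000000060000000600000007000000070000000700000005 4 3) 0 0 (step_sound _ 65 [rh8aec56c4ee12918c, (rh8c3839f9b9075f23.shift 1 0), (rhabedd109a9a37101.shift 0 1)] (by decide +kernel))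
noncomputable def rhc923cbcd1abfbca7 : CRef := CRef.mk (Pat.mk 0x1800000018000000080000000000000000 0x8000000380000003f0000000f0000000400000004 4 6) 0 0 (step_sound _ 98 [rh5b16e5ce3dbbe89f, (rhab2ad169e49f9c5e.shift 0 3)] (by decide +kernel))
noncomputable def rhaeb7261ea18cb548 : CRef := CRef.mk (Pat.mk 0x600000007000000020000000000000000 0x40000000600000006000000070000001e0000000c00000004 4 5) 0 0 (step_sound _ 162 [(rh5c5e593799055d58.shift 1 2), rhb4e67b9814d5b980] (by decide +kernel))
noncomputable def rhf61b2a9c4e4dd1e5 : CRef := CRef.mk (Pat.mk 0xe00000003000000070000000000000000 0xc0000000e000000070000001f0000001c00000004 4 5) 0 0 (step_sound _ 67 [rh2f30a25e6ae07098, (rhf48373e13d2bc128.shift 0 2)] (by decide +kernel))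
noncomputable def rhbcded4d272e80638 : CRef := CRef.mk (Pat.mk 0x6000000030000000700000000 0x4000000040000000600000006000000070000001f00000018 4 5) 0 0 (step_sound _ 35 [rh3d8ca6ad03bf935b, (rhf48373e13d2bc128.shift 0 1)] (by decide +kernel))
noncomputable def rh0f16fe210de3bc96 : CRef := CRef.mk (Pat.mk 0x180000001c000000040000000c00000000 0x100000001c0000001c0000001c0000007e00000073 4 7) 0 0 (step_sound _ 36 [(rh807d78fa6ca78542.shift 3 0), (rh8e2eafc5dd21c5bd.shift 2 0), (rh935da622f8ebc962.shift 3 0), rhce2f1d6ebb98fcec] (by decide +kernel))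
noncomputable def rhad37429f4253e8b2 : CRef := CRef.mk (Pat.mk 0x180000001c000000040000000c00000000 0x1c0000001f000000340000001c00000008 4 6) 0 0 (step_sound _ 3 [(rh2145e1d24b96a57e.shift 2 0), rh911d8b1731ea5401] (by decide +kernel))
noncomputable def rhb4987446127374ab : CRef := CRef.mk (Pat.mk 0x1c0000000e000000020000000200000000 0x180000001c0000000e0000003e0000000f0000000c 4 6) 0 0 (step_sound _ 66 [(rhea7a1800d6f053bd.shift 2 0), rhfd81343a4a8f387d] (by decide +kernel))
noncomputable def rh7a86ad86af8a0783 : CRef := CRef.mk (Pat.mk 0x80000000c0000000b000000000000000000000000 0x40000000c0000000c0000000b0000001e0000001c00000014 4 5) 0 0 (step_sound _ 67 [(rh0c3873a75f5344d2.shift 0 1), (rh3181373a30ceb9e3.shift 2 0), (rhe286c75f2739cce2.shift 2 1)] (by decide +kernel))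
noncomputable def rh6963969a66bf111c : CRef := CRef.mk (Pat.mk 0x180000001c000000000000000000000000 0x18000000180000003c0000000f0000000c0000000c 4 6) 0 0 (step_sound _ 67 [rh5b16e5ce3dbbe89f, (rhea7a1800d6f053bd.shift 3 0)] (by decide +kernel))
noncomputable def rh0a10c1165f7d9eb5 : CRef := CRef.mk (Pat.mk 0x6000000070000000400000000 0xc0000000c0000000c00000006000000070000003e00000008 4 6) 0 0 (step_sound _ 130 [(rh503dd4575245365b.shift 1 1), (rh5fa50b509d4ce753.shift 1 1), rhb0c6196f710d9a93] (by decide +kernel))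
noncomputable def rh45ac7a71bc55c807 : CRef := CRef.mk (Pat.mk 0xe0000000f000000000000000000000000 0xa0000000e0000000f0000001c0000000c0000000c 4 5) 0 0 (step_sound _ 67 [(rh900517affbf79fe4.shift 1 0), (rhe25b0a99195a5d59.shift 0 2)] (by decide +kernel))
noncomputable def rhb0ae5990e5407e69 : CRef := CRef.mk (Pat.mk 0x600000007000000030000000200000000 0x80000001e00000007000000070000001e0000000c 4 5) 0 0 (step_sound _ 34 [(rh55afc6a59410cf00.shift 1 0), rh8749ea0f61b0dde4] (by decide +kernel))
noncomputable def rh570047c78bcf3616 : CRef := CRef.mk (Pat.mk 0x200000006000000060000000600000000 0x600000006000000070000003f00000019 4 6) 0 0 (step_sound _ 32 [rh5f99a340f54a2fa1, rh932754581e0f4330] (by decide +kernel))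
noncomputable def rhd7ef4fc43245eaf8 : CRef := CRef.mk (Pat.mk 0x1000000038000000200000000000000000 0x100000001000000018000000780000003f0000000800000008 4 7) 0 0 (step_sound _ 67 [(rh32f6277f14b47a8f.shift 3 0), (rhf0f55c4504412200.shift 0 2)] (by decide +kernel))
noncomputable def rh84a7de48e5dac9d5 : CRef := CRef.mk (Pat.mk 0x80000001c000000300000002000000000 0x40000000f0000003c0000003f0000003e0000001c 4 6) 0 0 (step_sound _ 67 [rh4a652af6261b5a9e, (rh9957864ec69cca10.shift 1 0), rhf018044ae0d004e8] (by decide +kernel))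
noncomputable def rhf0a8b5cd57c6406f : CRef := CRef.mk (Pat.mk 0x400000004000000080000001c00000000 0x4000000060000003b0000001f00000003 4 6) 0 0 (step_sound _ 33 [rheb505ef94539da28, (rhec46bd5500c722c9.shift 0 1)] (by decide +kernel))
noncomputable def rhc831fe49610ef7bf : CRef := CRef.mk (Pat.mk 0x40000000f00000000 0x3e0000003f00000070 4 7) 0 0 (step_sound _ 36 [(rh695f888db18ad7c7.shift 1 0), (rh9890f9d77740bbed.shift 0 1)] (by decide +kernel))
noncomputable def rha80f7301cddb7f2d : CRef := CRef.mk (Pat.mk 0x1e0000000c000000000000000000000000 0x40000001e0000003f000000030000000200000002 4 6) 0 0 (step_sound _ 97 [(rh53b3c253cb0c65f4.shift 0 3), rh92e8f86a47ca4f2b] (by decide +kernel))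
noncomputable def rh1bbf43d2fba949ae : CRef := CRef.mk (Pat.mk 0x6000000070000000400000000 0xc0000000c0000000c000000060000000f0000003c00000008 4 6) 0 0 (step_sound _ 130 [(rh5fa50b509d4ce753.shift 1 1), rhd9397e4126e81439] (by decide +kernel))
noncomputable def rh7383218e7da8c507 : CRef := CRef.mk (Pat.mk 0x140000000c0000000800000008 0x1000000014000000140000003c0000001f00000008 4 6) 0 0 (step_sound _ 34 [(rh2145e1d24b96a57e.shift 2 0), rh38abea5be231f3fc] (by decide +kernel))
noncomputable def rh7dd8d18bbd8574be : CRef := CRef.mk (Pat.mk 0x4000000060000000a0000000000000000 0x400000004000000060000003e0000000300000002 4 6) 0 0 (step_sound _ 33 [(rh31b21432502008f6.shift 0 1), (rh71222050f2c63a3a.shift 1 0)] (by decide +kernel))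
noncomputable def rh57b22e353490010b : CRef := CRef.mk (Pat.mk 0x80000001c000000080000000800000000 0x10000000380000001f000000080000001800000010 4 6) 0 0 (step_sound _ 4 [(rhccf6c53fa88468fc.shift 0 1), (rhd3458b32566d63f7.shift 3 0)] (by decide +kernel))
noncomputable def rh97d322bc8dd71ea1 : CRef := CRef.mk (Pat.mk 0x140000001c000000080000000000000000 0x4000000140000003c0000000f0000000800000008 4 6) 0 0 (step_sound _ 35 [(rh71222050f2c63a3a.shift 3 0), (rh960a8f47a8f1fa0e.shift 0 1)] (by decide +kernel))
noncomputable def rh870e4bc87f2465fd : CRef := CRef.mk (Pat.mk 0x80000000e0000000400000000 0x800000008000000080000003f0000003f00000010 4 6) 0 0 (step_sound _ 36 [(rh1e42cdaa2b8276ac.shift 0 1), (rh7344b4efa7925350.shift 0 1), rhec65b2af3f93fbcb] (by decide +kernel))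
noncomputable def rhbc6c1ead0c708fe0 : CRef := CRef.mk (Pat.mk 0x2000000078 0x3f000001fe 4 9) 0 0 (step_sound _ 2 [(rh30d951fefd654979.shift 1 0), rh7fb660bc21ce4329, (rhd5eb272e07a4e288.shift 1 0)] (by decide +kernel))
noncomputable def rh565c45dadea7da64 : CRef := CRef.mk (Pat.mk 0x800000008000000080000001e00000000 0x40000000c0000000c0000000e0000007e00000003 4 7) 0 0 (step_sound _ 130 [(rh50fbb5868c909700.shift 2 1), rh9e997e947f201f41] (by decide +kernel))
noncomputable def rha923c86b183b0f97 : CRef := CRef.mk (Pat.mk 0x140000003800000000 0x360000003e00000007 4 6) 0 0 (step_sound _ 34 [(rh3244c3cc8379b070.shift 1 1), rh4c063b89d42a2070] (by decide +kernel))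
noncomputable def rhe46ba3eccf25a5b3 : CRef := CRef.mk (Pat.mk 0x10000000170000001c0000000000000000 0x80000003e000000170000001c0000007800000028 4 7) 0 0 (step_sound _ 36 [(rh69b9767d0b0e1653.shift 0 1), (rhb379f99078aafa2d.shift 2 0)] (by decide +kernel))
noncomputable def rh022736ff23a8c9c4 : CRef := CRef.mk (Pat.mk 0x10000000170000001000000000 0x800000008000000180000003e000000170000001000000010 4 6) 0 0 (step_sound _ 99 [(rh541ba7bf5755edb5.shift 0 2), (rhb1a251d9bff81766.shift 3 0)] (by decide +kernel))
noncomputable def rhaa6f1c8eebaad6c7 : CRef := CRef.mk (Pat.mk 0x90000000c000000080000000000000000 0x180000001c0000000f0000000c0000000c0000000c00000008 4 5) 0 0 (step_sound _ 130 [(rh3cb04db3dd2b6a55.shift 2 0), (rh79e8159902b0bda5.shift 0 1)] (by decide +kernel))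
noncomputable def rhd6600660a7c492b4 : CRef := CRef.mk (Pat.mk 0x5e00000010 0x70000007f0000001c 4 7) 0 0 (step_sound _ 3 [rh4b25f79d66d12266, rhb739f4f82bb681b4] (by decide +kernel))
noncomputable def rh0fbcd98aa74dd48d : CRef := CRef.mk (Pat.mk 0x600000006000000050000000400000000 0x40000000600000006000000070000001e0000000a 4 5) 0 0 (step_sound _ 33 [rh1dc1eb52f1a4fa6f, (rh932754581e0f4330.shift 1 0)] (by decide +kernel))
noncomputable def rh04e39dbf333c49ae : CRef := CRef.mk (Pat.mk 0x1c0000000c00000008 0xc0000001c0000003c0000001f0000000c00000008 4 6) 0 0 (step_sound _ 99 [(rh7f9f3607ee25a93b.shift 2 0), rhccf6c53fa88468fc] (by decide +kernel))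
noncomputable def rh25cb02822aee5ab1 : CRef := CRef.mk (Pat.mk 0x1c00000014000000100000000000000000 0x140000001c0000001f000000380000001800000018 4 6) 0 0 (step_sound _ 99 [(rh900517affbf79fe4.shift 2 0), (rhf56e6bc5d2f7fe77.shift 0 2)] (by decide +kernel))
noncomputable def rh2a7c8dc00d244190 : CRef := CRef.mk (Pat.mk 0x2000000020000000600000003000000000000000000000000 0x2000000060000000700000007000000060000000600000006 4 3) 0 0 (step_sound _ 65 [(rh301a6b3a9154ed36.shift 1 0), rh9bb5c7e5c08d4582, (rhd29a1fb688eae70f.shift 1 1)] (by decide +kernel))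
noncomputable def rh2def65a6f38ba8fc : CRef := CRef.mk (Pat.mk 0x20000000200000002000000020000000100000000 0x400000006000000060000000200000006000000060000000700000001 4 3) 0 0 (step_sound _ 0 [(rh426f403fa814630c.shift 1 1), rheea67dfebd0f8008] (by decide +kernel))
noncomputable def rh763127cc61951072 : CRef := CRef.mk (Pat.mk 0x20000000200000002000000020000000100000000 0x500000007000000070000000200000002000000020000000300000001 4 3) 0 0 (step_sound _ 0 [(rh7ef5fa5c39f1c762.shift 0 2), rheea67dfebd0f8008] (by decide +kernel))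
noncomputable def rhc89ffd5b2dcbf2f4 : CRef := CRef.mk (Pat.mk 0x1400000014000000100000001c00000000 0xc0000001c0000001f000000380000001c00000004 4 6) 0 0 (step_sound _ 131 [(rh50fbb5868c909700.shift 3 1), rh845143d4dda45f82] (by decide +kernel))
noncomputable def rhfff8f65783bd8bc5 : CRef := CRef.mk (Pat.mk 0x2000000020000000200000003800000000 0x2000000020000000370000007e0000004f 4 7) 0 0 (step_sound _ 34 [rh2591032a0e7f4182, (rh7fb660bc21ce4329.shift 0 1), (rhd9f8c390d5d490f4.shift 1 0)] (by decide +kernel))
noncomputable def rh6319ffa2535c862f : CRef := CRef.mk (Pat.mk 0x800000008000000080000000e00000000 0x8000000080000007c0000001f00000010 4 7) 0 0 (step_sound _ 4 [(rhd3458b32566d63f7.shift 3 0), (rhff7d63dcb3cf9f74.shift 0 1)] (by decide +kernel))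
noncomputable def rh007a0d5dfc22ca81 : CRef := CRef.mk (Pat.mk 0x2000000020000000200000002000000020000000100000000 0x200000002000000060000000600000006000000020000000300000003 4 3) 0 0 (step_sound _ 33 [(rh551f36dd2a96f0b0.shift 1 0), rh932754581e0f4330] (by decide +kernel))
noncomputable def rhd657801d1470cfeb : CRef := CRef.mk (Pat.mk 0x10000000040000000c0000000c 0x1000000010000000360000007f0000003c 4 7) 0 0 (step_sound _ 33 [rh6292bd8784ece55f, (rhba9de65a83de3b0b.shift 1 0)] (by decide +kernel))
noncomputable def rhdd28939de5d7ab1c : CRef := CRef.mk (Pat.mk 0x8000000080000003800000000 0x8000000080000003f0000003f00000006 4 6) 0 0 (step_sound _ 34 [(rh1ae4704ae86cb9a8.shift 1 0), (rhc554838dd23febb3.shift 0 1)] (by decide +kernel))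
noncomputable def rh7ccb5621b97e1901 : CRef := CRef.mk (Pat.mk 0x200000000800000018000000100000000000000000 0x20000000200000002f0000007c000000300000001000000010 4 7) 0 0 (step_sound _ 101 [(rh61ebbcc17f085e4b.shift 3 0), (rha9fbfd4bb8cf890b.shift 0 3)] (by decide +kernel))
noncomputable def rh8a8f0f2fc84d8981 : CRef := CRef.mk (Pat.mk 0x8000000000000000e000000000000000000000000 0x8000000080000003c0000001f0000000c0000000400000004 4 6) 0 0 (step_sound _ 131 [(rh281c6819542c66e6.shift 2 0), (rha0198dc55831a65f.shift 0 3), (rhfafeb437ceb8396d.shift 2 0)] (by decide +kernel))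
noncomputable def rhaa98548fb5ca7c8d : CRef := CRef.mk (Pat.mk 0x80000000800000038000000000000000000000000 0x80000003f0000003f000000770000000400000004 4 7) 0 0 (step_sound _ 98 [(rh8195a2d7794c7cd2.shift 0 2), (rhc554838dd23febb3.shift 0 3), (rhd1474a84c69f0140.shift 1 0)] (by decide +kernel))
noncomputable def rhc55bb2429cafb35b : CRef := CRef.mk (Pat.mk 0x500000003000000030000000000000000 0x60000000700000003000000030000000300000003 4 3) 0 0 (step_sound _ 33 [rh180375b2bf0545a4, rh7b1f1fb55310c477] (by decide +kernel))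
noncomputable def rhe48108ae8ec5ee41 : CRef := CRef.mk (Pat.mk 0x140000000c0000000c0000000000000000 0x1000000010000000140000003c0000001f0000000800000008 4 6) 0 0 (step_sound _ 35 [(rh38abea5be231f3fc.shift 0 1), (rh7b1f1fb55310c477.shift 2 0)] (by decide +kernel))
noncomputable def rh34178d770e66e00f : CRef := CRef.mk (Pat.mk 0xa0000000e0000000600000000 0xc0000000c0000000e0000000f0000003e0000003a 4 6) 0 0 (step_sound _ 35 [(rh06632e5662f9eca8.shift 1 0), (rh79b3c29022acbdf3.shift 0 1), (rhe875f479e30355c3.shift 1 0)] (by decide +kernel))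
noncomputable def rhb23334cf3920b207 : CRef := CRef.mk (Pat.mk 0x500000003000000020000000000000000 0x4000000040000000700000007000000060000000200000002 4 3) 0 0 (step_sound _ 33 [(rh5890386c1f942fa1.shift 1 1), rh7b1f1fb55310c477] (by decide +kernel))
noncomputable def rhc74291bae5e3196d : CRef := CRef.mk (Pat.mk 0x8000000020000000e00000000 0x8000000080000007e0000003f00000070 4 7) 0 0 (step_sound _ 36 [(rh60e95adc726bb530.shift 1 0), rh6ba0695fa0ab13d9, (rh790acd67f4fffd04.shift 1 1)] (by decide +kernel))
noncomputable def rh8bc0c71ac2706319 : CRef := CRef.mk (Pat.mk 0xa000000020000000f00000000 0x40000000e0000000e0000001a0000000f00000018 4 5) 0 0 (step_sound _ 67 [(rh33e738c4ed385b9f.shift 0 1), rh4dd154a600cc34a9] (by decide +kernel))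
noncomputable def rh00ad149be37e1c09 : CRef := CRef.mk (Pat.mk 0x100000007800000000 0x3e0000007e00000007 4 7) 0 0 (step_sound _ 34 [rh4c063b89d42a2070, (rhd5eb272e07a4e288.shift 1 1)] (by decide +kernel))
noncomputable def rhf3d9f3d3fbf8f15b : CRef := CRef.mk (Pat.mk 0x3800000008000000080000001800000000 0x2000000038000000180000003c000000ff00000024 4 8) 0 0 (step_sound _ 68 [(rh1da4181dedb42fd1.shift 2 0), rh6fae963f33cfdfd7] (by decide +kernel))
noncomputable def rh1063dcda242971d4 : CRef := CRef.mk (Pat.mk 0xe00000002000000060000000000000000 0x40000000c0000000e000000070000003e0000000c00000004 4 6) 0 0 (step_sound _ 98 [(rhb0c1e7919d9be92d.shift 1 0), (rhf7ac44032989c9ef.shift 0 1)] (by decide +kernel))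
noncomputable def rh4475616035c9de98 : CRef := CRef.mk (Pat.mk 0x38000000080000001800000000 0x100000001000000018000000380000003f0000007c00000020 4 7) 0 0 (step_sound _ 37 [(rhbd3d56d68aaa590e.shift 0 1), (rhd9df9b4253553648.shift 3 0), (rhfd99604093c09fe0.shift 0 1)] (by decide +kernel))
noncomputable def rh959f8f7299654b2b : CRef := CRef.mk (Pat.mk 0x160000001e000000100000000000000000 0x2000000020000000b0000001e0000001e000000140000001000000010 4 5) 0 0 (step_sound _ 131 [(rh3cb04db3dd2b6a55.shift 3 0), (rhbdb8dfd08861fbf7.shift 0 2)] (by decide +kernel))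
noncomputable def rh1efbca428b37b99e : CRef := CRef.mk (Pat.mk 0x80000003c00000000 0x380000003f00000007 4 6) 0 0 (step_sound _ 1 [rh5370a63943ede0b2, (rh80fcd6d0a18cb2dd.shift 1 0)] (by decide +kernel))
noncomputable def rh96168f1699a8b051 : CRef := CRef.mk (Pat.mk 0xc000000080000000c0000000400000000 0x4000000060000000f0000003c0000000e0000000600000002 4 6) 0 0 (step_sound _ 98 [(rhbd1553ade3ecbf42.shift 1 0), (rhcf85c92937975d4d.shift 0 1)] (by decide +kernel))
noncomputable def rh714572a5906b5477 : CRef := CRef.mk (Pat.mk 0xc000000080000000c00000004 0x330000001f0000007c0000000c0000000c 4 7) 0 0 (step_sound _ 97 [rh29683fc53f66f5df, (rh8ee80cc30e93a344.shift 0 2), rhb045f4aa3aa08ce7] (by decide +kernel))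
noncomputable def rh9e3b1e140de3a5a8 : CRef := CRef.mk (Pat.mk 0x600000006000000020000000000000000 0x200000003000000030000000700000006000000060000000200000002 4 3) 0 0 (step_sound _ 33 [(rh71222050f2c63a3a.shift 1 0), (rh8d99d90023130d2c.shift 0 1)] (by decide +kernel))
noncomputable def rh646349a8905f6aa8 : CRef := CRef.mk (Pat.mk 0x600000006000000020000000000000000 0x200000002000000020000000600000006000000070000000300000003 4 3) 0 0 (step_sound _ 33 [rh35d1cf980e059eae, (rh71222050f2c63a3a.shift 1 0)] (by decide +kernel))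
noncomputable def rha58b9ae01800a257 : CRef := CRef.mk (Pat.mk 0x80000002c00000000 0x7c0000003f00000077 4 7) 0 0 (step_sound _ 33 [rh3194727a60434116, (rhff7d63dcb3cf9f74.shift 0 1)] (by decide +kernel))
noncomputable def rh4b37fbd05f0588b2 : CRef := CRef.mk (Pat.mk 0x200000002000000020000000200000000 0x4000000060000000600000002000000030000000700000005 4 3) 0 0 (step_sound _ 2 [rh402d223d12d7377d, (rhd3458b32566d63f7.shift 1 0)] (by decide +kernel))
noncomputable def rh77ab13309fc3251e : CRef := CRef.mk (Pat.mk 0xe000000040000001000000008 0x700000003e000000770000001800000008 4 7) 0 0 (step_sound _ 100 [(rh35e918dd76851f8c.shift 1 2), (rhaf9f2efc81a8312b.shift 0 2), (rhe84bfd2bc1159083.shift 1 0)] (by decide +kernel))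
noncomputable def rh394d1257dac6932f : CRef := CRef.mk (Pat.mk 0x1c000000080000000000000004 0x30000007f0000003e0000000400000004 4 7) 0 0 (step_sound _ 97 [(rha03f6e28ea70fc7d.shift 0 2), rhd9bd4dcca3dcc350] (by decide +kernel))
noncomputable def rh06b78c0ccfdc60ed : CRef := CRef.mk (Pat.mk 0x140000001e000000000000000000000000 0x10000000380000001f0000001e000000380000001800000010 4 6) 0 0 (step_sound _ 131 [(rh1375d65e18b64d08.shift 0 1), (rhbbe16ff26f7822db.shift 1 0)] (by decide +kernel))
noncomputable def rh4a0bce5dad720899 : CRef := CRef.mk (Pat.mk 0x80000003c00000002 0x380000003f00000063 4 7) 0 0 (step_sound _ 5 [rh5370a63943ede0b2, (rhe25b0a99195a5d59.shift 2 0)] (by decide +kernel))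
noncomputable def rhbd5740d5ae4db66b : CRef := CRef.mk (Pat.mk 0xc0000001c0000000800000008 0x800000018000000180000001f0000001c0000000c00000008 4 5) 0 0 (step_sound _ 96 [(rh60caaf96997f0fe3.shift 2 0), (rhab22b5b56e7b3243.shift 0 2)] (by decide +kernel))
noncomputable def rhb8538ce4e5e6cda1 : CRef := CRef.mk (Pat.mk 0x300000003000000020000000000000000 0x200000002000000020000000300000003000000070000000600000006 4 3) 0 0 (step_sound _ 33 [rh4868253c0be6b3b5, rh7b1f1fb55310c477] (by decide +kernel))
noncomputable def rh3a37d432defd6c53 : CRef := CRef.mk (Pat.mk 0x700000007000000020000000000000000 0x180000001f00000007000000060000000600000006 4 5) 0 0 (step_sound _ 131 [(rh18965a982d73c794.shift 0 3), rh48cb297d6474888f] (by decide +kernel))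
noncomputable def rh61a5ffb12f5aea93 : CRef := CRef.mk (Pat.mk 0x80000000c0000001800000008 0x10000000780000001f0000001800000008 4 7) 0 0 (step_sound _ 65 [(rh684e729394fba19d.shift 1 0), (rhb739f4f82bb681b4.shift 0 1)] (by decide +kernel))
noncomputable def rh745da51e01c722fb : CRef := CRef.mk (Pat.mk 0xe000000020000000c00000004 0x380000001e0000000b0000000c0000000c 4 6) 0 0 (step_sound _ 67 [rh5bc090164f229948, (rh5c5e593799055d58.shift 2 0)] (by decide +kernel))
noncomputable def rh0e80edb1d88da892 : CRef := CRef.mk (Pat.mk 0x18000000080000003000000010 0x200000007c0000003f0000003000000010 4 7) 0 0 (step_sound _ 101 [(rh2820ca9a6c4f41b4.shift 0 2), (rh7d7eaefe27cdd7b0.shift 4 0)] (by decide +kernel))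
noncomputable def rh8b883a5f6e0a3205 : CRef := CRef.mk (Pat.mk 0xb0000000e000000080000000000000000 0x180000001a0000000f0000000e0000000e0000000400000004 4 5) 0 0 (step_sound _ 66 [(rh1e309b005ffa1b36.shift 2 0), (rh6b315ff015ab736a.shift 0 2), (rhab292f7f30e6ad1f.shift 1 0)] (by decide +kernel))
noncomputable def rh1f8d53fb2fd8edd0 : CRef := CRef.mk (Pat.mk 0x1800000010000000180000000c00000000 0x8000000080000001800000018000000180000001f00000004 4 5) 0 0 (step_sound _ 32 [(rh1939cf1b2cd96fb3.shift 2 0), (rh24ae073cf30720c4.shift 0 1)] (by decide +kernel))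
noncomputable def rh2ae2dff33e999c27 : CRef := CRef.mk (Pat.mk 0x1a0000000e000000000000000000000000 0x2000000070000001e0000003e000000070000000600000002 4 6) 0 0 (step_sound _ 130 [(rh38a0850c9fea941e.shift 0 1), rh92e8f86a47ca4f2b] (by decide +kernel))
noncomputable def rha4b45d0722e1e6ff : CRef := CRef.mk (Pat.mk 0x20000000340000001c0000000000000000 0x4000000360000003f0000001c0000000800000008 4 6) 0 0 (step_sound _ 99 [(rh38a0850c9fea941e.shift 1 0), (rh4baa30ac13a5afd1.shift 0 2)] (by decide +kernel))
noncomputable def rh09a0ed377b548935 : CRef := CRef.mk (Pat.mk 0x10000000120000000e00000000 0x1000000010000000130000003e00000067 4 7) 0 0 (step_sound _ 36 [(rh3244c3cc8379b070.shift 0 1), rh57120328f48366ca] (by decide +kernel))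
noncomputable def rh28e1e1164c52ddeb : CRef := CRef.mk (Pat.mk 0x200000003800000018 0x700000003f0000001e 4 7) 0 0 (step_sound _ 1 [(rh24ae073cf30720c4.shift 1 0), rh41835ba1dc72c0ef] (by decide +kernel))
noncomputable def rh0577b9c0ac071b9a : CRef := CRef.mk (Pat.mk 0x8000000000000001c0000000c00000000 0xc0000000c0000000c0000001c0000000f00000002 4 5) 0 0 (step_sound _ 33 [(rh53b3c253cb0c65f4.shift 0 1), (rhf5d1cc58e7fd332f.shift 1 0)] (by decide +kernel))
noncomputable def rh77ae4d6fe8ee7b19 : CRef := CRef.mk (Pat.mk 0x8000000100000001c0000000c00000000 0x140000001e000000fc0000001c0000000f00000002 4 8) 0 0 (step_sound _ 130 [(rh8cfd0d2e20b2ef60.shift 1 1), rha82e4d6efed3fd0b, (rhdb2909ac5c854515.shift 2 1)] (by decide +kernel))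
noncomputable def rh2aafd7143de9b5e6 : CRef := CRef.mk (Pat.mk 0x200000004000000070000000200000000 0x60000000600000004000000070000001e00000008 4 5) 0 0 (step_sound _ 130 [(rh5c5e593799055d58.shift 1 1), rhb7aea7a74bead576] (by decide +kernel))
noncomputable def rh3d59af463782ee7f : CRef := CRef.mk (Pat.mk 0x1800000010000000180000000c 0x800000008000000080000001800000018000000180000001f 4 5) 0 0 (step_sound _ 0 [rh24ae073cf30720c4, (rhf9a6286f1d5377a2.shift 3 0)] (by decide +kernel))
noncomputable def rh0700c9ed276784f7 : CRef := CRef.mk (Pat.mk 0x1800000010000000180000000c00000000 0x80000001800000010000000180000003f00000027 4 6) 0 0 (step_sound _ 36 [rh1143d12632755df1, (rh50fbb5868c909700.shift 3 1)] (by decide +kernel))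
noncomputable def rhe7d1749390aefb37 : CRef := CRef.mk (Pat.mk 0x40000000f000000000000000000000000 0x40000001c0000000f000000180000000800000008 4 5) 0 0 (step_sound _ 67 [rh6f7819ce5ebf9246, (rhe25b0a99195a5d59.shift 0 2)] (by decide +kernel))
noncomputable def rh6b9ceb06d65958ae : CRef := CRef.mk (Pat.mk 0x180000002c00000000 0x180000003f00000077 4 7) 0 0 (step_sound _ 33 [rh3194727a60434116, (rh53b3c253cb0c65f4.shift 0 1)] (by decide +kernel))
noncomputable def rh2579c98897af56b6 : CRef := CRef.mk (Pat.mk 0x1e0000001e0000000000000000 0x10000000300000001e0000001e0000000b00000008 4 6) 0 0 (step_sound _ 32 [(rh34b1188e635efc8d.shift 1 0), (rh80fcd6d0a18cb2dd.shift 0 1)] (by decide +kernel))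
noncomputable def rh896ba8a508f21a23 : CRef := CRef.mk (Pat.mk 0x180000002c00000000 0x1f0000003f00000007 4 6) 0 0 (step_sound _ 33 [(rh53b3c253cb0c65f4.shift 0 1), rhe2f6b10c50f22ead] (by decide +kernel))
noncomputable def rh72b9378abb24c533 : CRef := CRef.mk (Pat.mk 0xc0000000e000000000000000000000000 0x40000000c0000000f0000007c0000000800000008 4 7) 0 0 (step_sound _ 67 [(rh3cb04db3dd2b6a55.shift 2 0), (rhc21a95c499b3efdb.shift 0 2)] (by decide +kernel))
noncomputable def rh27fa3aef8a893a5f : CRef := CRef.mk (Pat.mk 0x70000000e0000000000000000 0x8000000180000003f0000000f0000000400000004 4 6) 0 0 (step_sound _ 99 [rh34b1188e635efc8d, (rhf9d36e158778ce35.shift 0 2)] (by decide +kernel))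
noncomputable def rh9ce69c879dc440b9 : CRef := CRef.mk (Pat.mk 0x2000000070000000c0000000000000000 0xc0000001e000000070000000c0000000c0000000c 4 5) 0 0 (step_sound _ 34 [(rh7b1f1fb55310c477.shift 1 0), rha84357fa6686b26d] (by decide +kernel))
noncomputable def rhbab53e8167d67671 : CRef := CRef.mk (Pat.mk 0xe0000001c0000000000000000 0x10000000370000007e0000001c0000000800000008 4 7) 0 0 (step_sound _ 100 [(rh34b1188e635efc8d.shift 1 0), (rh771383521b68d2cd.shift 0 2)] (by decide +kernel))
noncomputable def rh7a0d643003664604 : CRef := CRef.mk (Pat.mk 0x1c00000016000000000000000000000000 0x10000000380000001f0000001e000000380000001800000010 4 6) 0 0 (step_sound _ 99 [(rh1375d65e18b64d08.shift 0 1), (rhbbe16ff26f7822db.shift 1 0)] (by decide +kernel))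
noncomputable def rh6f3f83025c66bc37 : CRef := CRef.mk (Pat.mk 0x80000000c0000000c0000000400000000 0x6000000060000000f0000003c0000000c0000000c00000008 4 6) 0 0 (step_sound _ 130 [(rh3cb04db3dd2b6a55.shift 2 0), (rh90b823c913a425e8.shift 1 1), (rhcf85c92937975d4d.shift 0 1)] (by decide +kernel))
noncomputable def rh950501ce37cb45f7 : CRef := CRef.mk (Pat.mk 0x20000000700000006000000040000000000000000 0xc0000001f0000000700000006000000060000000200000002 4 5) 0 0 (step_sound _ 65 [rh40241bd608e5be1a, (rhc04a13a5df742017.shift 0 2), (rhea7a1800d6f053bd.shift 1 0)] (by decide +kernel))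
noncomputable def rhaeab3ecd7900b4d0 : CRef := CRef.mk (Pat.mk 0x20000000700000007000000040000000000000000 0x40000000700000007000000070000001e0000000a00000002 4 5) 0 0 (step_sound _ 65 [rh40241bd608e5be1a, (rha68749667b6ccf63.shift 0 1), (rhea7a1800d6f053bd.shift 1 0)] (by decide +kernel))
noncomputable def rhb1f23aa8e7d38b4e : CRef := CRef.mk (Pat.mk 0x180000001c00000018 0xc0000000f0000007c0000001c00000018 4 7) 0 0 (step_sound _ 98 [(rhbb8ebb9b281695d3.shift 1 0), (rhf627eb01e9e8db9a.shift 2 0), rhf88f7e4724402d9c] (by decide +kernel))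
noncomputable def rha08502d9a3e4fd9d : CRef := CRef.mk (Pat.mk 0x400000004000000070000000400000000 0x80000000c0000003c0000000f0000000400000004 4 6) 0 0 (step_sound _ 131 [(rh2f68792b6b779e96.shift 2 1), rhe91807ca17b16c53] (by decide +kernel))
noncomputable def rhcdb56d3e5b8fd791 : CRef := CRef.mk (Pat.mk 0xe000000000000000400000000 0x8000000080000007c0000000f0000000c0000000400000004 4 7) 0 0 (step_sound _ 131 [(rh3efafc482874f7b3.shift 2 0), (rh580df77fe152422b.shift 2 0), (rhff7d63dcb3cf9f74.shift 0 3)] (by decide +kernel))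
noncomputable def rhb84b1f66852c4b18 : CRef := CRef.mk (Pat.mk 0x10000000e00000002 0x730000003e00000006 4 7) 0 0 (step_sound _ 36 [(rh3f8766e6ecb455ce.shift 0 1), (rhd584a578337d0023.shift 1 0)] (by decide +kernel))
noncomputable def rh3fb4ab5223d0dae1 : CRef := CRef.mk (Pat.mk 0x4000000000000000c0000000e 0x600000006000000030000003f0000003e 4 6) 0 0 (step_sound _ 33 [rh79b3c29022acbdf3, rhf8c4e45f393a51a6] (by decide +kernel))
noncomputable def rhf04c7e9be5243300 : CRef := CRef.mk (Pat.mk 0xc000000180000000c 0x1f000000780000000f 4 7) 0 0 (step_sound _ 0 [rh24ae073cf30720c4, (rh4ca5dae25f5c14ff.shift 0 1)] (by decide +kernel))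
noncomputable def rhf527cf5683b56bd8 : CRef := CRef.mk (Pat.mk 0x2000000020000000600000000 0x5000000070000000700000007000000060000000600000002 4 3) 0 0 (step_sound _ 129 [(rh65909b08999dc522.shift 0 1), rh6d2125986d3f5221, (rh73f605273a09a9d0.shift 1 1)] (by decide +kernel))
noncomputable def rh435c813e669d8ae4 : CRef := CRef.mk (Pat.mk 0x40000000e0000001c0000000000000000 0x10000000340000003e0000001f0000000800000008 4 6) 0 0 (step_sound _ 100 [(rha240d968d16a7f4e.shift 1 0), (rhab2ad169e49f9c5e.shift 0 2)] (by decide +kernel))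
noncomputable def rh29090ff5167b2eac : CRef := CRef.mk (Pat.mk 0x200000007000000060000000000000000 0x40000000c0000001e00000007000000060000000600000004 4 5) 0 0 (step_sound _ 34 [(rh67ab94ada78c3e25.shift 0 1), (rh7b1f1fb55310c477.shift 1 0)] (by decide +kernel))
noncomputable def rh2108e4920eea13c7 : CRef := CRef.mk (Pat.mk 0x8000000180000001800000000 0x4000000040000000e0000007f0000003800000008 4 7) 0 0 (step_sound _ 66 [(rh73bb6971660b7fb8.shift 1 0), (rhad5d8fc3675c15dd.shift 0 1)] (by decide +kernel))
noncomputable def rh9e3b31ab11202fd1 : CRef := CRef.mk (Pat.mk 0x6000000030000000e0000000000000000 0x40000000c0000001e000000070000000e0000000c00000004 4 5) 0 0 (step_sound _ 131 [(rh18965a982d73c794.shift 0 3), (rh5a03dbb03abecd9f.shift 1 0)] (by decide +kernel))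
noncomputable def rh2f1e4958a9838ca2 : CRef := CRef.mk (Pat.mk 0xe000000060000000400000000 0x380000003f000000060000000400000004 4 6) 0 0 (step_sound _ 100 [(rh18965a982d73c794.shift 1 2), rh371357d551e5b98c] (by decide +kernel))
noncomputable def rh3698711be2857b93 : CRef := CRef.mk (Pat.mk 0x70000000300000006000000000000000000000000 0x180000001f0000000700000006000000060000000400000004 4 5) 0 0 (step_sound _ 163 [(rh18965a982d73c794.shift 0 4), rhd8263e9652146d38] (by decide +kernel))
noncomputable def rh1ee525400ece50d9 : CRef := CRef.mk (Pat.mk 0xc000000040000001c0000001800000000 0x730000007e0000003c0000001c0000001c00000010 4 7) 0 0 (step_sound _ 132 [(rh4350bf32db1ca04a.shift 0 1), (rh85e0f5cc78e9cbe0.shift 3 0), (rhb15f81e4c8ed7390.shift 2 0)] (by decide +kernel))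
noncomputable def rh5259925501ae5d40 : CRef := CRef.mk (Pat.mk 0x2000000020000000e0000001c0000000000000000 0x80000000f0000003e0000000e0000001c0000001800000008 4 6) 0 0 (step_sound _ 130 [(rh09f274a902e9c59c.shift 0 1), (rh55a1f6c57a317ce6.shift 2 0)] (by decide +kernel))
noncomputable def rhaeadf2f91e7dcd09 : CRef := CRef.mk (Pat.mk 0xb0000000c0000000800000000 0x140000001c0000001e0000000b0000000c0000000c00000004 4 5) 0 0 (step_sound _ 131 [(rh03dfdf12d5937476.shift 2 0), (rh7ef5fa5c39f1c762.shift 2 1), (rha78afc937ca94db4.shift 0 1)] (by decide +kernel))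
noncomputable def rh052c26b52c71221f : CRef := CRef.mk (Pat.mk 0xe0000000c0000000000000000 0x200000006000000070000003e0000000c0000000c00000008 4 6) 0 0 (step_sound _ 130 [(rh55a1f6c57a317ce6.shift 2 0), (rh73bb6971660b7fb8.shift 0 1)] (by decide +kernel))
noncomputable def rh54feb13ca81dbc4a : CRef := CRef.mk (Pat.mk 0xf0000000e00000000 0xc0000000c0000001c0000000f0000000e0000000a 4 5) 0 0 (step_sound _ 99 [(rh27c8111cf125e4dd.shift 1 0), (rh33e738c4ed385b9f.shift 0 2)] (by decide +kernel))
noncomputable def rhb92f7a3ffd5f2308 : CRef := CRef.mk (Pat.mk 0x200000003000000070000000600000000 0xc0000001e00000007000000070000001e00000008 4 5) 0 0 (step_sound _ 130 [(rh2f68792b6b779e96.shift 1 1), rhe4b2eac04395aae9] (by decide +kernel))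
noncomputable def rh305bae41965b54e2 : CRef := CRef.mk (Pat.mk 0x160000000e00000000 0x200000002000000030000001e0000000f00000004 4 5) 0 0 (step_sound _ 67 [(rh53b3c253cb0c65f4.shift 0 1), rhbdb8dfd08861fbf7] (by decide +kernel))
noncomputable def rh5a9701d0c298587f : CRef := CRef.mk (Pat.mk 0x2000000030000000300000000 0x70000000700000007000000030000000300000002 4 3) 0 0 (step_sound _ 129 [(rh5c5e593799055d58.shift 0 1), rh6d2125986d3f5221] (by decide +kernel))
noncomputable def rh0637f6d9c6c6b5c9 : CRef := CRef.mk (Pat.mk 0x80000000c0000000c0000000000000000 0x4000000060000000f0000003c0000000c0000000c00000004 4 6) 0 0 (step_sound _ 130 [rh8f1158d9f5036793, (rhfc7c29d8e65d775f.shift 2 1)] (by decide +kernel))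
noncomputable def rh56b856a4e34017e5 : CRef := CRef.mk (Pat.mk 0x80000000c0000000c00000000 0x1000000010000000380000003f0000000f00000008 4 6) 0 0 (step_sound _ 68 [rh0c9598d853c5906f, (rh4dc133ee0ba1420a.shift 0 1)] (by decide +kernel))
noncomputable def rh12d5b64c8b528a02 : CRef := CRef.mk (Pat.mk 0x2000000038000000100000000000000000 0x8000000080000003f00000078000000180000001000000010 4 7) 0 0 (step_sound _ 131 [(rhade0f4c81793f68e.shift 3 0), (rhf60aa8aede119d3b.shift 0 3)] (by decide +kernel))
noncomputable def rha951f84278f1704f : CRef := CRef.mk (Pat.mk 0x20000000300000001c000000080000000000000000 0x40000003e0000003f0000003c0000000f0000000400000004 4 6) 0 0 (step_sound _ 131 [(rh54e8485bbf607c5d.shift 1 2), rh5b16e5ce3dbbe89f, (rha1347ed4ef13ff82.shift 0 2)] (by decide +kernel))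
noncomputable def rh6d796111b439ce2b : CRef := CRef.mk (Pat.mk 0x600000002000000020000000300000000 0x200000002000000020000000600000006000000070000000300000002 4 3) 0 0 (step_sound _ 98 [(rh001df559c085f6ec.shift 0 1), (rh71222050f2c63a3a.shift 1 0)] (by decide +kernel))
noncomputable def rhe388d93a40face2b : CRef := CRef.mk (Pat.mk 0xf00000004 0x700000003f0000003e 4 7) 0 0 (step_sound _ 36 [rh4ad5fc38f1b69f65, (rh84d84ec8e59a0da5.shift 1 0)] (by decide +kernel))
noncomputable def rheed17fe5e12d614d : CRef := CRef.mk (Pat.mk 0x180000001c000000040000000000000000 0x100000001f0000007f0000000c0000000800000008 4 7) 0 0 (step_sound _ 67 [(rhddf0c19b5b31800d.shift 0 2), (rhea7a1800d6f053bd.shift 3 0)] (by decide +kernel))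
noncomputable def rhed6395bea3b2a5d6 : CRef := CRef.mk (Pat.mk 0xc00000016000000000000000000000000 0x200000002000000070000003f0000001e000000070000000200000002 4 6) 0 0 (step_sound _ 129 [(rh83704986f954ca48.shift 0 2), rhaf17d7ce619e136e] (by decide +kernel))
noncomputable def rhfa0a1e0a8a93877a : CRef := CRef.mk (Pat.mk 0xe0000001e00000000 0x200000002000000030000003e0000001e00000004 4 6) 0 0 (step_sound _ 68 [(rh33e738c4ed385b9f.shift 1 1), rhbdb8dfd08861fbf7] (by decide +kernel))
noncomputable def rh948d2e8dd4fc2412 : CRef := CRef.mk (Pat.mk 0x4000000060000000e000000000000000000000000 0x6000000060000000f0000003c0000000c00000004 4 6) 0 0 (step_sound _ 66 [(rh3cb04db3dd2b6a55.shift 1 0), (rhc1ae51bfba5f1e57.shift 0 1)] (by decide +kernel))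
noncomputable def rh9f3e18dfd9b89de4 : CRef := CRef.mk (Pat.mk 0x400000004000000060000000a0000000000000000 0x40000000f0000003e0000000a0000000a00000008 4 6) 0 0 (step_sound _ 129 [rh3b98070f81e71b03, (rh71222050f2c63a3a.shift 1 1)] (by decide +kernel))
noncomputable def rh5e2bfc8d869d8c17 : CRef := CRef.mk (Pat.mk 0xa0000001e0000000400000000 0x2000000030000003e0000001e0000000400000004 4 6) 0 0 (step_sound _ 100 [(rh33e738c4ed385b9f.shift 1 2), rh3e9262c7804b2d1d] (by decide +kernel))
noncomputable def rh6c918a7151ce5cb8 : CRef := CRef.mk (Pat.mk 0x1e0000000400000000 0x200000002000000070000003e0000000400000004 4 6) 0 0 (step_sound _ 97 [(rh3244c3cc8379b070.shift 0 2), (rhce27360725e17246.shift 1 0)] (by decide +kernel))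
noncomputable def rh280453866bfa01cb : CRef := CRef.mk (Pat.mk 0x40000000e0000000a00000000 0x400000004000000070000003e0000000a00000002 4 6) 0 0 (step_sound _ 130 [(rh2145e1d24b96a57e.shift 2 1), rh52f311f9719327e5] (by decide +kernel))
noncomputable def rh2648c356493cdebd : CRef := CRef.mk (Pat.mk 0x40000000e0000000a0000000000000000 0x400000004000000070000003e0000000a0000000a00000008 4 6) 0 0 (step_sound _ 35 [(rh331869c5e421c8f0.shift 0 1), (rh7b1f1fb55310c477.shift 2 0)] (by decide +kernel))
noncomputable def rh1f509f08c24652b8 : CRef := CRef.mk (Pat.mk 0x40000000e000000080000000000000000 0x100000003f0000003f000000080000000800000008 4 6) 0 0 (step_sound _ 132 [(rh7dcd5319f4f71bec.shift 0 3), rh8b91adf3158a7765, (rhca6a4af813f68cee.shift 0 3)] (by decide +kernel))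
noncomputable def rh5f1ae710410dd65b : CRef := CRef.mk (Pat.mk 0x7800000020 0x1fe0000003f 4 9) 0 0 (step_sound _ 34 [(rhc79769c0453a04d3.shift 1 0), rhdceeca65bdd8095a, (rheae1728ff4a56756.shift 1 0)] (by decide +kernel))
noncomputable def rh29a687eba27f144d : CRef := CRef.mk (Pat.mk 0x1e00000008000000080000000800000000 0x30000007e0000000e0000000c0000000c00000004 4 7) 0 0 (step_sound _ 34 [(rh932754581e0f4330.shift 2 0), (rhd9bd4dcca3dcc350.shift 0 1)] (by decide +kernel))
noncomputable def rh1a26a7518b71141d : CRef := CRef.mk (Pat.mk 0xe00000005000000140000000400000000 0x1e0000000f0000001e0000000c00000008 4 5) 0 0 (step_sound _ 3 [(rhd3458b32566d63f7.shift 2 0), (rhec7a048676bbc72f.shift 0 2)] (by decide +kernel))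
noncomputable def rh04b133847f5e80e0 : CRef := CRef.mk (Pat.mk 0x140000001e00000002 0x200000003000000030000001f0000001e00000006 4 5) 0 0 (step_sound _ 65 [(rh3244c3cc8379b070.shift 0 1), rh8e4d738d72204634] (by decide +kernel))
noncomputable def rh9e1801e106c63471 : CRef := CRef.mk (Pat.mk 0x200000002c00000000 0x600000003e00000077 4 7) 0 0 (step_sound _ 36 [(rh33e738c4ed385b9f.shift 2 1), rh8195a2d7794c7cd2] (by decide +kernel))
noncomputable def rh6e1d812eeeef3ec1 : CRef := CRef.mk (Pat.mk 0x1c000000170000001000000000 0x28000000780000001c000000170000003e00000008 4 7) 0 0 (step_sound _ 132 [(rh4017de503635a93b.shift 2 1), rhb2035b85b8a1d130] (by decide +kernel))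
noncomputable def rh60759b5854f3d841 : CRef := CRef.mk (Pat.mk 0x100000001700000010000000000000000000000000 0x1000000010000000170000003e000000180000000800000008 4 6) 0 0 (step_sound _ 99 [(rh281c6819542c66e6.shift 3 0), (rh576f4850e6cd8bc0.shift 0 3)] (by decide +kernel))
noncomputable def rhc153f3141751d418 : CRef := CRef.mk (Pat.mk 0x140000001e0000001000000000 0x30000000300000001f0000001e0000001800000008 4 6) 0 0 (step_sound _ 97 [(rh3244c3cc8379b070.shift 0 2), (rh79a2cce65bf4035c.shift 1 0)] (by decide +kernel))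
noncomputable def rh44be098787e8a74b : CRef := CRef.mk (Pat.mk 0x4000000060000000e000000000000000000000000 0x4000000060000000f0000003e0000000e0000000e 4 6) 0 0 (step_sound _ 66 [(rh820d4e04d5dcd02e.shift 1 0), (rhbdf73b26f73f8159.shift 1 0), (rhc1ae51bfba5f1e57.shift 0 1)] (by decide +kernel))
noncomputable def rh0cf3c41ad9ad5f5b : CRef := CRef.mk (Pat.mk 0x40000000600000007000000000000000000000000 0x400000006000000070000001e0000000e0000000e 4 5) 0 0 (step_sound _ 66 [(rh628a1c8740784101.shift 0 1), (rh820d4e04d5dcd02e.shift 1 0), (rhbdf73b26f73f8159.shift 1 0)] (by decide +kernel))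
noncomputable def rh37645649ec557b14 : CRef := CRef.mk (Pat.mk 0x3000000060000000200000002 0x6000000060000000600000007000000070000000600000002 4 3) 0 0 (step_sound _ 129 [(rh14f80659e6313cc6.shift 1 1), (rh44f453b84f013105.shift 1 0), (rhea6bef6447d37a6a.shift 0 1)] (by decide +kernel))
noncomputable def rhb0600cead595b55a : CRef := CRef.mk (Pat.mk 0x2000000020000000200000002 0x4000000070000000700000003000000060000000600000006 4 3) 0 0 (step_sound _ 129 [rh3ca48e2a6d60153d, (rh426f403fa814630c.shift 1 0)] (by decide +kernel))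
noncomputable def rh4f4e85fdaf90cebd : CRef := CRef.mk (Pat.mk 0x80000000a0000000800000008 0x100000003c0000001f0000000800000008 4 6) 0 0 (step_sound _ 100 [(rh2f68792b6b779e96.shift 3 0), (rha60af7b7eca27efb.shift 0 2)] (by decide +kernel))
noncomputable def rh78b783ff2958d2ce : CRef := CRef.mk (Pat.mk 0x300000002000000020000000200000000 0x200000006000000060000000700000003000000030000000200000002 4 3) 0 0 (step_sound _ 96 [(rh60caaf96997f0fe3.shift 0 1), rh7b1f1fb55310c477] (by decide +kernel))
noncomputable def rhc72e185f95ef402c : CRef := CRef.mk (Pat.mk 0xe00000008000000080000000800000000 0x1f00000078000000080000000c00000004 4 7) 0 0 (step_sound _ 2 [(rh79877ebd3ef475dd.shift 2 0), (rh8ee80cc30e93a344.shift 0 3)] (by decide +kernel))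
noncomputable def rhcae08498a8760fca : CRef := CRef.mk (Pat.mk 0x1c00000010000000140000001400000000 0x40000001c000000380000001f0000001c0000000c 4 6) 0 0 (step_sound _ 35 [rh8b69f8ce5eee6e69, (rh932754581e0f4330.shift 3 0)] (by decide +kernel))
noncomputable def rhd986e5412bf6a804 : CRef := CRef.mk (Pat.mk 0x38000000200000000800000008 0x70000003e000000370000000c00000008 4 6) 0 0 (step_sound _ 98 [(rh483fbfd538e8380f.shift 1 0), (rhd1d05263fabc0227.shift 0 2), (rhdceeca65bdd8095a.shift 0 2)] (by decide +kernel))
noncomputable def rh8f12d57e0e1f27cb : CRef := CRef.mk (Pat.mk 0x1800000018000000080000002000000000 0x380000007f0000006e0000002000000020 4 7) 0 0 (step_sound _ 98 [(rh861a59032aac395a.shift 1 0), (rhab2ad169e49f9c5e.shift 0 3)] (by decide +kernel))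
noncomputable def rh8c70a726a3a85f76 : CRef := CRef.mk (Pat.mk 0x20000000e00000002 0x30000003e00000076 4 7) 0 0 (step_sound _ 36 [(rh3244c3cc8379b070.shift 0 1), (rh4274f4328cb9f3fd.shift 1 0)] (by decide +kernel))
noncomputable def rh336c18cb66e77365 : CRef := CRef.mk (Pat.mk 0x38000000080000000800000000 0x60000003f0000003f0000000800000008 4 6) 0 0 (step_sound _ 98 [(rh0a31c7f562fb8d12.shift 0 2), (rh132883a60cd8aed8.shift 1 0)] (by decide +kernel))
noncomputable def rhc0dbcf89614018a8 : CRef := CRef.mk (Pat.mk 0xe000000020000000800000000 0x700000003f0000007e0000000800000008 4 7) 0 0 (step_sound _ 100 [(rh4274f4328cb9f3fd.shift 1 2), rh4c496af6e2e9f8b2, (rhd584a578337d0023.shift 1 2)] (by decide +kernel))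
noncomputable def rhf204659dbf618c64 : CRef := CRef.mk (Pat.mk 0x380000000800000008 0x4000000070000003f0000003f00000008 4 6) 0 0 (step_sound _ 66 [(rh0a31c7f562fb8d12.shift 0 1), (rh882a3e8c7bd7762b.shift 0 1), (rhe4f9133a81c1dbc5.shift 1 0)] (by decide +kernel))
noncomputable def rh4016a8c43def2565 : CRef := CRef.mk (Pat.mk 0x2000000020000000200000006 0x10000000700000007000000020000000600000006 4 3) 0 0 (step_sound _ 98 [(rh2f68792b6b779e96.shift 1 0), rh65909b08999dc522] (by decide +kernel))
noncomputable def rhda7f738f240674e9 : CRef := CRef.mk (Pat.mk 0x300000003000000050000000000000000 0x2000000030000000300000003000000070000000600000002 4 3) 0 0 (step_sound _ 161 [(rh5c5e593799055d58.shift 0 2), rh8f35b0f4caf214bc] (by decide +kernel))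
noncomputable def rhbf17779b0fc4377b : CRef := CRef.mk (Pat.mk 0x6000000060000000a0000000000000000 0x4000000040000000f0000003e0000000a0000000800000008 4 6) 0 0 (step_sound _ 162 [rh3b98070f81e71b03, (rh5c5e593799055d58.shift 1 2)] (by decide +kernel))
noncomputable def rhb6feff880a88bde1 : CRef := CRef.mk (Pat.mk 0xc0000001c000000100000000000000000 0x340000007c0000001f000000180000001800000018 4 7) 0 0 (step_sound _ 132 [(rh900517affbf79fe4.shift 2 0), (rhab2ad169e49f9c5e.shift 0 3), (rhf8d29f3cbeaf06f7.shift 2 0)] (by decide +kernel))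
noncomputable def rhfa26aa5ce58b8243 : CRef := CRef.mk (Pat.mk 0x7800000010 0x70000007e0000003e 4 7) 0 0 (step_sound _ 34 [rh4f8edb321cf5b49d, (rheae1728ff4a56756.shift 1 0)] (by decide +kernel))
noncomputable def rhe2d50aca5e2450bb : CRef := CRef.mk (Pat.mk 0xc00000004000000040000001c00000000 0x120000003f0000003f0000000c0000001c00000010 4 6) 0 0 (step_sound _ 99 [(rhcf85c92937975d4d.shift 0 1), rhf1111a25552c7df5] (by decide +kernel))
noncomputable def rh2681a9cc88799f7f : CRef := CRef.mk (Pat.mk 0xe000000000000000800000000 0x40000000c0000001f0000007c0000000800000008 4 7) 0 0 (step_sound _ 67 [(rh7b24c4ccc068b0b2.shift 2 0), (rh8ee80cc30e93a344.shift 0 2), (rhc21a95c499b3efdb.shift 0 2)] (by decide +kernel))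
noncomputable def rhe43ff1ad7042aea4 : CRef := CRef.mk (Pat.mk 0x60000001e00000000 0x200000003000000030000003e0000001e00000007 4 6) 0 0 (step_sound _ 97 [(rh3e595262c1b737ad.shift 1 0), rhb25fef3cd18fdc47] (by decide +kernel))
noncomputable def rhac0f8679b4e8a798 : CRef := CRef.mk (Pat.mk 0xc000000040000001c0000000000000000 0x8000000180000003c0000000f0000001c0000001800000008 4 6) 0 0 (step_sound _ 99 [(rh571950d89739e871.shift 2 1), rha31e2286f1ebea1b] (by decide +kernel))
noncomputable def rh47d62f82182d1757 : CRef := CRef.mk (Pat.mk 0x180000000800000038000000000000000000000000 0x200000007c0000003f00000038000000180000001000000010 4 7) 0 0 (step_sound _ 165 [(rh0487aa7fb6323ae1.shift 3 0), (rh2820ca9a6c4f41b4.shift 0 4), (rhf0f55c4504412200.shift 0 4)] (by decide +kernel))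
noncomputable def rh80bb4355aab750a2 : CRef := CRef.mk (Pat.mk 0xc000000140000000400000000 0xa0000003e000000370000000400000004 4 6) 0 0 (step_sound _ 97 [(rh1e42cdaa2b8276ac.shift 0 2), (rh261f868a429ae0e3.shift 1 0)] (by decide +kernel))
noncomputable def rhccfe59976d8f78f9 : CRef := CRef.mk (Pat.mk 0x380000002c0000000800000000 0x100000001000000018000000380000002f0000000800000008 4 6) 0 0 (step_sound _ 64 [(rh24ae073cf30720c4.shift 0 2), (rh7f36f639160ea2c8.shift 3 0)] (by decide +kernel))
noncomputable def rh4c6178ff4696345e : CRef := CRef.mk (Pat.mk 0x380000002c0000000800000000 0x10000000380000002f0000007c00000028 4 7) 0 0 (step_sound _ 65 [(rh53b3c253cb0c65f4.shift 0 2), (rhfbcd18612ae70378.shift 1 0)] (by decide +kernel))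
noncomputable def rh1b2df5ba4c8f9ada : CRef := CRef.mk (Pat.mk 0x20000000200000003000000020000000000000000 0x600000006000000070000000300000003000000060000000600000004 4 3) 0 0 (step_sound _ 33 [(rh6bf886c167578650.shift 0 1), (rhd29a1fb688eae70f.shift 1 0)] (by decide +kernel))
noncomputable def rhadacf7b73debade2 : CRef := CRef.mk (Pat.mk 0x800000068000000380000000000000000 0x140000003c00000068000000380000001f00000004 4 7) 0 0 (step_sound _ 35 [(rh330a005829cdd297.shift 2 1), rh852e818bc8629e77] (by decide +kernel))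
noncomputable def rhac65fe9f4d7f3dc5 : CRef := CRef.mk (Pat.mk 0x20000001a0000000e00000000 0x400000004000000060000001f0000007a0000000e00000002 4 7) 0 0 (step_sound _ 98 [(rh215e11e099257d75.shift 1 0), (rhfabdf7ac67e936fb.shift 0 1)] (by decide +kernel))
noncomputable def rh2298b74d3568eeb7 : CRef := CRef.mk (Pat.mk 0x18000000780000000000000000 0x800000008000000180000007f0000003e00000010 4 7) 0 0 (step_sound _ 36 [(rh355644ee8f81c0ca.shift 0 1), (rhfc7c29d8e65d775f.shift 3 0)] (by decide +kernel))
noncomputable def rhfadef44d82b2e96f : CRef := CRef.mk (Pat.mk 0x800000000000000180000005800000000 0x3000000038000000380000001f0000007800000030 4 7) 0 0 (step_sound _ 100 [(rh77aff2a1b006188a.shift 0 1), (rh8bfbf7ac61c5fcd6.shift 2 0), (rhb0589e48f1d61df0.shift 3 0)] (by decide +kernel))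
noncomputable def rh2b9d78e14dbe6cb0 : CRef := CRef.mk (Pat.mk 0x8000000000000001800000058 0x1800000018000000300000001f00000078 4 7) 0 0 (step_sound _ 34 [(rh2fe78cc5ca4405d8.shift 2 0), rhee6a2840b930d427] (by decide +kernel))
noncomputable def rhb3649a6172bd88d6 : CRef := CRef.mk (Pat.mk 0x600000006000000020000000000000000 0x2000000020000000600000006000000070000000700000003 4 3) 0 0 (step_sound _ 33 [(rh71222050f2c63a3a.shift 1 0), rh775f87da7f66c174] (by decide +kernel))
noncomputable def rha60259b11b492d3d : CRef := CRef.mk (Pat.mk 0x1e000000040000000000000000 0x2000000070000003e000000040000000400000004 4 6) 0 0 (step_sound _ 129 [(rh3244c3cc8379b070.shift 0 3), (rh9b349e98344f089a.shift 1 0)] (by decide +kernel))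
noncomputable def rh1fcb0c52cca088ab : CRef := CRef.mk (Pat.mk 0x20000000a0000000a000000080000000000000000 0x400000006000000060000000a0000000b0000000f0000000f00000004 4 4) 0 0 (step_sound _ 65 [(rh402d223d12d7377d.shift 0 1), (rh96542b57e9ab27d3.shift 1 0)] (by decide +kernel))
noncomputable def rh6409895086bd9552 : CRef := CRef.mk (Pat.mk 0x20000000a0000000a000000080000000000000000 0x100000003000000030000000a0000000b0000000f0000000f00000004 4 4) 0 0 (step_sound _ 65 [(rh0fd870c734e6c513.shift 0 1), (rh96542b57e9ab27d3.shift 1 0)] (by decide +kernel))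
noncomputable def rh980fcfff829ad243 : CRef := CRef.mk (Pat.mk 0x200000002000000020000000000000000 0x500000007000000070000000700000002000000030000000300000001 4 3) 0 0 (step_sound _ 161 [rh0c1c1b53bc5a1510, rh32c2123a4016d1a7, (rh7ef5fa5c39f1c762.shift 0 2)] (by decide +kernel))
noncomputable def rh30de1f488ced68d2 : CRef := CRef.mk (Pat.mk 0x20000001800000008000000080000000000000000 0x40000000f00000018000000080000001c0000001c00000014 4 5) 0 0 (step_sound _ 163 [(rh3181373a30ceb9e3.shift 2 0), (rh876344954e856662.shift 0 2)] (by decide +kernel))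
noncomputable def rh6afad16846f4e5cd : CRef := CRef.mk (Pat.mk 0x20000001a000000020000000000000000 0x5000000070000000f0000001a000000030000000300000001 4 5) 0 0 (step_sound _ 33 [rh0fd870c734e6c513, (rh330a005829cdd297.shift 0 1), rh402d223d12d7377d] (by decide +kernel))
noncomputable def rh11bbdefe2705f60a : CRef := CRef.mk (Pat.mk 0x140000001400000014000000000000000000000000 0x1400000014000000140000003e0000000f0000000a00000008 4 6) 0 0 (step_sound _ 99 [(rh2b0ca75d642a5639.shift 0 1), (rh5fc67bac28a8b5bb.shift 2 2), (rha56f4c4626a53b18.shift 2 0)] (by decide +kernel))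
noncomputable def rh67834bbbf5fda393 : CRef := CRef.mk (Pat.mk 0x400000014000000040000000400000000 0x2000000070000003e000000040000000400000004 4 6) 0 0 (step_sound _ 129 [(rh50fbb5868c909700.shift 1 1), rh58baa10a96caff8d] (by decide +kernel))
noncomputable def rh48a21ff32460cc4d : CRef := CRef.mk (Pat.mk 0x10000000a0000000a0000000a000000000000000000000000 0x1000000130000001e0000000a0000000a0000001c0000001c00000014 4 5) 0 0 (step_sound _ 67 [(rh3181373a30ceb9e3.shift 2 0), (rh839eba1812de5a90.shift 0 2)] (by decide +kernel))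
noncomputable def rh9bfcedd6961f6a87 : CRef := CRef.mk (Pat.mk 0x2000000020000000300000002 0x4000000070000000700000003000000030000000300000002 4 3) 0 0 (step_sound _ 129 [rh3ca48e2a6d60153d, (rh9a369cb82ea472da.shift 0 1)] (by decide +kernel))
noncomputable def rhdbc55d3b204a972a : CRef := CRef.mk (Pat.mk 0x80000000a0000000600000004 0x8000000080000000b0000003e00000007 4 6) 0 0 (step_sound _ 35 [(rh5c5e593799055d58.shift 2 0), rh9f93e2b24091a43d] (by decide +kernel))
noncomputable def rhbde1dbdffc26c685 : CRef := CRef.mk (Pat.mk 0xa0000000a0000000a00000008 0x100000011000000190000001f0000000b0000000a0000000a 4 5) 0 0 (step_sound _ 96 [rhd444dcb48ef11957, rhf9a6286f1d5377a2] (by decide +kernel))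
noncomputable def rh66a10826874d2466 : CRef := CRef.mk (Pat.mk 0x28000000280000002800000020 0x40000000780000002f0000007c00000020 4 7) 0 0 (step_sound _ 66 [(rh1df1df71a80a171b.shift 2 0), (rh8c25cb665ab79ec0.shift 0 1)] (by decide +kernel))
noncomputable def rh2e1175ac59dda116 : CRef := CRef.mk (Pat.mk 0x10000000500000005000000050000000000000000 0x20000000f0000000f0000000d000000050000000d0000000c00000008 4 4) 0 0 (step_sound _ 162 [(rh28f7c203f178e979.shift 0 2), (rhec588a0d7783acc6.shift 2 0)] (by decide +kernel))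
noncomputable def rh7b09a60ea70b7479 : CRef := CRef.mk (Pat.mk 0x1800000028000000280000000800000000 0xc00000007c000001ef000000280000002800000008 4 9) 0 0 (step_sound _ 133 [(rh2820ca9a6c4f41b4.shift 0 3), (rh5bc090164f229948.shift 2 1), (rh8ee80cc30e93a344.shift 2 3), (rhfb6a70ff77f7aa91.shift 1 0)] (by decide +kernel))
noncomputable def rh7552efa494129220 : CRef := CRef.mk (Pat.mk 0x40000000400000007000000000000000000000000 0x80000000e0000000e000000070000001e0000000e0000000e 4 5) 0 0 (step_sound _ 66 [(rh9ee82b97cdeec3bd.shift 1 0), (rhb379f99078aafa2d.shift 0 1), (rhec588a0d7783acc6.shift 2 0)] (by decide +kernel))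
noncomputable def rhf814db9021755fce : CRef := CRef.mk (Pat.mk 0x8000000080000000a0000000800000000 0x800000008000000080000000f0000003c00000004 4 6) 0 0 (step_sound _ 34 [(rh64d7f449d0814bc4.shift 0 1), (rh932754581e0f4330.shift 2 0)] (by decide +kernel))
noncomputable def rhe64c6c9f2d0e38e8 : CRef := CRef.mk (Pat.mk 0xa000000080000001c 0xf0000007f0000003f 4 7) 0 0 (step_sound _ 36 [rh35470ceaa270cce2, rh558bcd7a2d29234b, rhab2ad169e49f9c5e] (by decide +kernel))
noncomputable def rhc0244a6a8f388687 : CRef := CRef.mk (Pat.mk 0x80000000a0000000a0000000a00000000 0x100000011000000190000000f0000000b0000000a00000002 4 5) 0 0 (step_sound _ 96 [(rhddcd04bb31546311.shift 0 1), rhf9a6286f1d5377a2] (by decide +kernel))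
noncomputable def rh6397304e48106007 : CRef := CRef.mk (Pat.mk 0x80000000800000006000000000000000000000000 0x800000008000000780000001f0000000c0000000400000004 4 7) 0 0 (step_sound _ 99 [(rh281c6819542c66e6.shift 2 0), (rha11dfd15f08f96e3.shift 0 3)] (by decide +kernel))
noncomputable def rh8e35b8e686c528a7 : CRef := CRef.mk (Pat.mk 0x140000001c000000000000000000000000 0x80000001c0000007f000000760000001400000014 4 7) 0 0 (step_sound _ 131 [(rh92e8f86a47ca4f2b.shift 1 0), rhcb68da4f2dc5e7fd, (rhe3e8c074aa83e8bd.shift 0 2)] (by decide +kernel))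
noncomputable def rh264ce5480d75c69d : CRef := CRef.mk (Pat.mk 0x20000000e000000060000000000000000 0x4000000060000003e0000003e0000000300000003 4 6) 0 0 (step_sound _ 33 [(rha707fb719e87fe6e.shift 1 0), rhe15164ba884db0cb] (by decide +kernel))
noncomputable def rh88126945e2c9f993 : CRef := CRef.mk (Pat.mk 0xa0000000e00000006000000000000000000000000 0x40000000e0000000e0000003f0000003b0000001b00000008 4 6) 0 0 (step_sound _ 99 [(rh0125efc36fb9411b.shift 0 1), rh3a6c1689b3bee428, (rhe58e95c485df2815.shift 0 1)] (by decide +kernel))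
noncomputable def rhe5f445fbf1420cec : CRef := CRef.mk (Pat.mk 0x100000001c00000018000000000000000000000000 0x180000001f0000001f000000380000003800000018 4 6) 0 0 (step_sound _ 68 [(rh39848790f9efd77c.shift 0 1), (rh3cb04db3dd2b6a55.shift 3 0), (rhbdf73b26f73f8159.shift 3 0)] (by decide +kernel))
noncomputable def rh2d7209ce0a85e9fa : CRef := CRef.mk (Pat.mk 0xa0000000e0000000c000000000000000000000000 0x40000000e0000000e0000003f0000003b0000001b00000008 4 6) 0 0 (step_sound _ 97 [(rh0125efc36fb9411b.shift 0 1), rh3a6c1689b3bee428, (rhe58e95c485df2815.shift 0 1)] (by decide +kernel))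
noncomputable def rh59011846e58d73ff : CRef := CRef.mk (Pat.mk 0x20000000200000002000000000000000000000000 0x500000007000000070000000300000003000000070000000700000004 4 3) 0 0 (step_sound _ 65 [(rh0fd870c734e6c513.shift 0 1), (rh402d223d12d7377d.shift 0 1), rhcae87bda2c3c01d2] (by decide +kernel))
noncomputable def rh9bb466b2f2c3b9d6 : CRef := CRef.mk (Pat.mk 0x140000001400000014000000000000000000000000 0x1400000014000000340000001e0000000f0000000800000008 4 6) 0 0 (step_sound _ 99 [(rh5fc67bac28a8b5bb.shift 2 2), (rh681d9f8e79458a8b.shift 0 2), (rha56f4c4626a53b18.shift 2 0)] (by decide +kernel))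
noncomputable def rhaa267e591401fc13 : CRef := CRef.mk (Pat.mk 0xa0000000e0000000a0000000000000000 0x500000007000000070000000a0000000e0000000e0000000e00000004 4 4) 0 0 (step_sound _ 161 [(rh7ef5fa5c39f1c762.shift 0 2), (rh96542b57e9ab27d3.shift 1 0), (rhd4b4beefcd67f51e.shift 1 1)] (by decide +kernel))
noncomputable def rhe616bd15ec9e20c1 : CRef := CRef.mk (Pat.mk 0x200000002000000020000000000000000 0x500000007000000070000000300000003000000070000000700000004 4 3) 0 0 (step_sound _ 161 [(rh0fd870c734e6c513.shift 0 1), (rh402d223d12d7377d.shift 0 1), rhcae87bda2c3c01d2] (by decide +kernel))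
noncomputable def rh01cd4aac99ae4b40 : CRef := CRef.mk (Pat.mk 0x2000000020000001e00000000 0x4000000050000000700000007000000060000001e00000003 4 5) 0 0 (step_sound _ 130 [(rh5890386c1f942fa1.shift 1 1), rha1aa13057a4a8e13, rhb92da19cf879b0e1] (by decide +kernel))
noncomputable def rha48bf7c18c1f006f : CRef := CRef.mk (Pat.mk 0x200000003000000020000000000000000 0x600000006000000070000000700000003000000030000000200000002 4 3) 0 0 (step_sound _ 161 [(rh769be3fe24eee174.shift 0 2), rh80c6e1b9aaf50bed, rhcc10c22baa919f90] (by decide +kernel))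
noncomputable def rh57e0fcf9537f6a5b : CRef := CRef.mk (Pat.mk 0x100000007000000060000000000000000 0x6000000070000000700000007000000060000000200000002 4 3) 0 0 (step_sound _ 162 [rh3d9ea522a568e981, (rhc2232afe215d6971.shift 1 2), rhf2a9fe152b7d396c] (by decide +kernel))
noncomputable def rh2e017013ff157e93 : CRef := CRef.mk (Pat.mk 0x100000007000000060000000000000000 0x30000000300000007000000060000000600000006 4 3) 0 0 (step_sound _ 33 [rh5410b6b3ceda500c, rh7b1f1fb55310c477] (by decide +kernel))
noncomputable def rh6df3e9b5738faf61 : CRef := CRef.mk (Pat.mk 0x38000000080000000800000000 0xc0000001f000000380000001f0000001c00000014 4 6) 0 0 (step_sound _ 131 [rh6d5ad56e3df38040, (rh79905f95cb2d899a.shift 0 1), (rhabedd109a9a37101.shift 2 0)] (by decide +kernel))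
noncomputable def rhbc48c47503cb9557 : CRef := CRef.mk (Pat.mk 0x40000001c00000004000000040000000800000000 0x400000004000000040000001c0000000f000000060000000c0000000c 4 5) 0 0 (step_sound _ 99 [(rh3af54b5f78790764.shift 0 2), (rh9b4df57cddcda711.shift 2 0)] (by decide +kernel))
noncomputable def rh9db51efc6d9d93b8 : CRef := CRef.mk (Pat.mk 0x60000000200000002000000040000000000000000 0x60000000600000002000000070000000700000001 4 3) 0 0 (step_sound _ 65 [(rh55afc6a59410cf00.shift 1 1), rh8aec56c4ee12918c] (by decide +kernel))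
noncomputable def rhc9cfa84202724d48 : CRef := CRef.mk (Pat.mk 0x700000007000000020000000000000000 0x20000000700000007000000070000000700000007 4 3) 0 0 (step_sound _ 33 [(rh71222050f2c63a3a.shift 1 0), rh7dc3eb36d15226cb] (by decide +kernel))
noncomputable def rhf28b523c75fe0711 : CRef := CRef.mk (Pat.mk 0x600000003000000020000000000000000 0x20000000700000007000000070000000700000007 4 3) 0 0 (step_sound _ 33 [rh2d5442cbf338480d, rhabedd109a9a37101] (by decide +kernel))
noncomputable def rh4438f01b220ebc91 : CRef := CRef.mk (Pat.mk 0x80000001c000000040000000c00000000 0x10000000380000001f0000000e0000007c00000010 4 7) 0 0 (step_sound _ 67 [(rh36d4d92ef3dad5f8.shift 1 0), (rhccf6c53fa88468fc.shift 0 1)] (by decide +kernel))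
noncomputable def rhfbfc91878dfaf737 : CRef := CRef.mk (Pat.mk 0x38000000080000001800000000 0x8000000080000003c0000000f0000001c00000014 4 6) 0 0 (step_sound _ 131 [(rh55afc6a59410cf00.shift 3 0), rhd7d6cfa7727a2776] (by decide +kernel))
noncomputable def rh8bf8248bcf1a0fcd : CRef := CRef.mk (Pat.mk 0x40000000e00000002000000060000000000000000 0xc0000000e000000070000003e0000000c00000004 4 6) 0 0 (step_sound _ 98 [(rh36d4d92ef3dad5f8.shift 0 1), (rhb0c1e7919d9be92d.shift 1 0)] (by decide +kernel))
noncomputable def rh3ed98727abf28908 : CRef := CRef.mk (Pat.mk 0x40000000e000000000000000000000000 0x4000000040000000c0000000f0000007c0000000800000008 4 7) 0 0 (step_sound _ 67 [(rh7e1098702e50f2b0.shift 2 0), (rha40d42a2e34c408d.shift 2 0), (rhc21a95c499b3efdb.shift 0 2)] (by decide +kernel))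
noncomputable def rhe5af11f89569327d : CRef := CRef.mk (Pat.mk 0x80000001c00000004000000080000000000000000 0x10000000380000001f0000000c000000180000001800000018 4 6) 0 0 (step_sound _ 99 [(rh820d4e04d5dcd02e.shift 2 0), (rhb0c1e7919d9be92d.shift 2 0), (rhccf6c53fa88468fc.shift 0 2)] (by decide +kernel))
noncomputable def rh6071e221c9b80e18 : CRef := CRef.mk (Pat.mk 0x1000000038000000080000001800000000 0x28000000780000003e000000380000001f00000004 4 7) 0 0 (step_sound _ 68 [rh6d3602f45702e5fd, (rhccf6c53fa88468fc.shift 1 1)] (by decide +kernel))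
noncomputable def rh1ab348ec1f5b10e8 : CRef := CRef.mk (Pat.mk 0x80000001c000000040000000c00000000 0x3c0000001f000000340000001e00000018 4 6) 0 0 (step_sound _ 68 [(rh3ce854f4a795c89f.shift 0 2), (rh41133e59ea300eb8.shift 1 0), (rhb0a519e9cce3da89.shift 2 0)] (by decide +kernel))
noncomputable def rh543b63d61c76edc4 : CRef := CRef.mk (Pat.mk 0x80000001c0000000c00000008 0x1800000018000000180000001c0000000f00000008 4 5) 0 0 (step_sound _ 32 [(rh24ae073cf30720c4.shift 0 1), (rh5fa50b509d4ce753.shift 2 0)] (by decide +kernel))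
noncomputable def rhf541df66d9d96393 : CRef := CRef.mk (Pat.mk 0x1e000000140000000400000000 0x8000000080000003c0000001e000000170000003c00000018 4 6) 0 0 (step_sound _ 36 [rh0ec23f7f682c973d, (rh176ee440f82a3750.shift 2 0), (rh791587d13de18a79.shift 1 0)] (by decide +kernel))
noncomputable def rh1ca46a4e40c89c25 : CRef := CRef.mk (Pat.mk 0x1e0000000400000004000000000000000000000000 0x40000001e000000070000000e0000000e0000000e0000000a 4 5) 0 0 (step_sound _ 66 [(rh3181373a30ceb9e3.shift 1 0), (rhabedd109a9a37101.shift 1 1), (rhd680bf2cf2441e84.shift 0 1)] (by decide +kernel))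
noncomputable def rh21babdc42a85646d : CRef := CRef.mk (Pat.mk 0x8000000000000001e000000100000000000000000 0x8000000080000001b0000001e000000100000001000000010 4 5) 0 0 (step_sound _ 128 [(rh28afc5b167f84184.shift 3 0), (rh3f8766e6ecb455ce.shift 0 3)] (by decide +kernel))
noncomputable def rhc61a346d45ccc398 : CRef := CRef.mk (Pat.mk 0x8000000000000001e000000040000000000000000 0xa0000000f0000001e000000040000000400000004 4 5) 0 0 (step_sound _ 129 [(rh0bf14f2a37bf8d73.shift 1 0), (rh3244c3cc8379b070.shift 0 3)] (by decide +kernel))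
noncomputable def rhb760bc700c38263e : CRef := CRef.mk (Pat.mk 0x8000000000000001e000000140000000000000000 0x80000001e000000370000001e000000140000000400000004 4 6) 0 0 (step_sound _ 130 [(rh15e830c3d3f8506b.shift 1 2), rhe8ba5e25e7c74702] (by decide +kernel))
noncomputable def rhde29ee12f85ce2c9 : CRef := CRef.mk (Pat.mk 0x8000000000000001e000000140000000000000000 0x8000000080000000f0000001e000000140000000400000004 4 5) 0 0 (step_sound _ 128 [(rh2146aa40751c401a.shift 2 0), (rh3f8766e6ecb455ce.shift 0 3)] (by decide +kernel))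
noncomputable def rh696b67cf4aee39b5 : CRef := CRef.mk (Pat.mk 0x2000000030000000300000000 0x70000000700000007000000030000000300000002 4 3) 0 0 (step_sound _ 128 [(rh16567ae718d9fd54.shift 0 1), rhb0589e48f1d61df0, rhc17a6a02773cc5f6] (by decide +kernel))
noncomputable def rhd9a16a2c203f7ebd : CRef := CRef.mk (Pat.mk 0x80000001c000000040000000c00000000 0x60000000f0000001c0000000e0000007c00000010 4 7) 0 0 (step_sound _ 67 [(rh1a1ff760019a7e53.shift 0 1), (rh36d4d92ef3dad5f8.shift 1 0)] (by decide +kernel))
noncomputable def rh68fd9b30be46ed10 : CRef := CRef.mk (Pat.mk 0x400000007000000050000000000000000 0x6000000060000000700000007000000070000000700000001 4 3) 0 0 (step_sound _ 161 [rh425ceda75e1263b6, (rha52e0141694f1c7d.shift 1 1), (rhc17a6a02773cc5f6.shift 1 1)] (by decide +kernel))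
noncomputable def rhb5a916fa00825fa3 : CRef := CRef.mk (Pat.mk 0x1c00000018000000000000000800000000 0x1c0000007f000000370000001c0000001c 4 7) 0 0 (step_sound _ 98 [(rh8b20b1ef24f2c4de.shift 0 2), (rhca381fd96aedcb47.shift 1 0), rhdb3212ed6dfd725f] (by decide +kernel))
noncomputable def rh42aaa9e12070eb87 : CRef := CRef.mk (Pat.mk 0x40000000c0000000c0000000400000000 0x180000003c0000000f0000000c0000000c00000008 4 6) 0 0 (step_sound _ 131 [(rh5c5e593799055d58.shift 2 1), rha31e2286f1ebea1b] (by decide +kernel))
noncomputable def rh50871771a03f1586 : CRef := CRef.mk (Pat.mk 0x80000001800000008000000000000000000000000 0x8000000080000007c0000001f000000040000000400000004 4 7) 0 0 (step_sound _ 98 [(rh557b120f072744ca.shift 0 3), (rh69012675dfdb1a5b.shift 0 3), (rhfafeb437ceb8396d.shift 2 0)] (by decide +kernel))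
noncomputable def rh2f8336003c105dd7 : CRef := CRef.mk (Pat.mk 0x100000001800000018000000080000000000000000 0x80000001800000018000000380000003f0000003400000030 4 6) 0 0 (step_sound _ 68 [(rh3cb04db3dd2b6a55.shift 3 0), (rh6d3602f45702e5fd.shift 0 1), (rh820d4e04d5dcd02e.shift 3 0)] (by decide +kernel))
noncomputable def rhf5d412f823853b2e : CRef := CRef.mk (Pat.mk 0x1e000000140000000800000000 0x16000000370000001e0000001c0000000c00000004 4 6) 0 0 (step_sound _ 130 [(rh5c21d1b44b302808.shift 1 1), rhe8ba5e25e7c74702] (by decide +kernel))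
noncomputable def rh38516e404612c456 : CRef := CRef.mk (Pat.mk 0x1e000000040000000800000000 0x2000000070000001e000000040000000c0000000c 4 5) 0 0 (step_sound _ 129 [(rh3244c3cc8379b070.shift 0 3), (rh8676434d7b22727c.shift 1 0)] (by decide +kernel))
noncomputable def rh0c7a2715199ac8ca : CRef := CRef.mk (Pat.mk 0x1e000000100000000800000000 0x330000001e000000180000001800000008 4 6) 0 0 (step_sound _ 128 [(rh3e98fa1023bb94d7.shift 1 0), (rh3f8766e6ecb455ce.shift 0 3)] (by decide +kernel))
noncomputable def rhee4750e86d347f32 : CRef := CRef.mk (Pat.mk 0x600000006000000060000000000000000 0x2000000020000000600000006000000070000000300000003 4 3) 0 0 (step_sound _ 33 [(rh71222050f2c63a3a.shift 1 0), rhbd1553ade3ecbf42] (by decide +kernel))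
noncomputable def rh8bf7566d995c9c1e : CRef := CRef.mk (Pat.mk 0x100000005a000000100000000000000000 0x80000001f0000007b000000100000001000000010 4 7) 0 0 (step_sound _ 131 [(rh3cb04db3dd2b6a55.shift 3 0), (rh83eb547915d40629.shift 0 3)] (by decide +kernel))
noncomputable def rh50befda71aeb5ee5 : CRef := CRef.mk (Pat.mk 0x1a00000038000000000000000000000000 0x10000000100000001b0000003f000000700000002000000020 4 7) 0 0 (step_sound _ 69 [(rh5d54cb79a67f97ab.shift 4 0), (rh95ce53963b10250e.shift 0 2)] (by decide +kernel))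
noncomputable def rh41257688fe926dcc : CRef := CRef.mk (Pat.mk 0x8000000380000000800000000 0x140000001c0000001c000000080000003c0000000f00000004 4 6) 0 0 (step_sound _ 131 [rh322e79f034282812, (rh7ef5fa5c39f1c762.shift 2 1)] (by decide +kernel))
noncomputable def rhfb9ac98d85e06407 : CRef := CRef.mk (Pat.mk 0xe0000000c0000000000000000 0x80000007c0000000f0000000c0000000400000004 4 7) 0 0 (step_sound _ 131 [(rh1e309b005ffa1b36.shift 2 0), (rhff7d63dcb3cf9f74.shift 0 3)] (by decide +kernel))
noncomputable def rh5c85aa44f59d451d : CRef := CRef.mk (Pat.mk 0xe0000000f0000000000000000 0x18000000180000000f0000000f0000001c00000004 4 5) 0 0 (step_sound _ 35 [rhc4b991cc36a03fbe, (rhe25b0a99195a5d59.shift 0 1)] (by decide +kernel))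
noncomputable def rhc28cf6ff461d73c9 : CRef := CRef.mk (Pat.mk 0x1c0000000e000000040000000000000000 0x2000000330000001e0000000e0000000c0000000c0000000c 4 6) 0 0 (step_sound _ 129 [(rh309fd0c3d364cd61.shift 0 2), (rh40241bd608e5be1a.shift 1 0), (rh48cb297d6474888f.shift 1 0)] (by decide +kernel))
noncomputable def rhd90f969e6ef1815c : CRef := CRef.mk (Pat.mk 0x200000007000000060000000000000000 0xc0000001e00000007000000060000000600000006 4 5) 0 0 (step_sound _ 34 [rh3af7ef3ed8beda46, (rh7b1f1fb55310c477.shift 1 0)] (by decide +kernel))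
noncomputable def rh2106babc6adfb9a6 : CRef := CRef.mk (Pat.mk 0x600000007000000040000000000000000 0x4000000060000000f0000003c0000000c0000000c 4 6) 0 0 (step_sound _ 34 [(rh7b1f1fb55310c477.shift 1 0), rhd0d5331b79c7defe] (by decide +kernel))
noncomputable def rh1c3256059b8d6c56 : CRef := CRef.mk (Pat.mk 0x20000000e00000000 0x70000003e00000007 4 6) 0 0 (step_sound _ 36 [(rh3244c3cc8379b070.shift 0 1), rhdc2729b77246fcd3] (by decide +kernel))
noncomputable def rh25f968f0227fb747 : CRef := CRef.mk (Pat.mk 0x40000000600000007000000000000000000000000 0x600000006000000070000001e0000000e00000004 4 5) 0 0 (step_sound _ 65 [(rh71222050f2c63a3a.shift 1 1), rhb4e67b9814d5b980] (by decide +kernel))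
noncomputable def rhea47cf317dbd85c4 : CRef := CRef.mk (Pat.mk 0x400000007000000070000000000000000 0xa0000001e00000007000000070000000500000005 4 5) 0 0 (step_sound _ 129 [rh1e309b005ffa1b36, rhf8d29f3cbeaf06f7] (by decide +kernel))
noncomputable def rh2e14b0001f2cbe5b : CRef := CRef.mk (Pat.mk 0x20000000300000003000000000000000000000000 0x600000006000000070000000300000003000000020000000200000002 4 3) 0 0 (step_sound _ 193 [rh33c3b913cf582fec, (rh5c5e593799055d58.shift 0 3)] (by decide +kernel))
noncomputable def rh4546e6478bb9dee9 : CRef := CRef.mk (Pat.mk 0x40000000700000006000000000000000000000000 0xa0000001e0000000700000006000000060000000600000006 4 5) 0 0 (step_sound _ 66 [(rh3cb04db3dd2b6a55.shift 1 0), (rh4017de503635a93b.shift 0 2), (rhbdf73b26f73f8159.shift 1 0)] (by decide +kernel))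
noncomputable def rhf08cddd2fdef6293 : CRef := CRef.mk (Pat.mk 0x140000003e000000000000000000000000 0x80000001c0000003f000000060000000400000004 4 6) 0 0 (step_sound _ 66 [rh81e216c0ec0a517b, (rheb0810cc63b001d8.shift 1 2)] (by decide +kernel))
noncomputable def rhb3c594f7bacc9206 : CRef := CRef.mk (Pat.mk 0x40000001c000000180000000000000000 0x40000003f0000001f0000000300000002 4 6) 0 0 (step_sound _ 65 [(rh076be03eb7063320.shift 0 2), rh375ddce687ce0d4a, (rh6d571b54e8dd9e33.shift 0 2), (rh710860539a4c4362.shift 0 2)] (by decide +kernel))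
noncomputable def rh65beea4cc676f87a : CRef := CRef.mk (Pat.mk 0x40000000e00000007000000000000000000000000 0xc0000000e000000070000001e0000000e00000004 4 5) 0 0 (step_sound _ 65 [(rh71222050f2c63a3a.shift 1 1), rh8d348b209915a49a] (by decide +kernel))
noncomputable def rha9ab07340439ca94 : CRef := CRef.mk (Pat.mk 0x20000000700000003000000000000000000000000 0x600000006000000060000000700000003000000060000000600000006 4 3) 0 0 (step_sound _ 65 [(rh5fa50b509d4ce753.shift 0 2), rh820d4e04d5dcd02e, rhb0c1e7919d9be92d] (by decide +kernel))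
noncomputable def rhe58b0dacc250552f : CRef := CRef.mk (Pat.mk 0x1c0000000c0000000000000000 0x18000000380000001f0000000c0000000c0000000c 4 6) 0 0 (step_sound _ 131 [(rh1e309b005ffa1b36.shift 2 0), rhcb6278a17751f6e9] (by decide +kernel))
noncomputable def rh8417fcdea5ec7af8 : CRef := CRef.mk (Pat.mk 0x2000000038000000180000000000000000 0x700000003f000000180000001000000010 4 7) 0 0 (step_sound _ 4 [(rh41835ba1dc72c0ef.shift 0 2), (rh9e3edb185cc347de.shift 4 0)] (by decide +kernel))
noncomputable def rhb466c85c20f8ff75 : CRef := CRef.mk (Pat.mk 0x1c0000000c000000000000000000000000 0x10000000380000001f0000007c0000000e0000000c00000004 4 7) 0 0 (step_sound _ 100 [(rh79b3c29022acbdf3.shift 1 3), (rh92e8f86a47ca4f2b.shift 1 0), (rhb00c6cda7b230383.shift 0 1)] (by decide +kernel))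
noncomputable def rh262c41d511184e44 : CRef := CRef.mk (Pat.mk 0x8000000080000000800000018 0x800000008000000080000001f0000007c 4 7) 0 0 (step_sound _ 34 [rh4ca5dae25f5c14ff, (rh85a605aac6183f28.shift 2 0), rhdeca8db941583de2] (by decide +kernel))
noncomputable def rhf24b13df8ce2c37b : CRef := CRef.mk (Pat.mk 0x80000000800000038000000000000000000000000 0x80000003f0000003f0000000e0000000400000004 4 6) 0 0 (step_sound _ 98 [(rh1e8d6e1ef30e2d92.shift 1 0), (rhc554838dd23febb3.shift 0 3)] (by decide +kernel))
noncomputable def rh12aa60211ea0d736 : CRef := CRef.mk (Pat.mk 0x800000008000000080000000e00000000 0x8000000080000007f0000003e00000010 4 7) 0 0 (step_sound _ 36 [(rh55afc6a59410cf00.shift 3 0), (rhf94411b389c3e54c.shift 0 1)] (by decide +kernel))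
noncomputable def rh1cae0224f4333627 : CRef := CRef.mk (Pat.mk 0x80000000f000000030000000000000000 0x40000000c0000000f0000001f0000001800000018 4 5) 0 0 (step_sound _ 67 [rhb1cd999401f2b265, (rhe25b0a99195a5d59.shift 0 2)] (by decide +kernel))
noncomputable def rhe50956e0f3d9d00a : CRef := CRef.mk (Pat.mk 0x4000000040000000700000001 0x60000000600000006000000060000000700000003 4 3) 0 0 (step_sound _ 130 [rh5e14afd20784ba3c, (rh932754581e0f4330.shift 1 0)] (by decide +kernel))
noncomputable def rh71ce200b3d661dbe : CRef := CRef.mk (Pat.mk 0x8000000080000000e00000006000000000000000000000000 0x10000000180000001c0000000e0000003f000000180000001800000008 4 6) 0 0 (step_sound _ 99 [(rh33c3b913cf582fec.shift 2 0), rh3a6c1689b3bee428, (rh42afa1af9fffa0e1.shift 1 2)] (by decide +kernel))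
noncomputable def rh5c0db0f9b341d2c6 : CRef := CRef.mk (Pat.mk 0x80000000f00000006000000000000000000000000 0xc0000000f0000001f000000180000001800000008 4 5) 0 0 (step_sound _ 99 [rh3a6c1689b3bee428, (rhe25b0a99195a5d59.shift 0 3)] (by decide +kernel))
noncomputable def rh48a568b2159e8221 : CRef := CRef.mk (Pat.mk 0x20000000a0000000b0000000200000000 0x4000000060000001e0000000b0000001e0000000c 4 5) 0 0 (step_sound _ 130 [(rh2f68792b6b779e96.shift 1 1), rhe474ac35c3c4b6ae] (by decide +kernel))
noncomputable def rh51f8c29a23c1cacf : CRef := CRef.mk (Pat.mk 0xa0000000b00000006000000000000000000000000 0x20000000a0000000b0000001e0000000c0000000400000004 4 5) 0 0 (step_sound _ 66 [(rh2145e1d24b96a57e.shift 1 2), rhd8265d3aabedb638] (by decide +kernel))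
noncomputable def rh581b9216396a5594 : CRef := CRef.mk (Pat.mk 0x8000000080000000a0000000200000000 0x140000001c0000001c000000080000000b0000001e00000014 4 5) 0 0 (step_sound _ 35 [rh11a243992b58ed44, (rh7ef5fa5c39f1c762.shift 2 1)] (by decide +kernel))
noncomputable def rh39c8b1c3f79a7a61 : CRef := CRef.mk (Pat.mk 0x1800000008000000080000000a00000002 0x7c0000001f0000000a0000000a0000000a 4 7) 0 0 (step_sound _ 98 [rh1aacd4e2b0dbc661, (rh2d5442cbf338480d.shift 2 0), (rh69012675dfdb1a5b.shift 0 3)] (by decide +kernel))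
noncomputable def rhec83e437ca5400c6 : CRef := CRef.mk (Pat.mk 0x20000000200000002000000020000000200000000 0x300000003000000030000000600000006000000060000000200000002 4 3) 0 0 (step_sound _ 193 [(rh063064641e383404.shift 1 0), (rh3ca48e2a6d60153d.shift 0 2)] (by decide +kernel))
noncomputable def rh636f9cd5a57ea313 : CRef := CRef.mk (Pat.mk 0x1800000010000000100000001400000004 0x180000001f000000340000001400000014 4 6) 0 0 (step_sound _ 99 [(rh7b1f1fb55310c477.shift 3 0), rhbfdaf5775fb49531] (by decide +kernel))
noncomputable def rh84971212fb719071 : CRef := CRef.mk (Pat.mk 0x180000001c00000010 0x1000000030000000300000001f0000001f00000018 4 6) 0 0 (step_sound _ 100 [(rh503dd4575245365b.shift 3 0), rhb4e4f3caba6e850a] (by decide +kernel))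
noncomputable def rh498de712e3a1a6be : CRef := CRef.mk (Pat.mk 0x3000000038000000280000000000000000 0x300000003c0000003f0000006000000060 4 7) 0 0 (step_sound _ 37 [(rh7b1f1fb55310c477.shift 4 0), rh86380b5eae4b71a7] (by decide +kernel))
noncomputable def rhd0ef009c04a63061 : CRef := CRef.mk (Pat.mk 0x200000002800000028000000000000000000000000 0x20000000200000002f0000007c000000300000001000000010 4 7) 0 0 (step_sound _ 100 [(rh281c6819542c66e6.shift 4 0), (rha9fbfd4bb8cf890b.shift 0 3)] (by decide +kernel))
noncomputable def rh648452d5b01cf56e : CRef := CRef.mk (Pat.mk 0x40000000e0000000500000001 0x600000006000000060000000e0000000e0000000700000005 4 4) 0 0 (step_sound _ 130 [(rh1a4a2d7ee39b16f9.shift 1 1), (rh566164537f328d1a.shift 1 1), rhb0277190cf7bc357, (rhd2c74283b7b6e6b8.shift 1 1)] (by decide +kernel))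
noncomputable def rh030d48d82e3321b1 : CRef := CRef.mk (Pat.mk 0x80000000c0000000a0000000800000000 0xc0000000c0000000c0000000c0000000f0000001800000010 4 5) 0 0 (step_sound _ 162 [rh8dd1986cb45d5225, (rhffd04209dc8ea796.shift 2 1)] (by decide +kernel))
noncomputable def rh345a83ca59f96063 : CRef := CRef.mk (Pat.mk 0x180000001800000004 0x3c000000ff00000006 4 8) 0 0 (step_sound _ 34 [(rh0127acd528cd93fb.shift 1 0), (rhab2ad169e49f9c5e.shift 0 1)] (by decide +kernel))
noncomputable def rh9f8513e3e7f98745 : CRef := CRef.mk (Pat.mk 0x3000000028 0x7c0000003f 4 7) 0 0 (step_sound _ 2 [(rh18106ac0f60c265a.shift 1 0), (rh3c14fcf8b65bfab5.shift 2 0), rh7401e8cf466f4e5b, rhbd2e91c3fdbfa961] (by decide +kernel))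
noncomputable def rh24b72e6e714c3919 : CRef := CRef.mk (Pat.mk 0x20000000200000002000000040000000000000000 0x1000000030000000300000002000000070000000700000001 4 3) 0 0 (step_sound _ 65 [rh0c1c1b53bc5a1510, (rh55afc6a59410cf00.shift 1 1)] (by decide +kernel))
noncomputable def rh12882f3f94159b08 : CRef := CRef.mk (Pat.mk 0x8000000080000000a00000018 0x40000001c0000001c000000180000000c0000000f00000018 4 5) 0 0 (step_sound _ 131 [rh22ad8b34c57a150a, (rh44f453b84f013105.shift 3 0)] (by decide +kernel))
noncomputable def rh6432e126df4afb0e : CRef := CRef.mk (Pat.mk 0xe00000004000000040000000000000000 0x80000000f0000003c000000040000000400000004 4 6) 0 0 (step_sound _ 34 [(rh2f68792b6b779e96.shift 2 1), rh9aef13a18dc2ca8c] (by decide +kernel))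
noncomputable def rh985218a2f2c16abe : CRef := CRef.mk (Pat.mk 0x1c000000080000000a 0x10000000300000003f0000007f0000000e 4 7) 0 0 (step_sound _ 36 [rh3a4cf7695807131a, (rh6292bd8784ece55f.shift 1 1), rhee92c360535a626f] (by decide +kernel))
noncomputable def rh6cc820610249f145 : CRef := CRef.mk (Pat.mk 0x180000000c0000000800000000 0x100000001000000018000000180000000f0000000800000008 4 5) 0 0 (step_sound _ 64 [(rh215e11e099257d75.shift 3 0), (rh24ae073cf30720c4.shift 0 2)] (by decide +kernel))
noncomputable def rhcfbba40fae656d6f : CRef := CRef.mk (Pat.mk 0x80000000c0000000a0000000800000000 0x1800000018000000180000000c0000000f0000001800000010 4 5) 0 0 (step_sound _ 36 [(rh55afc6a59410cf00.shift 3 0), (rh5b4df1e690e5da1d.shift 0 1)] (by decide +kernel))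
noncomputable def rhb75cbe4b168cf1dd : CRef := CRef.mk (Pat.mk 0x10000000080000000a0000000800000000 0x100000007c0000000f0000000800000008 4 7) 0 0 (step_sound _ 100 [(rh71222050f2c63a3a.shift 3 0), (rhedf3a755fe019897.shift 0 2)] (by decide +kernel))
noncomputable def rh958bbfe65efc97f3 : CRef := CRef.mk (Pat.mk 0x10000000180000001400000004 0x180000001800000018000000380000001f00000004 4 6) 0 0 (step_sound _ 35 [(rhab2ad169e49f9c5e.shift 0 1), (rhe2031cd839b38d08.shift 2 0)] (by decide +kernel))
noncomputable def rh1665e4d71ef70b08 : CRef := CRef.mk (Pat.mk 0x800000010000000180000000400000004 0x80000003c0000001f0000000c00000004 4 6) 0 0 (step_sound _ 99 [rh133723f9529c6d95, (rheea67dfebd0f8008.shift 2 0)] (by decide +kernel))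
noncomputable def rh05047cca2fc15eb7 : CRef := CRef.mk (Pat.mk 0x4000000070000000500000001 0x60000000600000007000000070000000700000003 4 3) 0 0 (step_sound _ 129 [rh4f891d41ae70aa10, rh7451f34b061ea69b, (rha52e0141694f1c7d.shift 1 0)] (by decide +kernel))
noncomputable def rh3e09f998c8e94702 : CRef := CRef.mk (Pat.mk 0x100000001c000000100000000000000000 0x10000000300000001f000000180000000800000008 4 6) 0 0 (step_sound _ 97 [(rh33e738c4ed385b9f.shift 1 3), rh525b9792321e9079] (by decide +kernel))
noncomputable def rh453c2619fc8e3fa9 : CRef := CRef.mk (Pat.mk 0x1800000028000000280000000800000000 0x40000000600000007c0000003f000000380000001800000010 4 7) 0 0 (step_sound _ 133 [(rh2820ca9a6c4f41b4.shift 0 3), (rh8a2551f72b0af4b3.shift 2 0), (rhf0f55c4504412200.shift 0 3)] (by decide +kernel))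
noncomputable def rh68a5b3d0ba9c08f9 : CRef := CRef.mk (Pat.mk 0x1800000028 0x7c000001ff 4 9) 0 0 (step_sound _ 37 [rh2820ca9a6c4f41b4, (rhc21a95c499b3efdb.shift 2 0), rhf0f55c4504412200] (by decide +kernel))
noncomputable def rh984773c519373485 : CRef := CRef.mk (Pat.mk 0x60000000a00000002 0x1f0000007e00000003 4 7) 0 0 (step_sound _ 36 [rh01e48cd9f335aa73, rh1210e962428a2e05, (rh5db08fca7648325c.shift 0 1), (rh83ec37ff6e78b01f.shift 0 1)] (by decide +kernel))
noncomputable def rha433877a6d4f5db3 : CRef := CRef.mk (Pat.mk 0x1800000028000000280000000800000000 0x200000003c000000680000003c0000001f00000014 4 7) 0 0 (step_sound _ 68 [(rh225e688cd4d2ddc4.shift 2 0), rh322e79f034282812, rh852e818bc8629e77] (by decide +kernel))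
noncomputable def rh18be4029158ef700 : CRef := CRef.mk (Pat.mk 0x500000001800000010 0x780000003f00000038 4 7) 0 0 (step_sound _ 34 [rh45bfa9e7c421a397, (rhcb00ab67b46fb179.shift 2 1), (rhcf86d050071af9b3.shift 1 0)] (by decide +kernel))
noncomputable def rhdd16f8f822336e2a : CRef := CRef.mk (Pat.mk 0x60000000a0000000a 0x1f0000007e0000000f 4 7) 0 0 (step_sound _ 36 [(rh83ec37ff6e78b01f.shift 0 1), rhda02c4ce0b224328] (by decide +kernel))
noncomputable def rhd2a3c2d69819ec3c : CRef := CRef.mk (Pat.mk 0xc00000008000000080000000a00000002 0x100000003c0000000f0000000c0000000e00000006 4 6) 0 0 (step_sound _ 132 [rh009d65640b7a60e3, (rh2f68792b6b779e96.shift 3 1)] (by decide +kernel))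
noncomputable def rhe30fe0d37c40a537 : CRef := CRef.mk (Pat.mk 0x400000004000000040000000500000001 0x60000000600000006000000060000000700000003 4 3) 0 0 (step_sound _ 33 [rh5e14afd20784ba3c, (rh932754581e0f4330.shift 1 0)] (by decide +kernel))
noncomputable def rh3c53001395d71569 : CRef := CRef.mk (Pat.mk 0x30000000280000002800000020 0x40000000780000002f0000007c00000020 4 7) 0 0 (step_sound _ 66 [(rh8c25cb665ab79ec0.shift 0 1), (rhc0daf918bbfda8d7.shift 2 0)] (by decide +kernel))
noncomputable def rh7ff76b7d2588cb1f : CRef := CRef.mk (Pat.mk 0x18000000180000000c0000000000000000 0x18000000180000001f0000007800000018 4 7) 0 0 (step_sound _ 36 [rh20b5e4e959af00de, (rh478c4cadbcd4e066.shift 3 0), (rh9b4df57cddcda711.shift 3 0), rhfc8818e2984dbb5f] (by decide +kernel))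
noncomputable def rh79c113888b232c6f : CRef := CRef.mk (Pat.mk 0x180000000c0000000c 0xc0000000f0000007c0000000c0000000c 4 7) 0 0 (step_sound _ 98 [(rh16567ae718d9fd54.shift 2 0), rh68474a5dabca1f9d, (rhbb8ebb9b281695d3.shift 1 0)] (by decide +kernel))
noncomputable def rhe7fca960227117e2 : CRef := CRef.mk (Pat.mk 0x1c0000000c000000000000000800000000 0x1c0000007f000000370000001c0000001c 4 7) 0 0 (step_sound _ 100 [(rh8b20b1ef24f2c4de.shift 0 2), (rhca381fd96aedcb47.shift 1 0), rhdb3212ed6dfd725f] (by decide +kernel))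
noncomputable def rh349a4c00e3851637 : CRef := CRef.mk (Pat.mk 0x1c0000000e0000000000000000 0xc0000001c0000003c0000001f0000000e0000000e0000000c 4 6) 0 0 (step_sound _ 131 [(rh1e309b005ffa1b36.shift 2 0), (rh27c8111cf125e4dd.shift 1 1), rhcb6278a17751f6e9] (by decide +kernel))
noncomputable def rhb6fabc11b09be0e3 : CRef := CRef.mk (Pat.mk 0x38000000080000000800000000 0x100000001c0000001f0000003c000000180000001800000010 4 6) 0 0 (step_sound _ 131 [(rh426f403fa814630c.shift 3 0), (rh53509d91ff78ed56.shift 0 1), (rh79905f95cb2d899a.shift 0 1)] (by decide +kernel))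
noncomputable def rhd7f2d966230939fd : CRef := CRef.mk (Pat.mk 0x90000000e0000000a0000000000000000 0x80000001c0000001c0000000f0000000e0000000e0000000200000002 4 5) 0 0 (step_sound _ 130 [(rh312db2f1e4a01342.shift 0 2), (rh32f6277f14b47a8f.shift 1 0), (rhdabfcd0659c2d3c8.shift 1 0)] (by decide +kernel))
noncomputable def rh8499df7ecc0e8afe : CRef := CRef.mk (Pat.mk 0x400000004000000070000000500000001 0xc0000000c0000000e00000007000000070000000500000005 4 4) 0 0 (step_sound _ 163 [rh965eb8bf6ab7b240, (rhbaefcd01e0a8bca3.shift 2 1)] (by decide +kernel))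
noncomputable def rh6dd39209a29fe177 : CRef := CRef.mk (Pat.mk 0x4000000080000000a0000000a0000000200000000 0x40000000e0000000a0000000a0000001b0000001e00000014 4 5) 0 0 (step_sound _ 34 [(rh929a6d7e4f51e395.shift 1 0), (rh9a3d12a4acc5fa4f.shift 1 0), rhc49edfdd1dfb60de] (by decide +kernel))
noncomputable def rhfa45918d7f8bbb44 : CRef := CRef.mk (Pat.mk 0x140000001c0000000400000004 0x780000007f0000001c0000000400000004 4 7) 0 0 (step_sound _ 99 [(rh1b80270a8621e059.shift 0 2), (rh2f68792b6b779e96.shift 2 0)] (by decide +kernel))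
noncomputable def rhc5836a1520d7250b : CRef := CRef.mk (Pat.mk 0x8000000080000001c0000000c00000000 0x40000000c0000000c0000001c0000000f0000000a 4 5) 0 0 (step_sound _ 33 [(rh18b49738f4e5d343.shift 1 0), (rh53b3c253cb0c65f4.shift 0 1)] (by decide +kernel))
noncomputable def rh8dd63c869ddfd8cc : CRef := CRef.mk (Pat.mk 0x180000000c0000001c000000040000000000000000 0x40000001c0000001c0000001c0000000f0000000a00000008 4 5) 0 0 (step_sound _ 67 [(rh3eb26739ea0a224c.shift 2 0), (rh4e1af299c2678f75.shift 0 1)] (by decide +kernel))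
noncomputable def rhda3fbb76e62163f7 : CRef := CRef.mk (Pat.mk 0xe000000020000000700000000 0x80000007c0000000f0000001e0000000700000004 4 7) 0 0 (step_sound _ 131 [rhc39db72cd6055487, (rhff7d63dcb3cf9f74.shift 0 3)] (by decide +kernel))
noncomputable def rhbfd14a8441b2e7b9 : CRef := CRef.mk (Pat.mk 0x38000000080000001c 0x380000003f0000003f 4 6) 0 0 (step_sound _ 33 [(rh7952d236cb99da8a.shift 1 0), rh841757f9a76ec410, rhd0ed6ce702d0de55] (by decide +kernel))
noncomputable def rh6e53f2bca3f4ade7 : CRef := CRef.mk (Pat.mk 0x38000000080000001c0000000000000000 0x380000001f0000007c0000000600000004 4 7) 0 0 (step_sound _ 98 [(rh7478433a598f2371.shift 1 0), (rh79b3c29022acbdf3.shift 1 2), (rheea1a90336e79c71.shift 0 3)] (by decide +kernel))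
noncomputable def rh9a2c269cc63f95d9 : CRef := CRef.mk (Pat.mk 0x380000000c000000180000000000000000 0x20000000380000003c0000007f0000001600000014 4 7) 0 0 (step_sound _ 66 [(rh7478433a598f2371.shift 1 0), rh89a9c21c3489d92c] (by decide +kernel))
noncomputable def rh9eff6abe779715d2 : CRef := CRef.mk (Pat.mk 0x1e00000016000000020000000000000000 0x30000001e0000001e000000030000000300000002 4 5) 0 0 (step_sound _ 1 [(rh9e3edb185cc347de.shift 1 0), (rhddd0f0018083baf5.shift 0 1)] (by decide +kernel))
noncomputable def rh8f652ee9c9ab3a29 : CRef := CRef.mk (Pat.mk 0xa0000003c00000000 0x3b0000003f00000060 4 7) 0 0 (step_sound _ 5 [(rhd0ed6ce702d0de55.shift 0 1), (rhe25b0a99195a5d59.shift 2 0)] (by decide +kernel))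
noncomputable def rh7f5938844da1179b : CRef := CRef.mk (Pat.mk 0x8000000180000000b0000000000000000 0x1000000018000000180000000b0000001e0000001c 4 5) 0 0 (step_sound _ 35 [rh0c3873a75f5344d2, (rha707fb719e87fe6e.shift 3 0)] (by decide +kernel))
noncomputable def rh55801abcbd3b9f99 : CRef := CRef.mk (Pat.mk 0xb0000000f000000020000000000000000 0x40000000e0000000f0000000f0000001a0000000200000002 4 5) 0 0 (step_sound _ 67 [rh57be752b0766f6bd, (rhe25b0a99195a5d59.shift 0 2)] (by decide +kernel))
noncomputable def rhad9c3d19b4ca6cf7 : CRef := CRef.mk (Pat.mk 0x40000001e000000040000000000000000 0x80000003c0000001f000000040000000400000004 4 6) 0 0 (step_sound _ 132 [(rh33e738c4ed385b9f.shift 1 3), rh81e216c0ec0a517b] (by decide +kernel))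
noncomputable def rh8c1fb9b928d58238 : CRef := CRef.mk (Pat.mk 0x300000003000000020000000200000000 0x600000006000000060000000300000003000000030000000300000001 4 3) 0 0 (step_sound _ 161 [rh0ec68e0bf4727743, (rh503dd4575245365b.shift 0 2), (rh5fa50b509d4ce753.shift 0 2)] (by decide +kernel))
noncomputable def rhd155de830d68f7f9 : CRef := CRef.mk (Pat.mk 0x20000000600000002000000000000000000000000 0x400000006000000060000000600000003000000070000000700000005 4 3) 0 0 (step_sound _ 65 [rh3181373a30ceb9e3, (rh402d223d12d7377d.shift 0 1), (rha707fb719e87fe6e.shift 1 1)] (by decide +kernel))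
noncomputable def rhdfaaefae6a2d7d59 : CRef := CRef.mk (Pat.mk 0x30000000080000000e00000000 0x20000000300000007f0000001e00000030 4 7) 0 0 (step_sound _ 68 [(rh572132728df34c43.shift 1 1), (rh7fdf6cad12393ad0.shift 1 1), rhb57afabf1fdad4de] (by decide +kernel))
noncomputable def rh7e5e455972272e73 : CRef := CRef.mk (Pat.mk 0x60000000200000003800000000 0x600000003f0000007e00000007 4 7) 0 0 (step_sound _ 34 [rh2591032a0e7f4182, rh2cc7d62e70c02209, (rhe2bb7d7af5356d5b.shift 1 1)] (by decide +kernel))
noncomputable def rha2cc4a9230decd7a : CRef := CRef.mk (Pat.mk 0x80000000f0000000b000000000000000000000000 0xc0000000c0000000f0000000f0000000f000000060000000200000002 4 4) 0 0 (step_sound _ 194 [(rh616c75d1b5542aee.shift 2 3), (rha52e0141694f1c7d.shift 2 2), rhb5038dfc3754f876] (by decide +kernel))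
noncomputable def rhdcb23b63f888217c : CRef := CRef.mk (Pat.mk 0x40000000e0000000b0000000000000000 0x40000000e0000000f0000001e0000000a 4 5) 0 0 (step_sound _ 33 [rh6a7d78a202a43da8, (rh71222050f2c63a3a.shift 1 0)] (by decide +kernel))
noncomputable def rhdf78f3a21f6c0329 : CRef := CRef.mk (Pat.mk 0x40000000e0000000b0000000000000000 0x4000000040000000e0000000f0000001a0000000a 4 5) 0 0 (step_sound _ 1 [(rh9e3edb185cc347de.shift 1 0), rhb66ec419a6d128ce] (by decide +kernel))
noncomputable def rhd0124f8e86fd5f14 : CRef := CRef.mk (Pat.mk 0xf000000030000000600000000 0x40000000c0000001e0000000f000000070000001e00000008 4 5) 0 0 (step_sound _ 130 [rh01f9f7c9fa7af13f, (rhbfb5770941270498.shift 1 1), (rheb4949bdfa5025cf.shift 1 1)] (by decide +kernel))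
noncomputable def rh14aaf653ce4141f9 : CRef := CRef.mk (Pat.mk 0xf000000020000000600000000 0xc0000001c0000000f000000060000000600000004 4 5) 0 0 (step_sound _ 131 [(rh33e738c4ed385b9f.shift 0 3), (rh444fa8da4d2a2bf8.shift 1 0)] (by decide +kernel))
noncomputable def rh8af4df3c65c3afd0 : CRef := CRef.mk (Pat.mk 0x1e000000160000001000000000 0x330000001e000000160000003c0000000c 4 6) 0 0 (step_sound _ 129 [(rh3244c3cc8379b070.shift 0 3), (rha0849e37c4492d2f.shift 1 0)] (by decide +kernel))
noncomputable def rh55864c0b71f3bd3c : CRef := CRef.mk (Pat.mk 0x30000000b000000080000000000000000 0x1000000030000000f0000001e0000000200000002 4 5) 0 0 (step_sound _ 68 [rh7f6d40320d97af51, (rhc10214bf3fe8094a.shift 0 2)] (by decide +kernel))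
noncomputable def rhec46091aa7054654 : CRef := CRef.mk (Pat.mk 0x80000000c0000000b0000000000000000 0x40000000c0000000c0000000b0000001e0000001c 4 5) 0 0 (step_sound _ 35 [rh0c3873a75f5344d2, (rhe286c75f2739cce2.shift 2 0)] (by decide +kernel))
noncomputable def rh6de3cd128fa32979 : CRef := CRef.mk (Pat.mk 0x80000000f0000000b000000000000000000000000 0x40000000d0000000f0000000b0000001e0000001a00000002 4 5) 0 0 (step_sound _ 65 [rh3cb04db3dd2b6a55, (rha90bc5aa2308a5a8.shift 0 1), rhb0c1e7919d9be92d] (by decide +kernel))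
noncomputable def rh2d8ccf6eddee51d1 : CRef := CRef.mk (Pat.mk 0x180000001e00000010 0x1000000030000000300000001f0000001e00000018 4 6) 0 0 (step_sound _ 65 [(rh312db2f1e4a01342.shift 1 0), (rh3244c3cc8379b070.shift 0 1)] (by decide +kernel))
noncomputable def rh018c9867c5a77d4c : CRef := CRef.mk (Pat.mk 0x8000000080000000c0000000e00000000 0x40000000c0000000c0000000c0000001e00000013 4 5) 0 0 (step_sound _ 36 [(rh55afc6a59410cf00.shift 3 0), rhbe88e915edfa789d] (by decide +kernel))
noncomputable def rh2c897925be093862 : CRef := CRef.mk (Pat.mk 0x3000000038000000080000000c00000000 0x280000003800000038000000380000003f00000066 4 7) 0 0 (step_sound _ 36 [(rh7ec66d3674ffc556.shift 2 0), (rhd34335f9d3f46402.shift 1 0), (rhdb7b1946f411de5f.shift 0 1)] (by decide +kernel))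
noncomputable def rh4d9720ef66bdd7b4 : CRef := CRef.mk (Pat.mk 0x180000001c000000040000000600000000 0x1000000010000000300000001f0000001c0000000c0000000600000002 4 6) 0 0 (step_sound _ 130 [(rh63fd7d77606c88e1.shift 0 2), (rh932754581e0f4330.shift 1 0)] (by decide +kernel))
noncomputable def rha6df2b8c078827e6 : CRef := CRef.mk (Pat.mk 0x3000000038000000080000000c00000000 0x40000000f000000038000000780000003f00000020 4 8) 0 0 (step_sound _ 69 [(rhcadd85ff2a73e8c7.shift 0 1), (rhf8d29f3cbeaf06f7.shift 3 0)] (by decide +kernel))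
noncomputable def rhfd9bb91658a56a03 : CRef := CRef.mk (Pat.mk 0x180000001c000000040000000600000000 0x700000007f0000001c000000040000000600000002 4 7) 0 0 (step_sound _ 130 [(rh1b80270a8621e059.shift 0 3), (rh932754581e0f4330.shift 1 0)] (by decide +kernel))
noncomputable def rh99b9f20bc0c4963b : CRef := CRef.mk (Pat.mk 0x1000000038000000280000000c00000000 0x10000000380000003f0000007c00000020 4 7) 0 0 (step_sound _ 37 [(rh7b1f1fb55310c477.shift 4 0), (rhfe2fa295381f6854.shift 0 1)] (by decide +kernel))
noncomputable def rh22216d9a01925d6e : CRef := CRef.mk (Pat.mk 0x800000018000000140000000600000000 0x800000018000000370000003e00000010 4 6) 0 0 (step_sound _ 36 [(rh6a8fbe22e34a927e.shift 0 1), (rh7b1f1fb55310c477.shift 3 0)] (by decide +kernel))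
noncomputable def rh72f6fea2ecba46d1 : CRef := CRef.mk (Pat.mk 0x8000000180000000c0000000600000000 0x8000000180000003f0000003600000010 4 6) 0 0 (step_sound _ 65 [(rh53b3c253cb0c65f4.shift 0 2), (rhdb169b9728d937df.shift 1 0)] (by decide +kernel))
noncomputable def rh1aed4d4a11464652 : CRef := CRef.mk (Pat.mk 0x1000000030000000180000000c00000000 0x10000000300000001f000000ff00000027 4 8) 0 0 (step_sound _ 36 [rh1143d12632755df1, (rh36d4d92ef3dad5f8.shift 2 0), (rh56a07936c914825e.shift 0 1)] (by decide +kernel))
noncomputable def rh41f5de2b0c7f8bf5 : CRef := CRef.mk (Pat.mk 0x1000000000000000080000001c00000000 0x10000000100000003c000000ff00000060 4 8) 0 0 (step_sound _ 68 [(rh8d3134ae48e30f98.shift 2 0), (rhab2ad169e49f9c5e.shift 0 1)] (by decide +kernel))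
noncomputable def rh04e0da3c4680671a : CRef := CRef.mk (Pat.mk 0x1000000038000000080000000000000000 0x100000007c0000000f0000000800000008 4 7) 0 0 (step_sound _ 3 [(rh2820ca9a6c4f41b4.shift 0 2), (rh9e3edb185cc347de.shift 3 0)] (by decide +kernel))
noncomputable def rha74d0bd13f5b85c8 : CRef := CRef.mk (Pat.mk 0xb000000000000000f00000000 0x10000000180000000f000000180000000f00000004 4 5) 0 0 (step_sound _ 67 [(rh33e738c4ed385b9f.shift 0 1), rhe47b8b48749ef978] (by decide +kernel))
noncomputable def rhc53ea101842443fe : CRef := CRef.mk (Pat.mk 0x2c000000080000001c00000000 0x8000000080000003c0000000f0000001c00000010 4 6) 0 0 (step_sound _ 131 [(rh55afc6a59410cf00.shift 3 0), (rh7db68623bdc87add.shift 0 1)] (by decide +kernel))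
noncomputable def rh7f7f8314eb58a345 : CRef := CRef.mk (Pat.mk 0x300000000800000070 0x7c0000000f00000078 4 7) 0 0 (step_sound _ 34 [(rh09d4dfe75d4407d6.shift 2 0), (rhbd2e91c3fdbfa961.shift 0 1)] (by decide +kernel))
noncomputable def rhe56ea00e263abbc8 : CRef := CRef.mk (Pat.mk 0xb0000000e000000020000000000000000 0x80000000b0000000b0000000e0000000e0000000600000004 4 4) 0 0 (step_sound _ 34 [(rh1c7e31de666bf50b.shift 1 1), (rh403e55a9007f792d.shift 1 0), rh4cdb379841a0f429] (by decide +kernel))
noncomputable def rh92407b60fca4e18e : CRef := CRef.mk (Pat.mk 0xc00000038000000080000000000000000 0xc0000000c000000380000001f0000000c00000004 4 6) 0 0 (step_sound _ 35 [(rh50fbb5868c909700.shift 2 1), rh6d5ad56e3df38040] (by decide +kernel))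
noncomputable def rh3439ebe2f1a20c0e : CRef := CRef.mk (Pat.mk 0x1000000014000000140000001400000000 0x1400000014000000340000001e0000000b 4 6) 0 0 (step_sound _ 35 [rh681d9f8e79458a8b, (rh932754581e0f4330.shift 3 0)] (by decide +kernel))
noncomputable def rh1b9bab7704691b21 : CRef := CRef.mk (Pat.mk 0x600000014000000140000000000000000 0x600000006000000340000001e0000000700000002 4 6) 0 0 (step_sound _ 33 [(rh242e6d3f76f8ac12.shift 0 1), (rha3c02ab1a397c44e.shift 1 0)] (by decide +kernel))
noncomputable def rh608ecb439e53f5e3 : CRef := CRef.mk (Pat.mk 0x80000000b0000000e0000000400000000 0x10000000180000000f0000000e0000003c00000010 4 6) 0 0 (step_sound _ 132 [(rh1c62b6193297d9e3.shift 0 3), (rh285e15fe8a0693b9.shift 1 0)] (by decide +kernel))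
noncomputable def rh39cd385afe63cfa1 : CRef := CRef.mk (Pat.mk 0xb00000006000000040000000000000000 0x8000000080000000b0000001e0000000c0000000400000004 4 5) 0 0 (step_sound _ 34 [(rh3a6f419bfe504253.shift 0 1), (rh7b1f1fb55310c477.shift 1 0)] (by decide +kernel))
noncomputable def rhfba8cf2863ab53d2 : CRef := CRef.mk (Pat.mk 0xc0000001800000010000000000000000000000000 0x80000000c0000000c0000003c0000001f0000000c0000000800000008 4 6) 0 0 (step_sound _ 99 [(rh6abf65651ac164b5.shift 2 0), (rhfba219b2ab1310a3.shift 0 2)] (by decide +kernel))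
noncomputable def rhf96256171e39d14d : CRef := CRef.mk (Pat.mk 0xc0000001c0000000c0000000000000000 0xc0000001c0000001f0000007800000018 4 7) 0 0 (step_sound _ 36 [rh0056a301aec5278c, rh20b5e4e959af00de, (rh478c4cadbcd4e066.shift 3 0), (rh7bed6280d5711866.shift 2 0)] (by decide +kernel))
noncomputable def rh3427dcb112791cf8 : CRef := CRef.mk (Pat.mk 0xc0000001c0000000c0000000000000000 0x40000000c0000001c0000001f0000003300000010 4 6) 0 0 (step_sound _ 65 [(rh53b3c253cb0c65f4.shift 0 2), rh550a3962308175f5] (by decide +kernel))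
noncomputable def rh9425272e357bb618 : CRef := CRef.mk (Pat.mk 0x60000000e000000000000000000000000 0x6000000060000000f0000003c0000000c0000000c 4 6) 0 0 (step_sound _ 66 [(rh3cb04db3dd2b6a55.shift 1 0), rh86bd88d8b6da2a4f] (by decide +kernel))
noncomputable def rh1398baacc3a0ebc5 : CRef := CRef.mk (Pat.mk 0x140000001e0000000400000000 0x18000000380000001f0000001e0000000c0000000c 4 6) 0 0 (step_sound _ 99 [rh1375d65e18b64d08, (rh84d1c02a8954c6a8.shift 2 0)] (by decide +kernel))
noncomputable def rh347edc546365e1bc : CRef := CRef.mk (Pat.mk 0x200000002000000020000000400000000 0x4000000060000000600000002000000030000000700000005 4 3) 0 0 (step_sound _ 33 [rh402d223d12d7377d, (rh55afc6a59410cf00.shift 1 0)] (by decide +kernel))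
noncomputable def rhef376f1c43ac1ead : CRef := CRef.mk (Pat.mk 0x200000006000000070000000400000000 0xc0000000c0000000e00000006000000070000003e00000008 4 6) 0 0 (step_sound _ 130 [(rh5fa50b509d4ce753.shift 1 1), (rh84d1c02a8954c6a8.shift 1 1), rhb0c6196f710d9a93] (by decide +kernel))
noncomputable def rh44fe296145c3e1bc : CRef := CRef.mk (Pat.mk 0x200000007000000030000000600000000 0xc0000001e00000007000000070000001e00000008 4 5) 0 0 (step_sound _ 130 [(rh2f68792b6b779e96.shift 1 1), rh8749ea0f61b0dde4] (by decide +kernel))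
noncomputable def rh2eb3dd0dad9019e4 : CRef := CRef.mk (Pat.mk 0x100000001000000038000000080000001800000000 0x1000000030000000380000002f0000007c00000020 4 7) 0 0 (step_sound _ 37 [(rh3b5346b2e316d790.shift 4 0), (rhfd99604093c09fe0.shift 0 1)] (by decide +kernel))
noncomputable def rhed4051d450f3b816 : CRef := CRef.mk (Pat.mk 0x800000018000000040000001800000000 0x8000000180000000f0000007c00000010 4 7) 0 0 (step_sound _ 67 [(rh55afc6a59410cf00.shift 3 0), (rha355876672dc863a.shift 0 1)] (by decide +kernel))
noncomputable def rh08f17b3c735f07a4 : CRef := CRef.mk (Pat.mk 0x80000001c0000000c00000018 0x30000000780000001c0000007f0000001f 4 7) 0 0 (step_sound _ 36 [rh598fb748148cee6d, (rhc04a13a5df742017.shift 2 0)] (by decide +kernel))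
noncomputable def rh2f010fd6ddd9099b : CRef := CRef.mk (Pat.mk 0x80000000a0000000c000000000000000000000000 0x8000000080000003b0000001f000000300000001000000010 4 6) 0 0 (step_sound _ 100 [(rh046c5eb18e55a239.shift 3 0), (rhd0ed6ce702d0de55.shift 0 3), (rhd5c571bd118bfbfb.shift 0 2)] (by decide +kernel))
noncomputable def rh0cd2a85d09bf0b48 : CRef := CRef.mk (Pat.mk 0x200000003000000010000000200000000 0x3000000030000000300000003000000070000000600000004 4 3) 0 0 (step_sound _ 161 [(rh5c5e593799055d58.shift 0 2), rh8f94fa36ae1e9d19] (by decide +kernel))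
noncomputable def rh7667efb53a7b34b1 : CRef := CRef.mk (Pat.mk 0x18000000000000000f00000000 0x800000018000000300000001f00000038 4 6) 0 0 (step_sound _ 4 [(rh704068121aa088ac.shift 1 0), rh96851dee118c1ba3] (by decide +kernel))
noncomputable def rh25c509f5849f7231 : CRef := CRef.mk (Pat.mk 0x18000000040000000e00000000 0x800000018000000370000003e00000030 4 6) 0 0 (step_sound _ 36 [(rhb8d97c085975ccce.shift 1 0), (rhe3060b190bc0bc78.shift 0 1)] (by decide +kernel))
noncomputable def rh1349e24cffc31846 : CRef := CRef.mk (Pat.mk 0x2000000020000000600000000 0x4000000060000000600000002000000030000000700000005 4 3) 0 0 (step_sound _ 129 [rh402d223d12d7377d, (rh55afc6a59410cf00.shift 1 0)] (by decide +kernel))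
noncomputable def rh0e0f7acf8c753f2b : CRef := CRef.mk (Pat.mk 0x100000005800000018 0x3e0000007f0000001c 4 7) 0 0 (step_sound _ 37 [rh4f1f07ff00e8574c, (rheb0810cc63b001d8.shift 2 0)] (by decide +kernel))
noncomputable def rh5b560e53b24626f9 : CRef := CRef.mk (Pat.mk 0xb0000001a000000030000000000000000 0xc0000001e0000000b0000001a0000001b0000001100000010 4 5) 0 0 (step_sound _ 163 [(rh70e33bfdf511e144.shift 3 0), (rhd4803e9ceb634242.shift 0 1)] (by decide +kernel))
noncomputable def rh5e74d62c00340b46 : CRef := CRef.mk (Pat.mk 0x100000001e000000140000000000000000 0x8000000180000001e0000001f0000003000000030 4 6) 0 0 (step_sound _ 65 [(rhb1cd999401f2b265.shift 1 0), (rheb0810cc63b001d8.shift 0 2)] (by decide +kernel))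
noncomputable def rhc6b80eff0d94ffef : CRef := CRef.mk (Pat.mk 0x4000000080000000b0000000a0000000000000000 0x40000000f0000000f0000000a0000000a00000002 4 4) 0 0 (step_sound _ 130 [rh1ecc252676ecc754, (rh7b1f1fb55310c477.shift 2 1)] (by decide +kernel))
noncomputable def rh5b73491b5eb1f965 : CRef := CRef.mk (Pat.mk 0x300000001000000016000000140000000000000000 0x1000000010000000780000001f0000001e0000001c0000001400000010 4 7) 0 0 (step_sound _ 131 [(rh130b47ac332ea38f.shift 0 2), (rh8177be9c5f6e18af.shift 3 0), (rh8aed0a8fc05a9a8c.shift 1 1)] (by decide +kernel))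
noncomputable def rhd6657dd7a309fc6a : CRef := CRef.mk (Pat.mk 0x4000000080000000b0000000a 0x4000000040000000e0000001e0000000b0000000a 4 5) 0 0 (step_sound _ 130 [rhcec99f6f26af1b84, (rhcfdf45280693d3da.shift 2 0)] (by decide +kernel))
noncomputable def rhaed34a53350e3e72 : CRef := CRef.mk (Pat.mk 0x80000000c0000000c000000000000000400000000 0x100000007c0000000f0000000c000000080000000c0000000c 4 7) 0 0 (step_sound _ 164 [(rh8379dda7bed67b0f.shift 2 0), (rhc6b4e1276619034d.shift 2 0), (rhd69c262cd33b94b3.shift 0 4)] (by decide +kernel))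
noncomputable def rh001bd19b90e29369 : CRef := CRef.mk (Pat.mk 0x80000003800000008000000000000000000000000 0x8000000080000003c0000001f000000040000000400000004 4 6) 0 0 (step_sound _ 98 [(rheea1a90336e79c71.shift 0 3), (rhfafeb437ceb8396d.shift 2 0)] (by decide +kernel))
noncomputable def rh002ea26b14f1c25c : CRef := CRef.mk (Pat.mk 0x100000001200000014000000000000000000000000 0x1000000010000000330000001e000000180000000800000008 4 6) 0 0 (step_sound _ 99 [(rh281c6819542c66e6.shift 3 0), (rh479f07c8ec776d62.shift 0 3)] (by decide +kernel))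
noncomputable def rhe8fe53e01d33f220 : CRef := CRef.mk (Pat.mk 0xb0000000b000000080000000800000000 0x10000000b0000000b0000001b0000000f00000007 4 5) 0 0 (step_sound _ 33 [rh41d821a64dadf7cd, rh6ee049377e03be83, rhdd1b84382d19bcbb] (by decide +kernel))
noncomputable def rhe8ce8b2ee73b5413 : CRef := CRef.mk (Pat.mk 0x600000016000000100000000000000000 0x200000006000000370000003e0000000400000004 4 6) 0 0 (step_sound _ 66 [(rh3cb04db3dd2b6a55.shift 1 0), (rh799b546ddd265bb3.shift 0 2)] (by decide +kernel))
noncomputable def rh907557147d2532a4 : CRef := CRef.mk (Pat.mk 0x180000001c000000080000000000000000 0x40000001f0000003c000000080000000800000008 4 6) 0 0 (step_sound _ 35 [(rh71222050f2c63a3a.shift 3 0), (rh8f2453f412d57a0e.shift 0 1)] (by decide +kernel))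
noncomputable def rh109c9d4c9c9375f1 : CRef := CRef.mk (Pat.mk 0x60000000e000000020000000200000000 0x2000000060000003e0000003e0000000700000005 4 6) 0 0 (step_sound _ 66 [rh2878e7aeada18192, (rh3cb04db3dd2b6a55.shift 1 0)] (by decide +kernel))
noncomputable def rh496e8a20520e5e8e : CRef := CRef.mk (Pat.mk 0x1800000018000000180000000800000000 0x40000001f0000001f000000780000000c00000004 4 7) 0 0 (step_sound _ 97 [(rh39f426ebe0691969.shift 0 2), (rh606e1504537fe9bd.shift 1 0), (rh9cac931137f1cfa0.shift 0 1)] (by decide +kernel))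
noncomputable def rh544f486c8c292a66 : CRef := CRef.mk (Pat.mk 0x8000000180000003800000000 0x8000000080000001f0000003f00000006 4 6) 0 0 (step_sound _ 65 [rh38c0839969445246, (rhab22b5b56e7b3243.shift 1 1)] (by decide +kernel))
noncomputable def rhafcdb5ffda7fd6b3 : CRef := CRef.mk (Pat.mk 0x40000000c0000001c00000000 0x4000000040000000c0000007e00000073 4 7) 0 0 (step_sound _ 37 [rh689ff55f618e3336, (rhf48373e13d2bc128.shift 2 1)] (by decide +kernel))
noncomputable def rhe3ea657a9325ac2f : CRef := CRef.mk (Pat.mk 0x400000006000000070000000000000000 0x40000001f0000003f0000001800000008 4 6) 0 0 (step_sound _ 99 [(rh18965a982d73c794.shift 0 2), rhca83dc0202f455dd] (by decide +kernel))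
noncomputable def rh9576238990078da6 : CRef := CRef.mk (Pat.mk 0x80000001800000014000000000000000000000000 0x800000008000000380000001f0000000c0000000400000004 4 6) 0 0 (step_sound _ 99 [(rh281c6819542c66e6.shift 2 0), (rhab2ad169e49f9c5e.shift 0 3)] (by decide +kernel))
noncomputable def rh484f4e6e69e1dca5 : CRef := CRef.mk (Pat.mk 0x180000001e0000000000000000 0x30000000300000001f0000001e0000003800000008 4 6) 0 0 (step_sound _ 132 [(rh1e309b005ffa1b36.shift 3 0), (rhd16d1fc6e5d4ba04.shift 0 1)] (by decide +kernel))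
noncomputable def rh2a8a3ea367029721 : CRef := CRef.mk (Pat.mk 0x100000003c000000200000000000000000 0x170000003e000000300000002000000020 4 6) 0 0 (step_sound _ 5 [(rh9e07f76261b05888.shift 4 0), (rhd1d05263fabc0227.shift 0 2)] (by decide +kernel))
noncomputable def rh314b9c317886f518 : CRef := CRef.mk (Pat.mk 0x1e0000001800000000 0x1000000010000000330000001e0000001800000008 4 6) 0 0 (step_sound _ 96 [(rh3f8766e6ecb455ce.shift 0 2), (rh5ba2d67652840f34.shift 1 0)] (by decide +kernel))
noncomputable def rh8f4dbbf181c60fc7 : CRef := CRef.mk (Pat.mk 0xf0000000e000000020000000000000000 0x800000008000000180000000f0000000e000000060000000200000002 4 5) 0 0 (step_sound _ 1 [(rh5ba2d67652840f34.shift 0 2), (rh9e3edb185cc347de.shift 1 0)] (by decide +kernel))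
noncomputable def rhfd5b5f70b44a2f5c : CRef := CRef.mk (Pat.mk 0x14000000040000000e000000080000000000000000 0x1000000014000000340000001e0000000f0000000200000002 4 6) 0 0 (step_sound _ 100 [rh1e8d6e1ef30e2d92, (rh5ebae181afaa248a.shift 1 2)] (by decide +kernel))
noncomputable def rh196cc96b99bfcd0e : CRef := CRef.mk (Pat.mk 0x8000000000000000e00000004 0x800000008000000780000001f00000004 4 7) 0 0 (step_sound _ 67 [(rh5c5e593799055d58.shift 2 0), (rha11dfd15f08f96e3.shift 0 1)] (by decide +kernel))
noncomputable def rheb2abe2a51d96bc9 : CRef := CRef.mk (Pat.mk 0x80000000e000000040000000000000000 0x780000001f000000040000000400000004 4 7) 0 0 (step_sound _ 2 [(rh9e3edb185cc347de.shift 2 0), (rha11dfd15f08f96e3.shift 0 3)] (by decide +kernel))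
noncomputable def rhd40f6a9309551d27 : CRef := CRef.mk (Pat.mk 0x10000000100000001e0000000000000000 0x10000000100000001f0000003b00000008 4 6) 0 0 (step_sound _ 32 [rh6de56787cc1605b6, (rh80fcd6d0a18cb2dd.shift 0 1)] (by decide +kernel))
noncomputable def rh82267f24227fde6a : CRef := CRef.mk (Pat.mk 0x8000000080000001c00000000 0x80000000800000008000000380000001f00000004 4 6) 0 0 (step_sound _ 131 [(rh292e135d17d1e2e1.shift 0 1), (rh932754581e0f4330.shift 2 0)] (by decide +kernel))
noncomputable def rhde54799abf88a9e7 : CRef := CRef.mk (Pat.mk 0x600000007000000040000000000000000 0x40000003e0000003f0000001c0000000800000008 4 6) 0 0 (step_sound _ 99 [rh25c13d8045594b98, (rhb31f6f32a56ccabd.shift 0 3)] (by decide +kernel))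
noncomputable def rh6f919d126e66cbcd : CRef := CRef.mk (Pat.mk 0x100000000c0000000c00000008 0x1000000010000000180000003c0000000f00000008 4 6) 0 0 (step_sound _ 132 [(rh1006c02ae4212ff0.shift 3 0), (rh56e90de3b42f304d.shift 0 1)] (by decide +kernel))
noncomputable def rh253cfc6a2b77fef9 : CRef := CRef.mk (Pat.mk 0x400000003000000030000000200000000 0x2000000060000000600000003000000070000000600000004 4 3) 0 0 (step_sound _ 129 [rh0ff7ca71cb891e23, (rh2f68792b6b779e96.shift 1 1)] (by decide +kernel))
noncomputable def rh0783dad1a940a3c3 : CRef := CRef.mk (Pat.mk 0x10000000140000001c000000080000000000000000 0x380000001f0000001c000000780000003000000010 4 7) 0 0 (step_sound _ 68 [(rh42afa1af9fffa0e1.shift 2 1), rh630424eee47e65b4] (by decide +kernel))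
noncomputable def rh05a6364dc709c457 : CRef := CRef.mk (Pat.mk 0x50000000180000003800000000 0x8000000780000001f0000003f00000007 4 7) 0 0 (step_sound _ 34 [rh0e1512cbacfbd48b, (rha20c91dd13fb51d0.shift 1 0), (rhcda410b351c20b9b.shift 0 1)] (by decide +kernel))
noncomputable def rh75050cb923018119 : CRef := CRef.mk (Pat.mk 0x14000000040000001c00000000 0x1400000014000000340000001f00000038 4 6) 0 0 (step_sound _ 3 [(rh2145e1d24b96a57e.shift 2 0), rhd623d5160984650b] (by decide +kernel))
noncomputable def rh341dee64fc3e0b7f : CRef := CRef.mk (Pat.mk 0x4000000040000000e000000000000000000000000 0x4000000770000003e000000730000000200000002 4 7) 0 0 (step_sound _ 100 [(rh35e918dd76851f8c.shift 1 2), rhd1474a84c69f0140, (rhe3060b190bc0bc78.shift 0 3)] (by decide +kernel))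
noncomputable def rh4851d783f1d5c575 : CRef := CRef.mk (Pat.mk 0xa000000030000000f00000000 0x6000000060000000e0000001b0000000f00000018 4 5) 0 0 (step_sound _ 67 [(rh33e738c4ed385b9f.shift 0 1), rh6d9323db5da32c9e] (by decide +kernel))
noncomputable def rh9f5936d71873c73e : CRef := CRef.mk (Pat.mk 0x10000000040000001e000000000000000000000000 0x10000000140000001f000000380000000800000008 4 6) 0 0 (step_sound _ 68 [(rhe25b0a99195a5d59.shift 1 2), rhf51cecc9d202296e] (by decide +kernel))
noncomputable def rh51fd590aec06bc9d : CRef := CRef.mk (Pat.mk 0x400000007000000040000000000000000 0x8000000080000000e0000003e00000007000000040000000400000004 4 6) 0 0 (step_sound _ 131 [(rh000637b5a81e86aa.shift 1 0), (rh215e11e099257d75.shift 2 1), (rh80f90a60d87caa0d.shift 0 3)] (by decide +kernel))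
noncomputable def rhcba8d2c8d2225ee9 : CRef := CRef.mk (Pat.mk 0x40000000700000004000000000000000000000000 0xa0000001e00000007000000040000000e0000000e0000000a 4 5) 0 0 (step_sound _ 66 [(rh3181373a30ceb9e3.shift 1 0), (rh4017de503635a93b.shift 0 2), (rhe286c75f2739cce2.shift 1 1)] (by decide +kernel))
noncomputable def rh08adf80776d524be : CRef := CRef.mk (Pat.mk 0x400000007000000050000000400000000 0x400000004000000070000001f0000001c00000008 4 5) 0 0 (step_sound _ 35 [(rh55afc6a59410cf00.shift 2 0), (rhcdd7c7b132b21280.shift 0 1)] (by decide +kernel))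
noncomputable def rh9a8c21052faea982 : CRef := CRef.mk (Pat.mk 0xb0000000c000000080000000000000000 0x80000001c0000000f0000000c0000000c0000000c00000008 4 5) 0 0 (step_sound _ 130 [(rh34b1188e635efc8d.shift 0 1), (rh3cb04db3dd2b6a55.shift 2 0)] (by decide +kernel))
noncomputable def rh8aa47e9a3d9b0e39 : CRef := CRef.mk (Pat.mk 0x200000002000000020000000000000000 0x500000007000000070000000200000006000000070000000700000005 4 3) 0 0 (step_sound _ 161 [(rh29dd5384d80ecb1e.shift 0 1), rh3181373a30ceb9e3, (rh7ef5fa5c39f1c762.shift 0 2)] (by decide +kernel))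
noncomputable def rhe390a88576e84e60 : CRef := CRef.mk (Pat.mk 0x200000002000000020000000000000000 0x500000007000000070000000200000002000000070000000700000005 4 3) 0 0 (step_sound _ 161 [rh3181373a30ceb9e3, (rh7ef5fa5c39f1c762.shift 0 2)] (by decide +kernel))
noncomputable def rhf41541f1b291d58d : CRef := CRef.mk (Pat.mk 0x2c00000028 0x70000003f0000003f 4 6) 0 0 (step_sound _ 33 [rh47688a8720dc0294, rhba65360472489f45, rhe2f6b10c50f22ead] (by decide +kernel))
noncomputable def rhd8a49428a7c2e336 : CRef := CRef.mk (Pat.mk 0xa00000006000000060000000000000000 0x40000000c0000000e000000070000003e0000000c00000004 4 6) 0 0 (step_sound _ 130 [(rhb0c1e7919d9be92d.shift 1 0), (rhf7ac44032989c9ef.shift 0 1)] (by decide +kernel))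
noncomputable def rhd9335787931af093 : CRef := CRef.mk (Pat.mk 0x14000000070000000400000000 0x8000000080000000c0000001c0000000f0000000400000004 4 5) 0 0 (step_sound _ 99 [(rh215e11e099257d75.shift 2 0), (rh3fc040e777f1679e.shift 0 2)] (by decide +kernel))
noncomputable def rha40932e0252cef41 : CRef := CRef.mk (Pat.mk 0xa000000030000000e00000000 0x400000006000000060000000e0000000f0000000f0000000a 4 4) 0 0 (step_sound _ 130 [(rh08d50fe567eb1045.shift 1 0), (rh0cf4dea9d6c72748.shift 1 0), (rh90b28203564fe794.shift 0 1)] (by decide +kernel))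
noncomputable def rh5211d6d83b7d6d7b : CRef := CRef.mk (Pat.mk 0x80000000800000038000000000000000000000000 0x80000003f0000003f000000070000000400000004 4 6) 0 0 (step_sound _ 98 [(rhc554838dd23febb3.shift 0 3), (rhd1474a84c69f0140.shift 1 0), (rhf871e666d90bcf29.shift 0 2)] (by decide +kernel))
noncomputable def rh361656cd35dc1b55 : CRef := CRef.mk (Pat.mk 0x80000001c00000000 0x3e0000007f00000007 4 7) 0 0 (step_sound _ 37 [(rhe3060b190bc0bc78.shift 1 1), rhf871e666d90bcf29] (by decide +kernel))
noncomputable def rh688a8fe680c760ce : CRef := CRef.mk (Pat.mk 0x38000000180000000800000000 0x800000008000000380000003e0000000f00000004 4 6) 0 0 (step_sound _ 66 [(rh53b3c253cb0c65f4.shift 1 2), rh779e061ef2193795] (by decide +kernel))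
noncomputable def rhde8ec84b925d7e59 : CRef := CRef.mk (Pat.mk 0x6000000060000000400000000 0x400000004000000070000003f0000003c00000008 4 6) 0 0 (step_sound _ 67 [rh50a5beddcac715f2, (rh79b3c29022acbdf3.shift 0 2)] (by decide +kernel))
noncomputable def rhcaf8373d595b08c6 : CRef := CRef.mk (Pat.mk 0x200000006000000020000000200000000 0x400000006000000060000000200000006000000070000000300000001 4 3) 0 0 (step_sound _ 161 [(rh14f80659e6313cc6.shift 1 2), rh7928877f9bf74a91] (by decide +kernel))
noncomputable def rhd2dfba20613a3632 : CRef := CRef.mk (Pat.mk 0x80000000c000000080000000c 0x8000000080000000c0000007c0000001f 4 7) 0 0 (step_sound _ 36 [(rh518d6f6eeebddcb2.shift 2 0), rh8c82fb0d205db583, rhea5ad313ff444aaf] (by decide +kernel))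
noncomputable def rhd223798938957dcb : CRef := CRef.mk (Pat.mk 0xa000000020000000e000000000000000000000000 0x80000000b0000003e0000000f0000000c0000000400000004 4 6) 0 0 (step_sound _ 131 [(rh281c6819542c66e6.shift 2 0), (rh637906290267366a.shift 0 3)] (by decide +kernel))
noncomputable def rhe4a1a40700ec0b43 : CRef := CRef.mk (Pat.mk 0x160000001e000000100000000000000000 0x20000000b0000001e0000001e000000140000001400000010 4 5) 0 0 (step_sound _ 131 [(rh38a0850c9fea941e.shift 0 1), (rh3cb04db3dd2b6a55.shift 3 0)] (by decide +kernel))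
noncomputable def rh91e063786df919cf : CRef := CRef.mk (Pat.mk 0x1000000030000000f00000001 0x30000000300000003000000030000000f00000019 4 5) 0 0 (step_sound _ 3 [rhc0301b400ca2a736, rhe25b0a99195a5d59] (by decide +kernel))
noncomputable def rh880f173af30d9589 : CRef := CRef.mk (Pat.mk 0x8000000180000000800000008 0x140000001f000000380000000800000008 4 6) 0 0 (step_sound _ 98 [rh283994b096c92b94, (rh50fbb5868c909700.shift 2 0)] (by decide +kernel))
noncomputable def rh0e7f86e5209b84a6 : CRef := CRef.mk (Pat.mk 0xa0000000e00000009000000000000000000000000 0x2000000020000000e0000000e0000000f0000001c0000001c00000008 4 5) 0 0 (step_sound _ 98 [rha85076c68f1f3e46, (rhade0f4c81793f68e.shift 1 1), (rhbe707112c53dab40.shift 1 1)] (by decide +kernel))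
noncomputable def rh5b7331415ceb5383 : CRef := CRef.mk (Pat.mk 0x20000003800000002 0x60000003e00000073 4 7) 0 0 (step_sound _ 34 [(rh3f8766e6ecb455ce.shift 1 1), rh8c590dcbef2e4cc5] (by decide +kernel))
noncomputable def rhff9488f1098ad9ac : CRef := CRef.mk (Pat.mk 0xb000000180000000800000000 0x1c0000001e0000000b000000180000001800000010 4 5) 0 0 (step_sound _ 131 [(rha78afc937ca94db4.shift 0 1), (rhd4b4beefcd67f51e.shift 3 0)] (by decide +kernel))
noncomputable def rhd4c9b24d87befddf : CRef := CRef.mk (Pat.mk 0x3000000180000000200000000 0x100000003000000030000001f0000000200000002 4 5) 0 0 (step_sound _ 65 [(rh5419adcd928dba20.shift 0 2), rh7b24c4ccc068b0b2] (by decide +kernel))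
noncomputable def rh3026ac57432eb0b8 : CRef := CRef.mk (Pat.mk 0x20000000f0000000b0000000000000000 0x2000000020000001a0000000f0000000f0000000e00000004 4 5) 0 0 (step_sound _ 131 [(rh33e738c4ed385b9f.shift 0 3), rh46db00d4a42ffae2] (by decide +kernel))
noncomputable def rh2551a9e8849b1287 : CRef := CRef.mk (Pat.mk 0x80000001c0000000a0000000000000000 0x8000000080000001f0000001b0000001000000010 4 5) 0 0 (step_sound _ 97 [rhad35f3eae995d8d2, (rheb0810cc63b001d8.shift 0 2)] (by decide +kernel))
noncomputable def rhf93e7885282cbc00 : CRef := CRef.mk (Pat.mk 0x40000001e000000040000000000000000 0x4000000040000001f0000003c0000000800000008 4 6) 0 0 (step_sound _ 68 [rh9ccd7fcb8fb13dab, (rhe25b0a99195a5d59.shift 1 2)] (by decide +kernel))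
noncomputable def rh6c7ef1c18983697f : CRef := CRef.mk (Pat.mk 0x800000038000000080000000000000000 0x40000000e0000003f0000003f0000000800000008 4 6) 0 0 (step_sound _ 98 [(rh0a31c7f562fb8d12.shift 0 2), (rhe8ba5e25e7c74702.shift 1 0)] (by decide +kernel))
noncomputable def rh59d674cd14a69bfd : CRef := CRef.mk (Pat.mk 0x8000000380000000800000000 0x4000000040000000c0000000f0000003c0000000800000008 4 6) 0 0 (step_sound _ 98 [(rhb1a251d9bff81766.shift 2 0), (rhdbcea10a0fbe5ba6.shift 0 2)] (by decide +kernel))
noncomputable def rh5851c01211d6ad13 : CRef := CRef.mk (Pat.mk 0x200000006000000020000000000000000 0x500000007000000070000000300000006000000060000000600000004 4 3) 0 0 (step_sound _ 161 [(rh7ef5fa5c39f1c762.shift 0 2), rhcae87bda2c3c01d2, (rhd4b4beefcd67f51e.shift 1 1)] (by decide +kernel))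
noncomputable def rh820eb767cdafc47b : CRef := CRef.mk (Pat.mk 0xc0000001c000000080000001800000000 0x20000000f0000001c0000000e0000007c00000004 4 7) 0 0 (step_sound _ 34 [(rh43cfd80dbb9a4f81.shift 0 1), (rh932754581e0f4330.shift 2 0)] (by decide +kernel))
noncomputable def rhdffdb03d1b51bb4e : CRef := CRef.mk (Pat.mk 0x40000001c0000000c0000001000000000 0x80000000a0000000f0000001c0000001c0000001400000004 4 5) 0 0 (step_sound _ 131 [(rh493ba90d7b88e72e.shift 2 1), rhda49d08e88765cc3, (rhea7a1800d6f053bd.shift 2 0)] (by decide +kernel))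
noncomputable def rh3a67b94b1575e06e : CRef := CRef.mk (Pat.mk 0xe00000008000000300000001000000000 0x100000001e0000007f000000300000003000000020 4 7) 0 0 (step_sound _ 100 [(rh4a0b10776449c3e9.shift 1 3), (rh9e8f1a174a587791.shift 1 2), rh9fad892353981c02] (by decide +kernel))
noncomputable def rh5a24f83bf59116eb : CRef := CRef.mk (Pat.mk 0x380000002000000060 0x70000007e0000003f00000060 4 7) 0 0 (step_sound _ 66 [(rh2cc7d62e70c02209.shift 0 1), (rh37bd098a6501ca05.shift 1 0), (rhd1d05263fabc0227.shift 0 1)] (by decide +kernel))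
noncomputable def rha3e2ccf04d4db8ff : CRef := CRef.mk (Pat.mk 0x160000001e0000000000000000 0x3000000030000001e0000001e0000000700000004 4 5) 0 0 (step_sound _ 129 [(rh55a1f6c57a317ce6.shift 1 0), (rhc147a53bb17f4567.shift 0 1)] (by decide +kernel))
noncomputable def rhe2988adc4e01730b : CRef := CRef.mk (Pat.mk 0x160000001e0000001000000000 0x340000003c000000160000001e0000001b00000008 4 6) 0 0 (step_sound _ 130 [(rh1ae4704ae86cb9a8.shift 0 1), (rh22c52a4968d9d355.shift 1 0)] (by decide +kernel))
noncomputable def rh3ec9baf74efce829 : CRef := CRef.mk (Pat.mk 0xc0000001c000000080000000800000000 0xa0000000f0000001c0000000c0000000c00000004 4 5) 0 0 (step_sound _ 34 [(rh932754581e0f4330.shift 2 0), (rhb27e62c94fe3d287.shift 0 1)] (by decide +kernel))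
noncomputable def rh25f7d6f29a329d98 : CRef := CRef.mk (Pat.mk 0x6000000040000001c0000001800000000 0x130000001f0000003c0000001c0000001c00000014 4 6) 0 0 (step_sound _ 131 [rh166d27a1dae4a6ab, (rh5f359eb5b0e18561.shift 0 1), (rh8bdb1dce88e2bc09.shift 1 0)] (by decide +kernel))
noncomputable def rh85abeef44cb3fe28 : CRef := CRef.mk (Pat.mk 0x6000000040000001c00000018000000000000000000000000 0x2000000060000000c0000001c0000001f000000300000001000000010 4 6) 0 0 (step_sound _ 98 [(rh50fbb5868c909700.shift 1 3), rhcb68da4f2dc5e7fd] (by decide +kernel))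
noncomputable def rh9c412f8e1c236468 : CRef := CRef.mk (Pat.mk 0xc00000008000000380000003000000000 0x200000003f0000007800000038000000f000000040 4 8) 0 0 (step_sound _ 101 [(rh121397a93ef3afd3.shift 3 0), (rh126557da767e56cc.shift 0 3)] (by decide +kernel))
noncomputable def rh3b6886a70fb01cd6 : CRef := CRef.mk (Pat.mk 0x6000000040000001c0000001800000000 0x200000006000000040000001c0000007f00000070 4 7) 0 0 (step_sound _ 34 [(rh50fbb5868c909700.shift 1 1), rhe3e8c074aa83e8bd] (by decide +kernel))
noncomputable def rhd417879f6e342312 : CRef := CRef.mk (Pat.mk 0xc000000280000003800000010 0x200000007e0000003f0000003800000010 4 7) 0 0 (step_sound _ 101 [(rh5c5e593799055d58.shift 4 0), (rh6794715a0438620e.shift 0 1)] (by decide +kernel))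
noncomputable def rh075bfb5b00b4bd3e : CRef := CRef.mk (Pat.mk 0x6000000140000001800000008 0x100000003e000000370000001800000008 4 6) 0 0 (step_sound _ 100 [(rh5c5e593799055d58.shift 3 0), (rh5e4e7266ca016e80.shift 0 2)] (by decide +kernel))
noncomputable def rhffbeccdd2c673ba2 : CRef := CRef.mk (Pat.mk 0x60000000c0000001800000008 0x10000000360000003f0000001800000008 4 6) 0 0 (step_sound _ 65 [(rh9c51339dcc796f0a.shift 1 0), (rhb739f4f82bb681b4.shift 0 1)] (by decide +kernel))
noncomputable def rhee3c9f08ae907d82 : CRef := CRef.mk (Pat.mk 0xc000000180000003000000010 0x270000007f0000001f0000003000000010 4 7) 0 0 (step_sound _ 100 [rh703032655ec1637c, (rhace16348de435294.shift 0 1), (rhd88e1e5c6d7f696b.shift 1 0)] (by decide +kernel))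
noncomputable def rhdf372f002b77cac7 : CRef := CRef.mk (Pat.mk 0xc0000001800000030 0x1f0000007e00000030 4 7) 0 0 (step_sound _ 33 [(rh4ca5dae25f5c14ff.shift 0 1), (rhab22b5b56e7b3243.shift 1 0)] (by decide +kernel))
noncomputable def rh5bb266c43d555d9e : CRef := CRef.mk (Pat.mk 0x140000001e000000100000000000000000 0x40000000c0000001c0000001e0000001f0000001800000018 4 5) 0 0 (step_sound _ 35 [(rh5ddbeed5d869bf16.shift 3 0), (rh752c9303f297f9fa.shift 3 0), (rh845a5df4d8a57a69.shift 0 1)] (by decide +kernel))
noncomputable def rh027d4e0842061688 : CRef := CRef.mk (Pat.mk 0xb0000000e00000004 0xa0000001e0000000f0000000e00000004 4 5) 0 0 (step_sound _ 97 [(rh2145e1d24b96a57e.shift 1 0), rhc7fbeba8b6af5dd2] (by decide +kernel))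
noncomputable def rh31a747384711ff09 : CRef := CRef.mk (Pat.mk 0x6000000030000000f000000000000000000000000 0x80000001e000000070000000f0000001e0000000c00000004 4 5) 0 0 (step_sound _ 66 [(rh08edf065357d68e5.shift 1 0), (rh6539c13ee1f56f5e.shift 0 1), (rh79ad7b82ec8c35e2.shift 1 0)] (by decide +kernel))
noncomputable def rh95903c486aeb4bd2 : CRef := CRef.mk (Pat.mk 0xc000000060000001e000000000000000000000000 0x80000000c0000000e0000001e000000070000000400000004 4 5) 0 0 (step_sound _ 64 [(rh80fcd6d0a18cb2dd.shift 0 2), (rh84bebdeadf3219f3.shift 1 0)] (by decide +kernel))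
noncomputable def rhedc37af7512acaf5 : CRef := CRef.mk (Pat.mk 0x10000000160000001e00000000 0xc0000003c000000160000001e00000033 4 6) 0 0 (step_sound _ 1 [(rh0c448c0ca97beab5.shift 1 0), rheb0810cc63b001d8] (by decide +kernel))
noncomputable def rhe20ed85033c98c6f : CRef := CRef.mk (Pat.mk 0x10000000160000001e00000000 0x40000003c0000001e0000001e00000003 4 6) 0 0 (step_sound _ 1 [rheb0810cc63b001d8, (rhf56f7572e2b631b7.shift 1 0)] (by decide +kernel))
noncomputable def rh1b6998564d39b11f : CRef := CRef.mk (Pat.mk 0x10000000160000001e00000000 0x20000000300000001e0000001e00000033 4 6) 0 0 (step_sound _ 0 [(rh63821641ca6fcacd.shift 1 0), rh80fcd6d0a18cb2dd] (by decide +kernel))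
noncomputable def rhe9f86ffc18bf5653 : CRef := CRef.mk (Pat.mk 0xb0000000c0000000800000000 0x1c0000001e0000000b0000000c0000000c00000004 4 5) 0 0 (step_sound _ 131 [(rh03dfdf12d5937476.shift 2 0), (rha78afc937ca94db4.shift 0 1)] (by decide +kernel))
noncomputable def rh81139222464e3b97 : CRef := CRef.mk (Pat.mk 0xc000000040000001c0000000c00000000 0x100000003c0000000f0000001c0000000c00000004 4 6) 0 0 (step_sound _ 99 [(rh71222050f2c63a3a.shift 2 0), (rhd88e1e5c6d7f696b.shift 0 1)] (by decide +kernel))
noncomputable def rh749e50c40abe9ddc : CRef := CRef.mk (Pat.mk 0x2000000020000000200000003000000060000000000000000 0x2000000020000000300000003000000030000001e0000000200000002 4 5) 0 0 (step_sound _ 67 [rh1406cafceeeef6c2, (rhf48373e13d2bc128.shift 0 2)] (by decide +kernel))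
noncomputable def rh12c4913e42e9c926 : CRef := CRef.mk (Pat.mk 0xe000000040000000000000008 0x300000007f0000003e0000000800000008 4 7) 0 0 (step_sound _ 67 [(rh6292bd8784ece55f.shift 0 2), (rhb33c6c3f599de8c2.shift 1 0)] (by decide +kernel))
noncomputable def rh7b6317ac97b26f40 : CRef := CRef.mk (Pat.mk 0x200000006000000160000000000000000 0x30000000300000003000000060000001e0000000300000001 4 5) 0 0 (step_sound _ 161 [(rh2145e1d24b96a57e.shift 1 2), rhe54ab25dd31f7976] (by decide +kernel))
noncomputable def rh13f62183bfa0bd28 : CRef := CRef.mk (Pat.mk 0x8000000180000000800000000 0x400000004000000040000001f0000007c0000000800000008 4 7) 0 0 (step_sound _ 98 [(rh4ca5dae25f5c14ff.shift 0 2), (rhdeca8db941583de2.shift 0 2), (rhf9a6286f1d5377a2.shift 2 0)] (by decide +kernel))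
noncomputable def rh2712bd82c4eb4bf1 : CRef := CRef.mk (Pat.mk 0x40000000c0000000c0000000000000000 0x8000000180000003c0000000f0000000c0000000c00000008 4 6) 0 0 (step_sound _ 131 [(rh84d1c02a8954c6a8.shift 2 1), rha31e2286f1ebea1b] (by decide +kernel))
noncomputable def rh4bcac5cf6a8ec492 : CRef := CRef.mk (Pat.mk 0xf000000000000000b0000000000000000 0x40000000f000000180000000f0000001800000010 4 5) 0 0 (step_sound _ 99 [rh2306b091ad6b1beb, (rhe25b0a99195a5d59.shift 0 3)] (by decide +kernel))
noncomputable def rh034f4db72834329d : CRef := CRef.mk (Pat.mk 0x200000006000000160000000000000000 0x20000000200000002000000060000001f0000000300000001 4 5) 0 0 (step_sound _ 161 [(rh2145e1d24b96a57e.shift 1 2), rh535662eee1e1c911] (by decide +kernel))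
noncomputable def rh53894614ea0e4e9d : CRef := CRef.mk (Pat.mk 0x700000000800000030 0x780000000f0000007c 4 7) 0 0 (step_sound _ 34 [rh95f73988d2dec2c0, (rhca9569cc80abfe76.shift 2 1)] (by decide +kernel))
noncomputable def rh97349fd4eb732cbd : CRef := CRef.mk (Pat.mk 0x1c000000080000002c0000000000000000 0x100000001c0000000f0000003c0000000800000008 4 6) 0 0 (step_sound _ 35 [(rh2f68792b6b779e96.shift 3 1), rhc35ae12127a69f1c] (by decide +kernel))
noncomputable def rhf48af1b814b4fc51 : CRef := CRef.mk (Pat.mk 0x20000000e0000000b0000000000000000 0x4000000060000000e0000000e0000000b0000000b00000008 4 4) 0 0 (step_sound _ 162 [(rhd6ece6133e39c38f.shift 0 1), (rhe68e315fb4553677.shift 1 0), (rhf8e7b16e4fee91e5.shift 1 1)] (by decide +kernel))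
noncomputable def rh2395cf2a79a5856d : CRef := CRef.mk (Pat.mk 0x8000000380000000c00000000 0x40000000c0000001f000000380000000c0000000c 4 6) 0 0 (step_sound _ 131 [(rh932754581e0f4330.shift 2 0), rhc3198180e1bccfcd] (by decide +kernel))
noncomputable def rh1cffe035391a786c : CRef := CRef.mk (Pat.mk 0x40000001c000000140000000000000000 0x80000000a0000001f0000001c000000140000001400000014 4 5) 0 0 (step_sound _ 131 [(rha40d42a2e34c408d.shift 3 0), rhda49d08e88765cc3, (rhea7a1800d6f053bd.shift 2 0)] (by decide +kernel))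
noncomputable def rh6f64897adf06908f : CRef := CRef.mk (Pat.mk 0x14000000140000000600000000 0x2000000070000001e000000340000000600000006 4 6) 0 0 (step_sound _ 129 [rh254596f2f5d4bbab, (rhbdd4e349c1dde679.shift 1 0)] (by decide +kernel))
noncomputable def rh0673ddd4780ee58f : CRef := CRef.mk (Pat.mk 0xa0000000a0000000b0000000800000000 0x4000000060000000e0000000a0000000b0000001900000010 4 5) 0 0 (step_sound _ 4 [(rh26fc1703b2b20577.shift 0 1), (rhd3458b32566d63f7.shift 3 0)] (by decide +kernel))
noncomputable def rhd6e3341f73642d6a : CRef := CRef.mk (Pat.mk 0x40000000e0000000b0000000800000000 0x100000003c0000000e0000000f0000001800000010 4 6) 0 0 (step_sound _ 36 [(rh32d61858e9a28a95.shift 1 0), (rhc10214bf3fe8094a.shift 0 1)] (by decide +kernel))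
noncomputable def rh429faeeaead9ab43 : CRef := CRef.mk (Pat.mk 0x4000000060000000b0000000000000000 0x4000000040000000c0000001e0000000b0000000800000008 4 5) 0 0 (step_sound _ 99 [(rh18965a982d73c794.shift 0 2), (rha40d42a2e34c408d.shift 2 0)] (by decide +kernel))
noncomputable def rhec9ab696d3cba391 : CRef := CRef.mk (Pat.mk 0x80000000c000000060000000000000000 0x400000004000000060000000f0000003e000000060000000600000004 4 6) 0 0 (step_sound _ 130 [(rh3e7f2ba771ddcb65.shift 1 1), rh8f1158d9f5036793] (by decide +kernel))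
noncomputable def rh3e64c81eba17eaf5 : CRef := CRef.mk (Pat.mk 0xc0000001c0000000c 0x18000000780000001f0000001c0000000c 4 7) 0 0 (step_sound _ 100 [rh31b3787326fc3a2c, rhbba2b65e9a633c92, (rhbd55d8419891313d.shift 2 0)] (by decide +kernel))
noncomputable def rh24ce401e0364d2e0 : CRef := CRef.mk (Pat.mk 0xc0000001c0000000c00000000 0x10000000330000001f0000001c0000000c00000004 4 6) 0 0 (step_sound _ 97 [(rhb739f4f82bb681b4.shift 0 2), rhe4f221da97d6d364] (by decide +kernel))
noncomputable def rh97bd6afcb82e49db : CRef := CRef.mk (Pat.mk 0x1c0000000c0000000000000000 0x800000018000000380000001f0000000c0000000c00000008 4 6) 0 0 (step_sound _ 131 [(rh503dd4575245365b.shift 2 1), rhcb6278a17751f6e9] (by decide +kernel))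
noncomputable def rh4f1458654bfb8120 : CRef := CRef.mk (Pat.mk 0x160000000600000002 0x600000007000000070000001e0000000600000002 4 5) 0 0 (step_sound _ 130 [rh53e4dcd8217a9d7d, (rhee230b994cc8b773.shift 1 0)] (by decide +kernel))
noncomputable def rha648fc2aca7afa9c : CRef := CRef.mk (Pat.mk 0x40000001c00000014000000000000000000000000 0x40000000c0000001c0000001f000000380000001800000010 4 6) 0 0 (step_sound _ 99 [(rh55a1f6c57a317ce6.shift 2 1), rhcb68da4f2dc5e7fd] (by decide +kernel))
noncomputable def rh8516bf52b794c53b : CRef := CRef.mk (Pat.mk 0x40000000e000000100000000000000000 0x40000000c0000000f0000001c0000000800000008 4 5) 0 0 (step_sound _ 67 [(rh7e1098702e50f2b0.shift 2 0), (rhb739f4f82bb681b4.shift 0 2)] (by decide +kernel))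
noncomputable def rha14b526890d8e59c : CRef := CRef.mk (Pat.mk 0x40000000200000002000000020000000000000000 0x1000000070000000700000002000000060000000600000004 4 3) 0 0 (step_sound _ 33 [rh29dd5384d80ecb1e, (rhbaefcd01e0a8bca3.shift 1 1)] (by decide +kernel))
noncomputable def rh2481db76783e51bb : CRef := CRef.mk (Pat.mk 0x40000000200000002000000020000000000000000 0x5000000070000000300000002000000060000000600000004 4 3) 0 0 (step_sound _ 161 [(rh2f68792b6b779e96.shift 1 2), rhcae87bda2c3c01d2] (by decide +kernel))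
noncomputable def rhb40413606a77b10b : CRef := CRef.mk (Pat.mk 0x40000000700000006000000000000000000000000 0x80000003e00000007000000060000000c0000000c0000000c 4 6) 0 0 (step_sound _ 66 [(rh1eeec04e73117746.shift 0 2), (rh3cb04db3dd2b6a55.shift 1 0), (rh820d4e04d5dcd02e.shift 1 0)] (by decide +kernel))
noncomputable def rh8188bc4094449e1d : CRef := CRef.mk (Pat.mk 0xe0000000c00000004 0x200000002000000770000007e0000000c00000004 4 7) 0 0 (step_sound _ 68 [rh1c1037cb5b3fe471, (rh226655e3fe6b4a8a.shift 1 1)] (by decide +kernel))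
noncomputable def rh45b557985391e7aa : CRef := CRef.mk (Pat.mk 0x20000000100000003000000020000000000000000 0x30000000300000003000000060000000600000006 4 3) 0 0 (step_sound _ 33 [rh7b1f1fb55310c477, rhe54d6065e495fc41] (by decide +kernel))
noncomputable def rh8ce0b65810c2cdae : CRef := CRef.mk (Pat.mk 0x1800000008000000300000001000000010 0x200000007c0000002f000000300000003000000010 4 7) 0 0 (step_sound _ 133 [(rh2820ca9a6c4f41b4.shift 0 3), (rhb009278fdd334770.shift 4 0)] (by decide +kernel))
noncomputable def rh51c5cc9baab37337 : CRef := CRef.mk (Pat.mk 0x180000000c000000040000000000000000 0x7c0000000f000000040000000400000004 4 7) 0 0 (step_sound _ 2 [(rh9e3edb185cc347de.shift 2 0), (rhd69c262cd33b94b3.shift 0 3)] (by decide +kernel))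
noncomputable def rh85fcd39e279af49e : CRef := CRef.mk (Pat.mk 0x180000000c0000001c0000000800000000 0x1f0000007f0000001c0000007800000030 4 7) 0 0 (step_sound _ 100 [(rhddf0c19b5b31800d.shift 0 2), (rhea41988f7b5d84ca.shift 2 0)] (by decide +kernel))
noncomputable def rh7083086a3fd0ba68 : CRef := CRef.mk (Pat.mk 0x600000003000000070000000200000000 0x80000001e00000007000000070000001e0000000c 4 5) 0 0 (step_sound _ 34 [(rh55afc6a59410cf00.shift 1 0), rhe4b2eac04395aae9] (by decide +kernel))
noncomputable def rh553340e583ecda96 : CRef := CRef.mk (Pat.mk 0xc0000000a0000000e0000000400000000 0x100000001f0000003b0000000e0000003c00000010 4 6) 0 0 (step_sound _ 132 [(rh285e15fe8a0693b9.shift 1 0), (rhd526f9b20c752965.shift 0 3)] (by decide +kernel))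
noncomputable def rhba19319f36dbedcf : CRef := CRef.mk (Pat.mk 0x20000000100000003000000020000000000000000 0x20000000300000003000000070000000700000007 4 3) 0 0 (step_sound _ 33 [rh2312e513b6d1dd29, rh7b1f1fb55310c477] (by decide +kernel))
noncomputable def rh8b45467be837d979 : CRef := CRef.mk (Pat.mk 0x60000000200000002000000000000000000000000 0x5000000070000000300000002000000060000000600000004 4 3) 0 0 (step_sound _ 65 [(rh2f68792b6b779e96.shift 1 2), rhcae87bda2c3c01d2] (by decide +kernel))
noncomputable def rha2a00a88c6c918af : CRef := CRef.mk (Pat.mk 0x40000002c00000008 0x60000003f0000003f 4 6) 0 0 (step_sound _ 36 [rh0a31c7f562fb8d12, (rh3244c3cc8379b070.shift 1 1)] (by decide +kernel))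
noncomputable def rhd7669ad5e58833d0 : CRef := CRef.mk (Pat.mk 0x80000000b0000000800000000 0x8000000080000000f0000001e00000014 4 5) 0 0 (step_sound _ 36 [rhb5f6404ced0dd07a, (rhc10214bf3fe8094a.shift 0 1)] (by decide +kernel))
noncomputable def rh6d76e52535afc41a : CRef := CRef.mk (Pat.mk 0x30000001a0000000b0000000000000000 0x10000000110000001b0000001a0000000b0000001e0000000c 4 5) 0 0 (step_sound _ 35 [(rh215e11e099257d75.shift 3 0), rh951e08a274632323] (by decide +kernel))
noncomputable def rh01a5cbc1a1fff043 : CRef := CRef.mk (Pat.mk 0x5000000050000000400000002 0x10000000500000007000000070000000700000002 4 3) 0 0 (step_sound _ 33 [rh0188917d0a15b7ff, (rh5c5e593799055d58.shift 1 0)] (by decide +kernel))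
noncomputable def rhf6c48f0bcb88238f : CRef := CRef.mk (Pat.mk 0xa0000000a000000080000000c 0xa0000000a0000000a0000000f0000003c 4 6) 0 0 (step_sound _ 34 [rh33c434462713d00c, (rh5c5e593799055d58.shift 2 0)] (by decide +kernel))
noncomputable def rh0665fc867ee1bf20 : CRef := CRef.mk (Pat.mk 0x100000001600000010000000300000000000000000 0x1000000010000000180000001e0000001f000000f80000001000000010 4 8) 0 0 (step_sound _ 99 [rh9ecaaaae57e18399, (rhb19e0e59e877d913.shift 2 2), (rhcc10c22baa919f90.shift 3 0)] (by decide +kernel))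
noncomputable def rh439cf626406679a3 : CRef := CRef.mk (Pat.mk 0xa0000000b00000008000000040000000000000000 0xa0000000b0000001e0000000e0000000400000004 4 5) 0 0 (step_sound _ 34 [rh071167705d9732bb, (rheea67dfebd0f8008.shift 2 1)] (by decide +kernel))
noncomputable def rhc0e03ab1234733d1 : CRef := CRef.mk (Pat.mk 0x8000000380000000800000000 0x400000004000000040000001f0000003c0000000800000008 4 6) 0 0 (step_sound _ 98 [(rhc02b3aee7ab87ee1.shift 0 2), (rhdbcea10a0fbe5ba6.shift 0 2), (rhf9a6286f1d5377a2.shift 2 0)] (by decide +kernel))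
noncomputable def rh0a7a7ca3f1343863 : CRef := CRef.mk (Pat.mk 0x280000002c0000002000000000 0x1000000010000000300000003c0000002f0000002000000020 4 6) 0 0 (step_sound _ 100 [(rh1ed7a3503fa50fc8.shift 0 2), (rhb1a251d9bff81766.shift 4 0)] (by decide +kernel))
noncomputable def rhb9a24b2061956320 : CRef := CRef.mk (Pat.mk 0x2000000020000000200000002000000000000000000000000 0x400000006000000060000000200000002000000070000000700000005 4 3) 0 0 (step_sound _ 65 [rh3181373a30ceb9e3, (rh44f453b84f013105.shift 1 2)] (by decide +kernel))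
noncomputable def rh03b59bfa593aec59 : CRef := CRef.mk (Pat.mk 0x8000000080000000b0000000b00000000 0x70000000f0000001b0000000b0000000b00000001 4 5) 0 0 (step_sound _ 129 [(rh057665fbd09d58b4.shift 0 1), rhb8fddd58ad9026ec, rhcdbd71edb952ab1b] (by decide +kernel))
noncomputable def rh61ce2d8a173ce0e4 : CRef := CRef.mk (Pat.mk 0x200000000c0000000c00000000 0x8000000080000007c0000000f0000000c00000004 4 7) 0 0 (step_sound _ 99 [(rh503dd4575245365b.shift 2 0), (rhe33d9496e10d8eb0.shift 0 2)] (by decide +kernel))
noncomputable def rh6f3087bd535a4e4b : CRef := CRef.mk (Pat.mk 0x2000000020000000e0000000200000000 0x5000000070000003e0000003e0000000200000002 4 6) 0 0 (step_sound _ 98 [(rha707fb719e87fe6e.shift 1 0), (rhb22c4b31d6e9507c.shift 0 1)] (by decide +kernel))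
noncomputable def rh155a828c0bb1d4c7 : CRef := CRef.mk (Pat.mk 0x38000000180000001800000000 0x800000008000000380000001f0000001f00000004 4 6) 0 0 (step_sound _ 65 [(rh24ae073cf30720c4.shift 1 2), rh7552ecd08e523dde] (by decide +kernel))
noncomputable def rhad2a940827b0d1ad : CRef := CRef.mk (Pat.mk 0x38000000180000000800000000 0x60000003f0000001f0000000800000008 4 6) 0 0 (step_sound _ 65 [(rh24ae073cf30720c4.shift 1 2), rh73534e28f7b6ad48] (by decide +kernel))
noncomputable def rha31df613ce260778 : CRef := CRef.mk (Pat.mk 0x1c0000000c0000000400000000 0x730000007e0000000c0000000400000004 4 7) 0 0 (step_sound _ 101 [(rh18965a982d73c794.shift 2 2), rhf8bb4458b10bd171] (by decide +kernel))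
noncomputable def rh83e77d1169eaafcc : CRef := CRef.mk (Pat.mk 0xc000000180000001800000000 0xc0000000c0000000f000000180000001800000008 4 5) 0 0 (step_sound _ 96 [(rh384619215a59ba54.shift 2 0), (rhab22b5b56e7b3243.shift 0 2)] (by decide +kernel))
noncomputable def rhc2f95f20759d83cf : CRef := CRef.mk (Pat.mk 0xe0000000c0000000c00000000 0x10000000330000001e0000003c0000000c00000004 4 6) 0 0 (step_sound _ 68 [rhe4f221da97d6d364, (rhf48373e13d2bc128.shift 1 2)] (by decide +kernel))
noncomputable def rh8b32fa0618d11d76 : CRef := CRef.mk (Pat.mk 0x3000000060000000200000000 0x10000000100000001000000030000001f0000000200000002 4 5) 0 0 (step_sound _ 67 [(rhf48373e13d2bc128.shift 0 2), rhf9a6286f1d5377a2] (by decide +kernel))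
noncomputable def rha8b69ffea06e7371 : CRef := CRef.mk (Pat.mk 0x180000001c00000000 0x1400000014000000760000007f0000001c00000008 4 7) 0 0 (step_sound _ 66 [(rh1b80270a8621e059.shift 0 1), rh63fd7d77606c88e1, (rh83704986f954ca48.shift 1 0)] (by decide +kernel))
noncomputable def rh40a17d729f948ff9 : CRef := CRef.mk (Pat.mk 0x1e00000018000000000000000000000000 0x380000001e0000001f000000300000003000000010 4 6) 0 0 (step_sound _ 68 [(rh3cb04db3dd2b6a55.shift 3 0), (rh3d136168154377f1.shift 0 1)] (by decide +kernel))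
noncomputable def rhee41ea3ba0cbf52f : CRef := CRef.mk (Pat.mk 0x80000003c00000010 0x180000003f0000001f 4 6) 0 0 (step_sound _ 1 [(rh80fcd6d0a18cb2dd.shift 1 0), rhca9381ca7e43c0e3] (by decide +kernel))
noncomputable def rh3a9ad5f1aa69e73a : CRef := CRef.mk (Pat.mk 0x80000000e000000040000001400000000 0x20000000f0000003e000000340000001400000010 4 6) 0 0 (step_sound _ 100 [(rh2bbc4934553ffbfd.shift 1 0), (rheddd3d8f7db62149.shift 0 1)] (by decide +kernel))
noncomputable def rh666bf15668ead765 : CRef := CRef.mk (Pat.mk 0xe000000000000000800000000 0x4000000040000000c0000001f000000780000000800000008 4 7) 0 0 (step_sound _ 67 [(rh8ee80cc30e93a344.shift 0 2), (rhb1a251d9bff81766.shift 2 0)] (by decide +kernel))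
noncomputable def rh248cbf9037404653 : CRef := CRef.mk (Pat.mk 0x1c000000040000000400000000 0x730000003e000000740000000400000004 4 7) 0 0 (step_sound _ 97 [rh132883a60cd8aed8, (rh35e918dd76851f8c.shift 1 2)] (by decide +kernel))
noncomputable def rh548781051e981375 : CRef := CRef.mk (Pat.mk 0x400000007000000060000000000000000 0x80000003c0000003f0000003e0000000400000004 4 6) 0 0 (step_sound _ 99 [(rh226655e3fe6b4a8a.shift 0 2), rh9863e637cb770d1b, (rhf5e124ec5c58a2dd.shift 0 2)] (by decide +kernel))
noncomputable def rh0e6a9fa57169f8cf : CRef := CRef.mk (Pat.mk 0x40000000600000006000000080000000000000000 0x4000000070000003e0000000c0000000800000008 4 6) 0 0 (step_sound _ 35 [rh41fb73ed4f2e2426, (rhbe0e43a3bc50a43f.shift 2 1)] (by decide +kernel))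
noncomputable def rhf49e748fe37799f6 : CRef := CRef.mk (Pat.mk 0x20000000300000003000000040000000000000000 0x4000000060000000700000003000000060000000600000002 4 3) 0 0 (step_sound _ 65 [rh15a1b6b82d9fd81f, (rh55afc6a59410cf00.shift 1 1)] (by decide +kernel))
noncomputable def rhcf28f379a3b2dbe8 : CRef := CRef.mk (Pat.mk 0x40000000e0000000a0000000800000000 0x180000003c0000000e0000000f0000001c00000014 4 6) 0 0 (step_sound _ 131 [(rh712526e472efe489.shift 1 1), rhf4dd441fdbc45a43] (by decide +kernel))
noncomputable def rhbb0d784aa99aa5e4 : CRef := CRef.mk (Pat.mk 0xe0000000400000004 0x2000000730000003e0000007700000004 4 7) 0 0 (step_sound _ 68 [(rh35e918dd76851f8c.shift 1 1), (rhaf9f2efc81a8312b.shift 0 1), rhe4f9133a81c1dbc5] (by decide +kernel))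
noncomputable def rh08229572919ed52e : CRef := CRef.mk (Pat.mk 0x1e0000000c0000002800000000 0x30000001e0000000f0000003c00000004 4 6) 0 0 (step_sound _ 65 [(rh53b3c253cb0c65f4.shift 0 2), rh8a8222b955858aef] (by decide +kernel))
noncomputable def rhf67f57357ec3317d : CRef := CRef.mk (Pat.mk 0xf000000020000000a0000000000000000 0x180000000f0000001a0000000e0000000e00000004 4 5) 0 0 (step_sound _ 99 [rh4f70818695c9043c, (rhe25b0a99195a5d59.shift 0 3)] (by decide +kernel))
noncomputable def rhbc63e559eec6f467 : CRef := CRef.mk (Pat.mk 0x3c000000020000002000000000 0x300000003e000000630000002000000020 4 7) 0 0 (step_sound _ 69 [rha9f2a1a17f1b42c6, (rhe25b0a99195a5d59.shift 2 2)] (by decide +kernel))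
noncomputable def rhf1f2a6392a8362a4 : CRef := CRef.mk (Pat.mk 0x20000000f00000000 0x3e0000003f00000070 4 7) 0 0 (step_sound _ 36 [(rh60e95adc726bb530.shift 1 0), (rh9890f9d77740bbed.shift 0 1)] (by decide +kernel))
noncomputable def rha13f159c1cecf00c : CRef := CRef.mk (Pat.mk 0x100000007800000020 0xf70000007e00000030 4 8) 0 0 (step_sound _ 34 [(rh6765e7960b108c8d.shift 1 0), (rh9890f9d77740bbed.shift 2 1), rhd1d05263fabc0227] (by decide +kernel))
noncomputable def rh92d5ab4a6a8a1771 : CRef := CRef.mk (Pat.mk 0x10000000100000001e000000140000000000000000 0x8000000180000001b0000001e0000001c0000000c00000004 4 5) 0 0 (step_sound _ 163 [(rh50fbb5868c909700.shift 3 2), rh7dac2735e0e49c8c] (by decide +kernel))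
noncomputable def rhed8946dd5d7a7b19 : CRef := CRef.mk (Pat.mk 0x8000000080000000a000000000000000000000000 0x140000001c0000001c000000080000000f0000001c0000001c00000014 4 5) 0 0 (step_sound _ 67 [(rh3181373a30ceb9e3.shift 2 0), (rh7ef5fa5c39f1c762.shift 2 2), (rhc37884b8bcc4b237.shift 0 1)] (by decide +kernel))
noncomputable def rh87f4972a3180e15c : CRef := CRef.mk (Pat.mk 0x280000002c00000000 0x3c0000003f00000077 4 7) 0 0 (step_sound _ 33 [rh3194727a60434116, (rhddb24c61d0a0d35a.shift 0 1), (rhf4585caa3b13e38a.shift 0 1)] (by decide +kernel))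
noncomputable def rhaf2d12dfd42b9fb9 : CRef := CRef.mk (Pat.mk 0xc0000000c000000140000000000000000 0x8000000180000003c0000000f0000001c0000001800000008 4 6) 0 0 (step_sound _ 67 [(rh571950d89739e871.shift 2 1), rha31e2286f1ebea1b] (by decide +kernel))
noncomputable def rh82491f6ac67b6f7d : CRef := CRef.mk (Pat.mk 0x40000000700000014000000000000000000000000 0x4000000040000000f0000001c0000000c0000000800000008 4 5) 0 0 (step_sound _ 99 [(rh70e33bfdf511e144.shift 2 0), (rhd6e447e81774439e.shift 0 3)] (by decide +kernel))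
noncomputable def rhfadc0ca57ca74365 : CRef := CRef.mk (Pat.mk 0xe000000030000000a000000000000000000000000 0xa0000000f0000000f0000000e000000060000000600000004 4 4) 0 0 (step_sound _ 66 [(rh2f7ef8ef5c94975a.shift 1 0), (rh30b94543940a4883.shift 1 2), (rh475253e964ed1313.shift 1 0), (rhb80c62fee0ba198b.shift 0 1)] (by decide +kernel))
noncomputable def rh2b187936778c2bf6 : CRef := CRef.mk (Pat.mk 0x1000000018000000080000002000000000 0x700000007e0000007f0000002000000020 4 7) 0 0 (step_sound _ 101 [(rh81856f8078098c11.shift 1 0), (rhf0f55c4504412200.shift 0 2)] (by decide +kernel))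
noncomputable def rh3f73bb03721ec56a : CRef := CRef.mk (Pat.mk 0xe00000004000000040000000000000000 0x20000000f0000003c000000040000000400000004 4 6) 0 0 (step_sound _ 34 [(rh50fbb5868c909700.shift 1 1), rh9aef13a18dc2ca8c] (by decide +kernel))
noncomputable def rhbe25cb6733f0b895 : CRef := CRef.mk (Pat.mk 0x1c0000000c00000020 0x1e0000007f00000030 4 7) 0 0 (step_sound _ 33 [(rh29353add4831558c.shift 1 0), (rh53b3c253cb0c65f4.shift 0 1)] (by decide +kernel))
noncomputable def rhbd513dcaf5c07957 : CRef := CRef.mk (Pat.mk 0xe00000008000000080000000800000000 0x1f00000078000000080000001800000010 4 7) 0 0 (step_sound _ 4 [(rh8ee80cc30e93a344.shift 0 3), (rhd3458b32566d63f7.shift 3 0)] (by decide +kernel))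
noncomputable def rh227e37da968f4125 : CRef := CRef.mk (Pat.mk 0x38000000200000002000000020 0x470000007e0000003f0000002000000020 4 7) 0 0 (step_sound _ 98 [(rh03148200ae2fbb73.shift 1 0), (rhd1d05263fabc0227.shift 0 2), (rhdceeca65bdd8095a.shift 0 2)] (by decide +kernel))
noncomputable def rhd73c85aa99504cfc : CRef := CRef.mk (Pat.mk 0xe000000080000000800000008 0x100000003e0000007f0000000800000008 4 7) 0 0 (step_sound _ 100 [(rh2f68792b6b779e96.shift 3 0), (rh8db7f7558b75b2b1.shift 0 2)] (by decide +kernel))
noncomputable def rh208fdbcacc31badc : CRef := CRef.mk (Pat.mk 0x2000000020000000600000002000000000000000000000000 0x100000003000000070000000600000002000000060000000600000004 4 3) 0 0 (step_sound _ 65 [(rh301a6b3a9154ed36.shift 1 0), (rh3ca48e2a6d60153d.shift 0 2)] (by decide +kernel))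
noncomputable def rh58a4e8e2924ea19f : CRef := CRef.mk (Pat.mk 0xc000000080000000c0000000800000000 0x1f0000007c0000000f0000000800000008 4 7) 0 0 (step_sound _ 100 [(rh4ca5dae25f5c14ff.shift 0 3), (rhc705a4e0321a1bff.shift 2 0), rhdfab641a9aa1f3e0] (by decide +kernel))
noncomputable def rhb8737d6699a46077 : CRef := CRef.mk (Pat.mk 0x1c00000008 0x70000007f0000003e 4 7) 0 0 (step_sound _ 37 [rh882a3e8c7bd7762b, (rhaf9f2efc81a8312b.shift 1 0)] (by decide +kernel))
noncomputable def rh15c4a1b206be5926 : CRef := CRef.mk (Pat.mk 0xe000000020000000a00000000 0x4000000040000000c0000000f0000001e0000000f00000008 4 5) 0 0 (step_sound _ 67 [(rh1e2a9ad0a8094cd9.shift 0 1), (rhb1a251d9bff81766.shift 2 0)] (by decide +kernel))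
noncomputable def rhffc534c89a09560a : CRef := CRef.mk (Pat.mk 0x80000003c00000000 0x380000003f00000070 4 7) 0 0 (step_sound _ 5 [rh816fd429a35c92eb, (rhe25b0a99195a5d59.shift 2 0)] (by decide +kernel))
noncomputable def rh793b5a397f1a8908 : CRef := CRef.mk (Pat.mk 0x60000001e0000000200000000 0x3000000030000003e0000001e0000000600000004 4 6) 0 0 (step_sound _ 100 [(rh33e738c4ed385b9f.shift 1 2), rh8bdf8fb9c9df5586] (by decide +kernel))
noncomputable def rh837b431827c849c2 : CRef := CRef.mk (Pat.mk 0x40000001e0000000000000000 0x400000004000000070000001e0000000300000002 4 5) 0 0 (step_sound _ 33 [rh03f9d36a2d6e8f0b, (rheb0810cc63b001d8.shift 0 1)] (by decide +kernel))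
noncomputable def rh9b641bca51743e2c : CRef := CRef.mk (Pat.mk 0x80000000800000038000000000000000000000000 0x40000001c0000001f000000380000001f0000000c00000008 4 6) 0 0 (step_sound _ 67 [(rh15e98c38281f0714.shift 2 0), (rh852e818bc8629e77.shift 0 1), (rhc3198180e1bccfcd.shift 0 1)] (by decide +kernel))
noncomputable def rha0c90bcb61048ccf : CRef := CRef.mk (Pat.mk 0x40000001e0000000000000008 0x400000004000000040000001e0000000f0000000a 4 5) 0 0 (step_sound _ 33 [(rhcc2ab5798f39dc9c.shift 1 0), (rheb0810cc63b001d8.shift 0 1)] (by decide +kernel))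
noncomputable def rh9885d866cffc5cc9 : CRef := CRef.mk (Pat.mk 0x140000001e000000000000000800000000 0x400000004000000140000001e000000370000001e00000008 4 6) 0 0 (step_sound _ 66 [(rh8386696223e22001.shift 1 0), (rhb91b7df0d06c1d96.shift 0 1)] (by decide +kernel))
noncomputable def rha12e69977f4105a8 : CRef := CRef.mk (Pat.mk 0xc0000001c0000000000000000 0x10000000300000003f0000001f0000000800000008 4 6) 0 0 (step_sound _ 100 [(rhab2ad169e49f9c5e.shift 0 2), rhb00c6cda7b230383] (by decide +kernel))
noncomputable def rhe7343431bde9d496 : CRef := CRef.mk (Pat.mk 0xc000000040000001c0000000800000000 0x100000003c0000000f0000001e0000007800000010 4 7) 0 0 (step_sound _ 99 [(rhc1ae51bfba5f1e57.shift 1 0), (rhd88e1e5c6d7f696b.shift 0 1)] (by decide +kernel))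
noncomputable def rh2b16e1c8fae58c80 : CRef := CRef.mk (Pat.mk 0xc00000004000000180000000800000000 0x180000003c0000000f000000180000001800000010 4 6) 0 0 (step_sound _ 99 [(rhd4b4beefcd67f51e.shift 3 0), (rhd88e1e5c6d7f696b.shift 0 1)] (by decide +kernel))
noncomputable def rh9be4ae692e203044 : CRef := CRef.mk (Pat.mk 0x1800000008000000380000000000000000 0x140000001c0000000f0000003c0000000800000008 4 6) 0 0 (step_sound _ 35 [(rh2f68792b6b779e96.shift 3 1), rhe1eec89fc41fb4bf] (by decide +kernel))
noncomputable def rh921a7458a83a9f08 : CRef := CRef.mk (Pat.mk 0x1c000000080000000000000000 0x1000000010000000380000001f000000380000000800000008 4 6) 0 0 (step_sound _ 132 [(rh5dec5e73a267a1c4.shift 0 2), (rhf91b1398c815afd2.shift 3 0), (rhf9366b6a121593ef.shift 3 0)] (by decide +kernel))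
noncomputable def rhe4b8572e14fc0085 : CRef := CRef.mk (Pat.mk 0x4000000020000000e0000000400000000 0xc0000000c0000000c000000060000000f0000003c00000008 4 6) 0 0 (step_sound _ 98 [(rh5fa50b509d4ce753.shift 1 1), rhc1ae51bfba5f1e57, (rhd4b4beefcd67f51e.shift 2 0)] (by decide +kernel))
noncomputable def rh93b6e817dc28eb9c : CRef := CRef.mk (Pat.mk 0xc000000040000001c0000000800000000 0x20000000f0000003c0000001e0000007c00000014 4 7) 0 0 (step_sound _ 99 [rh8f1158d9f5036793, (rhc1ae51bfba5f1e57.shift 1 0)] (by decide +kernel))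
noncomputable def rh3415fc823c2766e9 : CRef := CRef.mk (Pat.mk 0xc000000040000001c00000008 0x180000001e000000340000001f0000003c 4 6) 0 0 (step_sound _ 68 [rh5dec5e73a267a1c4, (rhb79379473a059d2f.shift 2 0), (rhe1ac6c6673454dff.shift 1 0)] (by decide +kernel))
noncomputable def rh888a2a34c811abd8 : CRef := CRef.mk (Pat.mk 0x40000000700000006000000000000000000000000 0x80000003c0000000f000000060000000e0000000e0000000e 4 6) 0 0 (step_sound _ 66 [(rh684e729394fba19d.shift 0 2), (rh820d4e04d5dcd02e.shift 1 0), (rhbdf73b26f73f8159.shift 1 0)] (by decide +kernel))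
noncomputable def rh091df6876141f1f8 : CRef := CRef.mk (Pat.mk 0x20000000a0000000f000000000000000000000000 0x20000000a0000000a0000000f0000001c0000000400000004 4 5) 0 0 (step_sound _ 66 [(rh2145e1d24b96a57e.shift 1 2), rhd2eac245befb8aa7] (by decide +kernel))
noncomputable def rh1ee30aafa743543b : CRef := CRef.mk (Pat.mk 0x4000000140000001e000000000000000000000000 0x180000003c000000170000001e0000003c0000000800000008 4 6) 0 0 (step_sound _ 164 [(rh85b890f6261e456d.shift 0 2), (rha56f4c4626a53b18.shift 2 0)] (by decide +kernel))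
noncomputable def rha4a8f3f215245e97 : CRef := CRef.mk (Pat.mk 0x4000000040000001e00000000 0xa0000000e0000000e0000000e000000070000001e00000004 4 5) 0 0 (step_sound _ 130 [(rh6d2125986d3f5221.shift 1 0), (rh7ef5fa5c39f1c762.shift 1 1), (rhb4edb45e9f1718ed.shift 0 1)] (by decide +kernel))
noncomputable def rh3516c82b498a8709 : CRef := CRef.mk (Pat.mk 0x8000000140000001e0000000000000000 0x40000000c0000001c0000001e0000003700000016 4 6) 0 0 (step_sound _ 34 [(rh42f67dc925237e79.shift 1 0), rhb91b7df0d06c1d96] (by decide +kernel))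
noncomputable def rh89aea9ddcc5b5994 : CRef := CRef.mk (Pat.mk 0x8000000040000001e0000000000000000 0xc0000000c000000040000001e0000000700000002 4 5) 0 0 (step_sound _ 33 [(rh63a681ea10fe4d21.shift 1 0), (rheb0810cc63b001d8.shift 0 1)] (by decide +kernel))
noncomputable def rh4da7855f263d9465 : CRef := CRef.mk (Pat.mk 0x8000000100000001e0000000000000000 0x800000008000000180000001e0000003300000010 4 6) 0 0 (step_sound _ 32 [(rh0223a742aabcbe1b.shift 1 0), (rh80fcd6d0a18cb2dd.shift 0 1)] (by decide +kernel))
noncomputable def rh7879c92a2811ac39 : CRef := CRef.mk (Pat.mk 0x40000000c0000000c0000000800000000 0x180000001a0000001f0000003c0000000c0000000c00000004 4 6) 0 0 (step_sound _ 131 [(rh5fa50b509d4ce753.shift 2 1), rh8f1158d9f5036793, (rhea7a1800d6f053bd.shift 2 0)] (by decide +kernel))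
noncomputable def rh5c26c7a5e693cd68 : CRef := CRef.mk (Pat.mk 0x380000001a0000000000000000 0x2000000020000000700000003f0000001b0000001000000010 4 7) 0 0 (step_sound _ 133 [(rhec5da64b6932079e.shift 0 2), (rhf9366b6a121593ef.shift 4 0)] (by decide +kernel))
noncomputable def rh01bc9cef551ef5e3 : CRef := CRef.mk (Pat.mk 0x40000000c0000000c0000000400000000 0x180000003c0000000f0000000c0000000c00000008 4 6) 0 0 (step_sound _ 131 [(rh2f68792b6b779e96.shift 2 1), rha31e2286f1ebea1b] (by decide +kernel))
noncomputable def rh70b61b4b81fcb989 : CRef := CRef.mk (Pat.mk 0x80000003800000018000000000000000000000000 0x40000000f0000003c000000180000001c0000001c00000014 4 6) 0 0 (step_sound _ 67 [(rh29245de5933fbe8d.shift 1 1), (rh2a727753f60a0586.shift 2 0), (rh53509d91ff78ed56.shift 0 2)] (by decide +kernel))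
noncomputable def rh0ebda655df2726a7 : CRef := CRef.mk (Pat.mk 0x10000000180000001c00000000 0x20000000300000001f0000001f00000030 4 6) 0 0 (step_sound _ 65 [(rh5c36e97be8af272f.shift 0 1), (rh7dcc577706dd2abd.shift 0 1), rh9de53160888298b5] (by decide +kernel))
noncomputable def rh38bc03afb230705f : CRef := CRef.mk (Pat.mk 0x800000018000000080000000000000000 0x140000001f0000007c000000080000000800000008 4 7) 0 0 (step_sound _ 130 [(rh668fc65514a55b16.shift 2 0), (rhdeca8db941583de2.shift 0 3), (rhfa2242deaca05a59.shift 2 0)] (by decide +kernel))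
noncomputable def rh93461d238e4ece25 : CRef := CRef.mk (Pat.mk 0x800000000000000180000001c 0x1c0000001c000000370000007f0000001c 4 7) 0 0 (step_sound _ 34 [rh6656f69a80793b12, rhee6a2840b930d427, (rhf8c4e45f393a51a6.shift 1 0)] (by decide +kernel))
noncomputable def rhf11d8e683411600d : CRef := CRef.mk (Pat.mk 0xc000000040000001c0000000800000000 0x100000003c0000000f0000001c0000000f00000006 4 6) 0 0 (step_sound _ 99 [rh5eb33fb39f0ce454, (rhd88e1e5c6d7f696b.shift 0 1)] (by decide +kernel))
noncomputable def rh2a6d13f47ca0e172 : CRef := CRef.mk (Pat.mk 0x160000000e0000000000000000 0x2000000030000001e0000000f0000000400000004 4 5) 0 0 (step_sound _ 99 [rh38a0850c9fea941e, (rh53b3c253cb0c65f4.shift 0 2)] (by decide +kernel))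
noncomputable def rh75d87bc861391a75 : CRef := CRef.mk (Pat.mk 0x100000005a0000001000000000 0x1000000010000000100000007b0000001f00000008 4 7) 0 0 (step_sound _ 35 [(rh4993a143108122af.shift 0 1), (rh503dd4575245365b.shift 3 0)] (by decide +kernel))
noncomputable def rhe5e5d1f80113d76d : CRef := CRef.mk (Pat.mk 0x4000000040000001c00000008000000000000000000000000 0x2000000060000000e0000001c0000000f000000060000000400000004 4 5) 0 0 (step_sound _ 98 [(rh7ffbcda9e2e33190.shift 1 0), (rhf5094ad2a427d4d3.shift 0 2)] (by decide +kernel))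
noncomputable def rh399f08c9bc23cb37 : CRef := CRef.mk (Pat.mk 0x20000000f000000040000000000000000 0x8000000080000001e0000000f000000040000000400000004 4 5) 0 0 (step_sound _ 34 [(rh49606a42a30c7ac4.shift 0 1), (rh7b1f1fb55310c477.shift 1 0)] (by decide +kernel))
noncomputable def rhb88304c6419db95d : CRef := CRef.mk (Pat.mk 0x1e000000160000000000000000 0x4000000070000001e0000001e0000000300000003 4 5) 0 0 (step_sound _ 129 [(rh3244c3cc8379b070.shift 0 3), rhae6f90adfd4baf40] (by decide +kernel))
noncomputable def rh8be583836c259601 : CRef := CRef.mk (Pat.mk 0x40000001e0000000200000000 0x400000004000000070000001e0000003200000002 4 6) 0 0 (step_sound _ 36 [rh03f9d36a2d6e8f0b, (rhe25b0a99195a5d59.shift 1 1)] (by decide +kernel))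
noncomputable def rhc06605bb69974d8b : CRef := CRef.mk (Pat.mk 0x1e000000160000000000000000 0x14000000340000001e0000001e0000000b0000000a 4 6) 0 0 (step_sound _ 67 [rh031a926e4a883687, (rh34b1188e635efc8d.shift 1 0)] (by decide +kernel))
noncomputable def rhf062bb2913a19061 : CRef := CRef.mk (Pat.mk 0x4000000070000000600000000 0xc0000000c0000003c0000000f0000000600000004 4 6) 0 0 (step_sound _ 130 [(rh5c5e593799055d58.shift 1 1), rhd45977ee1dd9c7e0] (by decide +kernel))
noncomputable def rh175823e8ffa28ef6 : CRef := CRef.mk (Pat.mk 0xf0000000e000000000000000000000000 0x1c0000000f0000000f000000180000001800000008 4 5) 0 0 (step_sound _ 163 [(rh33e738c4ed385b9f.shift 0 4), rh3a6c1689b3bee428] (by decide +kernel))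
noncomputable def rh331b1cb9a3361256 : CRef := CRef.mk (Pat.mk 0x1c000000380000000000000000 0x8000000080000001c0000003f0000007700000004 4 7) 0 0 (step_sound _ 66 [(rh031a926e4a883687.shift 1 0), (rh0e1512cbacfbd48b.shift 0 1), (rhf56dc6c929980f59.shift 0 1)] (by decide +kernel))
noncomputable def rhdfcbbde5737bc663 : CRef := CRef.mk (Pat.mk 0x7000000060000000400000000 0xe0000001e00000007000000060000000600000002 4 5) 0 0 (step_sound _ 129 [(rh2145e1d24b96a57e.shift 1 1), rh3af7ef3ed8beda46] (by decide +kernel))
noncomputable def rh95c2f31b4be46fb5 : CRef := CRef.mk (Pat.mk 0x700000007000000040000000000000000 0x40000000500000007000000070000001e0000000a00000002 4 5) 0 0 (step_sound _ 65 [(rh121397a93ef3afd3.shift 0 1), rh40241bd608e5be1a, (rhea7a1800d6f053bd.shift 1 0)] (by decide +kernel))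
noncomputable def rh9e60b1f52c41a951 : CRef := CRef.mk (Pat.mk 0x6000000070000000400000000 0x6000000060000000600000006000000070000001e0000000a 4 5) 0 0 (step_sound _ 130 [(rh1e309b005ffa1b36.shift 1 0), rh628a1c8740784101, (rh7f9f3607ee25a93b.shift 1 1)] (by decide +kernel))
noncomputable def rh93fbfccfde7bb6a1 : CRef := CRef.mk (Pat.mk 0x7c00000000 0x38000000ff00000007 4 8) 0 0 (step_sound _ 33 [(rhe42f2966bf381171.shift 0 1), rheae1728ff4a56756] (by decide +kernel))
noncomputable def rhc6190ff18ecd0b22 : CRef := CRef.mk (Pat.mk 0x800000018000000380000000000000000 0x80000001f0000003f0000000700000004 4 6) 0 0 (step_sound _ 66 [(rh0e1512cbacfbd48b.shift 0 1), (rh772d63fac3283b59.shift 1 0), (rhcda410b351c20b9b.shift 0 2)] (by decide +kernel))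
noncomputable def rh3489f93fb9a720e2 : CRef := CRef.mk (Pat.mk 0x300000007000000020000000000000000 0x600000006000000060000000300000007000000060000000600000006 4 3) 0 0 (step_sound _ 161 [(rh5fa50b509d4ce753.shift 0 2), rh820d4e04d5dcd02e, (rhd4b4beefcd67f51e.shift 1 1)] (by decide +kernel))
noncomputable def rh91be479c082328ad : CRef := CRef.mk (Pat.mk 0x40000000e000000080000000000000000 0x40000000f0000007c0000000800000008 4 7) 0 0 (step_sound _ 3 [(rh9e07f76261b05888.shift 2 0), (rhc21a95c499b3efdb.shift 0 2)] (by decide +kernel))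
noncomputable def rhcbeebad83e4d5f44 : CRef := CRef.mk (Pat.mk 0xe00000008000000080000000800000000 0xf0000007c000000080000000c00000004 4 7) 0 0 (step_sound _ 2 [(rh79877ebd3ef475dd.shift 2 0), (rhc21a95c499b3efdb.shift 0 3)] (by decide +kernel))
noncomputable def rh508e6f743bdfa2cb : CRef := CRef.mk (Pat.mk 0x400000007000000040000000400000000 0x80000003e00000007000000040000000600000002 4 6) 0 0 (step_sound _ 1 [(rh1eeec04e73117746.shift 0 1), (rh79877ebd3ef475dd.shift 1 0)] (by decide +kernel))
noncomputable def rh8eaf575faa66081e : CRef := CRef.mk (Pat.mk 0x80000002c00000020 0x380000003f00000070 4 7) 0 0 (step_sound _ 36 [rh816fd429a35c92eb, (rhe25b0a99195a5d59.shift 2 0)] (by decide +kernel))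
noncomputable def rhe90633f6d3662e51 : CRef := CRef.mk (Pat.mk 0xc0000001e0000000000000000 0x10000000300000003f0000001e0000000800000008 4 6) 0 0 (step_sound _ 100 [rh1375d65e18b64d08, (rh33e738c4ed385b9f.shift 1 2)] (by decide +kernel))
noncomputable def rh1e10d91c42e53cfa : CRef := CRef.mk (Pat.mk 0xc0000001c000000100000001000000000 0x300000007f0000001c000000f80000003000000020 4 8) 0 0 (step_sound _ 132 [(rh712526e472efe489.shift 2 1), rhcb834dc62fd737be, (rhf2d737ced64179df.shift 2 0)] (by decide +kernel))
noncomputable def rh4c201041df0cef0c : CRef := CRef.mk (Pat.mk 0x80000000c0000001c0000001000000000 0x30000000780000003c0000001f0000001800000008 4 7) 0 0 (step_sound _ 100 [(rh3af7ef3ed8beda46.shift 2 0), (rhab2ad169e49f9c5e.shift 0 2)] (by decide +kernel))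
noncomputable def rhb9d8b79006d9f52c : CRef := CRef.mk (Pat.mk 0xc0000001800000008000000000000000000000000 0x80000000c0000007c0000001f000000040000000400000004 4 7) 0 0 (step_sound _ 98 [(rhea5ad313ff444aaf.shift 0 3), (rhfafeb437ceb8396d.shift 2 0)] (by decide +kernel))
noncomputable def rhf907260d058c5e1b : CRef := CRef.mk (Pat.mk 0x1800000018000000080000000000000000 0x180000001800000018000000380000003f0000003400000030 4 6) 0 0 (step_sound _ 68 [(rh3cb04db3dd2b6a55.shift 3 0), (rhccf62475221aa9b5.shift 3 0), (rhfba219b2ab1310a3.shift 0 1)] (by decide +kernel))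
noncomputable def rhca410d64b407743f : CRef := CRef.mk (Pat.mk 0x10000000040000001c00000018000000000000000000000000 0x18000000180000000c0000001c0000007c0000000f0000000c00000004 4 7) 0 0 (step_sound _ 66 [(rh6880cb2eb3cf89a2.shift 1 0), (rhc4fadbef089a67df.shift 2 1), (rhf7ec97daacf7754f.shift 0 1)] (by decide +kernel))
noncomputable def rh103f1406227ce269 : CRef := CRef.mk (Pat.mk 0x1c00000018000000000000000800000000 0x1c0000007f000000760000001c0000001c 4 7) 0 0 (step_sound _ 98 [(rhca381fd96aedcb47.shift 1 0), rhdb3212ed6dfd725f, (rhe3e8c074aa83e8bd.shift 0 2)] (by decide +kernel))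
noncomputable def rh65341fef81d91180 : CRef := CRef.mk (Pat.mk 0x20000000b0000000a0000000200000000 0xc0000001e0000000b0000001e0000000600000004 4 5) 0 0 (step_sound _ 34 [(rh55afc6a59410cf00.shift 1 0), (rhb5c43fad0d96c5e7.shift 0 1)] (by decide +kernel))
noncomputable def rh0aa44aad476d735a : CRef := CRef.mk (Pat.mk 0x60000000b0000000a00000000 0x4000000040000000c0000001e0000000b0000000a00000002 4 5) 0 0 (step_sound _ 99 [(rh18965a982d73c794.shift 0 2), (rh99b216bb884ddd3c.shift 1 0)] (by decide +kernel))
noncomputable def rh8c70dc5509820a10 : CRef := CRef.mk (Pat.mk 0x10000000200000002000000020000000000000000 0x1000000030000000300000002000000030000000300000001 4 2) 0 0 (step_sound _ 33 [rhc4307a5759f1ed24, (rhffd04209dc8ea796.shift 0 1)] (by decide +kernel))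
noncomputable def rh527e662973d8b350 : CRef := CRef.mk (Pat.mk 0x60000000a00000008000000080000000800000000 0x140000001e0000000b00000008000000080000000c00000004 4 5) 0 0 (step_sound _ 2 [(rh79877ebd3ef475dd.shift 2 0), (rhffa5170e738fb874.shift 0 2)] (by decide +kernel))
noncomputable def rhb4f8bf7e63201259 : CRef := CRef.mk (Pat.mk 0x400000014000000100000001000000018 0x1400000014000000340000001f00000018 4 6) 0 0 (step_sound _ 35 [(rh5c5e593799055d58.shift 3 0), rhf666b85c746523c7] (by decide +kernel))
noncomputable def rha95bbb0c9ff57d68 : CRef := CRef.mk (Pat.mk 0x100000001c00000018000000000000000000000000 0x180000001f0000001f000000300000003000000010 4 6) 0 0 (step_sound _ 68 [(rh39848790f9efd77c.shift 0 1), (rh3cb04db3dd2b6a55.shift 3 0)] (by decide +kernel))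
noncomputable def rh3669ebdfc68555d7 : CRef := CRef.mk (Pat.mk 0x140000001c00000018 0x30000000300000001f0000001f00000018 4 6) 0 0 (step_sound _ 100 [rh43697c023c389664, (rh5c5e593799055d58.shift 3 0)] (by decide +kernel))
noncomputable def rhb203c584cd71f63f : CRef := CRef.mk (Pat.mk 0x40000000700000006000000000000000000000000 0x80000003e0000000700000006000000060000000600000006 4 6) 0 0 (step_sound _ 66 [(rh1eeec04e73117746.shift 0 2), (rh3cb04db3dd2b6a55.shift 1 0), (rhbdf73b26f73f8159.shift 1 0)] (by decide +kernel))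
noncomputable def rh115ea3d189f4702a : CRef := CRef.mk (Pat.mk 0x28000000280000002000000000 0x1000000010000000300000007c0000002f0000002000000020 4 7) 0 0 (step_sound _ 100 [(rh2820ca9a6c4f41b4.shift 0 2), (rhb1a251d9bff81766.shift 4 0)] (by decide +kernel))
noncomputable def rh75a1e88a833e1685 : CRef := CRef.mk (Pat.mk 0x1000000050000000e00000004000000000000000000000000 0x5000000070000000e0000000e000000060000000600000006 4 4) 0 0 (step_sound _ 66 [(rh091d9d8e8cc09897.shift 1 0), (rh24b4f41f846cb1d8.shift 1 0), (rh4514ead16d6f2716.shift 0 1), (rh5b49bae9be9e59a0.shift 1 0)] (by decide +kernel))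
noncomputable def rhd34a6eb282e98bd2 : CRef := CRef.mk (Pat.mk 0x100000001400000018000000100000000000000000 0x300000001f00000018000000180000001800000018 4 6) 0 0 (step_sound _ 35 [rh21971c4afa9b7061, (rh79877ebd3ef475dd.shift 3 1)] (by decide +kernel))
noncomputable def rh1a04b1fa7724b64e : CRef := CRef.mk (Pat.mk 0x10000000140000001800000010 0x80000003800000038000000300000001f0000001800000010 4 6) 0 0 (step_sound _ 132 [(rh44f453b84f013105.shift 4 0), (rha54302d5ccf5246c.shift 3 1), (rhe989621af1e4961c.shift 0 1)] (by decide +kernel))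
noncomputable def rhb96ef25e83be435d : CRef := CRef.mk (Pat.mk 0x2800000030 0x3f0000007c 4 7) 0 0 (step_sound _ 34 [(rh52f53d3a55b22c68.shift 1 0), rh95f73988d2dec2c0, (rhe2971afac17a6ffc.shift 2 0), rhe753c2bd6bb4eeba] (by decide +kernel))
noncomputable def rhf7027161c1c7954a : CRef := CRef.mk (Pat.mk 0x180000000a0000000800000008000000000000000000000000 0x180000000f0000000c000000180000001c0000001c00000004 4 5) 0 0 (step_sound _ 67 [rh8b26ba587722bde0, (rhd29a1fb688eae70f.shift 3 1)] (by decide +kernel))
noncomputable def rha4bd49d8b7e1702a : CRef := CRef.mk (Pat.mk 0x200000002000000080000000c00000004 0x2000000020000007a0000001f00000004 4 7) 0 0 (step_sound _ 33 [(rha11dfd15f08f96e3.shift 0 1), (rhff0f29cb645b05f7.shift 1 0)] (by decide +kernel))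
noncomputable def rhc045c1e42a76a7c6 : CRef := CRef.mk (Pat.mk 0xa000000080000001c0000000000000000 0xe0000007e0000007f0000003000000010 4 7) 0 0 (step_sound _ 100 [rh1357d49ef66cf2d8, (rh7f49c44d21e82823.shift 1 2), (rhab2ad169e49f9c5e.shift 0 2)] (by decide +kernel))
noncomputable def rh4b3f85ed8d66887b : CRef := CRef.mk (Pat.mk 0x80000000a0000000c000000080000000000000000 0x10000000180000000f0000000c000000180000001800000018 4 5) 0 0 (step_sound _ 164 [(rh2f68792b6b779e96.shift 3 2), rhaaab518ac83b7b78] (by decide +kernel))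
noncomputable def rhce2140fb7da3b118 : CRef := CRef.mk (Pat.mk 0x80000000a0000000c00000008 0x800000018000000180000000f0000000c0000000c 4 5) 0 0 (step_sound _ 100 [(rh2f68792b6b779e96.shift 3 0), rh57a29bc1e456e7e5] (by decide +kernel))
noncomputable def rh14ac106cb212c324 : CRef := CRef.mk (Pat.mk 0x200000002000000030000000200000000 0x4000000060000000600000002000000030000000700000004 4 3) 0 0 (step_sound _ 2 [(rh769be3fe24eee174.shift 0 1), (rhd3458b32566d63f7.shift 1 0)] (by decide +kernel))
noncomputable def rh073bf8773d58b6e3 : CRef := CRef.mk (Pat.mk 0x80000000c00000008000000000000000000000000 0x8000000080000001f00000078000000180000001000000010 4 7) 0 0 (step_sound _ 100 [(rh4ca5dae25f5c14ff.shift 0 3), (rh70e33bfdf511e144.shift 3 0)] (by decide +kernel))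
noncomputable def rh92ee8205f071478b : CRef := CRef.mk (Pat.mk 0xa0000000800000008000000080000000400000000 0x8000000080000000f0000007c00000018000000180000000c0000000c 4 7) 0 0 (step_sound _ 132 [rh08e6d656a7b7fc75, (rh0a33887607d4a541.shift 2 0), (rh174a767562f03570.shift 0 4)] (by decide +kernel))
noncomputable def rh9f9e09fb0992b909 : CRef := CRef.mk (Pat.mk 0xa000000080000000800000008000000080000000000000000 0xf0000001c0000001800000008000000180000001800000010 4 5) 0 0 (step_sound _ 194 [rh270c36d11d470aa6, (rhffd04209dc8ea796.shift 2 2)] (by decide +kernel))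
noncomputable def rh8b10b64a49c6aa45 : CRef := CRef.mk (Pat.mk 0x20000000a0000000c000000080000000000000000 0x20000000f0000003c0000000c0000000c0000000c 4 6) 0 0 (step_sound _ 130 [(rh6292bd8784ece55f.shift 0 3), (rhf2c54251c789958e.shift 1 0)] (by decide +kernel))
noncomputable def rhae1196315518c795 : CRef := CRef.mk (Pat.mk 0x2000000020000000c0000000800000004 0x2000000060000000f0000003e00000004 4 6) 0 0 (step_sound _ 34 [rha5e7809694056244, (rhcfdf45280693d3da.shift 1 0)] (by decide +kernel))
noncomputable def rha909b79ec44bacac : CRef := CRef.mk (Pat.mk 0x10000000500000007000000040000000000000000 0x30000000700000007000000070000000600000006 4 3) 0 0 (step_sound _ 33 [(rh5ddbeed5d869bf16.shift 1 0), (rh752c9303f297f9fa.shift 1 0), (rhc140869848ea0f2e.shift 0 1)] (by decide +kernel))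
noncomputable def rh4be1e65b10f03f09 : CRef := CRef.mk (Pat.mk 0x80000002800000028000000180000000000000000 0x1000000018000000380000003f0000007c0000006000000040 4 7) 0 0 (step_sound _ 69 [(rh2191f4291a5eebdf.shift 2 0), (rha9fbfd4bb8cf890b.shift 0 2), (rhf60aa8aede119d3b.shift 0 2)] (by decide +kernel))
noncomputable def rh54ca6fb0de0de542 : CRef := CRef.mk (Pat.mk 0x2800000018 0x1ff0000007c 4 9) 0 0 (step_sound _ 5 [(rhd117684c4a851b90.shift 1 0), rhf60aa8aede119d3b, (rhff7d63dcb3cf9f74.shift 2 0)] (by decide +kernel))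
noncomputable def rh497ee864c46894ca : CRef := CRef.mk (Pat.mk 0x20000000a00000006 0x30000003f0000001f 4 6) 0 0 (step_sound _ 36 [rh0ea7de2da709317e, rh3ec8ec076f6e0db2, rh51ff335405c97b2c] (by decide +kernel))
noncomputable def rhf07da11de36d80e8 : CRef := CRef.mk (Pat.mk 0x800000028000000280000001800000000 0x140000001f0000003c000000680000003c00000020 4 7) 0 0 (step_sound _ 100 [(rh79905f95cb2d899a.shift 0 1), (rhbd4093d9fad722c6.shift 2 0), (rhfcc4a6c884cab942.shift 1 1)] (by decide +kernel))
noncomputable def rhbf8ebb4f1cfff5e1 : CRef := CRef.mk (Pat.mk 0x100000001800000050 0x380000003f00000078 4 7) 0 0 (step_sound _ 34 [rh055db6938db19010, (rh47688a8720dc0294.shift 1 0), (rhba65360472489f45.shift 1 0), (rhe28dc3223a412fc9.shift 2 0)] (by decide +kernel))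
noncomputable def rh47dc2e24e211fb26 : CRef := CRef.mk (Pat.mk 0xe00000008000000080000000800000000 0x10000000180000001f0000000c000000080000000800000008 4 5) 0 0 (step_sound _ 3 [(rh44f2ec19b3452892.shift 0 1), (rhffd04209dc8ea796.shift 2 0)] (by decide +kernel))
noncomputable def rhf4fdf4e800cb92a4 : CRef := CRef.mk (Pat.mk 0x10000000500000004000000040000000600000000 0x30000000700000006000000070000003e00000008 4 6) 0 0 (step_sound _ 35 [(rh55afc6a59410cf00.shift 2 0), (rh8b95101674dac0c7.shift 0 1)] (by decide +kernel))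
noncomputable def rhd9105149f258996b : CRef := CRef.mk (Pat.mk 0x2000000028000000280000002000000000 0x200000007c0000002f0000007800000050 4 7) 0 0 (step_sound _ 66 [(rh0c3873a75f5344d2.shift 2 0), (rhe33d9496e10d8eb0.shift 0 2)] (by decide +kernel))
noncomputable def rhb5e73f3f6702733d : CRef := CRef.mk (Pat.mk 0xa0000000a000000080000000000000000 0x1c0000001e0000000b0000001c0000001c00000014 4 5) 0 0 (step_sound _ 35 [(rh9258736a7488cc35.shift 0 1), (rhabedd109a9a37101.shift 2 0)] (by decide +kernel))
noncomputable def rh0de3dacc58fdf64b : CRef := CRef.mk (Pat.mk 0xc0000000c000000180000000000000000 0xc0000000c0000007c0000000f0000000c 4 7) 0 0 (step_sound _ 34 [(rh099c45842d56bde1.shift 1 0), (rh5ddbeed5d869bf16.shift 2 0), (rhe437f081bfcdb831.shift 2 0), rhf7ec97daacf7754f] (by decide +kernel))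
noncomputable def rhdaf93fbcfcfb667c : CRef := CRef.mk (Pat.mk 0xc0000001800000018 0x18000000780000001f0000001800000018 4 7) 0 0 (step_sound _ 100 [rh11f3cdd66478f4ff, rh31b3787326fc3a2c, (rh82bd946b1709a78e.shift 3 0)] (by decide +kernel))
noncomputable def rhe1aabfc40b1ccf6f : CRef := CRef.mk (Pat.mk 0x8000000000000000c0000001c 0x1c0000001c000000370000007f0000001c 4 7) 0 0 (step_sound _ 36 [rh6656f69a80793b12, rhee6a2840b930d427, (rhf8c4e45f393a51a6.shift 1 0)] (by decide +kernel))
noncomputable def rhe685d5d4032bf403 : CRef := CRef.mk (Pat.mk 0x70000000e000000000000000000000000 0x7000000070000000f0000003e0000000e0000000e 4 6) 0 0 (step_sound _ 66 [(rh3cb04db3dd2b6a55.shift 1 0), rh86bd88d8b6da2a4f, rha0f16c71b89af744] (by decide +kernel))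
noncomputable def rh264680c962c2421e : CRef := CRef.mk (Pat.mk 0xc0000001c000000000000000000000000 0x40000000e0000007c0000001f000000380000001800000010 4 7) 0 0 (step_sound _ 132 [(rh073589708c2d81a3.shift 1 1), (rhab2ad169e49f9c5e.shift 0 3), rhcb68da4f2dc5e7fd] (by decide +kernel))
noncomputable def rhf3d524016c898cc9 : CRef := CRef.mk (Pat.mk 0x80000000800000038000000000000000000000000 0x18000000180000003c0000001f0000001c00000018 4 6) 0 0 (step_sound _ 67 [(rh17ebc3e771625541.shift 3 0), (rh322e79f034282812.shift 0 1), (rh852e818bc8629e77.shift 0 1)] (by decide +kernel))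
noncomputable def rh052dbe641fc254b3 : CRef := CRef.mk (Pat.mk 0x1e0000000200000002000000000000000000000000 0x30000001e0000000600000007000000070000000500000004 4 5) 0 0 (step_sound _ 66 [(rh475253e964ed1313.shift 1 0), (rh54e2670cb103b129.shift 0 2), (rhef303a13da0f801f.shift 0 1)] (by decide +kernel))
noncomputable def rha435884696a2a3a8 : CRef := CRef.mk (Pat.mk 0xf000000010000000100000000 0x200000002000000020000000f0000001b0000000100000001 4 5) 0 0 (step_sound _ 67 [rhb730ba14aa32bdb3, (rhe25b0a99195a5d59.shift 0 2)] (by decide +kernel))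
noncomputable def rh2d2b6cf7597351df : CRef := CRef.mk (Pat.mk 0x20000000200000002000000000000000000000000 0x100000003000000030000000200000007000000070000000700000005 4 3) 0 0 (step_sound _ 65 [(rh0fd870c734e6c513.shift 0 1), (rh29dd5384d80ecb1e.shift 0 1), rh3181373a30ceb9e3] (by decide +kernel))
noncomputable def rh64bfff8be57cc847 : CRef := CRef.mk (Pat.mk 0x20000000300000002000000000000000000000000 0x2000000030000000300000007000000070000000700000006 4 3) 0 0 (step_sound _ 65 [rh5c651669912fbab1, rha3cfb45ff5311583, (rhabedd109a9a37101.shift 0 1)] (by decide +kernel))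
noncomputable def rhb93bb0fdbd9b8f41 : CRef := CRef.mk (Pat.mk 0x80000000c00000008000000000000000000000000 0x8000000080000000f0000007c000000180000001000000010 4 7) 0 0 (step_sound _ 100 [(rh70e33bfdf511e144.shift 3 0), (rhdeca8db941583de2.shift 0 3)] (by decide +kernel))
noncomputable def rh042d685b1079bd65 : CRef := CRef.mk (Pat.mk 0x80000002800000028000000000000000000000000 0x8000000080000002f0000007c0000001e0000001400000010 4 7) 0 0 (step_sound _ 100 [(rh2b0ca75d642a5639.shift 1 1), (rha768b229dc254047.shift 3 0), (rha9fbfd4bb8cf890b.shift 0 3)] (by decide +kernel))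
noncomputable def rh0bd8fe210e7da469 : CRef := CRef.mk (Pat.mk 0x14000000140000000c00000000 0x1400000014000000360000003e00000063 4 7) 0 0 (step_sound _ 36 [(rh299a18a9bb09cab4.shift 1 0), rh681d9f8e79458a8b] (by decide +kernel))
noncomputable def rhbdefc6cc0ff53bfb : CRef := CRef.mk (Pat.mk 0x14000000140000000c000000000000000000000000 0x1000000014000000370000003e0000000c0000000800000008 4 6) 0 0 (step_sound _ 100 [(rha56f4c4626a53b18.shift 2 0), (rhd117684c4a851b90.shift 0 3)] (by decide +kernel))
noncomputable def rhf4591ffc51cfe371 : CRef := CRef.mk (Pat.mk 0x20000000b0000000e0000000000000000 0xd0000001f0000000b0000000e0000000600000006 4 5) 0 0 (step_sound _ 33 [rh2d1952ceae187b71, rhe286c75f2739cce2] (by decide +kernel))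
noncomputable def rh4706b3aeb3a48197 : CRef := CRef.mk (Pat.mk 0x180000005c00000000 0x1c0000007f00000007 4 7) 0 0 (step_sound _ 33 [(rh53b3c253cb0c65f4.shift 0 1), rh57c9d2207753100a] (by decide +kernel))
noncomputable def rh2cd297232b3b4952 : CRef := CRef.mk (Pat.mk 0xa0000000e00000006000000000000000000000000 0xe0000003e0000003e000000070000000700000006 4 6) 0 0 (step_sound _ 65 [(rh1944aabe75e9b237.shift 1 0), (rhe15164ba884db0cb.shift 0 1), (rhea7a1800d6f053bd.shift 1 0)] (by decide +kernel))
noncomputable def rh2d923dc862338fb7 : CRef := CRef.mk (Pat.mk 0xa0000000e00000006000000000000000000000000 0xe0000000e0000003f0000003b0000001b0000000a 4 6) 0 0 (step_sound _ 99 [(rh0125efc36fb9411b.shift 0 1), rh3a6c1689b3bee428, rhb24a71b8e8f17f47] (by decide +kernel))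
noncomputable def rh9346b80c5304bbe4 : CRef := CRef.mk (Pat.mk 0x20000000e00000006000000000000000000000000 0x60000003e0000003e000000030000000300000002 4 6) 0 0 (step_sound _ 65 [(rhe15164ba884db0cb.shift 0 1), (rhea7a1800d6f053bd.shift 1 0)] (by decide +kernel))
noncomputable def rh7973d3cbe08cc545 : CRef := CRef.mk (Pat.mk 0x4000000140000001c0000000800000000 0x40000001c0000003f0000001f00000002 4 6) 0 0 (step_sound _ 33 [(rh076be03eb7063320.shift 0 1), (rh54d1d3f05f0ed5a2.shift 1 0), (rh8879ba4a7e56171d.shift 0 1)] (by decide +kernel))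
noncomputable def rhe14df9863cada929 : CRef := CRef.mk (Pat.mk 0x7800000020 0x70000007e0000003e 4 7) 0 0 (step_sound _ 34 [rhd1d05263fabc0227, (rheae1728ff4a56756.shift 1 0)] (by decide +kernel))
noncomputable def rh3c6494a6ce51d3d4 : CRef := CRef.mk (Pat.mk 0x40000001e00000000 0xc0000007e000000e7 4 8) 0 0 (step_sound _ 37 [(rh60e95adc726bb530.shift 2 0), rheae1728ff4a56756] (by decide +kernel))
noncomputable def rhef0f55be27604f2b : CRef := CRef.mk (Pat.mk 0xa0000000e0000000c000000000000000000000000 0xe0000000e0000003f0000003b0000001b0000000a 4 6) 0 0 (step_sound _ 97 [(rh0125efc36fb9411b.shift 0 1), rh3a6c1689b3bee428, rhb24a71b8e8f17f47] (by decide +kernel))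
noncomputable def rh49a0102df3440ad4 : CRef := CRef.mk (Pat.mk 0x1400000014000000040000000400000000 0x80000001e00000037000000040000000400000004 4 6) 0 0 (step_sound _ 131 [(rh2f68792b6b779e96.shift 2 1), rhfb6a70ff77f7aa91] (by decide +kernel))
noncomputable def rh9eb5f2758a4c7ff1 : CRef := CRef.mk (Pat.mk 0x1600000014000000040000000000000000 0x80000001e00000037000000040000000400000004 4 6) 0 0 (step_sound _ 131 [rh2af3bff4277f1035, (rhe25b0a99195a5d59.shift 1 3)] (by decide +kernel))
noncomputable def rh814d7d659b43c283 : CRef := CRef.mk (Pat.mk 0xa0000000a00000002000000000000000000000000 0x70000000f0000001b00000007000000070000000700000004 4 5) 0 0 (step_sound _ 65 [(rhabedd109a9a37101.shift 0 1), rhcae87bda2c3c01d2, (rhe3ca3d7b4fee55d8.shift 0 2)] (by decide +kernel))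
noncomputable def rh8e41442dd2d7cc36 : CRef := CRef.mk (Pat.mk 0x200000002000000020000000000000000 0x500000007000000070000000300000003000000030000000300000001 4 3) 0 0 (step_sound _ 161 [rh0c1c1b53bc5a1510, (rh0fd870c734e6c513.shift 0 1), (rh402d223d12d7377d.shift 0 1), (rh7ef5fa5c39f1c762.shift 0 2)] (by decide +kernel))
noncomputable def rhc0671491b386e7f4 : CRef := CRef.mk (Pat.mk 0x1800000028000000280000000800000000 0x40000000e40000007c0000002f000000380000003800000010 4 8) 0 0 (step_sound _ 133 [(rh2820ca9a6c4f41b4.shift 0 3), (rh5bc090164f229948.shift 2 1), (rh6109952a9d592831.shift 2 0), (rhc479e7f0b6ce145b.shift 2 1)] (by decide +kernel))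
noncomputable def rh5f607ad0c4b19d6e : CRef := CRef.mk (Pat.mk 0x4000000140000001c0000000000000000 0x4000000360000001e0000000700000002 4 6) 0 0 (step_sound _ 65 [rh18b5f43433ec86ab, (rh33e738c4ed385b9f.shift 1 2)] (by decide +kernel))
noncomputable def rhd812756c86ec814c : CRef := CRef.mk (Pat.mk 0x20000000e0000000200000000 0x50000000700000007000000020000001e0000000300000001 4 5) 0 0 (step_sound _ 129 [rh157b220518f94713, (rh7ef5fa5c39f1c762.shift 0 1)] (by decide +kernel))
noncomputable def rh5dc42907a7ca011e : CRef := CRef.mk (Pat.mk 0x2000000020000001e00000000 0x4000000070000000700000003000000060000001e00000003 4 5) 0 0 (step_sound _ 129 [(rh73f605273a09a9d0.shift 1 1), rhf6eaec10ea6e7bec] (by decide +kernel))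
noncomputable def rh4982f245e93c690d : CRef := CRef.mk (Pat.mk 0x200000006000000060000000000000000 0x3000000030000000300000006000000070000000300000001 4 3) 0 0 (step_sound _ 161 [rh0c1c1b53bc5a1510, (rh2145e1d24b96a57e.shift 1 2)] (by decide +kernel))
noncomputable def rh377e6173f35d5294 : CRef := CRef.mk (Pat.mk 0x40000000e0000001c0000000000000000 0xc0000000c0000000c0000000e0000001e0000003300000002 4 6) 0 0 (step_sound _ 65 [(rh2b4ffbe8d274482e.shift 1 1), rh9c40a739b57d6d20] (by decide +kernel))
noncomputable def rha1364e9f6ba63089 : CRef := CRef.mk (Pat.mk 0x2000000070000000600000000 0x60000000600000006000000070000001e0000000a 4 5) 0 0 (step_sound _ 35 [(rh1a64fdb454ca4f39.shift 1 0), (rhf48373e13d2bc128.shift 0 1)] (by decide +kernel))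
noncomputable def rh1f6816da7d83a67c : CRef := CRef.mk (Pat.mk 0x2000000020000001e00000000 0x1000000070000000700000006000000060000001e00000003 4 5) 0 0 (step_sound _ 129 [(rh65909b08999dc522.shift 0 1), rhfe5ab67337d6131f] (by decide +kernel))
noncomputable def rh12b3e7d1014f8218 : CRef := CRef.mk (Pat.mk 0x1c0000001e0000000000000000 0x2000000030000001f0000001e0000000400000004 4 5) 0 0 (step_sound _ 97 [(rh3244c3cc8379b070.shift 0 2), rh38a0850c9fea941e] (by decide +kernel))
noncomputable def rh222078f0c0c311b9 : CRef := CRef.mk (Pat.mk 0x40000001c00000008 0xc0000007f000000ff 4 8) 0 0 (step_sound _ 37 [rh0a31c7f562fb8d12, (rh60e95adc726bb530.shift 2 0), (rhaf9f2efc81a8312b.shift 1 0)] (by decide +kernel))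
noncomputable def rhc5bc34518ce17094 : CRef := CRef.mk (Pat.mk 0x200000002000000030000000a 0x1000000030000000300000002000000030000001f 4 5) 0 0 (step_sound _ 2 [rhd2c74283b7b6e6b8, rhf48373e13d2bc128] (by decide +kernel))
noncomputable def rh48487892a865da0f : CRef := CRef.mk (Pat.mk 0x8000000080000000c000000080000000000000000 0xc0000000c0000001c0000003c0000000f000000080000000800000008 4 6) 0 0 (step_sound _ 130 [(rh3cb04db3dd2b6a55.shift 2 0), (rh7f9f3607ee25a93b.shift 2 2), rha31e2286f1ebea1b] (by decide +kernel))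
noncomputable def rh4d845d7e9f5b88e4 : CRef := CRef.mk (Pat.mk 0x180000001c000000100000000000000000 0x800000018000000180000003c0000001f0000000c0000000c 4 6) 0 0 (step_sound _ 67 [rh3c2d39eaadcf8eae, (rha3701c917fbd6f5d.shift 2 0), (rhea7a1800d6f053bd.shift 3 0)] (by decide +kernel))
noncomputable def rhcf8981443ff214f3 : CRef := CRef.mk (Pat.mk 0x80000001c0000000c0000000000000000 0x10000000380000001f0000000c0000000c0000000c 4 6) 0 0 (step_sound _ 2 [(rh9e3edb185cc347de.shift 2 0), rhcb6278a17751f6e9] (by decide +kernel))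
noncomputable def rh866e791d121b0342 : CRef := CRef.mk (Pat.mk 0x8000000080000001c000000080000000000000000 0x40000001c000000380000001f000000080000000800000008 4 6) 0 0 (step_sound _ 162 [(rh50fbb5868c909700.shift 2 2), rhcb6278a17751f6e9] (by decide +kernel))
noncomputable def rhb48fed03d8127111 : CRef := CRef.mk (Pat.mk 0x1c0000001e0000000000000000 0x10000000300000001f0000001e0000000800000008 4 6) 0 0 (step_sound _ 97 [(rh3244c3cc8379b070.shift 0 2), (rh34b1188e635efc8d.shift 1 0)] (by decide +kernel))
noncomputable def rh01dd0ad9eef877ef : CRef := CRef.mk (Pat.mk 0xe00000007000000000000000000000000 0x40000000f0000003f000000180000000800000008 4 6) 0 0 (step_sound _ 99 [(rh79b3c29022acbdf3.shift 0 3), rhbbe16ff26f7822db] (by decide +kernel))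
noncomputable def rh39b36e93b258e604 : CRef := CRef.mk (Pat.mk 0x60000000e000000000000000000000000 0x4000000060000003e000000030000000200000002 4 6) 0 0 (step_sound _ 100 [rh9a011a4d0ec8f646, (rhf48373e13d2bc128.shift 1 3)] (by decide +kernel))
noncomputable def rh71db9facc75efbcc : CRef := CRef.mk (Pat.mk 0x300000003000000020000000200000000 0x20000000300000003000000070000000700000005 4 3) 0 0 (step_sound _ 32 [rh932754581e0f4330, rhb10b6d8f84633249] (by decide +kernel))
noncomputable def rhfa88012a51cb806b : CRef := CRef.mk (Pat.mk 0x200000002000000060000000600000000 0x40000000600000006000000070000003e0000000a 4 6) 0 0 (step_sound _ 130 [(rh2f68792b6b779e96.shift 1 1), rh69d812b5a1a7ab2c] (by decide +kernel))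
noncomputable def rhd0f9d30d1d0b7bb8 : CRef := CRef.mk (Pat.mk 0x18000000280000001800000010 0x20000000780000003f0000007800000010 4 7) 0 0 (step_sound _ 66 [(rh65ce85ce2e0cb65a.shift 2 0), (rh69012675dfdb1a5b.shift 0 2), (rhfdaba9284cdfee4b.shift 0 1)] (by decide +kernel))
noncomputable def rh1be7ac9af4fb6233 : CRef := CRef.mk (Pat.mk 0x8000000140000000c0000000800000000 0x800000018000000380000001f0000001c0000001800000010 4 6) 0 0 (step_sound _ 99 [(rh0ff7ca71cb891e23.shift 2 0), (rhccf6c53fa88468fc.shift 0 1)] (by decide +kernel))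
noncomputable def rhe2925231d2f05261 : CRef := CRef.mk (Pat.mk 0x800000028000000180000001800000000 0x8000000380000001f0000003f00000004 4 6) 0 0 (step_sound _ 34 [(rh79fa8d0518e29be0.shift 0 1), (rh932754581e0f4330.shift 2 0)] (by decide +kernel))
noncomputable def rh70ae4a3831b873d4 : CRef := CRef.mk (Pat.mk 0x4000000040000000c0000000c000000000000000000000000 0x4000000060000000f0000003e000000060000000600000004 4 6) 0 0 (step_sound _ 129 [(rh590894c2e95f7a94.shift 1 0), (rh6292bd8784ece55f.shift 0 3)] (by decide +kernel))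
noncomputable def rhf6c8e3df982d092b : CRef := CRef.mk (Pat.mk 0x40000000e000000080000000000000000 0x400000004000000070000003e0000000f0000000200000002 4 6) 0 0 (step_sound _ 65 [(rh32f6277f14b47a8f.shift 1 0), (rha83d0a1d851c6a27.shift 0 2), (rhdabfcd0659c2d3c8.shift 1 0)] (by decide +kernel))
noncomputable def rh9c50d5389d1c3d10 : CRef := CRef.mk (Pat.mk 0x18000000280000000800000018 0x640000007c0000003f0000003800000018 4 7) 0 0 (step_sound _ 101 [(rh2820ca9a6c4f41b4.shift 0 2), (rhb96654f2e74dc8ff.shift 2 0), (rhf0f55c4504412200.shift 0 2)] (by decide +kernel))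
noncomputable def rhc1c1b4a46bee218b : CRef := CRef.mk (Pat.mk 0x400000007000000040000000000000000 0xa0000001e0000000f000000040000000400000004 4 5) 0 0 (step_sound _ 34 [(rh4017de503635a93b.shift 0 1), rh55ff3d990152394d, (rhe286c75f2739cce2.shift 1 0)] (by decide +kernel))
noncomputable def rhf366311c23480cc2 : CRef := CRef.mk (Pat.mk 0xb0000000b00000002000000000000000000000000 0xa0000000b0000001f0000001f000000040000000400000004 4 5) 0 0 (step_sound _ 98 [(rh2c3c9749c806d7bc.shift 0 3), (rh721afcb8e9f735cc.shift 0 2), (rh7c239bee1895c077.shift 1 0), rhdcacbe5d4166aafb] (by decide +kernel))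
noncomputable def rh734f8cecd26b5c5f : CRef := CRef.mk (Pat.mk 0xb0000000b0000000200000000 0x40000000e0000000f0000001b0000001f0000000c 4 5) 0 0 (step_sound _ 35 [(rh21b88758ed9898ae.shift 0 1), rh707668dffb762904, rhcb70e1b2667f61ac] (by decide +kernel))
noncomputable def rhe9105e7eef2f9794 : CRef := CRef.mk (Pat.mk 0x80000000b0000000300000000 0x2000000020000001e0000000f0000000300000001 4 5) 0 0 (step_sound _ 100 [(rh1c62b6193297d9e3.shift 0 2), rha011524de6274c86] (by decide +kernel))
noncomputable def rh9902ebb0ebf188d0 : CRef := CRef.mk (Pat.mk 0x8000000080000000b000000000000000000000000 0x40000000c0000000c000000080000000f0000001c0000001c00000014 4 5) 0 0 (step_sound _ 67 [(rh0fd870c734e6c513.shift 2 1), (rh3181373a30ceb9e3.shift 2 0), (rh5f11ee373cbffcaa.shift 0 1)] (by decide +kernel))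
noncomputable def rh60fe67cecc0aa864 : CRef := CRef.mk (Pat.mk 0x80000000c00000008000000000000000000000000 0x8000000080000001f0000007c000000100000001000000010 4 7) 0 0 (step_sound _ 100 [(rh046c5eb18e55a239.shift 3 0), (rhdeca8db941583de2.shift 0 3)] (by decide +kernel))
noncomputable def rh3b45ba8ad278d209 : CRef := CRef.mk (Pat.mk 0x7800000000 0x770000007e0000000e 4 7) 0 0 (step_sound _ 34 [(rh00f1bb10334541e3.shift 0 1), (rheae1728ff4a56756.shift 1 0)] (by decide +kernel))
noncomputable def rh2c7a93bb15bb1614 : CRef := CRef.mk (Pat.mk 0x400000003800000010 0x600000003e00000037 4 7) 0 0 (step_sound _ 34 [(rh428265de8cd3cd2d.shift 2 1), rhb2432c16363a7e8d] (by decide +kernel))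
noncomputable def rh3c8ce40113d80209 : CRef := CRef.mk (Pat.mk 0x170000000c00000008 0x140000003e000000170000003c00000008 4 6) 0 0 (step_sound _ 98 [(rh2145e1d24b96a57e.shift 2 0), rh6dffabb4034c5994] (by decide +kernel))
noncomputable def rhb81cd97085901d60 : CRef := CRef.mk (Pat.mk 0x80000001800000038000000000000000000000000 0x80000001f0000003f0000000e0000000400000004 4 6) 0 0 (step_sound _ 98 [(rh1e8d6e1ef30e2d92.shift 1 0), (rhcda410b351c20b9b.shift 0 3)] (by decide +kernel))
noncomputable def rhbea40210056c7c02 : CRef := CRef.mk (Pat.mk 0x2c00000008 0x700000003f0000007f 4 7) 0 0 (step_sound _ 33 [rh3194727a60434116, rh39ad6055f66b9ead, rh8ee80cc30e93a344, rhc21a95c499b3efdb] (by decide +kernel))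
noncomputable def rh599eeae95165833d : CRef := CRef.mk (Pat.mk 0x80000002c000000080000000c00000000 0x80000003f0000007c0000003f00000010 4 7) 0 0 (step_sound _ 69 [(rh6bc85e88a521f414.shift 2 0), (rha6816dee951f7ee6.shift 2 2), (rhba0bc49c07948344.shift 0 1)] (by decide +kernel))
noncomputable def rhaf1416731c05934d : CRef := CRef.mk (Pat.mk 0x2c000000080000001c0000000000000000 0x3c0000000f0000007c0000000600000006 4 7) 0 0 (step_sound _ 98 [(rh6371dceabc07ce3d.shift 0 2), (rh79b3c29022acbdf3.shift 1 2), (rh98dcf83e06bbd9f9.shift 1 0)] (by decide +kernel))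
noncomputable def rh995e257dda7f387d : CRef := CRef.mk (Pat.mk 0x58000000100000003800000000 0x80000000800000018000000780000001f0000007e00000007 4 7) 0 0 (step_sound _ 34 [(rh1d42b3e064f2a296.shift 1 0), rh2cc7d62e70c02209, (rh40a3f6cb73a0866c.shift 1 1)] (by decide +kernel))
noncomputable def rh61d3dc0caa057605 : CRef := CRef.mk (Pat.mk 0xb000000020000000e00000000 0xa0000000f0000001a0000000f00000004 4 5) 0 0 (step_sound _ 2 [(rh2145e1d24b96a57e.shift 1 0), rhc8848e9e7fcd827c] (by decide +kernel))
noncomputable def rhc05ee89a43f79cc0 : CRef := CRef.mk (Pat.mk 0x8000000000000000e000000000000000000000000 0x800000008000000780000001f0000000c0000000400000004 4 7) 0 0 (step_sound _ 131 [(rh281c6819542c66e6.shift 2 0), (rha11dfd15f08f96e3.shift 0 3)] (by decide +kernel))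
noncomputable def rh6aba808d3877b30e : CRef := CRef.mk (Pat.mk 0xb000000000000000e000000000000000000000000 0x80000000f000000180000000f0000000c0000000400000004 4 5) 0 0 (step_sound _ 131 [(rh281c6819542c66e6.shift 2 0), (rhf682c000fac3086e.shift 0 3)] (by decide +kernel))
noncomputable def rh09c79e94e3d6459c : CRef := CRef.mk (Pat.mk 0x80000002c0000000800000018 0xc0000000c0000000c0000003c0000000f00000018 4 6) 0 0 (step_sound _ 130 [rhf82e4f7a5bc85995, (rhffd04209dc8ea796.shift 2 0)] (by decide +kernel))
noncomputable def rhcc6775a4752547ba : CRef := CRef.mk (Pat.mk 0xb0000000a0000000a00000000 0xa0000000f0000001a0000000f00000004 4 5) 0 0 (step_sound _ 68 [rh3f69e10535d86375, (rhc10214bf3fe8094a.shift 0 2)] (by decide +kernel))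
noncomputable def rhf926f0a9d8708921 : CRef := CRef.mk (Pat.mk 0xb00000008000000080000000000000000 0x10000000180000000f000000080000001c0000001c00000014 4 5) 0 0 (step_sound _ 163 [(rh3181373a30ceb9e3.shift 2 0), (rhddcd04bb31546311.shift 0 2)] (by decide +kernel))
noncomputable def rh397bcc29d1494747 : CRef := CRef.mk (Pat.mk 0xa0000000a0000000a00000000 0xa0000000a0000007a0000001f00000004 4 7) 0 0 (step_sound _ 34 [(rh5fc67bac28a8b5bb.shift 1 0), (rha11dfd15f08f96e3.shift 0 1)] (by decide +kernel))
noncomputable def rh1ad2c633a366394c : CRef := CRef.mk (Pat.mk 0xb000000080000000800000000 0x1000000018000000180000000f000000180000001800000010 4 5) 0 0 (step_sound _ 131 [(rh426f403fa814630c.shift 3 0), rha3a36ad8dfeefa50, (rhabf575676fe0ef70.shift 0 2), (rhddcd04bb31546311.shift 0 1)] (by decide +kernel))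
noncomputable def rh1a2880b8d3b50ba1 : CRef := CRef.mk (Pat.mk 0xb0000000a0000000200000000 0x100000001000000030000000f0000001a0000000200000002 4 5) 0 0 (step_sound _ 68 [rhb1a251d9bff81766, (rhc10214bf3fe8094a.shift 0 2)] (by decide +kernel))
noncomputable def rh03312b1476ce7635 : CRef := CRef.mk (Pat.mk 0x1000000018000000100000001800000000 0x800000018000000180000003c000000ff00000024 4 8) 0 0 (step_sound _ 67 [(rh36d4d92ef3dad5f8.shift 2 0), rh6d3602f45702e5fd] (by decide +kernel))
noncomputable def rh7cb52c8b7c250c95 : CRef := CRef.mk (Pat.mk 0xf00000003000000020000000000000000 0x1a0000000f00000007000000060000000600000006 4 5) 0 0 (step_sound _ 163 [(rh33e738c4ed385b9f.shift 0 4), rh493b89d8082923ed] (by decide +kernel))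
noncomputable def rh47e45fb0d7bc6017 : CRef := CRef.mk (Pat.mk 0x80000000b0000000a0000000200000000 0x140000001e0000000b0000000b0000001e00000014 4 5) 0 0 (step_sound _ 35 [rh11a243992b58ed44, (rha78afc937ca94db4.shift 0 1)] (by decide +kernel))
noncomputable def rh413d08df26a67848 : CRef := CRef.mk (Pat.mk 0xb0000000e0000000200000000 0x50000000f0000001f0000000b0000000e0000000600000004 4 5) 0 0 (step_sound _ 129 [rh2d1952ceae187b71, (rh7ef5fa5c39f1c762.shift 0 1), (rhd4b4beefcd67f51e.shift 1 0)] (by decide +kernel))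
noncomputable def rh6c53afc29829c0cc : CRef := CRef.mk (Pat.mk 0x80000000b0000000a0000000200000000 0xe0000001e0000000b0000000e0000000600000004 4 5) 0 0 (step_sound _ 129 [(rh8797c67fe3ac847a.shift 0 1), (rhfef0a9b9c00f57c1.shift 1 0)] (by decide +kernel))
noncomputable def rh17ed3197c9f17f22 : CRef := CRef.mk (Pat.mk 0x4000000050000000500000001000000000000000000000000 0x20000000600000007000000050000000700000007000000020000000200000002 4 3) 0 0 (step_sound _ 97 [(rh0f8d816415b37a15.shift 0 3), rh7c239bee1895c077, rh91dfa05bb1518401, (rh929a6d7e4f51e395.shift 0 2)] (by decide +kernel))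
noncomputable def rh674c9508184d1554 : CRef := CRef.mk (Pat.mk 0x100000001e0000000400000004000000000000000000000000 0x140000001e000000370000001c0000000c0000000c00000008 4 6) 0 0 (step_sound _ 67 [(rh2f7ef8ef5c94975a.shift 2 0), (rh7815964f89cad686.shift 1 2), (rhaccbe1bc79c0a1cb.shift 0 1)] (by decide +kernel))
noncomputable def rhee178fa823ae81ac : CRef := CRef.mk (Pat.mk 0x80000000c0000000800000008 0x100000003c0000001f0000000800000008 4 6) 0 0 (step_sound _ 100 [(rh2f68792b6b779e96.shift 3 0), (rh557b120f072744ca.shift 0 2)] (by decide +kernel))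
noncomputable def rh7f2c75fae2031d85 : CRef := CRef.mk (Pat.mk 0x100000000e000000040000000000000000 0x80000001c0000000f0000000c0000000400000004 4 5) 0 0 (step_sound _ 131 [(rh53b3c253cb0c65f4.shift 0 3), (rhf91b1398c815afd2.shift 2 0)] (by decide +kernel))
noncomputable def rh4753896b3fc311d0 : CRef := CRef.mk (Pat.mk 0x100000000000000018000000180000000800000000 0x18000000180000000800000018000000780000001f00000004 4 7) 0 0 (step_sound _ 34 [(rh69012675dfdb1a5b.shift 0 1), (rh9ac2d92c09d7ce5d.shift 2 0)] (by decide +kernel))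
noncomputable def rh2e33e16b0d835c56 : CRef := CRef.mk (Pat.mk 0x80000001800000008000000000000000000000000 0x8000000080000007c0000001f000000040000000400000004 4 7) 0 0 (step_sound _ 98 [(rh69012675dfdb1a5b.shift 0 3), (rhd69c262cd33b94b3.shift 0 3), (rhfafeb437ceb8396d.shift 2 0)] (by decide +kernel))
noncomputable def rh3fc9df38e8c4fd36 : CRef := CRef.mk (Pat.mk 0x80000001800000008000000000000000000000000 0x8000000080000007c0000000f0000000c0000000400000004 4 7) 0 0 (step_sound _ 98 [(rh281c6819542c66e6.shift 2 0), (rhd69c262cd33b94b3.shift 0 3), (rhfafeb437ceb8396d.shift 2 0)] (by decide +kernel))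
noncomputable def rhf4f4ca8cb51f8632 : CRef := CRef.mk (Pat.mk 0x80000000c0000000c0000000400000000 0x4000000140000003c0000000f0000000e0000000e0000000a 4 6) 0 0 (step_sound _ 130 [(rh3cb04db3dd2b6a55.shift 2 0), rha31e2286f1ebea1b, (rhbd1553ade3ecbf42.shift 1 0)] (by decide +kernel))
noncomputable def rhcd2f5ee1337bd89c : CRef := CRef.mk (Pat.mk 0x100000001800000018000000080000000000000000 0x280000003800000038000000380000001f0000001400000010 4 6) 0 0 (step_sound _ 68 [(rh15a1b6b82d9fd81f.shift 3 0), (rh3cb04db3dd2b6a55.shift 3 0), (rh6d3602f45702e5fd.shift 0 1)] (by decide +kernel))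
noncomputable def rha7431d9b3a409ba3 : CRef := CRef.mk (Pat.mk 0x80000000c0000000c000000000000000000000000 0x100000007c0000001f0000000c000000080000000800000008 4 7) 0 0 (step_sound _ 164 [(rh8379dda7bed67b0f.shift 2 0), (rh84bebdeadf3219f3.shift 2 0), (rhd69c262cd33b94b3.shift 0 4)] (by decide +kernel))
noncomputable def rh6582e2731ff9f309 : CRef := CRef.mk (Pat.mk 0x1000000018000000180000001000000000 0x80000001800000018000000380000001f0000000c 4 6) 0 0 (step_sound _ 35 [rh6d3602f45702e5fd, (rh71222050f2c63a3a.shift 3 0)] (by decide +kernel))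
noncomputable def rhef89e1c3435458e2 : CRef := CRef.mk (Pat.mk 0x7000000060000000000000002 0x40000000400000004000000070000001e0000000a00000002 4 5) 0 0 (step_sound _ 67 [(rh471b30005745dc59.shift 1 0), (rhf48373e13d2bc128.shift 0 2)] (by decide +kernel))
noncomputable def rh8e20fc30c964a686 : CRef := CRef.mk (Pat.mk 0x1e00000004000000040000000000000000 0x400000004000000040000001e000000070000000e0000000e0000000e 4 5) 0 0 (step_sound _ 162 [(rh3181373a30ceb9e3.shift 1 0), rhb693017ee57e0118, (rhb91b7df0d06c1d96.shift 0 2), (rhc54ff3d8eb335d63.shift 0 1)] (by decide +kernel))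
noncomputable def rhe447374c5905966f : CRef := CRef.mk (Pat.mk 0x4000000160000001400000004 0x600000006000000060000001e0000003700000004 4 6) 0 0 (step_sound _ 129 [(rha07929b9181bd289.shift 0 1), (rhffd04209dc8ea796.shift 1 0)] (by decide +kernel))
noncomputable def rh64463e345cf3577a : CRef := CRef.mk (Pat.mk 0x20000000b0000000a0000000200000000 0x20000000f0000001a0000000f00000005 4 5) 0 0 (step_sound _ 32 [rh6bc85e88a521f414, rh932754581e0f4330] (by decide +kernel))
noncomputable def rhd1ae1bff5cb55b99 : CRef := CRef.mk (Pat.mk 0xb0000000e00000004 0x18000000180000000f0000000f0000003c 4 6) 0 0 (step_sound _ 99 [(rh5c5e593799055d58.shift 2 0), rh74de224ea3358978] (by decide +kernel))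
noncomputable def rh1a42fb750919bda2 : CRef := CRef.mk (Pat.mk 0x280000000800000038000000000000000000000000 0x20000000280000006c0000003e000000770000000400000004 4 7) 0 0 (step_sound _ 98 [(rh7137c5f4ed615661.shift 1 2), (rh8195a2d7794c7cd2.shift 0 2), (rhd1474a84c69f0140.shift 1 0)] (by decide +kernel))
noncomputable def rh3f19d28735a6f532 : CRef := CRef.mk (Pat.mk 0x3000000060000000200000000 0x10000000100000003000000030000001e0000000200000002 4 5) 0 0 (step_sound _ 67 [rhb1a251d9bff81766, (rhf48373e13d2bc128.shift 0 2)] (by decide +kernel))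
noncomputable def rhc05efa86ad4d71de : CRef := CRef.mk (Pat.mk 0x80000003800000008000000000000000000000000 0x8000000080000003c0000000f0000000c0000000400000004 4 6) 0 0 (step_sound _ 98 [(rh1ed7a3503fa50fc8.shift 0 3), (rh281c6819542c66e6.shift 2 0)] (by decide +kernel))
noncomputable def rh198560344679c925 : CRef := CRef.mk (Pat.mk 0x2000000030000000600000002 0x30000000300000003000000070000001f00000002 4 5) 0 0 (step_sound _ 36 [(rh2fe78cc5ca4405d8.shift 0 1), rh5d6002b88e0005f3] (by decide +kernel))
noncomputable def rhe2150d6d27d1241f : CRef := CRef.mk (Pat.mk 0x5800000038 0x7f0000003f 4 7) 0 0 (step_sound _ 2 [(rh428265de8cd3cd2d.shift 2 0), rhcda410b351c20b9b] (by decide +kernel))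
noncomputable def rh39f15240cc732f4c : CRef := CRef.mk (Pat.mk 0x580000003800000000 0x780000003f00000007 4 7) 0 0 (step_sound _ 34 [rh0e1512cbacfbd48b, (rh428265de8cd3cd2d.shift 2 1)] (by decide +kernel))
noncomputable def rh7ca302a700aa1cc7 : CRef := CRef.mk (Pat.mk 0x10000000180000001c000000000000000000000000 0x20000000380000001f0000001f000000180000001800000018 4 6) 0 0 (step_sound _ 68 [(rh3cb04db3dd2b6a55.shift 3 0), (rhb4e4f3caba6e850a.shift 0 2), (rhbdf73b26f73f8159.shift 3 0)] (by decide +kernel))
noncomputable def rh3f54ce37cb3e86ea : CRef := CRef.mk (Pat.mk 0x1600000006000000060000000000000000 0x80000001f0000003e000000070000000400000004 4 6) 0 0 (step_sound _ 34 [(rh7b1f1fb55310c477.shift 1 0), (rhd605b901b1438220.shift 0 1)] (by decide +kernel))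
noncomputable def rh0820ca134f82bdac : CRef := CRef.mk (Pat.mk 0x800000003000000020000000200000000 0x1000000070000001f00000003000000030000000300000001 4 5) 0 0 (step_sound _ 129 [rh0fd870c734e6c513, (rh8797c67fe3ac847a.shift 0 1)] (by decide +kernel))
noncomputable def rh213a7b786dfed213 : CRef := CRef.mk (Pat.mk 0x400000006000000160000000000000000 0x200000006000000060000001e0000000700000007 4 5) 0 0 (step_sound _ 33 [rh48ed0010265fa93b, (rh71222050f2c63a3a.shift 1 0)] (by decide +kernel))
noncomputable def rh18f40e5cb8f23916 : CRef := CRef.mk (Pat.mk 0x4000000160000000600000000 0x600000006000000060000001e0000000700000005 4 5) 0 0 (step_sound _ 32 [rh27c8111cf125e4dd, (rh361cc68994bd8a63.shift 0 1)] (by decide +kernel))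
noncomputable def rhcc007f686bc45e0d : CRef := CRef.mk (Pat.mk 0xa0000000b0000000800000000 0x4000000040000000c0000001e0000000b0000000800000008 4 5) 0 0 (step_sound _ 98 [(rh18965a982d73c794.shift 0 2), (rhb1a251d9bff81766.shift 2 0)] (by decide +kernel))
noncomputable def rheb0c607b2606ccc4 : CRef := CRef.mk (Pat.mk 0x1400000016000000040000000000000000 0x4000000340000001e000000070000000200000002 4 6) 0 0 (step_sound _ 99 [(rh33e738c4ed385b9f.shift 1 3), rha1a532725e6ae333] (by decide +kernel))
noncomputable def rh6e4125656b7f7d4c : CRef := CRef.mk (Pat.mk 0xa0000000b0000000a000000000000000000000000 0x40000000e0000000e0000000f0000000f000000190000001900000010 4 5) 0 0 (step_sound _ 67 [(rhafab112a4c4dda0f.shift 1 2), (rhcae87bda2c3c01d2.shift 2 0), (rhe3958225ccedbfeb.shift 0 1)] (by decide +kernel))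
noncomputable def rh3eaff42d940993d3 : CRef := CRef.mk (Pat.mk 0xa0000000b0000000a0000000000000000 0x140000001c0000001d0000000f0000000b0000000a0000000a00000002 4 5) 0 0 (step_sound _ 163 [rh64f81e58cbfea41b, (rh7ef5fa5c39f1c762.shift 2 2), (rhb607d50461c9141f.shift 1 1)] (by decide +kernel))
noncomputable def rh88b43a8d84fba1ac : CRef := CRef.mk (Pat.mk 0x80000002c00000008 0x780000003f00000078 4 7) 0 0 (step_sound _ 33 [(rh3f83af65ae644162.shift 1 0), rh8ee80cc30e93a344, (rha11dfd15f08f96e3.shift 0 1), rhcf86d050071af9b3] (by decide +kernel))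
noncomputable def rh15f8768b7548a9ab : CRef := CRef.mk (Pat.mk 0x10000000180000003800000000 0x180000001800000018000000380000003f00000006 4 6) 0 0 (step_sound _ 34 [(rh1ec4a688f2c4c1ff.shift 1 0), (rhab2ad169e49f9c5e.shift 0 1)] (by decide +kernel))
noncomputable def rh4ed5ba6aa449e181 : CRef := CRef.mk (Pat.mk 0x1000000018000000700000000000000000 0x10000000380000007f000000ec00000008 4 8) 0 0 (step_sound _ 67 [(rh2a14c815463ca7ed.shift 0 1), (rh9c40a739b57d6d20.shift 2 0)] (by decide +kernel))
noncomputable def rhcd1231c8bcf6cca6 : CRef := CRef.mk (Pat.mk 0x100000001c000000060000000000000000 0x8000000180000001f000000fe0000003000000030 4 8) 0 0 (step_sound _ 68 [(rhb1cd999401f2b265.shift 1 0), (rhc21a95c499b3efdb.shift 1 2), rhd49dd6fe5fb6eec2] (by decide +kernel))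
noncomputable def rhdf712542056dcbf2 : CRef := CRef.mk (Pat.mk 0x10000000140000001c000000000000000000000000 0x380000001f0000001c000000780000003800000010 4 7) 0 0 (step_sound _ 68 [rh630424eee47e65b4, (rhb379f99078aafa2d.shift 2 1)] (by decide +kernel))
noncomputable def rhfd6c4a10529b1ed4 : CRef := CRef.mk (Pat.mk 0x10000000140000001c00000004 0x1800000018000000380000001f0000001c00000004 4 6) 0 0 (step_sound _ 67 [(rh34517e326ddb5b25.shift 0 1), (rhe2031cd839b38d08.shift 2 0)] (by decide +kernel))
noncomputable def rh172f8a681b071bbe : CRef := CRef.mk (Pat.mk 0x2c00000028 0x700000003f0000003f 4 7) 0 0 (step_sound _ 33 [rh39ad6055f66b9ead, rh47688a8720dc0294, rhba65360472489f45] (by decide +kernel))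
noncomputable def rhc6f904be2bba76bb : CRef := CRef.mk (Pat.mk 0x20000000a0000000a 0x30000001f0000007f 4 7) 0 0 (step_sound _ 34 [rhc21a95c499b3efdb, rhd9106766b9ff53c0] (by decide +kernel))
noncomputable def rh9239ea28681646bd : CRef := CRef.mk (Pat.mk 0x100000001400000014000000000000000000000000 0x1000000010000000370000003e000000180000000800000008 4 6) 0 0 (step_sound _ 99 [(rh281c6819542c66e6.shift 3 0), (rhd117684c4a851b90.shift 0 3)] (by decide +kernel))
noncomputable def rhbb4809e93bcd15cb : CRef := CRef.mk (Pat.mk 0x280000002c00000000 0x3f0000003f00000007 4 6) 0 0 (step_sound _ 33 [(rhddb24c61d0a0d35a.shift 0 1), rhe2f6b10c50f22ead, (rhf4585caa3b13e38a.shift 0 1)] (by decide +kernel))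
noncomputable def rh71a99b31f0b3148f : CRef := CRef.mk (Pat.mk 0x200000002c00000028000000000000000000000000 0x20000000200000002f0000003c000000300000001000000010 4 6) 0 0 (step_sound _ 100 [(rh281c6819542c66e6.shift 4 0), (rhdbcea10a0fbe5ba6.shift 0 3)] (by decide +kernel))
noncomputable def rh62925bea595f4f3c : CRef := CRef.mk (Pat.mk 0x280000002c00000020000000000000000000000000 0x100000003c0000002f00000020000000700000007000000050 4 7) 0 0 (step_sound _ 69 [(rh3181373a30ceb9e3.shift 4 0), (rh938a14aa6d864ef7.shift 0 2)] (by decide +kernel))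
noncomputable def rh9c76e3bfd1b5f07a : CRef := CRef.mk (Pat.mk 0x80000000a0000000a00000000 0x140000001c0000001c000000080000001b0000001e00000014 4 5) 0 0 (step_sound _ 131 [rh11a243992b58ed44, (rh29dd5384d80ecb1e.shift 2 0), (rh426f403fa814630c.shift 3 0), (rh7ef5fa5c39f1c762.shift 2 1)] (by decide +kernel))
noncomputable def rh304d87ae2c9b025c : CRef := CRef.mk (Pat.mk 0x20000000080000001c 0x300000003f0000003f 4 6) 0 0 (step_sound _ 33 [rh508d31626b5d2be8, rh54c49bb299227e8d, rhd0ed6ce702d0de55, rhee497e4436c6d4ad] (by decide +kernel))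
noncomputable def rh54f173324c8fbc64 : CRef := CRef.mk (Pat.mk 0x80000000e00000006000000000000000000000000 0xc0000000f0000003f000000180000001800000008 4 6) 0 0 (step_sound _ 99 [rh3a6c1689b3bee428, (rh79b3c29022acbdf3.shift 0 3)] (by decide +kernel))
noncomputable def rh1800739925e70673 : CRef := CRef.mk (Pat.mk 0x80000000e00000006000000000000000000000000 0x80000000c0000000f0000003f000000380000001800000008 4 6) 0 0 (step_sound _ 99 [(rh06632e5662f9eca8.shift 1 2), rh3a6c1689b3bee428, (rh79b3c29022acbdf3.shift 0 3)] (by decide +kernel))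
noncomputable def rh10b53a4369df2a19 : CRef := CRef.mk (Pat.mk 0x1800000008000000080000000a00000002 0x3c0000001f0000000a0000000a0000000a 4 6) 0 0 (step_sound _ 98 [rh1aacd4e2b0dbc661, (rh2d5442cbf338480d.shift 2 0), rh43801a951f6aadd4] (by decide +kernel))
noncomputable def rhac2dcc15b6e3c552 : CRef := CRef.mk (Pat.mk 0x80000000a000000080000000a0000000200000000 0x100000003c0000001e0000007a0000000f0000000600000004 4 7) 0 0 (step_sound _ 130 [(rh85fd82ff143b0521.shift 1 0), (rhac6da65d713c5775.shift 1 1), (rhced6ad427ee720f7.shift 0 1)] (by decide +kernel))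
noncomputable def rh5e7d0c40abc1df04 : CRef := CRef.mk (Pat.mk 0x80000000a000000080000000a00000002 0x100000003c0000000f0000000a0000000a00000002 4 6) 0 0 (step_sound _ 132 [(rh2f68792b6b779e96.shift 3 1), rh3c871fb426cea00d] (by decide +kernel))
noncomputable def rh7c7a6e98feb93269 : CRef := CRef.mk (Pat.mk 0x80000000a000000080000000a0000000200000000 0x10000000b0000000b0000000a0000000f0000000700000005 4 4) 0 0 (step_sound _ 97 [rh0fd870c734e6c513, (rhef50d508512821da.shift 1 0)] (by decide +kernel))
noncomputable def rhc847af9ef0b4d89b : CRef := CRef.mk (Pat.mk 0x80000000a000000080000000a0000000200000000 0x190000000f0000001a0000000e0000000600000004 4 5) 0 0 (step_sound _ 34 [(rh79877ebd3ef475dd.shift 2 1), rhb4dd159fa7d21eb6] (by decide +kernel))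
noncomputable def rh377bbcaf27bca18a : CRef := CRef.mk (Pat.mk 0x800000008000000080000000e 0x40000001c0000001c0000001800000018000000180000000f 4 5) 0 0 (step_sound _ 131 [(rh44f453b84f013105.shift 3 0), rhdf62420ddba51d91] (by decide +kernel))
noncomputable def rh9ec287a3553387b5 : CRef := CRef.mk (Pat.mk 0x800000008000000080000000e 0x100000001c0000001c0000000c00000018000000180000000f 4 5) 0 0 (step_sound _ 131 [rh1c00ccce1f772025, (rh3ca48e2a6d60153d.shift 2 0)] (by decide +kernel))
noncomputable def rhd8299dc8e08d911e : CRef := CRef.mk (Pat.mk 0x1000000014000000100000001400000000 0x8000000380000003f000000f00000001e00000008 4 8) 0 0 (step_sound _ 99 [(rh4de5002024d0162e.shift 0 1), (rhced6ad427ee720f7.shift 1 0), (rhcf86d050071af9b3.shift 1 2)] (by decide +kernel))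
noncomputable def rhe6b623a08ae6cf88 : CRef := CRef.mk (Pat.mk 0x1000000014000000100000001400000004 0x8000000380000001f000000140000001400000004 4 6) 0 0 (step_sound _ 131 [(rh50fbb5868c909700.shift 3 1), rh66c750e31d44f5a6] (by decide +kernel))
noncomputable def rh8f04a99bfa8de5f1 : CRef := CRef.mk (Pat.mk 0x40000000500000004000000050000000100000000 0x2000000060000000700000005000000070000000300000002 4 3) 0 0 (step_sound _ 33 [(rh79877ebd3ef475dd.shift 1 1), rh92f38d9d112d8e8f] (by decide +kernel))
noncomputable def rh101c18615d8a09a0 : CRef := CRef.mk (Pat.mk 0x80000000a0000000a0000000000000000 0x140000001c0000001c0000000c0000000f0000001e0000001800000010 4 5) 0 0 (step_sound _ 163 [(rh7ef5fa5c39f1c762.shift 2 2), (rhcae87bda2c3c01d2.shift 2 0), (rhfd459f245766c760.shift 0 1)] (by decide +kernel))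
noncomputable def rhe27bf4d776219514 : CRef := CRef.mk (Pat.mk 0x200000002800000028000000000000000000000000 0x20000000200000003f0000007c000000100000001000000010 4 7) 0 0 (step_sound _ 100 [(rha9fbfd4bb8cf890b.shift 0 3), (rhfafeb437ceb8396d.shift 4 0)] (by decide +kernel))
noncomputable def rhdc76a35d97451798 : CRef := CRef.mk (Pat.mk 0x600000006000000050000000000000000 0x80000003f0000003e000000070000000400000004 4 6) 0 0 (step_sound _ 100 [(rh55b942b46ad56618.shift 0 2), (rhaa46151e37b000b2.shift 1 0), (rhfd0f316c42bbba52.shift 0 3)] (by decide +kernel))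
noncomputable def rheeb2cedbe5e75c83 : CRef := CRef.mk (Pat.mk 0x20000000300000002000000000000000000000000 0x500000007000000070000000700000002000000060000000600000004 4 3) 0 0 (step_sound _ 65 [(rh7ef5fa5c39f1c762.shift 0 2), (rhe286c75f2739cce2.shift 0 1), (rhec588a0d7783acc6.shift 1 0)] (by decide +kernel))
noncomputable def rh992c004d0b4c6565 : CRef := CRef.mk (Pat.mk 0x40000000e0000000500000001 0x600000006000000060000000e0000000e0000000700000005 4 4) 0 0 (step_sound _ 130 [(rh1a4a2d7ee39b16f9.shift 1 1), rh540d2505dd2e7996, (rh566164537f328d1a.shift 1 1), rhb0277190cf7bc357, (rhd2c74283b7b6e6b8.shift 1 1)] (by decide +kernel))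
noncomputable def rh3cb1bfbfbd36a5cf : CRef := CRef.mk (Pat.mk 0x40000000e0000000500000001 0x600000006000000060000001e0000000700000001 4 5) 0 0 (step_sound _ 33 [(rh18965a982d73c794.shift 0 1), rhe2031cd839b38d08] (by decide +kernel))
noncomputable def rh4cb2967495ca0bf5 : CRef := CRef.mk (Pat.mk 0x80000000c0000000a0000000200000000 0x4000000140000003c0000000f0000000e0000000a00000008 4 6) 0 0 (step_sound _ 130 [(rh1b9584b0a9395bfc.shift 1 1), (rh3cb04db3dd2b6a55.shift 2 0), rha31e2286f1ebea1b] (by decide +kernel))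
noncomputable def rh5fef8ea25a551133 : CRef := CRef.mk (Pat.mk 0x4000000080000000c0000000200000002 0x40000003e0000000f0000000600000002 4 6) 0 0 (step_sound _ 98 [rh31b93607ae62bf2b, (rheea67dfebd0f8008.shift 1 0)] (by decide +kernel))
noncomputable def rh952efb16d14b0a07 : CRef := CRef.mk (Pat.mk 0x80000000c0000000800000000 0x100000001000000018000000780000001f0000000800000008 4 7) 0 0 (step_sound _ 100 [(rh215e11e099257d75.shift 3 0), (rh69012675dfdb1a5b.shift 0 2), (rhe3458ab40071103b.shift 3 0)] (by decide +kernel))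
noncomputable def rhe38fa54d887d7283 : CRef := CRef.mk (Pat.mk 0x80000000b0000000800000000 0x140000001c0000001c000000080000000f0000001800000010 4 5) 0 0 (step_sound _ 131 [rh5f11ee373cbffcaa, (rh7ef5fa5c39f1c762.shift 2 1)] (by decide +kernel))
noncomputable def rh688fbb54c9d31d63 : CRef := CRef.mk (Pat.mk 0x380000000c0000000800000000 0xc0000000f0000003c0000000c0000000c00000004 4 6) 0 0 (step_sound _ 131 [(rh03dfdf12d5937476.shift 2 0), (rh53509d91ff78ed56.shift 0 1)] (by decide +kernel))
noncomputable def rh4a6763fc05df4462 : CRef := CRef.mk (Pat.mk 0x20000000e0000000a0000000200000000 0x140000007e0000003f0000000a0000000a00000008 4 7) 0 0 (step_sound _ 132 [(rh7682717cf4f8b2ed.shift 1 1), rha31b51a526eee054, (rhae8ff466af5f6d32.shift 0 1), (rhb8022f71dc28021b.shift 0 3)] (by decide +kernel))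
noncomputable def rh6b11eaf4977d32a2 : CRef := CRef.mk (Pat.mk 0x1c0000000e0000000200000000 0xc0000001c0000003c0000001f0000000e0000000a00000008 4 6) 0 0 (step_sound _ 131 [rhcb6278a17751f6e9, (rhe2031cd839b38d08.shift 1 1)] (by decide +kernel))
noncomputable def rh527d73fb1a070243 : CRef := CRef.mk (Pat.mk 0x4000000140000000600000000 0x400000004000000040000001c0000000f0000000a 4 5) 0 0 (step_sound _ 130 [(rh932754581e0f4330.shift 1 0), rhb9e21f9b3b352a18] (by decide +kernel))
noncomputable def rhe8feadac53402a7a : CRef := CRef.mk (Pat.mk 0x200000003800000000 0x3f0000007e0000000f 4 7) 0 0 (step_sound _ 34 [rh2591032a0e7f4182, (rh56f43794bcf10c2f.shift 1 0), (rh7fb660bc21ce4329.shift 0 1)] (by decide +kernel))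
noncomputable def rhc31c4fe9fb6ec21a : CRef := CRef.mk (Pat.mk 0x100000007800000010 0x180000007f0000003f 4 7) 0 0 (step_sound _ 34 [rh45bfa9e7c421a397, rhb2432c16363a7e8d, (rheae1728ff4a56756.shift 1 0)] (by decide +kernel))
noncomputable def rh4afb4a6b6b4fb2c0 : CRef := CRef.mk (Pat.mk 0x70000000200000002000000000000000000000000 0x4000000070000000300000002000000030000000300000001 4 3) 0 0 (step_sound _ 65 [rh1f3a6ba70a310ab1, (rh2f68792b6b779e96.shift 1 2)] (by decide +kernel))
noncomputable def rhae8d3f031214eb88 : CRef := CRef.mk (Pat.mk 0x1c000000080000000200000002 0x30000003f0000007f0000000200000002 4 7) 0 0 (step_sound _ 97 [rh87865da67f1be42c, (rh8db7f7558b75b2b1.shift 0 2), (rha03f6e28ea70fc7d.shift 0 2)] (by decide +kernel))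
noncomputable def rhbb8f4b1bbbe4104d : CRef := CRef.mk (Pat.mk 0x1c000000080000000a00000002 0x10000000330000001f0000003b0000000a00000002 4 6) 0 0 (step_sound _ 97 [rh87865da67f1be42c, (rha03f6e28ea70fc7d.shift 0 2), (rhbbda3e5cf400e6dd.shift 1 1)] (by decide +kernel))
noncomputable def rhb6bf993f3690f076 : CRef := CRef.mk (Pat.mk 0x1c0000000c0000000400000000 0x10000000300000001f0000007c0000000e00000008 4 7) 0 0 (step_sound _ 68 [(rh79b3c29022acbdf3.shift 1 2), (rha9e1a5d55b907abf.shift 1 1), rhb00c6cda7b230383] (by decide +kernel))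
noncomputable def rh56579cb4ede6de45 : CRef := CRef.mk (Pat.mk 0xe00000006000000020000000000000000 0x40000000c0000000e000000070000003e0000000c00000004 4 6) 0 0 (step_sound _ 66 [(rhb0c1e7919d9be92d.shift 1 0), (rhf7ac44032989c9ef.shift 0 1)] (by decide +kernel))
noncomputable def rh283f076cb37b8f7e : CRef := CRef.mk (Pat.mk 0x28000000080000001c0000000000000000 0x3c0000001f0000007c0000000600000004 4 7) 0 0 (step_sound _ 98 [(rh29b9bbf62cfdeff1.shift 0 2), (rh7478433a598f2371.shift 1 0), (rh79b3c29022acbdf3.shift 1 2)] (by decide +kernel))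
noncomputable def rh4b2ee0b6c33f07dd : CRef := CRef.mk (Pat.mk 0xa000000020000000e000000000000000000000000 0x80000000b0000003e0000000f0000000c0000000400000004 4 6) 0 0 (step_sound _ 131 [(rh281c6819542c66e6.shift 2 0), (rh637906290267366a.shift 0 3), (rhfafeb437ceb8396d.shift 2 0)] (by decide +kernel))
noncomputable def rhe2bb31d199c51480 : CRef := CRef.mk (Pat.mk 0x1800000008000000280000001800000000 0x18000000380000003f0000007c00000064 4 7) 0 0 (step_sound _ 37 [(rh623bc71319a556df.shift 2 0), (rhf60aa8aede119d3b.shift 0 1), (rhfa8c7f01b0685da6.shift 1 0)] (by decide +kernel))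
noncomputable def rh86ae79a2d69651bb : CRef := CRef.mk (Pat.mk 0x80000000e0000000c0000000000000000 0x6000000060000000f0000003e0000000c0000000c0000000c 4 6) 0 0 (step_sound _ 130 [rh25b99fb509809bc9, (rh3cb04db3dd2b6a55.shift 2 0), (rhfb64ba5458f5c134.shift 1 0)] (by decide +kernel))
noncomputable def rh100fa814afed711b : CRef := CRef.mk (Pat.mk 0x60000000e000000040000000000000000 0x200000006000000060000000f0000003c0000000800000008 4 6) 0 0 (step_sound _ 193 [(rh6f1cbe15c631ee70.shift 1 2), rh86bd88d8b6da2a4f] (by decide +kernel))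
end Crest.Agent.S0047.Helper85.Cert
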