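import Crest.Agent.Lib.S0047.Helper85CertPL3F0
import Crest.Agent.Lib.S0047.Helper85CertPL3F1
import Crest.Agent.Lib.S0047.Helper85CertPL3F2
import Crest.Agent.Lib.S0047.Helper85CertPL3F3
import Crest.Agent.Lib.S0047.Helper85CertPL3F4
import Crest.Agent.Lib.S0047.Helper85CertPL3F5
set_option autoImplicit false
set_option linter.all false
set_option Elab.async false
namespace Crest.Agent.S0047.Helper85.Cert
open Crest.Agent.S0047.Helper85

noncomputable def rh0a18afb2ce71feb9 : CRef := CRef.mk (Pat.mk 0x40000000e000000040000000400000000 0x4000000040000000f0000003c0000000e0000000a 4 6) 0 0 (step_sound _ 33 [rh86bd88d8b6da2a4f, (rh932754581e0f4330.shift 1 0)] (by decide +kernel))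
noncomputable def rh1e8aacb127917080 : CRef := CRef.mk (Pat.mk 0xe0000001c0000000000000000 0x10000000300000003e0000001f0000000800000008 4 6) 0 0 (step_sound _ 100 [(rh34b1188e635efc8d.shift 1 0), (rhab2ad169e49f9c5e.shift 0 2)] (by decide +kernel))
noncomputable def rhc49dcbc8b1f304cb : CRef := CRef.mk (Pat.mk 0xc0000000c000000040000000400000000 0x140000003c0000000f0000000c0000000c00000008 4 6) 0 0 (step_sound _ 35 [(rh385b4795f5e132b8.shift 0 1), (rh55afc6a59410cf00.shift 2 0)] (by decide +kernel))
noncomputable def rh3605905534ed8bf2 : CRef := CRef.mk (Pat.mk 0x1000000018000000280000001800000000 0x10000000780000003f0000007800000020 4 7) 0 0 (step_sound _ 66 [(rh69012675dfdb1a5b.shift 0 2), (rh6d8b264d625f3ba7.shift 2 0), (rh7db7a7c44bba1772.shift 2 0), (rhfdaba9284cdfee4b.shift 0 1)] (by decide +kernel))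
noncomputable def rh09523eec71061f6e : CRef := CRef.mk (Pat.mk 0x80000000c000000040000000c00000000 0x20000000f0000003c000000040000000c00000008 4 6) 0 0 (step_sound _ 130 [(rh55afc6a59410cf00.shift 2 0), (rhcf85c92937975d4d.shift 0 1)] (by decide +kernel))
noncomputable def rh80322995f2027d27 : CRef := CRef.mk (Pat.mk 0x40000000600000002000000060000000000000000 0x80000000c0000000e000000070000003e0000000c0000000c 4 6) 0 0 (step_sound _ 98 [(rh15a1b6b82d9fd81f.shift 1 0), (rh36d4d92ef3dad5f8.shift 0 1), (rh820d4e04d5dcd02e.shift 1 0)] (by decide +kernel))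
noncomputable def rhd901a16037204365 : CRef := CRef.mk (Pat.mk 0x8000000080000000c0000001c000000000000000000000000 0x10000000180000001c0000000f0000001c000000080000000800000008 4 5) 0 0 (step_sound _ 128 [(rh33c3b913cf582fec.shift 2 0), (rhab22b5b56e7b3243.shift 0 3)] (by decide +kernel))
noncomputable def rh0dc52b6080f17e02 : CRef := CRef.mk (Pat.mk 0x18000000180000000800000008 0x80000000c0000000c0000003c0000001f0000000c00000008 4 6) 0 0 (step_sound _ 66 [(rhab2ad169e49f9c5e.shift 0 2), (rhc3f841aae05820e5.shift 2 0)] (by decide +kernel))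
noncomputable def rh47e31d689c0104b8 : CRef := CRef.mk (Pat.mk 0x18000000180000002800000008 0x40000003f0000001f0000003800000008 4 6) 0 0 (step_sound _ 98 [(rh125d97086ab6eb9f.shift 0 1), (rh50fbb5868c909700.shift 2 0)] (by decide +kernel))
noncomputable def rh14dd0ea8c9451c4f : CRef := CRef.mk (Pat.mk 0x1c0000001c 0x70000007f0000001c 4 7) 0 0 (step_sound _ 33 [rh771383521b68d2cd, rhb739f4f82bb681b4] (by decide +kernel))
noncomputable def rh5663699dce542bd2 : CRef := CRef.mk (Pat.mk 0x80000000e000000040000000000000000 0x7c0000000f000000040000000400000004 4 7) 0 0 (step_sound _ 2 [(rh9e3edb185cc347de.shift 2 0), (rhff7d63dcb3cf9f74.shift 0 3)] (by decide +kernel))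
noncomputable def rhe381240693a9a415 : CRef := CRef.mk (Pat.mk 0x100000001c00000000 0x370000003e00000007 4 6) 0 0 (step_sound _ 33 [(rh33e738c4ed385b9f.shift 1 1), rh56f43794bcf10c2f] (by decide +kernel))
noncomputable def rh57526f0ddb156580 : CRef := CRef.mk (Pat.mk 0x80000000e000000040000000000000000 0x2000000020000000f0000003e000000070000000400000004 4 6) 0 0 (step_sound _ 129 [(rh9f93e2b24091a43d.shift 0 2), (rhade0f4c81793f68e.shift 1 0), (rhbe707112c53dab40.shift 1 0)] (by decide +kernel))
noncomputable def rh556dc3dcfa932690 : CRef := CRef.mk (Pat.mk 0x100000001000000018000000280000000000000000 0x10000000300000007c0000002f0000002000000020 4 7) 0 0 (step_sound _ 101 [(rh08edf065357d68e5.shift 4 0), (rh2820ca9a6c4f41b4.shift 0 2)] (by decide +kernel))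
noncomputable def rhdd310332fe4d3103 : CRef := CRef.mk (Pat.mk 0x4000000040000001e00000010 0xc0000000c0000001c000000370000001e00000014 4 6) 0 0 (step_sound _ 131 [(rh6bf184c3cfc271b7.shift 1 0), (rhe02032acf8c36925.shift 0 1)] (by decide +kernel))
noncomputable def rhf2041c15b7c6015c : CRef := CRef.mk (Pat.mk 0x20000000a0000000b0000000800000000 0x140000001e0000000b0000000b0000001e00000014 4 5) 0 0 (step_sound _ 131 [rh0c3873a75f5344d2, (rh9258736a7488cc35.shift 0 1)] (by decide +kernel))
noncomputable def rh98e47a5f9fbd3525 : CRef := CRef.mk (Pat.mk 0x20000000e0000000b000000000000000000000000 0x4000000060000000e0000000b0000001f0000000f00000005 4 5) 0 0 (step_sound _ 65 [(rh1a977ecd22587fac.shift 0 1), rh3181373a30ceb9e3, (rha707fb719e87fe6e.shift 1 1)] (by decide +kernel))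
noncomputable def rha6551dd8cbc150c8 : CRef := CRef.mk (Pat.mk 0x20000000a0000000a000000080000000000000000 0x140000001e0000000f0000000a0000000e0000000e00000004 4 5) 0 0 (step_sound _ 162 [(rh22382a3bdc29b80e.shift 1 1), (rh43aaa02be9d23efd.shift 1 2), (rhc92aef9fc5433ae0.shift 1 0), (rhffa5170e738fb874.shift 0 2)] (by decide +kernel))
noncomputable def rh9b39567564476cde : CRef := CRef.mk (Pat.mk 0x20000000a0000000b0000000800000000 0x4000000060000000e0000000b0000001e0000000e 4 5) 0 0 (step_sound _ 33 [rh6a56790be92093bf, (rhc5998ce9d02e6204.shift 1 0)] (by decide +kernel))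
noncomputable def rhe8713864cf84ead4 : CRef := CRef.mk (Pat.mk 0x8000000080000002c000000080000000400000000 0x10000000180000000f0000003c000000080000000c0000000c 4 6) 0 0 (step_sound _ 164 [(rh2f68792b6b779e96.shift 3 2), rhdfd06870a5dade14] (by decide +kernel))
noncomputable def rhb5c30dd3513cb37a : CRef := CRef.mk (Pat.mk 0x80000000c000000170000000000000000 0x80000003c000000170000003e00000014 4 6) 0 0 (step_sound _ 34 [(rh71222050f2c63a3a.shift 2 0), rhd3b9018577d3591f] (by decide +kernel))
noncomputable def rhe1f2bad0ed2c12a3 : CRef := CRef.mk (Pat.mk 0x80000002c00000000 0x7f0000003f00000070 4 7) 0 0 (step_sound _ 33 [rh1a8b51fb005158ac, (rha0198dc55831a65f.shift 0 1), (rha11dfd15f08f96e3.shift 0 1), (rhff7d63dcb3cf9f74.shift 0 1)] (by decide +kernel))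
noncomputable def rh859a4feff0f2e4b2 : CRef := CRef.mk (Pat.mk 0xc000000080000002c00000008 0x100000003f0000007c0000003f00000008 4 7) 0 0 (step_sound _ 69 [(rh51e1f1422a1251a9.shift 0 1), (rh75f4fd8c2b3f2eb9.shift 0 1), (rhc7faf31fa9e0d757.shift 2 0), (rhe0b1a1ececb379da.shift 2 1)] (by decide +kernel))
noncomputable def rh9be7016e6c638784 : CRef := CRef.mk (Pat.mk 0x1c000000080000002c 0x4000000060000007c0000000f0000003c 4 7) 0 0 (step_sound _ 34 [(rh0f936b2c74e7b815.shift 1 0), rhf23dc93573c5637f] (by decide +kernel))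
noncomputable def rh56eccda6dfe71ba0 : CRef := CRef.mk (Pat.mk 0x380000001000000058000000000000000000000000 0x70000007e0000001f00000078000000180000000800000008 4 7) 0 0 (step_sound _ 162 [(rh2cc7d62e70c02209.shift 0 4), (rh418fce8251b9db03.shift 1 3), (rhe4fb6a16b1f7b4e3.shift 1 0)] (by decide +kernel))
noncomputable def rh5c038409da414165 : CRef := CRef.mk (Pat.mk 0xe000000020000000b00000000 0x40000000f0000001a0000000f0000000a 4 5) 0 0 (step_sound _ 130 [(rh71222050f2c63a3a.shift 1 0), rhee7e76dc31684315] (by decide +kernel))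
noncomputable def rh4a206907f274b8cb : CRef := CRef.mk (Pat.mk 0x38000000080000000800000000 0x770000003e000000080000000800000008 4 7) 0 0 (step_sound _ 98 [(rh00f1bb10334541e3.shift 0 3), (rh132883a60cd8aed8.shift 1 0), (rh261f868a429ae0e3.shift 2 0), (rh371357d551e5b98c.shift 1 0)] (by decide +kernel))
noncomputable def rh7c372b0075b9a7d4 : CRef := CRef.mk (Pat.mk 0xe000000000000000b00000000 0x4000000040000000c0000000f000000180000000f00000008 4 5) 0 0 (step_sound _ 67 [(rh9c5a86d855687a4f.shift 0 1), (rhb1a251d9bff81766.shift 2 0)] (by decide +kernel))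
noncomputable def rh6fee4d356eab505b : CRef := CRef.mk (Pat.mk 0x18000000080000002c000000080000000000000000 0x180000000f0000003c0000000c0000000c0000000c 4 6) 0 0 (step_sound _ 34 [(rh79877ebd3ef475dd.shift 2 1), rhdfd06870a5dade14] (by decide +kernel))
noncomputable def rhfd06097de3657795 : CRef := CRef.mk (Pat.mk 0x1800000010000000180000001000000000 0x240000007f0000003e000000180000001800000008 4 7) 0 0 (step_sound _ 99 [rh9ed49c34a595f0ef, (rhc0ddb33d3a52722b.shift 1 1)] (by decide +kernel))
noncomputable def rh1cfed990208ac246 : CRef := CRef.mk (Pat.mk 0x500000007000000040000000000000000 0x70000000700000007000000070000000600000006 4 3) 0 0 (step_sound _ 33 [(rh5ddbeed5d869bf16.shift 1 0), (rh752c9303f297f9fa.shift 1 0), (rhe3494b329389a185.shift 0 1)] (by decide +kernel))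
noncomputable def rh9e103c06593ec5db : CRef := CRef.mk (Pat.mk 0x80000001800000018000000000000001000000000 0x40000001f0000007800000018000000080000001800000018 4 7) 0 0 (step_sound _ 162 [(rh4ca5dae25f5c14ff.shift 0 4), (rh893cc38141f4926a.shift 2 0)] (by decide +kernel))
noncomputable def rh35d364533695abf1 : CRef := CRef.mk (Pat.mk 0x80000001800000018000000000000000000000000 0x40000001f0000007c00000018000000080000000800000008 4 7) 0 0 (step_sound _ 162 [(rh6abf65651ac164b5.shift 2 0), (rhaeecc7287588a69b.shift 2 0), (rhdeca8db941583de2.shift 0 4)] (by decide +kernel))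
noncomputable def rhc6698dddb94a483d : CRef := CRef.mk (Pat.mk 0x80000001800000018000000000000000000000000 0xc0000000c0000000f0000007c00000018000000080000000800000008 4 7) 0 0 (step_sound _ 162 [(rh384619215a59ba54.shift 2 2), (rh6abf65651ac164b5.shift 2 0), (rhdeca8db941583de2.shift 0 4)] (by decide +kernel))
noncomputable def rh1dc9c6983d482ffa : CRef := CRef.mk (Pat.mk 0x180000005800000000 0x3c0000007f000000e0 4 8) 0 0 (step_sound _ 37 [rh2a14c815463ca7ed, (rh3244c3cc8379b070.shift 2 1)] (by decide +kernel))
noncomputable def rh6cd8d231e43e2c2b : CRef := CRef.mk (Pat.mk 0x20000000600000006000000040000000000000000 0x50000000700000007000000070000003e0000000a00000002 4 6) 0 0 (step_sound _ 65 [(rh6759a8bbc457c8e7.shift 0 1), rhdf997f77704b6375, (rhea7a1800d6f053bd.shift 1 0)] (by decide +kernel))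
noncomputable def rh31f643cf5f792477 : CRef := CRef.mk (Pat.mk 0x800000018000000180000001000000000 0x10000000140000001f00000038000000380000003800000028 4 6) 0 0 (step_sound _ 132 [(rh0ff7ca71cb891e23.shift 3 0), rh9ed49c34a595f0ef, (rhea7a1800d6f053bd.shift 3 0)] (by decide +kernel))
noncomputable def rh592f8882bea0b18d : CRef := CRef.mk (Pat.mk 0x40000000c0000000c00000008000000000000000000000000 0x80000000c0000000c0000001f0000007c000000140000001000000010 4 7) 0 0 (step_sound _ 100 [(rh046c5eb18e55a239.shift 3 0), (rh7010751167f39a3c.shift 2 2), (rhdeca8db941583de2.shift 0 3)] (by decide +kernel))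
noncomputable def rhc98b34074cea9ada : CRef := CRef.mk (Pat.mk 0x2000000000000000600000007000000000000000000000000 0x20000000a0000001e00000007000000040000000400000004 4 5) 0 0 (step_sound _ 66 [(rh6f1cbe15c631ee70.shift 1 2), rhf8d29f3cbeaf06f7] (by decide +kernel))
noncomputable def rhbc44cb85ae8936a3 : CRef := CRef.mk (Pat.mk 0x4000000040000001e000000000000000000000000 0xe0000000e0000000e000000070000001e000000040000000400000004 4 5) 0 0 (step_sound _ 66 [(rh7ef5fa5c39f1c762.shift 1 2), (rh861b585789385398.shift 0 2), rhe8ba5e25e7c74702] (by decide +kernel))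
noncomputable def rhbd3e4805ad0ba0fe : CRef := CRef.mk (Pat.mk 0x20000000a0000000b00000002 0x50000000f0000001a0000000f00000002 4 5) 0 0 (step_sound _ 68 [(rh1c62b6193297d9e3.shift 0 1), rh330a005829cdd297] (by decide +kernel))
noncomputable def rhe0ef281accfd32f5 : CRef := CRef.mk (Pat.mk 0x40000001400000016000000040000000000000000 0x4000000370000001e000000060000000600000006 4 6) 0 0 (step_sound _ 33 [(rh79877ebd3ef475dd.shift 1 1), rha523681e48c989d6] (by decide +kernel))
noncomputable def rhf41b2f66f9284952 : CRef := CRef.mk (Pat.mk 0x1400000016000000040000000000000000 0x2000000370000001e000000040000000400000004 4 6) 0 0 (step_sound _ 99 [(rh33e738c4ed385b9f.shift 1 3), rhe8ba5e25e7c74702] (by decide +kernel))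
noncomputable def rhfd509c89469f441f : CRef := CRef.mk (Pat.mk 0x80000001c000000160000000000000000 0x380000001f0000001e0000003000000030 4 6) 0 0 (step_sound _ 36 [(rh7b1f1fb55310c477.shift 3 0), rhf779d76898a55852] (by decide +kernel))
noncomputable def rhb1a92371935acda1 : CRef := CRef.mk (Pat.mk 0x38000000080000002800000000 0x4000000770000003e0000006e0000002800000020 4 7) 0 0 (step_sound _ 98 [(rh00f1bb10334541e3.shift 0 3), (rh6d93b2abe1340970.shift 1 0), (rhe4f9133a81c1dbc5.shift 1 1)] (by decide +kernel))
noncomputable def rh2a5ebc2e705f04ba : CRef := CRef.mk (Pat.mk 0xa0000000a0000000b00000000 0x40000000f0000001a0000000f0000000a 4 5) 0 0 (step_sound _ 68 [(rh1c62b6193297d9e3.shift 0 1), rh482dbb16cfbb812d] (by decide +kernel))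
noncomputable def rh10864d3af06460a9 : CRef := CRef.mk (Pat.mk 0x8000000080000000b000000000000000000000000 0x1000000018000000180000000f000000180000001800000010 4 5) 0 0 (step_sound _ 67 [(rh0a88cd63e34485c5.shift 0 1), (rh5f11ee373cbffcaa.shift 0 1), (rhec588a0d7783acc6.shift 3 0)] (by decide +kernel))
noncomputable def rh8800f0df3b5b5b2f : CRef := CRef.mk (Pat.mk 0xa0000000a0000000a00000000 0x40000001f0000007a0000000a0000000a 4 7) 0 0 (step_sound _ 98 [(rh8ee80cc30e93a344.shift 0 2), (rhd8a13c7f042cc6ea.shift 1 0)] (by decide +kernel))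
noncomputable def rh4b17d840c77809a2 : CRef := CRef.mk (Pat.mk 0x8000000080000000b0000000000000000 0x140000001c0000001c000000080000000f0000001800000010 4 5) 0 0 (step_sound _ 35 [rh5f11ee373cbffcaa, (rh7ef5fa5c39f1c762.shift 2 1)] (by decide +kernel))
noncomputable def rh8f4d9ff695ee5bf4 : CRef := CRef.mk (Pat.mk 0x40000000c000000060000000400000000 0x2000000070000003e000000060000000400000004 4 6) 0 0 (step_sound _ 100 [(rh18965a982d73c794.shift 1 2), rh29245de5933fbe8d] (by decide +kernel))
noncomputable def rh2dd23789115a02f3 : CRef := CRef.mk (Pat.mk 0x20000000600000003000000020000000000000000 0x20000000700000007000000030000000300000003 4 3) 0 0 (step_sound _ 32 [rh37f396829b5f0b86, (rh79877ebd3ef475dd.shift 0 1)] (by decide +kernel))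
noncomputable def rh8bbb80de8d54d517 : CRef := CRef.mk (Pat.mk 0x3800000058 0x3f0000007f 4 7) 0 0 (step_sound _ 1 [(rh24ae073cf30720c4.shift 1 0), rh83eb547915d40629] (by decide +kernel))
noncomputable def rh7e390ac552b7931b : CRef := CRef.mk (Pat.mk 0x1c000000180000001000000000 0x1800000018000000180000001f0000001f0000003800000028 4 6) 0 0 (step_sound _ 132 [(rh1e309b005ffa1b36.shift 3 0), rh39848790f9efd77c, (rh7f9f3607ee25a93b.shift 3 1)] (by decide +kernel))
noncomputable def rh0c2a9b4f6c6bac74 : CRef := CRef.mk (Pat.mk 0x160000001e0000000000000000 0x10000000300000001e0000001f0000000800000008 4 6) 0 0 (step_sound _ 99 [(rh34b1188e635efc8d.shift 1 0), (rh53b3c253cb0c65f4.shift 0 2)] (by decide +kernel))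
noncomputable def rhf69f38b0c5454364 : CRef := CRef.mk (Pat.mk 0x6000000060000001600000000 0x400000004000000070000003e0000001f00000008 4 6) 0 0 (step_sound _ 130 [rh0a16481190c8aa10, (rh5c5e593799055d58.shift 1 1)] (by decide +kernel))
noncomputable def rh661450a32479ba23 : CRef := CRef.mk (Pat.mk 0x80000003800000008000000000000000000000000 0x40000000f0000003c000000080000001c0000001c00000014 4 6) 0 0 (step_sound _ 67 [(rh29245de5933fbe8d.shift 1 1), (rh3181373a30ceb9e3.shift 2 0), (rh53509d91ff78ed56.shift 0 2)] (by decide +kernel))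
noncomputable def rh677af051aa1f5729 : CRef := CRef.mk (Pat.mk 0x1600000006000000040000000000000000 0x3000000070000001e00000006000000060000000200000002 4 5) 0 0 (step_sound _ 161 [(rh2145e1d24b96a57e.shift 1 2), rh32bf49a81a1a9897] (by decide +kernel))
noncomputable def rh4fe580567921c623 : CRef := CRef.mk (Pat.mk 0x600000016000000040000000000000000 0x5000000070000001e000000060000000600000006 4 5) 0 0 (step_sound _ 128 [(rh2fe78cc5ca4405d8.shift 0 3), rha0f16c71b89af744] (by decide +kernel))
noncomputable def rh0384a59209a8fba2 : CRef := CRef.mk (Pat.mk 0xa0000000b0000000a0000000000000000 0x1000000018000000190000000f0000000f0000000e0000000e00000006 4 5) 0 0 (step_sound _ 163 [(rh257fa66c90152105.shift 1 0), (rh402d223d12d7377d.shift 2 1), rh64f81e58cbfea41b] (by decide +kernel))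
noncomputable def rh3d0074e0c4920811 : CRef := CRef.mk (Pat.mk 0xa0000000b0000000a000000000000000000000000 0xa0000000a0000000b0000000f0000001d0000001d00000014 4 5) 0 0 (step_sound _ 67 [(rh03cc326bf07d2d6d.shift 1 1), (rh3181373a30ceb9e3.shift 2 0), (rhe3958225ccedbfeb.shift 0 1)] (by decide +kernel))
noncomputable def rh869367879aed35c6 : CRef := CRef.mk (Pat.mk 0x3800000018000000100000000000000000 0x60000003f00000038000000180000001800000018 4 6) 0 0 (step_sound _ 130 [(rhad5d8fc3675c15dd.shift 0 3), (rhe970c0e81a9d6ea7.shift 1 0)] (by decide +kernel))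
noncomputable def rh16cadd6ffe0cbfb4 : CRef := CRef.mk (Pat.mk 0x700000001800000010 0x8000000ec0000007f0000003800000010 4 8) 0 0 (step_sound _ 67 [(rh309fd0c3d364cd61.shift 2 0), (rh8494d90e6cc2534b.shift 0 1)] (by decide +kernel))
noncomputable def rh07d7514f30ba6b97 : CRef := CRef.mk (Pat.mk 0xc0000001c00000000 0x1000000010000000700000007f0000001f00000008 4 7) 0 0 (step_sound _ 68 [(rh1b80270a8621e059.shift 0 1), rh63fd7d77606c88e1, (rhab2ad169e49f9c5e.shift 0 1)] (by decide +kernel))
noncomputable def rhd138f889992e00f6 : CRef := CRef.mk (Pat.mk 0xc0000001c000000100000000000000000 0x1000000010000000300000007f0000001f000000180000001000000010 4 7) 0 0 (step_sound _ 132 [(rh63fd7d77606c88e1.shift 0 2), (rhab2ad169e49f9c5e.shift 0 3), (rhf8d29f3cbeaf06f7.shift 2 0)] (by decide +kernel))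
noncomputable def rh7da29d6027ee5864 : CRef := CRef.mk (Pat.mk 0x60000001c000000100000000000000000 0x3000000030000000fe0000001f000000180000000800000008 4 8) 0 0 (step_sound _ 132 [rh514a2246e2e8a0d7, (rh79a2cce65bf4035c.shift 1 1), (rhff7d63dcb3cf9f74.shift 1 3)] (by decide +kernel))
noncomputable def rh53fd21747f61abc9 : CRef := CRef.mk (Pat.mk 0xe0000000a0000000800000000 0x1c0000003c0000000e0000000f0000001c00000014 4 6) 0 0 (step_sound _ 131 [(rh4017de503635a93b.shift 1 1), rh431b16932aec1393] (by decide +kernel))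
noncomputable def rhf8cd99bcb550e553 : CRef := CRef.mk (Pat.mk 0x40000001c00000014000000100000000000000000 0x40000001c0000001f000000380000001800000018 4 6) 0 0 (step_sound _ 99 [(rhf2c54251c789958e.shift 2 0), (rhf56e6bc5d2f7fe77.shift 0 2)] (by decide +kernel))
noncomputable def rhf4c881faf5972228 : CRef := CRef.mk (Pat.mk 0x280000002c00000000 0x3f0000003f00000070 4 7) 0 0 (step_sound _ 33 [rh1a8b51fb005158ac, (rhddb24c61d0a0d35a.shift 0 1), (rhf4585caa3b13e38a.shift 0 1)] (by decide +kernel))
noncomputable def rhbeccb01a9f4ea548 : CRef := CRef.mk (Pat.mk 0xc0000001c000000100000000000000000 0x10000000300000007f0000001f000000180000001800000010 4 7) 0 0 (step_sound _ 132 [(rhab2ad169e49f9c5e.shift 0 3), (rhb00c6cda7b230383.shift 0 1), (rhf8d29f3cbeaf06f7.shift 2 0)] (by decide +kernel))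
noncomputable def rhbd922aa3572157da : CRef := CRef.mk (Pat.mk 0xa0000000a0000000800000000 0x10000000180000001e0000001f0000000800000008 4 5) 0 0 (step_sound _ 100 [(rhda02c4ce0b224328.shift 0 2), (rhe3458ab40071103b.shift 3 0)] (by decide +kernel))
noncomputable def rheaeedf48351ea42c : CRef := CRef.mk (Pat.mk 0x28000000280000002000000000 0x10000000300000007c0000003f0000002000000020 4 7) 0 0 (step_sound _ 100 [(rh2820ca9a6c4f41b4.shift 0 2), (rh7b24c4ccc068b0b2.shift 4 0)] (by decide +kernel))
noncomputable def rhb76e2ac3c74904c3 : CRef := CRef.mk (Pat.mk 0x280000002c0000002000000000 0x100000001000000030000000380000003f0000002000000020 4 6) 0 0 (step_sound _ 100 [(rhb1a251d9bff81766.shift 4 0), (rheea1a90336e79c71.shift 0 2)] (by decide +kernel))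
noncomputable def rhd5508566f9334fb1 : CRef := CRef.mk (Pat.mk 0x200000002c00000000 0x670000003e00000007 4 7) 0 0 (step_sound _ 36 [rh2cc7d62e70c02209, (rh33e738c4ed385b9f.shift 2 1)] (by decide +kernel))
noncomputable def rhf2c698d992cd426e : CRef := CRef.mk (Pat.mk 0x8000000080000000a000000000000000000000000 0x40000000c0000000c0000000c0000000f0000001c0000001c00000010 4 5) 0 0 (step_sound _ 67 [(rh0fd870c734e6c513.shift 2 1), (rhc37884b8bcc4b237.shift 0 1), (rhcae87bda2c3c01d2.shift 2 0)] (by decide +kernel))
noncomputable def rhe5b64f6e059a641e : CRef := CRef.mk (Pat.mk 0x200000002c0000002800000000 0x500000007000000070000000200000002f0000003c00000010 4 7) 0 0 (step_sound _ 133 [(rh7ef5fa5c39f1c762.shift 4 1), rh9897f02f7d5d11c3] (by decide +kernel))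
noncomputable def rh6ee0256c86f8501f : CRef := CRef.mk (Pat.mk 0x40000001e00000014000000000000000000000000 0x100000003c0000001e0000001f000000380000001800000010 4 6) 0 0 (step_sound _ 99 [(rha240d968d16a7f4e.shift 1 1), rhcb68da4f2dc5e7fd] (by decide +kernel))
noncomputable def rh89536becce4a9eeb : CRef := CRef.mk (Pat.mk 0xe0000000a00000008 0x10000000300000001e0000003b00000008 4 6) 0 0 (step_sound _ 68 [(rhbbda3e5cf400e6dd.shift 1 0), (rheb0810cc63b001d8.shift 0 1)] (by decide +kernel))
noncomputable def rh678dbc6f9c9ad34f : CRef := CRef.mk (Pat.mk 0x8000000080000000a0000000800000000 0x8000000080000000f0000003c00000014 4 6) 0 0 (step_sound _ 34 [rh73d97e8c533f78f2, (rh932754581e0f4330.shift 2 0)] (by decide +kernel))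
noncomputable def rhadd5ada196ebe64b : CRef := CRef.mk (Pat.mk 0x1c0000000800000020 0x3f0000007f00000030 4 7) 0 0 (step_sound _ 33 [(rh076be03eb7063320.shift 0 1), (rh72297cd55a503360.shift 0 1), (rha73d2f02f1987481.shift 1 0), (rhd526f9b20c752965.shift 0 1)] (by decide +kernel))
noncomputable def rh976cad1cc05d9822 : CRef := CRef.mk (Pat.mk 0x80000000c0000001c00000010 0x1000000030000000780000007f0000001f00000018 4 7) 0 0 (step_sound _ 68 [(rh1b80270a8621e059.shift 0 1), (rhab2ad169e49f9c5e.shift 0 1), rhb1f925247e02648e] (by decide +kernel))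
noncomputable def rhcb4e137efa3d4432 : CRef := CRef.mk (Pat.mk 0xe0000001c000000100000000000000000 0x1000000010000000300000007e0000001f000000180000001000000010 4 7) 0 0 (step_sound _ 132 [(rh5ba2d67652840f34.shift 1 2), (rhab2ad169e49f9c5e.shift 0 3), (rhf8d29f3cbeaf06f7.shift 2 0)] (by decide +kernel))
noncomputable def rhf5032e926abfd030 : CRef := CRef.mk (Pat.mk 0x200000007000000040000000400000000 0xc0000001e000000070000003e0000000c00000008 4 6) 0 0 (step_sound _ 130 [(rh712526e472efe489.shift 0 1), rhf2d737ced64179df] (by decide +kernel))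
noncomputable def rhfd55a6946499fe93 : CRef := CRef.mk (Pat.mk 0x200000002000000020000000000000000 0x400000006000000060000000200000007000000070000000700000005 4 3) 0 0 (step_sound _ 161 [rh3181373a30ceb9e3, (rh402d223d12d7377d.shift 0 1), (rh426f403fa814630c.shift 1 1)] (by decide +kernel))
noncomputable def rhf2da1b4f900135f1 : CRef := CRef.mk (Pat.mk 0x180000003800000020 0x1f0000003f00000060 4 7) 0 0 (step_sound _ 34 [(rhcda410b351c20b9b.shift 0 1), (rhe25b0a99195a5d59.shift 2 0)] (by decide +kernel))
noncomputable def rh84e8dc9ce9849555 : CRef := CRef.mk (Pat.mk 0x20000000a000000080000000a0000000800000000 0x60000000f0000007a0000001e0000003c00000010 4 7) 0 0 (step_sound _ 66 [(rh5b21296311ae2a17.shift 1 0), (rh6320d9c34b5de45b.shift 0 1)] (by decide +kernel))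
noncomputable def rh5403d84323993bd9 : CRef := CRef.mk (Pat.mk 0x20000000a000000080000000a0000000800000000 0x5000000070000000f0000000a0000000b0000000b00000001 4 4) 0 0 (step_sound _ 97 [rh0c1c1b53bc5a1510, (rhade792e06a060dd4.shift 1 1)] (by decide +kernel))
noncomputable def rh57e7caa9712bfc81 : CRef := CRef.mk (Pat.mk 0x20000000a000000080000000a00000008 0x4000000060000000e0000001a0000000f0000000d 4 5) 0 0 (step_sound _ 65 [(rhade792e06a060dd4.shift 1 0), rhe8768a83bdb59c61] (by decide +kernel))
noncomputable def rh9fa1a31ea632b5f9 : CRef := CRef.mk (Pat.mk 0x20000000a000000080000000a0000000800000000 0x20000000a0000000a0000000f0000003c00000010 4 6) 0 0 (step_sound _ 36 [(rh55afc6a59410cf00.shift 3 0), (rha1f163eb7c830efa.shift 0 1)] (by decide +kernel))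
noncomputable def rh3957dce264fa60e8 : CRef := CRef.mk (Pat.mk 0xe000000080000000800000008000000000000000000000000 0xf0000001800000018000000180000001c0000001c00000004 4 5) 0 0 (step_sound _ 67 [rhbb55841262799237, (rhd29a1fb688eae70f.shift 3 1)] (by decide +kernel))
noncomputable def rh05d8d916515b7f9c : CRef := CRef.mk (Pat.mk 0xe000000080000000800000008000000000000000000000000 0xf00000018000000180000000c0000001c0000001c00000010 4 5) 0 0 (step_sound _ 67 [rh270c36d11d470aa6, (rh7928877f9bf74a91.shift 2 1)] (by decide +kernel))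
noncomputable def rh272e7b15b4dbedf4 : CRef := CRef.mk (Pat.mk 0x10000000500000004000000050000000400000000 0x2000000030000000700000005000000070000000600000002 4 3) 0 0 (step_sound _ 33 [(rh81e2bd15b21dd102.shift 0 1), (rh932754581e0f4330.shift 1 0)] (by decide +kernel))
noncomputable def rhd70e89b9efa53bbc : CRef := CRef.mk (Pat.mk 0xa000000080000000a0000000800000000 0x40000000f000000780000001f0000003c00000004 4 7) 0 0 (step_sound _ 66 [rh11e4e94f09451f20, (rh6320d9c34b5de45b.shift 0 1), (rhcf86d050071af9b3.shift 0 1)] (by decide +kernel))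
noncomputable def rhc4dfcd1776ed4a77 : CRef := CRef.mk (Pat.mk 0x20000000a000000080000000a00000008 0x4000000060000000e0000001a0000000f00000019 4 5) 0 0 (step_sound _ 130 [rhce21cda93a154b7f, (rhffd04209dc8ea796.shift 2 0)] (by decide +kernel))
noncomputable def rhe725f6ab9e777651 : CRef := CRef.mk (Pat.mk 0x20000000a000000080000000a0000000800000000 0x20000000a0000000a0000000f0000003c00000004 4 6) 0 0 (step_sound _ 34 [(rh490c03f47f24f788.shift 0 1), (rh932754581e0f4330.shift 2 0)] (by decide +kernel))
noncomputable def rhde27a1f8f8f60ef1 : CRef := CRef.mk (Pat.mk 0xa0000000a000000080000000800000000 0x100000001e0000000f000000080000001800000010 4 5) 0 0 (step_sound _ 4 [(rhc16db94c2420f4f5.shift 0 1), (rhd3458b32566d63f7.shift 3 0)] (by decide +kernel))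
noncomputable def rh1a68cd3d8bb2fa3d : CRef := CRef.mk (Pat.mk 0xa0000000a00000008000000080000000400000000 0x100000001e0000000f00000008000000080000000c00000004 4 5) 0 0 (step_sound _ 2 [(rhc16db94c2420f4f5.shift 0 2), (rheea67dfebd0f8008.shift 2 0)] (by decide +kernel))
noncomputable def rh96d2df05ad542e24 : CRef := CRef.mk (Pat.mk 0xa0000000a00000008000000080000001000000000 0x100000001e0000000f00000008000000080000001800000010 4 5) 0 0 (step_sound _ 4 [(rhbe0e43a3bc50a43f.shift 3 0), (rhc16db94c2420f4f5.shift 0 2)] (by decide +kernel))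
noncomputable def rhec56e907becc2124 : CRef := CRef.mk (Pat.mk 0x5000000060000000600000000 0x400000004000000070000003e0000003f00000008 4 6) 0 0 (step_sound _ 68 [(rh0e0436c262b0f811.shift 1 0), (rhc47d8aee3882bf78.shift 0 1)] (by decide +kernel))
noncomputable def rhca59efe74030e3e7 : CRef := CRef.mk (Pat.mk 0x200000003000000020000000000000000 0x400000006000000060000000200000007000000070000000700000005 4 3) 0 0 (step_sound _ 161 [(rh03dfdf12d5937476.shift 0 1), rh3181373a30ceb9e3, (rh426f403fa814630c.shift 1 1)] (by decide +kernel))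
noncomputable def rh7254604d96e61050 : CRef := CRef.mk (Pat.mk 0x10000000500000006000000040000000000000000 0x40000000500000007000000070000003e0000000a00000002 4 6) 0 0 (step_sound _ 65 [rh4f5da4dafb6dd81a, (rhf7ac44032989c9ef.shift 0 1)] (by decide +kernel))
noncomputable def rh0404b21eaea75f03 : CRef := CRef.mk (Pat.mk 0x400000004000000180000001000000008 0x40000000c0000003c0000001f00000008 4 6) 0 0 (step_sound _ 35 [rh4d6ca360b813ed23, (rhcfdf45280693d3da.shift 2 0)] (by decide +kernel))
noncomputable def rha43b617269901ebb : CRef := CRef.mk (Pat.mk 0x80000000c00000008000000000000000000000000 0x8000000080000001f00000078000000180000001000000010 4 7) 0 0 (step_sound _ 100 [(rh046c5eb18e55a239.shift 3 0), (rh4ca5dae25f5c14ff.shift 0 3), (rh70e33bfdf511e144.shift 3 0)] (by decide +kernel))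
noncomputable def rh9780d53f0790be85 : CRef := CRef.mk (Pat.mk 0x80000000c000000380000000000000000 0x40000000c0000000c0000003c0000000f0000000c 4 6) 0 0 (step_sound _ 35 [rh322e79f034282812, (rhe286c75f2739cce2.shift 2 0)] (by decide +kernel))
noncomputable def rhb5b09d717d16cd23 : CRef := CRef.mk (Pat.mk 0x20000000a0000000e0000000200000000 0x80000000a0000000a0000003f0000007e00000014 4 7) 0 0 (step_sound _ 36 [rh1c0def99c44bdf21, (rh71efda916732b25a.shift 0 1), rhb456ef3aa6436476, (rhfefa85439208aeb8.shift 1 0)] (by decide +kernel))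
noncomputable def rhc48a3281eb030b54 : CRef := CRef.mk (Pat.mk 0x1000000070000000e000000000000000000000000 0x5000000070000000f0000003e0000000e0000000e 4 6) 0 0 (step_sound _ 66 [rh86bd88d8b6da2a4f, rhf2c54251c789958e] (by decide +kernel))
noncomputable def rh73c0cb930217bc98 : CRef := CRef.mk (Pat.mk 0x3800000020 0xf0000007e0000003f 4 7) 0 0 (step_sound _ 34 [(rh56f43794bcf10c2f.shift 1 0), rhd1d05263fabc0227, rhdceeca65bdd8095a] (by decide +kernel))
noncomputable def rha9552956f48260bb : CRef := CRef.mk (Pat.mk 0x100000007800000010 0x3f0000007f00000018 4 7) 0 0 (step_sound _ 34 [rh055db6938db19010, (rhd5eb272e07a4e288.shift 1 1), (rhedf6b6c69a16cbd5.shift 0 1)] (by decide +kernel))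
noncomputable def rh58814482be555a02 : CRef := CRef.mk (Pat.mk 0x400000004000000100000003800000000 0x400000004000000fe0000007e00000007 4 8) 0 0 (step_sound _ 34 [rhb495d533c1c4495a, (rhec46bd5500c722c9.shift 1 1), (rhf94411b389c3e54c.shift 1 1)] (by decide +kernel))
noncomputable def rhcfa445e53599bbf1 : CRef := CRef.mk (Pat.mk 0x4000000140000001000000038000000000000000000000000 0x400000014000000740000003e000000670000002000000020 4 7) 0 0 (step_sound _ 98 [(rhb495d533c1c4495a.shift 0 2), (rhd132b680030c88e0.shift 2 0), (rhec46bd5500c722c9.shift 1 3)] (by decide +kernel))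
noncomputable def rheaf5453bdfd1db11 : CRef := CRef.mk (Pat.mk 0x4000000040000001c00000000 0x40000000400000004000000070000001e0000000a 4 5) 0 0 (step_sound _ 130 [(rh55afc6a59410cf00.shift 2 0), rh642b26d7cba6ff2f] (by decide +kernel))
noncomputable def rhab0a51944a639071 : CRef := CRef.mk (Pat.mk 0x4000000040000001e00000000 0x400000004000000040000003c0000001f00000002 4 6) 0 0 (step_sound _ 68 [(rh33e738c4ed385b9f.shift 1 1), rh8917134d04e06b59] (by decide +kernel))
noncomputable def rh10eb5a1ae8c9a3ff : CRef := CRef.mk (Pat.mk 0x40000000c0000001c000000000000000000000000 0xe0000007c0000001f000000300000001000000010 4 7) 0 0 (step_sound _ 132 [(rhab2ad169e49f9c5e.shift 0 3), (rhb762f327c85d41a0.shift 1 3), rhcb68da4f2dc5e7fd] (by decide +kernel))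
noncomputable def rha27d362d19efe760 : CRef := CRef.mk (Pat.mk 0x40000000c0000001c0000000000000000 0x10000000360000007f0000001c0000000800000008 4 7) 0 0 (step_sound _ 100 [rhb00c6cda7b230383, (rhb762f327c85d41a0.shift 1 2)] (by decide +kernel))
noncomputable def rh5165e7b392466a0f : CRef := CRef.mk (Pat.mk 0x1c0000000800000028 0x4000000060000007c0000001f0000003c 4 7) 0 0 (step_sound _ 34 [(rh0f936b2c74e7b815.shift 1 0), (rh4dc133ee0ba1420a.shift 0 1), rhf25e8718cccf073b] (by decide +kernel))
noncomputable def rh1dff13e8c6c5d248 : CRef := CRef.mk (Pat.mk 0xe000000020000000a00000000 0x40000000c0000001f0000007e0000000f00000008 4 7) 0 0 (step_sound _ 67 [(rh1e2a9ad0a8094cd9.shift 0 1), (rh7b24c4ccc068b0b2.shift 2 0), (rh8ee80cc30e93a344.shift 0 2)] (by decide +kernel))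
noncomputable def rhefd63ac50bcd13b7 : CRef := CRef.mk (Pat.mk 0x1e00000002000000020000000000000000 0x70000001e00000002000000060000000600000004 4 5) 0 0 (step_sound _ 33 [(rh2f68792b6b779e96.shift 1 1), rh3817a9cfaecd62ec] (by decide +kernel))
noncomputable def rhc600a051aff3735c : CRef := CRef.mk (Pat.mk 0x1e0000000200000002000000000000000000000000 0x30000001e0000000600000006000000070000000700000001 4 5) 0 0 (step_sound _ 65 [(rh3817a9cfaecd62ec.shift 0 1), rh8aec56c4ee12918c] (by decide +kernel))
noncomputable def rh6b478a440aed82b9 : CRef := CRef.mk (Pat.mk 0x1e0000001c000000000000000000000000 0x40000001e0000001f000000030000000200000002 4 5) 0 0 (step_sound _ 97 [(rh53b3c253cb0c65f4.shift 0 3), rh9a011a4d0ec8f646] (by decide +kernel))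
noncomputable def rh86440d954a49f35b : CRef := CRef.mk (Pat.mk 0x1c000000140000000000000000 0x14000000760000007f0000001c0000000800000008 4 7) 0 0 (step_sound _ 67 [(rh073589708c2d81a3.shift 1 0), (rh1b80270a8621e059.shift 0 2), rhb00c6cda7b230383] (by decide +kernel))
noncomputable def rh8883bfa6082f2254 : CRef := CRef.mk (Pat.mk 0x80000001c00000014 0xff0000007f0000001c 4 8) 0 0 (step_sound _ 37 [rh4037d618a20daadc, (rh7b030ba967bf927e.shift 2 0), (rhd584a578337d0023.shift 2 0), (rhe3060b190bc0bc78.shift 1 1)] (by decide +kernel))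
noncomputable def rhd8f82079b077bfd0 : CRef := CRef.mk (Pat.mk 0x2c0000002c0000000800000000 0x800000008000000280000002c0000002f0000007c00000010 4 7) 0 0 (step_sound _ 36 [(rh721afcb8e9f735cc.shift 2 0), (rh860fc38a6f91358e.shift 2 0), (rhdeca8db941583de2.shift 0 1)] (by decide +kernel))
noncomputable def rhb424b334a045f1ad : CRef := CRef.mk (Pat.mk 0xb0000000b000000020000000000000000 0xa0000000b0000000b0000001e0000000600000006 4 5) 0 0 (step_sound _ 34 [rh7bed6280d5711866, (rhfb3bc5848474ac0d.shift 0 1)] (by decide +kernel))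
noncomputable def rh21be5cb15bc543a6 : CRef := CRef.mk (Pat.mk 0x40000000600000004000000040000000000000000 0x40000000400000004000000070000003e0000000e0000000600000006 4 6) 0 0 (step_sound _ 97 [(rh1e309b005ffa1b36.shift 1 1), (rhbdf73b26f73f8159.shift 1 0), (rhf7ac44032989c9ef.shift 0 2)] (by decide +kernel))
noncomputable def rh91ad790649044b79 : CRef := CRef.mk (Pat.mk 0x20000000300000002000000020000000000000000 0x200000002000000030000000300000003000000030000000200000002 4 2) 0 0 (step_sound _ 33 [(rh50fbb5868c909700.shift 0 1), rhc4c6de062e376aad] (by decide +kernel))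
noncomputable def rh7835fbab86a1e33a : CRef := CRef.mk (Pat.mk 0x280000000c000000080000000800000000 0x7c0000000f000000080000000c00000004 4 7) 0 0 (step_sound _ 2 [(rh79877ebd3ef475dd.shift 2 0), (rhe33d9496e10d8eb0.shift 0 3)] (by decide +kernel))
noncomputable def rhda5cb13dd22b9f12 : CRef := CRef.mk (Pat.mk 0x90000000c000000080000000000000000 0x8000000180000001c0000000f0000000c0000000c0000000800000008 4 5) 0 0 (step_sound _ 130 [(rh312db2f1e4a01342.shift 0 2), (rh3cb04db3dd2b6a55.shift 2 0)] (by decide +kernel))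
noncomputable def rhb291fd43d20ffb82 : CRef := CRef.mk (Pat.mk 0x80000000c00000008000000180000000000000000 0x80000000c0000001f0000007c0000000c0000000c 4 7) 0 0 (step_sound _ 98 [(rh4ca5dae25f5c14ff.shift 0 2), (rh9360eb5da5a1915b.shift 1 1), (rhbdf73b26f73f8159.shift 2 0)] (by decide +kernel))
noncomputable def rh6df0d48cd866e1ee : CRef := CRef.mk (Pat.mk 0x8000000080000001c00000000 0x800000008000000080000003e0000000f 4 6) 0 0 (step_sound _ 2 [rh069e1f5de9603f00, (rh5c5e593799055d58.shift 2 0)] (by decide +kernel))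
noncomputable def rha87f555221dfc651 : CRef := CRef.mk (Pat.mk 0x7000000040000000e 0x70000003f0000003f 4 6) 0 0 (step_sound _ 36 [rh5e02580a73239971, rhca6a4af813f68cee, rhcc68d7d890acd330] (by decide +kernel))
noncomputable def rh23a83f3bbee323af : CRef := CRef.mk (Pat.mk 0x3000000020000000e 0x30000003f0000001f 4 6) 0 0 (step_sound _ 4 [rh3244c3cc8379b070, rh3d5449bf3f9fe7b3] (by decide +kernel))
noncomputable def rhfe14d52c2f41572f : CRef := CRef.mk (Pat.mk 0x7000000040000001c000000000000000000000000 0x1000000070000000f0000001f0000003b0000000800000008 4 6) 0 0 (step_sound _ 97 [rh93ebbe2220404472, (rhff16e84bf8b4ed74.shift 0 2)] (by decide +kernel))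
noncomputable def rhfc80d20c28a26208 : CRef := CRef.mk (Pat.mk 0x3000000020000000e0000000000000000 0x30000003e0000003f0000000700000004 4 6) 0 0 (step_sound _ 68 [rh2e6b473cb45f347f, (rh3d5449bf3f9fe7b3.shift 0 2)] (by decide +kernel))
noncomputable def rhee45040c368f97b1 : CRef := CRef.mk (Pat.mk 0x1000000060000000200000002000000000000000000000000 0x1000000070000000600000002000000030000000300000001 4 3) 0 0 (step_sound _ 65 [rh8aec56c4ee12918c, (rhffd04209dc8ea796.shift 0 2)] (by decide +kernel))
noncomputable def rh0f42dab1bbd5f0f2 : CRef := CRef.mk (Pat.mk 0xe000000180000000c0000000000000000 0x20000000e0000001e0000007f0000003400000014 4 7) 0 0 (step_sound _ 68 [rh1357d49ef66cf2d8, (rh9c88b0cd9a5bf4ab.shift 1 0)] (by decide +kernel))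
noncomputable def rhfa794780df422ce4 : CRef := CRef.mk (Pat.mk 0x1c00000010000000100000001800000000 0x40000001c0000003c0000007f000000fe00000024 4 8) 0 0 (step_sound _ 67 [(rh368ba3b94148e5fd.shift 1 0), (rh36d4d92ef3dad5f8.shift 2 0), (rh4fcf99f1fe71ac38.shift 0 1)] (by decide +kernel))
noncomputable def rh1da05233efca3f0f : CRef := CRef.mk (Pat.mk 0xa0000000a00000002000000000000000000000000 0x50000000f0000001b00000002000000070000000700000005 4 5) 0 0 (step_sound _ 65 [rh0c1c1b53bc5a1510, rh3181373a30ceb9e3, (rhe3ca3d7b4fee55d8.shift 0 2)] (by decide +kernel))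
noncomputable def rh7db0d62794c563d0 : CRef := CRef.mk (Pat.mk 0x20000000700000002000000000000000000000000 0x200000002000000020000000700000007000000070000000700000007 4 3) 0 0 (step_sound _ 65 [(rh10be05f786df6197.shift 0 1), rh3181373a30ceb9e3, rh5b49bae9be9e59a0, rha79362f4ed781fc9, (rhabedd109a9a37101.shift 0 1)] (by decide +kernel))
noncomputable def rh34d16bbba8b65d44 : CRef := CRef.mk (Pat.mk 0x10000000100000001400000008 0x1000000010000000300000001f00000038 4 6) 0 0 (step_sound _ 35 [(rh5c5e593799055d58.shift 3 0), rh5dec5e73a267a1c4] (by decide +kernel))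
noncomputable def rhbe9dad0258652f1d : CRef := CRef.mk (Pat.mk 0x500000005000000050000000000000000 0xa0000000e0000000e000000050000000d0000000f0000000f00000002 4 4) 0 0 (step_sound _ 162 [rh257fa66c90152105, (rh29dd5384d80ecb1e.shift 1 1), (rh426f403fa814630c.shift 2 1), (rh7ef5fa5c39f1c762.shift 1 2)] (by decide +kernel))
noncomputable def rh1aaa77bb705d8d8d : CRef := CRef.mk (Pat.mk 0x80000000a0000000a000000000000000000000000 0x8000000080000003b0000001f000000180000001000000010 4 6) 0 0 (step_sound _ 100 [(rh046c5eb18e55a239.shift 3 0), (rh70e33bfdf511e144.shift 3 0), (rhdb4b4dc20164ea80.shift 0 3)] (by decide +kernel))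
noncomputable def rh1d7f01bf6c114563 : CRef := CRef.mk (Pat.mk 0x6000000160000000200000000 0x20000000200000002000000060000001f0000000300000001 4 5) 0 0 (step_sound _ 32 [(rh361cc68994bd8a63.shift 0 1), rh3e7f2ba771ddcb65] (by decide +kernel))
noncomputable def rh02f204c981718137 : CRef := CRef.mk (Pat.mk 0x600000006000000020000000000000000 0x1000000030000000700000006000000060000000600000006 4 3) 0 0 (step_sound _ 33 [rh639d58c8aef9fe2f, (rh71222050f2c63a3a.shift 1 0)] (by decide +kernel))
noncomputable def rh6c67440462d70ddd : CRef := CRef.mk (Pat.mk 0x20000000600000002000000020000000000000000 0x200000002000000020000000600000006000000070000000300000003 4 3) 0 0 (step_sound _ 98 [(rh3e595262c1b737ad.shift 1 2), rhbb83b53687587fb2] (by decide +kernel))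
noncomputable def rhd09467df8a736853 : CRef := CRef.mk (Pat.mk 0xa0000000a0000000a00000000 0x500000007000000070000001e0000000b0000000b00000009 4 5) 0 0 (step_sound _ 129 [rh0fd870c734e6c513, rh256e40981049d95d, rh402d223d12d7377d, rh6db78692e8794ae8] (by decide +kernel))
noncomputable def rh30e2c5f3463de7af : CRef := CRef.mk (Pat.mk 0x600000004000000040000000400000000 0xf0000003e000000040000000400000004 4 6) 0 0 (step_sound _ 99 [rh2655ba5189834a5b, (rh75ea294132184f25.shift 0 3), rh94f1a52185fc620a, (rhc705a4e0321a1bff.shift 1 0)] (by decide +kernel))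
noncomputable def rha204e36e9b49fab0 : CRef := CRef.mk (Pat.mk 0x1600000006000000020000000000000000 0x30000001f00000007000000020000000200000002 4 5) 0 0 (step_sound _ 33 [(rh71222050f2c63a3a.shift 1 0), (rh91ceb329a8baa60d.shift 0 1)] (by decide +kernel))
noncomputable def rhc10d4eb636fb22ff : CRef := CRef.mk (Pat.mk 0x160000000600000002 0x600000006000000070000001e0000000700000002 4 5) 0 0 (step_sound _ 130 [(rh8562290787d71142.shift 0 1), (rhee230b994cc8b773.shift 1 0)] (by decide +kernel))
noncomputable def rh68a382cc483bbb7d : CRef := CRef.mk (Pat.mk 0x40000001c0000000c000000000000000000000000 0xa0000000f0000001c0000000c0000000c0000000c0000000c 4 5) 0 0 (step_sound _ 66 [(rha6afb55c7e70d994.shift 0 2), (rhea7a1800d6f053bd.shift 2 0), (rhf57bd6481b8b2ca7.shift 2 0)] (by decide +kernel))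
noncomputable def rhbeb2fa530076c156 : CRef := CRef.mk (Pat.mk 0x5800000018000000000000000000000000 0x8000000780000001f000000300000001000000010 4 7) 0 0 (step_sound _ 98 [(rh361cc68994bd8a63.shift 2 3), rhcb68da4f2dc5e7fd] (by decide +kernel))
noncomputable def rh4899d5548c7da84b : CRef := CRef.mk (Pat.mk 0x20000000200000002000000000000000000000000 0x500000007000000070000000200000003000000070000000700000005 4 3) 0 0 (step_sound _ 65 [(rh0fd870c734e6c513.shift 0 1), rh3181373a30ceb9e3, (rh7ef5fa5c39f1c762.shift 0 2)] (by decide +kernel))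
noncomputable def rha4d12035b13e1546 : CRef := CRef.mk (Pat.mk 0xe000000080000000e0000000000000000 0x200000002000000020000000e0000000e0000000f0000001c00000018 4 5) 0 0 (step_sound _ 98 [rh312eadfd36a7b554, (rhf9a6286f1d5377a2.shift 1 1)] (by decide +kernel))
noncomputable def rhc32840c774dd7776 : CRef := CRef.mk (Pat.mk 0x8000000080000000e000000000000000000000000 0x80000007f0000003e000000380000001000000010 4 7) 0 0 (step_sound _ 100 [(rhc7b95363f9049b11.shift 1 0), (rhf94411b389c3e54c.shift 0 3)] (by decide +kernel))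
noncomputable def rh33b36fcc1d8f7641 : CRef := CRef.mk (Pat.mk 0xe000000080000001c0000000000000000 0xe0000007c0000001f0000003000000010 4 7) 0 0 (step_sound _ 100 [rh1357d49ef66cf2d8, (rh89ade209b3e28f13.shift 1 3), (rhab2ad169e49f9c5e.shift 0 2)] (by decide +kernel))
noncomputable def rhe875a7752e08d4bf : CRef := CRef.mk (Pat.mk 0x1c00000010000000100000001800000000 0x40000001c000000180000003c000000ff00000024 4 8) 0 0 (step_sound _ 67 [(rh36d4d92ef3dad5f8.shift 2 0), rhb3fee4224dd3c908] (by decide +kernel))
noncomputable def rh175b5c0467b89afb : CRef := CRef.mk (Pat.mk 0x4000000060000001c0000000000000000 0xa0000000e0000000e0000000e000000070000001e0000000400000004 4 5) 0 0 (step_sound _ 162 [(rh2429dd5fedec43ba.shift 0 2), (rh7ef5fa5c39f1c762.shift 1 2), (rh80c6e1b9aaf50bed.shift 1 0)] (by decide +kernel))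
noncomputable def rhdc71f3f410dcf859 : CRef := CRef.mk (Pat.mk 0x4000000160000001c000000000000000000000000 0x100000003e000000170000001e0000000c0000000800000008 4 6) 0 0 (step_sound _ 164 [(rha56f4c4626a53b18.shift 2 0), (rhbf9e90482ed9f7d0.shift 0 3)] (by decide +kernel))
noncomputable def rhe433db8d20030924 : CRef := CRef.mk (Pat.mk 0x1000000038000000080000000800000000 0xc0000001e000000380000001f0000000c00000004 4 6) 0 0 (step_sound _ 66 [(rhd4ae1995e458b8b0.shift 1 0), (rheea1a90336e79c71.shift 0 2)] (by decide +kernel))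
noncomputable def rh8468ddfc676db864 : CRef := CRef.mk (Pat.mk 0x1c00000014000000000000000000000000 0x80000001c0000007f000000370000001400000014 4 7) 0 0 (step_sound _ 99 [(rh8b20b1ef24f2c4de.shift 0 2), (rh92e8f86a47ca4f2b.shift 1 0), rhcb68da4f2dc5e7fd] (by decide +kernel))
noncomputable def rhd55e1f9b80c13a7c : CRef := CRef.mk (Pat.mk 0x1000000038000000280000000800000000 0x100000003c0000003f0000007800000020 4 7) 0 0 (step_sound _ 37 [(rh09c4c3c2034d2bf7.shift 0 1), (rh7b1f1fb55310c477.shift 4 0)] (by decide +kernel))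
noncomputable def rh59af09296d18a4d7 : CRef := CRef.mk (Pat.mk 0x2c000000280000000800000008 0x100000003e0000003f0000000800000008 4 6) 0 0 (step_sound _ 100 [(rh2f68792b6b779e96.shift 3 0), (rhdceeca65bdd8095a.shift 0 2)] (by decide +kernel))
noncomputable def rh509dbbb9596d26b6 : CRef := CRef.mk (Pat.mk 0x80000002800000028000000180000000000000000 0x1000000018000000380000003f0000007c0000006400000040 4 7) 0 0 (step_sound _ 69 [(rh2191f4291a5eebdf.shift 2 0), (rhf60aa8aede119d3b.shift 0 2), (rhfa8c7f01b0685da6.shift 1 1)] (by decide +kernel))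
noncomputable def rh4f24b26ce02ae66a : CRef := CRef.mk (Pat.mk 0x200000003c00000010 0x30000000ff0000001c 4 8) 0 0 (step_sound _ 33 [(rh428265de8cd3cd2d.shift 1 1), rhc79769c0453a04d3] (by decide +kernel))
noncomputable def rh8ddba96098442154 : CRef := CRef.mk (Pat.mk 0x100000001c00000018000000000000000000000000 0x180000001f0000001f000000300000003000000030 4 6) 0 0 (step_sound _ 68 [(rh39848790f9efd77c.shift 0 1), (rh3cb04db3dd2b6a55.shift 3 0), (rh820d4e04d5dcd02e.shift 3 0)] (by decide +kernel))
noncomputable def rh7d5abdbf38d697b9 : CRef := CRef.mk (Pat.mk 0x140000001c00000018000000000000000000000000 0x1c0000001c0000003f000000370000003600000014 4 6) 0 0 (step_sound _ 98 [(rh3a6c1689b3bee428.shift 1 0), (rh59671bed9a6cba8c.shift 0 1), (rhb24a71b8e8f17f47.shift 1 0)] (by decide +kernel))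
noncomputable def rh279d4cd391a45f95 : CRef := CRef.mk (Pat.mk 0x80000002800000038000000100000000000000000 0x8000000380000003e0000007f0000000400000004 4 7) 0 0 (step_sound _ 98 [(rh1e8d6e1ef30e2d92.shift 1 0), (rh2591032a0e7f4182.shift 0 2), (rha03f6e28ea70fc7d.shift 1 2)] (by decide +kernel))
noncomputable def rh5e35da67da12d60d : CRef := CRef.mk (Pat.mk 0xe00000010 0x700000003e00000037 4 7) 0 0 (step_sound _ 36 [rhdd4fe9fd28ed4c0f, (rhe25b0a99195a5d59.shift 1 0)] (by decide +kernel))
noncomputable def rh4175a9ff196fd1f9 : CRef := CRef.mk (Pat.mk 0x4000000040000001c000000080000000000000000 0x4000000060000001e0000000f0000000200000002 4 5) 0 0 (step_sound _ 65 [(rh076be03eb7063320.shift 0 2), (rh3743dbe66b959104.shift 1 0), rh7b09556139866d6e, (rh95782c1fb041cd1c.shift 0 1)] (by decide +kernel))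
noncomputable def rhb0cc2a4486321658 : CRef := CRef.mk (Pat.mk 0x4000000140000001c00000010 0xc0000000c0000001c000000170000001e00000016 4 5) 0 0 (step_sound _ 130 [rh642b26d7cba6ff2f, (rh6c780b68fbbf1fb0.shift 2 0)] (by decide +kernel))
noncomputable def rh6d721490a3c9e5dd : CRef := CRef.mk (Pat.mk 0x20000000a0000000c00000008 0x140000001c0000001e0000000b0000000c0000000c 4 5) 0 0 (step_sound _ 99 [(rh769be3fe24eee174.shift 2 0), rh9258736a7488cc35, (rhd2c74283b7b6e6b8.shift 2 0)] (by decide +kernel))
noncomputable def rha8260d8ae5a48311 : CRef := CRef.mk (Pat.mk 0x1000000050000000700000004 0x20000000300000007000000050000000700000007 4 3) 0 0 (step_sound _ 128 [rh55afc6a59410cf00, rh6c780b68fbbf1fb0] (by decide +kernel))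
noncomputable def rh7ad0b0eec55f713d : CRef := CRef.mk (Pat.mk 0x4000000070000000400000000 0xa0000000e0000000e00000004000000070000003e00000008 4 6) 0 0 (step_sound _ 130 [(rh7ef5fa5c39f1c762.shift 1 1), rhb0c6196f710d9a93] (by decide +kernel))
noncomputable def rh5b88f3d5a93875c6 : CRef := CRef.mk (Pat.mk 0x80000000a0000000e0000000800000000 0x160000001e0000000b0000000e0000000c00000004 4 5) 0 0 (step_sound _ 130 [(rh50fbb5868c909700.shift 2 1), rh9d65304fa709cfff] (by decide +kernel))
noncomputable def rhd083fa7a39d54653 : CRef := CRef.mk (Pat.mk 0xa0000000a0000000a00000000 0x10000000140000003e0000001e0000000b0000000a00000008 4 6) 0 0 (step_sound _ 100 [(rh215e11e099257d75.shift 3 0), (rh3c4f55e31539dab9.shift 0 1), rh8b9be679572d8bf7, rha4265559c606ade5] (by decide +kernel))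
noncomputable def rhbfdc31150739eaa1 : CRef := CRef.mk (Pat.mk 0xa0000000a0000000a00000000 0x400000004000000360000001e0000000b0000000a0000000a 4 6) 0 0 (step_sound _ 98 [rh5bc090164f229948, (rh7f36f639160ea2c8.shift 1 0), (rhd8a13c7f042cc6ea.shift 1 0)] (by decide +kernel))
noncomputable def rh5322c7650a84dc9c : CRef := CRef.mk (Pat.mk 0xa00000008000000080000000000000000 0x140000001c0000001c0000001f00000008000000180000001800000010 4 5) 0 0 (step_sound _ 163 [(rh2f69682ab1fed632.shift 0 1), (rh7ef5fa5c39f1c762.shift 2 2), (rhcae87bda2c3c01d2.shift 2 0), (rhec588a0d7783acc6.shift 3 0)] (by decide +kernel))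
noncomputable def rh6682f88678f136d8 : CRef := CRef.mk (Pat.mk 0x600000004000000140000000400000000 0x40000000400000006000000070000003e0000000600000004 4 6) 0 0 (step_sound _ 97 [(rh7b1f1fb55310c477.shift 1 0), (rh7d565e4d5c8b7a47.shift 0 1)] (by decide +kernel))
noncomputable def rh5cd859c53bfd3fb4 : CRef := CRef.mk (Pat.mk 0xc00000014000000140000000400000000 0x720000003e000000170000001c0000001c00000008 4 7) 0 0 (step_sound _ 132 [(rh3b5e94772846b637.shift 0 1), (rh5bc090164f229948.shift 1 1), (rh6109952a9d592831.shift 1 0)] (by decide +kernel))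
noncomputable def rhd45fa6f4d7ca4e15 : CRef := CRef.mk (Pat.mk 0x200000002000000020000000000000000 0x500000007000000070000000200000003000000070000000700000005 4 3) 0 0 (step_sound _ 161 [(rh0fd870c734e6c513.shift 0 1), rh3181373a30ceb9e3, (rh402d223d12d7377d.shift 0 1), (rh7ef5fa5c39f1c762.shift 0 2)] (by decide +kernel))
noncomputable def rhd5bee40719d2df81 : CRef := CRef.mk (Pat.mk 0x4000000040000001c00000000 0xe0000000e0000000e000000070000001e00000006 4 5) 0 0 (step_sound _ 130 [rh642b26d7cba6ff2f, (rh6d2125986d3f5221.shift 1 0)] (by decide +kernel))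
noncomputable def rhe34c23e651948db8 : CRef := CRef.mk (Pat.mk 0x800000008000000380000000800000000 0x8000000080000003c0000001f00000014 4 6) 0 0 (step_sound _ 4 [rh322e79f034282812, (rhd3458b32566d63f7.shift 3 0)] (by decide +kernel))
noncomputable def rhcedb4d37f801a778 : CRef := CRef.mk (Pat.mk 0x200000003000000020000000000000000 0x6000000070000000700000003000000030000000300000002 4 3) 0 0 (step_sound _ 161 [(rh03dfdf12d5937476.shift 0 1), rh80c6e1b9aaf50bed] (by decide +kernel))
noncomputable def rhadc536e7e02168ad : CRef := CRef.mk (Pat.mk 0x140000003c00000000 0x1c0000007f00000007 4 7) 0 0 (step_sound _ 1 [(rh80fcd6d0a18cb2dd.shift 1 0), rhb1c805ea84db6228] (by decide +kernel))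
noncomputable def rh5a37eae4d2a9673f : CRef := CRef.mk (Pat.mk 0x20000000200000002000000000000000000000000 0x500000007000000070000000200000003000000070000000700000005 4 3) 0 0 (step_sound _ 65 [(rh0fd870c734e6c513.shift 0 1), rh3181373a30ceb9e3, (rh402d223d12d7377d.shift 0 1), (rh7ef5fa5c39f1c762.shift 0 2)] (by decide +kernel))
noncomputable def rhef943dbdab5b1c48 : CRef := CRef.mk (Pat.mk 0x100000003800000028 0xff000000fe00000038 4 8) 0 0 (step_sound _ 34 [(rh6765e7960b108c8d.shift 1 0), (rha56261851a3e6505.shift 1 0), rhd1d05263fabc0227, (rhec46bd5500c722c9.shift 1 1)] (by decide +kernel))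
noncomputable def rha33f0cf6011274ba : CRef := CRef.mk (Pat.mk 0x4000000040000000400000006 0x400000004000000040000003e0000000f 4 6) 0 0 (step_sound _ 35 [rh3a020e182dfd1d54, rh43012ea34c1b670f, (rh518d6f6eeebddcb2.shift 1 0), rh5f73a95233d789b5] (by decide +kernel))
noncomputable def rha741bfc6d4ee3877 : CRef := CRef.mk (Pat.mk 0x1400000014000000040000000c00000000 0x8000000180000001c000000140000003e0000003f00000022 4 6) 0 0 (step_sound _ 68 [(rh1784e36706d84b88.shift 1 0), rh4736e33ddf9c57a1, (rhb9145a3cd45f4975.shift 2 1)] (by decide +kernel))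
noncomputable def rhbd9e68449fc24ea8 : CRef := CRef.mk (Pat.mk 0x140000001c000000080000000800000000 0x80000001c0000007f0000007f0000001c00000014 4 7) 0 0 (step_sound _ 131 [(rh046dd940d58845e8.shift 1 0), (rh2708e9e45373a95d.shift 0 2), rh41d1a15a48ee48e8, (rh7dc3eb36d15226cb.shift 2 0)] (by decide +kernel))
noncomputable def rhbf6beef8440e57ca : CRef := CRef.mk (Pat.mk 0xa0000000a000000020000000200000000 0x50000000f0000001a000000020000000600000004 4 5) 0 0 (step_sound _ 2 [(rhd3458b32566d63f7.shift 1 0), (rhe3ca3d7b4fee55d8.shift 0 1)] (by decide +kernel))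
noncomputable def rh785abe9e3c140815 : CRef := CRef.mk (Pat.mk 0x10000000140000000c0000000000000000 0x1000000010000000100000003c0000001f0000000800000008 4 6) 0 0 (step_sound _ 99 [(rh4dc133ee0ba1420a.shift 0 2), (rhcf80391c5046a495.shift 3 0)] (by decide +kernel))
noncomputable def rh7457e5f04df56b3e : CRef := CRef.mk (Pat.mk 0x4000000140000000c000000000000000000000000 0x4000000040000003f0000003f000000020000000200000002 4 6) 0 0 (step_sound _ 97 [(rh7dcd5319f4f71bec.shift 0 3), (rhca6a4af813f68cee.shift 0 3), (rhfafeb437ceb8396d.shift 1 0)] (by decide +kernel))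
noncomputable def rhdd000bd3a041bb63 : CRef := CRef.mk (Pat.mk 0x7000000040000000400000000 0xe0000001e000000070000000e0000000e0000000a 4 5) 0 0 (step_sound _ 130 [(rh4017de503635a93b.shift 0 1), (rhabedd109a9a37101.shift 1 0)] (by decide +kernel))
noncomputable def rh0dde11880d4cbd12 : CRef := CRef.mk (Pat.mk 0xe000000040000000800000008 0x300000003e000000370000001800000008 4 6) 0 0 (step_sound _ 100 [(rh9c9de8a82d5e4ca8.shift 1 0), (rhaf9f2efc81a8312b.shift 0 2)] (by decide +kernel))
noncomputable def rh22ce94ecd5d4e492 : CRef := CRef.mk (Pat.mk 0xb0000000e00000004 0xa0000001e0000000f0000000e00000004 4 5) 0 0 (step_sound _ 99 [rh2afa7ffb1fd33de0, (rh5c5e593799055d58.shift 2 0)] (by decide +kernel))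
noncomputable def rh3282381855f37c72 : CRef := CRef.mk (Pat.mk 0x1e000000000000000000000010 0x380000001f000000300000001000000010 4 6) 0 0 (step_sound _ 132 [(rh33e738c4ed385b9f.shift 1 3), rh9e64417f203ccf70] (by decide +kernel))
noncomputable def rh1a76b0d418dca194 : CRef := CRef.mk (Pat.mk 0x80000000e000000180000001c00000000 0x40000000c0000000e0000001a0000001f00000003 4 5) 0 0 (step_sound _ 33 [(rh53b3c253cb0c65f4.shift 0 1), rhcb232477a669eb45] (by decide +kernel))
noncomputable def rh07752f073a06aa96 : CRef := CRef.mk (Pat.mk 0x8000000180000000a00000000 0x80000000800000008000000180000001f00000014 4 5) 0 0 (step_sound _ 34 [(rh53b3c253cb0c65f4.shift 0 1), (rhbb339bb7e4e96b38.shift 2 0)] (by decide +kernel))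
noncomputable def rh7e3d16edcf9d3120 : CRef := CRef.mk (Pat.mk 0xf0000000f000000000000000000000000 0x1c0000000f0000000f000000180000000800000008 4 5) 0 0 (step_sound _ 163 [(rh33e738c4ed385b9f.shift 0 4), rhbbe16ff26f7822db] (by decide +kernel))
noncomputable def rhe948e8586d69721e : CRef := CRef.mk (Pat.mk 0xa0000000c0000000c 0x3b0000003f0000000f 4 6) 0 0 (step_sound _ 36 [rh4dc133ee0ba1420a, (rhd0ed6ce702d0de55.shift 0 1)] (by decide +kernel))
noncomputable def rhf8100281cd1d133e : CRef := CRef.mk (Pat.mk 0x4000000040000001e000000000000000000000000 0x4000000040000001e000000370000000200000002 4 6) 0 0 (step_sound _ 68 [rh1e8d6e1ef30e2d92, (rhe25b0a99195a5d59.shift 1 2)] (by decide +kernel))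
noncomputable def rh1b87edc82f705b7b : CRef := CRef.mk (Pat.mk 0x400000006000000040000000c00000000 0x400000004000000060000003c0000000f00000002 4 6) 0 0 (step_sound _ 67 [(rh2145e1d24b96a57e.shift 2 1), rh9cc5d980c4667d10] (by decide +kernel))
noncomputable def rh853c2bd7522c3ee7 : CRef := CRef.mk (Pat.mk 0x30000000200000000000000020000000000000000 0x1000000030000000300000002000000060000000600000004 4 3) 0 0 (step_sound _ 97 [(rh50fbb5868c909700.shift 0 2), rha613ffd40b6c9d24] (by decide +kernel))
noncomputable def rhe8223644518e14be : CRef := CRef.mk (Pat.mk 0x10000000000000001c00000008 0x1000000010000000300000001f00000038 4 6) 0 0 (step_sound _ 68 [(rh5c5e593799055d58.shift 3 0), rh5dec5e73a267a1c4] (by decide +kernel))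
noncomputable def rh5e5a1cce49dd18d2 : CRef := CRef.mk (Pat.mk 0x10000000040000000c0000000a00000008 0x1000000010000000170000003e0000001b00000008 4 6) 0 0 (step_sound _ 68 [(rh2b4d888fb0c67d76.shift 0 1), (rhb009278fdd334770.shift 3 0)] (by decide +kernel))
noncomputable def rhf0fa27664d40d682 : CRef := CRef.mk (Pat.mk 0x40000000e0000000c0000000000000000 0x40000003e0000003f0000000300000002 4 6) 0 0 (step_sound _ 68 [rh909d44322dde885c, (rhf48373e13d2bc128.shift 1 2)] (by decide +kernel))
noncomputable def rhc105b3e3b7d9ffa5 : CRef := CRef.mk (Pat.mk 0x2000000030000000200000002000000020000000000000000 0x2000000030000000300000003000000070000000600000004 4 3) 0 0 (step_sound _ 96 [(rh932754581e0f4330.shift 0 2), rha613ffd40b6c9d24] (by decide +kernel))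
noncomputable def rh244e0dd4a95113a6 : CRef := CRef.mk (Pat.mk 0x800000008000000080000000500000000 0x800000008000000180000001f0000001c 4 5) 0 0 (step_sound _ 35 [(rh932754581e0f4330.shift 2 0), rhd836afbdc80e8b33] (by decide +kernel))
noncomputable def rhf10cef1900426205 : CRef := CRef.mk (Pat.mk 0x1000000010000000100000000a 0x1000000010000000100000007c0000000f 4 7) 0 0 (step_sound _ 35 [(rh5c5e593799055d58.shift 3 0), rhedf3a755fe019897] (by decide +kernel))
noncomputable def rhe1ba531dcf5061c4 : CRef := CRef.mk (Pat.mk 0x1c000000020000003a0000000200000000 0x30000001f000000020000003e0000000600000004 4 6) 0 0 (step_sound _ 34 [rh48ee5a9015686fdd, (rhca9569cc80abfe76.shift 1 1)] (by decide +kernel))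
noncomputable def rhb7046b564aeae30e : CRef := CRef.mk (Pat.mk 0x1c0000000200000002000000020000000200000000 0x30000001f0000000200000002000000030000000300000001 4 5) 0 0 (step_sound _ 32 [(rh35ea094627628c1b.shift 0 1), rh932754581e0f4330] (by decide +kernel))
noncomputable def rh0759445859795ba4 : CRef := CRef.mk (Pat.mk 0x1c0000000200000002000000020000000200000000 0x30000001f0000000200000002000000060000000600000004 4 5) 0 0 (step_sound _ 34 [(rh428c7913bae82a98.shift 0 1), (rh55afc6a59410cf00.shift 1 0)] (by decide +kernel))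
noncomputable def rh02ea6f004a5f46a0 : CRef := CRef.mk (Pat.mk 0x1c000000020000001a0000000200000000 0x30000001f000000020000001e0000000300000001 4 5) 0 0 (step_sound _ 32 [rh1055ed9006c6c74c, (rhb2a0b9ccfb5cecd5.shift 0 1)] (by decide +kernel))
noncomputable def rh943d9a7a35e78c48 : CRef := CRef.mk (Pat.mk 0x1000000010000000120000001a00000000 0x1000000010000000130000003e00000027 4 6) 0 0 (step_sound _ 34 [(rh3244c3cc8379b070.shift 0 1), rh6c5b90ba2a83bd67] (by decide +kernel))
noncomputable def rh39c00d1aee1d8d7e : CRef := CRef.mk (Pat.mk 0xe0000000400000004 0x8000000080000007c0000000f0000000c00000004 4 7) 0 0 (step_sound _ 99 [(rh69755ef358ebfd54.shift 2 0), (rheb4949bdfa5025cf.shift 2 0), (rhff7d63dcb3cf9f74.shift 0 2)] (by decide +kernel))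
noncomputable def rh5e8e40a15cd6bf66 : CRef := CRef.mk (Pat.mk 0x80000000e0000000400000000 0x1800000018000000180000000f0000003c00000018 4 6) 0 0 (step_sound _ 35 [rh2b7b5943f1df29bd, (rh8af73b7df2d2ba44.shift 1 0), (rhcf86d050071af9b3.shift 0 1)] (by decide +kernel))
noncomputable def rh81bcecbe0ce730f1 : CRef := CRef.mk (Pat.mk 0x2000000160000001c0000000800000000 0x10000000330000001e0000001c0000000c00000004 4 6) 0 0 (step_sound _ 2 [(rh718010f6bb68e0b7.shift 0 1), (rh9e07f76261b05888.shift 1 0)] (by decide +kernel))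
noncomputable def rh471c9edde87ddc5c : CRef := CRef.mk (Pat.mk 0xc000000070000000200000000 0xc0000000c0000000c000000070000001e0000000c 4 5) 0 0 (step_sound _ 130 [(rh5c5e593799055d58.shift 1 1), rh8af7192353b19a4c] (by decide +kernel))
noncomputable def rhf1c50e9026784bbe : CRef := CRef.mk (Pat.mk 0x3000000060000000200000001 0x2000000020000000200000007000000070000000700000001 4 3) 0 0 (step_sound _ 129 [rh79877ebd3ef475dd, (rhea6bef6447d37a6a.shift 0 1)] (by decide +kernel))
noncomputable def rhee2c3e56de6a6a07 : CRef := CRef.mk (Pat.mk 0x38000000080000003800000000 0x80000003c0000000f0000007800000010 4 7) 0 0 (step_sound _ 4 [(rh2145e1d24b96a57e.shift 3 0), (rhec6ca4eaae8a1130.shift 0 1)] (by decide +kernel))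
noncomputable def rh22c1636ac43b7d22 : CRef := CRef.mk (Pat.mk 0x1e000000000000001c 0x8000000080000003c0000003f000000060000003c 4 6) 0 0 (step_sound _ 34 [(rh046254d731362e10.shift 1 0), rh10733b505f21fbae] (by decide +kernel))
noncomputable def rh525c09f832ac1ad2 : CRef := CRef.mk (Pat.mk 0x7800000000 0xe70000007e00000007 4 8) 0 0 (step_sound _ 34 [rh2cc7d62e70c02209, (rh9890f9d77740bbed.shift 2 1)] (by decide +kernel))
noncomputable def rhf1eeee927723e515 : CRef := CRef.mk (Pat.mk 0x1e000000000000000c00000000 0xa0000007e0000003f000000040000000c00000008 4 7) 0 0 (step_sound _ 130 [rh31f8ceb0b340eff8, (rh61d877534094f2af.shift 1 0), (rhb0716bb49afa8156.shift 1 3)] (by decide +kernel))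
noncomputable def rh57ae49f970b6602f : CRef := CRef.mk (Pat.mk 0x1e000000000000000c00000000 0x2000000070000003e000000040000000c00000008 4 6) 0 0 (step_sound _ 129 [(rh3244c3cc8379b070.shift 0 3), (rh621cd5cfee67a60b.shift 1 0)] (by decide +kernel))
noncomputable def rhc2110794e3502b19 : CRef := CRef.mk (Pat.mk 0x1e000000000000001c 0x2000000030000001e000000070000003c 4 6) 0 0 (step_sound _ 33 [rh380c74abaa883e49, (rheb0810cc63b001d8.shift 0 1)] (by decide +kernel))
noncomputable def rh1c9b4deb3f3e414b : CRef := CRef.mk (Pat.mk 0x4000000020000000600000006000000000000000000000000 0x4000000060000000600000006000000030000000300000003 4 3) 0 0 (step_sound _ 65 [rh46530d756bdf8511, (rhbaefcd01e0a8bca3.shift 1 2)] (by decide +kernel))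
noncomputable def rh7b8dea8ecb53c3b8 : CRef := CRef.mk (Pat.mk 0x80000003c000000380000000800000000 0x680000003c0000003c0000000f00000004 4 7) 0 0 (step_sound _ 133 [rh322e79f034282812, (rh33e738c4ed385b9f.shift 2 3)] (by decide +kernel))
noncomputable def rhc0ed5fe86a628eef : CRef := CRef.mk (Pat.mk 0x30000000f00000006 0xe0000001e0000001b0000000f00000006 4 5) 0 0 (step_sound _ 97 [(rh2145e1d24b96a57e.shift 1 0), rha1b2648434fe9f18] (by decide +kernel))
noncomputable def rhafa79035fcfa694f : CRef := CRef.mk (Pat.mk 0x60000001e0000000000000000 0x400000004000000060000001e0000003300000002 4 6) 0 0 (step_sound _ 36 [rh031a926e4a883687, (rhe25b0a99195a5d59.shift 1 1)] (by decide +kernel))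
noncomputable def rh2aea9ca26de955f9 : CRef := CRef.mk (Pat.mk 0x2000000160000001c00000000 0x1000000030000003e0000001e00000003 4 6) 0 0 (step_sound _ 33 [(rh33e738c4ed385b9f.shift 1 1), rhc147a53bb17f4567] (by decide +kernel))
noncomputable def rh9933ffd86fd15922 : CRef := CRef.mk (Pat.mk 0x70000000d000000190000000800000000 0x2000000070000003d000000190000000f00000002 4 6) 0 0 (step_sound _ 100 [rhd96f34ffdc35bfb9, (rhf48373e13d2bc128.shift 1 3)] (by decide +kernel))
noncomputable def rhec9f8666c39898b8 : CRef := CRef.mk (Pat.mk 0x38000000080000000800000000 0x140000001c0000001f000000380000000c0000000c00000004 4 6) 0 0 (step_sound _ 131 [(rh039efe07c35de3d4.shift 1 1), (rh0fd870c734e6c513.shift 2 0), (rh402d223d12d7377d.shift 2 0), (rh79905f95cb2d899a.shift 0 1)] (by decide +kernel))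
noncomputable def rh84530c1b2d2356ea : CRef := CRef.mk (Pat.mk 0xa0000001a000000320000001000000000 0x10000000f0000001a000000320000001e00000004 4 6) 0 0 (step_sound _ 128 [rha57e80583e4b6cf7, (rhc10214bf3fe8094a.shift 0 3)] (by decide +kernel))
noncomputable def rh99f9ac5165c9f560 : CRef := CRef.mk (Pat.mk 0xc0000000c000000180000000c 0x800000008000000080000000c0000001c0000001c0000000f 4 5) 0 0 (step_sound _ 0 [rh24ae073cf30720c4, (rhdb10aa7f94919d42.shift 2 0)] (by decide +kernel))
noncomputable def rh01a5420cf8541158 : CRef := CRef.mk (Pat.mk 0x80000001800000009000000000000000000000000 0x8000000080000001c0000000f000000040000000400000004 4 5) 0 0 (step_sound _ 98 [(rh24ae073cf30720c4.shift 0 3), (rhfafeb437ceb8396d.shift 2 0)] (by decide +kernel))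
noncomputable def rh6b7e00dc0aeee6fe : CRef := CRef.mk (Pat.mk 0x2000000020000000200000002000000000000000000000000 0x3000000030000000300000003000000070000000700000004 4 3) 0 0 (step_sound _ 65 [(rh7928877f9bf74a91.shift 0 1), rhcae87bda2c3c01d2] (by decide +kernel))
noncomputable def rh3a6dba598e7ad493 : CRef := CRef.mk (Pat.mk 0x2000000020000000200000002 0x4000000070000000700000003000000030000000300000003 4 3) 0 0 (step_sound _ 129 [rh3ca48e2a6d60153d, rh402d223d12d7377d] (by decide +kernel))
noncomputable def rh188b675a22bac9f4 : CRef := CRef.mk (Pat.mk 0x2000000020000000200000002000000000000000000000000 0x100000003000000030000000200000002000000070000000700000005 4 3) 0 0 (step_sound _ 65 [rh3181373a30ceb9e3, (rh3ca48e2a6d60153d.shift 0 2)] (by decide +kernel))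
noncomputable def rh720d09f2da9939f9 : CRef := CRef.mk (Pat.mk 0xb0000000e000000080000000000000000 0x1a0000001a0000000f0000000e0000000c0000000400000004 4 5) 0 0 (step_sound _ 66 [(rh1e309b005ffa1b36.shift 2 0), (rh6b315ff015ab736a.shift 0 2), (rhc2c7bae8f445c890.shift 1 0)] (by decide +kernel))
noncomputable def rh5bd6c04439fad2cd : CRef := CRef.mk (Pat.mk 0x2000000020000000200000006 0x40000000700000007000000020000000600000006 4 3) 0 0 (step_sound _ 96 [rh50fbb5868c909700, (rha1447db93ca109b8.shift 1 0)] (by decide +kernel))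
noncomputable def rh5916e081cc655c17 : CRef := CRef.mk (Pat.mk 0x4000000040000000c0000000c00000000 0x80000000c000000040000003c0000000f00000002 4 6) 0 0 (step_sound _ 131 [(rh2f68792b6b779e96.shift 2 1), rha71afc656c87d410] (by decide +kernel))
noncomputable def rh60337546665d5c57 : CRef := CRef.mk (Pat.mk 0xc0000000c0000001800000000 0x800000008000000080000000c0000001f0000001800000010 4 5) 0 0 (step_sound _ 64 [(rh4070769292e08e0f.shift 2 0), (rhab22b5b56e7b3243.shift 0 1)] (by decide +kernel))
noncomputable def rh2b4b8b79ec79d231 : CRef := CRef.mk (Pat.mk 0xc000000180000000c 0x1f000000780000000f 4 7) 0 0 (step_sound _ 0 [rh235fe8d40f8e6f8a, rh24ae073cf30720c4] (by decide +kernel))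
noncomputable def rhc4bf0b101916a2de : CRef := CRef.mk (Pat.mk 0x180000001e00000018 0x30000000300000001f0000001e00000018 4 6) 0 0 (step_sound _ 100 [rh3f6ebb04b85b1d12, (rh5c5e593799055d58.shift 3 0)] (by decide +kernel))
noncomputable def rh370843733b2fcf0d : CRef := CRef.mk (Pat.mk 0x100000001e000000180000001000000000 0x1000000010000000100000001e0000001f0000003000000020 4 6) 0 0 (step_sound _ 164 [(rh5c5e593799055d58.shift 3 2), rhc1307820daa2ac22] (by decide +kernel))
noncomputable def rh03e9d289b475225b : CRef := CRef.mk (Pat.mk 0x100000003400000020 0x300000003e00000067 4 7) 0 0 (step_sound _ 35 [rh55c4ed4acec0f063, (rhe25b0a99195a5d59.shift 2 0)] (by decide +kernel))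
noncomputable def rhbd3560211fa7f71a : CRef := CRef.mk (Pat.mk 0xe0000000a00000008 0x1000000010000000300000001e0000001b00000008 4 6) 0 0 (step_sound _ 68 [(rh94246470f0e6fdf7.shift 1 0), (rheb0810cc63b001d8.shift 0 1)] (by decide +kernel))
noncomputable def rhafacb87e233f8c08 : CRef := CRef.mk (Pat.mk 0xe0000000a0000000200000000 0x400000004000000060000000f0000001a0000000200000002 4 5) 0 0 (step_sound _ 68 [(rh7f36f639160ea2c8.shift 1 0), (rhb739f4f82bb681b4.shift 0 2)] (by decide +kernel))
noncomputable def rhac5b2375bbde5740 : CRef := CRef.mk (Pat.mk 0xe0000000a00000008 0x10000000300000001f0000001b00000008 4 6) 0 0 (step_sound _ 36 [rh644d796282c12cc5, (rhb739f4f82bb681b4.shift 0 1)] (by decide +kernel))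
noncomputable def rhe09685f2be7475b8 : CRef := CRef.mk (Pat.mk 0xe0000001a0000000a00000000 0x10000000340000001e0000001b0000000a00000002 4 6) 0 0 (step_sound _ 1 [(rh2f68792b6b779e96.shift 1 0), (rh644d796282c12cc5.shift 0 1)] (by decide +kernel))
noncomputable def rhbab08fde3e198e13 : CRef := CRef.mk (Pat.mk 0xc00000014000000040000000400000000 0x20000000f0000003c000000040000000600000002 4 6) 0 0 (step_sound _ 1 [(rh79877ebd3ef475dd.shift 1 0), (rhb24b7e1fadc8438a.shift 0 1)] (by decide +kernel))
noncomputable def rhd9d598133124fa86 : CRef := CRef.mk (Pat.mk 0x200000002000000020000000200000000 0x4000000060000000600000002000000030000000300000001 4 3) 0 0 (step_sound _ 162 [rhad800ac89e8ede75, (rhbaefcd01e0a8bca3.shift 1 1)] (by decide +kernel))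
noncomputable def rh33f6d37cd16199b4 : CRef := CRef.mk (Pat.mk 0xe00000002000000020000000200000000 0x30000001e00000003000000030000000300000001 4 5) 0 0 (step_sound _ 132 [rha8098973813043ea, (rheb0810cc63b001d8.shift 0 3)] (by decide +kernel))
noncomputable def rhec5ab178413670e3 : CRef := CRef.mk (Pat.mk 0xa0000000b0000000a000000000000000000000000 0x20000000a0000000b0000001e0000000c0000000400000004 4 5) 0 0 (step_sound _ 98 [(rh3cbf1428065fcc90.shift 1 0), (rhf48373e13d2bc128.shift 0 3)] (by decide +kernel))
noncomputable def rh986c82ee4bb35353 : CRef := CRef.mk (Pat.mk 0x20000000200000002000000000000000000000000 0x400000006000000060000000600000003000000070000000700000005 4 3) 0 0 (step_sound _ 65 [rh3181373a30ceb9e3, rh32c2123a4016d1a7, (rh402d223d12d7377d.shift 0 1), (rhec588a0d7783acc6.shift 1 0)] (by decide +kernel))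
noncomputable def rha91940d3a4d3af01 : CRef := CRef.mk (Pat.mk 0x20000000200000002000000000000000000000000 0x400000006000000060000000600000006000000070000000700000005 4 3) 0 0 (step_sound _ 65 [rh3181373a30ceb9e3, rh32c2123a4016d1a7, (rh426f403fa814630c.shift 1 1), (rhec588a0d7783acc6.shift 1 0)] (by decide +kernel))
noncomputable def rh91169c5576c1acce : CRef := CRef.mk (Pat.mk 0x600000006000000040000000400000000 0x80000003e00000007000000040000000c00000008 4 6) 0 0 (step_sound _ 3 [(rh861ee9d7304b9753.shift 0 1), (rhd3458b32566d63f7.shift 2 0)] (by decide +kernel))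
noncomputable def rh08bbde95ddae059f : CRef := CRef.mk (Pat.mk 0xc000000060000000400000000 0x20000003b0000003f000000060000000400000004 4 6) 0 0 (step_sound _ 97 [(rh0f936b2c74e7b815.shift 0 1), (rh261f868a429ae0e3.shift 1 0), rhb0ed60db1fd0e412] (by decide +kernel))
noncomputable def rhefdfb843653e1e42 : CRef := CRef.mk (Pat.mk 0x1e000000000000001c00000000 0x80000003c0000003f000000060000003c00000008 4 6) 0 0 (step_sound _ 66 [(rh046254d731362e10.shift 1 1), rha34eca9b31ede157] (by decide +kernel))
noncomputable def rhf485a23dc0d72b30 : CRef := CRef.mk (Pat.mk 0x1c000000040000000c00000000 0xa0000000f0000001c000000040000000c00000008 4 5) 0 0 (step_sound _ 130 [(rh55afc6a59410cf00.shift 2 0), (rha6afb55c7e70d994.shift 0 1)] (by decide +kernel))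
noncomputable def rh75d405f970ca51d6 : CRef := CRef.mk (Pat.mk 0x3000000030000000200000001 0x6000000060000000600000003000000030000000300000001 4 3) 0 0 (step_sound _ 129 [(rh5db479c9ce22a9b1.shift 0 1), rh79877ebd3ef475dd] (by decide +kernel))
noncomputable def rh52e369fc79f13a2e : CRef := CRef.mk (Pat.mk 0xc00000004000000080000000c00000000 0x80000000c000000040000003c0000000f00000002 4 6) 0 0 (step_sound _ 66 [(rh2f68792b6b779e96.shift 2 1), rha71afc656c87d410] (by decide +kernel))
noncomputable def rh8f2fbebe9b6cbe8a : CRef := CRef.mk (Pat.mk 0xc0000000c0000000000000004 0xa0000000f0000003c0000000400000004 4 6) 0 0 (step_sound _ 34 [(rh2f68792b6b779e96.shift 2 0), rhcf85c92937975d4d] (by decide +kernel))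
noncomputable def rhdd217602f3e4608b : CRef := CRef.mk (Pat.mk 0x1800000018000000020000001e00000000 0x50000001f0000001f0000000a0000001e00000003 4 5) 0 0 (step_sound _ 97 [(rh0df183b948f7d7b3.shift 0 1), rh74214b36780159b9, rhd148b3582857de83, rhef7c41387b794f77] (by decide +kernel))
noncomputable def rh7292cae5778446ab : CRef := CRef.mk (Pat.mk 0x2000000020000000200000003c00000000 0x2000000020000000300000007e00000047 4 7) 0 0 (step_sound _ 6 [rh21d582c147e7e118, (rhd3458b32566d63f7.shift 5 0)] (by decide +kernel))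
noncomputable def rh4fc2a7e0a2034198 : CRef := CRef.mk (Pat.mk 0x3400000020000000000000007800000000 0x3c00000066000000070000007e0000000f 4 7) 0 0 (step_sound _ 34 [rh2cc7d62e70c02209, (rheae1728ff4a56756.shift 1 0), (rhfca6e037e8e14d1d.shift 1 0)] (by decide +kernel))
noncomputable def rhe76bcc5bb7f5635a : CRef := CRef.mk (Pat.mk 0x3400000030000000000000007800000000 0x360000003e000000070000007e0000000f 4 7) 0 0 (step_sound _ 34 [rh2cc7d62e70c02209, (rh85f9cf489b3f7850.shift 1 0), (rheae1728ff4a56756.shift 1 0)] (by decide +kernel))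
noncomputable def rhb11bd98471861a6a : CRef := CRef.mk (Pat.mk 0x2e00000008 0xe70000007e0000000c 4 8) 0 0 (step_sound _ 36 [(rh62a51e5e348b9e49.shift 2 0), (rhd5eb272e07a4e288.shift 0 1)] (by decide +kernel))
noncomputable def rh7b622f62eb9f1d4c : CRef := CRef.mk (Pat.mk 0x80000000a0000000a000000000000000000000000 0x8000000080000003b0000001f000000180000001000000010 4 6) 0 0 (step_sound _ 100 [(rh70e33bfdf511e144.shift 3 0), (rhdb4b4dc20164ea80.shift 0 3)] (by decide +kernel))
noncomputable def rhd7b02ac124407524 : CRef := CRef.mk (Pat.mk 0x4000000140000001c0000000000000000 0x4000000360000003e0000000300000002 4 6) 0 0 (step_sound _ 65 [rh256606d9ada06318, (rh33e738c4ed385b9f.shift 1 2)] (by decide +kernel))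
noncomputable def rhec27478d8da4bc65 : CRef := CRef.mk (Pat.mk 0x8000000080000000e000000000000000000000000 0x800000008000000180000000f0000000c0000000400000004 4 5) 0 0 (step_sound _ 96 [(rh281c6819542c66e6.shift 2 0), (rh33e738c4ed385b9f.shift 0 3)] (by decide +kernel))
noncomputable def rh0a9693cf478bb9d7 : CRef := CRef.mk (Pat.mk 0x8000000080000000a0000000c00000000 0x1800000018000000080000000f0000001c00000010 4 5) 0 0 (step_sound _ 132 [(rh2f68792b6b779e96.shift 3 1), rhef3ac73239ef0684] (by decide +kernel))
noncomputable def rh9a7681743de253bf : CRef := CRef.mk (Pat.mk 0x14000000140000001e000000000000000000000000 0x1000000014000000160000001e0000000b0000000200000002 4 5) 0 0 (step_sound _ 67 [(rh5c5e593799055d58.shift 3 2), rhd1474a84c69f0140] (by decide +kernel))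
noncomputable def rhbe2e147a1d991520 : CRef := CRef.mk (Pat.mk 0x40000000200000002000000020000000200000000 0x4000000060000000200000002000000060000000700000005 4 3) 0 0 (step_sound _ 0 [rh79877ebd3ef475dd, (rhae770c7baa4b41bb.shift 1 0)] (by decide +kernel))
noncomputable def rh7a2cb55027c5f5b0 : CRef := CRef.mk (Pat.mk 0xa0000000e00000000 0x1b0000001f00000038 4 6) 0 0 (step_sound _ 32 [(rh33e738c4ed385b9f.shift 0 1), rh75c6fff53e4cbd6e] (by decide +kernel))
noncomputable def rhc6d33501f70b1658 : CRef := CRef.mk (Pat.mk 0x3e00000008 0xe30000007e0000000c 4 8) 0 0 (step_sound _ 64 [(rh3f8766e6ecb455ce.shift 0 1), (rh62a51e5e348b9e49.shift 2 0)] (by decide +kernel))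
noncomputable def rh31f25001176bc52d : CRef := CRef.mk (Pat.mk 0x300000003000000020000000600000000 0x200000002000000020000000300000003000000070000000700000001 4 3) 0 0 (step_sound _ 0 [(rh7475811764a812de.shift 0 1), rh79877ebd3ef475dd] (by decide +kernel))
noncomputable def rhdeb791b55b8acb0a : CRef := CRef.mk (Pat.mk 0xe0000000f00000004 0x8000000080000000e0000003f0000003c 4 6) 0 0 (step_sound _ 99 [rh0cb6a409506b34ea, (rh5c5e593799055d58.shift 2 0)] (by decide +kernel))
noncomputable def rhf8739baa7d305555 : CRef := CRef.mk (Pat.mk 0xc000000180000003c00000000 0xf00000018000000fc0000000e 4 8) 0 0 (step_sound _ 96 [(rh8a88abf038d31fd2.shift 1 0), (rhab22b5b56e7b3243.shift 0 2)] (by decide +kernel))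
noncomputable def rh3aac9b6b8ea84c2e : CRef := CRef.mk (Pat.mk 0x20000000600000007000000060000000000000000 0x200000006000000070000001f0000000300000003 4 5) 0 0 (step_sound _ 67 [rh46530d756bdf8511, (rhf48373e13d2bc128.shift 0 2)] (by decide +kernel))
noncomputable def rh5222d5d5fedeba7b : CRef := CRef.mk (Pat.mk 0x200000006000000070000000600000000 0x600000006000000070000001f00000019 4 5) 0 0 (step_sound _ 35 [rh4b21c6a0251dfce2, (rhf48373e13d2bc128.shift 0 1)] (by decide +kernel))
noncomputable def rh04818fa55fa0f1f5 : CRef := CRef.mk (Pat.mk 0x600000006000000100000001e00000000 0x170000003e000000100000003e00000070 4 7) 0 0 (step_sound _ 5 [rh46f621829239f35d, (rh96851dee118c1ba3.shift 1 0)] (by decide +kernel))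
noncomputable def rh2d9cf2b378a087dd : CRef := CRef.mk (Pat.mk 0x200000002000000030000000200000002 0x6000000060000000700000003000000030000000200000002 4 3) 0 0 (step_sound _ 162 [rh0ba4eba045f261de, (rhbaefcd01e0a8bca3.shift 1 1)] (by decide +kernel))
noncomputable def rh0516f3b0c681c22f : CRef := CRef.mk (Pat.mk 0x2000000020000000300000002 0x1000000070000000700000006000000030000000300000002 4 3) 0 0 (step_sound _ 129 [(rh44f453b84f013105.shift 1 0), (rhe62cab2ff5ad6fe2.shift 0 1)] (by decide +kernel))
noncomputable def rh3d1a1891ecf5a845 : CRef := CRef.mk (Pat.mk 0x1000000020000000200000006 0x40000000700000007000000020000000600000006 4 3) 0 0 (step_sound _ 97 [rh50fbb5868c909700, (rha1447db93ca109b8.shift 1 0)] (by decide +kernel))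
noncomputable def rh5009210a7f3908cf : CRef := CRef.mk (Pat.mk 0x200000002000000060000000700000000 0x400000006000000060000003e0000003f00000038 4 6) 0 0 (step_sound _ 35 [rh0cb6a409506b34ea, rh822a66c22e949fd4, (rh8c2361c727ab1a01.shift 0 1)] (by decide +kernel))
noncomputable def rh0343d9899f99be97 : CRef := CRef.mk (Pat.mk 0xe0000000c0000000000000000 0x200000002000000070000007e0000000e0000000400000004 4 7) 0 0 (step_sound _ 129 [(rh7577e90c7a26b0f4.shift 0 2), (rhc2c7bae8f445c890.shift 1 0), (rhc38f566cab2818e5.shift 1 0)] (by decide +kernel))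
noncomputable def rhe921c9d098a0965f : CRef := CRef.mk (Pat.mk 0xa0000001e000000000000000000000000 0x2000000070000003e0000001e000000070000000600000002 4 6) 0 0 (step_sound _ 130 [(rh073589708c2d81a3.shift 0 1), rh9a011a4d0ec8f646] (by decide +kernel))
noncomputable def rh31f6d16b4e92f57c : CRef := CRef.mk (Pat.mk 0x8000000000000000c0000001c000000000000000800000000 0x80000000a0000000f0000001c000000040000000c00000008 4 5) 0 0 (step_sound _ 129 [(rhb739f4f82bb681b4.shift 0 3), (rhcf78d79bcabe7ee3.shift 1 0)] (by decide +kernel))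
noncomputable def rh92a57c35b9cc46e2 : CRef := CRef.mk (Pat.mk 0x60000000e000000000000000400000000 0x4000000060000003e000000030000000600000004 4 6) 0 0 (step_sound _ 100 [rh0409ec20bda07217, (rhf48373e13d2bc128.shift 1 3)] (by decide +kernel))
noncomputable def rh1ab3839901233890 : CRef := CRef.mk (Pat.mk 0x18000000380000000800000000 0x1c0000001c0000001c000000180000003c0000000f00000004 4 6) 0 0 (step_sound _ 131 [(rh2ddd6c94c59240f8.shift 3 1), rh322e79f034282812, (rh7b9fbdf6d2d059e4.shift 2 1)] (by decide +kernel))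
noncomputable def rh6ed6c2aff231c8e3 : CRef := CRef.mk (Pat.mk 0x200000016 0x770000003e 4 7) 0 0 (step_sound _ 3 [rh3244c3cc8379b070, (rh9cf60041f0c0abcb.shift 1 0)] (by decide +kernel))
noncomputable def rh4599d2b56543b3ea : CRef := CRef.mk (Pat.mk 0x16000000020000001000000010 0x380000003e000000130000001000000010 4 6) 0 0 (step_sound _ 99 [(rh45a33bf2aa24a5e6.shift 1 0), (rheb0810cc63b001d8.shift 0 2)] (by decide +kernel))
noncomputable def rh665813a1b2c46ecc : CRef := CRef.mk (Pat.mk 0xb00000008000000080000000800000000 0x140000001e0000000b00000008000000180000001800000010 4 5) 0 0 (step_sound _ 163 [(rha78afc937ca94db4.shift 0 2), (rhd29a1fb688eae70f.shift 3 0)] (by decide +kernel))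
noncomputable def rh71d8b0352e63a5c8 : CRef := CRef.mk (Pat.mk 0x2000000020000000200000002000000000000000000000000 0x6000000060000000600000006000000070000000700000001 4 3) 0 0 (step_sound _ 65 [rh32c2123a4016d1a7, (rhd29a1fb688eae70f.shift 1 1)] (by decide +kernel))
noncomputable def rh1661d7d3499ff742 : CRef := CRef.mk (Pat.mk 0x2000000020000000200000002 0x1000000070000000700000006000000060000000600000006 4 3) 0 0 (step_sound _ 129 [rh29dd5384d80ecb1e, (rh44f453b84f013105.shift 1 0)] (by decide +kernel))
noncomputable def rh063a6ce73ac86a04 : CRef := CRef.mk (Pat.mk 0x20000000300000008000000080000000800000000 0x100000001e0000001f00000018000000080000000800000008 4 5) 0 0 (step_sound _ 131 [rh2f96fcbae591dad1, (rh6d4e4609024b81df.shift 0 1), (rheca207e390c8f755.shift 0 1)] (by decide +kernel))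
noncomputable def rhcb015d0947e5d520 : CRef := CRef.mk (Pat.mk 0x38000000800000008000000080 0xe7000000fe000000870000008000000080 4 8) 0 0 (step_sound _ 98 [(rh2cc7d62e70c02209.shift 0 2), (rh67090cce5ea09380.shift 2 0)] (by decide +kernel))
noncomputable def rh3d9f16145cbae72c : CRef := CRef.mk (Pat.mk 0x300000018000000080000000800000000 0x10000000100000001f00000018000000180000000800000008 4 5) 0 0 (step_sound _ 130 [(rhb730ba14aa32bdb3.shift 3 0), (rhd6e447e81774439e.shift 0 3)] (by decide +kernel))
noncomputable def rh3d064726ccb041f4 : CRef := CRef.mk (Pat.mk 0xb0000000000000008000000080000000000000000 0x10000000180000001f0000001800000018000000180000001800000010 4 5) 0 0 (step_sound _ 131 [(rh426f403fa814630c.shift 3 1), (rh4b863968009fb8f5.shift 0 1), (rh954645b692433a48.shift 0 1), (rhec588a0d7783acc6.shift 3 0), rhf2843679cea1135c] (by decide +kernel))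
noncomputable def rh858b38bcc50fd226 : CRef := CRef.mk (Pat.mk 0x1600000002000000120000001200000000 0x28000000390000003f00000012000000320000003200000020 4 6) 0 0 (step_sound _ 164 [(rh1aef4a1c03bfe1bb.shift 4 0), (rhaeacf255ebe35287.shift 0 1), (rhe3d16c21027e4570.shift 3 0)] (by decide +kernel))
noncomputable def rh0e289fe159c49757 : CRef := CRef.mk (Pat.mk 0x20000000b00000000000000080000000800000000 0x140000001e0000000f00000018000000180000001800000010 4 5) 0 0 (step_sound _ 99 [rh463408dae1ac9ce9, rh53cf65c401bba3fe, (rheca207e390c8f755.shift 0 1)] (by decide +kernel))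
noncomputable def rh7cc8aea724e34ce9 : CRef := CRef.mk (Pat.mk 0x78000000080000004800000040 0x370000007e000000480000004800000048 4 7) 0 0 (step_sound _ 98 [(rh132883a60cd8aed8.shift 1 0), rh1b835bb8795bca47, (rh261f868a429ae0e3.shift 2 0), (rha4e6748b1d0bf474.shift 1 0)] (by decide +kernel))
noncomputable def rhae6e4620d0ea5fad : CRef := CRef.mk (Pat.mk 0xf000000010000000900000008 0x760000003f000000710000001900000009 4 7) 0 0 (step_sound _ 100 [(rh1fbc9fee05401eba.shift 1 0), rhded1c26c5743d8d6, rhe6e503694ba4d3ba] (by decide +kernel))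
noncomputable def rh93c6347976cefe05 : CRef := CRef.mk (Pat.mk 0xb0000000000000008000000080000000000000000 0x1c0000001f0000001800000008000000180000001800000010 4 5) 0 0 (step_sound _ 131 [(rh0344734bcb73bd02.shift 0 2), (rhec588a0d7783acc6.shift 3 0), (rheca207e390c8f755.shift 0 2)] (by decide +kernel))
noncomputable def rh8d684d8f54f9b35b : CRef := CRef.mk (Pat.mk 0x1c000000040000000c00000008 0x330000001e0000000c0000000c0000000c 4 6) 0 0 (step_sound _ 132 [(rh04253f50b6dd0619.shift 3 0), rh1382add41f22222b] (by decide +kernel))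
noncomputable def rhd8e818f38b4263b6 : CRef := CRef.mk (Pat.mk 0x700000001000000080000001800000000 0x380000001f0000001b000000080000001800000010 4 6) 0 0 (step_sound _ 131 [(rh3f9c2fb96516703c.shift 0 3), rh9a6ab53ed55a15e7] (by decide +kernel))
noncomputable def rh0863d10f4032ee31 : CRef := CRef.mk (Pat.mk 0x1c00000004000000240000006000000000 0x730000003e00000064000000240000006400000040 4 7) 0 0 (step_sound _ 133 [(rh9a6ab53ed55a15e7.shift 2 0), (rhdad6fb8687a5e7f2.shift 2 1), (rhf8bb4458b10bd171.shift 0 1)] (by decide +kernel))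
noncomputable def rha8e8a5fc268436f0 : CRef := CRef.mk (Pat.mk 0x7000000010000000a0000001a00000000 0x40000001f0000001b0000000a0000001a00000010 4 5) 0 0 (step_sound _ 97 [rh1f7d1aa26f7f12c2, (rh2f68792b6b779e96.shift 1 1)] (by decide +kernel))
noncomputable def rha2103fe4697cf528 : CRef := CRef.mk (Pat.mk 0x10000000b00000008 0x3b0000001f00000018 4 6) 0 0 (step_sound _ 34 [(rh790acd67f4fffd04.shift 0 1), rhe25b0a99195a5d59] (by decide +kernel))
noncomputable def rh466d3de35d7d83a5 : CRef := CRef.mk (Pat.mk 0x7000000010000000a0000000a 0x40000001f0000003b0000000a0000000a 4 6) 0 0 (step_sound _ 99 [(rh4274f4328cb9f3fd.shift 0 2), rhd518b3b5c3e528fc, rhdad6fb8687a5e7f2] (by decide +kernel))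
noncomputable def rhac53c00637716274 : CRef := CRef.mk (Pat.mk 0xf00000000000000080000000800000000 0x180000000f00000018000000180000001800000010 4 5) 0 0 (step_sound _ 163 [(rh33e738c4ed385b9f.shift 0 4), rh739c30fde84eead9] (by decide +kernel))
noncomputable def rh92cadccbc80bed0e : CRef := CRef.mk (Pat.mk 0x7000000010000000a0000000a 0x140000001f0000001b0000000a0000000a 4 5) 0 0 (step_sound _ 99 [rh90b2a9b33a13c18c, rhd518b3b5c3e528fc, rhdad6fb8687a5e7f2] (by decide +kernel))
noncomputable def rh5dd37da99468ed0a : CRef := CRef.mk (Pat.mk 0x70000000100000018000000080000000000000000 0x380000001f0000003b00000018000000080000000800000008 4 6) 0 0 (step_sound _ 164 [(rh16cbd58a1619e6a8.shift 3 0), (rh2ed612292ee74253.shift 0 4), (rh50a395a5320f3e41.shift 0 2), (rhc97e5c442a314a91.shift 0 4)] (by decide +kernel))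
noncomputable def rh54242c4cd29a6389 : CRef := CRef.mk (Pat.mk 0xe000000000000003000000010 0x780000003f000000300000003000000010 4 7) 0 0 (step_sound _ 100 [rh05e15f63bf4f90c9, (rh0729e794b6b0c7c1.shift 1 0), (rhdad6fb8687a5e7f2.shift 1 0)] (by decide +kernel))
noncomputable def rhabd1a7cea2fa850e : CRef := CRef.mk (Pat.mk 0x600000003000000000000000b00000008 0x40000001e0000000b0000001a0000000f00000018 4 5) 0 0 (step_sound _ 131 [(rh18965a982d73c794.shift 0 3), rhc35cf9b978ef96b2] (by decide +kernel))
noncomputable def rh682632191a22e410 : CRef := CRef.mk (Pat.mk 0x2000000010000000f00000002 0x60000000600000006000000030000001f00000002 4 5) 0 0 (step_sound _ 65 [rh5db479c9ce22a9b1, (rhf48373e13d2bc128.shift 0 1)] (by decide +kernel))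
noncomputable def rhde4fc943b3c316a9 : CRef := CRef.mk (Pat.mk 0x700000010000000080000000800000000 0x10000000100000001f00000018000000180000000800000008 4 5) 0 0 (step_sound _ 99 [(rhb730ba14aa32bdb3.shift 3 0), (rhd6e447e81774439e.shift 0 3)] (by decide +kernel))
noncomputable def rhace880836e00953f : CRef := CRef.mk (Pat.mk 0x6000000110000000a00000008 0x100000001e000000330000001e00000008 4 6) 0 0 (step_sound _ 36 [(rh170679153ea11e3d.shift 1 0), rh80494d7a790a0576, rh9616d7b68a9bedf4, (rhf24cf804840f069b.shift 0 1)] (by decide +kernel))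
noncomputable def rhc1ef93beb23e3f7b : CRef := CRef.mk (Pat.mk 0x7000000030000000b00000008 0x100000001f0000001b0000001f00000008 4 5) 0 0 (step_sound _ 68 [rh4e12bc1823d08940, (rh5a7ed244f65b46a9.shift 0 2), (rh6723fcc1c491a16a.shift 0 1)] (by decide +kernel))
noncomputable def rhbb26caacc5303f47 : CRef := CRef.mk (Pat.mk 0x10000000f000000000000000000000008 0x330000001f000000180000000800000008 4 6) 0 0 (step_sound _ 67 [rh8847b75c5e4513b5, (rhe25b0a99195a5d59.shift 0 2)] (by decide +kernel))
noncomputable def rhc3ab095df7f091ac : CRef := CRef.mk (Pat.mk 0xf00000000 0x380000001f00000038 4 6) 0 0 (step_sound _ 4 [rh00b22401a0bf2d5e, rh96851dee118c1ba3] (by decide +kernel))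
noncomputable def rh2ea3c59416b0d047 : CRef := CRef.mk (Pat.mk 0x100000007800000000 0x370000007e0000000e 4 7) 0 0 (step_sound _ 34 [(rh503775339733bab1.shift 0 1), (rheae1728ff4a56756.shift 1 0)] (by decide +kernel))
noncomputable def rh88bda68c0b95902b : CRef := CRef.mk (Pat.mk 0x40000001e000000000000000400000000 0x4000000070000001e000000030000000600000004 4 5) 0 0 (step_sound _ 129 [rh0409ec20bda07217, (rh3244c3cc8379b070.shift 0 3)] (by decide +kernel))
noncomputable def rhe6a5db9bb1f5c073 : CRef := CRef.mk (Pat.mk 0x8000000180000001a00000000 0x4000000040000000e0000007f0000001b00000008 4 7) 0 0 (step_sound _ 66 [(rh710860539a4c4362.shift 0 1), (rh73bb6971660b7fb8.shift 1 0)] (by decide +kernel))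
noncomputable def rh15cdca3c85634347 : CRef := CRef.mk (Pat.mk 0x280000002c0000002800000000 0x140000001c0000001c0000003c0000002f0000002c00000024 4 6) 0 0 (step_sound _ 131 [(rh03dfdf12d5937476.shift 2 0), rh2ae864ed1aa28cbb, (rh7ef5fa5c39f1c762.shift 2 1)] (by decide +kernel))
noncomputable def rhc6c4681ae2803d82 : CRef := CRef.mk (Pat.mk 0x200000003000000020000000000000000 0x500000007000000070000000300000003000000030000000300000001 4 3) 0 0 (step_sound _ 161 [(rh03dfdf12d5937476.shift 0 1), rh0c1c1b53bc5a1510, (rh7ef5fa5c39f1c762.shift 0 2)] (by decide +kernel))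
noncomputable def rh83175d0a83614e81 : CRef := CRef.mk (Pat.mk 0xa0000000b0000000a00000000 0x6000000060000000e0000000b0000000b0000000b 4 4) 0 0 (step_sound _ 129 [rh03dfdf12d5937476, (rhc5998ce9d02e6204.shift 1 0)] (by decide +kernel))
noncomputable def rhb3e3c0562283e6d9 : CRef := CRef.mk (Pat.mk 0x50000000c00000028 0xf0000007e0000006c 4 7) 0 0 (step_sound _ 36 [(rh4b858afe2cb38247.shift 0 1), (rh71b175d56e26c10e.shift 0 1), (rhe913bbd8998b6509.shift 2 0)] (by decide +kernel))
noncomputable def rh79d7e33fed86d355 : CRef := CRef.mk (Pat.mk 0x40000003400000020 0x60000003e00000037 4 6) 0 0 (step_sound _ 35 [rh0de499e0455c9c14, (rh3244c3cc8379b070.shift 1 1)] (by decide +kernel))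
noncomputable def rhb771f0c0eb3dc0fa : CRef := CRef.mk (Pat.mk 0x80000000a000000020000000200000002 0x50000000f0000001b000000020000000200000002 4 5) 0 0 (step_sound _ 128 [(rhd9e6553f77c1dd52.shift 0 1), rhffd04209dc8ea796] (by decide +kernel))
noncomputable def rh31a2e88f4dbdd2d2 : CRef := CRef.mk (Pat.mk 0x20000000200000002000000020000000000000000 0x1000000030000000200000002000000070000000700000005 4 3) 0 0 (step_sound _ 160 [rh3181373a30ceb9e3, (rh50fbb5868c909700.shift 0 2)] (by decide +kernel))
noncomputable def rhcd8fc927b72d0e58 : CRef := CRef.mk (Pat.mk 0xb0000000a 0x380000001f0000001b 4 6) 0 0 (step_sound _ 34 [rh62a51e5e348b9e49, rhe25b0a99195a5d59] (by decide +kernel))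
noncomputable def rh8de0e6d49f2e2665 : CRef := CRef.mk (Pat.mk 0x2000000020000001a0000000000000000 0x50000000700000007000000020000001e0000000300000001 4 5) 0 0 (step_sound _ 33 [rh5710f30ba40ee3ec, (rh7ef5fa5c39f1c762.shift 0 1)] (by decide +kernel))
noncomputable def rh87e2110e4f4cd2a6 : CRef := CRef.mk (Pat.mk 0x14000000140000001400000000 0x8000000080000000f0000001e000000340000001400000014 4 6) 0 0 (step_sound _ 99 [(rh176ee440f82a3750.shift 2 0), rhb1e85508c6bcb2d1, (rhd8a13c7f042cc6ea.shift 2 0)] (by decide +kernel))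
noncomputable def rh478d70adf93ffeb9 : CRef := CRef.mk (Pat.mk 0xa0000000a0000001a0000000000000000 0x50000000f0000001a0000001e0000000300000001 4 5) 0 0 (step_sound _ 33 [rh5710f30ba40ee3ec, (rhefe6a054a8eff004.shift 0 1)] (by decide +kernel))
noncomputable def rh0635dbc328a2413d : CRef := CRef.mk (Pat.mk 0x20000000a0000000a00000010 0x50000000700000007000000020000001a0000000f00000019 4 5) 0 0 (step_sound _ 129 [(rh7ef5fa5c39f1c762.shift 0 1), rh85bd523a0cf0cfc5] (by decide +kernel))
noncomputable def rhd6dd0aff1a96d776 : CRef := CRef.mk (Pat.mk 0x20000000a0000000a000000100000000000000000 0x2000000020000001a0000000f0000001b0000000100000001 4 5) 0 0 (step_sound _ 96 [rh281c6819542c66e6, (rhd9f5d1027b9c54e6.shift 0 2)] (by decide +kernel))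
noncomputable def rhfc4879b2af87f2e3 : CRef := CRef.mk (Pat.mk 0xe0000000a0000000a00000000 0x400000004000000060000000f0000001a0000000a00000008 4 5) 0 0 (step_sound _ 68 [(rh176ee440f82a3750.shift 1 0), (rhb739f4f82bb681b4.shift 0 2)] (by decide +kernel))
noncomputable def rh81024d2c512b9591 : CRef := CRef.mk (Pat.mk 0x400000014000000140000001400000000 0x40000000c0000001e000000370000001600000016 4 6) 0 0 (step_sound _ 99 [rh380fe7a921b28f23, (rhd8a13c7f042cc6ea.shift 2 0)] (by decide +kernel))
noncomputable def rhcecf32c1f98214ca : CRef := CRef.mk (Pat.mk 0x40000001400000014000000040000000000000000 0x400000004000000070000001e00000037000000060000000600000002 4 6) 0 0 (step_sound _ 129 [(rh01852db72a87bca5.shift 0 1), (rh24b4f41f846cb1d8.shift 1 0), (rhff6bb0eb21c8c0c5.shift 0 2)] (by decide +kernel))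
noncomputable def rhdda7f8b821c2bde5 : CRef := CRef.mk (Pat.mk 0x400000014000000140000000400000000 0x2000000070000001e000000340000000400000004 4 6) 0 0 (step_sound _ 129 [rh254596f2f5d4bbab, (rh50fbb5868c909700.shift 1 1)] (by decide +kernel))
noncomputable def rh7635e2a9df6dbabe : CRef := CRef.mk (Pat.mk 0x400000014000000140000001400000000 0xa0000000f0000001c000000140000001400000010 4 5) 0 0 (step_sound _ 129 [(rh50fbb5868c909700.shift 1 1), rhb966f4f0b3c67506] (by decide +kernel))
noncomputable def rh8c3a1fff475f5ecd : CRef := CRef.mk (Pat.mk 0x1c0000001400000004 0x2000000030000001e0000003700000004 4 6) 0 0 (step_sound _ 65 [rh7fea5fead1acfd78, (rhe25b0a99195a5d59.shift 1 1)] (by decide +kernel))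
noncomputable def rhb53751346030a0ae : CRef := CRef.mk (Pat.mk 0xf000000000000000000000008 0x380000001f000000180000000800000008 4 6) 0 0 (step_sound _ 132 [(rh428265de8cd3cd2d.shift 0 3), rh7b372dbd523c31e4] (by decide +kernel))
noncomputable def rha62aed487c1dbd84 : CRef := CRef.mk (Pat.mk 0xf00000000000000030000000800000000 0x40000000f000000180000000f0000001800000010 4 5) 0 0 (step_sound _ 99 [rh7b86caf289b7791d, (rhe25b0a99195a5d59.shift 0 3)] (by decide +kernel))
noncomputable def rhdde873a2468dd3a3 : CRef := CRef.mk (Pat.mk 0x7000000000000000b0000000800000000 0x180000001f000000180000000f0000001800000010 4 5) 0 0 (step_sound _ 99 [rh8e072a50c3e17e75, (rhabf575676fe0ef70.shift 0 1), (rheb90acdf362e49d3.shift 0 1)] (by decide +kernel))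
noncomputable def rhcbe1d6985155cee8 : CRef := CRef.mk (Pat.mk 0x4000000030000000a0000000a00000008 0x140000001e0000001b0000000a0000000a00000008 4 5) 0 0 (step_sound _ 131 [(rh11c908474401bff1.shift 2 0), (rh4064d24356ef2355.shift 1 1), (rh662783328d33e37a.shift 0 1), rhc217484e0224afb8] (by decide +kernel))
noncomputable def rh11774a4d052305d8 : CRef := CRef.mk (Pat.mk 0x2000000000000000b0000000a00000000 0x200000002000000020000001f0000001b00000001 4 5) 0 0 (step_sound _ 66 [rh331de7c3a8189cab, (rhe25b0a99195a5d59.shift 0 1)] (by decide +kernel))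
noncomputable def rh01a6b4dd09b42962 : CRef := CRef.mk (Pat.mk 0x7000000100000000e00000008 0x380000001f000000300000001e00000008 4 6) 0 0 (step_sound _ 100 [(rh87cc7ac0bbadee52.shift 0 2), rh8d160cfd96886889, (rha7c0d53f5e6c6372.shift 1 0), (rhf428b1dc658d16d8.shift 1 1)] (by decide +kernel))
noncomputable def rhe0550b095796768c : CRef := CRef.mk (Pat.mk 0x38000000000000001000000010 0x670000003e000000170000001000000010 4 7) 0 0 (step_sound _ 98 [(rh2cc7d62e70c02209.shift 0 2), (rh4fc80024ed3db095.shift 2 0)] (by decide +kernel))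
noncomputable def rha7b4f2e8e63f50d0 : CRef := CRef.mk (Pat.mk 0x3000000080000000d000000040000000000000000 0x80000000f000000180000000f000000040000000400000004 4 5) 0 0 (step_sound _ 2 [(rh4546ba2e38f59712.shift 0 2), (rh9e3edb185cc347de.shift 2 0)] (by decide +kernel))
noncomputable def rh553c65425326b783 : CRef := CRef.mk (Pat.mk 0x2000000006000000000000000600000004 0x80000007c0000001f000000040000000600000006 4 7) 0 0 (step_sound _ 131 [(rh1be0c65857d58d9e.shift 1 0), (rh5711876ca6f13fbe.shift 1 0), (rh7b1c6b38b4135b82.shift 0 3), rh7dba95e791dfe9ef] (by decide +kernel))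
noncomputable def rh8cb7b0fb4fe794aa : CRef := CRef.mk (Pat.mk 0xb000000020000000a0000000a 0x3c0000001f0000000a0000000a0000000a 4 6) 0 0 (step_sound _ 98 [(rh2f68792b6b779e96.shift 1 0), rh6a78fa75f0f8d5b0] (by decide +kernel))
noncomputable def rh66bd93334418f273 : CRef := CRef.mk (Pat.mk 0x500000005000000050000000500000000 0x20000000600000007000000050000000d0000000d00000008 4 4) 0 0 (step_sound _ 35 [(rh4b5dfc1ba9b05280.shift 0 1), (rh55afc6a59410cf00.shift 2 0)] (by decide +kernel))
noncomputable def rh636d588b70c96ccc : CRef := CRef.mk (Pat.mk 0xb00000008000000080000000800000000 0x180000000f00000018000000180000001800000010 4 5) 0 0 (step_sound _ 36 [(rh55afc6a59410cf00.shift 3 0), (rha0de95c49ac13fd3.shift 0 1)] (by decide +kernel))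
noncomputable def rhf0bd31327b7f14f8 : CRef := CRef.mk (Pat.mk 0x500000005000000050000000400000000 0x2000000070000000700000005000000050000000c00000008 4 4) 0 0 (step_sound _ 3 [(rhafab112a4c4dda0f.shift 0 1), (rhd3458b32566d63f7.shift 2 0)] (by decide +kernel))
noncomputable def rhbc0bc93287be51cc : CRef := CRef.mk (Pat.mk 0x1e000000000000000b00000008 0x770000003e000000000000000f00000018 4 7) 0 0 (step_sound _ 34 [rhe25b0a99195a5d59, (rhf94411b389c3e54c.shift 0 3)] (by decide +kernel))
noncomputable def rh49ad75b026885cf6 : CRef := CRef.mk (Pat.mk 0x1e00000000000000200000006000000000 0x170000003e00000020000000200000006000000040 4 7) 0 0 (step_sound _ 161 [(rh3244c3cc8379b070.shift 0 4), (rh3f91669a4fe04236.shift 1 0)] (by decide +kernel))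
noncomputable def rh32b9f86da03c5b3d : CRef := CRef.mk (Pat.mk 0x3c00000002000000580000004000000000 0x1bc000000fe0000004300000078000000c000000080 4 9) 0 0 (step_sound _ 134 [(rh1b7dc33a8f9be080.shift 2 1), (rh82b96328bb629c01.shift 3 0), (rhc88e1cf18ed03269.shift 0 3)] (by decide +kernel))
noncomputable def rha33d5de15427eea1 : CRef := CRef.mk (Pat.mk 0x3800000004 0x770000003e00000006 4 7) 0 0 (step_sound _ 34 [(rh00f1bb10334541e3.shift 0 1), (rheb0810cc63b001d8.shift 1 0)] (by decide +kernel))
noncomputable def rhdbb42d517c6ced56 : CRef := CRef.mk (Pat.mk 0x10000000e000000000000001000000010 0x730000003e000000100000001000000010 4 7) 0 0 (step_sound _ 100 [(rh3f8766e6ecb455ce.shift 0 3), (rh6a78fa75f0f8d5b0.shift 1 0)] (by decide +kernel))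
noncomputable def rh0260b1b6e7d003cf : CRef := CRef.mk (Pat.mk 0x20000001c000000000000003c00000008 0x30000001e000000030000007e0000000c 4 7) 0 0 (step_sound _ 2 [(rh18965a982d73c794.shift 2 0), rh2950770e13690148] (by decide +kernel))
noncomputable def rh36329e17fd511d53 : CRef := CRef.mk (Pat.mk 0x1e000000000000001000000010 0x2f0000003e000000100000001000000010 4 6) 0 0 (step_sound _ 68 [rh17659c9d2e0466f4, (rh50fbb5868c909700.shift 3 0)] (by decide +kernel))
noncomputable def rha4c194df36df815e : CRef := CRef.mk (Pat.mk 0x3c000000000000002000000020 0x370000003e000000200000002000000020 4 6) 0 0 (step_sound _ 132 [(rh2613c889e411427e.shift 4 0), (rh503775339733bab1.shift 0 3)] (by decide +kernel))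
noncomputable def rh0779e930714675b0 : CRef := CRef.mk (Pat.mk 0xb000000000000000f00000008 0x10000000180000001f000000180000000f00000008 4 5) 0 0 (step_sound _ 67 [(rh33e738c4ed385b9f.shift 0 1), rhd444dcb48ef11957] (by decide +kernel))
noncomputable def rh624387a5ffe62264 : CRef := CRef.mk (Pat.mk 0xb000000080000000800000008 0x140000001e0000000f000000080000000800000008 4 5) 0 0 (step_sound _ 130 [(rhbb954564fd911350.shift 0 1), (rhffd04209dc8ea796.shift 2 0)] (by decide +kernel))
noncomputable def rhd0066972526ea4b9 : CRef := CRef.mk (Pat.mk 0x16000000100000001000000010 0x2f0000003e000000100000001000000010 4 6) 0 0 (step_sound _ 99 [rh17659c9d2e0466f4, (rh50fbb5868c909700.shift 3 0)] (by decide +kernel))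
noncomputable def rh2c38abab8fc96547 : CRef := CRef.mk (Pat.mk 0x1e000000000000001e 0x70000003e000000700000001e 4 7) 0 0 (step_sound _ 97 [(rh32133c66528316f6.shift 1 0), (rh3244c3cc8379b070.shift 0 2)] (by decide +kernel))
noncomputable def rhcb39f338366dfbf3 : CRef := CRef.mk (Pat.mk 0x7800000000 0x7e0000007e00000007 4 7) 0 0 (step_sound _ 34 [rh2c1baeadcd4b32f5, (rhd5eb272e07a4e288.shift 1 1)] (by decide +kernel))
noncomputable def rh968b07e3fb4782be : CRef := CRef.mk (Pat.mk 0x1e000000000000001000000010 0x730000003e000000100000001000000010 4 7) 0 0 (step_sound _ 128 [(rh3f8766e6ecb455ce.shift 0 3), (rh6a78fa75f0f8d5b0.shift 1 0)] (by decide +kernel))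
noncomputable def rhdc173edb4e3fed61 : CRef := CRef.mk (Pat.mk 0x1e00000000 0xe70000007e000000e0 4 8) 0 0 (step_sound _ 37 [(rh35e918dd76851f8c.shift 2 0), (rhd5eb272e07a4e288.shift 0 1)] (by decide +kernel))
noncomputable def rhd4c8d6cfc3f23c45 : CRef := CRef.mk (Pat.mk 0xb000000000000000f00000008 0x1c0000001f000000180000000f00000008 4 5) 0 0 (step_sound _ 67 [rh0344734bcb73bd02, (rh33e738c4ed385b9f.shift 0 1)] (by decide +kernel))
noncomputable def rh8394c11568efe4fe : CRef := CRef.mk (Pat.mk 0x10000000e000000000000001c00000014 0x330000003e000000600000003c00000016 4 7) 0 0 (step_sound _ 37 [rhe1cf8e238b706214, (rheb0810cc63b001d8.shift 1 0)] (by decide +kernel))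
noncomputable def rhfc08d82a46183e62 : CRef := CRef.mk (Pat.mk 0x1e000000020000000400000000 0x4000000070000003e000000020000000600000004 4 6) 0 0 (step_sound _ 129 [(rh0dbbfafdd9acb483.shift 1 0), (rh3244c3cc8379b070.shift 0 3)] (by decide +kernel))
noncomputable def rhd1459ccacd5cf43a : CRef := CRef.mk (Pat.mk 0x7000000000000001e00000008 0x3e0000001f000000300000001e00000008 4 6) 0 0 (step_sound _ 132 [(rh0ab2fd019e795ded.shift 0 3), (rhfca48bdea898f94b.shift 1 0)] (by decide +kernel))
noncomputable def rh1385035758ee3eaa : CRef := CRef.mk (Pat.mk 0xb000000000000000b0000000800000000 0x10000000180000001f000000180000000f0000000800000008 4 5) 0 0 (step_sound _ 99 [rh0a88cd63e34485c5, (rh51e51e8d2827a2be.shift 0 2), (rhd444dcb48ef11957.shift 0 1)] (by decide +kernel))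
noncomputable def rh39b84031d160205a : CRef := CRef.mk (Pat.mk 0x16000000100000001000000010 0x2f0000003e000000100000001000000010 4 6) 0 0 (step_sound _ 101 [(rh2f68792b6b779e96.shift 4 0), rhd7e855f3d74af1d8] (by decide +kernel))
noncomputable def rh8ee8e0fda8cf069e : CRef := CRef.mk (Pat.mk 0xb0000001800000008 0x140000001c0000001e0000000b0000001800000018 4 5) 0 0 (step_sound _ 99 [(rh14f80659e6313cc6.shift 3 0), rh4a57183b91ec83ec, (rh812b908590c67662.shift 2 0)] (by decide +kernel))
noncomputable def rh025ebb45ce709cdb : CRef := CRef.mk (Pat.mk 0x40000003800000000 0x760000003e00000007 4 7) 0 0 (step_sound _ 34 [rh2c1baeadcd4b32f5, (rh3244c3cc8379b070.shift 1 1)] (by decide +kernel))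
noncomputable def rhd805eddfa5fec78d : CRef := CRef.mk (Pat.mk 0x10000000e000000000000000800000008 0x330000001e000000300000001800000008 4 6) 0 0 (step_sound _ 100 [(rh1fbc9fee05401eba.shift 1 0), (rh3f8766e6ecb455ce.shift 0 3)] (by decide +kernel))
noncomputable def rh1cc0eab914658d8b : CRef := CRef.mk (Pat.mk 0x1e000000000000001000000010 0x2f0000003e000000100000001000000010 4 6) 0 0 (step_sound _ 129 [(rh3244c3cc8379b070.shift 0 3), (rh37ea282d59b70803.shift 1 0)] (by decide +kernel))
noncomputable def rha1525bb463ada7fb : CRef := CRef.mk (Pat.mk 0x20000000200000002000000040000000000000000 0x4000000060000000600000002000000070000000700000001 4 3) 0 0 (step_sound _ 65 [rh32c2123a4016d1a7, (rh55afc6a59410cf00.shift 1 1)] (by decide +kernel))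
noncomputable def rhe81211ef80657552 : CRef := CRef.mk (Pat.mk 0xb000000080000000800000010 0x140000001e0000000b000000080000001800000010 4 5) 0 0 (step_sound _ 131 [(rha78afc937ca94db4.shift 0 1), (rhd3458b32566d63f7.shift 3 0)] (by decide +kernel))
noncomputable def rha1fe594ba22c8e8c : CRef := CRef.mk (Pat.mk 0x100000000c000000300000003000000000 0x200000007c0000002f000000300000003000000010 4 7) 0 0 (step_sound _ 133 [(rhb8fddd58ad9026ec.shift 4 0), (rhbd2e91c3fdbfa961.shift 0 3)] (by decide +kernel))
noncomputable def rh003c7867c9043fd7 : CRef := CRef.mk (Pat.mk 0x9000000080000000800000008 0x100000001c0000001f000000080000000800000008 4 5) 0 0 (step_sound _ 132 [rha426fe210fcc3d3f, (rhbaefcd01e0a8bca3.shift 3 0)] (by decide +kernel))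
noncomputable def rhf8d2c1ffa8e3abe1 : CRef := CRef.mk (Pat.mk 0x1e000000000000000200000000 0x400000004000000040000001e000000070000000200000002 4 5) 0 0 (step_sound _ 65 [(rhb730ba14aa32bdb3.shift 1 0), (rheb0810cc63b001d8.shift 0 2)] (by decide +kernel))
noncomputable def rh89ba0b9fa0cfc5a9 : CRef := CRef.mk (Pat.mk 0x90000000800000008000000080000001000000000 0x40000001f0000001800000008000000080000001800000010 4 5) 0 0 (step_sound _ 35 [(rh04e891dc1d071904.shift 0 1), (rh55afc6a59410cf00.shift 3 0)] (by decide +kernel))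
noncomputable def rhe60993aeadda8110 : CRef := CRef.mk (Pat.mk 0x20000001600000004 0x730000003e00000006 4 7) 0 0 (step_sound _ 35 [(rh3244c3cc8379b070.shift 0 1), (rh62a51e5e348b9e49.shift 1 0)] (by decide +kernel))
noncomputable def rh7c25be9386eb2e3e : CRef := CRef.mk (Pat.mk 0x1e000000080000000c0000000800000000 0x20000003e0000000f0000000c0000000c00000004 4 6) 0 0 (step_sound _ 97 [(rh997020c36e09a91e.shift 1 0), (rheb0810cc63b001d8.shift 0 3)] (by decide +kernel))
noncomputable def rh42744861eba0bda2 : CRef := CRef.mk (Pat.mk 0x7800000020 0x7000001fe0000003e 4 9) 0 0 (step_sound _ 34 [rh7d5bf828111ca202, (rhc79769c0453a04d3.shift 1 0), (rheae1728ff4a56756.shift 1 0)] (by decide +kernel))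
noncomputable def rh01ac0821a463c3cc : CRef := CRef.mk (Pat.mk 0x3c00000010000000100000001000000000 0x70000003e00000017000000100000001800000008 4 6) 0 0 (step_sound _ 3 [(rh2cc7d62e70c02209.shift 0 3), (rh79877ebd3ef475dd.shift 3 0)] (by decide +kernel))
noncomputable def rhb1c2d1887e3fce06 : CRef := CRef.mk (Pat.mk 0xe000000000000001400000014 0x380000001f000000140000001400000014 4 6) 0 0 (step_sound _ 131 [(rh04253f50b6dd0619.shift 2 0), rh9ddf9e41e206d854] (by decide +kernel))
noncomputable def rh1559955ecf53c1c6 : CRef := CRef.mk (Pat.mk 0x200000001e000000000000001000000010 0x600000003e000000630000003000000010 4 7) 0 0 (step_sound _ 64 [(rh80fcd6d0a18cb2dd.shift 0 2), (rhe480d4d80f0531a6.shift 2 0)] (by decide +kernel))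
noncomputable def rhdd128ce39c6c8e40 : CRef := CRef.mk (Pat.mk 0x100000001e00000000000000100000001000000000 0x100000001e00000033000000300000003000000020 4 6) 0 0 (step_sound _ 96 [(rh739c30fde84eead9.shift 1 0), (rh80fcd6d0a18cb2dd.shift 0 3)] (by decide +kernel))
noncomputable def rh76d31705d2d04752 : CRef := CRef.mk (Pat.mk 0x16000000020000001000000010 0x380000001f000000130000001000000010 4 6) 0 0 (step_sound _ 99 [rh05e15f63bf4f90c9, (rheb0810cc63b001d8.shift 0 2)] (by decide +kernel))
noncomputable def rh00187c35da60cec0 : CRef := CRef.mk (Pat.mk 0x200000007000000000000000400000004 0x3b0000001f000000380000000c00000004 4 6) 0 0 (step_sound _ 99 [rh1fbc9fee05401eba, (rh75c6fff53e4cbd6e.shift 0 2), (rhb0716bb49afa8156.shift 0 3)] (by decide +kernel))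
noncomputable def rhbaabc6cf3e7e34b8 : CRef := CRef.mk (Pat.mk 0x100000001c000000000000002400000024 0x130000003e000000270000002600000024 4 6) 0 0 (step_sound _ 97 [rh04395309fba550d6, rh1c330d2b1dea43fd, rhea1977e228a6d74a] (by decide +kernel))
noncomputable def rh384d2e579349ba70 : CRef := CRef.mk (Pat.mk 0x100000001c000000000000000400000004 0x330000001e000000030000000600000004 4 6) 0 0 (step_sound _ 97 [rh04395309fba550d6, (rh33e738c4ed385b9f.shift 1 3)] (by decide +kernel))
noncomputable def rh2d6456998b44a133 : CRef := CRef.mk (Pat.mk 0x3c000000000000000400000004 0x30000003e000000070000000600000004 4 6) 0 0 (step_sound _ 65 [rh4cb23f38da9b3f7f, (rh80fcd6d0a18cb2dd.shift 1 2)] (by decide +kernel))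
noncomputable def rh3595fb626c696663 : CRef := CRef.mk (Pat.mk 0x1c000000000000000c0000000c 0x330000001e0000000c0000000c0000000c 4 6) 0 0 (step_sound _ 132 [(rh04253f50b6dd0619.shift 3 0), rh60b3969b518e97a7] (by decide +kernel))
noncomputable def rh363ae3da3de3a14c : CRef := CRef.mk (Pat.mk 0x20000001a000000020000001800000000 0x2000000020000001e000000030000001f00000001 4 5) 0 0 (step_sound _ 64 [rh68f842e7ffc04ba8, (rhb2a0b9ccfb5cecd5.shift 0 2)] (by decide +kernel))
noncomputable def rhf097a4a097ee831d : CRef := CRef.mk (Pat.mk 0x200000002000000020000001800000000 0x1000000030000000300000002000000030000001f00000007 4 5) 0 0 (step_sound _ 33 [rh0fd870c734e6c513, rhcd496e99dbfe6492, rhf8cb4ab9f0c1a0ef] (by decide +kernel))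
noncomputable def rhd351565150949118 : CRef := CRef.mk (Pat.mk 0x100000001000000010000001c00000000 0x100000001000000e10000007f000000e7 4 8) 0 0 (step_sound _ 37 [rh30430edaac816587, (rh35e918dd76851f8c.shift 2 0)] (by decide +kernel))
noncomputable def rhf6e14637d414a105 : CRef := CRef.mk (Pat.mk 0x200000002000000000000001a00000000 0x1000000030000000300000002000000030000001f00000007 4 5) 0 0 (step_sound _ 65 [rh0fd870c734e6c513, rhcd496e99dbfe6492, rhf8cb4ab9f0c1a0ef] (by decide +kernel))
noncomputable def rha238b647ae5603e4 : CRef := CRef.mk (Pat.mk 0x200000002000000000000001a0000000000000000 0x1000000030000000300000003000000030000001f0000000300000001 4 5) 0 0 (step_sound _ 97 [rh0c1c1b53bc5a1510, (rh2ca5588de6f044eb.shift 0 1), (rh49420462596d58af.shift 0 2), (rha0329878a02cdc91.shift 0 1)] (by decide +kernel))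
noncomputable def rhc947567c21aef8d3 : CRef := CRef.mk (Pat.mk 0x1200000012000000100000001a0000000000000000 0x10000001300000013000000120000003f0000002700000005 4 6) 0 0 (step_sound _ 33 [(rh188decae10a60b3b.shift 0 1), rh2a63a49d12853109, rhe3d16c21027e4570] (by decide +kernel))
noncomputable def rhf2d024f4fcf850ff : CRef := CRef.mk (Pat.mk 0x200000002000000000000001a0000000800000000 0x10000000300000003000000030000001e0000000f00000005 4 5) 0 0 (step_sound _ 97 [rha766430d240c0ff2, (rhcd496e99dbfe6492.shift 0 1), rhe1161c23154e0dd6] (by decide +kernel))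
noncomputable def rh24ee6ed3ace170eb : CRef := CRef.mk (Pat.mk 0x400000004000000000000003c00000000 0x400000006000000070000003e00000003 4 6) 0 0 (step_sound _ 65 [rh389eaa71bd4b61e9, (rh3f8766e6ecb455ce.shift 1 1)] (by decide +kernel))
noncomputable def rh17a2532da6e9fbda : CRef := CRef.mk (Pat.mk 0x100000009000000080000000f00000000 0x900000009000000090000003f00000076 4 7) 0 0 (step_sound _ 36 [rh7070e3c7a9108183, rha1f0019f11573325, (rhba04d77b039f69d9.shift 1 0), (rhde10baa3043a2b46.shift 2 0)] (by decide +kernel))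
noncomputable def rhd5b7c4e3619bf733 : CRef := CRef.mk (Pat.mk 0x800000048000000400000007800000000 0x480000004c000000470000007e00000037 4 7) 0 0 (step_sound _ 34 [rhb8daf4b090e3e1c9, rhb945417d5249b464, (rhc93f3ad81bc3b393.shift 1 0)] (by decide +kernel))
noncomputable def rh4d9fb53d5c5533a9 : CRef := CRef.mk (Pat.mk 0x200000012000000120000001a0000000000000000 0x1200000012000000120000001b0000000f00000001 4 5) 0 0 (step_sound _ 32 [(rh79877ebd3ef475dd.shift 0 1), rh8f22b0d569458701] (by decide +kernel))
noncomputable def rhf68f91c55a318d0f : CRef := CRef.mk (Pat.mk 0x200000012000000120000001a0000000000000000 0x10000001300000013000000120000001a0000000f00000004 4 5) 0 0 (step_sound _ 35 [(rh5c5e593799055d58.shift 3 1), rha766430d240c0ff2] (by decide +kernel))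
noncomputable def rhc9ab234beaaf90fa : CRef := CRef.mk (Pat.mk 0x8000000080000000e00000000 0x800000008000000080000003e00000077 4 7) 0 0 (step_sound _ 36 [rh5963e6299adc36a3, rh8db7f7558b75b2b1, (rhba04d77b039f69d9.shift 1 0), (rhde10baa3043a2b46.shift 2 0)] (by decide +kernel))
noncomputable def rhbf68c3d532b64114 : CRef := CRef.mk (Pat.mk 0x200000002000000000000001a0000000000000000 0x10000000300000003000000030000001f0000000700000001 4 5) 0 0 (step_sound _ 97 [rh0c1c1b53bc5a1510, (rhcd496e99dbfe6492.shift 0 1)] (by decide +kernel))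
noncomputable def rh6120bc6b14b0b1d6 : CRef := CRef.mk (Pat.mk 0x300000002000000020000001800000000 0x10000000300000003000000020000001f00000003 4 5) 0 0 (step_sound _ 33 [rh01556dd712c5507e, (rh50fbb5868c909700.shift 0 1)] (by decide +kernel))
noncomputable def rh45f35e0ccabaac01 : CRef := CRef.mk (Pat.mk 0x20000000200000002000000180000000800000000 0x200000002000000030000001f0000000f00000001 4 5) 0 0 (step_sound _ 65 [rh48099badca17f586, (rh6c64b8a469c3e7d7.shift 0 1), (rhcd496e99dbfe6492.shift 0 1)] (by decide +kernel))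
noncomputable def rh8bf92c46d515b210 : CRef := CRef.mk (Pat.mk 0xa000000180000001000000018000000080000000000000000 0xf0000007c0000001000000018000000080000000800000008 4 7) 0 0 (step_sound _ 3 [(rh174a767562f03570.shift 0 5), (rh9e3edb185cc347de.shift 3 0)] (by decide +kernel))
noncomputable def rh0d84d5d4fe80ad89 : CRef := CRef.mk (Pat.mk 0xc0000000c0000000c0000000c00000000 0x20000000f0000003c0000000c0000001c00000010 4 6) 0 0 (step_sound _ 4 [(rhcf85c92937975d4d.shift 0 1), (rhd3458b32566d63f7.shift 3 0)] (by decide +kernel))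
noncomputable def rhfd620908e7a13424 : CRef := CRef.mk (Pat.mk 0x40000000c000000080000000e00000000 0xc0000000c0000000c0000001e00000033 4 6) 0 0 (step_sound _ 1 [(rh3c88ce959c0e423f.shift 1 0), rh438920a1ef51d89e] (by decide +kernel))
noncomputable def rh3cd259c6e927b42f : CRef := CRef.mk (Pat.mk 0x800000018000000120000000200000002 0x50000001f0000001f0000001a0000000200000002 4 5) 0 0 (step_sound _ 97 [rh342b8b00d9c01ed0, rh67a6ac2206c6dac5, rh9da7ea51113f4f62, rhe4848fa713bf79e5, rhec0859af9de58e7d] (by decide +kernel))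
noncomputable def rhd1b875f19a7279d0 : CRef := CRef.mk (Pat.mk 0x800000018000000020000000600000000 0x50000000f0000007e000000020000000600000004 4 7) 0 0 (step_sound _ 129 [(rh174a767562f03570.shift 0 3), (rh247662fa54b77552.shift 1 0), rh50496c3112cd5d02, rhbde396fddbbf315b, rhf999224224563d6c] (by decide +kernel))
noncomputable def rhba4cce9a2a2c632f : CRef := CRef.mk (Pat.mk 0x800000018000000020000000600000000 0x50000001f0000007e000000020000000600000004 4 7) 0 0 (step_sound _ 129 [(rh174a767562f03570.shift 0 3), rh50496c3112cd5d02, (rhb0c3ac12af3a687b.shift 1 0), rhbde396fddbbf315b, rhf999224224563d6c] (by decide +kernel))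
noncomputable def rha3ca7013b15bb16f : CRef := CRef.mk (Pat.mk 0x200000002000000120000000100000000 0x2000000020000001e0000000f00000005 4 5) 0 0 (step_sound _ 33 [rh932754581e0f4330, rhf1ce2a38d2d19dce] (by decide +kernel))
noncomputable def rh7d6ac68ee29482af : CRef := CRef.mk (Pat.mk 0xa0000001a000000120000000100000000 0x20000000a0000003a0000001f0000003500000010 4 6) 0 0 (step_sound _ 36 [(rh7b1f1fb55310c477.shift 3 0), (rh8a774e867f16fa72.shift 0 1)] (by decide +kernel))
noncomputable def rh778cac64a1d1fb60 : CRef := CRef.mk (Pat.mk 0xa0000001a0000001200000001 0x80000000a0000000a0000003a0000001f00000005 4 6) 0 0 (step_sound _ 131 [(rh2145e1d24b96a57e.shift 3 1), rh6b0c59c0d25d3a73] (by decide +kernel))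
noncomputable def rhd6ff727d1eede939 : CRef := CRef.mk (Pat.mk 0xa0000001a000000120000000100000000 0x80000000a0000000a0000001a0000001e0000000700000005 4 5) 0 0 (step_sound _ 163 [(rh2145e1d24b96a57e.shift 3 2), rh87b4776ed8f7e2bc] (by decide +kernel))
noncomputable def rh29dce71f1e5ca186 : CRef := CRef.mk (Pat.mk 0x5800000040000000000000003c00000000 0x78000000c0000000000000003e00000077 4 8) 0 0 (step_sound _ 103 [rh8195a2d7794c7cd2, (rhc10214bf3fe8094a.shift 3 3)] (by decide +kernel))
noncomputable def rh1f1a975e11f03052 : CRef := CRef.mk (Pat.mk 0xb0000000b000000000000000500000000 0xa0000000b0000000b0000001e0000000700000003 4 5) 0 0 (step_sound _ 65 [rhe437f081bfcdb831, (rhfb3bc5848474ac0d.shift 0 1)] (by decide +kernel))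
noncomputable def rh35da04d37c15686f : CRef := CRef.mk (Pat.mk 0x50000000d0000000400000002 0x5000000050000003d0000000f00000002 4 6) 0 0 (step_sound _ 33 [(rh5c5e593799055d58.shift 1 0), rhbd5dd1b3e57e4fef] (by decide +kernel))
noncomputable def rh89ede30a9bebefed : CRef := CRef.mk (Pat.mk 0x1000000010000000000000001e00000000 0x100000001000000010000000380000001f00000030 4 6) 0 0 (step_sound _ 4 [(rhe25b0a99195a5d59.shift 1 0), (rhf4af6a4fc2dc39ad.shift 0 1)] (by decide +kernel))
noncomputable def rh0ea51c2d0b2dcd43 : CRef := CRef.mk (Pat.mk 0x1400000014000000000000000a00000000 0x1400000014000000140000003c0000001f0000000a 4 6) 0 0 (step_sound _ 34 [rh99ce8875d78c30bb, (rhbf726fa7097229f2.shift 1 0), rhd485aa3f7105e6fd] (by decide +kernel))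
noncomputable def rhec9ff7ec274f30f6 : CRef := CRef.mk (Pat.mk 0x70000000400000000000000020000000000000000 0x5000000070000000600000006000000060000000200000002 4 3) 0 0 (step_sound _ 97 [(rh1c69bb92c13f27a0.shift 0 1), (rh53a6242ae0132a5f.shift 1 1), (rh5a4df29f20c07a62.shift 0 2), (rhe83f0679b86b6627.shift 1 0)] (by decide +kernel))
noncomputable def rhd3fb776431cb560a : CRef := CRef.mk (Pat.mk 0x2e000000280000000000000004 0x30000007e0000006c0000000400000004 4 7) 0 0 (step_sound _ 100 [rh078db7c4818ecba2, (rhe25b0a99195a5d59.shift 2 2)] (by decide +kernel))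
noncomputable def rh81e4d5ac9186a27b : CRef := CRef.mk (Pat.mk 0x4000000040000000500000005000000000000000300000000 0x400000004000000050000000d0000000d0000000f00000002 4 4) 0 0 (step_sound _ 67 [rh1afdf61e433355a8, (rhd3458b32566d63f7.shift 2 2)] (by decide +kernel))
noncomputable def rh377a4b472c5e0f50 : CRef := CRef.mk (Pat.mk 0x10000000100000001700000014000000000000000c00000000 0x10000000150000001700000036000000360000003e00000006 4 6) 0 0 (step_sound _ 33 [rh0176e14355125b07, (rh7fb316d46a6b41d3.shift 1 1)] (by decide +kernel))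
noncomputable def rhbdf8909289fdf321 : CRef := CRef.mk (Pat.mk 0x8000000080000000800000008000000000000000600000000 0x8000000080000000800000018000000180000001f00000004 4 5) 0 0 (step_sound _ 68 [rh9778ba70e4240eaf, (rhd3458b32566d63f7.shift 3 2)] (by decide +kernel))
noncomputable def rha9ab61cfc35bc243 : CRef := CRef.mk (Pat.mk 0x30000000200000000000000060000000000000000 0x30000000300000002000000070000000700000001 4 3) 0 0 (step_sound _ 97 [(rh55afc6a59410cf00.shift 1 1), rhe4441baab75a6f73] (by decide +kernel))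
noncomputable def rh1c414583801ba62f : CRef := CRef.mk (Pat.mk 0x80000000a0000000b0000000a 0x5000000070000000f0000001a0000000b0000000b 4 5) 0 0 (step_sound _ 97 [rh08684cd56c1cb78e, rh2608d5a0ff983ad8, rha77f215723363df0] (by decide +kernel))
noncomputable def rhb97849c77b9bfb2d : CRef := CRef.mk (Pat.mk 0x80000000a0000000b0000000a00000000 0x70000000f0000001a0000000b0000000b00000001 4 5) 0 0 (step_sound _ 130 [(rh50fbb5868c909700.shift 2 1), rhacd155c70afd0c69] (by decide +kernel))
noncomputable def rha61332e7ba53314b : CRef := CRef.mk (Pat.mk 0x20000000200000002000000020000000000000001 0x1000000030000000200000002000000060000000700000005 4 3) 0 0 (step_sound _ 160 [(rh50fbb5868c909700.shift 0 2), rhb66ae56e4d5a6f8d] (by decide +kernel))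
noncomputable def rhe8b2894460248d88 : CRef := CRef.mk (Pat.mk 0x10000000700000006000000040000000000000000 0x100000001000000010000000700000006000000060000000600000006 4 3) 0 0 (step_sound _ 192 [(rh2145e1d24b96a57e.shift 0 3), rhf2c54251c789958e] (by decide +kernel))
noncomputable def rhcc835fa32abd8cc1 : CRef := CRef.mk (Pat.mk 0x1a0000000b0000000300000000 0x2000000120000001a0000000b0000001f0000001c 4 5) 0 0 (step_sound _ 34 [rh571950d89739e871, rhb352ba3fe68cdb4a] (by decide +kernel))
noncomputable def rh1b4aeff0091c6f0d : CRef := CRef.mk (Pat.mk 0xe0000000c000000080000001800000000 0x20000000e0000000c0000000f0000003c00000004 4 6) 0 0 (step_sound _ 34 [(rh932754581e0f4330.shift 2 0), (rhd7f3a10f6d82f74f.shift 0 1)] (by decide +kernel))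
noncomputable def rha4cc4e764f24332e : CRef := CRef.mk (Pat.mk 0x700000006000000040000000400000000 0x50000000700000006000000060000000e0000000a 4 4) 0 0 (step_sound _ 3 [rh521e60ddfe76d299, (rhd3458b32566d63f7.shift 2 0)] (by decide +kernel))
noncomputable def rhcbcd736dc09739f9 : CRef := CRef.mk (Pat.mk 0x80000000c00000008000000000000000000000000 0x8000000080000001f0000007c000000100000001000000010 4 7) 0 0 (step_sound _ 100 [(rh046c5eb18e55a239.shift 3 0), (rh4ca5dae25f5c14ff.shift 0 3), (rhdeca8db941583de2.shift 0 3)] (by decide +kernel))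
noncomputable def rh006e276e36d5cbd3 : CRef := CRef.mk (Pat.mk 0x100000001000000010000000100000000 0x2000000030000000300000001000000030000000300000002 4 2) 0 0 (step_sound _ 161 [rh588c730e4dc12811, (rhbaefcd01e0a8bca3.shift 0 1)] (by decide +kernel))
noncomputable def rh0d1ca0b192c8cf49 : CRef := CRef.mk (Pat.mk 0x100000001a0000001a0000000800000000 0x8000000080000001a0000001a0000007a0000001f00000004 4 7) 0 0 (step_sound _ 34 [(rh69012675dfdb1a5b.shift 0 1), (rhbc604988252f5b55.shift 2 0), rhcc610d01bd2b1e7b] (by decide +kernel))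
noncomputable def rh326bb5c62e94def2 : CRef := CRef.mk (Pat.mk 0xa0000001a000000080000000800000000 0xa0000000a0000001a0000000f0000000c00000004 4 5) 0 0 (step_sound _ 34 [(rh0b675b38488aa4e5.shift 0 1), (rh932754581e0f4330.shift 2 0)] (by decide +kernel))
noncomputable def rhd5ce6cfbca4fc44c : CRef := CRef.mk (Pat.mk 0x40000000c000000040000000c00000000 0x80000000c0000000c0000003e0000007f00000012 4 7) 0 0 (step_sound _ 67 [rha71afc656c87d410, (rhf7ac44032989c9ef.shift 1 0)] (by decide +kernel))
noncomputable def rh75ab166bafd6c308 : CRef := CRef.mk (Pat.mk 0x40000000c0000000e000000000000000000000000 0x40000000c0000007e000000770000000200000002 4 7) 0 0 (step_sound _ 100 [(rh0cb6a409506b34ea.shift 1 2), rh1e8d6e1ef30e2d92] (by decide +kernel))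
noncomputable def rh422e668c9298c84d : CRef := CRef.mk (Pat.mk 0x800000058000000180000000000000000 0x8000000780000001f0000003000000010 4 7) 0 0 (step_sound _ 36 [(rh7b1f1fb55310c477.shift 3 0), (rh7e9ba19755485a04.shift 0 1)] (by decide +kernel))
noncomputable def rhfa3e679fe38940fc : CRef := CRef.mk (Pat.mk 0x10000000b000000030000000000000000 0x2000000060000001f0000001b0000001f0000000600000006 4 5) 0 0 (step_sound _ 129 [(rh0e0436c262b0f811.shift 0 1), rhaa46151e37b000b2, rhccf62475221aa9b5] (by decide +kernel))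
noncomputable def rh66d46f39a73ee696 : CRef := CRef.mk (Pat.mk 0x40000000200000002000000020000000000000000 0x4000000060000000600000002000000030000000300000001 4 3) 0 0 (step_sound _ 33 [rhad800ac89e8ede75, (rhbaefcd01e0a8bca3.shift 1 1)] (by decide +kernel))
noncomputable def rhe7a05ac21e4bf583 : CRef := CRef.mk (Pat.mk 0x50000000500000004000000020000000000000000 0x1000000050000000500000007000000070000000200000002 4 3) 0 0 (step_sound _ 33 [rhed545be328fb0bd6, (rheea67dfebd0f8008.shift 1 1)] (by decide +kernel))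
noncomputable def rhe59693a22b23878a : CRef := CRef.mk (Pat.mk 0x2000000020000000c00000004 0x200000002000000030000003e00000007 4 6) 0 0 (step_sound _ 33 [(rh2145e1d24b96a57e.shift 1 0), rh9f93e2b24091a43d] (by decide +kernel))
noncomputable def rhf16923b4788ed150 : CRef := CRef.mk (Pat.mk 0x700000006000000140000000000000000 0x100000007000000060000003e0000000700000006 4 6) 0 0 (step_sound _ 67 [rh38f5b78a8e46705b, (rhf48373e13d2bc128.shift 1 2)] (by decide +kernel))
noncomputable def rh7dbe302d4f684d89 : CRef := CRef.mk (Pat.mk 0x3000000030000000a0000000000000000 0x200000003000000030000001e0000000600000006 4 5) 0 0 (step_sound _ 66 [rhb8f06d94c10886cc, (rhf48373e13d2bc128.shift 0 2)] (by decide +kernel))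
noncomputable def rhe0c44693bdcb5e28 : CRef := CRef.mk (Pat.mk 0x3000000030000000a00000000 0x20000000200000003000000030000001f00000005 4 5) 0 0 (step_sound _ 34 [rh7263bee49303e8fc, (rhf48373e13d2bc128.shift 0 1)] (by decide +kernel))
noncomputable def rh23af2af7becd8e86 : CRef := CRef.mk (Pat.mk 0x600000006000000140000000000000000 0x400000006000000060000003e0000000700000006 4 6) 0 0 (step_sound _ 67 [rh22d7d97516be8a58, (rhf48373e13d2bc128.shift 1 2)] (by decide +kernel))
noncomputable def rh66c1638032b275b8 : CRef := CRef.mk (Pat.mk 0x20000000a0000000c00000004 0x2000000020000003b0000001f00000004 4 6) 0 0 (step_sound _ 33 [(rh2145e1d24b96a57e.shift 1 0), (rhf987458f2696f0ee.shift 0 1)] (by decide +kernel))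
noncomputable def rhbbe7360674484119 : CRef := CRef.mk (Pat.mk 0xa0000000a0000000800000018 0xa0000000a0000000a0000001f0000007c 4 7) 0 0 (step_sound _ 34 [(rh3bf8fcae348fccb1.shift 1 0), rh3c3e23a02e82b2ed, (rh85a605aac6183f28.shift 2 0), rh9aa444fe74327671] (by decide +kernel))
noncomputable def rh75c54538b87708d0 : CRef := CRef.mk (Pat.mk 0xa0000000a000000080000000c00000000 0xa0000000a0000000a0000000f0000001c00000010 4 5) 0 0 (step_sound _ 66 [(rh5c5e593799055d58.shift 2 1), rhaede8b6487022d74] (by decide +kernel))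
noncomputable def rhfdd9aee12f9d3331 : CRef := CRef.mk (Pat.mk 0x800000008000000080000000e0000000000000000 0x100000001800000018000000080000000f0000001800000010 4 5) 0 0 (step_sound _ 164 [(rh2f68792b6b779e96.shift 3 2), rh59774942c10fc33d] (by decide +kernel))
noncomputable def rhd8f1020fdef59d6a : CRef := CRef.mk (Pat.mk 0x700000000000000100000000e 0x50000000700000002000000330000001e 4 6) 0 0 (step_sound _ 4 [(rh33e738c4ed385b9f.shift 1 0), rh50e1a2169203bf64] (by decide +kernel))
noncomputable def rha570882cd450916c : CRef := CRef.mk (Pat.mk 0x700000004000000000000000600000000 0x50000000700000006000000060000000600000006 4 3) 0 0 (step_sound _ 66 [(rh932754581e0f4330.shift 1 0), rh94a4f51ce67368e4] (by decide +kernel))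
noncomputable def rh843c335c39283947 : CRef := CRef.mk (Pat.mk 0x200000002000000080000001c 0x200000002000000020000003f0000003f 4 6) 0 0 (step_sound _ 33 [rh54c49bb299227e8d, (rhc9ca25976740a074.shift 1 0), rhd0ed6ce702d0de55] (by decide +kernel))
noncomputable def rhfea65620c23b29e1 : CRef := CRef.mk (Pat.mk 0x8000000080000000a0000001c 0x1000000018000000080000003b0000001f 4 6) 0 0 (step_sound _ 100 [(rh2f68792b6b779e96.shift 3 0), rhd0ed6ce702d0de55] (by decide +kernel))
noncomputable def rhf5c1905878495bf7 : CRef := CRef.mk (Pat.mk 0x2000000020000000200000002 0x50000000700000007000000020000000200000002 4 3) 0 0 (step_sound _ 128 [rhc52876b7d6d5e639, rhffd04209dc8ea796] (by decide +kernel))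
noncomputable def rh8f4766893dc08add : CRef := CRef.mk (Pat.mk 0x8000000080000000a0000000c00000000 0x800000008000000080000003b0000001e00000010 4 6) 0 0 (step_sound _ 36 [(rh55afc6a59410cf00.shift 3 0), (rhad604c0945612cf1.shift 0 1)] (by decide +kernel))
noncomputable def rh35e4bd72e771bccb : CRef := CRef.mk (Pat.mk 0x1000000010000000f0000000d000000000000000000000000 0x200000003000000070000000f0000000f000000060000000600000006 4 4) 0 0 (step_sound _ 66 [(rh40241bd608e5be1a.shift 1 0), rh5df7e912ada528fd, (rha13520ba8537e3b1.shift 0 2)] (by decide +kernel))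
noncomputable def rhfe3d25fc672e0d73 : CRef := CRef.mk (Pat.mk 0x18000000180000001000000018 0x260000003f000000380000001800000018 4 6) 0 0 (step_sound _ 101 [(rh2f68792b6b779e96.shift 4 0), rh99958e6426785a6d] (by decide +kernel))
noncomputable def rhbe5addaf45b06322 : CRef := CRef.mk (Pat.mk 0x2000000030000000600000002 0x30000000300000003000000070000000700000002 4 3) 0 0 (step_sound _ 128 [(rhac543abd2ad8f13e.shift 0 1), rhffd04209dc8ea796] (by decide +kernel))
noncomputable def rhf8f2dd1658083a86 : CRef := CRef.mk (Pat.mk 0x2000000030000000600000002 0x60000000600000006000000070000000700000002 4 3) 0 0 (step_sound _ 130 [(rh90b28203564fe794.shift 0 1), (rhbaefcd01e0a8bca3.shift 1 0)] (by decide +kernel))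
noncomputable def rhc65ca09abc388a61 : CRef := CRef.mk (Pat.mk 0x80000007c00000000 0x18000000ff00000007 4 8) 0 0 (step_sound _ 1 [rh544f3e95f446b5b1, (rh80fcd6d0a18cb2dd.shift 1 0)] (by decide +kernel))
noncomputable def rh818defa14017d594 : CRef := CRef.mk (Pat.mk 0x20000001e00000010 0x760000003f00000018 4 7) 0 0 (step_sound _ 3 [(rh790acd67f4fffd04.shift 1 1), rhb739f4f82bb681b4] (by decide +kernel))
noncomputable def rh0b75002a0478683f : CRef := CRef.mk (Pat.mk 0x1000000018000000180000000800000000 0xc0000001f00000038000000180000001800000010 4 6) 0 0 (step_sound _ 131 [(rh3cb04db3dd2b6a55.shift 3 0), (rhc647a25a08ddf0ec.shift 0 1)] (by decide +kernel))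
noncomputable def rh646f010ec5a5991e : CRef := CRef.mk (Pat.mk 0x10000000100000000a0000000a000000020000000000000000 0x350000001f0000000b0000000a0000000b0000000300000001 4 6) 0 0 (step_sound _ 161 [rh0c1c1b53bc5a1510, (rhecb144ce47bb8533.shift 1 2), (rhf41a4c4b06b624e4.shift 0 2)] (by decide +kernel))
noncomputable def rh4c91c1736b37879a : CRef := CRef.mk (Pat.mk 0x1000000008000000080000001e00000000 0x10000000100000001800000018000000080000001e0000000b 4 5) 0 0 (step_sound _ 0 [(rh08d50fe567eb1045.shift 3 0), rh80fcd6d0a18cb2dd] (by decide +kernel))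
noncomputable def rh208beddbdd29c86a : CRef := CRef.mk (Pat.mk 0x10000000080000000200000002000000020000000000000000 0x3d0000001f0000000300000002000000030000000300000001 4 6) 0 0 (step_sound _ 161 [rh0c1c1b53bc5a1510, (rhd76c11a842dfab9b.shift 0 2), (rhe264c6d5274abfb0.shift 0 2)] (by decide +kernel))
noncomputable def rh22d77c46c737a8f0 : CRef := CRef.mk (Pat.mk 0x10000000080000000a0000001e00000000 0x140000001c0000000e0000000a0000001e0000000b 4 5) 0 0 (step_sound _ 1 [(rh5fca3991ff380a55.shift 1 0), rheb0810cc63b001d8] (by decide +kernel))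
noncomputable def rh5b818b81cbc936e5 : CRef := CRef.mk (Pat.mk 0x40000000200000002c0000002800000000 0x500000007c0000002f0000002800000028 4 7) 0 0 (step_sound _ 100 [(rh2d5442cbf338480d.shift 4 0), rh6df79348ff6e2454, (rhbd2e91c3fdbfa961.shift 0 2)] (by decide +kernel))
noncomputable def rh884d86999c364a1f : CRef := CRef.mk (Pat.mk 0x10000000080000000a0000001a00000008 0x140000001c0000000c0000000b0000001e00000008 4 5) 0 0 (step_sound _ 34 [(rh3244c3cc8379b070.shift 0 1), (rhc1897dcc52446b96.shift 2 0)] (by decide +kernel))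
noncomputable def rh74d62c9d9d26143f : CRef := CRef.mk (Pat.mk 0x10000000010000000a0000000200000002 0x1d0000000f0000001a0000000200000002 4 5) 0 0 (step_sound _ 97 [rh45e0c09f7c3490bb, rh50fbb5868c909700] (by decide +kernel))
noncomputable def rh5d0ef493af3851d2 : CRef := CRef.mk (Pat.mk 0x200000000000000010000000700000000 0x2000000020000000300000003000000030000000700000005 4 3) 0 0 (step_sound _ 97 [rh2738edcf84b3bede, rhab2ae83e2bc2464b, rhd918c3fd221dc9f8] (by decide +kernel))
noncomputable def rh37563e2345266b8b : CRef := CRef.mk (Pat.mk 0x300000002000000020000000600000000 0x4000000060000000700000003000000060000000600000002 4 3) 0 0 (step_sound _ 1 [(rh73f605273a09a9d0.shift 1 1), rhffd04209dc8ea796] (by decide +kernel))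
noncomputable def rhd5d8c8be6c5a5d92 : CRef := CRef.mk (Pat.mk 0x180000000a0000001a00000000 0x140000001e0000000b0000001e00000008 4 5) 0 0 (step_sound _ 3 [(rh2f68792b6b779e96.shift 3 0), rhbb3f93341bfe0551] (by decide +kernel))
noncomputable def rh65b6e7c57ae34b46 : CRef := CRef.mk (Pat.mk 0x100000000a0000003a00000000 0x10000000100000001b0000003f00000060 4 7) 0 0 (step_sound _ 34 [(rh3244c3cc8379b070.shift 0 1), rh53a70898cd0c31cc] (by decide +kernel))
noncomputable def rhb67b1abcc57493e1 : CRef := CRef.mk (Pat.mk 0x1c0000000a0000001a0000000000000000 0x40000001c0000001b0000001f0000000800000008 4 5) 0 0 (step_sound _ 35 [(rh50fbb5868c909700.shift 2 1), rhb1b1e15e42ceccdf] (by decide +kernel))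
noncomputable def rh34fd96a3e173741f : CRef := CRef.mk (Pat.mk 0x1c0000000a0000000a00000000 0x4000000070000003e0000000a0000000a00000008 4 6) 0 0 (step_sound _ 130 [(rh7b1f1fb55310c477.shift 2 0), (rh84f2b2a7f0931f8f.shift 0 1)] (by decide +kernel))
noncomputable def rhe5fc0333a9854b22 : CRef := CRef.mk (Pat.mk 0x100000001000000010000000700000000 0x30000000300000003000000030000000700000005 4 3) 0 0 (step_sound _ 65 [(rh2145e1d24b96a57e.shift 0 1), rh6b423afcc975f198] (by decide +kernel))
noncomputable def rh9d1bb1cd83513961 : CRef := CRef.mk (Pat.mk 0x8000000080000003e00000020 0x180000001800000018000000180000003f00000020 4 6) 0 0 (step_sound _ 68 [(rh4f89f797aa397115.shift 3 0), (rh53b3c253cb0c65f4.shift 0 1)] (by decide +kernel))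
noncomputable def rhdcdb545b206ad837 : CRef := CRef.mk (Pat.mk 0x40000001400000034000000000000000000000000 0x400000004000000340000003e000000070000000200000002 4 6) 0 0 (step_sound _ 65 [(rh242e6d3f76f8ac12.shift 0 2), (rhb01ac4982a11ea27.shift 1 0), (rhb3c0ca2f03116be9.shift 1 1)] (by decide +kernel))
noncomputable def rh4396d871c683a944 : CRef := CRef.mk (Pat.mk 0xc00000004000000140000001400000000 0x220000003f0000007e000000140000001400000010 4 7) 0 0 (step_sound _ 100 [(rh3ede5d4d65782dfa.shift 1 0), rh47c80674ab0824ee, (rh7e64d7b7c31b8053.shift 1 0), (rhdd99a5f1523b7423.shift 1 1)] (by decide +kernel))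
noncomputable def rh7b4d9af96eb824bf : CRef := CRef.mk (Pat.mk 0x80000000c000000100000001000000000 0x380000001f000000300000001000000010 4 6) 0 0 (step_sound _ 100 [(rh3ce854f4a795c89f.shift 0 2), (rh7b1f1fb55310c477.shift 3 0)] (by decide +kernel))
noncomputable def rh3a549b71f8801f98 : CRef := CRef.mk (Pat.mk 0xe0000000800000018000000000000000000000000 0x40000001f0000001800000018000000080000000800000008 4 5) 0 0 (step_sound _ 67 [rh4bd42915bd677708, (rh50fbb5868c909700.shift 2 2)] (by decide +kernel))
noncomputable def rh88db3c4b2c58c8fd : CRef := CRef.mk (Pat.mk 0xe000000080000003800000000 0x18000000380000001f000000180000003800000020 4 6) 0 0 (step_sound _ 68 [(rhb739f4f82bb681b4.shift 0 2), (rhbb8ea3020216b70a.shift 1 0)] (by decide +kernel))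
noncomputable def rhc890c037f994717d : CRef := CRef.mk (Pat.mk 0xe000000080000001800000000 0xc0000000c0000000f000000180000001800000008 4 5) 0 0 (step_sound _ 68 [(rh384619215a59ba54.shift 2 0), (rhb739f4f82bb681b4.shift 0 2)] (by decide +kernel))
noncomputable def rhc60ba51ac4dc42bc : CRef := CRef.mk (Pat.mk 0x80000000a0000000a0000000a 0x150000001f0000001b0000000a0000000a 4 5) 0 0 (step_sound _ 98 [(rh50fbb5868c909700.shift 2 0), rhc39ee1dabe12af74] (by decide +kernel))
noncomputable def rh595e46f5ae606647 : CRef := CRef.mk (Pat.mk 0xa0000000a0000000b00000000 0x10000000110000001b0000001e0000000a0000000b00000009 4 5) 0 0 (step_sound _ 100 [(rh215e11e099257d75.shift 3 0), rhdb1d0baef95f9433] (by decide +kernel))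
noncomputable def rhe501adb9ec226eda : CRef := CRef.mk (Pat.mk 0x8000000080000003b00000000 0x180000001800000018000000180000003f00000028 4 6) 0 0 (step_sound _ 68 [(rh1a64fdb454ca4f39.shift 3 0), (rh1c62b6193297d9e3.shift 0 1)] (by decide +kernel))
noncomputable def rh5bd0b7a93b5f5954 : CRef := CRef.mk (Pat.mk 0xa000000180000003800000000 0x18000000380000001f000000180000003800000020 4 6) 0 0 (step_sound _ 98 [(rhb739f4f82bb681b4.shift 0 2), (rhbb8ea3020216b70a.shift 1 0)] (by decide +kernel))
noncomputable def rh0658f2813247e13a : CRef := CRef.mk (Pat.mk 0xa000000180000001800000000 0xc0000000c0000000f000000180000001800000008 4 5) 0 0 (step_sound _ 98 [(rh384619215a59ba54.shift 2 0), (rhb739f4f82bb681b4.shift 0 2)] (by decide +kernel))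
noncomputable def rh1dc1647188521960 : CRef := CRef.mk (Pat.mk 0x20000000a0000000a0000000a00000000 0x140000001e0000001f0000000a0000000a00000008 4 5) 0 0 (step_sound _ 130 [(rh2f68792b6b779e96.shift 1 1), rh7e64d7b7c31b8053] (by decide +kernel))
noncomputable def rhdc0f0bd6a538c0fd : CRef := CRef.mk (Pat.mk 0x20000000a0000000a0000000a00000000 0x4000000060000000f0000001a0000000f00000009 4 5) 0 0 (step_sound _ 130 [(rh2f68792b6b779e96.shift 1 1), rh42df8009416d519e] (by decide +kernel))
noncomputable def rhba14fe0efc7850fd : CRef := CRef.mk (Pat.mk 0x80000000a000000080000001800000000 0xc0000000c0000000f000000180000001800000008 4 5) 0 0 (step_sound _ 68 [(rh2145e1d24b96a57e.shift 3 1), rh8d93106d4c71c1b0] (by decide +kernel))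
noncomputable def rha8d0d56f3d9a86e7 : CRef := CRef.mk (Pat.mk 0x2000000020000000200000002000000020000000000000000 0x2000000030000000300000003000000070000000600000006 4 3) 0 0 (step_sound _ 96 [rh2c9da192bea44cf6, (rh932754581e0f4330.shift 0 2)] (by decide +kernel))
noncomputable def rh818b55fb3aac4a6e : CRef := CRef.mk (Pat.mk 0xc00000002000000020000000200000000 0x70000001e00000003000000030000000300000001 4 5) 0 0 (step_sound _ 129 [(rh2f68792b6b779e96.shift 1 1), rhd5a05b8d997f6fbb] (by decide +kernel))
noncomputable def rhe18358bb8fa3da45 : CRef := CRef.mk (Pat.mk 0xc00000002000000080000003800000000 0x380000001e0000003b000000180000003800000028 4 6) 0 0 (step_sound _ 132 [rh0fdb5631617f7bd0, rh3f50ca0cc290a9a1, (rh7bb1cef60b515068.shift 0 1), (rhfe8b7965a922c690.shift 3 0)] (by decide +kernel))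
noncomputable def rh1adf5ad3e6c5bf77 : CRef := CRef.mk (Pat.mk 0x6000000070000000600000002 0x3000000030000001f000000070000000600000002 4 5) 0 0 (step_sound _ 99 [(rh18965a982d73c794.shift 0 2), rh90b823c913a425e8] (by decide +kernel))
noncomputable def rhc059336e00b985ca : CRef := CRef.mk (Pat.mk 0xc000000180000001800000008 0x18000000180000001f000000180000001800000008 4 5) 0 0 (step_sound _ 96 [(rhab22b5b56e7b3243.shift 0 2), (rhc0301b400ca2a736.shift 3 0)] (by decide +kernel))
noncomputable def rhb5c62032a3248428 : CRef := CRef.mk (Pat.mk 0x80000000b00000008000000080000000400000000 0x140000001e0000000b00000008000000080000000c00000004 4 5) 0 0 (step_sound _ 2 [(rha78afc937ca94db4.shift 0 2), (rheea67dfebd0f8008.shift 2 0)] (by decide +kernel))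
noncomputable def rh2ac6e86e27821d4a : CRef := CRef.mk (Pat.mk 0x80000001c00000038000000000000000000000000 0xc0000001c0000003c0000000f0000000c00000008 4 6) 0 0 (step_sound _ 67 [(rh322e79f034282812.shift 0 1), (rh40241bd608e5be1a.shift 2 0)] (by decide +kernel))
noncomputable def rh942990b42f156b63 : CRef := CRef.mk (Pat.mk 0x10000001d00000005000000000000000000000000 0x1000000010000001d0000000f000000030000000200000002 4 5) 0 0 (step_sound _ 97 [(rh3fc040e777f1679e.shift 0 3), rha768b229dc254047] (by decide +kernel))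
noncomputable def rh29598f382625b6b7 : CRef := CRef.mk (Pat.mk 0x800000018000000380000000800000000 0x8000000180000003c0000001f00000014 4 6) 0 0 (step_sound _ 4 [rh322e79f034282812, (rh9e07f76261b05888.shift 3 0)] (by decide +kernel))
noncomputable def rh28ff8c9a5807c471 : CRef := CRef.mk (Pat.mk 0xe00000000000000080000000800000000 0x700000003f00000078000000080000000800000008 4 7) 0 0 (step_sound _ 132 [(rh35e918dd76851f8c.shift 1 3), (rh4fc80024ed3db095.shift 1 1), rh75eca5012e6213df] (by decide +kernel))
noncomputable def rhbc5e64c454a8584c : CRef := CRef.mk (Pat.mk 0xe00000000000000080000000800000000 0x40000000f0000003c000000080000000800000008 4 6) 0 0 (step_sound _ 99 [(rh50fbb5868c909700.shift 2 1), rh8e9a52cb52d6b507] (by decide +kernel))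
noncomputable def rhb77557328806142f : CRef := CRef.mk (Pat.mk 0x38000000000000000800000008 0x770000003e0000000f0000000800000008 4 7) 0 0 (step_sound _ 98 [(rh2c1baeadcd4b32f5.shift 0 2), (rh2cc7d62e70c02209.shift 0 2), (rh5a4df29f20c07a62.shift 2 0)] (by decide +kernel))
noncomputable def rhfe593dc6f2268754 : CRef := CRef.mk (Pat.mk 0x1c00000000000000140000001400000000 0x30000001f0000003c000000140000001400000010 4 6) 0 0 (step_sound _ 129 [rhc2ed2c18e5e90db8, (rhea1977e228a6d74a.shift 0 1)] (by decide +kernel))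
noncomputable def rh36ec770401298d9d : CRef := CRef.mk (Pat.mk 0x1c00000000000000080000000800000000 0x100000003c0000000f000000080000000800000008 4 6) 0 0 (step_sound _ 99 [(rh2f68792b6b779e96.shift 3 1), rhfe0270f45009c77d] (by decide +kernel))
noncomputable def rh62f73952c5708e3e : CRef := CRef.mk (Pat.mk 0x1c000000000000000a0000000a00000000 0x30000003f0000007f0000000a0000000a00000008 4 7) 0 0 (step_sound _ 129 [rh75eca5012e6213df, (rh87865da67f1be42c.shift 0 1), (rh8db7f7558b75b2b1.shift 0 3)] (by decide +kernel))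
noncomputable def rh64d0952f1c5d6448 : CRef := CRef.mk (Pat.mk 0x38000000000000000400000004 0xf70000007e000000e60000000400000004 4 8) 0 0 (step_sound _ 98 [(rh00f1bb10334541e3.shift 0 3), (rh35e918dd76851f8c.shift 2 2), (rh87865da67f1be42c.shift 1 0)] (by decide +kernel))
noncomputable def rhea635feb0fb65c16 : CRef := CRef.mk (Pat.mk 0x38000000000000000800000008 0x10000000780000001f0000000800000008 4 7) 0 0 (step_sound _ 67 [(rh2f68792b6b779e96.shift 3 0), (rhf0f55c4504412200.shift 0 2)] (by decide +kernel))
noncomputable def rhdc3bdc5be172fcf6 : CRef := CRef.mk (Pat.mk 0x38000000000000000800000008 0xe70000007e0000000f0000000800000008 4 8) 0 0 (step_sound _ 98 [(rh2cc7d62e70c02209.shift 0 2), (rhdd4fe9fd28ed4c0f.shift 1 2), (rhea1977e228a6d74a.shift 1 0)] (by decide +kernel))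
noncomputable def rh64759555ab5a221e : CRef := CRef.mk (Pat.mk 0x300000000000000020000000200000000 0x50000000700000007000000020000000200000002 4 3) 0 0 (step_sound _ 97 [(rh50fbb5868c909700.shift 0 1), rhd22616887d452319] (by decide +kernel))
noncomputable def rhbc4f1db1cf6a34a7 : CRef := CRef.mk (Pat.mk 0x600000006000000020000000200000000 0x300000003000000030000000600000006000000060000000600000004 4 3) 0 0 (step_sound _ 161 [(rh3e595262c1b737ad.shift 1 2), (rh90b823c913a425e8.shift 0 2), (rheb6520004608cff3.shift 1 0)] (by decide +kernel))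
noncomputable def rh31905c9abd083ad2 : CRef := CRef.mk (Pat.mk 0x20000001e00000000 0x60000003e00000073 4 7) 0 0 (step_sound _ 0 [(rh60e95adc726bb530.shift 1 0), rh80fcd6d0a18cb2dd] (by decide +kernel))
noncomputable def rh4a7c66425458b2ac : CRef := CRef.mk (Pat.mk 0x6000000030000000200000000 0x400000004000000060000001e000000030000000200000002 4 5) 0 0 (step_sound _ 99 [(rh18965a982d73c794.shift 0 2), (rh215e11e099257d75.shift 1 0)] (by decide +kernel))
noncomputable def rhe8476f0b7eaf4046 : CRef := CRef.mk (Pat.mk 0x2000000020000000300000004 0x1000000030000000300000002000000030000000700000004 4 3) 0 0 (step_sound _ 129 [(rha54302d5ccf5246c.shift 0 1), (rhd3458b32566d63f7.shift 1 0)] (by decide +kernel))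
noncomputable def rhda4a1740e3a0e27e : CRef := CRef.mk (Pat.mk 0x200000002000000020000000600000002 0x400000006000000060000000300000003000000070000000600000002 4 3) 0 0 (step_sound _ 161 [(rhd3458b32566d63f7.shift 1 1), rhf932434865c17297] (by decide +kernel))
noncomputable def rh8badea6e810aa7cc : CRef := CRef.mk (Pat.mk 0x1c0000000a00000008 0x10000000380000001f0000000b00000008 4 6) 0 0 (step_sound _ 65 [rh13cff1aaa4924947, (rheb0810cc63b001d8.shift 0 1)] (by decide +kernel))
noncomputable def rh001e6fcbe716251f : CRef := CRef.mk (Pat.mk 0x1e0000000800000008 0x1000000010000000380000001e0000000b00000008 4 6) 0 0 (step_sound _ 32 [(rh49606a42a30c7ac4.shift 1 0), (rh80fcd6d0a18cb2dd.shift 0 1)] (by decide +kernel))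
noncomputable def rh4e12797ab8d9618a : CRef := CRef.mk (Pat.mk 0x10000000200000002000000020000000200000000 0x5000000070000000600000002000000020000000300000001 4 3) 0 0 (step_sound _ 0 [rh79877ebd3ef475dd, (rhae372274d1226efc.shift 0 1)] (by decide +kernel))
noncomputable def rh6420678f01f8d7c7 : CRef := CRef.mk (Pat.mk 0x600000002000000060000000200000000 0x3000000030000000700000006000000060000000200000002 4 3) 0 0 (step_sound _ 98 [(rh71222050f2c63a3a.shift 1 0), (rh90b823c913a425e8.shift 0 1)] (by decide +kernel))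
noncomputable def rh1e518b255da7ca2d : CRef := CRef.mk (Pat.mk 0x18000000180000007800000040 0x30000000700000003f000000380000007800000040 4 7) 0 0 (step_sound _ 98 [(rh80fc1af5b7d6fb4f.shift 2 0), (rhad5d8fc3675c15dd.shift 0 2), (rhee92c360535a626f.shift 0 1)] (by decide +kernel))
noncomputable def rh760aaf0ddaae4897 : CRef := CRef.mk (Pat.mk 0x18000000180000007800000008 0x40000001f0000003800000078000000c8 4 8) 0 0 (step_sound _ 6 [rhc647a25a08ddf0ec, (rhe25b0a99195a5d59.shift 3 0)] (by decide +kernel))
noncomputable def rh11b8daee69c44976 : CRef := CRef.mk (Pat.mk 0x3800000010000000000000000c00000000 0x40000007f0000003e000000080000000c00000004 4 7) 0 0 (step_sound _ 99 [(rh4dc133ee0ba1420a.shift 1 3), rhda9ef1fb63d23c66] (by decide +kernel))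
noncomputable def rh20a9e8598c937248 : CRef := CRef.mk (Pat.mk 0x2000000030000000200000004 0x1000000030000000300000002000000030000000700000004 4 3) 0 0 (step_sound _ 129 [(rhd2c74283b7b6e6b8.shift 0 1), (rhd3458b32566d63f7.shift 1 0)] (by decide +kernel))
noncomputable def rhadfaf8ce5cf4e460 : CRef := CRef.mk (Pat.mk 0x80000000800000008000000180000000c 0x1000000018000000180000000800000018000000180000000f 4 5) 0 0 (step_sound _ 0 [rh24ae073cf30720c4, (rh73f605273a09a9d0.shift 3 1)] (by decide +kernel))
noncomputable def rh364d7f34e6a398b3 : CRef := CRef.mk (Pat.mk 0x2000000020000000200000006000000030000000000000000 0x20000000200000006000000060000001e000000030000000200000002 4 5) 0 0 (step_sound _ 99 [(rh18965a982d73c794.shift 0 2), (rh84c6bba3847605f7.shift 1 0)] (by decide +kernel))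
noncomputable def rhc23d543e2e507eea : CRef := CRef.mk (Pat.mk 0x2000000020000000600000003 0x40000000600000006000000020000001f00000003 4 5) 0 0 (step_sound _ 35 [rh18965a982d73c794, rh9a369cb82ea472da] (by decide +kernel))
noncomputable def rh3acbad362c0fb42d : CRef := CRef.mk (Pat.mk 0x1e000000100000001000000000 0x600000003e000000170000001000000010 4 7) 0 0 (step_sound _ 65 [(rh5543c6cc51357226.shift 1 0), (rheb0810cc63b001d8.shift 0 2)] (by decide +kernel))
noncomputable def rh59e2ca35af35a44a : CRef := CRef.mk (Pat.mk 0x1e0000000800000008 0x1000000010000000330000001e0000001800000008 4 6) 0 0 (step_sound _ 96 [(rh3f8766e6ecb455ce.shift 0 2), (rh94246470f0e6fdf7.shift 1 0)] (by decide +kernel))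
noncomputable def rh6a3f56141fe4ba50 : CRef := CRef.mk (Pat.mk 0x800000008000000180000000400000000 0x8000000080000007c0000000f00000004 4 7) 0 0 (step_sound _ 35 [(rh932754581e0f4330.shift 2 0), (rhd69c262cd33b94b3.shift 0 1)] (by decide +kernel))
noncomputable def rh98a30b81e5fdc6e0 : CRef := CRef.mk (Pat.mk 0xe0000000a000000180000000600000000 0x1000000330000001e0000000a0000001b0000000f00000001 4 6) 0 0 (step_sound _ 161 [(rh6585f13a5fbbe407.shift 0 1), rh73f37d02a779f613, rh9b735d7d43456e41] (by decide +kernel))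
noncomputable def rh22fec84c82ff2f6f : CRef := CRef.mk (Pat.mk 0xe00000002000000000000000600000000 0x1000000030000001e00000002000000030000000700000005 4 5) 0 0 (step_sound _ 65 [rh45a53a561c7fc8cb, (rh55afc6a59410cf00.shift 1 0)] (by decide +kernel))
noncomputable def rh382f474eca292154 : CRef := CRef.mk (Pat.mk 0xe0000000a00000008000000040000000400000000 0x1000000010000000330000001e0000001a0000000e000000040000000400000004 4 6) 0 0 (step_sound _ 164 [rh87025a27f85fc715, (rh94246470f0e6fdf7.shift 1 3)] (by decide +kernel))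
noncomputable def rh52be96a2c6912137 : CRef := CRef.mk (Pat.mk 0x3c000000040000003000000008 0x60000003c000000040000007c0000001f 4 7) 0 0 (step_sound _ 35 [(rhddb9dd786dc1af2f.shift 1 0), rhf0f55c4504412200] (by decide +kernel))
noncomputable def rh81842d5dac21bf9c : CRef := CRef.mk (Pat.mk 0xe00000002000000020000000400000000 0x1000000030000001e00000002000000030000000700000005 4 5) 0 0 (step_sound _ 33 [rh45a53a561c7fc8cb, (rh55afc6a59410cf00.shift 1 0)] (by decide +kernel))
noncomputable def rh5badeff9815387d2 : CRef := CRef.mk (Pat.mk 0x5000000050000000c000000020000000000000000 0x5000000050000001f000000070000000200000002 4 5) 0 0 (step_sound _ 33 [rh022d78c413f6d914, (rheea67dfebd0f8008.shift 1 1)] (by decide +kernel))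
noncomputable def rh086a6eb649e11754 : CRef := CRef.mk (Pat.mk 0xa0000000a0000001c000000000000000000000000 0x20000000a0000000b0000001e0000000c0000000400000004 4 5) 0 0 (step_sound _ 97 [(rh3244c3cc8379b070.shift 0 3), (rh4893cff807d9b440.shift 1 0)] (by decide +kernel))
noncomputable def rhc3f8d890a3bb80c0 : CRef := CRef.mk (Pat.mk 0x20000000f00000000 0x760000003f00000038 4 7) 0 0 (step_sound _ 36 [rh4ad5fc38f1b69f65, (rh790acd67f4fffd04.shift 1 1)] (by decide +kernel))
noncomputable def rhb859409e7981988f : CRef := CRef.mk (Pat.mk 0xf00000001000000180000000000000000 0x40000001f000000030000001e0000000200000002 4 5) 0 0 (step_sound _ 97 [(rh18965a982d73c794.shift 0 3), rh18bb51d7e6378dab] (by decide +kernel))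
noncomputable def rha3ba56f67f145513 : CRef := CRef.mk (Pat.mk 0x10000000f000000000000001800000000 0x1000000030000001f000000030000001e00000002 4 5) 0 0 (step_sound _ 65 [(rh795d3e5d420177aa.shift 0 2), rh814af3a5af534515, rh9b349e98344f089a] (by decide +kernel))
noncomputable def rh8517955ad17845c8 : CRef := CRef.mk (Pat.mk 0x1e0000000800000008 0x1000000010000000300000001e0000001b00000008 4 6) 0 0 (step_sound _ 32 [(rh80fcd6d0a18cb2dd.shift 0 1), (rh94246470f0e6fdf7.shift 1 0)] (by decide +kernel))
noncomputable def rh1c778aeb78cd3ef8 : CRef := CRef.mk (Pat.mk 0x80000000700000002 0x180000001f0000003b 4 6) 0 0 (step_sound _ 35 [rh0ae232cce48795b7, (rh33e738c4ed385b9f.shift 0 1)] (by decide +kernel))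
noncomputable def rhc298b91816a3bf40 : CRef := CRef.mk (Pat.mk 0x1e000000060000000000000000 0x2000000030000001e000000360000000400000004 4 6) 0 0 (step_sound _ 68 [rh38a0850c9fea941e, (rhe25b0a99195a5d59.shift 1 2)] (by decide +kernel))
noncomputable def rh251f4c515ef5ed3d : CRef := CRef.mk (Pat.mk 0x1000000018000000180000001800000000 0x80000001800000018000000380000001f00000004 4 6) 0 0 (step_sound _ 131 [(rh50fbb5868c909700.shift 3 1), rh6fae963f33cfdfd7] (by decide +kernel))
noncomputable def rhc7328edb2ed48e57 : CRef := CRef.mk (Pat.mk 0x7e00000000 0xff0000003b 4 8) 0 0 (step_sound _ 0 [rh80fcd6d0a18cb2dd, rhe68627a77ac15289] (by decide +kernel))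
noncomputable def rhfb4c54b0dca3343c : CRef := CRef.mk (Pat.mk 0x2000000030000000300000002 0x60000000700000007000000030000000300000002 4 3) 0 0 (step_sound _ 96 [rh50fbb5868c909700, rh5fa50b509d4ce753] (by decide +kernel))
noncomputable def rhb75f789c3aa2fb26 : CRef := CRef.mk (Pat.mk 0x6000000030000000e0000000200000000 0x190000001f0000000b0000000e0000000600000004 4 5) 0 0 (step_sound _ 131 [(rh18965a982d73c794.shift 0 3), rhccdb6a36cd6243e6] (by decide +kernel))
noncomputable def rh9a8a9d1a637362a5 : CRef := CRef.mk (Pat.mk 0x30000000200000000000000020000000000000000 0x1000000030000000300000002000000030000000300000001 4 2) 0 0 (step_sound _ 97 [rh1f3a6ba70a310ab1, (rh50fbb5868c909700.shift 0 2)] (by decide +kernel))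
noncomputable def rha27a5a52b38a88b6 : CRef := CRef.mk (Pat.mk 0x1a00000012000000020000000600000000 0x800000008000000080000001a0000001a0000001e0000001f00000001 4 5) 0 0 (step_sound _ 68 [rh1975b59df13fe119, (rhf9a6286f1d5377a2.shift 3 1)] (by decide +kernel))
noncomputable def rhc8aa689f530b6f55 : CRef := CRef.mk (Pat.mk 0x10000000d00000009000000010000000800000000 0x50000000d000000090000000f0000001a00000010 4 5) 0 0 (step_sound _ 65 [(rh55afc6a59410cf00.shift 0 1), rh7b86caf289b7791d] (by decide +kernel))
noncomputable def rh5ea55bf3b1e041f5 : CRef := CRef.mk (Pat.mk 0x200000002000000120000000200000010 0x2000000020000001a0000000f0000001d 4 5) 0 0 (step_sound _ 32 [rh5f5bc00581fb44bd, rh932754581e0f4330] (by decide +kernel))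
noncomputable def rh9600525da14d5dab : CRef := CRef.mk (Pat.mk 0x80000000c000000180000000800000000 0x80000000c000000780000001f00000004 4 7) 0 0 (step_sound _ 34 [(rh932754581e0f4330.shift 2 0), (rhea5ad313ff444aaf.shift 0 1)] (by decide +kernel))
noncomputable def rh7a77fcf32d94ad75 : CRef := CRef.mk (Pat.mk 0x30000000100000001c00000018 0x300000001f0000003f00000018 4 6) 0 0 (step_sound _ 33 [rhb739f4f82bb681b4, (rhe2bb7d7af5356d5b.shift 0 1)] (by decide +kernel))
noncomputable def rh1aa9b76cd5a726a4 : CRef := CRef.mk (Pat.mk 0x1c00000018000000000000000000000000 0x80000003c0000007f000000060000000400000004 4 7) 0 0 (step_sound _ 98 [(rh92e8f86a47ca4f2b.shift 1 0), (rhab2ad169e49f9c5e.shift 0 3)] (by decide +kernel))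
noncomputable def rh65594685095c2321 : CRef := CRef.mk (Pat.mk 0x8000000020000000700000006 0x8000000080000001b0000001f0000003e 4 6) 0 0 (step_sound _ 4 [rh2fe78cc5ca4405d8, rh6744c7d82272df05] (by decide +kernel))
noncomputable def rh24cce59c0a17c7b5 : CRef := CRef.mk (Pat.mk 0x20000000080000001c00000018 0x20000000200000006c000000ff00000018 4 8) 0 0 (step_sound _ 33 [rhb739f4f82bb681b4, (rhba9de65a83de3b0b.shift 2 0)] (by decide +kernel))
noncomputable def rhca522066e176581d : CRef := CRef.mk (Pat.mk 0x80000000e0000000c000000000000000400000000 0x80000000e0000003f0000003b0000001e0000000e 4 6) 0 0 (step_sound _ 97 [(rh0125efc36fb9411b.shift 0 1), rhbf43576ddc093dbb, rhca381fd96aedcb47] (by decide +kernel))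
noncomputable def rh34c6542e55ceb0b7 : CRef := CRef.mk (Pat.mk 0x20000000e000000020000000000000000 0x2000000030000003e000000060000000400000004 4 6) 0 0 (step_sound _ 100 [(rh3244c3cc8379b070.shift 0 3), (rh9ba4ddb3bd4a337d.shift 1 0)] (by decide +kernel))
noncomputable def rh96a25d64ec2dbc47 : CRef := CRef.mk (Pat.mk 0x40000000600000007000000000000000000000000 0x40000003e0000003f000000380000000800000008 4 6) 0 0 (step_sound _ 99 [(rh87ee923877636e52.shift 0 2), (rhb31f6f32a56ccabd.shift 0 3), rhd132b680030c88e0] (by decide +kernel))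
noncomputable def rh35f9caaf0d684eaf : CRef := CRef.mk (Pat.mk 0x60000000f000000020000000000000000 0x60000003f0000003a0000000200000002 4 6) 0 0 (step_sound _ 1 [(rh87ee923877636e52.shift 0 2), (rh9e3edb185cc347de.shift 1 0)] (by decide +kernel))
noncomputable def rh4b4298603c6f19ca : CRef := CRef.mk (Pat.mk 0x60000000f000000020000000200000000 0x60000003f0000003a0000000600000004 4 6) 0 0 (step_sound _ 2 [(rh87ee923877636e52.shift 0 2), (rhd3458b32566d63f7.shift 1 0)] (by decide +kernel))
noncomputable def rhfdd2c5ca0cc82a11 : CRef := CRef.mk (Pat.mk 0xc0000001e000000040000000400000000 0xc0000001e000000370000003c00000018 4 6) 0 0 (step_sound _ 65 [(rh2f96de7e20c3fbc8.shift 1 0), (rheb0810cc63b001d8.shift 0 2)] (by decide +kernel))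
noncomputable def rh1b33b281759994d3 : CRef := CRef.mk (Pat.mk 0xc000000020000000600000006 0x80000000c0000000f0000003e00000006 4 6) 0 0 (step_sound _ 131 [(rh04253f50b6dd0619.shift 2 0), rhc35631024dc7e1a4] (by decide +kernel))
noncomputable def rh62d070110dcf9ddf : CRef := CRef.mk (Pat.mk 0x200000006000000020000000200000002000000000000000000000000 0x200000006000000070000000300000003000000060000000600000004 4 3) 0 0 (step_sound _ 65 [rhb4dce459d5532780, (rhbaefcd01e0a8bca3.shift 1 2)] (by decide +kernel))
noncomputable def rhec1e3f6ff489986c : CRef := CRef.mk (Pat.mk 0x2000000060000000200000002 0x30000000300000003000000060000000600000006 4 3) 0 0 (step_sound _ 128 [rh0048f2ad683a82b8, rhffd04209dc8ea796] (by decide +kernel))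
noncomputable def rhb58244e1c19055b6 : CRef := CRef.mk (Pat.mk 0xc00000000000000060000000600000000 0x80000000c00000004000000070000003e00000008 4 6) 0 0 (step_sound _ 98 [(rh2f68792b6b779e96.shift 2 1), rh36d4d92ef3dad5f8] (by decide +kernel))
noncomputable def rh12c72dd036a2ed10 : CRef := CRef.mk (Pat.mk 0x38000000180000000800000004 0x8000000380000003e0000000f00000004 4 6) 0 0 (step_sound _ 34 [(rh45dca2176daefed8.shift 0 1), (rh5c5e593799055d58.shift 2 0)] (by decide +kernel))
noncomputable def rhbe29180e1626a757 : CRef := CRef.mk (Pat.mk 0xc00000004000000020000000600000000 0x80000000c00000004000000070000003e00000008 4 6) 0 0 (step_sound _ 66 [(rh2f68792b6b779e96.shift 2 1), rh36d4d92ef3dad5f8] (by decide +kernel))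
noncomputable def rh20cd6bc110d7b6ed : CRef := CRef.mk (Pat.mk 0xe00000006000000020000000200000000 0xa0000000e00000006000000060000000700000005 4 4) 0 0 (step_sound _ 0 [(rh62be5c716da4c399.shift 1 0), rh79877ebd3ef475dd] (by decide +kernel))
noncomputable def rh5fcb4307eb0a356b : CRef := CRef.mk (Pat.mk 0x1c00000000 0xe0000007e000000ff 4 8) 0 0 (step_sound _ 37 [(rh2eb6cac0fecf3e9c.shift 1 0), (rh56f43794bcf10c2f.shift 1 0), rh8195a2d7794c7cd2, (rh8db7f7558b75b2b1.shift 1 0)] (by decide +kernel))
noncomputable def rhdd0c31067280721f : CRef := CRef.mk (Pat.mk 0x38000000080000000800000000 0x40000000c0000001f000000380000001c0000001c00000014 4 6) 0 0 (step_sound _ 131 [(rh0fd870c734e6c513.shift 2 0), (rh29dd5384d80ecb1e.shift 2 0), (rh79905f95cb2d899a.shift 0 1), (rhabedd109a9a37101.shift 2 0)] (by decide +kernel))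
noncomputable def rhcdd8b945863c4140 : CRef := CRef.mk (Pat.mk 0x1e0000000c000000000000000000000000 0x80000001e0000003f000000300000001000000010 4 6) 0 0 (step_sound _ 100 [rhcb68da4f2dc5e7fd, (rhe25b0a99195a5d59.shift 1 3)] (by decide +kernel))
noncomputable def rh399fa0e70005660c : CRef := CRef.mk (Pat.mk 0x1c000000380000000000000000 0x4000000060000007c0000003f0000007800000008 4 7) 0 0 (step_sound _ 66 [(rh4b31f610a48c50e3.shift 1 0), (rhab2ad169e49f9c5e.shift 0 2), (rhf56dc6c929980f59.shift 0 1)] (by decide +kernel))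
noncomputable def rh0cf217c63b3fc1f8 : CRef := CRef.mk (Pat.mk 0x40000000c0000000c0000000800000000 0x80000000a0000000f0000003c0000001c0000001c00000014 4 6) 0 0 (step_sound _ 131 [(rh0ff7ca71cb891e23.shift 2 0), rh8f1158d9f5036793, (rhea7a1800d6f053bd.shift 2 0)] (by decide +kernel))
noncomputable def rhcb39c38eaf019914 : CRef := CRef.mk (Pat.mk 0x40000000c0000000c0000000000000000 0x80000000a0000000f0000003f0000003c0000001400000004 4 6) 0 0 (step_sound _ 131 [(rh7edc67f347daab4a.shift 0 1), rh8f1158d9f5036793, (rhea7a1800d6f053bd.shift 2 0)] (by decide +kernel))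
noncomputable def rha63760247f93a8c8 : CRef := CRef.mk (Pat.mk 0x380000001c000000000000000000000000 0xf0000003f0000007c000000060000000400000004 4 7) 0 0 (step_sound _ 130 [(rh79b3c29022acbdf3.shift 1 3), (rh92e8f86a47ca4f2b.shift 1 0), (rhba89ab7cb81bcc90.shift 0 3)] (by decide +kernel))
noncomputable def rhdc6b042be8ed0243 : CRef := CRef.mk (Pat.mk 0x380000001c0000000000000000 0x14000000370000003f0000001c0000000800000008 4 6) 0 0 (step_sound _ 98 [(rh38a0850c9fea941e.shift 1 0), rhb00c6cda7b230383, (rhba89ab7cb81bcc90.shift 0 2)] (by decide +kernel))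
noncomputable def rhac7612a871fda53b : CRef := CRef.mk (Pat.mk 0x380000001c000000000000000000000000 0x38000000380000003c0000001f0000001c0000001c 4 6) 0 0 (step_sound _ 67 [rh5b16e5ce3dbbe89f, (rh6c9418b1ab9df1ec.shift 3 0), (rhea7a1800d6f053bd.shift 3 0)] (by decide +kernel))
noncomputable def rh749bb6fde4a0135a : CRef := CRef.mk (Pat.mk 0x380000001c0000000000000000 0x4000000070000003f0000007c0000000800000008 4 7) 0 0 (step_sound _ 98 [(rh38a0850c9fea941e.shift 1 0), (rh79b3c29022acbdf3.shift 1 2), (rhba89ab7cb81bcc90.shift 0 2)] (by decide +kernel))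
noncomputable def rhd9a831431bcbae10 : CRef := CRef.mk (Pat.mk 0x1e00000006000000000000000000000000 0x40000001f0000003e000000030000000200000002 4 6) 0 0 (step_sound _ 100 [rhaf17d7ce619e136e, (rhe25b0a99195a5d59.shift 1 3)] (by decide +kernel))
noncomputable def rh04597292272a3ac2 : CRef := CRef.mk (Pat.mk 0x80000003800000018000000000000000000000000 0x40000000f0000003c000000180000000c0000000c0000000c 4 6) 0 0 (step_sound _ 67 [(rh53509d91ff78ed56.shift 0 2), (rhbb83b53687587fb2.shift 2 0)] (by decide +kernel))
noncomputable def rh0de5acb61b506233 : CRef := CRef.mk (Pat.mk 0x1e00000006000000000000000000000000 0xa0000001f0000003e000000070000000600000006 4 6) 0 0 (step_sound _ 65 [(rh6c9418b1ab9df1ec.shift 1 0), (rhf6d72ac90bd26cb0.shift 0 2)] (by decide +kernel))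
noncomputable def rhde1252caea722962 : CRef := CRef.mk (Pat.mk 0x7800000018 0x70000007f000000f8 4 8) 0 0 (step_sound _ 34 [(rh6292bd8784ece55f.shift 1 0), (rh88333dd5482f2e1a.shift 2 0), rhba89ab7cb81bcc90] (by decide +kernel))
noncomputable def rh86d868437bb455ab : CRef := CRef.mk (Pat.mk 0x800000018000000080000000000000000 0x4000000040000001c0000001f00000078000000080000000800000008 4 7) 0 0 (step_sound _ 130 [(rh4ca5dae25f5c14ff.shift 0 3), (rh668fc65514a55b16.shift 2 0), (rhb1a251d9bff81766.shift 2 1)] (by decide +kernel))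
noncomputable def rhe168c73606d5703c : CRef := CRef.mk (Pat.mk 0x1c00000000 0xf0000007e000000fe 4 8) 0 0 (step_sound _ 37 [rh2ba551de881ca4cd, (rh2eb6cac0fecf3e9c.shift 1 0), (rh56f43794bcf10c2f.shift 1 0), (rh8db7f7558b75b2b1.shift 1 0)] (by decide +kernel))
noncomputable def rh92fd3f4a7f0db7f1 : CRef := CRef.mk (Pat.mk 0xe00000002 0x70000003e00000073 4 7) 0 0 (step_sound _ 36 [rh2eb6cac0fecf3e9c, rheb0810cc63b001d8] (by decide +kernel))
noncomputable def rh3e8fa4d4ef9b5b85 : CRef := CRef.mk (Pat.mk 0x200000006000000020000000000000000 0x1000000070000000700000006000000060000000600000006 4 3) 0 0 (step_sound _ 33 [rh29dd5384d80ecb1e, (rha707fb719e87fe6e.shift 1 0)] (by decide +kernel))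
noncomputable def rhe9668d7541f86033 : CRef := CRef.mk (Pat.mk 0x3800000040 0x700000003e00000067 4 7) 0 0 (step_sound _ 34 [rh2c1baeadcd4b32f5, (rh96851dee118c1ba3.shift 2 0)] (by decide +kernel))
noncomputable def rh363055311817507f : CRef := CRef.mk (Pat.mk 0x10000000f000000000000000000000000 0x100000001000000030000001f000000030000000200000002 4 5) 0 0 (step_sound _ 65 [(rh795d3e5d420177aa.shift 0 2), rha40d42a2e34c408d, rhd9507392c7f93a70] (by decide +kernel))
noncomputable def rhbb5cf2e3cb4e323d : CRef := CRef.mk (Pat.mk 0x3800000040 0x770000003e00000060 4 7) 0 0 (step_sound _ 34 [(rh00f1bb10334541e3.shift 0 1), (rh96851dee118c1ba3.shift 2 0)] (by decide +kernel))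
noncomputable def rh735216263c03d027 : CRef := CRef.mk (Pat.mk 0x38000000080000000800000000 0x140000001c0000001f000000380000001c0000001c00000014 4 6) 0 0 (step_sound _ 131 [(rh0fd870c734e6c513.shift 2 0), (rh426f403fa814630c.shift 3 0), (rh79905f95cb2d899a.shift 0 1)] (by decide +kernel))
noncomputable def rh1a7fde4f8029d73c : CRef := CRef.mk (Pat.mk 0x200000002000000020000000000000000 0x100000003000000030000000200000007000000070000000700000005 4 3) 0 0 (step_sound _ 161 [(rh0fd870c734e6c513.shift 0 1), (rh29dd5384d80ecb1e.shift 0 1), rh3181373a30ceb9e3] (by decide +kernel))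
noncomputable def rh03f9158702aebf08 : CRef := CRef.mk (Pat.mk 0x1000000038000000000000000000000000 0x100000001000000018000000780000001f0000000800000008 4 7) 0 0 (step_sound _ 67 [(rhcf80391c5046a495.shift 3 0), (rhf0f55c4504412200.shift 0 2), (rhf9366b6a121593ef.shift 3 0)] (by decide +kernel))
noncomputable def rh82ffdb21f4924cd9 : CRef := CRef.mk (Pat.mk 0x1800000018000000100000000000000000 0x80000001c0000001e000000780000001f0000000c00000008 4 7) 0 0 (step_sound _ 67 [(rh8f1158d9f5036793.shift 1 0), (rhea7a1800d6f053bd.shift 3 0), (rhfba219b2ab1310a3.shift 0 1)] (by decide +kernel))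
noncomputable def rh49996fb80b8c8e7b : CRef := CRef.mk (Pat.mk 0x1c0000000c000000000000000000000000 0x80000001f0000003f000000300000001000000010 4 6) 0 0 (step_sound _ 100 [rhcb68da4f2dc5e7fd, (rhe2b63c00a3d7bb73.shift 0 3)] (by decide +kernel))
noncomputable def rhe9c92ea8be41130b : CRef := CRef.mk (Pat.mk 0x20000000e000000020000000000000000 0x4000000070000003e000000020000000200000002 4 6) 0 0 (step_sound _ 100 [(rh3244c3cc8379b070.shift 0 3), (rh7c44f8de8ceba237.shift 1 0)] (by decide +kernel))
noncomputable def rh7b25c948cd7eecba : CRef := CRef.mk (Pat.mk 0x10000000f000000000000000000000000 0x1000000030000001f000000030000000200000002 4 5) 0 0 (step_sound _ 65 [(rh795d3e5d420177aa.shift 0 2), rh7e1098702e50f2b0, rh9b349e98344f089a, rhd9507392c7f93a70] (by decide +kernel))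
noncomputable def rh8fd0355dd15fa322 : CRef := CRef.mk (Pat.mk 0x80000001e00000010 0x1c000000fe0000001f 4 8) 0 0 (step_sound _ 37 [(rh46231ab7bfd17f40.shift 2 0), (rh9f93e2b24091a43d.shift 2 0), rheae1728ff4a56756] (by decide +kernel))
noncomputable def rh2250a246e8dada8b : CRef := CRef.mk (Pat.mk 0xc0000001c000000000000000000000000 0xc0000000c0000001f000000380000001800000018 4 6) 0 0 (step_sound _ 67 [(rh3cb04db3dd2b6a55.shift 2 0), rh5e42820a81e89072] (by decide +kernel))
noncomputable def rh539b8355bb942eb8 : CRef := CRef.mk (Pat.mk 0x38000000100000000000000000 0x8000000080000001f00000078000000180000001000000010 4 7) 0 0 (step_sound _ 131 [(rh5d54cb79a67f97ab.shift 3 0), (rhf60aa8aede119d3b.shift 0 3)] (by decide +kernel))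
noncomputable def rh212d806ace09b5df : CRef := CRef.mk (Pat.mk 0xe0000001c000000000000000000000000 0x10000000380000001e0000001f000000380000001800000010 4 6) 0 0 (step_sound _ 132 [(rh34b1188e635efc8d.shift 1 1), rhcb68da4f2dc5e7fd] (by decide +kernel))
noncomputable def rhe87cd81b77db583c : CRef := CRef.mk (Pat.mk 0x1c000000180000000000000000 0xc0000000f0000003c000000180000001800000018 4 6) 0 0 (step_sound _ 131 [(rh55a1f6c57a317ce6.shift 3 0), rhf018044ae0d004e8] (by decide +kernel))
noncomputable def rh31480734369c96a7 : CRef := CRef.mk (Pat.mk 0x40000001e000000000000000000000000 0x400000004000000040000001f0000003c0000000800000008 4 6) 0 0 (step_sound _ 67 [(rh5d54cb79a67f97ab.shift 2 0), (rha03f6e28ea70fc7d.shift 0 2)] (by decide +kernel))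
noncomputable def rh343ea6ef2970898a : CRef := CRef.mk (Pat.mk 0x100000001a0000003800000008 0xc0000000c0000001f0000001b0000003f0000000e 4 6) 0 0 (step_sound _ 99 [rh38c0839969445246, (rh90b823c913a425e8.shift 2 0), rh9cac931137f1cfa0] (by decide +kernel))
noncomputable def rhe320f9ed65dce6db : CRef := CRef.mk (Pat.mk 0x20000000600000006000000040000000000000000 0x40000000600000006000000070000003f0000000b00000003 4 6) 0 0 (step_sound _ 65 [(rh6759a8bbc457c8e7.shift 0 1), rhbb83b53687587fb2, (rhea7a1800d6f053bd.shift 1 0)] (by decide +kernel))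
noncomputable def rh4b5ec95bfefbdd16 : CRef := CRef.mk (Pat.mk 0xc000000040000000f00000000 0x8000000080000000c0000000c0000007c0000003f00000070 4 7) 0 0 (step_sound _ 36 [(rh35e918dd76851f8c.shift 1 0), (rh3d8ca6ad03bf935b.shift 1 0), (rh9890f9d77740bbed.shift 0 1)] (by decide +kernel))
noncomputable def rh3ebba147dbd14f98 : CRef := CRef.mk (Pat.mk 0x600000006000000070000000000000000 0x6000000060000000f0000003c0000000c 4 6) 0 0 (step_sound _ 34 [(rh7b1f1fb55310c477.shift 1 0), rhd9397e4126e81439] (by decide +kernel))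
noncomputable def rh0a76e02ed0c9fddd : CRef := CRef.mk (Pat.mk 0x7c00000000 0x7000000ff00000038 4 8) 0 0 (step_sound _ 33 [(rhd5eb272e07a4e288.shift 0 1), rhe68627a77ac15289] (by decide +kernel))
noncomputable def rha5aa5ffe9d34ea00 : CRef := CRef.mk (Pat.mk 0x18000000010000000f00000000 0x2000000020000001e000000030000001f00000004 4 5) 0 0 (step_sound _ 65 [rh828d5a3146c162db, (rhf48373e13d2bc128.shift 0 1)] (by decide +kernel))
noncomputable def rh2588bdc66826497d : CRef := CRef.mk (Pat.mk 0x8000000080000001e000000000000000000000000 0x8000000180000001e000000330000001000000010 4 6) 0 0 (step_sound _ 64 [(rh80fcd6d0a18cb2dd.shift 0 2), (rhd132b680030c88e0.shift 1 0)] (by decide +kernel))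
noncomputable def rhab1aa65dea6b9342 : CRef := CRef.mk (Pat.mk 0xf000000010000000000000000 0x2000000030000001f000000030000000100000001 4 5) 0 0 (step_sound _ 129 [rh019c09528244a73d, (rh7b030ba967bf927e.shift 0 2), rh9d3266848e9c2ac0, rhf91b1398c815afd2] (by decide +kernel))
noncomputable def rh0bf6fbdf131c72f8 : CRef := CRef.mk (Pat.mk 0x80000001800000018000000100000000000000000 0x40000000c0000001c000000380000001f0000000c0000000c 4 6) 0 0 (step_sound _ 67 [(rh6fae963f33cfdfd7.shift 0 1), (rhbb83b53687587fb2.shift 2 0), (rhdf997f77704b6375.shift 2 0)] (by decide +kernel))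
noncomputable def rhb60084e65a5c8fc9 : CRef := CRef.mk (Pat.mk 0x6000000040000000c0000000c 0x380000003e0000000f0000000c0000000c 4 6) 0 0 (step_sound _ 99 [(rh2f68792b6b779e96.shift 2 0), rh355f0dc964d44ac2] (by decide +kernel))
noncomputable def rhadb2c322c9f6e07f : CRef := CRef.mk (Pat.mk 0x180000000c0000000800000010 0x800000008000000180000000f0000001c00000014 4 5) 0 0 (step_sound _ 64 [(rh24ae073cf30720c4.shift 0 2), (rhde43633b9e4abc31.shift 2 0)] (by decide +kernel))
noncomputable def rh55a8a2e35418a2e9 : CRef := CRef.mk (Pat.mk 0x80000001a0000001e0000000000000000 0x20000000b0000001e0000003e0000000400000004 4 6) 0 0 (step_sound _ 98 [rh2314a9727c37b748, (rhf48373e13d2bc128.shift 1 2)] (by decide +kernel))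
noncomputable def rh9769bdab59649ef8 : CRef := CRef.mk (Pat.mk 0xd0000000e00000000 0xf0000007e00000070 4 7) 0 0 (step_sound _ 36 [(rh3f8766e6ecb455ce.shift 0 1), (rh87ee923877636e52.shift 1 0)] (by decide +kernel))
noncomputable def rhc97aff1a6a62e709 : CRef := CRef.mk (Pat.mk 0xa0000001a0000000300000000 0x1000000030000001f0000001a0000000300000001 4 5) 0 0 (step_sound _ 98 [(rhb739f4f82bb681b4.shift 0 2), rhf81f683ce2bac988] (by decide +kernel))
noncomputable def rh3fc65125bad1894c : CRef := CRef.mk (Pat.mk 0x100000003400000004 0x370000003e00000006 4 6) 0 0 (step_sound _ 35 [(rheb0810cc63b001d8.shift 1 0), (rhedf6b6c69a16cbd5.shift 0 1)] (by decide +kernel))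
noncomputable def rh6dacba17831d5b53 : CRef := CRef.mk (Pat.mk 0x100000001c000000140000000000000000 0x8000000080000003c0000001f000000140000000400000004 4 6) 0 0 (step_sound _ 131 [(rh32f6277f14b47a8f.shift 2 0), (rhab2ad169e49f9c5e.shift 0 3)] (by decide +kernel))
noncomputable def rh5276f7368372b0a4 : CRef := CRef.mk (Pat.mk 0xa00000002000000020000000000000000 0x500000007000000070000001e00000003000000030000000300000001 4 5) 0 0 (step_sound _ 161 [(rh0fd870c734e6c513.shift 0 1), rh32c2123a4016d1a7, (rh402d223d12d7377d.shift 0 1), (rh7fdcea51b288916c.shift 0 1)] (by decide +kernel))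
noncomputable def rhd13786f2292342c8 : CRef := CRef.mk (Pat.mk 0x180000001e00000000 0x18000000fe000000e7 4 8) 0 0 (step_sound _ 37 [(rh87ee923877636e52.shift 2 0), rheae1728ff4a56756] (by decide +kernel))
noncomputable def rhcd77e05e0c131bda : CRef := CRef.mk (Pat.mk 0x80000001e0000000a0000000000000000 0x20000000b0000001e0000003e0000003400000014 4 6) 0 0 (step_sound _ 66 [rh2314a9727c37b748, (rh3f420d1be4b84cac.shift 1 0)] (by decide +kernel))
noncomputable def rh741b079238e32ec6 : CRef := CRef.mk (Pat.mk 0x80000001a0000001a0000000000000000 0x80000001e0000003e0000003700000010 4 6) 0 0 (step_sound _ 69 [rh57ec99813e95d20b, (rhab22b5b56e7b3243.shift 1 2)] (by decide +kernel))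
noncomputable def rhd54ba717e3821403 : CRef := CRef.mk (Pat.mk 0x20000000200000002000000000000000000000000 0x400000006000000060000000600000006000000070000000700000005 4 3) 0 0 (step_sound _ 65 [rh3181373a30ceb9e3, rh32c2123a4016d1a7, (rh426f403fa814630c.shift 1 1)] (by decide +kernel))
noncomputable def rh73e4dc42196a65d8 : CRef := CRef.mk (Pat.mk 0x2000000020000000a000000000000000000000000 0x300000003000000030000001e000000070000000700000005 4 5) 0 0 (step_sound _ 65 [rh0c1c1b53bc5a1510, rh3181373a30ceb9e3, rhcae87bda2c3c01d2, (rhfa886b95f47af3f9.shift 0 1)] (by decide +kernel))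
noncomputable def rh7546ed41750f8fb3 : CRef := CRef.mk (Pat.mk 0x8000000180000000e0000000000000000 0x80000001c000000fe0000003700000010 4 8) 0 0 (step_sound _ 68 [(rh78974448101547fe.shift 1 0), (rhc5b6c3e7bb45db36.shift 0 1)] (by decide +kernel))
noncomputable def rh8f75c820ceb79a60 : CRef := CRef.mk (Pat.mk 0x200000006000000020000000000000000 0x3000000030000000300000006000000070000000700000001 4 3) 0 0 (step_sound _ 161 [rh0c1c1b53bc5a1510, (rhd4b4beefcd67f51e.shift 1 1)] (by decide +kernel))
noncomputable def rh5299d028bcf83633 : CRef := CRef.mk (Pat.mk 0x200000002000000060000000300000000 0x2000000060000000600000006000000070000000300000002 4 3) 0 0 (step_sound _ 130 [(rh2f68792b6b779e96.shift 1 1), rh5487c7708d77b486] (by decide +kernel))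
noncomputable def rh2f069b59d9010aa5 : CRef := CRef.mk (Pat.mk 0x200000006000000030000000600000000 0x40000000600000006000000070000001f00000019 4 5) 0 0 (step_sound _ 35 [rh2fe3e8e6529e27c3, (rhf48373e13d2bc128.shift 0 1)] (by decide +kernel))
noncomputable def rh0cccb2b69194b4e7 : CRef := CRef.mk (Pat.mk 0x1a0000001e000000000000000000000000 0x200000002000000070000001e0000001e000000070000000200000002 4 5) 0 0 (step_sound _ 130 [rh9a011a4d0ec8f646, (rhbdb8dfd08861fbf7.shift 0 2)] (by decide +kernel))
noncomputable def rh25f6b1c3affd7b3c : CRef := CRef.mk (Pat.mk 0x200000006000000030000000000000000 0x100000003000000070000000600000007000000070000000600000006 4 3) 0 0 (step_sound _ 161 [(rh17ebc3e771625541.shift 1 0), (rha54302d5ccf5246c.shift 0 2), (rhd4b4beefcd67f51e.shift 1 1)] (by decide +kernel))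
noncomputable def rh9ade936a91f8145f : CRef := CRef.mk (Pat.mk 0x2000000020000000600000003 0x10000000300000003000000020000001f00000003 4 5) 0 0 (step_sound _ 35 [rh18965a982d73c794, rha54302d5ccf5246c] (by decide +kernel))
noncomputable def rhf4e6fedba06c3e58 : CRef := CRef.mk (Pat.mk 0x20000000600000002000000020000000200000000 0x300000003000000030000000600000006000000020000000200000002 4 3) 0 0 (step_sound _ 98 [(rh71222050f2c63a3a.shift 1 0), (rh90b823c913a425e8.shift 0 2)] (by decide +kernel))
noncomputable def rh265236f62c04d141 : CRef := CRef.mk (Pat.mk 0x80000003800000008000000000000000000000000 0x140000001f00000038000000080000001c0000001c00000014 4 6) 0 0 (step_sound _ 67 [(rh3181373a30ceb9e3.shift 2 0), (rh79905f95cb2d899a.shift 0 2), (rha707fb719e87fe6e.shift 3 1)] (by decide +kernel))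
noncomputable def rh60f8a5416b531026 : CRef := CRef.mk (Pat.mk 0x20000000600000003000000020000000000000000 0x20000000700000007000000060000000600000006 4 3) 0 0 (step_sound _ 34 [rhb80c62fee0ba198b, (rhd3458b32566d63f7.shift 1 1)] (by decide +kernel))
noncomputable def rh05f6cb55ae7c9b80 : CRef := CRef.mk (Pat.mk 0x20000000300000002000000000000000000000000 0x100000003000000030000000300000006000000070000000700000005 4 3) 0 0 (step_sound _ 65 [(rh29dd5384d80ecb1e.shift 0 1), rh3181373a30ceb9e3, (rhe286c75f2739cce2.shift 0 1)] (by decide +kernel))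
noncomputable def rhf75825f908e643c1 : CRef := CRef.mk (Pat.mk 0x600000002c0000000800000000 0x400000004000000040000000600000006f0000007c00000020 4 7) 0 0 (step_sound _ 37 [(rh799b546ddd265bb3.shift 1 1), (rh8c25cb665ab79ec0.shift 0 1), (rhb730ba14aa32bdb3.shift 5 0)] (by decide +kernel))
noncomputable def rhfe59245d4f7f9ecc : CRef := CRef.mk (Pat.mk 0x1a0000000a0000000200000000 0x50000001f0000001b0000000200000002 4 5) 0 0 (step_sound _ 98 [rha318ab7dda799eb3, (rheb0810cc63b001d8.shift 0 2)] (by decide +kernel))
noncomputable def rhab8a6151de98a722 : CRef := CRef.mk (Pat.mk 0x1a00000002000000020000000000000000 0x5000000070000003f00000002000000030000000300000001 4 6) 0 0 (step_sound _ 161 [rh0c1c1b53bc5a1510, (rh24c6fd584c208a4c.shift 1 1), (rh5e05da03898e7023.shift 0 2)] (by decide +kernel))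
noncomputable def rh40987509451a5734 : CRef := CRef.mk (Pat.mk 0x680000000800000028 0x780000000f0000007c 4 7) 0 0 (step_sound _ 34 [rh8c25cb665ab79ec0, (rhb2a0b9ccfb5cecd5.shift 2 1)] (by decide +kernel))
noncomputable def rh2deadcd8992887d6 : CRef := CRef.mk (Pat.mk 0x1a00000002000000020000000000000000 0x5000000070000003f00000002000000060000000600000004 4 6) 0 0 (step_sound _ 161 [(rh24c6fd584c208a4c.shift 1 1), (rh5e05da03898e7023.shift 0 2), rhcae87bda2c3c01d2] (by decide +kernel))
noncomputable def rh6ebf234536327d76 : CRef := CRef.mk (Pat.mk 0x20000000a0000000a00000000 0x50000000700000007000000020000001a0000000f00000005 4 5) 0 0 (step_sound _ 129 [(rh7ef5fa5c39f1c762.shift 0 1), rhe8768a83bdb59c61] (by decide +kernel))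
noncomputable def rhded885047b16a567 : CRef := CRef.mk (Pat.mk 0x1a000000020000000200000000 0x4000000060000003e000000030000000200000002 4 6) 0 0 (step_sound _ 98 [(rh72941494d5330140.shift 1 0), (rheb0810cc63b001d8.shift 0 2)] (by decide +kernel))
noncomputable def rh3690aec8ba212820 : CRef := CRef.mk (Pat.mk 0x20000000200000002000000000000000000000000 0x400000006000000060000000200000007000000070000000700000005 4 3) 0 0 (step_sound _ 65 [rh3181373a30ceb9e3, (rh402d223d12d7377d.shift 0 1), (rh426f403fa814630c.shift 1 1)] (by decide +kernel))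
noncomputable def rh12102cd1337facfa : CRef := CRef.mk (Pat.mk 0x20000000a0000000a0000000000000000 0x100000003000000030000001a0000000f0000000700000005 4 5) 0 0 (step_sound _ 161 [rh0c1c1b53bc5a1510, rhcae87bda2c3c01d2, (rhe8768a83bdb59c61.shift 0 1)] (by decide +kernel))
noncomputable def rhd2b18c200f9faf18 : CRef := CRef.mk (Pat.mk 0x1a0000000a0000000a00000000 0x1000000030000001e0000001a0000000f00000005 4 5) 0 0 (step_sound _ 129 [(rh5e05da03898e7023.shift 0 1), rhe8768a83bdb59c61] (by decide +kernel))
noncomputable def rhcc1929177a3251cc : CRef := CRef.mk (Pat.mk 0x10000000100000001c000000000000000000000000 0x10000000300000007e000000ef0000002000000020 4 8) 0 0 (step_sound _ 101 [(rh4c063b89d42a2070.shift 0 2), (rh8db7f7558b75b2b1.shift 1 2), (rhd132b680030c88e0.shift 2 0)] (by decide +kernel))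
noncomputable def rh1c5d69a9a9904ae7 : CRef := CRef.mk (Pat.mk 0x30000000140000001c00000000 0x40000003c000000370000001e00000003 4 6) 0 0 (step_sound _ 33 [rh224d585a388a72f3, (rh33e738c4ed385b9f.shift 1 1)] (by decide +kernel))
noncomputable def rhefdf625c97bc0510 : CRef := CRef.mk (Pat.mk 0x28000000380000000000000000 0x800000008000000680000007c0000001f00000004 4 7) 0 0 (step_sound _ 34 [(rh2ee61895a6499355.shift 1 1), (rh4a32030338bc35ab.shift 2 0), (rh4c5c51b0ae60cece.shift 0 1)] (by decide +kernel))
noncomputable def rhf0d4d08d8946b865 : CRef := CRef.mk (Pat.mk 0x800000008000000180000000800000000 0x800000008000000380000001f00000014 4 6) 0 0 (step_sound _ 34 [rh2fed619e183bde17, (rh932754581e0f4330.shift 2 0)] (by decide +kernel))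
noncomputable def rh7724783241fece53 : CRef := CRef.mk (Pat.mk 0x80000001a0000000e000000000000000000000000 0x20000000f0000001e0000000e000000060000000400000004 4 5) 0 0 (step_sound _ 161 [(rh07d301cb625b5eb9.shift 1 0), (rha768b229dc254047.shift 1 0), (rhd8be3b7ca6adb62f.shift 0 4)] (by decide +kernel))
noncomputable def rha1a63885f5457891 : CRef := CRef.mk (Pat.mk 0x40000000c00000005 0xe0000007e0000000f 4 7) 0 0 (step_sound _ 36 [(rh8cda118e73192ffa.shift 1 0), rh9c0ab0af19c4d8a6, rhbb229bad87965364] (by decide +kernel))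
noncomputable def rhf5853b842d3a401a : CRef := CRef.mk (Pat.mk 0x50000000d0000000100000000 0x200000002000000030000000f0000003d0000000100000001 4 6) 0 0 (step_sound _ 97 [(rh4a0b10776449c3e9.shift 0 2), rh7f36f639160ea2c8] (by decide +kernel))
noncomputable def rheea1dc0a7c465a8a : CRef := CRef.mk (Pat.mk 0x80000000800000038000000000000000000000000 0x40000001c0000001c000000380000001f0000001c0000001c 4 6) 0 0 (step_sound _ 67 [(rh0c1c1b53bc5a1510.shift 2 0), (rh17ebc3e771625541.shift 3 0), (rh2d94e8e3c3d1054b.shift 2 0), (rh852e818bc8629e77.shift 0 1)] (by decide +kernel))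
noncomputable def rh5203773e7ec65d1b : CRef := CRef.mk (Pat.mk 0x20000000200000006000000000000000000000000 0x500000007000000070000000700000006000000030000000300000003 4 3) 0 0 (step_sound _ 65 [rh0c1c1b53bc5a1510, rh2d94e8e3c3d1054b, (rh7ef5fa5c39f1c762.shift 0 2)] (by decide +kernel))
noncomputable def rh3bbb6459c441914e : CRef := CRef.mk (Pat.mk 0x1e00000018 0x70000003e0000001f 4 6) 0 0 (step_sound _ 1 [rheb0810cc63b001d8, rhec13a2e3cc6047f5] (by decide +kernel))
noncomputable def rhc443b96e248d4c7a : CRef := CRef.mk (Pat.mk 0xe0000001c0000000000000000 0x200000002000000070000003e0000001f0000000400000004 4 6) 0 0 (step_sound _ 129 [(rh7e1098702e50f2b0.shift 1 0), (rha40d42a2e34c408d.shift 1 0), (rhf49d61b8822b8666.shift 0 2)] (by decide +kernel))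
noncomputable def rh296a6af879346d54 : CRef := CRef.mk (Pat.mk 0x80000001800000018000000000000000000000000 0x40000001f0000007c00000018000000080000000800000008 4 7) 0 0 (step_sound _ 162 [(rhaeecc7287588a69b.shift 2 0), (rhdeca8db941583de2.shift 0 4)] (by decide +kernel))
noncomputable def rhafa04bb91b9b064d : CRef := CRef.mk (Pat.mk 0x40000000c0000000c0000000000000000 0x80000000a0000000f0000003e0000007c0000001400000004 4 7) 0 0 (step_sound _ 131 [rh8f1158d9f5036793, (rhea7a1800d6f053bd.shift 2 0), (rhf7ac44032989c9ef.shift 1 1)] (by decide +kernel))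
noncomputable def rh6210f0fae0472354 : CRef := CRef.mk (Pat.mk 0x40000000f0000000000000000 0x4000000040000001c0000000f0000001800000008 4 5) 0 0 (step_sound _ 35 [rh8f2eacec99830cb7, (rhe25b0a99195a5d59.shift 0 1)] (by decide +kernel))
noncomputable def rhd346a82972aa81ea : CRef := CRef.mk (Pat.mk 0xc0000001c0000000000000000 0xc0000000e0000007c0000001f0000003800000018 4 7) 0 0 (step_sound _ 100 [(rh073589708c2d81a3.shift 1 0), (rhab2ad169e49f9c5e.shift 0 2), rhee3980af7ad9afce] (by decide +kernel))
noncomputable def rh43e06a69887b4db3 : CRef := CRef.mk (Pat.mk 0x180000003800000000 0x38000000ff000000e0 4 8) 0 0 (step_sound _ 38 [rh2a14c815463ca7ed, (rhf48373e13d2bc128.shift 3 1)] (by decide +kernel))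
noncomputable def rh118b50d72e2cad2c : CRef := CRef.mk (Pat.mk 0x180000000e000000000000000000000000 0x80000001c000000fe000000770000001000000010 4 8) 0 0 (step_sound _ 100 [(rh8db7f7558b75b2b1.shift 0 2), (rhbbe16ff26f7822db.shift 1 0), (rhc5b6c3e7bb45db36.shift 0 2)] (by decide +kernel))
noncomputable def rh4c40641a327d7ac1 : CRef := CRef.mk (Pat.mk 0xc0000001e00000000 0x7c0000007e00000003 4 7) 0 0 (step_sound _ 0 [rh80fcd6d0a18cb2dd, (rhb31f6f32a56ccabd.shift 1 1)] (by decide +kernel))
noncomputable def rh5bb2b439614485e2 : CRef := CRef.mk (Pat.mk 0x40000000600000007000000000000000000000000 0x4000000060000000f0000003e0000000e00000006 4 6) 0 0 (step_sound _ 66 [(rhbdf73b26f73f8159.shift 1 0), (rhd9397e4126e81439.shift 0 1)] (by decide +kernel))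
noncomputable def rhda29e93936cd8414 : CRef := CRef.mk (Pat.mk 0x38000000080000000800000000 0xc0000001f000000380000001c0000001c00000014 4 6) 0 0 (step_sound _ 131 [(rh79905f95cb2d899a.shift 0 1), (rhabedd109a9a37101.shift 2 0)] (by decide +kernel))
noncomputable def rha8013273f785f51e : CRef := CRef.mk (Pat.mk 0x1000000038000000000000000000000000 0x100000001000000018000000780000001f0000000800000008 4 7) 0 0 (step_sound _ 67 [(rhf0f55c4504412200.shift 0 2), (rhf91b1398c815afd2.shift 3 0), (rhf9366b6a121593ef.shift 3 0)] (by decide +kernel))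
noncomputable def rhac8e378a69d6fa04 : CRef := CRef.mk (Pat.mk 0x600000006000000040000000000000000 0x60000000600000006000000070000003f0000000b00000003 4 6) 0 0 (step_sound _ 65 [rhce2bb70797483c3b, (rhea7a1800d6f053bd.shift 1 0), (rhf7ac44032989c9ef.shift 0 1)] (by decide +kernel))
noncomputable def rhdb3d1dd0d83a7cbc : CRef := CRef.mk (Pat.mk 0x1800000018000000100000000000000000 0x80000001800000018000000380000001f0000000c0000000c 4 6) 0 0 (step_sound _ 67 [(rhce2bb70797483c3b.shift 2 0), (rhea7a1800d6f053bd.shift 3 0), (rhfba219b2ab1310a3.shift 0 1)] (by decide +kernel))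
noncomputable def rhcb1ce2b9f5fc40fa : CRef := CRef.mk (Pat.mk 0x1c0000000c000000000000000000000000 0x80000001e0000007f000000360000001400000014 4 7) 0 0 (step_sound _ 100 [(rh79b3c29022acbdf3.shift 1 3), (rh92e8f86a47ca4f2b.shift 1 0), rhcb68da4f2dc5e7fd] (by decide +kernel))
noncomputable def rh66c66a19da84e11d : CRef := CRef.mk (Pat.mk 0xe0000001200000002000000000000000000000000 0x20000000f0000001e0000000f000000050000000400000004 4 5) 0 0 (step_sound _ 98 [(rh046c5eb18e55a239.shift 1 0), (rh14e5a609118c4909.shift 0 3), (rhb74faafaa69ed645.shift 0 2)] (by decide +kernel))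
noncomputable def rh3651dc98b7bda96d : CRef := CRef.mk (Pat.mk 0x70000000900000001 0x2000000030000001f0000001b00000001 4 5) 0 0 (step_sound _ 67 [rhd5c90d7e7ecd5b57, (rhe25b0a99195a5d59.shift 0 1)] (by decide +kernel))
noncomputable def rh46a335798a99727d : CRef := CRef.mk (Pat.mk 0x3800000000 0xf0000007e0000007f 4 7) 0 0 (step_sound _ 34 [rh2ba551de881ca4cd, (rh56f43794bcf10c2f.shift 1 0), rh8195a2d7794c7cd2] (by decide +kernel))
noncomputable def rh82f14c06086e67a0 : CRef := CRef.mk (Pat.mk 0x80000000c0000000c0000000800000000 0x60000000f0000003c0000000c0000000c00000004 4 6) 0 0 (step_sound _ 130 [(rh50fbb5868c909700.shift 2 1), rh8f1158d9f5036793] (by decide +kernel))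
noncomputable def rhb39e12d8476ddcfb : CRef := CRef.mk (Pat.mk 0xe0000001c000000000000000000000000 0xf0000007e0000001f000000300000001000000010 4 7) 0 0 (step_sound _ 132 [(rh771383521b68d2cd.shift 0 3), (rhab2ad169e49f9c5e.shift 0 3), rhcb68da4f2dc5e7fd] (by decide +kernel))
noncomputable def rh7c7d6aa199f9c04e : CRef := CRef.mk (Pat.mk 0x1c00000000 0xf0000007e000000ef 4 8) 0 0 (step_sound _ 37 [rh2cc7d62e70c02209, (rh2eb6cac0fecf3e9c.shift 1 0), (rh56f43794bcf10c2f.shift 1 0), (rh8db7f7558b75b2b1.shift 1 0)] (by decide +kernel))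
noncomputable def rhc8cc82cbfc1592e2 : CRef := CRef.mk (Pat.mk 0x2000000020000000600000002000000000000000000000000 0x2000000060000000600000003000000070000000700000004 4 3) 0 0 (step_sound _ 65 [(rh301a6b3a9154ed36.shift 1 0), (rh7928877f9bf74a91.shift 0 1)] (by decide +kernel))
noncomputable def rh4e64b7e82c9211af : CRef := CRef.mk (Pat.mk 0x2000000020000000600000000 0x1000000030000000300000002000000060000000600000004 4 3) 0 0 (step_sound _ 129 [(rh55afc6a59410cf00.shift 1 0), (rh65909b08999dc522.shift 0 1)] (by decide +kernel))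
noncomputable def rh55f706c54e3a925c : CRef := CRef.mk (Pat.mk 0x10000000f000000010000000000000000 0x2000000030000001f000000190000000100000001 4 5) 0 0 (step_sound _ 67 [rh7c44f8de8ceba237, (rhe25b0a99195a5d59.shift 0 2)] (by decide +kernel))
noncomputable def rh764aa26988b45f22 : CRef := CRef.mk (Pat.mk 0x20000000e000000020000000200000000 0x600000006000000060000003e0000003e0000000300000001 4 6) 0 0 (step_sound _ 66 [(rhc0301b400ca2a736.shift 1 1), rhe15164ba884db0cb] (by decide +kernel))
noncomputable def rh92753b9d07d99e9c : CRef := CRef.mk (Pat.mk 0x20000001e0000000000000000 0x200000002000000020000003e0000000700000004 4 6) 0 0 (step_sound _ 33 [(rh6224572d868f7c64.shift 1 0), (rheb0810cc63b001d8.shift 0 1)] (by decide +kernel))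
noncomputable def rh1c4e170256b7d441 : CRef := CRef.mk (Pat.mk 0x4000000040000001c0000000000000000 0x400000004000000040000001c0000000f0000000a 4 5) 0 0 (step_sound _ 35 [(rh2145e1d24b96a57e.shift 2 1), rhffb35f5e5ddd6656] (by decide +kernel))
noncomputable def rhbef597b557994e47 : CRef := CRef.mk (Pat.mk 0x80000000800000038000000000000000000000000 0x140000001c0000001c0000001f000000380000000c0000000c0000000c 4 6) 0 0 (step_sound _ 67 [(rh2d94e8e3c3d1054b.shift 2 0), (rh7ef5fa5c39f1c762.shift 2 2), (rhc3198180e1bccfcd.shift 0 1)] (by decide +kernel))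
noncomputable def rh9b275fa92edc86f9 : CRef := CRef.mk (Pat.mk 0x80000000800000038000000000000000000000000 0x40000001c0000001c000000380000001f0000000c0000000c 4 6) 0 0 (step_sound _ 67 [(rh15e98c38281f0714.shift 2 0), (rh2d94e8e3c3d1054b.shift 2 0), (rh852e818bc8629e77.shift 0 1)] (by decide +kernel))
noncomputable def rh49622459e35b6e7e : CRef := CRef.mk (Pat.mk 0xc0000000e0000000000000000 0x2000000030000003f0000003e0000000400000004 4 6) 0 0 (step_sound _ 97 [rh073589708c2d81a3, (rh79b3c29022acbdf3.shift 0 2)] (by decide +kernel))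
noncomputable def rh95477202962e8ef9 : CRef := CRef.mk (Pat.mk 0x1800000018000000100000000000000000 0xc0000000c0000001e000000780000001f0000000c00000008 4 7) 0 0 (step_sound _ 67 [(rh8f1158d9f5036793.shift 1 0), (rhfb64ba5458f5c134.shift 2 0), (rhfba219b2ab1310a3.shift 0 1)] (by decide +kernel))
noncomputable def rh7d349d6c6d0cb235 : CRef := CRef.mk (Pat.mk 0x1c00000000 0xe0000007e000000ff 4 8) 0 0 (step_sound _ 37 [(rh2eb6cac0fecf3e9c.shift 1 0), (rh56f43794bcf10c2f.shift 1 0), rh8195a2d7794c7cd2] (by decide +kernel))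
noncomputable def rhf49a26f1384542d6 : CRef := CRef.mk (Pat.mk 0x20000000e000000020000000600000000 0x4000000060000003e0000003e0000000f00000001 4 6) 0 0 (step_sound _ 68 [rh1975b59df13fe119, (rh462f5db0be45fec7.shift 1 1), (rh4c454c3081c736c9.shift 1 2)] (by decide +kernel))
noncomputable def rhfffcaa94a77722cd : CRef := CRef.mk (Pat.mk 0x1800000018000000080000000e00000000 0x18000000fc000000ff0000001e00000010 4 8) 0 0 (step_sound _ 101 [rha3f5d348ad908b38, (rha9e1a5d55b907abf.shift 2 2), (rhdac6bdba0c8c1e09.shift 2 1)] (by decide +kernel))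
noncomputable def rh6a56bf014d41f122 : CRef := CRef.mk (Pat.mk 0x1000000010000000100000001c00000000 0x1000000010000000170000003e00000027 4 6) 0 0 (step_sound _ 37 [rh2cc7d62e70c02209, (rh55afc6a59410cf00.shift 4 0)] (by decide +kernel))
noncomputable def rh45b8a1f87aeba32c : CRef := CRef.mk (Pat.mk 0x1c00000016000000000000000000000000 0x80000001c0000007e000000370000001000000010 4 7) 0 0 (step_sound _ 99 [(rhbbe16ff26f7822db.shift 1 0), (rhf10fa853c2693a25.shift 0 2)] (by decide +kernel))
noncomputable def rhe333ef2d5df6f473 : CRef := CRef.mk (Pat.mk 0xe0000001a0000000200000000 0x40000000e0000007a0000001f0000000a 4 7) 0 0 (step_sound _ 69 [rhb874c87748a803fa, (rhf48373e13d2bc128.shift 2 2)] (by decide +kernel))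
noncomputable def rh5a75aa73d982693c : CRef := CRef.mk (Pat.mk 0xe0000001b0000000200000000 0x400000004000000060000000e0000001b0000001f00000008 4 5) 0 0 (step_sound _ 35 [(rh176ee440f82a3750.shift 1 0), (rhba7137a6404ea089.shift 0 1)] (by decide +kernel))
noncomputable def rhe7d072865946f56d : CRef := CRef.mk (Pat.mk 0x20000001b00000002000000000000000000000000 0x2000000020000001b0000001f000000060000000400000004 4 5) 0 0 (step_sound _ 98 [(rh70e33bfdf511e144.shift 1 0), (rhde244f29c5529f6d.shift 0 3)] (by decide +kernel))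
noncomputable def rh42ccc0fab2d4ae9a : CRef := CRef.mk (Pat.mk 0x400000007000000040000000400000000 0x4000000040000000f0000003c0000000c00000008 4 6) 0 0 (step_sound _ 35 [(rh55afc6a59410cf00.shift 2 0), (rh57b7bc8a76d7d95a.shift 0 1)] (by decide +kernel))
noncomputable def rhafee4ae8fadb3c5e : CRef := CRef.mk (Pat.mk 0x20000000e000000030000000600000000 0x4000000060000000e0000000f0000001e00000008 4 5) 0 0 (step_sound _ 35 [(rh8d14b700828477c1.shift 1 0), (rhf48373e13d2bc128.shift 0 1)] (by decide +kernel))
noncomputable def rh0499c9395a1e7b52 : CRef := CRef.mk (Pat.mk 0x180000001e000000100000001000000000 0x10000000180000001e0000001f0000003800000028 4 6) 0 0 (step_sound _ 65 [(rhc0194a0dc6a3344a.shift 1 0), (rheb0810cc63b001d8.shift 0 2)] (by decide +kernel))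
noncomputable def rh94f2fefc437fbcd7 : CRef := CRef.mk (Pat.mk 0x8000000100000003800000000 0x8000000080000003c000000ff00000006 4 8) 0 0 (step_sound _ 67 [(rh79b3c29022acbdf3.shift 2 1), rhf2314cb4a4676849] (by decide +kernel))
noncomputable def rhae071231de2c3ac8 : CRef := CRef.mk (Pat.mk 0x60000000200000000000000060000000000000000 0x60000000600000002000000070000000700000001 4 3) 0 0 (step_sound _ 97 [(rh55afc6a59410cf00.shift 1 1), rh8aec56c4ee12918c] (by decide +kernel))
noncomputable def rh23913013821ddb1a : CRef := CRef.mk (Pat.mk 0x80000000800000008000000180000000000000000 0xc0000000c0000001f0000007c0000000c0000000c 4 7) 0 0 (step_sound _ 98 [(rh4c761f03f00ba0ef.shift 1 1), (rh4ca5dae25f5c14ff.shift 0 2), (rh9ee82b97cdeec3bd.shift 2 0)] (by decide +kernel))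
noncomputable def rh2672ccfe89f6433d : CRef := CRef.mk (Pat.mk 0xc0000000e000000000000000600000000 0xc0000000f0000001c0000001f0000003b 4 6) 0 0 (step_sound _ 35 [rh2fec87a3badbb505, (rh935da622f8ebc962.shift 2 0), rha6262d33c01fa025, (rhbf726fa7097229f2.shift 1 0)] (by decide +kernel))
noncomputable def rh6fa6fb5af9dab895 : CRef := CRef.mk (Pat.mk 0xc00000016000000000000000c0000000000000000 0xe0000001e0000000f0000000e0000000600000002 4 5) 0 0 (step_sound _ 34 [(rh94dda44472c97f80.shift 1 1), (rha458dae1f51012c0.shift 1 0), (rhe406125cef78e451.shift 2 1), (rhfbd1e69d00a5c3d3.shift 0 1)] (by decide +kernel))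
noncomputable def rh05fa8fb38507759d : CRef := CRef.mk (Pat.mk 0x50000000500000000000000030000000000000000 0x50000000700000007000000070000000200000002 4 3) 0 0 (step_sound _ 33 [(rhf27044bfb2996f22.shift 1 0), (rhff0f29cb645b05f7.shift 0 1)] (by decide +kernel))
noncomputable def rh546d8824bb5611e5 : CRef := CRef.mk (Pat.mk 0x70000000500000000000000020000000000000000 0x1000000070000000700000007000000030000000200000002 4 3) 0 0 (step_sound _ 97 [(rh1c69bb92c13f27a0.shift 0 1), rhb566e0719bd64755, rhe482ee30a2733b5f, (rhf6833c4bd292a3b4.shift 0 2)] (by decide +kernel))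
noncomputable def rh46b2d9743d782f3e : CRef := CRef.mk (Pat.mk 0x600000003000000000000000400000000 0x2000000020000000700000007000000070000000500000001 4 3) 0 0 (step_sound _ 161 [(rh30f28c240d9ae43e.shift 1 1), rhfafeb437ceb8396d] (by decide +kernel))
noncomputable def rh0e68843e94ec51cd : CRef := CRef.mk (Pat.mk 0x1c0000001c0000000000000008 0x4000000040000001c0000001f0000000b00000008 4 5) 0 0 (step_sound _ 65 [(rh53b3c253cb0c65f4.shift 0 2), rhb1b2755a6a19b20c] (by decide +kernel))
noncomputable def rhf2abb75b3aff7e41 : CRef := CRef.mk (Pat.mk 0xc0000001e00000000 0xc0000007e00000073 4 7) 0 0 (step_sound _ 0 [rh80fcd6d0a18cb2dd, (rh87ee923877636e52.shift 1 0)] (by decide +kernel))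
noncomputable def rh2fe009f0d302b6ba : CRef := CRef.mk (Pat.mk 0x60000000e000000060000000000000000 0x60000003e0000003e0000000300000003 4 6) 0 0 (step_sound _ 33 [rh2878e7aeada18192, (rh71222050f2c63a3a.shift 1 0)] (by decide +kernel))
noncomputable def rh4584dc790392db21 : CRef := CRef.mk (Pat.mk 0x1e00000016000000000000000000000000 0xc0000001e0000001e000000330000001200000012 4 6) 0 0 (step_sound _ 99 [rh9a011a4d0ec8f646, (rhbbe16ff26f7822db.shift 1 0)] (by decide +kernel))
noncomputable def rh8abfcb008306ad86 : CRef := CRef.mk (Pat.mk 0x7800000010 0x70000007e000000f7 4 8) 0 0 (step_sound _ 34 [rh2cc7d62e70c02209, (rh4ad5fc38f1b69f65.shift 2 0), (rha03f6e28ea70fc7d.shift 1 0)] (by decide +kernel))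
noncomputable def rh0d25db8d7caac2d9 : CRef := CRef.mk (Pat.mk 0x600000006000000020000000e00000000 0x60000000e0000001a0000000f00000019 4 5) 0 0 (step_sound _ 32 [rh6797c410c820e91e, rh932754581e0f4330] (by decide +kernel))
noncomputable def rh97f3b4e4e6457833 : CRef := CRef.mk (Pat.mk 0x400000006000000020000000e00000000 0x40000000f0000007e0000001e00000008 4 7) 0 0 (step_sound _ 67 [rh2531f2424cc12eef, (rh53368734290e7cf1.shift 0 1), rh7beecc745c4ad4cc, (rha5aa03dd987c466d.shift 2 0)] (by decide +kernel))
noncomputable def rha28e519bb2427a0e : CRef := CRef.mk (Pat.mk 0x800000018000000080000003800000000 0x10000000180000007c0000006f0000003c00000024 4 7) 0 0 (step_sound _ 101 [(rh2820ca9a6c4f41b4.shift 0 2), (rh39cc2b2dcc7e19fa.shift 1 0), (rh7d0f7b4e096bbace.shift 2 0)] (by decide +kernel))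
noncomputable def rh13b37f03eb1d945f : CRef := CRef.mk (Pat.mk 0x180000000800000038 0x7c0000000f00000078 4 7) 0 0 (step_sound _ 34 [(rhd69c262cd33b94b3.shift 0 1), (rhf48373e13d2bc128.shift 2 0)] (by decide +kernel))
noncomputable def rh25513c256ae58fee : CRef := CRef.mk (Pat.mk 0xc0000000e000000000000000000000000 0x4000000040000000e0000007e000000070000000200000002 4 7) 0 0 (step_sound _ 65 [(rh0127acd528cd93fb.shift 0 2), (rhcf80391c5046a495.shift 1 0), (rhf9366b6a121593ef.shift 1 0)] (by decide +kernel))
noncomputable def rhfec6a477123b4864 : CRef := CRef.mk (Pat.mk 0x18000000080000001c 0x780000003f0000003f 4 7) 0 0 (step_sound _ 33 [rh841757f9a76ec410, (rhbf7aea28406e00a4.shift 1 0), rhd0ed6ce702d0de55] (by decide +kernel))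
noncomputable def rh92ed490c8db8cf3e : CRef := CRef.mk (Pat.mk 0x800000008000000180000000800000000 0x80000000800000008000000380000001f00000004 4 6) 0 0 (step_sound _ 34 [(rh59799d3582b0c64a.shift 0 1), (rh932754581e0f4330.shift 2 0)] (by decide +kernel))
noncomputable def rh8ccb8628f6558f82 : CRef := CRef.mk (Pat.mk 0x1800000018000000180000001800000000 0x380000001f000000f8000000f800000020 4 8) 0 0 (step_sound _ 70 [(rh509847d0837ffcc5.shift 3 0), (rh784ce7c990e66974.shift 0 2), (rhfd0f316c42bbba52.shift 2 2)] (by decide +kernel))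
noncomputable def rh43d243dc42101d99 : CRef := CRef.mk (Pat.mk 0x180000001c000000060000000000000000 0x180000001f0000003e0000003000000030 4 6) 0 0 (step_sound _ 68 [(rh4315e95d631a9818.shift 1 0), (rhf56e6bc5d2f7fe77.shift 0 2)] (by decide +kernel))
noncomputable def rhdeb3c20511afdfb5 : CRef := CRef.mk (Pat.mk 0x80000001e0000000c0000000000000000 0x80000001e0000003f0000003000000010 4 6) 0 0 (step_sound _ 65 [(rh3f420d1be4b84cac.shift 1 0), (rh53b3c253cb0c65f4.shift 0 2)] (by decide +kernel))
noncomputable def rh5dac351430e5ca83 : CRef := CRef.mk (Pat.mk 0xc0000000e000000040000000c00000000 0xc0000007e000000770000003c00000010 4 7) 0 0 (step_sound _ 100 [(rh87ee923877636e52.shift 1 2), (rhaf9f2efc81a8312b.shift 0 2), rhd1d6d939bc3f56d6] (by decide +kernel))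
noncomputable def rh2031b42593ca6b1b : CRef := CRef.mk (Pat.mk 0x8000000180000000800000004 0x800000008000000780000001f00000004 4 7) 0 0 (step_sound _ 34 [(rh5c5e593799055d58.shift 2 0), (rh69012675dfdb1a5b.shift 0 1)] (by decide +kernel))
noncomputable def rhfd8c9ccaa7f9521f : CRef := CRef.mk (Pat.mk 0x4000000040000001e0000000200000000 0x4000000040000003f0000003e00000008 4 6) 0 0 (step_sound _ 34 [(rh18965a982d73c794.shift 1 1), rh36d4d92ef3dad5f8] (by decide +kernel))
noncomputable def rh7ca04c2993a62282 : CRef := CRef.mk (Pat.mk 0x400000000000000040000000700000004000000000000000000000000 0x40000000400000004000000070000003e0000000c0000000800000008 4 6) 0 0 (step_sound _ 99 [(rh70e33bfdf511e144.shift 2 0), (rh89ade209b3e28f13.shift 0 3), (rh8f969e863a565533.shift 0 3)] (by decide +kernel))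
noncomputable def rhf28c73eca2e832c1 : CRef := CRef.mk (Pat.mk 0x6000000000000001e000000020000000000000000 0x6000000070000001e000000060000000600000004 4 5) 0 0 (step_sound _ 129 [(rh3244c3cc8379b070.shift 0 3), (rh8c3839f9b9075f23.shift 1 0)] (by decide +kernel))
noncomputable def rh0fc40373e394f21b : CRef := CRef.mk (Pat.mk 0x40000000c00000007000000000000000000000000 0xc0000000c000000070000001e0000000e0000000a 4 5) 0 0 (step_sound _ 66 [(rh301a6b3a9154ed36.shift 2 0), (rh33032410a9908d45.shift 1 0), (rhb379f99078aafa2d.shift 0 1)] (by decide +kernel))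
noncomputable def rh746c746f28b070d0 : CRef := CRef.mk (Pat.mk 0x70000000600000004 0x8000000380000003f0000003e00000004 4 6) 0 0 (step_sound _ 67 [(rh226655e3fe6b4a8a.shift 0 1), rha4c5bcb51a1da0a7, (rhf5e124ec5c58a2dd.shift 0 1)] (by decide +kernel))
noncomputable def rh0e9befc88d6338f2 : CRef := CRef.mk (Pat.mk 0x600000006000000070000000000000000 0x600000006000000070000001e0000000e 4 5) 0 0 (step_sound _ 33 [(rh71222050f2c63a3a.shift 1 0), rhea41988f7b5d84ca] (by decide +kernel))
noncomputable def rh645ec466de5f255c : CRef := CRef.mk (Pat.mk 0x8000000180000000e000000000000000000000000 0x8000000180000003e0000003f0000001400000004 4 6) 0 0 (step_sound _ 100 [rh2f2a476ff54e80e6, (rh78974448101547fe.shift 1 1)] (by decide +kernel))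
noncomputable def rhd61f390e8c2eca79 : CRef := CRef.mk (Pat.mk 0x40000001f00000000 0x1c0000007f00000070 4 7) 0 0 (step_sound _ 5 [(rh96851dee118c1ba3.shift 1 0), rhf0944022550d5f2b] (by decide +kernel))
noncomputable def rh8a1cde2292bbfa21 : CRef := CRef.mk (Pat.mk 0x180000000800000038000000080000001000000000 0x180000000f0000007c000000080000001800000010 4 7) 0 0 (step_sound _ 4 [(rhbe0e43a3bc50a43f.shift 3 0), (rhfd99604093c09fe0.shift 0 3)] (by decide +kernel))
noncomputable def rh40f9550fe6f0cb92 : CRef := CRef.mk (Pat.mk 0x800000038000000080000001000000000 0x80000007c0000000f0000001800000010 4 7) 0 0 (step_sound _ 4 [(rh2820ca9a6c4f41b4.shift 0 2), (rhbe0e43a3bc50a43f.shift 3 0)] (by decide +kernel))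
noncomputable def rheb4a525a4d0c83fc : CRef := CRef.mk (Pat.mk 0x4000000040000001e0000000400000000 0x4000000040000001f0000003f00000008 4 6) 0 0 (step_sound _ 32 [(rh80fcd6d0a18cb2dd.shift 0 1), rhc1ae51bfba5f1e57] (by decide +kernel))
noncomputable def rh8d29162e86432fc6 : CRef := CRef.mk (Pat.mk 0x4000000040000001e000000040000000000000000 0x4000000070000001e0000000c0000000c0000000c 4 5) 0 0 (step_sound _ 35 [(rhd3458b32566d63f7.shift 2 1), rhf3d4ff7b6372e951] (by decide +kernel))
noncomputable def rhae89de82f5241b11 : CRef := CRef.mk (Pat.mk 0x80000000800000007000000000000000000000000 0x800000008000000180000000f0000000c0000000400000004 4 5) 0 0 (step_sound _ 99 [(rh281c6819542c66e6.shift 2 0), (rh33e738c4ed385b9f.shift 0 3)] (by decide +kernel))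
noncomputable def rha7163cdd54987556 : CRef := CRef.mk (Pat.mk 0xb000000080000000400000000 0x8000000180000000f0000001c0000000400000004 4 5) 0 0 (step_sound _ 98 [(rhe25b0a99195a5d59.shift 0 2), rhfb08427eb4ea3628] (by decide +kernel))
noncomputable def rh08113e1367787204 : CRef := CRef.mk (Pat.mk 0xb00000008000000070000000000000000 0x18000000180000000f0000000c0000001f0000001c00000004 4 5) 0 0 (step_sound _ 163 [(rh3743dbe66b959104.shift 2 0), (rh544d3caba1e1e2bb.shift 2 0), (rhb01ac4982a11ea27.shift 2 0), (rhe5aa3b946f46d3a8.shift 0 1)] (by decide +kernel))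
noncomputable def rhfd38976020c78082 : CRef := CRef.mk (Pat.mk 0x3000000080000000c000000080000000000000000 0x10000000180000001f0000000c0000000c0000000c0000000c0000000c 4 5) 0 0 (step_sound _ 163 [(rh03dfdf12d5937476.shift 2 1), (rh9ee82b97cdeec3bd.shift 2 0), (rhd444dcb48ef11957.shift 0 2)] (by decide +kernel))
noncomputable def rhe60b368eb055d682 : CRef := CRef.mk (Pat.mk 0xc0000001c00000000 0xc0000007e00000077 4 7) 0 0 (step_sound _ 37 [rh8195a2d7794c7cd2, (rhf48373e13d2bc128.shift 2 1)] (by decide +kernel))
noncomputable def rh510b34c601fc87fc : CRef := CRef.mk (Pat.mk 0x180000007800000000 0xf80000007f00000007 4 8) 0 0 (step_sound _ 34 [rh0e1512cbacfbd48b, (rh9890f9d77740bbed.shift 2 1), (rhab2ad169e49f9c5e.shift 0 1)] (by decide +kernel))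
noncomputable def rhdfae60512d96217e : CRef := CRef.mk (Pat.mk 0x1c000000060000001c0000000000000000 0x80000001c000000360000001e0000003300000002 4 6) 0 0 (step_sound _ 65 [rh9c40a739b57d6d20, (rhb8d97c085975ccce.shift 1 1)] (by decide +kernel))
noncomputable def rh0a3b830133168a45 : CRef := CRef.mk (Pat.mk 0x4000000000000001e00000000 0x40000000400000004000000070000003e00000008 4 6) 0 0 (step_sound _ 65 [(rh3244c3cc8379b070.shift 0 1), (rhf6d2b2829152ab21.shift 1 0)] (by decide +kernel))
noncomputable def rh58514151a51e2a5d : CRef := CRef.mk (Pat.mk 0x10000000000000003c00000020 0x1000000010000000370000003e00000020 4 6) 0 0 (step_sound _ 65 [(rh3f8766e6ecb455ce.shift 1 1), rhb6201d075427a8c2] (by decide +kernel))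
noncomputable def rh33a00cf34bb4b417 : CRef := CRef.mk (Pat.mk 0x80000007800000010 0x180000007f0000003f 4 7) 0 0 (step_sound _ 34 [rh251facab2e282844, rhb2432c16363a7e8d, (rheae1728ff4a56756.shift 1 0)] (by decide +kernel))
noncomputable def rh8bf46c12d40f1a1c : CRef := CRef.mk (Pat.mk 0x20000001c00000000 0x70000003e00000007 4 6) 0 0 (step_sound _ 33 [(rh3244c3cc8379b070.shift 0 1), rhdc2729b77246fcd3] (by decide +kernel))
noncomputable def rhed4ac555a6bad9bc : CRef := CRef.mk (Pat.mk 0x1000000020000000300000002000000020000000000000000 0x100000003000000020000000300000003000000070000000600000006 4 3) 0 0 (step_sound _ 193 [rh0b1c741f303116e4, (rh50fbb5868c909700.shift 0 3)] (by decide +kernel))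
noncomputable def rh0822119817706194 : CRef := CRef.mk (Pat.mk 0xf00000004000000070000000000000000 0xf0000001c000000070000001e0000000e 4 5) 0 0 (step_sound _ 34 [rh78eadeed1cc7dfb8, rhb379f99078aafa2d] (by decide +kernel))
noncomputable def rhe3e29ad984c3b423 : CRef := CRef.mk (Pat.mk 0x600000004000000070000000000000000 0x20000000600000004000000070000001e0000000a 4 5) 0 0 (step_sound _ 34 [(rh50fbb5868c909700.shift 1 1), rhb379f99078aafa2d] (by decide +kernel))
noncomputable def rhb1a07012234c6151 : CRef := CRef.mk (Pat.mk 0x3800000000 0xe70000007e0000007f 4 8) 0 0 (step_sound _ 34 [rh2ba551de881ca4cd, rh8195a2d7794c7cd2, (rhdd4fe9fd28ed4c0f.shift 1 0)] (by decide +kernel))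
noncomputable def rh61914556ff080501 : CRef := CRef.mk (Pat.mk 0x2000000020000001e00000002 0x50000000700000007000000320000001e00000002 4 6) 0 0 (step_sound _ 68 [(rh33e738c4ed385b9f.shift 1 1), rh7ef5fa5c39f1c762] (by decide +kernel))
noncomputable def rha3fe859d8977f276 : CRef := CRef.mk (Pat.mk 0x8000000180000007800000010 0x30000000340000003f00000038000000780000001c 4 7) 0 0 (step_sound _ 100 [(rh5fa50b509d4ce753.shift 3 0), rh6362893e0e4892a2, (rh7b9752c74db2176f.shift 2 0)] (by decide +kernel))
noncomputable def rha6459954493fb141 : CRef := CRef.mk (Pat.mk 0x1c0000000c000000000000000000000000 0x80000001e0000007f000000700000001000000010 4 7) 0 0 (step_sound _ 100 [(rh79b3c29022acbdf3.shift 1 3), rhcb68da4f2dc5e7fd, (rhe3e8c074aa83e8bd.shift 0 2)] (by decide +kernel))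
noncomputable def rh00792d6c0631d2d9 : CRef := CRef.mk (Pat.mk 0x80000003c0000000800000008 0x10000000180000003f0000000f00000008 4 6) 0 0 (step_sound _ 33 [(rh80fcd6d0a18cb2dd.shift 1 1), rh8445858e068e440d] (by decide +kernel))
noncomputable def rh1fba227cadce9690 : CRef := CRef.mk (Pat.mk 0x40000001e0000000400000004 0x600000006000000060000001e0000000700000004 4 5) 0 0 (step_sound _ 33 [(rh7f9f3607ee25a93b.shift 1 0), (rheb0810cc63b001d8.shift 0 1)] (by decide +kernel))
noncomputable def rh35d4e52068a09b0e : CRef := CRef.mk (Pat.mk 0x20000000f0000000200000002 0x500000007000000070000000f0000001a00000002 4 5) 0 0 (step_sound _ 36 [rh7ef5fa5c39f1c762, (rh96851dee118c1ba3.shift 0 1)] (by decide +kernel))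
noncomputable def rha65b3143c555ad6e : CRef := CRef.mk (Pat.mk 0x800000038000000080000000800000000 0x40000001f00000038000000080000001800000010 4 6) 0 0 (step_sound _ 4 [(rh79905f95cb2d899a.shift 0 1), (rhd3458b32566d63f7.shift 3 0)] (by decide +kernel))
noncomputable def rh1522cc062b93177a : CRef := CRef.mk (Pat.mk 0x1000000018000000180000000000000000 0xc0000001f00000038000000180000001800000018 4 6) 0 0 (step_sound _ 131 [(rh3cb04db3dd2b6a55.shift 3 0), rh9ed49c34a595f0ef] (by decide +kernel))
noncomputable def rh820060460debdc74 : CRef := CRef.mk (Pat.mk 0x60000000e000000040000000000000000 0x4000000060000000f0000003c0000000c0000000c 4 6) 0 0 (step_sound _ 34 [(rh7b1f1fb55310c477.shift 1 0), rh86bd88d8b6da2a4f] (by decide +kernel))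
noncomputable def rhfe9e7c35925da927 : CRef := CRef.mk (Pat.mk 0x200000006000000020000000000000000 0x500000007000000070000000600000006000000070000000700000001 4 3) 0 0 (step_sound _ 161 [rh32c2123a4016d1a7, (rh7ef5fa5c39f1c762.shift 0 2), (rhd4b4beefcd67f51e.shift 1 1)] (by decide +kernel))
noncomputable def rhcb1b5abc04ec7f94 : CRef := CRef.mk (Pat.mk 0x80000003800000040 0x380000003f00000067 4 7) 0 0 (step_sound _ 34 [(rh96851dee118c1ba3.shift 2 0), rhf871e666d90bcf29] (by decide +kernel))
noncomputable def rh77327a6aafcf8c64 : CRef := CRef.mk (Pat.mk 0x80000007800000040 0x38000000ff00000060 4 8) 0 0 (step_sound _ 34 [(rh01cc9eaefce5f3df.shift 0 1), (rh96851dee118c1ba3.shift 2 0)] (by decide +kernel))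
noncomputable def rh25dfb1ca89a175bf : CRef := CRef.mk (Pat.mk 0x800000008000000180000003000000000 0x100000001800000018000000380000003f0000002c 4 6) 0 0 (step_sound _ 35 [(rh6b423afcc975f198.shift 3 0), rh6fae963f33cfdfd7] (by decide +kernel))
noncomputable def rh76791469628730c6 : CRef := CRef.mk (Pat.mk 0x40000000c0000001c000000000000000000000000 0x40000000c0000001f0000003f0000000a00000002 4 6) 0 0 (step_sound _ 97 [rh1e8d6e1ef30e2d92, (rha3e11e1e747eca3e.shift 0 1)] (by decide +kernel))
noncomputable def rh1b65ce0d41692be5 : CRef := CRef.mk (Pat.mk 0x800000018000000380000000000000000 0x80000003e0000003f0000000600000004 4 6) 0 0 (step_sound _ 98 [rh4a652af6261b5a9e, (rhb739f4f82bb681b4.shift 1 2)] (by decide +kernel))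
noncomputable def rh9df2067dce5bc702 : CRef := CRef.mk (Pat.mk 0x80000001800000038000000000000000000000000 0x8000000380000003f0000000e0000000400000004 4 6) 0 0 (step_sound _ 98 [(rh1e8d6e1ef30e2d92.shift 1 0), (rhab2ad169e49f9c5e.shift 0 3)] (by decide +kernel))
noncomputable def rh5e23fdc77fa1a08f : CRef := CRef.mk (Pat.mk 0x800000018000000380000000000000000 0x40000000f0000003e000000380000000800000008 4 6) 0 0 (step_sound _ 98 [(rhb739f4f82bb681b4.shift 1 2), rhf018044ae0d004e8] (by decide +kernel))
noncomputable def rh2b008872c42eb65d : CRef := CRef.mk (Pat.mk 0x800000018000000380000000000000000 0x1000000018000000180000003c0000000f0000000c 4 6) 0 0 (step_sound _ 35 [rh322e79f034282812, (rha707fb719e87fe6e.shift 3 0)] (by decide +kernel))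
noncomputable def rhf89cb31ca9790162 : CRef := CRef.mk (Pat.mk 0x40000000c0000001c0000000000000000 0x80000000c0000000c0000001c0000000f0000000e 4 5) 0 0 (step_sound _ 35 [rh6ee17a7e05055fd4, (rh7b1f1fb55310c477.shift 2 0)] (by decide +kernel))
noncomputable def rhc3db3ed05ae22c87 : CRef := CRef.mk (Pat.mk 0xe000000000000000c00000000 0x7c0000000f0000000c0000000c00000004 4 7) 0 0 (step_sound _ 131 [(rhecb97fed8c7f1286.shift 2 0), (rhff7d63dcb3cf9f74.shift 0 3)] (by decide +kernel))
noncomputable def rh3f9e6d3254e7f0a9 : CRef := CRef.mk (Pat.mk 0xe00000002000000040000000000000000 0x20000000b0000003e00000006000000040000000400000004 4 6) 0 0 (step_sound _ 98 [(rh0f936b2c74e7b815.shift 0 2), (rhb0c1e7919d9be92d.shift 1 0)] (by decide +kernel))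
noncomputable def rh29fdc264a5b6f7e6 : CRef := CRef.mk (Pat.mk 0x200000003000000010000000600000000 0x3000000030000000300000003000000030000000600000004 4 3) 0 0 (step_sound _ 65 [(rh55afc6a59410cf00.shift 1 0), (rh7f9f3607ee25a93b.shift 0 1)] (by decide +kernel))
noncomputable def rh6f92e7a768814f0f : CRef := CRef.mk (Pat.mk 0x2000000030000000100000006 0x30000000300000003000000030000000700000006 4 3) 0 0 (step_sound _ 129 [rh2825958ace28257e, (rh5c5e593799055d58.shift 0 1)] (by decide +kernel))
noncomputable def rh2d745af1ad6181e9 : CRef := CRef.mk (Pat.mk 0x1000000018000000080000003000000000 0x100000007c0000003f0000003000000020 4 7) 0 0 (step_sound _ 101 [(rh2820ca9a6c4f41b4.shift 0 2), (rh935da622f8ebc962.shift 4 0)] (by decide +kernel))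
noncomputable def rhd425500513a8c1e4 : CRef := CRef.mk (Pat.mk 0xc000000040000001800000008 0x140000003c0000000f0000001800000008 4 6) 0 0 (step_sound _ 67 [(rh50fbb5868c909700.shift 2 0), rhd88e1e5c6d7f696b] (by decide +kernel))
noncomputable def rh6c91bd372ccbd4ab : CRef := CRef.mk (Pat.mk 0x180000000800000030000000100000000000000000 0x200000007c0000002f00000030000000300000001000000010 4 7) 0 0 (step_sound _ 165 [(rh02ef15e22aa7db92.shift 4 0), (rh2820ca9a6c4f41b4.shift 0 4)] (by decide +kernel))
noncomputable def rh37368e91c2d94e62 : CRef := CRef.mk (Pat.mk 0xe000000000000000c00000000 0x140000007c0000000f000000080000000c0000000c 4 7) 0 0 (step_sound _ 131 [rh138055bc4750282f, (rhff7d63dcb3cf9f74.shift 0 3), (rhfff8953c7af09ce5.shift 2 0)] (by decide +kernel))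
noncomputable def rh8029fd0ee4bf791f : CRef := CRef.mk (Pat.mk 0x30000000100000006000000000000000000000000 0x3000000030000000700000006000000060000000600000004 4 3) 0 0 (step_sound _ 129 [(rh046c5eb18e55a239.shift 1 0), (rh3cb04db3dd2b6a55.shift 0 1)] (by decide +kernel))
noncomputable def rh1a061601a28c1dbd : CRef := CRef.mk (Pat.mk 0x200000003000000060000000000000000 0x500000007000000070000000700000007000000060000000200000002 4 3) 0 0 (step_sound _ 161 [(rh65909b08999dc522.shift 0 2), (rh73f605273a09a9d0.shift 1 2), rh80c6e1b9aaf50bed] (by decide +kernel))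
noncomputable def rhb10b5cd9b1017ea9 : CRef := CRef.mk (Pat.mk 0x800000030 0x3f000000fc 4 8) 0 0 (step_sound _ 34 [(rh368dc3085932390d.shift 2 0), (rh83ec37ff6e78b01f.shift 1 0), rh95f73988d2dec2c0, rhe753c2bd6bb4eeba] (by decide +kernel))
noncomputable def rh471bee0515eca455 : CRef := CRef.mk (Pat.mk 0x1e00000012 0x700000003f0000001e 4 7) 0 0 (step_sound _ 3 [rhb739f4f82bb681b4, (rheb2583258c8ff2d0.shift 1 0)] (by decide +kernel))
noncomputable def rh46a93bedf8a96310 : CRef := CRef.mk (Pat.mk 0x3c00000008 0xff000001f8 4 9) 0 0 (step_sound _ 38 [rh3696295804471b76, (rh4274f4328cb9f3fd.shift 3 0), (rh4ad5fc38f1b69f65.shift 2 0)] (by decide +kernel))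
noncomputable def rhae1333b9ca64928f : CRef := CRef.mk (Pat.mk 0x1e000000160000000000000000 0x10000000300000001f0000001e0000000800000008 4 6) 0 0 (step_sound _ 67 [(rh3244c3cc8379b070.shift 0 2), (rh34b1188e635efc8d.shift 1 0)] (by decide +kernel))
noncomputable def rha2ba7bee8f1f7e9e : CRef := CRef.mk (Pat.mk 0xe000000040000000000000000 0x6000000070000003f0000003c0000000c0000000c 4 6) 0 0 (step_sound _ 130 [rh77e5fdcadba6b29b, rh86bd88d8b6da2a4f] (by decide +kernel))
noncomputable def rh66ba32db36147148 : CRef := CRef.mk (Pat.mk 0x1c0000000800000038 0x1f0000003f0000003c 4 6) 0 0 (step_sound _ 33 [(rh076be03eb7063320.shift 0 1), (rh4b858afe2cb38247.shift 1 0), (rhd526f9b20c752965.shift 0 1)] (by decide +kernel))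
noncomputable def rh3ae391fd9c26f1e3 : CRef := CRef.mk (Pat.mk 0x3000000020000000e00000000 0x30000007e0000003f00000070 4 7) 0 0 (step_sound _ 36 [(rh35e918dd76851f8c.shift 1 0), (rh3d5449bf3f9fe7b3.shift 0 1), (rh60e95adc726bb530.shift 1 0)] (by decide +kernel))
noncomputable def rhca741b0f97448d29 : CRef := CRef.mk (Pat.mk 0x1c00000008 0xe0000007f000000ff 4 8) 0 0 (step_sound _ 37 [rh0a31c7f562fb8d12, (rh2eb6cac0fecf3e9c.shift 1 0), (rhaf9f2efc81a8312b.shift 1 0)] (by decide +kernel))
noncomputable def rh9657b57159ee5eda : CRef := CRef.mk (Pat.mk 0x100000003800000020 0x300000003e00000067 4 7) 0 0 (step_sound _ 34 [rh4c063b89d42a2070, (rhe25b0a99195a5d59.shift 2 0)] (by decide +kernel))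
noncomputable def rh19b92de635d91051 : CRef := CRef.mk (Pat.mk 0x20000000f00000004 0x70000007f0000001c 4 7) 0 0 (step_sound _ 3 [rh7577e90c7a26b0f4, rhe25b0a99195a5d59] (by decide +kernel))
noncomputable def rh8eb52d4d8ea4b1b0 : CRef := CRef.mk (Pat.mk 0x40000001e00000000 0x60000003e00000073 4 7) 0 0 (step_sound _ 0 [(rh695f888db18ad7c7.shift 1 0), rh80fcd6d0a18cb2dd] (by decide +kernel))
noncomputable def rhc070680a78506a7a : CRef := CRef.mk (Pat.mk 0x80000001800000010000000180000000000000000 0x40000000c0000001c000000380000001f0000000c00000008 4 6) 0 0 (step_sound _ 99 [(rh6fae963f33cfdfd7.shift 0 1), (rhdf997f77704b6375.shift 2 0)] (by decide +kernel))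
noncomputable def rh433d0f84dcf835ae : CRef := CRef.mk (Pat.mk 0x40000000e000000080000000c00000000 0xe0000007e0000007b0000000f00000006 4 7) 0 0 (step_sound _ 100 [(rh695f888db18ad7c7.shift 1 2), (rh9348dd9167ba03a6.shift 1 0), rhb626b0ff61053d7c] (by decide +kernel))
noncomputable def rhea6e5623d9f38f26 : CRef := CRef.mk (Pat.mk 0x1000000038000000200000003000000000 0x380000007c0000002f0000003800000018 4 7) 0 0 (step_sound _ 67 [(rh2820ca9a6c4f41b4.shift 0 2), (rhbb6a43af3da63556.shift 3 0)] (by decide +kernel))
noncomputable def rh0d9bd2ff2298045e : CRef := CRef.mk (Pat.mk 0x8000000080000000c00000018 0x40000000c0000000c000000080000001f00000018 4 5) 0 0 (step_sound _ 32 [(rh65909b08999dc522.shift 2 0), rhab22b5b56e7b3243] (by decide +kernel))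
noncomputable def rhe3005f49059b06f5 : CRef := CRef.mk (Pat.mk 0x80000000c000000180000000c00000000 0x40000000c0000000c0000001c0000001f00000013 4 5) 0 0 (step_sound _ 33 [rh06cb93baffa4712e, (rh53b3c253cb0c65f4.shift 0 1)] (by decide +kernel))
noncomputable def rhae312e5892290b0a : CRef := CRef.mk (Pat.mk 0xf0000000d0000000000000000 0x200000002000000070000007f0000000d0000000500000005 4 7) 0 0 (step_sound _ 129 [rh32f6277f14b47a8f, (rh7577e90c7a26b0f4.shift 0 2), (rha40d42a2e34c408d.shift 1 0)] (by decide +kernel))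
noncomputable def rh8143bc7790462310 : CRef := CRef.mk (Pat.mk 0x40000000c0000001a000000000000000000000000 0xc0000000c0000001f000000380000001800000010 4 6) 0 0 (step_sound _ 67 [(rh7b1f1fb55310c477.shift 2 1), rhbf7f8af873805d07] (by decide +kernel))
noncomputable def rh964082407f1ab898 : CRef := CRef.mk (Pat.mk 0x1800000038000000080000000000000000 0x80000001f0000003f0000000f0000000400000004 4 6) 0 0 (step_sound _ 98 [(rh0e1512cbacfbd48b.shift 0 2), (rha1a532725e6ae333.shift 1 0), (rhcda410b351c20b9b.shift 0 3)] (by decide +kernel))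
noncomputable def rh403968873c76a2b4 : CRef := CRef.mk (Pat.mk 0x1c00000038000000000000000000000000 0x80000001c0000003f000000760000000400000004 4 7) 0 0 (step_sound _ 98 [(rh9a011a4d0ec8f646.shift 1 0), (rhf56dc6c929980f59.shift 0 2)] (by decide +kernel))
noncomputable def rh50919a543c4a4adc : CRef := CRef.mk (Pat.mk 0xe0000001a0000000200000000 0x6000000060000003e0000001b0000000f00000005 4 6) 0 0 (step_sound _ 129 [(rh1f49d73253208107.shift 0 1), rh36e6bb6cca6188da, rha47cde37f72062b4] (by decide +kernel))
noncomputable def rhfb6f25bedbfed9ce : CRef := CRef.mk (Pat.mk 0xe0000001a00000002000000000000000000000000 0x20000001e0000001b0000001f000000060000000400000004 4 5) 0 0 (step_sound _ 98 [(rh70e33bfdf511e144.shift 1 0), (rh892dcdad65576435.shift 0 3)] (by decide +kernel))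
noncomputable def rh95369cb652814ee4 : CRef := CRef.mk (Pat.mk 0x8000000180000001c000000000000000000000000 0x8000000180000003c0000001f0000001c0000001c 4 6) 0 0 (step_sound _ 67 [(rhbb83b53687587fb2.shift 2 0), (rhd65e52c5f80caa3b.shift 0 1), (rhf57bd6481b8b2ca7.shift 3 0)] (by decide +kernel))
noncomputable def rha7e66e97c8285b1b : CRef := CRef.mk (Pat.mk 0x60000001e000000040000000000000000 0x4000000060000001e000000070000000600000006 4 5) 0 0 (step_sound _ 2 [rh9a011a4d0ec8f646, (rh9e07f76261b05888.shift 1 0)] (by decide +kernel))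
noncomputable def rh4beb94526b73eb11 : CRef := CRef.mk (Pat.mk 0xe000000180000000800000004 0xa0000000e0000001e0000000f00000004 4 5) 0 0 (step_sound _ 34 [(rh5c5e593799055d58.shift 2 0), rh6ada8e261119cf37] (by decide +kernel))
noncomputable def rha81ec7df766b27ed : CRef := CRef.mk (Pat.mk 0x180000001c00000000 0x18000000ff000000e7 4 8) 0 0 (step_sound _ 37 [rh0e1512cbacfbd48b, (rh87ee923877636e52.shift 2 0)] (by decide +kernel))
noncomputable def rh71051e2efe366ae0 : CRef := CRef.mk (Pat.mk 0x1000000030000000200000003800000000 0x10000000780000003f0000003c00000008 4 7) 0 0 (step_sound _ 67 [(rh1cc0f4c50d897d08.shift 1 0), (rh2738edcf84b3bede.shift 3 0), (rh4a9d6fe739127300.shift 0 1), rhbca6237e0fac95c6] (by decide +kernel))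
noncomputable def rhfecbf8a8d622df5e : CRef := CRef.mk (Pat.mk 0x20000000200000003800000000 0x20000000200000003e0000007e000000c7 4 8) 0 0 (step_sound _ 34 [rh2591032a0e7f4182, (rh8c5873e801963756.shift 1 0)] (by decide +kernel))
noncomputable def rhcbec23ace3403333 : CRef := CRef.mk (Pat.mk 0x40000000c000000080000000e00000000 0xc0000000e0000000b0000001e00000033 4 6) 0 0 (step_sound _ 36 [(rhba04d77b039f69d9.shift 1 0), rheb505ef94539da28] (by decide +kernel))
noncomputable def rhf09df9fed8c8136d : CRef := CRef.mk (Pat.mk 0x600000006000000060000000000000000 0x3000000030000000700000006000000060000000200000002 4 3) 0 0 (step_sound _ 33 [(rh71222050f2c63a3a.shift 1 0), (rh90b823c913a425e8.shift 0 1)] (by decide +kernel))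
noncomputable def rhb44426b5150543ef : CRef := CRef.mk (Pat.mk 0x800000018000000180000001800000000 0x8000000380000001f0000003f00000004 4 6) 0 0 (step_sound _ 34 [(rh932754581e0f4330.shift 2 0), (rha02530f8badfbba5.shift 0 1)] (by decide +kernel))
noncomputable def rh5f5a303f1e779959 : CRef := CRef.mk (Pat.mk 0xf00000002 0x380000003f00000076 4 7) 0 0 (step_sound _ 36 [(rh4274f4328cb9f3fd.shift 1 0), (rh9890f9d77740bbed.shift 0 1)] (by decide +kernel))
noncomputable def rh72577dc24d987d5b : CRef := CRef.mk (Pat.mk 0x3c00000008 0xe0000000ff00000038 4 8) 0 0 (step_sound _ 70 [(rh428265de8cd3cd2d.shift 2 1), rhb9b7fcdaa63e49da] (by decide +kernel))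
noncomputable def rh34b2972b3ce8dda2 : CRef := CRef.mk (Pat.mk 0x4000000040000001c000000080000000000000000 0x4000000060000001f0000003b0000000200000002 4 6) 0 0 (step_sound _ 97 [(rha03f6e28ea70fc7d.shift 0 2), rhd1474a84c69f0140] (by decide +kernel))
noncomputable def rh32acf6e48ace9a3e : CRef := CRef.mk (Pat.mk 0x40000000c000000180000001000000000 0x80000000c0000000c000000380000001f0000000c 4 6) 0 0 (step_sound _ 35 [(rh7b1f1fb55310c477.shift 2 0), rhfba219b2ab1310a3] (by decide +kernel))
noncomputable def rh1fd4bd164f12075e : CRef := CRef.mk (Pat.mk 0x40000001c000000180000000800000000 0x80000000c0000001f0000001b0000001f00000016 4 5) 0 0 (step_sound _ 33 [rh34cb105570d8999e, rh46af0760dcab1b05] (by decide +kernel))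
noncomputable def rh3d992353243f88d9 : CRef := CRef.mk (Pat.mk 0x200000006000000030000000000000000 0x1000000070000000700000006000000030000000300000002 4 3) 0 0 (step_sound _ 161 [rh15e98c38281f0714, (rh932754581e0f4330.shift 0 1)] (by decide +kernel))
noncomputable def rhf2dbe061a4cc22a2 : CRef := CRef.mk (Pat.mk 0x200000006000000020000000000000000 0x3000000070000000700000006000000060000000600000002 4 3) 0 0 (step_sound _ 161 [rh15e98c38281f0714, (rhd4b4beefcd67f51e.shift 1 1)] (by decide +kernel))
noncomputable def rh4c2807da4de86426 : CRef := CRef.mk (Pat.mk 0x180000000e000000000000000000000000 0x80000001c000000fe000000370000001000000010 4 8) 0 0 (step_sound _ 100 [(rhbbe16ff26f7822db.shift 1 0), (rhc5b6c3e7bb45db36.shift 0 2)] (by decide +kernel))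
noncomputable def rh6a4ad1042b6f5ea0 : CRef := CRef.mk (Pat.mk 0xc0000000700000003000000000000000000000000 0xa0000000e00000007000000070000001f0000000f00000004 4 5) 0 0 (step_sound _ 66 [(rha76899e26dbc9d60.shift 0 1), (rha9efec28f6d60d2f.shift 1 0), (rhb1f6f551b1cd1876.shift 0 1)] (by decide +kernel))
noncomputable def rh8fd4a22cdec572f5 : CRef := CRef.mk (Pat.mk 0x8000000300000001c0000000800000000 0x40000001f000000380000003c0000000f00000004 4 6) 0 0 (step_sound _ 99 [(rh79905f95cb2d899a.shift 0 1), rhd65e52c5f80caa3b] (by decide +kernel))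
noncomputable def rh21145dd369e3db4c : CRef := CRef.mk (Pat.mk 0x8000000100000001c0000000800000000 0x1800000018000000180000003c0000000f00000004 4 6) 0 0 (step_sound _ 132 [(rh5c5e593799055d58.shift 3 1), rh9f0762b7cb3905de] (by decide +kernel))
noncomputable def rh5c4540f04863648e : CRef := CRef.mk (Pat.mk 0x8000000100000001c0000000800000000 0x800000008000000180000003c0000001f00000014 4 6) 0 0 (step_sound _ 99 [(rh03dfdf12d5937476.shift 2 0), (rh55a1f6c57a317ce6.shift 3 0), rhd65e52c5f80caa3b] (by decide +kernel))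
noncomputable def rh9eff2e866bfe53d8 : CRef := CRef.mk (Pat.mk 0x100000006000000030000000100000000 0x70000000700000006000000030000000300000002 4 3) 0 0 (step_sound _ 129 [(rh5c5e593799055d58.shift 0 1), rh668fc65514a55b16] (by decide +kernel))
noncomputable def rhfc25f5c4d2d7ad0e : CRef := CRef.mk (Pat.mk 0x100000006000000030000000100000000 0x30000000700000007000000030000000300000002 4 3) 0 0 (step_sound _ 129 [(rh5c5e593799055d58.shift 0 1), rhfa2242deaca05a59] (by decide +kernel))
noncomputable def rh6396b7a742b4b6d1 : CRef := CRef.mk (Pat.mk 0x40000001c000000060000000400000000 0x80000000c0000001e000000fe0000003f0000001a 4 8) 0 0 (step_sound _ 68 [(rh1a977ecd22587fac.shift 1 0), (rhc21a95c499b3efdb.shift 1 2), rhc41d721df248d1b4] (by decide +kernel))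
noncomputable def rh39855a4f754bb563 : CRef := CRef.mk (Pat.mk 0x4000000040000001c000000060000000000000000 0x400000006000000070000001e000000060000000400000004 4 5) 0 0 (step_sound _ 97 [(rh5c5e593799055d58.shift 1 2), rhe8ba5e25e7c74702] (by decide +kernel))
noncomputable def rha54350b004048f14 : CRef := CRef.mk (Pat.mk 0x180000001c000000180000000000000000 0x180000001f0000001f0000003000000030 4 6) 0 0 (step_sound _ 36 [(rh7b1f1fb55310c477.shift 3 0), rhda82e57309225957] (by decide +kernel))
noncomputable def rheb994a656686fac5 : CRef := CRef.mk (Pat.mk 0x600000007000000060000000000000000 0x40000000400000006000000070000001e0000000c00000004 4 5) 0 0 (step_sound _ 2 [(rh121397a93ef3afd3.shift 0 1), (rh9e07f76261b05888.shift 1 0)] (by decide +kernel))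
noncomputable def rhf628963460e574a5 : CRef := CRef.mk (Pat.mk 0x1000000018000000080000001800000000 0x800000018000000180000003c000000ff00000024 4 8) 0 0 (step_sound _ 68 [(rh36d4d92ef3dad5f8.shift 2 0), rh6d3602f45702e5fd] (by decide +kernel))
noncomputable def rh229ff3e2c9c0597e : CRef := CRef.mk (Pat.mk 0xc0000000600000002000000060000000000000000 0xc0000000e000000070000003e0000000c00000004 4 6) 0 0 (step_sound _ 98 [(rh36d4d92ef3dad5f8.shift 0 1), (rh3eb26739ea0a224c.shift 1 0)] (by decide +kernel))
noncomputable def rh7cae8272d0946a62 : CRef := CRef.mk (Pat.mk 0xc00000006000000020000000600000000 0x30000003e00000006000000030000000700000005 4 6) 0 0 (step_sound _ 129 [(rh55afc6a59410cf00.shift 1 0), rh77cea48ae909294c] (by decide +kernel))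
noncomputable def rhaa47ab9153c941ac : CRef := CRef.mk (Pat.mk 0x80000000c0000000e000000000000000000000000 0x80000001c0000007e000000770000001400000010 4 7) 0 0 (step_sound _ 100 [(rh87ee923877636e52.shift 1 2), (rhd132b680030c88e0.shift 1 0), (rhe430477a9cb56c83.shift 0 1)] (by decide +kernel))
noncomputable def rh1315de20f167c834 : CRef := CRef.mk (Pat.mk 0x60000000300000003000000000000000000000000 0x4000000060000000700000003000000030000000300000002 4 3) 0 0 (step_sound _ 32 [rh84bebdeadf3219f3, (rh9e3edb185cc347de.shift 0 1)] (by decide +kernel))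
noncomputable def rh3902a69bb44b857a : CRef := CRef.mk (Pat.mk 0x60000000300000003000000000000000000000000 0x4000000070000000300000003000000030000000300000002 4 3) 0 0 (step_sound _ 32 [rh8379dda7bed67b0f, (rh9e3edb185cc347de.shift 0 1)] (by decide +kernel))
noncomputable def rh29acb4f6f7935d53 : CRef := CRef.mk (Pat.mk 0x400000016000000060000000000000000 0x40000003e0000003e0000000300000002 4 6) 0 0 (step_sound _ 33 [(rh71222050f2c63a3a.shift 1 0), (rh995dbd3241f188f7.shift 0 1)] (by decide +kernel))
noncomputable def rh0127191b7cd05293 : CRef := CRef.mk (Pat.mk 0xc00000016000000060000000000000000 0x800000008000000080000003c0000001e0000003e0000001300000002 4 6) 0 0 (step_sound _ 68 [(rh109ad6077e413ace.shift 1 1), (rha6816dee951f7ee6.shift 1 2), rhc28dd09875fb2825] (by decide +kernel))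
noncomputable def rh48caf36aefcd87e6 : CRef := CRef.mk (Pat.mk 0xc0000001600000004 0x2000000030000003e0000003600000004 4 6) 0 0 (step_sound _ 68 [(rh18965a982d73c794.shift 1 1), rhfe3b4040a5e9fe0b] (by decide +kernel))
noncomputable def rh08f7ad552c1343f9 : CRef := CRef.mk (Pat.mk 0x60000000b000000030000000000000000 0x1f0000001f000000030000000100000001 4 5) 0 0 (step_sound _ 0 [(rh06a33353b30c16fb.shift 0 2), rh9e3edb185cc347de] (by decide +kernel))
noncomputable def rh150248ac5685a666 : CRef := CRef.mk (Pat.mk 0x60000000300000001000000020000000000000000 0x4000000060000000300000003000000060000000600000006 4 3) 0 0 (step_sound _ 97 [(rh2f68792b6b779e96.shift 1 2), rh820d4e04d5dcd02e] (by decide +kernel))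
noncomputable def rh93a403cd651853c3 : CRef := CRef.mk (Pat.mk 0x1800000016000000020000000000000000 0x8000000180000001e000000330000001000000010 4 6) 0 0 (step_sound _ 99 [(rhbbe16ff26f7822db.shift 1 0), (rheb0810cc63b001d8.shift 0 2)] (by decide +kernel))
noncomputable def rh58e6dda71d4b4d9b : CRef := CRef.mk (Pat.mk 0x1c000000160000000000000000 0x2000000030000001e000000360000000400000004 4 6) 0 0 (step_sound _ 97 [rh38a0850c9fea941e, (rhe25b0a99195a5d59.shift 1 2)] (by decide +kernel))
noncomputable def rhea2dd5ed9da32b43 : CRef := CRef.mk (Pat.mk 0xe0000000b000000010000000000000000 0xf0000007f000000010000000100000001 4 7) 0 0 (step_sound _ 0 [rh9e3edb185cc347de, (rhc21a95c499b3efdb.shift 0 3)] (by decide +kernel))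
noncomputable def rh9d7fa8038b21a874 : CRef := CRef.mk (Pat.mk 0x1c00000016000000020000000000000000 0x30000001e00000036000000030000000300000003 4 6) 0 0 (step_sound _ 129 [rhde5e7cc7b63db1a6, (rhe25b0a99195a5d59.shift 1 3)] (by decide +kernel))
noncomputable def rhea1cbd0fb4d3ad42 : CRef := CRef.mk (Pat.mk 0x80000000e0000000c000000000000000000000000 0xc0000000e0000003f0000003b0000001a0000000a 4 6) 0 0 (step_sound _ 97 [(rh0125efc36fb9411b.shift 0 1), rh3a6c1689b3bee428, rh92e8f86a47ca4f2b] (by decide +kernel))
noncomputable def rha212f303e803ac09 : CRef := CRef.mk (Pat.mk 0x1c000000080000001800000010 0x600000007c0000001f0000007800000010 4 7) 0 0 (step_sound _ 66 [(rh3694ccc47a1810b0.shift 2 0), (rh4dc133ee0ba1420a.shift 0 2), (rhfdaba9284cdfee4b.shift 0 1)] (by decide +kernel))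
noncomputable def rh7a1b3251495d2a98 : CRef := CRef.mk (Pat.mk 0xc0000000c000000080000000800000000 0xa0000000f0000003c0000000c0000000c00000004 4 6) 0 0 (step_sound _ 34 [(rh683af594bae415dd.shift 0 1), (rh932754581e0f4330.shift 2 0)] (by decide +kernel))
noncomputable def rh2e322c7308f8b39b : CRef := CRef.mk (Pat.mk 0xc0000000c000000080000000c00000000 0x20000000f0000003c0000000e0000007c00000010 4 7) 0 0 (step_sound _ 66 [(rh36d4d92ef3dad5f8.shift 1 0), (rhcf85c92937975d4d.shift 0 1)] (by decide +kernel))
noncomputable def rh4d2a9c3dbabaa6ef : CRef := CRef.mk (Pat.mk 0xc0000000c000000180000000c00000000 0xc0000000c0000001c0000001f00000013 4 5) 0 0 (step_sound _ 33 [(rh53b3c253cb0c65f4.shift 0 1), rhddd2d3a9deee3e27] (by decide +kernel))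
noncomputable def rh0b564f36c613fdac : CRef := CRef.mk (Pat.mk 0xc0000000c000000060000000000000000 0x20000000f0000003c000000060000000400000004 4 6) 0 0 (step_sound _ 34 [(rh53cccbb248b8ab65.shift 0 1), (rh71222050f2c63a3a.shift 2 0)] (by decide +kernel))
noncomputable def rh39a75a3d1c69be24 : CRef := CRef.mk (Pat.mk 0x2000000060000001e00000000 0x1000000030000003e0000001e00000003 4 6) 0 0 (step_sound _ 1 [rhae8938145796a1d1, rheb0810cc63b001d8] (by decide +kernel))
noncomputable def rha9570f2ec6ee56dc : CRef := CRef.mk (Pat.mk 0x600000006000000180000000800000000 0x200000006000000060000001e0000000f00000006 4 5) 0 0 (step_sound _ 34 [(rhdd1b84382d19bcbb.shift 1 0), rhebbf0f79de50f641, rhf58aeb14c3aa02f9] (by decide +kernel))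
noncomputable def rhecc55f6e38c11136 : CRef := CRef.mk (Pat.mk 0x80000001800000038000000000000000000000000 0x18000000180000003c0000000f0000000c00000008 4 6) 0 0 (step_sound _ 67 [(rh322e79f034282812.shift 0 1), (rhea7a1800d6f053bd.shift 3 0)] (by decide +kernel))
noncomputable def rhca2220fc4019a4c2 : CRef := CRef.mk (Pat.mk 0x40000000e0000001c000000000000000000000000 0x80000000c0000001e0000001e000000330000001200000010 4 6) 0 0 (step_sound _ 68 [(rh593d20ba42f5a889.shift 0 1), (rha40d42a2e34c408d.shift 3 0)] (by decide +kernel))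
noncomputable def rhf969ddbe589c4951 : CRef := CRef.mk (Pat.mk 0x180000001c000000300000001000000000 0x40000001f0000003c0000003c000000f800000028 4 8) 0 0 (step_sound _ 67 [rh32a3a6edf5ebd8dc, (rhc1ae51bfba5f1e57.shift 2 0)] (by decide +kernel))
noncomputable def rh15f571aba15ed1e1 : CRef := CRef.mk (Pat.mk 0x20000000300000006000000020000000000000000 0x20000000700000007000000030000000300000003 4 3) 0 0 (step_sound _ 32 [(rh79877ebd3ef475dd.shift 0 1), rhede0806dd0b1c3c2] (by decide +kernel))
noncomputable def rhfd1b24bbc6c2bb87 : CRef := CRef.mk (Pat.mk 0x80000000c0000000c000000000000000000000000 0x100000003c0000001f0000000c000000080000000800000008 4 6) 0 0 (step_sound _ 164 [(rh557b120f072744ca.shift 0 4), (rh8379dda7bed67b0f.shift 2 0), (rh84bebdeadf3219f3.shift 2 0)] (by decide +kernel))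
noncomputable def rhfa96bfd32dea53d3 : CRef := CRef.mk (Pat.mk 0x4000000060000000c0000001800000000 0x80000001a0000003f0000003e0000001c0000001c00000004 4 6) 0 0 (step_sound _ 99 [(rh3af7ef3ed8beda46.shift 1 0), rh77e5fdcadba6b29b, (rha55cc9ce59b001de.shift 1 1)] (by decide +kernel))
noncomputable def rh8fec1ddea6bd2bba : CRef := CRef.mk (Pat.mk 0x300000003000000060000000200000000 0x200000002000000020000000300000007000000070000000300000001 4 3) 0 0 (step_sound _ 32 [(rh0595ed588e979744.shift 0 1), rh932754581e0f4330] (by decide +kernel))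
noncomputable def rh5c574c5be97ab93e : CRef := CRef.mk (Pat.mk 0x1800000018000000100000001000000000 0x260000003f00000038000000180000001800000008 4 6) 0 0 (step_sound _ 130 [(rhad5d8fc3675c15dd.shift 0 3), (rhe7af0f3ed7d920fb.shift 1 0)] (by decide +kernel))
noncomputable def rh8f95122563864e5b : CRef := CRef.mk (Pat.mk 0x38000000000000003800000008 0x70000007e0000000f0000007800000008 4 7) 0 0 (step_sound _ 98 [(rh2cc7d62e70c02209.shift 0 2), (rh51abd147d735efbe.shift 1 1), (rhea1977e228a6d74a.shift 1 0)] (by decide +kernel))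
noncomputable def rhbe83ebcafc7c406e : CRef := CRef.mk (Pat.mk 0xe000000040000000e00000002 0x390000003f000000070000003e00000002 4 6) 0 0 (step_sound _ 65 [rh77fcd6e96530338f, (rh79b3c29022acbdf3.shift 0 1)] (by decide +kernel))
noncomputable def rhb8117cff4821996f : CRef := CRef.mk (Pat.mk 0x80000000a0000001c00000008 0x140000001e0000000b0000001e00000008 4 5) 0 0 (step_sound _ 64 [(rh09d4dfe75d4407d6.shift 0 1), rha78afc937ca94db4] (by decide +kernel))
noncomputable def rhd8c1904b9c672145 : CRef := CRef.mk (Pat.mk 0xe000000000000000e00000000 0xf000000780000003f00000077 4 7) 0 0 (step_sound _ 36 [(rh35e918dd76851f8c.shift 1 0), rh8db7f7558b75b2b1, rhdd4fe9fd28ed4c0f, (rhebc380ca1da87b63.shift 0 1)] (by decide +kernel))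
noncomputable def rhce6165c12bb344ba : CRef := CRef.mk (Pat.mk 0x60000000e000000180000000000000000 0x2000000060000000e0000001e0000000f0000000e 4 5) 0 0 (step_sound _ 34 [(rhdd1b84382d19bcbb.shift 1 0), rhf55c9a9827d55bd5, rhfa9a29c2ea6d2e16] (by decide +kernel))
noncomputable def rh6c25ee10c7276be0 : CRef := CRef.mk (Pat.mk 0xc000000080000000c0000000800000000 0x120000003f0000003f0000000c0000000c00000004 4 6) 0 0 (step_sound _ 98 [rh8f1158d9f5036793, (rhc0ddb33d3a52722b.shift 0 1)] (by decide +kernel))
noncomputable def rh61f9d70a168e40fe : CRef := CRef.mk (Pat.mk 0x1e000000180000001000000000 0x300000001e0000001f0000003000000020 4 6) 0 0 (step_sound _ 65 [(rh6805faa4221ff320.shift 1 0), (rheb0810cc63b001d8.shift 0 2)] (by decide +kernel))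
noncomputable def rhb1a3a48fe49b2c77 : CRef := CRef.mk (Pat.mk 0xa0000001e000000180000000000000000 0x20000000a0000001e0000001f0000003400000014 4 6) 0 0 (step_sound _ 65 [(rh24b4fcc23b37b387.shift 1 0), (rheb0810cc63b001d8.shift 0 2)] (by decide +kernel))
noncomputable def rhd0742368562f04d0 : CRef := CRef.mk (Pat.mk 0x50000000f0000000c 0x18000000180000001f0000000f0000000c 4 5) 0 0 (step_sound _ 67 [rh147fc9d3b8351d24, (rh33e738c4ed385b9f.shift 0 1)] (by decide +kernel))
noncomputable def rhe9dbed467a82f734 : CRef := CRef.mk (Pat.mk 0xc000000040000000c00000018 0x8000000180000003c0000000f0000001c00000018 4 6) 0 0 (step_sound _ 67 [(rh493ba90d7b88e72e.shift 2 0), rhc0ddb33d3a52722b] (by decide +kernel))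
noncomputable def rhf737d3a22c3f457e : CRef := CRef.mk (Pat.mk 0x1800000008000000180000007000000000 0x100000001800000008000000380000007f000000e0 4 8) 0 0 (step_sound _ 35 [rh2a14c815463ca7ed, (rh2f68792b6b779e96.shift 3 1)] (by decide +kernel))
noncomputable def rhc48b6557984e9114 : CRef := CRef.mk (Pat.mk 0x600000002000000020000000c00000008 0x40000000600000002000000020000001f00000078 4 7) 0 0 (step_sound _ 33 [(rh2f68792b6b779e96.shift 1 1), rh8ee80cc30e93a344] (by decide +kernel))
noncomputable def rhd125f5ab9e432ecc : CRef := CRef.mk (Pat.mk 0xc000000040000000c0000001800000000 0x20000000f0000003c0000000c0000001c00000014 4 6) 0 0 (step_sound _ 99 [(rh55afc6a59410cf00.shift 3 0), rh8f1158d9f5036793] (by decide +kernel))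
noncomputable def rh6ad453f6d964ccd2 : CRef := CRef.mk (Pat.mk 0xe0000000600000004 0x800000008000000380000003f0000000e00000004 4 6) 0 0 (step_sound _ 68 [(rh18965a982d73c794.shift 1 1), rhb974c8386da29de2] (by decide +kernel))
noncomputable def rh58b3643cc96fca26 : CRef := CRef.mk (Pat.mk 0x380000001800000010 0x2000000020000000670000003f0000003800000010 4 7) 0 0 (step_sound _ 66 [(rh94246470f0e6fdf7.shift 2 0), (rhad5d8fc3675c15dd.shift 0 1), (rhba89ab7cb81bcc90.shift 0 1)] (by decide +kernel))
noncomputable def rh137cb260d225f489 : CRef := CRef.mk (Pat.mk 0x40000000c0000000c0000001000000000 0x80000000a0000000f0000003c0000001c0000001400000004 4 6) 0 0 (step_sound _ 131 [(rh493ba90d7b88e72e.shift 2 1), rh8f1158d9f5036793, (rhea7a1800d6f053bd.shift 2 0)] (by decide +kernel))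
noncomputable def rh01028dd925ac64f6 : CRef := CRef.mk (Pat.mk 0x40000000c0000000c00000018 0x8000000180000003c0000000f0000001c00000018 4 6) 0 0 (step_sound _ 99 [(rh493ba90d7b88e72e.shift 2 0), rhc0ddb33d3a52722b] (by decide +kernel))
noncomputable def rh7f54ff1291c7f8a0 : CRef := CRef.mk (Pat.mk 0x800000018000000180000000000000000 0x40000000e0000007f000000380000000800000008 4 7) 0 0 (step_sound _ 98 [(rh77e5fdcadba6b29b.shift 1 0), (rhad5d8fc3675c15dd.shift 0 2)] (by decide +kernel))
noncomputable def rh9c6b60f976980dd2 : CRef := CRef.mk (Pat.mk 0x40000000c0000000c0000001800000000 0x8000000180000003c0000000f0000001c0000001c00000004 4 6) 0 0 (step_sound _ 131 [(rh493ba90d7b88e72e.shift 2 1), (rhc0ddb33d3a52722b.shift 0 1), (rhea7a1800d6f053bd.shift 2 0)] (by decide +kernel))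
noncomputable def rh4a840d879cf6f015 : CRef := CRef.mk (Pat.mk 0xc0000000c0000000c0000000800000000 0x100000003c0000000f0000000c0000000c00000004 4 6) 0 0 (step_sound _ 2 [(rh9e3edb185cc347de.shift 2 0), (rhc0ddb33d3a52722b.shift 0 1)] (by decide +kernel))
noncomputable def rh56758f5d276ed32c : CRef := CRef.mk (Pat.mk 0x1800000008000000180000003000000020 0x100000001800000008000000380000003f00000060 4 7) 0 0 (step_sound _ 35 [(rh2f68792b6b779e96.shift 3 1), rhb49dd4c1c654d6df] (by decide +kernel))
noncomputable def rh66c5741e685c1f62 : CRef := CRef.mk (Pat.mk 0x1c00000018 0xe7000000ff00000018 4 8) 0 0 (step_sound _ 37 [(rh226655e3fe6b4a8a.shift 2 0), rhba89ab7cb81bcc90] (by decide +kernel))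
noncomputable def rh165b1223640c9778 : CRef := CRef.mk (Pat.mk 0x7000000060000001c000000000000000000000000 0x1000000070000000e0000001f0000003a0000000a00000008 4 6) 0 0 (step_sound _ 97 [(rh40241bd608e5be1a.shift 0 1), rh93ebbe2220404472] (by decide +kernel))
noncomputable def rha4dcbcfb6f74e576 : CRef := CRef.mk (Pat.mk 0x20000001e00000010 0x6000000ff0000001c 4 8) 0 0 (step_sound _ 3 [(rh6fb4f7b37b190fce.shift 1 0), rhb739f4f82bb681b4] (by decide +kernel))
noncomputable def rhdaca548ea9608bed : CRef := CRef.mk (Pat.mk 0x40000001e000000100000000c000000000000000000000000 0xc0000001e0000001a0000001f0000003b0000002800000008 4 6) 0 0 (step_sound _ 100 [(rh525281fc1e4dcf8f.shift 2 0), (rh99852f661ce00704.shift 0 2), (rhfed574255f467ca7.shift 1 1)] (by decide +kernel))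
noncomputable def rh0501ae988cc08fd1 : CRef := CRef.mk (Pat.mk 0x18000000000000000e00000000 0x800000018000000700000003e00000077 4 7) 0 0 (step_sound _ 36 [rh8db7f7558b75b2b1, (rhb8d97c085975ccce.shift 1 0), rhdd4fe9fd28ed4c0f] (by decide +kernel))
noncomputable def rhd842214a4f38609a : CRef := CRef.mk (Pat.mk 0x1e000000000000000e00000000 0xb0000001e0000003a0000000f00000004 4 6) 0 0 (step_sound _ 68 [rh12f4fd7d63e42699, (rhe25b0a99195a5d59.shift 1 2)] (by decide +kernel))
noncomputable def rh4d6ede2aa6818690 : CRef := CRef.mk (Pat.mk 0x40000001e000000000000000c00000008 0x70000001e000000020000001f0000007e 4 7) 0 0 (step_sound _ 33 [rh8ee80cc30e93a344, rha899420526ba09c6, rhc21a95c499b3efdb] (by decide +kernel))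
noncomputable def rh987e1a94169563cc : CRef := CRef.mk (Pat.mk 0x40000001e000000000000001c00000000 0x40000001e000000720000003e00000007 4 7) 0 0 (step_sound _ 69 [rh5ddea70b1fe3dccd, (rh96851dee118c1ba3.shift 1 2)] (by decide +kernel))
noncomputable def rhef6d57e556a4570a : CRef := CRef.mk (Pat.mk 0xf000000000000000e00000000 0xf000000380000003e00000077 4 7) 0 0 (step_sound _ 36 [(rh26e4fa4543882709.shift 0 1), rh8db7f7558b75b2b1] (by decide +kernel))
noncomputable def rh26d36af399e8b4d5 : CRef := CRef.mk (Pat.mk 0x80000000c000000000000003800000000 0x80000000c000000040000007c000000ff 4 8) 0 0 (step_sound _ 2 [(rh278bde3afe19cb5d.shift 1 0), rh4c5c51b0ae60cece, (rhcdbdc71bbad41a8b.shift 2 0)] (by decide +kernel))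
noncomputable def rh0231305743e0506b : CRef := CRef.mk (Pat.mk 0x400000006000000000000001c00000000 0x400000006000000e20000007e000000e7 4 8) 0 0 (step_sound _ 37 [(rh35e918dd76851f8c.shift 2 0), rh88911ce725f0794c] (by decide +kernel))
noncomputable def rhb9f4d3b3d760c44e : CRef := CRef.mk (Pat.mk 0xf000000000000000e0000000000000000 0x40000000f000000180000000f0000001800000010 4 5) 0 0 (step_sound _ 99 [(rhe25b0a99195a5d59.shift 0 3), rhfed574255f467ca7] (by decide +kernel))
noncomputable def rh57a46668b1257917 : CRef := CRef.mk (Pat.mk 0xf000000040000000600000000 0x4000000040000000f0000001c0000000e0000000a 4 5) 0 0 (step_sound _ 67 [(rh2fd9b57482dec4c7.shift 1 0), (rhe25b0a99195a5d59.shift 0 2)] (by decide +kernel))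
noncomputable def rh0b7a37bab56113c4 : CRef := CRef.mk (Pat.mk 0x40000001e000000000000000c00000000 0x70000001e0000003a0000000f0000000e 4 6) 0 0 (step_sound _ 33 [rh37719d330d2bd6f6, rha899420526ba09c6] (by decide +kernel))
noncomputable def rhcb045c5eaa8e244f : CRef := CRef.mk (Pat.mk 0x100000007000000040000000100000000 0x2000000020000000300000007000000070000000700000007 4 3) 0 0 (step_sound _ 129 [rh2c7fc7a7cc8a47be, (rh5d54cb79a67f97ab.shift 1 0), rhdd8e0f2deaaf4e1f] (by decide +kernel))
noncomputable def rh5e7b3fa24cae3be3 : CRef := CRef.mk (Pat.mk 0x40000001e000000000000000400000000 0x2000000070000001e000000340000000400000004 4 6) 0 0 (step_sound _ 68 [rh90c3912a8f22d744, (rhe25b0a99195a5d59.shift 1 2)] (by decide +kernel))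
noncomputable def rh60f3112a9a3f95fe : CRef := CRef.mk (Pat.mk 0x4000000060000000e000000000000000000000000 0x6000000060000000f0000003e0000000e00000006 4 6) 0 0 (step_sound _ 66 [(rh3cb04db3dd2b6a55.shift 1 0), (rhbdf73b26f73f8159.shift 1 0), (rhc1ae51bfba5f1e57.shift 0 1)] (by decide +kernel))
noncomputable def rh8c3ab83624ff12cb : CRef := CRef.mk (Pat.mk 0x4000000060000000e000000000000000000000000 0x40000000e0000003f000000380000000800000008 4 6) 0 0 (step_sound _ 100 [rh93ebbe2220404472, (rhf48373e13d2bc128.shift 1 3)] (by decide +kernel))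
noncomputable def rh674a9599d2600691 : CRef := CRef.mk (Pat.mk 0x200000006000000020000000000000000 0x500000007000000070000000600000006000000060000000600000004 4 3) 0 0 (step_sound _ 161 [(rh7ef5fa5c39f1c762.shift 0 2), (rhd4b4beefcd67f51e.shift 1 1), (rhec588a0d7783acc6.shift 1 0)] (by decide +kernel))
noncomputable def rh1775688862642885 : CRef := CRef.mk (Pat.mk 0x380000001c0000000000000000 0x80000000f0000003f0000007c0000000600000004 4 7) 0 0 (step_sound _ 98 [(rh79b3c29022acbdf3.shift 1 2), (rhba89ab7cb81bcc90.shift 0 2), (rhf7b0d986b644b40c.shift 1 0)] (by decide +kernel))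
noncomputable def rh683d48f7118529de : CRef := CRef.mk (Pat.mk 0x380000001c000000000000000000000000 0x800000038000000380000003c0000001f0000001c00000018 4 6) 0 0 (step_sound _ 67 [(rh6c9418b1ab9df1ec.shift 3 0), (rh779e061ef2193795.shift 0 1), (rhea7a1800d6f053bd.shift 3 0)] (by decide +kernel))
noncomputable def rhb657cc79bc614fea : CRef := CRef.mk (Pat.mk 0x80000003800000018000000000000000000000000 0x40000000f0000003c00000018000000180000001800000018 4 6) 0 0 (step_sound _ 67 [(rh53509d91ff78ed56.shift 0 2), (rhdf997f77704b6375.shift 2 0), (rhf57bd6481b8b2ca7.shift 3 0)] (by decide +kernel))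
noncomputable def rh050b0ea077e6bb93 : CRef := CRef.mk (Pat.mk 0x1c0000000c000000000000000800000000 0x1c0000007f000000760000001c0000001c 4 7) 0 0 (step_sound _ 100 [(rhca381fd96aedcb47.shift 1 0), rhdb3212ed6dfd725f, (rhe3e8c074aa83e8bd.shift 0 2)] (by decide +kernel))
noncomputable def rh27d2a9562fd89e0e : CRef := CRef.mk (Pat.mk 0xe00000016000000000000000000000000 0xa0000000f0000001e000000070000000600000006 4 5) 0 0 (step_sound _ 34 [rhba07db35cd93fef9, (rhd02f44a45c1a55c1.shift 1 0), (rhd1f9989d6034576a.shift 1 1)] (by decide +kernel))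
noncomputable def rh17d893c7538e1819 : CRef := CRef.mk (Pat.mk 0x40000000c0000000400000004 0x20000000f0000003e0000000400000004 4 6) 0 0 (step_sound _ 97 [(rh50fbb5868c909700.shift 1 0), (rh75ea294132184f25.shift 0 2)] (by decide +kernel))
noncomputable def rhaeaa17d8631efecf : CRef := CRef.mk (Pat.mk 0x1800000018000000180000000000000000 0x40000003f0000001f000000380000000800000008 4 6) 0 0 (step_sound _ 97 [rh3a8c39a005159e2c, (rh6d571b54e8dd9e33.shift 0 3), (rhc924e5f7a4031fcc.shift 1 2)] (by decide +kernel))
noncomputable def rh7304441a26c04743 : CRef := CRef.mk (Pat.mk 0x500000007000000010000000000000000 0x70000000700000007000000070000000300000003 4 3) 0 0 (step_sound _ 33 [rh403e55a9007f792d, rh8f4050c06a082165, (rhba63279a09412173.shift 0 1)] (by decide +kernel))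
noncomputable def rh0710d0c3cf08f79a : CRef := CRef.mk (Pat.mk 0x10000000340000001c0000000000000000 0x280000003c0000003f0000001c0000001400000014 4 6) 0 0 (step_sound _ 131 [(rh0c93b5598687f5dc.shift 2 1), (rh668fc65514a55b16.shift 3 0), rhb95959541b1cd1f5, (rhe9cf0f60a18f3312.shift 1 0), (rhfa2242deaca05a59.shift 3 0)] (by decide +kernel))
noncomputable def rh03e9a61dbac4ce60 : CRef := CRef.mk (Pat.mk 0x40000000c000000040000000000000000 0x2000000020000000a0000000f0000003e000000040000000400000004 4 6) 0 0 (step_sound _ 129 [(rh668fc65514a55b16.shift 1 0), (rh75ea294132184f25.shift 0 3), (rhf9a6286f1d5377a2.shift 1 1), (rhfa2242deaca05a59.shift 1 0)] (by decide +kernel))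
noncomputable def rhf9c5f57e36ff1a39 : CRef := CRef.mk (Pat.mk 0x40000000c0000000400000004 0xa0000000f0000003c0000000400000004 4 6) 0 0 (step_sound _ 97 [rh50dfd87bd25122c4, (rh50fbb5868c909700.shift 1 0)] (by decide +kernel))
noncomputable def rh02cf927f918c0555 : CRef := CRef.mk (Pat.mk 0x180000001c00000000 0x180000003f00000077 4 7) 0 0 (step_sound _ 33 [(rh53b3c253cb0c65f4.shift 0 1), rh8db7f7558b75b2b1] (by decide +kernel))
noncomputable def rhde35e588b4ff6c5e : CRef := CRef.mk (Pat.mk 0xc0000001e0000000000000000 0x2000000030000003f0000001e0000000400000004 4 6) 0 0 (step_sound _ 97 [rh4b31f610a48c50e3, (rhb739f4f82bb681b4.shift 0 2)] (by decide +kernel))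
noncomputable def rh7e1d7c18b29e0877 : CRef := CRef.mk (Pat.mk 0x1000000038000000000000000000000000 0x100000001000000018000000780000001f0000000800000008 4 7) 0 0 (step_sound _ 67 [(rhcf80391c5046a495.shift 3 0), (rhf0f55c4504412200.shift 0 2), (rhf91b1398c815afd2.shift 3 0), (rhf9366b6a121593ef.shift 3 0)] (by decide +kernel))
noncomputable def rh74cd36baf454ad94 : CRef := CRef.mk (Pat.mk 0x1e00000006000000000000000000000000 0x30000001f0000003e000000030000000300000002 4 6) 0 0 (step_sound _ 65 [rh8684a9eeaf4c57a0, (rhad3425bb5b48f59f.shift 0 1), (rhf6d72ac90bd26cb0.shift 0 2)] (by decide +kernel))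
noncomputable def rhd24baa175e33abe5 : CRef := CRef.mk (Pat.mk 0xe00000014 0x70000003e00000036 4 6) 0 0 (step_sound _ 36 [rhbe81abd608b45786, (rhe25b0a99195a5d59.shift 1 0)] (by decide +kernel))
noncomputable def rhf6b758b3af069544 : CRef := CRef.mk (Pat.mk 0x1c000000180000001000000000 0x1800000018000000180000001f0000001f0000003000000020 4 6) 0 0 (step_sound _ 132 [rh39848790f9efd77c, (rh7f9f3607ee25a93b.shift 3 1)] (by decide +kernel))
noncomputable def rh7178dcd6c6bdcb3f : CRef := CRef.mk (Pat.mk 0x1c00000018000000100000000000000000 0x100000001f0000001f000000300000003000000030 4 6) 0 0 (step_sound _ 97 [(rh076be03eb7063320.shift 0 3), (rh39f426ebe0691969.shift 0 2), (rh710860539a4c4362.shift 0 3), (rhe400382f5cb72a90.shift 1 0)] (by decide +kernel))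
noncomputable def rh69e663d037057002 : CRef := CRef.mk (Pat.mk 0x1f00000004 0x70000007f0000001c 4 7) 0 0 (step_sound _ 3 [rh771383521b68d2cd, rhe25b0a99195a5d59] (by decide +kernel))
noncomputable def rh14957db5dfbe7cb2 : CRef := CRef.mk (Pat.mk 0x1e00000004 0x70000007e000000ec 4 8) 0 0 (step_sound _ 37 [(rh4274f4328cb9f3fd.shift 2 0), (rhd5eb272e07a4e288.shift 0 1)] (by decide +kernel))
noncomputable def rhe3347d26bd0251a9 : CRef := CRef.mk (Pat.mk 0x40000001e000000000000000000000000 0x4000000060000003e000000030000000200000002 4 6) 0 0 (step_sound _ 65 [(rh019c09528244a73d.shift 1 0), (rheb0810cc63b001d8.shift 0 2)] (by decide +kernel))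
noncomputable def rh96bf3d823ed5c23f : CRef := CRef.mk (Pat.mk 0xe00000006000000000000000000000000 0x40000003f0000003e000000030000000200000002 4 6) 0 0 (step_sound _ 100 [rhaf17d7ce619e136e, (rhbca71ab025ef4262.shift 1 3), (rhfd0f316c42bbba52.shift 0 3)] (by decide +kernel))
noncomputable def rh4a9f4a178e9687f0 : CRef := CRef.mk (Pat.mk 0x3800000018000000080000000000000000 0x40000000f0000003c000000180000000c0000000c0000000c 4 6) 0 0 (step_sound _ 163 [(rh53509d91ff78ed56.shift 0 2), (rhbb83b53687587fb2.shift 2 0)] (by decide +kernel))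
noncomputable def rh29b132cef1be36c8 : CRef := CRef.mk (Pat.mk 0x380000001800000008 0x180000001c0000001f0000003c0000001800000008 4 6) 0 0 (step_sound _ 99 [rh53509d91ff78ed56, (rhc0301b400ca2a736.shift 3 0)] (by decide +kernel))
noncomputable def rhbd8800c66de9e6af : CRef := CRef.mk (Pat.mk 0x3c000000080000000000000000 0x1000000010000000370000003e000000180000000800000008 4 6) 0 0 (step_sound _ 132 [(rhcf80391c5046a495.shift 3 0), (rhedf6b6c69a16cbd5.shift 0 3)] (by decide +kernel))
noncomputable def rh79a2cc1a86b12993 : CRef := CRef.mk (Pat.mk 0x3800000000 0xf0000007e000000fe 4 8) 0 0 (step_sound _ 34 [rh2ba551de881ca4cd, (rh2eb6cac0fecf3e9c.shift 1 0), (rh56f43794bcf10c2f.shift 1 0), (rh8db7f7558b75b2b1.shift 1 0)] (by decide +kernel))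
noncomputable def rh27552d399fffbf2d : CRef := CRef.mk (Pat.mk 0x1c0000000c0000000400000000 0x60000000f0000001e0000000f0000000e0000000a 4 5) 0 0 (step_sound _ 130 [rh401a88058b37bc41, (rh55a1f6c57a317ce6.shift 2 0), (rhcf02561c3c7740f4.shift 0 1)] (by decide +kernel))
noncomputable def rh90c9e05c3cce4abd : CRef := CRef.mk (Pat.mk 0x1c0000000e0000000000000000 0x2000000030000001f0000003e0000000400000004 4 6) 0 0 (step_sound _ 97 [rh38a0850c9fea941e, (rh79b3c29022acbdf3.shift 0 2)] (by decide +kernel))
noncomputable def rhc8a12a7af4a52fb1 : CRef := CRef.mk (Pat.mk 0x800000038000000180000000000000000 0x40000000e0000003f0000001f0000000800000008 4 6) 0 0 (step_sound _ 98 [(rh583cd2949503eb8f.shift 0 2), (rhe8ba5e25e7c74702.shift 1 0)] (by decide +kernel))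
noncomputable def rh74a2b0e3520e6559 : CRef := CRef.mk (Pat.mk 0x1c0000000c000000000000000800000000 0x130000001f0000003c0000000c0000000c00000004 4 6) 0 0 (step_sound _ 129 [(rh6292bd8784ece55f.shift 0 3), rh8a949bf7371eaf50] (by decide +kernel))
noncomputable def rhcc6da958f7ae4140 : CRef := CRef.mk (Pat.mk 0xe00000006000000000000000400000000 0x3f0000003e000000030000000600000006 4 6) 0 0 (step_sound _ 100 [rhba07db35cd93fef9, (rhbca71ab025ef4262.shift 1 3), (rhfd0f316c42bbba52.shift 0 3)] (by decide +kernel))
noncomputable def rh9b001b0ce9055b74 : CRef := CRef.mk (Pat.mk 0x1c0000000c 0x70000007f0000003c 4 7) 0 0 (step_sound _ 37 [(rh18965a982d73c794.shift 2 0), rh1a13ca61aabd1498] (by decide +kernel))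
noncomputable def rh5d2cd9c8afd20276 : CRef := CRef.mk (Pat.mk 0x3c00000018 0x70000003e0000001f 4 6) 0 0 (step_sound _ 1 [(rh24ae073cf30720c4.shift 1 0), rhe902c9e8f416b192] (by decide +kernel))
noncomputable def rhe422f3b07ceccef7 : CRef := CRef.mk (Pat.mk 0x1e00000018 0x70000003e0000001f 4 6) 0 0 (step_sound _ 65 [(rh3244c3cc8379b070.shift 0 1), rha9ba15e0ca03f9f3] (by decide +kernel))
noncomputable def rh8363859edee8b1fe : CRef := CRef.mk (Pat.mk 0x1c0000003800000000 0x400000004000000060000007c0000003f00000078 4 7) 0 0 (step_sound _ 34 [(rh5a2e75618eb01199.shift 1 0), (rhab2ad169e49f9c5e.shift 0 1), rhe153806bfe3acc65] (by decide +kernel))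
noncomputable def rh63f68c0db2757d12 : CRef := CRef.mk (Pat.mk 0x800000018000000180000001000000000 0x10000000140000001f00000038000000380000003800000028 4 6) 0 0 (step_sound _ 132 [(rh6655c67851f4b756.shift 3 0), rha7e6dd9c17b832ee, (rhea7a1800d6f053bd.shift 3 0)] (by decide +kernel))
noncomputable def rh473e5fca88a1d609 : CRef := CRef.mk (Pat.mk 0xc0000000c000000080000000000000000 0x80000000c0000001f000000780000001800000018 4 7) 0 0 (step_sound _ 68 [(rh4ca5dae25f5c14ff.shift 0 2), (rhb8f06d94c10886cc.shift 2 0)] (by decide +kernel))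
noncomputable def rh8c36bd5b995d6e57 : CRef := CRef.mk (Pat.mk 0x40000000c0000000c000000080000000000000000 0xa0000000e0000000e0000000f0000003c0000001400000004 4 6) 0 0 (step_sound _ 66 [(rhdf997f77704b6375.shift 1 0), (rhea7a1800d6f053bd.shift 2 0), (rhef954bd0609e10e0.shift 0 1)] (by decide +kernel))
noncomputable def rh5c460e7c7699c9cc : CRef := CRef.mk (Pat.mk 0xe0000001c000000000000000000000000 0xf0000007e0000001f000000300000001000000010 4 7) 0 0 (step_sound _ 132 [rh24e8898edc125a7e, (rh771383521b68d2cd.shift 0 3), (rhab2ad169e49f9c5e.shift 0 3)] (by decide +kernel))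
noncomputable def rhd0564d484aec1675 : CRef := CRef.mk (Pat.mk 0x380000001c000000000000000000000000 0xf0000003f0000007c000000060000000400000004 4 7) 0 0 (step_sound _ 130 [(rh71f2db6f0f8252e9.shift 0 3), (rh79b3c29022acbdf3.shift 1 3), (rh7bdb302b2bab8d3b.shift 1 0)] (by decide +kernel))
noncomputable def rh10e897e9a898d0ed : CRef := CRef.mk (Pat.mk 0x380000001c0000000000000000 0x14000000370000003f0000001c0000000800000008 4 6) 0 0 (step_sound _ 98 [(rh38a0850c9fea941e.shift 1 0), (rh71f2db6f0f8252e9.shift 0 2), rhb00c6cda7b230383] (by decide +kernel))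
noncomputable def rh3e842588d069895e : CRef := CRef.mk (Pat.mk 0x380000001c000000000000000000000000 0x800000038000000380000003c0000001f0000001c00000018 4 6) 0 0 (step_sound _ 67 [(rh779e061ef2193795.shift 0 1), (rh7e23a051210591ac.shift 3 0), (rhea7a1800d6f053bd.shift 3 0)] (by decide +kernel))
noncomputable def rh21c0ba7a027f8833 : CRef := CRef.mk (Pat.mk 0x380000001c0000000000000000 0x4000000070000003f0000007c0000000800000008 4 7) 0 0 (step_sound _ 98 [(rh38a0850c9fea941e.shift 1 0), (rh71f2db6f0f8252e9.shift 0 2), (rh79b3c29022acbdf3.shift 1 2)] (by decide +kernel))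
noncomputable def rh6bbc868cec2b4d9a : CRef := CRef.mk (Pat.mk 0x20000000600000003000000000000000000000000 0x2000000020000001f00000003000000010000000100000001 4 5) 0 0 (step_sound _ 131 [(rh18965a982d73c794.shift 0 3), rhfafeb437ceb8396d] (by decide +kernel))
noncomputable def rh5573fa5b31b89a7b : CRef := CRef.mk (Pat.mk 0x40000000c000000060000000000000000 0x2000000020000000a0000000f0000003e000000060000000400000004 4 6) 0 0 (step_sound _ 129 [(rh668fc65514a55b16.shift 1 0), (rh94d29ce285401ff2.shift 0 2), (rhf9a6286f1d5377a2.shift 1 1), (rhfa2242deaca05a59.shift 1 0)] (by decide +kernel))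
noncomputable def rhab6ffbdaef6e235a : CRef := CRef.mk (Pat.mk 0x4000000040000000c0000000400000000 0x4000000040000003c0000000f0000000a 4 6) 0 0 (step_sound _ 35 [(rh55afc6a59410cf00.shift 2 0), rha71afc656c87d410] (by decide +kernel))
noncomputable def rh7a96d61384f03b7d : CRef := CRef.mk (Pat.mk 0x200000006000000060000000200000000 0x2000000060000000600000006000000070000000300000001 4 3) 0 0 (step_sound _ 130 [(rh5c5e593799055d58.shift 1 1), rhbd1553ade3ecbf42] (by decide +kernel))
noncomputable def rh0539ead39480211b : CRef := CRef.mk (Pat.mk 0x300000003000000020000000200000000 0x20000000300000003000000070000000700000005 4 3) 0 0 (step_sound _ 34 [(rh55afc6a59410cf00.shift 1 0), rhf6f3a7b483ec3794] (by decide +kernel))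
noncomputable def rh2b245c6c30dd7cf2 : CRef := CRef.mk (Pat.mk 0xc0000000c000000080000000000000000 0xc0000000c0000000c0000000f0000003e0000001600000006 4 6) 0 0 (step_sound _ 66 [(rh7edc67f347daab4a.shift 0 1), (rhce2bb70797483c3b.shift 1 0), (rhea7a1800d6f053bd.shift 2 0)] (by decide +kernel))
noncomputable def rh20880c07b610c854 : CRef := CRef.mk (Pat.mk 0x180000000e000000000000000000000000 0x80000001f0000003e000000370000001000000010 4 6) 0 0 (step_sound _ 100 [(rh71a80c5f65c552e9.shift 0 2), (rhbbe16ff26f7822db.shift 1 0)] (by decide +kernel))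
noncomputable def rh1de1d4a42856522c : CRef := CRef.mk (Pat.mk 0x1e000000060000000000000000 0x4000000040000001f0000003e0000000300000002 4 6) 0 0 (step_sound _ 68 [(rhe25b0a99195a5d59.shift 1 2), rhf9b3750bf21cfb8f] (by decide +kernel))
noncomputable def rhecae18493ff3f5d4 : CRef := CRef.mk (Pat.mk 0x40000000c000000040000000c00000000 0x80000000c0000000c0000003f0000003f00000012 4 6) 0 0 (step_sound _ 67 [rha71afc656c87d410, rhef954bd0609e10e0] (by decide +kernel))
noncomputable def rhfa0e142c5a750e96 : CRef := CRef.mk (Pat.mk 0x80000003800000018000000000000000000000000 0x40000000f0000003c000000180000001c0000001c0000001c 4 6) 0 0 (step_sound _ 67 [(rh4053c12da95c0aa0.shift 3 0), (rh53509d91ff78ed56.shift 0 2), (rhbb83b53687587fb2.shift 2 0)] (by decide +kernel))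
noncomputable def rh602de278b2638f13 : CRef := CRef.mk (Pat.mk 0x1e00000006000000000000000000000000 0xa0000001f0000003e000000070000000600000006 4 6) 0 0 (step_sound _ 65 [(rh7e23a051210591ac.shift 1 0), (rhcb19a8d324d72a1f.shift 0 2)] (by decide +kernel))
noncomputable def rhd8f1f2b4852c6cfd : CRef := CRef.mk (Pat.mk 0x7800000018 0x70000007f000000f8 4 8) 0 0 (step_sound _ 34 [(rh88333dd5482f2e1a.shift 2 0), rhba89ab7cb81bcc90] (by decide +kernel))
noncomputable def rhb75a6127c555c15c : CRef := CRef.mk (Pat.mk 0x8000000100000003c0000000c00000000 0x80000001f0000003f0000000c00000004 4 6) 0 0 (step_sound _ 99 [(rh932754581e0f4330.shift 2 0), (rhbe5fc5902345a0b9.shift 0 2)] (by decide +kernel))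
noncomputable def rh7d06e03b2bab0cc9 : CRef := CRef.mk (Pat.mk 0x8000000080000000c0000000800000000 0x800000008000000080000000f0000003c00000010 4 6) 0 0 (step_sound _ 36 [(rh55afc6a59410cf00.shift 3 0), (rhc3e6a65d34c1364f.shift 0 1)] (by decide +kernel))
noncomputable def rhd29c5a073cd2af95 : CRef := CRef.mk (Pat.mk 0x10000000100000003e0000000000000000 0x1000000018000000ff0000000c00000008 4 8) 0 0 (step_sound _ 99 [(rh53b3c253cb0c65f4.shift 0 2), (rh7478433a598f2371.shift 2 0)] (by decide +kernel))
noncomputable def rh8cdaaff8c3527dbc : CRef := CRef.mk (Pat.mk 0x10000000180000000c0000002000000000 0x10000000180000000f0000007c00000008 4 7) 0 0 (step_sound _ 35 [(rh71222050f2c63a3a.shift 3 0), (rhe901d1c101dc9830.shift 0 1)] (by decide +kernel))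
noncomputable def rh53248f398f53927b : CRef := CRef.mk (Pat.mk 0x80000000e0000001e0000000000000000 0x40000000c0000000e0000001e0000000700000006 4 5) 0 0 (step_sound _ 34 [rh031a926e4a883687, (rh71222050f2c63a3a.shift 2 0)] (by decide +kernel))
noncomputable def rhf9e76ea285371ccb : CRef := CRef.mk (Pat.mk 0xe00000012000000100000001000000000 0x300000001e00000013000000300000003000000020 4 6) 0 0 (step_sound _ 132 [(rh98297410a639a85a.shift 1 0), (rheb0810cc63b001d8.shift 0 3)] (by decide +kernel))
noncomputable def rhe2f37955abb105b9 : CRef := CRef.mk (Pat.mk 0x60000001e0000000a0000000800000000 0x60000001e0000003a0000000f00000006 4 6) 0 0 (step_sound _ 33 [(rh71222050f2c63a3a.shift 1 0), rha754f9a1ea1dce62] (by decide +kernel))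
noncomputable def rhe325f2417d8c01f2 : CRef := CRef.mk (Pat.mk 0x40000000e00000001 0x760000003e00000003 4 7) 0 0 (step_sound _ 36 [rh80fcd6d0a18cb2dd, (rhb6f72982232a8164.shift 1 1)] (by decide +kernel))
noncomputable def rhd65969c865f4aefb : CRef := CRef.mk (Pat.mk 0x1000000018000000060000002000000000 0x10000000180000000f0000007c00000008 4 7) 0 0 (step_sound _ 67 [(rh53b3c253cb0c65f4.shift 0 2), (rhc1c3a2ce4399bea0.shift 1 0)] (by decide +kernel))
noncomputable def rh5b6902ab353ae8cc : CRef := CRef.mk (Pat.mk 0x40000000e0000000800000008 0x10000000370000003e0000003800000008 4 6) 0 0 (step_sound _ 68 [(rhe3060b190bc0bc78.shift 0 2), (rhe6b57ff12fcf6cc6.shift 1 0)] (by decide +kernel))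
noncomputable def rh2b2eafd4e3affdb2 : CRef := CRef.mk (Pat.mk 0x30000000200000002000000020000000000000000 0x30000000300000002000000030000000700000005 4 3) 0 0 (step_sound _ 33 [rh6b0e6ea20bf12a11, (rhffd04209dc8ea796.shift 0 1)] (by decide +kernel))
noncomputable def rhd8c24d9b70d6ce6b : CRef := CRef.mk (Pat.mk 0x8000000080000000e0000000000000000 0x8000000380000001f0000003000000010 4 6) 0 0 (step_sound _ 100 [(rh53b3c253cb0c65f4.shift 0 2), (rh9be069fbbecfe378.shift 1 0)] (by decide +kernel))
noncomputable def rh981bb7d5c74da3b7 : CRef := CRef.mk (Pat.mk 0xa000000030000000300000000 0x6000000060000001e000000030000000300000002 4 5) 0 0 (step_sound _ 129 [rh0af2b86dadac4724, (rh5c5e593799055d58.shift 0 1)] (by decide +kernel))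
noncomputable def rh18681a89f7bcab09 : CRef := CRef.mk (Pat.mk 0x80000000a000000020000000200000004 0x50000000f0000001a000000020000000600000004 4 5) 0 0 (step_sound _ 129 [(rhd3458b32566d63f7.shift 1 0), (rhefe6a054a8eff004.shift 0 1)] (by decide +kernel))
noncomputable def rh5489905650108f2e : CRef := CRef.mk (Pat.mk 0x1800000010000000000000003800000000 0x18000000180000000f0000007c00000018 4 7) 0 0 (step_sound _ 67 [(rha9fbfd4bb8cf890b.shift 0 1), (rhd875f4b8fd969386.shift 3 0)] (by decide +kernel))
noncomputable def rh4cbfd92be34a864f : CRef := CRef.mk (Pat.mk 0x60000000c000000080000000e00000000 0x60000000f0000007a0000001e00000006 4 7) 0 0 (step_sound _ 97 [(rh164c324cdb1ed3e3.shift 0 1), (rh8556ce617a451e36.shift 1 0)] (by decide +kernel))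
noncomputable def rh81340c0b40563b0c : CRef := CRef.mk (Pat.mk 0x40000000c00000018000000000000003c 0x40000000f0000001a000000070000003e 4 6) 0 0 (step_sound _ 33 [(rh3f8766e6ecb455ce.shift 1 0), rhe1fb3149fe8dafbb] (by decide +kernel))
noncomputable def rh55d2f0b8ba14fee9 : CRef := CRef.mk (Pat.mk 0x600000006000000180000001000000000 0x200000006000000060000001e0000003700000006 4 6) 0 0 (step_sound _ 66 [(rh3cb04db3dd2b6a55.shift 1 0), rh593d20ba42f5a889] (by decide +kernel))
noncomputable def rha0159c89d49f7251 : CRef := CRef.mk (Pat.mk 0x40000000e000000120000000400000000 0x40000000f0000001a0000000f0000000a 4 5) 0 0 (step_sound _ 67 [rh8b711b6d01dafee8, (rhb739f4f82bb681b4.shift 0 2)] (by decide +kernel))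
noncomputable def rhbce449516dcad9f9 : CRef := CRef.mk (Pat.mk 0x100000007000000060000000100000000 0x20000000300000007000000060000000700000007 4 3) 0 0 (step_sound _ 33 [rh2fd9b57482dec4c7, rh7b1f1fb55310c477] (by decide +kernel))
noncomputable def rh02ed2f40fed2ffa4 : CRef := CRef.mk (Pat.mk 0x80000000c0000000c0000000400000000 0x60000000f0000003c0000000c0000000c00000008 4 6) 0 0 (step_sound _ 130 [(rh55a1f6c57a317ce6.shift 2 0), (rhcf85c92937975d4d.shift 0 1)] (by decide +kernel))
noncomputable def rh32ba05270f5883a6 : CRef := CRef.mk (Pat.mk 0x4000000000000000e00000006 0x600000006000000030000003e00000006 4 6) 0 0 (step_sound _ 36 [(rh18965a982d73c794.shift 1 0), rhc6719c6594e47b00] (by decide +kernel))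
noncomputable def rh971bd05a0d2aa0b0 : CRef := CRef.mk (Pat.mk 0xc0000000c000000380000000000000000 0xc0000000c0000003c0000000f0000000c 4 6) 0 0 (step_sound _ 35 [rh322e79f034282812, (rh7b1f1fb55310c477.shift 2 0)] (by decide +kernel))
noncomputable def rhecdb65fc71a72afc : CRef := CRef.mk (Pat.mk 0x1e000000080000000000000004 0x30000003e0000000f0000000400000004 4 6) 0 0 (step_sound _ 129 [rh31036afee8c0f33e, (rh3244c3cc8379b070.shift 0 3)] (by decide +kernel))
noncomputable def rh51dfa0f56ec8a632 : CRef := CRef.mk (Pat.mk 0x180000000c0000000800000008000000080000000000000000 0x180000000f0000000c000000080000000c0000000c00000004 4 5) 0 0 (step_sound _ 161 [(rh53b3c253cb0c65f4.shift 0 5), (rhe4441baab75a6f73.shift 2 0)] (by decide +kernel))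
noncomputable def rh11aa9ac9edf0878a : CRef := CRef.mk (Pat.mk 0x4000000040000001c0000000000000000 0x4000000070000003e0000000300000002 4 6) 0 0 (step_sound _ 97 [rh02313f6a49849429, (rhf48373e13d2bc128.shift 1 2)] (by decide +kernel))
noncomputable def rh305e60cb0bb1bfe3 : CRef := CRef.mk (Pat.mk 0x1c0000000800000008 0x1000000010000000f00000003f0000003800000008 4 8) 0 0 (step_sound _ 100 [(rh5dec5e73a267a1c4.shift 0 1), (rh69755ef358ebfd54.shift 3 0), (rha11dfd15f08f96e3.shift 1 2)] (by decide +kernel))
noncomputable def rhbb07bccc04294ee7 : CRef := CRef.mk (Pat.mk 0x4000000040000001c0000000800000000 0x4000000070000001f0000003b00000002 4 6) 0 0 (step_sound _ 65 [(rha03f6e28ea70fc7d.shift 0 1), rhae036cc4ef671676] (by decide +kernel))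
noncomputable def rh0fdd92e34c44548d : CRef := CRef.mk (Pat.mk 0x180000007800000020 0x180000007f0000003e 4 7) 0 0 (step_sound _ 2 [(rh80fcd6d0a18cb2dd.shift 2 0), rhb10cb61a8c906cb1] (by decide +kernel))
noncomputable def rhe6a50c2511a99ca0 : CRef := CRef.mk (Pat.mk 0x400000002000000030000000f00000000 0x40000001e0000000f0000000f00000018 4 5) 0 0 (step_sound _ 3 [rh79cff8fda540c0b7, rhe25b0a99195a5d59] (by decide +kernel))
noncomputable def rhdce23fde707f1370 : CRef := CRef.mk (Pat.mk 0x1e0000000800000010 0x3e0000003f00000030 4 6) 0 0 (step_sound _ 33 [(rh31c462017f9e0af7.shift 1 0), (rheb0810cc63b001d8.shift 0 1)] (by decide +kernel))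
noncomputable def rh241198a22025f51f : CRef := CRef.mk (Pat.mk 0x8000000080000000800000018000000080000000000000000 0x80000000c0000000f0000003c0000000c0000000800000008 4 6) 0 0 (step_sound _ 98 [(rh932754581e0f4330.shift 2 2), rhf018044ae0d004e8] (by decide +kernel))
noncomputable def rhed57d09380198344 : CRef := CRef.mk (Pat.mk 0x8000000180000000800000008 0x40000001f0000003c0000000800000008 4 6) 0 0 (step_sound _ 98 [(rh50fbb5868c909700.shift 2 0), (rhb0121edee88fe839.shift 0 2)] (by decide +kernel))
noncomputable def rh0e11b01577dd0eba : CRef := CRef.mk (Pat.mk 0x800000018000000080000000800000000 0x40000001f00000038000000080000000800000008 4 6) 0 0 (step_sound _ 130 [rh01ce562d3abaa039, (rh50fbb5868c909700.shift 2 1)] (by decide +kernel))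
noncomputable def rh8d09613a0e903d5f : CRef := CRef.mk (Pat.mk 0x180000001c000000080000000000000000 0x8000000180000001f000000380000001000000010 4 6) 0 0 (step_sound _ 97 [(rh25c13d8045594b98.shift 1 0), (rh53b3c253cb0c65f4.shift 0 3)] (by decide +kernel))
end Crest.Agent.S0047.Helper85.Cert
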