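import Crest.Agent.Lib.S0047.Helper85CertPL3F0
import Crest.Agent.Lib.S0047.Helper85CertPL3F1
import Crest.Agent.Lib.S0047.Helper85CertPL3F2
import Crest.Agent.Lib.S0047.Helper85CertPL3F3
import Crest.Agent.Lib.S0047.Helper85CertPL3F4
import Crest.Agent.Lib.S0047.Helper85CertPL3F5
set_option autoImplicit false
set_option linter.all false
set_option Elab.async false
namespace Crest.Agent.S0047.Helper85.Cert
open Crest.Agent.S0047.Helper85

noncomputable def rhd2ff1294fee72422 : CRef := CRef.mk (Pat.mk 0x40000000c000000180000000800000000 0x180000003c0000000f000000180000001800000010 4 6) 0 0 (step_sound _ 97 [(rha84357fa6686b26d.shift 1 0), (rhb739f4f82bb681b4.shift 0 2)] (by decide +kernel))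
noncomputable def rh1e1fdd334f5b3198 : CRef := CRef.mk (Pat.mk 0x80000001e000000180000000000000000 0x80000003e0000001f0000003000000010 4 6) 0 0 (step_sound _ 65 [(rh764646065eef9665.shift 1 0), (rheb0810cc63b001d8.shift 0 2)] (by decide +kernel))
noncomputable def rhce76851cc7f9532a : CRef := CRef.mk (Pat.mk 0x3000000010000000600000001 0x2000000020000000200000003000000070000000700000005 4 3) 0 0 (step_sound _ 129 [rh9e3edb185cc347de, rhe79307a1f5f4535c] (by decide +kernel))
noncomputable def rhe83a8acacb6a8086 : CRef := CRef.mk (Pat.mk 0x1c00000008000000000000001e00000000 0x3c0000000f000000040000001e00000003 4 6) 0 0 (step_sound _ 1 [rhd968d8afdc408fff, rheb0810cc63b001d8] (by decide +kernel))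
noncomputable def rh4e710789d6c1b3ad : CRef := CRef.mk (Pat.mk 0x7000000030000000600000004 0x180000001f0000000b0000001e00000004 4 5) 0 0 (step_sound _ 35 [rh4e00e36f06f7e587, (rhf48373e13d2bc128.shift 0 1)] (by decide +kernel))
noncomputable def rhd62231af2e1e0e13 : CRef := CRef.mk (Pat.mk 0x1000000000000000180000001e00000000 0x10000000100000001c000000fe00000063 4 8) 0 0 (step_sound _ 1 [(rh8d3134ae48e30f98.shift 2 0), rheb0810cc63b001d8] (by decide +kernel))
noncomputable def rh58c63edee24a7e9f : CRef := CRef.mk (Pat.mk 0x3000000030000000600000002 0x2000000060000000600000007000000070000000600000002 4 3) 0 0 (step_sound _ 130 [(rh5748ac5743f3b44a.shift 0 1), (rhbaefcd01e0a8bca3.shift 1 0)] (by decide +kernel))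
noncomputable def rh1898c667018346ba : CRef := CRef.mk (Pat.mk 0x400000004000000180000001e00000002 0xc0000000f0000001a0000003e00000006 4 6) 0 0 (step_sound _ 2 [(rh18965a982d73c794.shift 1 0), rh6225a586cfd1ed95] (by decide +kernel))
noncomputable def rh8ddd0cd6053db815 : CRef := CRef.mk (Pat.mk 0x400000004000000070000000400000000 0x80000000c000000040000000f0000003c00000008 4 6) 0 0 (step_sound _ 131 [(rh2f68792b6b779e96.shift 2 1), rhd9397e4126e81439] (by decide +kernel))
noncomputable def rhd14dfb9528fb66b6 : CRef := CRef.mk (Pat.mk 0x1c0000000800000030 0x3f0000003f00000030 4 6) 0 0 (step_sound _ 33 [(rh72297cd55a503360.shift 0 1), (rha35b3b16ce21a761.shift 1 0), (rhd526f9b20c752965.shift 0 1)] (by decide +kernel))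
noncomputable def rh4f1bf1a2b2d4c4a7 : CRef := CRef.mk (Pat.mk 0x80000000c0000001800000008 0x10000000180000001f0000007800000008 4 7) 0 0 (step_sound _ 132 [(rh4ca5dae25f5c14ff.shift 0 1), (rhbaefcd01e0a8bca3.shift 3 0)] (by decide +kernel))
noncomputable def rh57558646de9ad691 : CRef := CRef.mk (Pat.mk 0x20000000200000002000000060000000200000000 0x100000003000000030000000200000006000000060000000300000001 4 3) 0 0 (step_sound _ 32 [(rh5bd4bc0c2c48140c.shift 0 2), rh932754581e0f4330] (by decide +kernel))
noncomputable def rh1c1cd3fa6bcfc42f : CRef := CRef.mk (Pat.mk 0x800000000000000380000001c 0xc0000000c000000060000003f0000003c 4 6) 0 0 (step_sound _ 34 [(rhc6719c6594e47b00.shift 1 0), rhe2b63c00a3d7bb73] (by decide +kernel))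
noncomputable def rh97b25e6c478b7a54 : CRef := CRef.mk (Pat.mk 0x200000007000000060000000400000000 0x40000000c0000001e000000070000000e0000000c00000008 4 5) 0 0 (step_sound _ 130 [(rh6655c67851f4b756.shift 1 0), (rh712526e472efe489.shift 0 1)] (by decide +kernel))
noncomputable def rhcf8e04ac2e2850fe : CRef := CRef.mk (Pat.mk 0xc0000001800000008 0x10000000300000001f0000003800000008 4 6) 0 0 (step_sound _ 65 [(rh1d0feb764c8c303c.shift 1 0), (rhb739f4f82bb681b4.shift 0 1)] (by decide +kernel))
noncomputable def rh526e6814811cd4c0 : CRef := CRef.mk (Pat.mk 0x1e0000000600000008 0x10000000300000001f0000003e00000008 4 6) 0 0 (step_sound _ 36 [rhbaf9f4f7f7cecbf6, (rhe25b0a99195a5d59.shift 1 1)] (by decide +kernel))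
noncomputable def rhabeb4e10597d23c9 : CRef := CRef.mk (Pat.mk 0x100000001c000000000000000800000000 0x380000001f000000180000000800000008 4 6) 0 0 (step_sound _ 97 [(rh33e738c4ed385b9f.shift 1 3), rhf2e3f9e8a10a1b25] (by decide +kernel))
noncomputable def rhbf1ca1c2b97d1880 : CRef := CRef.mk (Pat.mk 0x20000001f00000001 0x200000002000000060000003f00000071 4 7) 0 0 (step_sound _ 97 [rh5c5e593799055d58, (rh60e95adc726bb530.shift 1 0)] (by decide +kernel))
noncomputable def rh8e2b6b84531232e1 : CRef := CRef.mk (Pat.mk 0x180000000c0000000c 0x380000003f0000000f 4 6) 0 0 (step_sound _ 33 [(rh53b3c253cb0c65f4.shift 0 1), rhf7fddb5c8278e462] (by decide +kernel))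
noncomputable def rhdc05bc776a8e6c4f : CRef := CRef.mk (Pat.mk 0x600000007000000070000000000000000 0x3000000030000000700000007000000070000000200000002 4 3) 0 0 (step_sound _ 161 [rh047c6b19c40200e1, (rh2145e1d24b96a57e.shift 1 2)] (by decide +kernel))
noncomputable def rh0536a368a53098a7 : CRef := CRef.mk (Pat.mk 0x180000001c0000000c0000000000000000 0x60000001f0000001c0000000c0000000c0000000c 4 5) 0 0 (step_sound _ 34 [(rh71222050f2c63a3a.shift 2 0), rhbc4bbdb362653f0c] (by decide +kernel))
noncomputable def rhcf776dd332f9ac5f : CRef := CRef.mk (Pat.mk 0x600000001000000030000000200000000 0x2000000060000000600000003000000070000000600000004 4 3) 0 0 (step_sound _ 97 [rh0ff7ca71cb891e23, (rh2f68792b6b779e96.shift 1 1)] (by decide +kernel))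
noncomputable def rh34044f80bdcffcde : CRef := CRef.mk (Pat.mk 0x200000006000000060000000c0000000800000000 0x200000006000000060000001f0000007b00000003 4 7) 0 0 (step_sound _ 65 [(rh8ee80cc30e93a344.shift 0 1), rh98dcf83e06bbd9f9, (rh9f67957f47428996.shift 0 1)] (by decide +kernel))
noncomputable def rh0c4eed3690c35d61 : CRef := CRef.mk (Pat.mk 0x1000000018000000080000000c00000000 0x40000001f00000038000000080000000c00000004 4 6) 0 0 (step_sound _ 131 [(rh932754581e0f4330.shift 2 0), (rhc647a25a08ddf0ec.shift 0 1)] (by decide +kernel))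
noncomputable def rhe05bce87d24a7876 : CRef := CRef.mk (Pat.mk 0x180000000e000000020000000000000000 0x8000000180000001e000000330000001000000010 4 6) 0 0 (step_sound _ 100 [(rhbbe16ff26f7822db.shift 1 0), (rheb0810cc63b001d8.shift 0 2)] (by decide +kernel))
noncomputable def rhcc8198f8a00b5b19 : CRef := CRef.mk (Pat.mk 0x40000000e000000080000000e00000000 0xc0000000e0000000b0000001e00000032 4 6) 0 0 (step_sound _ 65 [rh299a18a9bb09cab4, (rh71222050f2c63a3a.shift 1 0)] (by decide +kernel))
noncomputable def rh03d4b7005afa1e41 : CRef := CRef.mk (Pat.mk 0x6000000060000001a0000000800000000 0x3000000030000000300000006000000060000001e0000000f00000004 4 5) 0 0 (step_sound _ 161 [rh2e7d15d2c4e4b639, (rh55a1f6c57a317ce6.shift 1 1), (rh7b9fbdf6d2d059e4.shift 0 2)] (by decide +kernel))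
noncomputable def rha2b6db360c8d5d92 : CRef := CRef.mk (Pat.mk 0x700000006000000040000000c00000000 0x10000000700000006000000070000003e00000002 4 6) 0 0 (step_sound _ 33 [(rh6307659a1e91bf84.shift 0 1), (rh932754581e0f4330.shift 1 0)] (by decide +kernel))
noncomputable def rhfe7d23118bf974e9 : CRef := CRef.mk (Pat.mk 0x7000000060000000c0000000800000000 0x20000000300000007000000060000000f0000001b00000002 4 5) 0 0 (step_sound _ 161 [(rh2145e1d24b96a57e.shift 1 2), rhddb36415e93aba83] (by decide +kernel))
noncomputable def rh9234ba556f58c924 : CRef := CRef.mk (Pat.mk 0x60000000e0000000200000000 0x20000000200000002000000060000001f0000000300000001 4 5) 0 0 (step_sound _ 32 [(rh18965a982d73c794.shift 0 1), rh3e7f2ba771ddcb65] (by decide +kernel))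
noncomputable def rh4c79790af7d4caa0 : CRef := CRef.mk (Pat.mk 0x14000000070000000600000002 0x3000000030000001f000000070000000600000002 4 5) 0 0 (step_sound _ 97 [(rh361cc68994bd8a63.shift 0 2), rh7b9fbdf6d2d059e4] (by decide +kernel))
noncomputable def rhe6c144e024842bf9 : CRef := CRef.mk (Pat.mk 0x200000000e0000000c00000004 0x200000002000000670000007e0000000c00000004 4 7) 0 0 (step_sound _ 68 [rh1c1037cb5b3fe471, (rh8284118167888cf9.shift 2 1)] (by decide +kernel))
noncomputable def rhc53ab2845504070a : CRef := CRef.mk (Pat.mk 0x80000001c00000010 0x3b0000001f00000030 4 6) 0 0 (step_sound _ 33 [(rh98619266ffce163e.shift 0 1), (rhe25b0a99195a5d59.shift 1 0)] (by decide +kernel))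
noncomputable def rhae750f8814be4d2e : CRef := CRef.mk (Pat.mk 0x380000001800000010 0x20000000670000003f0000007800000010 4 7) 0 0 (step_sound _ 66 [(rha4c5bcb51a1da0a7.shift 2 0), (rhba89ab7cb81bcc90.shift 0 1)] (by decide +kernel))
noncomputable def rh26aa86d41d42ba83 : CRef := CRef.mk (Pat.mk 0x4000000040000000e000000180000000800000000 0x4000000060000000e0000007a0000001f00000002 4 7) 0 0 (step_sound _ 69 [rhb6140890372f3936, (rhf48373e13d2bc128.shift 2 2)] (by decide +kernel))
noncomputable def rh4a1530c041f70a1a : CRef := CRef.mk (Pat.mk 0x100000001a000000180000000800000000 0xc0000000c0000001f0000001b0000001c0000000c00000004 4 5) 0 0 (step_sound _ 131 [(rh7b9fbdf6d2d059e4.shift 2 1), (rh925a1628dd8a50da.shift 2 0), (rh9cac931137f1cfa0.shift 0 1)] (by decide +kernel))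
noncomputable def rh0563d676e7ed6d4a : CRef := CRef.mk (Pat.mk 0x8000000080000000c0000001000000000 0x800000008000000080000000f0000003c00000004 4 6) 0 0 (step_sound _ 34 [rh1503251e5b1998d9, (rh5c5e593799055d58.shift 2 1)] (by decide +kernel))
noncomputable def rh4dc445733550c3b6 : CRef := CRef.mk (Pat.mk 0xc000000080000000e 0x1f000000780000000f 4 7) 0 0 (step_sound _ 36 [rh53b3c253cb0c65f4, (rh5c5a2014709044d0.shift 0 1)] (by decide +kernel))
noncomputable def rh1651402d90487fa5 : CRef := CRef.mk (Pat.mk 0x100000007800000018 0xf70000007f00000018 4 8) 0 0 (step_sound _ 34 [(rh9890f9d77740bbed.shift 2 1), rhba89ab7cb81bcc90, (rhec46bd5500c722c9.shift 1 1)] (by decide +kernel))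
noncomputable def rh7e2bec390ca584ed : CRef := CRef.mk (Pat.mk 0x100000001000000038000000000000000000000000 0x100000001c000000fc0000000f0000000800000008 4 8) 0 0 (step_sound _ 67 [(rh2820ca9a6c4f41b4.shift 0 2), (rha83d0a1d851c6a27.shift 2 2), (rhf9af042da61fc652.shift 3 0)] (by decide +kernel))
noncomputable def rh4e60d4c3aeff81e1 : CRef := CRef.mk (Pat.mk 0x400000004000000040000001f00000000 0x80000000c0000000c0000001c0000001f00000030 4 6) 0 0 (step_sound _ 131 [(rh2f68792b6b779e96.shift 2 1), rh4e2e409ae54a82ac] (by decide +kernel))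
noncomputable def rhd70d90db6d15fdc0 : CRef := CRef.mk (Pat.mk 0x80000001e000000000000000000000000 0x8000000180000001f000000300000001000000010 4 6) 0 0 (step_sound _ 68 [rh0125eb60650aaa08, (rhe25b0a99195a5d59.shift 1 2)] (by decide +kernel))
noncomputable def rh96fdf5abc2ee6e9c : CRef := CRef.mk (Pat.mk 0x400000007000000040000000000000000 0xa0000003e0000000f000000040000000400000004 4 6) 0 0 (step_sound _ 131 [(rh026fe94e65800e5e.shift 0 1), (rh572132728df34c43.shift 0 3), (rh9bb5c7e5c08d4582.shift 1 0)] (by decide +kernel))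
noncomputable def rh9fa8eab779ad2d83 : CRef := CRef.mk (Pat.mk 0x6000000030000000e00000006 0x190000001f0000000b0000000e00000006 4 5) 0 0 (step_sound _ 96 [rh4e00e36f06f7e587, rh50fbb5868c909700] (by decide +kernel))
noncomputable def rh60c17605e880d32b : CRef := CRef.mk (Pat.mk 0x2000000030000000600000006000000000000000000000000 0x400000006000000070000000700000006000000020000000200000002 4 3) 0 0 (step_sound _ 194 [(rh2f68792b6b779e96.shift 1 3), rh93a017a2c26e91a1] (by decide +kernel))
noncomputable def rh161143b6520a7b7e : CRef := CRef.mk (Pat.mk 0x1c00000008000000000000001e00000000 0x1c0000000f000000060000001e00000003 4 5) 0 0 (step_sound _ 1 [rh4cce41f1a85d309f, rheb0810cc63b001d8] (by decide +kernel))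
noncomputable def rh9dc1d00b1c4e6b88 : CRef := CRef.mk (Pat.mk 0x1800000018000000180000001800000000 0x40000001f00000038000000180000003800000020 4 6) 0 0 (step_sound _ 37 [(rh55afc6a59410cf00.shift 4 0), (rhc647a25a08ddf0ec.shift 0 1)] (by decide +kernel))
noncomputable def rh23a4711996e50144 : CRef := CRef.mk (Pat.mk 0x4000000060000001c0000000000000000 0x200000006000000060000001c0000000f0000000e 4 5) 0 0 (step_sound _ 34 [(rhe286c75f2739cce2.shift 1 0), rhfbf2eae4035425b6] (by decide +kernel))
noncomputable def rh537197e4c01c3f13 : CRef := CRef.mk (Pat.mk 0x40000000500000007000000010000000000000000 0x70000000700000007000000030000000300000003 4 3) 0 0 (step_sound _ 33 [(rh145743f37eb63ccf.shift 0 1), rh8f4050c06a082165, rhe9c01a7dbb50c448] (by decide +kernel))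
noncomputable def rh67e976432590e65c : CRef := CRef.mk (Pat.mk 0x80000000c000000160000001000000000 0x80000000c000000370000003e00000004 4 6) 0 0 (step_sound _ 34 [(rh71222050f2c63a3a.shift 2 0), (rh799b546ddd265bb3.shift 0 1)] (by decide +kernel))
noncomputable def rhd8215403ae36d74e : CRef := CRef.mk (Pat.mk 0x100000001000000038000000000000000000000000 0x100000001c0000007c0000000f0000000800000008 4 7) 0 0 (step_sound _ 67 [(rh0a0d555fa8352b31.shift 2 1), (rh2820ca9a6c4f41b4.shift 0 2), (rhf9af042da61fc652.shift 3 0)] (by decide +kernel))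
noncomputable def rh7d1db414ed52f56b : CRef := CRef.mk (Pat.mk 0x40000000700000004000000000000000800000000 0xa0000001e0000000700000004000000060000000e0000000a 4 5) 0 0 (step_sound _ 66 [(rh4017de503635a93b.shift 0 2), (rh73329e8902d29e57.shift 1 0)] (by decide +kernel))
noncomputable def rhd165b2ef874d102a : CRef := CRef.mk (Pat.mk 0x80000000c00000038000000000000001000000000 0xc0000000c0000003c0000000f0000001c00000010 4 6) 0 0 (step_sound _ 67 [(rh322e79f034282812.shift 0 1), (rh4cdb379841a0f429.shift 2 0)] (by decide +kernel))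
noncomputable def rh6a19f84a22682e9e : CRef := CRef.mk (Pat.mk 0xe0000000c0000000400000000 0x600000006000000070000003e0000000e0000000600000002 4 6) 0 0 (step_sound _ 130 [(rh7b9fbdf6d2d059e4.shift 1 1), (rh925a1628dd8a50da.shift 1 0), (rhaef2adbbd453a55b.shift 0 1)] (by decide +kernel))
noncomputable def rh8f35f3c2fc8b4aaf : CRef := CRef.mk (Pat.mk 0x80000007c00000000 0x38000000fe00000007 4 8) 0 0 (step_sound _ 68 [rh55c4ed4acec0f063, (rhf48373e13d2bc128.shift 3 1)] (by decide +kernel))
noncomputable def rhf299512781b6ae70 : CRef := CRef.mk (Pat.mk 0x80000001a000000060000000200000000 0x60000000f0000001e000000060000000600000006 4 5) 0 0 (step_sound _ 98 [rh2314a9727c37b748, (rh84d1c02a8954c6a8.shift 1 0)] (by decide +kernel))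
noncomputable def rh97008031ef76f114 : CRef := CRef.mk (Pat.mk 0x80000001e000000020000000000000000 0x20000000b0000003e000000060000000400000004 4 6) 0 0 (step_sound _ 66 [rh1805d4d225594aed, (rh18965a982d73c794.shift 1 2)] (by decide +kernel))
noncomputable def rhaa5997f027e3866e : CRef := CRef.mk (Pat.mk 0x4000000040000001e000000000000000000000000 0x40000000c0000001f000000380000000800000008 4 6) 0 0 (step_sound _ 68 [rh979411b26c167c02, (rhe25b0a99195a5d59.shift 1 2)] (by decide +kernel))
noncomputable def rh87961b2a8ca8a677 : CRef := CRef.mk (Pat.mk 0x600000006000000060000000000000000 0x3000000030000000700000006000000060000000200000002 4 3) 0 0 (step_sound _ 161 [(rh2145e1d24b96a57e.shift 1 2), rh674dd4f5f6cca5c0] (by decide +kernel))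
noncomputable def rhe7227718734b1403 : CRef := CRef.mk (Pat.mk 0x18000000180000000000000008 0x140000001f000000380000000800000008 4 6) 0 0 (step_sound _ 35 [(rh2f68792b6b779e96.shift 3 0), rhc647a25a08ddf0ec] (by decide +kernel))
noncomputable def rh2ccea04b951e92fb : CRef := CRef.mk (Pat.mk 0x180000007800000010 0x180000007f0000003e 4 7) 0 0 (step_sound _ 2 [rh39f2aa650c834471, (rh80fcd6d0a18cb2dd.shift 2 0)] (by decide +kernel))
noncomputable def rhd79aae4f90e4b941 : CRef := CRef.mk (Pat.mk 0x80000003800000018000000100000000000000000 0x40000001f0000003c00000018000000180000000800000008 4 6) 0 0 (step_sound _ 162 [(rh7074bf3ab6014c74.shift 2 0), (rhd8e93bbc8568df99.shift 1 4), (rhdbcea10a0fbe5ba6.shift 0 4)] (by decide +kernel))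
noncomputable def rhb0e448014f358ce7 : CRef := CRef.mk (Pat.mk 0x1c0000000c0000000c00000000 0x6000000070000001e0000000c0000000c00000004 4 5) 0 0 (step_sound _ 130 [(rh2145e1d24b96a57e.shift 2 1), rh29245de5933fbe8d] (by decide +kernel))
noncomputable def rh37d805b0b1f4c94c : CRef := CRef.mk (Pat.mk 0x100000000e0000001c0000003000000000 0x170000007e0000001c0000003000000020 4 7) 0 0 (step_sound _ 100 [(rh55afc6a59410cf00.shift 4 0), (rh6e8a826a5508ce46.shift 0 2)] (by decide +kernel))
noncomputable def rh78e6f99721df6e07 : CRef := CRef.mk (Pat.mk 0xc0000000c0000001c0000000800000000 0x20000000f0000003c0000001c0000000f00000002 4 6) 0 0 (step_sound _ 34 [(rhcf85c92937975d4d.shift 0 1), rhf5094ad2a427d4d3] (by decide +kernel))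
noncomputable def rhee75ba28fdfc5ad6 : CRef := CRef.mk (Pat.mk 0xc0000000c0000000c0000000c00000000 0xc0000000c0000000f0000003e00000012 4 6) 0 0 (step_sound _ 33 [rh58f49594b41e4958, (rh932754581e0f4330.shift 1 0)] (by decide +kernel))
noncomputable def rh6541a4f97927d27d : CRef := CRef.mk (Pat.mk 0x4000000000000001e0000000c 0x600000006000000030000001e0000000f 4 5) 0 0 (step_sound _ 1 [rh53b3c253cb0c65f4, rhc6719c6594e47b00] (by decide +kernel))
noncomputable def rh3606be05a90e09ee : CRef := CRef.mk (Pat.mk 0xe000000060000000800000008 0x100000003f0000003e0000000800000008 4 6) 0 0 (step_sound _ 100 [(rh18965a982d73c794.shift 1 2), rh424c003c0248fb9f] (by decide +kernel))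
noncomputable def rh9ccadb59a87772f4 : CRef := CRef.mk (Pat.mk 0x3000000070000000400000004 0x8000000080000001b0000001f0000000c00000004 4 5) 0 0 (step_sound _ 67 [rh94246470f0e6fdf7, (rhf48373e13d2bc128.shift 0 2)] (by decide +kernel))
noncomputable def rh96b06ca7aad1fdcd : CRef := CRef.mk (Pat.mk 0x80000000c000000180000000000000000 0x8000000080000000f0000003c0000000400000004 4 6) 0 0 (step_sound _ 97 [(rhb739f4f82bb681b4.shift 0 2), (rhe2955346dbef5bae.shift 1 0)] (by decide +kernel))
noncomputable def rh1cd1069c4c07b2a9 : CRef := CRef.mk (Pat.mk 0xc0000001c0000000400000000 0x600000006000000060000000c0000001c0000000f0000000a 4 5) 0 0 (step_sound _ 130 [rh2c57b4404ea586d3, (rh7b9fbdf6d2d059e4.shift 1 1)] (by decide +kernel))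
noncomputable def rha7ab19b0c62ea737 : CRef := CRef.mk (Pat.mk 0x4000000080000000c0000000c00000000 0x40000000c0000003c0000000f0000000a 4 6) 0 0 (step_sound _ 98 [(rh7b1f1fb55310c477.shift 2 0), rha71afc656c87d410] (by decide +kernel))
noncomputable def rhf167d7768e6971d1 : CRef := CRef.mk (Pat.mk 0x40000000c0000000c000000380000000000000000 0xc0000000c0000003c0000003f0000000600000004 4 6) 0 0 (step_sound _ 66 [(rh1ae4704ae86cb9a8.shift 1 1), (rh1e309b005ffa1b36.shift 2 0), (rha71afc656c87d410.shift 0 1)] (by decide +kernel))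
noncomputable def rhc020c60c3658dbaf : CRef := CRef.mk (Pat.mk 0x6000000060000001c0000000000000000 0x400000006000000060000001e0000000700000006 4 5) 0 0 (step_sound _ 34 [rh349ec9f7ee54d10d, (rh7b1f1fb55310c477.shift 1 0)] (by decide +kernel))
noncomputable def rh8553864a7729a62a : CRef := CRef.mk (Pat.mk 0xc0000003c00000000 0x3c0000003f00000070 4 7) 0 0 (step_sound _ 5 [rh9886dc8bf5c5d9df, (rhe25b0a99195a5d59.shift 2 0)] (by decide +kernel))
noncomputable def rhc7dadc8e2ab0d46f : CRef := CRef.mk (Pat.mk 0x60000001e0000001800000010 0x200000002000000060000001e0000001f00000034 4 6) 0 0 (step_sound _ 33 [(rhb1e3daacf76f6a81.shift 1 0), (rheb0810cc63b001d8.shift 0 1)] (by decide +kernel))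
noncomputable def rh67a2afc464f6d014 : CRef := CRef.mk (Pat.mk 0x1c0000001800000010 0x3f0000001f00000030 4 6) 0 0 (step_sound _ 65 [(rhb739f4f82bb681b4.shift 0 1), rhc31b6f966e0d7e89] (by decide +kernel))
noncomputable def rh99071a2cce01658c : CRef := CRef.mk (Pat.mk 0x8000000040000000c0000000c00000000 0x80000000c0000000f0000003c00000014 4 6) 0 0 (step_sound _ 99 [(rh71222050f2c63a3a.shift 2 0), rhfe557af9112f51d6] (by decide +kernel))
noncomputable def rh540b6cc7a7d51642 : CRef := CRef.mk (Pat.mk 0x7000000070000000c00000000 0x80000001c0000001f000000070000000c00000008 4 5) 0 0 (step_sound _ 99 [(rh18965a982d73c794.shift 0 2), rh1e0824bc1af136bf] (by decide +kernel))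
noncomputable def rhd2010e3f1e8903d9 : CRef := CRef.mk (Pat.mk 0xc00000004000000060000000200000000 0x80000000c00000004000000070000003e00000008 4 6) 0 0 (step_sound _ 34 [(rh2f68792b6b779e96.shift 2 1), rh36d4d92ef3dad5f8] (by decide +kernel))
noncomputable def rh137e64670c5b7fdf : CRef := CRef.mk (Pat.mk 0x70000000c0000000000000000 0x8000000180000000f0000001c0000000400000004 4 5) 0 0 (step_sound _ 99 [rh34b1188e635efc8d, (rhe25b0a99195a5d59.shift 0 2)] (by decide +kernel))
noncomputable def rh506d5c7b142560c9 : CRef := CRef.mk (Pat.mk 0x4000000020000001e0000000600000000 0x4000000060000001f0000003e0000000a 4 6) 0 0 (step_sound _ 98 [(rh71222050f2c63a3a.shift 1 0), rhf132e5a2953a07c1] (by decide +kernel))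
noncomputable def rhbfad5cc5354d7121 : CRef := CRef.mk (Pat.mk 0x4000000000000001c0000003800000008 0x4000000040000001c0000003f0000000f 4 6) 0 0 (step_sound _ 34 [(rh6f1cbe15c631ee70.shift 2 0), rhcc2be1f880c5ea3e] (by decide +kernel))
noncomputable def rhd207c95c60f9edbd : CRef := CRef.mk (Pat.mk 0x40000000000000018000000380000000800000000 0xc0000000c00000008000000180000003c0000000f00000004 4 6) 0 0 (step_sound _ 131 [rh322e79f034282812, (rhf627eb01e9e8db9a.shift 2 2)] (by decide +kernel))
noncomputable def rh8153c701486ae364 : CRef := CRef.mk (Pat.mk 0x1c00000008000000020000001c 0x20000001f0000003b000000060000003c 4 6) 0 0 (step_sound _ 34 [rh109e2dd7f1c0f217, (rhf48373e13d2bc128.shift 1 0)] (by decide +kernel))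
noncomputable def rh9e44cf0f007154af : CRef := CRef.mk (Pat.mk 0x3800000010000000040000003c00000000 0x3e00000074000000040000003e00000007 4 7) 0 0 (step_sound _ 1 [(rh80fcd6d0a18cb2dd.shift 1 0), rha960173494005d4a] (by decide +kernel))
noncomputable def rh18b1b4c2fd49d92e : CRef := CRef.mk (Pat.mk 0xc00000018000000080000000800000000 0xf0000007c000000080000000c00000004 4 7) 0 0 (step_sound _ 34 [(rh932754581e0f4330.shift 2 0), (rhdeca8db941583de2.shift 0 3)] (by decide +kernel))
noncomputable def rhba1fe302b1bb2e4f : CRef := CRef.mk (Pat.mk 0x400000008000000080000001c 0x40000000c0000000c0000000f0000003c 4 6) 0 0 (step_sound _ 130 [rh41d942a7129d4d89, (rhcfdf45280693d3da.shift 2 0)] (by decide +kernel))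
noncomputable def rh524995310b4e2dc7 : CRef := CRef.mk (Pat.mk 0x80000001c000000060000001400000000 0x20000000f0000001c000000060000003c00000008 4 6) 0 0 (step_sound _ 35 [rhc2f06c7a97a2ad79, (rhf48373e13d2bc128.shift 1 1)] (by decide +kernel))
noncomputable def rh28410cc1449183eb : CRef := CRef.mk (Pat.mk 0xe0000000a0000000a00000000 0x1000000030000001e0000001a0000000f00000005 4 5) 0 0 (step_sound _ 129 [(rh2e8814637c3f6d46.shift 0 1), rh65a643973921d367] (by decide +kernel))
noncomputable def rhb595ae21e1db6eba : CRef := CRef.mk (Pat.mk 0x4000000140000001c0000000000000000 0x4000000370000001e0000000300000002 4 6) 0 0 (step_sound _ 65 [(rh33e738c4ed385b9f.shift 1 2), rhae036cc4ef671676] (by decide +kernel))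
noncomputable def rh2c588ec34b2f9d1e : CRef := CRef.mk (Pat.mk 0x80000000a0000000e0000000000000000 0x80000001b0000001f0000003000000010 4 6) 0 0 (step_sound _ 100 [(rh53b3c253cb0c65f4.shift 0 2), rhb9784ff7a7632a57] (by decide +kernel))
noncomputable def rhe9d0c63b662b3e5a : CRef := CRef.mk (Pat.mk 0x400000003800000010 0x600000003e00000037 4 7) 0 0 (step_sound _ 34 [(rh428265de8cd3cd2d.shift 2 1), rhfcb55d5dc3b78d1f] (by decide +kernel))
noncomputable def rh9e221b83ec21a6df : CRef := CRef.mk (Pat.mk 0x80000000c0000001c0000001000000000 0x80000000c0000003e0000003700000004 4 6) 0 0 (step_sound _ 65 [rh2e79b52ba24d261f, (rhe25b0a99195a5d59.shift 1 1)] (by decide +kernel))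
noncomputable def rhd751d1526b665964 : CRef := CRef.mk (Pat.mk 0x60000001c0000001000000000 0x400000004000000060000001e0000003300000002 4 6) 0 0 (step_sound _ 65 [rh031a926e4a883687, (rhe25b0a99195a5d59.shift 1 1)] (by decide +kernel))
noncomputable def rh86330ac41a7537dd : CRef := CRef.mk (Pat.mk 0x100000001400000038000000000000000000000000 0x100000001c0000007c0000000f0000000800000008 4 7) 0 0 (step_sound _ 67 [(rh2820ca9a6c4f41b4.shift 0 2), (rh795d3e5d420177aa.shift 2 2), (rhf9af042da61fc652.shift 3 0)] (by decide +kernel))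
noncomputable def rh5aaccf088493f334 : CRef := CRef.mk (Pat.mk 0x80000001e000000040000000000000000 0x2000000020000000f0000001e000000040000000400000004 4 5) 0 0 (step_sound _ 129 [(rh3244c3cc8379b070.shift 0 3), (rhbe707112c53dab40.shift 1 0)] (by decide +kernel))
noncomputable def rhd73ed56b2c4229e7 : CRef := CRef.mk (Pat.mk 0xc0000000c000000180000000800000000 0x80000000c0000000c0000001c0000000f00000006 4 5) 0 0 (step_sound _ 34 [(rh932754581e0f4330.shift 2 0), rhd839b0d27cb88531] (by decide +kernel))
noncomputable def rh6c7831bafd354b22 : CRef := CRef.mk (Pat.mk 0xc00000008000000080000000800000000 0x1f0000007c000000080000000800000008 4 7) 0 0 (step_sound _ 100 [(rh5c5a2014709044d0.shift 0 3), (rh94f1a52185fc620a.shift 1 0), (rhc705a4e0321a1bff.shift 2 0)] (by decide +kernel))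
noncomputable def rhf8f635b84d0df4af : CRef := CRef.mk (Pat.mk 0x400000006000000030000000800000000 0x4000000040000000c0000001e0000000b0000000800000008 4 5) 0 0 (step_sound _ 99 [(rh18965a982d73c794.shift 0 2), (rha510588bba5f6b6d.shift 1 0)] (by decide +kernel))
noncomputable def rh1fa722946c96e1d0 : CRef := CRef.mk (Pat.mk 0x180000001e0000001000000018 0x10000000180000003e0000001f00000038 4 6) 0 0 (step_sound _ 35 [(rh2f68792b6b779e96.shift 3 0), rhc31b6f966e0d7e89] (by decide +kernel))
noncomputable def rh6b2e79956d04e46d : CRef := CRef.mk (Pat.mk 0x100000001e000000100000001000000000 0x100000003e0000001f0000003000000020 4 6) 0 0 (step_sound _ 65 [(rh0b227814275d8e17.shift 1 0), (rheb0810cc63b001d8.shift 0 2)] (by decide +kernel))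
noncomputable def rh807c328646bd0193 : CRef := CRef.mk (Pat.mk 0x1c0000000800000008 0x1000000010000000380000001f0000001800000008 4 6) 0 0 (step_sound _ 100 [rh315ddbde81e573c5, (rh6558fc11d90a948b.shift 0 1), (rh69755ef358ebfd54.shift 3 0)] (by decide +kernel))
noncomputable def rhb5cf6789a350d3c2 : CRef := CRef.mk (Pat.mk 0x3000000030000000e00000006 0x1c0000001f0000000b0000000e00000006 4 5) 0 0 (step_sound _ 98 [(rh2f68792b6b779e96.shift 1 0), rh4e00e36f06f7e587] (by decide +kernel))
noncomputable def rh4d9b7de49d2a25f3 : CRef := CRef.mk (Pat.mk 0x18000000030000000800000000 0x100000001000000018000000180000000f0000000800000008 4 5) 0 0 (step_sound _ 67 [(rh1c62b6193297d9e3.shift 0 2), (rh215e11e099257d75.shift 3 0)] (by decide +kernel))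
noncomputable def rh7e0796fd78e445bd : CRef := CRef.mk (Pat.mk 0x500000001000000060000000200000000 0x60000000700000003000000060000000600000006 4 3) 0 0 (step_sound _ 97 [(rh4dec404a6c0e229a.shift 1 0), rh7b1f1fb55310c477] (by decide +kernel))
noncomputable def rh03f2a1ecb6f13e2c : CRef := CRef.mk (Pat.mk 0x80000000b0000000c0000000000000000 0x18000000180000000f0000000c0000000c00000004 4 5) 0 0 (step_sound _ 132 [(rh1c62b6193297d9e3.shift 0 3), (rh5eb5c87ad6247a88.shift 2 0)] (by decide +kernel))
noncomputable def rh47dc7c4bd0bea94e : CRef := CRef.mk (Pat.mk 0x3000000030000000200000006 0x2000000060000000600000007000000030000000600000006 4 3) 0 0 (step_sound _ 129 [(rhd3458b32566d63f7.shift 1 0), rhf4b6ff9bf202428e] (by decide +kernel))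
noncomputable def rhb848572c2b751f6f : CRef := CRef.mk (Pat.mk 0x2000000060000000f0000000000000000 0x400000006000000060000000f0000001c0000000c 4 5) 0 0 (step_sound _ 35 [(rh8b44683104dc2fe1.shift 1 0), (rhe25b0a99195a5d59.shift 0 1)] (by decide +kernel))
noncomputable def rhdcf10ad5fbc4b5fe : CRef := CRef.mk (Pat.mk 0x8000000080000001c0000000000000000 0x800000008000000180000001f0000003000000010 4 6) 0 0 (step_sound _ 36 [(rh2145e1d24b96a57e.shift 3 1), rhcd11d81bf877826f] (by decide +kernel))
noncomputable def rhe4453746603cf0a3 : CRef := CRef.mk (Pat.mk 0x80000001e000000000000000400000000 0x2000000020000000f0000001e000000040000000400000004 4 5) 0 0 (step_sound _ 66 [(rh1c1037cb5b3fe471.shift 0 1), (rh71222050f2c63a3a.shift 2 0)] (by decide +kernel))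
noncomputable def rhab8b64f34362157f : CRef := CRef.mk (Pat.mk 0x40000000e000000000000000600000000 0x1000000070000001e000000020000000600000006 4 5) 0 0 (step_sound _ 65 [rh0cbd98d022e84f17, (rh71222050f2c63a3a.shift 1 0)] (by decide +kernel))
noncomputable def rhd67198fa3ebd7ccb : CRef := CRef.mk (Pat.mk 0x40000000c000000020000000600000000 0x1000000070000001e000000020000000600000006 4 5) 0 0 (step_sound _ 97 [rh0cbd98d022e84f17, (rh71222050f2c63a3a.shift 1 0)] (by decide +kernel))
noncomputable def rhae41c86fcf2bcac3 : CRef := CRef.mk (Pat.mk 0x1000000010000000080000003800000000 0x1000000018000000080000007c0000000f 4 7) 0 0 (step_sound _ 3 [(rh1006c02ae4212ff0.shift 3 0), rh2820ca9a6c4f41b4] (by decide +kernel))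
noncomputable def rh1f7c8c7ebf15f44e : CRef := CRef.mk (Pat.mk 0x40000000c0000000800000008 0x140000003c0000000f0000000800000008 4 6) 0 0 (step_sound _ 99 [(rh50fbb5868c909700.shift 2 0), rhc0ddb33d3a52722b] (by decide +kernel))
noncomputable def rh9d71f6220e0cddc7 : CRef := CRef.mk (Pat.mk 0xf00000002 0x380000003f00000076 4 7) 0 0 (step_sound _ 36 [rh7c057b8ca417ecd1, (rh9890f9d77740bbed.shift 0 1), (rhf3baec4a0a3dd35e.shift 1 0)] (by decide +kernel))
noncomputable def rh0d35c975ee37cf45 : CRef := CRef.mk (Pat.mk 0x800000008000000180000000800000000 0x800000008000000380000001f00000014 4 6) 0 0 (step_sound _ 34 [(rh932754581e0f4330.shift 2 0), rhe91d569eab25e5c1] (by decide +kernel))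
noncomputable def rh5deeb44fca266d91 : CRef := CRef.mk (Pat.mk 0x600000002000000020000000300000000 0x2000000020000000600000006000000070000000700000002 4 3) 0 0 (step_sound _ 161 [(rh79877ebd3ef475dd.shift 0 1), (rhfcf5e7ae266cd72e.shift 1 0)] (by decide +kernel))
noncomputable def rh2420ce23e32af1a0 : CRef := CRef.mk (Pat.mk 0x40000001c0000000800000000 0x400000004000000040000001c0000000f0000000a 4 5) 0 0 (step_sound _ 130 [(rh2145e1d24b96a57e.shift 2 1), rhffb35f5e5ddd6656] (by decide +kernel))
noncomputable def rha67a6bd113c82a2b : CRef := CRef.mk (Pat.mk 0x400000004000000000000000a00000008 0x400000004000000040000000f0000007c 4 7) 0 0 (step_sound _ 34 [rhc21a95c499b3efdb, (rhff0f29cb645b05f7.shift 2 0)] (by decide +kernel))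
noncomputable def rhd1a3afdce1068a42 : CRef := CRef.mk (Pat.mk 0x40000000e000000030000001800000000 0x100000003c0000000e0000000f0000001800000010 4 6) 0 0 (step_sound _ 67 [(rh32d61858e9a28a95.shift 1 0), (rhc10214bf3fe8094a.shift 0 1)] (by decide +kernel))
noncomputable def rhf324027211bf676f : CRef := CRef.mk (Pat.mk 0x40000000c000000030000000a00000000 0x80000000c0000000c000000070000001e0000000c 4 5) 0 0 (step_sound _ 34 [(rh1b249a9225fcaf51.shift 2 0), (rhf48373e13d2bc128.shift 0 1)] (by decide +kernel))
noncomputable def rhafc4c9a9d69fbade : CRef := CRef.mk (Pat.mk 0x1c0000003800000008 0x4000000060000007c0000003f0000000f 4 7) 0 0 (step_sound _ 34 [rhcc2be1f880c5ea3e, (rhf6780567ccc6600e.shift 1 0), (rhf9d36e158778ce35.shift 1 1)] (by decide +kernel))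
noncomputable def rh331a7c318f5f9a02 : CRef := CRef.mk (Pat.mk 0x2000000020000000300000004 0x4000000060000000600000002000000030000000700000004 4 3) 0 0 (step_sound _ 129 [(rh9a369cb82ea472da.shift 0 1), (rhd3458b32566d63f7.shift 1 0)] (by decide +kernel))
noncomputable def rh8045f5c30afe4923 : CRef := CRef.mk (Pat.mk 0x800000008000000380000001000000000 0x80000006f0000003e0000007600000004 4 7) 0 0 (step_sound _ 66 [(rh749b18d40cac3400.shift 1 1), (rhae036cc4ef671676.shift 1 0), (rhd0782bcc7d08fb46.shift 0 1)] (by decide +kernel))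
noncomputable def rh2bca20f4ce94f759 : CRef := CRef.mk (Pat.mk 0x80000000c000000380000001000000010 0x200000007c0000002f000000380000003000000010 4 7) 0 0 (step_sound _ 97 [(rhb739f4f82bb681b4.shift 0 2), (rhce710208d4cc2f5c.shift 1 0)] (by decide +kernel))
noncomputable def rh30d0de1a76abc67c : CRef := CRef.mk (Pat.mk 0x7800000020 0xe0000007e00000037 4 7) 0 0 (step_sound _ 34 [rh0de499e0455c9c14, (rhd5eb272e07a4e288.shift 1 1)] (by decide +kernel))
noncomputable def rh1eef98f3e0ecb390 : CRef := CRef.mk (Pat.mk 0xc0000000c000000060000000000000000 0x20000000f0000003c000000060000000400000004 4 6) 0 0 (step_sound _ 100 [(rh18965a982d73c794.shift 1 2), rhda49d08e88765cc3] (by decide +kernel))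
noncomputable def rh73f77e2537271e39 : CRef := CRef.mk (Pat.mk 0x800000018000000080000000800000000 0x1f0000003c000000080000000800000008 4 6) 0 0 (step_sound _ 130 [rh01ce562d3abaa039, rh13c496b0c058d1b3, (rhb0121edee88fe839.shift 0 3), (rhc705a4e0321a1bff.shift 2 0)] (by decide +kernel))
noncomputable def rh989334f0df11959e : CRef := CRef.mk (Pat.mk 0x800000008000000080000001800000000 0x80000000800000008000000380000001f00000004 4 6) 0 0 (step_sound _ 34 [(rh292e135d17d1e2e1.shift 0 1), (rh932754581e0f4330.shift 2 0)] (by decide +kernel))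
noncomputable def rhf567e284c2dbdd01 : CRef := CRef.mk (Pat.mk 0x100000002000000020000000200000000 0x50000000700000007000000020000000200000002 4 3) 0 0 (step_sound _ 129 [(rh50fbb5868c909700.shift 0 1), rhc0681f90f27d666e] (by decide +kernel))
noncomputable def rh3d14136b9174be6b : CRef := CRef.mk (Pat.mk 0xe0000001c0000000000000000 0x4000000040000003e0000001f0000000300000002 4 6) 0 0 (step_sound _ 65 [rh031a926e4a883687, (rhf9d36e158778ce35.shift 0 2)] (by decide +kernel))
noncomputable def rhf7bb2810c702fc32 : CRef := CRef.mk (Pat.mk 0x3e0000001000000010 0x80000000c000000ff0000001800000010 4 8) 0 0 (step_sound _ 35 [(rh1b048598a8b37bd5.shift 2 0), (rhb739f4f82bb681b4.shift 0 1)] (by decide +kernel))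
noncomputable def rh66eeaab91603179f : CRef := CRef.mk (Pat.mk 0x800000018000000080000001800000000 0x800000008000000180000000f0000003c00000004 4 6) 0 0 (step_sound _ 34 [(rh932754581e0f4330.shift 2 0), (rhb4aa4f704a185866.shift 0 1)] (by decide +kernel))
noncomputable def rh18619a4549c5b100 : CRef := CRef.mk (Pat.mk 0x20000000e000000020000000400000000 0x2000000020000001e000000030000000700000005 4 5) 0 0 (step_sound _ 64 [(rh18965a982d73c794.shift 0 2), rha6b68a0a3e02928f] (by decide +kernel))
noncomputable def rha91d35467c4e1737 : CRef := CRef.mk (Pat.mk 0x10000000f00000000 0x1b0000001f00000038 4 6) 0 0 (step_sound _ 67 [rh2aac33c566332a8c, (rh33e738c4ed385b9f.shift 0 1)] (by decide +kernel))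
noncomputable def rh1799ee5337b5c023 : CRef := CRef.mk (Pat.mk 0x20000001e000000000000000400000000 0x60000003e000000030000000600000006 4 6) 0 0 (step_sound _ 65 [(rh6b239d5a3c4e1f6f.shift 1 0), (rheb0810cc63b001d8.shift 0 2)] (by decide +kernel))
noncomputable def rh746db7778c71431e : CRef := CRef.mk (Pat.mk 0x20000000200000002000000000000000100000000 0x1000000030000000300000002000000030000000300000001 4 2) 0 0 (step_sound _ 65 [rh374dff4f3719a414, (rh79877ebd3ef475dd.shift 0 1)] (by decide +kernel))
noncomputable def rh24dc8eb7766767ae : CRef := CRef.mk (Pat.mk 0x7800000020 0x1fe0000003f 4 9) 0 0 (step_sound _ 34 [rh0de499e0455c9c14, (rhc79769c0453a04d3.shift 1 0), (rheae1728ff4a56756.shift 1 0)] (by decide +kernel))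
noncomputable def rhf2cf56c4eb45b014 : CRef := CRef.mk (Pat.mk 0x6000000070000000c0000000800000008 0x100000001e000000170000003c0000001800000008 4 6) 0 0 (step_sound _ 132 [(rh361cc68994bd8a63.shift 0 3), (rhcfbba3f5affe15b2.shift 1 0)] (by decide +kernel))
noncomputable def rh63dc2e9728281e35 : CRef := CRef.mk (Pat.mk 0x800000003000000060000000400000004 0x80000000b0000001f0000003c00000004 4 6) 0 0 (step_sound _ 67 [rhea01e0411aa39015, (rhf48373e13d2bc128.shift 0 2)] (by decide +kernel))
noncomputable def rh2448d851fa8ed473 : CRef := CRef.mk (Pat.mk 0x80000000300000006000000000000000400000000 0x8000000080000000b0000001e0000000c0000000400000004 4 5) 0 0 (step_sound _ 66 [(rh7b1f1fb55310c477.shift 1 0), (rhcfbba3f5affe15b2.shift 0 1)] (by decide +kernel))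
noncomputable def rh910532ce4806d80d : CRef := CRef.mk (Pat.mk 0x100000001800000038000000000000000000000000 0x10000000180000003f000000770000002000000020 4 7) 0 0 (step_sound _ 98 [(rhc7b95363f9049b11.shift 2 0), (rhcc2be1f880c5ea3e.shift 0 2)] (by decide +kernel))
noncomputable def rh9955b4045fc97d81 : CRef := CRef.mk (Pat.mk 0x1800000008000000080000000800000000 0x40000001f00000038000000080000000800000008 4 6) 0 0 (step_sound _ 130 [(rh50fbb5868c909700.shift 2 1), rh60f82781c006f894] (by decide +kernel))
noncomputable def rh3c9b9d910dace22d : CRef := CRef.mk (Pat.mk 0x40000001c00000008 0x70000003f00000038 4 6) 0 0 (step_sound _ 65 [rhbf77dad9b53157cf, (rhf48373e13d2bc128.shift 1 1)] (by decide +kernel))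
noncomputable def rh7a294f8c38ec0db8 : CRef := CRef.mk (Pat.mk 0x800000008000000080000000c00000018 0x40000000c0000000c000000080000000c0000000f00000018 4 5) 0 0 (step_sound _ 33 [(rha54302d5ccf5246c.shift 2 1), rhb739f4f82bb681b4] (by decide +kernel))
noncomputable def rh2d2cd808472a7408 : CRef := CRef.mk (Pat.mk 0x1c00000018 0xe0000000ff0000001f 4 8) 0 0 (step_sound _ 37 [(rh226655e3fe6b4a8a.shift 2 0), (rh2612b4f73ba7c3b3.shift 2 0), rh583cd2949503eb8f] (by decide +kernel))
noncomputable def rh88217c1459e7e955 : CRef := CRef.mk (Pat.mk 0x80000000c0000000e00000008 0x10000000380000003f0000000e00000008 4 6) 0 0 (step_sound _ 100 [(rh2f68792b6b779e96.shift 3 0), (rh81d2c071e021c2e9.shift 0 1)] (by decide +kernel))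
noncomputable def rhf25d2e53de6ff05b : CRef := CRef.mk (Pat.mk 0x700000002000000000000000f00000000 0x70000001e0000000c0000000f00000018 4 5) 0 0 (step_sound _ 3 [rh3d7c3227a3915fa4, rhe25b0a99195a5d59] (by decide +kernel))
noncomputable def rh9a501d6bafc39938 : CRef := CRef.mk (Pat.mk 0xc000000080000000a000000020000000000000000 0xc0000000c0000000b0000001e0000001c00000014 4 5) 0 0 (step_sound _ 67 [(rh11a243992b58ed44.shift 0 1), (rha613ffd40b6c9d24.shift 2 0), (rhe4441baab75a6f73.shift 2 0)] (by decide +kernel))
noncomputable def rh171d3b46f9ec8b79 : CRef := CRef.mk (Pat.mk 0x3000000020000000280000000800000000 0x1000000030000000300000007c0000001f00000018 4 7) 0 0 (step_sound _ 68 [(rh2820ca9a6c4f41b4.shift 0 1), (rhb7baffa3acbb3123.shift 3 0)] (by decide +kernel))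
noncomputable def rhf3e4ee6a14a4c7fe : CRef := CRef.mk (Pat.mk 0xc000000080000000a0000000200000000 0x40000000c000000080000000b0000001e00000014 4 5) 0 0 (step_sound _ 35 [rh11a243992b58ed44, (rh50fbb5868c909700.shift 2 1)] (by decide +kernel))
noncomputable def rh8ba95a087086842a : CRef := CRef.mk (Pat.mk 0xe0000000000000004000000040000000000000000 0x80000001f000000780000000c0000000c0000000400000004 4 7) 0 0 (step_sound _ 131 [(rh8ee80cc30e93a344.shift 0 4), (rhe83f0679b86b6627.shift 2 0)] (by decide +kernel))
noncomputable def rhd481882e425e8e93 : CRef := CRef.mk (Pat.mk 0x400000004000000060000000400000000 0x400000004000000070000003e0000000a 4 6) 0 0 (step_sound _ 35 [rh4c761f03f00ba0ef, (rh55afc6a59410cf00.shift 2 0)] (by decide +kernel))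
noncomputable def rh7f5bfdb6ed78322d : CRef := CRef.mk (Pat.mk 0x20000000300000008000000080000000c00000000 0x40000001e0000000f00000008000000080000000c00000004 4 5) 0 0 (step_sound _ 131 [(rh3eed67307fb79f37.shift 0 1), (rh932754581e0f4330.shift 2 0)] (by decide +kernel))
noncomputable def rhe917ea42a7799b0e : CRef := CRef.mk (Pat.mk 0x38000000100000000600000000 0x60000003e000000770000000600000002 4 7) 0 0 (step_sound _ 98 [(rha03f6e28ea70fc7d.shift 1 2), (rhb2432c16363a7e8d.shift 0 2), (rhee7ff23a5259ed94.shift 1 0)] (by decide +kernel))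
noncomputable def rh03091da0a522beeb : CRef := CRef.mk (Pat.mk 0x1e000000020000000a00000018 0x30000001e000000020000001e0000007c 4 7) 0 0 (step_sound _ 129 [(rh3244c3cc8379b070.shift 0 3), (rhbb46da1a4a828462.shift 1 0)] (by decide +kernel))
noncomputable def rh77a0c5a99b4ee224 : CRef := CRef.mk (Pat.mk 0x380000001000000006000000040000000000000000 0x30000003e0000003700000006000000040000000400000004 4 6) 0 0 (step_sound _ 161 [(rh28afc5b167f84184.shift 1 0), (rhc4d60e5c12185eb6.shift 0 4), (rhcf7a8bf02a398215.shift 0 2), (rhe6ecd4c923e556d5.shift 0 2)] (by decide +kernel))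
noncomputable def rh7d9f4a7b09b4d867 : CRef := CRef.mk (Pat.mk 0x1e00000000000000020000001a0000000000000000 0x1e00000003000000020000001f0000000300000001 4 5) 0 0 (step_sound _ 129 [rh35b80a50a4320679, (rheb0810cc63b001d8.shift 0 4)] (by decide +kernel))
noncomputable def rh6115dbb0673dc671 : CRef := CRef.mk (Pat.mk 0x1e00000000000000020000000200000000 0x30000001e00000003000000030000000300000001 4 5) 0 0 (step_sound _ 97 [rhd9048603f1912b39, (rheb0810cc63b001d8.shift 0 3)] (by decide +kernel))
noncomputable def rh1e22cd98e32bfbbb : CRef := CRef.mk (Pat.mk 0x300000002000000020000000000000000 0x50000000700000007000000020000000200000002 4 3) 0 0 (step_sound _ 33 [(rh50fbb5868c909700.shift 0 1), rhc0681f90f27d666e] (by decide +kernel))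
noncomputable def rhba11115f1e70ce5e : CRef := CRef.mk (Pat.mk 0x7000000030000000200000004 0x1a0000001f000000070000000600000004 4 5) 0 0 (step_sound _ 34 [(rh2145e1d24b96a57e.shift 1 0), rh3694ccc47a1810b0] (by decide +kernel))
noncomputable def rh0bf62c8bc7b4a0de : CRef := CRef.mk (Pat.mk 0x8000000380000001c0000000000000000 0xf0000003f0000007c0000000600000004 4 7) 0 0 (step_sound _ 98 [(rhba89ab7cb81bcc90.shift 0 2), (rhf32f861d69cb038f.shift 1 0)] (by decide +kernel))
noncomputable def rh7d6ca8adfeb65c76 : CRef := CRef.mk (Pat.mk 0x800000008000000380000000800000000 0x1000000018000000080000003c0000000f00000004 4 6) 0 0 (step_sound _ 34 [(rh3631ff12967f440c.shift 0 1), (rh932754581e0f4330.shift 2 0)] (by decide +kernel))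
noncomputable def rhf44e0cb39201d3b9 : CRef := CRef.mk (Pat.mk 0xc0000001800000018 0xf0000003f00000038 4 6) 0 0 (step_sound _ 65 [rha0f0f65a9dc65816, (rhb739f4f82bb681b4.shift 0 1)] (by decide +kernel))
noncomputable def rh8a4ee1bf74df4e88 : CRef := CRef.mk (Pat.mk 0x1c00000008000000180000001800000000 0x1f000000380000001e0000007800000020 4 7) 0 0 (step_sound _ 100 [(rhad5d8fc3675c15dd.shift 0 3), (rhfe557af9112f51d6.shift 1 0)] (by decide +kernel))
noncomputable def rhe61e20a1e2d5bc32 : CRef := CRef.mk (Pat.mk 0x1000000010000000060000001800000000 0x100000007c0000000f0000001800000008 4 7) 0 0 (step_sound _ 67 [(rhb739f4f82bb681b4.shift 0 1), (rhf458db867983f0b3.shift 1 0)] (by decide +kernel))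
noncomputable def rh9b34644ac88f3615 : CRef := CRef.mk (Pat.mk 0x10000000100000000c0000000800000000 0x100000007c0000000f0000000800000008 4 7) 0 0 (step_sound _ 99 [(rh71222050f2c63a3a.shift 3 0), (rhd69c262cd33b94b3.shift 0 2)] (by decide +kernel))
noncomputable def rh820478dac2f75e58 : CRef := CRef.mk (Pat.mk 0x1800000018000000040000000c00000000 0x1000000018000000180000000f0000003c00000010 4 6) 0 0 (step_sound _ 67 [(rh2f68792b6b779e96.shift 3 1), rh4892b0043cb46d74] (by decide +kernel))
noncomputable def rh5ac3f2b7b723db1e : CRef := CRef.mk (Pat.mk 0x3000000038000000080000001800000000 0x40000000f0000000380000003f0000007800000020 4 8) 0 0 (step_sound _ 37 [(rh21968d857b838c2c.shift 3 0), (rh935da622f8ebc962.shift 4 0), (rha3204d5dbf1e6777.shift 0 1)] (by decide +kernel))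
noncomputable def rh930a946c19cc804d : CRef := CRef.mk (Pat.mk 0x100000001e000000060000000200000000 0x10000000100000001e0000003e0000000b00000008 4 6) 0 0 (step_sound _ 68 [rhde9a0e21c71efd72, (rhe25b0a99195a5d59.shift 1 2)] (by decide +kernel))
noncomputable def rh31b96bf68293d1ba : CRef := CRef.mk (Pat.mk 0xc0000000f00000002 0xc0000007f0000003e 4 7) 0 0 (step_sound _ 4 [(rh6a5f02fdaaf1ad36.shift 1 0), rh96851dee118c1ba3] (by decide +kernel))
noncomputable def rh7b9ee383cf895fdc : CRef := CRef.mk (Pat.mk 0x300000003000000020000000000000000 0x600000006000000060000000300000003000000030000000300000003 4 3) 0 0 (step_sound _ 161 [(rh5fa50b509d4ce753.shift 0 2), rhbdf73b26f73f8159] (by decide +kernel))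
noncomputable def rh09cd08bf7d5fae33 : CRef := CRef.mk (Pat.mk 0xe00000002 0x700000003e00000007 4 7) 0 0 (step_sound _ 36 [(rh3f9c2fb96516703c.shift 1 0), rheb0810cc63b001d8] (by decide +kernel))
noncomputable def rhe7c62770d96dd8b5 : CRef := CRef.mk (Pat.mk 0x80000000e0000000800000018 0x8000000080000000e0000003f00000038 4 6) 0 0 (step_sound _ 36 [(rh2145e1d24b96a57e.shift 3 0), rha0f0f65a9dc65816] (by decide +kernel))
noncomputable def rh3c9f4b29b538a733 : CRef := CRef.mk (Pat.mk 0x18000000000000000c0000000c00000000 0x1000000018000000080000000f0000003c00000010 4 6) 0 0 (step_sound _ 99 [(rh2f68792b6b779e96.shift 3 1), rhfe557af9112f51d6] (by decide +kernel))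
noncomputable def rh8fc6a860f4f5493d : CRef := CRef.mk (Pat.mk 0x40000000700000006000000000000000000000000 0x4000000040000000f0000001e000000080000000800000008 4 5) 0 0 (step_sound _ 99 [(rh046c5eb18e55a239.shift 2 0), (rhf48373e13d2bc128.shift 0 3)] (by decide +kernel))
noncomputable def rhccfb7521e7363676 : CRef := CRef.mk (Pat.mk 0x160000001e00000000 0x1000000010000000300000001e0000001f00000008 4 6) 0 0 (step_sound _ 67 [(rh53b3c253cb0c65f4.shift 0 1), (rh5ba2d67652840f34.shift 1 0)] (by decide +kernel))
noncomputable def rh30a07cfb4b92418c : CRef := CRef.mk (Pat.mk 0x1e0000001e00000000 0x1000000010000000300000001e0000001e0000000b 4 6) 0 0 (step_sound _ 1 [(rh5ba2d67652840f34.shift 1 0), rheb0810cc63b001d8] (by decide +kernel))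
noncomputable def rh386396f91d530b37 : CRef := CRef.mk (Pat.mk 0x8000000080000001c000000000000000000000000 0x8000000380000003f000000f00000001000000010 4 8) 0 0 (step_sound _ 68 [(rh08edf065357d68e5.shift 3 0), (rh3ce854f4a795c89f.shift 0 2), (rh64c397c5ee5b120c.shift 1 0), (rh8ee80cc30e93a344.shift 1 2)] (by decide +kernel))
noncomputable def rh0b1002c0488acbe5 : CRef := CRef.mk (Pat.mk 0x2000000060000000f0000000000000000 0x2000000060000003f0000003c00000004 4 6) 0 0 (step_sound _ 34 [(rh0cb6a409506b34ea.shift 0 1), (rh7b1f1fb55310c477.shift 1 0)] (by decide +kernel))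
noncomputable def rhb484cde131b8a418 : CRef := CRef.mk (Pat.mk 0x4000000380000000800000000 0x4000000040000000c0000001f000000380000000800000008 4 6) 0 0 (step_sound _ 99 [(rhb1a251d9bff81766.shift 2 0), (rhc02b3aee7ab87ee1.shift 0 2)] (by decide +kernel))
noncomputable def rh00bbf7855e20f51c : CRef := CRef.mk (Pat.mk 0xc000000080000000e 0x1f000000780000000f 4 7) 0 0 (step_sound _ 36 [(rh4ca5dae25f5c14ff.shift 0 1), rh53b3c253cb0c65f4] (by decide +kernel))
noncomputable def rh670c97b2ed31ba5e : CRef := CRef.mk (Pat.mk 0x18000000100000001c0000000600000000 0x800000018000000100000001f0000003e00000008 4 6) 0 0 (step_sound _ 36 [(rh50fbb5868c909700.shift 3 1), rhf6c7575301677f45] (by decide +kernel))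
noncomputable def rh51c627c920ff400b : CRef := CRef.mk (Pat.mk 0x8000000100000001e00000006 0x1800000018000000100000001f0000003e 4 6) 0 0 (step_sound _ 4 [(rhe25b0a99195a5d59.shift 1 0), rhf76eda6165674100] (by decide +kernel))
noncomputable def rh95c502c997f07572 : CRef := CRef.mk (Pat.mk 0x1c00000006000000020000000300000000 0x10000001f0000003e000000020000000300000001 4 6) 0 0 (step_sound _ 129 [(rh2158a18b2b2eb226.shift 0 1), rh932754581e0f4330] (by decide +kernel))
noncomputable def rhf93572a3cf60ed3d : CRef := CRef.mk (Pat.mk 0x180000001e0000001a0000000000000000 0x1f0000003e0000001a0000000f0000000e 4 6) 0 0 (step_sound _ 33 [rh8e1a2b0d48cea5a0, rhf77beb34d2f35d2d] (by decide +kernel))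
noncomputable def rhff9b60ef36535e8c : CRef := CRef.mk (Pat.mk 0xe00000003000000060000000600000000 0x180000000f0000001b0000000e0000000600000002 4 5) 0 0 (step_sound _ 128 [(rh1fbc9fee05401eba.shift 0 1), rh7b1f1fb55310c477] (by decide +kernel))
noncomputable def rhcffafab25e5893f3 : CRef := CRef.mk (Pat.mk 0xc000000040000000c0000000800000000 0x8000000180000003c0000000f0000001c0000001800000010 4 6) 0 0 (step_sound _ 99 [(rh6655c67851f4b756.shift 2 0), (rhc0ddb33d3a52722b.shift 0 1)] (by decide +kernel))
noncomputable def rhb240ddcdd15491bf : CRef := CRef.mk (Pat.mk 0x4000000070000000c00000000 0x8000000080000001c0000000f0000001c00000004 4 5) 0 0 (step_sound _ 67 [rhc0ac6cdbaa8efa90, (rhe25b0a99195a5d59.shift 0 1)] (by decide +kernel))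
noncomputable def rhad1023d97d0f55dc : CRef := CRef.mk (Pat.mk 0xa0000003c00000040 0x1b000000ff000000c0 4 8) 0 0 (step_sound _ 33 [(rh3244c3cc8379b070.shift 0 1), rh4dde7de28aaf2ba1] (by decide +kernel))
noncomputable def rhfd8780583b3a591d : CRef := CRef.mk (Pat.mk 0x30000000200000002000000020000000000000000 0x4000000070000000300000002000000030000000300000001 4 3) 0 0 (step_sound _ 194 [(rhbaefcd01e0a8bca3.shift 1 2), rhe4441baab75a6f73] (by decide +kernel))
noncomputable def rhbfc9eeb6ec948f45 : CRef := CRef.mk (Pat.mk 0x100000001800000038000000020000000000000000 0x10000000180000003f000000730000002000000020 4 7) 0 0 (step_sound _ 98 [(rhc7b95363f9049b11.shift 2 0), (rhd74396e693bc7125.shift 0 2)] (by decide +kernel))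
noncomputable def rh87d79b35134c4259 : CRef := CRef.mk (Pat.mk 0x20000000200000002000000020000000000000000 0x20000000200000002000000070000000700000005 4 3) 0 0 (step_sound _ 33 [rh7928877f9bf74a91, rh96b9ddd2353c6a13, (rhd29a1fb688eae70f.shift 1 0)] (by decide +kernel))
noncomputable def rhdbbfd1e5bf77d31f : CRef := CRef.mk (Pat.mk 0x200000002000000020000000200000002 0x4000000070000000700000003000000020000000200000002 4 3) 0 0 (step_sound _ 162 [rh9e335884f300c296, (rhbaefcd01e0a8bca3.shift 1 1)] (by decide +kernel))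
noncomputable def rh4be12bd44337ebdb : CRef := CRef.mk (Pat.mk 0x20000000200000006000000060000000000000000 0x60000000600000006000000070000000300000003 4 3) 0 0 (step_sound _ 32 [rh5e5c8b8743d45333, (rh79877ebd3ef475dd.shift 0 1)] (by decide +kernel))
noncomputable def rh9b93b577712a20e4 : CRef := CRef.mk (Pat.mk 0x60000000200000002000000020000000000000000 0x1000000070000000700000002000000020000000600000004 4 3) 0 0 (step_sound _ 33 [(rhbaefcd01e0a8bca3.shift 1 1), rhe30cdf9ac8008bd4] (by decide +kernel))
noncomputable def rhf0a98569a9321dc2 : CRef := CRef.mk (Pat.mk 0x40000000e000000080000000c00000000 0x40000001e0000007e0000000f00000002 4 7) 0 0 (step_sound _ 68 [(rh4a0b10776449c3e9.shift 1 2), (rhc3c694226a015fc3.shift 1 1), rhebbf0f79de50f641] (by decide +kernel))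
noncomputable def rha56a8c38139ccd67 : CRef := CRef.mk (Pat.mk 0x20000000300000000c000000080000000c 0x200000002000000020000000300000003c0000007c0000001f 4 7) 0 0 (step_sound _ 36 [(rh580df77fe152422b.shift 4 0), rh95c7bf00a65f6c99] (by decide +kernel))
noncomputable def rh5ae4fcfc65b0c6c4 : CRef := CRef.mk (Pat.mk 0x8000000080000000e00000000 0x800000008000000380000001f00000030 4 6) 0 0 (step_sound _ 68 [(rh04ced5f58dc875e7.shift 1 0), (rh53b3c253cb0c65f4.shift 0 1)] (by decide +kernel))
noncomputable def rh13c48259919d8812 : CRef := CRef.mk (Pat.mk 0x1000000010000000380000000c0000000800000000 0x1000000030000000380000002f0000007c00000020 4 7) 0 0 (step_sound _ 65 [(rh00e4849a9c0a8d60.shift 1 0), (rh53b3c253cb0c65f4.shift 0 2)] (by decide +kernel))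
noncomputable def rh291728dc9d186c6f : CRef := CRef.mk (Pat.mk 0x8000000080000001c000000000000000000000000 0x8000000180000003f000000f00000001000000010 4 8) 0 0 (step_sound _ 68 [(rh08edf065357d68e5.shift 3 0), (rh8ee80cc30e93a344.shift 1 2), (rhb8a1f9a12fc8f26e.shift 0 1)] (by decide +kernel))
noncomputable def rh6b61443ae4ff0acb : CRef := CRef.mk (Pat.mk 0x20000000f00000000 0x70000003f00000038 4 6) 0 0 (step_sound _ 36 [(rh3244c3cc8379b070.shift 0 1), rhd84e93b9a2e3adea] (by decide +kernel))
noncomputable def rh07d9da5b7e224558 : CRef := CRef.mk (Pat.mk 0xe000000080000000400000004 0x780000001f000000080000000c00000004 4 7) 0 0 (step_sound _ 131 [(rha11dfd15f08f96e3.shift 0 3), (rheea67dfebd0f8008.shift 2 0)] (by decide +kernel))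
noncomputable def rh0292c207cc9a6188 : CRef := CRef.mk (Pat.mk 0x1e000000000000000800000008 0x380000001f000000300000001800000008 4 6) 0 0 (step_sound _ 132 [(rh33e738c4ed385b9f.shift 1 3), rhd2a9f1ff2f8fa11b] (by decide +kernel))
noncomputable def rh3001434bc51a43e8 : CRef := CRef.mk (Pat.mk 0x60000001c0000000000000000 0x400000004000000070000001e0000000300000002 4 5) 0 0 (step_sound _ 65 [rh031a926e4a883687, (rh3244c3cc8379b070.shift 0 2)] (by decide +kernel))
noncomputable def rh6a941cf9bb21d255 : CRef := CRef.mk (Pat.mk 0x60000001c000000100000000000000000 0x4000000060000001e000000330000000200000002 4 6) 0 0 (step_sound _ 97 [rh9a011a4d0ec8f646, (rhe25b0a99195a5d59.shift 1 2)] (by decide +kernel))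
noncomputable def rhd29b35898344b9da : CRef := CRef.mk (Pat.mk 0x1e0000001c00000010 0x80000000f0000007e0000001c00000010 4 7) 0 0 (step_sound _ 99 [(rh2145e1d24b96a57e.shift 3 0), (rh6e8a826a5508ce46.shift 0 1)] (by decide +kernel))
noncomputable def rh39012464be459f53 : CRef := CRef.mk (Pat.mk 0x4000000060000001c000000080000000000000000 0x200000006000000060000001c0000000f0000000600000002 4 5) 0 0 (step_sound _ 66 [(rh24b4f41f846cb1d8.shift 1 0), (rhe286c75f2739cce2.shift 1 1), (rhf5094ad2a427d4d3.shift 0 1)] (by decide +kernel))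
noncomputable def rh49f6fa4d23c31d4b : CRef := CRef.mk (Pat.mk 0x20000000e0000001800000010 0x30000003e0000001f00000030 4 6) 0 0 (step_sound _ 68 [(rh3244c3cc8379b070.shift 0 2), rhc31b6f966e0d7e89] (by decide +kernel))
noncomputable def rh65595fe2ee4bf785 : CRef := CRef.mk (Pat.mk 0xa0000000e0000000800000000 0x4000000040000000f0000003e0000000800000008 4 6) 0 0 (step_sound _ 68 [(rh3244c3cc8379b070.shift 0 2), (rhdc3c7eb7a8edfe18.shift 1 0)] (by decide +kernel))
noncomputable def rh9ed5bb099649ffd3 : CRef := CRef.mk (Pat.mk 0xe0000000800000008 0x10000000300000001f0000003800000008 4 6) 0 0 (step_sound _ 36 [(rh1d0feb764c8c303c.shift 1 0), (rhb739f4f82bb681b4.shift 0 1)] (by decide +kernel))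
noncomputable def rh1d59670bda65fb99 : CRef := CRef.mk (Pat.mk 0x40000000000000003000000030000000800000000 0x60000000600000003000000030000001f00000005 4 5) 0 0 (step_sound _ 129 [rh1e309b005ffa1b36, rh6dbd3bf41492e478] (by decide +kernel))
noncomputable def rh8bb9cbc40f723f93 : CRef := CRef.mk (Pat.mk 0x4000000000000001e0000000000000000 0x4000000070000003e0000000300000002 4 6) 0 0 (step_sound _ 97 [(rh3244c3cc8379b070.shift 0 2), rh86cd0e616f49482a] (by decide +kernel))
noncomputable def rh2a94f4750259dbac : CRef := CRef.mk (Pat.mk 0x1e0000001a000000000000000000000004 0x2000000030000003e0000001e000000040000000400000004 4 6) 0 0 (step_sound _ 98 [rh2047037f4c249df3, (rh33e738c4ed385b9f.shift 1 3)] (by decide +kernel))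
noncomputable def rh7740ab0b4faa8e97 : CRef := CRef.mk (Pat.mk 0x180000000e000000000000000400000000 0x380000003e000000070000000400000004 4 6) 0 0 (step_sound _ 100 [(rh33e738c4ed385b9f.shift 1 3), rh6eb743af4fb9bc9e] (by decide +kernel))
noncomputable def rh03f638801e896cdf : CRef := CRef.mk (Pat.mk 0x4000000160000000200000000 0x400000004000000070000001e0000000300000002 4 5) 0 0 (step_sound _ 67 [rh03f9d36a2d6e8f0b, (rheb0810cc63b001d8.shift 0 1)] (by decide +kernel))
noncomputable def rh3eb1859586b6b270 : CRef := CRef.mk (Pat.mk 0x600000007000000010000000000000000 0x2000000020000000600000007000000070000000500000001 4 3) 0 0 (step_sound _ 161 [(rh5c5e593799055d58.shift 0 2), rhadf4c62fce919625] (by decide +kernel))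
noncomputable def rh67f27923ddebc6dc : CRef := CRef.mk (Pat.mk 0x2000000000000000300000003000000010000000100000000 0x300000003000000010000000300000003000000030000000300000002 4 2) 0 0 (step_sound _ 33 [(rh3c09fc3010aad7af.shift 0 1), rh55afc6a59410cf00] (by decide +kernel))
noncomputable def rhcffb98d4c5aa625f : CRef := CRef.mk (Pat.mk 0x40000001e0000000000000000 0x400000004000000040000003e0000000700000002 4 6) 0 0 (step_sound _ 33 [(rh4b481cfbdc975d9e.shift 1 0), (rheb0810cc63b001d8.shift 0 1)] (by decide +kernel))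
noncomputable def rhad2e5f3a7ec95118 : CRef := CRef.mk (Pat.mk 0x600000006000000020000000200000000 0x2000000020000000600000006000000070000000700000001 4 3) 0 0 (step_sound _ 32 [(rh28271dbe58980d9c.shift 0 1), rh932754581e0f4330] (by decide +kernel))
noncomputable def rh5c4e3b9267338a4f : CRef := CRef.mk (Pat.mk 0xf00000000 0x380000001f00000038 4 6) 0 0 (step_sound _ 68 [(rh428265de8cd3cd2d.shift 0 1), rhbd5c3a2a033faccf] (by decide +kernel))
noncomputable def rhaecf007e95ea9630 : CRef := CRef.mk (Pat.mk 0xe0000001c000000000000000000000000 0x40000003e0000001f000000030000000200000002 4 6) 0 0 (step_sound _ 97 [rh9a011a4d0ec8f646, (rhf9d36e158778ce35.shift 0 3)] (by decide +kernel))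
noncomputable def rh56a18dba34c1a636 : CRef := CRef.mk (Pat.mk 0x200000002000000020000001200000010 0x200000002000000020000001f0000003d 4 6) 0 0 (step_sound _ 34 [(rh55afc6a59410cf00.shift 1 0), rh5cc2dea72ac0187e] (by decide +kernel))
noncomputable def rh40eaa9221d46bf4f : CRef := CRef.mk (Pat.mk 0xe000000010000000800000008 0x300000001e000000330000001800000008 4 6) 0 0 (step_sound _ 100 [(rh1fbc9fee05401eba.shift 1 0), (rh80fcd6d0a18cb2dd.shift 0 2)] (by decide +kernel))
noncomputable def rh472dabcf3553e8ad : CRef := CRef.mk (Pat.mk 0x1c00000002 0x70000003e00000007 4 6) 0 0 (step_sound _ 33 [rheb0810cc63b001d8, rhfb89c5de8c2d962e] (by decide +kernel))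
noncomputable def rhb60f93c86c2d0f9c : CRef := CRef.mk (Pat.mk 0x3e 0x3f0000003f 4 6) 0 0 (step_sound _ 36 [(rh33e738c4ed385b9f.shift 1 0), rh3d40549da198e64a] (by decide +kernel))
noncomputable def rh112619997b213725 : CRef := CRef.mk (Pat.mk 0xa00000003000000030000000000000000 0x50000001f00000003000000030000000200000002 4 5) 0 0 (step_sound _ 130 [(rh18965a982d73c794.shift 0 3), rh9bd2bb1b625e8a7e] (by decide +kernel))
noncomputable def rh8f5c57c10a491c8e : CRef := CRef.mk (Pat.mk 0x8000000000000001e000000160000000000000000 0x80000000a0000000b0000001e000000160000000400000004 4 5) 0 0 (step_sound _ 131 [rh1805d4d225594aed, (rh2145e1d24b96a57e.shift 3 2)] (by decide +kernel))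
noncomputable def rh37c4339f8da0dbf5 : CRef := CRef.mk (Pat.mk 0x100000001000000038000000200000000000000000 0x1000000010000000fc0000003f0000000800000008 4 8) 0 0 (step_sound _ 67 [(rh2820ca9a6c4f41b4.shift 0 2), (rh42548283029e2a39.shift 3 0), (rh7302994b41ba0e8a.shift 2 1)] (by decide +kernel))
noncomputable def rhe0e8f1a60e1decd5 : CRef := CRef.mk (Pat.mk 0x20000000a000000080000000f00000000 0x170000001e000000080000000f00000018 4 5) 0 0 (step_sound _ 3 [rhe25b0a99195a5d59, rhf86ac93687bef43a] (by decide +kernel))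
noncomputable def rh6140c0c92d5cad26 : CRef := CRef.mk (Pat.mk 0x4000000000000001e0000000800000000 0x400000004000000040000003e0000000f00000002 4 6) 0 0 (step_sound _ 33 [(rhd297bb809081865c.shift 1 0), (rheb0810cc63b001d8.shift 0 1)] (by decide +kernel))
noncomputable def rh42bd7b3db6893e22 : CRef := CRef.mk (Pat.mk 0x80000000e000000180000001c00000000 0x40000000c0000000e0000001b0000001f00000002 4 5) 0 0 (step_sound _ 33 [rh25b1076ae9791386, (rh53b3c253cb0c65f4.shift 0 1)] (by decide +kernel))
noncomputable def rhf12b12074bdf877d : CRef := CRef.mk (Pat.mk 0x200000002000000080000000c0000000c 0x1f0000001e000000080000000c0000000c 4 5) 0 0 (step_sound _ 99 [(rh5c5e593799055d58.shift 2 0), rhf86ac93687bef43a] (by decide +kernel))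
noncomputable def rh2fdd01cf0650465e : CRef := CRef.mk (Pat.mk 0x800000001000000090000000d00000001 0x100000001a0000000f000000090000000d00000005 4 5) 0 0 (step_sound _ 99 [(rh932754581e0f4330.shift 2 0), rhd9dd670e1f2579b0] (by decide +kernel))
noncomputable def rha24d3ca070557b0a : CRef := CRef.mk (Pat.mk 0x400000000000000040000000700000001 0x60000000600000006000000060000000700000003 4 3) 0 0 (step_sound _ 98 [rh5e14afd20784ba3c, (rh932754581e0f4330.shift 1 0)] (by decide +kernel))
noncomputable def rhe965b4ab85f0afd2 : CRef := CRef.mk (Pat.mk 0x7000000020000000e0000000600000000 0x80000001f0000001b0000000e0000000600000002 4 5) 0 0 (step_sound _ 96 [rh7b1f1fb55310c477, (rhbd74dafabdc61080.shift 0 1)] (by decide +kernel))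
noncomputable def rh7fe489c53abaf684 : CRef := CRef.mk (Pat.mk 0x2000000060000000a0000000200000000 0x200000002000000060000003e0000000700000004 4 6) 0 0 (step_sound _ 34 [(rh55afc6a59410cf00.shift 1 0), (rhbe35a3316eb073c1.shift 0 1)] (by decide +kernel))
noncomputable def rhd1f0a48d41e8cd0e : CRef := CRef.mk (Pat.mk 0x4000000000000001e0000000a00000000 0x4000000040000003e0000003e00000003 4 6) 0 0 (step_sound _ 34 [(rh18965a982d73c794.shift 1 1), rhcec7837146ab5006] (by decide +kernel))
noncomputable def rhd789752bdd727406 : CRef := CRef.mk (Pat.mk 0x8000000080000000000000006000000160000000000000000 0x80000000c00000004000000070000001e0000000300000002 4 5) 0 0 (step_sound _ 67 [(rh3244c3cc8379b070.shift 0 2), rhd3f10caf4397f925] (by decide +kernel))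
noncomputable def rh793fea27c223a5da : CRef := CRef.mk (Pat.mk 0x4000000140000001e00000018 0x180000003c000000170000001e00000018 4 6) 0 0 (step_sound _ 100 [(rh5c5e593799055d58.shift 3 0), rhd18ba5d65204320f] (by decide +kernel))
noncomputable def rh018c4ad94901e10b : CRef := CRef.mk (Pat.mk 0x18000000180000001000000038 0x40000001f000000380000001e00000078 4 7) 0 0 (step_sound _ 98 [(rhad5d8fc3675c15dd.shift 0 2), (rhd7f3a10f6d82f74f.shift 1 0)] (by decide +kernel))
noncomputable def rh99255533f84427b9 : CRef := CRef.mk (Pat.mk 0x80000001c000000180000000000000000 0x4000000040000000f0000003c000000180000001800000010 4 6) 0 0 (step_sound _ 36 [(rh5555e418daff3bad.shift 0 1), (rh7b1f1fb55310c477.shift 3 0)] (by decide +kernel))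
noncomputable def rh3cc6e9c124bc2ac4 : CRef := CRef.mk (Pat.mk 0x80000001c0000001800000000 0xc0000000c0000000f0000003c0000001800000008 4 6) 0 0 (step_sound _ 131 [(rh2145e1d24b96a57e.shift 3 1), rh5555e418daff3bad] (by decide +kernel))
noncomputable def rhc132b7758f1003ce : CRef := CRef.mk (Pat.mk 0x3000000060000000e00000000 0x1000000030000003e0000001e00000003 4 6) 0 0 (step_sound _ 68 [(rh2fe78cc5ca4405d8.shift 0 2), rh3e8cc367ec96a18d] (by decide +kernel))
noncomputable def rh7b9158543583fc8d : CRef := CRef.mk (Pat.mk 0xc00000018000000380000000000000000 0x40000000f00000018000000780000000c00000004 4 7) 0 0 (step_sound _ 129 [(rh3f83a2c833fc763b.shift 2 0), (rhb739f4f82bb681b4.shift 0 3)] (by decide +kernel))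
noncomputable def rh52a8186fa95d20a6 : CRef := CRef.mk (Pat.mk 0x800000018000000180000000800000000 0x40000000c0000001f000000380000000800000008 4 6) 0 0 (step_sound _ 130 [(rh50fbb5868c909700.shift 2 1), rhda30d50b0a1ebfba] (by decide +kernel))
noncomputable def rhb48b73a6ce331f7a : CRef := CRef.mk (Pat.mk 0x3000000030000000200000003 0x2000000060000000600000007000000030000000300000003 4 3) 0 0 (step_sound _ 129 [rh9e3edb185cc347de, rhf4b6ff9bf202428e] (by decide +kernel))
noncomputable def rh886e09cbb91bf7e4 : CRef := CRef.mk (Pat.mk 0x60000000c0000000c0000000000000000 0x80000000f0000003c0000000c0000000400000004 4 6) 0 0 (step_sound _ 100 [rh3c396af4afa234d3, (rhf48373e13d2bc128.shift 1 3)] (by decide +kernel))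
noncomputable def rh59fa0dd343a43444 : CRef := CRef.mk (Pat.mk 0x40000000c0000000c0000000800000000 0x180000003c0000000f0000000c0000000c00000004 4 6) 0 0 (step_sound _ 131 [(rh1e309b005ffa1b36.shift 2 0), (rhc0ddb33d3a52722b.shift 0 1)] (by decide +kernel))
noncomputable def rh7420a7af4410273d : CRef := CRef.mk (Pat.mk 0x70000000c0000000c0000000800000000 0x8000000180000007f0000000e0000000c0000001c00000010 4 7) 0 0 (step_sound _ 131 [(rh5421160f8e9bcf07.shift 0 2), (rh861ee9d7304b9753.shift 1 1), (rha85003d93e2522fd.shift 2 0)] (by decide +kernel))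
noncomputable def rh59a2b03782c241f6 : CRef := CRef.mk (Pat.mk 0x1c00000008000000180000001000000000 0x10000000100000001f00000038000000380000003000000020 4 6) 0 0 (step_sound _ 100 [(rh6655c67851f4b756.shift 3 0), (rhad5d8fc3675c15dd.shift 0 3)] (by decide +kernel))
noncomputable def rhd60a62d0d7bb46c0 : CRef := CRef.mk (Pat.mk 0xf000000040000000c0000000800000000 0x8000000180000000f0000001c0000000c0000001800000010 4 5) 0 0 (step_sound _ 99 [rha3f05166b6e09d1a, (rhe25b0a99195a5d59.shift 0 3)] (by decide +kernel))
noncomputable def rh8564be3c15eb8f39 : CRef := CRef.mk (Pat.mk 0x180000000c0000000c00000000 0x800000008000000180000000f0000003c00000010 4 6) 0 0 (step_sound _ 65 [(rh121397a93ef3afd3.shift 1 0), (rh53b3c253cb0c65f4.shift 0 2)] (by decide +kernel))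
noncomputable def rh0a18e9416056afba : CRef := CRef.mk (Pat.mk 0x60000000c00000008 0x70000003f00000038 4 6) 0 0 (step_sound _ 36 [rhbf77dad9b53157cf, (rhf48373e13d2bc128.shift 1 1)] (by decide +kernel))
noncomputable def rh5cddbefd8575cc45 : CRef := CRef.mk (Pat.mk 0x40000000100000007000000020000000300000000 0x200000006000000060000000300000007000000060000000300000001 4 3) 0 0 (step_sound _ 129 [rh932754581e0f4330, (rh97ffe9f7c907aa77.shift 0 2)] (by decide +kernel))
noncomputable def rhc031c8e4ab39f5bc : CRef := CRef.mk (Pat.mk 0x40000000100000002000000020000000200000000 0x4000000070000000300000002000000030000000300000001 4 3) 0 0 (step_sound _ 129 [rh43ae144440a96f18, (rh50fbb5868c909700.shift 0 1)] (by decide +kernel))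
noncomputable def rh7b98e4346fbcce97 : CRef := CRef.mk (Pat.mk 0x60000001c0000000a00000018 0x20000000200000002000000060000001f0000003e0000003c 4 6) 0 0 (step_sound _ 34 [(rhae2edff970a530ce.shift 1 0), rhe2e863e74469e8a1, (rhf9a6286f1d5377a2.shift 1 0)] (by decide +kernel))
noncomputable def rhd708c45c33bad245 : CRef := CRef.mk (Pat.mk 0xc000000180000000800000004 0x80000000c000000780000001f00000004 4 7) 0 0 (step_sound _ 34 [(rh5c5e593799055d58.shift 2 0), (rh8f9617ee17321bd4.shift 0 1)] (by decide +kernel))
noncomputable def rha491d167502ea13f : CRef := CRef.mk (Pat.mk 0x78000000000000001000000038 0x70000007e0000000f0000001e00000078 4 7) 0 0 (step_sound _ 98 [(rh11271bea47b59a15.shift 1 0), (rh2cc7d62e70c02209.shift 0 2), (rheae1728ff4a56756.shift 1 2)] (by decide +kernel))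
noncomputable def rhb3c80c35af28240f : CRef := CRef.mk (Pat.mk 0x80000000a0000000a0000001a000000000000000000000000 0x80000000a0000000a0000001e000000070000000700000005 4 5) 0 0 (step_sound _ 65 [rh3181373a30ceb9e3, (rh5710f30ba40ee3ec.shift 0 1), (rhe854045ea68f9a03.shift 0 2), (rhef50d508512821da.shift 1 1)] (by decide +kernel))
noncomputable def rh9ce60a7f3ac0a88a : CRef := CRef.mk (Pat.mk 0x18000000080000000a0000001e00000000 0x40000001f0000000f0000000a0000001e00000003 4 5) 0 0 (step_sound _ 97 [rh4c1b7e20f0a31b73, (rh913e4989b36d9ef9.shift 0 1), rh9f367964994b9e25, rhe1070b8cc43cdf24] (by decide +kernel))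
noncomputable def rh7d71b2e633b5d3f5 : CRef := CRef.mk (Pat.mk 0x3c000000040000003000000030 0x70000003e000000040000003e00000074 4 7) 0 0 (step_sound _ 129 [(rh3f8766e6ecb455ce.shift 1 3), rhf67b05b83b1429df] (by decide +kernel))
noncomputable def rhef6deb9f03228860 : CRef := CRef.mk (Pat.mk 0x1c0000000800000008 0x1000000010000000f00000003f0000003800000008 4 8) 0 0 (step_sound _ 100 [(rh16276789fd32c01e.shift 1 0), (rh5dec5e73a267a1c4.shift 0 1), (rh69755ef358ebfd54.shift 3 0), (rha11dfd15f08f96e3.shift 1 2)] (by decide +kernel))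
noncomputable def rhd0cd0e78c5cfff71 : CRef := CRef.mk (Pat.mk 0x20000000000000001000000010000000100000000 0x2000000030000000300000001000000030000000300000002 4 2) 0 0 (step_sound _ 128 [rhae770c7baa4b41bb, (rhbaefcd01e0a8bca3.shift 0 1)] (by decide +kernel))
noncomputable def rh4087053d276c63a2 : CRef := CRef.mk (Pat.mk 0x3c0000000c0000000000000010 0x600000003f0000003c0000001000000010 4 7) 0 0 (step_sound _ 133 [(rh33e738c4ed385b9f.shift 2 3), rh606b4c685a02f37d] (by decide +kernel))
noncomputable def rhdd97c32a4e91ad64 : CRef := CRef.mk (Pat.mk 0x8000000020000001e000000180000000000000000 0x80000000a0000003e0000001f0000000400000004 4 6) 0 0 (step_sound _ 65 [(rhcccb6b87a7bde3bf.shift 1 0), (rheb0810cc63b001d8.shift 0 2)] (by decide +kernel))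
noncomputable def rh75cbd47c5d9d0740 : CRef := CRef.mk (Pat.mk 0x14000000100000001e00000010 0x280000003c000000170000001e00000010 4 6) 0 0 (step_sound _ 99 [(rh50fbb5868c909700.shift 3 0), rh753069020890f283] (by decide +kernel))
noncomputable def rhf6822eaf236e95c0 : CRef := CRef.mk (Pat.mk 0x800000000000000180000001800000000 0x800000008000000380000001f00000014 4 6) 0 0 (step_sound _ 99 [(rh55afc6a59410cf00.shift 3 0), rh6fae963f33cfdfd7] (by decide +kernel))
noncomputable def rhb633056c3f8b1a07 : CRef := CRef.mk (Pat.mk 0x4000000000000001e00000002 0x600000006000000030000003e00000006 4 6) 0 0 (step_sound _ 2 [(rh18965a982d73c794.shift 1 0), rhc6719c6594e47b00] (by decide +kernel))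
noncomputable def rh8226ff7f0d2fe0a7 : CRef := CRef.mk (Pat.mk 0xf000000040000000000000000 0x8000000180000000f0000001c0000000400000004 4 5) 0 0 (step_sound _ 131 [(rh33e738c4ed385b9f.shift 0 3), rhdfb56653f5d33d2b] (by decide +kernel))
noncomputable def rhfaf10e0fcdca59e5 : CRef := CRef.mk (Pat.mk 0x6000000020000001e0000000a 0x1000000130000001f000000320000001e0000000a 4 6) 0 0 (step_sound _ 128 [rhc863f8aad6428597, rhffd04209dc8ea796] (by decide +kernel))
noncomputable def rh8fab73097cf3a8c4 : CRef := CRef.mk (Pat.mk 0x40000000c000000040000000400000000 0x2000000070000003e000000040000000400000004 4 6) 0 0 (step_sound _ 129 [(rh50fbb5868c909700.shift 1 1), rh94f1a52185fc620a] (by decide +kernel))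
noncomputable def rhbbe29788f75f2f78 : CRef := CRef.mk (Pat.mk 0x4000000020000001e00000000 0x600000006000000020000003e00000007 4 6) 0 0 (step_sound _ 1 [(rh6b39cf23c1330562.shift 1 0), rheb0810cc63b001d8] (by decide +kernel))
noncomputable def rhd23cdb3fcba554f1 : CRef := CRef.mk (Pat.mk 0x10000000200000002000000020000000000000000 0x1000000030000000300000002000000060000000600000004 4 3) 0 0 (step_sound _ 161 [(rh50fbb5868c909700.shift 0 2), rha613ffd40b6c9d24] (by decide +kernel))
noncomputable def rh11a60a6b1e31dba2 : CRef := CRef.mk (Pat.mk 0x20000000e00000002 0x760000003e00000003 4 7) 0 0 (step_sound _ 36 [(rh790acd67f4fffd04.shift 1 1), rheb0810cc63b001d8] (by decide +kernel))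
noncomputable def rh90466d99f0f48f3c : CRef := CRef.mk (Pat.mk 0x60000001e00000004 0x2000000030000003e0000001f00000004 4 6) 0 0 (step_sound _ 68 [(rh33e738c4ed385b9f.shift 1 1), rhf554547daa081b49] (by decide +kernel))
noncomputable def rh71960cdf24de0c7e : CRef := CRef.mk (Pat.mk 0x8000000070000000400000000 0x8000000080000000c0000003e000000070000000400000004 4 6) 0 0 (step_sound _ 98 [(rh215e11e099257d75.shift 2 0), (rh80f90a60d87caa0d.shift 0 2)] (by decide +kernel))
noncomputable def rh81df3c7a5b7d1079 : CRef := CRef.mk (Pat.mk 0x1e0000001c0000000000000000 0x4000000040000001e0000001f0000000300000002 4 5) 0 0 (step_sound _ 65 [rh031a926e4a883687, (rh53b3c253cb0c65f4.shift 0 2)] (by decide +kernel))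
noncomputable def rh64f70bcb48881009 : CRef := CRef.mk (Pat.mk 0x100000001e0000001c00000000 0x1a0000001a0000001f0000001e0000001c00000004 4 5) 0 0 (step_sound _ 2 [rh1c1037cb5b3fe471, (rhe2031cd839b38d08.shift 2 0)] (by decide +kernel))
noncomputable def rhd808ab8fabdc2929 : CRef := CRef.mk (Pat.mk 0x160000001c000000000000000000000000 0x4000000360000001e000000030000000200000002 4 6) 0 0 (step_sound _ 97 [(rh33e738c4ed385b9f.shift 1 3), rh9a011a4d0ec8f646] (by decide +kernel))
noncomputable def rh7dedfdfb3cbaa682 : CRef := CRef.mk (Pat.mk 0x10000000100000001e00000010 0x20000000300000001f0000003e00000010 4 6) 0 0 (step_sound _ 65 [(rh3244c3cc8379b070.shift 0 1), (rh9cc2416a03250125.shift 1 0)] (by decide +kernel))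
noncomputable def rh06d1b4e63eb56a91 : CRef := CRef.mk (Pat.mk 0x160000001a0000000000000000 0x400000004000000360000001e0000000300000002 4 6) 0 0 (step_sound _ 66 [rh031a926e4a883687, (rh33e738c4ed385b9f.shift 1 2)] (by decide +kernel))
noncomputable def rhfce0c3db2547ee36 : CRef := CRef.mk (Pat.mk 0x600000006000000020000000800000008 0x600000006000000020000000f0000001f 4 5) 0 0 (step_sound _ 33 [(rh71222050f2c63a3a.shift 1 0), rhcca48c881f96823d] (by decide +kernel))
noncomputable def rhf062016f557148a6 : CRef := CRef.mk (Pat.mk 0x580000003800000000 0x780000003f00000007 4 7) 0 0 (step_sound _ 34 [(rh428265de8cd3cd2d.shift 2 1), rhcc2be1f880c5ea3e] (by decide +kernel))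
noncomputable def rh18c55e05eba45f4a : CRef := CRef.mk (Pat.mk 0x2000000020000000200000006000000010000000000000000 0x200000002000000060000000600000006000000030000000300000002 4 3) 0 0 (step_sound _ 65 [(rh84c6bba3847605f7.shift 1 0), (rh932754581e0f4330.shift 0 1)] (by decide +kernel))
noncomputable def rhe820ba563cc6fa31 : CRef := CRef.mk (Pat.mk 0x4000000020000000300000002000000000000000000000000 0x4000000070000000300000002000000030000000300000001 4 3) 0 0 (step_sound _ 65 [rh5192e84255fe3228, (rhbaefcd01e0a8bca3.shift 1 2)] (by decide +kernel))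
noncomputable def rh82ae40d1c4ab63f4 : CRef := CRef.mk (Pat.mk 0x40000000400000007000000030000000000000000 0x4000000040000001f0000001f0000000800000008 4 5) 0 0 (step_sound _ 99 [(rh18965a982d73c794.shift 0 2), rhc7b95363f9049b11] (by decide +kernel))
noncomputable def rh7fe21e0494e9b6c7 : CRef := CRef.mk (Pat.mk 0x10000000380000002c0000000800000000 0x10000000380000002f0000007c00000020 4 7) 0 0 (step_sound _ 65 [(rh189a9b614d2c28b2.shift 1 0), (rh53b3c253cb0c65f4.shift 0 2)] (by decide +kernel))
noncomputable def rh537c67efd11d1fdc : CRef := CRef.mk (Pat.mk 0x40000001c0000001c0000000000000000 0x40000001f0000001f0000000300000002 4 5) 0 0 (step_sound _ 97 [rh067a748dc2c8f95e, (rhb739f4f82bb681b4.shift 0 2)] (by decide +kernel))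
noncomputable def rhbde356054f90dbb5 : CRef := CRef.mk (Pat.mk 0x1000000010000000000000003800000008 0x10000000180000000f0000007c00000008 4 7) 0 0 (step_sound _ 67 [(rh1006c02ae4212ff0.shift 3 0), (rha9fbfd4bb8cf890b.shift 0 1)] (by decide +kernel))
noncomputable def rhf0fec79e7a800969 : CRef := CRef.mk (Pat.mk 0x400000004000000000000000e00000020 0x400000006000000730000003e00000063 4 7) 0 0 (step_sound _ 36 [(rh00b22401a0bf2d5e.shift 1 0), rheb505ef94539da28] (by decide +kernel))
noncomputable def rhc8d8968d053fe9bb : CRef := CRef.mk (Pat.mk 0x2000000020000000200000002000000020000000000000000 0x2000000020000000200000003000000070000000700000004 4 3) 0 0 (step_sound _ 34 [rh80f8d980e2e2e50a, (rhd3458b32566d63f7.shift 1 1)] (by decide +kernel))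
noncomputable def rh7fb0429d473d622b : CRef := CRef.mk (Pat.mk 0x180000000c0000000800000008000000080000000000000000 0x180000000f0000000c000000080000000c0000000c00000004 4 5) 0 0 (step_sound _ 161 [(rh1f3a6ba70a310ab1.shift 2 0), (rh53b3c253cb0c65f4.shift 0 5)] (by decide +kernel))
noncomputable def rh0c6c933ef0e0882e : CRef := CRef.mk (Pat.mk 0xe0000001e0000000000000000 0x2000000030000003e0000001e0000000400000004 4 6) 0 0 (step_sound _ 100 [(rh33e738c4ed385b9f.shift 1 2), rh38a0850c9fea941e] (by decide +kernel))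
noncomputable def rh5dc64652fdd44fa3 : CRef := CRef.mk (Pat.mk 0x40000001e000000180000000000000000 0x40000003e0000001f0000000300000002 4 6) 0 0 (step_sound _ 65 [rhe64b822bce271b79, (rheb0810cc63b001d8.shift 0 2)] (by decide +kernel))
noncomputable def rh7b07991295f6496f : CRef := CRef.mk (Pat.mk 0x4000000000000000c0000001c00000000 0x4000000040000003f0000001f00000003 4 6) 0 0 (step_sound _ 65 [rh1277f1130682e8f3, (rhb739f4f82bb681b4.shift 0 1)] (by decide +kernel))
noncomputable def rh6946abc6a0d3a574 : CRef := CRef.mk (Pat.mk 0x400000000000000040000003c00000000 0x400000004000000740000003e00000003 4 7) 0 0 (step_sound _ 69 [rh1325fb1b661bbe5b, (rh33e738c4ed385b9f.shift 2 1)] (by decide +kernel))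
noncomputable def rh6f2bbc1c5c914e96 : CRef := CRef.mk (Pat.mk 0x8000000040000001c0000000400000000 0xc0000000c000000040000001e0000000700000002 4 5) 0 0 (step_sound _ 130 [(rh2f68792b6b779e96.shift 2 1), rh349ec9f7ee54d10d] (by decide +kernel))
noncomputable def rhb7563c89e784e268 : CRef := CRef.mk (Pat.mk 0x2000000060000000400000004 0xa0000003e000000070000000400000004 4 6) 0 0 (step_sound _ 98 [(rh50fbb5868c909700.shift 1 0), rh861ee9d7304b9753] (by decide +kernel))
noncomputable def rh88e3bb4419448235 : CRef := CRef.mk (Pat.mk 0x1c0000003000000020 0x1c0000007f00000070 4 7) 0 0 (step_sound _ 35 [rh60e456fe7528adcc, (rhf48373e13d2bc128.shift 2 1)] (by decide +kernel))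
noncomputable def rh5ea6075340d663e1 : CRef := CRef.mk (Pat.mk 0x180000000c000000180000000800000008000000080000000000000000 0x180000000f000000180000001800000008000000180000001800000010 4 5) 0 0 (step_sound _ 193 [(rh53b3c253cb0c65f4.shift 0 6), (rh8c3839f9b9075f23.shift 3 0)] (by decide +kernel))
noncomputable def rh5ed45db54a2b1f8c : CRef := CRef.mk (Pat.mk 0xc0000000e000000040000000600000000 0x100000003c0000000e0000003c0000000f00000008 4 6) 0 0 (step_sound _ 35 [(rh55afc6a59410cf00.shift 2 0), (rh5dc67726aecca17c.shift 0 1)] (by decide +kernel))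
noncomputable def rh1449db2e2355f76c : CRef := CRef.mk (Pat.mk 0x18000000180000000800000018 0x800000018000000180000001f0000003c 4 6) 0 0 (step_sound _ 34 [rh25e3c5a3af326354, (rh3f7e8fd46bd3689a.shift 2 0), rh46a57dc3242650d3, rhca7b1c75b4cec277] (by decide +kernel))
noncomputable def rh3e6658e7c3dcf240 : CRef := CRef.mk (Pat.mk 0xc0000000c000000040000000c 0x60000000f0000003c0000000c0000000c 4 6) 0 0 (step_sound _ 35 [(rh50fbb5868c909700.shift 2 0), rhcf85c92937975d4d] (by decide +kernel))
noncomputable def rh74b3eef2d5b4c994 : CRef := CRef.mk (Pat.mk 0x20000000200000002000000020000000000000000 0x20000000200000002000000070000000700000005 4 3) 0 0 (step_sound _ 34 [rh087a8def662fd0b5, (rhd3458b32566d63f7.shift 1 1)] (by decide +kernel))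
noncomputable def rh813401fddd07cc25 : CRef := CRef.mk (Pat.mk 0x8000000080000000800000018 0x800000008000000080000001f0000003c 4 6) 0 0 (step_sound _ 34 [rh2cf3811cd806da5b, (rh85a605aac6183f28.shift 2 0), rhb0121edee88fe839, rhc3e6a65d34c1364f] (by decide +kernel))
noncomputable def rh259a50038ef9c339 : CRef := CRef.mk (Pat.mk 0x1c00000004000000000000000600000000 0x3e00000007000000020000000600000006 4 6) 0 0 (step_sound _ 97 [(rh18965a982d73c794.shift 1 3), rhb56dc8af4007ca1b] (by decide +kernel))
noncomputable def rh0288b77f6ce0fbdd : CRef := CRef.mk (Pat.mk 0x100000001c00000000000000000000000600000000 0x340000001e00000003000000020000000600000004 4 6) 0 0 (step_sound _ 129 [rh066c0d7ca8de1f8f, (rh33e738c4ed385b9f.shift 1 4)] (by decide +kernel))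
noncomputable def rh57d9e4b58f75ab53 : CRef := CRef.mk (Pat.mk 0x80000000c000000000000000600000016 0x7e0000001f00000002000000070000001e 4 7) 0 0 (step_sound _ 97 [rh8cf8631b89a8043a, (rha11dfd15f08f96e3.shift 0 3)] (by decide +kernel))
noncomputable def rh71119a8572d3fd23 : CRef := CRef.mk (Pat.mk 0x3c0000000c 0x70000003e0000007c 4 7) 0 0 (step_sound _ 65 [rh39bc6a54936310bc, (rh3f8766e6ecb455ce.shift 1 1)] (by decide +kernel))
noncomputable def rh87bff48f4874c82b : CRef := CRef.mk (Pat.mk 0x1a0000001e0000000200000000 0x3000000030000001e0000001e0000003600000004 4 6) 0 0 (step_sound _ 36 [rhaaf1dc7285a08c48, (rhe25b0a99195a5d59.shift 1 1)] (by decide +kernel))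
noncomputable def rhbb0985821cb8fd64 : CRef := CRef.mk (Pat.mk 0x20000000600000016000000000000000000000000 0x2000000070000001e000000070000000600000006 4 5) 0 0 (step_sound _ 34 [(rh9e07f76261b05888.shift 1 1), rhba07db35cd93fef9] (by decide +kernel))
noncomputable def rha338f53bff9955d9 : CRef := CRef.mk (Pat.mk 0x800000008000000020000000600000006 0x1f0000000f000000020000000600000006 4 5) 0 0 (step_sound _ 97 [(rh2145e1d24b96a57e.shift 1 0), rh44386a7e86fbdb58] (by decide +kernel))
noncomputable def rh42c149c634520fed : CRef := CRef.mk (Pat.mk 0x8000000080000000e0000000400000000 0x8000000380000003e0000003700000010 4 6) 0 0 (step_sound _ 68 [(rh625dde73e665edc8.shift 1 0), (rhaf9f2efc81a8312b.shift 0 1)] (by decide +kernel))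
noncomputable def rh6da00715e09dd404 : CRef := CRef.mk (Pat.mk 0x380000001000000010 0x8000000080000000f000000fc0000001c00000010 4 8) 0 0 (step_sound _ 99 [(rh9f93e2b24091a43d.shift 2 1), (rha9fbfd4bb8cf890b.shift 0 2), (rhe072fffdd2fccf38.shift 3 0)] (by decide +kernel))
noncomputable def rha8e118612a5545ec : CRef := CRef.mk (Pat.mk 0x80000001c0000000400000004 0x20000003b0000001f0000000700000004 4 6) 0 0 (step_sound _ 65 [rhe4f9133a81c1dbc5, (rhec46bd5500c722c9.shift 0 2)] (by decide +kernel))
noncomputable def rh06d16ed1005b3fa2 : CRef := CRef.mk (Pat.mk 0x3c0000000c 0x70000003f0000003c 4 6) 0 0 (step_sound _ 65 [(rh3f8766e6ecb455ce.shift 1 1), rhd0d7486ab0505767] (by decide +kernel))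
noncomputable def rh87e2ca517c87b4c2 : CRef := CRef.mk (Pat.mk 0x60000000e0000000000000000 0x400000004000000060000003e0000000300000002 4 6) 0 0 (step_sound _ 68 [rh031a926e4a883687, (rhf48373e13d2bc128.shift 1 2)] (by decide +kernel))
noncomputable def rh7803c990586eda9c : CRef := CRef.mk (Pat.mk 0x1e0000001c00000000 0x1000000010000000300000001e0000001f00000008 4 6) 0 0 (step_sound _ 33 [(rh53b3c253cb0c65f4.shift 0 1), (rh5ba2d67652840f34.shift 1 0)] (by decide +kernel))
noncomputable def rh1bd512052dde4f2d : CRef := CRef.mk (Pat.mk 0xe0000000d 0x700000007e0000000f 4 7) 0 0 (step_sound _ 36 [(rh226655e3fe6b4a8a.shift 1 0), rh24ae073cf30720c4] (by decide +kernel))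
noncomputable def rh1a7eb770d15c3736 : CRef := CRef.mk (Pat.mk 0x400000004000000060000000400000000 0x400000004000000070000003e0000000a 4 6) 0 0 (step_sound _ 35 [rh26d44fd78c158ecb, (rh55afc6a59410cf00.shift 2 0)] (by decide +kernel))
noncomputable def rh66920cdd747eb116 : CRef := CRef.mk (Pat.mk 0x400000004000000060000000400000000 0x400000004000000040000000f0000003c00000008 4 6) 0 0 (step_sound _ 35 [(rh55afc6a59410cf00.shift 2 0), (rh55eb597f17b4ce44.shift 0 1)] (by decide +kernel))
noncomputable def rh16a18e7e5271f67f : CRef := CRef.mk (Pat.mk 0x8000000180000000800000000 0x800000008000000080000007c0000001f00000004 4 7) 0 0 (step_sound _ 34 [(rh69012675dfdb1a5b.shift 0 1), (rhcd32f2ed6c1181e7.shift 2 0), (rhd69c262cd33b94b3.shift 0 1)] (by decide +kernel))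
noncomputable def rhf022ec03f30809ba : CRef := CRef.mk (Pat.mk 0x1c00000008000000080000000800000000 0x1f00000038000000080000001800000018 4 6) 0 0 (step_sound _ 36 [(rh55afc6a59410cf00.shift 3 0), rh60f82781c006f894] (by decide +kernel))
noncomputable def rh31b87005ef61a98a : CRef := CRef.mk (Pat.mk 0x180000000c0000001e000000000000000400000000 0x180000000f0000001e000000030000000600000006 4 5) 0 0 (step_sound _ 129 [rh057b4130fe0cd6b1, (rh53b3c253cb0c65f4.shift 0 4)] (by decide +kernel))
noncomputable def rh5ed69a0be50672cc : CRef := CRef.mk (Pat.mk 0x80000001c000000060000000400000000 0x60000000f0000001e000000060000000600000002 4 5) 0 0 (step_sound _ 129 [rh145afb4cc9141770, (rh616c75d1b5542aee.shift 1 1), (rh8440640876951545.shift 0 1), (rha358927870346b7d.shift 0 1)] (by decide +kernel))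
noncomputable def rh2f947b961fc69f72 : CRef := CRef.mk (Pat.mk 0xa0000000a0000000e 0x1f0000007b0000001e 4 7) 0 0 (step_sound _ 66 [rh046254d731362e10, rh164c324cdb1ed3e3, (rhf6388f317ffa3be8.shift 0 1)] (by decide +kernel))
noncomputable def rh9a94a4eca433c4ad : CRef := CRef.mk (Pat.mk 0x20000001e000000000000000400000000 0x60000003e000000030000000600000006 4 6) 0 0 (step_sound _ 130 [rh057b4130fe0cd6b1, (rhf48373e13d2bc128.shift 1 3)] (by decide +kernel))
noncomputable def rh7a3ca66586c81554 : CRef := CRef.mk (Pat.mk 0x340000001c 0x70000003f0000003c 4 6) 0 0 (step_sound _ 33 [rh9e9cb823bb81f1cc, (rhf48373e13d2bc128.shift 1 0)] (by decide +kernel))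
noncomputable def rh888c394c40d62879 : CRef := CRef.mk (Pat.mk 0x1e0000000600000002 0x600000006000000070000001e0000000600000002 4 5) 0 0 (step_sound _ 97 [(rh3244c3cc8379b070.shift 0 2), (rhc45960fcf2a66b44.shift 1 0)] (by decide +kernel))
noncomputable def rh86d6ca7bd182d936 : CRef := CRef.mk (Pat.mk 0x1000000010000000300000003000000000000000200000000 0x200000003000000030000000300000003000000010000000300000003 4 2) 0 0 (step_sound _ 193 [(rh2f68792b6b779e96.shift 0 3), rh8a1671592098e534] (by decide +kernel))
noncomputable def rh096d7b980573f253 : CRef := CRef.mk (Pat.mk 0x20000000e000000020000000400000000 0x2000000020000001e000000030000000700000005 4 5) 0 0 (step_sound _ 33 [(rh55afc6a59410cf00.shift 1 0), rha47cde37f72062b4] (by decide +kernel))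
noncomputable def rh5e876097fc0dd40d : CRef := CRef.mk (Pat.mk 0x180000001c00000008 0x4000000060000007f0000003c00000008 4 7) 0 0 (step_sound _ 69 [(rh18965a982d73c794.shift 2 1), rha28d23c06faf6610] (by decide +kernel))
noncomputable def rhcf1e7a62115e50f6 : CRef := CRef.mk (Pat.mk 0x400000004000000000000000e00000000 0x4000000040000000c0000000c000000780000001f00000008 4 7) 0 0 (step_sound _ 67 [(rh4d760d0d70847451.shift 2 0), (rha11dfd15f08f96e3.shift 0 1)] (by decide +kernel))
noncomputable def rh66415e3573a7b720 : CRef := CRef.mk (Pat.mk 0x10000000100000001c0000001600000004 0x12000000130000001f0000001e0000000c 4 5) 0 0 (step_sound _ 35 [rh1a9e74d77ec446c9, (rh932754581e0f4330.shift 3 0)] (by decide +kernel))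
noncomputable def rh7018378b645b6600 : CRef := CRef.mk (Pat.mk 0x800000008000000080000000b00000000 0x100000001800000018000000080000000f0000001c 4 5) 0 0 (step_sound _ 34 [rh36586e595fdbb742, (rh932754581e0f4330.shift 2 0)] (by decide +kernel))
noncomputable def rh25ffd5978d653b7a : CRef := CRef.mk (Pat.mk 0x1c00000004000000040000000800000000 0x20000001e00000007000000040000000c0000000c 4 5) 0 0 (step_sound _ 34 [(rh55afc6a59410cf00.shift 2 0), rhd9bed81dc2893f9b] (by decide +kernel))
noncomputable def rhc01671e7ff47b369 : CRef := CRef.mk (Pat.mk 0xe00000002000000020000000400000000 0x1000000030000001f00000002000000020000000600000004 4 5) 0 0 (step_sound _ 33 [(rh55afc6a59410cf00.shift 1 0), (rh5cbe34a540eef4f6.shift 0 1)] (by decide +kernel))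
noncomputable def rhc209bf20aa970129 : CRef := CRef.mk (Pat.mk 0x80000001e 0x3f0000003f 4 6) 0 0 (step_sound _ 33 [rh3244c3cc8379b070, rh3993bcd79254ae12] (by decide +kernel))
noncomputable def rh7a32c57a7c61d0c8 : CRef := CRef.mk (Pat.mk 0x10000000100000001e 0x300000001f0000003f 4 6) 0 0 (step_sound _ 33 [rh3244c3cc8379b070, rhb1dfdd8f524c5e58] (by decide +kernel))
noncomputable def rh5f725e760179b4ec : CRef := CRef.mk (Pat.mk 0x400000007000000040000000400000000 0x80000003c0000000f000000040000000c00000008 4 6) 0 0 (step_sound _ 35 [(rh55afc6a59410cf00.shift 2 0), (rh684e729394fba19d.shift 0 1)] (by decide +kernel))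
noncomputable def rh770992ee6cf16ba5 : CRef := CRef.mk (Pat.mk 0x60000000e000000030000000200000000 0x60000000e0000000f0000001e0000000c 4 5) 0 0 (step_sound _ 34 [rh36bdd71eb75150ba, (rh55afc6a59410cf00.shift 1 0)] (by decide +kernel))
noncomputable def rhf88844fbccf7c5e7 : CRef := CRef.mk (Pat.mk 0x600000002000000060000000600000000 0x80000003e00000007000000060000000600000002 4 6) 0 0 (step_sound _ 98 [(rh71222050f2c63a3a.shift 1 0), (rh861ee9d7304b9753.shift 0 1)] (by decide +kernel))
noncomputable def rh62ac40974ae34da3 : CRef := CRef.mk (Pat.mk 0xc0000000c000000040000000400000000 0x20000000f0000003c000000040000000600000002 4 6) 0 0 (step_sound _ 129 [(rh50fbb5868c909700.shift 1 1), rhd80ce46fe7ab142f] (by decide +kernel))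
noncomputable def rh682a631da82183c3 : CRef := CRef.mk (Pat.mk 0x700000006000000180000000800000000 0x300000007000000060000001e0000000f00000006 4 5) 0 0 (step_sound _ 34 [rh0c02317d67ddde21, (rhdd1b84382d19bcbb.shift 1 0), rhf58aeb14c3aa02f9] (by decide +kernel))
noncomputable def rh555fd4dea31f8700 : CRef := CRef.mk (Pat.mk 0x80000003800000008000000000000000000000000 0x80000000800000008000000380000001f0000001c0000000400000004 4 6) 0 0 (step_sound _ 98 [(rh281c6819542c66e6.shift 2 0), (rhbb339bb7e4e96b38.shift 2 2), (rheea1a90336e79c71.shift 0 3)] (by decide +kernel))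
noncomputable def rhfa1d9c85b18ebfd4 : CRef := CRef.mk (Pat.mk 0xe000000080000001c000000000000000000000000 0x20000000e0000000f0000003c0000000c0000000400000004 4 6) 0 0 (step_sound _ 66 [(rh42548283029e2a39.shift 2 0), (rh99e49d04edd80d1c.shift 0 2)] (by decide +kernel))
noncomputable def rhcddaa914fb7ce133 : CRef := CRef.mk (Pat.mk 0x1e000000080000000c00000000 0xb0000001e0000000b0000000e00000004 4 5) 0 0 (step_sound _ 2 [rh483fbfd538e8380f, (rh5c5e593799055d58.shift 2 0)] (by decide +kernel))
noncomputable def rhe02e3da695d40b3d : CRef := CRef.mk (Pat.mk 0x180000001c000000140000000600000000 0x1c0000001c000000140000001e0000001b 4 5) 0 0 (step_sound _ 36 [(rh7b1f1fb55310c477.shift 3 0), rha908afa947cc4332] (by decide +kernel))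
noncomputable def rh29fe3b8590e19a67 : CRef := CRef.mk (Pat.mk 0x40000000f000000020000000300000000 0x3e0000003f000000020000000300000001 4 6) 0 0 (step_sound _ 129 [(rh07e006e2762b0d4d.shift 0 3), rh932754581e0f4330] (by decide +kernel))
noncomputable def rhfad4d06336df233f : CRef := CRef.mk (Pat.mk 0x40000000f000000020000000300000000 0x60000003f0000003a0000000300000001 4 6) 0 0 (step_sound _ 129 [(rh0cb6a409506b34ea.shift 0 2), rh932754581e0f4330] (by decide +kernel))
noncomputable def rhc3b070867f445089 : CRef := CRef.mk (Pat.mk 0x18000000080000001e 0x7c0000000f0000003e 4 7) 0 0 (step_sound _ 33 [(rh087a8a5eb7ea1dbf.shift 1 0), rh3244c3cc8379b070] (by decide +kernel))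
noncomputable def rh1ab9bde7db68b03e : CRef := CRef.mk (Pat.mk 0x30000000100000003e 0xf80000001c0000007f 4 8) 0 0 (step_sound _ 35 [(rh36aaad29beba1c90.shift 2 0), rh53b3c253cb0c65f4] (by decide +kernel))
noncomputable def rh9f91f4c630f56b97 : CRef := CRef.mk (Pat.mk 0x60000000e000000000000000400000000 0x60000003e000000030000000600000006 4 6) 0 0 (step_sound _ 100 [rh057b4130fe0cd6b1, (rhf48373e13d2bc128.shift 1 3)] (by decide +kernel))
noncomputable def rh8ec720861b3a1668 : CRef := CRef.mk (Pat.mk 0x40000000e00000001 0x60000003e00000073 4 7) 0 0 (step_sound _ 36 [(rh75c6fff53e4cbd6e.shift 1 0), rh80fcd6d0a18cb2dd] (by decide +kernel))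
noncomputable def rhe30aa3fc1732ba53 : CRef := CRef.mk (Pat.mk 0x80000001e000000020000000000000000 0x20000000b0000003e000000060000000400000004 4 6) 0 0 (step_sound _ 129 [(rh318cdda39fd482c1.shift 1 0), (rh3244c3cc8379b070.shift 0 3)] (by decide +kernel))
noncomputable def rh1c4af61d703eda17 : CRef := CRef.mk (Pat.mk 0x80000000c00000002000000160000000200000000 0x190000000f000000020000001e0000000300000001 4 5) 0 0 (step_sound _ 32 [(rh361cc68994bd8a63.shift 0 1), rha314a13d1d90450e] (by decide +kernel))
noncomputable def rhebf413ddee4a7a73 : CRef := CRef.mk (Pat.mk 0x70000000480000001c0000000800000000 0x78000000c80000003c0000000f00000004 4 8) 0 0 (step_sound _ 131 [rhd65e52c5f80caa3b, (rhe25b0a99195a5d59.shift 3 3)] (by decide +kernel))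
noncomputable def rhacc3cd893a4b2c80 : CRef := CRef.mk (Pat.mk 0x1c000000160000000e 0x10000000300000001f0000001e0000000f 4 6) 0 0 (step_sound _ 35 [rh53b3c253cb0c65f4, rh7c670c94442132e7] (by decide +kernel))
noncomputable def rh45ed9cc8877beea2 : CRef := CRef.mk (Pat.mk 0x180000000c000000180000001800000000 0x180000000f000000780000001e00000004 4 7) 0 0 (step_sound _ 97 [(rh53b3c253cb0c65f4.shift 0 3), (rha71afc656c87d410.shift 1 0)] (by decide +kernel))
noncomputable def rh2ba2a9794edcab65 : CRef := CRef.mk (Pat.mk 0x380000001000000010 0x8000000080000000f000000fc0000001c00000010 4 8) 0 0 (step_sound _ 99 [(rh7e2beecf027e4880.shift 2 0), (rh9f93e2b24091a43d.shift 2 1), (rha9fbfd4bb8cf890b.shift 0 2), (rhe072fffdd2fccf38.shift 3 0)] (by decide +kernel))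
noncomputable def rh7ab6be545294e53e : CRef := CRef.mk (Pat.mk 0x1e000000160000000200000000 0x10000000300000001e0000001e0000000b00000008 4 6) 0 0 (step_sound _ 132 [(rh33e738c4ed385b9f.shift 1 3), rhde9a0e21c71efd72] (by decide +kernel))
noncomputable def rha88fdb71eea3a0b3 : CRef := CRef.mk (Pat.mk 0xe0000000400000004 0x200000002000000070000003e0000000600000004 4 6) 0 0 (step_sound _ 97 [(rh46231ab7bfd17f40.shift 0 1), (rhc89253ff58c66167.shift 1 0), (rhe072fffdd2fccf38.shift 1 0)] (by decide +kernel))
noncomputable def rh4ed296ab3e372daf : CRef := CRef.mk (Pat.mk 0x80000001c0000000400000004 0x2000000020000000f0000001e0000000700000004 4 5) 0 0 (step_sound _ 97 [rh52c36d35947218a3, (rh54c49bb299227e8d.shift 0 2), rha358927870346b7d, (rhbab796f6dafe9186.shift 1 0)] (by decide +kernel))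
noncomputable def rhedfee5dfdf958e6e : CRef := CRef.mk (Pat.mk 0x1c0000000e000000080000000000000000 0x80000001f0000003e000000380000001000000010 4 6) 0 0 (step_sound _ 100 [(rh25c13d8045594b98.shift 1 0), (rh73aed199c1a62ed4.shift 0 3)] (by decide +kernel))
noncomputable def rha086f24fc46b4198 : CRef := CRef.mk (Pat.mk 0x20000000e00000004 0x30000003e00000076 4 7) 0 0 (step_sound _ 36 [(rh3244c3cc8379b070.shift 0 1), (rh9ab60d74117ac343.shift 1 0)] (by decide +kernel))
noncomputable def rh5ded4a09c2a7571d : CRef := CRef.mk (Pat.mk 0xf00000002 0x180000001f0000003b 4 6) 0 0 (step_sound _ 67 [rh0ae232cce48795b7, (rh33e738c4ed385b9f.shift 0 1)] (by decide +kernel))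
noncomputable def rh860e5a177e0e0352 : CRef := CRef.mk (Pat.mk 0x200000003800000010 0x600000003e00000037 4 7) 0 0 (step_sound _ 34 [(rh33e738c4ed385b9f.shift 2 1), rhb2432c16363a7e8d] (by decide +kernel))
noncomputable def rhc5735fcf4d68595e : CRef := CRef.mk (Pat.mk 0x4000000040000000c000000080000000200000000 0x4000000060000001f0000007a0000000200000002 4 7) 0 0 (step_sound _ 97 [(rh8ee80cc30e93a344.shift 0 2), (rhdebc43b768884653.shift 1 0)] (by decide +kernel))
noncomputable def rha11d3324936a8001 : CRef := CRef.mk (Pat.mk 0xc00000008000000060000000400000004 0x20000001f0000007a000000060000000600000004 4 7) 0 0 (step_sound _ 129 [(rh8ee80cc30e93a344.shift 0 3), (rhdf6eda84f2eabc48.shift 1 0)] (by decide +kernel))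
noncomputable def rh46c7361b57fdfa0a : CRef := CRef.mk (Pat.mk 0xf00000004000000070000000200000000 0xf0000001c000000070000001e0000000c 4 5) 0 0 (step_sound _ 99 [rhdc33407c88564b07, (rhe25b0a99195a5d59.shift 0 3)] (by decide +kernel))
noncomputable def rh83247af42f83c8a7 : CRef := CRef.mk (Pat.mk 0x1e000000000000000400000000 0x2000000030000001e000000070000000400000004 4 5) 0 0 (step_sound _ 129 [(rh3244c3cc8379b070.shift 0 3), rh6246d32f6f9bacfa] (by decide +kernel))
noncomputable def rh8b3cc6f0a4dbb7f6 : CRef := CRef.mk (Pat.mk 0xe000000020000000200000000 0x70000003e000000030000000200000002 4 6) 0 0 (step_sound _ 100 [(rheb0810cc63b001d8.shift 0 2), rhf77beb34d2f35d2d] (by decide +kernel))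
noncomputable def rhb97e944a195ddea8 : CRef := CRef.mk (Pat.mk 0xe0000001a000000060000000000000000 0x40000003e0000001f000000060000000200000002 4 6) 0 0 (step_sound _ 132 [(rh065b3967590b1203.shift 1 0), (rheb0810cc63b001d8.shift 0 3)] (by decide +kernel))
noncomputable def rh6352d9774ae38524 : CRef := CRef.mk (Pat.mk 0x1e0000001c0000001800000010 0x30000001e0000001c0000001f00000034 4 6) 0 0 (step_sound _ 129 [(rh3244c3cc8379b070.shift 0 3), rh92f50ed6ce9c1547] (by decide +kernel))
noncomputable def rh3724468151636231 : CRef := CRef.mk (Pat.mk 0x20000000200000003000000030000000000000000 0x4000000070000000700000003000000030000000200000002 4 3) 0 0 (step_sound _ 162 [(rh2f68792b6b779e96.shift 1 2), rhff36e6ecd1dfd6b2] (by decide +kernel))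
noncomputable def rhe5f97321804e76eb : CRef := CRef.mk (Pat.mk 0x10000000080000000c0000000800000000 0x100000007c0000000f0000000800000008 4 7) 0 0 (step_sound _ 100 [(rh0bb882ba86b2372d.shift 0 2), (rh71222050f2c63a3a.shift 3 0)] (by decide +kernel))
noncomputable def rh1c91bacce578ec25 : CRef := CRef.mk (Pat.mk 0x30000000120000001e00000000 0x40000003c0000001e0000001e00000003 4 6) 0 0 (step_sound _ 66 [(rh1c62b6193297d9e3.shift 1 2), rh612b8d9d9d5bcfd1] (by decide +kernel))
noncomputable def rh477220595313baae : CRef := CRef.mk (Pat.mk 0x10000000180000001e00000004 0x2000000330000001f0000001e00000004 4 6) 0 0 (step_sound _ 65 [(rh3244c3cc8379b070.shift 0 1), rh379724e43b13e6b6] (by decide +kernel))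
noncomputable def rh4b43de9de5d2c4f9 : CRef := CRef.mk (Pat.mk 0x80000000c00000016 0x380000003f00000036 4 6) 0 0 (step_sound _ 36 [(rh18965a982d73c794.shift 1 0), rh3ce854f4a795c89f] (by decide +kernel))
noncomputable def rh6f7dfb7a4cb45f5e : CRef := CRef.mk (Pat.mk 0x30000000100000001c 0x300000003f0000001f 4 6) 0 0 (step_sound _ 1 [(rh33e738c4ed385b9f.shift 1 0), rh3def329dc426b562] (by decide +kernel))
noncomputable def rhcced840e0475f351 : CRef := CRef.mk (Pat.mk 0x40000000e0000000800000008 0x10000000370000003e0000003800000008 4 6) 0 0 (step_sound _ 68 [(rhbbda3e5cf400e6dd.shift 1 0), (rhe3060b190bc0bc78.shift 0 2)] (by decide +kernel))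
noncomputable def rhf530834c0c5f3ed9 : CRef := CRef.mk (Pat.mk 0x3800000020 0x70000003e00000070 4 7) 0 0 (step_sound _ 34 [rh7d5bf828111ca202, (rhe25b0a99195a5d59.shift 2 0)] (by decide +kernel))
noncomputable def rh08f55903bac4cbcd : CRef := CRef.mk (Pat.mk 0x100000001e000000180000001000000000 0x100000003e0000001f0000003800000008 4 6) 0 0 (step_sound _ 35 [(rh71222050f2c63a3a.shift 3 0), (rhc31b6f966e0d7e89.shift 0 1)] (by decide +kernel))
noncomputable def rhf40e619d7e191ac6 : CRef := CRef.mk (Pat.mk 0x6000000030000000600000004 0x80000001e0000000f0000001e00000004 4 5) 0 0 (step_sound _ 35 [rh4969d2d75ade0a4c, (rhf48373e13d2bc128.shift 0 1)] (by decide +kernel))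
noncomputable def rhdfb835cb43b5b188 : CRef := CRef.mk (Pat.mk 0x38000000080000001c 0x380000003f0000003f 4 6) 0 0 (step_sound _ 33 [(rh7952d236cb99da8a.shift 1 0), rhbe282b16b2bfbfc7, rhd0ed6ce702d0de55] (by decide +kernel))
noncomputable def rh6e7f7bd72983e3da : CRef := CRef.mk (Pat.mk 0x80000000e000000060000000000000000 0x20000000b0000003e000000060000000400000004 4 6) 0 0 (step_sound _ 34 [(rh1b048598a8b37bd5.shift 0 1), (rh71222050f2c63a3a.shift 2 0)] (by decide +kernel))
noncomputable def rh04dbdeb3451965eb : CRef := CRef.mk (Pat.mk 0x80000001c00000010 0x1b0000001f00000038 4 6) 0 0 (step_sound _ 33 [rh9cd206837194a83f, (rhe25b0a99195a5d59.shift 1 0)] (by decide +kernel))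
noncomputable def rhdf864ecc9cbd02e0 : CRef := CRef.mk (Pat.mk 0x20000000300000006000000000000000000000000 0x200000002000000030000001e000000060000000400000004 4 5) 0 0 (step_sound _ 66 [(rh2145e1d24b96a57e.shift 1 2), rha599c9a0f4bd0402] (by decide +kernel))
noncomputable def rh357a2f7d16720a02 : CRef := CRef.mk (Pat.mk 0x20000000e000000020000000200000000 0x2000000030000003e000000060000000600000004 4 6) 0 0 (step_sound _ 34 [(rh33b15e661692c1c6.shift 0 1), (rh55afc6a59410cf00.shift 1 0)] (by decide +kernel))
noncomputable def rhfb69184a5e95e0cd : CRef := CRef.mk (Pat.mk 0xf00000002 0x380000003f00000076 4 7) 0 0 (step_sound _ 36 [(rh9890f9d77740bbed.shift 0 1), (rhf3baec4a0a3dd35e.shift 1 0)] (by decide +kernel))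
noncomputable def rhc53eed473b40de6e : CRef := CRef.mk (Pat.mk 0xa0000001e00000004 0x2000000030000003e0000003e00000004 4 6) 0 0 (step_sound _ 66 [(rhf48373e13d2bc128.shift 1 1), rhf6780567ccc6600e] (by decide +kernel))
noncomputable def rh8e72549fb4de9d02 : CRef := CRef.mk (Pat.mk 0xc000000080000000c0000001c00000000 0x100000001c0000000c0000003c0000001f00000003 4 6) 0 0 (step_sound _ 132 [rh1277f1130682e8f3, (rh2f68792b6b779e96.shift 3 1)] (by decide +kernel))
noncomputable def rhdaf294e221a6bb44 : CRef := CRef.mk (Pat.mk 0x4000000000000000c0000003c00000000 0x4000000040000003c0000003f00000063 4 7) 0 0 (step_sound _ 5 [rh1277f1130682e8f3, (rhe25b0a99195a5d59.shift 2 0)] (by decide +kernel))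
noncomputable def rh2a6f97678d325681 : CRef := CRef.mk (Pat.mk 0x80000000e0000001e0000000000000000 0x20000000b0000003e0000001e0000000400000004 4 6) 0 0 (step_sound _ 34 [(rh71222050f2c63a3a.shift 2 0), (rhf6780567ccc6600e.shift 0 1)] (by decide +kernel))
noncomputable def rh0043bde6ffa1ae55 : CRef := CRef.mk (Pat.mk 0x20000000600000002000000100000001800000000 0x40000000600000006000000020000003f0000001f00000004 4 6) 0 0 (step_sound _ 65 [(rh40424e2a9e15d704.shift 0 1), (rha707fb719e87fe6e.shift 1 1), (rhec4c174f64dd2881.shift 1 0)] (by decide +kernel))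
noncomputable def rh505b66e92ba0cdf5 : CRef := CRef.mk (Pat.mk 0x4000000040000001c0000001800000010 0x200000006000000060000001c0000007f00000036 4 7) 0 0 (step_sound _ 34 [(rh90c822559cbd2cc1.shift 1 0), rhf56e6bc5d2f7fe77] (by decide +kernel))
noncomputable def rh394cea040348dbf3 : CRef := CRef.mk (Pat.mk 0x380000001000000010 0x8000000080000001f0000007c0000001000000010 4 7) 0 0 (step_sound _ 99 [(rha9fbfd4bb8cf890b.shift 0 2), (rhc89253ff58c66167.shift 3 0)] (by decide +kernel))
noncomputable def rha743567175e9b7b8 : CRef := CRef.mk (Pat.mk 0x8000000080000000c0000000800000000 0x800000008000000080000000f0000003c00000010 4 6) 0 0 (step_sound _ 36 [(rh55afc6a59410cf00.shift 3 0), (rh66f3cbbb8310a478.shift 0 1)] (by decide +kernel))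
noncomputable def rh691ecd606bc9c673 : CRef := CRef.mk (Pat.mk 0x800000038000000280000001800000000 0x80000003c0000003f0000001e00000004 4 6) 0 0 (step_sound _ 34 [(rh932754581e0f4330.shift 2 0), (rha3b81ade83d12895.shift 0 1)] (by decide +kernel))
noncomputable def rh1e56de8fb7290cc6 : CRef := CRef.mk (Pat.mk 0x3800000008000000080000001000000000 0x3c0000001f000000080000001800000018 4 6) 0 0 (step_sound _ 35 [(rh55afc6a59410cf00.shift 3 0), rh9f396d50864ab5e9] (by decide +kernel))
noncomputable def rh3c9465598fd53458 : CRef := CRef.mk (Pat.mk 0x3800000008000000080000000400000000 0x3c0000001f000000080000000c0000000c 4 6) 0 0 (step_sound _ 35 [(rh932754581e0f4330.shift 2 0), rhe30a2a2536b70067] (by decide +kernel))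
noncomputable def rh2c0b414e3e65d132 : CRef := CRef.mk (Pat.mk 0x20000000e00000002 0x730000003e00000006 4 7) 0 0 (step_sound _ 36 [(rh3244c3cc8379b070.shift 0 1), (rhd584a578337d0023.shift 1 0)] (by decide +kernel))
noncomputable def rh7bf3a09dc3890604 : CRef := CRef.mk (Pat.mk 0x70000000600000004 0xe0000000e0000003e000000070000000600000004 4 6) 0 0 (step_sound _ 98 [rh1eeec04e73117746, (rh5fa50b509d4ce753.shift 1 0), (rh7f9f3607ee25a93b.shift 1 0)] (by decide +kernel))
noncomputable def rh6470388df7be4eda : CRef := CRef.mk (Pat.mk 0x2800000008000000000000003c00000000 0x7c0000000f000000040000003c00000006 4 7) 0 0 (step_sound _ 98 [(rh29ed1d9e79c1bb2d.shift 1 0), (rhe33d9496e10d8eb0.shift 0 3)] (by decide +kernel))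
noncomputable def rh6a42ab7a1317a286 : CRef := CRef.mk (Pat.mk 0x40000000c0000001c000000000000000000000000 0x40000000c0000001c0000000f0000000e0000000e 4 5) 0 0 (step_sound _ 66 [(rh2c57b4404ea586d3.shift 0 1), (rh4053c12da95c0aa0.shift 2 0), (rh46530d756bdf8511.shift 1 0)] (by decide +kernel))
noncomputable def rhbc082ae6473cd65f : CRef := CRef.mk (Pat.mk 0x2800000008000000000000000400000004 0x7c0000000f000000040000000400000004 4 7) 0 0 (step_sound _ 98 [(rh04253f50b6dd0619.shift 2 0), (rhe33d9496e10d8eb0.shift 0 3)] (by decide +kernel))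
noncomputable def rh6dbf931f634ed018 : CRef := CRef.mk (Pat.mk 0xb0000000e0000000800000000 0x10000000180000000f0000000f0000001800000010 4 5) 0 0 (step_sound _ 36 [rh4bcb9e710f427cc1, (rhb739f4f82bb681b4.shift 0 1)] (by decide +kernel))
noncomputable def rh18a801ab0d0ca2eb : CRef := CRef.mk (Pat.mk 0x18000000100000000c00000008 0x1800000018000000300000001f00000018 4 6) 0 0 (step_sound _ 36 [(rh5c5e593799055d58.shift 3 0), rhaf40e034a1a847b7] (by decide +kernel))
noncomputable def rhc90668d466b3a0bb : CRef := CRef.mk (Pat.mk 0xe0000000800000006 0xf000000780000001f 4 7) 0 0 (step_sound _ 36 [(rhb739f4f82bb681b4.shift 0 1), rhfe7c844806756e31] (by decide +kernel))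
noncomputable def rh40635836353d44db : CRef := CRef.mk (Pat.mk 0x1e00000018 0x700000003e0000001f 4 7) 0 0 (step_sound _ 1 [rheb0810cc63b001d8, (rheb2583258c8ff2d0.shift 1 0)] (by decide +kernel))
noncomputable def rh57f5d571eb878fdc : CRef := CRef.mk (Pat.mk 0x1e000000140000001000000000 0x300000001e0000001f0000003000000020 4 6) 0 0 (step_sound _ 132 [(rh33e738c4ed385b9f.shift 1 3), rh399ba8a6ad8f6c6a] (by decide +kernel))
noncomputable def rhf10481a102c8d2af : CRef := CRef.mk (Pat.mk 0xe0000001400000004 0x8000000080000001c0000000f0000001c00000004 4 5) 0 0 (step_sound _ 64 [rh49606a42a30c7ac4, (rh96851dee118c1ba3.shift 0 1)] (by decide +kernel))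
noncomputable def rh0c2322e2e36e5607 : CRef := CRef.mk (Pat.mk 0x100000001e0000000400000004 0x8000000080000001c0000001f0000003400000004 4 6) 0 0 (step_sound _ 36 [rh5bb1a18b21659263, (rhe25b0a99195a5d59.shift 1 1)] (by decide +kernel))
noncomputable def rh734ad5916a3b99d6 : CRef := CRef.mk (Pat.mk 0x1e00000018 0xe0000000fe0000001f 4 8) 0 0 (step_sound _ 37 [rh0bdf8aa2e59fe114, (rh226655e3fe6b4a8a.shift 2 0), (rh2612b4f73ba7c3b3.shift 2 0)] (by decide +kernel))
noncomputable def rh7ccecfcd70970d3a : CRef := CRef.mk (Pat.mk 0xe00000002000000000000000200000000 0x1000000070000001e00000002000000030000000300000001 4 5) 0 0 (step_sound _ 65 [(rh2f68792b6b779e96.shift 1 1), rh45a53a561c7fc8cb] (by decide +kernel))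
noncomputable def rha496a227fea50cc6 : CRef := CRef.mk (Pat.mk 0x800000008000000000000003800000020 0x80000000c000000070000003e00000037 4 6) 0 0 (step_sound _ 34 [rh0de499e0455c9c14, (rhc93f3ad81bc3b393.shift 1 0), rhd1d05263fabc0227] (by decide +kernel))
noncomputable def rh99c0b8c39a74db88 : CRef := CRef.mk (Pat.mk 0x40000001c000000100000000e00000000 0xc0000001e000000130000001e00000033 4 6) 0 0 (step_sound _ 36 [(rh4ad42ce8b6b2f224.shift 1 0), rheb505ef94539da28] (by decide +kernel))
noncomputable def rhd7a878236f6cde2a : CRef := CRef.mk (Pat.mk 0x38000000000000001c00000010 0x3c000000070000003e00000030 4 6) 0 0 (step_sound _ 33 [(rh3b0fde8fecf12c56.shift 0 1), (rhe25b0a99195a5d59.shift 1 0)] (by decide +kernel))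
noncomputable def rh9ad45f7da88f94a3 : CRef := CRef.mk (Pat.mk 0x38000000180000000000000008 0x60000003f0000003e0000000800000008 4 6) 0 0 (step_sound _ 66 [rh2c77cfccaf1c7a3f, (rh53b3c253cb0c65f4.shift 1 2)] (by decide +kernel))
noncomputable def rhe17bc2d8691c25e4 : CRef := CRef.mk (Pat.mk 0x38000000180000000000000008 0x6000000ff000000380000000800000008 4 8) 0 0 (step_sound _ 102 [(rh18965a982d73c794.shift 3 2), rh99958e6426785a6d] (by decide +kernel))
noncomputable def rhd5f14d1bdeeb9b81 : CRef := CRef.mk (Pat.mk 0x200000016000000180000000000000000 0x10000000330000001e000000180000000800000008 4 6) 0 0 (step_sound _ 99 [(rh3244c3cc8379b070.shift 0 3), (rh34b1188e635efc8d.shift 1 0)] (by decide +kernel))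
noncomputable def rh096c301d36496d23 : CRef := CRef.mk (Pat.mk 0xd0000000f0000000000000000 0x4000000040000000f0000001f0000001800000008 4 5) 0 0 (step_sound _ 97 [rhea719cc8bd0bdd28, (rhf48373e13d2bc128.shift 0 2)] (by decide +kernel))
noncomputable def rhda113f6e1ba381b7 : CRef := CRef.mk (Pat.mk 0x10000000e0000000c 0x730000007e0000000c 4 7) 0 0 (step_sound _ 36 [(rh3f8766e6ecb455ce.shift 0 1), (rh9462503d16fc4086.shift 1 0)] (by decide +kernel))
noncomputable def rh3e84a01bb3cc8415 : CRef := CRef.mk (Pat.mk 0x8000000100000001c00000008 0x1800000018000000100000001f00000038 4 6) 0 0 (step_sound _ 100 [rh2feb418f5d4f7391, (rh5c5e593799055d58.shift 3 0)] (by decide +kernel))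
noncomputable def rh0a7d3889081dce50 : CRef := CRef.mk (Pat.mk 0xc000000080000000e0000000000000000 0x140000001c000000180000000f0000000800000008 4 5) 0 0 (step_sound _ 35 [rh02de61bc697f3cfc, (rh50fbb5868c909700.shift 2 1)] (by decide +kernel))
noncomputable def rh92f50af3c4255d77 : CRef := CRef.mk (Pat.mk 0x4000000000000000f00000004 0xc0000000c000000180000000f0000001c 4 5) 0 0 (step_sound _ 67 [(rh33e738c4ed385b9f.shift 0 1), rhf3213703cb6afcc4] (by decide +kernel))
noncomputable def rh2a17fd093f4ada3e : CRef := CRef.mk (Pat.mk 0x2000000060000000e000000000000000000000000 0x2000000060000003e000000070000000700000007 4 6) 0 0 (step_sound _ 65 [(rh4053c12da95c0aa0.shift 1 0), rh46530d756bdf8511, (rha9e1a5d55b907abf.shift 0 2)] (by decide +kernel))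
noncomputable def rh5dc92c7cb979eb44 : CRef := CRef.mk (Pat.mk 0xc000000040000000c0000000800000000 0x80000000c000000040000003c0000000f00000002 4 6) 0 0 (step_sound _ 34 [(rh2f68792b6b779e96.shift 2 1), rha71afc656c87d410] (by decide +kernel))
noncomputable def rhfeb91c60f28c78a8 : CRef := CRef.mk (Pat.mk 0xf0000000f00000000 0xc0000000c0000001c0000000f0000000f00000018 4 5) 0 0 (step_sound _ 99 [(rh33e738c4ed385b9f.shift 0 2), rh787045d857cbf233] (by decide +kernel))
noncomputable def rhcbf8a4f49ea7fcd2 : CRef := CRef.mk (Pat.mk 0x3c00000008 0x700000003f00000038 4 7) 0 0 (step_sound _ 69 [rh238f8d26e680bdec, (rh33e738c4ed385b9f.shift 2 1)] (by decide +kernel))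
noncomputable def rhab0a8adaa09924f7 : CRef := CRef.mk (Pat.mk 0x8000000080000001e0000000800000000 0x80000000f0000007e0000000c00000004 4 7) 0 0 (step_sound _ 34 [(rh771383521b68d2cd.shift 0 1), (rh932754581e0f4330.shift 2 0)] (by decide +kernel))
noncomputable def rhbf56dbc01ae402ca : CRef := CRef.mk (Pat.mk 0x100000001c0000001800000008 0x80000000c0000001f0000003c0000001800000018 4 6) 0 0 (step_sound _ 99 [rh8f2453f412d57a0e, (rhfc7c29d8e65d775f.shift 3 0)] (by decide +kernel))
noncomputable def rhd0369fa2286dccd0 : CRef := CRef.mk (Pat.mk 0x800000018000000140000000400000000 0x380000001f000000340000000400000004 4 6) 0 0 (step_sound _ 98 [(rh3ce854f4a795c89f.shift 0 2), (rh71222050f2c63a3a.shift 2 0)] (by decide +kernel))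
noncomputable def rhcfc1d5d35ded1666 : CRef := CRef.mk (Pat.mk 0x120000000f00000004 0x360000007f0000001c 4 7) 0 0 (step_sound _ 36 [(rh33e738c4ed385b9f.shift 1 1), rh64fa2638f58ff22d] (by decide +kernel))
noncomputable def rha80376740378a305 : CRef := CRef.mk (Pat.mk 0x3c00000008 0xe0000000ff00000038 4 8) 0 0 (step_sound _ 38 [rh3696295804471b76, (rh7c057b8ca417ecd1.shift 2 0), (rh9890f9d77740bbed.shift 2 1)] (by decide +kernel))
noncomputable def rh478cecb8fd165732 : CRef := CRef.mk (Pat.mk 0x1c000000380000002000000000 0x8000000080000001c0000003f0000003600000004 4 6) 0 0 (step_sound _ 66 [(rh031a926e4a883687.shift 1 0), (rh8d917b916e5f3510.shift 0 1)] (by decide +kernel))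
noncomputable def rha2ad90f4d55a102f : CRef := CRef.mk (Pat.mk 0x100000001e000000060000000000000000 0x1000000010000000180000001f0000001e0000000800000008 4 5) 0 0 (step_sound _ 67 [rh7841f525d6ce6792, (rhe3dc93746cbe6e7c.shift 0 2), (rhf9366b6a121593ef.shift 3 0)] (by decide +kernel))
noncomputable def rh243794e02c417adb : CRef := CRef.mk (Pat.mk 0x4000000040000001c0000000800000000 0x2000000060000000f0000001e0000000f00000006 4 5) 0 0 (step_sound _ 97 [rh64fc1037460b24cb, (rhd8e93bbc8568df99.shift 0 2)] (by decide +kernel))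
noncomputable def rhb8307e4c182688f5 : CRef := CRef.mk (Pat.mk 0x4000000160000001e0000000800000000 0x1000000014000000160000001e0000003b00000002 4 6) 0 0 (step_sound _ 36 [rhe2486af8b6edba09, (rhe25b0a99195a5d59.shift 1 1)] (by decide +kernel))
noncomputable def rh5b2c2571532c5b54 : CRef := CRef.mk (Pat.mk 0x3c00000028 0x70000003e0000003e 4 6) 0 0 (step_sound _ 2 [rh9f15a3a342ec426e, (rheb0810cc63b001d8.shift 1 0)] (by decide +kernel))
noncomputable def rh7172c675ba77a020 : CRef := CRef.mk (Pat.mk 0x10000000f0000000f000000000000000000000000 0x50000000f0000000f0000001a0000000a00000008 4 5) 0 0 (step_sound _ 65 [(rh7b1f1fb55310c477.shift 0 1), rhbbe16ff26f7822db] (by decide +kernel))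
noncomputable def rh581410f8ae173f30 : CRef := CRef.mk (Pat.mk 0x20000000e000000020000000000000000 0x2000000020000003e000000070000000400000004 4 6) 0 0 (step_sound _ 100 [(rh9ba4ddb3bd4a337d.shift 1 0), (rheb0810cc63b001d8.shift 0 2)] (by decide +kernel))
noncomputable def rh9bb54e9a49c8ab45 : CRef := CRef.mk (Pat.mk 0x8000000160000000e0000000000000000 0x20000000b0000001e0000000f0000000400000004 4 5) 0 0 (step_sound _ 99 [rh1805d4d225594aed, (rh53b3c253cb0c65f4.shift 0 2)] (by decide +kernel))
noncomputable def rh27b1c7077a51f1ec : CRef := CRef.mk (Pat.mk 0x40000001c000000180000000000000000 0x10000000340000001f000000180000000800000008 4 6) 0 0 (step_sound _ 35 [(rh7b1f1fb55310c477.shift 2 0), (rhbd1085b5879a265a.shift 0 1)] (by decide +kernel))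
noncomputable def rh7a5ba409b8d700aa : CRef := CRef.mk (Pat.mk 0x100000007000000060000000000000000 0x1000000050000000500000007000000070000000200000002 4 3) 0 0 (step_sound _ 33 [rh7b1f1fb55310c477, (rhe0e64f4846962e3a.shift 0 1)] (by decide +kernel))
noncomputable def rhc58ba22137f4bcc1 : CRef := CRef.mk (Pat.mk 0x4000000030000000f00000004 0xa0000001e0000001b0000000f00000004 4 5) 0 0 (step_sound _ 97 [(rh2145e1d24b96a57e.shift 1 0), rh9ca149b7c900214b] (by decide +kernel))
noncomputable def rheb356526b579c1bd : CRef := CRef.mk (Pat.mk 0xc000000040000001e0000000400000000 0x20000000f0000003c0000001e0000000400000004 4 6) 0 0 (step_sound _ 99 [(rh70f7e6eaa86c9eda.shift 0 1), (rh71222050f2c63a3a.shift 2 0)] (by decide +kernel))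
noncomputable def rhf2af253f6836a78d : CRef := CRef.mk (Pat.mk 0x1e00000010 0x380000001f0000001b 4 6) 0 0 (step_sound _ 1 [rh0e2cddddafe6254b, rheb0810cc63b001d8] (by decide +kernel))
noncomputable def rh3349790ef9ee6561 : CRef := CRef.mk (Pat.mk 0x2000000060000000600000006 0xc0000003e000000070000000600000006 4 6) 0 0 (step_sound _ 98 [(rh2f68792b6b779e96.shift 1 0), rh861ee9d7304b9753] (by decide +kernel))
noncomputable def rhaf560e2bdde6bf7b : CRef := CRef.mk (Pat.mk 0x20000000200000006000000060000000000000000 0x1000000070000000700000006000000060000000200000002 4 3) 0 0 (step_sound _ 160 [rh289a42b0e672c6e8, (rh50fbb5868c909700.shift 0 2)] (by decide +kernel))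
noncomputable def rh3ea300c3301cee68 : CRef := CRef.mk (Pat.mk 0x20000000100000007000000060000000200000000 0x4000000060000000700000007000000070000000300000001 4 3) 0 0 (step_sound _ 162 [(rhee230b994cc8b773.shift 1 1), rhf74f31adc77c8519] (by decide +kernel))
noncomputable def rh0e56333839643009 : CRef := CRef.mk (Pat.mk 0x40000000c000000180000000000000000 0x4000000040000000c0000000f000000180000000800000008 4 5) 0 0 (step_sound _ 97 [(rha40d42a2e34c408d.shift 2 0), (rhb739f4f82bb681b4.shift 0 2)] (by decide +kernel))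
noncomputable def rh79ca413a1e436ec6 : CRef := CRef.mk (Pat.mk 0x1e00000008 0x70000007e0000000e 4 7) 0 0 (step_sound _ 65 [(rh1b1d9d37dc492e4a.shift 1 0), (rh3244c3cc8379b070.shift 0 1)] (by decide +kernel))
noncomputable def rhb09a79466be4480a : CRef := CRef.mk (Pat.mk 0x18000000100000001e0000001000000000 0x380000001f0000003e0000001000000010 4 6) 0 0 (step_sound _ 99 [(rh7b1f1fb55310c477.shift 3 0), (rh870359598daa9f92.shift 0 2)] (by decide +kernel))
noncomputable def rh392eaa81159b185b : CRef := CRef.mk (Pat.mk 0x8000000000000001e0000000c00000000 0xa0000000b0000001e0000000f00000004 4 5) 0 0 (step_sound _ 33 [(rh53b3c253cb0c65f4.shift 0 1), rhb4f6acf546da3a7b] (by decide +kernel))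
noncomputable def rh0e0b6070fdd0f56c : CRef := CRef.mk (Pat.mk 0x8000000000000000c0000001c000000000000000000000000 0x80000000a0000000f0000001c000000040000000400000004 4 5) 0 0 (step_sound _ 66 [rhda49d08e88765cc3, (rhee230b994cc8b773.shift 2 2)] (by decide +kernel))
noncomputable def rhc901bc4bb2497753 : CRef := CRef.mk (Pat.mk 0x1e000000040000000000000000 0x2000000030000001e000000070000000400000004 4 5) 0 0 (step_sound _ 129 [(rh3244c3cc8379b070.shift 0 3), rhc33175bd4b4703fe] (by decide +kernel))
noncomputable def rh4d11256e9142cf29 : CRef := CRef.mk (Pat.mk 0x1e00000006000000060000000600000000 0x1e0000003e000000070000001e00000008 4 6) 0 0 (step_sound _ 100 [rh898ddf38c8949691, (rhe25b0a99195a5d59.shift 1 3)] (by decide +kernel))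
noncomputable def rhc919c02c3fa6df28 : CRef := CRef.mk (Pat.mk 0x40000000f0000000c 0x3e0000007f0000000c 4 7) 0 0 (step_sound _ 68 [(rh428265de8cd3cd2d.shift 0 1), (rhd610587daf1d6212.shift 1 0)] (by decide +kernel))
noncomputable def rhf5176d4807cc3f6f : CRef := CRef.mk (Pat.mk 0x6000000020000000600000006000000000000000000000000 0x6000000060000000600000007000000030000000300000002 4 3) 0 0 (step_sound _ 65 [(rhbaefcd01e0a8bca3.shift 1 2), rhd1bcdb3cccafcd54] (by decide +kernel))
noncomputable def rhebfa5d0096fcb904 : CRef := CRef.mk (Pat.mk 0x80000001e0000001a0000000000000000 0x20000000b0000003e0000001e0000000400000004 4 6) 0 0 (step_sound _ 66 [rh1805d4d225594aed, (rh33e738c4ed385b9f.shift 1 2)] (by decide +kernel))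
noncomputable def rh3637b98dec3858d5 : CRef := CRef.mk (Pat.mk 0x80000001e00000018 0xc000000fe0000001f 4 8) 0 0 (step_sound _ 1 [(rh770a805a6060c652.shift 1 0), rheb0810cc63b001d8] (by decide +kernel))
noncomputable def rh1d5d0c7091249eda : CRef := CRef.mk (Pat.mk 0x1a0000001e00000018 0x30000000300000001e0000001e0000001b 4 6) 0 0 (step_sound _ 1 [(rh147fc9d3b8351d24.shift 1 0), rheb0810cc63b001d8] (by decide +kernel))
noncomputable def rhfea8a9bfcf0a6001 : CRef := CRef.mk (Pat.mk 0x80000001e00000018 0xe0000007e0000001f 4 7) 0 0 (step_sound _ 1 [(rh42903195a8cc61b9.shift 1 0), rheb0810cc63b001d8] (by decide +kernel))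
noncomputable def rh1125a15ebee0d2a3 : CRef := CRef.mk (Pat.mk 0x60000001e00000008 0x10000000300000003e0000001f00000008 4 6) 0 0 (step_sound _ 68 [(rh33e738c4ed385b9f.shift 1 1), rhcb9032737d1082dd] (by decide +kernel))
noncomputable def rh01063aa26991a6f6 : CRef := CRef.mk (Pat.mk 0x700000003000000010000000000000000 0x50000000700000003000000030000000300000003 4 3) 0 0 (step_sound _ 32 [rh71222050f2c63a3a, rh8af9a32e61457eb0] (by decide +kernel))
noncomputable def rh66f733055a08b45b : CRef := CRef.mk (Pat.mk 0x180000003c00000000 0x1e0000003f00000007 4 6) 0 0 (step_sound _ 66 [(rh3244c3cc8379b070.shift 1 1), rhcc2be1f880c5ea3e] (by decide +kernel))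
noncomputable def rh80027ce1936d9ccb : CRef := CRef.mk (Pat.mk 0x1000000018000000380000000000000000 0x10000000180000007c0000000f00000008 4 7) 0 0 (step_sound _ 35 [(rh2820ca9a6c4f41b4.shift 0 1), (rh71222050f2c63a3a.shift 3 0)] (by decide +kernel))
noncomputable def rh01e4fccfeee46272 : CRef := CRef.mk (Pat.mk 0x8000000180000000c0000000800000000 0x8000000180000000f0000003c00000014 4 6) 0 0 (step_sound _ 36 [(rh55afc6a59410cf00.shift 3 0), rhfe2b50ca4d83c2f7] (by decide +kernel))
noncomputable def rh935958661ca8b3dd : CRef := CRef.mk (Pat.mk 0x4000000090000000c0000000c 0x180000001e0000000f0000000c0000000c 4 5) 0 0 (step_sound _ 99 [rh32269cad40c2ff27, (rh5c5e593799055d58.shift 2 0)] (by decide +kernel))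
noncomputable def rh410d42eef7fab08d : CRef := CRef.mk (Pat.mk 0x800000000000000180000001800000008 0x800000008000000380000007f0000000e 4 7) 0 0 (step_sound _ 34 [(rh875286bc899abb01.shift 1 0), (rhab2ad169e49f9c5e.shift 0 1)] (by decide +kernel))
noncomputable def rh99398fa357d9bf61 : CRef := CRef.mk (Pat.mk 0xc0000001e000000000000000000000000 0x80000000c0000003e000000070000000400000004 4 6) 0 0 (step_sound _ 65 [(rh6875b8bf4c838f53.shift 1 0), (rheb0810cc63b001d8.shift 0 2)] (by decide +kernel))
noncomputable def rh5bf746ecd15c6274 : CRef := CRef.mk (Pat.mk 0x180000000e0000000200000000 0x800000008000000180000001e0000003300000010 4 6) 0 0 (step_sound _ 68 [(rhea719cc8bd0bdd28.shift 1 0), (rheb0810cc63b001d8.shift 0 1)] (by decide +kernel))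
noncomputable def rh867dc163b39cbea6 : CRef := CRef.mk (Pat.mk 0x800000000000000180000001c00000000 0x800000008000000180000003f00000007 4 6) 0 0 (step_sound _ 33 [(rh53b3c253cb0c65f4.shift 0 1), rha409d74db28f86f5] (by decide +kernel))
noncomputable def rh51aaf8b7bcb8eace : CRef := CRef.mk (Pat.mk 0x200000000000000060000000600000002 0x50000000700000007000000060000000600000002 4 3) 0 0 (step_sound _ 130 [rh14cfe43629e24c8a, (rhee230b994cc8b773.shift 1 0)] (by decide +kernel))
noncomputable def rh3c1192fb324bd90d : CRef := CRef.mk (Pat.mk 0x4000000040000000c0000000c00000000 0x200000006000000040000003c0000000f00000002 4 6) 0 0 (step_sound _ 33 [(rh4cc51c5e3934a79e.shift 0 1), (rh932754581e0f4330.shift 1 0)] (by decide +kernel))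
noncomputable def rh3d85883586a443ec : CRef := CRef.mk (Pat.mk 0x1c00000002 0x3e00000077 4 7) 0 0 (step_sound _ 33 [rheb0810cc63b001d8, (rhf3baec4a0a3dd35e.shift 1 0)] (by decide +kernel))
noncomputable def rh842920869d266e8f : CRef := CRef.mk (Pat.mk 0xe000000080000000800000000 0x140000001f000000380000000800000008 4 6) 0 0 (step_sound _ 68 [(rha73de14255e5ed05.shift 1 0), (rhb739f4f82bb681b4.shift 0 2)] (by decide +kernel))
noncomputable def rhd5000285e18e59dc : CRef := CRef.mk (Pat.mk 0x6000000080000000e00000004 0xc0000000f000000180000000f0000000c 4 5) 0 0 (step_sound _ 99 [(rh5c5e593799055d58.shift 2 0), rhc00fe340a8cfda8b] (by decide +kernel))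
noncomputable def rhe211a5562844a99b : CRef := CRef.mk (Pat.mk 0x1c0000000e0000000000000000 0x2000000030000001f0000003e0000000400000004 4 6) 0 0 (step_sound _ 97 [rh38a0850c9fea941e, (rh5c2ddd300f751bae.shift 0 2)] (by decide +kernel))
noncomputable def rh9e4ea844c1d58130 : CRef := CRef.mk (Pat.mk 0xc000000000000000c0000000c00000000 0x80000000c000000040000003c0000000f00000002 4 6) 0 0 (step_sound _ 98 [(rh2f68792b6b779e96.shift 2 1), rha71afc656c87d410] (by decide +kernel))
noncomputable def rhd8895235ad72ace7 : CRef := CRef.mk (Pat.mk 0x18000000020000001e00000000 0x40000003c000000060000003e00000003 4 6) 0 0 (step_sound _ 1 [(rh5145a6654c29a7e3.shift 1 0), rheb0810cc63b001d8] (by decide +kernel))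
noncomputable def rhfc9f07ce5b76abfb : CRef := CRef.mk (Pat.mk 0x18000000000000001e00000002 0x40000003c000000070000003e00000002 4 6) 0 0 (step_sound _ 65 [(rh3244c3cc8379b070.shift 0 1), (rh5145a6654c29a7e3.shift 1 0)] (by decide +kernel))
noncomputable def rh45109dfe0da23a74 : CRef := CRef.mk (Pat.mk 0x1000000000000000180000001c00000000 0x10000000100000001c000000ff00000060 4 8) 0 0 (step_sound _ 33 [(rh53b3c253cb0c65f4.shift 0 1), (rh8d3134ae48e30f98.shift 2 0)] (by decide +kernel))
noncomputable def rh9bb9e1a9fd514b2a : CRef := CRef.mk (Pat.mk 0x60000000300000000000000020000000000000000 0x4000000070000000300000002000000060000000600000004 4 3) 0 0 (step_sound _ 97 [(rh2f68792b6b779e96.shift 1 2), rh5c651669912fbab1] (by decide +kernel))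
noncomputable def rh04a978a26ee643ec : CRef := CRef.mk (Pat.mk 0x10000000f0000000100000000 0x200000002000000030000001f0000001900000001 4 5) 0 0 (step_sound _ 35 [rhc333e2570e2bbdf1, (rhe25b0a99195a5d59.shift 0 1)] (by decide +kernel))
noncomputable def rhb8c02536ea4cf983 : CRef := CRef.mk (Pat.mk 0x20000000e00000000 0x70000003e00000007 4 6) 0 0 (step_sound _ 36 [rh2d3cfdad8a2a86a9, (rh3244c3cc8379b070.shift 0 1)] (by decide +kernel))
noncomputable def rh115487d9d1ce0553 : CRef := CRef.mk (Pat.mk 0x160000001c0000000800000000 0x4000000040000001e0000001f0000001b00000002 4 5) 0 0 (step_sound _ 130 [(rh2145e1d24b96a57e.shift 2 1), rh985865b6ae4c8241] (by decide +kernel))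
noncomputable def rha61fa682b273bde1 : CRef := CRef.mk (Pat.mk 0x4000000140000001c000000080000000000000000 0x40000001c0000001f0000001f0000000200000002 4 5) 0 0 (step_sound _ 97 [rh1e8d6e1ef30e2d92, (rhe3dc93746cbe6e7c.shift 0 2)] (by decide +kernel))
noncomputable def rh4c7c32546f95183b : CRef := CRef.mk (Pat.mk 0xe00000020 0x70000003e00000070 4 7) 0 0 (step_sound _ 36 [rh2912624a36249f28, (rh96851dee118c1ba3.shift 1 0)] (by decide +kernel))
noncomputable def rh27d5b8ff81704bc6 : CRef := CRef.mk (Pat.mk 0x200000003c00000000 0x330000003e00000070 4 7) 0 0 (step_sound _ 33 [(rh428265de8cd3cd2d.shift 1 1), rh430939c12f459291] (by decide +kernel))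
noncomputable def rhcbf2a7d5d1431017 : CRef := CRef.mk (Pat.mk 0x40000001c0000001c000000000000000000000000 0x40000001e0000001f000000030000000200000002 4 5) 0 0 (step_sound _ 97 [(rh53b3c253cb0c65f4.shift 0 3), rhd1474a84c69f0140] (by decide +kernel))
noncomputable def rh0b007fc291716b29 : CRef := CRef.mk (Pat.mk 0x80000000c000000180000000800000000 0x80000000c000000780000001f00000004 4 7) 0 0 (step_sound _ 34 [(rh8f9617ee17321bd4.shift 0 1), (rh932754581e0f4330.shift 2 0)] (by decide +kernel))
noncomputable def rhc95335b2b3cb380c : CRef := CRef.mk (Pat.mk 0x700000004000000040000000800000000 0xf0000003e000000040000000c0000000c 4 6) 0 0 (step_sound _ 34 [(rh55afc6a59410cf00.shift 2 0), rh60117f4faffa9fe2] (by decide +kernel))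
noncomputable def rhc2ac2668ed0cbad2 : CRef := CRef.mk (Pat.mk 0x300000002000000000000001c00000000 0x30000000300000002000000060000003f00000003 4 6) 0 0 (step_sound _ 65 [(rhc9ca25976740a074.shift 1 1), rhdc5fbdfc450dbd97] (by decide +kernel))
noncomputable def rha289718bec579619 : CRef := CRef.mk (Pat.mk 0x50000000700000004000000040000000400000000 0x100000001000000050000000700000007000000060000000600000004 4 3) 0 0 (step_sound _ 97 [(rh7b1f1fb55310c477.shift 1 0), (rhade0f4c81793f68e.shift 0 1)] (by decide +kernel))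
noncomputable def rh3703404575e7a539 : CRef := CRef.mk (Pat.mk 0x30000000600000008000000080000001800000000 0x1000000030000000300000003000000060000000e0000000f0000001900000008 4 5) 0 0 (step_sound _ 97 [(rh0cbe15313afb7f23.shift 0 1), (rhb1a251d9bff81766.shift 0 2), (rhba47bac67ba000c3.shift 1 0)] (by decide +kernel))
noncomputable def rh1477f9c3922b596f : CRef := CRef.mk (Pat.mk 0x4000000020000001c0000000000000000 0x4000000070000003e0000000300000002 4 6) 0 0 (step_sound _ 65 [(rh3244c3cc8379b070.shift 0 2), rhbce5a81d218abb3c] (by decide +kernel))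
noncomputable def rh7361a6378a79e53f : CRef := CRef.mk (Pat.mk 0xe000000020000001c 0x2000000030000003e000000060000003c 4 6) 0 0 (step_sound _ 34 [rh1b048598a8b37bd5, (rhf48373e13d2bc128.shift 1 0)] (by decide +kernel))
noncomputable def rh9120325f2fb8b579 : CRef := CRef.mk (Pat.mk 0x1a0000000e00000008 0x10000000300000001f0000003e00000008 4 6) 0 0 (step_sound _ 36 [(rh3244c3cc8379b070.shift 0 1), (rhf38981051e3cd751.shift 1 0)] (by decide +kernel))
noncomputable def rhd2d5360a7d54cf97 : CRef := CRef.mk (Pat.mk 0xc0000000c0000001c0000000000000000 0xc0000000c0000001c0000000f0000000e 4 5) 0 0 (step_sound _ 34 [rh2c57b4404ea586d3, (rh71222050f2c63a3a.shift 2 0)] (by decide +kernel))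
noncomputable def rhe901db9d8eb9251a : CRef := CRef.mk (Pat.mk 0x20000001a0000000e00000008 0x600000006000000070000001e0000000e00000008 4 5) 0 0 (step_sound _ 66 [(rh3244c3cc8379b070.shift 0 2), (rh9be513b18bc3ec68.shift 1 0)] (by decide +kernel))
noncomputable def rh81be399a0175d467 : CRef := CRef.mk (Pat.mk 0x6000000180000000c000000000000000000000000 0x80000000f000000180000000c0000000c0000000400000004 4 5) 0 0 (step_sound _ 163 [(rh281c6819542c66e6.shift 2 0), (rhb739f4f82bb681b4.shift 0 4)] (by decide +kernel))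
noncomputable def rhd3aa8c369cd6ca6f : CRef := CRef.mk (Pat.mk 0xc0000000e000000090000000000000000 0xc0000001e0000000f0000001800000018 4 5) 0 0 (step_sound _ 65 [(rh18965a982d73c794.shift 0 2), rh4315e95d631a9818] (by decide +kernel))
noncomputable def rhb0d3d803b47a25b4 : CRef := CRef.mk (Pat.mk 0xd0000000c000000080000000800000000 0x800000018000000180000000f0000000c0000000c0000001800000010 4 5) 0 0 (step_sound _ 36 [(rh312db2f1e4a01342.shift 0 2), (rh55afc6a59410cf00.shift 3 0)] (by decide +kernel))
noncomputable def rh0cd5c6dd89495b93 : CRef := CRef.mk (Pat.mk 0x180000001c00000000 0x1f000000ff000000e0 4 8) 0 0 (step_sound _ 37 [(rh0cb6a409506b34ea.shift 2 0), (rhbe5fc5902345a0b9.shift 0 1)] (by decide +kernel))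
noncomputable def rh02942b5fc0bcc7bd : CRef := CRef.mk (Pat.mk 0x400000007000000030000000400000000 0x20000000600000007000000030000000700000007 4 3) 0 0 (step_sound _ 33 [(rh71222050f2c63a3a.shift 1 0), rh7263bee49303e8fc] (by decide +kernel))
noncomputable def rhd03e4a04a18923e5 : CRef := CRef.mk (Pat.mk 0x20000000600000007000000040000000000000000 0x40000000600000006000000070000001f0000000b00000003 4 5) 0 0 (step_sound _ 65 [(rh1e309b005ffa1b36.shift 1 0), rh46530d756bdf8511, (rh6cfcc4c4c29d94bc.shift 0 1)] (by decide +kernel))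
noncomputable def rhb9681426379f5ff9 : CRef := CRef.mk (Pat.mk 0x40000000f0000000b0000000200000000 0x2000000060000000f0000000b0000001f0000000d 4 5) 0 0 (step_sound _ 35 [(rh7b1f1fb55310c477.shift 2 0), rha556574e21bc2a17] (by decide +kernel))
noncomputable def rh5dadc213733acde0 : CRef := CRef.mk (Pat.mk 0x4000000140000000c0000000c00000000 0xa0000000f0000001c0000000c0000000c00000004 4 5) 0 0 (step_sound _ 131 [(rh2f68792b6b779e96.shift 2 1), rha816037e57a2e3c3] (by decide +kernel))
noncomputable def rhb7ae10cf7b2c0e64 : CRef := CRef.mk (Pat.mk 0x1a00000016000000120000001000000000 0x3000000030000001e00000016000000160000001c00000008 4 5) 0 0 (step_sound _ 35 [(rh932754581e0f4330.shift 3 0), (rhaaf1dc7285a08c48.shift 0 1)] (by decide +kernel))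
noncomputable def rh83bb80c64f9f27ad : CRef := CRef.mk (Pat.mk 0xc0000000e000000090000000800000000 0xc0000001e0000000b0000001e00000006 4 5) 0 0 (step_sound _ 65 [rh16fda1850c1e196c, (rh18965a982d73c794.shift 0 2)] (by decide +kernel))
noncomputable def rh3c6d7a8a083e8974 : CRef := CRef.mk (Pat.mk 0x200000006000000160000000400000000 0x40000000400000006000000060000001e0000000f0000000b 4 5) 0 0 (step_sound _ 130 [(rh0ff7ca71cb891e23.shift 1 0), (rh1e309b005ffa1b36.shift 1 0), rh5610213daa1b6928] (by decide +kernel))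
noncomputable def rhd93431c3ad9982b9 : CRef := CRef.mk (Pat.mk 0x2000000020000000600000006000000000000000000000000 0x400000006000000060000000600000006000000030000000300000003 4 3) 0 0 (step_sound _ 65 [(rh44f453b84f013105.shift 1 2), rh46530d756bdf8511, (rhea7a1800d6f053bd.shift 1 0)] (by decide +kernel))
noncomputable def rhbdde7ca93e3e9176 : CRef := CRef.mk (Pat.mk 0x200000002e00000000 0x330000003e00000070 4 7) 0 0 (step_sound _ 36 [(rh428265de8cd3cd2d.shift 1 1), rh430939c12f459291] (by decide +kernel))
noncomputable def rh6132a70967ffabf6 : CRef := CRef.mk (Pat.mk 0x80000001a0000000800000008 0x140000001f0000001b0000000800000008 4 5) 0 0 (step_sound _ 100 [(rh2f68792b6b779e96.shift 3 0), rh9cac931137f1cfa0] (by decide +kernel))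
noncomputable def rhf3b8cdcf9f7b4de1 : CRef := CRef.mk (Pat.mk 0x18000000180000001800000018 0x240000003f0000001f0000001800000018 4 6) 0 0 (step_sound _ 98 [rh0dd29b14486e05ff, (rh50fbb5868c909700.shift 2 0)] (by decide +kernel))
noncomputable def rh032b6973ed793695 : CRef := CRef.mk (Pat.mk 0x3000000020000000300000003000000000000000000000000 0x3000000030000000300000007000000060000000600000002 4 3) 0 0 (step_sound _ 65 [rh294d9702fa9bf092, (rhffd04209dc8ea796.shift 0 2)] (by decide +kernel))
noncomputable def rh8d9c13d97203eb86 : CRef := CRef.mk (Pat.mk 0x140000003c00000000 0x1c0000007f00000070 4 7) 0 0 (step_sound _ 67 [rhe153806bfe3acc65, (rhf48373e13d2bc128.shift 2 1)] (by decide +kernel))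
noncomputable def rh41c43e19aca4be20 : CRef := CRef.mk (Pat.mk 0x1e0000000c0000000000000000 0x2000000030000001e0000000f0000000400000004 4 5) 0 0 (step_sound _ 129 [(rh3244c3cc8379b070.shift 0 3), rh8f497d494005db75] (by decide +kernel))
noncomputable def rhefac72a482fea52e : CRef := CRef.mk (Pat.mk 0xd0000000c0000000000000000 0x8000000180000000f0000001c0000000400000004 4 5) 0 0 (step_sound _ 97 [rh34b1188e635efc8d, (rhe25b0a99195a5d59.shift 0 2)] (by decide +kernel))
noncomputable def rh547ee452ec790338 : CRef := CRef.mk (Pat.mk 0x8000000280000001c0000000000000000 0x8000000380000001f0000003800000010 4 6) 0 0 (step_sound _ 65 [rh0647d666102fa269, (rh428265de8cd3cd2d.shift 1 2)] (by decide +kernel))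
noncomputable def rh8e8bb318f11a6b6d : CRef := CRef.mk (Pat.mk 0x10000000100000000e0000000000000000 0x10000000300000001f0000003800000008 4 6) 0 0 (step_sound _ 68 [(rh33e738c4ed385b9f.shift 1 2), rh6de56787cc1605b6] (by decide +kernel))
noncomputable def rhc13c80fddf288e56 : CRef := CRef.mk (Pat.mk 0xc0000000c0000000b0000000000000000 0x80000000c0000000c0000000f0000001c0000000c 4 5) 0 0 (step_sound _ 35 [(rh7b1f1fb55310c477.shift 2 0), rh898d0b5c30ec21d7] (by decide +kernel))
noncomputable def rh92584284f8f1d209 : CRef := CRef.mk (Pat.mk 0x2800000008000000040000000400000000 0x780000001f000000040000000400000004 4 7) 0 0 (step_sound _ 98 [(rh71222050f2c63a3a.shift 2 0), (rhcadd85ff2a73e8c7.shift 0 3)] (by decide +kernel))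
noncomputable def rh3aee9459e860d53c : CRef := CRef.mk (Pat.mk 0x20000001a00000002 0x60000003e00000073 4 7) 0 0 (step_sound _ 34 [(rh2aac33c566332a8c.shift 1 0), rheb0810cc63b001d8] (by decide +kernel))
noncomputable def rh2cadc9261f43d1e3 : CRef := CRef.mk (Pat.mk 0xa0000001a000000020000000000000000 0x20000000a0000003e000000070000000400000004 4 6) 0 0 (step_sound _ 98 [(rh318cdda39fd482c1.shift 1 0), (rheb0810cc63b001d8.shift 0 2)] (by decide +kernel))
noncomputable def rh83805c1b349b7f6f : CRef := CRef.mk (Pat.mk 0xd0000000c000000080000000800000000 0x10000000180000000f0000000c0000000c0000000c00000004 4 5) 0 0 (step_sound _ 34 [(rh5660776ab885c7fc.shift 0 1), (rh932754581e0f4330.shift 2 0)] (by decide +kernel))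
noncomputable def rh322e0421ef56a63b : CRef := CRef.mk (Pat.mk 0x1a00000002 0x700000003e00000007 4 7) 0 0 (step_sound _ 34 [(rh3f9c2fb96516703c.shift 1 0), rheb0810cc63b001d8] (by decide +kernel))
noncomputable def rh2e6f9e03f5d73313 : CRef := CRef.mk (Pat.mk 0x1000000010000000010000000e00000000 0x1000000010000000330000003e00000030 4 6) 0 0 (step_sound _ 36 [(rh3f8766e6ecb455ce.shift 0 1), (rheba69208ec1d6f97.shift 1 0)] (by decide +kernel))
noncomputable def rhb8ccad5f84374f22 : CRef := CRef.mk (Pat.mk 0x800000018000000060000000000000000 0x8000000380000001f0000003000000010 4 6) 0 0 (step_sound _ 67 [(rh53b3c253cb0c65f4.shift 0 2), (rh9be069fbbecfe378.shift 1 0)] (by decide +kernel))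
noncomputable def rh40ca4cc59d420356 : CRef := CRef.mk (Pat.mk 0x20000000e00000002 0x730000003e00000006 4 7) 0 0 (step_sound _ 36 [(rh3244c3cc8379b070.shift 0 1), (rh3f9c2fb96516703c.shift 1 0)] (by decide +kernel))
noncomputable def rh1dd7423dae765ee3 : CRef := CRef.mk (Pat.mk 0x800000018000000000000000700000000 0x100000001800000018000000380000001f00000038 4 6) 0 0 (step_sound _ 35 [rh25623a11d5de7a23, rh519283893479dd7d, rh5b378a4891d3f0e0, rh5bc55fc95dfced77, rheba69208ec1d6f97] (by decide +kernel))
noncomputable def rhc08ef0fefba6ac88 : CRef := CRef.mk (Pat.mk 0xc000000280000000c00000018 0xc000000780000000f0000007c 4 7) 0 0 (step_sound _ 68 [rh5ac338b5fcda750b, (rhf48373e13d2bc128.shift 2 2)] (by decide +kernel))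
noncomputable def rh33f35cdda90373cf : CRef := CRef.mk (Pat.mk 0x800000018000000030000000600000000 0x1000000018000000180000000f0000001e00000008 4 5) 0 0 (step_sound _ 67 [(rh1c62b6193297d9e3.shift 0 2), rhf7ee2fef5eceb7b3] (by decide +kernel))
noncomputable def rhea20b2e1b4a88777 : CRef := CRef.mk (Pat.mk 0x20000000a0000000200000002000000020000000100000000 0x30000001e0000000700000002000000020000000300000001 4 5) 0 0 (step_sound _ 33 [(rh4ca7ff369f804d50.shift 0 1), rh932754581e0f4330] (by decide +kernel))
noncomputable def rh098c56123c034458 : CRef := CRef.mk (Pat.mk 0x80000000800000012000000030000000600000000 0x8000000080000001e0000001b0000001e00000010 4 5) 0 0 (step_sound _ 99 [rha0b579a804a93c2d, (rhb2a0b9ccfb5cecd5.shift 0 2)] (by decide +kernel))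
noncomputable def rh72603dfb0c436954 : CRef := CRef.mk (Pat.mk 0xa0000000a000000100000000300000006 0xb0000001e00000030000000130000001e 4 6) 0 0 (step_sound _ 4 [rh2fe78cc5ca4405d8, rh371ce43f88c89d49] (by decide +kernel))
noncomputable def rh448b80e90022dc20 : CRef := CRef.mk (Pat.mk 0x20000000a00000012000000030000000200000000 0x30000003e0000001e000000030000000200000002 4 6) 0 0 (step_sound _ 98 [(rh361cc68994bd8a63.shift 0 2), rhfc326055ff4c5110] (by decide +kernel))
noncomputable def rhd826477d39bda528 : CRef := CRef.mk (Pat.mk 0x80000000800000010000000030000000600000000 0x800000018000000180000001b0000001e00000010 4 5) 0 0 (step_sound _ 36 [(rh2fe78cc5ca4405d8.shift 0 1), (rha4a96b64b7d02d1e.shift 3 0)] (by decide +kernel))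
noncomputable def rh21f15bc73f941d2e : CRef := CRef.mk (Pat.mk 0x800000008000000120000000300000006 0x8000000180000001e0000001b0000001e 4 5) 0 0 (step_sound _ 4 [rh2fe78cc5ca4405d8, rhd03bf28cd6f1aa27] (by decide +kernel))
noncomputable def rh21c34111fa763b98 : CRef := CRef.mk (Pat.mk 0x10000000200000002000000060000000200000000 0x3000000070000000600000006000000060000000200000002 4 3) 0 0 (step_sound _ 130 [(rh2f68792b6b779e96.shift 1 1), rhfdea271288818cd8] (by decide +kernel))
noncomputable def rh71481c29d87b7b99 : CRef := CRef.mk (Pat.mk 0x1e000000040000000000000000 0x2000000070000003e000000040000000400000004 4 6) 0 0 (step_sound _ 129 [(rh3244c3cc8379b070.shift 0 3), (rheef8171dfb50465e.shift 1 0)] (by decide +kernel))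
noncomputable def rh95d8379bb7c33900 : CRef := CRef.mk (Pat.mk 0xf000000040000000000000000 0x8000000180000000f0000001c0000000400000004 4 5) 0 0 (step_sound _ 131 [(rh33e738c4ed385b9f.shift 0 3), rhd2eac245befb8aa7] (by decide +kernel))
noncomputable def rhfa9681ed7ca31a56 : CRef := CRef.mk (Pat.mk 0x20000000e0000000b0000000200000000 0x4000000060000000e0000000b0000001e0000000c 4 5) 0 0 (step_sound _ 130 [(rh2f68792b6b779e96.shift 1 1), rh753fba6ae2fbf5db] (by decide +kernel))
noncomputable def rhedb92cf628da4c9f : CRef := CRef.mk (Pat.mk 0xc0000000c000000080000000c00000000 0x80000000c0000000c0000000f0000003c00000010 4 6) 0 0 (step_sound _ 66 [(rh2f68792b6b779e96.shift 2 1), rhfe557af9112f51d6] (by decide +kernel))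
noncomputable def rh9f1ac322b6f12a31 : CRef := CRef.mk (Pat.mk 0x3800000028000000180000001000000010 0x380000002f0000007c0000003000000010 4 7) 0 0 (step_sound _ 69 [(rheea67dfebd0f8008.shift 4 0), (rhfd99604093c09fe0.shift 0 2)] (by decide +kernel))
noncomputable def rhd97dc455ea2479ac : CRef := CRef.mk (Pat.mk 0x1000000014000000040000000a0000000800000000 0x10000000340000001e0000001b0000000800000008 4 6) 0 0 (step_sound _ 99 [(rh7b1f1fb55310c477.shift 2 0), (rhbacaee3822caae1c.shift 0 1)] (by decide +kernel))
noncomputable def rh40596762b17615dd : CRef := CRef.mk (Pat.mk 0x10000000040000001e 0x300000003f0000001f 4 6) 0 0 (step_sound _ 36 [rh2160c83faec457f2, (rh33e738c4ed385b9f.shift 1 0)] (by decide +kernel))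
noncomputable def rh5b8a3942bd89145c : CRef := CRef.mk (Pat.mk 0x40000001c0000000400000000 0xa0000000f0000003c0000000400000004 4 6) 0 0 (step_sound _ 97 [rh4b44abc110b49737, (rhf48373e13d2bc128.shift 1 2)] (by decide +kernel))
noncomputable def rhb5b59ebe51586730 : CRef := CRef.mk (Pat.mk 0xe00000008000000080000001000000000 0x1f0000003c000000080000001800000010 4 6) 0 0 (step_sound _ 35 [(rh55afc6a59410cf00.shift 3 0), (rh9909eeda0ef2ed2c.shift 0 3)] (by decide +kernel))
noncomputable def rh71f76013d0b0c13d : CRef := CRef.mk (Pat.mk 0x400000004000000080000001c00000000 0x4000000040000003e0000007f00000002 4 7) 0 0 (step_sound _ 66 [(rh79b3c29022acbdf3.shift 1 1), rha71afc656c87d410] (by decide +kernel))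
noncomputable def rh921bf934b0191cb7 : CRef := CRef.mk (Pat.mk 0x100000001c00000010 0x1b0000001f00000038 4 6) 0 0 (step_sound _ 33 [rh09f1c582a79c0e52, (rhe25b0a99195a5d59.shift 1 0)] (by decide +kernel))
noncomputable def rh71076fcbfa908baf : CRef := CRef.mk (Pat.mk 0x80000001e000000180000000000000000 0x80000003e0000001f0000003000000010 4 6) 0 0 (step_sound _ 65 [(rha1c6525dbc916a6a.shift 1 0), (rheb0810cc63b001d8.shift 0 2)] (by decide +kernel))
noncomputable def rh12ea5000ffe513ff : CRef := CRef.mk (Pat.mk 0x80000000c000000080000000a0000000000000000 0x8000000080000000c0000000c0000000f0000001c00000018 4 5) 0 0 (step_sound _ 66 [(rh932754581e0f4330.shift 2 1), rhb70d716b1c885bd3] (by decide +kernel))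
noncomputable def rhd50f7445af4be931 : CRef := CRef.mk (Pat.mk 0x100000001c000000060000001c0000000000000000 0x100000001c0000000e0000001f0000003b00000002 4 6) 0 0 (step_sound _ 35 [(rh04253f50b6dd0619.shift 3 1), rh6ba96611d07a8138] (by decide +kernel))
noncomputable def rh2ca013f0c46862b0 : CRef := CRef.mk (Pat.mk 0x1000000018000000080000001c0000000000000000 0x100000001000000018000000180000001f0000003000000010 4 6) 0 0 (step_sound _ 100 [(rh5c5e593799055d58.shift 3 2), rhb99743c2849212cd] (by decide +kernel))
noncomputable def rhaad9d26060ca4112 : CRef := CRef.mk (Pat.mk 0x80000000c000000000000000e0000000000000000 0xc0000000c000000080000000f0000001c00000010 4 5) 0 0 (step_sound _ 99 [(rh932754581e0f4330.shift 2 1), rhfed574255f467ca7] (by decide +kernel))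
noncomputable def rhb8100e737f749136 : CRef := CRef.mk (Pat.mk 0x20000000300000002000000020000000000000000 0x2000000030000000300000003000000030000000300000002 4 2) 0 0 (step_sound _ 64 [(rh932754581e0f4330.shift 0 1), rhe808c2e5bb68297c] (by decide +kernel))
noncomputable def rh86aa75e034ac3439 : CRef := CRef.mk (Pat.mk 0x12000000020000000200000002 0x70000001f000000030000000200000002 4 5) 0 0 (step_sound _ 98 [(rh2f68792b6b779e96.shift 1 0), rh91ceb329a8baa60d] (by decide +kernel))
noncomputable def rhe1f090f2b31a9d51 : CRef := CRef.mk (Pat.mk 0x20000001a000000060000000000000000 0x3000000030000001e000000060000000600000004 4 5) 0 0 (step_sound _ 128 [(rh5419adcd928dba20.shift 0 3), rhab92366f0179162d] (by decide +kernel))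
noncomputable def rhddc1856af4164a47 : CRef := CRef.mk (Pat.mk 0x400000006000000040000000400000000 0x80000003c0000000f000000040000000400000004 4 6) 0 0 (step_sound _ 131 [rh00b2f1f16e5d0384, (rh2f68792b6b779e96.shift 2 1)] (by decide +kernel))
noncomputable def rhd12345ba03c871a7 : CRef := CRef.mk (Pat.mk 0x8000000180000000c0000000c00000000 0x60000000f0000001c0000000c0000000c00000008 4 5) 0 0 (step_sound _ 130 [(rh50fbb5868c909700.shift 2 1), rhdf3cc6e20fb32d78] (by decide +kernel))
noncomputable def rh08e2be399e351743 : CRef := CRef.mk (Pat.mk 0x80000001c0000000e00000000 0x800000008000000080000001f0000003e00000010 4 6) 0 0 (step_sound _ 131 [(rh5c5e593799055d58.shift 2 1), rhcf0f1f5b2b1be263] (by decide +kernel))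
noncomputable def rh17c857dcf8da1757 : CRef := CRef.mk (Pat.mk 0x1c000000060000000400000000 0x6000000070000001e000000060000000600000006 4 5) 0 0 (step_sound _ 129 [(rh8440640876951545.shift 0 1), (rha52e0141694f1c7d.shift 1 0), rheeabf87925ab8a42] (by decide +kernel))
noncomputable def rh5310cd4316f1e71f : CRef := CRef.mk (Pat.mk 0x100000001a00000038000000000000000000000000 0x100000003b0000003f000000600000002000000020 4 7) 0 0 (step_sound _ 69 [(rh08edf065357d68e5.shift 4 0), (rh95ce53963b10250e.shift 0 2)] (by decide +kernel))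
noncomputable def rhc94509045ed9c4bf : CRef := CRef.mk (Pat.mk 0xc0000000c0000000800000000 0x1000000010000000100000003c0000001f0000000800000008 4 6) 0 0 (step_sound _ 100 [(rh4dc133ee0ba1420a.shift 0 2), (rhb730ba14aa32bdb3.shift 3 0)] (by decide +kernel))
noncomputable def rhceef54650bd2c0b9 : CRef := CRef.mk (Pat.mk 0x10000000f00000000 0x330000001f00000038 4 6) 0 0 (step_sound _ 36 [rh1654ea0e58c0cf62, (rh3f8766e6ecb455ce.shift 0 1)] (by decide +kernel))
noncomputable def rhd6113e4c08b4feb5 : CRef := CRef.mk (Pat.mk 0x1c0000000400000004 0x2000000030000003e0000000700000004 4 6) 0 0 (step_sound _ 33 [(rh18965a982d73c794.shift 1 1), rha3c18a0d51907fbb] (by decide +kernel))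
noncomputable def rhed04b6e978427241 : CRef := CRef.mk (Pat.mk 0x3e00000000 0x70000007e000000e0 4 8) 0 0 (step_sound _ 6 [rh05e1907ed79dbf04, (rh96851dee118c1ba3.shift 2 0)] (by decide +kernel))
noncomputable def rhb66ef8ba16830b74 : CRef := CRef.mk (Pat.mk 0xf000000010000000000000008 0x300000001f0000001b0000000800000008 4 6) 0 0 (step_sound _ 100 [rh591c3d50f7e8728f, (rh80fcd6d0a18cb2dd.shift 0 2)] (by decide +kernel))
noncomputable def rh09eb485d87365415 : CRef := CRef.mk (Pat.mk 0x3800000008000000180000001000000010 0x20000000380000002f0000007c0000003000000010 4 7) 0 0 (step_sound _ 69 [(rhb009278fdd334770.shift 4 0), (rhfd99604093c09fe0.shift 0 2)] (by decide +kernel))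
noncomputable def rhd320fa596a321b57 : CRef := CRef.mk (Pat.mk 0x3c00000008 0xe0000000ff00000038 4 8) 0 0 (step_sound _ 38 [rh3696295804471b76, (rh9890f9d77740bbed.shift 2 1)] (by decide +kernel))
noncomputable def rhd29c8239e1cc0277 : CRef := CRef.mk (Pat.mk 0x2000000060000000300000003000000000000000000000000 0x100000003000000070000000700000003000000020000000200000002 4 3) 0 0 (step_sound _ 192 [rh194b9cf1b3c0ca44, (rh50fbb5868c909700.shift 0 3)] (by decide +kernel))
noncomputable def rh476ccc8a2435fd07 : CRef := CRef.mk (Pat.mk 0x30000000600000002000000020000000000000000 0x30000001f00000002000000060000000600000004 4 5) 0 0 (step_sound _ 131 [rha613ffd40b6c9d24, (rhf48373e13d2bc128.shift 0 4)] (by decide +kernel))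
noncomputable def rh40d60e552b04154f : CRef := CRef.mk (Pat.mk 0x100000003800000020 0x370000003e00000060 4 7) 0 0 (step_sound _ 34 [(rh503775339733bab1.shift 0 1), (rhe25b0a99195a5d59.shift 2 0)] (by decide +kernel))
noncomputable def rh229e715eaa0b6a69 : CRef := CRef.mk (Pat.mk 0xe0000000400000004 0x200000002000000070000003e0000000600000004 4 6) 0 0 (step_sound _ 97 [(rh46231ab7bfd17f40.shift 0 1), rhd8b2b56e7aaa7d53, (rhe072fffdd2fccf38.shift 1 0)] (by decide +kernel))
noncomputable def rhe1c545a0fa7090aa : CRef := CRef.mk (Pat.mk 0x18000000160000000200000000 0x800000008000000180000001e0000003300000010 4 6) 0 0 (step_sound _ 67 [(rhea719cc8bd0bdd28.shift 1 0), (rheb0810cc63b001d8.shift 0 1)] (by decide +kernel))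
noncomputable def rheb39b74c8337613e : CRef := CRef.mk (Pat.mk 0x3c00000018000000080000000800000000 0x600000003f00000018000000180000001800000010 4 7) 0 0 (step_sound _ 129 [(rh4522ea7bef838818.shift 2 0), (rhb739f4f82bb681b4.shift 0 3)] (by decide +kernel))
noncomputable def rh7d4be646332fc08b : CRef := CRef.mk (Pat.mk 0x2000000020000000300000000 0x4000000060000000600000002000000030000000300000001 4 3) 0 0 (step_sound _ 129 [(rh1ae8cb0b33fd1844.shift 0 1), rh932754581e0f4330] (by decide +kernel))
noncomputable def rh16f102541ca92697 : CRef := CRef.mk (Pat.mk 0x40000000c00000007000000000000000000000000 0x80000000c0000000c000000070000001e0000000e00000002 4 5) 0 0 (step_sound _ 66 [(rh33032410a9908d45.shift 1 0), (rha707fb719e87fe6e.shift 2 1), (rhb379f99078aafa2d.shift 0 1)] (by decide +kernel))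
noncomputable def rh914ff4febe8e14d3 : CRef := CRef.mk (Pat.mk 0xe0000000f0000000100000000 0x6000000060000000e0000000f0000001900000008 4 5) 0 0 (step_sound _ 129 [(rh5c5e593799055d58.shift 0 1), rhea719cc8bd0bdd28] (by decide +kernel))
noncomputable def rhd8d98eb6ec46d5f8 : CRef := CRef.mk (Pat.mk 0x10000000180000001e00000000 0x20000000300000001f0000001e00000030 4 6) 0 0 (step_sound _ 4 [(rhe25b0a99195a5d59.shift 1 0), rhf9bd4bdd448a5193] (by decide +kernel))
noncomputable def rhaac4eca025ee7762 : CRef := CRef.mk (Pat.mk 0xc000000080000000c0000000e00000000 0x100000003c0000000f0000000c0000000e00000002 4 6) 0 0 (step_sound _ 98 [(rh932754581e0f4330.shift 1 0), (rhc0ddb33d3a52722b.shift 0 1)] (by decide +kernel))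
noncomputable def rh7ef96393e2144d84 : CRef := CRef.mk (Pat.mk 0x4000000040000000e0000000400000000 0x80000000c0000003c0000000f0000000400000004 4 6) 0 0 (step_sound _ 131 [(rh2f68792b6b779e96.shift 2 1), rhc730c880da7d410c] (by decide +kernel))
noncomputable def rh371a9957a166d2f9 : CRef := CRef.mk (Pat.mk 0x4000000070000000500000001 0x60000000600000006000000070000000700000007 4 3) 0 0 (step_sound _ 129 [rh2f33d1d0bcfdca52, (rha52e0141694f1c7d.shift 1 0), rhfa1fc34e3368307c] (by decide +kernel))
noncomputable def rh02794658cccf00d8 : CRef := CRef.mk (Pat.mk 0x40000000c000000180000000200000000 0x40000000c000000780000001f00000008 4 7) 0 0 (step_sound _ 35 [(rh0b786d94a31538a6.shift 0 1), (rh7b1f1fb55310c477.shift 2 0)] (by decide +kernel))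
noncomputable def rha9286d423e2a6fb5 : CRef := CRef.mk (Pat.mk 0x4000000040000000e000000020000000000000000 0x4000000040000001f0000007e0000000800000008 4 7) 0 0 (step_sound _ 67 [(rh79ad7b82ec8c35e2.shift 2 0), (rh8869e59ae3158564.shift 0 1), (rh8ee80cc30e93a344.shift 0 2)] (by decide +kernel))
noncomputable def rh1af52505efaa5b8d : CRef := CRef.mk (Pat.mk 0xc000000040000000e0000000600000000 0xc0000000c0000000f0000001e0000001c 4 5) 0 0 (step_sound _ 35 [rh141a5aabb394f9cd, (rh55afc6a59410cf00.shift 2 0)] (by decide +kernel))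
noncomputable def rh6e6b590cd38a882d : CRef := CRef.mk (Pat.mk 0x600000006000000050000000400000000 0x40000000600000006000000070000001e0000000a 4 5) 0 0 (step_sound _ 33 [(rh932754581e0f4330.shift 1 0), rhebad08d70b7eb511] (by decide +kernel))
noncomputable def rh46a51893feb99aaf : CRef := CRef.mk (Pat.mk 0x200000003c00000040 0x370000007e000000c0 4 8) 0 0 (step_sound _ 38 [(rh7fb660bc21ce4329.shift 0 1), (rhe25b0a99195a5d59.shift 3 0)] (by decide +kernel))
noncomputable def rhbeee14346ee17040 : CRef := CRef.mk (Pat.mk 0x200000002000000060000000f00000000 0x400000006000000060000001e0000000f0000000a 4 5) 0 0 (step_sound _ 67 [(rh33e738c4ed385b9f.shift 0 1), (rh6b423afcc975f198.shift 1 0)] (by decide +kernel))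
noncomputable def rhc6c8721b98efe6cc : CRef := CRef.mk (Pat.mk 0x8000000080000000c0000000400000000 0x8000000080000000f0000003c00000014 4 6) 0 0 (step_sound _ 35 [(rh932754581e0f4330.shift 2 0), rhfe557af9112f51d6] (by decide +kernel))
noncomputable def rhf17906db8dc30c44 : CRef := CRef.mk (Pat.mk 0x8000000080000001c000000000000000000000000 0x8000000380000001f000000380000001000000010 4 6) 0 0 (step_sound _ 97 [(rhc7b95363f9049b11.shift 1 0), (rhec46bd5500c722c9.shift 0 3)] (by decide +kernel))
noncomputable def rh480378523843b552 : CRef := CRef.mk (Pat.mk 0x1c000000080000000c0000001c 0x30000001f0000003c0000000c0000007c 4 7) 0 0 (step_sound _ 5 [rh64d912a96d263ce3, (rhf48373e13d2bc128.shift 2 0)] (by decide +kernel))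
noncomputable def rh4f34cd89ac0b4d78 : CRef := CRef.mk (Pat.mk 0xf0000000d000000040000000400000000 0x50000001f0000000f000000060000000600000002 4 5) 0 0 (step_sound _ 97 [(rh33e738c4ed385b9f.shift 0 3), rh474875b2ab064539] (by decide +kernel))
noncomputable def rhd11b561e49648aba : CRef := CRef.mk (Pat.mk 0x8000000180000000e0000000400000004 0xa0000001b0000001e0000003700000014 4 6) 0 0 (step_sound _ 68 [(rh78974448101547fe.shift 1 0), rhe4f9133a81c1dbc5] (by decide +kernel))
noncomputable def rh80b349b2964deda7 : CRef := CRef.mk (Pat.mk 0xe0000000400000004 0x200000002000000070000003e0000007600000004 4 7) 0 0 (step_sound _ 68 [(rh0ae232cce48795b7.shift 1 1), rh1c1037cb5b3fe471] (by decide +kernel))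
noncomputable def rhfa009dbfd473562c : CRef := CRef.mk (Pat.mk 0x7000000030000000600000004 0x80000001f0000001b0000001e00000004 4 5) 0 0 (step_sound _ 99 [(rh18965a982d73c794.shift 0 2), rhac075e0b88624d80] (by decide +kernel))
noncomputable def rh0e1a19d901ccf948 : CRef := CRef.mk (Pat.mk 0x4000000160000001e0000000000000000 0x10000000340000001e0000001f0000000800000008 4 6) 0 0 (step_sound _ 99 [(rh53b3c253cb0c65f4.shift 0 2), (rha240d968d16a7f4e.shift 1 0)] (by decide +kernel))
noncomputable def rh8a1faca68310bc02 : CRef := CRef.mk (Pat.mk 0x40000000c000000300000000200000000 0x40000000c000000780000001f00000008 4 7) 0 0 (step_sound _ 67 [rh360f5caf39154ba6, (rhf48373e13d2bc128.shift 2 2)] (by decide +kernel))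
noncomputable def rh3884b61926757a14 : CRef := CRef.mk (Pat.mk 0x40000000e0000001a0000000200000000 0xe0000000e0000001a0000000f0000000c 4 5) 0 0 (step_sound _ 35 [rh3f69e10535d86375, (rh7b1f1fb55310c477.shift 2 0)] (by decide +kernel))
noncomputable def rh246bb6eff8175e68 : CRef := CRef.mk (Pat.mk 0x80000001c0000000400000004 0x2000000020000003f0000001f0000000400000004 4 6) 0 0 (step_sound _ 65 [rh1c1037cb5b3fe471, (rhec46bd5500c722c9.shift 0 2)] (by decide +kernel))
noncomputable def rhcab4c3a1fc84153a : CRef := CRef.mk (Pat.mk 0x10000000f000000020000000000000000 0x1000000010000001b0000000f000000020000000200000002 4 5) 0 0 (step_sound _ 131 [(rh33e738c4ed385b9f.shift 0 3), rha40d42a2e34c408d] (by decide +kernel))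
noncomputable def rh660ea19c86119cc0 : CRef := CRef.mk (Pat.mk 0x2000000060000000300000000 0x4000000060000000600000002000000060000000700000001 4 3) 0 0 (step_sound _ 129 [(rh22cde4a1aed087ae.shift 1 1), rh932754581e0f4330] (by decide +kernel))
noncomputable def rh4c0a031285265102 : CRef := CRef.mk (Pat.mk 0x600000007000000020000000200000000 0x2000000020000000600000007000000070000000700000004 4 3) 0 0 (step_sound _ 34 [(rh55afc6a59410cf00.shift 1 0), (rhb74d657eb25f93e7.shift 0 1)] (by decide +kernel))
noncomputable def rh20000ccf39b0f0f9 : CRef := CRef.mk (Pat.mk 0x700000007000000020000000200000000 0x2000000020000000700000007000000070000000700000001 4 3) 0 0 (step_sound _ 32 [rh932754581e0f4330, (rhd8fabeb96da1e86f.shift 0 1)] (by decide +kernel))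
noncomputable def rh4d3b54600aa031c0 : CRef := CRef.mk (Pat.mk 0x80000000e0000000c0000000800000000 0x80000000e0000003f0000003800000010 4 6) 0 0 (step_sound _ 36 [(rh55afc6a59410cf00.shift 3 0), (rhe416a68cbe4f200b.shift 0 1)] (by decide +kernel))
noncomputable def rh2fafbcb1435bcca1 : CRef := CRef.mk (Pat.mk 0x40000000e0000000b0000000200000000 0x40000000f0000001b0000001f00000008 4 5) 0 0 (step_sound _ 35 [(rh7b1f1fb55310c477.shift 2 0), (rh9e51b411cf60c0be.shift 0 1)] (by decide +kernel))
noncomputable def rhb4b61a49b0d27ace : CRef := CRef.mk (Pat.mk 0x40000000e0000000b0000000200000000 0xe0000000e0000000b0000001e0000000c 4 5) 0 0 (step_sound _ 35 [(rh7b1f1fb55310c477.shift 2 0), rhcb70e1b2667f61ac] (by decide +kernel))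
noncomputable def rh42ae4cf64280e54c : CRef := CRef.mk (Pat.mk 0x8000000080000001c000000000000000000000000 0x8000000380000001f000000380000001000000010 4 6) 0 0 (step_sound _ 68 [(rh3ce854f4a795c89f.shift 0 2), (rh79ad7b82ec8c35e2.shift 3 0)] (by decide +kernel))
noncomputable def rhad8eaff05a9d39ab : CRef := CRef.mk (Pat.mk 0x1c0000000e000000040000000c00000000 0x100000001c0000000e0000003c0000000f00000002 4 6) 0 0 (step_sound _ 67 [(rh2f68792b6b779e96.shift 3 1), rh9cc5d980c4667d10] (by decide +kernel))
noncomputable def rh1be6864662b2e083 : CRef := CRef.mk (Pat.mk 0x80000001c000000040000001c00000000 0xc0000001c000000340000001e00000013 4 6) 0 0 (step_sound _ 68 [rh681d9f8e79458a8b, (rh7b1f1fb55310c477.shift 3 0)] (by decide +kernel))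
noncomputable def rhc22deff993a3faec : CRef := CRef.mk (Pat.mk 0x200000007000000000000000600000000 0x80000001e00000007000000040000000600000006 4 5) 0 0 (step_sound _ 66 [(rh7b1f1fb55310c477.shift 1 0), rh9a156db74dae0595] (by decide +kernel))
noncomputable def rh2642de6ca2d23e3a : CRef := CRef.mk (Pat.mk 0x80000001e000000040000000000000000 0x20000000b0000001e000000070000000400000004 4 5) 0 0 (step_sound _ 65 [rh2314a9727c37b748, (rheb0810cc63b001d8.shift 0 2)] (by decide +kernel))
noncomputable def rhbc45defcffc6d51e : CRef := CRef.mk (Pat.mk 0x180000000e0000000400000000 0x800000008000000180000003e0000003700000010 4 6) 0 0 (step_sound _ 131 [rh05ac7dc28e633609, (rh5c5e593799055d58.shift 2 1)] (by decide +kernel))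
noncomputable def rh9a2fd8b22c122707 : CRef := CRef.mk (Pat.mk 0x60000000e000000030000000300000000 0x60000000e0000001b0000001f0000000c 4 5) 0 0 (step_sound _ 34 [(rh55afc6a59410cf00.shift 1 0), rhd9fec72a21b00309] (by decide +kernel))
noncomputable def rh7235e22a26ce31fe : CRef := CRef.mk (Pat.mk 0x1c000000060000000000000000 0x2000000030000001e000000070000000400000004 4 5) 0 0 (step_sound _ 97 [rh38a0850c9fea941e, (rheb0810cc63b001d8.shift 0 2)] (by decide +kernel))
noncomputable def rh270502ca45ea5299 : CRef := CRef.mk (Pat.mk 0x2000000060000000300000003000000000000000000000000 0x2000000060000000700000007000000060000000600000002 4 3) 0 0 (step_sound _ 66 [rha3e646ed12f1e914, (rhd3458b32566d63f7.shift 1 2)] (by decide +kernel))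
noncomputable def rhad264869bfe92f26 : CRef := CRef.mk (Pat.mk 0x1a0000000e00000004 0x2000000030000001f0000003e00000004 4 6) 0 0 (step_sound _ 97 [(rh2145e1d24b96a57e.shift 1 0), (rh3aebecf4f16aee4e.shift 0 1)] (by decide +kernel))
noncomputable def rhbbe712c9e486db20 : CRef := CRef.mk (Pat.mk 0xc0000000f000000030000000200000000 0xc0000000f0000001b0000001e0000000c 4 5) 0 0 (step_sound _ 67 [(rhe25b0a99195a5d59.shift 0 2), rhf4567e835eb18e9f] (by decide +kernel))
noncomputable def rhe01be80656df83b3 : CRef := CRef.mk (Pat.mk 0x2000000030000000200000004 0x1000000030000000300000002000000030000000700000004 4 3) 0 0 (step_sound _ 129 [(rha77f215723363df0.shift 0 1), (rhd3458b32566d63f7.shift 1 0)] (by decide +kernel))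
noncomputable def rh99807ad0ef617e05 : CRef := CRef.mk (Pat.mk 0x4000000030000000200000002000000000000000000000000 0x4000000070000000300000002000000060000000600000004 4 3) 0 0 (step_sound _ 65 [rha613ffd40b6c9d24, (rhbaefcd01e0a8bca3.shift 1 2)] (by decide +kernel))
noncomputable def rh00252dbeb2746f9c : CRef := CRef.mk (Pat.mk 0xe000000030000000200000004 0xa0000000e0000000f0000001e00000004 4 5) 0 0 (step_sound _ 34 [(rh2145e1d24b96a57e.shift 1 0), rhd3a7c4580f62e5fe] (by decide +kernel))
noncomputable def rh997d67b8c4cb0986 : CRef := CRef.mk (Pat.mk 0x200000002000000020000000400000000 0x20000000200000002000000070000000700000005 4 3) 0 0 (step_sound _ 33 [rh50fc3837f5e8c53a, (rh55afc6a59410cf00.shift 1 0)] (by decide +kernel))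
noncomputable def rh0c46b60ac325d5a4 : CRef := CRef.mk (Pat.mk 0x8000000180000000c0000000800000000 0x8000000180000000f0000003c00000014 4 6) 0 0 (step_sound _ 34 [rh4892b0043cb46d74, (rh932754581e0f4330.shift 2 0)] (by decide +kernel))
noncomputable def rh35e9630cb06f0eca : CRef := CRef.mk (Pat.mk 0x40000001c00000004000000040000000400000000 0x400000004000000040000001c0000000f000000060000000400000004 4 5) 0 0 (step_sound _ 99 [(rh3af54b5f78790764.shift 0 2), (rh71222050f2c63a3a.shift 2 0)] (by decide +kernel))
noncomputable def rh879cdb683ee6f2d5 : CRef := CRef.mk (Pat.mk 0x200000003400000000 0x700000003e00000007 4 7) 0 0 (step_sound _ 35 [rh2591032a0e7f4182, (rh33e738c4ed385b9f.shift 2 1)] (by decide +kernel))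
noncomputable def rh1b866c4ae8b50bb9 : CRef := CRef.mk (Pat.mk 0x40000000c0000000400000004 0xa0000000f0000003c0000000400000004 4 6) 0 0 (step_sound _ 97 [(rh50fbb5868c909700.shift 1 0), rhf5cd3c300f0364c1] (by decide +kernel))
noncomputable def rh8349b894a33edab5 : CRef := CRef.mk (Pat.mk 0x40000000e0000000b0000000200000000 0x40000000f0000001b0000001f00000008 4 5) 0 0 (step_sound _ 35 [(rh198505795ac7e57a.shift 0 1), (rh7b1f1fb55310c477.shift 2 0)] (by decide +kernel))
noncomputable def rh14b7f29a2029f50d : CRef := CRef.mk (Pat.mk 0x200000007800000018 0x3e0000007f00000018 4 7) 0 0 (step_sound _ 66 [rh1a82cb2d91a44ca1, (rh3f8766e6ecb455ce.shift 2 1)] (by decide +kernel))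
noncomputable def rh1d7e0b0361b25719 : CRef := CRef.mk (Pat.mk 0xc0000000e000000040000000c00000000 0x40000000c0000000e0000003c0000000f00000002 4 6) 0 0 (step_sound _ 67 [(rh50fbb5868c909700.shift 2 1), rh9cc5d980c4667d10] (by decide +kernel))
noncomputable def rh6d98f21c82bb44b4 : CRef := CRef.mk (Pat.mk 0x180000000e0000000400000004 0x2000000020000001f0000003e0000000600000004 4 6) 0 0 (step_sound _ 97 [(rh46231ab7bfd17f40.shift 0 1), rhca6b99e1f6ffeb4c, (rhe072fffdd2fccf38.shift 1 0)] (by decide +kernel))
noncomputable def rh48833c2e25383c2e : CRef := CRef.mk (Pat.mk 0x1a0000001e00000004 0x3000000030000001e0000001e00000007 4 5) 0 0 (step_sound _ 1 [rh9dc6f17ef8893ffe, rheb0810cc63b001d8] (by decide +kernel))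
noncomputable def rh46d94ef482239556 : CRef := CRef.mk (Pat.mk 0xc000000030000000700000000 0x40000000c0000001b0000001f00000018 4 5) 0 0 (step_sound _ 35 [rh7954966a81f8b2d9, (rhf48373e13d2bc128.shift 0 1)] (by decide +kernel))
noncomputable def rhf0b30de5b48e04bc : CRef := CRef.mk (Pat.mk 0x180000001e000000140000000400000000 0x180000001e000000170000003c00000030 4 6) 0 0 (step_sound _ 65 [(rh59d0aa10d09b9b49.shift 1 0), (rheb0810cc63b001d8.shift 0 2)] (by decide +kernel))
noncomputable def rh64a91c118681c512 : CRef := CRef.mk (Pat.mk 0x380000002c 0x70000003e0000007c 4 7) 0 0 (step_sound _ 34 [rh9f15a3a342ec426e, (rhe25b0a99195a5d59.shift 2 0)] (by decide +kernel))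
noncomputable def rh37b8c63c045fbf1d : CRef := CRef.mk (Pat.mk 0x800000018000000160000000400000000 0x8000000180000003e0000003700000010 4 6) 0 0 (step_sound _ 36 [(rh5e4e7266ca016e80.shift 0 1), (rh7b1f1fb55310c477.shift 3 0)] (by decide +kernel))
noncomputable def rh9cb7def1fda7cebc : CRef := CRef.mk (Pat.mk 0x4000000040000001e000000040000000000000000 0x80000000c0000000f0000001e000000040000000400000004 4 5) 0 0 (step_sound _ 129 [(rh15a1b6b82d9fd81f.shift 1 0), (rh3244c3cc8379b070.shift 0 3)] (by decide +kernel))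
noncomputable def rhe17ef062e95a6bca : CRef := CRef.mk (Pat.mk 0x200000002000000070000000700000000 0x40000000600000006000000070000001f00000018 4 5) 0 0 (step_sound _ 130 [(rh2f68792b6b779e96.shift 1 1), rh87b8cd3adf08d155] (by decide +kernel))
noncomputable def rhc25035b08412a6a9 : CRef := CRef.mk (Pat.mk 0x20000000200000007000000020000000000000000 0x20000000700000007000000060000000600000006 4 3) 0 0 (step_sound _ 34 [rh8d56be6ebcbb46ba, (rhd3458b32566d63f7.shift 1 1)] (by decide +kernel))
noncomputable def rh700158ad6001656e : CRef := CRef.mk (Pat.mk 0x80000000300000006000000040000000000000000 0x8000000080000000b0000001e0000000c0000000400000004 4 5) 0 0 (step_sound _ 99 [(rh02ef15e22aa7db92.shift 2 0), (rhf48373e13d2bc128.shift 0 3)] (by decide +kernel))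
noncomputable def rhb6e5fd90818b20b8 : CRef := CRef.mk (Pat.mk 0x40000000700000004000000000000000000000000 0x40000000400000004000000070000003e0000000e0000000800000008 4 6) 0 0 (step_sound _ 99 [(rh70e33bfdf511e144.shift 2 0), (rh89ade209b3e28f13.shift 0 3), (rhb23658ecdd7ce5df.shift 1 2)] (by decide +kernel))
noncomputable def rhe8248a1b95ce33e7 : CRef := CRef.mk (Pat.mk 0x80000001e0000001e000000000000000000000000 0x8000000080000000c0000001e0000001e000000030000000200000002 4 5) 0 0 (step_sound _ 195 [(rh2145e1d24b96a57e.shift 3 3), rh9a011a4d0ec8f646] (by decide +kernel))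
noncomputable def rh197eac3645f3813e : CRef := CRef.mk (Pat.mk 0x80000001a0000001e0000000000000000 0x20000000b0000001e0000003e0000000400000004 4 6) 0 0 (step_sound _ 98 [rh1805d4d225594aed, (rhf48373e13d2bc128.shift 1 2)] (by decide +kernel))
noncomputable def rh2e6f530911a4ba98 : CRef := CRef.mk (Pat.mk 0xc00000007000000000000000000000000 0x40000001c0000000f000000180000000800000008 4 5) 0 0 (step_sound _ 99 [(rh33e738c4ed385b9f.shift 0 3), rhbbe16ff26f7822db] (by decide +kernel))
noncomputable def rhe060dff3c45bacc6 : CRef := CRef.mk (Pat.mk 0xe0000000400000004 0x2000000070000003e0000007700000004 4 7) 0 0 (step_sound _ 68 [(rh0ae232cce48795b7.shift 1 1), rhe4f9133a81c1dbc5, rheddd3d8f7db62149] (by decide +kernel))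
noncomputable def rh4f402ce420c5c06c : CRef := CRef.mk (Pat.mk 0x600000007000000020000000200000000 0xa0000001e00000007000000060000000600000004 4 5) 0 0 (step_sound _ 34 [(rh186fe4ed6bb82831.shift 0 1), (rh55afc6a59410cf00.shift 1 0)] (by decide +kernel))
noncomputable def rhb96df5c3a78e6968 : CRef := CRef.mk (Pat.mk 0x700000007000000020000000600000000 0x180000001f00000007000000060000000700000001 4 5) 0 0 (step_sound _ 32 [rh932754581e0f4330, (rhde6855bd4bb88943.shift 0 1)] (by decide +kernel))
noncomputable def rhb2355ac630244203 : CRef := CRef.mk (Pat.mk 0xc0000001c000000080000001800000000 0x80000000c0000001c0000000f0000003c00000004 4 6) 0 0 (step_sound _ 34 [(rh932754581e0f4330.shift 2 0), (rhc7cbae2146d78903.shift 0 1)] (by decide +kernel))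
noncomputable def rh3100b06a6300fdfa : CRef := CRef.mk (Pat.mk 0xd0000000f0000000100000000 0xa0000001a0000000f0000000f0000000500000005 4 5) 0 0 (step_sound _ 97 [rh34b1188e635efc8d, rh84d1c02a8954c6a8] (by decide +kernel))
noncomputable def rh1a3d54f4ee790517 : CRef := CRef.mk (Pat.mk 0x80000000e00000004 0x380000003f00000007 4 6) 0 0 (step_sound _ 68 [(rh53b3c253cb0c65f4.shift 0 1), rh7d1eb0a2ac11b171] (by decide +kernel))
noncomputable def rhebaa3168f6f6fdb4 : CRef := CRef.mk (Pat.mk 0x80000000e0000001000000000 0x800000008000000080000000f0000001c00000014 4 5) 0 0 (step_sound _ 35 [(rhb23658ecdd7ce5df.shift 2 0), (rhb739f4f82bb681b4.shift 0 1)] (by decide +kernel))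
noncomputable def rhe3dddb4e9eed9963 : CRef := CRef.mk (Pat.mk 0x400000007000000080000000000000000 0x400000004000000040000000f0000001c0000000800000008 4 5) 0 0 (step_sound _ 99 [(rhc38f566cab2818e5.shift 2 0), (rhe25b0a99195a5d59.shift 0 2)] (by decide +kernel))
noncomputable def rh4b4bd3c7652db278 : CRef := CRef.mk (Pat.mk 0x1e00000006000000020000000200000000 0x380000001f00000006000000060000000600000004 4 6) 0 0 (step_sound _ 34 [(rh55afc6a59410cf00.shift 1 0), (rh9daf7b80fd80f383.shift 0 1)] (by decide +kernel))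
noncomputable def rhb1caee1f98a870f2 : CRef := CRef.mk (Pat.mk 0x60000000e0000000800000000 0x400000004000000060000003e0000000b00000002 4 6) 0 0 (step_sound _ 68 [rh079470f290abda33, (rhf48373e13d2bc128.shift 1 2)] (by decide +kernel))
noncomputable def rheb671aa8248dc6b7 : CRef := CRef.mk (Pat.mk 0x1000000010000000180000001e00000000 0x80000001800000018000000180000003e00000007 4 6) 0 0 (step_sound _ 131 [(rh50fbb5868c909700.shift 3 1), rh6f21391ccc0d7551] (by decide +kernel))
noncomputable def rhd5a7350752ad8e4b : CRef := CRef.mk (Pat.mk 0x40000001c0000001e0000000000000000 0x10000000340000001f0000001e0000000800000008 4 6) 0 0 (step_sound _ 97 [(rh3244c3cc8379b070.shift 0 2), (rha240d968d16a7f4e.shift 1 0)] (by decide +kernel))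
noncomputable def rh245cfab0de74c583 : CRef := CRef.mk (Pat.mk 0x40000001e0000000400000000 0x8000000080000003c0000001f0000000400000004 4 6) 0 0 (step_sound _ 100 [(rh33e738c4ed385b9f.shift 1 2), rha6e53ddca27b43ab] (by decide +kernel))
noncomputable def rh148083039183edc0 : CRef := CRef.mk (Pat.mk 0x8000000080000001c000000060000000000000000 0x8000000180000001f0000003e0000001000000010 4 6) 0 0 (step_sound _ 68 [(rh08edf065357d68e5.shift 3 0), (rh251facab2e282844.shift 0 2), (rh5a736a18eaee4266.shift 0 1)] (by decide +kernel))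
noncomputable def rh9d83c31a7404da9d : CRef := CRef.mk (Pat.mk 0x6000000030000000c00000000 0x4000000040000000600000006000000030000001e00000002 4 5) 0 0 (step_sound _ 33 [(rh215e11e099257d75.shift 1 0), (rhf48373e13d2bc128.shift 0 1)] (by decide +kernel))
noncomputable def rha86cc6850bd41e55 : CRef := CRef.mk (Pat.mk 0x2000000060000000300000002 0x30000000300000003000000070000000700000002 4 3) 0 0 (step_sound _ 128 [(rh279390dc89a6bb3a.shift 0 1), rhffd04209dc8ea796] (by decide +kernel))
noncomputable def rh92c0a1899325fd43 : CRef := CRef.mk (Pat.mk 0x40000000700000004000000000000000000000000 0x40000000400000004000000070000003e0000000c0000000800000008 4 6) 0 0 (step_sound _ 99 [(rh70e33bfdf511e144.shift 2 0), (rh89ade209b3e28f13.shift 0 3), (rh8e6b6ddbdafc0b2b.shift 0 2)] (by decide +kernel))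
noncomputable def rh476fa916496a4316 : CRef := CRef.mk (Pat.mk 0x40000001e000000160000000000000000 0x10000000340000001f0000001e0000000800000008 4 6) 0 0 (step_sound _ 67 [(rh3244c3cc8379b070.shift 0 2), (rha240d968d16a7f4e.shift 1 0)] (by decide +kernel))
noncomputable def rh082a4b21b1673342 : CRef := CRef.mk (Pat.mk 0x40000001e0000000600000000 0x400000004000000040000001f0000003e00000008 4 6) 0 0 (step_sound _ 130 [(rh5c5e593799055d58.shift 1 1), rhf132e5a2953a07c1] (by decide +kernel))
noncomputable def rh15228c732569498b : CRef := CRef.mk (Pat.mk 0x140000001e000000160000000000000000 0x10000000140000001e0000001e0000000b0000000a 4 5) 0 0 (step_sound _ 33 [(rh71222050f2c63a3a.shift 1 0), rhde9a0e21c71efd72] (by decide +kernel))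
noncomputable def rh27fff1f9ab8f90a9 : CRef := CRef.mk (Pat.mk 0x300000007000000020000000200000000 0x200000002000000020000000300000007000000070000000300000001 4 3) 0 0 (step_sound _ 32 [(rh471b30005745dc59.shift 0 1), rh932754581e0f4330] (by decide +kernel))
noncomputable def rh1e2e095a54aeb72c : CRef := CRef.mk (Pat.mk 0x380000001000000010 0x8000000080000000f000000fc0000001800000010 4 8) 0 0 (step_sound _ 99 [(rha9fbfd4bb8cf890b.shift 0 2), (rhe072fffdd2fccf38.shift 3 0), (rhede1dfc55ca9bb6f.shift 2 0)] (by decide +kernel))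
noncomputable def rh8862001fbd813c47 : CRef := CRef.mk (Pat.mk 0x80000001e000000000000000000000000 0x8000000080000001f000000380000001000000010 4 6) 0 0 (step_sound _ 68 [rh5c3b8cf9e4f12e07, (rhe25b0a99195a5d59.shift 1 2)] (by decide +kernel))
noncomputable def rh01448e89f620d602 : CRef := CRef.mk (Pat.mk 0x100000001e0000000400000000 0x800000008000000180000001f0000003400000010 4 6) 0 0 (step_sound _ 99 [(rh33bed325bf166500.shift 1 0), (rh53b3c253cb0c65f4.shift 0 2)] (by decide +kernel))
noncomputable def rh78318e74e44bb80d : CRef := CRef.mk (Pat.mk 0x20000000e0000000f0000000000000000 0x4000000060000000e0000000f0000001c0000000c 4 5) 0 0 (step_sound _ 34 [(rh7b1f1fb55310c477.shift 1 0), rhea719cc8bd0bdd28] (by decide +kernel))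
noncomputable def rh5bd8cd6009d9f86a : CRef := CRef.mk (Pat.mk 0x40000001c0000000200000000 0x400000004000000070000003e0000000200000002 4 6) 0 0 (step_sound _ 97 [rhcae29cd10c1d0fbc, (rhf48373e13d2bc128.shift 1 2)] (by decide +kernel))
noncomputable def rh9b3499d2f1bbc5a5 : CRef := CRef.mk (Pat.mk 0x6000000020000001e0000000200000000 0x70000003e0000001f0000000200000002 4 6) 0 0 (step_sound _ 98 [(rh71222050f2c63a3a.shift 1 0), (rh9fdcb09dfa6419d9.shift 0 2)] (by decide +kernel))
noncomputable def rh54ed8932932596de : CRef := CRef.mk (Pat.mk 0x8000000080000001c0000000000000000 0x8000000380000001f0000003800000010 4 6) 0 0 (step_sound _ 65 [rh0647d666102fa269, (rh625dde73e665edc8.shift 1 0), (rhec46bd5500c722c9.shift 0 2)] (by decide +kernel))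
noncomputable def rhf021f4f29496536d : CRef := CRef.mk (Pat.mk 0x8000000180000001e0000000000000000 0x80000001b0000001e0000003300000010 4 6) 0 0 (step_sound _ 97 [(rh3244c3cc8379b070.shift 0 2), rh534a6900ac2ddaa9] (by decide +kernel))
noncomputable def rhc40f4a70182623fa : CRef := CRef.mk (Pat.mk 0xc000000080000001c0000001c00000000 0x100000001c0000000c0000001c0000001f00000003 4 5) 0 0 (step_sound _ 132 [(rh2f68792b6b779e96.shift 3 1), rhb0453f21e70803bf] (by decide +kernel))
noncomputable def rhfceea78ee1f8f04a : CRef := CRef.mk (Pat.mk 0x80000001c0000000c0000001000000000 0x1c0000001c0000000f0000001800000018 4 5) 0 0 (step_sound _ 35 [(rh55afc6a59410cf00.shift 3 0), rhe5429f32da1d61e1] (by decide +kernel))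
noncomputable def rh45d4c1f64d33c434 : CRef := CRef.mk (Pat.mk 0x800000038000000080000000000000000 0x4000000040000001c0000001f00000038000000080000000800000008 4 6) 0 0 (step_sound _ 130 [(rh4b44abc110b49737.shift 1 1), (rh668fc65514a55b16.shift 2 0), (rhb1a251d9bff81766.shift 2 1), (rhc02b3aee7ab87ee1.shift 0 3)] (by decide +kernel))
noncomputable def rh630ff0ee4d3e7b13 : CRef := CRef.mk (Pat.mk 0x3000000008 0xfc0000003f 4 8) 0 0 (step_sound _ 2 [rh7401e8cf466f4e5b, (rhaff4d66ab2235e4f.shift 2 0), rhbd2e91c3fdbfa961, (rhfe7c844806756e31.shift 1 0)] (by decide +kernel))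
noncomputable def rh98425abcc2bfb145 : CRef := CRef.mk (Pat.mk 0x80000000c0000000b0000000000000000 0xc0000000c0000000c0000000f0000001c0000000c 4 5) 0 0 (step_sound _ 66 [(rh1e309b005ffa1b36.shift 2 0), rhea719cc8bd0bdd28] (by decide +kernel))
noncomputable def rh2f1ae6141b061898 : CRef := CRef.mk (Pat.mk 0x1a000000160000000000000000 0x8000000080000001b0000001e0000003000000010 4 6) 0 0 (step_sound _ 67 [(rh3244c3cc8379b070.shift 0 2), (rhea719cc8bd0bdd28.shift 1 0)] (by decide +kernel))
noncomputable def rh6d1b517c83df80d2 : CRef := CRef.mk (Pat.mk 0xc000000180000000e0000000c 0x120000001f0000001b0000000e0000000c 4 5) 0 0 (step_sound _ 100 [(rh2f68792b6b779e96.shift 3 0), rhc5170405e20c2ff6] (by decide +kernel))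
noncomputable def rh4a5a2e400edec8a3 : CRef := CRef.mk (Pat.mk 0xc0000001e000000000000000000000000 0xc0000007e000000070000000200000002 4 7) 0 0 (step_sound _ 65 [(rh668d9a8ca31d4623.shift 1 0), (rheb0810cc63b001d8.shift 0 2)] (by decide +kernel))
noncomputable def rhecd9e19e5e508d59 : CRef := CRef.mk (Pat.mk 0xd0000000f000000000000000000000000 0x5000000050000000d0000007f000000070000000200000002 4 7) 0 0 (step_sound _ 65 [rhade0f4c81793f68e, (rhcf80391c5046a495.shift 1 0), (rhedf43d9310a523b3.shift 0 2)] (by decide +kernel))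
noncomputable def rh18df145e883a5761 : CRef := CRef.mk (Pat.mk 0x1e0000001800000004 0x2000000030000003e0000001f00000004 4 6) 0 0 (step_sound _ 33 [rh3227e678d338a565, (rheb0810cc63b001d8.shift 0 1)] (by decide +kernel))
noncomputable def rh164d9aed8aa31d30 : CRef := CRef.mk (Pat.mk 0x1c000000060000000400000000 0xe0000000f0000001c000000060000000600000002 4 5) 0 0 (step_sound _ 130 [(rh039efe07c35de3d4.shift 0 1), (rh03dfdf12d5937476.shift 1 0)] (by decide +kernel))
noncomputable def rh77e8ef9588c550b3 : CRef := CRef.mk (Pat.mk 0x80000000300000002000000040000000400000000 0x8000000080000000b0000001e0000000c0000000400000004 4 5) 0 0 (step_sound _ 98 [(rh7b1f1fb55310c477.shift 1 0), (rhcfbba3f5affe15b2.shift 0 1)] (by decide +kernel))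
noncomputable def rh77d40379b2b29f09 : CRef := CRef.mk (Pat.mk 0x400000007000000040000000400000000 0x4000000040000000f0000001e0000000c00000008 4 5) 0 0 (step_sound _ 35 [(rh55afc6a59410cf00.shift 2 0), (rhac866be56a8fddea.shift 0 1)] (by decide +kernel))
noncomputable def rh34d1b435c04dddd3 : CRef := CRef.mk (Pat.mk 0x2000000070000000a0000000200000000 0x20000000f0000001a0000000f00000005 4 5) 0 0 (step_sound _ 68 [rh36e6bb6cca6188da, (rhd6e447e81774439e.shift 0 2)] (by decide +kernel))
noncomputable def rh2e0e1bd31cb89fa3 : CRef := CRef.mk (Pat.mk 0x80000001c000000070000000400000000 0x800000008000000180000001c000000170000003e00000010 4 6) 0 0 (step_sound _ 163 [rh00e4849a9c0a8d60, (rh5c5e593799055d58.shift 2 2)] (by decide +kernel))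
noncomputable def rh14526ca88460b08c : CRef := CRef.mk (Pat.mk 0x8000000180000000e0000000400000000 0x8000000180000003e0000003f00000010 4 6) 0 0 (step_sound _ 36 [(rh1e42cdaa2b8276ac.shift 0 1), rh24b1293adaf02ee1, (rhc76d142f049b7a48.shift 1 0), (rhf727a68250e6ca98.shift 1 0)] (by decide +kernel))
noncomputable def rh5f68d4d802450994 : CRef := CRef.mk (Pat.mk 0x40000000f00000004 0x60000003f0000003e 4 6) 0 0 (step_sound _ 4 [rh96851dee118c1ba3, (rhd3fc8cd96b6f9bda.shift 1 0)] (by decide +kernel))
noncomputable def rhbd2d16e0d48f056e : CRef := CRef.mk (Pat.mk 0x600000002000000070000000700000000 0x10000000700000006000000070000001f00000018 4 5) 0 0 (step_sound _ 128 [(rh50fbb5868c909700.shift 0 1), rh87b8cd3adf08d155] (by decide +kernel))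
noncomputable def rh2ffb3e65e4d7159f : CRef := CRef.mk (Pat.mk 0x180000001e000000140000000400000000 0x180000001e000000170000003c00000018 4 6) 0 0 (step_sound _ 65 [(rheb0810cc63b001d8.shift 0 2), (rhf4567e835eb18e9f.shift 1 0)] (by decide +kernel))
noncomputable def rh11c6a0856d69fe3f : CRef := CRef.mk (Pat.mk 0x40000000c0000000e0000000000000000 0x40000000c0000000f0000007c00000008 4 7) 0 0 (step_sound _ 35 [(rh7b1f1fb55310c477.shift 2 0), (rhc21a95c499b3efdb.shift 0 1)] (by decide +kernel))
noncomputable def rh74ccdbf363223198 : CRef := CRef.mk (Pat.mk 0x4000000020000001e000000060000000000000000 0x4000000060000001e0000003e0000000300000001 4 6) 0 0 (step_sound _ 33 [rh2cc2854bb928dcfb, (rhbaefcd01e0a8bca3.shift 1 1)] (by decide +kernel))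
noncomputable def rh1789ddc6ef95d06f : CRef := CRef.mk (Pat.mk 0xc00000018000000040000000c00000000 0x40000000c000000180000000f0000003c00000010 4 6) 0 0 (step_sound _ 67 [rh4892b0043cb46d74, (rh50fbb5868c909700.shift 2 1)] (by decide +kernel))
noncomputable def rh61333a272914a696 : CRef := CRef.mk (Pat.mk 0x80000000c000000070000000400000000 0x40000000c0000000c0000000f0000003e00000008 4 6) 0 0 (step_sound _ 35 [(rh89ade209b3e28f13.shift 0 1), rh9c1d2b0fc40551bc, (rhae2edff970a530ce.shift 0 1), (rhf7bcf9b870af2a5c.shift 1 0)] (by decide +kernel))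
noncomputable def rh89012dd016b5feb1 : CRef := CRef.mk (Pat.mk 0x80000001c000000160000000000000000 0x80000001f0000003e0000003000000010 4 6) 0 0 (step_sound _ 36 [(rh7b1f1fb55310c477.shift 3 0), (rhc45fd9158a291033.shift 0 1)] (by decide +kernel))
noncomputable def rh3a835c9c24581dd0 : CRef := CRef.mk (Pat.mk 0x3c00000000 0x70000003e00000070 4 7) 0 0 (step_sound _ 5 [rh7d5bf828111ca202, (rhe25b0a99195a5d59.shift 2 0)] (by decide +kernel))
noncomputable def rh8ada648cb6a34f73 : CRef := CRef.mk (Pat.mk 0x80000001a0000000600000004 0x20000003b0000001f0000000600000004 4 6) 0 0 (step_sound _ 97 [(rh2145e1d24b96a57e.shift 1 0), (rhdb4b4dc20164ea80.shift 0 2)] (by decide +kernel))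
noncomputable def rh02f99bbc1f377c55 : CRef := CRef.mk (Pat.mk 0x8000000180000000c0000000400000000 0x1000000018000000180000000f0000003c00000018 4 6) 0 0 (step_sound _ 65 [(rh53b3c253cb0c65f4.shift 0 2), (rh8af7192353b19a4c.shift 1 0)] (by decide +kernel))
noncomputable def rh77293e6356a08b8b : CRef := CRef.mk (Pat.mk 0x180000000c0000000c 0x780000001f0000003c 4 7) 0 0 (step_sound _ 33 [(rh1cfb56229db5364f.shift 1 0), (rh53b3c253cb0c65f4.shift 0 1)] (by decide +kernel))
noncomputable def rhf6b70fd23dcb0c19 : CRef := CRef.mk (Pat.mk 0x18000000180000000800000018 0x80000000800000008000000180000007c0000000f0000007c 4 7) 0 0 (step_sound _ 34 [(rh3e7f2ba771ddcb65.shift 2 0), rh5ac338b5fcda750b, (rhd69c262cd33b94b3.shift 0 1)] (by decide +kernel))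
noncomputable def rh69fdb968f4f144a7 : CRef := CRef.mk (Pat.mk 0x20000000f000000020000000400000000 0x1a0000000f0000001a0000000e00000004 4 5) 0 0 (step_sound _ 2 [rh1fbc9fee05401eba, (rhbe0e43a3bc50a43f.shift 1 0)] (by decide +kernel))
noncomputable def rh3c6d2326386b8484 : CRef := CRef.mk (Pat.mk 0x10000000080000001c0000000c000000000000000000000000 0x100000001c0000001c0000000f000000080000000800000008 4 5) 0 0 (step_sound _ 67 [rh349195d9cb732d42, (rhbaefcd01e0a8bca3.shift 3 2)] (by decide +kernel))
noncomputable def rh64ee7c26bc833dc9 : CRef := CRef.mk (Pat.mk 0x40000000e00000002 0x60000003e00000037 4 6) 0 0 (step_sound _ 36 [(rh816964284bbe786e.shift 1 0), rheb0810cc63b001d8] (by decide +kernel))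
noncomputable def rh57da30cc1d366ea2 : CRef := CRef.mk (Pat.mk 0xc000000180000000e00000004 0x20000001f0000001b0000001e00000004 4 5) 0 0 (step_sound _ 97 [rh31b0ad277bcf95ba, (rhb739f4f82bb681b4.shift 0 2)] (by decide +kernel))
noncomputable def rha4a39248300e5ac6 : CRef := CRef.mk (Pat.mk 0xc00000018000000080000000000000000 0x140000001f00000018000000080000000800000008 4 5) 0 0 (step_sound _ 129 [(rh668fc65514a55b16.shift 2 0), (rhb739f4f82bb681b4.shift 0 3)] (by decide +kernel))
noncomputable def rh7dec9d581320fdaf : CRef := CRef.mk (Pat.mk 0x80000000c000000040000000c0000000000000000 0x10000000180000001c0000000f0000003c0000001800000008 4 6) 0 0 (step_sound _ 99 [(rha327c50ba1fc214e.shift 2 0), (rhfe557af9112f51d6.shift 0 1)] (by decide +kernel))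
noncomputable def rh6f28aee30bcdbfe1 : CRef := CRef.mk (Pat.mk 0x400000004000000070000000200000000 0x40000003c0000001f0000003b00000008 4 6) 0 0 (step_sound _ 67 [(rh0ae232cce48795b7.shift 0 1), rh625dde73e665edc8, (rh62a51e5e348b9e49.shift 0 1)] (by decide +kernel))
noncomputable def rh3138906752825700 : CRef := CRef.mk (Pat.mk 0x20000000060000001800000010 0x80000007c0000000f0000001800000010 4 7) 0 0 (step_sound _ 67 [(rhb739f4f82bb681b4.shift 0 1), (rhf31629e9e2f1ae90.shift 1 0)] (by decide +kernel))
noncomputable def rh7213d63c3b3b297f : CRef := CRef.mk (Pat.mk 0x60000000200000002000000020000000000000000 0x1000000070000000600000002000000060000000600000004 4 3) 0 0 (step_sound _ 192 [(rh8c3839f9b9075f23.shift 1 0), (rhffd04209dc8ea796.shift 0 2)] (by decide +kernel))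
noncomputable def rh81d17f934d551f98 : CRef := CRef.mk (Pat.mk 0x8000000080000000800000018 0x800000008000000080000001f0000007c 4 7) 0 0 (step_sound _ 34 [(rh3bf8fcae348fccb1.shift 1 0), rh66f3cbbb8310a478, (rh85a605aac6183f28.shift 2 0), rhb0121edee88fe839] (by decide +kernel))
noncomputable def rh5e5bc0e07bb5ae10 : CRef := CRef.mk (Pat.mk 0x200000006000000020000000200000000 0x2000000020000000200000006000000070000000700000001 4 3) 0 0 (step_sound _ 32 [(rh7e2b5fc52af4e919.shift 0 1), rh932754581e0f4330] (by decide +kernel))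
noncomputable def rhbde581ad67601c48 : CRef := CRef.mk (Pat.mk 0x80000001c000000080000000800000000 0x8000000080000003c0000000f0000000c00000004 4 6) 0 0 (step_sound _ 34 [(rh6a6aee6498c713c1.shift 0 1), (rh932754581e0f4330.shift 2 0)] (by decide +kernel))
noncomputable def rh2122f4d5d9151e97 : CRef := CRef.mk (Pat.mk 0x8000000380000000c0000000400000000 0x40000001f0000003c0000000c0000000c00000008 4 6) 0 0 (step_sound _ 130 [(rh3289262d1f59fe3a.shift 2 0), (rhc02b3aee7ab87ee1.shift 0 3), (rhd652c19df8b64ee8.shift 1 0)] (by decide +kernel))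
noncomputable def rh847c88d2ba383361 : CRef := CRef.mk (Pat.mk 0x400000004000000160000000300000000 0x20000000600000006000000360000003f0000000d 4 6) 0 0 (step_sound _ 34 [rh18b49738f4e5d343, (rh509847d0837ffcc5.shift 1 0)] (by decide +kernel))
noncomputable def rhac6c39875d5583a5 : CRef := CRef.mk (Pat.mk 0x1800000010000000180000000e00000000 0x800000018000000100000001f0000003e00000020 4 6) 0 0 (step_sound _ 36 [rh411b7fbe199774b0, (rh50fbb5868c909700.shift 3 1)] (by decide +kernel))
noncomputable def rhac3c303f24260d87 : CRef := CRef.mk (Pat.mk 0x10000000500000006000000040000000000000000 0x70000000700000006000000060000000600000006 4 3) 0 0 (step_sound _ 33 [(rh0db119afefb5ebc7.shift 1 0), (rh752c9303f297f9fa.shift 1 0), (rhea243aff88ed5ec2.shift 0 1)] (by decide +kernel))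
noncomputable def rh4e9df9fc4fa983f2 : CRef := CRef.mk (Pat.mk 0x1c000000200000000400000004 0x30000001e000000330000000600000004 4 6) 0 0 (step_sound _ 97 [rh04395309fba550d6, (rh96851dee118c1ba3.shift 1 2)] (by decide +kernel))
noncomputable def rh3378625fe28cae55 : CRef := CRef.mk (Pat.mk 0x30000000a000000020000000200000000 0x40000001f0000001b000000020000000200000002 4 5) 0 0 (step_sound _ 130 [(rh2f68792b6b779e96.shift 1 1), rhc2527ff81f95f627] (by decide +kernel))
noncomputable def rhd6a62ea55d1ff97c : CRef := CRef.mk (Pat.mk 0x2000000060000000f000000000000000000000000 0x6000000060000000f0000001c0000000c00000008 4 5) 0 0 (step_sound _ 66 [rh25c13d8045594b98, (rh7b1f1fb55310c477.shift 1 1)] (by decide +kernel))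
noncomputable def rh96daba97ac8db274 : CRef := CRef.mk (Pat.mk 0x400000004000000060000000200000000 0x400000004000000070000003e0000000a 4 6) 0 0 (step_sound _ 34 [rh36d4d92ef3dad5f8, (rh932754581e0f4330.shift 1 0)] (by decide +kernel))
noncomputable def rhc6919780d26a686c : CRef := CRef.mk (Pat.mk 0xc0000000f00000004 0xc0000007f0000003e 4 7) 0 0 (step_sound _ 4 [rh96851dee118c1ba3, (rhb5ed5ce4f6e64c8a.shift 1 0)] (by decide +kernel))
noncomputable def rh516a021585c206bf : CRef := CRef.mk (Pat.mk 0x80000000c0000000400000004 0xa0000000f0000003c0000000400000004 4 6) 0 0 (step_sound _ 98 [(rh2f68792b6b779e96.shift 2 0), rhcf85c92937975d4d] (by decide +kernel))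
noncomputable def rhf838ddcb6dc5cb64 : CRef := CRef.mk (Pat.mk 0x180000000c0000000800000000 0x4000000040000003c0000000f0000000800000008 4 6) 0 0 (step_sound _ 65 [(rh31cc5a8a8f8e588d.shift 1 0), (rh53b3c253cb0c65f4.shift 0 2)] (by decide +kernel))
noncomputable def rh4dd1130e9b02aeb2 : CRef := CRef.mk (Pat.mk 0x100000002000000060000000300000002 0x2000000030000000700000006000000070000000300000002 4 3) 0 0 (step_sound _ 129 [rh32e4c2b7fb2cffba, (rh50fbb5868c909700.shift 0 1)] (by decide +kernel))
noncomputable def rh9306d2aceba3807e : CRef := CRef.mk (Pat.mk 0x2000000060000000300000002 0x2000000020000000600000006000000070000000300000003 4 3) 0 0 (step_sound _ 129 [rh2d0c94525e3b17c6, rh932754581e0f4330] (by decide +kernel))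
noncomputable def rh2ca06285ff862dc8 : CRef := CRef.mk (Pat.mk 0x4000000380000000c00000000 0x8000000080000001f000000380000001c00000014 4 6) 0 0 (step_sound _ 99 [(rhbb339bb7e4e96b38.shift 2 0), (rhc02b3aee7ab87ee1.shift 0 2)] (by decide +kernel))
noncomputable def rh08641332ce838532 : CRef := CRef.mk (Pat.mk 0x1c000000040000000400000000 0xa0000000f0000001c000000040000000400000004 4 5) 0 0 (step_sound _ 131 [(rh71222050f2c63a3a.shift 2 0), (rh721aed7e1e1f8dd8.shift 0 1)] (by decide +kernel))
noncomputable def rh8188925af67817fc : CRef := CRef.mk (Pat.mk 0x2000000020000000300000006 0x1000000030000000300000002000000070000001e 4 5) 0 0 (step_sound _ 3 [rh5bd4bc0c2c48140c, rhf48373e13d2bc128] (by decide +kernel))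
noncomputable def rhd9a7a5fb028a256c : CRef := CRef.mk (Pat.mk 0x4000000070000000400000000 0x20000000600000006000000040000000f0000001e0000000a 4 5) 0 0 (step_sound _ 130 [rhb379f99078aafa2d, (rhd2c74283b7b6e6b8.shift 1 1), rhdd2601c875e3d18f] (by decide +kernel))
noncomputable def rh4fa02edefd3dd027 : CRef := CRef.mk (Pat.mk 0x800000038000000080000000000000000 0x4000000040000001c0000001f00000038000000080000000800000008 4 6) 0 0 (step_sound _ 130 [(rh668fc65514a55b16.shift 2 0), (rhb1a251d9bff81766.shift 2 1), (rhc02b3aee7ab87ee1.shift 0 3)] (by decide +kernel))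
noncomputable def rh9d9fd9b7e3786872 : CRef := CRef.mk (Pat.mk 0x180000000e0000000400000004 0x2000000020000001f0000003e0000000700000004 4 6) 0 0 (step_sound _ 97 [(rh9f93e2b24091a43d.shift 0 1), rhca6b99e1f6ffeb4c, (rhe072fffdd2fccf38.shift 1 0)] (by decide +kernel))
noncomputable def rhff0ff5ec28344c9a : CRef := CRef.mk (Pat.mk 0x10000000500000004000000070000000200000000 0x30000000700000006000000070000001e00000008 4 5) 0 0 (step_sound _ 129 [(rh2613c889e411427e.shift 0 1), rhb7aea7a74bead576] (by decide +kernel))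
noncomputable def rh23740a382e56d9b0 : CRef := CRef.mk (Pat.mk 0xa000000180000000e0000000400000000 0x40000000f000000180000000e0000003c00000010 4 6) 0 0 (step_sound _ 130 [(rhb739f4f82bb681b4.shift 0 3), (rhb7aea7a74bead576.shift 1 0)] (by decide +kernel))
noncomputable def rh51eb023841043bff : CRef := CRef.mk (Pat.mk 0x8000000380000000e000000040000000000000000 0x20000001f0000003a0000000e000000060000000400000004 4 6) 0 0 (step_sound _ 34 [(rh4ebc94ac63d8ec57.shift 0 1), (rh71222050f2c63a3a.shift 2 0)] (by decide +kernel))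
noncomputable def rh3addeb5f52f58f32 : CRef := CRef.mk (Pat.mk 0x40000000c000000070000000200000000 0xa0000000e0000000c000000070000001e0000000c 4 5) 0 0 (step_sound _ 34 [rh42afa1af9fffa0e1, (rhed935ba8b513e3af.shift 1 0)] (by decide +kernel))
noncomputable def rhe03233ab5a386fb6 : CRef := CRef.mk (Pat.mk 0x20000000200000002000000160000000000000000 0x40000000600000006000000020000001e0000000300000001 4 5) 0 0 (step_sound _ 162 [(rh2f68792b6b779e96.shift 1 2), rhd8fd7dea41c7d0e4] (by decide +kernel))
noncomputable def rhaef01e76e9900544 : CRef := CRef.mk (Pat.mk 0x380000001800000010 0x80000001f000000780000001800000010 4 7) 0 0 (step_sound _ 99 [(rh2145e1d24b96a57e.shift 3 0), (rhf60aa8aede119d3b.shift 0 2)] (by decide +kernel))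
noncomputable def rh7a24f9a1ff3ecc28 : CRef := CRef.mk (Pat.mk 0x8000000080000000e000000040000000000000000 0x8000000180000003e000000370000001000000010 4 6) 0 0 (step_sound _ 100 [(rhaf9f2efc81a8312b.shift 0 2), (rhd132b680030c88e0.shift 1 0)] (by decide +kernel))
noncomputable def rhdfe6c786f702c239 : CRef := CRef.mk (Pat.mk 0x1c000000080000000e0000000c00000000 0x20000001f0000001b0000000e0000000c00000008 4 5) 0 0 (step_sound _ 100 [(rh71222050f2c63a3a.shift 3 0), (rhc5170405e20c2ff6.shift 0 1)] (by decide +kernel))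
noncomputable def rha7419416b48358d1 : CRef := CRef.mk (Pat.mk 0x7c00000018 0x70000007f000000d8 4 8) 0 0 (step_sound _ 6 [rhba89ab7cb81bcc90, (rhe25b0a99195a5d59.shift 3 0)] (by decide +kernel))
noncomputable def rh172d9a5e6cdaefb8 : CRef := CRef.mk (Pat.mk 0x40000000e000000030000000600000000 0xe0000000e0000000b0000001e0000000c 4 5) 0 0 (step_sound _ 35 [(rh2a4202a051666377.shift 1 0), (rhf48373e13d2bc128.shift 0 1)] (by decide +kernel))
noncomputable def rh26146467c8c562e3 : CRef := CRef.mk (Pat.mk 0x400000006000000030000000600000000 0x20000000600000006000000070000001e0000000c 4 5) 0 0 (step_sound _ 129 [(rh55afc6a59410cf00.shift 1 0), rhc8a06f5deb37ed16] (by decide +kernel))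
noncomputable def rhaa8dd1443aa73a3e : CRef := CRef.mk (Pat.mk 0x1c00000002 0x70000003e00000007 4 6) 0 0 (step_sound _ 33 [rh4c6d407c2048a5bb, rheb0810cc63b001d8] (by decide +kernel))
noncomputable def rh8fc4d9681a650ba3 : CRef := CRef.mk (Pat.mk 0xe0000000400000004 0x200000002000000070000003e0000000700000004 4 6) 0 0 (step_sound _ 68 [rh1c1037cb5b3fe471, (rhaf9f2efc81a8312b.shift 0 1), rheddd3d8f7db62149] (by decide +kernel))
noncomputable def rh31eb30c068821a1a : CRef := CRef.mk (Pat.mk 0x180000001e000000080000000000000000 0x40000001f0000003e000000080000000800000008 4 6) 0 0 (step_sound _ 35 [(rh1c25203e4849060c.shift 0 1), (rh71222050f2c63a3a.shift 3 0)] (by decide +kernel))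
noncomputable def rh550103a8e1d5b574 : CRef := CRef.mk (Pat.mk 0xd0000000f000000000000000000000000 0x40000000f0000001f000000180000000800000008 4 5) 0 0 (step_sound _ 129 [rhbbe16ff26f7822db, (rhf48373e13d2bc128.shift 0 3)] (by decide +kernel))
noncomputable def rha6444fedf87f1521 : CRef := CRef.mk (Pat.mk 0x80000001e0000000000000004 0xa0000000f0000003e0000000400000004 4 6) 0 0 (step_sound _ 97 [(rh3244c3cc8379b070.shift 0 2), (rh4546f7635dc89e40.shift 1 0)] (by decide +kernel))
noncomputable def rhe6e76042a896d494 : CRef := CRef.mk (Pat.mk 0x100000001e000000100000001400000000 0x100000001e000000170000003c00000028 4 6) 0 0 (step_sound _ 65 [(rh9102791758f2af0a.shift 1 0), (rheb0810cc63b001d8.shift 0 2)] (by decide +kernel))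
noncomputable def rh2aee59a62cf4bfda : CRef := CRef.mk (Pat.mk 0xe00000006000000020000000200000000 0xb0000000f00000006000000060000000600000004 4 4) 0 0 (step_sound _ 128 [(rh50fbb5868c909700.shift 0 1), (rh8af9a32e61457eb0.shift 1 0)] (by decide +kernel))
noncomputable def rhaa04013fdef6a1c6 : CRef := CRef.mk (Pat.mk 0x180000000c000000040000000400000000 0x160000001f0000003c0000000c0000000c00000008 4 6) 0 0 (step_sound _ 130 [(rh8af9a32e61457eb0.shift 2 0), (rhcf85c92937975d4d.shift 0 1)] (by decide +kernel))
noncomputable def rh9e4a4fa661ab7448 : CRef := CRef.mk (Pat.mk 0x180000001e00000004 0x1f000000fe0000000c 4 8) 0 0 (step_sound _ 65 [(rh3244c3cc8379b070.shift 0 1), (rh94c9224e94c6bb3e.shift 1 0)] (by decide +kernel))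
noncomputable def rh370fdf074cb7fb76 : CRef := CRef.mk (Pat.mk 0x7000000040000000e 0xf0000003f0000003f 4 6) 0 0 (step_sound _ 36 [rh6f555c723a80e234, rh7dcd5319f4f71bec, rhca6a4af813f68cee] (by decide +kernel))
noncomputable def rh493762fd0b688b67 : CRef := CRef.mk (Pat.mk 0x80000001e000000180000000000000000 0x80000003e0000001f0000003000000010 4 6) 0 0 (step_sound _ 36 [(rh7b1f1fb55310c477.shift 3 0), (rhc31b6f966e0d7e89.shift 0 1)] (by decide +kernel))
noncomputable def rhf8afa47161d211f5 : CRef := CRef.mk (Pat.mk 0xe0000000b000000010000000100000000 0x50000000f0000001b000000030000000300000002 4 5) 0 0 (step_sound _ 128 [rh8af9a32e61457eb0, (rhe25b0a99195a5d59.shift 0 3)] (by decide +kernel))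
noncomputable def rhe92e0a7039c9b088 : CRef := CRef.mk (Pat.mk 0xe000000080000000e00000008 0x130000001e0000000b0000000e0000000c 4 5) 0 0 (step_sound _ 100 [(rh2f68792b6b779e96.shift 3 0), rh71bbb00ef1ecd8fb] (by decide +kernel))
noncomputable def rh7dd968b1f7333103 : CRef := CRef.mk (Pat.mk 0x800000038000000080000000000000000 0x140000001f0000003c000000080000000800000008 4 6) 0 0 (step_sound _ 35 [(rh53509d91ff78ed56.shift 0 1), (rha707fb719e87fe6e.shift 3 0)] (by decide +kernel))
noncomputable def rh63d99e86578c4d52 : CRef := CRef.mk (Pat.mk 0x1c00000012000000020000000200000000 0x30000001e00000032000000030000000300000001 4 6) 0 0 (step_sound _ 129 [rhd9048603f1912b39, (rhe25b0a99195a5d59.shift 1 3)] (by decide +kernel))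
noncomputable def rhdb2e4137de40ce04 : CRef := CRef.mk (Pat.mk 0x40000000700000004000000000000000000000000 0x4000000040000000f0000003c0000000c0000000800000008 4 6) 0 0 (step_sound _ 99 [(rh4a0b10776449c3e9.shift 0 3), (rh70e33bfdf511e144.shift 2 0)] (by decide +kernel))
noncomputable def rhb91bd40a584180c1 : CRef := CRef.mk (Pat.mk 0x80000003c00000008 0x1f0000003f00000018 4 6) 0 0 (step_sound _ 65 [(rh3f8766e6ecb455ce.shift 1 1), rh9c961a77e6c44d48] (by decide +kernel))
noncomputable def rha26dd57aaf142392 : CRef := CRef.mk (Pat.mk 0xc0000000c0000001c0000000600000000 0xc0000000c0000001f0000003e00000018 4 6) 0 0 (step_sound _ 35 [(rh7b1f1fb55310c477.shift 2 0), rhcf0f1f5b2b1be263] (by decide +kernel))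
noncomputable def rhd115aebae5e58356 : CRef := CRef.mk (Pat.mk 0xc000000080000001c0000000600000000 0x40000000c000000080000001f0000003e00000010 4 6) 0 0 (step_sound _ 35 [(rh50fbb5868c909700.shift 2 1), rhcf0f1f5b2b1be263] (by decide +kernel))
noncomputable def rh1f31a35375523519 : CRef := CRef.mk (Pat.mk 0x600000006000000030000000200000000 0x200000002000000020000000600000007000000070000000600000004 4 3) 0 0 (step_sound _ 34 [(rh13aae3c490c7b899.shift 0 1), (rh55afc6a59410cf00.shift 1 0)] (by decide +kernel))
noncomputable def rhde1e482a93f5f360 : CRef := CRef.mk (Pat.mk 0x1e000000160000000000000000 0x2000000030000001f0000001e0000000400000004 4 5) 0 0 (step_sound _ 67 [(rh3244c3cc8379b070.shift 0 2), rh38a0850c9fea941e] (by decide +kernel))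
noncomputable def rhb3a47c35594fc1ad : CRef := CRef.mk (Pat.mk 0xc0000000c000000040000000400000000 0x20000000f0000003c000000040000000c00000008 4 6) 0 0 (step_sound _ 35 [(rh55afc6a59410cf00.shift 2 0), (rhcf85c92937975d4d.shift 0 1)] (by decide +kernel))
noncomputable def rhd593d4842b4adfa6 : CRef := CRef.mk (Pat.mk 0x80000000e0000000c0000000c00000000 0x40000000c0000000e0000003c0000000f00000002 4 6) 0 0 (step_sound _ 130 [(rh50fbb5868c909700.shift 2 1), rh9cc5d980c4667d10] (by decide +kernel))
noncomputable def rha5db35bed5b9a95e : CRef := CRef.mk (Pat.mk 0x8000000080000001c0000000c00000000 0x40000000c0000000c0000001c0000000f0000000a 4 5) 0 0 (step_sound _ 130 [(rh50fbb5868c909700.shift 2 1), rhb724a526d76df38e] (by decide +kernel))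
noncomputable def rhaa73d67be2de7cd7 : CRef := CRef.mk (Pat.mk 0x1000000010000000120000000e00000000 0x200000003000000030000000130000001e00000030 4 6) 0 0 (step_sound _ 36 [(rh3244c3cc8379b070.shift 0 1), (rh36586e595fdbb742.shift 1 0)] (by decide +kernel))
noncomputable def rhfaf99c764dc14cd0 : CRef := CRef.mk (Pat.mk 0x800000008000000040000000e00000000 0x8000000080000003f0000003f00000010 4 6) 0 0 (step_sound _ 67 [rh58f49594b41e4958, (rhf9d36e158778ce35.shift 0 1)] (by decide +kernel))
noncomputable def rhd6d573fe05752f92 : CRef := CRef.mk (Pat.mk 0x80000000c000000070000000400000000 0x40000000c0000000c0000000f0000003e00000008 4 6) 0 0 (step_sound _ 35 [(rh89ade209b3e28f13.shift 0 1), rh9c1d2b0fc40551bc, (rhf7bcf9b870af2a5c.shift 1 0)] (by decide +kernel))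
noncomputable def rh5e65a053fec18036 : CRef := CRef.mk (Pat.mk 0x80000000c00000006 0x380000003f00000007 4 6) 0 0 (step_sound _ 36 [(rh18965a982d73c794.shift 1 0), rh5370a63943ede0b2] (by decide +kernel))
noncomputable def rhef17670318af7582 : CRef := CRef.mk (Pat.mk 0x380000001a0000000000000010 0x600000003f0000001b0000001000000010 4 7) 0 0 (step_sound _ 133 [(rh9e3edb185cc347de.shift 4 0), (rhec5da64b6932079e.shift 0 2)] (by decide +kernel))
noncomputable def rh74a6aee65c0931d4 : CRef := CRef.mk (Pat.mk 0xe000000060000000000000004 0x380000003f000000060000000400000004 4 6) 0 0 (step_sound _ 100 [(rh18965a982d73c794.shift 1 2), rh9daf7b80fd80f383] (by decide +kernel))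
noncomputable def rh7df0ddf80ef6ea32 : CRef := CRef.mk (Pat.mk 0x40000000f0000000b0000000000000000 0x1c0000000f0000000f0000001800000018 4 5) 0 0 (step_sound _ 131 [(rh33e738c4ed385b9f.shift 0 3), rh4315e95d631a9818] (by decide +kernel))
noncomputable def rh24105e572ba413fd : CRef := CRef.mk (Pat.mk 0x10000000080000000c0000000800000000 0x10000000780000001f0000000800000008 4 7) 0 0 (step_sound _ 100 [(rh574fdbf07bdd18b9.shift 0 2), (rh71222050f2c63a3a.shift 3 0)] (by decide +kernel))
noncomputable def rh21637c1612c7b4dd : CRef := CRef.mk (Pat.mk 0x80000001c00000004 0x380000003f00000007 4 6) 0 0 (step_sound _ 1 [(rh18965a982d73c794.shift 1 0), rh5370a63943ede0b2] (by decide +kernel))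
noncomputable def rhe1967d8ccfa6fc8b : CRef := CRef.mk (Pat.mk 0x180000000c00000004 0x380000003f00000007 4 6) 0 0 (step_sound _ 33 [(rh53b3c253cb0c65f4.shift 0 1), rh7d1eb0a2ac11b171] (by decide +kernel))
noncomputable def rh9cf97f6533525ab0 : CRef := CRef.mk (Pat.mk 0x2000000070000000f0000000000000000 0x80000001a0000001f0000000f0000000400000004 4 5) 0 0 (step_sound _ 99 [(rh33e738c4ed385b9f.shift 0 2), rha240d968d16a7f4e] (by decide +kernel))
noncomputable def rh101c9178f62e676f : CRef := CRef.mk (Pat.mk 0x80000001c000000060000000400000000 0x380000001f0000003e0000003c00000010 4 6) 0 0 (step_sound _ 68 [(rh251facab2e282844.shift 0 2), (rh3ce854f4a795c89f.shift 0 2), (rh6a7d78a202a43da8.shift 1 0)] (by decide +kernel))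
noncomputable def rh426a29b34452fc84 : CRef := CRef.mk (Pat.mk 0x180000001e0000000000000000 0x8000000080000001b0000001e0000003000000010 4 6) 0 0 (step_sound _ 97 [(rh3244c3cc8379b070.shift 0 2), (rhea719cc8bd0bdd28.shift 1 0)] (by decide +kernel))
noncomputable def rh692364cecbd039e7 : CRef := CRef.mk (Pat.mk 0x20000000e000000030000000700000000 0x4000000060000000e0000001b0000001f00000008 4 5) 0 0 (step_sound _ 130 [(rh2f68792b6b779e96.shift 1 1), rhd9fec72a21b00309] (by decide +kernel))
noncomputable def rh7a9f124911bb3251 : CRef := CRef.mk (Pat.mk 0x400000016000000140000000000000000 0x4000000360000003e0000000300000002 4 6) 0 0 (step_sound _ 67 [rh43529a11610bbe94, (rhf48373e13d2bc128.shift 1 2)] (by decide +kernel))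
noncomputable def rh94b80c9e6af3c682 : CRef := CRef.mk (Pat.mk 0x80000000c00000006000000140000001000000000 0x80000000c0000000e0000001e0000003300000002 4 6) 0 0 (step_sound _ 67 [rh593d20ba42f5a889, (rhff0f29cb645b05f7.shift 3 1)] (by decide +kernel))
noncomputable def rh3be6b8746885e3c9 : CRef := CRef.mk (Pat.mk 0x800000018000000060000001400000000 0x8000000180000003e0000003700000010 4 6) 0 0 (step_sound _ 68 [(rh5e4e7266ca016e80.shift 0 1), (rh7b1f1fb55310c477.shift 3 0)] (by decide +kernel))
noncomputable def rh114d8d5ded3641ca : CRef := CRef.mk (Pat.mk 0x400000004000000140000001e00000000 0x80000000c0000000c0000001c0000001f00000014 4 5) 0 0 (step_sound _ 67 [(rh53b3c253cb0c65f4.shift 0 1), (rh6b423afcc975f198.shift 2 0)] (by decide +kernel))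
noncomputable def rh075c58b8bd52f215 : CRef := CRef.mk (Pat.mk 0x4000000000000001e00000006 0x600000006000000030000001e00000036 4 6) 0 0 (step_sound _ 4 [rhc6719c6594e47b00, (rhe25b0a99195a5d59.shift 1 0)] (by decide +kernel))
noncomputable def rh1b1a23e58c3e6ec7 : CRef := CRef.mk (Pat.mk 0x3c0000000c 0x700000003f0000003c 4 7) 0 0 (step_sound _ 69 [(rh33e738c4ed385b9f.shift 2 1), rh3f65d0070baf8518] (by decide +kernel))
noncomputable def rhe7b550087fd53730 : CRef := CRef.mk (Pat.mk 0x1000000030000000500000004 0x30000000300000003000000030000000700000007 4 3) 0 0 (step_sound _ 129 [rh4dec404a6c0e229a, rh5fcbac5b57173fc5, rh97755cb5dd403749] (by decide +kernel))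
noncomputable def rhb71748adeac66553 : CRef := CRef.mk (Pat.mk 0xc0000001e000000080000000800000000 0xa0000000f0000001e0000000c0000000c00000004 4 5) 0 0 (step_sound _ 129 [(rh3244c3cc8379b070.shift 0 3), (rh474875b2ab064539.shift 1 0)] (by decide +kernel))
noncomputable def rh3346800492764c72 : CRef := CRef.mk (Pat.mk 0x8000000380000000c0000000400000000 0x40000001f0000003c0000000c0000000c00000008 4 6) 0 0 (step_sound _ 130 [(rh06769707769566d4.shift 1 1), (rh3289262d1f59fe3a.shift 2 0), (rhc02b3aee7ab87ee1.shift 0 3), (rhd652c19df8b64ee8.shift 1 0)] (by decide +kernel))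
noncomputable def rh2864624e87c79f7c : CRef := CRef.mk (Pat.mk 0x1000000010000000180000001e00000000 0x2000000030000000300000001f0000001e00000010 4 6) 0 0 (step_sound _ 65 [(rh3244c3cc8379b070.shift 0 1), (rhda2bdb56f2459155.shift 1 0)] (by decide +kernel))
noncomputable def rh5b26183aac2166dd : CRef := CRef.mk (Pat.mk 0x140000001e00000004 0x2000000030000001f0000001f00000004 4 5) 0 0 (step_sound _ 65 [(rh3244c3cc8379b070.shift 0 1), rhf554547daa081b49] (by decide +kernel))
noncomputable def rhcb1b2bbee4488fbf : CRef := CRef.mk (Pat.mk 0x6000000000000000e0000000400000000 0x200000006000000040000003e0000000700000002 4 6) 0 0 (step_sound _ 98 [(rh50fbb5868c909700.shift 1 1), rhea6d74bc2b985bd7] (by decide +kernel))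
noncomputable def rhf02f8247f0f734df : CRef := CRef.mk (Pat.mk 0xc00000018000000060000000400000000 0x60000000f0000001c000000060000000600000002 4 5) 0 0 (step_sound _ 129 [(rh045a29dae8c97265.shift 1 0), (rhb739f4f82bb681b4.shift 0 3)] (by decide +kernel))
noncomputable def rh9ea2c81e76b264de : CRef := CRef.mk (Pat.mk 0x40000000e000000040000000400000000 0x4000000040000003e000000070000000600000002 4 6) 0 0 (step_sound _ 33 [(rh4394c150583627b0.shift 0 1), (rh932754581e0f4330.shift 1 0)] (by decide +kernel))
noncomputable def rh57335751f17679e1 : CRef := CRef.mk (Pat.mk 0x40000000e000000010000000000000000 0x400000004000000060000001e000000030000000200000002 4 5) 0 0 (step_sound _ 65 [(rh18965a982d73c794.shift 0 2), (rh4821dcf828b9d7bf.shift 1 0)] (by decide +kernel))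
noncomputable def rh92f21e40dddb62a7 : CRef := CRef.mk (Pat.mk 0x8000000080000001c0000000600000004 0xa0000003b0000001e0000003600000014 4 6) 0 0 (step_sound _ 65 [rh309fd0c3d364cd61, (rh625dde73e665edc8.shift 1 0)] (by decide +kernel))
noncomputable def rhec695e9f7cccd400 : CRef := CRef.mk (Pat.mk 0x40000000f0000000200000000 0x4000000040000001c0000000f0000001a00000008 4 5) 0 0 (step_sound _ 99 [(rh33e738c4ed385b9f.shift 0 2), rh98c388e5d73ac446] (by decide +kernel))
noncomputable def rh240a6cb2ffc62322 : CRef := CRef.mk (Pat.mk 0x20000000a0000001e00000006 0xc0000000f0000003a0000001e00000006 4 6) 0 0 (step_sound _ 68 [(rh33e738c4ed385b9f.shift 1 1), rh9fa40f28a4956172] (by decide +kernel))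
noncomputable def rh5ff49534f4fb28a3 : CRef := CRef.mk (Pat.mk 0x80000000e000000080000000000000000 0x8000000080000001f000000380000001000000010 4 6) 0 0 (step_sound _ 68 [(rh80c6ec4ccb40d96b.shift 1 0), (rhb739f4f82bb681b4.shift 0 2)] (by decide +kernel))
noncomputable def rh6b8e5745ebcb28e5 : CRef := CRef.mk (Pat.mk 0x100000000c 0xfc0000003f 4 8) 0 0 (step_sound _ 37 [rh7401e8cf466f4e5b, (rhaff4d66ab2235e4f.shift 2 0), rhbd2e91c3fdbfa961, (rhfe7c844806756e31.shift 1 0)] (by decide +kernel))
noncomputable def rh9750c05db7e93b3b : CRef := CRef.mk (Pat.mk 0x8000000080000000c0000001e00000000 0x40000000c0000000c0000000f0000001e00000003 4 5) 0 0 (step_sound _ 65 [(rh3244c3cc8379b070.shift 0 1), rh52db8f9374849729] (by decide +kernel))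
noncomputable def rh19f5d917ac5b4fce : CRef := CRef.mk (Pat.mk 0x80000001c0000001e00000000 0x1000000010000000380000001f0000001e00000008 4 6) 0 0 (step_sound _ 65 [(rh3244c3cc8379b070.shift 0 1), (rhc0ac6cdbaa8efa90.shift 1 0)] (by decide +kernel))
noncomputable def rhfc3c7f9e1207403c : CRef := CRef.mk (Pat.mk 0x400000006000000030000000600000000 0x200000002000000020000000600000007000000070000000600000004 4 3) 0 0 (step_sound _ 129 [(rh13aae3c490c7b899.shift 0 1), (rh55afc6a59410cf00.shift 1 0)] (by decide +kernel))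
noncomputable def rh0f1d0b889a1adcaa : CRef := CRef.mk (Pat.mk 0x80000000c000000060000001c0000000000000000 0x80000000c0000000e0000001e0000003300000002 4 6) 0 0 (step_sound _ 36 [rh593d20ba42f5a889, (rhff0f29cb645b05f7.shift 3 1)] (by decide +kernel))
noncomputable def rhe08c2e86a0a5e454 : CRef := CRef.mk (Pat.mk 0x20000000600000007000000040000000000000000 0x40000000600000006000000070000001f0000000b00000003 4 5) 0 0 (step_sound _ 65 [rh46530d756bdf8511, (rh6cfcc4c4c29d94bc.shift 0 1), (rh84d1c02a8954c6a8.shift 1 1)] (by decide +kernel))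
noncomputable def rhf767d9e31ae4b6bf : CRef := CRef.mk (Pat.mk 0x1c0000000e00000004 0x40000000e0000000f0000001c0000000e00000006 4 5) 0 0 (step_sound _ 99 [(rh5c5e593799055d58.shift 2 0), rh61d2d3af8186acf8] (by decide +kernel))
noncomputable def rh6720799bdc7f6a6c : CRef := CRef.mk (Pat.mk 0xe00000002000000020000000200000000 0x1000000030000001e00000002000000030000000300000001 4 5) 0 0 (step_sound _ 32 [(rh4860bbcf3442d1ba.shift 0 1), rh932754581e0f4330] (by decide +kernel))
noncomputable def rh057148d1741d47b3 : CRef := CRef.mk (Pat.mk 0x40000001c0000000c000000000000000000000000 0xa0000000f0000001c0000000c000000060000000600000006 4 5) 0 0 (step_sound _ 66 [(rh039efe07c35de3d4.shift 0 2), (rh46530d756bdf8511.shift 1 0), (rh84d1c02a8954c6a8.shift 2 1)] (by decide +kernel))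
noncomputable def rh06226fcd439ef9c7 : CRef := CRef.mk (Pat.mk 0x40000001c0000000c0000000800000000 0x180000001a0000001f0000001c0000000c0000000c00000004 4 5) 0 0 (step_sound _ 131 [(rh1e309b005ffa1b36.shift 2 0), (rh5fa50b509d4ce753.shift 2 1), rhda49d08e88765cc3] (by decide +kernel))
noncomputable def rhb5230edb2d144690 : CRef := CRef.mk (Pat.mk 0x1000000030000000380000000800000000 0x10000000300000007c0000002f00000020 4 7) 0 0 (step_sound _ 37 [(rh2820ca9a6c4f41b4.shift 0 1), (rh7b1f1fb55310c477.shift 4 0)] (by decide +kernel))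
noncomputable def rh0c7fcc8062a231c2 : CRef := CRef.mk (Pat.mk 0x70000000f0000000000000000 0x8000000180000001f0000000f0000000400000004 4 5) 0 0 (step_sound _ 99 [(rh33e738c4ed385b9f.shift 0 2), rh34b1188e635efc8d] (by decide +kernel))
noncomputable def rh50606850f5dd5616 : CRef := CRef.mk (Pat.mk 0x400000007000000030000000000000000 0x4000000050000000700000007000000030000000200000002 4 3) 0 0 (step_sound _ 33 [(rh71222050f2c63a3a.shift 1 0), (rh7d679ff893217b78.shift 0 1)] (by decide +kernel))
noncomputable def rh49ca21550b74bdba : CRef := CRef.mk (Pat.mk 0x100000007000000060000000000000000 0x1000000050000000700000007000000060000000200000002 4 3) 0 0 (step_sound _ 33 [rh7b1f1fb55310c477, (rhd4cedd081bf449c4.shift 0 1)] (by decide +kernel))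
noncomputable def rh0b767b74010cd9f3 : CRef := CRef.mk (Pat.mk 0x1e0000000c 0x370000007e0000000c 4 7) 0 0 (step_sound _ 68 [(rh33e738c4ed385b9f.shift 1 1), rh6e8a826a5508ce46] (by decide +kernel))
noncomputable def rh199eb8bf9a6a3fd8 : CRef := CRef.mk (Pat.mk 0x60000000c0000000c 0xf0000003e0000000f 4 6) 0 0 (step_sound _ 36 [rhec20982dba267b78, (rhf48373e13d2bc128.shift 1 1)] (by decide +kernel))
noncomputable def rh1be4edb4d2f0f437 : CRef := CRef.mk (Pat.mk 0x100000002000000020000000200000000 0x50000000700000007000000020000000200000002 4 3) 0 0 (step_sound _ 129 [(rh50fbb5868c909700.shift 0 1), rhd22616887d452319] (by decide +kernel))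
noncomputable def rh0c17f602ec019e20 : CRef := CRef.mk (Pat.mk 0x8000000080000001c000000000000000000000000 0x8000000180000001f000000380000001000000010 4 6) 0 0 (step_sound _ 68 [(rh251facab2e282844.shift 0 2), (rh79ad7b82ec8c35e2.shift 3 0), (rhcd11d81bf877826f.shift 0 1)] (by decide +kernel))
noncomputable def rh668d1876510a8d45 : CRef := CRef.mk (Pat.mk 0x80000003c0000000c 0x380000003f0000007c 4 7) 0 0 (step_sound _ 5 [rh8663e4749fb07386, (rhe25b0a99195a5d59.shift 2 0)] (by decide +kernel))
noncomputable def rhd2044c8ea4a85573 : CRef := CRef.mk (Pat.mk 0xc0000003c0000000c 0x3c0000003f0000007c 4 7) 0 0 (step_sound _ 5 [rh5909f14408a19b62, (rhe25b0a99195a5d59.shift 2 0)] (by decide +kernel))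
noncomputable def rha91e7fd3a55c12d6 : CRef := CRef.mk (Pat.mk 0x80000001c0000000600000004 0x20000003b0000001f0000003600000004 4 6) 0 0 (step_sound _ 65 [rh309fd0c3d364cd61, (rh69533f12b59c04e9.shift 0 1)] (by decide +kernel))
noncomputable def rha76b3b67a2281e3d : CRef := CRef.mk (Pat.mk 0x1c000000180000000400000004 0x20000003f0000001f0000000400000004 4 6) 0 0 (step_sound _ 97 [rha78ee663a14ea57c, (rhb739f4f82bb681b4.shift 0 2)] (by decide +kernel))
noncomputable def rhbc221e1a102c3bdc : CRef := CRef.mk (Pat.mk 0x80000001e00000000 0xe0000007e00000007 4 7) 0 0 (step_sound _ 1 [(rh19f08b48cf271d79.shift 1 0), rheb0810cc63b001d8] (by decide +kernel))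
noncomputable def rh9ab2a9a12d5e38ff : CRef := CRef.mk (Pat.mk 0x40000000f0000000500000000 0x200000002000000060000003f0000000700000004 4 6) 0 0 (step_sound _ 68 [rh08d60f42f0e3d236, (rh80fcd6d0a18cb2dd.shift 0 1)] (by decide +kernel))
noncomputable def rh50b84ec59c023018 : CRef := CRef.mk (Pat.mk 0x400000007000000080000000000000000 0x4000000040000000c0000000f000000180000000800000008 4 5) 0 0 (step_sound _ 99 [(rhc2c7bae8f445c890.shift 2 0), (rhe25b0a99195a5d59.shift 0 2)] (by decide +kernel))
noncomputable def rh16e9f4fedb67e22c : CRef := CRef.mk (Pat.mk 0x20000000300000004000000000000000000000000 0x200000002000000060000000700000007000000060000000400000004 4 3) 0 0 (step_sound _ 66 [(rh0bf5bfa2f5578922.shift 0 2), (rh4d760d0d70847451.shift 1 1), (rh74a43b9a483760f6.shift 1 0), (rhe482ee30a2733b5f.shift 1 0)] (by decide +kernel))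
noncomputable def rhe7e22136d40a85d7 : CRef := CRef.mk (Pat.mk 0xe0000001400000004 0x200000002000000070000001e0000003400000004 4 6) 0 0 (step_sound _ 68 [rh1c1037cb5b3fe471, (rhe25b0a99195a5d59.shift 1 1)] (by decide +kernel))
noncomputable def rh807d482b3ee4b0c5 : CRef := CRef.mk (Pat.mk 0x100000001000000038000000000000000000000000 0x10000000370000003e000000700000002000000020 4 7) 0 0 (step_sound _ 98 [(rh503775339733bab1.shift 0 3), (rhc7b95363f9049b11.shift 2 0)] (by decide +kernel))
noncomputable def rh8e4255809d6dbfa3 : CRef := CRef.mk (Pat.mk 0x4000000000000001c0000000600000002 0x600000006000000030000001f0000003e00000003 4 6) 0 0 (step_sound _ 65 [(rhc6719c6594e47b00.shift 0 1), rhf6d72ac90bd26cb0] (by decide +kernel))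
noncomputable def rhc18cd807fc0c6551 : CRef := CRef.mk (Pat.mk 0x1c0000001e000000020000000200000000 0x30000001f0000001e000000060000000600000004 4 5) 0 0 (step_sound _ 129 [(rh3244c3cc8379b070.shift 0 3), rh5fa41af95dbdc841] (by decide +kernel))
noncomputable def rh1782bc4968479070 : CRef := CRef.mk (Pat.mk 0x4000000060000001e00000004 0x2000000070000003e0000001f00000004 4 6) 0 0 (step_sound _ 97 [(rh50fbb5868c909700.shift 1 0), (rh9fdcb09dfa6419d9.shift 0 1)] (by decide +kernel))
noncomputable def rhfe460e580d4f17d5 : CRef := CRef.mk (Pat.mk 0x160000001e00000006 0x3000000030000001e0000001e00000036 4 6) 0 0 (step_sound _ 4 [rh8ebc15871c473b31, (rhe25b0a99195a5d59.shift 1 0)] (by decide +kernel))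
noncomputable def rh6ee242ad10e2a5b8 : CRef := CRef.mk (Pat.mk 0xa000000020000001e00000002 0x50000000f0000003a0000001e00000002 4 6) 0 0 (step_sound _ 68 [(rh33e738c4ed385b9f.shift 1 1), rh9da7ea51113f4f62] (by decide +kernel))
noncomputable def rh01a5d5969c427d7c : CRef := CRef.mk (Pat.mk 0x8000000000000001e00000016 0x1800000018000000300000001f0000001e 4 6) 0 0 (step_sound _ 68 [(rh33e738c4ed385b9f.shift 1 1), rhf76eda6165674100] (by decide +kernel))
noncomputable def rh7ba762276cd125ce : CRef := CRef.mk (Pat.mk 0x1e0000000c0000000800000000 0x6000000070000001e0000000c0000000c00000004 4 5) 0 0 (step_sound _ 129 [(rh3244c3cc8379b070.shift 0 3), (rhde0a10e295a0d0d9.shift 1 0)] (by decide +kernel))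
noncomputable def rh4d77610e0ffb50a4 : CRef := CRef.mk (Pat.mk 0xc0000001a0000003000000000 0x300000001f0000001b0000003000000020 4 6) 0 0 (step_sound _ 97 [rh32d46eeede60082a, (rhb739f4f82bb681b4.shift 0 2)] (by decide +kernel))
noncomputable def rh3e5c56f13d429182 : CRef := CRef.mk (Pat.mk 0x2c00000018 0x770000003f00000018 4 7) 0 0 (step_sound _ 33 [rhb739f4f82bb681b4, (rhd7b8cc4eecb9e3ae.shift 0 1)] (by decide +kernel))
noncomputable def rh74b5e97ae5f0c736 : CRef := CRef.mk (Pat.mk 0x2000000160000001800000000 0x1000000010000000330000001e0000001800000008 4 6) 0 0 (step_sound _ 67 [(rh3244c3cc8379b070.shift 0 2), (rh5ba2d67652840f34.shift 1 0)] (by decide +kernel))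
noncomputable def rh6ae680e8601885b7 : CRef := CRef.mk (Pat.mk 0x800000008000000080000000e0000000000000000 0x40000000c0000000c000000080000000f0000001800000010 4 5) 0 0 (step_sound _ 162 [rh0f78e0f694da1d7a, (rh50fbb5868c909700.shift 2 2)] (by decide +kernel))
noncomputable def rh45e898571edd852f : CRef := CRef.mk (Pat.mk 0xe000000140000000800000008 0x100000003f0000001f0000000800000008 4 6) 0 0 (step_sound _ 67 [(rhb739f4f82bb681b4.shift 0 2), rhc0ddb33d3a52722b] (by decide +kernel))
noncomputable def rhdd884bb80cd6425a : CRef := CRef.mk (Pat.mk 0x20000000600000006000000010000000000000000 0x6000000060000001e000000030000000300000002 4 5) 0 0 (step_sound _ 65 [(rh932754581e0f4330.shift 0 1), rhba687f26403a073f] (by decide +kernel))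
noncomputable def rhb94ea1dd7c577fd4 : CRef := CRef.mk (Pat.mk 0x4000000060000000c0000000000000000 0x4000000070000003e0000000300000002 4 6) 0 0 (step_sound _ 68 [rh02313f6a49849429, (rhf48373e13d2bc128.shift 1 2)] (by decide +kernel))
noncomputable def rh0ddcd9ca63d9923e : CRef := CRef.mk (Pat.mk 0x1c0000000c000000040000000c00000000 0x100000001c0000000c0000003c0000000f00000002 4 6) 0 0 (step_sound _ 67 [(rh2f68792b6b779e96.shift 3 1), rha71afc656c87d410] (by decide +kernel))
noncomputable def rhf677ba2fb9d494ad : CRef := CRef.mk (Pat.mk 0xa0000001a000000080000000000000000 0x100000003b0000001e000000080000000800000008 4 6) 0 0 (step_sound _ 98 [(rh3244c3cc8379b070.shift 0 3), (rh9863e637cb770d1b.shift 1 0)] (by decide +kernel))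
noncomputable def rh37a69a3905d365b7 : CRef := CRef.mk (Pat.mk 0x40000001e000000160000000200000000 0x10000000340000001e0000001e0000000b00000008 4 6) 0 0 (step_sound _ 67 [(rha240d968d16a7f4e.shift 1 0), (rheb0810cc63b001d8.shift 0 1)] (by decide +kernel))
noncomputable def rh3c32c1362145132d : CRef := CRef.mk (Pat.mk 0x800000038000000080000000800000000 0x40000001f00000038000000080000001800000010 4 6) 0 0 (step_sound _ 36 [(rh55afc6a59410cf00.shift 3 0), (rh79905f95cb2d899a.shift 0 1)] (by decide +kernel))
noncomputable def rh5d68e402d99634d8 : CRef := CRef.mk (Pat.mk 0x200000006000000020000000400000000 0x10000000700000007000000020000000600000006 4 3) 0 0 (step_sound _ 33 [rh04ee05071d91faba, (rh55afc6a59410cf00.shift 1 0)] (by decide +kernel))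
noncomputable def rha9f534b21f67f0a6 : CRef := CRef.mk (Pat.mk 0x4000000000000002c0000000e00000000 0x4000000040000006c0000007e00000003 4 7) 0 0 (step_sound _ 1 [rh6343052d9db8e735, (rhee230b994cc8b773.shift 1 0)] (by decide +kernel))
noncomputable def rh6714c7551197e2a4 : CRef := CRef.mk (Pat.mk 0x800000000000000080000001e00000000 0x8000000080000000b0000003e00000007 4 6) 0 0 (step_sound _ 65 [(rh3244c3cc8379b070.shift 0 1), rh6f21391ccc0d7551] (by decide +kernel))
noncomputable def rh7cf68dc7e62595c7 : CRef := CRef.mk (Pat.mk 0x30000000600000002000000000000000000000000 0x1000000070000000600000002000000060000000600000004 4 3) 0 0 (step_sound _ 65 [(rh127b405bd7f7b930.shift 1 0), (rh50fbb5868c909700.shift 0 2)] (by decide +kernel))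
noncomputable def rh46f34fdbf6b9ab76 : CRef := CRef.mk (Pat.mk 0x8000000180000003800000008 0x40000000f0000003e0000003800000008 4 6) 0 0 (step_sound _ 66 [rh8f2453f412d57a0e, (rhb739f4f82bb681b4.shift 1 1)] (by decide +kernel))
noncomputable def rhb9e0e239342621c0 : CRef := CRef.mk (Pat.mk 0x1a000000160000000400000000 0x8000000080000001b0000001e0000003400000010 4 6) 0 0 (step_sound _ 67 [(rh3244c3cc8379b070.shift 0 2), (rh33bed325bf166500.shift 1 0)] (by decide +kernel))
noncomputable def rh0ac4d9272d89bceb : CRef := CRef.mk (Pat.mk 0x180000007800000018 0x380000007f000000f8 4 8) 0 0 (step_sound _ 6 [rh784ce7c990e66974, (rhe25b0a99195a5d59.shift 3 0)] (by decide +kernel))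
noncomputable def rha7034ad0b953aa2c : CRef := CRef.mk (Pat.mk 0x80000001a0000001e00000004 0x60000000f0000001a0000003e00000006 4 6) 0 0 (step_sound _ 97 [rh14aadcb4f1c08e4b, (rh2145e1d24b96a57e.shift 1 0)] (by decide +kernel))
noncomputable def rhb4b55eb1beed23a3 : CRef := CRef.mk (Pat.mk 0x10000000380000000800000008 0x4000000370000003e0000000f00000008 4 6) 0 0 (step_sound _ 66 [(rh4c063b89d42a2070.shift 0 1), (rhe4f9133a81c1dbc5.shift 1 0), (rhedf6b6c69a16cbd5.shift 0 2)] (by decide +kernel))
noncomputable def rh2f5dd1e0b615921c : CRef := CRef.mk (Pat.mk 0xc000000070000000000000000 0x4000000040000001c0000000f0000001800000008 4 5) 0 0 (step_sound _ 67 [(rh33e738c4ed385b9f.shift 0 2), rhea719cc8bd0bdd28] (by decide +kernel))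
noncomputable def rh5bbe1c004ccdf534 : CRef := CRef.mk (Pat.mk 0x10000000180000000e0000000000000000 0x8000000380000001f0000003e0000003000000010 4 6) 0 0 (step_sound _ 68 [(rh870359598daa9f92.shift 0 2), (rhea719cc8bd0bdd28.shift 1 0)] (by decide +kernel))
noncomputable def rhd5e39ea7dd1db2ce : CRef := CRef.mk (Pat.mk 0xc0000000e000000080000001800000000 0xc0000000e0000003b0000001f00000006 4 6) 0 0 (step_sound _ 34 [rh1edbf78a4ab05046, (rh932754581e0f4330.shift 2 0)] (by decide +kernel))
noncomputable def rh9fcfb7da64a26d11 : CRef := CRef.mk (Pat.mk 0xf00000006000000020000000000000000 0x180000000f00000006000000060000000600000006 4 5) 0 0 (step_sound _ 33 [rh4522ea7bef838818, (rh71222050f2c63a3a.shift 1 0)] (by decide +kernel))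
noncomputable def rhb2d1aa7b1ffc4eb6 : CRef := CRef.mk (Pat.mk 0x1e00000006 0x380000001f0000003e 4 6) 0 0 (step_sound _ 4 [rh9f1047afaa8ebdc9, (rhe25b0a99195a5d59.shift 1 0)] (by decide +kernel))
noncomputable def rhd811d0dc10bb5440 : CRef := CRef.mk (Pat.mk 0x80000000c000000040000000c0000000000000000 0x10000000180000001c0000000f0000003c0000001800000008 4 6) 0 0 (step_sound _ 99 [(rh15a1b6b82d9fd81f.shift 2 0), (rhfe557af9112f51d6.shift 0 1)] (by decide +kernel))
noncomputable def rhe5f1d6f0879cdb28 : CRef := CRef.mk (Pat.mk 0x700000007000000020000000200000000 0x180000001f00000007000000060000000600000004 4 5) 0 0 (step_sound _ 131 [(rh18965a982d73c794.shift 0 3), rh4522ea7bef838818] (by decide +kernel))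
noncomputable def rh31641351c0b0da60 : CRef := CRef.mk (Pat.mk 0x40000000c000000060000000000000000 0x4000000040000003c0000000f0000000800000008 4 6) 0 0 (step_sound _ 100 [(rh18965a982d73c794.shift 1 2), rh5707d7863bec6828] (by decide +kernel))
noncomputable def rh20f545700634a2c8 : CRef := CRef.mk (Pat.mk 0x180000007800000010 0xf80000007f00000030 4 8) 0 0 (step_sound _ 70 [(rh33e738c4ed385b9f.shift 3 1), rh8dbbebcf319a86be] (by decide +kernel))
noncomputable def rh06ebb06f5f5fb6af : CRef := CRef.mk (Pat.mk 0x80000003c0000002c 0x3e0000003f0000003c 4 6) 0 0 (step_sound _ 66 [(rh3244c3cc8379b070.shift 1 1), rh5909f14408a19b62] (by decide +kernel))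
noncomputable def rh309019e4b17e5c91 : CRef := CRef.mk (Pat.mk 0xe00000004000000000000001e00000000 0xf0000003c000000080000001e00000030 4 6) 0 0 (step_sound _ 4 [(rhe25b0a99195a5d59.shift 1 0), rhe7bf5a31a4e8e39f] (by decide +kernel))
noncomputable def rhe88f719fe55ba9de : CRef := CRef.mk (Pat.mk 0x60000000e000000030000000600000000 0x60000000e0000001b0000001f00000009 4 5) 0 0 (step_sound _ 32 [rh932754581e0f4330, rhd9fec72a21b00309] (by decide +kernel))
noncomputable def rhdfb45a0764e33452 : CRef := CRef.mk (Pat.mk 0x1e000000060000000200000000 0x30000001e0000003e0000000300000001 4 6) 0 0 (step_sound _ 129 [rh2cc2854bb928dcfb, (rh3244c3cc8379b070.shift 0 3)] (by decide +kernel))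
noncomputable def rh104a142e7acfc826 : CRef := CRef.mk (Pat.mk 0xe0000000400000004 0x200000002000000070000003e0000000600000004 4 6) 0 0 (step_sound _ 97 [(rh46231ab7bfd17f40.shift 0 1), (rhc89253ff58c66167.shift 1 0), rhede1dfc55ca9bb6f] (by decide +kernel))
noncomputable def rh011e4142515085ec : CRef := CRef.mk (Pat.mk 0x180000001c0000000800000008 0x40000001f0000003f0000000800000008 4 6) 0 0 (step_sound _ 98 [(rh50fbb5868c909700.shift 2 0), (rh5dda16883491fd09.shift 0 2)] (by decide +kernel))
noncomputable def rh1fc9a83231fa2929 : CRef := CRef.mk (Pat.mk 0x40000000f0000000000000000 0x4000000040000001c0000000f0000001800000008 4 5) 0 0 (step_sound _ 99 [(rh33e738c4ed385b9f.shift 0 2), rhea719cc8bd0bdd28] (by decide +kernel))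
noncomputable def rh1ec49f55d40f956e : CRef := CRef.mk (Pat.mk 0x40000000f000000040000000400000000 0x400000004000000040000000f0000001e0000000600000002 4 5) 0 0 (step_sound _ 67 [(rh925a1628dd8a50da.shift 1 0), (rhe25b0a99195a5d59.shift 0 2)] (by decide +kernel))
noncomputable def rh062693b029b41d9c : CRef := CRef.mk (Pat.mk 0x1000000060000000700000002 0x200000003000000030000001e0000000700000003 4 5) 0 0 (step_sound _ 97 [rh50fbb5868c909700, rhc304664f94bd3db3] (by decide +kernel))
noncomputable def rhef1fef9b2fe09d8c : CRef := CRef.mk (Pat.mk 0x80000000c000000060000000400000000 0x60000000f0000003c000000060000000600000002 4 6) 0 0 (step_sound _ 100 [(rh18965a982d73c794.shift 1 2), rhd4ae1995e458b8b0] (by decide +kernel))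
noncomputable def rh41c446d57b51d23d : CRef := CRef.mk (Pat.mk 0x1c000000180000000e0000000800000000 0x20000001f0000001b0000000e0000000c00000004 4 5) 0 0 (step_sound _ 34 [(rh932754581e0f4330.shift 2 0), (rhc5170405e20c2ff6.shift 0 1)] (by decide +kernel))
noncomputable def rh4e72d803b6fe7c49 : CRef := CRef.mk (Pat.mk 0x120000001c00000000 0x370000003e00000006 4 6) 0 0 (step_sound _ 37 [(rh3f8766e6ecb455ce.shift 1 1), rhcba81ace4e0c6eba] (by decide +kernel))
noncomputable def rhed3c776db01afc16 : CRef := CRef.mk (Pat.mk 0x1c000000080000000c0000000c00000000 0x3c0000000f0000003c0000000f00000002 4 6) 0 0 (step_sound _ 98 [(rh4dc133ee0ba1420a.shift 0 3), rha71afc656c87d410] (by decide +kernel))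
noncomputable def rha516a3d27367b169 : CRef := CRef.mk (Pat.mk 0xe00000004000000000000001800000000 0x3f0000003f000000180000001800000010 4 6) 0 0 (step_sound _ 100 [(rh1e42cdaa2b8276ac.shift 0 3), (rh7344b4efa7925350.shift 0 3), rhb3e242ae9b4f2f49] (by decide +kernel))
noncomputable def rh37639814abe95979 : CRef := CRef.mk (Pat.mk 0x200000002000000020000000400000000 0x20000000200000002000000070000000700000005 4 3) 0 0 (step_sound _ 33 [(rh55afc6a59410cf00.shift 1 0), rh7b60db5db6f7d331] (by decide +kernel))
noncomputable def rhc8323dc824533198 : CRef := CRef.mk (Pat.mk 0x800000008000000080000001c 0x800000008000000080000003f0000003f 4 6) 0 0 (step_sound _ 1 [rh660d976f977b2c2b, rhcd1d2dd80f69b75d, rhec46bd5500c722c9] (by decide +kernel))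
noncomputable def rh95b343e690f573c3 : CRef := CRef.mk (Pat.mk 0x20000000200000002000000020000000000000000 0x1000000030000000300000002000000060000000700000005 4 3) 0 0 (step_sound _ 33 [(rh3ca48e2a6d60153d.shift 0 1), rh96b9ddd2353c6a13] (by decide +kernel))
noncomputable def rh5a4137a36c93f1f5 : CRef := CRef.mk (Pat.mk 0xf000000020000000200000004 0x1a0000000f0000001a0000000e00000004 4 5) 0 0 (step_sound _ 34 [(rh2145e1d24b96a57e.shift 1 0), rh9c9de8a82d5e4ca8] (by decide +kernel))
noncomputable def rh680726b6ed9fd3cd : CRef := CRef.mk (Pat.mk 0x20000000200000002000000020000000200000000 0x100000003000000030000000200000002000000030000000300000001 4 2) 0 0 (step_sound _ 192 [rh57329dcdf48097a4, (rhffd04209dc8ea796.shift 0 2)] (by decide +kernel))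
noncomputable def rh81c8f57c5b85c38e : CRef := CRef.mk (Pat.mk 0xc00000007000000060000000000000000 0xc0000000c000000070000001e0000000c00000008 4 5) 0 0 (step_sound _ 34 [(rh2f68792b6b779e96.shift 2 1), rha3bbffe7514ebc9f] (by decide +kernel))
noncomputable def rhfb887dc442f7725b : CRef := CRef.mk (Pat.mk 0x1f000000140000000000000000 0x8000000080000001c0000001f000000140000000400000004 4 5) 0 0 (step_sound _ 131 [(rh33e738c4ed385b9f.shift 0 3), (rh6e672cddce798f8b.shift 2 0)] (by decide +kernel))
noncomputable def rhaf7c83fabfefdcde : CRef := CRef.mk (Pat.mk 0x10000000180000000800000008 0x140000001f000000380000000800000008 4 6) 0 0 (step_sound _ 99 [(rh2f68792b6b779e96.shift 3 0), rhc647a25a08ddf0ec] (by decide +kernel))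
noncomputable def rhd4ef12ccdc7bfc0d : CRef := CRef.mk (Pat.mk 0x1c000000180000000800000004 0x80000001f000000380000000f00000004 4 6) 0 0 (step_sound _ 34 [(rh43842a9bca1d4e70.shift 0 1), (rh5c5e593799055d58.shift 2 0)] (by decide +kernel))
noncomputable def rhf337fdc36704e370 : CRef := CRef.mk (Pat.mk 0x200000002000000030000000200000000 0x2000000030000000300000003000000030000000300000002 4 2) 0 0 (step_sound _ 128 [(rh50fbb5868c909700.shift 0 1), rhdb4451b2594fac83] (by decide +kernel))
noncomputable def rh90d9c583da87cdb5 : CRef := CRef.mk (Pat.mk 0x1c0000000c000000080000000800000000 0x80000003c0000000f0000000c0000000c00000004 4 6) 0 0 (step_sound _ 34 [(rh84e43b4eb641fdeb.shift 0 1), (rh932754581e0f4330.shift 2 0)] (by decide +kernel))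
noncomputable def rh429d6e052d4df52f : CRef := CRef.mk (Pat.mk 0x160000001a0000000800000000 0x400000004000000360000001e0000000b00000002 4 6) 0 0 (step_sound _ 66 [rh079470f290abda33, (rh33e738c4ed385b9f.shift 1 2)] (by decide +kernel))
noncomputable def rhe1eb410f20df8382 : CRef := CRef.mk (Pat.mk 0xe0000001c0000000000000000 0x10000000300000003e0000001f0000000800000008 4 6) 0 0 (step_sound _ 100 [(rh34b1188e635efc8d.shift 1 0), (rh4dc133ee0ba1420a.shift 0 2)] (by decide +kernel))
noncomputable def rhfe8ad5cb9e6353d0 : CRef := CRef.mk (Pat.mk 0x400000006000000070000000200000000 0x80000000c0000001e000000070000001e0000000c 4 5) 0 0 (step_sound _ 99 [(rh18965a982d73c794.shift 0 2), rh8af7192353b19a4c] (by decide +kernel))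
noncomputable def rh9bcd0dff3c31227e : CRef := CRef.mk (Pat.mk 0x40000000e000000080000000000000000 0x140000001c0000000f000000080000000800000008 4 5) 0 0 (step_sound _ 35 [(rh7b1f1fb55310c477.shift 2 0), (rhbe22baded9e1d7ea.shift 0 1)] (by decide +kernel))
noncomputable def rheda99a191283b9ee : CRef := CRef.mk (Pat.mk 0x80000001e0000000600000000 0x8000000080000001f0000003e00000030 4 6) 0 0 (step_sound _ 36 [rh4f4c08e1b83f14d0, (rhe25b0a99195a5d59.shift 1 1)] (by decide +kernel))
noncomputable def rhbd70501440a02fa8 : CRef := CRef.mk (Pat.mk 0x10000000180000001e00000000 0x20000000300000001f0000001e00000030 4 6) 0 0 (step_sound _ 65 [(rh0106fadff783f776.shift 1 0), (rh3244c3cc8379b070.shift 0 1)] (by decide +kernel))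
noncomputable def rh60fd89e95760eba3 : CRef := CRef.mk (Pat.mk 0x1000000018000000380000000000000000 0x10000000780000003f0000006700000020 4 7) 0 0 (step_sound _ 66 [(rh625dde73e665edc8.shift 2 0), (rhcc2be1f880c5ea3e.shift 0 1), (rhf9d36e158778ce35.shift 1 2)] (by decide +kernel))
noncomputable def rh663f59971b2a36af : CRef := CRef.mk (Pat.mk 0x4000000070000000400000000 0x400000004000000040000000f0000003e0000000a 4 6) 0 0 (step_sound _ 130 [(rh03dfdf12d5937476.shift 1 0), rhd9397e4126e81439] (by decide +kernel))
noncomputable def rh452e83543caf7ac7 : CRef := CRef.mk (Pat.mk 0x600000018000000080000001c 0x2000000060000001e0000003f0000003f 4 6) 0 0 (step_sound _ 33 [rhbe282b16b2bfbfc7, rhd0ed6ce702d0de55, (rhe2f8f774aa401a9d.shift 1 0)] (by decide +kernel))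
noncomputable def rh30d08358f93f7791 : CRef := CRef.mk (Pat.mk 0x100000000e000000040000000000000000 0x8000000080000001c0000000f000000040000000400000004 4 5) 0 0 (step_sound _ 131 [(rh53b3c253cb0c65f4.shift 0 3), (rhf9366b6a121593ef.shift 2 0)] (by decide +kernel))
noncomputable def rh760db4b6601f3249 : CRef := CRef.mk (Pat.mk 0x1c00000006000000020000000600000000 0x10000001f0000003e000000020000000600000004 4 6) 0 0 (step_sound _ 129 [(rh55afc6a59410cf00.shift 1 0), (rh8db50c9018a9ca1f.shift 0 1)] (by decide +kernel))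
noncomputable def rh6e1b96824840802e : CRef := CRef.mk (Pat.mk 0x1e000000060000000200000004 0x80000001f0000003e0000000700000004 4 6) 0 0 (step_sound _ 34 [(rh2f68792b6b779e96.shift 2 0), (rhf6d72ac90bd26cb0.shift 0 1)] (by decide +kernel))
noncomputable def rh3fc38624435575ec : CRef := CRef.mk (Pat.mk 0x6000000030000000100000000 0x60000000600000006000000030000000300000003 4 3) 0 0 (step_sound _ 129 [rh2e95f0771a0e88ed, (rh5c5e593799055d58.shift 0 1)] (by decide +kernel))
noncomputable def rh5d03a8442c280bd5 : CRef := CRef.mk (Pat.mk 0x80000001c000000100000000000000000 0x180000001f000000380000001000000010 4 6) 0 0 (step_sound _ 36 [(rh251facab2e282844.shift 0 2), (rh7b1f1fb55310c477.shift 3 0)] (by decide +kernel))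
noncomputable def rh6cc3428714306da6 : CRef := CRef.mk (Pat.mk 0x40000000c000000070000000000000000 0x80000000c0000000c000000070000003e0000000c 4 6) 0 0 (step_sound _ 34 [(rha707fb719e87fe6e.shift 2 0), rhb0c6196f710d9a93] (by decide +kernel))
noncomputable def rheee5bd1b9dc0a3f9 : CRef := CRef.mk (Pat.mk 0x200000006000000030000000600000000 0x60000000600000006000000070000001e00000008 4 5) 0 0 (step_sound _ 130 [(rh2f68792b6b779e96.shift 1 1), rhc8a06f5deb37ed16] (by decide +kernel))
noncomputable def rhc461ae945b37d5e0 : CRef := CRef.mk (Pat.mk 0x80000000c000000090000000800000000 0x800000008000000080000000c0000000f0000001c00000010 4 5) 0 0 (step_sound _ 36 [(rh0d3b79568e6c0f4c.shift 0 1), (rh55afc6a59410cf00.shift 3 0)] (by decide +kernel))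
noncomputable def rhdaa57ee32d9b984b : CRef := CRef.mk (Pat.mk 0x80000000e000000040000000000000000 0x8000000080000000f0000003c0000000400000004 4 6) 0 0 (step_sound _ 34 [(rh28f80625c87f7372.shift 0 1), (rh71222050f2c63a3a.shift 2 0)] (by decide +kernel))
noncomputable def rh5dbe2fd002c6c501 : CRef := CRef.mk (Pat.mk 0x20000001c000000060000000200000000 0x30000001e0000003e0000000300000001 4 6) 0 0 (step_sound _ 97 [rh2cc2854bb928dcfb, (rh3244c3cc8379b070.shift 0 3)] (by decide +kernel))
noncomputable def rh7784259e49d2b9f1 : CRef := CRef.mk (Pat.mk 0x1c000000080000000c00000004 0x30000001f0000007c0000000f00000004 4 7) 0 0 (step_sound _ 68 [rh59b8ab533772ff61, (rh6292bd8784ece55f.shift 1 2), (rh95c7bf00a65f6c99.shift 0 1)] (by decide +kernel))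
noncomputable def rhda794e0c692d0381 : CRef := CRef.mk (Pat.mk 0x60000000400000006000000040000000400000000 0xe0000003c0000000f000000040000000400000004 4 6) 0 0 (step_sound _ 131 [(rh2f68792b6b779e96.shift 2 1), rh53e5e8e6f04cffc4] (by decide +kernel))
noncomputable def rh9816434bd6468104 : CRef := CRef.mk (Pat.mk 0x80000000c0000000c0000000c00000000 0x40000000c0000000c0000003c0000000f00000002 4 6) 0 0 (step_sound _ 130 [(rh50fbb5868c909700.shift 2 1), rha71afc656c87d410] (by decide +kernel))
noncomputable def rh41c2eb18e95e7c95 : CRef := CRef.mk (Pat.mk 0x700000001000000010000000100000000 0x50000000700000003000000030000000300000003 4 3) 0 0 (step_sound _ 33 [rh55afc6a59410cf00, rhd0b3006651ac062d] (by decide +kernel))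
noncomputable def rhff52c6557ec264c3 : CRef := CRef.mk (Pat.mk 0x6000000030000000c0000000000000000 0x500000007000000030000001e0000000200000002 4 5) 0 0 (step_sound _ 65 [rh000637b5a81e86aa, (rhf48373e13d2bc128.shift 0 2)] (by decide +kernel))
noncomputable def rhc13e643d7dd9ad12 : CRef := CRef.mk (Pat.mk 0x6000000020000000600000000 0x10000000700000007000000020000000600000006 4 3) 0 0 (step_sound _ 129 [rh04ee05071d91faba, (rh55afc6a59410cf00.shift 1 0)] (by decide +kernel))
noncomputable def rh700eb40db44b6775 : CRef := CRef.mk (Pat.mk 0x2000000030000000c000000000000000000000000 0x200000002000000030000001e000000060000000400000004 4 5) 0 0 (step_sound _ 97 [(rh70e33bfdf511e144.shift 1 0), (rhf48373e13d2bc128.shift 0 3)] (by decide +kernel))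
noncomputable def rh97eaf2b458bf126a : CRef := CRef.mk (Pat.mk 0xc000000180000000c0000000800000000 0x20000000f0000001c0000000c0000000c0000000c 4 5) 0 0 (step_sound _ 98 [(rh7b1f1fb55310c477.shift 2 0), rhda49d08e88765cc3] (by decide +kernel))
noncomputable def rhc72f934642952c1d : CRef := CRef.mk (Pat.mk 0x400000008000000180000000e00000000 0x40000000f0000001e0000000e0000000a 4 5) 0 0 (step_sound _ 98 [rh57ea04170973c7f1, (rh7b1f1fb55310c477.shift 2 0)] (by decide +kernel))
noncomputable def rh187c5eef9df77602 : CRef := CRef.mk (Pat.mk 0x3600000018000000080000000800000000 0x280000003f00000018000000180000001800000010 4 6) 0 0 (step_sound _ 131 [(rh8af9a32e61457eb0.shift 3 0), (rhb739f4f82bb681b4.shift 0 3)] (by decide +kernel))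
noncomputable def rhbec250d9989bf30e : CRef := CRef.mk (Pat.mk 0x100000001a0000001e0000000000000000 0x4000000340000001e0000001e0000000300000002 4 6) 0 0 (step_sound _ 98 [rh031a926e4a883687, (rh33e738c4ed385b9f.shift 1 3)] (by decide +kernel))
noncomputable def rh796a71bf3d46f5c2 : CRef := CRef.mk (Pat.mk 0x40000000400000008000000180000000200000000 0x400000004000000060000000f0000001a0000000200000002 4 5) 0 0 (step_sound _ 98 [(rh2145e1d24b96a57e.shift 2 2), rha3a87c89b1a89291] (by decide +kernel))
noncomputable def rhb218cf71230e6ea5 : CRef := CRef.mk (Pat.mk 0x40000001c000000060000000000000000 0xa0000000f0000001e000000060000000400000004 4 5) 0 0 (step_sound _ 129 [(rh668fc65514a55b16.shift 1 0), rhd652c19df8b64ee8, (rhd8e93bbc8568df99.shift 0 3)] (by decide +kernel))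
noncomputable def rh5dbc1278bd4ae6a3 : CRef := CRef.mk (Pat.mk 0x400000006000000030000000000000000 0x60000000600000006000000030000000300000003 4 3) 0 0 (step_sound _ 33 [rh1a44f6991f283c8d, (rh71222050f2c63a3a.shift 1 0)] (by decide +kernel))
noncomputable def rh615efa8e6e98bdfd : CRef := CRef.mk (Pat.mk 0x80000000a0000001e00000006 0x60000000f0000003a0000001e00000006 4 6) 0 0 (step_sound _ 68 [(rh33e738c4ed385b9f.shift 1 1), rhbad97a0fc5ad232d] (by decide +kernel))
noncomputable def rhe713a2e5675944bb : CRef := CRef.mk (Pat.mk 0x1e000000100000000000000000 0x800000008000000180000001f000000180000001000000010 4 5) 0 0 (step_sound _ 131 [(rh5d9b0b97434265de.shift 0 1), (rh6765e7960b108c8d.shift 0 2), (rhc38f566cab2818e5.shift 3 0)] (by decide +kernel))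
noncomputable def rhf74cb5e4c96a704d : CRef := CRef.mk (Pat.mk 0x40000000e000000100000000000000000 0x4000000040000000c0000000f000000180000000800000008 4 5) 0 0 (step_sound _ 67 [(rhb739f4f82bb681b4.shift 0 2), (rhc2c7bae8f445c890.shift 2 0)] (by decide +kernel))
noncomputable def rh4d7473ca93c5e371 : CRef := CRef.mk (Pat.mk 0x1e0000000400000004 0x200000002000000030000001e0000003600000004 4 6) 0 0 (step_sound _ 36 [rh768a472a1ebe455c, (rhe25b0a99195a5d59.shift 1 1)] (by decide +kernel))
noncomputable def rh37685734ed799af3 : CRef := CRef.mk (Pat.mk 0x1e0000000400000004 0x2000000030000003e0000003600000004 4 6) 0 0 (step_sound _ 36 [(rhe25b0a99195a5d59.shift 1 1), rhed9a93d9f6a3fb5f] (by decide +kernel))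
noncomputable def rh7e5339b39b9675ee : CRef := CRef.mk (Pat.mk 0x8000000180000000e0000000400000000 0x80000001f0000003e0000003600000010 4 6) 0 0 (step_sound _ 68 [(rh78974448101547fe.shift 1 0), (rha7c39a327e399e52.shift 0 1)] (by decide +kernel))
noncomputable def rh1db906c53c63163c : CRef := CRef.mk (Pat.mk 0x90000000e00000004 0xf0000007e0000000e 4 7) 0 0 (step_sound _ 36 [(rh04048a4a2acf2c94.shift 1 0), (rh3f8766e6ecb455ce.shift 0 1)] (by decide +kernel))
noncomputable def rhe56e0673ee2287dd : CRef := CRef.mk (Pat.mk 0xc0000000c0000000a0000000200000000 0xc0000000c0000000b0000001e0000001c 4 5) 0 0 (step_sound _ 35 [rh11a243992b58ed44, (rh7b1f1fb55310c477.shift 2 0)] (by decide +kernel))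
noncomputable def rhe8e443cddb98a376 : CRef := CRef.mk (Pat.mk 0xe0000001400000004 0x200000002000000030000001e0000003600000004 4 6) 0 0 (step_sound _ 68 [rh768a472a1ebe455c, (rhe25b0a99195a5d59.shift 1 1)] (by decide +kernel))
noncomputable def rhf0d8c1f881847c60 : CRef := CRef.mk (Pat.mk 0x40000000e000000120000000200000000 0x40000000f0000001e0000000f00000008 4 5) 0 0 (step_sound _ 67 [(rhb739f4f82bb681b4.shift 0 2), rhe8ecde7c5083ed53] (by decide +kernel))
noncomputable def rh974ce24dd69fdb00 : CRef := CRef.mk (Pat.mk 0x40000000c000000070000000200000000 0x40000000e0000007f0000001b00000008 4 7) 0 0 (step_sound _ 67 [(rh0127acd528cd93fb.shift 0 1), rh78974448101547fe] (by decide +kernel))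
noncomputable def rh52a458206ca27667 : CRef := CRef.mk (Pat.mk 0x80000001c0000000400000004 0x2000000020000003b0000001f0000000600000004 4 6) 0 0 (step_sound _ 65 [rh768a472a1ebe455c, (rhec46bd5500c722c9.shift 0 2)] (by decide +kernel))
noncomputable def rhc5e73d38ca06ef89 : CRef := CRef.mk (Pat.mk 0x8000000180000000e0000000400000004 0x20000001f0000007a0000000e0000000600000004 4 7) 0 0 (step_sound _ 101 [(rh18965a982d73c794.shift 2 2), rh4ebc94ac63d8ec57] (by decide +kernel))
noncomputable def rh3d0404269046c5d2 : CRef := CRef.mk (Pat.mk 0xc0000000d0000000000000000 0x4000000040000001c0000000f0000001800000008 4 5) 0 0 (step_sound _ 65 [(rh33e738c4ed385b9f.shift 0 2), rhea719cc8bd0bdd28] (by decide +kernel))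
noncomputable def rhceeae3bd82299777 : CRef := CRef.mk (Pat.mk 0x2000000120000001c0000001400000000 0x180000001f0000001e0000001c0000001c00000018 4 5) 0 0 (step_sound _ 131 [(rh2f33d1d0bcfdca52.shift 2 0), rh66364df72371f933, (rha52e0141694f1c7d.shift 3 0)] (by decide +kernel))
noncomputable def rh11b3085c164aba78 : CRef := CRef.mk (Pat.mk 0xf000000010000000200000002 0x30000001f000000390000000300000002 4 6) 0 0 (step_sound _ 128 [(rh2aac33c566332a8c.shift 0 2), rhbe0e43a3bc50a43f] (by decide +kernel))
noncomputable def rh569236fa30a3d18f : CRef := CRef.mk (Pat.mk 0x40000001c0000000c000000000000000000000000 0xa0000000f0000001e0000000c000000040000000400000004 4 5) 0 0 (step_sound _ 66 [(rh039efe07c35de3d4.shift 0 2), (rh84d1c02a8954c6a8.shift 2 1), (rhdf997f77704b6375.shift 1 0)] (by decide +kernel))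
noncomputable def rh3775b9fec76e2ef0 : CRef := CRef.mk (Pat.mk 0x40000001e0000000000000000 0x400000004000000060000003e0000000300000002 4 6) 0 0 (step_sound _ 33 [(rh2bc194cac99ac1c9.shift 1 0), (rheb0810cc63b001d8.shift 0 1)] (by decide +kernel))
noncomputable def rh0806734c3b81cd6f : CRef := CRef.mk (Pat.mk 0xc00000006000000020000000600000000 0x190000000f00000006000000060000000600000004 4 5) 0 0 (step_sound _ 129 [(rh55afc6a59410cf00.shift 1 0), (rheb3b918c0e59493a.shift 0 1)] (by decide +kernel))
noncomputable def rh2510c9405f884362 : CRef := CRef.mk (Pat.mk 0x40000000f000000000000000000000000 0x40000001c0000000f000000180000000800000008 4 5) 0 0 (step_sound _ 67 [rh5d146ea1f36119c8, (rhe25b0a99195a5d59.shift 0 2)] (by decide +kernel))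
noncomputable def rhb2d5256c07b38689 : CRef := CRef.mk (Pat.mk 0x1c00000008000000080000000600000000 0x80000003c0000000f0000000c0000000600000002 4 6) 0 0 (step_sound _ 66 [(rh5c5e593799055d58.shift 2 1), rh7f7f6204a9220ffe] (by decide +kernel))
noncomputable def rh4862d90f568361f9 : CRef := CRef.mk (Pat.mk 0x400000004000000040000000700000000 0x60000000600000006000000060000000700000005 4 3) 0 0 (step_sound _ 129 [(rh50fbb5868c909700.shift 1 1), rha6e844bc1831e088] (by decide +kernel))
noncomputable def rhfa7a4568173970d8 : CRef := CRef.mk (Pat.mk 0x600000004000000070000000400000000 0x80000000e0000003e000000070000000400000004 4 6) 0 0 (step_sound _ 131 [(rh2f68792b6b779e96.shift 2 1), rh4b8bbd9813efdcd7] (by decide +kernel))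
noncomputable def rh5ad79ef9b235223d : CRef := CRef.mk (Pat.mk 0x8000000380000000e0000000000000000 0x40000001f000000380000000e0000003c00000014 4 6) 0 0 (step_sound _ 35 [(rh79905f95cb2d899a.shift 0 1), (rhb379f99078aafa2d.shift 1 0)] (by decide +kernel))
noncomputable def rhe9c151068024c4e2 : CRef := CRef.mk (Pat.mk 0x8000000380000000800000000 0x4000000040000000c0000001f000000380000000800000008 4 6) 0 0 (step_sound _ 98 [rh8d5c06fc0c5e4b8d, (rhb1a251d9bff81766.shift 2 0), (rhc02b3aee7ab87ee1.shift 0 2)] (by decide +kernel))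
noncomputable def rh09131948568257dd : CRef := CRef.mk (Pat.mk 0x2000000060000001c00000006 0x3000000030000003e0000001e00000006 4 6) 0 0 (step_sound _ 33 [(rh2145e1d24b96a57e.shift 1 0), rhae8938145796a1d1] (by decide +kernel))
noncomputable def rh1d940ba614b84faf : CRef := CRef.mk (Pat.mk 0x20000000e000000040000000000000000 0x2000000070000003e000000040000000400000004 4 6) 0 0 (step_sound _ 100 [(rh3244c3cc8379b070.shift 0 3), (rheef8171dfb50465e.shift 1 0)] (by decide +kernel))
noncomputable def rhba9bff851075fa55 : CRef := CRef.mk (Pat.mk 0x40000000d0000000800000000 0x4000000040000001c0000000f0000001800000008 4 5) 0 0 (step_sound _ 65 [rh8f2eacec99830cb7, (rhe25b0a99195a5d59.shift 0 1)] (by decide +kernel))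
noncomputable def rh5dd0a6c6ba826ec8 : CRef := CRef.mk (Pat.mk 0x6000000040000001c0000000c 0x180000003e000000370000001c0000000c 4 6) 0 0 (step_sound _ 99 [(rh2f68792b6b779e96.shift 2 0), rh32e1d3c95004e2c1] (by decide +kernel))
noncomputable def rhab327551321a17d4 : CRef := CRef.mk (Pat.mk 0xc0000001c000000080000001c 0x20000000f0000001c0000000f0000003c 4 6) 0 0 (step_sound _ 97 [rh5ad5ac0b8ac3af9a, (rhb739f4f82bb681b4.shift 0 2)] (by decide +kernel))
noncomputable def rh2f5550ea7a25712f : CRef := CRef.mk (Pat.mk 0x20000000600000002000000060000000000000000 0x3000000030000000700000006000000060000000200000002 4 3) 0 0 (step_sound _ 98 [(rh2145e1d24b96a57e.shift 1 2), rh674dd4f5f6cca5c0] (by decide +kernel))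
noncomputable def rh83b60cef9eb10cde : CRef := CRef.mk (Pat.mk 0x60000000c0000000000000004 0xa0000000f0000003c0000000400000004 4 6) 0 0 (step_sound _ 34 [(rh50fbb5868c909700.shift 1 0), rhf5cd3c300f0364c1] (by decide +kernel))
noncomputable def rh62e27c7b2e610708 : CRef := CRef.mk (Pat.mk 0xc000000180000000000000008 0x40000000f0000007c0000000800000008 4 7) 0 0 (step_sound _ 35 [(rh50fbb5868c909700.shift 2 0), (rhdeca8db941583de2.shift 0 2)] (by decide +kernel))
noncomputable def rhf5e394b641108220 : CRef := CRef.mk (Pat.mk 0x20000000200000002000000020000000000000000 0x1000000030000000300000002000000060000000600000004 4 3) 0 0 (step_sound _ 34 [rhb687ca735479b4da, (rhd3458b32566d63f7.shift 1 1)] (by decide +kernel))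
noncomputable def rh518ac8f0967ff188 : CRef := CRef.mk (Pat.mk 0x140000001c0000000800000008 0x40000001f0000003f0000000800000008 4 6) 0 0 (step_sound _ 99 [(rh50fbb5868c909700.shift 2 0), (rh5dda16883491fd09.shift 0 2)] (by decide +kernel))
noncomputable def rh2506a0f8df8b6256 : CRef := CRef.mk (Pat.mk 0x2000000070000000400000004 0x80000003b0000001f0000003c00000004 4 6) 0 0 (step_sound _ 67 [(rh695f888db18ad7c7.shift 0 1), (rhb0716bb49afa8156.shift 0 2), rhbbda3e5cf400e6dd] (by decide +kernel))
noncomputable def rh09da1024801a669e : CRef := CRef.mk (Pat.mk 0x80000001e000000140000000000000000 0x80000001f0000001f0000003000000010 4 6) 0 0 (step_sound _ 67 [(rhb739f4f82bb681b4.shift 0 2), rhb99743c2849212cd] (by decide +kernel))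
noncomputable def rh1eb5fba744744213 : CRef := CRef.mk (Pat.mk 0x50000000f0000000d0000000000000000 0x1000000050000000f0000000f0000001a0000000a 4 5) 0 0 (step_sound _ 35 [(rh7b1f1fb55310c477.shift 2 0), rhd7012eb0127f1d62] (by decide +kernel))
noncomputable def rha752db8a30bfeb1b : CRef := CRef.mk (Pat.mk 0x60000001e0000000200000006 0x2000000060000001f0000003e00000007 4 6) 0 0 (step_sound _ 34 [(rh50fbb5868c909700.shift 1 0), rhf6d72ac90bd26cb0] (by decide +kernel))
noncomputable def rh549ad317562faf6e : CRef := CRef.mk (Pat.mk 0x80000000e0000001000000000 0x800000008000000080000000f0000003c00000010 4 6) 0 0 (step_sound _ 35 [(rh8e6b6ddbdafc0b2b.shift 1 0), (rhb739f4f82bb681b4.shift 0 1)] (by decide +kernel))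
noncomputable def rh5397c2575ffb8276 : CRef := CRef.mk (Pat.mk 0x80000000c00000038000000000000000000000000 0x40000000c0000000c000000380000001f0000000c00000004 4 6) 0 0 (step_sound _ 67 [(rh24b4f41f846cb1d8.shift 2 0), (rh852e818bc8629e77.shift 0 1), (rhe286c75f2739cce2.shift 2 1)] (by decide +kernel))
noncomputable def rhe8b8b6d59e8cde52 : CRef := CRef.mk (Pat.mk 0x2000000020000000300000006 0x1000000030000000300000002000000070000001e 4 5) 0 0 (step_sound _ 128 [rh62de2d0cbfb023f3, rhffd04209dc8ea796] (by decide +kernel))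
noncomputable def rh8903c03e90f2a4b3 : CRef := CRef.mk (Pat.mk 0x40000001c000000060000000200000000 0x20000000f0000001e000000060000000600000004 4 5) 0 0 (step_sound _ 129 [(rh06769707769566d4.shift 0 1), rh2c9cf7e9328cac9c, (rh3289262d1f59fe3a.shift 1 0), rhd652c19df8b64ee8, (rhd8e93bbc8568df99.shift 0 3)] (by decide +kernel))
noncomputable def rh71961d64ad9d9532 : CRef := CRef.mk (Pat.mk 0xc0000000c000000040000000e 0x100000007c0000000e0000003c0000000f 4 7) 0 0 (step_sound _ 35 [(rh861ee9d7304b9753.shift 1 0), rhf9d36e158778ce35] (by decide +kernel))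
noncomputable def rh4e54466f6f83ab31 : CRef := CRef.mk (Pat.mk 0x160000001e0000001400000000 0xa0000000b0000001e0000001e0000001400000010 4 5) 0 0 (step_sound _ 129 [(rh2145e1d24b96a57e.shift 1 1), rh61ef9f64b39adfab] (by decide +kernel))
noncomputable def rhbe6d933593d30567 : CRef := CRef.mk (Pat.mk 0x1e000000180000000000000010 0x600000003e0000001f0000001000000010 4 7) 0 0 (step_sound _ 65 [(rhc59d85f797c325b8.shift 1 0), (rheb0810cc63b001d8.shift 0 2)] (by decide +kernel))
noncomputable def rhc06593e38d9b7588 : CRef := CRef.mk (Pat.mk 0x40000001e0000000800000000 0x400000004000000070000001e0000000b00000002 4 5) 0 0 (step_sound _ 33 [rh1e1a9790ebaf9f7d, (rheb0810cc63b001d8.shift 0 1)] (by decide +kernel))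
noncomputable def rhebcf8267073c4477 : CRef := CRef.mk (Pat.mk 0x4000000140000001800000008 0x400000004000000370000003e00000008 4 6) 0 0 (step_sound _ 34 [(rh2145e1d24b96a57e.shift 2 0), (rhd117684c4a851b90.shift 0 1)] (by decide +kernel))
noncomputable def rh85e909ef1392528c : CRef := CRef.mk (Pat.mk 0x40000001e0000000400000000 0x200000002000000370000001e0000000400000004 4 6) 0 0 (step_sound _ 97 [(rh1e95ed0adb411484.shift 1 0), (rh3244c3cc8379b070.shift 0 2)] (by decide +kernel))
noncomputable def rh3bf2a8147dfd5f83 : CRef := CRef.mk (Pat.mk 0xe0000000400000003 0x3f0000003f00000003 4 6) 0 0 (step_sound _ 36 [(rh1e42cdaa2b8276ac.shift 0 1), (rh7344b4efa7925350.shift 0 1), rh9414a970cc90014f, rha8f3389e42de7ad2] (by decide +kernel))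
noncomputable def rh8d8709356aef8bf9 : CRef := CRef.mk (Pat.mk 0xc0000000c000000080000000800000000 0x100000003c0000000f000000080000001800000010 4 6) 0 0 (step_sound _ 36 [(rh55afc6a59410cf00.shift 3 0), (rhc0ddb33d3a52722b.shift 0 1)] (by decide +kernel))
noncomputable def rh51a3512535a11caf : CRef := CRef.mk (Pat.mk 0x1e00000016000000040000000400000000 0x300000001f0000001e0000000c0000000c00000008 4 6) 0 0 (step_sound _ 99 [(rh3244c3cc8379b070.shift 0 3), (rh4522ea7bef838818.shift 1 0)] (by decide +kernel))
noncomputable def rhaab5d59581c46ab5 : CRef := CRef.mk (Pat.mk 0xe000000040000000e0000000c00000000 0xf0000003c0000000e0000003c00000010 4 6) 0 0 (step_sound _ 36 [rh166d27a1dae4a6ab, (rhf48373e13d2bc128.shift 1 1)] (by decide +kernel))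
noncomputable def rh5495e3a1fe63c802 : CRef := CRef.mk (Pat.mk 0x40000000c000000070000000000000000 0x80000000c0000000c0000000f0000003c0000000c 4 6) 0 0 (step_sound _ 34 [(rha707fb719e87fe6e.shift 2 0), rhd9397e4126e81439] (by decide +kernel))
noncomputable def rh3219a7d93a549a11 : CRef := CRef.mk (Pat.mk 0x80000001c0000000600000004 0x20000003f0000001f0000000600000004 4 6) 0 0 (step_sound _ 97 [(rh54c49bb299227e8d.shift 0 2), rh8440640876951545, rh969df2b095d58560, rha358927870346b7d] (by decide +kernel))
noncomputable def rhdc5a072f8f2c3deb : CRef := CRef.mk (Pat.mk 0x40000000c0000000e0000000100000000 0x80000000c0000000c0000001e0000000700000006 4 5) 0 0 (step_sound _ 33 [(rh18965a982d73c794.shift 0 1), (rh5e5c8b8743d45333.shift 1 0)] (by decide +kernel))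
noncomputable def rh1a41c2c18ae1ba11 : CRef := CRef.mk (Pat.mk 0x1800000010000000100000000e00000000 0x80000001800000010000000100000003e00000027 4 6) 0 0 (step_sound _ 36 [(rh50fbb5868c909700.shift 3 1), rh6c5b90ba2a83bd67] (by decide +kernel))
noncomputable def rh3c496f0192831080 : CRef := CRef.mk (Pat.mk 0x400000007000000080000000000000000 0x400000004000000040000000f0000001c0000000800000008 4 5) 0 0 (step_sound _ 99 [(rh5d54cb79a67f97ab.shift 2 0), (rhe25b0a99195a5d59.shift 0 2)] (by decide +kernel))
noncomputable def rhc5992db40708bee3 : CRef := CRef.mk (Pat.mk 0x18000000180000000c00000008 0x40000001e000000780000000f00000008 4 7) 0 0 (step_sound _ 33 [(rh53b3c253cb0c65f4.shift 0 1), (rhcf85c92937975d4d.shift 1 0)] (by decide +kernel))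
noncomputable def rhf936b5f78e2e803c : CRef := CRef.mk (Pat.mk 0x100000001e0000001e0000000000000000 0x4000000140000001e0000001e0000000b0000000a 4 5) 0 0 (step_sound _ 35 [rh079470f290abda33, (rh71222050f2c63a3a.shift 3 0)] (by decide +kernel))
noncomputable def rh7e8462b64b0bb05a : CRef := CRef.mk (Pat.mk 0x4000000070000000400000000 0x400000004000000040000000f0000003e0000000a 4 6) 0 0 (step_sound _ 35 [(rh4a0b10776449c3e9.shift 0 1), (rhae2edff970a530ce.shift 0 1), (rhb23658ecdd7ce5df.shift 1 0)] (by decide +kernel))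
noncomputable def rh74331b3d7dd6c890 : CRef := CRef.mk (Pat.mk 0x80000000e000000080000000000000000 0x8000000080000001f000000380000001000000010 4 6) 0 0 (step_sound _ 68 [(rhb739f4f82bb681b4.shift 0 2), (rhfaf4c4db6dcfc089.shift 1 0)] (by decide +kernel))
noncomputable def rha7b5014334a28e4d : CRef := CRef.mk (Pat.mk 0x80000000e0000000800000000 0x800000008000000080000000f0000003c00000010 4 6) 0 0 (step_sound _ 36 [(rh8e6b6ddbdafc0b2b.shift 1 0), (rhb739f4f82bb681b4.shift 0 1)] (by decide +kernel))
noncomputable def rh02ffe0acccce9c02 : CRef := CRef.mk (Pat.mk 0xc0000000f000000020000000000000000 0x4000000040000000c0000000f0000001a0000000a00000002 4 5) 0 0 (step_sound _ 33 [(rh33bed325bf166500.shift 0 1), (rh71222050f2c63a3a.shift 1 0)] (by decide +kernel))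
noncomputable def rh7df21cb76601c80b : CRef := CRef.mk (Pat.mk 0x1e000000080000000000000000 0x10000000380000001f000000080000000800000008 4 6) 0 0 (step_sound _ 132 [(rh33e738c4ed385b9f.shift 1 3), rhe0411bbaea0cc4f1] (by decide +kernel))
noncomputable def rh0d1a065a153564d2 : CRef := CRef.mk (Pat.mk 0x2000000020000000200000003 0x50000000700000003000000020000000300000003 4 3) 0 0 (step_sound _ 129 [rh79877ebd3ef475dd, rha6120682ef1101d2] (by decide +kernel))
noncomputable def rhab39f1dcf7161280 : CRef := CRef.mk (Pat.mk 0x100000002000000020000000300000000 0x10000000700000007000000020000000300000003 4 3) 0 0 (step_sound _ 1 [rh6bad5fa2a8fcbad3, rhffd04209dc8ea796] (by decide +kernel))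
noncomputable def rh24891b93a7c61a05 : CRef := CRef.mk (Pat.mk 0x400000004000000080000001c00000000 0x4000000040000003f0000001f00000003 4 6) 0 0 (step_sound _ 33 [rh255ba24075a31798, (rhec46bd5500c722c9.shift 0 1)] (by decide +kernel))
noncomputable def rh2f803ea89fb5acfa : CRef := CRef.mk (Pat.mk 0x40000000c0000000c000000080000000000000000 0x2000000060000000e0000003c0000000f0000000600000004 4 6) 0 0 (step_sound _ 66 [(rha71afc656c87d410.shift 0 1), (rhdf997f77704b6375.shift 1 0)] (by decide +kernel))
noncomputable def rh2dc541427ea680e9 : CRef := CRef.mk (Pat.mk 0x80000000a0000001c00000008 0x140000001e0000000b0000001e00000008 4 5) 0 0 (step_sound _ 64 [(rh09d4dfe75d4407d6.shift 0 1), rh4a57183b91ec83ec] (by decide +kernel))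
noncomputable def rh15bc14e51f13742b : CRef := CRef.mk (Pat.mk 0x8000000380000000c0000000400000000 0x40000001f0000003c0000000c0000000c00000008 4 6) 0 0 (step_sound _ 130 [(rh3289262d1f59fe3a.shift 2 0), (rh718135c24137816a.shift 1 1), (rhc02b3aee7ab87ee1.shift 0 3), (rhd652c19df8b64ee8.shift 1 0)] (by decide +kernel))
noncomputable def rhf841aa88e49c2a40 : CRef := CRef.mk (Pat.mk 0xc00000004000000070000000400000000 0x20000000e0000003c0000000f0000000400000004 4 6) 0 0 (step_sound _ 129 [(rh50fbb5868c909700.shift 1 1), rhe91807ca17b16c53] (by decide +kernel))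
noncomputable def rh70eccdbd5a5b75ce : CRef := CRef.mk (Pat.mk 0x40000000400000006000000080000000000000000 0x40000000c0000001f000000780000000800000008 4 7) 0 0 (step_sound _ 99 [(rh08edf065357d68e5.shift 2 0), (rh8ee80cc30e93a344.shift 0 2)] (by decide +kernel))
end Crest.Agent.S0047.Helper85.Cert
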