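import Crest.Agent.Lib.S0047.Helper85CertPL3F0
import Crest.Agent.Lib.S0047.Helper85CertPL3F1
import Crest.Agent.Lib.S0047.Helper85CertPL3F2
import Crest.Agent.Lib.S0047.Helper85CertPL3F3
import Crest.Agent.Lib.S0047.Helper85CertPL3F4
import Crest.Agent.Lib.S0047.Helper85CertPL3F5
set_option autoImplicit false
set_option linter.all false
set_option Elab.async false
namespace Crest.Agent.S0047.Helper85.Cert
open Crest.Agent.S0047.Helper85

noncomputable def rh0a387ecca94e9898 : CRef := CRef.mk (Pat.mk 0x1e000000160000000200000000 0x10000000300000001e0000001e0000000b00000008 4 6) 0 0 (step_sound _ 67 [(rh34b1188e635efc8d.shift 1 0), (rheb0810cc63b001d8.shift 0 1)] (by decide +kernel))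
noncomputable def rh73705265df9d9dd7 : CRef := CRef.mk (Pat.mk 0xa0000001c00000000 0x1b0000001f00000038 4 6) 0 0 (step_sound _ 33 [rh01d64f4b25e9d366, (rh3244c3cc8379b070.shift 0 1)] (by decide +kernel))
noncomputable def rh819baec481551563 : CRef := CRef.mk (Pat.mk 0xa0000000e00000000 0x1b0000001f00000038 4 6) 0 0 (step_sound _ 36 [rh01d64f4b25e9d366, (rh3244c3cc8379b070.shift 0 1)] (by decide +kernel))
noncomputable def rh6f96a500e035889c : CRef := CRef.mk (Pat.mk 0x180000001e0000001000000008 0x20000000300000001f0000001e0000001800000008 4 6) 0 0 (step_sound _ 132 [(rh9e3edb185cc347de.shift 3 0), (rhf9bd4bdd448a5193.shift 0 1)] (by decide +kernel))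
noncomputable def rhdf97dfd376744c1c : CRef := CRef.mk (Pat.mk 0x30000000200000002000000020000000000000000 0x70000000700000002000000060000000600000004 4 3) 0 0 (step_sound _ 33 [(rh40255630b8743428.shift 1 0), (rhffd04209dc8ea796.shift 0 1)] (by decide +kernel))
noncomputable def rhc75a54885a6c376b : CRef := CRef.mk (Pat.mk 0x38000000180000000800000008 0x40000003f0000001f0000000800000008 4 6) 0 0 (step_sound _ 98 [(rh50fbb5868c909700.shift 2 0), (rh583cd2949503eb8f.shift 0 2)] (by decide +kernel))
noncomputable def rh18ce4bf591dd40f6 : CRef := CRef.mk (Pat.mk 0x1e0000001a00000000 0x200000002000000030000003e0000001e00000004 4 6) 0 0 (step_sound _ 34 [(rh33e738c4ed385b9f.shift 1 1), rhbdb8dfd08861fbf7] (by decide +kernel))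
noncomputable def rhfb5688c635dbdaed : CRef := CRef.mk (Pat.mk 0x8000000380000000c0000000400000000 0x140000001f0000003c0000000c0000000c00000008 4 6) 0 0 (step_sound _ 130 [(rh3289262d1f59fe3a.shift 2 0), (rh4b44abc110b49737.shift 1 1), (rhdbcea10a0fbe5ba6.shift 0 3)] (by decide +kernel))
noncomputable def rh7502a03125803f39 : CRef := CRef.mk (Pat.mk 0x2000000060000000f00000000 0x20000000200000002000000060000003f00000038 4 6) 0 0 (step_sound _ 129 [rh0cb6a409506b34ea, (rh2145e1d24b96a57e.shift 1 1)] (by decide +kernel))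
noncomputable def rhbe814eb255801294 : CRef := CRef.mk (Pat.mk 0x200000004000000070000000400000000 0x60000000600000004000000070000001e00000008 4 5) 0 0 (step_sound _ 130 [(rh50fbb5868c909700.shift 1 1), rhe9bf3c59c47cc9a2] (by decide +kernel))
noncomputable def rhc146f5848fb52cbb : CRef := CRef.mk (Pat.mk 0x200000003400000010 0x600000003e00000037 4 7) 0 0 (step_sound _ 35 [(rh33e738c4ed385b9f.shift 2 1), rhb2432c16363a7e8d] (by decide +kernel))
noncomputable def rh9b9a56b9e08582e0 : CRef := CRef.mk (Pat.mk 0x1c000000060000000400000000 0x60000000f0000001e000000060000000600000002 4 5) 0 0 (step_sound _ 130 [(rh03dfdf12d5937476.shift 1 0), (rhcf02561c3c7740f4.shift 0 1)] (by decide +kernel))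
noncomputable def rh23b68aa43cb4c0f5 : CRef := CRef.mk (Pat.mk 0x100000001a0000001e0000000000000000 0x4000000340000001e0000001e0000000300000002 4 6) 0 0 (step_sound _ 33 [(rhc76db33f98271321.shift 1 0), (rheb0810cc63b001d8.shift 0 1)] (by decide +kernel))
noncomputable def rhc5625ac2901698c3 : CRef := CRef.mk (Pat.mk 0x4000000180000000800000008 0x40000000f0000007c0000000800000008 4 7) 0 0 (step_sound _ 99 [(rh3c3e23a02e82b2ed.shift 0 2), (rh50fbb5868c909700.shift 2 0)] (by decide +kernel))
noncomputable def rhbf2166881d2656ab : CRef := CRef.mk (Pat.mk 0x20000000d0000000d00000001 0x600000006000000070000000d0000000d00000005 4 4) 0 0 (step_sound _ 129 [rh1006c02ae4212ff0, (rh39986aa7beafc446.shift 1 0)] (by decide +kernel))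
noncomputable def rh225a66d7634c3aad : CRef := CRef.mk (Pat.mk 0x80000000c0000000f000000000000000000000000 0x80000000c0000000f0000001c0000000c0000000c 4 5) 0 0 (step_sound _ 67 [(rhbdf73b26f73f8159.shift 2 0), (rhe25b0a99195a5d59.shift 0 2)] (by decide +kernel))
noncomputable def rhea9dc59267b51ebb : CRef := CRef.mk (Pat.mk 0x600000006000000040000000600000000 0x40000000600000006000000070000003e00000008 4 6) 0 0 (step_sound _ 65 [(rh2f68792b6b779e96.shift 1 1), rh36d4d92ef3dad5f8] (by decide +kernel))
noncomputable def rh294f098e99c89b5a : CRef := CRef.mk (Pat.mk 0xe0000000b0000000a00000000 0x10000000180000000f0000000b0000001e00000004 4 5) 0 0 (step_sound _ 34 [rhe0a9329fca2c5630, (rhf48373e13d2bc128.shift 0 1)] (by decide +kernel))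
noncomputable def rh93acef825b4343d6 : CRef := CRef.mk (Pat.mk 0x2000000030000000600000000 0x1000000030000000300000002000000030000000700000004 4 3) 0 0 (step_sound _ 129 [(rh55afc6a59410cf00.shift 1 0), (rhd2c74283b7b6e6b8.shift 0 1)] (by decide +kernel))
noncomputable def rhabdb7a7c9ea17a45 : CRef := CRef.mk (Pat.mk 0x80000001c000000060000001c0000000000000000 0x80000001c000000360000001e0000001300000002 4 6) 0 0 (step_sound _ 100 [rh43529a11610bbe94, (rh7b1f1fb55310c477.shift 3 1)] (by decide +kernel))
noncomputable def rh6e9b6fa1a9073593 : CRef := CRef.mk (Pat.mk 0x140000001c0000000800000008 0x400000004000000340000001e0000000f00000008 4 6) 0 0 (step_sound _ 65 [(rh33e738c4ed385b9f.shift 1 2), rhb730c31e76aec9be] (by decide +kernel))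
noncomputable def rh71185df907b4126f : CRef := CRef.mk (Pat.mk 0xe00000010 0x380000001f00000038 4 6) 0 0 (step_sound _ 32 [rh96851dee118c1ba3, rhd82640f02a0caa69] (by decide +kernel))
noncomputable def rh3126441d204f6ad4 : CRef := CRef.mk (Pat.mk 0xc0000000e0000000c0000000800000000 0xc0000000e0000003c0000000f00000006 4 6) 0 0 (step_sound _ 34 [(rh71222050f2c63a3a.shift 2 0), rh9cc5d980c4667d10] (by decide +kernel))
noncomputable def rh9c520d880c3489fb : CRef := CRef.mk (Pat.mk 0xe0000000400000004 0x200000002000000070000003e0000007600000004 4 7) 0 0 (step_sound _ 68 [rh1c1037cb5b3fe471, (rh9ab60d74117ac343.shift 1 1), rheddd3d8f7db62149] (by decide +kernel))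
noncomputable def rh8a3cf144bb3f548f : CRef := CRef.mk (Pat.mk 0x100000001e000000100000001800000000 0x100000003e000000170000003c00000020 4 6) 0 0 (step_sound _ 65 [(rh84da51d48c20e4a0.shift 1 0), (rheb0810cc63b001d8.shift 0 2)] (by decide +kernel))
noncomputable def rhc4ebca958f601dab : CRef := CRef.mk (Pat.mk 0x20000000a0000000c00000004 0x2000000020000007a0000001f00000004 4 7) 0 0 (step_sound _ 33 [(rh2145e1d24b96a57e.shift 1 0), (rha11dfd15f08f96e3.shift 0 1)] (by decide +kernel))
noncomputable def rhc545505dec9fe375 : CRef := CRef.mk (Pat.mk 0x4000000000000000c0000000e00000000 0x4000000040000000e0000007e00000003 4 7) 0 0 (step_sound _ 1 [rh0127acd528cd93fb, (rhee230b994cc8b773.shift 1 0)] (by decide +kernel))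
noncomputable def rh7096420deddb0df2 : CRef := CRef.mk (Pat.mk 0x800000000000000180000001c00000000 0x800000008000000180000003f00000007 4 6) 0 0 (step_sound _ 33 [(rh53b3c253cb0c65f4.shift 0 1), rh6f21391ccc0d7551] (by decide +kernel))
noncomputable def rh6a99ac50fb31e17e : CRef := CRef.mk (Pat.mk 0x4000000070000000400000000 0x400000004000000040000000f0000001e0000000a 4 5) 0 0 (step_sound _ 130 [(rh03dfdf12d5937476.shift 1 0), rh548ca695070b4cbb, rhdd2601c875e3d18f] (by decide +kernel))
noncomputable def rh5f515113bda73f65 : CRef := CRef.mk (Pat.mk 0x80000001c000000000000001800000000 0x10000000380000001f000000080000001800000010 4 6) 0 0 (step_sound _ 67 [(rh55afc6a59410cf00.shift 3 0), (rhccf6c53fa88468fc.shift 0 1)] (by decide +kernel))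
noncomputable def rhad6bf31ab005adb5 : CRef := CRef.mk (Pat.mk 0x40000000c000000030000000600000000 0x80000000c0000000c000000070000001e0000000c 4 5) 0 0 (step_sound _ 35 [(rh1b249a9225fcaf51.shift 2 0), (rhf48373e13d2bc128.shift 0 1)] (by decide +kernel))
noncomputable def rhee43fc36b38178b6 : CRef := CRef.mk (Pat.mk 0x100000001a0000000e00000000 0x20000000300000001f0000001e00000030 4 6) 0 0 (step_sound _ 36 [(rh0106fadff783f776.shift 1 0), (rh3244c3cc8379b070.shift 0 1)] (by decide +kernel))
noncomputable def rhf11e058c5e2d6d67 : CRef := CRef.mk (Pat.mk 0x400000003800000020 0x670000003e00000030 4 7) 0 0 (step_sound _ 34 [(rh428265de8cd3cd2d.shift 2 1), rh7d5bf828111ca202] (by decide +kernel))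
noncomputable def rh3c746a4af2e0cb8f : CRef := CRef.mk (Pat.mk 0x80000001c000000160000000000000000 0x80000001f0000003e0000003000000010 4 6) 0 0 (step_sound _ 97 [rh74ffba89182bafb4, (rhe25b0a99195a5d59.shift 1 2)] (by decide +kernel))
noncomputable def rh4a836dc107530aaa : CRef := CRef.mk (Pat.mk 0xc0000000c000000040000000e 0x100000003c0000000f0000003c0000000f 4 6) 0 0 (step_sound _ 35 [rhc0ddb33d3a52722b, rhf9d36e158778ce35] (by decide +kernel))
noncomputable def rhe07751283d9d40cc : CRef := CRef.mk (Pat.mk 0x1800000008000000080000000800000000 0x3c0000001f000000080000000800000008 4 6) 0 0 (step_sound _ 98 [(rh2d5442cbf338480d.shift 2 0), rh43801a951f6aadd4, (rh557b120f072744ca.shift 0 3), rhca98504d3028efbf] (by decide +kernel))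
noncomputable def rh4688bac4c1467f4b : CRef := CRef.mk (Pat.mk 0x20000000300000002000000020000000200000000 0x600000006000000060000000300000003000000020000000200000002 4 3) 0 0 (step_sound _ 194 [(rhbaefcd01e0a8bca3.shift 1 2), rhe99dc3f6f51fb266] (by decide +kernel))
noncomputable def rha5e87fdea5a2a125 : CRef := CRef.mk (Pat.mk 0x800000000000000180000001c00000000 0x800000008000000180000003f00000007 4 6) 0 0 (step_sound _ 2 [rhd12cad0b329057a4, (rhee230b994cc8b773.shift 2 0)] (by decide +kernel))
noncomputable def rha6d73b7eb9587f8c : CRef := CRef.mk (Pat.mk 0x1000000020000000300000003000000000000000000000000 0x5000000070000000700000003000000020000000200000002 4 3) 0 0 (step_sound _ 65 [rha327c50ba1fc214e, (rhffd04209dc8ea796.shift 0 2)] (by decide +kernel))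
noncomputable def rhf967a83980af199c : CRef := CRef.mk (Pat.mk 0x8000000080000007c0000000000000000 0x800000018000000ff0000003000000010 4 8) 0 0 (step_sound _ 100 [rh1357d49ef66cf2d8, (rhf48373e13d2bc128.shift 3 2)] (by decide +kernel))
noncomputable def rh0e94e866737f673f : CRef := CRef.mk (Pat.mk 0xc000000180000000e00000004 0x60000000f0000001a0000000e0000000e 4 5) 0 0 (step_sound _ 97 [(rh453afe8cd9f3b3ee.shift 1 0), (rhb739f4f82bb681b4.shift 0 2)] (by decide +kernel))
noncomputable def rhbfb8a09c6f557a4b : CRef := CRef.mk (Pat.mk 0x8000000080000001c000000000000000000000000 0x8000000380000001f000000380000001000000010 4 6) 0 0 (step_sound _ 97 [(rh0647d666102fa269.shift 0 1), (rhc7b95363f9049b11.shift 1 0), (rhec46bd5500c722c9.shift 0 3)] (by decide +kernel))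
noncomputable def rh32652c4ecca2a6ed : CRef := CRef.mk (Pat.mk 0xc00000008000000080000000800000000 0x100000001f0000007c000000080000000800000008 4 7) 0 0 (step_sound _ 100 [(rh3c3e23a02e82b2ed.shift 0 3), (rha707fb719e87fe6e.shift 3 0), (rhc705a4e0321a1bff.shift 2 0)] (by decide +kernel))
noncomputable def rhd59bef5b2ab250af : CRef := CRef.mk (Pat.mk 0x400000004000000040000000a00000000 0x400000004000000040000003c0000000f00000008 4 6) 0 0 (step_sound _ 34 [(rh55afc6a59410cf00.shift 2 0), (rh90892cdc1810d809.shift 0 1)] (by decide +kernel))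
noncomputable def rh5d91a62aa3dbdfe0 : CRef := CRef.mk (Pat.mk 0x3c000000080000000000000010 0x600000003f000000380000001000000010 4 7) 0 0 (step_sound _ 133 [(rh33e738c4ed385b9f.shift 2 3), rhabeb0d22609d84ee] (by decide +kernel))
noncomputable def rh9f7061d191f3e908 : CRef := CRef.mk (Pat.mk 0x40000000e000000030000000600000000 0xe0000000e0000000b0000001e0000000c 4 5) 0 0 (step_sound _ 35 [(rh7b2b4f038e068647.shift 1 0), (rhf48373e13d2bc128.shift 0 1)] (by decide +kernel))
noncomputable def rhadb9687930fe236f : CRef := CRef.mk (Pat.mk 0x1e0000000200000002 0x3f0000003e00000003 4 6) 0 0 (step_sound _ 36 [rh67fa6ad290e95894, (rhe25b0a99195a5d59.shift 1 1)] (by decide +kernel))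
noncomputable def rh47fa8cba4c7ab085 : CRef := CRef.mk (Pat.mk 0x1c0000000c000000040000000c00000000 0x100000001c0000000c0000003c0000000f00000002 4 6) 0 0 (step_sound _ 33 [(rh359c76cd77660eeb.shift 0 1), (rh932754581e0f4330.shift 1 0)] (by decide +kernel))
noncomputable def rhf4d50fe0d9ba04c1 : CRef := CRef.mk (Pat.mk 0x1c00000006000000020000000600000000 0x1f0000003e000000030000000600000004 4 6) 0 0 (step_sound _ 129 [(rh55afc6a59410cf00.shift 1 0), (rhf6d72ac90bd26cb0.shift 0 2)] (by decide +kernel))
noncomputable def rhfb1a5676d72e8f8d : CRef := CRef.mk (Pat.mk 0x1e00000002000000020000000200000000 0x30000001e00000032000000030000000300000001 4 6) 0 0 (step_sound _ 100 [rhd9048603f1912b39, (rhe25b0a99195a5d59.shift 1 3)] (by decide +kernel))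
noncomputable def rhe4b4a34d3b64d33b : CRef := CRef.mk (Pat.mk 0xe0000000d000000040000000400000000 0x300000001e0000000f0000000c0000000c00000008 4 6) 0 0 (step_sound _ 132 [(rh24ae073cf30720c4.shift 0 3), (rh4522ea7bef838818.shift 1 0)] (by decide +kernel))
noncomputable def rh5ccf524d1d93077b : CRef := CRef.mk (Pat.mk 0x20000000a0000001e0000000200000000 0x4000000070000003e0000001e0000000200000002 4 6) 0 0 (step_sound _ 100 [(rh33e738c4ed385b9f.shift 1 2), rh7895dd8a803e2ebd] (by decide +kernel))
noncomputable def rh105346e14e7534ae : CRef := CRef.mk (Pat.mk 0x10000000180000000e000000000000000800000000 0x300000001f0000003e000000300000001800000018 4 6) 0 0 (step_sound _ 100 [(rh870359598daa9f92.shift 0 3), (rhdc461deccfb05432.shift 1 0)] (by decide +kernel))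
noncomputable def rh69affbbc41170138 : CRef := CRef.mk (Pat.mk 0x1a0000000e00000004 0x1f000000fe0000000c 4 8) 0 0 (step_sound _ 36 [(rh3244c3cc8379b070.shift 0 1), (rh94c9224e94c6bb3e.shift 1 0)] (by decide +kernel))
noncomputable def rh423aef1cad2b112c : CRef := CRef.mk (Pat.mk 0x1c0000001e000000080000000800000000 0x30000001f0000001e0000000c0000000c00000004 4 5) 0 0 (step_sound _ 129 [(rh3244c3cc8379b070.shift 0 3), rhf53ee62ce7c07a09] (by decide +kernel))
noncomputable def rh38e82cac5574a43f : CRef := CRef.mk (Pat.mk 0x80000000a0000001c0000000000000000 0x80000001b0000001f0000003000000010 4 6) 0 0 (step_sound _ 65 [rh2001cb69a0930ca5, (rh3244c3cc8379b070.shift 0 2)] (by decide +kernel))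
noncomputable def rhbdd5cff8f2847d5e : CRef := CRef.mk (Pat.mk 0x80000001c0000000400000004 0x20000003f0000003f0000000400000004 4 6) 0 0 (step_sound _ 97 [(rh6279f4d0e372f7fa.shift 1 0), (rhd0ed6ce702d0de55.shift 0 2)] (by decide +kernel))
noncomputable def rh2ead9b9cc22afc12 : CRef := CRef.mk (Pat.mk 0x8000000080000001c000000000000000000000000 0x8000000380000003f000000f00000001000000010 4 8) 0 0 (step_sound _ 68 [(rh08edf065357d68e5.shift 3 0), (rh3ce854f4a795c89f.shift 0 2), (rh8ee80cc30e93a344.shift 1 2)] (by decide +kernel))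
noncomputable def rh5f9fbd1310f99a5a : CRef := CRef.mk (Pat.mk 0x1e0000000200000002 0x3f0000003e00000003 4 6) 0 0 (step_sound _ 34 [(rh18965a982d73c794.shift 1 1), rhf6d72ac90bd26cb0] (by decide +kernel))
noncomputable def rh0c04b97cec8b3249 : CRef := CRef.mk (Pat.mk 0x1e0000000400000004 0x200000002000000070000001e0000003400000004 4 6) 0 0 (step_sound _ 36 [rh1c1037cb5b3fe471, (rhe25b0a99195a5d59.shift 1 1)] (by decide +kernel))
noncomputable def rh723c389335bb8481 : CRef := CRef.mk (Pat.mk 0xc0000000f0000000100000000 0x4000000040000000c0000001f0000001b00000008 4 5) 0 0 (step_sound _ 33 [(rh18965a982d73c794.shift 0 1), rh98c388e5d73ac446] (by decide +kernel))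
noncomputable def rhb183b7ca4f065e7c : CRef := CRef.mk (Pat.mk 0x40000000c0000001c00000004 0x2000000070000003f0000001c00000004 4 6) 0 0 (step_sound _ 65 [rhaef2adbbd453a55b, (rhb739f4f82bb681b4.shift 0 1)] (by decide +kernel))
noncomputable def rh3b0c808886cd470b : CRef := CRef.mk (Pat.mk 0x20000000e0000000400000004 0xa0000003e0000000f0000000400000004 4 6) 0 0 (step_sound _ 98 [(rh50fbb5868c909700.shift 1 0), rhb974196174068d7d] (by decide +kernel))
noncomputable def rhb6a81d2cc7882251 : CRef := CRef.mk (Pat.mk 0xe00000002 0x70000003e00000007 4 6) 0 0 (step_sound _ 36 [rheb0810cc63b001d8, rhfb89c5de8c2d962e] (by decide +kernel))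
noncomputable def rha4c7650dd909b849 : CRef := CRef.mk (Pat.mk 0x100000000e000000040000000000000000 0x800000008000000180000000f0000000c0000000400000004 4 5) 0 0 (step_sound _ 131 [(rh53b3c253cb0c65f4.shift 0 3), (rhadf429772c25fde0.shift 2 0)] (by decide +kernel))
noncomputable def rha0fd105268ab6567 : CRef := CRef.mk (Pat.mk 0x200000002000000070000000600000000 0x40000000600000006000000070000001e0000000a 4 5) 0 0 (step_sound _ 130 [(rh2f68792b6b779e96.shift 1 1), rhaba5910545a4922e] (by decide +kernel))
noncomputable def rh445b3ce381be5c68 : CRef := CRef.mk (Pat.mk 0x4000000080000001c0000000c00000000 0x40000000f0000001c0000000f0000000a 4 5) 0 0 (step_sound _ 98 [rh49d5320e5bad1ee8, (rh7b1f1fb55310c477.shift 2 0)] (by decide +kernel))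
noncomputable def rh9f10f9c198f00e65 : CRef := CRef.mk (Pat.mk 0x40000001c0000000c0000000c00000000 0x40000001c0000003f0000000f00000002 4 6) 0 0 (step_sound _ 65 [(rh53b3c253cb0c65f4.shift 0 2), rha71afc656c87d410] (by decide +kernel))
noncomputable def rh79abee73a6b91c48 : CRef := CRef.mk (Pat.mk 0x100000001e00000020 0x1000000010000000100000003e00000067 4 7) 0 0 (step_sound _ 37 [rh1ec3e379623601ef, (rhe25b0a99195a5d59.shift 2 0)] (by decide +kernel))
noncomputable def rh8d6a04af6e2674c4 : CRef := CRef.mk (Pat.mk 0x8000000080000000c0000001e00000000 0x40000000c0000000c0000000c0000007e00000003 4 7) 0 0 (step_sound _ 37 [rh52db8f9374849729, (rhf48373e13d2bc128.shift 2 1)] (by decide +kernel))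
noncomputable def rhcafedc0c9cbeea78 : CRef := CRef.mk (Pat.mk 0x200000003c00000010 0x2000000020000000300000003e00000017 4 6) 0 0 (step_sound _ 101 [rh21d582c147e7e118, (rh5c5e593799055d58.shift 4 0)] (by decide +kernel))
noncomputable def rhc22314605365e1ce : CRef := CRef.mk (Pat.mk 0xe00000002 0x70000003e00000007 4 6) 0 0 (step_sound _ 36 [rh4c6d407c2048a5bb, rheb0810cc63b001d8] (by decide +kernel))
noncomputable def rh9702936eb3f7b944 : CRef := CRef.mk (Pat.mk 0xe0000000400000004 0x200000002000000070000003e0000000700000004 4 6) 0 0 (step_sound _ 97 [(rh9f93e2b24091a43d.shift 0 1), (rhc89253ff58c66167.shift 1 0)] (by decide +kernel))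
noncomputable def rhcec3c4536dfb55af : CRef := CRef.mk (Pat.mk 0x2000000070000000a0000000200000000 0x20000000f0000001a0000000f00000005 4 5) 0 0 (step_sound _ 68 [rhd630af2e39ca770f, (rhd6e447e81774439e.shift 0 2)] (by decide +kernel))
noncomputable def rh810a36d9e833e45d : CRef := CRef.mk (Pat.mk 0xf000000070000000000000000 0x4000000040000000f0000001f0000001800000008 4 5) 0 0 (step_sound _ 67 [rhea719cc8bd0bdd28, (rhf48373e13d2bc128.shift 0 2)] (by decide +kernel))
noncomputable def rh0eba255d854412ca : CRef := CRef.mk (Pat.mk 0x1a0000000e0000000000000000 0x8000000080000001b0000001e0000003000000010 4 6) 0 0 (step_sound _ 68 [(rh3244c3cc8379b070.shift 0 2), (rhea719cc8bd0bdd28.shift 1 0)] (by decide +kernel))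
noncomputable def rh418134fc08953c2d : CRef := CRef.mk (Pat.mk 0x1000000010000000180000000e00000000 0x2000000030000000300000001f0000003e00000030 4 6) 0 0 (step_sound _ 36 [(rh2aa7c1d375387a4e.shift 1 0), (rh36586e595fdbb742.shift 1 0), (rh870359598daa9f92.shift 0 1)] (by decide +kernel))
noncomputable def rhdfc9ab5f307912cb : CRef := CRef.mk (Pat.mk 0x40000000700000004000000000000000000000000 0x4000000040000000f0000001e0000000c0000000800000008 4 5) 0 0 (step_sound _ 99 [(rh70e33bfdf511e144.shift 2 0), (rhae2edff970a530ce.shift 0 3)] (by decide +kernel))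
noncomputable def rhe6002ac52d5b88c9 : CRef := CRef.mk (Pat.mk 0x6000000060000000500000000 0x60000000600000006000000060000000700000003 4 3) 0 0 (step_sound _ 129 [(rh2145e1d24b96a57e.shift 1 1), rh5e5c8b8743d45333] (by decide +kernel))
noncomputable def rh91029ba5a9b1a8c8 : CRef := CRef.mk (Pat.mk 0x8000000040000001c0000000e00000000 0x80000000c0000001f0000003e00000014 4 6) 0 0 (step_sound _ 99 [(rh71222050f2c63a3a.shift 2 0), rhcf0f1f5b2b1be263] (by decide +kernel))
noncomputable def rhfd668a9e26de0323 : CRef := CRef.mk (Pat.mk 0x1c00000018000000080000001c 0x30000001f0000001c0000000f0000003c 4 6) 0 0 (step_sound _ 97 [rhab80a928374fb6c1, (rhb739f4f82bb681b4.shift 0 2)] (by decide +kernel))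
noncomputable def rhd976812034deadf3 : CRef := CRef.mk (Pat.mk 0x80000000c000000070000000400000000 0x40000000c0000000c0000000f0000003e00000008 4 6) 0 0 (step_sound _ 35 [(rh4a0b10776449c3e9.shift 0 1), rh8e6b6ddbdafc0b2b, (rhf7bcf9b870af2a5c.shift 1 0)] (by decide +kernel))
noncomputable def rh64191fc31e6b1e16 : CRef := CRef.mk (Pat.mk 0x4000000070000000400000000 0x400000004000000040000000f0000001e0000000a 4 5) 0 0 (step_sound _ 130 [(rh03dfdf12d5937476.shift 1 0), rhb379f99078aafa2d, rhdd2601c875e3d18f] (by decide +kernel))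
noncomputable def rh8ec6931db7a49940 : CRef := CRef.mk (Pat.mk 0x100000001e000000080000001000000000 0x100000001e0000003f0000003000000020 4 6) 0 0 (step_sound _ 68 [rhc1307820daa2ac22, (rhe25b0a99195a5d59.shift 1 2)] (by decide +kernel))
noncomputable def rh927dfe6ab8056394 : CRef := CRef.mk (Pat.mk 0x1c000000180000000c00000004 0x30000001f0000001c0000000f00000004 4 5) 0 0 (step_sound _ 32 [(rh24ae073cf30720c4.shift 0 1), rh59b8ab533772ff61] (by decide +kernel))
noncomputable def rhefb8b0e6b32d1121 : CRef := CRef.mk (Pat.mk 0x80000001c000000060000000400000000 0x20000000b0000001e0000003e0000003c00000010 4 6) 0 0 (step_sound _ 68 [(rh6a7d78a202a43da8.shift 1 0), (rhfe3b4040a5e9fe0b.shift 0 1)] (by decide +kernel))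
noncomputable def rh5646077d50880e6b : CRef := CRef.mk (Pat.mk 0x2000000020000000b0000000300000000 0x100000003000000020000001b0000001f00000004 4 5) 0 0 (step_sound _ 128 [rh509847d0837ffcc5, (rh50fbb5868c909700.shift 0 1)] (by decide +kernel))
noncomputable def rhc16ec7475162ebde : CRef := CRef.mk (Pat.mk 0x1c0000000600000002 0x1f0000003f00000003 4 6) 0 0 (step_sound _ 35 [rh40a75c5438d80330, (rh53b3c253cb0c65f4.shift 0 1)] (by decide +kernel))
noncomputable def rhdddc1ccd74b1c0a6 : CRef := CRef.mk (Pat.mk 0x40000000e0000000b0000000000000000 0x40000000f0000003f0000001800000008 4 6) 0 0 (step_sound _ 68 [(rhb739f4f82bb681b4.shift 0 2), rhf952e96457af74e0] (by decide +kernel))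
noncomputable def rh0085d2d6753c7fd3 : CRef := CRef.mk (Pat.mk 0x8000000080000000e0000000400000004 0x20000000a0000003b0000001e0000003600000014 4 6) 0 0 (step_sound _ 68 [(rh625dde73e665edc8.shift 1 0), rh768a472a1ebe455c] (by decide +kernel))
noncomputable def rha2aecc39c997c99c : CRef := CRef.mk (Pat.mk 0x20000000200000001000000000000000000000000 0x200000002000000030000000300000003000000030000000100000001 4 2) 0 0 (step_sound _ 64 [rh53c798c09177b7db, (rh751f91025c6ba4fe.shift 0 2), (rhd918c3fd221dc9f8.shift 0 1), rhe83f0679b86b6627] (by decide +kernel))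
noncomputable def rh6d718a88c83f7ffb : CRef := CRef.mk (Pat.mk 0x180000001c000000080000000800000000 0x8000000180000001f000000380000001800000010 4 6) 0 0 (step_sound _ 36 [(rh55afc6a59410cf00.shift 3 0), (rhfd212767fcb07886.shift 0 1)] (by decide +kernel))
noncomputable def rhf36fa81e239f1586 : CRef := CRef.mk (Pat.mk 0x3c00000018 0x670000003f00000018 4 7) 0 0 (step_sound _ 69 [(rh33e738c4ed385b9f.shift 2 1), rhba89ab7cb81bcc90] (by decide +kernel))
noncomputable def rhf09ca949b7d6bd7a : CRef := CRef.mk (Pat.mk 0x8000000180000000e0000000400000000 0x80000001b0000003e0000003700000010 4 6) 0 0 (step_sound _ 68 [(rh361078a933aacf43.shift 0 1), (rh78974448101547fe.shift 1 0)] (by decide +kernel))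
noncomputable def rhe6fcf08f32c9a99d : CRef := CRef.mk (Pat.mk 0x80000000d0000000c0000000000000000 0x140000001c0000000f0000000c0000000800000008 4 5) 0 0 (step_sound _ 132 [(rh24ae073cf30720c4.shift 0 3), (rh9bd2bb1b625e8a7e.shift 2 0)] (by decide +kernel))
noncomputable def rh2f5f69c8c7ba334f : CRef := CRef.mk (Pat.mk 0x10000000180000001e00000000 0x300000001f0000003e00000003 4 6) 0 0 (step_sound _ 65 [(rh3244c3cc8379b070.shift 0 1), rh421b483549df8895] (by decide +kernel))
noncomputable def rh8d229caf536b709f : CRef := CRef.mk (Pat.mk 0x8000000080000000f0000000600000000 0x40000000c0000000c0000000f0000001e0000000a 4 5) 0 0 (step_sound _ 35 [(rh18b49738f4e5d343.shift 1 0), (rhf48373e13d2bc128.shift 0 1)] (by decide +kernel))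
noncomputable def rhfce3931ff5b5956e : CRef := CRef.mk (Pat.mk 0x40000000e000000050000000400000000 0x40000001e0000000f0000003c00000008 4 6) 0 0 (step_sound _ 65 [(rh18965a982d73c794.shift 0 2), rhd9397e4126e81439] (by decide +kernel))
noncomputable def rhf12acb2a3ab3840e : CRef := CRef.mk (Pat.mk 0xd0000000f0000000500000000 0xa0000001a0000000f0000000f0000000500000001 4 5) 0 0 (step_sound _ 131 [(rh5c5e593799055d58.shift 2 1), rhc76db33f98271321] (by decide +kernel))
noncomputable def rh553a9ac9fc9e778e : CRef := CRef.mk (Pat.mk 0x14000000300000001c00000008 0x4000000360000003f0000001c00000008 4 6) 0 0 (step_sound _ 66 [(rh2145e1d24b96a57e.shift 2 0), (rh38146ff2d053a047.shift 0 1)] (by decide +kernel))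
noncomputable def rh31eb3cae7b44eddb : CRef := CRef.mk (Pat.mk 0x100000001e0000001400000000 0x8000000080000001b0000001f0000001400000010 4 5) 0 0 (step_sound _ 97 [(rh3244c3cc8379b070.shift 0 2), rh3441484a69e677ec] (by decide +kernel))
noncomputable def rhdefe63c7d2f9baf4 : CRef := CRef.mk (Pat.mk 0x4000000380000001000000010 0x8000000080000000f0000003c0000001800000010 4 6) 0 0 (step_sound _ 97 [(rh09d4dfe75d4407d6.shift 1 2), rh4103e9b282220a03] (by decide +kernel))
noncomputable def rh2b7823df3149c00f : CRef := CRef.mk (Pat.mk 0x80000000c0000000600000004 0x20000000f0000003e0000000600000004 4 6) 0 0 (step_sound _ 68 [(rh18965a982d73c794.shift 1 1), rhf8d7935e174329d6] (by decide +kernel))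
noncomputable def rh317b2faed0dc7f3b : CRef := CRef.mk (Pat.mk 0x4000000140000001800000008 0x400000004000000340000001f00000038 4 6) 0 0 (step_sound _ 34 [(rh2145e1d24b96a57e.shift 2 0), rh5dec5e73a267a1c4] (by decide +kernel))
noncomputable def rhbe041a1165b69e26 : CRef := CRef.mk (Pat.mk 0x60000001e0000000200000004 0x1000000030000003e0000001e0000000600000004 4 6) 0 0 (step_sound _ 129 [(rh9e07f76261b05888.shift 1 0), (rhae8938145796a1d1.shift 0 1)] (by decide +kernel))
noncomputable def rh2cd553aa768cc9c0 : CRef := CRef.mk (Pat.mk 0x40000000f00000002 0x60000003f0000003e 4 6) 0 0 (step_sound _ 4 [rh96851dee118c1ba3, (rha0d5b431f6af84da.shift 1 0)] (by decide +kernel))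
noncomputable def rhd263e77fba7cfc5a : CRef := CRef.mk (Pat.mk 0x10000000380000000800000008 0x400000004000000370000003e0000000f00000008 4 6) 0 0 (step_sound _ 66 [(rh4c063b89d42a2070.shift 0 1), (rh768a472a1ebe455c.shift 1 0), (rhedf6b6c69a16cbd5.shift 0 2)] (by decide +kernel))
noncomputable def rhe13d654486ddf91d : CRef := CRef.mk (Pat.mk 0x10000000180000001c0000001800000000 0x800000018000000180000003c0000001f00000004 4 6) 0 0 (step_sound _ 131 [(rh50fbb5868c909700.shift 3 1), rhd65e52c5f80caa3b] (by decide +kernel))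
noncomputable def rh7c6366ac92b8e4f2 : CRef := CRef.mk (Pat.mk 0x10000000380000000800000008 0x4000000370000003e0000007e00000008 4 7) 0 0 (step_sound _ 66 [(rh01d64f4b25e9d366.shift 1 1), (rhe4f9133a81c1dbc5.shift 1 0), (rhedf6b6c69a16cbd5.shift 0 2)] (by decide +kernel))
noncomputable def rhc9ba0c6c9ad48bac : CRef := CRef.mk (Pat.mk 0xa000000180000000e0000000400000000 0x20000000a0000001b0000001e0000003400000010 4 6) 0 0 (step_sound _ 97 [(rh2145e1d24b96a57e.shift 1 1), rhb9784ff7a7632a57] (by decide +kernel))
noncomputable def rh2fba133a7dfa2331 : CRef := CRef.mk (Pat.mk 0x1c00000002000000020000000600000000 0x390000001f00000002000000020000000600000004 4 6) 0 0 (step_sound _ 129 [(rh50b5135431ad0103.shift 0 1), (rh55afc6a59410cf00.shift 1 0)] (by decide +kernel))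
noncomputable def rh37c4b47abb030c8e : CRef := CRef.mk (Pat.mk 0x1c00000016000000020000000200000000 0x30000001e00000036000000060000000600000004 4 6) 0 0 (step_sound _ 129 [rh5fa41af95dbdc841, (rhe25b0a99195a5d59.shift 1 3)] (by decide +kernel))
noncomputable def rh2daff436fbd6cc69 : CRef := CRef.mk (Pat.mk 0x1c0000000c0000000c0000000c00000000 0x1c0000000f0000003c0000000f00000002 4 6) 0 0 (step_sound _ 97 [(rh53b3c253cb0c65f4.shift 0 3), rha71afc656c87d410] (by decide +kernel))
noncomputable def rh0472ea5f0562a0d2 : CRef := CRef.mk (Pat.mk 0xc000000080000001c0000000000000000 0x40000000c0000000f0000003c0000000800000008 4 6) 0 0 (step_sound _ 35 [(rh50fbb5868c909700.shift 2 1), rhb6024e57ddebfb90] (by decide +kernel))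
noncomputable def rh5ca7e9153c2320ee : CRef := CRef.mk (Pat.mk 0x80000000c0000000b0000000000000000 0x40000000c0000000c0000000f0000001c0000001c 4 5) 0 0 (step_sound _ 35 [rh0736ab60c98e96dc, (rhe286c75f2739cce2.shift 2 0)] (by decide +kernel))
noncomputable def rh5e0b99043b8dda1b : CRef := CRef.mk (Pat.mk 0x180000001e0000001000000000 0x8000000080000001f0000003e0000001000000010 4 6) 0 0 (step_sound _ 97 [(rh3244c3cc8379b070.shift 0 2), (rh913acaeca42c0c45.shift 1 0)] (by decide +kernel))
noncomputable def rhc6740ea15e0d7784 : CRef := CRef.mk (Pat.mk 0x40000000f0000000b0000000200000000 0x1c0000000f0000000b0000001e0000000c 4 5) 0 0 (step_sound _ 131 [(rh33e738c4ed385b9f.shift 0 3), rhf4567e835eb18e9f] (by decide +kernel))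
noncomputable def rhc6f8b44da755dc85 : CRef := CRef.mk (Pat.mk 0x200000007800000018 0x300000007f000000f8 4 8) 0 0 (step_sound _ 6 [rh9f69be223b2a1216, (rhe25b0a99195a5d59.shift 3 0)] (by decide +kernel))
noncomputable def rh0b3ded462f6cc1c6 : CRef := CRef.mk (Pat.mk 0x4000000060000000a0000000800000000 0x70000003e0000000b0000000800000008 4 6) 0 0 (step_sound _ 99 [(rh7b1f1fb55310c477.shift 2 0), (rha83d0a1d851c6a27.shift 0 2)] (by decide +kernel))
noncomputable def rhbc3a283c92990595 : CRef := CRef.mk (Pat.mk 0x40000000e00000002 0x760000003e00000003 4 7) 0 0 (step_sound _ 36 [(rhb0716bb49afa8156.shift 1 1), rheb0810cc63b001d8] (by decide +kernel))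
noncomputable def rhea6e6080790f38b5 : CRef := CRef.mk (Pat.mk 0x18000000180000000c 0x380000003f0000000f 4 6) 0 0 (step_sound _ 1 [rh0e9420b553661f44, rh53b3c253cb0c65f4] (by decide +kernel))
noncomputable def rh9dd4739bdb597b40 : CRef := CRef.mk (Pat.mk 0xc0000001800000018 0xf0000007c0000001e 4 7) 0 0 (step_sound _ 37 [rh72d2577808375efe, (rhf48373e13d2bc128.shift 2 1)] (by decide +kernel))
noncomputable def rh75bcc01263973aae : CRef := CRef.mk (Pat.mk 0x300000002000000020000000000000000 0x50000000700000007000000020000000200000002 4 3) 0 0 (step_sound _ 33 [(rh50fbb5868c909700.shift 0 1), rhd22616887d452319] (by decide +kernel))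
noncomputable def rhfae8098f6a2d3a7b : CRef := CRef.mk (Pat.mk 0xc000000080000000c0000000c00000000 0xc0000000c0000000f0000003c00000018 4 6) 0 0 (step_sound _ 98 [(rh7b1f1fb55310c477.shift 2 0), rhfe557af9112f51d6] (by decide +kernel))
noncomputable def rh220f6e6f17aa03f7 : CRef := CRef.mk (Pat.mk 0x180000001e0000000400000000 0x800000008000000180000001e0000003700000010 4 6) 0 0 (step_sound _ 33 [(rh98c388e5d73ac446.shift 1 0), (rheb0810cc63b001d8.shift 0 1)] (by decide +kernel))
noncomputable def rh8d773fe922f3e745 : CRef := CRef.mk (Pat.mk 0x3c00000014 0x70000007f0000001c 4 7) 0 0 (step_sound _ 65 [(rh3f8766e6ecb455ce.shift 1 1), rh81526988ffbdaaa1] (by decide +kernel))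
noncomputable def rhbf26e346ec901b25 : CRef := CRef.mk (Pat.mk 0x4000000040000001e0000000200000000 0x4000000040000003f0000003e00000008 4 6) 0 0 (step_sound _ 34 [(rh18965a982d73c794.shift 1 1), rhf132e5a2953a07c1] (by decide +kernel))
noncomputable def rha0d3126b889206a8 : CRef := CRef.mk (Pat.mk 0x40000000e00000002 0x60000003e00000073 4 7) 0 0 (step_sound _ 36 [(rh75c6fff53e4cbd6e.shift 1 0), rheb0810cc63b001d8] (by decide +kernel))
noncomputable def rh83df0b786ba1cdf5 : CRef := CRef.mk (Pat.mk 0x40000000e000000030000000200000000 0x2000000060000000e0000000f0000001f0000000d 4 5) 0 0 (step_sound _ 34 [rh36bdd71eb75150ba, rhb23658ecdd7ce5df] (by decide +kernel))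
noncomputable def rh59a94a69f989c1ea : CRef := CRef.mk (Pat.mk 0x600000004000000040000000400000000 0xf0000003e000000040000000400000004 4 6) 0 0 (step_sound _ 99 [rh2655ba5189834a5b, (rh75ea294132184f25.shift 0 3), (rhc705a4e0321a1bff.shift 1 0), rhef13ff948dc32adf] (by decide +kernel))
noncomputable def rh43c56be7aad47ea0 : CRef := CRef.mk (Pat.mk 0x4000000040000000c0000000400000000 0x400000004000000040000003c0000000f00000002 4 6) 0 0 (step_sound _ 33 [(rh43012ea34c1b670f.shift 0 1), (rh932754581e0f4330.shift 1 0)] (by decide +kernel))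
noncomputable def rh6b86d8f5e6e0aec7 : CRef := CRef.mk (Pat.mk 0x4000000040000000e000000000000000000000000 0x40000000c0000000f0000007c0000000800000008 4 7) 0 0 (step_sound _ 67 [(rh08edf065357d68e5.shift 2 0), (rhc21a95c499b3efdb.shift 0 2)] (by decide +kernel))
noncomputable def rhe7700dbdb36cca6f : CRef := CRef.mk (Pat.mk 0x40000001c000000060000000200000000 0xa0000000f0000001e000000060000000600000004 4 5) 0 0 (step_sound _ 34 [rh0f9cf023e5c434f4, (rha707fb719e87fe6e.shift 2 0), (rhcf02561c3c7740f4.shift 0 1)] (by decide +kernel))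
noncomputable def rhc7c98f9e0817dfe9 : CRef := CRef.mk (Pat.mk 0x20000000f000000020000000400000000 0x1a0000000f0000001a0000000e00000004 4 5) 0 0 (step_sound _ 2 [rh9c9de8a82d5e4ca8, (rhbe0e43a3bc50a43f.shift 1 0)] (by decide +kernel))
noncomputable def rh23ff9f0490ec755c : CRef := CRef.mk (Pat.mk 0x8000000380000000c0000000000000000 0x140000001f0000003c0000000c0000000800000008 4 6) 0 0 (step_sound _ 130 [(rh668fc65514a55b16.shift 2 0), (rhc02b3aee7ab87ee1.shift 0 3), (rhd652c19df8b64ee8.shift 1 0)] (by decide +kernel))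
noncomputable def rh71de106cb11f29ee : CRef := CRef.mk (Pat.mk 0x1a0000000e000000020000000000000000 0xb0000000b0000001e0000000e000000060000000400000004 4 5) 0 0 (step_sound _ 66 [(rh3ebc98c19791ad58.shift 1 0), (rh9dc6f17ef8893ffe.shift 0 2), (rhf9366b6a121593ef.shift 2 0)] (by decide +kernel))
noncomputable def rh2e64fec86d666c9c : CRef := CRef.mk (Pat.mk 0x180000001e000000100000001800000000 0x10000000180000001e0000001f0000003800000020 4 6) 0 0 (step_sound _ 67 [(rh2f68792b6b779e96.shift 3 1), rhc1307820daa2ac22] (by decide +kernel))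
noncomputable def rh0b240212b88cca0b : CRef := CRef.mk (Pat.mk 0x160000001c000000080000000800000000 0x30000001f0000001c0000000c0000000c00000004 4 5) 0 0 (step_sound _ 131 [(rhb739f4f82bb681b4.shift 0 3), rhf53ee62ce7c07a09] (by decide +kernel))
noncomputable def rh33919328d9341ad1 : CRef := CRef.mk (Pat.mk 0x3c00000020 0x600000003e00000037 4 7) 0 0 (step_sound _ 70 [rh0de499e0455c9c14, (rh428265de8cd3cd2d.shift 2 1)] (by decide +kernel))
noncomputable def rh4aab53836e1644fe : CRef := CRef.mk (Pat.mk 0x200000003800000010 0x670000003e00000030 4 7) 0 0 (step_sound _ 34 [(rh33e738c4ed385b9f.shift 2 1), rh4f8edb321cf5b49d] (by decide +kernel))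
noncomputable def rh8126bb006a255e6a : CRef := CRef.mk (Pat.mk 0x8000000080000000e0000000400000004 0x20000000a0000003b0000003e0000007600000014 4 7) 0 0 (step_sound _ 68 [(rh625dde73e665edc8.shift 1 0), rh768a472a1ebe455c, (rh9ab60d74117ac343.shift 1 1)] (by decide +kernel))
noncomputable def rh8f1d933ea365614f : CRef := CRef.mk (Pat.mk 0x60000000e000000020000000700000000 0x2000000060000000e0000001b0000001f00000008 4 5) 0 0 (step_sound _ 64 [(rh5c5e593799055d58.shift 0 1), rhd9fec72a21b00309] (by decide +kernel))
noncomputable def rhfa182594f433339e : CRef := CRef.mk (Pat.mk 0x1000000010000000180000001e00000000 0x800000018000000100000001f0000003e00000020 4 6) 0 0 (step_sound _ 131 [rh411b7fbe199774b0, (rh50fbb5868c909700.shift 3 1)] (by decide +kernel))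
noncomputable def rh7c2decbc89fe34b7 : CRef := CRef.mk (Pat.mk 0xd00000006000000020000000200000000 0xb0000000f00000006000000060000000600000004 4 4) 0 0 (step_sound _ 129 [(rh50fbb5868c909700.shift 0 1), (rh8af9a32e61457eb0.shift 1 0)] (by decide +kernel))
noncomputable def rh4b0462319641b330 : CRef := CRef.mk (Pat.mk 0xc000000180000000c0000000400000000 0x60000000f0000001c0000000c0000000c00000008 4 5) 0 0 (step_sound _ 35 [(rh50fbb5868c909700.shift 2 1), rhb3b70aab91499ec2] (by decide +kernel))
noncomputable def rhdb6b2f9b1dd8a053 : CRef := CRef.mk (Pat.mk 0x80000001c000000060000000400000000 0x2000000060000000f0000001c000000060000000600000002 4 5) 0 0 (step_sound _ 130 [(rh03dfdf12d5937476.shift 1 0), (rh277b01412deaec89.shift 0 1), (rhd2c74283b7b6e6b8.shift 1 1)] (by decide +kernel))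
noncomputable def rha7723ac9834dd99b : CRef := CRef.mk (Pat.mk 0x1000000010000000380000000c0000000000000000 0x10000000370000003e0000007c0000002000000020 4 7) 0 0 (step_sound _ 98 [(rh503775339733bab1.shift 0 3), (rhbeb5eed1bc42fe9e.shift 1 1), (rhc7b95363f9049b11.shift 2 0)] (by decide +kernel))
noncomputable def rh292e10fae0e5298d : CRef := CRef.mk (Pat.mk 0x8000000380000000800000000 0x400000004000000040000001f0000003c0000000800000008 4 6) 0 0 (step_sound _ 98 [(rh718135c24137816a.shift 1 0), (rhc02b3aee7ab87ee1.shift 0 2), (rhf9a6286f1d5377a2.shift 2 0)] (by decide +kernel))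
noncomputable def rh1e83e3922265d3f7 : CRef := CRef.mk (Pat.mk 0x1e00000000 0x70000003e00000070 4 7) 0 0 (step_sound _ 5 [(rh96851dee118c1ba3.shift 1 0), rhe9e45df45a37d678] (by decide +kernel))
noncomputable def rhfff07ea40944f173 : CRef := CRef.mk (Pat.mk 0x1c00000006000000020000000200000000 0x30000001f0000003e000000030000000300000001 4 6) 0 0 (step_sound _ 129 [(rha25c0e62bb8d55c9.shift 0 1), rhd9048603f1912b39, (rhf6d72ac90bd26cb0.shift 0 2)] (by decide +kernel))
noncomputable def rh6b1b5b4d23f13f44 : CRef := CRef.mk (Pat.mk 0xc0000001c0000000400000000 0x200000002000000020000000f0000001e0000000400000004 4 5) 0 0 (step_sound _ 97 [(rhb739f4f82bb681b4.shift 0 2), (rhf9a6286f1d5377a2.shift 1 0)] (by decide +kernel))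
noncomputable def rhb6f84d95cf78a63d : CRef := CRef.mk (Pat.mk 0x400000004000000040000000700000000 0x60000000600000006000000060000000700000005 4 3) 0 0 (step_sound _ 129 [(rh50fbb5868c909700.shift 1 1), rhd306e615440e8ff8] (by decide +kernel))
noncomputable def rhca8a26e74c728b7a : CRef := CRef.mk (Pat.mk 0xc000000180000000c0000000c00000000 0xc000000780000000f0000003c00000010 4 7) 0 0 (step_sound _ 101 [rh4892b0043cb46d74, (rhf48373e13d2bc128.shift 2 3)] (by decide +kernel))
noncomputable def rha664b3df98ca982b : CRef := CRef.mk (Pat.mk 0x20000000600000006000000020000000000000000 0x20000000600000006000000070000000700000003 4 3) 0 0 (step_sound _ 66 [rh46530d756bdf8511, (rh7b1f1fb55310c477.shift 1 1)] (by decide +kernel))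
noncomputable def rh7f64bc8b189f1ccd : CRef := CRef.mk (Pat.mk 0x40000000c0000001c0000000c 0x180000003c0000000f0000001c0000000c 4 6) 0 0 (step_sound _ 99 [(rh2f68792b6b779e96.shift 2 0), rhd88e1e5c6d7f696b] (by decide +kernel))
noncomputable def rhc12517b0db36af6d : CRef := CRef.mk (Pat.mk 0x200000002000000020000000200000000 0x5000000070000000300000002000000030000000300000001 4 3) 0 0 (step_sound _ 161 [rh36a72c34a910197c, (rh3ca48e2a6d60153d.shift 0 1)] (by decide +kernel))
noncomputable def rh80e996897988855e : CRef := CRef.mk (Pat.mk 0x180000000c000000080000000000000000 0x40000003c0000000f000000080000000800000008 4 6) 0 0 (step_sound _ 97 [(rh0ac9408018436e12.shift 1 0), (rh53b3c253cb0c65f4.shift 0 3)] (by decide +kernel))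
noncomputable def rhf4e1306272e16d44 : CRef := CRef.mk (Pat.mk 0x10000001f000000020000000000000000 0x10000003f000000760000000200000002 4 7) 0 0 (step_sound _ 33 [(rh4274f4328cb9f3fd.shift 1 2), rh7b1f1fb55310c477] (by decide +kernel))
noncomputable def rh5c27d44caf70376c : CRef := CRef.mk (Pat.mk 0x8000000180000000e0000000c00000000 0x40000000f000000180000000e0000003c00000010 4 6) 0 0 (step_sound _ 130 [(rh50fbb5868c909700.shift 2 1), rhfee32aaa14acbf4f] (by decide +kernel))
noncomputable def rhff930fec52d89715 : CRef := CRef.mk (Pat.mk 0x8000000080000001c00000000 0x800000008000000080000000f0000003c00000010 4 6) 0 0 (step_sound _ 131 [(rh25903f9c548d38bc.shift 0 1), (rh55afc6a59410cf00.shift 3 0)] (by decide +kernel))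
noncomputable def rhf141635268a5d7b5 : CRef := CRef.mk (Pat.mk 0x2000000030000000f0000000800000000 0xc0000001e0000001b0000000f0000000c00000004 4 5) 0 0 (step_sound _ 99 [(rh33e738c4ed385b9f.shift 0 2), rhc67097bb8db3eb74] (by decide +kernel))
noncomputable def rhc1a0206f9d000baa : CRef := CRef.mk (Pat.mk 0x100000001e000000100000001800000000 0x10000000100000001e0000001f0000003800000020 4 6) 0 0 (step_sound _ 67 [(rh5c5e593799055d58.shift 3 1), rhc1307820daa2ac22] (by decide +kernel))
noncomputable def rh5bf09c06b0158781 : CRef := CRef.mk (Pat.mk 0x400000004000000070000000400000000 0x600000006000000040000000f0000001c00000008 4 5) 0 0 (step_sound _ 35 [(rh55afc6a59410cf00.shift 2 0), (rhda84d278103e5133.shift 0 1)] (by decide +kernel))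
noncomputable def rhb5b4b2b7dda50c30 : CRef := CRef.mk (Pat.mk 0x80000000c000000180000000000000000 0x8000000080000001f000000380000001000000010 4 6) 0 0 (step_sound _ 36 [rh1efcccf2bf04ea47, (rh2145e1d24b96a57e.shift 3 1)] (by decide +kernel))
noncomputable def rhe8f31657c9a71e12 : CRef := CRef.mk (Pat.mk 0x400000004000000060000000400000000 0x400000004000000040000000f0000003c00000008 4 6) 0 0 (step_sound _ 35 [(rh3bf8fcae348fccb1.shift 0 1), (rh55afc6a59410cf00.shift 2 0)] (by decide +kernel))
noncomputable def rh4a49eac61a2aa10e : CRef := CRef.mk (Pat.mk 0x800000030000000100000001000000000 0xf0000007c000000100000001000000010 4 7) 0 0 (step_sound _ 99 [(rh7b1f1fb55310c477.shift 3 0), (rha9fbfd4bb8cf890b.shift 0 3)] (by decide +kernel))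
noncomputable def rhc0b4ebd5b6ac40cf : CRef := CRef.mk (Pat.mk 0x1c00000008000000180000000800000000 0x1c0000000f0000007c0000000800000008 4 7) 0 0 (step_sound _ 98 [(rh5ac338b5fcda750b.shift 0 2), (rh7b1f1fb55310c477.shift 2 0)] (by decide +kernel))
noncomputable def rhabb943ba8a4f1022 : CRef := CRef.mk (Pat.mk 0x300000003000000030000000000000000 0x6000000060000000700000003000000030000000200000002 4 3) 0 0 (step_sound _ 161 [(rh5c5e593799055d58.shift 0 2), rha327c50ba1fc214e] (by decide +kernel))
noncomputable def rhb139b36739a98272 : CRef := CRef.mk (Pat.mk 0x1800000008000000080000001c00000000 0x800000018000000180000000f0000003c00000008 4 6) 0 0 (step_sound _ 100 [(rh71222050f2c63a3a.shift 3 0), (rhb4aa4f704a185866.shift 0 1)] (by decide +kernel))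
noncomputable def rh66de9923c178d0d5 : CRef := CRef.mk (Pat.mk 0x4000000080000001e00000008 0x40000000e0000000b0000001e0000000b 4 5) 0 0 (step_sound _ 130 [rhc93f3ad81bc3b393, (rhcfdf45280693d3da.shift 2 0)] (by decide +kernel))
noncomputable def rh62609ceaf4d9359b : CRef := CRef.mk (Pat.mk 0xa0000001e00000004 0x2000000030000003e0000003e00000004 4 6) 0 0 (step_sound _ 68 [(rh33e738c4ed385b9f.shift 1 1), rh3f1f65112e81949f] (by decide +kernel))
noncomputable def rh55f51947f22e17d6 : CRef := CRef.mk (Pat.mk 0x1e0000001c0000000800000000 0x4000000040000001e0000001f0000000b00000002 4 5) 0 0 (step_sound _ 65 [rh079470f290abda33, (rh53b3c253cb0c65f4.shift 0 2)] (by decide +kernel))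
noncomputable def rhff55d690c1ed3860 : CRef := CRef.mk (Pat.mk 0x40000001c00000008 0x4000000040000000f0000003e00000008 4 6) 0 0 (step_sound _ 98 [(rh2145e1d24b96a57e.shift 2 0), (rha7edc60fc34bffff.shift 0 1)] (by decide +kernel))
noncomputable def rhd138ef2a7d4df157 : CRef := CRef.mk (Pat.mk 0xc0000000e0000000b0000000000000000 0xc0000000e0000000b0000001e0000000e 4 5) 0 0 (step_sound _ 35 [rh16fda1850c1e196c, (rh7b1f1fb55310c477.shift 2 0)] (by decide +kernel))
noncomputable def rh084d378641b3f9c7 : CRef := CRef.mk (Pat.mk 0x200000016000000040000000000000000 0x200000002000000070000001e000000040000000400000004 4 5) 0 0 (step_sound _ 99 [(rh3244c3cc8379b070.shift 0 3), (rha40d42a2e34c408d.shift 1 0)] (by decide +kernel))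
noncomputable def rhb482cf5bfff22d0f : CRef := CRef.mk (Pat.mk 0x2000000160000000c0000000000000000 0x2000000030000001e0000000f0000000400000004 4 5) 0 0 (step_sound _ 99 [(rh3244c3cc8379b070.shift 0 3), rh8f497d494005db75] (by decide +kernel))
noncomputable def rhb23e8ac67015d80c : CRef := CRef.mk (Pat.mk 0x90000000f0000000b0000000000000000 0x1000000050000000d0000000f0000000f0000001800000018 4 5) 0 0 (step_sound _ 160 [(rh2145e1d24b96a57e.shift 0 2), rhb1cd999401f2b265] (by decide +kernel))
noncomputable def rh9b6503b37f951afa : CRef := CRef.mk (Pat.mk 0x6000000020000001e00000002 0x10000000f0000003a0000001f00000002 4 6) 0 0 (step_sound _ 68 [(rh33e738c4ed385b9f.shift 1 1), rhc9015a175eb8cf4a] (by decide +kernel))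
noncomputable def rh16aa8deac015341b : CRef := CRef.mk (Pat.mk 0x20000000200000003000000020000000000000000 0x4000000070000000700000003000000020000000200000002 4 3) 0 0 (step_sound _ 162 [(rh2f68792b6b779e96.shift 1 2), rh754b8d2daded6d3e] (by decide +kernel))
noncomputable def rhacca379639ec5237 : CRef := CRef.mk (Pat.mk 0x2000000020000000200000003 0x50000000700000006000000020000000300000003 4 3) 0 0 (step_sound _ 129 [rh6ae4a25ccd36a5ab, rh79877ebd3ef475dd] (by decide +kernel))
noncomputable def rh993d711fc86fb35f : CRef := CRef.mk (Pat.mk 0x1c00000008000000000000003c00000000 0x1f00000038000000100000003c00000060 4 7) 0 0 (step_sound _ 5 [rhdbf0efde89c3a23a, (rhe25b0a99195a5d59.shift 2 0)] (by decide +kernel))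
noncomputable def rh06a3da6726b4bba0 : CRef := CRef.mk (Pat.mk 0x200000006000000030000000000000000 0x60000000600000006000000030000000300000003 4 3) 0 0 (step_sound _ 32 [rh2e95f0771a0e88ed, (rh5c5e593799055d58.shift 0 1)] (by decide +kernel))
noncomputable def rh94b60c179d6f0f3c : CRef := CRef.mk (Pat.mk 0x80000000c000000080000000800000000 0x10000000380000001f000000080000000800000008 4 6) 0 0 (step_sound _ 132 [(rh2f68792b6b779e96.shift 3 1), rh43801a951f6aadd4] (by decide +kernel))
noncomputable def rh5a150305d3a21385 : CRef := CRef.mk (Pat.mk 0x80000000c0000001800000000 0x800000008000000080000001f0000003800000010 4 6) 0 0 (step_sound _ 131 [(rh55afc6a59410cf00.shift 3 0), (rhdfd956e60f584dd5.shift 0 1)] (by decide +kernel))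
noncomputable def rh30cc5a29cc962312 : CRef := CRef.mk (Pat.mk 0x80000001c0000000600000004 0x20000001b0000001f0000003e00000004 4 6) 0 0 (step_sound _ 65 [rh309fd0c3d364cd61, (rh45fd599145622b5c.shift 0 1)] (by decide +kernel))
noncomputable def rhe7b14e968bf6cadf : CRef := CRef.mk (Pat.mk 0x80000001c0000001000000000 0x800000008000000080000001f0000003800000010 4 6) 0 0 (step_sound _ 65 [rh9829995db81e3f2a, (rhe25b0a99195a5d59.shift 1 1)] (by decide +kernel))
noncomputable def rh5892ac17d75b8332 : CRef := CRef.mk (Pat.mk 0x50000000500000006000000000000000000000000 0x5000000050000000500000007000000030000000200000002 4 3) 0 0 (step_sound _ 65 [(rh5c5e593799055d58.shift 1 2), rhf3c74b811ede23f9] (by decide +kernel))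
noncomputable def rh0ee21a4b5210b950 : CRef := CRef.mk (Pat.mk 0x4000000160000001800000000 0x400000004000000360000003e00000003 4 6) 0 0 (step_sound _ 34 [rh681d9f8e79458a8b, (rhf48373e13d2bc128.shift 1 1)] (by decide +kernel))
noncomputable def rhec861ec1780c1825 : CRef := CRef.mk (Pat.mk 0x40000001e0000000000000000 0x400000004000000040000003e0000000700000002 4 6) 0 0 (step_sound _ 33 [(rh3c7a7cc8605c9967.shift 1 0), (rheb0810cc63b001d8.shift 0 1)] (by decide +kernel))
noncomputable def rhabcfbb5502de12b0 : CRef := CRef.mk (Pat.mk 0x20000001c000000040000000000000000 0x200000002000000070000001e000000040000000400000004 4 5) 0 0 (step_sound _ 97 [(rh3244c3cc8379b070.shift 0 3), (rha40d42a2e34c408d.shift 1 0)] (by decide +kernel))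
noncomputable def rhda789f95f34c7cae : CRef := CRef.mk (Pat.mk 0x10000000e000000020000000000000000 0x5000000070000001e000000020000000200000002 4 5) 0 0 (step_sound _ 129 [rh668fc65514a55b16, (rhf48373e13d2bc128.shift 0 3)] (by decide +kernel))
noncomputable def rh764be65e1f4d8dd5 : CRef := CRef.mk (Pat.mk 0x8000000380000000e000000000000000000000000 0x40000001f000000380000000e0000003c0000001c00000010 4 6) 0 0 (step_sound _ 67 [(rh301a6b3a9154ed36.shift 3 0), (rh79905f95cb2d899a.shift 0 2), (rhb379f99078aafa2d.shift 1 1)] (by decide +kernel))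
noncomputable def rhc8ae4b86ed9fbf6c : CRef := CRef.mk (Pat.mk 0x1c000000020000000200000002 0x3d0000001f000000020000000200000002 4 6) 0 0 (step_sound _ 97 [rh11ae469c2f55ec35, (rh2f68792b6b779e96.shift 1 0)] (by decide +kernel))
noncomputable def rhefe9757a59950e11 : CRef := CRef.mk (Pat.mk 0x80000000700000006 0x180000003f0000003e 4 6) 0 0 (step_sound _ 35 [(rh33e738c4ed385b9f.shift 0 1), rhf5e124ec5c58a2dd] (by decide +kernel))
noncomputable def rhc25edeb5f5a66af9 : CRef := CRef.mk (Pat.mk 0x800000007000000060000000000000000 0x8000000180000000f0000001e0000000400000004 4 5) 0 0 (step_sound _ 99 [rh336a176debec021b, (rh33e738c4ed385b9f.shift 0 3)] (by decide +kernel))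
noncomputable def rh58d6dde16d9abde5 : CRef := CRef.mk (Pat.mk 0x20000000e0000000200000000 0x200000002000000020000003e0000000700000004 4 6) 0 0 (step_sound _ 68 [(rh6224572d868f7c64.shift 1 0), (rheb0810cc63b001d8.shift 0 1)] (by decide +kernel))
noncomputable def rhfdb02788af4b697e : CRef := CRef.mk (Pat.mk 0xc000000040000000c0000001c00000000 0x20000000f0000003c0000000c0000001c00000010 4 6) 0 0 (step_sound _ 99 [(rh55afc6a59410cf00.shift 3 0), (rhcf85c92937975d4d.shift 0 1)] (by decide +kernel))
noncomputable def rhc19f71adb3231860 : CRef := CRef.mk (Pat.mk 0x200000002000000060000000e00000000 0x2000000020000003e0000003f00000001 4 6) 0 0 (step_sound _ 36 [rh736ad3523bdf45b7, (rhf48373e13d2bc128.shift 1 1)] (by decide +kernel))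
noncomputable def rh6e78fdc1dfd0abb9 : CRef := CRef.mk (Pat.mk 0x40000000c0000000c0000000800000000 0x8000000180000003c0000000f0000001c0000001800000010 4 6) 0 0 (step_sound _ 131 [(rh6655c67851f4b756.shift 2 0), (rhc0ddb33d3a52722b.shift 0 1)] (by decide +kernel))
noncomputable def rhae97d925dc15854a : CRef := CRef.mk (Pat.mk 0x8000000080000001e0000000000000000 0x8000000380000001e0000003300000010 4 6) 0 0 (step_sound _ 100 [(rh33e738c4ed385b9f.shift 1 2), rh534a6900ac2ddaa9] (by decide +kernel))
noncomputable def rhf218fb04bedc3957 : CRef := CRef.mk (Pat.mk 0x1e0000001a0000000800000000 0x4000000070000001e0000001a0000000f00000003 4 5) 0 0 (step_sound _ 129 [(rh3244c3cc8379b070.shift 0 3), rhf3af114f881c39be] (by decide +kernel))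
noncomputable def rhd56080ffed28c033 : CRef := CRef.mk (Pat.mk 0x4000000060000000c000000040000000400000000 0x4000000060000000f0000003c0000000c00000004 4 6) 0 0 (step_sound _ 97 [(rh7b1f1fb55310c477.shift 1 0), (rhc1ae51bfba5f1e57.shift 0 1)] (by decide +kernel))
noncomputable def rhccd319e91889d23e : CRef := CRef.mk (Pat.mk 0x4000000040000000c0000000c00000000 0x200000006000000040000003c0000000f00000002 4 6) 0 0 (step_sound _ 129 [(rh50fbb5868c909700.shift 1 1), rha71afc656c87d410] (by decide +kernel))
noncomputable def rh7d7040c5e5990909 : CRef := CRef.mk (Pat.mk 0x4000000040000000c0000000800000000 0x4000000040000003c0000000f0000000a 4 6) 0 0 (step_sound _ 34 [(rh55afc6a59410cf00.shift 2 0), rha71afc656c87d410] (by decide +kernel))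
noncomputable def rh28eb2fee3aa90ff3 : CRef := CRef.mk (Pat.mk 0x3c00000008 0xff000001f8 4 9) 0 0 (step_sound _ 38 [rh3696295804471b76, (rh4ad5fc38f1b69f65.shift 2 0), (rhf3baec4a0a3dd35e.shift 3 0)] (by decide +kernel))
noncomputable def rhdd1f17e324a6ef8c : CRef := CRef.mk (Pat.mk 0x40000000e00000002 0x60000003e00000073 4 7) 0 0 (step_sound _ 36 [(rh695f888db18ad7c7.shift 1 0), rheb0810cc63b001d8] (by decide +kernel))
noncomputable def rh353da909fc1b63b4 : CRef := CRef.mk (Pat.mk 0x80000000c000000080000001800000008 0x8000000180000001f000000380000001800000008 4 6) 0 0 (step_sound _ 68 [(rh2145e1d24b96a57e.shift 3 1), rh3832095e2d2fd3cf] (by decide +kernel))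
noncomputable def rh9828a2373d969d0b : CRef := CRef.mk (Pat.mk 0x10000000500000006000000040000000000000000 0x70000000700000006000000060000000600000006 4 3) 0 0 (step_sound _ 33 [(rh0db119afefb5ebc7.shift 1 0), rh57813b09eb663457, (rh752c9303f297f9fa.shift 1 0), (rhea243aff88ed5ec2.shift 0 1)] (by decide +kernel))
noncomputable def rh36ceafb844cecd6d : CRef := CRef.mk (Pat.mk 0x40000000c0000000700000004 0x600000006000000060000001e0000000700000004 4 5) 0 0 (step_sound _ 65 [(rh18965a982d73c794.shift 0 1), (rh7f9f3607ee25a93b.shift 1 0)] (by decide +kernel))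
noncomputable def rh2ad3f2836af21081 : CRef := CRef.mk (Pat.mk 0x40000000c0000000700000004 0xc0000000c0000000c0000001e0000000700000004 4 5) 0 0 (step_sound _ 131 [(rhbaefcd01e0a8bca3.shift 2 0), (rhd998905db148cf1e.shift 0 1)] (by decide +kernel))
noncomputable def rhfbaad5cc0c1e2a29 : CRef := CRef.mk (Pat.mk 0x200000002000000020000001e00000000 0x400000006000000020000003a0000001f00000001 4 6) 0 0 (step_sound _ 130 [(rh2f68792b6b779e96.shift 1 1), rh736ad3523bdf45b7] (by decide +kernel))
noncomputable def rh2bb0164e8e86d673 : CRef := CRef.mk (Pat.mk 0x80000000e00000038000000000000000000000000 0x100000003c0000000e000000380000001f0000000c00000004 4 6) 0 0 (step_sound _ 67 [(rh5192e84255fe3228.shift 2 0), (rh6aee38689d0f25aa.shift 1 1), (rh852e818bc8629e77.shift 0 1)] (by decide +kernel))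
noncomputable def rh7659edba4a5eb835 : CRef := CRef.mk (Pat.mk 0x80000000c000000180000000800000000 0x100000003c0000000f000000180000000800000008 4 6) 0 0 (step_sound _ 97 [(rh6aee38689d0f25aa.shift 1 0), (rhb739f4f82bb681b4.shift 0 2)] (by decide +kernel))
noncomputable def rh692def4f9c2bdc93 : CRef := CRef.mk (Pat.mk 0x80000000e000000180000000c 0x100000007c0000000e000000180000000f 4 7) 0 0 (step_sound _ 1 [(rh1eeec04e73117746.shift 1 0), rh53b3c253cb0c65f4] (by decide +kernel))
noncomputable def rh5f6d8ca6f72335b8 : CRef := CRef.mk (Pat.mk 0x2000000160000001e0000000000000000 0x80000000b0000001e0000001e0000003000000010 4 6) 0 0 (step_sound _ 36 [rh54bf37434b1fb994, (rhe25b0a99195a5d59.shift 1 1)] (by decide +kernel))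
noncomputable def rhdd108f60249a3821 : CRef := CRef.mk (Pat.mk 0x1a0000000600000002 0x400000007000000070000001e0000000600000006 4 5) 0 0 (step_sound _ 97 [(rh14f80659e6313cc6.shift 1 0), rh5e05da03898e7023] (by decide +kernel))
noncomputable def rh35d892e3560cef81 : CRef := CRef.mk (Pat.mk 0x4000000040000001c0000000400000000 0x2000000060000000f0000001e0000000400000004 4 5) 0 0 (step_sound _ 129 [rh4e79b9248f75fcb8, (rh50fbb5868c909700.shift 1 1)] (by decide +kernel))
noncomputable def rheaf4189574da5b8b : CRef := CRef.mk (Pat.mk 0x8000000080000001a0000000a00000000 0x40000000c0000000f0000001a0000000a0000000a 4 5) 0 0 (step_sound _ 130 [(rh50fbb5868c909700.shift 2 1), rhbd00caa2a4de09ab] (by decide +kernel))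
noncomputable def rhc5dda5c85486a818 : CRef := CRef.mk (Pat.mk 0x300000003000000020000000200000000 0x2000000020000000300000003000000070000000700000004 4 3) 0 0 (step_sound _ 34 [(rh55afc6a59410cf00.shift 1 0), (rh5f60e3ebd62ff9e3.shift 0 1)] (by decide +kernel))
noncomputable def rh840f47f01888fa07 : CRef := CRef.mk (Pat.mk 0x800000000000000180000003800000000 0x8000000080000003e0000003f00000006 4 6) 0 0 (step_sound _ 66 [rh1fd20a13d8f3d911, (rhb739f4f82bb681b4.shift 1 1)] (by decide +kernel))
noncomputable def rh25e108b6c345e320 : CRef := CRef.mk (Pat.mk 0x800000000000000180000003800000000 0x80000000800000038000000ff00000006 4 8) 0 0 (step_sound _ 38 [rh6e71b3129cd4e324, (rhf48373e13d2bc128.shift 3 1)] (by decide +kernel))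
noncomputable def rhecbf6c06895e3682 : CRef := CRef.mk (Pat.mk 0xf0000000500000004 0x200000002000000030000001f0000000700000005 4 5) 0 0 (step_sound _ 97 [rh182634e5928c9dfa, (rh7b030ba967bf927e.shift 0 1), rh8eb2d15efc505b0f] (by decide +kernel))
noncomputable def rh843f8c6634d773f8 : CRef := CRef.mk (Pat.mk 0x20000000700000001800000010 0x80000006c0000007f000000f800000010 4 8) 0 0 (step_sound _ 67 [(rh0df0e7db506e769f.shift 0 1), (rhda8597839a626b29.shift 2 0)] (by decide +kernel))
noncomputable def rhe5ccb1b031a2a14a : CRef := CRef.mk (Pat.mk 0x100000003800000018 0x3e000000ff00000018 4 8) 0 0 (step_sound _ 38 [(rh18965a982d73c794.shift 3 0), rh4f1f07ff00e8574c] (by decide +kernel))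
noncomputable def rh9ac6ff8cd5c17ac4 : CRef := CRef.mk (Pat.mk 0x3c00000018 0x70000003f0000001e 4 6) 0 0 (step_sound _ 2 [(rh53b3c253cb0c65f4.shift 1 0), rhba89ab7cb81bcc90] (by decide +kernel))
noncomputable def rhc5dec05a47d9bdb5 : CRef := CRef.mk (Pat.mk 0x4000000040000000e0000000800000008 0x14000000370000001e0000003b0000000a 4 6) 0 0 (step_sound _ 68 [rhae036cc4ef671676, (rhbbda3e5cf400e6dd.shift 1 0)] (by decide +kernel))
noncomputable def rh2b8fd85eb96d9f56 : CRef := CRef.mk (Pat.mk 0x1e0000000800000018 0x3e0000000f0000007c 4 7) 0 0 (step_sound _ 33 [(rh0e0662c5f5c5a19b.shift 1 0), (rheb0810cc63b001d8.shift 0 1)] (by decide +kernel))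
noncomputable def rha0c4bf22e9ef19c1 : CRef := CRef.mk (Pat.mk 0x3c0000001000000030 0x70000007f0000001c000000f8 4 8) 0 0 (step_sound _ 35 [(rh06ee40d59ea962e1.shift 2 0), (rhba89ab7cb81bcc90.shift 0 1)] (by decide +kernel))
noncomputable def rh243d5250d4e47e79 : CRef := CRef.mk (Pat.mk 0x4000000060000000400000008 0x4000000040000000f0000003e00000008 4 6) 0 0 (step_sound _ 35 [(rh2145e1d24b96a57e.shift 2 0), (rh75ea294132184f25.shift 0 1)] (by decide +kernel))
noncomputable def rhc94427ed938b95ee : CRef := CRef.mk (Pat.mk 0x3c00000020000000200000002000000000 0x70000003e00000030000000200000006000000040 4 7) 0 0 (step_sound _ 38 [(rh55afc6a59410cf00.shift 5 0), (rhd1d05263fabc0227.shift 0 3)] (by decide +kernel))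
noncomputable def rhcdeb3bcefc910133 : CRef := CRef.mk (Pat.mk 0x1e0000000e00000000 0x200000002000000030000001e0000003e00000004 4 6) 0 0 (step_sound _ 36 [rhbdb8dfd08861fbf7, (rhf48373e13d2bc128.shift 1 1)] (by decide +kernel))
noncomputable def rhea719f25f550e5b4 : CRef := CRef.mk (Pat.mk 0x1e00000008 0x3f0000003f 4 6) 0 0 (step_sound _ 1 [rh46bc59bc16b05d87, rheb0810cc63b001d8] (by decide +kernel))
noncomputable def rh136869139557eafd : CRef := CRef.mk (Pat.mk 0x180000001e00000008 0x1f000000fe0000000c 4 8) 0 0 (step_sound _ 65 [(rh3244c3cc8379b070.shift 0 1), (rh69f172fbd54a919d.shift 1 0)] (by decide +kernel))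
noncomputable def rh6d7c3230128b1d54 : CRef := CRef.mk (Pat.mk 0x10000000e00000004 0x730000003e00000006 4 7) 0 0 (step_sound _ 36 [(rh3f8766e6ecb455ce.shift 0 1), (rh84d84ec8e59a0da5.shift 1 0)] (by decide +kernel))
noncomputable def rhd376175ba3678d98 : CRef := CRef.mk (Pat.mk 0x10000000f0000000c00000018 0x200000002000000030000001f0000000f00000019 4 5) 0 0 (step_sound _ 97 [rhd5885eb4c2e9262e, (rhf48373e13d2bc128.shift 0 2)] (by decide +kernel))
noncomputable def rh445bdd16318da6af : CRef := CRef.mk (Pat.mk 0x80000001800000018000000000000000000000000 0x140000001f0000003c00000018000000080000000800000008 4 6) 0 0 (step_sound _ 162 [(rh6abf65651ac164b5.shift 2 0), (rhb0121edee88fe839.shift 0 4), (rhe443475c6fff10d6.shift 2 1)] (by decide +kernel))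
noncomputable def rh52675df350b830ee : CRef := CRef.mk (Pat.mk 0x380000001800000070 0x70000007f000000f800000078 4 8) 0 0 (step_sound _ 66 [(rh145891081ee57085.shift 2 0), (rhba89ab7cb81bcc90.shift 0 1)] (by decide +kernel))
noncomputable def rhc2fda292a3a41b50 : CRef := CRef.mk (Pat.mk 0x380000001000000010 0x8000000080000001f000000780000001800000010 4 7) 0 0 (step_sound _ 99 [(rhdcd0819fd0ab1ef0.shift 1 0), (rhe072fffdd2fccf38.shift 3 0), (rhf60aa8aede119d3b.shift 0 2)] (by decide +kernel))
noncomputable def rhcce03b542d61f53a : CRef := CRef.mk (Pat.mk 0x2000000060000001e00000000 0x200000002000000020000003e0000001f00000001 4 6) 0 0 (step_sound _ 68 [(rh33e738c4ed385b9f.shift 1 1), rh5d8dab3bc5afe3f3] (by decide +kernel))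
noncomputable def rh00fcb61af2b439ac : CRef := CRef.mk (Pat.mk 0xc00000007000000040000000000000000 0x40000001c0000000f0000001c0000000800000008 4 5) 0 0 (step_sound _ 99 [rh25c13d8045594b98, (rh33e738c4ed385b9f.shift 0 3)] (by decide +kernel))
noncomputable def rh8768cac6096e8b6e : CRef := CRef.mk (Pat.mk 0x1000000018000000180000000c 0x80000000c0000001f000000380000001c0000000c 4 6) 0 0 (step_sound _ 99 [(rh749b30baa5602f69.shift 2 0), rhc647a25a08ddf0ec] (by decide +kernel))
noncomputable def rha06798a7fea02eea : CRef := CRef.mk (Pat.mk 0x8000000180000000c0000000800000000 0x8000000180000000f0000007c00000010 4 7) 0 0 (step_sound _ 36 [(rh55afc6a59410cf00.shift 3 0), (rh5ac338b5fcda750b.shift 0 1)] (by decide +kernel))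
noncomputable def rhfba210e833d4f5e8 : CRef := CRef.mk (Pat.mk 0x8000000180000000c0000000800000000 0x8000000180000001f0000003c00000010 4 6) 0 0 (step_sound _ 36 [(rh55afc6a59410cf00.shift 3 0), (rhca7b1c75b4cec277.shift 0 1)] (by decide +kernel))
noncomputable def rhbb078f97b92eba7a : CRef := CRef.mk (Pat.mk 0x40000001c0000000c0000000400000000 0x40000001c0000003f0000000700000002 4 6) 0 0 (step_sound _ 65 [(rh53b3c253cb0c65f4.shift 0 2), rhea6d74bc2b985bd7] (by decide +kernel))
noncomputable def rh5f592a90586627e7 : CRef := CRef.mk (Pat.mk 0x40000000e000000090000000000000000 0x400000004000000060000001e0000000b0000000200000002 4 5) 0 0 (step_sound _ 65 [(rh18965a982d73c794.shift 0 2), (rh6e672cddce798f8b.shift 1 0)] (by decide +kernel))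
noncomputable def rh223d9e07be031c44 : CRef := CRef.mk (Pat.mk 0x1c0000000c0000000000000004 0x30000001f0000003f0000000400000004 4 6) 0 0 (step_sound _ 65 [(rh53b3c253cb0c65f4.shift 0 2), rh8cee52282372117e] (by decide +kernel))
noncomputable def rh49a326d07cb2d195 : CRef := CRef.mk (Pat.mk 0x1c0000000c0000000000000004 0x30000007f0000003c0000000400000004 4 7) 0 0 (step_sound _ 101 [(rh18965a982d73c794.shift 2 2), rh32a4ece3e03161fd] (by decide +kernel))
noncomputable def rh604fdf17deeaff03 : CRef := CRef.mk (Pat.mk 0xa0000001e0000000200000000 0x3000000030000003e0000001e0000000600000004 4 6) 0 0 (step_sound _ 100 [(rh33e738c4ed385b9f.shift 1 2), rhaaf1dc7285a08c48] (by decide +kernel))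
noncomputable def rh99668cd0800fef58 : CRef := CRef.mk (Pat.mk 0x10000000180000001e00000010 0x28000000380000001f0000001e00000010 4 6) 0 0 (step_sound _ 99 [(rh50fbb5868c909700.shift 3 0), rhf9bd4bdd448a5193] (by decide +kernel))
noncomputable def rh68dc67b7b00714c1 : CRef := CRef.mk (Pat.mk 0xc0000001e000000180000000000000000 0xc0000001e0000001b0000000f0000000e 4 5) 0 0 (step_sound _ 35 [rh64b4b204cc48c2cf, (rh7b1f1fb55310c477.shift 2 0)] (by decide +kernel))
noncomputable def rh97effc89ba81087f : CRef := CRef.mk (Pat.mk 0x400000002000000030000000e00000000 0x40000001e0000000f0000000e0000000a 4 5) 0 0 (step_sound _ 98 [(rh71222050f2c63a3a.shift 1 0), rhd565e683a55d60e1] (by decide +kernel))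
noncomputable def rh92331ada1c24c73c : CRef := CRef.mk (Pat.mk 0x40000000e0000000800000008 0x10000000370000003e0000003b00000008 4 6) 0 0 (step_sound _ 68 [(rh48546bfd3f98c2d7.shift 0 1), (rhbbda3e5cf400e6dd.shift 1 0)] (by decide +kernel))
noncomputable def rh8748b363fef5a948 : CRef := CRef.mk (Pat.mk 0x40000001e0000000a0000000000000000 0x40000003e0000003e0000000300000002 4 6) 0 0 (step_sound _ 66 [(rh18965a982d73c794.shift 1 2), rhf32f861d69cb038f] (by decide +kernel))
noncomputable def rh7f6d3539d97be392 : CRef := CRef.mk (Pat.mk 0x40000000000000002000000020000000200000000 0x4000000060000000600000002000000030000000300000001 4 3) 0 0 (step_sound _ 129 [rh43ae144440a96f18, (rhbaefcd01e0a8bca3.shift 1 1)] (by decide +kernel))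
noncomputable def rh48e21794b03732dd : CRef := CRef.mk (Pat.mk 0xe00000002000000000000000100000000 0x2000000020000001e00000003000000030000000100000001 4 5) 0 0 (step_sound _ 96 [(rh18965a982d73c794.shift 0 3), rh580df77fe152422b] (by decide +kernel))
noncomputable def rh9393867a9802ea6f : CRef := CRef.mk (Pat.mk 0x1e00000018 0x70000007e0000001e 4 7) 0 0 (step_sound _ 65 [(rh3244c3cc8379b070.shift 0 1), (rh4f1a14e85f897cc4.shift 1 0)] (by decide +kernel))
noncomputable def rh78181bcdc505f883 : CRef := CRef.mk (Pat.mk 0x8000000380000000800000000 0x800000008000000080000003c0000001f00000004 4 6) 0 0 (step_sound _ 34 [(rh1ed7a3503fa50fc8.shift 0 1), (rhcd32f2ed6c1181e7.shift 2 0), (rheea1a90336e79c71.shift 0 1)] (by decide +kernel))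
noncomputable def rh4b7c21c12855a0fc : CRef := CRef.mk (Pat.mk 0x80000000700000002 0x180000001f0000003b 4 6) 0 0 (step_sound _ 35 [(rh33e738c4ed385b9f.shift 0 1), rh9ab60d74117ac343] (by decide +kernel))
noncomputable def rhe4d937a80d476d3f : CRef := CRef.mk (Pat.mk 0x4000000140000001c0000000000000000 0x4000000370000001e0000000300000002 4 6) 0 0 (step_sound _ 65 [(rh33e738c4ed385b9f.shift 1 2), rh772d63fac3283b59] (by decide +kernel))
noncomputable def rhae14cf4db31ea47b : CRef := CRef.mk (Pat.mk 0x1c0000001e00000000 0x1000000010000000300000001f0000001e00000008 4 6) 0 0 (step_sound _ 65 [(rh3244c3cc8379b070.shift 0 1), (rh5ba2d67652840f34.shift 1 0)] (by decide +kernel))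
noncomputable def rh2862eb75e5bdafe3 : CRef := CRef.mk (Pat.mk 0x4000000140000001e0000000000000000 0x40000001f0000001f0000000300000002 4 5) 0 0 (step_sound _ 99 [(rh53b3c253cb0c65f4.shift 0 2), rhae036cc4ef671676] (by decide +kernel))
noncomputable def rhc63f8a843d7c7acb : CRef := CRef.mk (Pat.mk 0x4000000040000000e000000180000000000000000 0x4000000060000003e0000001f0000000200000002 4 6) 0 0 (step_sound _ 65 [(rh7302994b41ba0e8a.shift 0 1), (rhc93267aba7aa3fba.shift 0 2), (rhf9af042da61fc652.shift 1 0)] (by decide +kernel))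
noncomputable def rhb3b931ebba8a3f92 : CRef := CRef.mk (Pat.mk 0x2000000060000001e00000000 0x1000000030000003e0000001e00000003 4 6) 0 0 (step_sound _ 68 [(rh33e738c4ed385b9f.shift 1 1), rhc147a53bb17f4567] (by decide +kernel))
noncomputable def rh14946c88364d19ce : CRef := CRef.mk (Pat.mk 0xc000000060000002c0000000c00000000 0x20000000f0000003e0000006c0000007c00000010 4 7) 0 0 (step_sound _ 99 [(rh509847d0837ffcc5.shift 2 0), (rhaef2adbbd453a55b.shift 0 1)] (by decide +kernel))
noncomputable def rh4c3cb02adb85fa7f : CRef := CRef.mk (Pat.mk 0x60000000c000000040000000000000000 0x80000000f0000003c000000040000000400000004 4 6) 0 0 (step_sound _ 100 [rh41bc758cac4efbd9, (rhf48373e13d2bc128.shift 1 3)] (by decide +kernel))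
noncomputable def rh04efcf4a704307d0 : CRef := CRef.mk (Pat.mk 0x2000000060000000e00000002 0x1000000030000003e0000003e00000002 4 6) 0 0 (step_sound _ 36 [rhae8938145796a1d1, (rhf48373e13d2bc128.shift 1 1)] (by decide +kernel))
noncomputable def rh9bc085288900b3d5 : CRef := CRef.mk (Pat.mk 0x2000000160000001e0000000000000000 0x80000000b0000001e0000001e0000003000000010 4 6) 0 0 (step_sound _ 99 [(rh3244c3cc8379b070.shift 0 3), (rhea719cc8bd0bdd28.shift 1 0)] (by decide +kernel))
noncomputable def rh722ebfeb95c22fd8 : CRef := CRef.mk (Pat.mk 0x2000000020000001e 0x30000003e0000003f 4 6) 0 0 (step_sound _ 34 [rh9fdcb09dfa6419d9, (rhf48373e13d2bc128.shift 1 0)] (by decide +kernel))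
noncomputable def rh41597e6b25c0e6ff : CRef := CRef.mk (Pat.mk 0x4000000040000001c0000000800000000 0x40000003f0000001f0000001b00000002 4 6) 0 0 (step_sound _ 65 [(rh89541de5a22835bc.shift 0 1), rhae036cc4ef671676] (by decide +kernel))
noncomputable def rh14dd238acf618045 : CRef := CRef.mk (Pat.mk 0x100000003c000000040000000000000000 0x8000000080000001f0000003f0000000c0000000400000004 4 6) 0 0 (step_sound _ 131 [(rhadf429772c25fde0.shift 2 0), (rhbe5fc5902345a0b9.shift 0 3)] (by decide +kernel))
noncomputable def rhfed6fe0843ab3443 : CRef := CRef.mk (Pat.mk 0x2000000060000001c00000010 0x30000003e0000001f00000030 4 6) 0 0 (step_sound _ 33 [(rh9fdcb09dfa6419d9.shift 0 1), (rhe25b0a99195a5d59.shift 1 0)] (by decide +kernel))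
noncomputable def rh0aeae3ddcc080ba0 : CRef := CRef.mk (Pat.mk 0x20000000e00000018000000100000000000000000 0x270000003e00000018000000100000001000000010 4 6) 0 0 (step_sound _ 132 [(rh3244c3cc8379b070.shift 0 4), (rha5fc0d5359b378ed.shift 1 0)] (by decide +kernel))
noncomputable def rh9e9d6f89082e0ba4 : CRef := CRef.mk (Pat.mk 0x200000002000000020000000400000000 0x1000000030000000300000002000000060000000600000004 4 3) 0 0 (step_sound _ 33 [(rh55afc6a59410cf00.shift 1 0), (rh5bd4bc0c2c48140c.shift 0 1)] (by decide +kernel))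
noncomputable def rhe6a00171695aab8a : CRef := CRef.mk (Pat.mk 0x1e000000100000000400000004 0x8000000080000001f000000180000001c00000014 4 5) 0 0 (step_sound _ 67 [(rh3fb45af4af3440b3.shift 2 0), (rhb739f4f82bb681b4.shift 0 2)] (by decide +kernel))
noncomputable def rh0f1d155f640d12eb : CRef := CRef.mk (Pat.mk 0x10000001c000000000000000800000008 0x330000001e000000300000001800000008 4 6) 0 0 (step_sound _ 97 [(rh3f8766e6ecb455ce.shift 0 3), (rh9c9de8a82d5e4ca8.shift 1 0)] (by decide +kernel))
noncomputable def rhbfbca84ec1a53183 : CRef := CRef.mk (Pat.mk 0x3e00000010 0xe0000000ff00000018 4 8) 0 0 (step_sound _ 3 [(rh226655e3fe6b4a8a.shift 2 0), rhb739f4f82bb681b4] (by decide +kernel))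
noncomputable def rh3698ae4e5f8dd06d : CRef := CRef.mk (Pat.mk 0x1c0000003800000000 0x400000004000000060000007c0000003f0000000f 4 7) 0 0 (step_sound _ 34 [rh0e1512cbacfbd48b, (rh5a2e75618eb01199.shift 1 0), rhedac71b4922e760d] (by decide +kernel))
noncomputable def rhb65539d81bf34bae : CRef := CRef.mk (Pat.mk 0xc0000000e000000040000000c00000000 0xc0000007e000000770000003c00000010 4 7) 0 0 (step_sound _ 100 [(rh0cb6a409506b34ea.shift 1 2), (rha9e1a5d55b907abf.shift 1 2), rhd1d6d939bc3f56d6] (by decide +kernel))
noncomputable def rh8d9dab7ce6a2cc35 : CRef := CRef.mk (Pat.mk 0x1c000000180000001000000010 0x270000003f000000180000001000000010 4 6) 0 0 (step_sound _ 97 [rh17659c9d2e0466f4, (rhb739f4f82bb681b4.shift 0 2)] (by decide +kernel))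
noncomputable def rh3bd258f1c2af4fbd : CRef := CRef.mk (Pat.mk 0x20000001600000000 0x70000003e00000070 4 7) 0 0 (step_sound _ 35 [(rh3244c3cc8379b070.shift 0 1), (rh60e95adc726bb530.shift 1 0)] (by decide +kernel))
noncomputable def rh6c65facbfc311a89 : CRef := CRef.mk (Pat.mk 0x180000001e00000008 0x10000000300000001f0000003e00000008 4 6) 0 0 (step_sound _ 100 [(rh5c5e593799055d58.shift 3 0), (rh870359598daa9f92.shift 0 1)] (by decide +kernel))
noncomputable def rhb995784b403f00c5 : CRef := CRef.mk (Pat.mk 0x100000001e000000000000000800000000 0x8000000180000001f000000300000001800000008 4 6) 0 0 (step_sound _ 68 [rhc00d6392e38d8ecd, (rhe25b0a99195a5d59.shift 1 2)] (by decide +kernel))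
noncomputable def rhce6db1f251911a8a : CRef := CRef.mk (Pat.mk 0x10000000100000000000000020000000000000000 0x100000001000000030000000300000003000000030000000200000002 4 2) 0 0 (step_sound _ 97 [(rh0188917d0a15b7ff.shift 0 2), (rh4d760d0d70847451.shift 0 1), rh74a43b9a483760f6, rhe482ee30a2733b5f] (by decide +kernel))
noncomputable def rha42ad51b4a6c06f4 : CRef := CRef.mk (Pat.mk 0xf000000010000000000000000 0x200000002000000030000001f000000030000000100000001 4 5) 0 0 (step_sound _ 129 [(rh21ff067999dca58e.shift 0 1), (rh4b481cfbdc975d9e.shift 0 1), (rh7b030ba967bf927e.shift 0 2), rhadf429772c25fde0] (by decide +kernel))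
noncomputable def rheafc667cde9531dc : CRef := CRef.mk (Pat.mk 0x8000000380000000800000000 0x4000000040000000c0000000f0000003c0000000800000008 4 6) 0 0 (step_sound _ 98 [(rh7b07ec793799bf71.shift 1 0), (rhb1a251d9bff81766.shift 2 0), (rhdbcea10a0fbe5ba6.shift 0 2)] (by decide +kernel))
noncomputable def rh71c2a92708b9cc1a : CRef := CRef.mk (Pat.mk 0x100000002000000020000000200000002 0x50000000700000006000000020000000300000003 4 3) 0 0 (step_sound _ 129 [(rh50fbb5868c909700.shift 0 1), rhfdfc3589aa84dfb3] (by decide +kernel))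
noncomputable def rh7d50a59e7828518b : CRef := CRef.mk (Pat.mk 0x1800000030000000140000001000000000 0x180000003f000000360000001000000010 4 6) 0 0 (step_sound _ 99 [(rh39f2aa650c834471.shift 0 2), (rh7b1f1fb55310c477.shift 3 0)] (by decide +kernel))
noncomputable def rhf726105a8b0e229d : CRef := CRef.mk (Pat.mk 0x40000001e0000001a0000000800000000 0x70000001e0000001a0000000f00000006 4 5) 0 0 (step_sound _ 129 [(rh3244c3cc8379b070.shift 0 3), rhe0486e85e8f6c68a] (by decide +kernel))
noncomputable def rhc2171142db0c7f2d : CRef := CRef.mk (Pat.mk 0xe0000000400000004 0x800000008000000780000001f0000001c00000004 4 7) 0 0 (step_sound _ 99 [(rh69755ef358ebfd54.shift 2 0), (rha11dfd15f08f96e3.shift 0 2), rhdfe11bb8ddcdb02a] (by decide +kernel))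
noncomputable def rh037d2ef09b071581 : CRef := CRef.mk (Pat.mk 0x20000000f00000006 0x2000000020000003a0000003f00000006 4 6) 0 0 (step_sound _ 97 [(rh2145e1d24b96a57e.shift 1 0), rh226655e3fe6b4a8a] (by decide +kernel))
noncomputable def rh3721d2c973aa2e21 : CRef := CRef.mk (Pat.mk 0x40000001c0000000c0000000c00000000 0x80000000c0000001c0000000f0000003c00000010 4 6) 0 0 (step_sound _ 131 [(rh2f68792b6b779e96.shift 2 1), rh4892b0043cb46d74] (by decide +kernel))
noncomputable def rhd6283e59309edcf9 : CRef := CRef.mk (Pat.mk 0x20000000200000003000000060000000000000000 0x200000002000000030000000300000007000000060000000200000002 4 3) 0 0 (step_sound _ 193 [rh1406cafceeeef6c2, (rhd3458b32566d63f7.shift 1 2)] (by decide +kernel))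
noncomputable def rh7e56818eb170a271 : CRef := CRef.mk (Pat.mk 0x1e00000006000000180000000000000000 0x80000001f0000003e000000180000001000000010 4 6) 0 0 (step_sound _ 100 [rh0c54b6e6bb23e98e, (rhe25b0a99195a5d59.shift 1 3)] (by decide +kernel))
noncomputable def rh83ff764f2a469f9e : CRef := CRef.mk (Pat.mk 0x20000000a0000001a00000006 0x3000000030000003e0000001e00000006 4 6) 0 0 (step_sound _ 34 [rh120fbab6b72cf5c6, (rh2145e1d24b96a57e.shift 1 0)] (by decide +kernel))
noncomputable def rh8d64568243dff2a6 : CRef := CRef.mk (Pat.mk 0xa0000001a0000000600000000 0x1000000030000001f0000001a0000000600000004 4 5) 0 0 (step_sound _ 98 [rh0cbd98d022e84f17, (rhb739f4f82bb681b4.shift 0 2)] (by decide +kernel))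
noncomputable def rhd070d57e36cbafca : CRef := CRef.mk (Pat.mk 0x8000000380000000c0000000000000000 0x40000001f0000003c0000000c0000000800000008 4 6) 0 0 (step_sound _ 130 [(rhc02b3aee7ab87ee1.shift 0 3), (rhd652c19df8b64ee8.shift 1 0), (rhd8e93bbc8568df99.shift 1 3), (rhfa2242deaca05a59.shift 2 0)] (by decide +kernel))
noncomputable def rh6c660ae08add69aa : CRef := CRef.mk (Pat.mk 0x20000000b0000000f00000004 0xc0000001e0000000b0000000f0000001c 4 5) 0 0 (step_sound _ 3 [rh4ffe0988b9ad5f21, rhe25b0a99195a5d59] (by decide +kernel))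
noncomputable def rh855f60273efa2aaf : CRef := CRef.mk (Pat.mk 0x6000000100000000e 0x1f000000780000001e 4 7) 0 0 (step_sound _ 37 [(rh130c4691a5653274.shift 0 1), (rh3fc040e777f1679e.shift 1 0)] (by decide +kernel))
noncomputable def rhbd043f62ea040647 : CRef := CRef.mk (Pat.mk 0x60000000e000000040000000400000000 0x4000000060000003e000000070000000600000002 4 6) 0 0 (step_sound _ 33 [(rh17c23673ade1f825.shift 0 1), (rh932754581e0f4330.shift 1 0)] (by decide +kernel))
noncomputable def rhdf78c869cb679a1a : CRef := CRef.mk (Pat.mk 0x300000003000000020000000200000000 0x4000000060000000700000003000000030000000300000001 4 3) 0 0 (step_sound _ 32 [rh932754581e0f4330, (rha62b2cb4b0de105f.shift 0 1)] (by decide +kernel))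
noncomputable def rh3b547a4b031b108a : CRef := CRef.mk (Pat.mk 0x20000000e00000004 0x30000003e00000076 4 7) 0 0 (step_sound _ 36 [(rh0ae232cce48795b7.shift 1 0), (rh3244c3cc8379b070.shift 0 1)] (by decide +kernel))
noncomputable def rh202c4837cbd169c8 : CRef := CRef.mk (Pat.mk 0x10000000700000008 0x3b0000001f00000018 4 6) 0 0 (step_sound _ 35 [(rh9cf60041f0c0abcb.shift 0 1), rhe25b0a99195a5d59] (by decide +kernel))
noncomputable def rh97e7a3cec66f312d : CRef := CRef.mk (Pat.mk 0x2000000030000000200000004 0x4000000060000000600000002000000030000000700000004 4 3) 0 0 (step_sound _ 129 [(rh79e70552f96217b9.shift 0 1), (rhd3458b32566d63f7.shift 1 0)] (by decide +kernel))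
noncomputable def rhb5ebbb579fb61215 : CRef := CRef.mk (Pat.mk 0x4000000050000000f000000000000000000000000 0x5000000070000001f000000030000000200000002 4 5) 0 0 (step_sound _ 65 [(rh795d3e5d420177aa.shift 0 2), rhc29713bb7195dd84, (rhf9af042da61fc652.shift 1 0)] (by decide +kernel))
noncomputable def rh8275b699f50a65f0 : CRef := CRef.mk (Pat.mk 0x200000006000000060000000c0000000800000000 0x10000000300000007000000060000000f0000001b00000002 4 5) 0 0 (step_sound _ 65 [rh674dd4f5f6cca5c0, (rh9f67957f47428996.shift 0 1)] (by decide +kernel))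
noncomputable def rh838804c15a5b1edd : CRef := CRef.mk (Pat.mk 0x20000000600000006000000030000000000000000 0x100000003000000070000001e000000030000000200000002 4 5) 0 0 (step_sound _ 99 [(rh18965a982d73c794.shift 0 2), rhdf997f77704b6375] (by decide +kernel))
noncomputable def rh4ff5d29d53f444f4 : CRef := CRef.mk (Pat.mk 0x400000002000000020000000600000000 0x60000000600000002000000070000000700000001 4 3) 0 0 (step_sound _ 129 [(rh2f68792b6b779e96.shift 1 1), rh7b60db5db6f7d331] (by decide +kernel))
noncomputable def rh8061784ae8734931 : CRef := CRef.mk (Pat.mk 0x380000001c00000000 0x400000004000000060000003f0000003c00000008 4 6) 0 0 (step_sound _ 66 [(rhbdb8dfd08861fbf7.shift 1 0), (rhe2b63c00a3d7bb73.shift 0 1)] (by decide +kernel))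
noncomputable def rh41f615f62bd9da0d : CRef := CRef.mk (Pat.mk 0x1e000000000000000800000008 0x300000001e000000330000001800000008 4 6) 0 0 (step_sound _ 65 [(rh1fbc9fee05401eba.shift 1 0), (rheb0810cc63b001d8.shift 0 2)] (by decide +kernel))
noncomputable def rh4f331c55848546af : CRef := CRef.mk (Pat.mk 0xd0000000e000000000000000200000002 0x8000000180000000f0000001e000000040000000600000002 4 5) 0 0 (step_sound _ 129 [rh849d1aeda3316e2c, (rhf48373e13d2bc128.shift 0 3)] (by decide +kernel))
noncomputable def rh18171610b1a442b5 : CRef := CRef.mk (Pat.mk 0x1000000000000000080000003c00000000 0x10000000100000001f0000003f00000060 4 7) 0 0 (step_sound _ 65 [(rh3f8766e6ecb455ce.shift 1 1), rh708bf160ca3b6cde] (by decide +kernel))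
noncomputable def rh8a7929dfa7e4fcc9 : CRef := CRef.mk (Pat.mk 0x8000000080000001a0000001000000000 0x8000000080000007f0000003f00000004 4 7) 0 0 (step_sound _ 35 [rh114380420d2c6317, (rha71afc656c87d410.shift 1 0), (rhcd6baf37b3e5de21.shift 0 1)] (by decide +kernel))
noncomputable def rh22bc6c6ba20d9cfb : CRef := CRef.mk (Pat.mk 0x380000001c0000000000000000 0x4000000060000003f0000003c0000000800000008 4 6) 0 0 (step_sound _ 98 [(rh38a0850c9fea941e.shift 1 0), (rhe2b63c00a3d7bb73.shift 0 2)] (by decide +kernel))
noncomputable def rh1e25901ef1905410 : CRef := CRef.mk (Pat.mk 0x20000001e00000010 0x6000000ff0000001c 4 8) 0 0 (step_sound _ 37 [(rh3f8766e6ecb455ce.shift 1 1), rhc79769c0453a04d3] (by decide +kernel))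
noncomputable def rhb9b1d3af12922f73 : CRef := CRef.mk (Pat.mk 0x800000008000000180000000400000000 0x800000008000000780000001f00000004 4 7) 0 0 (step_sound _ 35 [(rh574fdbf07bdd18b9.shift 0 1), (rh932754581e0f4330.shift 2 0)] (by decide +kernel))
noncomputable def rh59fb10644bb918ac : CRef := CRef.mk (Pat.mk 0x100000003000000008 0x18000000fc0000003f 4 8) 0 0 (step_sound _ 2 [(rh459ddadc9a9c4629.shift 2 0), rh7401e8cf466f4e5b, rhbd2e91c3fdbfa961, (rhfe7c844806756e31.shift 1 0)] (by decide +kernel))
noncomputable def rh2f58de0fa47de9af : CRef := CRef.mk (Pat.mk 0x800000008000000180000000400000000 0x8000000080000007c0000000f00000004 4 7) 0 0 (step_sound _ 35 [(rh0bb882ba86b2372d.shift 0 1), (rh932754581e0f4330.shift 2 0)] (by decide +kernel))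
noncomputable def rh7a73d6b95d200bd4 : CRef := CRef.mk (Pat.mk 0x2000000020000000200000003000000020000000000000000 0x200000002000000020000000300000003000000060000000600000006 4 3) 0 0 (step_sound _ 128 [(rh5c5e593799055d58.shift 0 3), rh820d4e04d5dcd02e] (by decide +kernel))
noncomputable def rhaced4ac610f93b45 : CRef := CRef.mk (Pat.mk 0x6000000070000000400000000 0xc0000000c0000000c000000060000000f0000003c00000008 4 6) 0 0 (step_sound _ 130 [(rh5fa50b509d4ce753.shift 1 1), rhd9397e4126e81439, rhdd2601c875e3d18f] (by decide +kernel))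
noncomputable def rh94aabd5f8d8b05fe : CRef := CRef.mk (Pat.mk 0x700000004000000040000000400000000 0x50000000700000006000000060000000600000006 4 3) 0 0 (step_sound _ 33 [(rh932754581e0f4330.shift 1 0), rhfd59d4629aa99d96] (by decide +kernel))
noncomputable def rh78589806ce01c73f : CRef := CRef.mk (Pat.mk 0x400000007000000060000000000000000 0xa0000003e0000000f000000060000000400000004 4 6) 0 0 (step_sound _ 131 [(rh572132728df34c43.shift 0 3), (rh9bd2bb1b625e8a7e.shift 1 0)] (by decide +kernel))
noncomputable def rh221beddc00c0402b : CRef := CRef.mk (Pat.mk 0x2000000020000000600000002 0x4000000070000000700000003000000060000000600000002 4 3) 0 0 (step_sound _ 129 [rh3ca48e2a6d60153d, (rha1447db93ca109b8.shift 1 1)] (by decide +kernel))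
noncomputable def rh0fefe7d5fb8d2382 : CRef := CRef.mk (Pat.mk 0x70000000c0000000400000000 0xc0000001c0000000f0000000c0000000c0000000c 4 5) 0 0 (step_sound _ 131 [(rh4dec404a6c0e229a.shift 2 0), (rhc0e343a050da71e6.shift 0 1), rhe3bc8ed3804367dd] (by decide +kernel))
noncomputable def rh56d3171fc336fc95 : CRef := CRef.mk (Pat.mk 0xc0000000c000000080000000800000000 0x100000003c0000000f000000080000000c00000004 4 6) 0 0 (step_sound _ 132 [(rh2f68792b6b779e96.shift 3 1), rh71d90955baacd858] (by decide +kernel))
noncomputable def rh6f9771bcc966834d : CRef := CRef.mk (Pat.mk 0xe00000006000000040000000400000000 0x40000003e000000070000000c0000000c00000008 4 6) 0 0 (step_sound _ 35 [(rh55afc6a59410cf00.shift 2 0), (rhd02673cd0240e6ab.shift 0 1)] (by decide +kernel))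
noncomputable def rh5a8a7f9e51be3b01 : CRef := CRef.mk (Pat.mk 0x400000006000000080000000c00000000 0x4000000060000007e0000001f00000002 4 7) 0 0 (step_sound _ 33 [(rha11dfd15f08f96e3.shift 0 1), (rhecb97fed8c7f1286.shift 1 0)] (by decide +kernel))
noncomputable def rh05b0be8bde736eb4 : CRef := CRef.mk (Pat.mk 0x3c00000004000000100000001800000000 0x70000003e00000004000000fc0000001e00000003 4 8) 0 0 (step_sound _ 34 [rh872d4931201b889e, (rh9c9bdd729c643b84.shift 0 1), (rhff7d63dcb3cf9f74.shift 1 1)] (by decide +kernel))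
noncomputable def rh67608fbd135ba3d0 : CRef := CRef.mk (Pat.mk 0x100000001c000000060000000000000000 0x2000000330000001e000000060000000400000004 4 6) 0 0 (step_sound _ 97 [(rh33e738c4ed385b9f.shift 1 3), rh38a0850c9fea941e] (by decide +kernel))
noncomputable def rh3a90c00cc9547fea : CRef := CRef.mk (Pat.mk 0x100000001c0000000c00000008 0x4000000370000003e0000000c00000008 4 6) 0 0 (step_sound _ 98 [(rh08932469c58e27e9.shift 0 2), (rh2145e1d24b96a57e.shift 2 0)] (by decide +kernel))
noncomputable def rhec01e41414f69238 : CRef := CRef.mk (Pat.mk 0x600000002000000020000000000000000 0x50000000700000007000000020000000200000002 4 3) 0 0 (step_sound _ 33 [(rh2f68792b6b779e96.shift 1 1), rh8c7e6c931af72977] (by decide +kernel))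
noncomputable def rh0758392690618eb3 : CRef := CRef.mk (Pat.mk 0x1000000038000000080000001800000000 0x100000003c0000003f0000007800000020 4 7) 0 0 (step_sound _ 66 [(rh1ed7a3503fa50fc8.shift 0 2), (rh36bdd71eb75150ba.shift 2 0)] (by decide +kernel))
noncomputable def rhb3ba2a68cb72d754 : CRef := CRef.mk (Pat.mk 0x1e00000018000000080000001800000000 0x3e0000001f0000003c000000f800000020 4 8) 0 0 (step_sound _ 68 [(rh36d4d92ef3dad5f8.shift 2 0), (rhc31b6f966e0d7e89.shift 0 2)] (by decide +kernel))
noncomputable def rhd39e60d0e07cf1e2 : CRef := CRef.mk (Pat.mk 0x100000001000000010000000200000000 0x2000000030000000300000001000000030000000300000002 4 2) 0 0 (step_sound _ 32 [rh55afc6a59410cf00, (rh73f605273a09a9d0.shift 0 1)] (by decide +kernel))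
noncomputable def rh2fc3fad3b0557a5a : CRef := CRef.mk (Pat.mk 0x800000008000000080000000c 0x800000008000000080000007c0000001f 4 7) 0 0 (step_sound _ 36 [rh0bb882ba86b2372d, (rh518d6f6eeebddcb2.shift 2 0), rh69012675dfdb1a5b] (by decide +kernel))
noncomputable def rhcb1d701eef7f8bae : CRef := CRef.mk (Pat.mk 0x4000000020000000200000002000000000000000000000000 0x5000000070000000300000002000000030000000300000001 4 3) 0 0 (step_sound _ 65 [rh0c1c1b53bc5a1510, (rhbaefcd01e0a8bca3.shift 1 2)] (by decide +kernel))
noncomputable def rh4fc2726e16dd2260 : CRef := CRef.mk (Pat.mk 0x8000000040000000c0000000e00000000 0x80000000c0000000f0000003e00000014 4 6) 0 0 (step_sound _ 99 [rh58f49594b41e4958, (rh71222050f2c63a3a.shift 2 0)] (by decide +kernel))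
noncomputable def rh6bf720a383ca080e : CRef := CRef.mk (Pat.mk 0x800000018000000080000003000000020 0x400000004000000040000000f0000007c000000080000003c00000064 4 7) 0 0 (step_sound _ 130 [(rhdeca8db941583de2.shift 0 3), (rhe50ef500d536edd3.shift 2 0), (rhf9a6286f1d5377a2.shift 2 1)] (by decide +kernel))
noncomputable def rh72274c1dfd51176c : CRef := CRef.mk (Pat.mk 0x400000004000000050000000f00000000 0x20000000600000006000000070000001f00000005 4 5) 0 0 (step_sound _ 65 [rh18b49738f4e5d343, (rhf48373e13d2bc128.shift 0 1)] (by decide +kernel))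
noncomputable def rh1017b7a1d9aba48b : CRef := CRef.mk (Pat.mk 0x38000000000000000000000070 0x1f000000780000001800000018000000f0 4 8) 0 0 (step_sound _ 131 [(rh48a3dd85e9cd5bad.shift 3 0), (rhf60aa8aede119d3b.shift 0 3)] (by decide +kernel))
noncomputable def rh663b50036dae2c4b : CRef := CRef.mk (Pat.mk 0x600000000000000000000001c00000010 0x40000000600000002000000030000001e00000034 4 6) 0 0 (step_sound _ 33 [(rhe25b0a99195a5d59.shift 1 0), rhf02c244a23f35937] (by decide +kernel))
noncomputable def rh6e35f5d1a3c4bb19 : CRef := CRef.mk (Pat.mk 0x600000006000000000000000c00000008 0x40000000600000006000000020000001f0000007a 4 7) 0 0 (step_sound _ 33 [(rh2c7fc7a7cc8a47be.shift 1 0), rh8ee80cc30e93a344] (by decide +kernel))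
noncomputable def rh8ec66a7fc6d9eb07 : CRef := CRef.mk (Pat.mk 0x180000007800000000 0xf80000007f00000007 4 8) 0 0 (step_sound _ 34 [(rh9890f9d77740bbed.shift 2 1), rhcc2be1f880c5ea3e, (rhf9d36e158778ce35.shift 1 1)] (by decide +kernel))
noncomputable def rh82615cc00d181ffe : CRef := CRef.mk (Pat.mk 0x100000000c000000380000006000000000 0x100000007c0000002f000000380000006000000040 4 7) 0 0 (step_sound _ 97 [(rh893df4815e9c6b9e.shift 1 0), (rhb739f4f82bb681b4.shift 0 2)] (by decide +kernel))
noncomputable def rha1ef4ee3ae093e66 : CRef := CRef.mk (Pat.mk 0x200000006000000020000000a00000008 0x5000000070000001e0000000a0000000a00000008 4 5) 0 0 (step_sound _ 130 [(rh2f68792b6b779e96.shift 1 1), rh81b5f4fdb0b8a408] (by decide +kernel))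
noncomputable def rha06ad2ce3bc67618 : CRef := CRef.mk (Pat.mk 0x4000000020000001e00000018 0x600000006000000020000003e0000001f 4 6) 0 0 (step_sound _ 1 [(rha74abd673c51f8e7.shift 1 0), rheb0810cc63b001d8] (by decide +kernel))
noncomputable def rhf10aada8718f2af7 : CRef := CRef.mk (Pat.mk 0x4000000070000000c0000000800000000 0xa0000003e0000000f0000000c0000000c00000004 4 6) 0 0 (step_sound _ 34 [(rh684e729394fba19d.shift 0 1), (rhe286c75f2739cce2.shift 1 0), rheece04bfb39d9186] (by decide +kernel))
noncomputable def rh56f806fcc2d8ae5d : CRef := CRef.mk (Pat.mk 0x4000000040000000c0000000200000000 0x4000000040000003c0000000f0000000a 4 6) 0 0 (step_sound _ 34 [rh69fd1474b487b3e0, (rh932754581e0f4330.shift 1 0)] (by decide +kernel))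
noncomputable def rh902f34c93eb48901 : CRef := CRef.mk (Pat.mk 0x60000001e000000120000000000000000 0x10000000360000001e0000001e0000000b0000000b 4 6) 0 0 (step_sound _ 67 [(rha240d968d16a7f4e.shift 1 0), rhe58a7845769190f3] (by decide +kernel))
noncomputable def rh1960b7bea141c657 : CRef := CRef.mk (Pat.mk 0x180000001e00000000 0x1f000000fe000000e0 4 8) 0 0 (step_sound _ 37 [(rh0cb6a409506b34ea.shift 2 0), (rh5d685137714d9fe9.shift 0 1), (rh79b3c29022acbdf3.shift 2 1)] (by decide +kernel))
noncomputable def rh62762e7b7ed01286 : CRef := CRef.mk (Pat.mk 0x100000002000000020000000600000000 0x30000000300000002000000070000000700000001 4 3) 0 0 (step_sound _ 129 [(rh50fbb5868c909700.shift 0 1), rh7b60db5db6f7d331] (by decide +kernel))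
noncomputable def rhf2fe03bbab0572c7 : CRef := CRef.mk (Pat.mk 0x2800000008000000180000001000000000 0x300000007c0000001f000000180000001800000008 4 7) 0 0 (step_sound _ 132 [(rh2820ca9a6c4f41b4.shift 0 3), (rh60504fb5787cdae7.shift 3 0)] (by decide +kernel))
noncomputable def rhd68a86fea69f7105 : CRef := CRef.mk (Pat.mk 0x400000001000000030000001a0000000200000000 0x2000000060000000600000003000000030000001b0000000f00000005 4 5) 0 0 (step_sound _ 129 [rh36e6bb6cca6188da, (rh3af666f171e8cb58.shift 0 2), rha5fcb7842aec5ef4] (by decide +kernel))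
noncomputable def rh81ee81de43d928d7 : CRef := CRef.mk (Pat.mk 0x8000000180000000c0000001000000000 0x80000007c0000000f0000001800000010 4 7) 0 0 (step_sound _ 35 [(rh55afc6a59410cf00.shift 3 0), (rhd69c262cd33b94b3.shift 0 2)] (by decide +kernel))
noncomputable def rhbfcac7838ffb44c2 : CRef := CRef.mk (Pat.mk 0x8000000070000000400000000 0x8000000080000000e0000003e000000070000000400000004 4 6) 0 0 (step_sound _ 98 [rh026fe94e65800e5e, (rh215e11e099257d75.shift 2 0), (rh80f90a60d87caa0d.shift 0 2)] (by decide +kernel))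
noncomputable def rhe84ca77c31647bba : CRef := CRef.mk (Pat.mk 0x40000000c0000001e0000000000000000 0x40000000c0000007e0000000f00000008 4 7) 0 0 (step_sound _ 35 [(rh7b1f1fb55310c477.shift 2 0), (rh8a88abf038d31fd2.shift 0 1)] (by decide +kernel))
noncomputable def rh9ad257ee707ad9ae : CRef := CRef.mk (Pat.mk 0x1e00000000000000080000001c 0x20000001e000000030000003f0000003f 4 6) 0 0 (step_sound _ 33 [rh508d31626b5d2be8, rhae69c2ca6089a229, rhd0ed6ce702d0de55] (by decide +kernel))
noncomputable def rh752807c7a5d3fff6 : CRef := CRef.mk (Pat.mk 0x8000000080000003c0000000800000000 0x8000000780000003f0000001800000010 4 7) 0 0 (step_sound _ 36 [(rh55afc6a59410cf00.shift 3 0), (rhe25191970535449e.shift 0 1)] (by decide +kernel))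
noncomputable def rh4e178f5baf4ec5b3 : CRef := CRef.mk (Pat.mk 0x80000001c000000060000000000000000 0x20000000b0000001e000000070000000400000004 4 5) 0 0 (step_sound _ 97 [rh1805d4d225594aed, (rheb0810cc63b001d8.shift 0 2)] (by decide +kernel))
noncomputable def rhcacaf44833cd1d6d : CRef := CRef.mk (Pat.mk 0x4000000040000001c00000000 0x400000004000000070000003e00000003 4 6) 0 0 (step_sound _ 65 [rh2d8617ffd6b7a74e, (rhf48373e13d2bc128.shift 1 1)] (by decide +kernel))
noncomputable def rh9f56cf26f70ed7e4 : CRef := CRef.mk (Pat.mk 0x18000000380000000c0000001800000000 0x380000003f0000006c0000007800000020 4 7) 0 0 (step_sound _ 37 [rh3af751676feff553, (rhf48373e13d2bc128.shift 2 1)] (by decide +kernel))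
noncomputable def rh417bea29615968a1 : CRef := CRef.mk (Pat.mk 0x1e0000001e000000080000000000000000 0x200000002000000030000001e0000001e0000000c0000000800000008 4 5) 0 0 (step_sound _ 35 [(rh71222050f2c63a3a.shift 3 0), (rhbdb8dfd08861fbf7.shift 0 2)] (by decide +kernel))
noncomputable def rhde3dcaee8c2ff2ce : CRef := CRef.mk (Pat.mk 0x40000000f00000002 0x400000004000000040000001f0000003b 4 6) 0 0 (step_sound _ 98 [(rh5c5e593799055d58.shift 1 0), rh9ab60d74117ac343] (by decide +kernel))
noncomputable def rh53a67166fa760459 : CRef := CRef.mk (Pat.mk 0x1e0000001000000010 0x3f0000001f00000030 4 6) 0 0 (step_sound _ 33 [rha76fce8643e33924, (rheb0810cc63b001d8.shift 0 1)] (by decide +kernel))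
noncomputable def rh240b30a29d0de1bf : CRef := CRef.mk (Pat.mk 0x10000000f000000000000000000000000 0x100000001000000030000001f000000030000000200000002 4 5) 0 0 (step_sound _ 65 [(rh795d3e5d420177aa.shift 0 2), rha40d42a2e34c408d, (rhce27360725e17246.shift 0 1), rhd9507392c7f93a70] (by decide +kernel))
noncomputable def rhe51b6c0f34aeaca7 : CRef := CRef.mk (Pat.mk 0xa0000001e000000040000000400000000 0x20000000a0000001e000000370000001400000010 4 6) 0 0 (step_sound _ 68 [rh8e7e8228980e5585, (rhe25b0a99195a5d59.shift 1 2)] (by decide +kernel))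
noncomputable def rh3292886153c861b7 : CRef := CRef.mk (Pat.mk 0x2000000160000001e0000000400000000 0x80000000b0000001e0000001e0000003400000010 4 6) 0 0 (step_sound _ 36 [rh61ef9f64b39adfab, (rhe25b0a99195a5d59.shift 1 1)] (by decide +kernel))
noncomputable def rh73f1eebc063cfedf : CRef := CRef.mk (Pat.mk 0x1e000000100000000000000000 0x800000008000000180000001f000000180000001000000010 4 5) 0 0 (step_sound _ 131 [(rh5d9b0b97434265de.shift 0 1), (rh6765e7960b108c8d.shift 0 2), (rh9829995db81e3f2a.shift 0 1), (rhc38f566cab2818e5.shift 3 0)] (by decide +kernel))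
noncomputable def rhbaeddab3d7549ceb : CRef := CRef.mk (Pat.mk 0x80000001e000000140000000400000000 0x20000000b0000001e000000170000001400000010 4 5) 0 0 (step_sound _ 129 [(rh3244c3cc8379b070.shift 0 3), rh8e7e8228980e5585] (by decide +kernel))
noncomputable def rh28b05447332bc696 : CRef := CRef.mk (Pat.mk 0x1c0000000800000008 0x1000000010000000f00000003f0000001800000008 4 8) 0 0 (step_sound _ 100 [(rh69755ef358ebfd54.shift 3 0), (rha11dfd15f08f96e3.shift 1 2), rhd9aef7afbf963121] (by decide +kernel))
noncomputable def rh5e434997c9d61ee8 : CRef := CRef.mk (Pat.mk 0x10000000100000001e 0x300000001f0000003f 4 6) 0 0 (step_sound _ 35 [rh53b3c253cb0c65f4, rh870359598daa9f92] (by decide +kernel))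
noncomputable def rhdabfd48bdae7b189 : CRef := CRef.mk (Pat.mk 0x200000006000000070000000400000000 0xc0000000c0000000e000000060000000f0000001e00000008 4 5) 0 0 (step_sound _ 130 [rh548ca695070b4cbb, (rh5fa50b509d4ce753.shift 1 1), (rh84d1c02a8954c6a8.shift 1 1)] (by decide +kernel))
noncomputable def rhce0d207fc960f0ee : CRef := CRef.mk (Pat.mk 0x40000001c0000000400000000 0x200000002000000060000000f0000001e0000000400000004 4 5) 0 0 (step_sound _ 97 [(rhb1a251d9bff81766.shift 1 0), (rhd8e93bbc8568df99.shift 0 2)] (by decide +kernel))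
noncomputable def rh493aea110f12214a : CRef := CRef.mk (Pat.mk 0x80000003800000008000000000000000000000000 0x8000000080000003c0000000f0000000c0000000400000004 4 6) 0 0 (step_sound _ 98 [(rh1ed7a3503fa50fc8.shift 0 3), (rh281c6819542c66e6.shift 2 0), (rh7e2c3efc10676fba.shift 1 1)] (by decide +kernel))
noncomputable def rh3e236db47208617e : CRef := CRef.mk (Pat.mk 0x20000001e000000180000000000000000 0x2000000020000003e0000001f0000000400000004 4 6) 0 0 (step_sound _ 65 [(rheb0810cc63b001d8.shift 0 2), (rhfaa0c5f366d6641f.shift 1 0)] (by decide +kernel))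
noncomputable def rhec36f35a4c9dfaa1 : CRef := CRef.mk (Pat.mk 0x60000001e000000060000000000000000 0x60000001e0000003e0000000300000003 4 6) 0 0 (step_sound _ 68 [rh5610213daa1b6928, (rhe25b0a99195a5d59.shift 1 2)] (by decide +kernel))
noncomputable def rhd5944c88ba08939d : CRef := CRef.mk (Pat.mk 0xe000000180000000b 0x10000000300000001e0000001f0000000b 4 6) 0 0 (step_sound _ 33 [rh644d796282c12cc5, rhb2a0b9ccfb5cecd5] (by decide +kernel))
noncomputable def rh11258dce8573113d : CRef := CRef.mk (Pat.mk 0x80000000c000000180000000800000000 0x80000000c0000007c0000000f00000004 4 7) 0 0 (step_sound _ 34 [(rh932754581e0f4330.shift 2 0), (rh95c7bf00a65f6c99.shift 0 1)] (by decide +kernel))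
noncomputable def rhbb85e2aff8cba182 : CRef := CRef.mk (Pat.mk 0x180000000c0000000800000008000000080000000000000000 0x180000000f0000000c00000008000000180000001800000010 4 5) 0 0 (step_sound _ 161 [(rh53b3c253cb0c65f4.shift 0 5), (rha613ffd40b6c9d24.shift 2 0)] (by decide +kernel))
noncomputable def rhef101642296f593f : CRef := CRef.mk (Pat.mk 0x100000001e000000040000000c00000000 0x100000001e000000370000003c00000008 4 6) 0 0 (step_sound _ 65 [(rhafaddf1611d49b38.shift 1 0), (rheb0810cc63b001d8.shift 0 2)] (by decide +kernel))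
noncomputable def rh56a7c070e3871720 : CRef := CRef.mk (Pat.mk 0x200000006000000060000001c0000000000000000 0x10000000300000007000000060000001f0000003b00000002 4 6) 0 0 (step_sound _ 65 [(rh0405e677ca7cdf6b.shift 0 1), rh674dd4f5f6cca5c0] (by decide +kernel))
noncomputable def rh5d1f2830390e4c60 : CRef := CRef.mk (Pat.mk 0x4000000040000000c0000000400000000 0x4000000040000003c0000000f0000000a 4 6) 0 0 (step_sound _ 33 [rh69fd1474b487b3e0, (rh932754581e0f4330.shift 1 0)] (by decide +kernel))
noncomputable def rh5aec078577363013 : CRef := CRef.mk (Pat.mk 0x100000003800000040 0x370000003e00000060 4 7) 0 0 (step_sound _ 34 [(rh503775339733bab1.shift 0 1), (rh96851dee118c1ba3.shift 2 0)] (by decide +kernel))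
noncomputable def rhdf67aca28ea80e36 : CRef := CRef.mk (Pat.mk 0x4000000040000000e00000000 0x400000004000000040000003c0000000f00000008 4 6) 0 0 (step_sound _ 130 [(rh55afc6a59410cf00.shift 2 0), (rh90892cdc1810d809.shift 0 1)] (by decide +kernel))
noncomputable def rh215bac0b51b41add : CRef := CRef.mk (Pat.mk 0x8000000080000001c000000060000000000000000 0x8000000380000001f0000003e0000001000000010 4 6) 0 0 (step_sound _ 97 [(rhbeb5eed1bc42fe9e.shift 0 1), (rhc7b95363f9049b11.shift 1 0), (rhec46bd5500c722c9.shift 0 3)] (by decide +kernel))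
noncomputable def rh3204ddedfc1c6ee2 : CRef := CRef.mk (Pat.mk 0xf00000005 0x700000007f0000001f 4 7) 0 0 (step_sound _ 36 [rh65849e1b58f3161b, rh80fcd6d0a18cb2dd] (by decide +kernel))
noncomputable def rh36293b903f20bf3c : CRef := CRef.mk (Pat.mk 0x3c00000010 0x70000003f0000001f 4 6) 0 0 (step_sound _ 33 [rh53eb6371c64e8c0d, rheae1728ff4a56756] (by decide +kernel))
noncomputable def rh92387ae747d0ba9a : CRef := CRef.mk (Pat.mk 0x1800000008000000200000003c00000000 0xc0000000780000003f000000200000007c000000e0 4 8) 0 0 (step_sound _ 133 [(rh1a73e645d9e9563b.shift 2 1), (rhaf89196ed7f199b4.shift 2 0), (rhf0f55c4504412200.shift 0 3)] (by decide +kernel))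
noncomputable def rh3d046c549d141ca7 : CRef := CRef.mk (Pat.mk 0x800000018000000080000000c00000008 0x80000000c0000003c0000000f0000000c00000008 4 6) 0 0 (step_sound _ 66 [(rh5c5e593799055d58.shift 2 1), rha02d33ba7ce23b39] (by decide +kernel))
noncomputable def rh1ad40cb49254b799 : CRef := CRef.mk (Pat.mk 0x4000000020000000200000002000000000000000100000000 0x5000000070000000300000002000000020000000300000001 4 3) 0 0 (step_sound _ 65 [rh374dff4f3719a414, (rhbaefcd01e0a8bca3.shift 1 2)] (by decide +kernel))
noncomputable def rhd77f0ab32135815c : CRef := CRef.mk (Pat.mk 0x1000000020000000200000002000000000000000100000000 0x1000000030000000200000002000000060000000700000005 4 3) 0 0 (step_sound _ 65 [rhbd097c4034f102b6, (rhffd04209dc8ea796.shift 0 2)] (by decide +kernel))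
noncomputable def rh95d9a0003f61d1a2 : CRef := CRef.mk (Pat.mk 0xc0000000c0000000c0000000e 0x100000003c0000000f0000003c0000000e 4 6) 0 0 (step_sound _ 36 [(rh18965a982d73c794.shift 1 0), rhd88e1e5c6d7f696b] (by decide +kernel))
noncomputable def rh8620e06bbd6f00e0 : CRef := CRef.mk (Pat.mk 0x80000000c000000080000000800000000 0x10000000380000001f000000080000000800000008 4 6) 0 0 (step_sound _ 132 [(rh2f68792b6b779e96.shift 3 1), rh8ce2f13debfaa789] (by decide +kernel))
noncomputable def rh62db4c8fbfbee101 : CRef := CRef.mk (Pat.mk 0x80000000c0000000c0000000800000000 0x10000000180000003c0000000f0000000800000008 4 6) 0 0 (step_sound _ 132 [(rh2f68792b6b779e96.shift 3 1), rh34c884ae55378b70] (by decide +kernel))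
noncomputable def rhc093eae0e2e51ea7 : CRef := CRef.mk (Pat.mk 0xc0000000c000000030000000200000000 0x80000000c0000000c0000000f0000001e0000000c 4 5) 0 0 (step_sound _ 34 [(rh2c7fc7a7cc8a47be.shift 2 0), rhdb0438a52ac87275, rhe7d219a30aed302c] (by decide +kernel))
noncomputable def rha7b3b4b3a18251fd : CRef := CRef.mk (Pat.mk 0x7000000050000000000000001 0x2000000020000000200000007000000070000000500000005 4 3) 0 0 (step_sound _ 129 [rh9e3edb185cc347de, (rhc38f566cab2818e5.shift 1 0)] (by decide +kernel))
noncomputable def rhff2082a920985f19 : CRef := CRef.mk (Pat.mk 0x60000000300000002000000020000000000000000 0x60000000700000003000000060000000600000006 4 3) 0 0 (step_sound _ 33 [rh503ae9d91c60dee8, (rhbaefcd01e0a8bca3.shift 1 1)] (by decide +kernel))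
noncomputable def rh7642678cdd78152d : CRef := CRef.mk (Pat.mk 0x800000000000000040000000e00000000 0x8000000080000003e0000007f00000030 4 7) 0 0 (step_sound _ 67 [(rh8d3134ae48e30f98.shift 1 0), (rhf9d36e158778ce35.shift 0 1)] (by decide +kernel))
noncomputable def rhe0cf969e0950f7de : CRef := CRef.mk (Pat.mk 0x1e000000160000001400000000 0x8000000180000001f000000160000003c00000008 4 6) 0 0 (step_sound _ 35 [rh6daff1fc1f3ab50d, (rhf48373e13d2bc128.shift 1 1)] (by decide +kernel))
noncomputable def rh4ed3a8a36438274d : CRef := CRef.mk (Pat.mk 0xc0000000b0000000a0000000000000000 0xc0000000c0000000b0000001e0000000c00000004 4 5) 0 0 (step_sound _ 66 [(rh47ecea03df6fae84.shift 2 0), (rhf48373e13d2bc128.shift 0 2)] (by decide +kernel))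
noncomputable def rhd7919c2e864531da : CRef := CRef.mk (Pat.mk 0x400000007000000140000000400000000 0x40000000f0000001c0000000f0000000a 4 5) 0 0 (step_sound _ 35 [(rh55afc6a59410cf00.shift 2 0), rh85bc4ed18bc41648] (by decide +kernel))
noncomputable def rhfcd87a89b7b6768d : CRef := CRef.mk (Pat.mk 0x8000000080000001c000000060000000400000000 0xa0000001b0000001e000000360000001400000010 4 6) 0 0 (step_sound _ 68 [(rh08edf065357d68e5.shift 3 0), (rhfe3b4040a5e9fe0b.shift 0 1)] (by decide +kernel))
noncomputable def rh53c91709130c1742 : CRef := CRef.mk (Pat.mk 0x200000002000000070000000c00000000 0x40000000600000006000000070000001e0000000a 4 5) 0 0 (step_sound _ 33 [(rh6b423afcc975f198.shift 1 0), (rhf48373e13d2bc128.shift 0 1)] (by decide +kernel))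
noncomputable def rh0b42c9ce9e78cae1 : CRef := CRef.mk (Pat.mk 0xe0000000b0000000a0000000000000000 0x80000000f0000001b0000001e0000001000000010 4 5) 0 0 (step_sound _ 68 [rh44cefeb81b637a25, (rh5419adcd928dba20.shift 0 2)] (by decide +kernel))
noncomputable def rh6c5c746b1234ec8e : CRef := CRef.mk (Pat.mk 0xe00000003000000180000000000000000 0x80000000f0000001f000000180000001000000010 4 5) 0 0 (step_sound _ 99 [rh44cefeb81b637a25, (rhc10214bf3fe8094a.shift 0 2)] (by decide +kernel))
noncomputable def rhf3f7c1a0a4bb36bf : CRef := CRef.mk (Pat.mk 0x4000000040000000e0000000e00000000 0x80000000c0000000c0000000f0000001e00000014 4 5) 0 0 (step_sound _ 131 [rh141a5aabb394f9cd, (rh2f68792b6b779e96.shift 2 1)] (by decide +kernel))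
noncomputable def rh076a85d51a7438d0 : CRef := CRef.mk (Pat.mk 0x100000003c00000020 0x180000003f00000037 4 6) 0 0 (step_sound _ 33 [(rh96851dee118c1ba3.shift 1 0), rhe34bac69e2b24a5e] (by decide +kernel))
noncomputable def rh628e47a64f5ba963 : CRef := CRef.mk (Pat.mk 0x20000000a000000020000000200000000 0x5000000070000001e000000020000000200000002 4 5) 0 0 (step_sound _ 130 [(rh2f68792b6b779e96.shift 1 1), rh31b881e5f2ef4c85] (by decide +kernel))
noncomputable def rh5a9290fc5256404f : CRef := CRef.mk (Pat.mk 0x80000000c000000100000001000000000 0x40000000c0000000f0000007c0000001800000018 4 7) 0 0 (step_sound _ 67 [(rhc7a10ee8d0d37048.shift 2 0), (rhdeca8db941583de2.shift 0 2)] (by decide +kernel))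
noncomputable def rh4f572c0a15a3e836 : CRef := CRef.mk (Pat.mk 0x4000000040000000e0000001800000000 0x4000000070000003e0000001f00000002 4 6) 0 0 (step_sound _ 68 [rh032d7f124d77d7cf, rhae036cc4ef671676, (rhe3060b190bc0bc78.shift 0 2)] (by decide +kernel))
noncomputable def rh556db68d6427c9a6 : CRef := CRef.mk (Pat.mk 0x180000001c00000000 0x1f000000ff000000e0 4 8) 0 0 (step_sound _ 37 [(rh0cb6a409506b34ea.shift 2 0), (rhbe5fc5902345a0b9.shift 0 1), (rhe3060b190bc0bc78.shift 1 1)] (by decide +kernel))
noncomputable def rh839efa595751c4cf : CRef := CRef.mk (Pat.mk 0x20000000300000006000000020000000000000000 0x20000000700000007000000060000000600000006 4 3) 0 0 (step_sound _ 34 [rh4057627adbbec185, (rhd3458b32566d63f7.shift 1 1)] (by decide +kernel))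
noncomputable def rh7aa2738cfe64dbfa : CRef := CRef.mk (Pat.mk 0x200000003c00000000 0x330000003e00000007 4 6) 0 0 (step_sound _ 33 [(rh428265de8cd3cd2d.shift 1 1), rh8ac689f83b4d45e0] (by decide +kernel))
noncomputable def rh15d49d44cbd656f2 : CRef := CRef.mk (Pat.mk 0x500000007000000090000000800000000 0x300000007000000070000000f0000001f00000003 4 5) 0 0 (step_sound _ 33 [rh8f4050c06a082165, (rh9dc2452a2ebcb117.shift 0 1), rhe9c01a7dbb50c448] (by decide +kernel))
noncomputable def rhf771e1bb7545b213 : CRef := CRef.mk (Pat.mk 0x200000003800000040 0x370000003e00000060 4 7) 0 0 (step_sound _ 34 [(rh96851dee118c1ba3.shift 2 0), (rhf015c446b680a84f.shift 0 1)] (by decide +kernel))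
noncomputable def rh7f7f452162bb4343 : CRef := CRef.mk (Pat.mk 0xc0000001400000014 0x3c0000007f00000036 4 7) 0 0 (step_sound _ 35 [rh94cd0b26ab2bc2ec, (rha9e1a5d55b907abf.shift 1 0)] (by decide +kernel))
noncomputable def rh69e34d8d2adf91b6 : CRef := CRef.mk (Pat.mk 0x400000006000000080000000a00000000 0x200000006000000060000007c0000001f00000006 4 7) 0 0 (step_sound _ 34 [rh1feba9f2cf2f1c4f, (rha11dfd15f08f96e3.shift 0 1), (rhfff8953c7af09ce5.shift 1 0)] (by decide +kernel))
noncomputable def rh37dc721e4cd708f5 : CRef := CRef.mk (Pat.mk 0x800000008000000100000001400000004 0x800000008000000380000003e00000007 4 6) 0 0 (step_sound _ 35 [(rh3c88ce959c0e423f.shift 2 0), rhac0df7784cc7c3dd] (by decide +kernel))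
noncomputable def rha214880861f65972 : CRef := CRef.mk (Pat.mk 0x4000000060000001c0000000000000000 0x4000000070000001e0000003300000002 4 6) 0 0 (step_sound _ 65 [(rh3244c3cc8379b070.shift 0 2), rha12011b5de94d698] (by decide +kernel))
noncomputable def rhe47ad95e5e7ab725 : CRef := CRef.mk (Pat.mk 0xc00000018000000040000000c00000000 0x40000000c000000180000000f0000003c00000010 4 6) 0 0 (step_sound _ 67 [(rh50fbb5868c909700.shift 2 1), rh795ab08ece2a7e70] (by decide +kernel))
noncomputable def rh63a11a4b4e5b135a : CRef := CRef.mk (Pat.mk 0x8000000180000000c0000000800000000 0x8000000180000001f0000007800000010 4 7) 0 0 (step_sound _ 36 [(rh306a42e42f9fab94.shift 0 1), (rh55afc6a59410cf00.shift 3 0)] (by decide +kernel))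
noncomputable def rhc0f560288a33232a : CRef := CRef.mk (Pat.mk 0x40000000c0000001c000000080000000000000000 0x60000000f0000001c0000000f0000000600000004 4 5) 0 0 (step_sound _ 129 [rh65110719f316d635, (rhb739f4f82bb681b4.shift 0 3)] (by decide +kernel))
noncomputable def rh705621acdcab9361 : CRef := CRef.mk (Pat.mk 0x160000001e000000120000000000000000 0x10000000160000001e0000001e0000000b0000000b 4 5) 0 0 (step_sound _ 33 [(rh71222050f2c63a3a.shift 1 0), rha5bd2cf73a1a3cc2] (by decide +kernel))
noncomputable def rhcfea58ebbf2bcb76 : CRef := CRef.mk (Pat.mk 0xe0000000c0000000000000000 0x400000006000000070000003e0000000c0000000c00000004 4 6) 0 0 (step_sound _ 130 [(rh3e595262c1b737ad.shift 2 1), rh77e5fdcadba6b29b] (by decide +kernel))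
noncomputable def rhd39e3da1b0275b35 : CRef := CRef.mk (Pat.mk 0xe0000002c00000004 0x200000002000000070000007e0000006c00000004 4 7) 0 0 (step_sound _ 68 [rh1c1037cb5b3fe471, (rhbca71ab025ef4262.shift 2 1)] (by decide +kernel))
noncomputable def rh47e47b59287f9e68 : CRef := CRef.mk (Pat.mk 0xc0000000c000000080000001c 0x20000000f0000003c0000000f0000003c 4 6) 0 0 (step_sound _ 34 [rhcf85c92937975d4d, rhe2b63c00a3d7bb73] (by decide +kernel))
noncomputable def rh8cb8ab6bfb93f3cd : CRef := CRef.mk (Pat.mk 0x380000001800000010 0x20000000670000003f0000007800000010 4 7) 0 0 (step_sound _ 66 [(rh6292bd8784ece55f.shift 1 1), (rha4c5bcb51a1da0a7.shift 2 0), (rhba89ab7cb81bcc90.shift 0 1)] (by decide +kernel))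
noncomputable def rh261ac0702d026a41 : CRef := CRef.mk (Pat.mk 0x16000000060000000000000000 0x2000000030000003e000000060000000400000004 4 6) 0 0 (step_sound _ 99 [(rh18965a982d73c794.shift 1 2), rh38a0850c9fea941e] (by decide +kernel))
noncomputable def rhfbbd9f4aeabe2d93 : CRef := CRef.mk (Pat.mk 0x500000006000000040000000400000000 0x70000000700000006000000060000000600000002 4 3) 0 0 (step_sound _ 129 [rh474875b2ab064539, (rh50fbb5868c909700.shift 1 1)] (by decide +kernel))
noncomputable def rh900f07d1e6974715 : CRef := CRef.mk (Pat.mk 0x20000000300000002000000000000000000000000 0x300000003000000030000000300000003000000070000000700000005 4 3) 0 0 (step_sound _ 65 [rh3181373a30ceb9e3, (rh54588a0e2fea852b.shift 0 2), (rhe286c75f2739cce2.shift 0 1)] (by decide +kernel))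
noncomputable def rhcc1f77eb9b2a8c60 : CRef := CRef.mk (Pat.mk 0x1e00000018000000100000001000000000 0x100000001e0000001f000000300000003000000020 4 6) 0 0 (step_sound _ 97 [(rh7c428581aba4179a.shift 1 0), (rheb0810cc63b001d8.shift 0 3)] (by decide +kernel))
noncomputable def rh24d5823cf79f1eda : CRef := CRef.mk (Pat.mk 0x10000000100000001c0000003800000000 0x800000018000000180000003c0000003f00000006 4 6) 0 0 (step_sound _ 131 [rh1fd20a13d8f3d911, (rh50fbb5868c909700.shift 3 1)] (by decide +kernel))
noncomputable def rh0cf13ccc76a23a72 : CRef := CRef.mk (Pat.mk 0x300000003000000020000000200000000 0x20000000300000003000000070000000700000005 4 3) 0 0 (step_sound _ 32 [rh6d6a0652e9c3c7b2, rh932754581e0f4330] (by decide +kernel))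
noncomputable def rha720a20fa508ed70 : CRef := CRef.mk (Pat.mk 0x40000000e000000090000000000000000 0x400000004000000060000001e0000000b0000000200000002 4 5) 0 0 (step_sound _ 162 [(rh2145e1d24b96a57e.shift 2 2), rh69663fdfdca7aa47] (by decide +kernel))
noncomputable def rh657816e8f8150543 : CRef := CRef.mk (Pat.mk 0x800000009000000030000000100000000 0x30000001f0000000f000000030000000300000003 4 5) 0 0 (step_sound _ 129 [rh31b38292d63be68c, rh4dec404a6c0e229a, rh5fcbac5b57173fc5] (by decide +kernel))
noncomputable def rh3f1a214c47151a18 : CRef := CRef.mk (Pat.mk 0x1c0000001c000000000000000000000000 0x8000000180000001c0000003c0000000f0000000c00000008 4 6) 0 0 (step_sound _ 67 [(rh121d72762dcc521e.shift 0 1), (rhea7a1800d6f053bd.shift 3 0)] (by decide +kernel))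
noncomputable def rh5094583ce639ab92 : CRef := CRef.mk (Pat.mk 0x60000000e0000000400000000 0x600000006000000060000000f0000003c00000008 4 6) 0 0 (step_sound _ 129 [(rh2145e1d24b96a57e.shift 1 1), rh50a5beddcac715f2] (by decide +kernel))
noncomputable def rhc07eadf8f1b2b776 : CRef := CRef.mk (Pat.mk 0xe0000000c00000008 0xc0000001c0000001c0000000f0000000c00000008 4 5) 0 0 (step_sound _ 130 [rh6d34234edcb0e9c5, (rh6f1cbe15c631ee70.shift 2 0)] (by decide +kernel))
noncomputable def rh53775b89502d99fc : CRef := CRef.mk (Pat.mk 0xa00000018000000080000000000000000 0x140000001f00000018000000080000000800000008 4 5) 0 0 (step_sound _ 130 [(rh668fc65514a55b16.shift 2 0), (rhb739f4f82bb681b4.shift 0 3)] (by decide +kernel))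
noncomputable def rhe9bbc1b5dd74d452 : CRef := CRef.mk (Pat.mk 0xa0000000a0000000e0000000400000000 0x140000001e0000000b0000000e0000003c00000010 4 6) 0 0 (step_sound _ 35 [(rh42afa1af9fffa0e1.shift 1 0), (rh9258736a7488cc35.shift 0 1)] (by decide +kernel))
noncomputable def rh3a298edabae1d8a9 : CRef := CRef.mk (Pat.mk 0x20000001e00000004 0x60000007f0000003c 4 7) 0 0 (step_sound _ 4 [rh6504b43a833200bd, (rhe25b0a99195a5d59.shift 1 0)] (by decide +kernel))
noncomputable def rh506e99e83de2df76 : CRef := CRef.mk (Pat.mk 0x800000008000000380000001000000000 0x40000000c0000000f0000003c0000001e0000000c 4 6) 0 0 (step_sound _ 98 [(rh64fc1037460b24cb.shift 1 0), (rhdbcea10a0fbe5ba6.shift 0 2)] (by decide +kernel))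
noncomputable def rh4782abd61b9a3d45 : CRef := CRef.mk (Pat.mk 0x3c00000020 0x70000003e00000036 4 6) 0 0 (step_sound _ 2 [rhd1d05263fabc0227, (rheb0810cc63b001d8.shift 1 0)] (by decide +kernel))
noncomputable def rh056e22229039a847 : CRef := CRef.mk (Pat.mk 0x180000007000000040 0x380000007f000000e0 4 8) 0 0 (step_sound _ 35 [rh6febad34ef473bb0, (rhe25b0a99195a5d59.shift 3 0)] (by decide +kernel))
noncomputable def rh258b7dca9701fce8 : CRef := CRef.mk (Pat.mk 0x60000001c0000001800000000 0x400000004000000060000001f0000001b00000002 4 5) 0 0 (step_sound _ 65 [rh031a926e4a883687, (rhb739f4f82bb681b4.shift 0 1)] (by decide +kernel))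
noncomputable def rh838edc2c8f476783 : CRef := CRef.mk (Pat.mk 0x20000000300000003000000000000000000000000 0x300000003000000030000000300000003000000060000000600000006 4 3) 0 0 (step_sound _ 65 [(rh7f9f3607ee25a93b.shift 0 2), rh820d4e04d5dcd02e, (rhfc7c29d8e65d775f.shift 0 1)] (by decide +kernel))
noncomputable def rhcef88e803adbe95a : CRef := CRef.mk (Pat.mk 0x1000000070000000400000002000000000000000000000000 0x5000000070000000600000006000000060000000200000002 4 3) 0 0 (step_sound _ 65 [(rh2613c889e411427e.shift 0 2), (rhe83f0679b86b6627.shift 1 0)] (by decide +kernel))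
noncomputable def rh45d5f06ce553d0e6 : CRef := CRef.mk (Pat.mk 0x100000007000000040000000200000000 0x30000000300000007000000060000000600000006 4 3) 0 0 (step_sound _ 65 [rh5410b6b3ceda500c, rh7b1f1fb55310c477] (by decide +kernel))
noncomputable def rh2f5d55553ef9d862 : CRef := CRef.mk (Pat.mk 0x20000001c0000000200000000 0x400000004000000070000003e0000000200000002 4 6) 0 0 (step_sound _ 65 [(rh3244c3cc8379b070.shift 0 2), (rhc333e2570e2bbdf1.shift 1 0)] (by decide +kernel))
noncomputable def rh5245f99ce672d8bb : CRef := CRef.mk (Pat.mk 0x60000001e00000008 0x10000000300000003e0000001f00000008 4 6) 0 0 (step_sound _ 68 [(rh33e738c4ed385b9f.shift 1 1), rha24a3fde0708dec3] (by decide +kernel))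
noncomputable def rhbe8c356d17dc96f3 : CRef := CRef.mk (Pat.mk 0x1000000010000000f00000007000000000000000000000000 0x2000000030000000b0000000f00000007000000040000000400000004 4 4) 0 0 (step_sound _ 193 [(rh2f68792b6b779e96.shift 0 3), (rh3ac99ece063cfa76.shift 1 0)] (by decide +kernel))
noncomputable def rh62233c53af25a97b : CRef := CRef.mk (Pat.mk 0x100000001000000038000000000000000000000000 0x100000001c000000fc0000000f0000000800000008 4 8) 0 0 (step_sound _ 67 [(rh2820ca9a6c4f41b4.shift 0 2), (rh9a33a75377996d5b.shift 2 0), (rha83d0a1d851c6a27.shift 2 2), (rhf9af042da61fc652.shift 3 0)] (by decide +kernel))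
noncomputable def rh59636db2c2de9a7b : CRef := CRef.mk (Pat.mk 0x8000000380000001c0000000000000000 0xf0000003f0000007c0000000600000004 4 7) 0 0 (step_sound _ 98 [(rhba89ab7cb81bcc90.shift 0 2), (rhe2b63c00a3d7bb73.shift 0 2), (rhf32f861d69cb038f.shift 1 0)] (by decide +kernel))
noncomputable def rh7f14bdde6f929701 : CRef := CRef.mk (Pat.mk 0x1c0000000e000000180000000800000000 0x1f0000003e0000001b0000000f00000006 4 6) 0 0 (step_sound _ 65 [(rh40a75c5438d80330.shift 0 2), rh7a5caf50380aa00f] (by decide +kernel))
noncomputable def rhe77dc4789bb0bb98 : CRef := CRef.mk (Pat.mk 0x300000007000000060000000000000000 0x6000000060000000700000007000000060000000200000002 4 3) 0 0 (step_sound _ 33 [rh7b1f1fb55310c477, (rhc45960fcf2a66b44.shift 1 1)] (by decide +kernel))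
noncomputable def rh835465ca3bbbfd42 : CRef := CRef.mk (Pat.mk 0x4000000000000000200000002000000020000000000000000 0x500000007000000030000000200000006000000070000000700000005 4 3) 0 0 (step_sound _ 161 [rh3181373a30ceb9e3, (rh76a03e5c89c078ed.shift 0 2), (rhae770c7baa4b41bb.shift 1 1)] (by decide +kernel))
noncomputable def rheb55271ca11500c6 : CRef := CRef.mk (Pat.mk 0x2000000020000000200000006 0x10000000300000003000000020000000700000007 4 3) 0 0 (step_sound _ 129 [rhb8ab8e37ebf1e90d, (rhd3458b32566d63f7.shift 1 0)] (by decide +kernel))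
noncomputable def rhdfe5b77ce29d6f71 : CRef := CRef.mk (Pat.mk 0xc0000000c0000001800000008 0x100000003c0000000f0000007800000008 4 7) 0 0 (step_sound _ 37 [rhc0ddb33d3a52722b, (rhf48373e13d2bc128.shift 2 1)] (by decide +kernel))
noncomputable def rhd55277563daa595c : CRef := CRef.mk (Pat.mk 0x20000001a0000001c00000000 0x8000000080000000f0000001e0000003c00000014 4 6) 0 0 (step_sound _ 99 [rh017613c6b92cc082, (rh7174a5174d2fbf5b.shift 0 1), (rhde10baa3043a2b46.shift 2 0)] (by decide +kernel))
noncomputable def rhf4a027896f099533 : CRef := CRef.mk (Pat.mk 0x7000000040000000c 0xa0000000e0000001e000000070000000c0000000c 4 5) 0 0 (step_sound _ 98 [rh4017de503635a93b, (rh65909b08999dc522.shift 1 0), (rh73f605273a09a9d0.shift 2 0)] (by decide +kernel))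
noncomputable def rh43961ab818d1382a : CRef := CRef.mk (Pat.mk 0x6000000030000001800000000 0x4000000040000000600000006000000030000001e00000002 4 5) 0 0 (step_sound _ 33 [(rh215e11e099257d75.shift 1 0), (rh5419adcd928dba20.shift 0 1)] (by decide +kernel))
noncomputable def rhf5000754eb4cf13a : CRef := CRef.mk (Pat.mk 0x1c0000001200000030 0x30000003e0000001f00000030 4 6) 0 0 (step_sound _ 65 [rh27a77b5882fcda43, (rheb0810cc63b001d8.shift 0 1)] (by decide +kernel))
noncomputable def rh0d3fb7d67dbd7480 : CRef := CRef.mk (Pat.mk 0x400000007000000040000000000000000 0x80000003e0000000f000000040000000400000004 4 6) 0 0 (step_sound _ 131 [(rh572132728df34c43.shift 0 3), (rh80f90a60d87caa0d.shift 0 3), (rh9bb5c7e5c08d4582.shift 1 0)] (by decide +kernel))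
noncomputable def rh5faad4c20e3aad11 : CRef := CRef.mk (Pat.mk 0x8000000080000001c0000000800000000 0x40000000c0000000f0000003c0000000800000008 4 6) 0 0 (step_sound _ 130 [(rh50fbb5868c909700.shift 2 1), rhb6024e57ddebfb90] (by decide +kernel))
noncomputable def rh3e471ba87cfd720c : CRef := CRef.mk (Pat.mk 0x40000000c00000007000000040000000000000000 0x40000000c0000000c0000000f0000001c0000000400000004 4 5) 0 0 (step_sound _ 34 [(rh2f68792b6b779e96.shift 2 1), rh83863495db9839d3] (by decide +kernel))
noncomputable def rh1a8ae9197b778af9 : CRef := CRef.mk (Pat.mk 0x40000001c000000040000000000000000 0xa0000000f0000001e000000040000000400000004 4 5) 0 0 (step_sound _ 34 [(rh039efe07c35de3d4.shift 0 1), rh29245de5933fbe8d, (rha707fb719e87fe6e.shift 2 0)] (by decide +kernel))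
noncomputable def rh867f6cba49450cc2 : CRef := CRef.mk (Pat.mk 0x40000000c00000007000000000000000000000000 0x80000000c0000000c0000000f0000001e0000000c00000008 4 5) 0 0 (step_sound _ 66 [(rh301a6b3a9154ed36.shift 2 0), (rh548ca695070b4cbb.shift 0 1), (rha707fb719e87fe6e.shift 2 1)] (by decide +kernel))
noncomputable def rhee179f52d21ca1dd : CRef := CRef.mk (Pat.mk 0x2000000020000000300000000 0x20000000200000002000000070000000700000005 4 3) 0 0 (step_sound _ 129 [rh932754581e0f4330, rhf3cdd189c46cffe9] (by decide +kernel))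
noncomputable def rha9a2a0ffcd796dd3 : CRef := CRef.mk (Pat.mk 0x4000000040000000e000000000000000000000000 0x4000000040000001f0000007c0000000800000008 4 7) 0 0 (step_sound _ 67 [(rh79ad7b82ec8c35e2.shift 2 0), (rh8ee80cc30e93a344.shift 0 2), (rhc21a95c499b3efdb.shift 0 2)] (by decide +kernel))
noncomputable def rhbd9b1796f733003a : CRef := CRef.mk (Pat.mk 0x4000000000000001c0000000e00000000 0x4000000040000001f0000003e00000003 4 6) 0 0 (step_sound _ 1 [rh40a75c5438d80330, (rhee230b994cc8b773.shift 1 0)] (by decide +kernel))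
noncomputable def rh584fe6ab0ae51ce0 : CRef := CRef.mk (Pat.mk 0x10000000180000001c 0x300000001f0000003f 4 6) 0 0 (step_sound _ 1 [rh53b3c253cb0c65f4, rh870359598daa9f92] (by decide +kernel))
noncomputable def rh958722c130221f87 : CRef := CRef.mk (Pat.mk 0x3c000000080000000c 0x3e000000780000001f 4 7) 0 0 (step_sound _ 37 [rh82447fafbe275346, (rhe25b0a99195a5d59.shift 2 1)] (by decide +kernel))
noncomputable def rh2863a633550a101d : CRef := CRef.mk (Pat.mk 0x20000000a000000020000000f00000000 0x4000000060000000e0000001a0000000f00000018 4 5) 0 0 (step_sound _ 67 [(rh33e738c4ed385b9f.shift 0 1), rha0f2fdc7cc9552e9] (by decide +kernel))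
noncomputable def rh00dbae5ee7f1b6d5 : CRef := CRef.mk (Pat.mk 0x30000000a000000020000000200000000 0x40000001f0000001b000000020000000200000002 4 5) 0 0 (step_sound _ 96 [rh7b1f1fb55310c477, (rhfed57f23c5f345ee.shift 0 1)] (by decide +kernel))
noncomputable def rhddd04d66a09f5cd5 : CRef := CRef.mk (Pat.mk 0xa0000001c0000000c0000000000000000 0x1b0000001f0000001c0000000400000004 4 5) 0 0 (step_sound _ 97 [(rh3244c3cc8379b070.shift 0 3), rh42edf1d999055f4b] (by decide +kernel))
noncomputable def rh01bf07818f4f9d95 : CRef := CRef.mk (Pat.mk 0x2000000010000000b0000000300000000 0x2000000030000001b0000001f00000005 4 5) 0 0 (step_sound _ 97 [rh509847d0837ffcc5, rh71222050f2c63a3a] (by decide +kernel))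
noncomputable def rh7a38171ff6d06716 : CRef := CRef.mk (Pat.mk 0x400000004000000040000000e 0x600000006000000040000003c0000000f 4 6) 0 0 (step_sound _ 97 [(rh50fbb5868c909700.shift 1 0), rh90892cdc1810d809] (by decide +kernel))
noncomputable def rhab9de803f8db9bf5 : CRef := CRef.mk (Pat.mk 0x40000000e000000180000000c00000000 0x40000001e0000001b0000001f00000002 4 5) 0 0 (step_sound _ 33 [rh3d1e6d4570311f9e, (rh53b3c253cb0c65f4.shift 0 1)] (by decide +kernel))
noncomputable def rhd2da3f947de1a99e : CRef := CRef.mk (Pat.mk 0x30000000200000002000000020000000000000000 0x4000000070000000700000002000000020000000600000004 4 3) 0 0 (step_sound _ 33 [(rhf56fd0d89d35017f.shift 1 0), (rhffd04209dc8ea796.shift 0 1)] (by decide +kernel))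
noncomputable def rh6cd1a6e674c008c8 : CRef := CRef.mk (Pat.mk 0x40000000e000000030000000600000000 0x40000000f0000001b0000001f00000008 4 5) 0 0 (step_sound _ 35 [rh2fec87a3badbb505, (rhf48373e13d2bc128.shift 0 1)] (by decide +kernel))
noncomputable def rh6f10b04c59adcc25 : CRef := CRef.mk (Pat.mk 0x2000000030000000600000000 0x20000000200000002000000030000001f00000005 4 5) 0 0 (step_sound _ 35 [rhb23658ecdd7ce5df, (rhf48373e13d2bc128.shift 0 1)] (by decide +kernel))
noncomputable def rh8ba6ef9bea29e42f : CRef := CRef.mk (Pat.mk 0x180000001c0000000400000004 0x2000000020000001f0000001f0000000400000004 4 5) 0 0 (step_sound _ 65 [rh1c1037cb5b3fe471, (rh53b3c253cb0c65f4.shift 0 2)] (by decide +kernel))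
noncomputable def rh7d6af398f14dc945 : CRef := CRef.mk (Pat.mk 0xc0000001c0000000c0000000c00000000 0xc0000007c0000003c0000000f00000002 4 7) 0 0 (step_sound _ 101 [rha71afc656c87d410, (rhf48373e13d2bc128.shift 2 3)] (by decide +kernel))
noncomputable def rhcc7c8974a8ca1fc5 : CRef := CRef.mk (Pat.mk 0x2000000000000000e00000004 0x200000002000000070000003e00000006 4 6) 0 0 (step_sound _ 65 [(rh2145e1d24b96a57e.shift 1 0), rh46231ab7bfd17f40] (by decide +kernel))
noncomputable def rhcf83eca7035b3d24 : CRef := CRef.mk (Pat.mk 0x8000000180000000e0000000400000000 0x20000000f0000001f0000001e0000003400000010 4 6) 0 0 (step_sound _ 97 [(rh2f32edc41b016dfb.shift 0 1), rhb9784ff7a7632a57] (by decide +kernel))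
noncomputable def rh1507673aaa3ee9f0 : CRef := CRef.mk (Pat.mk 0x200000000000000060000000300000000 0x1000000030000000300000002000000060000000700000001 4 3) 0 0 (step_sound _ 97 [(rh812b908590c67662.shift 0 1), rh932754581e0f4330] (by decide +kernel))
noncomputable def rh87bfe8c45160c93d : CRef := CRef.mk (Pat.mk 0x1e0000000000000004 0x2000000030000003e0000000700000004 4 6) 0 0 (step_sound _ 97 [(rh3244c3cc8379b070.shift 0 2), rhbfd59a9d237b5d33] (by decide +kernel))
noncomputable def rhcdee6bd3ac30bbd9 : CRef := CRef.mk (Pat.mk 0x1e0000000000000004 0x2000000030000003e0000000700000004 4 6) 0 0 (step_sound _ 33 [rh81c595efb4a141de, (rheb0810cc63b001d8.shift 0 1)] (by decide +kernel))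
noncomputable def rh194191abb0721b79 : CRef := CRef.mk (Pat.mk 0x4000000140000000e00000004 0xa0000000f0000001c0000000f00000004 4 5) 0 0 (step_sound _ 67 [rh039efe07c35de3d4, (rh53b3c253cb0c65f4.shift 0 1)] (by decide +kernel))
noncomputable def rh30bb26c24d1addac : CRef := CRef.mk (Pat.mk 0x6000000160000000200000000 0x200000002000000060000001e0000000700000005 4 5) 0 0 (step_sound _ 32 [rh2fd9b57482dec4c7, (rh361cc68994bd8a63.shift 0 1)] (by decide +kernel))
noncomputable def rh560c43f945219ddc : CRef := CRef.mk (Pat.mk 0x1000000010000000380000000c00000000 0x10000000770000003e0000007c00000020 4 7) 0 0 (step_sound _ 66 [(rh503775339733bab1.shift 0 2), (rhbeb5eed1bc42fe9e.shift 1 0), (rhd9d24126aeab6b6e.shift 2 0)] (by decide +kernel))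
noncomputable def rh325d3fb14cddc1a8 : CRef := CRef.mk (Pat.mk 0x400000004000000070000000400000000 0x20000000600000004000000070000003e00000008 4 6) 0 0 (step_sound _ 129 [(rh50fbb5868c909700.shift 1 1), rhb0c6196f710d9a93] (by decide +kernel))
noncomputable def rh307d9d56a8a305e7 : CRef := CRef.mk (Pat.mk 0xc000000180000000e00000000 0xa0000000f0000001e0000000e00000004 4 5) 0 0 (step_sound _ 2 [rh3cb659a608caaffd, (rh5c5e593799055d58.shift 2 0)] (by decide +kernel))
noncomputable def rhf5e626eff880154e : CRef := CRef.mk (Pat.mk 0x80000001c000000060000000400000000 0x60000000f0000001c0000000e0000000e00000008 4 5) 0 0 (step_sound _ 130 [(rh277b01412deaec89.shift 0 1), (rh871caa7606de9ca4.shift 1 0)] (by decide +kernel))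
noncomputable def rh7587ec2175ea55ef : CRef := CRef.mk (Pat.mk 0x1c000000180000000600000000 0x30000001f0000001b0000000600000004 4 5) 0 0 (step_sound _ 97 [rh71bbb00ef1ecd8fb, (rhb739f4f82bb681b4.shift 0 2)] (by decide +kernel))
noncomputable def rhadab13ee164016a4 : CRef := CRef.mk (Pat.mk 0x180000001e000000080000000000000000 0x40000001f0000003e000000080000000800000008 4 6) 0 0 (step_sound _ 129 [(rh3244c3cc8379b070.shift 0 3), (rhf6fff0a0106273a3.shift 1 0)] (by decide +kernel))
noncomputable def rh5172c33c97baa9af : CRef := CRef.mk (Pat.mk 0x1e0000001e0000000000000000 0x10000000300000001e0000001e0000000b00000008 4 6) 0 0 (step_sound _ 33 [(rh34b1188e635efc8d.shift 1 0), (rheb0810cc63b001d8.shift 0 1)] (by decide +kernel))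
noncomputable def rhebc45ca4f57d7165 : CRef := CRef.mk (Pat.mk 0x20000000200000003000000030000000000000000 0x30000000300000003000000070000000600000006 4 3) 0 0 (step_sound _ 34 [rh1f9575ddd12aac7f, (rhd3458b32566d63f7.shift 1 1)] (by decide +kernel))
noncomputable def rh98e1de167cad9425 : CRef := CRef.mk (Pat.mk 0x2000000020000000300000002 0x10000000700000007000000020000000300000003 4 3) 0 0 (step_sound _ 98 [(rh2f68792b6b779e96.shift 1 0), rhd2c74283b7b6e6b8] (by decide +kernel))
noncomputable def rh8a521bccc06c533e : CRef := CRef.mk (Pat.mk 0x10000000100000001c0000000000000000 0x1000000010000000100000001f0000003800000008 4 6) 0 0 (step_sound _ 35 [(rh5c5e593799055d58.shift 3 1), rh96d0f6edf2b9ef9e] (by decide +kernel))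
noncomputable def rh883c8f798b36c961 : CRef := CRef.mk (Pat.mk 0x8000000080000001c0000001000000000 0x8000000080000003c0000001f00000014 4 6) 0 0 (step_sound _ 35 [(rh55afc6a59410cf00.shift 3 0), rhd65e52c5f80caa3b] (by decide +kernel))
noncomputable def rh17cc9de06e10e505 : CRef := CRef.mk (Pat.mk 0x380000001000000010 0x8000000080000000f0000007c0000001e00000010 4 7) 0 0 (step_sound _ 99 [(rh960a8f47a8f1fa0e.shift 1 0), (rha9fbfd4bb8cf890b.shift 0 2), (rhe072fffdd2fccf38.shift 3 0)] (by decide +kernel))
noncomputable def rh9688f1ad5c9f5013 : CRef := CRef.mk (Pat.mk 0x400000004000000060000000600000000 0x20000000600000004000000070000003e00000008 4 6) 0 0 (step_sound _ 129 [rh36d4d92ef3dad5f8, (rh50fbb5868c909700.shift 1 1)] (by decide +kernel))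
noncomputable def rhf1ad75e01735842b : CRef := CRef.mk (Pat.mk 0x100000001e000000160000000400000000 0x180000001f000000160000003c00000018 4 6) 0 0 (step_sound _ 131 [(rh53b3c253cb0c65f4.shift 0 3), (rhf4567e835eb18e9f.shift 1 0)] (by decide +kernel))
noncomputable def rh0cc012cde8209369 : CRef := CRef.mk (Pat.mk 0x180000001e0000001a0000000000000000 0x1b0000001e0000001e0000003000000030 4 6) 0 0 (step_sound _ 129 [(rh3244c3cc8379b070.shift 0 3), (rhf43dfd17fa5ce038.shift 1 0)] (by decide +kernel))
noncomputable def rh782bd1fe812dc152 : CRef := CRef.mk (Pat.mk 0x1000000050000000700000004000000000000000000000000 0x50000000700000007000000070000000e0000000e00000008 4 4) 0 0 (step_sound _ 66 [(rh4514ead16d6f2716.shift 0 1), (rh5c651669912fbab1.shift 1 0), (rhd17f42765bd42cb9.shift 0 1)] (by decide +kernel))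
noncomputable def rh34ff5d56432b202d : CRef := CRef.mk (Pat.mk 0x8000000080000001c000000060000000000000000 0x8000000180000001f0000003e0000001000000010 4 6) 0 0 (step_sound _ 68 [(rh08edf065357d68e5.shift 3 0), (rh251facab2e282844.shift 0 2), (rh74e4bfc809064557.shift 0 1)] (by decide +kernel))
noncomputable def rh61b725029d14f28c : CRef := CRef.mk (Pat.mk 0x200000001000000010000000000000000 0x200000002000000030000000300000003000000030000000100000001 4 2) 0 0 (step_sound _ 161 [rh53c798c09177b7db, (rh751f91025c6ba4fe.shift 0 2), (rhb8e5b18824fc4c63.shift 0 1), (rhd918c3fd221dc9f8.shift 0 1), rhe83f0679b86b6627] (by decide +kernel))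
noncomputable def rhd2c60c0a497faff6 : CRef := CRef.mk (Pat.mk 0x20000000e00000004 0x730000003e00000006 4 7) 0 0 (step_sound _ 36 [(rh3244c3cc8379b070.shift 0 1), (rh62a51e5e348b9e49.shift 1 0)] (by decide +kernel))
noncomputable def rhd9126a23a67e265c : CRef := CRef.mk (Pat.mk 0x4000000040000000e000000000000000000000000 0x4000000040000001f0000007c0000000800000008 4 7) 0 0 (step_sound _ 67 [(rh79ad7b82ec8c35e2.shift 2 0), (rh8ee80cc30e93a344.shift 0 2)] (by decide +kernel))
noncomputable def rh501cc80bdbe726b2 : CRef := CRef.mk (Pat.mk 0x80000000300000006000000040000000000000000 0x8000000080000000b0000001e0000000c0000000400000004 4 5) 0 0 (step_sound _ 99 [(rh61ebbcc17f085e4b.shift 1 0), (rhf48373e13d2bc128.shift 0 3)] (by decide +kernel))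
noncomputable def rheec59a2749f6e5f0 : CRef := CRef.mk (Pat.mk 0x4000000060000000c0000000400000000 0x4000000060000003c0000000f0000000a 4 6) 0 0 (step_sound _ 33 [(rh932754581e0f4330.shift 1 0), rh95fee234f7aa02de] (by decide +kernel))
noncomputable def rh2ffd7ddfa1630cfb : CRef := CRef.mk (Pat.mk 0xc0000000e000000040000000e 0x100000003c0000000e0000003c0000000f 4 6) 0 0 (step_sound _ 100 [(rh18965a982d73c794.shift 1 2), rh359c76cd77660eeb] (by decide +kernel))
noncomputable def rhe145f3af56ef93f3 : CRef := CRef.mk (Pat.mk 0xc0000000c0000000c0000000c00000000 0x100000003c0000000f0000000c0000000e00000002 4 6) 0 0 (step_sound _ 33 [(rh932754581e0f4330.shift 1 0), (rhc0ddb33d3a52722b.shift 0 1)] (by decide +kernel))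
noncomputable def rh9f5561334d1b39b7 : CRef := CRef.mk (Pat.mk 0x8000000080000000c0000001e00000000 0x40000000c0000000c0000000f0000001e0000000a 4 5) 0 0 (step_sound _ 65 [(rh18b49738f4e5d343.shift 1 0), (rh3244c3cc8379b070.shift 0 1)] (by decide +kernel))
noncomputable def rh97bfcfad088be050 : CRef := CRef.mk (Pat.mk 0x40000001c000000040000000000000000 0xa0000000f0000001e000000040000000400000004 4 5) 0 0 (step_sound _ 34 [rh29245de5933fbe8d, (rha707fb719e87fe6e.shift 2 0), (rhcf02561c3c7740f4.shift 0 1)] (by decide +kernel))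
noncomputable def rh060ebf26fa7b77f6 : CRef := CRef.mk (Pat.mk 0x100000000e000000100000000000000000 0x10000000100000001f000000380000000800000008 4 6) 0 0 (step_sound _ 100 [rh525b9792321e9079, (rhe25b0a99195a5d59.shift 1 2)] (by decide +kernel))
noncomputable def rhc0fa617a4da4b195 : CRef := CRef.mk (Pat.mk 0xf000000010000000000000000 0x200000002000000030000001f000000030000000100000001 4 5) 0 0 (step_sound _ 129 [(rh7b030ba967bf927e.shift 0 2), rhc5254222bec83b98, rhf9366b6a121593ef] (by decide +kernel))
noncomputable def rhc07034f2f4840cd9 : CRef := CRef.mk (Pat.mk 0x10000000f000000000000000000000000 0x100000001000000030000001f000000030000000200000002 4 5) 0 0 (step_sound _ 65 [(rh795d3e5d420177aa.shift 0 2), rha40d42a2e34c408d, rhe9e82c27a30d00af] (by decide +kernel))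
noncomputable def rh23332ef26eafbb48 : CRef := CRef.mk (Pat.mk 0x2000000020000000700000003000000000000000000000000 0x100000003000000070000000700000003000000020000000200000002 4 3) 0 0 (step_sound _ 192 [rh0ae292353e3e84d9, (rh50fbb5868c909700.shift 0 3)] (by decide +kernel))
noncomputable def rha61552900fcb9c16 : CRef := CRef.mk (Pat.mk 0x80000000300000018000000000000000000000000 0x8000000080000001f00000018000000100000001000000010 4 5) 0 0 (step_sound _ 131 [(rh046c5eb18e55a239.shift 3 0), (rhc10214bf3fe8094a.shift 0 3)] (by decide +kernel))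
noncomputable def rh14fee18525a2908c : CRef := CRef.mk (Pat.mk 0x40000000e000000030000000a0000000000000000 0xc0000000e000000070000001e0000000c00000004 4 5) 0 0 (step_sound _ 66 [(rha2ee7f8de84eaea3.shift 1 0), (rhf48373e13d2bc128.shift 0 2)] (by decide +kernel))
noncomputable def rhe51b589a77e9e460 : CRef := CRef.mk (Pat.mk 0xc000000080000000c0000000400000000 0x6000000060000000f0000003c0000000e0000000600000002 4 6) 0 0 (step_sound _ 98 [(rh7b9fbdf6d2d059e4.shift 1 1), (rh925a1628dd8a50da.shift 1 0), (rhcf85c92937975d4d.shift 0 1)] (by decide +kernel))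
noncomputable def rhbdbb8fa5d5d8c328 : CRef := CRef.mk (Pat.mk 0x1c0000000e000000000000000000000000 0x80000001f0000003e000000300000001000000010 4 6) 0 0 (step_sound _ 100 [(rh73aed199c1a62ed4.shift 0 3), (rhbbe16ff26f7822db.shift 1 0)] (by decide +kernel))
noncomputable def rhfda53859b312fb22 : CRef := CRef.mk (Pat.mk 0x4000000080000003800000008 0x4000000040000000c0000001f0000003800000008 4 6) 0 0 (step_sound _ 130 [(rh14797f579c71ecb3.shift 0 1), (rhcfdf45280693d3da.shift 2 0)] (by decide +kernel))
noncomputable def rh220150d46e3802c8 : CRef := CRef.mk (Pat.mk 0x1000000020000000600000002000000000000000000000000 0x1000000070000000600000002000000060000000600000004 4 3) 0 0 (step_sound _ 65 [(rh127b405bd7f7b930.shift 1 0), (rhffd04209dc8ea796.shift 0 2)] (by decide +kernel))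
noncomputable def rh2f169b62b92f842d : CRef := CRef.mk (Pat.mk 0x6000000070000000100000000 0x60000000600000006000000070000000300000003 4 3) 0 0 (step_sound _ 129 [(rh5c5e593799055d58.shift 0 1), rh5e5c8b8743d45333] (by decide +kernel))
noncomputable def rh5f59ce465f9d3e25 : CRef := CRef.mk (Pat.mk 0x1e000000160000000000000000 0x8000000380000001f0000001e0000003000000020 4 6) 0 0 (step_sound _ 132 [(rh33e738c4ed385b9f.shift 1 3), rhada49c4b24f94ffc] (by decide +kernel))
noncomputable def rhb0ba97b7a9e603db : CRef := CRef.mk (Pat.mk 0x6000000070000000a 0x400000004000000060000003f0000001b 4 6) 0 0 (step_sound _ 35 [rh12ed2c51e5082423, rhe25b0a99195a5d59] (by decide +kernel))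
noncomputable def rh494a6335a3a1445a : CRef := CRef.mk (Pat.mk 0x1000000010000000180000000e00000000 0x80000001800000018000000180000003e00000037 4 6) 0 0 (step_sound _ 36 [(rh18b49738f4e5d343.shift 2 0), (rh2aa7c1d375387a4e.shift 1 0), rh6c5b90ba2a83bd67] (by decide +kernel))
noncomputable def rhf7a8bed0a1ea9d2a : CRef := CRef.mk (Pat.mk 0xc00000007000000040000000400000000 0x40000000c0000000f0000001c0000000c0000000c 4 5) 0 0 (step_sound _ 99 [rh25c13d8045594b98, (rh71222050f2c63a3a.shift 2 0)] (by decide +kernel))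
noncomputable def rh0985ba920b83ab44 : CRef := CRef.mk (Pat.mk 0x340000001c0000000000000000 0x4000000760000003f0000001c0000000800000008 4 7) 0 0 (step_sound _ 99 [(rh15c6bd118a09e701.shift 0 2), (rh38a0850c9fea941e.shift 1 0)] (by decide +kernel))
noncomputable def rhaf73b8e8519192b4 : CRef := CRef.mk (Pat.mk 0x10000000380000000c00000008 0x4000000770000003e0000000c00000008 4 7) 0 0 (step_sound _ 66 [(rh309fd0c3d364cd61.shift 1 0), (rh503775339733bab1.shift 0 2), (rhec46bd5500c722c9.shift 1 2)] (by decide +kernel))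
noncomputable def rh360de2d52098df7a : CRef := CRef.mk (Pat.mk 0x4000000040000000e000000000000000000000000 0x40000000c0000000f0000007c0000000800000008 4 7) 0 0 (step_sound _ 67 [(rh08edf065357d68e5.shift 2 0), (rh79ad7b82ec8c35e2.shift 2 0), (rhc21a95c499b3efdb.shift 0 2)] (by decide +kernel))
noncomputable def rh132b701239a98d7a : CRef := CRef.mk (Pat.mk 0xc000000180000000800000004 0x80000000c0000007c0000000f00000004 4 7) 0 0 (step_sound _ 34 [(rh5c5e593799055d58.shift 2 0), (rh95c7bf00a65f6c99.shift 0 1)] (by decide +kernel))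
noncomputable def rhd11c1e2b34ac059f : CRef := CRef.mk (Pat.mk 0x40000001c0000000600000000 0x200000002000000070000001e0000000700000004 4 5) 0 0 (step_sound _ 65 [rha3e1d11cef3fbde8, (rheb0810cc63b001d8.shift 0 1)] (by decide +kernel))
noncomputable def rh622a435b57d9fa58 : CRef := CRef.mk (Pat.mk 0x1a0000001e000000100000001000000000 0x4000000340000001e0000001e0000001b0000001a00000008 4 6) 0 0 (step_sound _ 130 [(rh031a926e4a883687.shift 0 1), (rh21e297ba020e9d20.shift 1 0), (rh474875b2ab064539.shift 2 0)] (by decide +kernel))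
noncomputable def rh53da26e47990748d : CRef := CRef.mk (Pat.mk 0x8000000080000000c00000018 0x40000000c000000080000001f00000078 4 7) 0 0 (step_sound _ 130 [rh4ca5dae25f5c14ff, (rhffd04209dc8ea796.shift 2 0)] (by decide +kernel))
noncomputable def rh763c912fff7511ee : CRef := CRef.mk (Pat.mk 0x8000000080000000c0000000800000000 0x800000008000000080000001f0000003800000010 4 6) 0 0 (step_sound _ 36 [(rh55afc6a59410cf00.shift 3 0), (rhdfd956e60f584dd5.shift 0 1)] (by decide +kernel))
noncomputable def rhd021823f79792fb4 : CRef := CRef.mk (Pat.mk 0x8000000080000001c000000060000000000000000 0x8000000380000001f0000003e0000001000000010 4 6) 0 0 (step_sound _ 68 [(rh08edf065357d68e5.shift 3 0), (rh3ce854f4a795c89f.shift 0 2), (rh5a736a18eaee4266.shift 0 1)] (by decide +kernel))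
noncomputable def rhecf45992c6df8765 : CRef := CRef.mk (Pat.mk 0xa0000001c0000000400000004 0x2000000020000003e0000001f0000000400000004 4 6) 0 0 (step_sound _ 129 [(rhb1a8617ce4d7cade.shift 0 1), (rhcfdf45280693d3da.shift 1 0)] (by decide +kernel))
noncomputable def rh24e4c8de3fcd983e : CRef := CRef.mk (Pat.mk 0x80000001e0000000800000008 0x40000000c0000007e0000000f00000008 4 7) 0 0 (step_sound _ 98 [(rh50fbb5868c909700.shift 2 0), (rh8a88abf038d31fd2.shift 0 1)] (by decide +kernel))
noncomputable def rhfb575fe29f306ecb : CRef := CRef.mk (Pat.mk 0x2000000120000001a000000120000000000000000 0x10000000b0000001e0000001a000000120000001000000010 4 5) 0 0 (step_sound _ 160 [(rh50fbb5868c909700.shift 0 2), rhd088636ec9c52751] (by decide +kernel))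
noncomputable def rh55fdb553fc38e587 : CRef := CRef.mk (Pat.mk 0x1c00000020 0x70000003e00000070 4 7) 0 0 (step_sound _ 33 [(rh96851dee118c1ba3.shift 1 0), rhe9e45df45a37d678] (by decide +kernel))
noncomputable def rhea511d651e81ee9a : CRef := CRef.mk (Pat.mk 0x800000038000000080000000800000000 0x40000000f0000003c000000080000001800000010 4 6) 0 0 (step_sound _ 36 [(rh53509d91ff78ed56.shift 0 1), (rh55afc6a59410cf00.shift 3 0)] (by decide +kernel))
noncomputable def rh27132d7fa65d0aa6 : CRef := CRef.mk (Pat.mk 0xf0000000c000000080000000000000000 0x180000000f0000000c0000000c0000000c0000000c 4 5) 0 0 (step_sound _ 163 [(rh33e738c4ed385b9f.shift 0 4), (rhbdf73b26f73f8159.shift 2 0)] (by decide +kernel))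
noncomputable def rh0a56e95103a190d5 : CRef := CRef.mk (Pat.mk 0x40000000700000006000000040000000000000000 0x4000000070000001e0000000c0000000c0000000c 4 5) 0 0 (step_sound _ 99 [(rh820d4e04d5dcd02e.shift 1 0), (rhf48373e13d2bc128.shift 0 3)] (by decide +kernel))
noncomputable def rhf88ddd6d2c12e77e : CRef := CRef.mk (Pat.mk 0x300000001c000000080000000800000000 0x2c0000003f0000003c000000180000001800000010 4 6) 0 0 (step_sound _ 131 [(rh8af9a32e61457eb0.shift 3 0), (rh8f2453f412d57a0e.shift 0 1)] (by decide +kernel))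
noncomputable def rhc046200cde9005a2 : CRef := CRef.mk (Pat.mk 0xc000000070000000c0000000000000000 0x80000000c000000070000003e0000000600000002 4 6) 0 0 (step_sound _ 34 [(rh2f68792b6b779e96.shift 2 1), rhfca4ee91d9e59fc6] (by decide +kernel))
noncomputable def rh5ec1f9073aef4c89 : CRef := CRef.mk (Pat.mk 0x800000008000000180000003000000004 0x80000000f0000003e0000003400000004 4 6) 0 0 (step_sound _ 66 [rh7c1707a2c9aabdb1, (rhb739f4f82bb681b4.shift 1 1)] (by decide +kernel))
noncomputable def rhd0f9c5f0c47c457d : CRef := CRef.mk (Pat.mk 0x80000001c0000001000000004 0x8000000080000000f0000003c0000001400000004 4 6) 0 0 (step_sound _ 131 [(rh2145e1d24b96a57e.shift 3 1), rh7c1707a2c9aabdb1] (by decide +kernel))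
noncomputable def rh77eb2cd1dc010e50 : CRef := CRef.mk (Pat.mk 0x600000004000000070000000000000000 0x20000000600000004000000070000003e00000008 4 6) 0 0 (step_sound _ 34 [(rh50fbb5868c909700.shift 1 1), rhb0c6196f710d9a93] (by decide +kernel))
noncomputable def rh9eba87caa067ef1f : CRef := CRef.mk (Pat.mk 0x8000000080000001c0000000600000000 0x40000000c0000000c0000001f0000003e0000001a 4 6) 0 0 (step_sound _ 35 [(rh18b49738f4e5d343.shift 1 0), rhcf0f1f5b2b1be263] (by decide +kernel))
noncomputable def rh8128722f424aca7f : CRef := CRef.mk (Pat.mk 0x1c000000060000000200000002 0x2000000030000001f0000003e0000000700000006 4 6) 0 0 (step_sound _ 97 [rh38a0850c9fea941e, rh8db50c9018a9ca1f, (rhf6d72ac90bd26cb0.shift 0 1)] (by decide +kernel))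
noncomputable def rh02f2af378e7c09d0 : CRef := CRef.mk (Pat.mk 0x20000000e0000000200000000 0x200000002000000030000003e0000000600000004 4 6) 0 0 (step_sound _ 68 [(rh3244c3cc8379b070.shift 0 2), (rh6224572d868f7c64.shift 1 0)] (by decide +kernel))
noncomputable def rh9111ff9e472d4da3 : CRef := CRef.mk (Pat.mk 0x40000001c000000040000000800000000 0x20000000f0000001c000000040000000c0000000c 4 5) 0 0 (step_sound _ 34 [rh02ac241e891bce7e, (rh55afc6a59410cf00.shift 2 0)] (by decide +kernel))
noncomputable def rh360fd851ab3239e8 : CRef := CRef.mk (Pat.mk 0x40000000c0000000700000002000000000000000000000000 0xc0000000e000000070000001e0000000c0000000400000004 4 5) 0 0 (step_sound _ 98 [(rh42afa1af9fffa0e1.shift 0 2), (rh8379dda7bed67b0f.shift 1 0)] (by decide +kernel))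
noncomputable def rh08e4861c03f0bc4a : CRef := CRef.mk (Pat.mk 0x2000000060000000300000000 0x1000000030000000300000002000000060000000700000001 4 3) 0 0 (step_sound _ 129 [(rh812b908590c67662.shift 0 1), rh932754581e0f4330] (by decide +kernel))
noncomputable def rh8ee75dffd7c2f33f : CRef := CRef.mk (Pat.mk 0x180000000c0000000c0000000c00000000 0x180000000f0000000f0000003c00000010 4 6) 0 0 (step_sound _ 97 [(rh53b3c253cb0c65f4.shift 0 3), rhfe557af9112f51d6] (by decide +kernel))
noncomputable def rh011dae6dc44609f4 : CRef := CRef.mk (Pat.mk 0x8000000000000001e00000000 0x800000008000000380000001f00000030 4 6) 0 0 (step_sound _ 68 [(rh33e738c4ed385b9f.shift 1 1), rhdef9b933f9f808e2] (by decide +kernel))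
noncomputable def rhcb8d90c18428e06b : CRef := CRef.mk (Pat.mk 0x1c0000000c000000080000001c00000000 0x7c0000000c0000003c0000001f00000003 4 7) 0 0 (step_sound _ 133 [(rh18965a982d73c794.shift 2 3), rh2e488f599d10d45a] (by decide +kernel))
noncomputable def rhe611dff30c2316f7 : CRef := CRef.mk (Pat.mk 0xb0000000c000000080000000000000000 0x100000001c0000000f0000000c0000000c0000000c0000000c 4 5) 0 0 (step_sound _ 34 [(rh0db119afefb5ebc7.shift 2 0), (rh54b0138fc9c15391.shift 0 1), (rh752c9303f297f9fa.shift 2 0)] (by decide +kernel))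
noncomputable def rhafb5dea55a8f8b53 : CRef := CRef.mk (Pat.mk 0x40000000c000000070000000200000000 0x20000000e0000000e000000070000001e0000000c 4 5) 0 0 (step_sound _ 34 [rh42afa1af9fffa0e1, (rhedee52de3917242a.shift 1 0)] (by decide +kernel))
noncomputable def rh78b2a6c61aa99395 : CRef := CRef.mk (Pat.mk 0x400000006000000030000000700000000 0x40000001e0000001b0000001f00000008 4 5) 0 0 (step_sound _ 35 [rh5311728e12ac92c9, (rhf48373e13d2bc128.shift 0 1)] (by decide +kernel))
noncomputable def rhd26e640af6b2d89a : CRef := CRef.mk (Pat.mk 0x20000000700000008 0x3b0000001f00000018 4 6) 0 0 (step_sound _ 35 [(rhb0716bb49afa8156.shift 0 1), rhe25b0a99195a5d59] (by decide +kernel))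
noncomputable def rh1778294ed519f05a : CRef := CRef.mk (Pat.mk 0xe0000000400000004 0x200000002000000070000003e0000000600000004 4 6) 0 0 (step_sound _ 97 [rh44858d7cb17813b7, (rh46231ab7bfd17f40.shift 0 1), (rhe072fffdd2fccf38.shift 1 0)] (by decide +kernel))
noncomputable def rhb42b4aad6355cf35 : CRef := CRef.mk (Pat.mk 0x380000001c0000000000000000 0x4000000760000003f0000001c0000000800000008 4 7) 0 0 (step_sound _ 98 [(rh15c6bd118a09e701.shift 0 2), (rh38a0850c9fea941e.shift 1 0)] (by decide +kernel))
noncomputable def rh4440dd2ef2108b0c : CRef := CRef.mk (Pat.mk 0x1c0000000800000008 0x4000000040000000e0000007c0000000f00000008 4 7) 0 0 (step_sound _ 98 [(rh46231ab7bfd17f40.shift 1 1), rh960a8f47a8f1fa0e, (rhc89253ff58c66167.shift 2 0)] (by decide +kernel))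
noncomputable def rh2e3bb856366ac9fb : CRef := CRef.mk (Pat.mk 0x20000000a00000006000000020000000000000000 0x1000000070000001e00000006000000020000000200000002 4 5) 0 0 (step_sound _ 160 [rh50cf363d59e16d55, (rh50fbb5868c909700.shift 0 2)] (by decide +kernel))
noncomputable def rhc11b5e428305a85f : CRef := CRef.mk (Pat.mk 0xe0000000400000004 0x2000000070000003e0000000700000004 4 6) 0 0 (step_sound _ 68 [(rhaf9f2efc81a8312b.shift 0 1), rhe4f9133a81c1dbc5, rheddd3d8f7db62149] (by decide +kernel))
noncomputable def rh52d0d34192a807e0 : CRef := CRef.mk (Pat.mk 0x80000001e0000000800000000 0x800000008000000080000003e0000000f00000004 4 6) 0 0 (step_sound _ 33 [(rha9ace1c77ae3aa88.shift 1 0), (rheb0810cc63b001d8.shift 0 1)] (by decide +kernel))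
noncomputable def rhf4da931168e34a69 : CRef := CRef.mk (Pat.mk 0xc000000080000001c0000000c00000000 0xc0000000c0000001c0000001f00000013 4 5) 0 0 (step_sound _ 36 [(rh55afc6a59410cf00.shift 3 0), rhb0453f21e70803bf] (by decide +kernel))
noncomputable def rhd27761211e267870 : CRef := CRef.mk (Pat.mk 0x40000001c00000006000000020000000000000000 0x20000000f0000001e000000060000000e0000000c00000008 4 5) 0 0 (step_sound _ 66 [(rh0f9cf023e5c434f4.shift 0 1), (rh127b405bd7f7b930.shift 2 0), (rhcf02561c3c7740f4.shift 0 2)] (by decide +kernel))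
noncomputable def rh3c8e6b3b0adfdc96 : CRef := CRef.mk (Pat.mk 0x40000000c000000070000000200000000 0x20000000e0000000e000000070000001e0000000c 4 5) 0 0 (step_sound _ 34 [rh42afa1af9fffa0e1, (rhbd923e93754dd685.shift 1 0)] (by decide +kernel))
noncomputable def rhd13061f77f941c21 : CRef := CRef.mk (Pat.mk 0x40000000c0000000e0000000200000000 0x40000000c0000007e0000000f00000008 4 7) 0 0 (step_sound _ 35 [(rh7b1f1fb55310c477.shift 2 0), (rhedf43d9310a523b3.shift 0 1)] (by decide +kernel))
noncomputable def rhf15d0e2f50bef65a : CRef := CRef.mk (Pat.mk 0x80000001e000000140000000400000000 0x80000001e0000001f0000003c00000010 4 6) 0 0 (step_sound _ 65 [(rh6a7d78a202a43da8.shift 1 0), (rheb0810cc63b001d8.shift 0 2)] (by decide +kernel))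
noncomputable def rhea32677a8c68bf5a : CRef := CRef.mk (Pat.mk 0x80000000c000000070000000400000000 0x40000000c0000000c0000000f0000001e00000008 4 5) 0 0 (step_sound _ 35 [rh8e6b6ddbdafc0b2b, rh9c1d2b0fc40551bc, (rhae2edff970a530ce.shift 0 1), (rhf7bcf9b870af2a5c.shift 1 0)] (by decide +kernel))
noncomputable def rhda5c4c46a29f8285 : CRef := CRef.mk (Pat.mk 0x8000000380000000c0000000400000000 0x4000000040000001f0000003c0000000c0000000c00000008 4 6) 0 0 (step_sound _ 130 [(rh3289262d1f59fe3a.shift 2 0), (rh7b07ec793799bf71.shift 1 1), (rhc02b3aee7ab87ee1.shift 0 3)] (by decide +kernel))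
noncomputable def rh74e1986433cb0511 : CRef := CRef.mk (Pat.mk 0x1c0000000c0000000c0000000c00000000 0x1c0000000f0000003c0000000f00000002 4 6) 0 0 (step_sound _ 97 [(rh53b3c253cb0c65f4.shift 0 3), rh9cc5d980c4667d10] (by decide +kernel))
noncomputable def rhfe15d25f0821986f : CRef := CRef.mk (Pat.mk 0x400000004000000060000000400000000 0x4000000040000000f0000003e00000008 4 6) 0 0 (step_sound _ 35 [(rh55afc6a59410cf00.shift 2 0), (rh75ea294132184f25.shift 0 1)] (by decide +kernel))
noncomputable def rhd314f27c5797cb0f : CRef := CRef.mk (Pat.mk 0x8000000080000001e0000000000000000 0x80000003b0000001e0000003000000010 4 6) 0 0 (step_sound _ 97 [(rh3244c3cc8379b070.shift 0 2), (rhd9d24126aeab6b6e.shift 1 0)] (by decide +kernel))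
noncomputable def rh9c09d8cab65b9a93 : CRef := CRef.mk (Pat.mk 0xe0000000400000004 0x200000002000000770000003e0000000600000004 4 7) 0 0 (step_sound _ 68 [rh1c1037cb5b3fe471, (rh84d84ec8e59a0da5.shift 1 1), rheddd3d8f7db62149] (by decide +kernel))
noncomputable def rh056e846e89b32726 : CRef := CRef.mk (Pat.mk 0x1c0000000800000008 0x4000000040000000f0000003e0000000c00000008 4 6) 0 0 (step_sound _ 98 [(rha7edc60fc34bffff.shift 0 2), (rhc89253ff58c66167.shift 2 0), (rhe072fffdd2fccf38.shift 2 0)] (by decide +kernel))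
noncomputable def rhca63126ab802e5da : CRef := CRef.mk (Pat.mk 0x8000000080000001c000000000000000000000000 0x8000000180000003f000000f00000001000000010 4 8) 0 0 (step_sound _ 68 [(rh08edf065357d68e5.shift 3 0), (rh8ee80cc30e93a344.shift 1 2), (rhcd11d81bf877826f.shift 0 1)] (by decide +kernel))
noncomputable def rha01abb66db16eada : CRef := CRef.mk (Pat.mk 0x8000000080000002c0000001c00000000 0x40000000c0000000c0000003c0000001e00000003 4 6) 0 0 (step_sound _ 33 [(rh428265de8cd3cd2d.shift 1 1), rh52db8f9374849729] (by decide +kernel))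
noncomputable def rhcda1dbe8b9c3c0ef : CRef := CRef.mk (Pat.mk 0x1e000000080000000c00000004 0x20000001e0000003b0000000f00000004 4 6) 0 0 (step_sound _ 68 [rh9c846a23e89054fa, (rhe25b0a99195a5d59.shift 1 2)] (by decide +kernel))
noncomputable def rhfc41b510c72a7f33 : CRef := CRef.mk (Pat.mk 0x6000000070000000200000001 0x200000002000000020000001e000000070000000700000001 4 5) 0 0 (step_sound _ 129 [rh79877ebd3ef475dd, (rhda9dc5fa8c2f8d21.shift 0 1)] (by decide +kernel))
noncomputable def rh5d412a2971011347 : CRef := CRef.mk (Pat.mk 0x40000000c000000180000000e00000000 0x40000001f0000001b0000001e00000002 4 5) 0 0 (step_sound _ 97 [rh3d1e6d4570311f9e, (rhb739f4f82bb681b4.shift 0 2)] (by decide +kernel))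
noncomputable def rhfc1353632aed9ea3 : CRef := CRef.mk (Pat.mk 0x40000001c000000060000000000000000 0x20000000f0000001e000000060000000400000004 4 5) 0 0 (step_sound _ 129 [rh2c9cf7e9328cac9c, rhd652c19df8b64ee8, (rhd8e93bbc8568df99.shift 0 3), (rhfa2242deaca05a59.shift 1 0)] (by decide +kernel))
noncomputable def rh38f4965f18f9b03d : CRef := CRef.mk (Pat.mk 0x80000000c0000000c0000000400000000 0x4000000060000000f0000003c0000000e0000000600000002 4 6) 0 0 (step_sound _ 130 [(rh925a1628dd8a50da.shift 1 0), (rhcf85c92937975d4d.shift 0 1)] (by decide +kernel))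
noncomputable def rh43b509fe3bff0fb1 : CRef := CRef.mk (Pat.mk 0x80000001c0000000600000000 0x2000000020000003b0000001f0000000600000004 4 6) 0 0 (step_sound _ 65 [rhbdb8dfd08861fbf7, (rhec46bd5500c722c9.shift 0 2)] (by decide +kernel))
noncomputable def rhbbb44bdd937835e8 : CRef := CRef.mk (Pat.mk 0x40000000c00000007000000000000000000000000 0x80000000c0000000c000000070000003e0000000c00000008 4 6) 0 0 (step_sound _ 66 [(rh301a6b3a9154ed36.shift 2 0), (rha707fb719e87fe6e.shift 2 1), (rhb0c6196f710d9a93.shift 0 1)] (by decide +kernel))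
noncomputable def rh09fddc8e1606f2d8 : CRef := CRef.mk (Pat.mk 0x40000000c00000018 0x70000003f00000038 4 6) 0 0 (step_sound _ 33 [rh20aaab6250709fa0, rhb739f4f82bb681b4] (by decide +kernel))
noncomputable def rh3cc3c65d3df82dc1 : CRef := CRef.mk (Pat.mk 0x800000008000000180000000c 0x100000001800000018000000080000001c0000000f 4 5) 0 0 (step_sound _ 1 [rh53b3c253cb0c65f4, (rh9a369cb82ea472da.shift 2 0)] (by decide +kernel))
noncomputable def rh590a337e38bbccc4 : CRef := CRef.mk (Pat.mk 0x1c000000180000001000000010 0x200000003f0000001f0000001000000010 4 6) 0 0 (step_sound _ 97 [(rhb739f4f82bb681b4.shift 0 2), rhd0ea23fbd3cbe784] (by decide +kernel))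
noncomputable def rh325e64ab5f1edf02 : CRef := CRef.mk (Pat.mk 0x100000000e000000040000000000000000 0x800000008000000180000000f0000000c0000000400000004 4 5) 0 0 (step_sound _ 131 [(rh53b3c253cb0c65f4.shift 0 3), (rhcf80391c5046a495.shift 2 0)] (by decide +kernel))
noncomputable def rhe8eac7de61269b8d : CRef := CRef.mk (Pat.mk 0x40000000e0000000800000008 0x10000000770000003e0000003800000008 4 7) 0 0 (step_sound _ 68 [(rhb0716bb49afa8156.shift 1 2), (rhbbda3e5cf400e6dd.shift 1 0), (rhe3060b190bc0bc78.shift 0 2)] (by decide +kernel))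
noncomputable def rh5002edf35d7f2ef3 : CRef := CRef.mk (Pat.mk 0x3e00000010 0xe0000000ff00000018 4 8) 0 0 (step_sound _ 70 [(rh428265de8cd3cd2d.shift 2 1), rh9e9254f6657b54d3] (by decide +kernel))
noncomputable def rh882345cbc6e068b1 : CRef := CRef.mk (Pat.mk 0x2000000070000000c0000000000000000 0x80000001a0000000f0000001c0000000400000004 4 5) 0 0 (step_sound _ 99 [rha240d968d16a7f4e, (rhe25b0a99195a5d59.shift 0 2)] (by decide +kernel))
noncomputable def rh54d3395065f30d2d : CRef := CRef.mk (Pat.mk 0x60000000e000000120000000200000000 0x60000000f0000001a0000000f0000000c 4 5) 0 0 (step_sound _ 67 [rh2a18a8ec93879ad5, (rhb739f4f82bb681b4.shift 0 2)] (by decide +kernel))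
noncomputable def rh7998308012cda1f6 : CRef := CRef.mk (Pat.mk 0x300000003000000030000000000000000 0x2000000020000000300000003000000070000000600000006 4 3) 0 0 (step_sound _ 161 [(rh5c5e593799055d58.shift 0 2), rh820d4e04d5dcd02e] (by decide +kernel))
noncomputable def rh130916767facd979 : CRef := CRef.mk (Pat.mk 0x180000001a000000080000000800000000 0x40000001f0000001b000000080000001800000010 4 5) 0 0 (step_sound _ 36 [(rh55afc6a59410cf00.shift 3 0), (rh9cac931137f1cfa0.shift 0 1)] (by decide +kernel))
noncomputable def rhcca870acd6232b3c : CRef := CRef.mk (Pat.mk 0x2000000060000000f0000000000000000 0x400000006000000060000000f0000001c0000000c 4 5) 0 0 (step_sound _ 34 [(rh7b1f1fb55310c477.shift 1 0), rhee51f1a3336931e1] (by decide +kernel))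
noncomputable def rh8b5a5116588ab9aa : CRef := CRef.mk (Pat.mk 0x1c0000001c 0x70000007f0000001c 4 7) 0 0 (step_sound _ 37 [(rh18965a982d73c794.shift 2 0), rhba89ab7cb81bcc90] (by decide +kernel))
noncomputable def rhececa53a40e65492 : CRef := CRef.mk (Pat.mk 0x7000000040000000c00000000 0xa0000001e00000007000000040000000c00000008 4 5) 0 0 (step_sound _ 130 [(rh4017de503635a93b.shift 0 1), (rh55afc6a59410cf00.shift 2 0)] (by decide +kernel))
noncomputable def rh4f97a9488dc97bc7 : CRef := CRef.mk (Pat.mk 0xc0000000b0000000800000000 0x40000000c0000000c0000000f0000001800000018 4 5) 0 0 (step_sound _ 130 [(rh7b1f1fb55310c477.shift 2 0), rhe1ce8defbf6a31cf] (by decide +kernel))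
noncomputable def rh5b00c754ee0da874 : CRef := CRef.mk (Pat.mk 0x80000001e000000100000000000000000 0x800000008000000080000001e0000001b0000001000000010 4 5) 0 0 (step_sound _ 65 [(rh5d54cb79a67f97ab.shift 3 0), (rheb0810cc63b001d8.shift 0 2)] (by decide +kernel))
noncomputable def rh35597c491b77cb29 : CRef := CRef.mk (Pat.mk 0x40000001e000000000000000000000000 0x4000000040000003e000000070000000200000002 4 6) 0 0 (step_sound _ 65 [(rhc5254222bec83b98.shift 1 0), (rheb0810cc63b001d8.shift 0 2)] (by decide +kernel))
noncomputable def rh929026247c0e1708 : CRef := CRef.mk (Pat.mk 0x80000000c0000001800000000 0x8000000080000001f0000007800000010 4 7) 0 0 (step_sound _ 131 [(rh55afc6a59410cf00.shift 3 0), (rh5c5a2014709044d0.shift 0 1)] (by decide +kernel))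
noncomputable def rhbc1b1fea1b1c889e : CRef := CRef.mk (Pat.mk 0x80000001c0000000400000004 0x20000001b0000001f0000003f00000004 4 6) 0 0 (step_sound _ 65 [(rh01d64f4b25e9d366.shift 0 1), rhe4f9133a81c1dbc5] (by decide +kernel))
noncomputable def rh1c0908b54421561f : CRef := CRef.mk (Pat.mk 0x1c000000070000000400000000 0xe0000000f0000001c000000070000001e00000008 4 5) 0 0 (step_sound _ 130 [(rh039efe07c35de3d4.shift 0 1), rhe9bf3c59c47cc9a2] (by decide +kernel))
noncomputable def rh79ade6d724d2d9f3 : CRef := CRef.mk (Pat.mk 0x1e000000020000001800000008 0x70000003e000000060000003c00000008 4 6) 0 0 (step_sound _ 129 [(rh3244c3cc8379b070.shift 0 3), (rh411706f9a064612d.shift 1 0)] (by decide +kernel))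
noncomputable def rhecbfab7b462f2df2 : CRef := CRef.mk (Pat.mk 0x38000000080000001000000010 0x1f00000078000000080000001800000010 4 7) 0 0 (step_sound _ 131 [(rhbe0e43a3bc50a43f.shift 3 0), (rhf60aa8aede119d3b.shift 0 3)] (by decide +kernel))
noncomputable def rh32101d22043a0c4b : CRef := CRef.mk (Pat.mk 0x18000000080000003000000010 0x8000000180000000f0000007c00000010 4 7) 0 0 (step_sound _ 35 [(rh2145e1d24b96a57e.shift 3 0), (rhfd99604093c09fe0.shift 0 1)] (by decide +kernel))
noncomputable def rh081ea8555b323c81 : CRef := CRef.mk (Pat.mk 0x10000000100000001000000010000000100000000 0x1000000030000000300000003000000030000000300000001 4 2) 0 0 (step_sound _ 65 [(rh55afc6a59410cf00.shift 0 1), rhc8248430cebb96e2] (by decide +kernel))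
noncomputable def rh949e7b686a42c87f : CRef := CRef.mk (Pat.mk 0x2000000020000000b0000000300000000 0x400000006000000020000001b0000001f00000004 4 5) 0 0 (step_sound _ 130 [(rh2f68792b6b779e96.shift 1 1), rh509847d0837ffcc5] (by decide +kernel))
noncomputable def rh7d952dac3a6237ab : CRef := CRef.mk (Pat.mk 0x1600000002 0x3e00000077 4 7) 0 0 (step_sound _ 35 [(rh4274f4328cb9f3fd.shift 1 0), rheb0810cc63b001d8] (by decide +kernel))
noncomputable def rh7b35225ad7ab1e56 : CRef := CRef.mk (Pat.mk 0x1e000000180000000000000010 0x80000003e0000001f0000003000000010 4 6) 0 0 (step_sound _ 36 [(rh50fbb5868c909700.shift 3 0), (rhc31b6f966e0d7e89.shift 0 1)] (by decide +kernel))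
noncomputable def rhfae3185d833ce382 : CRef := CRef.mk (Pat.mk 0x40000001c000000040000000000000000 0xa0000000f0000001e000000040000000c0000000c 4 5) 0 0 (step_sound _ 34 [(rh039efe07c35de3d4.shift 0 1), rh29245de5933fbe8d, (rhd1d1631c4c8d27fe.shift 2 0)] (by decide +kernel))
noncomputable def rhc28510d914fccafc : CRef := CRef.mk (Pat.mk 0x60000000300000002000000020000000000000000 0x1e0000000700000002000000060000000600000004 4 5) 0 0 (step_sound _ 163 [(rh18965a982d73c794.shift 0 4), (rh999c66e1f1e798df.shift 1 0)] (by decide +kernel))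
noncomputable def rhb9ac11309c9d4685 : CRef := CRef.mk (Pat.mk 0x100000001c0000000800000008 0x140000001f0000003c0000000800000008 4 6) 0 0 (step_sound _ 99 [(rh2f68792b6b779e96.shift 3 0), rh8f2453f412d57a0e] (by decide +kernel))
noncomputable def rh5ceac9e6c337a4a5 : CRef := CRef.mk (Pat.mk 0x20000000e0000002c0000000000000000 0x30000007e0000006c0000000400000004 4 7) 0 0 (step_sound _ 2 [(rh6156b8b951a564ae.shift 0 2), (rh9e07f76261b05888.shift 1 0)] (by decide +kernel))
noncomputable def rh22379625ea693b2d : CRef := CRef.mk (Pat.mk 0x10000000e000000040000000000000000 0x200000002000000070000001e000000040000000400000004 4 5) 0 0 (step_sound _ 129 [(rha40d42a2e34c408d.shift 1 0), (rhf48373e13d2bc128.shift 0 3)] (by decide +kernel))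
noncomputable def rh92397ea603017814 : CRef := CRef.mk (Pat.mk 0x1000000010000000080000001c00000000 0x10000000100000003c000000ff00000020 4 8) 0 0 (step_sound _ 68 [(rh36d4d92ef3dad5f8.shift 2 0), (rhab2ad169e49f9c5e.shift 0 1)] (by decide +kernel))
noncomputable def rh4dde18cb6dee16c9 : CRef := CRef.mk (Pat.mk 0x1000000010000000180000003800000000 0x80000001800000018000000380000003f00000006 4 6) 0 0 (step_sound _ 131 [(rh50fbb5868c909700.shift 3 1), rh6e71b3129cd4e324] (by decide +kernel))
noncomputable def rh399802e8c9120a61 : CRef := CRef.mk (Pat.mk 0x180000000c000000380000000000000000 0x20000000780000003c0000003f0000001600000014 4 7) 0 0 (step_sound _ 100 [rh4a652af6261b5a9e, (rhf8d29f3cbeaf06f7.shift 2 0)] (by decide +kernel))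
noncomputable def rhbf7bcacf9a181d0a : CRef := CRef.mk (Pat.mk 0x80000001c00000006000000140000000000000000 0x80000001c000000160000003e0000003300000002 4 6) 0 0 (step_sound _ 67 [rh128fc545176bb450, (rhf48373e13d2bc128.shift 1 2)] (by decide +kernel))
noncomputable def rh2955b4ac6c23dcb0 : CRef := CRef.mk (Pat.mk 0x180000001c000000280000000000000000 0x20000000780000003c0000003f0000001600000014 4 7) 0 0 (step_sound _ 68 [rh4a652af6261b5a9e, (rhf8d29f3cbeaf06f7.shift 2 0)] (by decide +kernel))
noncomputable def rh07ee7d978889a21f : CRef := CRef.mk (Pat.mk 0x40000000600000007000000080000000000000000 0xc0000001e000000070000000c0000000c00000004 4 5) 0 0 (step_sound _ 66 [(rh55afc6a59410cf00.shift 2 1), rhf8d29f3cbeaf06f7] (by decide +kernel))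
noncomputable def rh7ca236c3671f0972 : CRef := CRef.mk (Pat.mk 0x8000000080000000e000000140000000000000000 0x8000000080000003e0000001f0000001000000010 4 6) 0 0 (step_sound _ 36 [(rhbe0e43a3bc50a43f.shift 3 1), rhe7c5da0737c32d61] (by decide +kernel))
noncomputable def rh1b8bcb4747e3f510 : CRef := CRef.mk (Pat.mk 0x80000000c0000000e0000001400000000 0x80000003c0000003e0000001700000010 4 6) 0 0 (step_sound _ 100 [(rh18965a982d73c794.shift 1 2), rh24b1293adaf02ee1] (by decide +kernel))
noncomputable def rh93bc6e61c15e59d8 : CRef := CRef.mk (Pat.mk 0x400000006000000030000000a00000000 0x40000001e0000000f0000001e00000008 4 5) 0 0 (step_sound _ 34 [rh9aa38362312a029a, (rhf48373e13d2bc128.shift 0 1)] (by decide +kernel))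
noncomputable def rh87851f299980bbd9 : CRef := CRef.mk (Pat.mk 0x18000000100000003800000018 0x40000001e000000770000003f00000018 4 7) 0 0 (step_sound _ 34 [rh34517e326ddb5b25, rhba89ab7cb81bcc90, (rhef00ab894e04c31b.shift 1 0)] (by decide +kernel))
noncomputable def rh28ac4feb1c873600 : CRef := CRef.mk (Pat.mk 0x20000000200000002000000030000000200000000 0x200000002000000020000000600000007000000070000000200000002 4 3) 0 0 (step_sound _ 193 [(rh063064641e383404.shift 1 0), (rh79877ebd3ef475dd.shift 0 2)] (by decide +kernel))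
noncomputable def rh1376ce36e8c87dc9 : CRef := CRef.mk (Pat.mk 0x1000000000000000080000001c00000000 0x10000000100000003e0000007f00000060 4 7) 0 0 (step_sound _ 37 [rh356351e5e00d71eb, (rhe3060b190bc0bc78.shift 1 1)] (by decide +kernel))
noncomputable def rh50bde758741b8a22 : CRef := CRef.mk (Pat.mk 0x800000008000000080000000c000000180000000000000000 0x8000000080000000c0000000c0000000f000000180000000800000008 4 5) 0 0 (step_sound _ 96 [(rh1406cafceeeef6c2.shift 2 0), (rhab22b5b56e7b3243.shift 0 2)] (by decide +kernel))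
noncomputable def rh755f2acca808efc4 : CRef := CRef.mk (Pat.mk 0x180000000c00000018 0x7c0000000f00000078 4 7) 0 0 (step_sound _ 5 [(rhd69c262cd33b94b3.shift 0 1), (rhf48373e13d2bc128.shift 2 0)] (by decide +kernel))
noncomputable def rhe20b69cab189b9e3 : CRef := CRef.mk (Pat.mk 0x400000006000000030000000600000000 0x40000001e0000000f0000001e00000008 4 5) 0 0 (step_sound _ 35 [rh9aa38362312a029a, (rhf48373e13d2bc128.shift 0 1)] (by decide +kernel))
noncomputable def rh73eb6e5aec2448b7 : CRef := CRef.mk (Pat.mk 0x20000000300000002000000020000000200000000 0x600000006000000060000000300000003000000020000000200000002 4 3) 0 0 (step_sound _ 96 [(rh5fa50b509d4ce753.shift 0 2), rh7b1f1fb55310c477] (by decide +kernel))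
noncomputable def rhaff5f38ae4e80b23 : CRef := CRef.mk (Pat.mk 0x3c00000010000000100000001000000000 0x70000003e00000017000000100000001800000008 4 6) 0 0 (step_sound _ 35 [(rh2cc7d62e70c02209.shift 0 3), (rh932754581e0f4330.shift 3 0)] (by decide +kernel))
noncomputable def rh80e37db04cf10411 : CRef := CRef.mk (Pat.mk 0x40000000600000006000000060000000000000000 0x400000006000000070000003e0000000c00000004 4 6) 0 0 (step_sound _ 2 [(rh36d4d92ef3dad5f8.shift 0 1), (rh9e07f76261b05888.shift 1 0)] (by decide +kernel))
noncomputable def rh69975ae0ef29f63d : CRef := CRef.mk (Pat.mk 0x180000003c000000080000000800000000 0x1f0000003f000000080000001800000010 4 6) 0 0 (step_sound _ 4 [(rhcda410b351c20b9b.shift 0 3), (rhd3458b32566d63f7.shift 3 0)] (by decide +kernel))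
noncomputable def rhb4ff80d28394d33e : CRef := CRef.mk (Pat.mk 0xc0000001e000000040000000400000000 0xc0000001e000000370000003c00000018 4 6) 0 0 (step_sound _ 35 [(rh55afc6a59410cf00.shift 2 0), rhd1d6d939bc3f56d6] (by decide +kernel))
noncomputable def rh1c074a8a97243bd2 : CRef := CRef.mk (Pat.mk 0x180000003c000000080000000800000000 0x180000003f0000000f0000001800000010 4 6) 0 0 (step_sound _ 4 [(rh0e1512cbacfbd48b.shift 0 2), (rhd3458b32566d63f7.shift 3 0)] (by decide +kernel))
noncomputable def rh561032ade0f18075 : CRef := CRef.mk (Pat.mk 0xc00000004000000040000001e00000000 0x20000000f0000003c0000000c0000001e00000030 4 6) 0 0 (step_sound _ 129 [(rh50fbb5868c909700.shift 1 1), rhc40b91cc658c04b0] (by decide +kernel))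
noncomputable def rh0e9b5f627e6f57d3 : CRef := CRef.mk (Pat.mk 0xf00000006 0x380000003f0000001e 4 6) 0 0 (step_sound _ 3 [rh226655e3fe6b4a8a, rhf48373e13d2bc128] (by decide +kernel))
noncomputable def rh95077a83b6ede789 : CRef := CRef.mk (Pat.mk 0x80000001e0000001c0000000000000000 0xf0000007e0000001c0000001000000010 4 7) 0 0 (step_sound _ 4 [(rh771383521b68d2cd.shift 0 2), (rh9e07f76261b05888.shift 3 0)] (by decide +kernel))
noncomputable def rhcf05e6c45bea2f53 : CRef := CRef.mk (Pat.mk 0x1e000000060000000200000000 0x30000001e0000003e0000000300000001 4 6) 0 0 (step_sound _ 68 [rhddd0f0018083baf5, (rhe25b0a99195a5d59.shift 1 2)] (by decide +kernel))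
noncomputable def rhad2bd62b3f0374bd : CRef := CRef.mk (Pat.mk 0x3800000018000000080000000000000000 0x8000000380000003e0000000f0000000400000004 4 6) 0 0 (step_sound _ 98 [(rh53b3c253cb0c65f4.shift 1 3), rh5b16e5ce3dbbe89f] (by decide +kernel))
noncomputable def rh8dd905c3d94db0c3 : CRef := CRef.mk (Pat.mk 0x38000000100000001000000038 0x70000003e0000007f0000001c000000f8 4 8) 0 0 (step_sound _ 98 [(rh2cc7d62e70c02209.shift 0 2), (rh4197e719db64dcb4.shift 1 0), (rha03f6e28ea70fc7d.shift 1 2)] (by decide +kernel))
noncomputable def rhbd58788658af0fe1 : CRef := CRef.mk (Pat.mk 0x1a0000000e000000000000000800000000 0x2000000170000001e0000000e0000000c0000000c00000004 4 5) 0 0 (step_sound _ 34 [(rh12cda698427604cb.shift 2 0), (rh35ef768cae23767b.shift 0 1), (rhe41145ee6040fe45.shift 1 0), (rhecb97fed8c7f1286.shift 2 0)] (by decide +kernel))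
noncomputable def rh733d860fd1efbb37 : CRef := CRef.mk (Pat.mk 0xc0000000c000000090000000000000000 0x80000000c0000000c0000000f0000001c0000001c 4 5) 0 0 (step_sound _ 35 [(rh7b1f1fb55310c477.shift 2 0), rhc0194a0dc6a3344a] (by decide +kernel))
noncomputable def rh0ca44f0044f30d2f : CRef := CRef.mk (Pat.mk 0xc0000000b0000000a0000000000000000 0x40000000c0000000b0000001f0000001800000010 4 5) 0 0 (step_sound _ 35 [(rh50fbb5868c909700.shift 2 1), rhe85af660bf4151dd] (by decide +kernel))
noncomputable def rh2d404d92963bc025 : CRef := CRef.mk (Pat.mk 0x40000000f000000090000000800000000 0x80000001c0000000f0000000f0000001c00000014 4 5) 0 0 (step_sound _ 131 [(rh33e738c4ed385b9f.shift 0 3), rhc0194a0dc6a3344a] (by decide +kernel))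
noncomputable def rhd53253172fd55ac8 : CRef := CRef.mk (Pat.mk 0x90000000e000000040000000000000000 0x2000000020000000b0000001e000000060000000400000004 4 5) 0 0 (step_sound _ 34 [(rh169294d496e5a0bf.shift 0 1), (rh71222050f2c63a3a.shift 2 0)] (by decide +kernel))
noncomputable def rhbc403b8ff14fc467 : CRef := CRef.mk (Pat.mk 0x20000000f000000090000000800000000 0x1a0000000f0000000f0000001e00000014 4 5) 0 0 (step_sound _ 34 [rh5a387eedf845a1d9, rh664c8f4d02ce4add, (rh83e4086ccde87a9e.shift 1 0), rhf6b55c2aa4515bf5] (by decide +kernel))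
noncomputable def rha28c4069e3d16801 : CRef := CRef.mk (Pat.mk 0xf00000008000000080000000000000000 0x180000000f000000080000001c0000001c00000014 4 5) 0 0 (step_sound _ 163 [(rh3181373a30ceb9e3.shift 2 0), (rh33e738c4ed385b9f.shift 0 4)] (by decide +kernel))
noncomputable def rh13508b7b8382faa4 : CRef := CRef.mk (Pat.mk 0x20000000f000000090000000800000000 0x400000004000000060000000f0000000d0000000900000009 4 4) 0 0 (step_sound _ 0 [rh9e3edb185cc347de, (rhf9a6286f1d5377a2.shift 2 0)] (by decide +kernel))
noncomputable def rhf764365d1985f497 : CRef := CRef.mk (Pat.mk 0x20000000f000000090000000800000000 0x40000001e0000000f000000090000000900000009 4 5) 0 0 (step_sound _ 0 [rh791587d13de18a79, rh9e3edb185cc347de] (by decide +kernel))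
noncomputable def rh1f3d3ec4f2060646 : CRef := CRef.mk (Pat.mk 0x20000000f000000010000000000000000 0x3a0000001f000000030000000100000001 4 6) 0 0 (step_sound _ 0 [rh9e3edb185cc347de, (rhd584a578337d0023.shift 0 2)] (by decide +kernel))
noncomputable def rhec9ce50cf1f066e7 : CRef := CRef.mk (Pat.mk 0x20000000f000000010000000000000000 0x20000001f0000003b0000000100000001 4 6) 0 0 (step_sound _ 0 [(rh4274f4328cb9f3fd.shift 0 2), rh9e3edb185cc347de] (by decide +kernel))
noncomputable def rhcfb22383fd07fce4 : CRef := CRef.mk (Pat.mk 0x40000000c000000000000000e00000002 0xc0000000c000000080000001e0000003b 4 6) 0 0 (step_sound _ 36 [(rh2f17a786a3c0ef27.shift 1 0), rheb0810cc63b001d8] (by decide +kernel))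
noncomputable def rh85fa2c655af9c66c : CRef := CRef.mk (Pat.mk 0x1000000030000000000000003800000000 0x1000000030000000270000003e00000067 4 7) 0 0 (step_sound _ 34 [rh2cc7d62e70c02209, (rh82687729b6ed8eda.shift 2 0)] (by decide +kernel))
noncomputable def rh3143bbbbaa06ef3a : CRef := CRef.mk (Pat.mk 0x4000000040000000700000000 0x400000004000000040000001c0000000f0000000a 4 5) 0 0 (step_sound _ 130 [(rh932754581e0f4330.shift 1 0), rha4c74c56f4989b54] (by decide +kernel))
noncomputable def rha6fe48e4f0621ac5 : CRef := CRef.mk (Pat.mk 0x800000008000000000000000e00000000 0x80000000800000008000000780000003f00000070 4 7) 0 0 (step_sound _ 36 [(rh35e918dd76851f8c.shift 1 0), (rh49bdc49f6b132823.shift 1 0), (rh990f2a74d3707a53.shift 0 1)] (by decide +kernel))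
noncomputable def rhe930ac50058ee750 : CRef := CRef.mk (Pat.mk 0x400000004000000000000000700000000 0x400000004000000040000001c0000000f0000000a 4 5) 0 0 (step_sound _ 66 [(rh932754581e0f4330.shift 1 0), rha4c74c56f4989b54] (by decide +kernel))
noncomputable def rh0e0e58129f24b345 : CRef := CRef.mk (Pat.mk 0xc0000001c000000080000000c 0x130000001f0000001c0000000c0000000c 4 5) 0 0 (step_sound _ 97 [rhb4d32814c929cf0f, (rhb739f4f82bb681b4.shift 0 2)] (by decide +kernel))
noncomputable def rh0ab123b03b848a6d : CRef := CRef.mk (Pat.mk 0x4000000000000001e0000000000000000 0x4000000070000003e0000000300000002 4 6) 0 0 (step_sound _ 33 [rh4d599e7732b2e8b7, (rheb0810cc63b001d8.shift 0 1)] (by decide +kernel))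
noncomputable def rh5b6c16d5abe12253 : CRef := CRef.mk (Pat.mk 0x80000001c000000000000003c00000000 0x20000000f0000001c000000060000003c00000008 4 6) 0 0 (step_sound _ 66 [(rh3244c3cc8379b070.shift 1 1), rhc2f06c7a97a2ad79] (by decide +kernel))
noncomputable def rh036295beb5b91416 : CRef := CRef.mk (Pat.mk 0x60000001e000000020000000200000000 0x2000000060000001e0000003e0000000700000005 4 6) 0 0 (step_sound _ 66 [rh34d0a8890b48de57, (rh3cb04db3dd2b6a55.shift 1 0)] (by decide +kernel))
noncomputable def rh01de3d2b5996430b : CRef := CRef.mk (Pat.mk 0x80000000e000000080000000c00000000 0x40000000c0000001e0000007b0000001f00000012 4 7) 0 0 (step_sound _ 33 [rha9a87af2238a69fc, rhada2ce4d87906995, (rhbe364b29d623b14d.shift 0 1)] (by decide +kernel))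
noncomputable def rhee598711b2b58375 : CRef := CRef.mk (Pat.mk 0x8000000180000001c0000000c00000000 0x40000000c0000001c0000001c0000001f00000013 4 5) 0 0 (step_sound _ 33 [rh415a868871629c95, (rh53b3c253cb0c65f4.shift 0 1)] (by decide +kernel))
noncomputable def rh1dc15afdf305bd94 : CRef := CRef.mk (Pat.mk 0x1000000038000000000000003800000000 0x40000001e000000380000000f0000007c00000010 4 7) 0 0 (step_sound _ 67 [(rhc2f06c7a97a2ad79.shift 1 0), (rhfd99604093c09fe0.shift 0 1)] (by decide +kernel))
noncomputable def rh0237016f78d3e327 : CRef := CRef.mk (Pat.mk 0x800000018000000180000000e00000000 0x8000000380000001f0000003e00000010 4 6) 0 0 (step_sound _ 36 [(rh7b1f1fb55310c477.shift 3 0), (rh9c14e3cb4927e8b1.shift 0 1)] (by decide +kernel))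
noncomputable def rhf80fa74dc7fc7478 : CRef := CRef.mk (Pat.mk 0x180000001a000000080000000800000000 0x40000001f0000001b000000080000001800000010 4 5) 0 0 (step_sound _ 4 [(rh9cac931137f1cfa0.shift 0 1), (rhd3458b32566d63f7.shift 3 0)] (by decide +kernel))
noncomputable def rh6117c24be3f87082 : CRef := CRef.mk (Pat.mk 0x180000001a000000080000000800000000 0x40000001f0000001b000000080000000c00000004 4 5) 0 0 (step_sound _ 2 [(rh79877ebd3ef475dd.shift 2 0), (rh9cac931137f1cfa0.shift 0 1)] (by decide +kernel))
noncomputable def rhde92960d702df969 : CRef := CRef.mk (Pat.mk 0xa0000001a0000000a00000000 0x400000004000000060000000f0000001a0000000a00000008 4 5) 0 0 (step_sound _ 98 [(rh176ee440f82a3750.shift 1 0), (rhb739f4f82bb681b4.shift 0 2)] (by decide +kernel))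
noncomputable def rhf9873f5b3346f9e6 : CRef := CRef.mk (Pat.mk 0xa0000000a0000000a00000000 0x500000007000000070000000e0000000b0000000b0000000b 4 4) 0 0 (step_sound _ 129 [rh0fd870c734e6c513, rh402d223d12d7377d, (rh7ef5fa5c39f1c762.shift 0 1), (rhc5998ce9d02e6204.shift 1 0)] (by decide +kernel))
noncomputable def rhbeabf4ac06c8a9a7 : CRef := CRef.mk (Pat.mk 0x200000002000000020000000000000000 0x500000007000000070000000300000003000000030000000300000001 4 3) 0 0 (step_sound _ 161 [rh0c1c1b53bc5a1510, (rh402d223d12d7377d.shift 0 1), (rh7ef5fa5c39f1c762.shift 0 2)] (by decide +kernel))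
noncomputable def rh093ae2dd059bf86a : CRef := CRef.mk (Pat.mk 0xa0000001a0000001a0000000000000000 0x40000000f0000001a0000001a0000001a00000010 4 5) 0 0 (step_sound _ 4 [(rh482dbb16cfbb812d.shift 0 1), (rh9e07f76261b05888.shift 3 0)] (by decide +kernel))
noncomputable def rh972b3c97bbc25bef : CRef := CRef.mk (Pat.mk 0x180000003800000040 0x180000003f00000067 4 7) 0 0 (step_sound _ 34 [rh0e1512cbacfbd48b, (rh96851dee118c1ba3.shift 2 0)] (by decide +kernel))
noncomputable def rhefef6a3d1c708dbc : CRef := CRef.mk (Pat.mk 0x60000000e000000020000000600000000 0x60000003e0000003e0000000f00000001 4 6) 0 0 (step_sound _ 32 [(rh8f11ec79134f799f.shift 0 1), rh932754581e0f4330] (by decide +kernel))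
noncomputable def rhac092b2efe708213 : CRef := CRef.mk (Pat.mk 0x380000002800000028000000000000000000000000 0x20000000380000003f00000078000000d00000001000000010 4 8) 0 0 (step_sound _ 100 [(rh299a18a9bb09cab4.shift 2 2), (rhbd3d56d68aaa590e.shift 0 3), (rhfafeb437ceb8396d.shift 4 0)] (by decide +kernel))
noncomputable def rh7aedc61e2f29f3f1 : CRef := CRef.mk (Pat.mk 0x80000000a0000000a000000000000000000000000 0x8000000080000003b0000001f000000300000001000000010 4 6) 0 0 (step_sound _ 100 [(rh046c5eb18e55a239.shift 3 0), (rha57dbb17a7e1a202.shift 0 2), (rhdb4b4dc20164ea80.shift 0 3)] (by decide +kernel))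
noncomputable def rhf067b1f9579910ec : CRef := CRef.mk (Pat.mk 0x80000001c000000040000001400000000 0x80000001c0000007f0000003600000010 4 7) 0 0 (step_sound _ 68 [(rh7b1f1fb55310c477.shift 3 0), (rh9ce6df3bf8812881.shift 0 1)] (by decide +kernel))
noncomputable def rh1f22a759dc75265b : CRef := CRef.mk (Pat.mk 0x380000000800000038000000000000000000000000 0x20000000380000003c0000003f000000160000001400000004 4 6) 0 0 (step_sound _ 98 [(rh89a9c21c3489d92c.shift 0 1), (rhd1474a84c69f0140.shift 1 0)] (by decide +kernel))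
noncomputable def rh6f3fb444c358c783 : CRef := CRef.mk (Pat.mk 0xc000000000000000e000000000000000000000000 0x80000000c0000007c0000001f000000040000000400000004 4 7) 0 0 (step_sound _ 131 [(rhb37e485dff1e07aa.shift 0 3), (rhfafeb437ceb8396d.shift 2 0)] (by decide +kernel))
noncomputable def rhd0586f4207c2eb43 : CRef := CRef.mk (Pat.mk 0xc0000000d000000080000000000000000 0x80000000c0000000f000000180000001800000018 4 5) 0 0 (step_sound _ 35 [(rh7b1f1fb55310c477.shift 2 0), rhaa293d39a2c6f294] (by decide +kernel))
noncomputable def rh013c5c2c65d99331 : CRef := CRef.mk (Pat.mk 0xe00000010 0x770000003e00000030 4 7) 0 0 (step_sound _ 36 [(rhe25b0a99195a5d59.shift 1 0), (rhf94411b389c3e54c.shift 0 1)] (by decide +kernel))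
noncomputable def rhb7a1be4bf1a195cd : CRef := CRef.mk (Pat.mk 0x10000000e00000004 0x30000003e00000076 4 7) 0 0 (step_sound _ 36 [(rh0ae232cce48795b7.shift 1 0), (rh3f8766e6ecb455ce.shift 0 1)] (by decide +kernel))
noncomputable def rhad39400aef642b1a : CRef := CRef.mk (Pat.mk 0xc0000000d000000000000000000000000 0x40000001c0000000f000000180000000800000008 4 5) 0 0 (step_sound _ 97 [(rh33e738c4ed385b9f.shift 0 3), rhbbe16ff26f7822db] (by decide +kernel))
noncomputable def rhb58229aca62af055 : CRef := CRef.mk (Pat.mk 0x280000000800000038 0x7c0000000f00000078 4 7) 0 0 (step_sound _ 34 [rhf0a78ffe77b34783, (rhf48373e13d2bc128.shift 2 0)] (by decide +kernel))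
noncomputable def rhde6fff11caf69db9 : CRef := CRef.mk (Pat.mk 0xa000000020000000e0000000000000000 0x400000004000000060000001e000000030000001e0000000300000001 4 5) 0 0 (step_sound _ 130 [(rh046254d731362e10.shift 0 2), (rh215e11e099257d75.shift 1 1), rh6ce021e181db5f56] (by decide +kernel))
noncomputable def rhfb1d1bd408268d13 : CRef := CRef.mk (Pat.mk 0x2000000020000000e000000000000000000000000 0x100000003000000030000001e000000030000000300000001 4 5) 0 0 (step_sound _ 65 [rh0c1c1b53bc5a1510, (rh157b220518f94713.shift 0 1), (rhf5ea7b418e9de72b.shift 0 1)] (by decide +kernel))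
noncomputable def rhe0e0d8cb0893308b : CRef := CRef.mk (Pat.mk 0x2000000020000000e0000000000000000 0x50000000700000007000000020000001e0000000300000001 4 5) 0 0 (step_sound _ 33 [rh157b220518f94713, (rh7ef5fa5c39f1c762.shift 0 1)] (by decide +kernel))
noncomputable def rh1feae9e9db3abd24 : CRef := CRef.mk (Pat.mk 0x40000001c000000340000000000000000 0x4000000040000001c0000003f0000000f00000008 4 6) 0 0 (step_sound _ 67 [(rh0e1512cbacfbd48b.shift 0 1), (rh55a1f6c57a317ce6.shift 2 0)] (by decide +kernel))
noncomputable def rh58701f9c88ced17a : CRef := CRef.mk (Pat.mk 0x1800000008000000200000006000000000 0x100000007c0000002f000000200000006000000040 4 7) 0 0 (step_sound _ 133 [(rh2820ca9a6c4f41b4.shift 0 3), (rhc5351dabd90740aa.shift 4 0)] (by decide +kernel))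
noncomputable def rhcfbb1427570203d3 : CRef := CRef.mk (Pat.mk 0x1800000008000000280000006000000000 0x460000007c0000006f000000280000006800000040 4 7) 0 0 (step_sound _ 133 [(rh2820ca9a6c4f41b4.shift 0 3), (rh60829b1133541a47.shift 1 0), (rhb3d1711f50238fa5.shift 2 0)] (by decide +kernel))
noncomputable def rhc5f2fff7554e4d8d : CRef := CRef.mk (Pat.mk 0x20000001f000000050000000000000000 0x60000007f0000001d0000000100000001 4 7) 0 0 (step_sound _ 0 [(rh64fa2638f58ff22d.shift 0 2), rh9e3edb185cc347de] (by decide +kernel))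
noncomputable def rhc248c217f0e36a02 : CRef := CRef.mk (Pat.mk 0x20000001f000000010000000000000000 0x60000003f000000710000000100000001 4 7) 0 0 (step_sound _ 0 [(rh60e95adc726bb530.shift 1 2), rh9e3edb185cc347de] (by decide +kernel))
noncomputable def rh02be1d4bf3af3399 : CRef := CRef.mk (Pat.mk 0x1800000038000000000000000000000000 0x1000000018000000780000001f0000000800000008 4 7) 0 0 (step_sound _ 67 [(rhea7a1800d6f053bd.shift 3 0), (rhf0f55c4504412200.shift 0 2)] (by decide +kernel))
noncomputable def rha378ba2cf184f257 : CRef := CRef.mk (Pat.mk 0x40000001c0000001c000000080000000000000000 0x100000001c0000001c0000001c0000000f0000000600000004 4 5) 0 0 (step_sound _ 164 [(rh5c5e593799055d58.shift 3 2), rhc43c2d79be381ab2] (by decide +kernel))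
noncomputable def rh660dde97e8909aac : CRef := CRef.mk (Pat.mk 0x80000000e0000001c000000000000000400000000 0x80000001e0000001e000000330000001600000016 4 6) 0 0 (step_sound _ 97 [rh057b4130fe0cd6b1, (rhd132b680030c88e0.shift 1 0)] (by decide +kernel))
noncomputable def rh54d240e4509addaa : CRef := CRef.mk (Pat.mk 0x80000000e0000001c000000000000000000000000 0xc0000001e0000001e000000330000001200000012 4 6) 0 0 (step_sound _ 97 [rh9a011a4d0ec8f646, (rhd132b680030c88e0.shift 1 0)] (by decide +kernel))
noncomputable def rhd5da675c512c9dd2 : CRef := CRef.mk (Pat.mk 0x100000000000000018000000380000000800000000 0x180000001800000008000000180000003c0000000f00000004 4 6) 0 0 (step_sound _ 131 [rh322e79f034282812, (rh82bd946b1709a78e.shift 3 2)] (by decide +kernel))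
noncomputable def rh5efc4642d5ccaf9f : CRef := CRef.mk (Pat.mk 0x1e0000001c000000000000000000000000 0xc0000001e0000001e000000330000001200000012 4 6) 0 0 (step_sound _ 97 [rh9a011a4d0ec8f646, (rhbbe16ff26f7822db.shift 1 0)] (by decide +kernel))
noncomputable def rh38f9cf8822013590 : CRef := CRef.mk (Pat.mk 0x8000000000000000e0000000c00000004 0xc0000000e000000070000003e0000000c00000004 4 6) 0 0 (step_sound _ 98 [(rh82bd946b1709a78e.shift 2 1), rhaef2adbbd453a55b] (by decide +kernel))
noncomputable def rh760c44bf54766813 : CRef := CRef.mk (Pat.mk 0x1800000010000000180000001800000000 0x40000001f00000038000000380000001f00000004 4 6) 0 0 (step_sound _ 99 [rh6fae963f33cfdfd7, (rhc647a25a08ddf0ec.shift 0 1)] (by decide +kernel))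
noncomputable def rh89e99fed878badb7 : CRef := CRef.mk (Pat.mk 0x200000002000000020000000300000002 0x2000000020000000600000006000000070000000700000002 4 3) 0 0 (step_sound _ 98 [(rh2f68792b6b779e96.shift 1 0), (rh7e2b5fc52af4e919.shift 0 1)] (by decide +kernel))
noncomputable def rh7c146080ac4b395d : CRef := CRef.mk (Pat.mk 0x40000000f000000050000000000000000 0x40000001f0000001f0000001800000008 4 5) 0 0 (step_sound _ 65 [(rh18965a982d73c794.shift 0 2), rh3f420d1be4b84cac] (by decide +kernel))
noncomputable def rh73cecff95910b939 : CRef := CRef.mk (Pat.mk 0x80000001e0000001a000000000000000000000000 0xc0000001e0000001e000000330000001200000002 4 6) 0 0 (step_sound _ 98 [(rh78974448101547fe.shift 1 1), rh9a011a4d0ec8f646] (by decide +kernel))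
noncomputable def rhcc0e8234260e74db : CRef := CRef.mk (Pat.mk 0x40000000e00000005 0xe0000007e0000000f 4 7) 0 0 (step_sound _ 36 [rh80fcd6d0a18cb2dd, (rh8cda118e73192ffa.shift 1 0)] (by decide +kernel))
noncomputable def rh56ac227ed93e46c3 : CRef := CRef.mk (Pat.mk 0x40000000e00000001 0x60000003e00000073 4 7) 0 0 (step_sound _ 36 [(rh695f888db18ad7c7.shift 1 0), rh80fcd6d0a18cb2dd] (by decide +kernel))
noncomputable def rhae0e0f7205b8bdf3 : CRef := CRef.mk (Pat.mk 0x4000000170000001c00000000 0x140000003e000000170000001c00000008 4 6) 0 0 (step_sound _ 3 [(rh2145e1d24b96a57e.shift 2 0), rhccf8b66635a266db] (by decide +kernel))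
noncomputable def rhc9aa0ffe37bb1c1d : CRef := CRef.mk (Pat.mk 0x2000000030000000200000002 0x4000000070000000700000003000000030000000300000002 4 3) 0 0 (step_sound _ 129 [rh3ca48e2a6d60153d, (rh769be3fe24eee174.shift 0 1)] (by decide +kernel))
noncomputable def rhfdb386ce312ae9a9 : CRef := CRef.mk (Pat.mk 0x20000000300000002000000020000000100000000 0x600000006000000060000000300000003000000020000000300000003 4 3) 0 0 (step_sound _ 33 [rh50c14aaf14ae5553, rh932754581e0f4330] (by decide +kernel))
noncomputable def rh369aca71e8df09ed : CRef := CRef.mk (Pat.mk 0x30000000e0000000c00000000 0xe0000001e0000000f0000000e0000000c00000008 4 5) 0 0 (step_sound _ 130 [(rh45e3002665ad3719.shift 0 1), rh7a1ed4148b53913e, (rhda6cc5da102e1723.shift 2 0)] (by decide +kernel))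
noncomputable def rh69523421e4430802 : CRef := CRef.mk (Pat.mk 0x18000000100000003c0000001000000000 0x240000007f0000003e0000003c0000001800000008 4 7) 0 0 (step_sound _ 99 [(rh49042301112ca92b.shift 1 1), rh9ed49c34a595f0ef] (by decide +kernel))
noncomputable def rh0e472643444e3d82 : CRef := CRef.mk (Pat.mk 0xc000000020000001e000000080000000000000000 0x1000000370000003e000000160000001e0000000c0000000400000004 4 6) 0 0 (step_sound _ 161 [(rh046c5eb18e55a239.shift 1 0), (rh0cbd98d022e84f17.shift 0 2), (rh0fdd10633ea9ac01.shift 1 2)] (by decide +kernel))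
noncomputable def rhafaee7bc4e422d7c : CRef := CRef.mk (Pat.mk 0x38000000000000003c00000000 0x770000003e000000070000003c00000008 4 7) 0 0 (step_sound _ 98 [(rh00f1bb10334541e3.shift 0 3), (rh0e52b97cddc515c5.shift 1 0), (rh657a9bac0b87d3c6.shift 0 1)] (by decide +kernel))
noncomputable def rh028ee1d4f57afa94 : CRef := CRef.mk (Pat.mk 0x1c000000000000001e00000000 0x80000003c000000170000001e00000034 4 6) 0 0 (step_sound _ 65 [(rh3244c3cc8379b070.shift 0 1), (rhc78bbdac26348b03.shift 1 0)] (by decide +kernel))
noncomputable def rh23f227f105ceae39 : CRef := CRef.mk (Pat.mk 0x1c000000000000001e00000008 0x330000001e000000130000001e0000000c 4 6) 0 0 (step_sound _ 65 [(rh3244c3cc8379b070.shift 0 1), rh35a194ad95627f53] (by decide +kernel))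
noncomputable def rh4b5aa664d568093a : CRef := CRef.mk (Pat.mk 0x800000018000000000000003c00000010 0x3f0000007c000000200000003c00000070 4 7) 0 0 (step_sound _ 101 [(rh16dbd004250b0dd9.shift 2 0), (rha9fbfd4bb8cf890b.shift 0 3)] (by decide +kernel))
noncomputable def rh6c24bfbc6e221dd9 : CRef := CRef.mk (Pat.mk 0xe000000000000001e00000000 0x1000000030000001e000000030000001e00000004 4 5) 0 0 (step_sound _ 65 [rh0cbd98d022e84f17, (rh3244c3cc8379b070.shift 0 1)] (by decide +kernel))
noncomputable def rh3e6d992280b05da2 : CRef := CRef.mk (Pat.mk 0x380000000000000078 0x770000003e0000000e00000078 4 7) 0 0 (step_sound _ 66 [(rh00f1bb10334541e3.shift 0 2), (rh14302a4313555aea.shift 1 0)] (by decide +kernel))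
noncomputable def rh00999f7121ea5768 : CRef := CRef.mk (Pat.mk 0x1c000000000000003000000010 0xff0000003e000000200000003000000010 4 8) 0 0 (step_sound _ 133 [(rh90fcc1b0fe0017ad.shift 1 3), (rh9f6d71d2ccb1f73c.shift 2 0), rhea9e92e758e1c267] (by decide +kernel))
noncomputable def rh203048e9d2f96cb1 : CRef := CRef.mk (Pat.mk 0x38000000000000006000000020 0xe70000007e000000470000006000000020 4 8) 0 0 (step_sound _ 98 [(rh0729e794b6b0c7c1.shift 2 0), (rh2cc7d62e70c02209.shift 0 2)] (by decide +kernel))
noncomputable def rh653139d4cf0d2543 : CRef := CRef.mk (Pat.mk 0x1c000000000000003c00000010 0x700000003e000000270000003c00000010 4 7) 0 0 (step_sound _ 65 [(rh3f8766e6ecb455ce.shift 1 1), rh89a967bf33625389] (by decide +kernel))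
noncomputable def rh015b72ac109324f3 : CRef := CRef.mk (Pat.mk 0x60000000100000007000000040000000000000000 0x6000000070000000300000007000000060000000200000002 4 3) 0 0 (step_sound _ 129 [(rh2145e1d24b96a57e.shift 1 2), rh8379dda7bed67b0f] (by decide +kernel))
noncomputable def rhae253e840741eb84 : CRef := CRef.mk (Pat.mk 0xc000000000000001e00000018 0x1c0000003c000000170000001e00000018 4 6) 0 0 (step_sound _ 65 [(rh3244c3cc8379b070.shift 0 1), (rh718843506682e2bd.shift 1 0)] (by decide +kernel))
noncomputable def rhc0b2cf33c02b03eb : CRef := CRef.mk (Pat.mk 0x2000000020000000700000002 0x60000000700000007000000070000000700000002 4 3) 0 0 (step_sound _ 96 [rh50fbb5868c909700, rh8fa618f359c055c7] (by decide +kernel))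
noncomputable def rhfd6673c3da02e035 : CRef := CRef.mk (Pat.mk 0x180000000c0000002800000020 0x10000000780000002f0000002800000028 4 7) 0 0 (step_sound _ 64 [(rh24ae073cf30720c4.shift 0 2), (rh4fc10215b731c3cf.shift 2 0)] (by decide +kernel))
noncomputable def rh7de4028f69864aee : CRef := CRef.mk (Pat.mk 0x200000002000000030000000a00000008 0x4000000060000001e0000000b0000000a0000000a 4 5) 0 0 (step_sound _ 130 [(rh2f68792b6b779e96.shift 1 1), rh39ab8720c4805802] (by decide +kernel))
noncomputable def rhe9a6f79979c06978 : CRef := CRef.mk (Pat.mk 0xc0000000c000000080000000800000000 0x100000003c0000000f000000080000000c00000004 4 6) 0 0 (step_sound _ 2 [(rh79877ebd3ef475dd.shift 2 0), (rhc0ddb33d3a52722b.shift 0 1)] (by decide +kernel))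
noncomputable def rhfab5c93b60bffbf2 : CRef := CRef.mk (Pat.mk 0xc0000000d0000002000000020 0x100000007c0000006f0000002000000020 4 7) 0 0 (step_sound _ 100 [(rh24ae073cf30720c4.shift 0 2), (rh6e36e895ce1a35fe.shift 2 0)] (by decide +kernel))
noncomputable def rhc16a89e8483c31ca : CRef := CRef.mk (Pat.mk 0x180000001a000000100000000000000000 0xc0000000c0000001f0000001b0000001f0000000c00000008 4 5) 0 0 (step_sound _ 67 [rh3a8c39a005159e2c, (rh7552ecd08e523dde.shift 0 1), (rhfb64ba5458f5c134.shift 2 0)] (by decide +kernel))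
noncomputable def rh89367553d89737a0 : CRef := CRef.mk (Pat.mk 0x300000003000000020000000200000000 0x600000006000000060000000300000003000000030000000300000001 4 3) 0 0 (step_sound _ 161 [rh0ec68e0bf4727743, (rh5fa50b509d4ce753.shift 0 2)] (by decide +kernel))
noncomputable def rh443beb14aac0b25e : CRef := CRef.mk (Pat.mk 0x3800000018000000080000000000000000 0x40000003f0000001f000000080000000800000008 4 6) 0 0 (step_sound _ 97 [(rh24ae073cf30720c4.shift 1 3), rh3a8c39a005159e2c] (by decide +kernel))
noncomputable def rh928219def897e275 : CRef := CRef.mk (Pat.mk 0xe0000001600000010 0x8000000380000003f0000001600000010 4 6) 0 0 (step_sound _ 68 [(rh18965a982d73c794.shift 1 1), rh2c9cc6ea898ce072] (by decide +kernel))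
noncomputable def rh45eacce28c1edd08 : CRef := CRef.mk (Pat.mk 0x40000000400000014000000100000000000000000 0x400000004000000070000003e000000360000000200000002 4 6) 0 0 (step_sound _ 97 [(rh281c6819542c66e6.shift 1 0), (rhf516302f831125d8.shift 0 2)] (by decide +kernel))
noncomputable def rha336d587aa840e87 : CRef := CRef.mk (Pat.mk 0x400000004000000040000001400000010 0x400000004000000070000003e00000032 4 6) 0 0 (step_sound _ 33 [(rh932754581e0f4330.shift 1 0), rhf516302f831125d8] (by decide +kernel))
noncomputable def rhe709585a84324703 : CRef := CRef.mk (Pat.mk 0x200000002000000020000001a00000010 0x40000000600000006000000020000001e00000033 4 6) 0 0 (step_sound _ 34 [(rhe25b0a99195a5d59.shift 1 0), rhfe5ab67337d6131f] (by decide +kernel))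
noncomputable def rh60f21f934ebb3440 : CRef := CRef.mk (Pat.mk 0x200000002000000020000001a0000001800000000 0x10000001b0000001e0000001a0000001a0000001800000010 4 5) 0 0 (step_sound _ 131 [(rh87f9bcbf59fdac8f.shift 0 1), (rhda6cc5da102e1723.shift 3 0), rheae301068cd49f9a] (by decide +kernel))
noncomputable def rh46e83f217a7f2cd8 : CRef := CRef.mk (Pat.mk 0xa00000002000000080000001800000000 0x140000001e0000000b000000080000001800000010 4 5) 0 0 (step_sound _ 99 [(rh55afc6a59410cf00.shift 3 0), (rh9258736a7488cc35.shift 0 1)] (by decide +kernel))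
noncomputable def rh6caf0255d24c06ec : CRef := CRef.mk (Pat.mk 0xa000000020000001a00000018 0x4000000040000001e0000001e000000130000001a0000001a 4 5) 0 0 (step_sound _ 98 [(rh215e11e099257d75.shift 1 0), rh90cf1cb24c66491b] (by decide +kernel))
noncomputable def rh78d994510be1b4ce : CRef := CRef.mk (Pat.mk 0xc0000000800000008000000680000002000000000 0x2f0000007c0000002c00000078000000e000000040 4 8) 0 0 (step_sound _ 133 [(rh8c25cb665ab79ec0.shift 0 4), (rhc398517f96dac4b3.shift 2 0)] (by decide +kernel))
noncomputable def rh46ac2eeca16ffce3 : CRef := CRef.mk (Pat.mk 0x40000000200000002000000020000001a 0x100000007000000070000000200000003000000030000001e 4 5) 0 0 (step_sound _ 129 [(rh2f68792b6b779e96.shift 1 1), rhb323176e3b1b72dc] (by decide +kernel))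
noncomputable def rh8db3b1a0f6286d1a : CRef := CRef.mk (Pat.mk 0x200000012000000020000001a00000008 0x40000001e00000033000000120000001a00000008 4 6) 0 0 (step_sound _ 130 [(rh2f68792b6b779e96.shift 1 1), rha9bdad1d8a937ac5] (by decide +kernel))
noncomputable def rhe724bc0d5763667a : CRef := CRef.mk (Pat.mk 0x200000012000000020000001a0000000800000000 0x40000000f0000003e0000000b0000001e0000003800000010 4 6) 0 0 (step_sound _ 131 [(rh5394ee3082c48d83.shift 0 2), rhc398517f96dac4b3, (rhe0f8922315861807.shift 0 2)] (by decide +kernel))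
noncomputable def rh540e099fa36a5ce9 : CRef := CRef.mk (Pat.mk 0x12000000020000001a00000008 0x100000001e0000001b0000001e00000008 4 5) 0 0 (step_sound _ 64 [(rh5419adcd928dba20.shift 0 1), rhb7baf4372ab3b570] (by decide +kernel))
noncomputable def rh91c8a5af03562901 : CRef := CRef.mk (Pat.mk 0x10000000200000002000000020000001a 0x400000007000000070000000200000003000000030000001e 4 5) 0 0 (step_sound _ 129 [(rh50fbb5868c909700.shift 0 1), rh8b5258fd54681eed] (by decide +kernel))
noncomputable def rh55471c9692a9a97a : CRef := CRef.mk (Pat.mk 0x2000000020000001e00000002 0x50000000700000007000000020000001e00000032 4 6) 0 0 (step_sound _ 4 [rh7ef5fa5c39f1c762, (rhe25b0a99195a5d59.shift 1 0)] (by decide +kernel))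
noncomputable def rhb314b49afda8e790 : CRef := CRef.mk (Pat.mk 0x80000000c000000340000000400000000 0x20000000f0000003c0000003c0000000600000002 4 6) 0 0 (step_sound _ 130 [(rh5710f30ba40ee3ec.shift 1 0), (rhcf85c92937975d4d.shift 0 1)] (by decide +kernel))
noncomputable def rhb75933baa346adba : CRef := CRef.mk (Pat.mk 0x60000001a000000000000000000000000 0x4000000060000003e000000030000000200000002 4 6) 0 0 (step_sound _ 98 [rh9a011a4d0ec8f646, (rhf48373e13d2bc128.shift 1 3)] (by decide +kernel))
noncomputable def rh112a25fc16b3b14b : CRef := CRef.mk (Pat.mk 0x4000000070000000c00000004 0xa0000001e000000070000003c00000004 4 6) 0 0 (step_sound _ 36 [rh4017de503635a93b, (rhf48373e13d2bc128.shift 1 1)] (by decide +kernel))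
noncomputable def rh83d699e7f28c6ad8 : CRef := CRef.mk (Pat.mk 0x6000000050000000c00000004 0x80000001e0000000f0000003c00000004 4 6) 0 0 (step_sound _ 99 [(rh22d7ce585793bf1d.shift 0 1), (rh2f68792b6b779e96.shift 2 0)] (by decide +kernel))
noncomputable def rh3e5bd007386cac85 : CRef := CRef.mk (Pat.mk 0x18000000140000001400000010 0x230000003e000000360000001400000014 4 6) 0 0 (step_sound _ 98 [rhb1e85508c6bcb2d1, (rhc49ca0b9223e2b96.shift 1 0)] (by decide +kernel))
noncomputable def rhecbd7dfedd5db675 : CRef := CRef.mk (Pat.mk 0x20000000e000000020000000000000000 0x4000000060000003e000000030000000200000002 4 6) 0 0 (step_sound _ 100 [(rh7c44f8de8ceba237.shift 1 0), (rheb0810cc63b001d8.shift 0 2)] (by decide +kernel))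
noncomputable def rhf5caf409ccc8caf5 : CRef := CRef.mk (Pat.mk 0x400000004000000140000000400000000 0x400000004000000040000003e0000000700000002 4 6) 0 0 (step_sound _ 33 [(rh932754581e0f4330.shift 1 0), (rhf81b24cfa3651a1c.shift 0 1)] (by decide +kernel))
noncomputable def rh040697bebc688ae6 : CRef := CRef.mk (Pat.mk 0x600000002000000080000000800000008 0x300000001e0000003b000000180000001800000008 4 6) 0 0 (step_sound _ 132 [(rh4d477abd4f690b79.shift 0 1), (rh9c1db2c8967fb481.shift 3 0), rhcaee4f794cf1cb22, rheb454ef9f5a1c0c5] (by decide +kernel))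
noncomputable def rh3462e41e3e30d27d : CRef := CRef.mk (Pat.mk 0xe00000020000000200000002000000000 0x40000000600000007e00000067000000600000006000000040 4 7) 0 0 (step_sound _ 133 [(rh18d8302ef044281c.shift 0 3), (rh426f403fa814630c.shift 5 0)] (by decide +kernel))
noncomputable def rh657dea8599269e57 : CRef := CRef.mk (Pat.mk 0xe00000004000000000000001000000010 0x3f0000003f000000100000001000000010 4 6) 0 0 (step_sound _ 100 [(rh1e42cdaa2b8276ac.shift 0 3), rh596be5a27a43c496, (rh7344b4efa7925350.shift 0 3)] (by decide +kernel))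
noncomputable def rhf29a0a24c2c631ae : CRef := CRef.mk (Pat.mk 0x1c000000080000002000000020 0x600000007f0000007f0000002000000020 4 7) 0 0 (step_sound _ 101 [(rh0a31c7f562fb8d12.shift 0 2), (rh6e0d4a5e44329c0c.shift 2 0), (rhaf9f2efc81a8312b.shift 1 2)] (by decide +kernel))
noncomputable def rh4df605d6a934e0f4 : CRef := CRef.mk (Pat.mk 0x10000000f00000004 0x30000007f0000001e 4 7) 0 0 (step_sound _ 3 [rh6fb4f7b37b190fce, rhe25b0a99195a5d59] (by decide +kernel))
noncomputable def rhc749934401f856ac : CRef := CRef.mk (Pat.mk 0x1c00000038000000000000000000000000 0x80000003c0000003f000000070000000400000004 4 6) 0 0 (step_sound _ 98 [(rh0e1512cbacfbd48b.shift 0 2), (rh9a011a4d0ec8f646.shift 1 0), (rhab2ad169e49f9c5e.shift 0 3)] (by decide +kernel))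
noncomputable def rh263bb0648877e52e : CRef := CRef.mk (Pat.mk 0x18000000380000000800000000 0x180000001800000018000000180000003c0000000f00000004 4 6) 0 0 (step_sound _ 131 [rh322e79f034282812, (rhc0301b400ca2a736.shift 3 1)] (by decide +kernel))
noncomputable def rhc02cf04c0bb7185f : CRef := CRef.mk (Pat.mk 0x4000000040000001c00000038000000000000000000000000 0x2000000060000000e0000001c0000003f000000060000000400000004 4 6) 0 0 (step_sound _ 98 [(rh7ffbcda9e2e33190.shift 1 0), (rh9a011a4d0ec8f646.shift 1 0), (rha37779f9238271b6.shift 1 2), (rhf5094ad2a427d4d3.shift 0 2)] (by decide +kernel))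
noncomputable def rh46cb53bd77e415aa : CRef := CRef.mk (Pat.mk 0x40000000c0000001c00000010 0xc0000000c0000000c0000000f0000001c00000010 4 5) 0 0 (step_sound _ 64 [(rh4f89f797aa397115.shift 2 0), (rhab22b5b56e7b3243.shift 0 1)] (by decide +kernel))
noncomputable def rh6a60e3bfa066bd5e : CRef := CRef.mk (Pat.mk 0x200000002000000030000000e00000008 0x4000000060000001e0000000f0000000e00000008 4 5) 0 0 (step_sound _ 130 [(rh2f68792b6b779e96.shift 1 1), rh79cff8fda540c0b7] (by decide +kernel))
noncomputable def rh419e6f3ffab43f44 : CRef := CRef.mk (Pat.mk 0x1c0000000800000030 0x3f0000003f00000030 4 6) 0 0 (step_sound _ 33 [(rh076be03eb7063320.shift 0 1), (rha35b3b16ce21a761.shift 1 0), (rhd526f9b20c752965.shift 0 1)] (by decide +kernel))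
noncomputable def rhd2d6f6aefecf0991 : CRef := CRef.mk (Pat.mk 0x1c0000000800000038 0x4000000060000007c0000001f00000038 4 7) 0 0 (step_sound _ 34 [(rh0f936b2c74e7b815.shift 1 0), rhb75a95a254d02bf0] (by decide +kernel))
noncomputable def rhd9d19cee20c3cc08 : CRef := CRef.mk (Pat.mk 0x600000004000000040000001c00000010 0x80000000f0000003c0000000c0000001c00000010 4 6) 0 0 (step_sound _ 131 [(rh2f68792b6b779e96.shift 2 1), rhe7bf5a31a4e8e39f] (by decide +kernel))
noncomputable def rhe6252b830689ce8a : CRef := CRef.mk (Pat.mk 0x2000000020000000600000006000000000000000000000000 0x100000003000000030000000600000006000000030000000300000003 4 3) 0 0 (step_sound _ 65 [(rh3ca48e2a6d60153d.shift 0 2), rhbb83b53687587fb2] (by decide +kernel))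
noncomputable def rh09a76b1bc40e82ed : CRef := CRef.mk (Pat.mk 0x20000000e0000000c 0x30000003e0000003f 4 6) 0 0 (step_sound _ 4 [(rhf48373e13d2bc128.shift 1 0), rhf49d61b8822b8666] (by decide +kernel))
noncomputable def rhe462dbbef370e63f : CRef := CRef.mk (Pat.mk 0x2800000008000000380000001000000000 0x100000007c0000000f000000380000001e00000004 4 7) 0 0 (step_sound _ 132 [(rh2820ca9a6c4f41b4.shift 0 3), (rh675ab9d4ddf88e9c.shift 1 0)] (by decide +kernel))
noncomputable def rhea0dbd29e2943262 : CRef := CRef.mk (Pat.mk 0xc0000002800000008000000280000002000000000 0x1f0000003c00000028000000380000003000000010 4 6) 0 0 (step_sound _ 36 [rh2b68b2c11bdf188b, (rhd3458b32566d63f7.shift 3 1)] (by decide +kernel))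
noncomputable def rh6f0f9f0ef2f601aa : CRef := CRef.mk (Pat.mk 0x30000000a000000020000000a0000000800000000 0x1f0000001a0000000a0000001e0000001c00000014 4 5) 0 0 (step_sound _ 99 [rh06da81da17442f27, (rh5dbd282fa88c2eb0.shift 1 0)] (by decide +kernel))
noncomputable def rh6d8905035fe7ec34 : CRef := CRef.mk (Pat.mk 0x20000000200000002000000020000000e 0x10000000300000003000000060000000600000007000000030000001e 4 5) 0 0 (step_sound _ 161 [rh240c9adf3134b9e2, rhf8f1c70b1c0d3608] (by decide +kernel))
noncomputable def rh37c900b2bb7bc53d : CRef := CRef.mk (Pat.mk 0x20000000200000002000000020000000e 0x50000000700000007000000020000000200000003000000030000001e 4 5) 0 0 (step_sound _ 161 [rh240c9adf3134b9e2, (rh7ef5fa5c39f1c762.shift 0 2)] (by decide +kernel))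
noncomputable def rh589464a80a16b035 : CRef := CRef.mk (Pat.mk 0x20000001e000000180000000000000000 0x4000000060000001e0000001f0000000300000003 4 5) 0 0 (step_sound _ 65 [(rheb0810cc63b001d8.shift 0 2), rhf7ede8521b5e3068] (by decide +kernel))
noncomputable def rhcbf59b5c9a54e301 : CRef := CRef.mk (Pat.mk 0x80000000a0000001800000008 0x140000003c0000000f0000001800000008 4 6) 0 0 (step_sound _ 66 [(rh4017de503635a93b.shift 1 0), (rhb739f4f82bb681b4.shift 0 1)] (by decide +kernel))
noncomputable def rhf549171afd855462 : CRef := CRef.mk (Pat.mk 0x200000002000000020000000a000000030000000000000000 0x20000000200000006000000060000001e000000030000000200000002 4 5) 0 0 (step_sound _ 98 [(rh18965a982d73c794.shift 0 2), (rh84c6bba3847605f7.shift 1 0)] (by decide +kernel))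
noncomputable def rh74b8b033e617db5a : CRef := CRef.mk (Pat.mk 0x80000000a0000000a0000000c 0x8000000080000000f0000007e0000000c 4 7) 0 0 (step_sound _ 34 [(rh5c5e593799055d58.shift 2 0), rh7577e90c7a26b0f4] (by decide +kernel))
noncomputable def rhdf51942a23df00ac : CRef := CRef.mk (Pat.mk 0x1800000014000000140000003000000000 0x240000007f0000003c0000001c0000007800000008 4 7) 0 0 (step_sound _ 130 [(rh18b96f14a0bf012e.shift 2 0), (rh23b12dd825d24518.shift 0 1)] (by decide +kernel))
noncomputable def rhd2a4d4859e4af1aa : CRef := CRef.mk (Pat.mk 0x40000000f00000004 0xc0000007f0000007e 4 7) 0 0 (step_sound _ 36 [(rh0ae232cce48795b7.shift 1 0), rh4ad5fc38f1b69f65, (rhf17b5c6197c16752.shift 1 0)] (by decide +kernel))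
noncomputable def rh327ea1939c92a27f : CRef := CRef.mk (Pat.mk 0x50000000c00000004 0xf0000007e0000000e 4 7) 0 0 (step_sound _ 36 [(rh4b858afe2cb38247.shift 0 1), (rhd9106766b9ff53c0.shift 1 0), (rhf17b5c6197c16752.shift 1 0)] (by decide +kernel))
noncomputable def rh20af4238df87b975 : CRef := CRef.mk (Pat.mk 0x20000000a000000020000000200000000 0x4000000060000003e000000030000000200000002 4 6) 0 0 (step_sound _ 130 [(rh2f68792b6b779e96.shift 1 1), rhdfe6d2fc82d40a18] (by decide +kernel))
noncomputable def rh77b6dfe1169410f3 : CRef := CRef.mk (Pat.mk 0x20000000a0000000a00000006 0x2000000020000003a0000003f00000006 4 6) 0 0 (step_sound _ 34 [(rh2145e1d24b96a57e.shift 1 0), rh2385381938a01cf3] (by decide +kernel))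
noncomputable def rh5f65666c5d7a7003 : CRef := CRef.mk (Pat.mk 0x30000000a0000000a00000006 0x1c0000000f0000001a0000000e00000006 4 5) 0 0 (step_sound _ 98 [(rh2f68792b6b779e96.shift 1 0), rh7fb2265ed288b31a] (by decide +kernel))
noncomputable def rh2cecf6a8d2d06d17 : CRef := CRef.mk (Pat.mk 0x8000000080000003c0000000800000000 0x80000000f0000003f0000001800000010 4 6) 0 0 (step_sound _ 36 [(rh55afc6a59410cf00.shift 3 0), (rhba89ab7cb81bcc90.shift 0 1)] (by decide +kernel))
noncomputable def rh24f1f50856d74b15 : CRef := CRef.mk (Pat.mk 0x4000000040000001e000000040000000000000000 0x4000000070000001e000000060000000600000006 4 5) 0 0 (step_sound _ 33 [(rh79877ebd3ef475dd.shift 1 1), rhd5823506d118b362] (by decide +kernel))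
noncomputable def rh40b7fc3f47921148 : CRef := CRef.mk (Pat.mk 0xa000000040000001400000014 0x8000000080000001f0000003e0000003600000014 4 6) 0 0 (step_sound _ 67 [(rh81e6ca9e3d856acc.shift 0 1), rh9ace60d8c88bfa83, (rhbfb5770941270498.shift 2 0)] (by decide +kernel))
noncomputable def rh8889a06f12009045 : CRef := CRef.mk (Pat.mk 0x400000007800000008 0x60000000ff00000038 4 8) 0 0 (step_sound _ 34 [rh3696295804471b76, (rh428265de8cd3cd2d.shift 2 1)] (by decide +kernel))
noncomputable def rhcc311c7b65042ed1 : CRef := CRef.mk (Pat.mk 0xd00000007000000010000000000000000 0x10000001d0000001f000000030000000200000002 4 5) 0 0 (step_sound _ 99 [rh318cdda39fd482c1, (rh33e738c4ed385b9f.shift 0 3)] (by decide +kernel))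
noncomputable def rhfb29c2e6ff424c17 : CRef := CRef.mk (Pat.mk 0x180000000a0000000300000000 0x1000000010000000180000001e0000000f00000008 4 5) 0 0 (step_sound _ 68 [rh96871148b385604a, (rhb2a0b9ccfb5cecd5.shift 0 1)] (by decide +kernel))
noncomputable def rheece6aff2001ab10 : CRef := CRef.mk (Pat.mk 0x50000000500000001000000020000000000000000 0x4000000050000000500000007000000070000000200000002 4 3) 0 0 (step_sound _ 33 [(rhbe0e43a3bc50a43f.shift 0 1), (rhbe1d2bd23b186e81.shift 1 0)] (by decide +kernel))
noncomputable def rha0d97ddec4fdd57b : CRef := CRef.mk (Pat.mk 0x50000000500000001000000020000000000000000 0x5000000050000000500000007000000060000000200000002 4 3) 0 0 (step_sound _ 97 [(rh2145e1d24b96a57e.shift 0 2), (rhe83f0679b86b6627.shift 1 0)] (by decide +kernel))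
noncomputable def rh74149a5557f64ba4 : CRef := CRef.mk (Pat.mk 0x200000002000000020000000400000000 0x20000000200000002000000070000000700000005 4 3) 0 0 (step_sound _ 161 [rh73329e8902d29e57, (rhd3458b32566d63f7.shift 1 1)] (by decide +kernel))
noncomputable def rh0f0e2cf3f70a257b : CRef := CRef.mk (Pat.mk 0x80000001b000000060000000000000000 0x800000008000000180000001b0000001e0000001000000010 4 5) 0 0 (step_sound _ 68 [(rh2fe78cc5ca4405d8.shift 0 2), (rha40d42a2e34c408d.shift 3 0)] (by decide +kernel))
noncomputable def rh9df88d842ae15686 : CRef := CRef.mk (Pat.mk 0x20000000600000003000000000000000000000000 0x2000000020000001e00000003000000030000000100000001 4 5) 0 0 (step_sound _ 132 [rh281c6819542c66e6, (rh361cc68994bd8a63.shift 0 3)] (by decide +kernel))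
noncomputable def rh6e5f5a463480b50d : CRef := CRef.mk (Pat.mk 0x60000000200000003000000040000000000000000 0x70000000700000003000000060000000600000002 4 3) 0 0 (step_sound _ 65 [(rh55afc6a59410cf00.shift 1 1), rh754b8d2daded6d3e] (by decide +kernel))
noncomputable def rh7f41d2bb1c8da290 : CRef := CRef.mk (Pat.mk 0x40000000c000000030000000200000000 0x4000000040000001c0000000f0000001a00000008 4 5) 0 0 (step_sound _ 66 [(rh5c5e593799055d58.shift 1 1), rh9be069fbbecfe378] (by decide +kernel))
noncomputable def rh00e04475729c0d75 : CRef := CRef.mk (Pat.mk 0x30000001a0000000a0000000200000000 0xa0000000f0000001a0000000e0000000600000004 4 5) 0 0 (step_sound _ 131 [(rhc10214bf3fe8094a.shift 0 3), (rhfef0a9b9c00f57c1.shift 1 0)] (by decide +kernel))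
noncomputable def rheddc63a46e48430f : CRef := CRef.mk (Pat.mk 0x1000000010000000000000000e00000000 0x100000001000000010000000380000003f00000030 4 6) 0 0 (step_sound _ 68 [(rh1439b430a642f7dd.shift 0 1), (rhe3541bb398310790.shift 1 0)] (by decide +kernel))
noncomputable def rh9482d7390d124cb4 : CRef := CRef.mk (Pat.mk 0x20000001a0000000200000004 0x2000000020000003b0000001f00000004 4 6) 0 0 (step_sound _ 34 [(rh2145e1d24b96a57e.shift 1 0), (rh51ff335405c97b2c.shift 0 1)] (by decide +kernel))
noncomputable def rh19df24c2350c1692 : CRef := CRef.mk (Pat.mk 0xa0000001a0000000a0000000200000000 0x80000000a0000001a0000001e0000001300000011 4 5) 0 0 (step_sound _ 32 [rh68cf21e748e60573, rh932754581e0f4330] (by decide +kernel))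
noncomputable def rh9b79cd1bc448a214 : CRef := CRef.mk (Pat.mk 0x1000000010000000100000001a00000000 0x1000000010000000300000003e00000027 4 6) 0 0 (step_sound _ 34 [(rh33e738c4ed385b9f.shift 1 1), rh6c5b90ba2a83bd67] (by decide +kernel))
noncomputable def rhc94617ddfb08d979 : CRef := CRef.mk (Pat.mk 0x800000008000000010000000e00000000 0x800000018000000330000001e00000030 4 6) 0 0 (step_sound _ 36 [(rh3f8766e6ecb455ce.shift 0 1), (rhb677d5483aaebfd8.shift 1 0)] (by decide +kernel))
noncomputable def rhb41b27ecccbdcc36 : CRef := CRef.mk (Pat.mk 0x500000005000000040000000c00000000 0x50000000500000005000000070000001e00000002 4 5) 0 0 (step_sound _ 33 [(rh932754581e0f4330.shift 1 0), (rhfe9ac4c44d5c9ede.shift 0 1)] (by decide +kernel))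
noncomputable def rhee702b16e614dfe9 : CRef := CRef.mk (Pat.mk 0x60000000200000002000000060000000000000000 0x2000000060000000600000006000000070000000300000001 4 3) 0 0 (step_sound _ 98 [(rh2145e1d24b96a57e.shift 1 2), rha8bc3cae4d77a08f] (by decide +kernel))
noncomputable def rhf894c3c3ee1887eb : CRef := CRef.mk (Pat.mk 0x8000000080000000a0000001800000000 0x800000008000000080000001b0000001f00000004 4 5) 0 0 (step_sound _ 68 [rh114380420d2c6317, (rh2145e1d24b96a57e.shift 3 1)] (by decide +kernel))
noncomputable def rhabfbfc9e84ce2d24 : CRef := CRef.mk (Pat.mk 0x180000001a000000120000001000000000 0x10000000180000003b0000001e0000001800000008 4 6) 0 0 (step_sound _ 35 [(rh37359418da467a18.shift 0 1), (rh932754581e0f4330.shift 3 0)] (by decide +kernel))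
noncomputable def rhcb3cc4493dd1ddec : CRef := CRef.mk (Pat.mk 0x80000000c000000090000000800000000 0x800000008000000080000000c0000001f0000001800000010 4 5) 0 0 (step_sound _ 36 [(rh55afc6a59410cf00.shift 3 0), (rh93b404d624c16d31.shift 0 1)] (by decide +kernel))
noncomputable def rh0d121b9f000f4687 : CRef := CRef.mk (Pat.mk 0xc0000000c000000090000000800000000 0x80000000c0000001c0000000f0000001c00000004 4 5) 0 0 (step_sound _ 34 [(rh1086ea6ce47cb05f.shift 0 1), (rh932754581e0f4330.shift 2 0)] (by decide +kernel))
noncomputable def rh2451dda11ef63e6a : CRef := CRef.mk (Pat.mk 0x800000018000000020000001000000000 0x1000000018000000380000001f0000003800000018 4 6) 0 0 (step_sound _ 67 [(rh7b8c267e840efa16.shift 0 1), (rh8f4050c06a082165.shift 3 0)] (by decide +kernel))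
noncomputable def rh169c532dd39f3a5d : CRef := CRef.mk (Pat.mk 0x8000000180000000a0000001000000000 0x800000008000000180000000f0000003c00000010 4 6) 0 0 (step_sound _ 66 [(rh53b3c253cb0c65f4.shift 0 2), (rh554d7e87cf122ca3.shift 1 0)] (by decide +kernel))
noncomputable def rh0fe9fa7db1515f92 : CRef := CRef.mk (Pat.mk 0x200000006000000020000000000000000 0x100000003000000070000000700000006000000060000000600000002 4 3) 0 0 (step_sound _ 160 [(rh0048f2ad683a82b8.shift 0 1), (rh9a17dc36f7181934.shift 0 1), rhedb11bef59254b8a] (by decide +kernel))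
noncomputable def rh780a5fd1e43fb1b8 : CRef := CRef.mk (Pat.mk 0xc0000001a0000000200000000 0x400000004000000060000000f0000001a0000000200000002 4 5) 0 0 (step_sound _ 97 [(rh215e11e099257d75.shift 1 0), (rhb739f4f82bb681b4.shift 0 2)] (by decide +kernel))
noncomputable def rh05ad842d75c48ae9 : CRef := CRef.mk (Pat.mk 0xe000000120000000200000000 0x4000000070000001e000000320000000200000002 4 6) 0 0 (step_sound _ 100 [rh9e2fd3dafc6603e4, (rhe25b0a99195a5d59.shift 1 2)] (by decide +kernel))
noncomputable def rh519f933ad7bc219c : CRef := CRef.mk (Pat.mk 0xa0000001a0000000200000000 0x100000001000000010000000f0000001b0000000200000002 4 5) 0 0 (step_sound _ 96 [(rhc10214bf3fe8094a.shift 0 2), rhf9a6286f1d5377a2] (by decide +kernel))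
noncomputable def rhd946de83b99086da : CRef := CRef.mk (Pat.mk 0xa000000120000000200000000 0x400000004000000060000001e000000330000000200000002 4 6) 0 0 (step_sound _ 98 [(rh215e11e099257d75.shift 1 0), (rh474e234485f2465c.shift 0 2)] (by decide +kernel))
noncomputable def rh834d04a7eb8197c0 : CRef := CRef.mk (Pat.mk 0x30000000a0000001a00000002 0x1c0000000f0000001a0000001a00000012 4 5) 0 0 (step_sound _ 98 [(rh2f68792b6b779e96.shift 1 0), rh87babb47aa1ecbde] (by decide +kernel))
noncomputable def rh28f648a05c9e9249 : CRef := CRef.mk (Pat.mk 0x10000000200000002000000020000000000000000 0x1000000030000000300000002000000030000000300000001 4 2) 0 0 (step_sound _ 161 [(rh50fbb5868c909700.shift 0 2), rhe4441baab75a6f73] (by decide +kernel))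
noncomputable def rh14177cfe54d70215 : CRef := CRef.mk (Pat.mk 0xe0000000400000030 0x3f0000003f00000030 4 6) 0 0 (step_sound _ 36 [(rh1e42cdaa2b8276ac.shift 0 1), rh79dc0c3e8356dae3, (rha844442475d131dc.shift 1 0), (rhd5041491555e8d86.shift 1 1)] (by decide +kernel))
noncomputable def rhd0639720181d6385 : CRef := CRef.mk (Pat.mk 0x800000068000000180000000c 0x140000003c00000068000000180000000f 4 7) 0 0 (step_sound _ 1 [(rh330a005829cdd297.shift 2 0), rh53b3c253cb0c65f4] (by decide +kernel))
noncomputable def rh42d98495bcbca15b : CRef := CRef.mk (Pat.mk 0x8000000680000000c00000018 0x140000003c000000680000000f00000018 4 7) 0 0 (step_sound _ 33 [(rh330a005829cdd297.shift 2 0), rhb739f4f82bb681b4] (by decide +kernel))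
noncomputable def rh13686277c2a78df7 : CRef := CRef.mk (Pat.mk 0xe000000040000003000000000 0x300000003e000000370000003000000020 4 6) 0 0 (step_sound _ 100 [(rh462e38951f77e0b1.shift 1 0), (rhaf9f2efc81a8312b.shift 0 2)] (by decide +kernel))
noncomputable def rhadcf50baa115c334 : CRef := CRef.mk (Pat.mk 0x20000001a0000000200000000 0x400000004000000070000001f0000003b0000000200000002 4 6) 0 0 (step_sound _ 98 [(rh215e11e099257d75.shift 1 0), (rh60c8c357ee95cc83.shift 0 2), rh9d15916a925d4940] (by decide +kernel))
noncomputable def rhf2019483e9703d11 : CRef := CRef.mk (Pat.mk 0x60000001a0000000800000000 0x4000000040000000c0000000f0000001a0000000800000008 4 5) 0 0 (step_sound _ 99 [(rhb739f4f82bb681b4.shift 0 2), (rhd01ed0cc6ce530d4.shift 1 0)] (by decide +kernel))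
noncomputable def rheae1012c426b8935 : CRef := CRef.mk (Pat.mk 0x3000000050000000500000000 0x2000000020000000600000007000000050000000500000005 4 3) 0 0 (step_sound _ 129 [rh71222050f2c63a3a, rh7f3653283b16b57e] (by decide +kernel))
noncomputable def rh7d9685dfb2c88fee : CRef := CRef.mk (Pat.mk 0x60000001800000008 0x10000000300000001f0000003800000008 4 6) 0 0 (step_sound _ 67 [(rh1d0feb764c8c303c.shift 1 0), (rhb739f4f82bb681b4.shift 0 1)] (by decide +kernel))
noncomputable def rh1e9e3641a49c3d16 : CRef := CRef.mk (Pat.mk 0x800000008000000080000000d00000000 0x100000001800000018000000180000000f00000018 4 5) 0 0 (step_sound _ 33 [(rh33e738c4ed385b9f.shift 0 1), rh36586e595fdbb742] (by decide +kernel))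
noncomputable def rhfd2c478b9dbde44e : CRef := CRef.mk (Pat.mk 0x200000002000000030000000300000000 0x50000000700000007000000030000000300000002 4 3) 0 0 (step_sound _ 128 [(rh50fbb5868c909700.shift 0 1), rh5659ed86225f985e] (by decide +kernel))
noncomputable def rh5448b6e823a2c85f : CRef := CRef.mk (Pat.mk 0x20000000600000002000000020000000200000000 0x300000003000000030000000600000006000000020000000200000002 4 3) 0 0 (step_sound _ 192 [rhc4721058e0584cac, (rhffd04209dc8ea796.shift 0 2)] (by decide +kernel))
noncomputable def rhaba5d968c67ffa00 : CRef := CRef.mk (Pat.mk 0x20000001a00000002000000000000000000000000 0x2000000020000003b0000001f000000060000000400000004 4 6) 0 0 (step_sound _ 98 [(rh51ff335405c97b2c.shift 0 3), (rh70e33bfdf511e144.shift 1 0)] (by decide +kernel))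
noncomputable def rhe432faad9ad3774c : CRef := CRef.mk (Pat.mk 0x30000000040000000e 0x300000003f0000003f 4 6) 0 0 (step_sound _ 36 [rh03888c09cb5c5df2, rh7dcd5319f4f71bec, rhca6a4af813f68cee] (by decide +kernel))
noncomputable def rhe251f7900272287e : CRef := CRef.mk (Pat.mk 0x20000000200000002000000020000000000000000 0x1000000030000000300000002000000030000000300000001 4 2) 0 0 (step_sound _ 33 [rh13e75f13a42f687f, (rh3ca48e2a6d60153d.shift 0 1), rh7928877f9bf74a91] (by decide +kernel))
noncomputable def rhd32cd9e81f0b2692 : CRef := CRef.mk (Pat.mk 0x180000000200000006000000020000000200000000 0x380000003f00000006000000020000000200000002 4 6) 0 0 (step_sound _ 130 [(rh71222050f2c63a3a.shift 1 0), (rhb3e2fd80fdf1f29c.shift 0 3)] (by decide +kernel))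
noncomputable def rh9146a3a664427a8b : CRef := CRef.mk (Pat.mk 0x18000000020000000200000002000000020000000400000000 0x190000000f0000000600000002000000020000000600000004 4 5) 0 0 (step_sound _ 33 [(rh0e83f540b55a42ee.shift 0 1), (rh55afc6a59410cf00.shift 1 0)] (by decide +kernel))
noncomputable def rh33aaeb3768264def : CRef := CRef.mk (Pat.mk 0x20000001a0000000200000000 0x400000004000000060000001f0000003b0000000200000002 4 6) 0 0 (step_sound _ 98 [(rh215e11e099257d75.shift 1 0), (rh60c8c357ee95cc83.shift 0 2)] (by decide +kernel))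
noncomputable def rhe171645a4ed0e30e : CRef := CRef.mk (Pat.mk 0x18000000030000000200000002000000020000000000000000 0x180000000f0000000600000002000000060000000600000004 4 5) 0 0 (step_sound _ 162 [(rh3fc040e777f1679e.shift 0 5), (rh8c3839f9b9075f23.shift 1 0)] (by decide +kernel))
noncomputable def rh29367e05abc1b745 : CRef := CRef.mk (Pat.mk 0x20000000300000002000000010000000000000000 0x30000000300000002000000070000000700000004 4 3) 0 0 (step_sound _ 65 [(rh932754581e0f4330.shift 0 1), rha8adab4bc30e0ea1] (by decide +kernel))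
noncomputable def rh73ce3d40155217e4 : CRef := CRef.mk (Pat.mk 0x8000000680000000c0000000800000000 0x8000000680000003f0000003800000010 4 7) 0 0 (step_sound _ 36 [(rh55afc6a59410cf00.shift 3 0), (rhc5c596ce018d2fd3.shift 0 1)] (by decide +kernel))
noncomputable def rh9487a1c21b038ccd : CRef := CRef.mk (Pat.mk 0xc0000000c000000090000000800000000 0x80000000c0000000c0000000f0000001c00000014 4 5) 0 0 (step_sound _ 34 [(rh932754581e0f4330.shift 2 0), rha8cdb563c2be87f5] (by decide +kernel))
noncomputable def rh54ae567a7f9561b7 : CRef := CRef.mk (Pat.mk 0x2000000050000000d00000001 0x20000000600000007000000050000000d0000000d 4 4) 0 0 (step_sound _ 129 [rh1006c02ae4212ff0, (rh42e284d0fae1a755.shift 1 0)] (by decide +kernel))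
noncomputable def rhb982148e30ea0afc : CRef := CRef.mk (Pat.mk 0x8000000080000001a0000000200000000 0x800000008000000080000003b0000001e00000010 4 6) 0 0 (step_sound _ 36 [rh01995d69bee44bf7, (rh2145e1d24b96a57e.shift 3 1)] (by decide +kernel))
noncomputable def rh5666a7219a7df38c : CRef := CRef.mk (Pat.mk 0xa00000012000000020000000400000000 0x40000001e00000033000000020000000600000004 4 6) 0 0 (step_sound _ 33 [(rh55afc6a59410cf00.shift 1 0), (rh8e3c2ffab5d5b6ac.shift 0 1)] (by decide +kernel))
noncomputable def rhf32cdac55f60eb57 : CRef := CRef.mk (Pat.mk 0x30000000a000000180000000000000000 0x80000000f0000001e000000180000001000000010 4 5) 0 0 (step_sound _ 100 [(rh5419adcd928dba20.shift 0 3), rhea6844c285c65a69] (by decide +kernel))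
noncomputable def rh323833fc65fd6143 : CRef := CRef.mk (Pat.mk 0x600000014000000040000000400000000 0x80000001e00000037000000040000000400000004 4 6) 0 0 (step_sound _ 131 [rh117bd2a06222d623, (rh2f68792b6b779e96.shift 2 1)] (by decide +kernel))
noncomputable def rh1e53ef3db9eea6c6 : CRef := CRef.mk (Pat.mk 0x20000001a0000000e00000004 0xc0000000f0000001a0000000e0000000e 4 5) 0 0 (step_sound _ 99 [rh482dbb16cfbb812d, (rh5c5e593799055d58.shift 2 0)] (by decide +kernel))
noncomputable def rh9e976f464b342636 : CRef := CRef.mk (Pat.mk 0x180000001c0000000400000000 0x800000008000000180000001f0000003400000010 4 6) 0 0 (step_sound _ 131 [rh1357d49ef66cf2d8, (rh5c5e593799055d58.shift 2 1)] (by decide +kernel))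
noncomputable def rhbf564aef9d769f78 : CRef := CRef.mk (Pat.mk 0x40000000e000000080000000e00000000 0x100000003c0000000e000000180000000f00000004 4 6) 0 0 (step_sound _ 32 [(rh33e738c4ed385b9f.shift 0 1), (rh9a156db74dae0595.shift 1 0)] (by decide +kernel))
noncomputable def rh786a49ef9d97e607 : CRef := CRef.mk (Pat.mk 0x4000000140000000e000000000000000000000000 0x40000001c0000001f000000780000000800000008 4 7) 0 0 (step_sound _ 67 [(rh08edf065357d68e5.shift 2 0), (rh8ee80cc30e93a344.shift 0 2), (rhe479db46730f3945.shift 0 1)] (by decide +kernel))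
noncomputable def rhcea6fdb1ff2fba2e : CRef := CRef.mk (Pat.mk 0x10000000180000003c00000000 0x100000001000000010000000180000003f00000007 4 6) 0 0 (step_sound _ 132 [(rh5c5e593799055d58.shift 3 1), rhcc2be1f880c5ea3e] (by decide +kernel))
noncomputable def rh1a7be3d2b3382e35 : CRef := CRef.mk (Pat.mk 0x60000000300000003000000000000000000000000 0x4000000060000000300000003000000060000000600000006 4 3) 0 0 (step_sound _ 65 [(rh2f68792b6b779e96.shift 1 2), rh99895f40e905d09f] (by decide +kernel))
noncomputable def rhd496eab5cc21e549 : CRef := CRef.mk (Pat.mk 0xa0000000b0000000a00000000 0x4000000040000000c0000001e0000000b0000000a00000002 4 5) 0 0 (step_sound _ 98 [(rh04ba39e2ec707f30.shift 1 0), (rh18965a982d73c794.shift 0 2)] (by decide +kernel))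
noncomputable def rhc38e884ec3171344 : CRef := CRef.mk (Pat.mk 0x1c0000000a00000008 0x10000000300000001f0000001b00000008 4 6) 0 0 (step_sound _ 65 [rh5c88a31321c6197b, (rheb0810cc63b001d8.shift 0 1)] (by decide +kernel))
noncomputable def rh5f03a1e2184bea5e : CRef := CRef.mk (Pat.mk 0x1c0000000e00000008 0x10000000300000001f0000007e00000078 4 7) 0 0 (step_sound _ 36 [(rh0cb6a409506b34ea.shift 1 0), rh7c670c94442132e7] (by decide +kernel))
noncomputable def rh735f25c7f714f01e : CRef := CRef.mk (Pat.mk 0xc000000040000001e00000008 0x100000003c000000370000001e00000008 4 6) 0 0 (step_sound _ 65 [(rh3244c3cc8379b070.shift 0 1), (rh9ca149b7c900214b.shift 1 0)] (by decide +kernel))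
noncomputable def rh22acb37d87b5b33c : CRef := CRef.mk (Pat.mk 0x300000007000000040000000000000000 0x2000000020000000700000007000000050000000500000004 4 3) 0 0 (step_sound _ 161 [(rh2145e1d24b96a57e.shift 1 2), rhda4632cbd6a3cfb1] (by decide +kernel))
noncomputable def rh34126e62fae680d3 : CRef := CRef.mk (Pat.mk 0x2000000030000000200000002 0x4000000070000000700000003000000030000000300000002 4 3) 0 0 (step_sound _ 129 [rh3ca48e2a6d60153d, (rh79e70552f96217b9.shift 0 1)] (by decide +kernel))
noncomputable def rh881f173fe09777bb : CRef := CRef.mk (Pat.mk 0x180000001c0000000400000000 0x800000008000000180000001f0000003400000010 4 6) 0 0 (step_sound _ 131 [(rh5c5e593799055d58.shift 2 1), rhb99743c2849212cd] (by decide +kernel))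
noncomputable def rh565d9b8ceec3e645 : CRef := CRef.mk (Pat.mk 0x70000000200000003800000000 0x780000003e0000007e00000007 4 7) 0 0 (step_sound _ 34 [rh21d582c147e7e118, (rh3b0fde8fecf12c56.shift 1 1)] (by decide +kernel))
noncomputable def rh4a932e27a870ad5f : CRef := CRef.mk (Pat.mk 0x10000000f0000000300000000 0x100000001000000190000000f0000001b00000002 4 5) 0 0 (step_sound _ 35 [rh60c1061ab38a496e, (rhe25b0a99195a5d59.shift 0 1)] (by decide +kernel))
noncomputable def rh7eb802971898658f : CRef := CRef.mk (Pat.mk 0xe00000004000000200000003000000000 0x300000003e00000077000000300000003000000010 4 7) 0 0 (step_sound _ 132 [(rh17a2e33c28db4057.shift 1 1), (rh6cdd4ef116dc3d3e.shift 1 0), (rhaf9f2efc81a8312b.shift 0 3)] (by decide +kernel))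
noncomputable def rh753fb9df3e36b5e3 : CRef := CRef.mk (Pat.mk 0x1800000008000000180000003800000000 0x40000001f00000038000000180000003800000020 4 6) 0 0 (step_sound _ 130 [(rh50fbb5868c909700.shift 2 1), rhb4e7dd664b9a6e31] (by decide +kernel))
noncomputable def rhb2c8d7482000fc0b : CRef := CRef.mk (Pat.mk 0xc00000018000000380000001000000000 0x10000000370000003f00000018000000380000003000000020 4 6) 0 0 (step_sound _ 132 [(rh703032655ec1637c.shift 0 1), (rh73aadfa332595112.shift 1 1), (rhd4b4beefcd67f51e.shift 4 0)] (by decide +kernel))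
noncomputable def rh7faba2a6504ebd41 : CRef := CRef.mk (Pat.mk 0x20000000b0000000e0000000200000000 0xc0000001e0000000b0000000e0000000600000004 4 5) 0 0 (step_sound _ 34 [(rh55afc6a59410cf00.shift 1 0), (rh741fc67095a12c8e.shift 0 1)] (by decide +kernel))
noncomputable def rh736751280ef2ab04 : CRef := CRef.mk (Pat.mk 0x6000000030000000e00000004 0xc0000001e0000000b0000000e0000000e 4 5) 0 0 (step_sound _ 99 [(rh013733e6ac4330ac.shift 1 0), (rh18965a982d73c794.shift 0 2)] (by decide +kernel))
noncomputable def rhf56e08d6dceb88ed : CRef := CRef.mk (Pat.mk 0x3000000060000000200000000 0x30000000300000003000000060000000600000006 4 3) 0 0 (step_sound _ 128 [rh0048f2ad683a82b8, rh7b1f1fb55310c477] (by decide +kernel))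
noncomputable def rh3e4567265cd571e4 : CRef := CRef.mk (Pat.mk 0x3000000030000000600000000 0x6000000060000000600000003000000030000000600000004 4 3) 0 0 (step_sound _ 129 [(rh55afc6a59410cf00.shift 1 0), (rh5db479c9ce22a9b1.shift 0 1)] (by decide +kernel))
noncomputable def rha54b245286d9c9b7 : CRef := CRef.mk (Pat.mk 0x200000003000000060000000600000000 0xc0000001e00000007000000060000000600000002 4 5) 0 0 (step_sound _ 130 [(rh2f68792b6b779e96.shift 1 1), rha00a7214bd0f87e4] (by decide +kernel))
noncomputable def rhf46ba56b66d3f945 : CRef := CRef.mk (Pat.mk 0x120000001e000000020000000000000000 0x20000001a0000003f000000060000000400000004 4 6) 0 0 (step_sound _ 131 [(rh318cdda39fd482c1.shift 1 0), (rh53b3c253cb0c65f4.shift 0 3)] (by decide +kernel))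
noncomputable def rhf4cb91dc0672a553 : CRef := CRef.mk (Pat.mk 0x40000001c0000000c000000080000000000000000 0xa0000000f0000001c0000000c0000000e0000000600000006 4 5) 0 0 (step_sound _ 66 [(rh039efe07c35de3d4.shift 0 2), (rh46530d756bdf8511.shift 1 0), (rhc7fea93a7ed00207.shift 1 0)] (by decide +kernel))
noncomputable def rh42cf1cedb8c53aee : CRef := CRef.mk (Pat.mk 0x2000000120000001a000000120000000400000000 0x90000000f0000001a0000001a0000001a0000001e0000001c 4 5) 0 0 (step_sound _ 131 [(rh1139a4c2dca99347.shift 0 2), (rh3cb04db3dd2b6a55.shift 3 0), (rh839c916d40e0d091.shift 1 0)] (by decide +kernel))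
noncomputable def rh1d6316615f64b03f : CRef := CRef.mk (Pat.mk 0x10000000900000009000000090000000800000000 0x900000009000000090000000f0000001e00000004 4 5) 0 0 (step_sound _ 34 [(rh932754581e0f4330.shift 2 0), (rheefb182c58b183b0.shift 0 1)] (by decide +kernel))
noncomputable def rhc5e3f303bbfd8dcf : CRef := CRef.mk (Pat.mk 0x9000000080000000c00000008 0x1c0000001f000000080000000c0000000c 4 5) 0 0 (step_sound _ 98 [(rh50fbb5868c909700.shift 2 0), rh8ef8f9d455785d0f] (by decide +kernel))
noncomputable def rh66a0d6feb4d60b36 : CRef := CRef.mk (Pat.mk 0x1000000090000000d0000000b0000000000000000 0x2000000070000000d0000000d0000000f0000001800000018 4 5) 0 0 (step_sound _ 161 [(rh2f68792b6b779e96.shift 0 2), rhb1cd999401f2b265] (by decide +kernel))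
noncomputable def rh6bd2bc1dcd4a14d0 : CRef := CRef.mk (Pat.mk 0x40000000e000000000000000e00000000 0x40000000f000000780000001e00000008 4 7) 0 0 (step_sound _ 67 [(rh164c324cdb1ed3e3.shift 0 1), (rh7b1f1fb55310c477.shift 2 0)] (by decide +kernel))
noncomputable def rh64e0fd2bbd41bed7 : CRef := CRef.mk (Pat.mk 0x200000002000000020000000e0000000000000000 0x10000000300000003000000020000001e0000000300000001 4 5) 0 0 (step_sound _ 160 [(rh50fbb5868c909700.shift 0 2), rhe338d64e37d849c1] (by decide +kernel))
noncomputable def rha8f60f9e25dfa418 : CRef := CRef.mk (Pat.mk 0x200000006000000060000001800000008 0x330000003e0000003e0000001800000008 4 6) 0 0 (step_sound _ 100 [(rh6493ceb007f59211.shift 0 2), rh8c201d63c8918ddd, rh9231ba8fc6daff62, (rh984f2085f759d70b.shift 1 0)] (by decide +kernel))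
noncomputable def rh08d874b696c8386c : CRef := CRef.mk (Pat.mk 0x600000006000000060000000600000000 0x600000006000000070000003f00000009 4 6) 0 0 (step_sound _ 32 [rh36d4d92ef3dad5f8, rh932754581e0f4330] (by decide +kernel))
noncomputable def rh59eb96be50c59f3a : CRef := CRef.mk (Pat.mk 0x200000002000000060000000200000002 0x3000000030000000700000006000000060000000200000002 4 3) 0 0 (step_sound _ 160 [rhe30c99e42abca944, (rhffd04209dc8ea796.shift 0 1)] (by decide +kernel))
noncomputable def rh288a27a1bd973aa7 : CRef := CRef.mk (Pat.mk 0xb0000000d000000090000000100000000 0x18000000180000000f0000000d0000000d0000000700000002 4 5) 0 0 (step_sound _ 33 [rh55afc6a59410cf00, (rh79a2cce65bf4035c.shift 0 1)] (by decide +kernel))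
noncomputable def rh26d54a80d4654904 : CRef := CRef.mk (Pat.mk 0x800000009000000090000000900000001 0x40000001e0000000f000000090000000900000009 4 5) 0 0 (step_sound _ 130 [(rh50fbb5868c909700.shift 2 1), rh62d1f0a9203ee324] (by decide +kernel))
noncomputable def rh98c4708aaf0a5506 : CRef := CRef.mk (Pat.mk 0x40000000e000000380000000800000000 0x400000004000000060000000e0000003a0000001f00000002 4 6) 0 0 (step_sound _ 162 [(rh2145e1d24b96a57e.shift 2 2), rhb6140890372f3936] (by decide +kernel))
noncomputable def rhd754be27c4a04511 : CRef := CRef.mk (Pat.mk 0x1c0000000e000000000000000800000000 0x1c0000007e000000770000001800000018 4 7) 0 0 (step_sound _ 100 [(rh0cb6a409506b34ea.shift 1 2), (rh8a88abf038d31fd2.shift 0 2), (rhdc461deccfb05432.shift 1 0)] (by decide +kernel))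
noncomputable def rhbc0bd9dbce3989d4 : CRef := CRef.mk (Pat.mk 0x70000000c0000000c 0xc0000003c0000000f0000000c0000000c 4 6) 0 0 (step_sound _ 98 [(rh2145e1d24b96a57e.shift 2 0), rh684e729394fba19d] (by decide +kernel))
noncomputable def rh331816361e228aec : CRef := CRef.mk (Pat.mk 0x1c000000080000001000000010 0x200000007f0000003e0000001000000010 4 7) 0 0 (step_sound _ 68 [(rhad5d8fc3675c15dd.shift 0 2), (rhc0ddb33d3a52722b.shift 1 0)] (by decide +kernel))
noncomputable def rhd82d8f739aa450b0 : CRef := CRef.mk (Pat.mk 0x80000001c0000000400000004 0x20000003f0000003f0000000400000004 4 6) 0 0 (step_sound _ 65 [(rhec46bd5500c722c9.shift 0 2), rheddd3d8f7db62149] (by decide +kernel))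
noncomputable def rhcb6fd4a13e72e99a : CRef := CRef.mk (Pat.mk 0x5000000070000000c0000000800000000 0x10000000100000007000000070000000f0000007e00000002 4 7) 0 0 (step_sound _ 65 [rhbe707112c53dab40, (rhc21a95c499b3efdb.shift 0 1)] (by decide +kernel))
noncomputable def rh88aab9c281576477 : CRef := CRef.mk (Pat.mk 0x1000000018000000180000000800000000 0xc0000001f00000038000000180000001800000010 4 6) 0 0 (step_sound _ 131 [(rh55a1f6c57a317ce6.shift 3 0), (rhc647a25a08ddf0ec.shift 0 1)] (by decide +kernel))
noncomputable def rh319bf2738dd726f9 : CRef := CRef.mk (Pat.mk 0x70000000c0000000400000000 0xc0000003c0000000f0000000c0000000c00000008 4 6) 0 0 (step_sound _ 130 [(rh684e729394fba19d.shift 0 1), (rhd4b4beefcd67f51e.shift 2 0)] (by decide +kernel))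
noncomputable def rh141d18d538994f93 : CRef := CRef.mk (Pat.mk 0xe000000140000003400000000 0x200000002000000370000001e000000140000003400000020 4 6) 0 0 (step_sound _ 129 [rh006ef5d7c1ce9704, (rhc89253ff58c66167.shift 1 1)] (by decide +kernel))
noncomputable def rh10e5e485a18b5c81 : CRef := CRef.mk (Pat.mk 0x7000000070000000c00000000 0x80000001c0000001f000000070000000c00000008 4 5) 0 0 (step_sound _ 99 [(rh18965a982d73c794.shift 0 2), rh3c79a39b83b16970] (by decide +kernel))
noncomputable def rhdca5fb14d1124fd4 : CRef := CRef.mk (Pat.mk 0x6000000070000000c00000000 0x400000004000000040000001e0000000f0000000c00000008 4 5) 0 0 (step_sound _ 99 [(rh18965a982d73c794.shift 0 2), (rh4070769292e08e0f.shift 1 0)] (by decide +kernel))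
noncomputable def rh4b4f5d4dbe2478bb : CRef := CRef.mk (Pat.mk 0xe0000000c000000180000000c00000000 0x20000000e0000000c0000001c0000001f00000012 4 5) 0 0 (step_sound _ 36 [(rh55afc6a59410cf00.shift 3 0), rhff637a26715c46ce] (by decide +kernel))
noncomputable def rh4b097227b3790cf3 : CRef := CRef.mk (Pat.mk 0x20000001e00000012000000060000000000000000 0x10000000320000001e0000001a0000001f0000000b00000001 4 6) 0 0 (step_sound _ 67 [rh13104bf9491e5713, (rhd05b50139866a421.shift 0 1), (rhfb08427eb4ea3628.shift 1 1)] (by decide +kernel))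
noncomputable def rh15ea211abae10320 : CRef := CRef.mk (Pat.mk 0x10000000d00000009000000020000000800000000 0x50000000d000000090000000f0000001a00000010 4 5) 0 0 (step_sound _ 67 [rh0a657e12af40b4c7, (rh50fbb5868c909700.shift 2 1)] (by decide +kernel))
noncomputable def rh7f36b76b62a39b3e : CRef := CRef.mk (Pat.mk 0x200000002000000120000000400000010 0x2000000020000001a0000000f0000001d 4 5) 0 0 (step_sound _ 33 [rh516b276c7065b8d5, (rh55afc6a59410cf00.shift 1 0)] (by decide +kernel))
noncomputable def rh6cf0263d57b2aff5 : CRef := CRef.mk (Pat.mk 0x30000000200000000000000020000000000000000 0x1000000030000000300000002000000030000000300000001 4 2) 0 0 (step_sound _ 97 [(rh50fbb5868c909700.shift 0 2), rhe4441baab75a6f73] (by decide +kernel))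
noncomputable def rhc31d01c7dd067313 : CRef := CRef.mk (Pat.mk 0x80000003800000008000000040000000000000000 0x8000000380000001f0000000c0000000400000004 4 6) 0 0 (step_sound _ 34 [rhb01921136a335485, (rheea67dfebd0f8008.shift 2 1)] (by decide +kernel))
noncomputable def rh4ecf83a280de0270 : CRef := CRef.mk (Pat.mk 0x600000002000000040000000c00000000 0x80000003e00000007000000040000000c00000008 4 6) 0 0 (step_sound _ 98 [(rh55afc6a59410cf00.shift 2 0), (rh861ee9d7304b9753.shift 0 1)] (by decide +kernel))
noncomputable def rh07ceb24a8d31099e : CRef := CRef.mk (Pat.mk 0x600000006000000020000000200000000 0x20000000600000006000000070000000700000005 4 3) 0 0 (step_sound _ 34 [(rh55afc6a59410cf00.shift 1 0), rh9eab44ef5e491d7e] (by decide +kernel))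
noncomputable def rh697276e35d6246fc : CRef := CRef.mk (Pat.mk 0x40000001c000000040000000000000000 0x4000000040000003c0000000f0000000800000008 4 6) 0 0 (step_sound _ 65 [(rh18965a982d73c794.shift 1 2), rh5707d7863bec6828] (by decide +kernel))
noncomputable def rh70bc92cbc4da96e7 : CRef := CRef.mk (Pat.mk 0x1e0000000400000004 0x200000002000000370000001e0000000400000004 4 6) 0 0 (step_sound _ 100 [rh1c1037cb5b3fe471, (rh33e738c4ed385b9f.shift 1 2)] (by decide +kernel))
noncomputable def rh235174e1e2b7828d : CRef := CRef.mk (Pat.mk 0x80000000c0000001c0000000800000000 0x80000000c0000003c0000001f00000014 4 6) 0 0 (step_sound _ 36 [rh3584afc991ea459f, (rh55afc6a59410cf00.shift 3 0)] (by decide +kernel))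
noncomputable def rhb4b46d6b6015e7f2 : CRef := CRef.mk (Pat.mk 0x10000000000000001c0000001c00000000 0x10000000100000001c0000007f00000060 4 7) 0 0 (step_sound _ 37 [(rhf48373e13d2bc128.shift 2 1), rhf80a541df6500d4d] (by decide +kernel))
noncomputable def rh229881a96a2b32fa : CRef := CRef.mk (Pat.mk 0x2000000020000000700000006000000000000000000000000 0x400000006000000070000000700000006000000020000000200000002 4 3) 0 0 (step_sound _ 194 [(rh2f68792b6b779e96.shift 1 3), rh50b5d72bc4f0352c] (by decide +kernel))
noncomputable def rh2ba61473a518fcff : CRef := CRef.mk (Pat.mk 0x8000000080000001c0000000c00000000 0x40000000c0000000c0000001c0000000f0000000a 4 5) 0 0 (step_sound _ 130 [(rh50fbb5868c909700.shift 2 1), rh63c2286793e09a1f] (by decide +kernel))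
noncomputable def rh6d4d54c3c44364db : CRef := CRef.mk (Pat.mk 0xe000000060000000800000008 0x100000003f0000003e0000000800000008 4 6) 0 0 (step_sound _ 100 [(rh18965a982d73c794.shift 1 2), rhf411718b9cedf4d7] (by decide +kernel))
noncomputable def rh9cbbb77e754ad3ae : CRef := CRef.mk (Pat.mk 0x2000000160000001e000000000000000000000000 0xb0000001e0000001e000000300000001000000010 4 6) 0 0 (step_sound _ 68 [rh2b8cdc863defc966, (rhe25b0a99195a5d59.shift 1 2)] (by decide +kernel))
noncomputable def rh05dfa05d99ee82f6 : CRef := CRef.mk (Pat.mk 0x200000002000000070000000600000000 0x40000000600000006000000070000001e0000000a 4 5) 0 0 (step_sound _ 130 [(rh2f68792b6b779e96.shift 1 1), rha90ea95e8552d568] (by decide +kernel))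
noncomputable def rhb3458ff9694087f9 : CRef := CRef.mk (Pat.mk 0x8000000080000001c0000000800000000 0x8000000080000003c0000001f00000014 4 6) 0 0 (step_sound _ 36 [(rh55afc6a59410cf00.shift 3 0), rhd65e52c5f80caa3b] (by decide +kernel))
noncomputable def rh727082ad614e8935 : CRef := CRef.mk (Pat.mk 0x80000001e0000000800000000 0x10000000100000003b0000001e0000000800000008 4 6) 0 0 (step_sound _ 100 [rh2fe78b735f7415ef, (rh33e738c4ed385b9f.shift 1 2)] (by decide +kernel))
noncomputable def rh40510545dd0289a1 : CRef := CRef.mk (Pat.mk 0x4000000070000000200000000 0x40000000400000004000000070000001e0000000a 4 5) 0 0 (step_sound _ 130 [rh3577441692974ba8, (rh5c5e593799055d58.shift 1 1)] (by decide +kernel))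
noncomputable def rh45d5c058f0c534ca : CRef := CRef.mk (Pat.mk 0x80000001a0000000e00000004 0x60000000f0000001a0000000e0000000e 4 5) 0 0 (step_sound _ 97 [(rh2145e1d24b96a57e.shift 1 0), rh482dbb16cfbb812d] (by decide +kernel))
noncomputable def rh5c56ff0e27521733 : CRef := CRef.mk (Pat.mk 0x100000001a0000000a00000000 0x1000000010000000100000003b0000001e00000008 4 6) 0 0 (step_sound _ 132 [(rh5c5e593799055d58.shift 3 1), rhd7d5a17daaf616a3] (by decide +kernel))
noncomputable def rha905b2744211896e : CRef := CRef.mk (Pat.mk 0x14000000140000001000000018 0x1400000014000000140000001f00000038 4 6) 0 0 (step_sound _ 35 [(rh5c5e593799055d58.shift 3 0), rha37fbbfb74fd5f06] (by decide +kernel))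
noncomputable def rhbf41a22f541fcd76 : CRef := CRef.mk (Pat.mk 0x80000001a0000000a00000000 0x40000000c0000000c0000000f0000001a0000001a0000001a 4 5) 0 0 (step_sound _ 130 [(rh0048f2ad683a82b8.shift 2 0), (rh9a17dc36f7181934.shift 2 0), rhbd00caa2a4de09ab] (by decide +kernel))
noncomputable def rhfad1d898301e6e67 : CRef := CRef.mk (Pat.mk 0x80000001a0000000a0000000000000000 0x140000001f0000003b0000000a0000000a00000008 4 6) 0 0 (step_sound _ 130 [(rh06c96bdcdd06e437.shift 0 3), (rh46cfffc2ac517b76.shift 0 1), (rh668fc65514a55b16.shift 2 0)] (by decide +kernel))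
noncomputable def rh35f9c79198cbb66b : CRef := CRef.mk (Pat.mk 0x3000000060000000000000018000000080000000000000000 0x130000001e0000001000000018000000180000000800000008 4 5) 0 0 (step_sound _ 164 [(rh02ef15e22aa7db92.shift 3 0), (rh2fe78cc5ca4405d8.shift 0 5)] (by decide +kernel))
noncomputable def rh43ffdfde5e27da4c : CRef := CRef.mk (Pat.mk 0x200000002000000020000000100000000 0x1000000030000000300000002000000030000000300000001 4 2) 0 0 (step_sound _ 33 [rh932754581e0f4330, (rhe62cab2ff5ad6fe2.shift 0 1)] (by decide +kernel))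
noncomputable def rh3b5b64014d530594 : CRef := CRef.mk (Pat.mk 0x8000000680000000800000018 0x800000008000000680000003f00000038 4 7) 0 0 (step_sound _ 36 [(rh2145e1d24b96a57e.shift 3 0), rhf06b5d20c01c8391] (by decide +kernel))
noncomputable def rhf676284ed4783213 : CRef := CRef.mk (Pat.mk 0x10000000d0000000d000000090000000000000000 0x10000000d0000000d0000000f0000001a00000018 4 5) 0 0 (step_sound _ 35 [(rh7b1f1fb55310c477.shift 2 0), rhf63bf5cee2319af8] (by decide +kernel))
noncomputable def rh605cb69d40a7de0f : CRef := CRef.mk (Pat.mk 0x20000001a0000000a0000000300000000 0x120000001a0000001a0000000f0000001c 4 5) 0 0 (step_sound _ 34 [(rh55afc6a59410cf00.shift 1 0), rh78ea13c5925c4884] (by decide +kernel))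
noncomputable def rh1947efee544d7e13 : CRef := CRef.mk (Pat.mk 0x200000002000000020000000200000002000000020000000000000000 0x200000002000000030000000300000003000000030000000300000001 4 2) 0 0 (step_sound _ 128 [rh5192e84255fe3228, (rh932754581e0f4330.shift 0 3)] (by decide +kernel))
noncomputable def rh36e0d86891c60a25 : CRef := CRef.mk (Pat.mk 0x100000002000000060000000200000018 0x30000000300000002000000060000000f00000019 4 5) 0 0 (step_sound _ 129 [(rh50fbb5868c909700.shift 0 1), rh54e5b46e67d4d05f] (by decide +kernel))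
noncomputable def rhf4d1e20cd5671fa3 : CRef := CRef.mk (Pat.mk 0x40000000200000002000000020000000200000018 0x4000000060000000200000002000000060000000f00000019 4 5) 0 0 (step_sound _ 161 [rh2998a633383e2956, (rh2f68792b6b779e96.shift 1 2)] (by decide +kernel))
noncomputable def rh6e4fe9c378beabca : CRef := CRef.mk (Pat.mk 0x80000001a0000000800000008 0x40000001f0000003b0000000800000008 4 6) 0 0 (step_sound _ 98 [(rh06c96bdcdd06e437.shift 0 2), (rh50fbb5868c909700.shift 2 0)] (by decide +kernel))
noncomputable def rh62de76dfacbd7b79 : CRef := CRef.mk (Pat.mk 0x800000018000000000000000600000003 0x8000000080000001800000018000000100000001e00000013 4 5) 0 0 (step_sound _ 36 [rh361cc68994bd8a63, (rh95a80f84f48ac358.shift 3 0)] (by decide +kernel))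
noncomputable def rhe0eec876ed7cdc46 : CRef := CRef.mk (Pat.mk 0x20000000a0000000200000002 0x50000000f0000001e0000000200000002 4 5) 0 0 (step_sound _ 98 [(rh2f68792b6b779e96.shift 1 0), rh4dffd1541392b239] (by decide +kernel))
noncomputable def rh95f7dc53d6306ca7 : CRef := CRef.mk (Pat.mk 0x7000000050000000100000000 0x2000000020000000600000007000000050000000500000005 4 3) 0 0 (step_sound _ 129 [rh71222050f2c63a3a, (rhc2c7bae8f445c890.shift 1 0)] (by decide +kernel))
noncomputable def rhf9cbe1dfb122fa9d : CRef := CRef.mk (Pat.mk 0x60000000e0000001a0000000200000000 0x60000000e0000003b0000001e0000000c 4 6) 0 0 (step_sound _ 35 [(rh7b1f1fb55310c477.shift 2 0), rhacdd5f21ae42eb64] (by decide +kernel))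
noncomputable def rh91306597b45ae6ae : CRef := CRef.mk (Pat.mk 0x2000000020000000a0000001a 0x10000000300000003000000020000000f0000001b 4 5) 0 0 (step_sound _ 128 [rhc7c88a7d05d6e0c8, rhffd04209dc8ea796] (by decide +kernel))
noncomputable def rhf9bd3626f07f34c6 : CRef := CRef.mk (Pat.mk 0x8000000280000006800000008 0x40000001f0000003c0000006800000008 4 7) 0 0 (step_sound _ 98 [(rh50fbb5868c909700.shift 2 0), (rh5a79679a2bc404fc.shift 0 1)] (by decide +kernel))
noncomputable def rh8d6ed59239e65266 : CRef := CRef.mk (Pat.mk 0x3000000060000000800000018000000000000000000000000 0xb0000001e0000000800000018000000180000001000000010 4 5) 0 0 (step_sound _ 163 [(rh70e33bfdf511e144.shift 3 0), (rhf48373e13d2bc128.shift 0 5)] (by decide +kernel))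
noncomputable def rh0ef5b62a6a4dbcaa : CRef := CRef.mk (Pat.mk 0x30000001a00000002000000020000000000000000 0xf0000001b00000002000000060000000600000004 4 5) 0 0 (step_sound _ 163 [rha613ffd40b6c9d24, (rhc10214bf3fe8094a.shift 0 4)] (by decide +kernel))
noncomputable def rh3f193471b9412c2b : CRef := CRef.mk (Pat.mk 0x20000000300000003000000000000000000000000 0x300000003000000030000000300000003000000060000000600000006 4 3) 0 0 (step_sound _ 65 [(rh7f9f3607ee25a93b.shift 0 2), rh820d4e04d5dcd02e] (by decide +kernel))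
noncomputable def rhb720be5c88816620 : CRef := CRef.mk (Pat.mk 0x4000000140000001e00000018 0x180000003c000000170000001e00000018 4 6) 0 0 (step_sound _ 100 [rh1197465366f4d156, (rh5c5e593799055d58.shift 3 0)] (by decide +kernel))
noncomputable def rh21f74fc6a5943c4c : CRef := CRef.mk (Pat.mk 0x14000000140000001400000000 0x1400000014000000760000003e0000000b 4 7) 0 0 (step_sound _ 35 [(rh5fc67bac28a8b5bb.shift 2 0), rh681d9f8e79458a8b, (rhf987458f2696f0ee.shift 1 1)] (by decide +kernel))
noncomputable def rhf8fc01544216c6d4 : CRef := CRef.mk (Pat.mk 0x8000000080000001c000000000000000000000000 0x8000000180000001f000000380000001000000010 4 6) 0 0 (step_sound _ 68 [(rh08edf065357d68e5.shift 3 0), (rh251facab2e282844.shift 0 2), (rh79ad7b82ec8c35e2.shift 3 0)] (by decide +kernel))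
noncomputable def rhcac8dbe4bdc875ef : CRef := CRef.mk (Pat.mk 0x180000001c0000001c0000001000000000 0x20000000780000001c0000001f0000001400000004 4 7) 0 0 (step_sound _ 34 [(rh71222050f2c63a3a.shift 2 0), (rhc613cbf782cdb2c4.shift 0 1)] (by decide +kernel))
noncomputable def rhe3770ae6e6afc7af : CRef := CRef.mk (Pat.mk 0x20000000600000016000000000000000000000000 0x6000000060000001e000000070000000700000002 4 5) 0 0 (step_sound _ 66 [(rh7b1f1fb55310c477.shift 1 1), rhf0fd6069b2cc6af0] (by decide +kernel))
noncomputable def rh96aadb845b372f19 : CRef := CRef.mk (Pat.mk 0x600000006000000070000000200000000 0x8000000080000003e0000003e000000070000001e00000008 4 6) 0 0 (step_sound _ 131 [rh285e15fe8a0693b9, (rh8503c54f650a6805.shift 0 2), (rh9059e995457d78ff.shift 0 1)] (by decide +kernel))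
noncomputable def rh8b3ea92b68147620 : CRef := CRef.mk (Pat.mk 0x800000018000000060000000600000000 0x8000000180000003e0000003f00000010 4 6) 0 0 (step_sound _ 68 [(rh855ada6dd642c694.shift 1 0), (rhd11dc6dd83191698.shift 0 1), rhe13a0e3af63b4ef1] (by decide +kernel))
noncomputable def rhafbcac73f591f37d : CRef := CRef.mk (Pat.mk 0x120000001e0000001a0000000000000000 0x4000000160000001e0000001e0000000b0000000b 4 5) 0 0 (step_sound _ 35 [(rh71222050f2c63a3a.shift 3 0), rhf7ede8521b5e3068] (by decide +kernel))
noncomputable def rh2835d01155f44ec1 : CRef := CRef.mk (Pat.mk 0x120000001e0000001a0000000000000000 0x1000000014000000160000001e0000001e0000000300000003 4 5) 0 0 (step_sound _ 164 [(rh5c5e593799055d58.shift 3 2), rhf7ede8521b5e3068] (by decide +kernel))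
noncomputable def rh01b489d9b8032e4a : CRef := CRef.mk (Pat.mk 0x20000000600000007000000040000000000000000 0x50000000700000007000000070000001e0000000a00000002 4 5) 0 0 (step_sound _ 65 [rh674dd4f5f6cca5c0, (rh6cfcc4c4c29d94bc.shift 0 1), (rh84d1c02a8954c6a8.shift 1 1)] (by decide +kernel))
noncomputable def rh2daca00c3d73fad7 : CRef := CRef.mk (Pat.mk 0x2000000020000000300000002 0x40000000700000007000000020000000300000003 4 3) 0 0 (step_sound _ 96 [rh50fbb5868c909700, rh79e70552f96217b9] (by decide +kernel))
noncomputable def rhbb3a67d7b9432576 : CRef := CRef.mk (Pat.mk 0x7000000040000000e 0xf0000003f0000003e 4 6) 0 0 (step_sound _ 36 [(rh6870ff15d3813450.shift 1 0), rhca6a4af813f68cee, (rhe28dc3223a412fc9.shift 0 1)] (by decide +kernel))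
noncomputable def rh6aecf259d3d492e1 : CRef := CRef.mk (Pat.mk 0x300000009000000030000000300000000 0x40000001f0000001b000000030000000300000001 4 5) 0 0 (step_sound _ 97 [rh71222050f2c63a3a, (rhfed57f23c5f345ee.shift 0 1)] (by decide +kernel))
noncomputable def rh1329d7f952631334 : CRef := CRef.mk (Pat.mk 0x4000000040000000e0000000d00000000 0x200000006000000060000001e0000000f00000005 4 5) 0 0 (step_sound _ 33 [rh18b49738f4e5d343, (rh33e738c4ed385b9f.shift 0 1)] (by decide +kernel))
noncomputable def rh269f3e050f7dc7b9 : CRef := CRef.mk (Pat.mk 0x1e00000004 0x7f0000003e 4 7) 0 0 (step_sound _ 4 [(rhe25b0a99195a5d59.shift 1 0), rhe4f45c9e9c9d8c8f] (by decide +kernel))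
noncomputable def rh648846ccf64492b9 : CRef := CRef.mk (Pat.mk 0xe000000000000000c00000004 0x780000001f000000080000000c00000004 4 7) 0 0 (step_sound _ 131 [(rh3c88ce959c0e423f.shift 2 0), (rha11dfd15f08f96e3.shift 0 3)] (by decide +kernel))
noncomputable def rh4b64044749c06ee6 : CRef := CRef.mk (Pat.mk 0x1e000000000000000c00000000 0x10000000380000001f000000080000000c00000004 4 6) 0 0 (step_sound _ 132 [(rh33e738c4ed385b9f.shift 1 3), rh44663c8932a541fa] (by decide +kernel))
noncomputable def rhe15235ae45416f2c : CRef := CRef.mk (Pat.mk 0x6000000060000000300000000 0x3000000030000000300000006000000060000000300000001 4 3) 0 0 (step_sound _ 129 [(rh90b823c913a425e8.shift 0 1), rh932754581e0f4330] (by decide +kernel))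
noncomputable def rhbe55ad9cc386c092 : CRef := CRef.mk (Pat.mk 0x400000007000000000000000600000000 0xa0000001e00000007000000040000000600000002 4 5) 0 0 (step_sound _ 66 [(rh932754581e0f4330.shift 1 0), (rhabc51ddf3f86b317.shift 0 1)] (by decide +kernel))
noncomputable def rh613cf870deda137f : CRef := CRef.mk (Pat.mk 0x100000001c000000000000001800000000 0x8000000180000001f000000300000001800000008 4 6) 0 0 (step_sound _ 68 [(rh932754581e0f4330.shift 3 0), (rhf0f433a1f84d1b17.shift 0 1)] (by decide +kernel))
noncomputable def rhfffd95658e7eb85a : CRef := CRef.mk (Pat.mk 0x7000000040000000600000000 0xa0000001e00000007000000040000000600000002 4 5) 0 0 (step_sound _ 130 [(rh932754581e0f4330.shift 1 0), (rhabc51ddf3f86b317.shift 0 1)] (by decide +kernel))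
noncomputable def rhbf58c39d59916737 : CRef := CRef.mk (Pat.mk 0xc0000000f0000000000000004 0x8000000080000000c0000001f0000003c00000004 4 6) 0 0 (step_sound _ 36 [(rh8716c8dcf04f9cd8.shift 1 0), (rh96851dee118c1ba3.shift 0 1)] (by decide +kernel))
noncomputable def rhbffe74cdbc4ff8ea : CRef := CRef.mk (Pat.mk 0xe0000000400000004 0x8000000080000007c0000001f0000000400000004 4 7) 0 0 (step_sound _ 99 [rh1ac44d71ab396ad8, (rha11dfd15f08f96e3.shift 0 2), (rhbfb5770941270498.shift 2 0)] (by decide +kernel))
noncomputable def rhd0e248d72066f222 : CRef := CRef.mk (Pat.mk 0x4000000070000001c0000000000000000 0xa0000001e000000070000001c0000000f0000000a 4 5) 0 0 (step_sound _ 34 [(rh4017de503635a93b.shift 0 1), rhfbf2eae4035425b6] (by decide +kernel))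
noncomputable def rh09712fccd168bd8f : CRef := CRef.mk (Pat.mk 0x2000000020000000600000012000000000000000000000000 0x40000000600000006000000060000001e000000070000000300000002 4 5) 0 0 (step_sound _ 98 [(rh55afc6a59410cf00.shift 1 2), rh7b098348257fee95] (by decide +kernel))
noncomputable def rhb26f729a86cbe1bb : CRef := CRef.mk (Pat.mk 0xc0000000c0000000b0000000000000000 0x80000000c0000000c0000000f0000001c0000000c 4 5) 0 0 (step_sound _ 35 [rh4aacfccc127959e4, (rh7b1f1fb55310c477.shift 2 0)] (by decide +kernel))
noncomputable def rh89b970f8c237cf8d : CRef := CRef.mk (Pat.mk 0x8000000080000000800000018 0x800000008000000080000001f0000007c 4 7) 0 0 (step_sound _ 34 [(rh3bf8fcae348fccb1.shift 1 0), (rh85a605aac6183f28.shift 2 0), rhb0121edee88fe839, rhc3e6a65d34c1364f] (by decide +kernel))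
noncomputable def rh7dbc6d4231be866c : CRef := CRef.mk (Pat.mk 0x14000000140000001000000018 0x1400000014000000340000001f00000018 4 6) 0 0 (step_sound _ 35 [(rh5c5e593799055d58.shift 3 0), rhc4ece723bde916b4] (by decide +kernel))
noncomputable def rh752884da105128ca : CRef := CRef.mk (Pat.mk 0x1c000000060000000e 0x2000000030000001f0000003e0000000f 4 6) 0 0 (step_sound _ 65 [rh2ac6736f2602e5cf, rh309fd0c3d364cd61] (by decide +kernel))
noncomputable def rhcdc251e8e67b1401 : CRef := CRef.mk (Pat.mk 0x10000000040000000e00000008 0x1000000010000000100000003c0000001f00000008 4 6) 0 0 (step_sound _ 68 [(rh7dcd5319f4f71bec.shift 0 1), rha7b16b66807cf880, (rha7c0d53f5e6c6372.shift 1 0)] (by decide +kernel))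
noncomputable def rhc522a98d687f6333 : CRef := CRef.mk (Pat.mk 0x1c000000060000000c00000008 0x2000000330000001e000000360000001c00000008 4 6) 0 0 (step_sound _ 97 [(rh1fbc9fee05401eba.shift 1 0), (rh309fd0c3d364cd61.shift 0 1)] (by decide +kernel))
noncomputable def rh35f50cf06e21c4a2 : CRef := CRef.mk (Pat.mk 0x400000002000000020000000200000000 0x50000000700000007000000020000000200000002 4 3) 0 0 (step_sound _ 129 [(rh2f68792b6b779e96.shift 1 1), rh8c7e6c931af72977] (by decide +kernel))
noncomputable def rh6d2c2e38fb7db1fa : CRef := CRef.mk (Pat.mk 0x20000003c00000010 0x30000007f0000001e 4 7) 0 0 (step_sound _ 2 [rh81526988ffbdaaa1, (rheb0810cc63b001d8.shift 1 0)] (by decide +kernel))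
noncomputable def rh19ff9f3f40b433ec : CRef := CRef.mk (Pat.mk 0xa000000120000000e0000000200000000 0x40000000f0000001e0000000f0000000200000002 4 5) 0 0 (step_sound _ 130 [(rh2f68792b6b779e96.shift 1 1), rhf9a70e8df8d17518] (by decide +kernel))
noncomputable def rh97a786a51d883760 : CRef := CRef.mk (Pat.mk 0x5000000190000000100000000 0x200000002000000020000000f0000001b0000000100000001 4 5) 0 0 (step_sound _ 97 [rhb730ba14aa32bdb3, (rhd6e447e81774439e.shift 0 2)] (by decide +kernel))
noncomputable def rh2ac394b9004c1c0d : CRef := CRef.mk (Pat.mk 0x1000000014000000040000001c0000000800000000 0x180000001c0000000c0000001c0000000f00000002 4 5) 0 0 (step_sound _ 131 [(rh04253f50b6dd0619.shift 3 1), rh675ab9d4ddf88e9c] (by decide +kernel))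
noncomputable def rhbe5734f4091528bc : CRef := CRef.mk (Pat.mk 0x120000001a000000120000000400000000 0x80000001a0000001a0000001a0000001f0000001d 4 5) 0 0 (step_sound _ 35 [(rh5ddbeed5d869bf16.shift 3 0), (rh752c9303f297f9fa.shift 3 0), rhfb014cb241db9284] (by decide +kernel))
noncomputable def rhe7cdacf78b96a0ca : CRef := CRef.mk (Pat.mk 0xc0000001c000000080000000c00000000 0x80000000c0000001c0000000f0000003c00000010 4 6) 0 0 (step_sound _ 66 [(rh2f68792b6b779e96.shift 2 1), rh4892b0043cb46d74] (by decide +kernel))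
noncomputable def rh3a5e06d76fe02bc0 : CRef := CRef.mk (Pat.mk 0xc0000001c000000080000000000000000 0x40000000c0000000c0000001c0000000f0000000600000004 4 5) 0 0 (step_sound _ 162 [rh1cf32e1f0153df8b, (rh2145e1d24b96a57e.shift 2 2)] (by decide +kernel))
noncomputable def rhbd7328f1a9e7950e : CRef := CRef.mk (Pat.mk 0x300000002c0000002000000000 0x100000007c0000002f0000002000000020 4 7) 0 0 (step_sound _ 132 [(rh7b1f1fb55310c477.shift 4 0), (rhbd2e91c3fdbfa961.shift 0 2)] (by decide +kernel))
noncomputable def rh36adbd9013e048fc : CRef := CRef.mk (Pat.mk 0xe000000020000003000000010 0x200000003e000000730000003000000010 4 7) 0 0 (step_sound _ 100 [(rhc39ec8f7ed38745d.shift 1 0), (rheb0810cc63b001d8.shift 0 2)] (by decide +kernel))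
noncomputable def rh125aeb9f03398307 : CRef := CRef.mk (Pat.mk 0x3800000002 0x700000003e00000007 4 7) 0 0 (step_sound _ 34 [(rh80fcd6d0a18cb2dd.shift 1 0), rh969f3c6b06e87f8b] (by decide +kernel))
noncomputable def rh3da968ed5ed56de1 : CRef := CRef.mk (Pat.mk 0x2000000020000000a0000000300000000 0x200000002000000020000001b0000001f00000004 4 5) 0 0 (step_sound _ 64 [rh509847d0837ffcc5, (rh5c5e593799055d58.shift 0 1)] (by decide +kernel))
noncomputable def rh2d8f5f0e17959538 : CRef := CRef.mk (Pat.mk 0x7000000040000000400000000 0xa0000001e00000007000000040000000400000004 4 5) 0 0 (step_sound _ 129 [(rh7b1f1fb55310c477.shift 1 0), (rhdb657c5fcfc6fcbb.shift 0 1)] (by decide +kernel))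
noncomputable def rhcc97830421a1d116 : CRef := CRef.mk (Pat.mk 0x700000004000000040000000400000000 0x50000000700000006000000060000000600000006 4 3) 0 0 (step_sound _ 97 [rh474875b2ab064539, (rh7b1f1fb55310c477.shift 1 0)] (by decide +kernel))
noncomputable def rh1f6dd0627e0e34a9 : CRef := CRef.mk (Pat.mk 0x1000000018000000110000001800000000 0x1000000010000000180000001f0000007800000020 4 7) 0 0 (step_sound _ 67 [rh42331faabc30427b, (rh5c5e593799055d58.shift 3 1)] (by decide +kernel))
noncomputable def rh2f9f895074bdd71a : CRef := CRef.mk (Pat.mk 0x1000000018000000190000001800000000 0x800000018000000180000001f0000007800000020 4 7) 0 0 (step_sound _ 66 [(rh1a15752226d68057.shift 2 0), (rh24ae073cf30720c4.shift 0 2)] (by decide +kernel))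
noncomputable def rha90ace3b4967360c : CRef := CRef.mk (Pat.mk 0x700000007000000020000000200000000 0x180000001f00000007000000060000000600000004 4 5) 0 0 (step_sound _ 34 [(rh55afc6a59410cf00.shift 1 0), (rhde6855bd4bb88943.shift 0 1)] (by decide +kernel))
noncomputable def rh96bc1acee9c2148b : CRef := CRef.mk (Pat.mk 0xc0000001c000000080000000c00000000 0x80000000c0000001c0000000f0000003c00000010 4 6) 0 0 (step_sound _ 66 [(rh2f68792b6b779e96.shift 2 1), rh795ab08ece2a7e70] (by decide +kernel))
noncomputable def rh59b4ab1b74bb7deb : CRef := CRef.mk (Pat.mk 0x20000000a000000080000000400000004 0x20000001f0000007c0000000400000004 4 7) 0 0 (step_sound _ 98 [(rh2613c889e411427e.shift 1 0), (rh8ee80cc30e93a344.shift 0 2)] (by decide +kernel))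
noncomputable def rh1a5f2d50492f2f70 : CRef := CRef.mk (Pat.mk 0x20000000a00000006000000060000000000000000 0x1000000070000001e00000006000000060000000200000002 4 5) 0 0 (step_sound _ 160 [rh407d9a022cff2331, (rh50fbb5868c909700.shift 0 2)] (by decide +kernel))
noncomputable def rhbfbf7808e17dd60b : CRef := CRef.mk (Pat.mk 0x20000000a000000080000000c00000004 0x330000001e0000000c0000000c0000000c 4 6) 0 0 (step_sound _ 98 [(rh2613c889e411427e.shift 1 0), rh6585f13a5fbbe407] (by decide +kernel))
noncomputable def rh39278a6f4a4bb0bf : CRef := CRef.mk (Pat.mk 0xa0000000a000000020000000200000000 0x10000001b0000001f000000020000000200000002 4 5) 0 0 (step_sound _ 128 [(rh50fbb5868c909700.shift 0 1), rhc0d0386f9a6fcb55] (by decide +kernel))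
noncomputable def rhbbe65726872ca083 : CRef := CRef.mk (Pat.mk 0xa0000000a000000020000000200000000 0x10000001f0000001b000000020000000200000002 4 5) 0 0 (step_sound _ 128 [rh3bc5963773f66963, (rh50fbb5868c909700.shift 0 1)] (by decide +kernel))
noncomputable def rhd89c6daa16a70eaa : CRef := CRef.mk (Pat.mk 0xe000000080000000c00000004 0x330000001e0000000c0000000c0000000c 4 6) 0 0 (step_sound _ 129 [(rh2613c889e411427e.shift 1 0), rh6585f13a5fbbe407] (by decide +kernel))
noncomputable def rha05a5ec1e0217231 : CRef := CRef.mk (Pat.mk 0x20000000a000000080000000400000004 0x30000001f0000003c0000000400000004 4 6) 0 0 (step_sound _ 98 [(rh0e7026a0a3f6e059.shift 0 2), (rh2613c889e411427e.shift 1 0)] (by decide +kernel))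
noncomputable def rh90e4d0bd6de6b6a7 : CRef := CRef.mk (Pat.mk 0x100000001000000038000000000000000000000000 0x1000000018000000780000001f0000000800000008 4 7) 0 0 (step_sound _ 67 [(rh42548283029e2a39.shift 3 0), (rhf0f55c4504412200.shift 0 2), (rhf9af042da61fc652.shift 3 0)] (by decide +kernel))
noncomputable def rh9c5e962b378fc3a4 : CRef := CRef.mk (Pat.mk 0x20000000e00000006000000000000000000000000 0x1000000030000001f00000006000000020000000200000002 4 5) 0 0 (step_sound _ 160 [rh6abf65651ac164b5, (rhf48373e13d2bc128.shift 0 4)] (by decide +kernel))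
noncomputable def rha7873bf583a3b568 : CRef := CRef.mk (Pat.mk 0x100000001e00000018000000000000000800000000 0x100000001e0000001f000000300000003800000018 4 6) 0 0 (step_sound _ 97 [(rh8970b617bd6d09bd.shift 1 0), (rheb0810cc63b001d8.shift 0 3)] (by decide +kernel))
noncomputable def rh46d685e2d114d8a3 : CRef := CRef.mk (Pat.mk 0x80000000c0000001c000000000000000400000000 0x80000000c0000001f000000380000001c0000000c 4 6) 0 0 (step_sound _ 67 [(rhdd954a6f2f77cc64.shift 0 1), (rhe437f081bfcdb831.shift 2 0)] (by decide +kernel))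
noncomputable def rhd0ec45ccb0960ef5 : CRef := CRef.mk (Pat.mk 0x8000000080000000c0000000d0000000000000000 0x100000001c0000000c0000000c0000000f0000001800000018 4 5) 0 0 (step_sound _ 164 [(rh2f68792b6b779e96.shift 3 2), rh6079b07f361c907f] (by decide +kernel))
noncomputable def rh9f1d7e1f3e6cbd2c : CRef := CRef.mk (Pat.mk 0x2000000180000000c000000040000000000000000 0x2000000020000001a0000000f000000060000000400000004 4 5) 0 0 (step_sound _ 97 [(rh53b3c253cb0c65f4.shift 0 3), (rhce88038d11f24fde.shift 1 0)] (by decide +kernel))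
end Crest.Agent.S0047.Helper85.Cert
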