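import Crest.Agent.Lib.S0047.Helper85CertPL3F0
import Crest.Agent.Lib.S0047.Helper85CertPL3F1
import Crest.Agent.Lib.S0047.Helper85CertPL3F2
import Crest.Agent.Lib.S0047.Helper85CertPL3F3
import Crest.Agent.Lib.S0047.Helper85CertPL3F4
import Crest.Agent.Lib.S0047.Helper85CertPL3F5
set_option autoImplicit false
set_option linter.all false
set_option Elab.async false
namespace Crest.Agent.S0047.Helper85.Cert
open Crest.Agent.S0047.Helper85

noncomputable def rhc5bb9abb5c08e86e : CRef := CRef.mk (Pat.mk 0x6000000180000001c00000000 0x4000000060000001b0000001f00000003 4 5) 0 0 (step_sound _ 33 [rh40bfdbfb16eaa264, (rh53b3c253cb0c65f4.shift 0 1)] (by decide +kernel))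
noncomputable def rh3b4b22564c8e2a2d : CRef := CRef.mk (Pat.mk 0x200000006000000060000000100000000 0x40000000600000006000000060000000700000007 4 3) 0 0 (step_sound _ 33 [rh932754581e0f4330, (rhd6aece234863c386.shift 1 0)] (by decide +kernel))
noncomputable def rh13ed9047e90862fe : CRef := CRef.mk (Pat.mk 0x18000000160000000000000000 0x800000008000000180000001f0000003000000010 4 6) 0 0 (step_sound _ 67 [(rh53b3c253cb0c65f4.shift 0 2), (rhea719cc8bd0bdd28.shift 1 0)] (by decide +kernel))
noncomputable def rh7f2180783228f3e3 : CRef := CRef.mk (Pat.mk 0x20000000d0000000d0000000100000000 0x80000001a0000000f0000000d0000000500000005 4 5) 0 0 (step_sound _ 97 [rh71222050f2c63a3a, rha240d968d16a7f4e] (by decide +kernel))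
noncomputable def rh01fedbc54b5b62d7 : CRef := CRef.mk (Pat.mk 0xc0000000e000000080000000c00000000 0xc0000000e0000003a0000001f00000013 4 6) 0 0 (step_sound _ 36 [(rh55afc6a59410cf00.shift 3 0), rhd30a5f89deb85371] (by decide +kernel))
noncomputable def rh631d559cd23a0fdb : CRef := CRef.mk (Pat.mk 0x400000007000000060000000200000000 0x30000000b0000001f00000007000000060000000600000004 4 5) 0 0 (step_sound _ 129 [(rh7b9fbdf6d2d059e4.shift 0 1), rhf8d29f3cbeaf06f7] (by decide +kernel))
noncomputable def rh2b0655ef223f62c5 : CRef := CRef.mk (Pat.mk 0x50000000f000000000000000000000000 0x100000001000000070000001f000000030000000200000002 4 5) 0 0 (step_sound _ 65 [(rh795d3e5d420177aa.shift 0 2), rh7c54922dcc04cd2b, rhade0f4c81793f68e] (by decide +kernel))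
noncomputable def rh7561e21521b299e7 : CRef := CRef.mk (Pat.mk 0x4000000040000000400000007000000040000000000000000 0x4000000040000000c0000001e00000007000000040000000400000004 4 5) 0 0 (step_sound _ 129 [rh4e448da1f2ebc7c7, (rh5c5e593799055d58.shift 1 3)] (by decide +kernel))
noncomputable def rh7dbaa07dac5d3784 : CRef := CRef.mk (Pat.mk 0x60000000c0000001c0000000800000000 0x60000000f0000001c0000000f00000006 4 5) 0 0 (step_sound _ 97 [rh4181d888a9c2d7d1, (rhb739f4f82bb681b4.shift 0 2)] (by decide +kernel))
noncomputable def rh46189e50c0cfd17e : CRef := CRef.mk (Pat.mk 0x600000004000000040000000400000000 0xf0000003e000000040000000400000004 4 6) 0 0 (step_sound _ 99 [(rh75ea294132184f25.shift 0 3), rh94f1a52185fc620a, (rhc705a4e0321a1bff.shift 1 0), rhf3276dbea3628a1a] (by decide +kernel))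
noncomputable def rhe123f0a74ef8280a : CRef := CRef.mk (Pat.mk 0xe000000040000001c0000000c00000000 0x100000003e000000370000001c0000000e00000002 4 6) 0 0 (step_sound _ 33 [(rh32e1d3c95004e2c1.shift 0 1), (rh932754581e0f4330.shift 1 0)] (by decide +kernel))
noncomputable def rh702feffd8fcfec03 : CRef := CRef.mk (Pat.mk 0x6000000070000000400000000 0x800000008000000080000001e0000000f0000000400000004 4 5) 0 0 (step_sound _ 99 [(rh18965a982d73c794.shift 0 2), (rhb730ba14aa32bdb3.shift 2 0)] (by decide +kernel))
noncomputable def rha4c828d843b24f79 : CRef := CRef.mk (Pat.mk 0x20000001a00000002000000000000000000000000 0x2000000020000007a0000001f000000060000000400000004 4 7) 0 0 (step_sound _ 98 [(rh70e33bfdf511e144.shift 1 0), (rhfe7c844806756e31.shift 0 3)] (by decide +kernel))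
noncomputable def rh715bd1825497d69a : CRef := CRef.mk (Pat.mk 0x10000000100000007000000050000000000000000 0x2000000030000000700000007000000050000000500000004 4 3) 0 0 (step_sound _ 161 [(rh2f68792b6b779e96.shift 0 2), rhe68e315fb4553677] (by decide +kernel))
noncomputable def rh1d280e2468c058e7 : CRef := CRef.mk (Pat.mk 0x6000000020000000e0000000a00000000 0x70000003e0000000e0000000a0000000a 4 6) 0 0 (step_sound _ 98 [rh0a15bd2a77dee852, (rh71222050f2c63a3a.shift 1 0)] (by decide +kernel))
noncomputable def rhddc47abeada1ab67 : CRef := CRef.mk (Pat.mk 0x6000000020000000a0000000a00000000 0x1000000070000001e0000000a0000000a0000000a 4 5) 0 0 (step_sound _ 98 [rh155b263667d6b74f, (rh71222050f2c63a3a.shift 1 0)] (by decide +kernel))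
noncomputable def rh6924719e760519e8 : CRef := CRef.mk (Pat.mk 0x160000000e00000008 0x1000000010000000380000001e0000000f00000008 4 6) 0 0 (step_sound _ 67 [(rh49606a42a30c7ac4.shift 1 0), (rh53b3c253cb0c65f4.shift 0 1)] (by decide +kernel))
noncomputable def rha1a374a68c837249 : CRef := CRef.mk (Pat.mk 0x380000001c0000001800000030 0x4000000060000003f0000003c0000001e00000030 4 6) 0 0 (step_sound _ 34 [(rha28d23c06faf6610.shift 0 1), (rhb739f4f82bb681b4.shift 1 0)] (by decide +kernel))
noncomputable def rhf94da2a102828e83 : CRef := CRef.mk (Pat.mk 0x180000001c0000000a 0x10000000300000001f0000003e0000000b 4 6) 0 0 (step_sound _ 100 [(rh5c5e593799055d58.shift 3 0), rh8b86feef16d9103e] (by decide +kernel))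
noncomputable def rhfffc65e29fee7a84 : CRef := CRef.mk (Pat.mk 0x40000000c0000001c00000004 0x2000000070000003f0000001c00000004 4 6) 0 0 (step_sound _ 97 [(rh50fbb5868c909700.shift 1 0), (rh6735db9147ba3426.shift 0 1)] (by decide +kernel))
noncomputable def rh7c05a3b40581093c : CRef := CRef.mk (Pat.mk 0x40000001c000000040000000000000000 0x20000000f0000003c000000040000000400000004 4 6) 0 0 (step_sound _ 129 [rh2c9cf7e9328cac9c, (rhf48373e13d2bc128.shift 1 3)] (by decide +kernel))
noncomputable def rh6902a7735486f600 : CRef := CRef.mk (Pat.mk 0xe0000000a0000000a00000000 0x10000000180000000f0000000b0000001e00000014 4 5) 0 0 (step_sound _ 131 [rh11a243992b58ed44, (rhdab32775f5c78fcf.shift 0 1)] (by decide +kernel))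
noncomputable def rhabaa4b11eb552c7f : CRef := CRef.mk (Pat.mk 0x800000008000000080000001400000000 0x80000000800000008000000380000001f00000010 4 6) 0 0 (step_sound _ 35 [(rh292e135d17d1e2e1.shift 0 1), (rh55afc6a59410cf00.shift 3 0)] (by decide +kernel))
noncomputable def rh42dbef67c898bcac : CRef := CRef.mk (Pat.mk 0x1c0000000c000000040000000600000000 0x100000001c0000000c0000003c0000000f00000008 4 6) 0 0 (step_sound _ 35 [(rh359c76cd77660eeb.shift 0 1), (rh55afc6a59410cf00.shift 2 0)] (by decide +kernel))
noncomputable def rh268ee27c5874a546 : CRef := CRef.mk (Pat.mk 0x600000007000000030000000600000000 0x80000001e00000007000000070000001e00000008 4 5) 0 0 (step_sound _ 131 [(rh18965a982d73c794.shift 0 3), rhe7d219a30aed302c] (by decide +kernel))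
noncomputable def rh40bdf45b35d5214a : CRef := CRef.mk (Pat.mk 0x40000000400000007000000050000000000000000 0x2000000060000000700000007000000050000000500000001 4 3) 0 0 (step_sound _ 161 [rh425ceda75e1263b6, (rh50fbb5868c909700.shift 1 2)] (by decide +kernel))
noncomputable def rha47e70e267e1b165 : CRef := CRef.mk (Pat.mk 0x38000000180000000c0000001800000000 0x2000000038000000180000003c0000001f00000004 4 6) 0 0 (step_sound _ 34 [(rh932754581e0f4330.shift 2 0), (rhe36bd2e51c44a2ac.shift 0 1)] (by decide +kernel))
noncomputable def rh889e5eedbd58fb6c : CRef := CRef.mk (Pat.mk 0x300000005a0000000800000010 0x20000000300000007b0000001f00000010 4 7) 0 0 (step_sound _ 34 [(rh361cc68994bd8a63.shift 2 1), rh761e2722e7ceb9c6] (by decide +kernel))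
noncomputable def rh725110c9d60a949c : CRef := CRef.mk (Pat.mk 0x80000001a0000000c0000000000000000 0x80000001b0000001f0000003000000010 4 6) 0 0 (step_sound _ 65 [(rh53b3c253cb0c65f4.shift 0 2), rhb9784ff7a7632a57] (by decide +kernel))
noncomputable def rh681dcf98856e23e1 : CRef := CRef.mk (Pat.mk 0x8000000180000000e0000000400000000 0x8000000180000003e0000003700000010 4 6) 0 0 (step_sound _ 68 [rh534a6900ac2ddaa9, (rh78974448101547fe.shift 1 0), (rhaf9f2efc81a8312b.shift 0 1)] (by decide +kernel))
noncomputable def rh4fbfde65966a5a67 : CRef := CRef.mk (Pat.mk 0x80000000c0000000b0000000000000000 0x40000000c0000000c0000000b0000001e0000001c 4 5) 0 0 (step_sound _ 35 [rh5045a7dd3c2710bf, (rhe286c75f2739cce2.shift 2 0)] (by decide +kernel))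
noncomputable def rhfc15e036455523cd : CRef := CRef.mk (Pat.mk 0x600000007000000030000000600000000 0x80000001e00000007000000070000001e00000008 4 5) 0 0 (step_sound _ 131 [(rh18965a982d73c794.shift 0 3), rh2853455034e02106] (by decide +kernel))
noncomputable def rhd1129791c9e97c23 : CRef := CRef.mk (Pat.mk 0xc000000080000000b0000000b00000000 0x100000001a0000001f0000000a0000000b0000000b00000001 4 5) 0 0 (step_sound _ 164 [rh6020726fff9d2f05, (rhbaefcd01e0a8bca3.shift 3 1)] (by decide +kernel))
noncomputable def rh2f57a4ea087aa79a : CRef := CRef.mk (Pat.mk 0xc000000080000000e0000000c00000000 0x20000000f0000003c0000000e0000000c00000008 4 6) 0 0 (step_sound _ 98 [(rh53cccbb248b8ab65.shift 0 1), (rh7b1f1fb55310c477.shift 2 0)] (by decide +kernel))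
noncomputable def rh61e1c0b2d5df57e3 : CRef := CRef.mk (Pat.mk 0x40000000e00000007000000020000000000000000 0x80000000c0000000e000000070000001e0000000c0000000c 4 5) 0 0 (step_sound _ 66 [(rh42afa1af9fffa0e1.shift 0 1), (rh820d4e04d5dcd02e.shift 1 0), (rha707fb719e87fe6e.shift 2 1)] (by decide +kernel))
noncomputable def rh5c878e124d90db45 : CRef := CRef.mk (Pat.mk 0x400000004000000030000000700000000 0x40000000c0000001b0000001f00000018 4 5) 0 0 (step_sound _ 35 [rhb677d5483aaebfd8, (rhf48373e13d2bc128.shift 0 1)] (by decide +kernel))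
noncomputable def rhcde3d66b346cf48d : CRef := CRef.mk (Pat.mk 0x8000000140000000c0000000c00000000 0x80000001c0000000f0000003c00000014 4 6) 0 0 (step_sound _ 99 [(rh71222050f2c63a3a.shift 2 0), rh795ab08ece2a7e70] (by decide +kernel))
noncomputable def rh017d253d90ceaa84 : CRef := CRef.mk (Pat.mk 0x40000000600000006000000020000000000000000 0x600000006000000070000003e0000000c00000004 4 6) 0 0 (step_sound _ 66 [(rh36d4d92ef3dad5f8.shift 0 1), (rh55a1f6c57a317ce6.shift 1 0)] (by decide +kernel))
noncomputable def rhe5ab5773184dec9e : CRef := CRef.mk (Pat.mk 0x80000000e00000006000000100000000000000000 0x80000001f0000003e000000180000001000000010 4 6) 0 0 (step_sound _ 100 [(rh1b8d735d1ec00cd4.shift 1 1), (rh74a43b9a483760f6.shift 3 0), (rhfd0f316c42bbba52.shift 0 3)] (by decide +kernel))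
noncomputable def rhe18dcba996aa39d4 : CRef := CRef.mk (Pat.mk 0x80000000c000000060000001c0000000000000000 0x80000001c000000360000001e0000003300000002 4 6) 0 0 (step_sound _ 65 [rh9c40a739b57d6d20, (rhb677d5483aaebfd8.shift 1 1)] (by decide +kernel))
noncomputable def rh67fefdc2d0e87ce4 : CRef := CRef.mk (Pat.mk 0x80000000e00000006000000100000000000000000 0x80000001f0000003e000000300000001000000010 4 6) 0 0 (step_sound _ 100 [(rh07ddfbf5f5d4b6d6.shift 1 0), (rh1b8d735d1ec00cd4.shift 1 1), (rh665fa2b016ee28ae.shift 0 2)] (by decide +kernel))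
noncomputable def rh258cb346ecbfc314 : CRef := CRef.mk (Pat.mk 0x4000000070000000b000000000000000000000000 0x4000000070000001f0000001c0000000800000008 4 5) 0 0 (step_sound _ 98 [rhc7b95363f9049b11, (rhf48373e13d2bc128.shift 0 3)] (by decide +kernel))
noncomputable def rhd139fa3f32e95937 : CRef := CRef.mk (Pat.mk 0x4000000070000000b0000000a00000000 0x1c0000000f0000000b0000001e0000000c 4 5) 0 0 (step_sound _ 99 [(rh7b1f1fb55310c477.shift 2 0), rhc60773638daf564a] (by decide +kernel))
noncomputable def rh96216ee396889d2c : CRef := CRef.mk (Pat.mk 0x40000000e0000000600000000 0x8000000080000003c0000003f0000000600000004 4 6) 0 0 (step_sound _ 68 [(rh18965a982d73c794.shift 1 1), rh31f17473693b8f2f] (by decide +kernel))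
noncomputable def rh51182b616f0ce581 : CRef := CRef.mk (Pat.mk 0x80000001c0000000c00000000 0x1000000010000000780000001e0000000f00000008 4 7) 0 0 (step_sound _ 33 [(rh31f17473693b8f2f.shift 1 0), (rh53b3c253cb0c65f4.shift 0 1)] (by decide +kernel))
noncomputable def rh5881b3d15bdec131 : CRef := CRef.mk (Pat.mk 0xc000000180000001c00000004 0x20000000f0000001b0000001f00000004 4 5) 0 0 (step_sound _ 33 [(rh53b3c253cb0c65f4.shift 0 1), rhc1978c5ca7ecb4b1] (by decide +kernel))
noncomputable def rhef9ffd4d19a15879 : CRef := CRef.mk (Pat.mk 0x100000006000000070000000100000000 0x70000000700000006000000070000000300000002 4 3) 0 0 (step_sound _ 129 [(rh5c5e593799055d58.shift 0 1), rhe443475c6fff10d6] (by decide +kernel))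
noncomputable def rh28684772f5aa3734 : CRef := CRef.mk (Pat.mk 0x4000000180000001c00000006 0x6000000060000001b0000001f00000006 4 5) 0 0 (step_sound _ 33 [(rh53b3c253cb0c65f4.shift 0 1), rhc6719c6594e47b00] (by decide +kernel))
noncomputable def rh4bb7931b798957df : CRef := CRef.mk (Pat.mk 0x4000000180000000e00000006 0xe0000000f0000001a0000000e00000006 4 5) 0 0 (step_sound _ 99 [(rh5c5e593799055d58.shift 2 0), rh6ed08eee93fe0ade] (by decide +kernel))
noncomputable def rhceabe5d87163fcf5 : CRef := CRef.mk (Pat.mk 0xe000000080000000e00000002 0x140000001c0000000f0000000c0000000e00000002 4 5) 0 0 (step_sound _ 130 [(rh3c88ce959c0e423f.shift 1 0), (rhbe22baded9e1d7ea.shift 0 1)] (by decide +kernel))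
noncomputable def rh92f1a5215ff998bb : CRef := CRef.mk (Pat.mk 0xe000000080000000600000002 0x40000001f0000007c0000000600000002 4 7) 0 0 (step_sound _ 130 [(rh3c88ce959c0e423f.shift 1 0), (rh8ee80cc30e93a344.shift 0 2)] (by decide +kernel))
noncomputable def rh6a0dccdff71238d6 : CRef := CRef.mk (Pat.mk 0xa00000008000000060000000200000000 0x60000001f0000007c000000060000000600000004 4 7) 0 0 (step_sound _ 130 [(rh0d840bfb460ee218.shift 0 1), (rh32bf1c9ac2d0a17d.shift 1 0), (rh8ee80cc30e93a344.shift 0 3)] (by decide +kernel))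
noncomputable def rh59389d28620f96eb : CRef := CRef.mk (Pat.mk 0x8000000180000000600000006 0x70000000f0000001e0000000600000006 4 5) 0 0 (step_sound _ 97 [rh011744a0381ba19c, rh09974ccd3d041e02, rh09b85325ac36b741, rh61d047a6caba8fa6, (rhcba04ef744144677.shift 1 0)] (by decide +kernel))
noncomputable def rh16dd32c7f9e93d27 : CRef := CRef.mk (Pat.mk 0x80000000c00000007000000020000000000000000 0x80000001e00000007000000060000000600000006 4 5) 0 0 (step_sound _ 129 [(rh18965a982d73c794.shift 0 3), (rh6a3ba3a6fd570301.shift 1 0)] (by decide +kernel))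
noncomputable def rhc0387b2f6c60d88c : CRef := CRef.mk (Pat.mk 0x180000000c0000001e00000000 0x40000003c0000000f0000001e00000003 4 6) 0 0 (step_sound _ 65 [rh323282a07cf77c7b, (rh53b3c253cb0c65f4.shift 0 2)] (by decide +kernel))
noncomputable def rh17bffab5f14c640f : CRef := CRef.mk (Pat.mk 0x400000006000000170000000000000000 0x200000006000000060000001f0000000300000003 4 5) 0 0 (step_sound _ 33 [rh461796a23c837a9f, (rh71222050f2c63a3a.shift 1 0)] (by decide +kernel))
noncomputable def rhbef1492f44ebe3f7 : CRef := CRef.mk (Pat.mk 0x80000000c000000060000001c0000000000000000 0x80000001c000000360000001e0000003300000002 4 6) 0 0 (step_sound _ 65 [(rh6797c410c820e91e.shift 1 1), rh9c40a739b57d6d20] (by decide +kernel))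
noncomputable def rh81872d86adb6d014 : CRef := CRef.mk (Pat.mk 0x400000006000000060000000a0000000000000000 0x4000000070000001e0000000f0000000800000008 4 5) 0 0 (step_sound _ 35 [rh1047bd99cb9c1d0e, (rhbe0e43a3bc50a43f.shift 2 1)] (by decide +kernel))
noncomputable def rhd997e55b88cd3a55 : CRef := CRef.mk (Pat.mk 0x80000000c0000000c000000160000000200000000 0x10000000180000001c0000000c0000001e0000000b00000008 4 5) 0 0 (step_sound _ 67 [(rha327c50ba1fc214e.shift 2 0), (rheb0810cc63b001d8.shift 0 1)] (by decide +kernel))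
noncomputable def rh0a09c9f544642afe : CRef := CRef.mk (Pat.mk 0x1c0000002c000000040000000000000000 0x40000001c0000003f000000060000000200000002 4 6) 0 0 (step_sound _ 65 [(rh361cc68994bd8a63.shift 1 2), rhf42461bf0ae047f5] (by decide +kernel))
noncomputable def rhe320a693f897e845 : CRef := CRef.mk (Pat.mk 0x2000000070000000c0000000400000000 0xc0000001e000000070000003c0000000c00000008 4 6) 0 0 (step_sound _ 68 [rha84357fa6686b26d, (rhf48373e13d2bc128.shift 1 2)] (by decide +kernel))
noncomputable def rh1277175f94ed1ab3 : CRef := CRef.mk (Pat.mk 0x20000000300000001000000060000000000000000 0x4000000060000000700000003000000060000000600000002 4 3) 0 0 (step_sound _ 97 [rh15a1b6b82d9fd81f, (rh55afc6a59410cf00.shift 1 1)] (by decide +kernel))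
noncomputable def rh389fd00ca40dfe21 : CRef := CRef.mk (Pat.mk 0x180000000c0000000c000000060000000000000000 0x10000000180000000c0000000c0000000f0000001800000018 4 5) 0 0 (step_sound _ 67 [(rh2f68792b6b779e96.shift 3 2), rh312eadfd36a7b554] (by decide +kernel))
noncomputable def rhf70a93efeebe3de4 : CRef := CRef.mk (Pat.mk 0xe000000060000001c0000000000000000 0xf0000003e0000001f0000000300000002 4 6) 0 0 (step_sound _ 65 [rh9c40a739b57d6d20, rhd26776bf91d336b3, (rhebc380ca1da87b63.shift 0 2)] (by decide +kernel))
noncomputable def rh8cf15799fe3e4381 : CRef := CRef.mk (Pat.mk 0x80000000e00000006000000100000000000000000 0x80000001f0000003e000000300000001000000010 4 6) 0 0 (step_sound _ 100 [(rh1b8d735d1ec00cd4.shift 1 1), (rh40555e7ca63f5013.shift 1 0), (rh665fa2b016ee28ae.shift 0 2)] (by decide +kernel))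
noncomputable def rhe49ed828379aaab1 : CRef := CRef.mk (Pat.mk 0x80000000800000016000000100000000000000000 0x8000000080000001e0000003b0000001000000010 4 6) 0 0 (step_sound _ 99 [(rhe25b0a99195a5d59.shift 1 2), rhf656aec717f6554a] (by decide +kernel))
noncomputable def rh4043de58fad100db : CRef := CRef.mk (Pat.mk 0x800000018000000060000000600000000 0x60000000f0000001e000000060000000600000002 4 5) 0 0 (step_sound _ 130 [(rh6ed08eee93fe0ade.shift 0 1), (rhb8fddd58ad9026ec.shift 1 0), rhfb0ed1b59f16e7bb] (by decide +kernel))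
noncomputable def rh9b30014d4bb33c13 : CRef := CRef.mk (Pat.mk 0x1c000000180000000c00000004 0x30000001f0000001a0000000f00000004 4 5) 0 0 (step_sound _ 97 [rh7611bb121aef66f6, (rhb739f4f82bb681b4.shift 0 2)] (by decide +kernel))
noncomputable def rhc5f89d3c2c4d4af8 : CRef := CRef.mk (Pat.mk 0xe0000001a0000000800000000 0x4000000040000000c0000000e0000001e0000000f00000002 4 5) 0 0 (step_sound _ 130 [rh487d1c85f5a48961, (rh8045a4749be85c44.shift 1 1)] (by decide +kernel))
noncomputable def rhea91b5b6d9c8c5e9 : CRef := CRef.mk (Pat.mk 0x8000000080000001c0000000800000000 0x1000000018000000080000003c0000000f00000004 4 6) 0 0 (step_sound _ 132 [(rh2f68792b6b779e96.shift 3 1), rhd65e52c5f80caa3b] (by decide +kernel))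
noncomputable def rha6cb0f0c3fac5209 : CRef := CRef.mk (Pat.mk 0x40000000c0000000c0000000800000000 0x80000000c0000000c0000003c0000000f00000006 4 6) 0 0 (step_sound _ 34 [(rh84d1c02a8954c6a8.shift 2 0), rha71afc656c87d410] (by decide +kernel))
noncomputable def rh14dda0cb7e02f704 : CRef := CRef.mk (Pat.mk 0x40000000600000006000000020000000000000000 0x600000006000000070000003e0000000c00000004 4 6) 0 0 (step_sound _ 66 [(rh36d4d92ef3dad5f8.shift 0 1), (rh55a1f6c57a317ce6.shift 1 0), (rhc1520be8bd932b08.shift 1 0)] (by decide +kernel))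
noncomputable def rhb623460bfd0a4085 : CRef := CRef.mk (Pat.mk 0xc00000007000000020000000200000000 0xa0000001e00000007000000060000000600000004 4 5) 0 0 (step_sound _ 129 [(rh18965a982d73c794.shift 0 3), (rh8af9a32e61457eb0.shift 1 0)] (by decide +kernel))
noncomputable def rhdf141a346f32232f : CRef := CRef.mk (Pat.mk 0x40000000700000007000000000000000000000000 0x40000000f0000001f000000180000000800000008 4 5) 0 0 (step_sound _ 99 [rhd132b680030c88e0, (rhf48373e13d2bc128.shift 0 3)] (by decide +kernel))
noncomputable def rh5311deb114bad81b : CRef := CRef.mk (Pat.mk 0xc0000000700000006000000000000000000000000 0x80000000c0000000f0000001e000000040000000400000004 4 5) 0 0 (step_sound _ 99 [(rh84bebdeadf3219f3.shift 1 0), (rhf48373e13d2bc128.shift 0 3)] (by decide +kernel))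
noncomputable def rhfcc99204c38ea1e5 : CRef := CRef.mk (Pat.mk 0x1800000038000000180000000c 0x2000000020000000780000003e000000180000001f 4 7) 0 0 (step_sound _ 1 [rh53b3c253cb0c65f4, (rh79baf11529b9ece9.shift 1 0)] (by decide +kernel))
noncomputable def rh4d6fd19731df277e : CRef := CRef.mk (Pat.mk 0x80000000c0000000c000000060000000200000000 0x10000000180000001c0000000c0000001e0000001b00000008 4 5) 0 0 (step_sound _ 67 [(rh15a1b6b82d9fd81f.shift 2 0), (rhfe26b971575d20c5.shift 0 1)] (by decide +kernel))
noncomputable def rh166b616967b83a48 : CRef := CRef.mk (Pat.mk 0x600000006000000070000000000000000 0x600000006000000070000003e0000000c 4 6) 0 0 (step_sound _ 34 [(rh7b1f1fb55310c477.shift 1 0), rhb0c6196f710d9a93] (by decide +kernel))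
noncomputable def rhd810b6b8881f4b8a : CRef := CRef.mk (Pat.mk 0xc0000000c0000000e0000000200000000 0xc0000000c0000001e0000003b00000018 4 6) 0 0 (step_sound _ 35 [(rh7b1f1fb55310c477.shift 2 0), rhe240d60dcd2ac289] (by decide +kernel))
noncomputable def rh708d84819ce46a3a : CRef := CRef.mk (Pat.mk 0x80000000c0000000a0000000b 0x1800000018000000180000000c0000001e0000000b 4 5) 0 0 (step_sound _ 132 [rh0850dc8bf4211df0, (rhbaefcd01e0a8bca3.shift 3 0)] (by decide +kernel))
noncomputable def rh35866a89f3370c4d : CRef := CRef.mk (Pat.mk 0x80000000c000000140000001600000000 0xc0000001c000000140000001f00000038 4 6) 0 0 (step_sound _ 4 [rh382f8963f0a378e5, (rhcfdf45280693d3da.shift 3 0)] (by decide +kernel))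
noncomputable def rh434399ea96930d00 : CRef := CRef.mk (Pat.mk 0x4000000140000001600000000 0x400000004000000340000001f00000038 4 6) 0 0 (step_sound _ 35 [(rh33e738c4ed385b9f.shift 1 1), rh975c4ddca9e0d579] (by decide +kernel))
noncomputable def rh4dbf74e83cc050b1 : CRef := CRef.mk (Pat.mk 0x60000000300000001000000020000000000000000 0x4000000060000000300000003000000060000000600000006 4 3) 0 0 (step_sound _ 97 [(rh2f68792b6b779e96.shift 1 2), rh99895f40e905d09f] (by decide +kernel))
noncomputable def rhf44e5298a7df0b57 : CRef := CRef.mk (Pat.mk 0x1000000004000000140000000e00000000 0x1400000014000000140000001f00000038 4 6) 0 0 (step_sound _ 3 [(rh2145e1d24b96a57e.shift 2 0), rh350c68298cbdcb30] (by decide +kernel))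
noncomputable def rh39f7dc2d5777ac47 : CRef := CRef.mk (Pat.mk 0x1000000000000000000000000e00000008 0x1000000010000000300000001f00000038 4 6) 0 0 (step_sound _ 4 [(rha780aa3996dc0e0d.shift 1 0), rhb739f4f82bb681b4] (by decide +kernel))
noncomputable def rhade22b3e008761f2 : CRef := CRef.mk (Pat.mk 0xc00000006000000020000000300000000 0xa0000000e00000006000000060000000700000005 4 4) 0 0 (step_sound _ 129 [(rh8af9a32e61457eb0.shift 1 0), rh932754581e0f4330] (by decide +kernel))
noncomputable def rh9472fd238816ceb5 : CRef := CRef.mk (Pat.mk 0x40000000e000000050000000400000000 0x40000001e000000070000001e0000000a 4 5) 0 0 (step_sound _ 65 [(rh18965a982d73c794.shift 0 2), rh628a1c8740784101] (by decide +kernel))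
noncomputable def rh100b94bb500c49cc : CRef := CRef.mk (Pat.mk 0x80000001e000000280000000c00000000 0x80000001e0000006f0000003c00000010 4 7) 0 0 (step_sound _ 36 [(rh1e2b2d5e3836fec6.shift 0 1), (rh55afc6a59410cf00.shift 3 0)] (by decide +kernel))
noncomputable def rhbbc760a4fefb112d : CRef := CRef.mk (Pat.mk 0x180000000c0000000c000000000000000400000000 0x10000000180000000f0000000c000000080000000c0000000c 4 5) 0 0 (step_sound _ 129 [(rh53b3c253cb0c65f4.shift 0 4), (rhc6b4e1276619034d.shift 2 0)] (by decide +kernel))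
noncomputable def rh74facbc6c4eb3ed2 : CRef := CRef.mk (Pat.mk 0x180000000c0000000c00000000 0x140000003c0000000f0000000c00000008 4 6) 0 0 (step_sound _ 65 [(rh53b3c253cb0c65f4.shift 0 2), (rhd8860d880d23c002.shift 1 0)] (by decide +kernel))
noncomputable def rheda0a136732ee145 : CRef := CRef.mk (Pat.mk 0x18000000060000000e00000000 0x40000003c000000060000003e00000003 4 6) 0 0 (step_sound _ 98 [(rh18965a982d73c794.shift 1 2), rh9e616f5b225de9a6] (by decide +kernel))
noncomputable def rh528293e7310ad3ab : CRef := CRef.mk (Pat.mk 0x40000000600000007000000020000000000000000 0x80000000c0000000e000000070000001e0000000c00000004 4 5) 0 0 (step_sound _ 66 [(rh15a1b6b82d9fd81f.shift 1 0), (rh42afa1af9fffa0e1.shift 0 1)] (by decide +kernel))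
noncomputable def rhee75737fd1591582 : CRef := CRef.mk (Pat.mk 0xc0000001c000000080000001c00000000 0xf0000001c0000003c0000001f00000003 4 6) 0 0 (step_sound _ 128 [rh2e488f599d10d45a, (rhab22b5b56e7b3243.shift 0 3)] (by decide +kernel))
noncomputable def rh26e1c318b7907940 : CRef := CRef.mk (Pat.mk 0x18000000080000000e00000000 0x80000000800000018000000380000001f00000010 4 6) 0 0 (step_sound _ 68 [(rh53b3c253cb0c65f4.shift 0 1), (rh86bde9a0e32ebabe.shift 1 0)] (by decide +kernel))
noncomputable def rh7ee98a7d269839f7 : CRef := CRef.mk (Pat.mk 0x800000008000000000000000f00000000 0x800000018000000380000001f00000030 4 6) 0 0 (step_sound _ 68 [(rh428265de8cd3cd2d.shift 0 1), (rhe4829767fb4b37c2.shift 1 0)] (by decide +kernel))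
noncomputable def rh44d06b50eed63681 : CRef := CRef.mk (Pat.mk 0x8000000180000000e0000000000000000 0x8000000380000001e0000003300000010 4 6) 0 0 (step_sound _ 68 [(rh33e738c4ed385b9f.shift 1 2), rh534a6900ac2ddaa9] (by decide +kernel))
noncomputable def rh1c85c2a954ec6b48 : CRef := CRef.mk (Pat.mk 0x70000000e00000004 0x40000000e0000001e000000070000000e0000000c 4 5) 0 0 (step_sound _ 97 [(rh2145e1d24b96a57e.shift 1 0), rhc0623366f982994b] (by decide +kernel))
noncomputable def rh80ee186b3fbff6d5 : CRef := CRef.mk (Pat.mk 0x1800000008000000180000003c00000000 0x40000001c00000018000000180000003f00000060 4 7) 0 0 (step_sound _ 130 [(rh50fbb5868c909700.shift 2 1), rhf80a541df6500d4d] (by decide +kernel))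
noncomputable def rh2aa2c198637b705a : CRef := CRef.mk (Pat.mk 0x40000000e0000001c0000000000000000 0x40000000e0000001f0000003b0000000a 4 6) 0 0 (step_sound _ 35 [rh6ba96611d07a8138, (rh7b1f1fb55310c477.shift 2 0)] (by decide +kernel))
noncomputable def rh20349eea1f185628 : CRef := CRef.mk (Pat.mk 0x3c00000014 0x700000007f0000001c 4 7) 0 0 (step_sound _ 3 [(rh18965a982d73c794.shift 2 0), rhe25191970535449e] (by decide +kernel))
noncomputable def rh5d36853a1f5546c5 : CRef := CRef.mk (Pat.mk 0xc0000000e00000002 0xc0000007e00000037 4 7) 0 0 (step_sound _ 36 [(rh5d5ea7f845ef6c5e.shift 1 0), rheb0810cc63b001d8] (by decide +kernel))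
noncomputable def rh2a6e2b357bad0856 : CRef := CRef.mk (Pat.mk 0x200000006000000060000000d0000000800000000 0x10000000300000007000000060000000f0000001a00000002 4 5) 0 0 (step_sound _ 65 [rhdf997f77704b6375, (rhe25b0a99195a5d59.shift 0 1)] (by decide +kernel))
noncomputable def rh1abcf17183b30503 : CRef := CRef.mk (Pat.mk 0x180000001c000000070000000400000000 0x40000001c0000001c000000170000003e0000001a 4 6) 0 0 (step_sound _ 35 [(rh89ade209b3e28f13.shift 0 1), (rhb23658ecdd7ce5df.shift 1 0), (rhdb0438a52ac87275.shift 1 0)] (by decide +kernel))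
noncomputable def rh232dd237579a5cde : CRef := CRef.mk (Pat.mk 0x100000001400000016000000140000000000000000 0x1000000014000000360000001e0000000b00000002 4 6) 0 0 (step_sound _ 67 [rh43529a11610bbe94, (rh932754581e0f4330.shift 3 1)] (by decide +kernel))
noncomputable def rh7f0ecef2edf946e1 : CRef := CRef.mk (Pat.mk 0x3800000030000000000000007800000000 0xf80000003c0000000f0000007e00000007 4 8) 0 0 (step_sound _ 34 [rh2cc7d62e70c02209, (rhd5eb272e07a4e288.shift 1 1), (rhea4d9b805ef46783.shift 1 0)] (by decide +kernel))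
noncomputable def rh14b948cf9e1d405c : CRef := CRef.mk (Pat.mk 0xc0000000c000000060000000000000000 0x20000000f0000003c000000060000000400000004 4 6) 0 0 (step_sound _ 100 [(rh18965a982d73c794.shift 1 2), rh3f09e2870ec06b4b] (by decide +kernel))
noncomputable def rhc6ed613b9b63d801 : CRef := CRef.mk (Pat.mk 0x6000000060000000e0000001c00000000 0x80000000f0000003e0000000e0000001c00000010 4 6) 0 0 (step_sound _ 131 [rh05ba5dcb8fda47e5, (rh2f68792b6b779e96.shift 2 1)] (by decide +kernel))
noncomputable def rh49f7100bc74d6b53 : CRef := CRef.mk (Pat.mk 0x600000003000000070000000600000000 0x80000001e00000007000000070000001e00000008 4 5) 0 0 (step_sound _ 35 [rh823293f69a08ad12, (rhf48373e13d2bc128.shift 0 1)] (by decide +kernel))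
noncomputable def rh49a4155f66a88c37 : CRef := CRef.mk (Pat.mk 0x20000000f000000060000000000000000 0x3a0000003f000000060000000400000004 4 6) 0 0 (step_sound _ 34 [(rh226655e3fe6b4a8a.shift 0 2), (rh7b1f1fb55310c477.shift 1 0)] (by decide +kernel))
noncomputable def rh3935d5a6e45c29bf : CRef := CRef.mk (Pat.mk 0x500000007000000040000000400000000 0x1000000050000000500000007000000070000000600000002 4 3) 0 0 (step_sound _ 33 [(rh18cd647cca28da80.shift 0 1), (rh932754581e0f4330.shift 1 0)] (by decide +kernel))
noncomputable def rha37a510fffddf90e : CRef := CRef.mk (Pat.mk 0x80000003800000018000000000000001000000000 0x40000000f0000003c00000018000000080000001800000018 4 6) 0 0 (step_sound _ 67 [(rh53509d91ff78ed56.shift 0 2), (rh9b4df57cddcda711.shift 3 0)] (by decide +kernel))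
noncomputable def rhcfb02b36ff5e04fa : CRef := CRef.mk (Pat.mk 0x1800000008000000580000003000000000 0x380000001f000000780000003000000020 4 7) 0 0 (step_sound _ 98 [(rh2fe78cc5ca4405d8.shift 2 2), rh657b7e88006b6ed9] (by decide +kernel))
noncomputable def rh96a37d09af5e675e : CRef := CRef.mk (Pat.mk 0xc0000001a00000008 0x10000000300000001f0000001b00000008 4 6) 0 0 (step_sound _ 65 [rh644d796282c12cc5, (rhb739f4f82bb681b4.shift 0 1)] (by decide +kernel))
noncomputable def rhd90565cc734c5919 : CRef := CRef.mk (Pat.mk 0x600000003000000070000000600000000 0x80000001e00000007000000070000001e00000008 4 5) 0 0 (step_sound _ 35 [rhc8042e18ce54d8f1, (rhf48373e13d2bc128.shift 0 1)] (by decide +kernel))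
noncomputable def rhba23916ff8044139 : CRef := CRef.mk (Pat.mk 0xb0000000c0000000800000000 0x1c0000001e0000000b0000000c0000000c00000004 4 5) 0 0 (step_sound _ 131 [(rh03dfdf12d5937476.shift 2 0), (rh4a57183b91ec83ec.shift 0 1)] (by decide +kernel))
noncomputable def rh69ff3ea7ea149754 : CRef := CRef.mk (Pat.mk 0x1800000008000000180000003800000000 0x40000001f00000038000000180000003800000020 4 6) 0 0 (step_sound _ 100 [(rh55afc6a59410cf00.shift 4 0), (rhc647a25a08ddf0ec.shift 0 1)] (by decide +kernel))
noncomputable def rhb99e40ab417ed064 : CRef := CRef.mk (Pat.mk 0x1c0000000e00000004 0xa0000003b0000001f0000000e00000004 4 6) 0 0 (step_sound _ 99 [(rh5c5e593799055d58.shift 2 0), rhc39ffe1a68d3ccd8] (by decide +kernel))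
noncomputable def rha144175aac957a97 : CRef := CRef.mk (Pat.mk 0xb0000000b000000080000000c0000000000000000 0x10000000b0000000b0000000a0000001f0000001a00000010 4 5) 0 0 (step_sound _ 36 [rh719de7b27dbbbe3e, (rhd3458b32566d63f7.shift 3 1)] (by decide +kernel))
noncomputable def rhd1ed84a67ad62d88 : CRef := CRef.mk (Pat.mk 0xb00000006000000020000000200000000 0x1c0000000f00000006000000060000000600000004 4 5) 0 0 (step_sound _ 130 [(rh2f68792b6b779e96.shift 1 1), rh4522ea7bef838818] (by decide +kernel))
noncomputable def rh9f0c6b08749f3233 : CRef := CRef.mk (Pat.mk 0x1c0000001c00000004 0x2000000030000001f0000001f00000004 4 5) 0 0 (step_sound _ 65 [(rhb739f4f82bb681b4.shift 0 1), rhe51eaebe8d693828] (by decide +kernel))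
noncomputable def rh98f447d7106f60f2 : CRef := CRef.mk (Pat.mk 0xe000000020000000700000004 0x80000003e0000003e0000000700000004 4 6) 0 0 (step_sound _ 66 [(rh2f68792b6b779e96.shift 2 0), (rh8503c54f650a6805.shift 0 1)] (by decide +kernel))
noncomputable def rh19bac4a17363bc82 : CRef := CRef.mk (Pat.mk 0x600000002000000070000000400000000 0x40000000600000006000000070000001e0000000a 4 5) 0 0 (step_sound _ 33 [(rh2f68792b6b779e96.shift 1 1), rha90ea95e8552d568] (by decide +kernel))
noncomputable def rh7304ffad377ccf14 : CRef := CRef.mk (Pat.mk 0xc00000006000000080000000c00000000 0x80000000c000000060000003c0000000f00000002 4 6) 0 0 (step_sound _ 66 [(rh2f68792b6b779e96.shift 2 1), rh9cc5d980c4667d10] (by decide +kernel))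
noncomputable def rh93c3d1f88c7497a3 : CRef := CRef.mk (Pat.mk 0x6000000020000000a0000000a00000008 0x10000001f0000001e0000000a0000000a00000008 4 5) 0 0 (step_sound _ 128 [(rh50fbb5868c909700.shift 0 1), rh74ac4b46849bf75f] (by decide +kernel))
noncomputable def rh18a0adf46d6cd925 : CRef := CRef.mk (Pat.mk 0xc0000000c0000001000000008 0x140000003c0000000f0000001800000008 4 6) 0 0 (step_sound _ 35 [(rh50fbb5868c909700.shift 2 0), rhd88e1e5c6d7f696b] (by decide +kernel))
noncomputable def rh53691b023cbbb373 : CRef := CRef.mk (Pat.mk 0x8000000080000000e000000100000000400000000 0x40000000c0000000c0000000f000000180000000c00000004 4 5) 0 0 (step_sound _ 67 [(rh374dff4f3719a414.shift 2 0), (rhb739f4f82bb681b4.shift 0 2)] (by decide +kernel))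
noncomputable def rh284cca1a6faf99be : CRef := CRef.mk (Pat.mk 0x40000000700000006000000000000000200000000 0xa0000001e0000000700000006000000040000000600000006 4 5) 0 0 (step_sound _ 66 [(rh4017de503635a93b.shift 0 2), (rhe437f081bfcdb831.shift 1 0)] (by decide +kernel))
noncomputable def rh3c8a9bf5f176fb0c : CRef := CRef.mk (Pat.mk 0xe0000001e0000001000000008 0x200000002000000170000001e0000001e0000001c00000008 4 5) 0 0 (step_sound _ 35 [rh0eb59f4a375dc97c, (rh50fbb5868c909700.shift 2 0)] (by decide +kernel))
noncomputable def rh1483644a837094fc : CRef := CRef.mk (Pat.mk 0xe00000016000000100000001800000000 0x200000002000000030000001e00000016000000140000001800000008 4 5) 0 0 (step_sound _ 132 [(rh932754581e0f4330.shift 3 0), (rhbdb8dfd08861fbf7.shift 0 2)] (by decide +kernel))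
noncomputable def rh8fa0f526a91fbab1 : CRef := CRef.mk (Pat.mk 0xc0000000300000006000000000000000000000000 0x20000001e0000000300000006000000060000000400000004 4 5) 0 0 (step_sound _ 161 [(rh18965a982d73c794.shift 0 4), (rh70e33bfdf511e144.shift 1 0)] (by decide +kernel))
noncomputable def rhd065604ef1c2a36c : CRef := CRef.mk (Pat.mk 0xc00000008000000180000003800000000 0x100000001f00000038000000180000003800000020 4 6) 0 0 (step_sound _ 132 [(rh2f68792b6b779e96.shift 3 1), rhb4e7dd664b9a6e31] (by decide +kernel))
noncomputable def rh117ee2272e29d9ff : CRef := CRef.mk (Pat.mk 0x7000000030000000e0000000200000000 0x80000001f0000001b0000000e0000000600000004 4 5) 0 0 (step_sound _ 131 [(rh18965a982d73c794.shift 0 3), rhb25b595c7b2c4857] (by decide +kernel))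
noncomputable def rh995e30a494057876 : CRef := CRef.mk (Pat.mk 0x200000002000000020000001e00000000 0x10000000300000002000000020000001f00000039 4 6) 0 0 (step_sound _ 32 [rh932754581e0f4330, rhbb222ef7824721df] (by decide +kernel))
noncomputable def rh2a4ffcc2731c90e6 : CRef := CRef.mk (Pat.mk 0x1c000000040000001c00000008 0x130000001e000000340000001c0000000c 4 6) 0 0 (step_sound _ 68 [(rh5c5e593799055d58.shift 3 0), rhb1e85508c6bcb2d1] (by decide +kernel))
noncomputable def rhbd12996dace43de4 : CRef := CRef.mk (Pat.mk 0x600000006000000020000000700000000 0x2000000060000000e0000001b0000001f00000018 4 5) 0 0 (step_sound _ 35 [(rh55af9e8916ea75b7.shift 0 1), rhb677d5483aaebfd8] (by decide +kernel))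
noncomputable def rhb6d752f7f81ec7bc : CRef := CRef.mk (Pat.mk 0x2000000020000000c0000001c00000008 0x80000001f0000001e0000000c0000001c00000018 4 5) 0 0 (step_sound _ 98 [(rh2145e1d24b96a57e.shift 2 0), rh32a0aba65dd83da0] (by decide +kernel))
noncomputable def rh207ea446841ad005 : CRef := CRef.mk (Pat.mk 0x300000007000000020000000200000000 0x600000006000000060000000300000007000000060000000600000004 4 3) 0 0 (step_sound _ 161 [(rh571950d89739e871.shift 0 2), (rh5fa50b509d4ce753.shift 0 2), (rhd29a1fb688eae70f.shift 1 0)] (by decide +kernel))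
noncomputable def rh55f0481848c2170a : CRef := CRef.mk (Pat.mk 0xa0000000a0000000e 0x1f0000007e0000000e 4 7) 0 0 (step_sound _ 36 [rh6ee1b6c2289781c1, (rh80f90a60d87caa0d.shift 1 0), (rh9ebd639649ea671c.shift 0 1), (rhd8be3b7ca6adb62f.shift 0 1)] (by decide +kernel))
noncomputable def rh92c20afd71c3ecfc : CRef := CRef.mk (Pat.mk 0x14000000180000000800000000 0x10000000300000001f000000180000000800000008 4 6) 0 0 (step_sound _ 132 [rh442e451f2de330f7, (rh5c5e593799055d58.shift 3 1)] (by decide +kernel))
noncomputable def rhd23c3ebe64086a16 : CRef := CRef.mk (Pat.mk 0x100000001c00000016000000040000000000000000 0x10000000140000001c0000001e0000000f0000000a00000002 4 5) 0 0 (step_sound _ 99 [(rh1e309b005ffa1b36.shift 3 1), rha1a532725e6ae333] (by decide +kernel))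
noncomputable def rh58f2cd165f0785f8 : CRef := CRef.mk (Pat.mk 0x180000000c0000001c0000000400000000 0x140000001c0000000c0000001c0000000f00000002 4 5) 0 0 (step_sound _ 35 [(rh2f68792b6b779e96.shift 3 1), rh6e64d2ad8aeb4d23] (by decide +kernel))
noncomputable def rh8d59075a6f0d745a : CRef := CRef.mk (Pat.mk 0x40000000e000000090000000800000000 0x40000001e0000000f0000001e00000002 4 5) 0 0 (step_sound _ 65 [(rh18965a982d73c794.shift 0 2), rh5b9a581a158fd1d8] (by decide +kernel))
noncomputable def rhab0af5afad99f567 : CRef := CRef.mk (Pat.mk 0x3000000070000000400000000 0x30000000300000003000000070000000600000006 4 3) 0 0 (step_sound _ 129 [rh1f9575ddd12aac7f, (rh2145e1d24b96a57e.shift 1 1)] (by decide +kernel))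
noncomputable def rh01108c09a1c83822 : CRef := CRef.mk (Pat.mk 0x1000000010000000080000000a 0x100000001000000010000000780000001f 4 7) 0 0 (step_sound _ 36 [rh0b786d94a31538a6, (rh5c5e593799055d58.shift 3 0)] (by decide +kernel))
noncomputable def rhf8709b4d49cbe4cf : CRef := CRef.mk (Pat.mk 0x10000000100000006000000040000000200000000 0x2000000030000000700000006000000060000000600000004 4 3) 0 0 (step_sound _ 129 [(rh9e07f76261b05888.shift 0 1), (rhc2c7bae8f445c890.shift 1 0)] (by decide +kernel))
noncomputable def rh6df94eeac20c6bcf : CRef := CRef.mk (Pat.mk 0x10000000100000001800000002 0x1000000010000000100000007c0000000f 4 7) 0 0 (step_sound _ 3 [(rh5c5e593799055d58.shift 3 0), rhedf3a755fe019897] (by decide +kernel))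
noncomputable def rh0e555b1998dc114e : CRef := CRef.mk (Pat.mk 0x400000006000000180000001800000010 0x4000000060000001f0000003f00000032 4 6) 0 0 (step_sound _ 65 [rh0eb8ff183492fb12, (rhcd6baf37b3e5de21.shift 0 1)] (by decide +kernel))
noncomputable def rhce8036d852a12ec0 : CRef := CRef.mk (Pat.mk 0x100000001c0000000800000000 0x1000000010000000300000001f0000001800000008 4 6) 0 0 (step_sound _ 65 [rh0b49aaa1a5c5d98d, (rh33e738c4ed385b9f.shift 1 2)] (by decide +kernel))
noncomputable def rh6d5565f77100ba6a : CRef := CRef.mk (Pat.mk 0x200000003c00000000 0x370000003e00000060 4 7) 0 0 (step_sound _ 6 [(rh7fb660bc21ce4329.shift 0 1), (rh96851dee118c1ba3.shift 2 0)] (by decide +kernel))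
noncomputable def rhf37550b7caf1eba8 : CRef := CRef.mk (Pat.mk 0x7c00000000 0x70000007e0000000e 4 7) 0 0 (step_sound _ 65 [(rh3f8766e6ecb455ce.shift 1 1), rhbe241b83c30f6a78] (by decide +kernel))
noncomputable def rhdd4e7468bfa16f06 : CRef := CRef.mk (Pat.mk 0x8000000100000001a0000001800000000 0x8000000180000001b0000001f00000014 4 5) 0 0 (step_sound _ 99 [rh114380420d2c6317, (rh7b1f1fb55310c477.shift 3 0)] (by decide +kernel))
noncomputable def rhdcd41b90328b7f7d : CRef := CRef.mk (Pat.mk 0x3c000000000000000400000004 0x30000003e000000740000000400000004 4 7) 0 0 (step_sound _ 69 [rhbabbbc3ca8d43602, (rhe25b0a99195a5d59.shift 2 2)] (by decide +kernel))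
noncomputable def rhe1212ae42aa40364 : CRef := CRef.mk (Pat.mk 0xe0000000200000003 0x3e0000003f00000003 4 6) 0 0 (step_sound _ 68 [rh64923f3d308990c9, (rheb0810cc63b001d8.shift 0 1)] (by decide +kernel))
noncomputable def rhfa2de08acc8a0a7a : CRef := CRef.mk (Pat.mk 0x600000002000000030000000100000000 0x50000000700000007000000030000000300000002 4 3) 0 0 (step_sound _ 33 [(rh2f68792b6b779e96.shift 1 1), rhcdbf1d5c00434fa8] (by decide +kernel))
noncomputable def rh4c0b5733d656b062 : CRef := CRef.mk (Pat.mk 0x80000000c000000040000001c00000000 0xc0000000c0000000c0000001e00000033 4 6) 0 0 (step_sound _ 4 [rh9432b1ae36368bb3, (rhff0f29cb645b05f7.shift 3 0)] (by decide +kernel))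
noncomputable def rh3221340876a785f6 : CRef := CRef.mk (Pat.mk 0x400000006000000030000000600000000 0x20000000600000006000000070000001e0000000c 4 5) 0 0 (step_sound _ 35 [(rh94ae12ab680f223f.shift 1 0), (rhf48373e13d2bc128.shift 0 1)] (by decide +kernel))
noncomputable def rhdc08a94c6234059a : CRef := CRef.mk (Pat.mk 0x1f0000000d00000008 0x200000006000000060000003f0000000d0000000c 4 6) 0 0 (step_sound _ 98 [rh08d60f42f0e3d236, (rh2145e1d24b96a57e.shift 2 0)] (by decide +kernel))
noncomputable def rh563f5a1d962b390c : CRef := CRef.mk (Pat.mk 0x100000001a0000000b0000000800000000 0x40000001e0000003b0000000b0000001e00000014 4 6) 0 0 (step_sound _ 131 [rh0c3873a75f5344d2, (rhc7091031673fac6a.shift 0 1)] (by decide +kernel))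
noncomputable def rh387efc145680cca8 : CRef := CRef.mk (Pat.mk 0xf000000050000000000000000 0x200000002000000030000001f000000070000000100000001 4 5) 0 0 (step_sound _ 129 [rh0182d199955ec3ce, (rh182634e5928c9dfa.shift 0 1), (rh7b030ba967bf927e.shift 0 2)] (by decide +kernel))
noncomputable def rh8474c333d5b7d478 : CRef := CRef.mk (Pat.mk 0x100000001a0000000c0000000800000000 0xc0000001e0000003b0000000c0000000c00000004 4 6) 0 0 (step_sound _ 131 [(rh03dfdf12d5937476.shift 2 0), (rhc7091031673fac6a.shift 0 1)] (by decide +kernel))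
noncomputable def rh177a65ca83ff870a : CRef := CRef.mk (Pat.mk 0x1000000012000000020000000200000000 0x400000004000000360000001e000000030000000200000002 4 6) 0 0 (step_sound _ 98 [(rh1dc3e866f7ab4752.shift 0 2), (rh215e11e099257d75.shift 1 0)] (by decide +kernel))
noncomputable def rh0017a6511cb35c30 : CRef := CRef.mk (Pat.mk 0xc0000001c0000000800000000 0xc0000000c0000000c0000001f0000003800000010 4 6) 0 0 (step_sound _ 130 [(rh2145e1d24b96a57e.shift 2 1), rh54c1a540a7f2de53] (by decide +kernel))
noncomputable def rh1ea1013d3998dc3b : CRef := CRef.mk (Pat.mk 0x20000000200000002000000020000000400000000 0x1000000030000000200000002000000030000000700000005 4 3) 0 0 (step_sound _ 160 [(rh50fbb5868c909700.shift 0 2), rh73329e8902d29e57] (by decide +kernel))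
noncomputable def rhbbe4e99426d770c1 : CRef := CRef.mk (Pat.mk 0x20000001a 0x770000003e 4 7) 0 0 (step_sound _ 2 [rh3244c3cc8379b070, (rh9cf60041f0c0abcb.shift 1 0)] (by decide +kernel))
noncomputable def rh12a35c802d242e1b : CRef := CRef.mk (Pat.mk 0x6000000070000000200000000 0x60000000600000006000000070000001e0000000c 4 5) 0 0 (step_sound _ 130 [(rh5c5e593799055d58.shift 1 1), rhbd30744d1a6502a1] (by decide +kernel))
noncomputable def rh163975820a32be9a : CRef := CRef.mk (Pat.mk 0x800000008000000300000001000000010 0x80000000f0000007c0000001800000010 4 7) 0 0 (step_sound _ 67 [(rha9fbfd4bb8cf890b.shift 0 2), (rhbe0e43a3bc50a43f.shift 3 0)] (by decide +kernel))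
noncomputable def rh25bd75cf3e017766 : CRef := CRef.mk (Pat.mk 0x100000002000000060000000200000000 0x30000000300000002000000070000000700000001 4 3) 0 0 (step_sound _ 129 [(rh50fbb5868c909700.shift 0 1), rhf7168fb62545c8f0] (by decide +kernel))
noncomputable def rhf728734ac08a111f : CRef := CRef.mk (Pat.mk 0x80000001a0000000a0000001800000000 0x80000003b0000001e0000003c00000004 4 6) 0 0 (step_sound _ 34 [(rh7b42d1443a53c59f.shift 0 1), (rh932754581e0f4330.shift 2 0)] (by decide +kernel))
noncomputable def rha71eeaa5a6d7c6ed : CRef := CRef.mk (Pat.mk 0xc0000000c000000050000000400000000 0x40000000c0000001c0000000f0000001c00000008 4 5) 0 0 (step_sound _ 35 [(rh55afc6a59410cf00.shift 2 0), (rhef0220b61c7c0424.shift 0 1)] (by decide +kernel))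
noncomputable def rh78377e379d74e2dc : CRef := CRef.mk (Pat.mk 0x1400000014000000040000000c00000000 0x1400000014000000140000001c0000000f00000002 4 5) 0 0 (step_sound _ 33 [(rh932754581e0f4330.shift 1 0), (rhef6377b024c6b5ad.shift 0 1)] (by decide +kernel))
noncomputable def rh174ef7c0f0cab5a7 : CRef := CRef.mk (Pat.mk 0x60000000a0000001a00000002 0x190000000f0000001a0000001a00000012 4 5) 0 0 (step_sound _ 96 [rh50fbb5868c909700, rh87babb47aa1ecbde] (by decide +kernel))
noncomputable def rhae40823224a79ac2 : CRef := CRef.mk (Pat.mk 0xc0000000c000000050000000c00000000 0xc0000000c0000000f0000001e00000032 4 6) 0 0 (step_sound _ 33 [(rh932754581e0f4330.shift 1 0), rhe13f543d54bec3ac] (by decide +kernel))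
noncomputable def rh2c6cdd722022e875 : CRef := CRef.mk (Pat.mk 0xe0000001200000002 0x4000000070000003e0000003200000002 4 6) 0 0 (step_sound _ 68 [rh7b3460ecbfb1f98e, (rhe25b0a99195a5d59.shift 1 1)] (by decide +kernel))
noncomputable def rh62a4a85b7a6b35f2 : CRef := CRef.mk (Pat.mk 0x40000000c000000060000000200000000 0x80000000c0000000c000000070000003e0000000c 4 6) 0 0 (step_sound _ 34 [rh36d4d92ef3dad5f8, (rha707fb719e87fe6e.shift 2 0)] (by decide +kernel))
noncomputable def rhc7ca4b2ec7cb7f61 : CRef := CRef.mk (Pat.mk 0xc0000000c0000000c0000000c00000000 0x100000001c0000000c0000003c0000000f00000002 4 6) 0 0 (step_sound _ 132 [(rh2f68792b6b779e96.shift 3 1), rha71afc656c87d410] (by decide +kernel))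
noncomputable def rhaddb4f79efc35004 : CRef := CRef.mk (Pat.mk 0x10000000180000001c000000040000000400000000 0x300000001f0000001c0000000c0000000c00000008 4 6) 0 0 (step_sound _ 35 [rh52fdf8a03c4b3282, (rh9e3edb185cc347de.shift 3 1)] (by decide +kernel))
noncomputable def rh3cb959d13ed9ca45 : CRef := CRef.mk (Pat.mk 0x6000000060000000000000004 0xa0000003e000000070000000400000004 4 6) 0 0 (step_sound _ 34 [(rh50fbb5868c909700.shift 1 0), rh861ee9d7304b9753] (by decide +kernel))
noncomputable def rh99f3dece77d6de9c : CRef := CRef.mk (Pat.mk 0x10000000180000001a0000001800000000 0x800000018000000180000001b0000001f00000004 4 5) 0 0 (step_sound _ 131 [rh114380420d2c6317, (rh50fbb5868c909700.shift 3 1)] (by decide +kernel))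
noncomputable def rh4a474381f9135b93 : CRef := CRef.mk (Pat.mk 0x80000000a0000001c00000000 0x8000000080000000b0000003e00000007 4 6) 0 0 (step_sound _ 2 [(rh5c5e593799055d58.shift 2 0), rh9335b6b2e35cefc0] (by decide +kernel))
noncomputable def rhb5ded604c1355bfc : CRef := CRef.mk (Pat.mk 0x1a00000078 0xfb0000007f 4 8) 0 0 (step_sound _ 38 [rh2ff75cf989b38397, (rh33e738c4ed385b9f.shift 3 0)] (by decide +kernel))
noncomputable def rhaf946ee235eb6b0d : CRef := CRef.mk (Pat.mk 0x18000000180000000a0000001800000000 0x800000018000000180000001b0000001f00000004 4 5) 0 0 (step_sound _ 68 [rh114380420d2c6317, (rh50fbb5868c909700.shift 3 1)] (by decide +kernel))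
noncomputable def rh7f542f109d0803ee : CRef := CRef.mk (Pat.mk 0x40000001c0000000c000000000000000000000000 0xa0000000f0000001c0000000c000000060000000600000006 4 5) 0 0 (step_sound _ 66 [(rh039efe07c35de3d4.shift 0 2), (rh46530d756bdf8511.shift 1 0)] (by decide +kernel))
noncomputable def rh691909fa83974041 : CRef := CRef.mk (Pat.mk 0x10000000180000000c0000000c 0xc0000001f000000380000000c0000000c 4 6) 0 0 (step_sound _ 99 [(rh5c5e593799055d58.shift 2 0), rhc647a25a08ddf0ec] (by decide +kernel))
noncomputable def rh32095080727db72c : CRef := CRef.mk (Pat.mk 0x8000000080000000e0000000600000002 0x40000000c0000000c0000000e0000003e00000003 4 6) 0 0 (step_sound _ 130 [rh975b751660206728, (rhee230b994cc8b773.shift 1 0)] (by decide +kernel))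
noncomputable def rh3b1401306f573ad9 : CRef := CRef.mk (Pat.mk 0xe000000140000000400000000 0x380000001f000000340000000400000004 4 6) 0 0 (step_sound _ 131 [(rh71222050f2c63a3a.shift 2 0), (rhd159b9f11adb40ba.shift 0 2)] (by decide +kernel))
noncomputable def rh035294ead7819c7c : CRef := CRef.mk (Pat.mk 0x80000000c000000160000001400000000 0x20000000b0000001e000000360000001400000010 4 6) 0 0 (step_sound _ 100 [(rh7b1f1fb55310c477.shift 3 0), (rhfe3b4040a5e9fe0b.shift 0 1)] (by decide +kernel))
noncomputable def rhdc821bba2d860430 : CRef := CRef.mk (Pat.mk 0x4000000060000000a0000000a0000000000000000 0x40000000f0000001e0000000b0000000800000008 4 5) 0 0 (step_sound _ 35 [rh6411cbf343c29ffa, (rhcfdf45280693d3da.shift 2 1)] (by decide +kernel))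
noncomputable def rhb3d343e731cd41cc : CRef := CRef.mk (Pat.mk 0x20000000600000006000000000000000000000000 0x600000006000000060000000600000006000000030000000300000003 4 3) 0 0 (step_sound _ 65 [rh46530d756bdf8511, (rh84d1c02a8954c6a8.shift 1 1), (rhc45960fcf2a66b44.shift 1 2)] (by decide +kernel))
noncomputable def rhacd011400179983b : CRef := CRef.mk (Pat.mk 0x400000006000000020000000300000000 0x200000002000000020000000600000006000000070000000300000001 4 3) 0 0 (step_sound _ 129 [(rh001df559c085f6ec.shift 0 1), rh932754581e0f4330] (by decide +kernel))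
noncomputable def rh3e78a1e3d90ce0a5 : CRef := CRef.mk (Pat.mk 0xc0000000c000000040000000600000000 0x40000000c0000000c0000003c0000000f00000008 4 6) 0 0 (step_sound _ 35 [(rh55afc6a59410cf00.shift 2 0), (rhfdec563d82cb3456.shift 0 1)] (by decide +kernel))
noncomputable def rhb7991bb3432d61c3 : CRef := CRef.mk (Pat.mk 0x80000000c000000040000000f0000000000000000 0x10000000180000000c0000001c0000000f0000001800000008 4 5) 0 0 (step_sound _ 99 [(rh33e738c4ed385b9f.shift 0 2), rh44fa22804623888a] (by decide +kernel))
noncomputable def rhc107cb47b14321d4 : CRef := CRef.mk (Pat.mk 0x1000000010000000000000001e00000000 0x1000000010000000370000003e00000020 4 6) 0 0 (step_sound _ 68 [(rh33e738c4ed385b9f.shift 1 1), rh7952ab2b25cb7119] (by decide +kernel))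
noncomputable def rh4e3d1a2c031116e3 : CRef := CRef.mk (Pat.mk 0x30000000100000001c00000002 0x300000001f0000003e00000003 4 6) 0 0 (step_sound _ 33 [(rhe2bb7d7af5356d5b.shift 0 1), rheb0810cc63b001d8] (by decide +kernel))
noncomputable def rh2f9d22af65f019dc : CRef := CRef.mk (Pat.mk 0x30000000100000001e00000000 0x300000001f0000003e00000003 4 6) 0 0 (step_sound _ 65 [(rh3244c3cc8379b070.shift 0 1), rh3bc48b4ce5df373b] (by decide +kernel))
noncomputable def rh14b81e50852bfcd0 : CRef := CRef.mk (Pat.mk 0x60000000e000000040000000000000000 0x80000003e0000000f000000040000000400000004 4 6) 0 0 (step_sound _ 34 [(rh7b1f1fb55310c477.shift 1 0), (rhb974196174068d7d.shift 0 1)] (by decide +kernel))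
noncomputable def rhf19642d16b19b3d4 : CRef := CRef.mk (Pat.mk 0x200000003000000008000000380000000800000000 0x640000003c000000080000003c0000000f00000004 4 7) 0 0 (step_sound _ 34 [(rh1ed7a3503fa50fc8.shift 0 1), (rha314a13d1d90450e.shift 2 0)] (by decide +kernel))
noncomputable def rhe29a9cf0831aabd1 : CRef := CRef.mk (Pat.mk 0x18000000080000000c00000006000000000000000000000000 0x10000000180000000c0000000c0000000f000000180000001800000008 4 5) 0 0 (step_sound _ 99 [(rh2f68792b6b779e96.shift 3 3), rh3a6c1689b3bee428] (by decide +kernel))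
noncomputable def rh8bae36c8a4ee4aa4 : CRef := CRef.mk (Pat.mk 0x38000000180000000000000008 0x6000000ff000000f80000000800000008 4 8) 0 0 (step_sound _ 102 [(rh18965a982d73c794.shift 3 2), rh233e54df0f7555f1] (by decide +kernel))
noncomputable def rhf4a0a81c7b8e5f50 : CRef := CRef.mk (Pat.mk 0x80000001c0000000c0000000400000000 0x4000000060000000f0000001c0000000e0000000600000002 4 5) 0 0 (step_sound _ 130 [(rh277b01412deaec89.shift 0 1), (rh925a1628dd8a50da.shift 1 0)] (by decide +kernel))
noncomputable def rh524efcf9b289c579 : CRef := CRef.mk (Pat.mk 0x8000000180000001e0000000c 0x60000000f0000001b0000001e0000000c 4 5) 0 0 (step_sound _ 98 [(rh50fbb5868c909700.shift 2 0), rhc1978c5ca7ecb4b1] (by decide +kernel))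
noncomputable def rhd121449e3b5bb42e : CRef := CRef.mk (Pat.mk 0x1e0000000400000004 0x200000002000000330000001e0000000600000004 4 6) 0 0 (step_sound _ 100 [(rh33e738c4ed385b9f.shift 1 2), rh768a472a1ebe455c] (by decide +kernel))
noncomputable def rh34a76292b511f2d2 : CRef := CRef.mk (Pat.mk 0x80000000d0000000e0000000200000000 0x140000001c0000000f0000000e0000000a00000008 4 5) 0 0 (step_sound _ 130 [(rh5c5e593799055d58.shift 1 1), rhc899a53d3ddb953c] (by decide +kernel))
noncomputable def rhd0a3a04832940d43 : CRef := CRef.mk (Pat.mk 0x1a0000000e0000000c 0xe0000000f0000001a0000000e0000000c 4 5) 0 0 (step_sound _ 99 [rh5bcda155178c6892, (rh5c5e593799055d58.shift 2 0)] (by decide +kernel))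
noncomputable def rh5ee4588f9f7397b6 : CRef := CRef.mk (Pat.mk 0x10000000f000000000000000400000000 0x100000001000000030000001f000000030000000600000006 4 5) 0 0 (step_sound _ 65 [rh4f3382578ad057e7, rh5d54cb79a67f97ab, (rh795d3e5d420177aa.shift 0 2)] (by decide +kernel))
noncomputable def rhb47d8170e1946f87 : CRef := CRef.mk (Pat.mk 0xf000000010000000c0000000000000000 0x40000001f000000030000001e0000000200000002 4 5) 0 0 (step_sound _ 97 [(rh18965a982d73c794.shift 0 3), rh44159304be4fc01e] (by decide +kernel))
noncomputable def rh535d54e97f01b462 : CRef := CRef.mk (Pat.mk 0x20000000380000001800000010 0x8000000780000003f0000001800000010 4 7) 0 0 (step_sound _ 99 [(rh2145e1d24b96a57e.shift 3 0), (rh41835ba1dc72c0ef.shift 0 1)] (by decide +kernel))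
noncomputable def rh3b554621f60c5f0b : CRef := CRef.mk (Pat.mk 0xc0000000c000000060000000400000000 0xc0000000c0000000f0000003c00000018 4 6) 0 0 (step_sound _ 35 [(rh55afc6a59410cf00.shift 2 0), rhfdfeb5c085d24dd8] (by decide +kernel))
noncomputable def rh1d4a94729eb7261d : CRef := CRef.mk (Pat.mk 0x1c000000180000001c 0xe0000000fc0000001f0000001f 4 8) 0 0 (step_sound _ 69 [(rh226655e3fe6b4a8a.shift 2 1), (rh2612b4f73ba7c3b3.shift 2 1), rh87fb4af8316b9600] (by decide +kernel))
noncomputable def rh3b4041903bd7aedd : CRef := CRef.mk (Pat.mk 0xc000000180000001c00000004 0x20000000f0000001b0000001f00000004 4 5) 0 0 (step_sound _ 97 [rh15046019fc1d2e12, (rhb739f4f82bb681b4.shift 0 2)] (by decide +kernel))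
noncomputable def rh0c0f4a4d1dd75875 : CRef := CRef.mk (Pat.mk 0x8000000380000000a0000000200000000 0x140000001f0000003a0000000a0000000a00000008 4 6) 0 0 (step_sound _ 130 [(rh668fc65514a55b16.shift 2 0), (rhc02b3aee7ab87ee1.shift 0 3), (rhe25f030b4156ee60.shift 0 1)] (by decide +kernel))
noncomputable def rh639d03bb7ecce991 : CRef := CRef.mk (Pat.mk 0x800000008000000180000001800000000 0x40000000c00000008000000380000001f00000004 4 6) 0 0 (step_sound _ 130 [(rh50fbb5868c909700.shift 2 1), rh6fae963f33cfdfd7] (by decide +kernel))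
noncomputable def rh59429fd67844c6ea : CRef := CRef.mk (Pat.mk 0x600000002000000070000000400000000 0x40000000600000006000000070000001e0000000a 4 5) 0 0 (step_sound _ 33 [(rh2f68792b6b779e96.shift 1 1), rhaba5910545a4922e] (by decide +kernel))
noncomputable def rh44a13ac0854a3ce5 : CRef := CRef.mk (Pat.mk 0x600000002000000070000000600000000 0x10000000700000006000000070000001e0000000a 4 5) 0 0 (step_sound _ 128 [(rh50fbb5868c909700.shift 0 1), rha90ea95e8552d568] (by decide +kernel))
noncomputable def rhf3de3d9cca1fbee0 : CRef := CRef.mk (Pat.mk 0x60000000200000003000000000000000000000000 0x4000000070000000700000003000000020000000200000002 4 3) 0 0 (step_sound _ 65 [(rh2f68792b6b779e96.shift 1 2), rh754b8d2daded6d3e] (by decide +kernel))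
noncomputable def rh0d7a0747005d3ac1 : CRef := CRef.mk (Pat.mk 0x100000005000000050000000600000000 0x50000000500000005000000070000001e00000008 4 5) 0 0 (step_sound _ 65 [(rh2145e1d24b96a57e.shift 0 1), rh8af73b7df2d2ba44] (by decide +kernel))
noncomputable def rh70d33a5977aff97b : CRef := CRef.mk (Pat.mk 0x3e000000140000000000000000 0x4000000060000003f0000001c0000000800000008 4 6) 0 0 (step_sound _ 67 [(rh38a0850c9fea941e.shift 1 0), (rhb739f4f82bb681b4.shift 0 2)] (by decide +kernel))
noncomputable def rhf18259a9ab3fb4cc : CRef := CRef.mk (Pat.mk 0x80000001e0000000a0000000800000000 0xa0000000b0000001e0000000e0000000c00000004 4 5) 0 0 (step_sound _ 34 [(rh932754581e0f4330.shift 2 0), (rhbc1c8f78a6237e0f.shift 0 1)] (by decide +kernel))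
noncomputable def rh8e985bc9a6b410ef : CRef := CRef.mk (Pat.mk 0x4000000080000001e00000000 0x4000000040000000e0000007e00000003 4 7) 0 0 (step_sound _ 1 [(rh81c53dc54a0b9b8d.shift 1 0), rheb0810cc63b001d8] (by decide +kernel))
noncomputable def rh4fe2ede50e8ebe2c : CRef := CRef.mk (Pat.mk 0x20000000600000004000000060000000000000000 0x60000000600000006000000070000000300000003 4 3) 0 0 (step_sound _ 33 [(rh5c5e593799055d58.shift 1 1), rhfff8c50a7e82f208] (by decide +kernel))
noncomputable def rhe4b1ebfeeae13b7b : CRef := CRef.mk (Pat.mk 0x40000001c0000000c0000000400000000 0x2000000070000001e0000000f0000000400000004 4 5) 0 0 (step_sound _ 65 [rh29245de5933fbe8d, (rh53b3c253cb0c65f4.shift 0 2)] (by decide +kernel))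
noncomputable def rh4f34f705b8000a6f : CRef := CRef.mk (Pat.mk 0x140000001c000000080000000c00000000 0x30000001f0000001c0000000c0000000c00000004 4 5) 0 0 (step_sound _ 131 [(rh8f4c920c37cd7688.shift 0 1), (rh932754581e0f4330.shift 2 0)] (by decide +kernel))
noncomputable def rh3d10a1b3f8d00518 : CRef := CRef.mk (Pat.mk 0x80000001c0000000c00000004 0x20000003b0000001f0000000f00000004 4 6) 0 0 (step_sound _ 33 [(rh53b3c253cb0c65f4.shift 0 1), rhc39ffe1a68d3ccd8] (by decide +kernel))
noncomputable def rhc43ae95d0791ef79 : CRef := CRef.mk (Pat.mk 0x10000000f0000000d0000000000000000 0x5000000050000000f0000000f0000001a0000000a 4 5) 0 0 (step_sound _ 65 [rh55a1f6c57a317ce6, rhea719cc8bd0bdd28] (by decide +kernel))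
noncomputable def rh9107cf880dfe23f1 : CRef := CRef.mk (Pat.mk 0x100000001a0000000e00000004 0xa0000001f0000001b0000000e00000004 4 5) 0 0 (step_sound _ 97 [(rh2145e1d24b96a57e.shift 1 0), rh6531d33afb52924a] (by decide +kernel))
noncomputable def rhdca8a5673be45de9 : CRef := CRef.mk (Pat.mk 0x180000001a0000000800000000 0x4000000040000000c0000001f0000001b0000000800000008 4 5) 0 0 (step_sound _ 98 [(rh710860539a4c4362.shift 0 2), (rhb1a251d9bff81766.shift 2 0)] (by decide +kernel))
noncomputable def rh5edf8196ffe5ecbc : CRef := CRef.mk (Pat.mk 0x1000000010000000080000001c00000000 0x10000000100000003e0000007f00000020 4 7) 0 0 (step_sound _ 68 [(rh58f49594b41e4958.shift 1 0), (rhab2ad169e49f9c5e.shift 0 1)] (by decide +kernel))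
noncomputable def rhd54b25399f6c2fd8 : CRef := CRef.mk (Pat.mk 0xc0000000e000000030000000400000000 0xc0000000e0000000b0000001e0000000e 4 5) 0 0 (step_sound _ 33 [(rh71222050f2c63a3a.shift 1 0), rhdb0438a52ac87275] (by decide +kernel))
noncomputable def rhf2a1605b0bbd76de : CRef := CRef.mk (Pat.mk 0x20000000300000003000000020000000000000000 0x20000000300000003000000070000000700000006 4 3) 0 0 (step_sound _ 64 [(rh71222050f2c63a3a.shift 0 1), rh820d4e04d5dcd02e] (by decide +kernel))
noncomputable def rh386c6a5833090f0f : CRef := CRef.mk (Pat.mk 0x6000000060000001a0000000000000000 0x200000006000000060000001e0000000700000006 4 5) 0 0 (step_sound _ 33 [rh1a8dbc25a5363993, (rh71222050f2c63a3a.shift 1 0)] (by decide +kernel))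
noncomputable def rh287ebb0758bae1d2 : CRef := CRef.mk (Pat.mk 0x1000000012000000160000001a0000000000000000 0x80000001c00000016000000160000001e0000000300000003 4 5) 0 0 (step_sound _ 195 [rhf7ede8521b5e3068, (rhffd04209dc8ea796.shift 3 2)] (by decide +kernel))
noncomputable def rh52ff7e9a89b30e93 : CRef := CRef.mk (Pat.mk 0x2000000030000000b0000000200000000 0x2000000030000001b0000001f00000005 4 5) 0 0 (step_sound _ 32 [rh509847d0837ffcc5, rh71222050f2c63a3a] (by decide +kernel))
noncomputable def rh00b80ab7bd129302 : CRef := CRef.mk (Pat.mk 0x200000002000000060000000200000000 0x4000000060000000600000002000000060000000700000001 4 3) 0 0 (step_sound _ 32 [(rh22cde4a1aed087ae.shift 1 1), rh932754581e0f4330] (by decide +kernel))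
noncomputable def rh149cef5e083db7fb : CRef := CRef.mk (Pat.mk 0x20000001a0000000600000002 0x600000006000000070000001e0000000600000002 4 5) 0 0 (step_sound _ 66 [(rh3244c3cc8379b070.shift 0 2), (rhc45960fcf2a66b44.shift 1 0)] (by decide +kernel))
noncomputable def rha671c68f1a8fa667 : CRef := CRef.mk (Pat.mk 0x20000000e0000000200000000 0x400000004000000070000003e0000000200000002 4 6) 0 0 (step_sound _ 68 [(rh3244c3cc8379b070.shift 0 2), (rhc333e2570e2bbdf1.shift 1 0)] (by decide +kernel))
noncomputable def rh78e882cbbc8e57d1 : CRef := CRef.mk (Pat.mk 0x180000000e00000002 0x1c000000fe00000007 4 8) 0 0 (step_sound _ 36 [(rhd5fd3c11469d29be.shift 1 0), rheb0810cc63b001d8] (by decide +kernel))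
noncomputable def rhbee26e5080a9f072 : CRef := CRef.mk (Pat.mk 0x20000000e00000002 0x30000003e00000076 4 7) 0 0 (step_sound _ 36 [(rh3244c3cc8379b070.shift 0 1), (rhf3baec4a0a3dd35e.shift 1 0)] (by decide +kernel))
noncomputable def rh83b36c58d0b545c9 : CRef := CRef.mk (Pat.mk 0x4000000180000000e0000000200000000 0x4000000040000001f0000003e0000000200000002 4 6) 0 0 (step_sound _ 98 [(rh5c5e593799055d58.shift 1 1), rhded483a8fd5d9267] (by decide +kernel))
noncomputable def rh231a8b3ac59a595a : CRef := CRef.mk (Pat.mk 0x40000001a000000060000000200000000 0x2000000070000001e000000060000000600000006 4 5) 0 0 (step_sound _ 98 [rh38a0850c9fea941e, (rh71222050f2c63a3a.shift 1 0)] (by decide +kernel))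
noncomputable def rh9edfad969ef34b1f : CRef := CRef.mk (Pat.mk 0x4000000020000000e0000000200000000 0x500000007000000030000001e0000000200000002 4 5) 0 0 (step_sound _ 96 [rhb9a37cdd8d67e82d, (rhf48373e13d2bc128.shift 0 2)] (by decide +kernel))
noncomputable def rh22fed74339665de5 : CRef := CRef.mk (Pat.mk 0x80000000e00000002000000020000000100000000 0x80000000e00000006000000060000000700000007 4 4) 0 0 (step_sound _ 33 [(rh31523aaa9440ad73.shift 1 0), rh932754581e0f4330] (by decide +kernel))
noncomputable def rh008016032b58ffa9 : CRef := CRef.mk (Pat.mk 0x80000000e00000002000000020000000100000000 0xa0000000e00000006000000060000000700000005 4 4) 0 0 (step_sound _ 33 [(rh7c2892a6d7112911.shift 1 0), rh932754581e0f4330] (by decide +kernel))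
noncomputable def rh62de6fbe1f317b59 : CRef := CRef.mk (Pat.mk 0x80000000e00000002 0xe0000007e00000007 4 7) 0 0 (step_sound _ 36 [(rh19f08b48cf271d79.shift 1 0), rheb0810cc63b001d8] (by decide +kernel))
noncomputable def rhc52e19aaccac871b : CRef := CRef.mk (Pat.mk 0x80000000e0000001a00000008 0xc0000000c0000000c0000001e0000001b00000008 4 5) 0 0 (step_sound _ 130 [(rha114be24ebb8ca2d.shift 0 1), (rhffd04209dc8ea796.shift 2 0)] (by decide +kernel))
noncomputable def rhe3eb073ac1aea888 : CRef := CRef.mk (Pat.mk 0x4000000020000001a0000000a 0x4000000040000000e0000000f0000001a0000000a 4 5) 0 0 (step_sound _ 130 [(rh1006c02ae4212ff0.shift 1 0), rh54d9c3881249402e] (by decide +kernel))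
noncomputable def rh11b43ff7770a4f1a : CRef := CRef.mk (Pat.mk 0x400000002000000020000000200000000 0x50000000700000007000000020000000200000002 4 3) 0 0 (step_sound _ 129 [(rh2f68792b6b779e96.shift 1 1), rhffd0ff6f60fa3c9a] (by decide +kernel))
noncomputable def rh71c958324ccaa29a : CRef := CRef.mk (Pat.mk 0x60000000f00000001 0x200000002000000060000003f00000039 4 6) 0 0 (step_sound _ 97 [rh0cb6a409506b34ea, rh5c5e593799055d58] (by decide +kernel))
noncomputable def rhbcb5fa244bf81ec7 : CRef := CRef.mk (Pat.mk 0x2000000030000000600000000 0x4000000060000000600000002000000030000000700000004 4 3) 0 0 (step_sound _ 129 [(rh55afc6a59410cf00.shift 1 0), (rh769be3fe24eee174.shift 0 1)] (by decide +kernel))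
noncomputable def rhe3b2dcd2be7fe34d : CRef := CRef.mk (Pat.mk 0x800000012000000060000000200000000 0x70000000f0000001a000000060000000600000004 4 5) 0 0 (step_sound _ 129 [(rh9da7ea51113f4f62.shift 0 1), (rhd4b4beefcd67f51e.shift 1 0)] (by decide +kernel))
noncomputable def rhba4add7f0d90013a : CRef := CRef.mk (Pat.mk 0x8000000120000001e0000001a00000000 0xe0000000f0000001a0000001e0000001e00000004 4 5) 0 0 (step_sound _ 99 [(rh2145e1d24b96a57e.shift 3 1), rh63cf34475ac5043f] (by decide +kernel))
noncomputable def rh2d1b4e071b841b5a : CRef := CRef.mk (Pat.mk 0x1e000000000000001000000038 0x30000001e00000004000000760000003e 4 7) 0 0 (step_sound _ 129 [(rh3244c3cc8379b070.shift 0 3), (rhe97efe51a389792b.shift 1 0)] (by decide +kernel))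
noncomputable def rh91424b9aa6f4515a : CRef := CRef.mk (Pat.mk 0x400000007000000040000000000000002 0x80000003c0000000f000000040000000600000002 4 6) 0 0 (step_sound _ 34 [(rh684e729394fba19d.shift 0 1), (rh79877ebd3ef475dd.shift 1 0)] (by decide +kernel))
noncomputable def rhdf97dd955cd90ddd : CRef := CRef.mk (Pat.mk 0x4000000070000000c00000008000000020000000000000000 0x80000003c0000000f0000000e0000000c000000060000000600000004 4 6) 0 0 (step_sound _ 98 [(rh684e729394fba19d.shift 0 3), (rh8889cf29d64d79dd.shift 1 0)] (by decide +kernel))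
noncomputable def rh7ddfe45eab7e47c4 : CRef := CRef.mk (Pat.mk 0x10000000f0000000d000000000000000000000000 0x100000001000000050000000f0000000f0000001a0000000800000008 4 5) 0 0 (step_sound _ 67 [(rh3cb04db3dd2b6a55.shift 2 0), (rhca66a6c9bd00a506.shift 0 2)] (by decide +kernel))
noncomputable def rh7f2c6c353f01f191 : CRef := CRef.mk (Pat.mk 0x200000002000000120000001200000000 0x200000002000000320000001f00000007 4 6) 0 0 (step_sound _ 34 [(rh55afc6a59410cf00.shift 1 0), rh6b915f727c374b5f] (by decide +kernel))
noncomputable def rhe19b3f906e68bc29 : CRef := CRef.mk (Pat.mk 0xe0000001a0000001000000000 0x300000001e0000001f0000003000000020 4 6) 0 0 (step_sound _ 100 [(rh3e0d73136cf00326.shift 1 0), (rheb0810cc63b001d8.shift 0 2)] (by decide +kernel))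
noncomputable def rh8c07789cb75a795d : CRef := CRef.mk (Pat.mk 0x80000000e0000000c000000100000000200000000 0x10000000780000001e0000000c000000180000000f0000000c 4 7) 0 0 (step_sound _ 67 [(rh684e729394fba19d.shift 1 2), rhd6a58b3dfd819371] (by decide +kernel))
noncomputable def rhd86adac144f0200d : CRef := CRef.mk (Pat.mk 0xe0000001a0000000000000000 0x10000000300000001e0000001b0000000800000008 4 6) 0 0 (step_sound _ 100 [(rh34b1188e635efc8d.shift 1 0), (rheb0810cc63b001d8.shift 0 2)] (by decide +kernel))
noncomputable def rh873f3a3b743b6049 : CRef := CRef.mk (Pat.mk 0x20000001e000000020000000600000000 0x20000001e0000003e0000000f00000001 4 6) 0 0 (step_sound _ 32 [(rh0bd26cc0e9475bbe.shift 0 1), rh932754581e0f4330] (by decide +kernel))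
noncomputable def rh869de1ad3de8b8fb : CRef := CRef.mk (Pat.mk 0x400000004000000160000001000000000 0x4000000070000001e0000003300000002 4 6) 0 0 (step_sound _ 67 [rhae036cc4ef671676, (rhe25b0a99195a5d59.shift 1 1)] (by decide +kernel))
noncomputable def rh70ce7f6fbeb3f2a7 : CRef := CRef.mk (Pat.mk 0x70000000e000000180000000800000000 0x1000000070000000e0000007a0000001f00000002 4 7) 0 0 (step_sound _ 69 [rh53156af456fd2d9c, (rhf48373e13d2bc128.shift 2 2)] (by decide +kernel))
noncomputable def rh33025e9f4f2ea3d9 : CRef := CRef.mk (Pat.mk 0x700000006000000180000000800000000 0x100000007000000060000001e0000000f00000007 4 5) 0 0 (step_sound _ 33 [rh8c998fb5a707e3c7, rhbe60949d458105f1, rhc93583770a36d0f1] (by decide +kernel))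
noncomputable def rhabb5f9e1a50ef2dd : CRef := CRef.mk (Pat.mk 0xe00000018000000080000000400000000 0xa0000000e0000001c0000000f0000000400000004 4 5) 0 0 (step_sound _ 66 [(rh5c5e593799055d58.shift 2 1), rh9e48b83af722b996] (by decide +kernel))
noncomputable def rhcc559e593dfe1598 : CRef := CRef.mk (Pat.mk 0x400000000000000140000003c00000000 0x4000000040000001c0000007f00000003 4 7) 0 0 (step_sound _ 67 [rhb0453f21e70803bf, (rhf48373e13d2bc128.shift 2 1)] (by decide +kernel))
noncomputable def rh36945961245c70fd : CRef := CRef.mk (Pat.mk 0x8000000080000000800000018 0x800000008000000080000001f0000003c 4 6) 0 0 (step_sound _ 34 [(rh85a605aac6183f28.shift 2 0), rhb0121edee88fe839, rhc3e6a65d34c1364f, rhdfd956e60f584dd5] (by decide +kernel))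
noncomputable def rhe089a8a599a512e6 : CRef := CRef.mk (Pat.mk 0x200000002000000020000001a000000000000000000000000 0x200000002000000020000001e000000070000000700000005 4 5) 0 0 (step_sound _ 65 [(rh05e5e50bc8fe713b.shift 0 2), rh3181373a30ceb9e3, (rh5710f30ba40ee3ec.shift 0 1), (rhd29a1fb688eae70f.shift 1 1)] (by decide +kernel))
noncomputable def rh16dcf073062cfc06 : CRef := CRef.mk (Pat.mk 0x1000000010000000100000001a00000000 0x1000000010000000300000003e00000027 4 6) 0 0 (step_sound _ 37 [(rh55afc6a59410cf00.shift 4 0), rh8d28159b7968c977] (by decide +kernel))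
noncomputable def rhbfb73dde80311250 : CRef := CRef.mk (Pat.mk 0x30000000100000001a 0x300000003f0000001f 4 6) 0 0 (step_sound _ 2 [(rh33e738c4ed385b9f.shift 1 0), rh970a6f8681b4e899] (by decide +kernel))
noncomputable def rh7e327c59e94de264 : CRef := CRef.mk (Pat.mk 0x1c000000100000001800000018 0x260000003c000000340000001f00000018 4 6) 0 0 (step_sound _ 34 [(rh18e9457982ca2798.shift 1 0), rh34517e326ddb5b25] (by decide +kernel))
noncomputable def rh50ad5e520c5fe08d : CRef := CRef.mk (Pat.mk 0xc000000080000000c000000040000000000000000 0x100000001c0000001c0000000f0000003c0000001800000010 4 6) 0 0 (step_sound _ 67 [(rha613ffd40b6c9d24.shift 2 0), (rhd22616887d452319.shift 2 1), (rhfe557af9112f51d6.shift 0 1)] (by decide +kernel))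
noncomputable def rh8ccbe8601f28db58 : CRef := CRef.mk (Pat.mk 0x18000000000000000c0000000e00000000 0x1000000018000000080000000f0000003e00000010 4 6) 0 0 (step_sound _ 99 [(rh2f68792b6b779e96.shift 3 1), rh58f49594b41e4958] (by decide +kernel))
noncomputable def rhb0f1f25c3b70118a : CRef := CRef.mk (Pat.mk 0x100000001c000000140000000000000000 0x10000000100000003c0000001f0000000800000008 4 6) 0 0 (step_sound _ 65 [(rh18965a982d73c794.shift 1 2), rh7b0b47d000e89176] (by decide +kernel))
noncomputable def rh943f3a1b92557ea6 : CRef := CRef.mk (Pat.mk 0x80000000c0000000800000000 0x100000001000000018000000780000001f0000000800000008 4 7) 0 0 (step_sound _ 100 [(rh215e11e099257d75.shift 3 0), (rh69012675dfdb1a5b.shift 0 2), (rhb730ba14aa32bdb3.shift 3 0)] (by decide +kernel))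
noncomputable def rhcd9b0b6280b77689 : CRef := CRef.mk (Pat.mk 0x40000001e000000080000000000000000 0x400000004000000040000001e0000000f0000000200000002 4 5) 0 0 (step_sound _ 65 [(rh0182d199955ec3ce.shift 1 0), (rheb0810cc63b001d8.shift 0 2)] (by decide +kernel))
noncomputable def rhbfc15633efab53f2 : CRef := CRef.mk (Pat.mk 0x4000000070000000100000000000000020000000000000000 0x5000000070000000300000003000000030000000200000002 4 3) 0 0 (step_sound _ 97 [(rh04253f50b6dd0619.shift 1 2), rhe482ee30a2733b5f] (by decide +kernel))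
noncomputable def rhf8eeff4b70ea7438 : CRef := CRef.mk (Pat.mk 0x80000001e000000020000000000000004 0x3b0000001e000000060000000600000004 4 6) 0 0 (step_sound _ 132 [(rh33e738c4ed385b9f.shift 1 3), rh68505609e13da257] (by decide +kernel))
noncomputable def rh618619869b160a36 : CRef := CRef.mk (Pat.mk 0x60000000200000002000000000000000100000000 0x4000000060000000200000002000000060000000700000005 4 3) 0 0 (step_sound _ 65 [(rh2f68792b6b779e96.shift 1 2), rhbd097c4034f102b6] (by decide +kernel))
noncomputable def rhc484816b49ecee2c : CRef := CRef.mk (Pat.mk 0x60000000300000002000000020000000000000000 0x2000000060000000700000003000000030000000300000002 4 3) 0 0 (step_sound _ 64 [(rh932754581e0f4330.shift 0 1), rhc7a5435993e5e057] (by decide +kernel))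
noncomputable def rh77e1b4c8b08ff7fa : CRef := CRef.mk (Pat.mk 0x400000002000000030000000200000000 0x60000000600000006000000030000000300000003 4 3) 0 0 (step_sound _ 1 [rh1a44f6991f283c8d, (rhbaefcd01e0a8bca3.shift 1 0)] (by decide +kernel))
noncomputable def rh07cec374efd0d77c : CRef := CRef.mk (Pat.mk 0x1000000014000000140000000e00000000 0x1400000014000000140000003e00000033 4 6) 0 0 (step_sound _ 1 [(rh5c5e593799055d58.shift 1 0), rhc9378d0ce28a8c13] (by decide +kernel))
noncomputable def rh48de4a766d42ddcd : CRef := CRef.mk (Pat.mk 0x3000000030000000600000000 0x30000000300000003000000030000000700000005 4 3) 0 0 (step_sound _ 129 [(rh55afc6a59410cf00.shift 1 0), rh8fe3e3b08a7b7854] (by decide +kernel))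
noncomputable def rhf78af88bddc76f96 : CRef := CRef.mk (Pat.mk 0x3c00000004000000080000001c00000000 0x3c000000640000003c0000001f00000003 4 7) 0 0 (step_sound _ 101 [rh2e488f599d10d45a, (rhe25b0a99195a5d59.shift 2 3)] (by decide +kernel))
noncomputable def rhd26de72c9c0fab4b : CRef := CRef.mk (Pat.mk 0x100000003000000020000000300000000 0x4000000060000000700000003000000030000000300000001 4 3) 0 0 (step_sound _ 129 [(rh67fee7123398b213.shift 0 1), rh932754581e0f4330] (by decide +kernel))
noncomputable def rh0f8eb040348f8bfd : CRef := CRef.mk (Pat.mk 0x80000000c000000380000007000000000 0x200000007c0000002f000000380000007000000040 4 7) 0 0 (step_sound _ 97 [(rh1bf8787eae2e7ba5.shift 1 0), (rhb739f4f82bb681b4.shift 0 2)] (by decide +kernel))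
noncomputable def rhec53427b00862255 : CRef := CRef.mk (Pat.mk 0x2000000030000000c0000001c00000000 0x1c0000001e0000000f0000000c0000001c00000010 4 5) 0 0 (step_sound _ 131 [(rh5105f69098a4a2c2.shift 2 0), (rh7eccc2cbeb7dc242.shift 0 1), rhb93349b0bf2ce0d6] (by decide +kernel))
noncomputable def rh51ed00482da02b40 : CRef := CRef.mk (Pat.mk 0x70000000700000004 0x8000000180000001f0000001f00000004 4 5) 0 0 (step_sound _ 35 [rh7d52b8659bef9775, (rhf48373e13d2bc128.shift 0 1)] (by decide +kernel))
noncomputable def rha3da355e64266cdb : CRef := CRef.mk (Pat.mk 0x400000006000000030000000a00000000 0x400000004000000060000001e0000000b0000000a00000008 4 5) 0 0 (step_sound _ 99 [(rh18965a982d73c794.shift 0 2), (rhb941b29de30f9480.shift 1 0)] (by decide +kernel))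
noncomputable def rh09de94108b46f724 : CRef := CRef.mk (Pat.mk 0xc0000000c0000000c0000001c 0x20000000f0000003c0000000f0000001c 4 6) 0 0 (step_sound _ 33 [rhb739f4f82bb681b4, rhcf85c92937975d4d] (by decide +kernel))
noncomputable def rh4409cc81c404c729 : CRef := CRef.mk (Pat.mk 0x1e00000000000000000000001800000000 0x100000001f00000038000000080000001800000010 4 6) 0 0 (step_sound _ 100 [rh6d7ff615e02d7fe7, (rhe25b0a99195a5d59.shift 1 3)] (by decide +kernel))
noncomputable def rh960ba56f083628ab : CRef := CRef.mk (Pat.mk 0xc0000001c000000000000001000000000 0x3c0000001f000000300000001000000010 4 6) 0 0 (step_sound _ 68 [(rh7b1f1fb55310c477.shift 3 0), (rh94cd0b26ab2bc2ec.shift 0 2)] (by decide +kernel))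
noncomputable def rh960db334ff74075d : CRef := CRef.mk (Pat.mk 0x60000001c000000380000000800000000 0x80000000a0000000e0000001c0000003c0000001f00000004 4 6) 0 0 (step_sound _ 34 [(rh1c6a6d78f1dd7a5d.shift 2 0), (rheea1a90336e79c71.shift 0 1), (rhf5197c0bcdf6bb42.shift 1 1)] (by decide +kernel))
noncomputable def rh703201954ad41fca : CRef := CRef.mk (Pat.mk 0x700000002000000050000000700000000 0x180000001f0000001b0000000d0000000700000002 4 5) 0 0 (step_sound _ 131 [rh376cb9575c5202b8, rh6b737a76c1e003cc, (rh9c9de8a82d5e4ca8.shift 0 1)] (by decide +kernel))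
noncomputable def rh25e9f702f1c420f8 : CRef := CRef.mk (Pat.mk 0xe0000001000000008 0x10000000300000001f0000003800000008 4 6) 0 0 (step_sound _ 68 [rh27a7583438cc1cbd, (rhe25b0a99195a5d59.shift 1 1)] (by decide +kernel))
noncomputable def rh2073fde18add1a7d : CRef := CRef.mk (Pat.mk 0x10000001900000005000000000000000000000000 0x1000000010000001b0000000f000000020000000200000002 4 5) 0 0 (step_sound _ 97 [rh046c5eb18e55a239, (rh3fc040e777f1679e.shift 0 3)] (by decide +kernel))
noncomputable def rh9c5accf51f70f9a4 : CRef := CRef.mk (Pat.mk 0x400000004000000000000000e00000000 0x400000004000000040000001f0000003c 4 6) 0 0 (step_sound _ 3 [rh9909eeda0ef2ed2c, (rhff0f29cb645b05f7.shift 2 0)] (by decide +kernel))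
noncomputable def rhe66b4db3ec42d947 : CRef := CRef.mk (Pat.mk 0x40000000e000000000000000800000000 0x40000001f0000003c0000000800000008 4 6) 0 0 (step_sound _ 67 [(rh7b1f1fb55310c477.shift 2 0), (rh9909eeda0ef2ed2c.shift 0 2)] (by decide +kernel))
noncomputable def rh8fe4cd561418694a : CRef := CRef.mk (Pat.mk 0x40000001c000000020000000000000000 0x400000004000000060000001e000000030000000200000002 4 5) 0 0 (step_sound _ 97 [(rh4821dcf828b9d7bf.shift 1 0), (rheb0810cc63b001d8.shift 0 2)] (by decide +kernel))
noncomputable def rh42d6387194f6eaa8 : CRef := CRef.mk (Pat.mk 0x80000003800000004000000000000000000000000 0x800000008000000380000001f0000000c0000000400000004 4 6) 0 0 (step_sound _ 99 [(rh281c6819542c66e6.shift 2 0), (rheea1a90336e79c71.shift 0 3)] (by decide +kernel))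
noncomputable def rhc1b1c3bf8ba0229e : CRef := CRef.mk (Pat.mk 0x40000001c000000020000000000000000 0x400000004000000040000001e000000070000000200000002 4 5) 0 0 (step_sound _ 97 [(rhadf429772c25fde0.shift 1 0), (rheb0810cc63b001d8.shift 0 2)] (by decide +kernel))
noncomputable def rhcbc359ce2aa6b893 : CRef := CRef.mk (Pat.mk 0x60000001e00000002 0x600000007000000070000003e0000001e00000002 4 6) 0 0 (step_sound _ 97 [rhae8938145796a1d1, (rhc45960fcf2a66b44.shift 1 0)] (by decide +kernel))
noncomputable def rh85cb3b12700f992f : CRef := CRef.mk (Pat.mk 0xe000000040000000800000008 0x100000003f0000003f0000000800000008 4 6) 0 0 (step_sound _ 67 [(rh6292bd8784ece55f.shift 0 2), rhc0ddb33d3a52722b] (by decide +kernel))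
noncomputable def rh0525660a5c5640b6 : CRef := CRef.mk (Pat.mk 0x100000001000000010000000100000001000000010000000000000000 0x100000001000000030000000300000003000000030000000300000002 4 2) 0 0 (step_sound _ 129 [rh301a6b3a9154ed36, (rh55afc6a59410cf00.shift 0 3)] (by decide +kernel))
noncomputable def rh64231a5a46e3b71f : CRef := CRef.mk (Pat.mk 0x1e0000001c000000000000000800000008 0x70000007e0000001c000000100000001800000008 4 7) 0 0 (step_sound _ 68 [(rh771383521b68d2cd.shift 0 3), (rheea67dfebd0f8008.shift 3 0)] (by decide +kernel))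
noncomputable def rhc4c3cece7e1eac9b : CRef := CRef.mk (Pat.mk 0xf0000000e000000000000000400000004 0xc0000000c0000001c0000000f0000000e000000080000000c00000004 4 5) 0 0 (step_sound _ 163 [(rh33e738c4ed385b9f.shift 0 4), (rh78ad236807632ac6.shift 1 0)] (by decide +kernel))
noncomputable def rhad013cf28f563c1f : CRef := CRef.mk (Pat.mk 0x1800000008000000180000001800000000 0x1800000018000000380000001f0000000c 4 6) 0 0 (step_sound _ 100 [rh6fae963f33cfdfd7, (rh71222050f2c63a3a.shift 3 0)] (by decide +kernel))
noncomputable def rh7a67e75e55be92d9 : CRef := CRef.mk (Pat.mk 0x180000000c000000080000003c00000000 0x20000000780000001c000000380000003f00000020 4 7) 0 0 (step_sound _ 133 [rh17b3b846c1da9bf1, (rh18965a982d73c794.shift 2 3)] (by decide +kernel))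
noncomputable def rh8f19012d70ebaf98 : CRef := CRef.mk (Pat.mk 0x20000000f00000000 0x7e0000003f00000070 4 7) 0 0 (step_sound _ 36 [(rh2aac33c566332a8c.shift 1 0), (rh790acd67f4fffd04.shift 1 1), (rh9890f9d77740bbed.shift 0 1)] (by decide +kernel))
noncomputable def rhafa2418859fd5362 : CRef := CRef.mk (Pat.mk 0x600000002000000030000000600000000 0x20000000600000006000000070000001e0000000a 4 5) 0 0 (step_sound _ 66 [(rh2145e1d24b96a57e.shift 1 1), rha90ea95e8552d568] (by decide +kernel))
noncomputable def rhb1856ba0556956be : CRef := CRef.mk (Pat.mk 0x700000004000000070000000200000000 0x80000000f0000001c000000070000001e0000000c 4 5) 0 0 (step_sound _ 34 [rh42afa1af9fffa0e1, rhfe21fdd79c5e4aa7] (by decide +kernel))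
noncomputable def rhfae71fa5823ab7ff : CRef := CRef.mk (Pat.mk 0x1e000000000000000800000008 0x300000001e000000330000001800000008 4 6) 0 0 (step_sound _ 64 [(rh1fbc9fee05401eba.shift 1 0), (rh80fcd6d0a18cb2dd.shift 0 2)] (by decide +kernel))
noncomputable def rh144c1d456a7e800e : CRef := CRef.mk (Pat.mk 0x200000002000000000000000600000000 0x1000000030000000300000002000000060000000600000004 4 3) 0 0 (step_sound _ 65 [(rh55afc6a59410cf00.shift 1 0), (rh5bd4bc0c2c48140c.shift 0 1)] (by decide +kernel))
noncomputable def rh3323730619c89fd4 : CRef := CRef.mk (Pat.mk 0x1e000000100000000000000010 0x2f0000003e000000100000001000000010 4 6) 0 0 (step_sound _ 36 [rh17659c9d2e0466f4, (rh50fbb5868c909700.shift 3 0)] (by decide +kernel))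
noncomputable def rhf25f4ca1d080bf10 : CRef := CRef.mk (Pat.mk 0x20000000b0000000e00000004 0x80000001f0000001b0000000f00000004 4 5) 0 0 (step_sound _ 99 [(rh5c5e593799055d58.shift 2 0), (rhf0c55f46c7baed1e.shift 0 1)] (by decide +kernel))
noncomputable def rh3230cb3d8d842a78 : CRef := CRef.mk (Pat.mk 0x40000001c0000000800000008 0x10000000100000003c0000001f0000001800000008 4 6) 0 0 (step_sound _ 100 [rh336e2d74b331720f, (rh6558fc11d90a948b.shift 0 1), (rh69755ef358ebfd54.shift 3 0)] (by decide +kernel))
noncomputable def rh12e5b245a9348161 : CRef := CRef.mk (Pat.mk 0xc0000001e00000008 0xc0000007e0000003f 4 7) 0 0 (step_sound _ 4 [rha3d01d768e0fced7, (rhe25b0a99195a5d59.shift 1 0)] (by decide +kernel))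
noncomputable def rhd6f74a6e2771cfa5 : CRef := CRef.mk (Pat.mk 0xe0000000c0000000c0000000c00000000 0xe0000003c0000000f0000003c00000010 4 6) 0 0 (step_sound _ 100 [rh4892b0043cb46d74, (rhf48373e13d2bc128.shift 1 3)] (by decide +kernel))
noncomputable def rha2e01a95e3487f82 : CRef := CRef.mk (Pat.mk 0x2000000000000000600000006000000000000000000000000 0x100000003000000070000000600000007000000030000000300000002 4 3) 0 0 (step_sound _ 65 [(rha57dd671b2547de5.shift 0 1), (rhea7a1800d6f053bd.shift 1 0)] (by decide +kernel))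
noncomputable def rhd165e4fa71f06c54 : CRef := CRef.mk (Pat.mk 0x3c0000000c0000000000000004 0x30000003e0000007c0000000400000004 4 7) 0 0 (step_sound _ 69 [rh22e11c42b8304225, (rhe25b0a99195a5d59.shift 2 2)] (by decide +kernel))
noncomputable def rh0c8f4d7f3b6c6043 : CRef := CRef.mk (Pat.mk 0xc000000040000000800000008 0x140000003c0000000f0000000800000008 4 6) 0 0 (step_sound _ 67 [(rh50fbb5868c909700.shift 2 0), rhc0ddb33d3a52722b] (by decide +kernel))
noncomputable def rh3b730df1806736da : CRef := CRef.mk (Pat.mk 0xe000000000000000400000004 0x180000000f0000001c0000000c00000004 4 5) 0 0 (step_sound _ 131 [(rh04253f50b6dd0619.shift 2 0), rhe43a6f135ff7e8cb] (by decide +kernel))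
noncomputable def rhe3cf3bbbdac0acc1 : CRef := CRef.mk (Pat.mk 0x80000000f000000000000000000000004 0x40000000c0000000f000000180000000c0000000c 4 5) 0 0 (step_sound _ 67 [(rh437a274300fdb354.shift 2 0), (rhe25b0a99195a5d59.shift 0 2)] (by decide +kernel))
noncomputable def rh50d4375a936551e6 : CRef := CRef.mk (Pat.mk 0x160000001e0000000000000000 0x4000000040000001e0000001f0000000300000002 4 5) 0 0 (step_sound _ 99 [rh031a926e4a883687, (rh53b3c253cb0c65f4.shift 0 2)] (by decide +kernel))
noncomputable def rhf07e5976712d0cf0 : CRef := CRef.mk (Pat.mk 0x180000000c0000000000000008 0x10000000780000001f0000000800000008 4 7) 0 0 (step_sound _ 35 [(rh2f68792b6b779e96.shift 3 0), (rh574fdbf07bdd18b9.shift 0 2)] (by decide +kernel))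
noncomputable def rhb8dba82f772f939b : CRef := CRef.mk (Pat.mk 0xe000000040000000000000004 0x30000003e000000070000000400000004 4 6) 0 0 (step_sound _ 129 [(rh9e07f76261b05888.shift 1 0), (rh9f93e2b24091a43d.shift 0 2)] (by decide +kernel))
noncomputable def rh47f8712bfbd060a1 : CRef := CRef.mk (Pat.mk 0x180000000c0000000800000010 0x8000000180000000f0000007c00000010 4 7) 0 0 (step_sound _ 65 [(rh53b3c253cb0c65f4.shift 0 2), (rhe9d8323f401b0a0c.shift 1 0)] (by decide +kernel))
noncomputable def rh3afc18e1291dc61b : CRef := CRef.mk (Pat.mk 0x1c000000080000000000000008 0xf0000003e000000080000000800000008 4 6) 0 0 (step_sound _ 130 [(rh9e07f76261b05888.shift 2 0), (rha7edc60fc34bffff.shift 0 3)] (by decide +kernel))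
noncomputable def rh37557f0dc98feb0c : CRef := CRef.mk (Pat.mk 0x600000007000000000000000c00000000 0x400000006000000070000003e0000000c00000004 4 6) 0 0 (step_sound _ 66 [(rh7b1f1fb55310c477.shift 1 0), (rhe9d8323f401b0a0c.shift 0 1)] (by decide +kernel))
noncomputable def rh46dc0467ef404eeb : CRef := CRef.mk (Pat.mk 0x300000003000000000000000600000000 0x200000002000000020000000300000003000000070000000600000002 4 3) 0 0 (step_sound _ 65 [(rh7475811764a812de.shift 0 1), rh7b1f1fb55310c477] (by decide +kernel))
noncomputable def rhd4bd0ff53b8cc7d0 : CRef := CRef.mk (Pat.mk 0x20000000e00000004 0x70000003e00000036 4 6) 0 0 (step_sound _ 36 [(rh3244c3cc8379b070.shift 0 1), (rh41b02ea8f007171b.shift 1 0)] (by decide +kernel))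
noncomputable def rh52a80f206a70e131 : CRef := CRef.mk (Pat.mk 0x200000003800000010 0x670000003e00000030 4 7) 0 0 (step_sound _ 34 [(rh33e738c4ed385b9f.shift 2 1), rhd0782bcc7d08fb46] (by decide +kernel))
noncomputable def rh818f0eab6cdd36bd : CRef := CRef.mk (Pat.mk 0xf000000000000000400000000 0x8000000180000000f0000001c0000000400000004 4 5) 0 0 (step_sound _ 131 [(rh33e738c4ed385b9f.shift 0 3), rhef11b31153f51c33] (by decide +kernel))
noncomputable def rhf4149447b397d1d6 : CRef := CRef.mk (Pat.mk 0x100000001e000000000000000800000000 0x180000001f000000300000001800000018 4 6) 0 0 (step_sound _ 68 [rh7a95c98369694404, (rhe25b0a99195a5d59.shift 1 2)] (by decide +kernel))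
noncomputable def rh36f40e64822dff73 : CRef := CRef.mk (Pat.mk 0x1e00000010000000000000001800000000 0x270000003e00000010000000100000001800000008 4 6) 0 0 (step_sound _ 68 [(rh17659c9d2e0466f4.shift 0 1), (rh932754581e0f4330.shift 3 0)] (by decide +kernel))
noncomputable def rhcb3936243b0474e7 : CRef := CRef.mk (Pat.mk 0xb000000080000000800000004 0x140000001e0000000b000000080000000c00000004 4 5) 0 0 (step_sound _ 131 [(rh4a57183b91ec83ec.shift 0 1), (rh79877ebd3ef475dd.shift 2 0)] (by decide +kernel))
noncomputable def rh10b6f88be0b08f1d : CRef := CRef.mk (Pat.mk 0x100000001e000000000000000800000000 0x180000001f000000300000001800000018 4 6) 0 0 (step_sound _ 131 [(rh53b3c253cb0c65f4.shift 0 3), (rhdc461deccfb05432.shift 1 0)] (by decide +kernel))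
noncomputable def rh03c81bd8c7d3291c : CRef := CRef.mk (Pat.mk 0xe0000000400000004 0x8000000080000007c0000000f0000000c00000004 4 7) 0 0 (step_sound _ 99 [(rh69755ef358ebfd54.shift 2 0), (rhbfb5770941270498.shift 2 0), (rhff7d63dcb3cf9f74.shift 0 2)] (by decide +kernel))
noncomputable def rh36445fd0eea418dc : CRef := CRef.mk (Pat.mk 0xf0000000d0000000000000000 0x8000000180000001f0000000f0000000400000004 4 5) 0 0 (step_sound _ 65 [(rh33e738c4ed385b9f.shift 0 2), rh34b1188e635efc8d] (by decide +kernel))
noncomputable def rh4c513998ea093d0f : CRef := CRef.mk (Pat.mk 0x1e0000001e000000000000000000000000 0xb0000001e0000001e000000300000001000000010 4 6) 0 0 (step_sound _ 161 [(rh3244c3cc8379b070.shift 0 4), (rhbbe16ff26f7822db.shift 1 0)] (by decide +kernel))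
noncomputable def rh3dd212725aa9e091 : CRef := CRef.mk (Pat.mk 0x40000001c000000080000001c00000000 0x40000001e0000007c0000001f00000003 4 7) 0 0 (step_sound _ 68 [(rh6292bd8784ece55f.shift 1 2), (rhab2ad169e49f9c5e.shift 0 1), rhbedc17f53a3d22d1] (by decide +kernel))
noncomputable def rh2ffde1b7fbcd95c3 : CRef := CRef.mk (Pat.mk 0x40000000700000006000000020000000000000000 0xa0000001e00000007000000060000000e0000000c0000000c 4 5) 0 0 (step_sound _ 66 [(rh4017de503635a93b.shift 0 2), (rh55a1f6c57a317ce6.shift 1 0), (rh820d4e04d5dcd02e.shift 1 0)] (by decide +kernel))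
noncomputable def rhcc8b91dc2ea2a3f5 : CRef := CRef.mk (Pat.mk 0x200000016000000060000000000000000 0x5000000070000001e000000060000000200000002 4 5) 0 0 (step_sound _ 128 [(rh2fe78cc5ca4405d8.shift 0 3), rhe443475c6fff10d6] (by decide +kernel))
noncomputable def rh0aef438d1c50436b : CRef := CRef.mk (Pat.mk 0x3000000020000000300000000 0x10000000300000003000000020000000700000007 4 3) 0 0 (step_sound _ 129 [rh917528c935b12cb1, rh932754581e0f4330] (by decide +kernel))
noncomputable def rh0fef42578f1b2c23 : CRef := CRef.mk (Pat.mk 0x1e000000100000000800000000 0x380000001f000000100000001800000018 4 6) 0 0 (step_sound _ 132 [(rh33e738c4ed385b9f.shift 1 3), rh7a95c98369694404] (by decide +kernel))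
noncomputable def rh6e7d2ec3f845460c : CRef := CRef.mk (Pat.mk 0x400000004000000000000001e00000000 0x400000006000000330000001e00000003 4 6) 0 0 (step_sound _ 68 [(rh33e738c4ed385b9f.shift 1 1), rheb505ef94539da28] (by decide +kernel))
noncomputable def rhf84bf8ec79229446 : CRef := CRef.mk (Pat.mk 0xf0000000400000000 0x800000008000000180000000f0000001c00000004 4 5) 0 0 (step_sound _ 35 [rh5ba2d67652840f34, (rhe25b0a99195a5d59.shift 0 1)] (by decide +kernel))
noncomputable def rh2f543ecb125aa9be : CRef := CRef.mk (Pat.mk 0x8000000080000000c0000000600000010 0x8000000380000003f0000001600000010 4 6) 0 0 (step_sound _ 68 [rh07d5a3c8a94e90f6, (rh18965a982d73c794.shift 1 1)] (by decide +kernel))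
noncomputable def rh20da1d311a4882e1 : CRef := CRef.mk (Pat.mk 0x8000000080000000c0000000400000010 0x80000003e0000007f0000001600000010 4 7) 0 0 (step_sound _ 68 [rh07d5a3c8a94e90f6, (rha83d0a1d851c6a27.shift 1 1)] (by decide +kernel))
noncomputable def rh60d3bdac986adef6 : CRef := CRef.mk (Pat.mk 0x40000001e 0x3e0000007f 4 7) 0 0 (step_sound _ 36 [(rh33e738c4ed385b9f.shift 1 0), rhd1b8a9f57b921e3c] (by decide +kernel))
noncomputable def rh275a8c47e2d94ba3 : CRef := CRef.mk (Pat.mk 0x1e00000000000000080000000a 0x300000001e00000010000000780000001f 4 7) 0 0 (step_sound _ 36 [rh0b786d94a31538a6, (rh8bba9c09a1e3aa82.shift 1 0)] (by decide +kernel))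
noncomputable def rha0caabc179c0c7f8 : CRef := CRef.mk (Pat.mk 0x1e00000010000000040000000400000000 0x180000001f000000180000000c0000000c00000008 4 5) 0 0 (step_sound _ 99 [(rh0f425d217b2c46cb.shift 2 0), (rhb739f4f82bb681b4.shift 0 3)] (by decide +kernel))
noncomputable def rh526ab715d76a6fbc : CRef := CRef.mk (Pat.mk 0x80000007c00000000 0x18000000ff00000007 4 8) 0 0 (step_sound _ 68 [rhcc2be1f880c5ea3e, (rhf48373e13d2bc128.shift 3 1)] (by decide +kernel))
noncomputable def rha4ea8c05f31c1e20 : CRef := CRef.mk (Pat.mk 0x40000003c00000020 0x3c0000007f00000030 4 7) 0 0 (step_sound _ 33 [(rh96851dee118c1ba3.shift 1 0), (rh9b1d2b302c3acb96.shift 0 1)] (by decide +kernel))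
noncomputable def rh008dfe57da6a6a22 : CRef := CRef.mk (Pat.mk 0x1e00000004 0x700000007f0000003c 4 7) 0 0 (step_sound _ 4 [rh5a5e49b4de57063c, (rhe25b0a99195a5d59.shift 1 0)] (by decide +kernel))
noncomputable def rh5e2aec0cdc9b1313 : CRef := CRef.mk (Pat.mk 0x40000000e0000000c0000000000000000 0x40000003e0000003f0000000300000002 4 6) 0 0 (step_sound _ 68 [rha3e2f7d2ab67b249, (rhf48373e13d2bc128.shift 1 2)] (by decide +kernel))
noncomputable def rh8a3dccad1db54ca6 : CRef := CRef.mk (Pat.mk 0x200000002000000020000000400000000 0x1000000030000000300000002000000060000000600000004 4 3) 0 0 (step_sound _ 161 [rh46137ff9626501bb, (rhd3458b32566d63f7.shift 1 1)] (by decide +kernel))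
noncomputable def rh3177ab62e99e7bb3 : CRef := CRef.mk (Pat.mk 0xe0000000c0000000000000004 0x30000003e0000000f0000000400000004 4 6) 0 0 (step_sound _ 129 [(rh25a1ad798521b87e.shift 0 2), (rh9e07f76261b05888.shift 1 0)] (by decide +kernel))
noncomputable def rh79b4991c35df3f24 : CRef := CRef.mk (Pat.mk 0x80000001c000000080000000800000000 0x8000000080000001f000000380000001800000010 4 6) 0 0 (step_sound _ 36 [(rh55afc6a59410cf00.shift 3 0), (rh8e75dfaff563cc3e.shift 0 1)] (by decide +kernel))
noncomputable def rhf7bb7b31ae932f9b : CRef := CRef.mk (Pat.mk 0x4000000040000000e000000000000000000000000 0x4000000070000003e000000070000000200000002 4 6) 0 0 (step_sound _ 100 [rh1e8d6e1ef30e2d92, (rhe3060b190bc0bc78.shift 0 3)] (by decide +kernel))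
noncomputable def rh7e364f6ec276d486 : CRef := CRef.mk (Pat.mk 0x30000000a0000003800000004000000000000000000000000 0x10000000b0000000a0000003a0000001e0000001c0000001400000004 4 6) 0 0 (step_sound _ 99 [(rh281c6819542c66e6.shift 2 0), (rh5707d7863bec6828.shift 1 1), (rh93fc97fccbd29730.shift 0 2)] (by decide +kernel))
noncomputable def rh35d9c3aa15158747 : CRef := CRef.mk (Pat.mk 0x16000000100000001000000010 0x2f0000003e000000100000001000000010 4 6) 0 0 (step_sound _ 99 [(rh50fbb5868c909700.shift 3 0), rh7abdac32ff6bd120] (by decide +kernel))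
noncomputable def rh0699bff44eac5620 : CRef := CRef.mk (Pat.mk 0x1e000000100000000800000000 0x8000000380000001f000000100000001800000008 4 6) 0 0 (step_sound _ 132 [(rh33e738c4ed385b9f.shift 1 3), rhc00d6392e38d8ecd] (by decide +kernel))
noncomputable def rh15dd82c81fd7bd5d : CRef := CRef.mk (Pat.mk 0x70000000c00000004 0xa0000003e0000000f0000000c00000004 4 6) 0 0 (step_sound _ 99 [rh44a320595e197204, (rh93edfa1f77289b62.shift 2 0), (rhba3fefaa894766da.shift 0 2), rhc0e343a050da71e6] (by decide +kernel))
noncomputable def rh4ac277047c642be5 : CRef := CRef.mk (Pat.mk 0x70000000c0000000400000000 0x40000000c0000001c0000000f0000000e0000000e00000004 4 5) 0 0 (step_sound _ 130 [rh55ff3d990152394d, (rhb23658ecdd7ce5df.shift 1 1)] (by decide +kernel))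
noncomputable def rha402fd69739441cb : CRef := CRef.mk (Pat.mk 0x500000006000000020000000000000000 0x1000000010000000700000007000000030000000200000002 4 3) 0 0 (step_sound _ 33 [(rh71222050f2c63a3a.shift 1 0), (rhbab796f6dafe9186.shift 0 1)] (by decide +kernel))
noncomputable def rhadbd6566b948e002 : CRef := CRef.mk (Pat.mk 0x40000001e000000180000000800000000 0x80000000c0000001e0000001b0000001f00000016 4 5) 0 0 (step_sound _ 34 [(rh2fd9b57482dec4c7.shift 2 0), rhc94597eb09ef68b2] (by decide +kernel))
noncomputable def rh3ffeb67c5c71b0fe : CRef := CRef.mk (Pat.mk 0x20000000000000001000000010000000000000000 0x200000002000000030000000300000003000000030000000100000001 4 2) 0 0 (step_sound _ 129 [rh53c798c09177b7db, (rh751f91025c6ba4fe.shift 0 2), (rhada37fa49c06dbc6.shift 0 1), (rhd918c3fd221dc9f8.shift 0 1), rhe83f0679b86b6627] (by decide +kernel))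
noncomputable def rha9bb70d9df99dfc0 : CRef := CRef.mk (Pat.mk 0x4000000000000000c0000001c00000000 0x4000000040000003c0000007f00000003 4 7) 0 0 (step_sound _ 37 [rh1277f1130682e8f3, (rhf48373e13d2bc128.shift 2 1)] (by decide +kernel))
noncomputable def rheb0689193266b61e : CRef := CRef.mk (Pat.mk 0x40000000200000002000000020000000200000000 0x4000000060000000200000002000000030000000700000005 4 3) 0 0 (step_sound _ 2 [rh43ae144440a96f18, (rhd3458b32566d63f7.shift 1 0)] (by decide +kernel))
noncomputable def rh44791f78d0277040 : CRef := CRef.mk (Pat.mk 0x1800000000000000000000000e00000002 0x80000001800000010000000300000001e0000000b 4 6) 0 0 (step_sound _ 36 [(rh7dd4d4c294d21292.shift 1 0), rheb0810cc63b001d8] (by decide +kernel))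
noncomputable def rh04a8014075209363 : CRef := CRef.mk (Pat.mk 0xc00000006000000000000000f00000000 0x100000003c0000000e000000180000000f00000004 4 6) 0 0 (step_sound _ 67 [(rh33e738c4ed385b9f.shift 0 1), (rhd0aeaccd5a4b1cae.shift 1 0)] (by decide +kernel))
noncomputable def rh4f8670a12ca1540b : CRef := CRef.mk (Pat.mk 0x1800000000000000000000000e00000000 0x100000001800000008000000780000001f00000004 4 7) 0 0 (step_sound _ 67 [(rha11dfd15f08f96e3.shift 0 1), (rhcddd2712883fd9b7.shift 2 0)] (by decide +kernel))
noncomputable def rh626289b618e1fee0 : CRef := CRef.mk (Pat.mk 0x3000000030000000000000001800000008 0x3000000030000000200000007c0000003f 4 7) 0 0 (step_sound _ 37 [rh2820ca9a6c4f41b4, (rhbcedfca2885d6e85.shift 4 0)] (by decide +kernel))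
noncomputable def rhcbf4507d3aab7f34 : CRef := CRef.mk (Pat.mk 0xf0000000b0000000000000000 0xc0000001c0000000f0000000f0000001c0000000c 4 5) 0 0 (step_sound _ 66 [rh34b1188e635efc8d, rhea719cc8bd0bdd28] (by decide +kernel))
noncomputable def rh29d0ded336beac48 : CRef := CRef.mk (Pat.mk 0xe000000040000000000000008 0x300000003f0000003f0000000800000008 4 6) 0 0 (step_sound _ 67 [rh42a1016b2f2c2f3f, (rh6292bd8784ece55f.shift 0 2)] (by decide +kernel))
noncomputable def rhae6a97e514fb1226 : CRef := CRef.mk (Pat.mk 0x1e000000000000000400000014 0x30000001e000000020000000f0000003e 4 6) 0 0 (step_sound _ 33 [rh7f8e4a6fbe0e1f11, rhe03efe4155d04a1d] (by decide +kernel))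
noncomputable def rh530fe3c1ec60f255 : CRef := CRef.mk (Pat.mk 0x80000000c0000000c000000060000000200000000 0x10000000180000001c0000000c0000001e0000001b00000018 4 5) 0 0 (step_sound _ 67 [(rh99895f40e905d09f.shift 2 0), (rha327c50ba1fc214e.shift 2 0), (rhfe26b971575d20c5.shift 0 1)] (by decide +kernel))
noncomputable def rh94903cfdedc51924 : CRef := CRef.mk (Pat.mk 0x1000000000000000100000001e00000000 0x1000000010000000100000003e0000002f 4 6) 0 0 (step_sound _ 100 [rh6c5b90ba2a83bd67, (rh932754581e0f4330.shift 3 0)] (by decide +kernel))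
noncomputable def rha7035ede331a5f6d : CRef := CRef.mk (Pat.mk 0x600000002000000070000000200000000 0x600000006000000070000001e0000000e 4 5) 0 0 (step_sound _ 34 [(rh55afc6a59410cf00.shift 1 0), rhaba5910545a4922e] (by decide +kernel))
noncomputable def rhd29788148c8d3c3c : CRef := CRef.mk (Pat.mk 0x8000000000000001c0000000e00000000 0x8000000080000001f0000003e00000014 4 6) 0 0 (step_sound _ 99 [(rh932754581e0f4330.shift 2 0), rhcf0f1f5b2b1be263] (by decide +kernel))
noncomputable def rh9058c11861a06236 : CRef := CRef.mk (Pat.mk 0x18000000100000001e0000001400000000 0x20000000320000003e000000120000001e0000001700000004 4 6) 0 0 (step_sound _ 129 [(rh5a0eebbb8f6c4318.shift 1 1), rhedc88fc58de58bc7] (by decide +kernel))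
noncomputable def rh4be00726d308f7d6 : CRef := CRef.mk (Pat.mk 0x8000000100000001e00000000 0x1800000018000000100000001f00000038 4 6) 0 0 (step_sound _ 4 [rhc47beb0580934134, (rhe25b0a99195a5d59.shift 1 0)] (by decide +kernel))
noncomputable def rh1b09a855e0f58c8f : CRef := CRef.mk (Pat.mk 0x200000004000000070000000400000000 0x600000006000000040000000f0000001c00000008 4 5) 0 0 (step_sound _ 130 [(rh50fbb5868c909700.shift 1 1), rhdd2601c875e3d18f] (by decide +kernel))
noncomputable def rh7f3127b231264871 : CRef := CRef.mk (Pat.mk 0x4000000380000000c0000000000000000 0x40000001c0000001f000000380000000c0000000c00000008 4 6) 0 0 (step_sound _ 131 [(rh668fc65514a55b16.shift 2 0), (rhc02b3aee7ab87ee1.shift 0 3), (rhf8be2f0da0b4d587.shift 2 1)] (by decide +kernel))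
noncomputable def rhcf5bec1d4eb2d82b : CRef := CRef.mk (Pat.mk 0x500000004000000060000000400000000 0x30000000700000006000000060000000600000006 4 3) 0 0 (step_sound _ 129 [(rh50fbb5868c909700.shift 1 1), rh574968158f67be7e] (by decide +kernel))
noncomputable def rhd87a159ef0cd3497 : CRef := CRef.mk (Pat.mk 0x100000000e00000000 0x380000001f00000038 4 6) 0 0 (step_sound _ 32 [(rh428265de8cd3cd2d.shift 0 1), rhf270fa1f24348253] (by decide +kernel))
noncomputable def rhe2df421f659002e2 : CRef := CRef.mk (Pat.mk 0x40000000200000002000000020000000200000000 0x4000000060000000200000002000000070000000700000004 4 3) 0 0 (step_sound _ 161 [(rh2f68792b6b779e96.shift 1 2), rh9b6c1fe4ae4bd79e] (by decide +kernel))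
noncomputable def rh080f81be5c0438e5 : CRef := CRef.mk (Pat.mk 0x200000002000000020000000400000000 0x5000000070000000700000002000000020000000600000004 4 3) 0 0 (step_sound _ 33 [(rh55afc6a59410cf00.shift 1 0), (rh7ef5fa5c39f1c762.shift 0 1)] (by decide +kernel))
noncomputable def rh0176a4c6a1ff8c8f : CRef := CRef.mk (Pat.mk 0x3c000000080000000000000004 0x30000003e0000007e0000000400000004 4 7) 0 0 (step_sound _ 66 [rh623a364a51348aa3, (rheb0810cc63b001d8.shift 1 2)] (by decide +kernel))
noncomputable def rha8898c5ebd303051 : CRef := CRef.mk (Pat.mk 0xc0000000e00000001 0xc0000007e00000073 4 7) 0 0 (step_sound _ 36 [rh80fcd6d0a18cb2dd, (rh87ee923877636e52.shift 1 0)] (by decide +kernel))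
noncomputable def rh1a21dc65618c6a90 : CRef := CRef.mk (Pat.mk 0x380000001800000010 0x80000000f0000007c0000001800000010 4 7) 0 0 (step_sound _ 99 [(rh2145e1d24b96a57e.shift 3 0), (rha9fbfd4bb8cf890b.shift 0 2)] (by decide +kernel))
noncomputable def rh42b13f517e1a5248 : CRef := CRef.mk (Pat.mk 0x20000000200000002000000000000000100000000 0x4000000060000000600000002000000030000000300000001 4 3) 0 0 (step_sound _ 65 [(rh79877ebd3ef475dd.shift 0 1), rhe867068ce7ea9877] (by decide +kernel))
noncomputable def rha13e0cc01fd3dc1a : CRef := CRef.mk (Pat.mk 0x1e000000000000000000000004 0x30000003e000000070000000400000004 4 6) 0 0 (step_sound _ 129 [(rh3244c3cc8379b070.shift 0 3), rh6e0b3fe1b3f7935c] (by decide +kernel))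
noncomputable def rh8c709f15fcbebee2 : CRef := CRef.mk (Pat.mk 0x3800000000000000000000000c00000000 0x100000007c0000000f000000080000000c00000004 4 7) 0 0 (step_sound _ 99 [(rh12cda698427604cb.shift 2 0), (rh2820ca9a6c4f41b4.shift 0 3)] (by decide +kernel))
noncomputable def rh292c6a600aceaffc : CRef := CRef.mk (Pat.mk 0x3c00000000000000180000000c00000000 0x80000003c000000060000001c0000000f00000002 4 6) 0 0 (step_sound _ 98 [rh3646936a64188069, (rheb0810cc63b001d8.shift 1 3)] (by decide +kernel))
noncomputable def rh6f1b78e9c2511884 : CRef := CRef.mk (Pat.mk 0x80000000c000000000000000600000006 0x7e0000001f000000020000000600000006 4 7) 0 0 (step_sound _ 97 [(rha11dfd15f08f96e3.shift 0 3), (rhd727bb41309b6841.shift 1 0)] (by decide +kernel))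
noncomputable def rh689e056323c25498 : CRef := CRef.mk (Pat.mk 0x7800000018 0x70000007f000000f8 4 8) 0 0 (step_sound _ 34 [(rh6292bd8784ece55f.shift 1 0), (rh88333dd5482f2e1a.shift 2 0), rhad5d8fc3675c15dd, rhba89ab7cb81bcc90] (by decide +kernel))
noncomputable def rhb4465af743b19551 : CRef := CRef.mk (Pat.mk 0xa00000008000000000000001e00000000 0x1f0000003c000000100000001e00000030 4 6) 0 0 (step_sound _ 100 [(rh82687729b6ed8eda.shift 1 0), (rhf887e4ee05fd7803.shift 0 3)] (by decide +kernel))
noncomputable def rh4ce3a5cd97e7b315 : CRef := CRef.mk (Pat.mk 0x20000000300000000c0000001800000008000000000000000000000000 0x640000003c0000000c0000007c0000000f000000040000000400000004 4 7) 0 0 (step_sound _ 98 [(rh95c7bf00a65f6c99.shift 0 3), (rha314a13d1d90450e.shift 2 2), (rhfafeb437ceb8396d.shift 2 0)] (by decide +kernel))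
noncomputable def rh662aa6c91d45906c : CRef := CRef.mk (Pat.mk 0x1e00000002000000000000000200000000 0x70000001e00000002000000030000000300000001 4 5) 0 0 (step_sound _ 65 [(rh2f68792b6b779e96.shift 1 1), rhd9048603f1912b39] (by decide +kernel))
noncomputable def rh6e29534b3de944ba : CRef := CRef.mk (Pat.mk 0x800000038000000000000001000000000 0x10000000180000007c0000000f0000001800000018 4 7) 0 0 (step_sound _ 67 [(rh2820ca9a6c4f41b4.shift 0 2), (rh8f4050c06a082165.shift 3 0)] (by decide +kernel))
noncomputable def rh567aa2ddbff0f2e1 : CRef := CRef.mk (Pat.mk 0xa0000001e00000002000000060000000000000000 0x80000003a0000001e000000120000001f0000001300000001 4 6) 0 0 (step_sound _ 68 [rh535662eee1e1c911, (rh5ee80bae93b5b7ab.shift 1 1)] (by decide +kernel))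
noncomputable def rhf335f49b75676fa9 : CRef := CRef.mk (Pat.mk 0x1e0000000400000004 0x2000000330000001e0000000700000004 4 6) 0 0 (step_sound _ 33 [rh6b5f6cdf4ea71b7d, (rheb0810cc63b001d8.shift 0 1)] (by decide +kernel))
noncomputable def rh4233e6a441eb894c : CRef := CRef.mk (Pat.mk 0x300000006000000070000000400000000 0x50000000700000006000000070000001e00000008 4 5) 0 0 (step_sound _ 33 [(rh50fbb5868c909700.shift 0 1), rh6cfcc4c4c29d94bc] (by decide +kernel))
noncomputable def rhaec2d3e1e165b119 : CRef := CRef.mk (Pat.mk 0x80000000c0000001800000008 0x1000000018000000180000000f0000001800000018 4 5) 0 0 (step_sound _ 65 [(rh14f80659e6313cc6.shift 3 0), (rhb739f4f82bb681b4.shift 0 1)] (by decide +kernel))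
noncomputable def rha4166f17a3e2583d : CRef := CRef.mk (Pat.mk 0x400000007000000070000000000000000 0x40000001f0000001f0000001800000008 4 5) 0 0 (step_sound _ 67 [rh625dde73e665edc8, (rhf48373e13d2bc128.shift 0 2)] (by decide +kernel))
noncomputable def rha83e60ed968d6fa1 : CRef := CRef.mk (Pat.mk 0x400000007000000070000000000000000 0x80000001c0000001f000000070000000400000004 4 5) 0 0 (step_sound _ 99 [(rh18965a982d73c794.shift 0 2), rh9863e637cb770d1b] (by decide +kernel))
noncomputable def rh149a04bc98a86550 : CRef := CRef.mk (Pat.mk 0x40000000700000007000000000000000000000000 0x4000000070000001f0000001c0000000800000008 4 5) 0 0 (step_sound _ 99 [rhc7b95363f9049b11, (rhf48373e13d2bc128.shift 0 3)] (by decide +kernel))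
noncomputable def rh7218e12bf030cb1d : CRef := CRef.mk (Pat.mk 0x400000004000000000000000e00000008 0x40000000c000000780000001f00000008 4 7) 0 0 (step_sound _ 67 [(rha11dfd15f08f96e3.shift 0 1), (rhcfdf45280693d3da.shift 2 0)] (by decide +kernel))
noncomputable def rh7f98b834f0813c6d : CRef := CRef.mk (Pat.mk 0x200000000000000020000000300000000 0x4000000060000000600000002000000030000000300000001 4 3) 0 0 (step_sound _ 97 [(rh1ae8cb0b33fd1844.shift 0 1), rh932754581e0f4330] (by decide +kernel))
noncomputable def rhd2151eb3ab291c6d : CRef := CRef.mk (Pat.mk 0x10000000380000001c0000000000000000 0x300000003f0000007c0000006000000020 4 7) 0 0 (step_sound _ 98 [(rh34517e326ddb5b25.shift 0 2), (rh3f420d1be4b84cac.shift 2 0), (rhcf86d050071af9b3.shift 1 2)] (by decide +kernel))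
noncomputable def rh36dcc6a6917edd15 : CRef := CRef.mk (Pat.mk 0x100000001e000000160000000000000000 0x80000001b0000001e0000001e0000003000000030 4 6) 0 0 (step_sound _ 129 [(rh3244c3cc8379b070.shift 0 3), (rhb1cd999401f2b265.shift 1 0)] (by decide +kernel))
noncomputable def rh06a4d554238c6d82 : CRef := CRef.mk (Pat.mk 0x1e0000000e000000000000000400000000 0x600000006000000070000001e0000000e000000020000000600000006 4 5) 0 0 (step_sound _ 194 [(rh8b247cb8ebd94ea2.shift 1 0), (rhc6719c6594e47b00.shift 0 3), (rhe908f39dd8d66be2.shift 1 2)] (by decide +kernel))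
noncomputable def rhb8199f9da34db7e7 : CRef := CRef.mk (Pat.mk 0x8000000080000001c000000060000000000000000 0x8000000380000001f0000003e0000001000000010 4 6) 0 0 (step_sound _ 68 [(rh3ce854f4a795c89f.shift 0 2), (rh74e4bfc809064557.shift 0 1), (rh79ad7b82ec8c35e2.shift 3 0)] (by decide +kernel))
noncomputable def rh0410d9d850bebcf9 : CRef := CRef.mk (Pat.mk 0x80000000c000000080000000800000000 0x100000003c0000000f000000080000000800000008 4 6) 0 0 (step_sound _ 132 [(rh2f68792b6b779e96.shift 3 1), rhca98504d3028efbf] (by decide +kernel))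
noncomputable def rh22f484ee4bdd067f : CRef := CRef.mk (Pat.mk 0x100000001000000038000000000000000000000000 0x10000000180000007c0000000f0000000800000008 4 7) 0 0 (step_sound _ 67 [(rh2820ca9a6c4f41b4.shift 0 2), (rh9a33a75377996d5b.shift 2 0), (rhf9af042da61fc652.shift 3 0)] (by decide +kernel))
noncomputable def rh5b1c1ca9dd0d4116 : CRef := CRef.mk (Pat.mk 0x80000001e0000001a0000001000000000 0x20000000b0000001e0000001e0000003400000004 4 6) 0 0 (step_sound _ 66 [rh1805d4d225594aed, (rhe25b0a99195a5d59.shift 1 1)] (by decide +kernel))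
noncomputable def rh4ed76abcbe657f14 : CRef := CRef.mk (Pat.mk 0x80000003c00000000 0x38000000ff000000e0 4 8) 0 0 (step_sound _ 6 [rh1de586e433c0d790, (rh96851dee118c1ba3.shift 2 0)] (by decide +kernel))
noncomputable def rhe4bed3fb389240dd : CRef := CRef.mk (Pat.mk 0x800000008000000080000001c 0x1800000018000000080000000f0000003c 4 6) 0 0 (step_sound _ 100 [rh25903f9c548d38bc, (rh2f68792b6b779e96.shift 3 0)] (by decide +kernel))
noncomputable def rh7732e150950ac7f8 : CRef := CRef.mk (Pat.mk 0x3c00000020000000080000001800000000 0xe00000007c000000200000003f00000078000000c0 4 8) 0 0 (step_sound _ 37 [(rh67b333ba8f3c6687.shift 2 1), (rhdce853976e9f519e.shift 2 0), (rhf60aa8aede119d3b.shift 0 1)] (by decide +kernel))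
noncomputable def rh155996631bca8576 : CRef := CRef.mk (Pat.mk 0x200000003c00000010 0x300000007f0000001e 4 7) 0 0 (step_sound _ 33 [(rh428265de8cd3cd2d.shift 1 1), rh8aa0e361631476f3] (by decide +kernel))
noncomputable def rhf94242872edd9720 : CRef := CRef.mk (Pat.mk 0xa000000180000000c0000000400000000 0x40000001f0000001c0000000c0000000c00000008 4 5) 0 0 (step_sound _ 130 [(rh3289262d1f59fe3a.shift 2 0), (rhb739f4f82bb681b4.shift 0 3)] (by decide +kernel))
noncomputable def rh1cff6558d292e989 : CRef := CRef.mk (Pat.mk 0xa000000180000000800000000 0x140000001f000000380000000800000008 4 6) 0 0 (step_sound _ 98 [(rha73de14255e5ed05.shift 1 0), (rhb739f4f82bb681b4.shift 0 2)] (by decide +kernel))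
noncomputable def rh9951a3b96c2e73c7 : CRef := CRef.mk (Pat.mk 0x14000000140000001c0000000800000000 0xa0000001e000000340000001c0000000f00000002 4 6) 0 0 (step_sound _ 34 [(rhefe6a054a8eff004.shift 1 1), rhf5094ad2a427d4d3] (by decide +kernel))
noncomputable def rha6751fe3de50e173 : CRef := CRef.mk (Pat.mk 0xa000000080000000e00000004 0x20000001b0000003f0000001e00000004 4 6) 0 0 (step_sound _ 65 [(rh2145e1d24b96a57e.shift 1 0), (rh7b02b14a596374a2.shift 0 1)] (by decide +kernel))
noncomputable def rh76491a31ccf5af61 : CRef := CRef.mk (Pat.mk 0x400000014000000000000000800000008 0xf0000003e000000080000000800000008 4 6) 0 0 (step_sound _ 99 [(rh2613c889e411427e.shift 2 0), (rha7edc60fc34bffff.shift 0 3)] (by decide +kernel))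
noncomputable def rhe07babe6ffaf6b2e : CRef := CRef.mk (Pat.mk 0x100000001c00000008 0x3b0000001f00000018 4 6) 0 0 (step_sound _ 33 [(rh33e738c4ed385b9f.shift 1 1), rhfb46959d1faedad4] (by decide +kernel))
noncomputable def rh17626db5fe75f0de : CRef := CRef.mk (Pat.mk 0x40000000f000000050000000000000000 0x40000001f0000001f0000001800000008 4 5) 0 0 (step_sound _ 67 [rh764646065eef9665, (rhe25b0a99195a5d59.shift 0 2)] (by decide +kernel))
noncomputable def rh110fc0aa5de31679 : CRef := CRef.mk (Pat.mk 0x10000000180000000e00000002 0x300000001f0000003e00000003 4 6) 0 0 (step_sound _ 36 [(rh870359598daa9f92.shift 0 1), rheb0810cc63b001d8] (by decide +kernel))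
noncomputable def rh54ad5ef8eb989bf7 : CRef := CRef.mk (Pat.mk 0x4000000040000001e0000000400000000 0x80000000c0000003c0000001f0000000400000004 4 6) 0 0 (step_sound _ 131 [(rh2f68792b6b779e96.shift 2 1), rh9abc085aad15fdbe] (by decide +kernel))
noncomputable def rh36936568b5fd12a6 : CRef := CRef.mk (Pat.mk 0xc000000040000000e0000000400000000 0x20000000e0000003c0000000f0000000400000004 4 6) 0 0 (step_sound _ 99 [(rh06286bd0c451269d.shift 0 1), (rh71222050f2c63a3a.shift 2 0)] (by decide +kernel))
noncomputable def rh29ce7f6575b7ca7a : CRef := CRef.mk (Pat.mk 0xc0000001c0000000400000000 0x600000006000000060000000c0000001c0000000f0000000a 4 5) 0 0 (step_sound _ 130 [rh2c57b4404ea586d3, (rh55a1f6c57a317ce6.shift 2 0), (rh7b9fbdf6d2d059e4.shift 1 1)] (by decide +kernel))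
noncomputable def rh2b4c28ecf54bd524 : CRef := CRef.mk (Pat.mk 0x1c00000006000000020000000200000000 0x3b0000001f00000006000000060000000600000004 4 6) 0 0 (step_sound _ 129 [(rh50b5135431ad0103.shift 0 1), (rh8af9a32e61457eb0.shift 1 0), (rha25c0e62bb8d55c9.shift 0 1)] (by decide +kernel))
noncomputable def rh56dfd1f7cf22ecb2 : CRef := CRef.mk (Pat.mk 0x1000000010000000180000000e00000000 0x800000018000000180000001f0000003e00000034 4 6) 0 0 (step_sound _ 36 [(rh18b49738f4e5d343.shift 2 0), rh411b7fbe199774b0] (by decide +kernel))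
noncomputable def rh26136743aebdc231 : CRef := CRef.mk (Pat.mk 0x8000000180000000c0000000400000000 0x8000000180000001f0000003c00000010 4 6) 0 0 (step_sound _ 65 [(rh53b3c253cb0c65f4.shift 0 2), (rh7a30c616a3ea814b.shift 1 0)] (by decide +kernel))
noncomputable def rh1ea72b5528b1e586 : CRef := CRef.mk (Pat.mk 0xe0000000c00000002 0x3e0000003f00000003 4 6) 0 0 (step_sound _ 36 [rhc11db2955b78c5fd, (rhf48373e13d2bc128.shift 1 1)] (by decide +kernel))
noncomputable def rh66430f2257c5d3de : CRef := CRef.mk (Pat.mk 0x10000000100000001000000000000000200000000 0x2000000030000000300000001000000030000000300000002 4 2) 0 0 (step_sound _ 64 [rh9f113608394b30d0, (rhd3458b32566d63f7.shift 0 1)] (by decide +kernel))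
noncomputable def rh279dbb2cafdc79ed : CRef := CRef.mk (Pat.mk 0x28000000300000001c00000010 0x8000000680000003f0000003c00000010 4 7) 0 0 (step_sound _ 67 [(rh2145e1d24b96a57e.shift 3 0), (rh26eb5e778c85dc1f.shift 0 1)] (by decide +kernel))
noncomputable def rhf417e11bfb378c28 : CRef := CRef.mk (Pat.mk 0x100000001c000000180000001000000000 0x100000001f0000001f0000003000000020 4 6) 0 0 (step_sound _ 97 [(rhb739f4f82bb681b4.shift 0 2), rhc1307820daa2ac22] (by decide +kernel))
noncomputable def rhf227ff6d7ced7e72 : CRef := CRef.mk (Pat.mk 0x2000000028000000180000001000000010 0x200000002f0000007c0000003000000010 4 7) 0 0 (step_sound _ 69 [(rha9fbfd4bb8cf890b.shift 0 2), (rheea67dfebd0f8008.shift 4 0)] (by decide +kernel))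
noncomputable def rh335053264b680a96 : CRef := CRef.mk (Pat.mk 0x14000000040000000400000004 0xa0000003e000000070000000400000004 4 6) 0 0 (step_sound _ 99 [(rh2f68792b6b779e96.shift 2 0), rh3b5e94772846b637] (by decide +kernel))
noncomputable def rhae478df3bbb11de4 : CRef := CRef.mk (Pat.mk 0x80000001a000000060000000400000004 0x80000001b0000001e0000003c00000014 4 6) 0 0 (step_sound _ 67 [rhb9784ff7a7632a57, (rheea67dfebd0f8008.shift 2 0)] (by decide +kernel))
noncomputable def rh7445222732380737 : CRef := CRef.mk (Pat.mk 0xe0000000a0000000600000000 0x40000001e0000000b0000001e0000000a 4 5) 0 0 (step_sound _ 64 [(rh18965a982d73c794.shift 0 2), rhec182fccfe126c21] (by decide +kernel))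
noncomputable def rhf12dd11a9c1c957f : CRef := CRef.mk (Pat.mk 0x6000000040000000c0000000800000000 0x200000006000000040000003c0000000f00000002 4 6) 0 0 (step_sound _ 34 [(rh50fbb5868c909700.shift 1 1), rha71afc656c87d410] (by decide +kernel))
noncomputable def rh8373accf56e6eff5 : CRef := CRef.mk (Pat.mk 0x20000000e000000180000000000000000 0x10000000330000001e000000180000000800000008 4 6) 0 0 (step_sound _ 100 [(rh3244c3cc8379b070.shift 0 3), (rh34b1188e635efc8d.shift 1 0)] (by decide +kernel))
noncomputable def rh6005e0450f616558 : CRef := CRef.mk (Pat.mk 0x80000001800000006 0x1f0000007c00000006 4 7) 0 0 (step_sound _ 37 [(rhca9569cc80abfe76.shift 1 0), (rhf60aa8aede119d3b.shift 0 1)] (by decide +kernel))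
noncomputable def rh593c7bd1e783a56a : CRef := CRef.mk (Pat.mk 0x140000007000000058 0x360000007f000000d8 4 8) 0 0 (step_sound _ 35 [(rhe25b0a99195a5d59.shift 3 0), rhf3c0837ef67ba892] (by decide +kernel))
noncomputable def rhbb5455d2a9879671 : CRef := CRef.mk (Pat.mk 0xa0000003800000008 0x1f0000003f00000018 4 6) 0 0 (step_sound _ 34 [(rh3f8766e6ecb455ce.shift 1 1), rh9c961a77e6c44d48] (by decide +kernel))
noncomputable def rh8c9d714d057b15c2 : CRef := CRef.mk (Pat.mk 0x800000018000000060000000700000000 0x60000000f0000001e000000060000000700000003 4 5) 0 0 (step_sound _ 130 [rh292800f13ff43397, (rhb8fddd58ad9026ec.shift 1 0), rhd616cfc6a452bc98] (by decide +kernel))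
noncomputable def rhecae8c2b1e393fb1 : CRef := CRef.mk (Pat.mk 0x20000000000000001000000010000000000000000 0x200000002000000030000000300000003000000030000000100000001 4 2) 0 0 (step_sound _ 129 [rh53c798c09177b7db, (rh751f91025c6ba4fe.shift 0 2), (rhd918c3fd221dc9f8.shift 0 1), rhe83f0679b86b6627] (by decide +kernel))
noncomputable def rh9e853c74263c2c6b : CRef := CRef.mk (Pat.mk 0x1000000020000000200000002000000000000000000000000 0x5000000070000000600000002000000060000000600000004 4 3) 0 0 (step_sound _ 65 [(rhec588a0d7783acc6.shift 1 0), (rhffd04209dc8ea796.shift 0 2)] (by decide +kernel))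
noncomputable def rh49fe441a135c9e9a : CRef := CRef.mk (Pat.mk 0x80000001c0000000c 0x3f0000007f0000000c 4 7) 0 0 (step_sound _ 37 [(rh18965a982d73c794.shift 2 0), (rhc554838dd23febb3.shift 0 1)] (by decide +kernel))
noncomputable def rh29c69f5a26b9e730 : CRef := CRef.mk (Pat.mk 0xc000000080000001c0000000c00000000 0x20000000f0000003f0000001c0000000f00000002 4 6) 0 0 (step_sound _ 98 [rh49d5320e5bad1ee8, (rhcf85c92937975d4d.shift 0 1), rhf5094ad2a427d4d3] (by decide +kernel))
noncomputable def rh4a104851dd48efee : CRef := CRef.mk (Pat.mk 0x100000001e0000001000000000 0x1800000018000000180000001f0000001800000018 4 5) 0 0 (step_sound _ 131 [rh1b54be821c3b0bdd, (rh9dec7a7b1c0738f5.shift 0 1), (rha52e0141694f1c7d.shift 3 0)] (by decide +kernel))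
noncomputable def rh4ee3a9791379d30d : CRef := CRef.mk (Pat.mk 0x380000001c000000000000000000000000 0xf0000003f0000007c000000060000000400000004 4 7) 0 0 (step_sound _ 130 [(rh92e8f86a47ca4f2b.shift 1 0), (rhba89ab7cb81bcc90.shift 0 3)] (by decide +kernel))
noncomputable def rh05342883a1fb985e : CRef := CRef.mk (Pat.mk 0x18000000080000000b0000000000000000 0x1000000018000000080000000b0000001e00000014 4 5) 0 0 (step_sound _ 35 [rh0c3873a75f5344d2, (rh2f68792b6b779e96.shift 3 1)] (by decide +kernel))
noncomputable def rhddec593cad12bd8a : CRef := CRef.mk (Pat.mk 0x8000000100000001e00000006 0x1800000018000000100000001f0000003e 4 6) 0 0 (step_sound _ 4 [rh20a9efe966282d13, (rhe25b0a99195a5d59.shift 1 0)] (by decide +kernel))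
noncomputable def rhd678aa3b45ecbc96 : CRef := CRef.mk (Pat.mk 0x3c00000010 0x7000000ff0000001c 4 8) 0 0 (step_sound _ 65 [(rh3f8766e6ecb455ce.shift 1 1), rhbdafbb846ab848c1] (by decide +kernel))
noncomputable def rh612573739e19f339 : CRef := CRef.mk (Pat.mk 0x8000000040000001c0000000400000000 0xc0000000c000000040000001c0000000f00000002 4 5) 0 0 (step_sound _ 130 [(rh2f68792b6b779e96.shift 2 1), rh89941d4a81c75adf] (by decide +kernel))
noncomputable def rh3464ac1fa38557f1 : CRef := CRef.mk (Pat.mk 0x2000000060000000c0000000c0000000800000000 0x80000001b0000001e0000000c0000001c0000001800000010 4 5) 0 0 (step_sound _ 131 [(rh4f7106e6f46c2542.shift 0 1), (rh6655c67851f4b756.shift 2 0)] (by decide +kernel))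
noncomputable def rh0c95666b3d06010c : CRef := CRef.mk (Pat.mk 0x40000001e0000001a0000000800000000 0x60000003e0000001a0000000f00000006 4 6) 0 0 (step_sound _ 33 [(rh71222050f2c63a3a.shift 1 0), rh8b0936874d02e3f5] (by decide +kernel))
noncomputable def rhcbd57ce556df05bf : CRef := CRef.mk (Pat.mk 0x1c0000000e0000000000000000 0x8000000080000001f0000003e0000003000000010 4 6) 0 0 (step_sound _ 68 [(rh73aed199c1a62ed4.shift 0 2), (rhea719cc8bd0bdd28.shift 1 0)] (by decide +kernel))
noncomputable def rhf3b7fe2e34c75b3f : CRef := CRef.mk (Pat.mk 0xf0000000e000000000000000400000000 0xc0000000c0000001c0000000f0000000e000000080000000c0000000c 4 5) 0 0 (step_sound _ 194 [(rh4d8d614e03a7f6ad.shift 0 3), (rh5105f69098a4a2c2.shift 1 2), (rha013a4e5cc54a92a.shift 2 0)] (by decide +kernel))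
noncomputable def rha39f043e4d7fd2d8 : CRef := CRef.mk (Pat.mk 0xc0000000c0000000a0000000000000000 0x80000000c0000000c0000000f0000001c0000001c 4 5) 0 0 (step_sound _ 35 [rh431b16932aec1393, (rh7b1f1fb55310c477.shift 2 0)] (by decide +kernel))
noncomputable def rhbea8a1c5a3332e48 : CRef := CRef.mk (Pat.mk 0x140000001e00000010000000180000000000000000 0x140000001e000000130000003e0000003200000020 4 6) 0 0 (step_sound _ 37 [rh21f3176562ebe940, (rhd3458b32566d63f7.shift 4 1)] (by decide +kernel))
noncomputable def rh48defdfe433a402b : CRef := CRef.mk (Pat.mk 0x40000003c00000020 0x3c0000007f00000030 4 7) 0 0 (step_sound _ 33 [(rh5b09f563b9a65cf9.shift 0 1), (rh96851dee118c1ba3.shift 1 0)] (by decide +kernel))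
noncomputable def rh53dbd3431b01b25c : CRef := CRef.mk (Pat.mk 0xa0000000c00000004 0x3f0000003f00000006 4 6) 0 0 (step_sound _ 36 [(rh795d3e5d420177aa.shift 1 0), (rhd0ed6ce702d0de55.shift 0 1)] (by decide +kernel))
noncomputable def rh5a73400300d93dfc : CRef := CRef.mk (Pat.mk 0x14000000180000000800000008 0x400000004000000370000003e0000000c00000008 4 6) 0 0 (step_sound _ 66 [(rhd117684c4a851b90.shift 0 2), (rhe072fffdd2fccf38.shift 2 0)] (by decide +kernel))
noncomputable def rh5ad8b227a394b7c1 : CRef := CRef.mk (Pat.mk 0x20000000080000001c00000018 0x20000000200000006e0000007f00000018 4 7) 0 0 (step_sound _ 33 [(rh05603a4008a2c69a.shift 1 0), rhb739f4f82bb681b4] (by decide +kernel))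
noncomputable def rh56c25050c36f2711 : CRef := CRef.mk (Pat.mk 0x10000000040000000e0000000c 0x1000000010000000370000003e0000003c 4 6) 0 0 (step_sound _ 5 [rh05603a4008a2c69a, (rh2fe78cc5ca4405d8.shift 1 0)] (by decide +kernel))
noncomputable def rh6f2cbab5a053ff72 : CRef := CRef.mk (Pat.mk 0x18000000080000001c00000010 0x20000000780000003e0000001f00000010 4 7) 0 0 (step_sound _ 68 [(rhab2ad169e49f9c5e.shift 0 1), (rhc0ddb33d3a52722b.shift 1 0)] (by decide +kernel))
noncomputable def rh0d6116b8cc288d7d : CRef := CRef.mk (Pat.mk 0x1e000000000000000400000004 0x30000001e000000330000000600000004 4 6) 0 0 (step_sound _ 68 [rh04395309fba550d6, (rhe25b0a99195a5d59.shift 1 2)] (by decide +kernel))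
noncomputable def rhf536f6ccd488f809 : CRef := CRef.mk (Pat.mk 0x160000000e000000000000000800000008 0x2000000030000001e0000000f000000040000000c00000008 4 5) 0 0 (step_sound _ 131 [rh3bc4e4516a830a08, (rh53b3c253cb0c65f4.shift 0 3)] (by decide +kernel))
noncomputable def rh1f79386945322159 : CRef := CRef.mk (Pat.mk 0x200000002000000020000000600000003 0x1000000030000000300000002000000060000001e00000003 4 5) 0 0 (step_sound _ 35 [rh18965a982d73c794, (rh5bd4bc0c2c48140c.shift 0 1)] (by decide +kernel))
noncomputable def rh1e3cd89691e9b42e : CRef := CRef.mk (Pat.mk 0x40000001c000000040000000800000000 0xf0000003c000000040000000c0000000c 4 6) 0 0 (step_sound _ 129 [rhc5247111446b6d2e, (rhf48373e13d2bc128.shift 1 3)] (by decide +kernel))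
noncomputable def rh275df068cf7297df : CRef := CRef.mk (Pat.mk 0x4000000000000000f0000000b0000000000000000 0x40000001c0000000f0000000f0000001800000010 4 5) 0 0 (step_sound _ 131 [(rh33e738c4ed385b9f.shift 0 3), rha614af53a5db1f25] (by decide +kernel))
noncomputable def rh103adcb03926bc7f : CRef := CRef.mk (Pat.mk 0x1c00000008000000080000000800000000 0x3c0000000f000000080000000c0000000c 4 6) 0 0 (step_sound _ 98 [rh71d90955baacd858, (rh7b1f1fb55310c477.shift 2 0)] (by decide +kernel))
noncomputable def rh610267671e5c46ab : CRef := CRef.mk (Pat.mk 0xc0000001c00000008 0xc0000007f0000003f 4 7) 0 0 (step_sound _ 37 [rh0a31c7f562fb8d12, (rhf48373e13d2bc128.shift 2 1)] (by decide +kernel))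
noncomputable def rhbd3896373e9c15d1 : CRef := CRef.mk (Pat.mk 0xc0000001c000000080000000c00000000 0x20000000f0000001c0000003c0000000f00000002 4 6) 0 0 (step_sound _ 66 [(rh277b01412deaec89.shift 0 1), rha71afc656c87d410] (by decide +kernel))
noncomputable def rh608d28c51ec1c5db : CRef := CRef.mk (Pat.mk 0x1e0000000400000000 0x200000002000000030000001e0000000700000004 4 5) 0 0 (step_sound _ 97 [(rh3244c3cc8379b070.shift 0 2), rh4eb1b4414d6cd41f] (by decide +kernel))
noncomputable def rhae8267178c83481d : CRef := CRef.mk (Pat.mk 0x60000000200000002000000020000000000000000 0x60000000600000002000000030000000700000005 4 3) 0 0 (step_sound _ 33 [rh6b0e6ea20bf12a11, (rhbaefcd01e0a8bca3.shift 1 1)] (by decide +kernel))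
noncomputable def rh7220791028024300 : CRef := CRef.mk (Pat.mk 0x1c00000008000000080000000800000000 0x1f00000038000000080000000c0000000c 4 6) 0 0 (step_sound _ 100 [(rh71222050f2c63a3a.shift 3 0), rhf2a3cf652f94c008] (by decide +kernel))
noncomputable def rh4f69161290e78322 : CRef := CRef.mk (Pat.mk 0x4000000040000000e0000001800000008 0x14000000370000001e0000001b0000000a 4 6) 0 0 (step_sound _ 68 [(rh5421160f8e9bcf07.shift 1 0), rhae036cc4ef671676] (by decide +kernel))
noncomputable def rh75357fce5fdb03cd : CRef := CRef.mk (Pat.mk 0x8000000080000001c0000000600000000 0x40000000c0000000c0000001c0000000f0000000a 4 5) 0 0 (step_sound _ 35 [(rh18b49738f4e5d343.shift 1 0), (rh53b3c253cb0c65f4.shift 0 1)] (by decide +kernel))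
noncomputable def rhd68b3c6982f2efc3 : CRef := CRef.mk (Pat.mk 0x80000003c0000000800000008 0x10000000180000003f0000007800000008 4 7) 0 0 (step_sound _ 100 [(rh2f68792b6b779e96.shift 3 0), (rhe153806bfe3acc65.shift 0 1)] (by decide +kernel))
noncomputable def rh7651a8b49df67a90 : CRef := CRef.mk (Pat.mk 0x100000007800000000 0x3e0000007e00000007 4 7) 0 0 (step_sound _ 34 [rh55c4ed4acec0f063, (rhd5eb272e07a4e288.shift 1 1)] (by decide +kernel))
noncomputable def rhcfaf1cfbddc04afa : CRef := CRef.mk (Pat.mk 0x200000006000000030000000600000000 0x60000000600000006000000070000001e00000008 4 5) 0 0 (step_sound _ 66 [(rh2145e1d24b96a57e.shift 1 1), rh6cfcc4c4c29d94bc] (by decide +kernel))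
noncomputable def rhd02abaf16d860561 : CRef := CRef.mk (Pat.mk 0x200000002000000030000000200000000 0x1000000030000000300000002000000030000000700000004 4 3) 0 0 (step_sound _ 2 [(rha77f215723363df0.shift 0 1), (rhd3458b32566d63f7.shift 1 0)] (by decide +kernel))
noncomputable def rhc043fe11f559a10b : CRef := CRef.mk (Pat.mk 0x8000000080000001c000000100000000000000000 0x80000000c0000003e000000370000000400000004 4 6) 0 0 (step_sound _ 66 [(rh545103f8483e89f5.shift 0 2), (rhf9af042da61fc652.shift 2 0)] (by decide +kernel))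
noncomputable def rhe4cf45fc10e3947a : CRef := CRef.mk (Pat.mk 0x40000000e00000008 0x70000003f00000038 4 6) 0 0 (step_sound _ 4 [rh20aaab6250709fa0, rhb739f4f82bb681b4] (by decide +kernel))
noncomputable def rh573e0c66e6a11818 : CRef := CRef.mk (Pat.mk 0x1e0000000c000000000000000000000000 0x80000001e0000003f000000300000001000000010 4 6) 0 0 (step_sound _ 100 [rhcb68da4f2dc5e7fd, (rhf48373e13d2bc128.shift 1 3)] (by decide +kernel))
noncomputable def rh81591a168fdda2f0 : CRef := CRef.mk (Pat.mk 0xf00000006 0x380000001f0000003e 4 6) 0 0 (step_sound _ 4 [rh00b22401a0bf2d5e, rh2fe78cc5ca4405d8] (by decide +kernel))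
noncomputable def rh0b7a23fbde3c801e : CRef := CRef.mk (Pat.mk 0xf00000006 0x380000001f0000001f 4 6) 0 0 (step_sound _ 4 [rh2fe78cc5ca4405d8, rh62a51e5e348b9e49] (by decide +kernel))
noncomputable def rhf67a62a20ac2f468 : CRef := CRef.mk (Pat.mk 0x20000000200000002000000020000000400000000 0x4000000070000000700000002000000020000000600000004 4 3) 0 0 (step_sound _ 33 [(rh55afc6a59410cf00.shift 1 0), (rh9cf3fca34694fb09.shift 0 1)] (by decide +kernel))
noncomputable def rh5d114241629a05e6 : CRef := CRef.mk (Pat.mk 0x10000000f000000000000000000000000 0x100000001000000030000001f000000030000000200000002 4 5) 0 0 (step_sound _ 65 [(rh795d3e5d420177aa.shift 0 2), rh9b349e98344f089a, rha40d42a2e34c408d, rhd9507392c7f93a70] (by decide +kernel))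
noncomputable def rhc0aaabcb2ec956ed : CRef := CRef.mk (Pat.mk 0x1c00000002 0x70000003e00000007 4 6) 0 0 (step_sound _ 37 [rh71dc3b1b14d867eb, (rh80fcd6d0a18cb2dd.shift 1 0)] (by decide +kernel))
noncomputable def rh79d795d09f557974 : CRef := CRef.mk (Pat.mk 0x8000000000000001c0000000e00000000 0x8000000080000001f0000007e00000070 4 7) 0 0 (step_sound _ 36 [(rh0cb6a409506b34ea.shift 1 0), (rh73aed199c1a62ed4.shift 0 1), rh795e733e9e2c2441] (by decide +kernel))
noncomputable def rh74dfb1069b8ef18b : CRef := CRef.mk (Pat.mk 0x1c000000080000000c0000000800000000 0x1c000000780000001f0000000800000008 4 7) 0 0 (step_sound _ 100 [(rh71222050f2c63a3a.shift 3 0), (rh8f9617ee17321bd4.shift 0 2)] (by decide +kernel))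
noncomputable def rh80fcaaca440220e7 : CRef := CRef.mk (Pat.mk 0x400000002000000030000000700000000 0x400000006000000070000001f0000001a 4 5) 0 0 (step_sound _ 98 [rh23bcc2d6a6c0f37c, (rh71222050f2c63a3a.shift 1 0)] (by decide +kernel))
noncomputable def rhecdb04c7443210b0 : CRef := CRef.mk (Pat.mk 0x2000000080000000f000000090000000000000000 0x20000000e0000000e0000000f0000000d0000000c0000000c 4 4) 0 0 (step_sound _ 34 [(rh0db119afefb5ebc7.shift 2 0), (rh354561cdc62d7b45.shift 0 1), (rh752c9303f297f9fa.shift 2 0)] (by decide +kernel))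
noncomputable def rh1ee7e6c03918bde1 : CRef := CRef.mk (Pat.mk 0xc00000000000000080000000f00000000 0x140000001c00000018000000080000000f00000018 4 5) 0 0 (step_sound _ 99 [rh36586e595fdbb742, (rh50fbb5868c909700.shift 2 1)] (by decide +kernel))
noncomputable def rh1b150e02c8dbe6e0 : CRef := CRef.mk (Pat.mk 0x8000000000000001e0000001c 0x1800000018000000300000001e0000001f 4 6) 0 0 (step_sound _ 1 [(rh4d8d614e03a7f6ad.shift 1 0), rh53b3c253cb0c65f4] (by decide +kernel))
noncomputable def rh828ea6ac1e11e833 : CRef := CRef.mk (Pat.mk 0x20000000100000001000000010000000000000000 0x2000000030000000300000001000000030000000300000002 4 2) 0 0 (step_sound _ 160 [(rh2f68792b6b779e96.shift 0 2), rh8c3839f9b9075f23] (by decide +kernel))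
noncomputable def rhda62a374aa1dddc2 : CRef := CRef.mk (Pat.mk 0xc00000008000000080000000800000000 0x1f0000007c000000080000000800000008 4 7) 0 0 (step_sound _ 100 [(rh4ca5dae25f5c14ff.shift 0 3), (rh75ea294132184f25.shift 1 3), (rh94f1a52185fc620a.shift 1 0), (rhc705a4e0321a1bff.shift 2 0)] (by decide +kernel))
noncomputable def rhc2770b327e102d70 : CRef := CRef.mk (Pat.mk 0x8000000000000001e0000000000000000 0x8000000380000001f0000003000000010 4 6) 0 0 (step_sound _ 100 [(rh33e738c4ed385b9f.shift 1 2), rha574f551c21cda47] (by decide +kernel))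
noncomputable def rh35d56b72020b1442 : CRef := CRef.mk (Pat.mk 0x400000004000000000000001e00000018 0x400000006000000030000003e0000001f 4 6) 0 0 (step_sound _ 1 [rh01a0b8e803fdc72e, rheb0810cc63b001d8] (by decide +kernel))
noncomputable def rhb6a065f8da5aeefb : CRef := CRef.mk (Pat.mk 0x1e000000080000000000000004 0x30000007e0000007c0000000400000004 4 7) 0 0 (step_sound _ 69 [rh3a67a67a2c163f9d, (rh96851dee118c1ba3.shift 1 2)] (by decide +kernel))
noncomputable def rha45e9337bdf87adf : CRef := CRef.mk (Pat.mk 0x4000000040000000e000000180000000800000000 0x14000000360000001e0000001b0000000a00000002 4 6) 0 0 (step_sound _ 100 [(rh5421160f8e9bcf07.shift 1 1), rhd1474a84c69f0140] (by decide +kernel))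
noncomputable def rh22d83e6dd573ff4d : CRef := CRef.mk (Pat.mk 0xc0000001c0000000400000000 0x600000006000000060000000c0000001c0000000f0000000a 4 5) 0 0 (step_sound _ 130 [rh2c57b4404ea586d3, (rh90b823c913a425e8.shift 1 1)] (by decide +kernel))
noncomputable def rhd20cf5f59f4d085a : CRef := CRef.mk (Pat.mk 0xf0000000e000000020000000000000000 0x800000008000000180000000f0000000e000000060000000200000002 4 5) 0 0 (step_sound _ 33 [(rh5ba2d67652840f34.shift 0 2), (rh71222050f2c63a3a.shift 1 0)] (by decide +kernel))
noncomputable def rh778d3a81dc7805b1 : CRef := CRef.mk (Pat.mk 0x400000000000000080000001e00000000 0x4000000040000007c0000007e00000003 4 7) 0 0 (step_sound _ 69 [(rh428265de8cd3cd2d.shift 1 1), rhc3c430660bfd8e67] (by decide +kernel))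
noncomputable def rh35cf5b20374accd8 : CRef := CRef.mk (Pat.mk 0xc0000000c000000040000000400000000 0x20000000f0000003c000000040000000c00000008 4 6) 0 0 (step_sound _ 129 [(rh50fbb5868c909700.shift 1 1), rhd4e6ea85f7c9b074] (by decide +kernel))
noncomputable def rh700221d143fee73f : CRef := CRef.mk (Pat.mk 0x1c0000000e00000008 0x10000000300000001f0000007e00000078 4 7) 0 0 (step_sound _ 36 [(rh73aed199c1a62ed4.shift 0 1), rh7c670c94442132e7, (rh87ee923877636e52.shift 1 0)] (by decide +kernel))
noncomputable def rhe22039bf13727556 : CRef := CRef.mk (Pat.mk 0x4000000000000001e0000001a 0x600000006000000030000003e0000001e 4 6) 0 0 (step_sound _ 2 [(rh33e738c4ed385b9f.shift 1 0), rhc6719c6594e47b00] (by decide +kernel))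
noncomputable def rh5bb1369bbc51bc6b : CRef := CRef.mk (Pat.mk 0x400000000000000060000000700000000 0x4000000040000001f0000003f00000018 4 6) 0 0 (step_sound _ 67 [(rh18965a982d73c794.shift 0 1), rh8d3134ae48e30f98] (by decide +kernel))
noncomputable def rh3aae8cd2ef12d99f : CRef := CRef.mk (Pat.mk 0x1000000018000000380000000000000000 0x100000007f0000003f0000006000000020 4 7) 0 0 (step_sound _ 66 [(rh625dde73e665edc8.shift 2 0), (rhbe5fc5902345a0b9.shift 0 2), (rhf9d36e158778ce35.shift 1 2)] (by decide +kernel))
noncomputable def rhd0b83c1e2e4f8bc2 : CRef := CRef.mk (Pat.mk 0x60000000c0000000400000000 0x8000000080000000f0000003c0000000400000004 4 6) 0 0 (step_sound _ 68 [rh6951f5e21ed1e59d, (rhf48373e13d2bc128.shift 1 2)] (by decide +kernel))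
noncomputable def rh15c20a83c4662461 : CRef := CRef.mk (Pat.mk 0x80000000e0000000c00000000 0x1000000010000000380000003e0000000f00000008 4 6) 0 0 (step_sound _ 68 [(rh4dc133ee0ba1420a.shift 0 1), (rhc0ac6cdbaa8efa90.shift 1 0)] (by decide +kernel))
noncomputable def rh84f481bf465139c4 : CRef := CRef.mk (Pat.mk 0x70000000f00000000 0x800000008000000180000001f0000000f00000004 4 5) 0 0 (step_sound _ 67 [(rh33e738c4ed385b9f.shift 0 1), rh5ba2d67652840f34] (by decide +kernel))
noncomputable def rh4df0b66ac9a5a952 : CRef := CRef.mk (Pat.mk 0x1e0000001e000000080000000000000000 0x200000002000000030000001e0000001e0000000c0000000800000008 4 5) 0 0 (step_sound _ 3 [(rh9e3edb185cc347de.shift 3 0), (rhbdb8dfd08861fbf7.shift 0 2)] (by decide +kernel))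
noncomputable def rh688b6edb741433ed : CRef := CRef.mk (Pat.mk 0x1e0000001600000000 0x1000000010000000300000001f0000001e00000008 4 6) 0 0 (step_sound _ 35 [(rh3244c3cc8379b070.shift 0 1), (rh5ba2d67652840f34.shift 1 0)] (by decide +kernel))
noncomputable def rhd56db00674809b41 : CRef := CRef.mk (Pat.mk 0x80000000c0000000600000006 0x60000000f0000003c0000000600000006 4 6) 0 0 (step_sound _ 98 [(rh5c5e593799055d58.shift 1 0), rhcf85c92937975d4d] (by decide +kernel))
noncomputable def rhd54c2617908b97c7 : CRef := CRef.mk (Pat.mk 0x1e0000000800000000 0x1000000010000000380000001f0000000800000008 4 6) 0 0 (step_sound _ 100 [(rh33e738c4ed385b9f.shift 1 2), rhd7d824b585272535] (by decide +kernel))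
noncomputable def rhd56b5b075adad191 : CRef := CRef.mk (Pat.mk 0xe00000010 0x380000001f00000038 4 6) 0 0 (step_sound _ 32 [rh00b22401a0bf2d5e, rh96851dee118c1ba3] (by decide +kernel))
noncomputable def rh5dcde5558a8b47c7 : CRef := CRef.mk (Pat.mk 0x40000000700000004000000000000000000000000 0x4000000040000000f0000003c0000000c0000000800000008 4 6) 0 0 (step_sound _ 99 [(rh4a0b10776449c3e9.shift 0 3), (rh70e33bfdf511e144.shift 2 0), (rh80c6ec4ccb40d96b.shift 0 1)] (by decide +kernel))
noncomputable def rh74d4d656fb784e22 : CRef := CRef.mk (Pat.mk 0x1f00000004 0x180000003f00000076 4 7) 0 0 (step_sound _ 67 [(rh33e738c4ed385b9f.shift 0 1), (rh9ab60d74117ac343.shift 1 0)] (by decide +kernel))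
noncomputable def rh385f4b79f5a221b0 : CRef := CRef.mk (Pat.mk 0x20000001a000000020000000000000001 0x50000000f0000001a000000020000000300000001 4 5) 0 0 (step_sound _ 33 [(rh330a005829cdd297.shift 0 1), rh79877ebd3ef475dd] (by decide +kernel))
noncomputable def rhe1f2078909fd6fe3 : CRef := CRef.mk (Pat.mk 0x60000001a0000000200000000 0x100000001000000010000000f0000001b0000000200000002 4 5) 0 0 (step_sound _ 96 [(rhd6e447e81774439e.shift 0 2), rhf9a6286f1d5377a2] (by decide +kernel))
noncomputable def rhdf23c9fd8bfa40f3 : CRef := CRef.mk (Pat.mk 0x60000000200000003000000000000000100000000 0x4000000070000000300000003000000020000000300000003 4 3) 0 0 (step_sound _ 65 [(rh2f68792b6b779e96.shift 1 2), rh752c9303f297f9fa] (by decide +kernel))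
noncomputable def rh94c570dcecc2e246 : CRef := CRef.mk (Pat.mk 0x200000002000000030000000400000000 0x1000000030000000300000002000000030000000700000004 4 3) 0 0 (step_sound _ 33 [(rh55afc6a59410cf00.shift 1 0), (rhd2c74283b7b6e6b8.shift 0 1)] (by decide +kernel))
noncomputable def rha213947929d1259e : CRef := CRef.mk (Pat.mk 0x100000001e00000000 0x1b0000001f00000038 4 6) 0 0 (step_sound _ 65 [rh2ebbcfe90e0f250d, (rh3244c3cc8379b070.shift 0 1)] (by decide +kernel))
noncomputable def rh53b7ce6480e4adea : CRef := CRef.mk (Pat.mk 0x7c00000008 0x7000000ff00000018 4 8) 0 0 (step_sound _ 65 [rh2c47ddc722046413, (rh3f8766e6ecb455ce.shift 1 1)] (by decide +kernel))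
noncomputable def rha5535e81987b32a5 : CRef := CRef.mk (Pat.mk 0x180000003e00000000 0x18000000fe000000e3 4 8) 0 0 (step_sound _ 1 [(rh0cb6a409506b34ea.shift 2 0), rheb0810cc63b001d8] (by decide +kernel))
noncomputable def rh131a9c3873f7ba3d : CRef := CRef.mk (Pat.mk 0x180000003e00000000 0x1b000000fe000000e0 4 8) 0 0 (step_sound _ 65 [(rh0cb6a409506b34ea.shift 2 0), (rh3244c3cc8379b070.shift 0 1)] (by decide +kernel))
noncomputable def rhcc321edaf6e867ef : CRef := CRef.mk (Pat.mk 0x10000000180000001a0000001800000000 0x1000000018000000fb000000ff00000020 4 8) 0 0 (step_sound _ 70 [(rh4993a143108122af.shift 0 1), (rh509847d0837ffcc5.shift 3 0), (rhb7616ccf0736ebbe.shift 2 1)] (by decide +kernel))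
noncomputable def rh93c86be5f7caa3c7 : CRef := CRef.mk (Pat.mk 0x20000001c0000000200000000 0x200000002000000030000003e0000000600000004 4 6) 0 0 (step_sound _ 65 [(rh3244c3cc8379b070.shift 0 2), (rh6224572d868f7c64.shift 1 0)] (by decide +kernel))
noncomputable def rh8e0e393e9a7a206b : CRef := CRef.mk (Pat.mk 0x20000000000000006000000050000000000000000 0x2000000020000000300000007000000070000000100000001 4 3) 0 0 (step_sound _ 129 [(rh2145e1d24b96a57e.shift 1 2), rh3743dbe66b959104] (by decide +kernel))
noncomputable def rheccc3d313762d6ee : CRef := CRef.mk (Pat.mk 0xa0000000a000000020000000100000000 0x50000000f0000001a000000020000000300000001 4 5) 0 0 (step_sound _ 33 [rh932754581e0f4330, (rhefe6a054a8eff004.shift 0 1)] (by decide +kernel))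
noncomputable def rh6c3178ed5be3176e : CRef := CRef.mk (Pat.mk 0x4000000100000001c0000000a00000000 0x400000004000000370000001e0000000a00000002 4 6) 0 0 (step_sound _ 98 [(rh2145e1d24b96a57e.shift 2 1), rhcb11e3e6c99d2a56] (by decide +kernel))
noncomputable def rh5b82b5a57c5d15a6 : CRef := CRef.mk (Pat.mk 0x8000000080000000e0000000100000000 0x8000000380000001e0000003300000010 4 6) 0 0 (step_sound _ 68 [(rh625dde73e665edc8.shift 1 0), (rh80fcd6d0a18cb2dd.shift 0 1)] (by decide +kernel))
noncomputable def rh779ca6482bfd6299 : CRef := CRef.mk (Pat.mk 0x6000000060000000300000002 0x2000000020000000300000007000000070000000300000003 4 3) 0 0 (step_sound _ 96 [rh3e7f2ba771ddcb65, rh50fbb5868c909700] (by decide +kernel))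
noncomputable def rh97457c7ea50eb2c2 : CRef := CRef.mk (Pat.mk 0x1e00000018 0x70000003e0000001f 4 6) 0 0 (step_sound _ 65 [rh157c5ae8e36c309a, (rh3244c3cc8379b070.shift 0 1)] (by decide +kernel))
noncomputable def rha07d2257d78bf998 : CRef := CRef.mk (Pat.mk 0x3c000000000000000400000000 0x70000003e000000060000000400000004 4 6) 0 0 (step_sound _ 66 [rh3998ad7415607566, (rheb0810cc63b001d8.shift 1 2)] (by decide +kernel))
noncomputable def rhdf0df2f0929ca131 : CRef := CRef.mk (Pat.mk 0x8000000180000000800000006 0x800000008000000380000003f00000006 4 6) 0 0 (step_sound _ 34 [(rh5c5e593799055d58.shift 2 0), rh81d2c071e021c2e9] (by decide +kernel))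
noncomputable def rhd5a80ed044ea829f : CRef := CRef.mk (Pat.mk 0x1c000000000000001a00000010 0x3c000000070000003e00000030 4 6) 0 0 (step_sound _ 34 [(rh78b6f51a89d5db79.shift 0 1), (rhe25b0a99195a5d59.shift 1 0)] (by decide +kernel))
noncomputable def rh5071b7ab31767948 : CRef := CRef.mk (Pat.mk 0x8000000080000000c0000000d00000000 0x40000000c0000000c0000001c0000000f0000000a 4 5) 0 0 (step_sound _ 130 [(rh50fbb5868c909700.shift 2 1), rhefaad809f4caea7c] (by decide +kernel))
noncomputable def rhc2306452995c7da8 : CRef := CRef.mk (Pat.mk 0x140000003c00000000 0x1c0000007f00000070 4 7) 0 0 (step_sound _ 5 [rh79a931acdfeba449, (rhe25b0a99195a5d59.shift 2 0)] (by decide +kernel))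
noncomputable def rhe7c2f0302ee00949 : CRef := CRef.mk (Pat.mk 0x8000000080000000c0000000d00000000 0x8000000080000001e0000007f00000010 4 7) 0 0 (step_sound _ 33 [(rh33e738c4ed385b9f.shift 0 1), (rh36d4d92ef3dad5f8.shift 1 0)] (by decide +kernel))
noncomputable def rh415dafe8159bbbea : CRef := CRef.mk (Pat.mk 0x200000001c0000000400000004 0x200000002000000370000001e0000000400000004 4 6) 0 0 (step_sound _ 65 [rh1c1037cb5b3fe471, (rh428265de8cd3cd2d.shift 1 2)] (by decide +kernel))
noncomputable def rhbbda6ce5fdbfe8e9 : CRef := CRef.mk (Pat.mk 0x100000000e0000000200000002 0x4000000370000003e0000000200000002 4 6) 0 0 (step_sound _ 68 [(rh33e738c4ed385b9f.shift 1 2), rh7b3460ecbfb1f98e] (by decide +kernel))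
noncomputable def rh872134d73af78881 : CRef := CRef.mk (Pat.mk 0x200000001000000010000000000000000 0x200000002000000030000000300000003000000030000000100000001 4 2) 0 0 (step_sound _ 161 [rh53c798c09177b7db, (rh751f91025c6ba4fe.shift 0 2), (rhd918c3fd221dc9f8.shift 0 1), rhe83f0679b86b6627] (by decide +kernel))
noncomputable def rhc6ac83766f709e95 : CRef := CRef.mk (Pat.mk 0x1c00000020 0x70000003e00000070 4 7) 0 0 (step_sound _ 37 [rhd1d05263fabc0227, (rhe25b0a99195a5d59.shift 2 0)] (by decide +kernel))
noncomputable def rh2e85506c45dc5ada : CRef := CRef.mk (Pat.mk 0x80000000a00000010000000000000000000000000 0x8000000080000000f0000007c000000180000001000000010 4 7) 0 0 (step_sound _ 99 [(rh174a767562f03570.shift 0 3), (rh70e33bfdf511e144.shift 3 0)] (by decide +kernel))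
noncomputable def rh5c20e88f02f0c9cc : CRef := CRef.mk (Pat.mk 0xf0000000400000000 0x800000008000000180000000f0000001c00000004 4 5) 0 0 (step_sound _ 99 [(rh33e738c4ed385b9f.shift 0 2), rh40d24e690d449e99] (by decide +kernel))
noncomputable def rh6ba71bd3f0c5a3b8 : CRef := CRef.mk (Pat.mk 0x100000001000000030000000080000000000000000 0x100000001c0000007c0000000f0000000800000008 4 7) 0 0 (step_sound _ 99 [(rh2820ca9a6c4f41b4.shift 0 2), (rh4905ac576375a3ff.shift 2 1), (rhf9af042da61fc652.shift 3 0)] (by decide +kernel))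
noncomputable def rh55971d098fc122af : CRef := CRef.mk (Pat.mk 0x1e00000006000000040000000400000000 0x300000001f0000003e0000000c0000000c00000008 4 6) 0 0 (step_sound _ 35 [(rh55afc6a59410cf00.shift 2 0), (rhadf9cce17c84b0f3.shift 0 1)] (by decide +kernel))
noncomputable def rhb5aebc126187b5a1 : CRef := CRef.mk (Pat.mk 0x4000000040000000e0000000200000000 0x4000000070000001e0000003300000002 4 6) 0 0 (step_sound _ 68 [rh2ffd087f462feead, (rheb0810cc63b001d8.shift 0 1)] (by decide +kernel))
noncomputable def rh5c7c2cfbe82ee90f : CRef := CRef.mk (Pat.mk 0x80000001e0000000000000000 0x800000008000000080000001f0000003800000010 4 6) 0 0 (step_sound _ 36 [rh9829995db81e3f2a, (rhe25b0a99195a5d59.shift 1 1)] (by decide +kernel))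
noncomputable def rh9182d06c5b964f41 : CRef := CRef.mk (Pat.mk 0x800000018000000180000001000000000 0x100000001800000018000000380000001f0000000c 4 6) 0 0 (step_sound _ 35 [rh6fae963f33cfdfd7, (rh84d1c02a8954c6a8.shift 3 0)] (by decide +kernel))
noncomputable def rh0920a52f960a76d1 : CRef := CRef.mk (Pat.mk 0xc000000070000000200000000 0x4000000040000000c0000000f0000001e00000008 4 5) 0 0 (step_sound _ 130 [(rh5c5e593799055d58.shift 1 1), rh7a30c616a3ea814b] (by decide +kernel))
noncomputable def rh349e5a357b692685 : CRef := CRef.mk (Pat.mk 0x40000000c0000000c000000080000000000000000 0xc0000000c0000003c0000000f0000000600000004 4 6) 0 0 (step_sound _ 66 [(rh1e309b005ffa1b36.shift 2 0), (rha71afc656c87d410.shift 0 1)] (by decide +kernel))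
noncomputable def rhb4ca93a306b8d63c : CRef := CRef.mk (Pat.mk 0x80000001e000000040000000000000000 0x8000000080000000f0000001e000000040000000400000004 4 5) 0 0 (step_sound _ 129 [(rh3244c3cc8379b070.shift 0 3), (rhf9366b6a121593ef.shift 2 0)] (by decide +kernel))
noncomputable def rhd74a3f322305cac2 : CRef := CRef.mk (Pat.mk 0x1a000000060000000400000000 0x3000000030000001e000000060000000600000004 4 5) 0 0 (step_sound _ 129 [(rh2145e1d24b96a57e.shift 1 1), rhb857dcc7a1c85f55] (by decide +kernel))
noncomputable def rha21939080728ccea : CRef := CRef.mk (Pat.mk 0x1000000030000000040000003800000000 0x100000003c0000000f0000003c00000008 4 6) 0 0 (step_sound _ 65 [(rh09d4dfe75d4407d6.shift 1 1), rhddac4485108ceff1] (by decide +kernel))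
noncomputable def rh00038e3aab2bc85d : CRef := CRef.mk (Pat.mk 0x40000000400000003000000020000000000000000 0x1000000050000000700000003000000030000000200000002 4 3) 0 0 (step_sound _ 33 [(rh1006c02ae4212ff0.shift 1 1), rhf9a6286f1d5377a2] (by decide +kernel))
noncomputable def rh1aee1081b23e5c96 : CRef := CRef.mk (Pat.mk 0x1000000030000000040000003800000000 0x100000003c0000000f0000007800000008 4 7) 0 0 (step_sound _ 67 [rh8083d2db72f0a501, (rhf48373e13d2bc128.shift 2 1)] (by decide +kernel))
noncomputable def rh511871bd0daf518c : CRef := CRef.mk (Pat.mk 0x20000003400000000 0x70000003e00000007 4 6) 0 0 (step_sound _ 35 [rh00b511fddce6f168, (rh3f8766e6ecb455ce.shift 1 1)] (by decide +kernel))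
noncomputable def rhda9478efade17cc2 : CRef := CRef.mk (Pat.mk 0x1800000018000000120000003400000000 0x180000001f0000001f0000003400000004 4 6) 0 0 (step_sound _ 66 [rh65a2a8f7d1e06dad, (rhc10214bf3fe8094a.shift 1 1)] (by decide +kernel))
noncomputable def rh44759aa664900c04 : CRef := CRef.mk (Pat.mk 0x100000001000000010000000120000003400000000 0x1000000010000000100000001b0000003e00000007 4 6) 0 0 (step_sound _ 35 [rh00b511fddce6f168, (rh79877ebd3ef475dd.shift 3 1)] (by decide +kernel))
noncomputable def rh43696dd4ebb6926f : CRef := CRef.mk (Pat.mk 0x8000000080000000a0000001800000000 0x800000008000000080000001b0000001f00000004 4 5) 0 0 (step_sound _ 34 [(rh58bb6555c3c5e5ba.shift 0 1), (rh932754581e0f4330.shift 2 0)] (by decide +kernel))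
noncomputable def rh214f7b8225467f65 : CRef := CRef.mk (Pat.mk 0x800000008000000080000000e00000000 0x800000008000000080000000f0000003e00000010 4 6) 0 0 (step_sound _ 66 [rh58f49594b41e4958, (rh5c5e593799055d58.shift 2 1)] (by decide +kernel))
noncomputable def rhf53875c1e166dcb6 : CRef := CRef.mk (Pat.mk 0x80000001800000018000000140000000000000000 0x8000000180000001f0000003c0000000400000004 4 6) 0 0 (step_sound _ 34 [rh24cb449492be2f84, (rheea67dfebd0f8008.shift 2 1)] (by decide +kernel))
noncomputable def rh100b847b610d9c3f : CRef := CRef.mk (Pat.mk 0x1800000018000000140000000000000000 0x8000000080000001c0000001f000000340000000400000004 4 6) 0 0 (step_sound _ 163 [(rh2145e1d24b96a57e.shift 3 2), rh5ebad06bfebbcc6e] (by decide +kernel))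
noncomputable def rhf3fa90e4f34dc431 : CRef := CRef.mk (Pat.mk 0xc0000000c0000000e0000000000000000 0xc0000000c0000003e0000000700000006 4 6) 0 0 (step_sound _ 34 [(rh71222050f2c63a3a.shift 2 0), rhea6d74bc2b985bd7] (by decide +kernel))
noncomputable def rh9309a626035d1b3b : CRef := CRef.mk (Pat.mk 0x20000000600000006000000010000000000000000 0x1000000030000000700000006000000030000000300000002 4 3) 0 0 (step_sound _ 65 [rh674dd4f5f6cca5c0, (rh932754581e0f4330.shift 0 1)] (by decide +kernel))
noncomputable def rhd67e7e690f8ff017 : CRef := CRef.mk (Pat.mk 0x1c0000001c000000080000000c00000000 0x30000001f0000001c0000000c0000001c00000010 4 5) 0 0 (step_sound _ 36 [(rh55afc6a59410cf00.shift 3 0), (rh8f4c920c37cd7688.shift 0 1)] (by decide +kernel))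
noncomputable def rh2459533fc287d7d6 : CRef := CRef.mk (Pat.mk 0x700000007000000020000000200000000 0x20000000700000007000000070000000700000005 4 3) 0 0 (step_sound _ 32 [rh932754581e0f4330, rhe868a141a849ed8f] (by decide +kernel))
noncomputable def rh1c7377849cff9458 : CRef := CRef.mk (Pat.mk 0xc000000080000000e0000000400000000 0x20000000f0000003c0000000e0000003c00000018 4 6) 0 0 (step_sound _ 98 [(rhcf85c92937975d4d.shift 0 1), (rhea41988f7b5d84ca.shift 1 0)] (by decide +kernel))
noncomputable def rh5fd02d1ea8227619 : CRef := CRef.mk (Pat.mk 0xc000000080000000e00000004 0x4000000060000000f0000003c0000000e00000006 4 6) 0 0 (step_sound _ 66 [(rh37d9ceebb86d75d1.shift 1 0), rhcf85c92937975d4d] (by decide +kernel))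
noncomputable def rhd401560aa661b4cd : CRef := CRef.mk (Pat.mk 0x200000002000000060000000200000000 0x1000000030000000300000002000000060000000700000001 4 3) 0 0 (step_sound _ 32 [(rh3da62da861143b9a.shift 0 1), rh932754581e0f4330] (by decide +kernel))
noncomputable def rhaee1b6b76f9e3678 : CRef := CRef.mk (Pat.mk 0x40000000e0000001a0000000800000000 0xe0000000e0000001a0000000f00000006 4 5) 0 0 (step_sound _ 33 [rh3f69e10535d86375, (rh71222050f2c63a3a.shift 1 0)] (by decide +kernel))
noncomputable def rhe25aa37e1656baa0 : CRef := CRef.mk (Pat.mk 0xc0000001a00000000 0xc0000007e00000077 4 7) 0 0 (step_sound _ 37 [rh6902d1f2e59e31e0, (rhf48373e13d2bc128.shift 2 1)] (by decide +kernel))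
noncomputable def rh7226533da7c31f0a : CRef := CRef.mk (Pat.mk 0xa0000000c0000000400000004 0x2000000020000007a0000001f0000000600000004 4 7) 0 0 (step_sound _ 65 [(rha11dfd15f08f96e3.shift 0 2), (rhe072fffdd2fccf38.shift 1 0)] (by decide +kernel))
noncomputable def rh7d46edadae5d2a38 : CRef := CRef.mk (Pat.mk 0x400000006000000040000000400000000 0x80000003c0000000f000000040000000400000004 4 6) 0 0 (step_sound _ 131 [rh1a34acb628d8bc6d, (rh2f68792b6b779e96.shift 2 1)] (by decide +kernel))
noncomputable def rhbfaaa14803e9d0cc : CRef := CRef.mk (Pat.mk 0x1a0000000c 0x70000007e0000007c 4 7) 0 0 (step_sound _ 37 [(rh18965a982d73c794.shift 2 0), rh845e6e71a4239e6a] (by decide +kernel))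
noncomputable def rh03df0bf72897c3a4 : CRef := CRef.mk (Pat.mk 0x80000001e0000000e0000000000000000 0x20000000b0000001e0000003e0000000400000004 4 6) 0 0 (step_sound _ 68 [rh1805d4d225594aed, (rhf48373e13d2bc128.shift 1 2)] (by decide +kernel))
noncomputable def rha514de3160b4b01e : CRef := CRef.mk (Pat.mk 0x80000000a0000001c000000000000000000000000 0x8000000080000000b0000001e0000000c0000000400000004 4 5) 0 0 (step_sound _ 66 [(rh5c5e593799055d58.shift 2 2), rhe0763fdc2d4b8725] (by decide +kernel))
noncomputable def rh2f90d0283ff8b6d8 : CRef := CRef.mk (Pat.mk 0x1c000000100000000400000038 0x30000001e00000034000000060000003c 4 6) 0 0 (step_sound _ 97 [rh28626621c96ee67e, (rhe25b0a99195a5d59.shift 1 2)] (by decide +kernel))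
noncomputable def rha7c572416bb141da : CRef := CRef.mk (Pat.mk 0x180000001800000014 0x1e0000007f00000036 4 7) 0 0 (step_sound _ 34 [(rha83d0a1d851c6a27.shift 1 0), rhf56e6bc5d2f7fe77] (by decide +kernel))
noncomputable def rhd0c1377a218fed40 : CRef := CRef.mk (Pat.mk 0x2000000060000000200000002000000020000000000000000 0x100000003000000060000000600000002000000060000000600000004 4 3) 0 0 (step_sound _ 192 [(rh50fbb5868c909700.shift 0 3), (rh8c3839f9b9075f23.shift 1 0)] (by decide +kernel))
noncomputable def rh04a0a6d6a6d7ba9a : CRef := CRef.mk (Pat.mk 0x1800000010000000040000003c00000000 0x30000001e000000fc000000040000003e00000007 4 8) 0 0 (step_sound _ 130 [(rh6289f4ac4c624f40.shift 0 1), rh927d5f9300832d4e, (rhc21a95c499b3efdb.shift 1 3)] (by decide +kernel))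
noncomputable def rh160d38d49b900fad : CRef := CRef.mk (Pat.mk 0x8000000080000000a0000000c00000000 0x800000008000000080000001b0000001f00000010 4 5) 0 0 (step_sound _ 36 [(rh55afc6a59410cf00.shift 3 0), (rh58bb6555c3c5e5ba.shift 0 1)] (by decide +kernel))
noncomputable def rh2d63caf237ebca99 : CRef := CRef.mk (Pat.mk 0x40000000f0000000d0000000000000000 0x1c0000000f0000000f0000001800000018 4 5) 0 0 (step_sound _ 35 [rh3e0d73136cf00326, (rh7b1f1fb55310c477.shift 2 0)] (by decide +kernel))
noncomputable def rh7bec90963910ddfd : CRef := CRef.mk (Pat.mk 0xf00000001 0x180000001f0000003b 4 6) 0 0 (step_sound _ 67 [(rh33e738c4ed385b9f.shift 0 1), rhf3baec4a0a3dd35e] (by decide +kernel))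
noncomputable def rh87315b72b14f32fb : CRef := CRef.mk (Pat.mk 0x8000000000000001c0000001e 0x1800000018000000300000001f0000001e 4 6) 0 0 (step_sound _ 33 [rh3244c3cc8379b070, (rh4d8d614e03a7f6ad.shift 1 0)] (by decide +kernel))
noncomputable def rh7bb83ee4d3f999ba : CRef := CRef.mk (Pat.mk 0x8000000000000001e00000016 0x1800000018000000300000001f0000001e 4 6) 0 0 (step_sound _ 3 [rh3244c3cc8379b070, (rh4d8d614e03a7f6ad.shift 1 0)] (by decide +kernel))
noncomputable def rhb77b11edaa200ee8 : CRef := CRef.mk (Pat.mk 0x400000038000000080000000000000000 0x4000000040000001c0000001f00000038000000080000000800000008 4 6) 0 0 (step_sound _ 131 [(rh668fc65514a55b16.shift 2 0), (rhb1a251d9bff81766.shift 2 1), (rhc02b3aee7ab87ee1.shift 0 3)] (by decide +kernel))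
noncomputable def rh06c30badca0e2643 : CRef := CRef.mk (Pat.mk 0x180000007800000000 0xf80000007f00000007 4 8) 0 0 (step_sound _ 34 [(rh9890f9d77740bbed.shift 2 1), (rhab2ad169e49f9c5e.shift 0 1), rhcc2be1f880c5ea3e] (by decide +kernel))
noncomputable def rh0332da129f4e58ac : CRef := CRef.mk (Pat.mk 0xc0000000c0000001800000000 0x140000003c0000000f0000001800000008 4 6) 0 0 (step_sound _ 65 [(rhb739f4f82bb681b4.shift 0 1), (rhc7baa1f2c07bff1b.shift 1 0)] (by decide +kernel))
noncomputable def rh799a2147a4227d0c : CRef := CRef.mk (Pat.mk 0xa000000080000000c0000000400000000 0x60000001f0000007c0000000c0000000c00000008 4 7) 0 0 (step_sound _ 130 [(rh5f4b53094806b88a.shift 1 0), (rh8ee80cc30e93a344.shift 0 3)] (by decide +kernel))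
noncomputable def rh4dada0759b7e9b31 : CRef := CRef.mk (Pat.mk 0x400000010000000180000000b0000000800000000 0x80000000c0000000c00000018000000180000001b0000001e00000014 4 5) 0 0 (step_sound _ 131 [rh5045a7dd3c2710bf, (rh52b6d936d37b9b6a.shift 2 2), (rh5410b6b3ceda500c.shift 2 1)] (by decide +kernel))
noncomputable def rh162bb8541b6d45d2 : CRef := CRef.mk (Pat.mk 0x100000001c00000008 0x330000001f00000038 4 6) 0 0 (step_sound _ 33 [rh1c6244244cb1af79, (rh33e738c4ed385b9f.shift 1 1)] (by decide +kernel))
noncomputable def rh725f0051efd686b2 : CRef := CRef.mk (Pat.mk 0x1000000010000000100000001000000010000000200000000 0x100000001000000030000000300000003000000010000000300000003 4 2) 0 0 (step_sound _ 32 [rh551f36dd2a96f0b0, rh55afc6a59410cf00] (by decide +kernel))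
noncomputable def rh9194fc15b00cfe56 : CRef := CRef.mk (Pat.mk 0x300000002000000020000001c00000000 0x100000003000000020000003a0000001f00000001 4 6) 0 0 (step_sound _ 33 [(rh50fbb5868c909700.shift 0 1), rh85839873d0f77248] (by decide +kernel))
noncomputable def rh28aac2b3a6f7b41e : CRef := CRef.mk (Pat.mk 0xe00000004000000000000000f00000000 0xf0000003c000000780000003f00000070 4 7) 0 0 (step_sound _ 36 [(rh35e918dd76851f8c.shift 1 0), (rh9890f9d77740bbed.shift 0 1), rhc40b91cc658c04b0] (by decide +kernel))
noncomputable def rh8240505af6fe2d4d : CRef := CRef.mk (Pat.mk 0x400000008000000180000000e00000000 0x40000000f0000001e0000000e0000000a 4 5) 0 0 (step_sound _ 98 [rh76860ba85bb00b71, (rh7b1f1fb55310c477.shift 2 0)] (by decide +kernel))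
noncomputable def rh62646291a870a8bb : CRef := CRef.mk (Pat.mk 0x8000000080000001c0000000000000000 0x8000000080000000f0000003c0000000400000004 4 6) 0 0 (step_sound _ 34 [rh24a794e6acc35618, (rh5c5e593799055d58.shift 2 1)] (by decide +kernel))
noncomputable def rh529b253133b0eafd : CRef := CRef.mk (Pat.mk 0x4000000040000001e0000000000000000 0x4000000070000001e0000003300000002 4 6) 0 0 (step_sound _ 97 [(rh3244c3cc8379b070.shift 0 2), rha12011b5de94d698] (by decide +kernel))
noncomputable def rh0b19184f694fb092 : CRef := CRef.mk (Pat.mk 0x80000001c00000010 0x380000001f00000033 4 6) 0 0 (step_sound _ 33 [rh5ed29a68bdd76cd6, (rhe25b0a99195a5d59.shift 1 0)] (by decide +kernel))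
noncomputable def rh4021166e51d1fb8a : CRef := CRef.mk (Pat.mk 0x1c00000004000000140000000e 0x120000001e000000340000001c0000000f 4 6) 0 0 (step_sound _ 97 [rh273bf63065fffa35, (rh50fbb5868c909700.shift 1 0)] (by decide +kernel))
noncomputable def rh174e40dcef10aa99 : CRef := CRef.mk (Pat.mk 0x1a00000010000000000000003c 0x30000001e00000034000000060000003c 4 6) 0 0 (step_sound _ 34 [(rh3244c3cc8379b070.shift 1 0), rhcf7a8bf02a398215] (by decide +kernel))
noncomputable def rhcbc9db666e255849 : CRef := CRef.mk (Pat.mk 0x2000000020000000200000006 0x50000000700000006000000020000000600000006 4 3) 0 0 (step_sound _ 129 [rh6ae4a25ccd36a5ab, (rhd3458b32566d63f7.shift 1 0)] (by decide +kernel))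
noncomputable def rhaa91b64744410bc4 : CRef := CRef.mk (Pat.mk 0x7000000040000000e00000000 0xf0000003e0000003f00000070 4 7) 0 0 (step_sound _ 36 [(rh308e802c1186176c.shift 0 1), (rh75c6fff53e4cbd6e.shift 1 0)] (by decide +kernel))
noncomputable def rh09cecbb56272cec8 : CRef := CRef.mk (Pat.mk 0x380000001c00000000 0x400000004000000070000003f0000007c00000008 4 7) 0 0 (step_sound _ 66 [(rh5c2ddd300f751bae.shift 1 1), (rhba89ab7cb81bcc90.shift 0 1), (rhbdb8dfd08861fbf7.shift 1 0)] (by decide +kernel))
noncomputable def rh0e127fc81175aae6 : CRef := CRef.mk (Pat.mk 0x4000000000000001c0000000e 0x600000006000000030000001f0000003e 4 6) 0 0 (step_sound _ 33 [rh5c2ddd300f751bae, rhc6719c6594e47b00] (by decide +kernel))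
noncomputable def rhdae3c159087517a8 : CRef := CRef.mk (Pat.mk 0x6000000070000000a 0x400000004000000070000001f0000001b 4 5) 0 0 (step_sound _ 35 [rhe0e08a37546027f0, rhe25b0a99195a5d59] (by decide +kernel))
noncomputable def rh16ddc676cfb27a1e : CRef := CRef.mk (Pat.mk 0x1e000000060000000000000000 0x2000000330000001e000000060000000400000004 4 6) 0 0 (step_sound _ 132 [(rh33e738c4ed385b9f.shift 1 3), rh38a0850c9fea941e] (by decide +kernel))
noncomputable def rhfaf1c550164acf9d : CRef := CRef.mk (Pat.mk 0x40000001e0000000e0000000000000000 0x70000001e0000001e0000000300000003 4 5) 0 0 (step_sound _ 129 [(rh3244c3cc8379b070.shift 0 3), rh98dcf83e06bbd9f9] (by decide +kernel))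
noncomputable def rh1946672786d2d4df : CRef := CRef.mk (Pat.mk 0x40000000e000000080000000c00000000 0x40000001e0000007b0000001f00000002 4 7) 0 0 (step_sound _ 33 [rh3d1e6d4570311f9e, (rha11dfd15f08f96e3.shift 0 1), (rhbe364b29d623b14d.shift 0 1)] (by decide +kernel))
noncomputable def rhaf94d02cceb17c14 : CRef := CRef.mk (Pat.mk 0x80000001e000000160000000000000000 0x20000000b0000001e000000160000001400000014 4 5) 0 0 (step_sound _ 129 [(rh3244c3cc8379b070.shift 0 3), (rhd99271f568c380bc.shift 1 0)] (by decide +kernel))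
noncomputable def rha313e5a3965a1803 : CRef := CRef.mk (Pat.mk 0x60000000e000000120000000000000000 0x60000000f0000001e0000000300000003 4 5) 0 0 (step_sound _ 67 [(rhb739f4f82bb681b4.shift 0 2), rhe58a7845769190f3] (by decide +kernel))
noncomputable def rhf0def4d398a0beee : CRef := CRef.mk (Pat.mk 0xc0000001e00000000 0xc0000007e00000037 4 7) 0 0 (step_sound _ 4 [(rhe25b0a99195a5d59.shift 1 0), rhf10fa853c2693a25] (by decide +kernel))
noncomputable def rh7cdc0d12d032f0e7 : CRef := CRef.mk (Pat.mk 0xc0000000e000000080000001c00000000 0x80000000c0000000e0000001b0000001f00000002 4 5) 0 0 (step_sound _ 68 [rh00d9b181c423bdea, (rh2145e1d24b96a57e.shift 3 1)] (by decide +kernel))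
noncomputable def rhb50b7a7e5bc2b52c : CRef := CRef.mk (Pat.mk 0x80000001e0000000000000000 0x800000008000000080000001f0000003800000010 4 6) 0 0 (step_sound _ 36 [rh289d0c6aea675c87, (rhe25b0a99195a5d59.shift 1 1)] (by decide +kernel))
noncomputable def rhd7aca4f81ef05d59 : CRef := CRef.mk (Pat.mk 0x4000000380000001c00000000 0x8000000080000000f0000003c0000001c00000004 4 6) 0 0 (step_sound _ 97 [(rh09d4dfe75d4407d6.shift 1 2), rh8bd555bf7b11e1f1] (by decide +kernel))
noncomputable def rh94d112e14e7db675 : CRef := CRef.mk (Pat.mk 0x100000001000000010000000700000000 0x30000000300000003000000030000000700000005 4 3) 0 0 (step_sound _ 129 [(rh2f68792b6b779e96.shift 0 1), rhbedfcb340972cad3] (by decide +kernel))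
noncomputable def rh81fc6b770b9d26d2 : CRef := CRef.mk (Pat.mk 0x200000003c000000100000000000000000 0x200000003e000000370000001000000010 4 6) 0 0 (step_sound _ 36 [(rh71222050f2c63a3a.shift 4 0), (rhb2432c16363a7e8d.shift 0 2)] (by decide +kernel))
noncomputable def rh256e543a815a6d4c : CRef := CRef.mk (Pat.mk 0x1000000018000000380000000000000000 0x1000000018000000780000001f00000008 4 7) 0 0 (step_sound _ 35 [(rh71222050f2c63a3a.shift 3 0), (rhf0f55c4504412200.shift 0 1)] (by decide +kernel))
noncomputable def rh66837eb0d9652cee : CRef := CRef.mk (Pat.mk 0xc00000014000000140000000400000000 0x20000000f0000001c000000140000001400000014 4 5) 0 0 (step_sound _ 99 [(rh71222050f2c63a3a.shift 2 0), rhf09f14e58e90af3a] (by decide +kernel))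
noncomputable def rhd8ea9957838569ec : CRef := CRef.mk (Pat.mk 0x1c0000000c0000000000000008 0x400000004000000040000001c0000000f0000000a00000008 4 5) 0 0 (step_sound _ 65 [(rh4b4dde78fe1cd3e6.shift 1 0), (rh53b3c253cb0c65f4.shift 0 2)] (by decide +kernel))
noncomputable def rh05cafac317bd78b2 : CRef := CRef.mk (Pat.mk 0x100000001c0000001000000000 0x800000008000000180000001f0000003000000010 4 6) 0 0 (step_sound _ 65 [rh25ec400f5d5d81da, (rhe25b0a99195a5d59.shift 1 1)] (by decide +kernel))
noncomputable def rh1e5c947400197b91 : CRef := CRef.mk (Pat.mk 0x200000006000000160000000000000000 0x400000006000000060000001e0000000700000007 4 5) 0 0 (step_sound _ 34 [(rh7b1f1fb55310c477.shift 1 0), rhd47e89a378d0962e] (by decide +kernel))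
noncomputable def rh8124dcd7bfca2d26 : CRef := CRef.mk (Pat.mk 0x200000006000000160000000000000000 0x20000000600000006000000060000001e0000000300000003 4 5) 0 0 (step_sound _ 161 [(rh2145e1d24b96a57e.shift 1 2), rhd47e89a378d0962e] (by decide +kernel))
noncomputable def rhe82f19749b22633d : CRef := CRef.mk (Pat.mk 0x1a000000160000000400000000 0x8000000080000001b0000001e0000003400000010 4 6) 0 0 (step_sound _ 67 [(rh3244c3cc8379b070.shift 0 2), (rh98c388e5d73ac446.shift 1 0)] (by decide +kernel))
noncomputable def rh50dd76a5815aa3e4 : CRef := CRef.mk (Pat.mk 0xf0000000b0000000200000000 0x40000001c0000000f0000000b0000001e00000018 4 5) 0 0 (step_sound _ 131 [(rh33e738c4ed385b9f.shift 0 3), rha90bc5aa2308a5a8] (by decide +kernel))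
noncomputable def rh9237e43f157d762c : CRef := CRef.mk (Pat.mk 0xb0000000c0000000800000000 0xc0000001c0000000f0000000c0000000c0000000c 4 5) 0 0 (step_sound _ 98 [rh34b1188e635efc8d, (rhfc7c29d8e65d775f.shift 2 0)] (by decide +kernel))
noncomputable def rhaa3375a4cdea04ee : CRef := CRef.mk (Pat.mk 0xf00000006 0x380000003f0000001e 4 6) 0 0 (step_sound _ 3 [rh9462503d16fc4086, rhf48373e13d2bc128] (by decide +kernel))
noncomputable def rh87df661bbaffebd1 : CRef := CRef.mk (Pat.mk 0x8000000090000000e0000000c 0x60000001e0000000b0000001e0000000c 4 5) 0 0 (step_sound _ 65 [rh219bc6cd81a44066, (rhf48373e13d2bc128.shift 0 1)] (by decide +kernel))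
noncomputable def rhe2e9b1e85360a054 : CRef := CRef.mk (Pat.mk 0x8000000180000007800000020 0x140000001f00000038000000780000002c 4 7) 0 0 (step_sound _ 100 [(rh2145e1d24b96a57e.shift 4 0), rh6362893e0e4892a2] (by decide +kernel))
noncomputable def rh3ed9ffe6c1eb7294 : CRef := CRef.mk (Pat.mk 0x2000000060000001e00000000 0x30000000300000003000000060000001e00000003 4 5) 0 0 (step_sound _ 1 [rh7b9fbdf6d2d059e4, rheb0810cc63b001d8] (by decide +kernel))
noncomputable def rh2e3eab673aa82be1 : CRef := CRef.mk (Pat.mk 0x2000000030000000f0000000c00000000 0xd0000001f000000070000000f0000000e0000000a 4 5) 0 0 (step_sound _ 130 [rh823293f69a08ad12, rh9bd2bb1b625e8a7e, (rhda6cc5da102e1723.shift 2 0)] (by decide +kernel))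
noncomputable def rh98b7c4761887259c : CRef := CRef.mk (Pat.mk 0x90000000e0000000c 0x18000000180000000f0000001e0000000c 4 5) 0 0 (step_sound _ 65 [rh6b315ff015ab736a, (rhf48373e13d2bc128.shift 0 1)] (by decide +kernel))
noncomputable def rh4739f52aca242488 : CRef := CRef.mk (Pat.mk 0xc000000080000000e0000000c 0x130000001f0000003a0000000e0000000c 4 6) 0 0 (step_sound _ 100 [rh0d838079ea817434, (rh2f68792b6b779e96.shift 3 0)] (by decide +kernel))
noncomputable def rh61b5ccd5a9704a7e : CRef := CRef.mk (Pat.mk 0x400000003000000070000000400000000 0x70000000700000003000000070000000600000002 4 3) 0 0 (step_sound _ 129 [(rh2145e1d24b96a57e.shift 1 1), rh9bd2bb1b625e8a7e] (by decide +kernel))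
noncomputable def rh75258bcdae870cc0 : CRef := CRef.mk (Pat.mk 0xc00000014000000040000001c00000000 0x20000000f0000001c0000001c0000001c00000010 4 5) 0 0 (step_sound _ 129 [(rh50fbb5868c909700.shift 1 1), rhb3e242ae9b4f2f49] (by decide +kernel))
noncomputable def rhd8fd028f3f683295 : CRef := CRef.mk (Pat.mk 0x60000001e0000001000000000 0x400000004000000060000001f0000001b00000002 4 5) 0 0 (step_sound _ 35 [rh031a926e4a883687, (rhb739f4f82bb681b4.shift 0 1)] (by decide +kernel))
noncomputable def rh689ef61e4bf91e6d : CRef := CRef.mk (Pat.mk 0x8000000080000000e0000000800000000 0x140000001c000000180000000f0000000800000008 4 5) 0 0 (step_sound _ 132 [(rh2f68792b6b779e96.shift 3 1), rheb3114fe5f0388b0] (by decide +kernel))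
noncomputable def rh12845aa71a6eb5ac : CRef := CRef.mk (Pat.mk 0x8000000080000000e0000000800000000 0x40000000c0000003c0000000f0000000800000008 4 6) 0 0 (step_sound _ 130 [(rh50fbb5868c909700.shift 2 1), rh8f60d479c90def20] (by decide +kernel))
noncomputable def rhefa8641932084a4c : CRef := CRef.mk (Pat.mk 0x200000001c 0x770000003e 4 7) 0 0 (step_sound _ 5 [(rh33e738c4ed385b9f.shift 2 0), rh7fb660bc21ce4329] (by decide +kernel))
noncomputable def rh7eb864e4e2865b39 : CRef := CRef.mk (Pat.mk 0x100000001e0000000c0000000000000000 0x4000000170000003e0000000c0000000800000008 4 6) 0 0 (step_sound _ 35 [(rh71222050f2c63a3a.shift 3 0), (rhe08f4ad8851692f6.shift 0 1)] (by decide +kernel))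
noncomputable def rhbdcbb3084811bc33 : CRef := CRef.mk (Pat.mk 0x100000000e0000000c0000000000000000 0x140000001c0000000f0000000c0000000800000008 4 5) 0 0 (step_sound _ 131 [(rh53b3c253cb0c65f4.shift 0 3), (rh9bd2bb1b625e8a7e.shift 2 0)] (by decide +kernel))
noncomputable def rh11433ab998d7d753 : CRef := CRef.mk (Pat.mk 0xf000000070000000200000000 0x4000000040000000f0000001f0000001a00000008 4 5) 0 0 (step_sound _ 67 [rh33bed325bf166500, (rhf48373e13d2bc128.shift 0 2)] (by decide +kernel))
noncomputable def rhdaa2181e4ab8a5f9 : CRef := CRef.mk (Pat.mk 0x380000001c00000008 0x14000000360000003f0000001c00000008 4 6) 0 0 (step_sound _ 100 [(rh5c5e593799055d58.shift 3 0), rhec27e8300e40ac9e] (by decide +kernel))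
noncomputable def rh8236c88a764114ac : CRef := CRef.mk (Pat.mk 0x120000001e00000004 0x2000000030000001e0000003f00000004 4 6) 0 0 (step_sound _ 67 [rh3f1f65112e81949f, (rh53b3c253cb0c65f4.shift 0 1)] (by decide +kernel))
noncomputable def rhb4704b31e9978721 : CRef := CRef.mk (Pat.mk 0x100000001e0000000c0000000000000000 0x4000000170000003e0000000c0000000800000008 4 6) 0 0 (step_sound _ 35 [(rh65c117df1b3d9104.shift 0 1), (rh71222050f2c63a3a.shift 3 0)] (by decide +kernel))
noncomputable def rh2f411bb559b57a2c : CRef := CRef.mk (Pat.mk 0x400000004000000140000001e00000000 0x80000000c0000000c0000001c0000001f00000030 4 6) 0 0 (step_sound _ 67 [(rh53b3c253cb0c65f4.shift 0 1), (rh822a66c22e949fd4.shift 1 0)] (by decide +kernel))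
noncomputable def rhc26f75b0009aa44a : CRef := CRef.mk (Pat.mk 0x80000000c0000000c0000000400000000 0x6000000060000000f0000003c0000000e0000000600000002 4 6) 0 0 (step_sound _ 130 [(rh7b9fbdf6d2d059e4.shift 1 1), (rh925a1628dd8a50da.shift 1 0), (rhcf85c92937975d4d.shift 0 1)] (by decide +kernel))
noncomputable def rh585b4491d33f8d69 : CRef := CRef.mk (Pat.mk 0x40000000e000000070000000000000000 0x40000000e0000003f0000001b0000000a 4 6) 0 0 (step_sound _ 33 [rh6448cb8e0bc77fe5, (rh71222050f2c63a3a.shift 1 0)] (by decide +kernel))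
noncomputable def rhf1d8b8bf8fe4c6a6 : CRef := CRef.mk (Pat.mk 0xc0000000e000000000000000000000000 0x40000000c0000000c0000003e000000070000000600000004 4 6) 0 0 (step_sound _ 66 [(rhbfa5ae416edbb4ba.shift 0 1), (rhea7a1800d6f053bd.shift 2 0)] (by decide +kernel))
noncomputable def rh53930224ef8d2b8b : CRef := CRef.mk (Pat.mk 0x8000000090000000e0000000800000000 0x40000001c0000000f0000001e0000000800000008 4 5) 0 0 (step_sound _ 97 [rhbd38afdbffc3d24e, (rhf48373e13d2bc128.shift 0 2)] (by decide +kernel))
noncomputable def rh799ef6644158bd5b : CRef := CRef.mk (Pat.mk 0x2000000020000000300000003000000000000000000000000 0x100000003000000030000000300000003000000060000000600000006 4 3) 0 0 (step_sound _ 65 [(rh3ca48e2a6d60153d.shift 0 2), rh820d4e04d5dcd02e] (by decide +kernel))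
noncomputable def rh064d8acd4183ad75 : CRef := CRef.mk (Pat.mk 0x8000000180000001e00000018 0x30000000380000001f0000001e00000018 4 6) 0 0 (step_sound _ 100 [(rh2f68792b6b779e96.shift 3 0), rhf9bd4bdd448a5193] (by decide +kernel))
noncomputable def rhadf021de2743063e : CRef := CRef.mk (Pat.mk 0x80000001c0000001800000000 0x800000008000000080000003c0000001f00000004 4 6) 0 0 (step_sound _ 131 [(rh2145e1d24b96a57e.shift 3 1), rhd65e52c5f80caa3b] (by decide +kernel))
noncomputable def rh6391ced9b880e9b8 : CRef := CRef.mk (Pat.mk 0x8000000180000001e00000008 0x10000000380000001f0000003e00000008 4 6) 0 0 (step_sound _ 100 [(rh2f68792b6b779e96.shift 3 0), (rh870359598daa9f92.shift 0 1)] (by decide +kernel))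
noncomputable def rha248679c8c70f575 : CRef := CRef.mk (Pat.mk 0x100000001e000000020000000000000000 0x4000000040000001e0000007f000000060000000200000002 4 7) 0 0 (step_sound _ 130 [(rh3c7a7cc8605c9967.shift 1 1), (rhadf429772c25fde0.shift 1 0), (rhd1b8a9f57b921e3c.shift 0 3)] (by decide +kernel))
noncomputable def rh1cfde5e461caf7c8 : CRef := CRef.mk (Pat.mk 0x40000000e0000000f00000000 0x600000006000000060000000e0000000f00000005 4 4) 0 0 (step_sound _ 130 [rh18b49738f4e5d343, (rh2145e1d24b96a57e.shift 2 1)] (by decide +kernel))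
noncomputable def rhd4a5ae313722113d : CRef := CRef.mk (Pat.mk 0x200000000000000020000000300000002 0x1000000070000000700000006000000030000000300000002 4 3) 0 0 (step_sound _ 97 [(rh44f453b84f013105.shift 1 0), (rhe62cab2ff5ad6fe2.shift 0 1)] (by decide +kernel))
noncomputable def rhed9fa2a4bcc848be : CRef := CRef.mk (Pat.mk 0x1c000000080000000000000004 0x30000003f0000003f0000000400000004 4 6) 0 0 (step_sound _ 97 [rh61d35a2c96d183e9, (rha03f6e28ea70fc7d.shift 0 2)] (by decide +kernel))
noncomputable def rhe1e2ed3c138a9421 : CRef := CRef.mk (Pat.mk 0xe000000040000000000000008 0x300000003f0000003f0000000800000008 4 6) 0 0 (step_sound _ 100 [(rhaf9f2efc81a8312b.shift 0 2), rhfca9438864b0a63a] (by decide +kernel))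
noncomputable def rh1e6db4fed28ca580 : CRef := CRef.mk (Pat.mk 0x800000038000000180000000000000000 0x40000000f0000003f0000001f0000000800000008 4 6) 0 0 (step_sound _ 98 [(rh583cd2949503eb8f.shift 0 2), (rhba89ab7cb81bcc90.shift 0 2), (rhe8ba5e25e7c74702.shift 1 0)] (by decide +kernel))
noncomputable def rhece16f90c09cfc87 : CRef := CRef.mk (Pat.mk 0xc0000000c000000040000000600000000 0xc0000000c0000000f0000003e00000038 4 6) 0 0 (step_sound _ 35 [rh0839eefd3cc00e67, (rh55afc6a59410cf00.shift 2 0)] (by decide +kernel))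
noncomputable def rhac9cbcbee43d660a : CRef := CRef.mk (Pat.mk 0xe0000001e000000000000000000000000 0xa0000000e0000001e000000070000000600000006 4 5) 0 0 (step_sound _ 65 [(rhe0b6922e710db782.shift 1 0), (rheb0810cc63b001d8.shift 0 2)] (by decide +kernel))
noncomputable def rhc50f11260b687fdd : CRef := CRef.mk (Pat.mk 0x100000001c0000000800000008 0x400000004000000370000003e0000000c00000008 4 6) 0 0 (step_sound _ 65 [(rh33e738c4ed385b9f.shift 1 2), rhb9bf88d3275d2f60] (by decide +kernel))
noncomputable def rh2e5758df0d15f6e4 : CRef := CRef.mk (Pat.mk 0x40000003c00000002 0xec0000007e00000003 4 8) 0 0 (step_sound _ 0 [(rh790acd67f4fffd04.shift 2 1), rhca9569cc80abfe76] (by decide +kernel))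
noncomputable def rh0bd78183c5d99a0d : CRef := CRef.mk (Pat.mk 0x40000003c00000002 0xc0000007e000000e3 4 8) 0 0 (step_sound _ 0 [(rh60e95adc726bb530.shift 2 0), rhca9569cc80abfe76] (by decide +kernel))
noncomputable def rh8363cb2812f7a1f1 : CRef := CRef.mk (Pat.mk 0x4000000070000000c00000000 0x20000000e0000000e0000003c0000000f0000000e00000006 4 6) 0 0 (step_sound _ 130 [(rh03dfdf12d5937476.shift 1 0), (rh65909b08999dc522.shift 1 1), rhd45977ee1dd9c7e0] (by decide +kernel))
noncomputable def rh449509f64d9b5dec : CRef := CRef.mk (Pat.mk 0x4000000070000000c000000000000000000000000 0x80000003c0000000f0000000e0000000e0000000e0000000e 4 6) 0 0 (step_sound _ 66 [(rh1afe2a495de0c9aa.shift 1 0), (rh3181373a30ceb9e3.shift 1 0), (rh55ff3d990152394d.shift 0 1), (rh684e729394fba19d.shift 0 2)] (by decide +kernel))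
noncomputable def rhe444acc7624ec294 : CRef := CRef.mk (Pat.mk 0x380000001c000000000000000000000000 0x780000003f0000007c000000060000000400000004 4 7) 0 0 (step_sound _ 130 [(rh79b3c29022acbdf3.shift 1 3), (rh92e8f86a47ca4f2b.shift 1 0), (rhe25191970535449e.shift 0 3)] (by decide +kernel))
noncomputable def rh0f39790b47b16fa7 : CRef := CRef.mk (Pat.mk 0x1c0000000c000000080000000800000000 0x30000001f0000003c0000000c0000000c00000004 4 6) 0 0 (step_sound _ 34 [(rh32a4ece3e03161fd.shift 0 1), (rh932754581e0f4330.shift 2 0)] (by decide +kernel))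
noncomputable def rh8cfe401bae60829f : CRef := CRef.mk (Pat.mk 0x1000000018000000380000000000000000 0xc0000001e000000780000003f0000000e0000000c 4 7) 0 0 (step_sound _ 131 [(rh1fb2830c3f2c259b.shift 1 0), (rh8f1158d9f5036793.shift 1 0), (rhf2314cb4a4676849.shift 0 1)] (by decide +kernel))
noncomputable def rhd6ab3b5f6660ff13 : CRef := CRef.mk (Pat.mk 0x1c0000000800000008 0x1000000010000000380000001f0000003800000008 4 6) 0 0 (step_sound _ 100 [(rh5dec5e73a267a1c4.shift 0 1), (rhbfb5770941270498.shift 3 0), (rheb4949bdfa5025cf.shift 3 0)] (by decide +kernel))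
noncomputable def rh019ca8406bd10e18 : CRef := CRef.mk (Pat.mk 0x1e0000000800000008 0x10000000300000001e0000003b00000008 4 6) 0 0 (step_sound _ 32 [(rh80fcd6d0a18cb2dd.shift 0 1), (rhbbda3e5cf400e6dd.shift 1 0)] (by decide +kernel))
noncomputable def rh20e6a7af749d3769 : CRef := CRef.mk (Pat.mk 0x1e0000000c 0x70000007e0000003c 4 7) 0 0 (step_sound _ 4 [rh771383521b68d2cd, (rhf48373e13d2bc128.shift 1 0)] (by decide +kernel))
noncomputable def rha16732076a6944c8 : CRef := CRef.mk (Pat.mk 0xc0000000700000004000000000000000000000000 0x60000000e0000000f0000003c0000000e0000000e00000002 4 6) 0 0 (step_sound _ 66 [(rh2d5442cbf338480d.shift 1 1), (rh8aec56c4ee12918c.shift 1 0), (rhd0d5331b79c7defe.shift 0 1), (rhe286c75f2739cce2.shift 1 1)] (by decide +kernel))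
noncomputable def rhcf09044ce26472e1 : CRef := CRef.mk (Pat.mk 0x4000000070000000400000000 0xa0000000e0000000e000000040000000f0000003c00000008 4 6) 0 0 (step_sound _ 130 [(rh7ef5fa5c39f1c762.shift 1 1), rhd9397e4126e81439] (by decide +kernel))
noncomputable def rh6ebfbe2a71d1c76c : CRef := CRef.mk (Pat.mk 0x100000000e00000000 0x380000001f00000038 4 6) 0 0 (step_sound _ 32 [(rh428265de8cd3cd2d.shift 0 1), rhbd5c3a2a033faccf] (by decide +kernel))
noncomputable def rh3be0a94983e82c2d : CRef := CRef.mk (Pat.mk 0x20000000a0000001e000000000000000000000000 0x2000000020000000e0000001e000000070000000400000004 4 5) 0 0 (step_sound _ 64 [(rh235edbdf3bbc6c03.shift 1 0), (rh80fcd6d0a18cb2dd.shift 0 2)] (by decide +kernel))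
noncomputable def rh5c153366bfa59d0f : CRef := CRef.mk (Pat.mk 0x100000001c00000000 0x380000001f00000038 4 6) 0 0 (step_sound _ 33 [rh2ebbcfe90e0f250d, (rh33e738c4ed385b9f.shift 1 1)] (by decide +kernel))
noncomputable def rh2e3d5de6d81b6e20 : CRef := CRef.mk (Pat.mk 0x8000000380000000c00000000 0x40000000c0000000c0000000f0000003c0000001c00000018 4 6) 0 0 (step_sound _ 131 [rh987b780eda1b16be, (rha54302d5ccf5246c.shift 2 1), (rhd4b4beefcd67f51e.shift 3 0)] (by decide +kernel))
noncomputable def rh8f73153b706e41e8 : CRef := CRef.mk (Pat.mk 0x8000000380000000c000000000000000000000000 0x40000000f0000003c0000001c0000001c0000001c0000001c 4 6) 0 0 (step_sound _ 67 [(rh283da7982e0ab792.shift 2 0), (rh29245de5933fbe8d.shift 1 1), (rh3181373a30ceb9e3.shift 2 0), (rh53509d91ff78ed56.shift 0 2)] (by decide +kernel))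
noncomputable def rh329ecf290f5e6ec5 : CRef := CRef.mk (Pat.mk 0x40000000e00000009 0xe0000007e0000000f 4 7) 0 0 (step_sound _ 36 [(rh46231ab7bfd17f40.shift 1 0), rh80fcd6d0a18cb2dd] (by decide +kernel))
noncomputable def rh12e8650b5b234176 : CRef := CRef.mk (Pat.mk 0x40000000e0000001c000000000000000000000000 0x60000000e0000001c0000000f0000000e00000004 4 5) 0 0 (step_sound _ 67 [rh65110719f316d635, (rh7b1f1fb55310c477.shift 2 1)] (by decide +kernel))
noncomputable def rh35a0bf0845304006 : CRef := CRef.mk (Pat.mk 0x20000000700000006000000000000000000000000 0x300000003000000030000000700000006000000030000000300000003 4 3) 0 0 (step_sound _ 65 [rh40241bd608e5be1a, (rh90b823c913a425e8.shift 0 2), rhbb83b53687587fb2] (by decide +kernel))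
noncomputable def rh4b914407e7e47c77 : CRef := CRef.mk (Pat.mk 0x2000000060000000e00000000 0x20000000200000002000000060000003f00000039 4 6) 0 0 (step_sound _ 129 [(rh2145e1d24b96a57e.shift 1 1), rh81d56d6aa95e54dc] (by decide +kernel))
noncomputable def rh29ee05cdb3fe74bc : CRef := CRef.mk (Pat.mk 0x800000018000000180000000c00000000 0x8000000380000001f0000003f00000010 4 6) 0 0 (step_sound _ 36 [(rh7b1f1fb55310c477.shift 3 0), (rha02530f8badfbba5.shift 0 1)] (by decide +kernel))
noncomputable def rh6f40afde8c328292 : CRef := CRef.mk (Pat.mk 0x80000003c00000002 0xec0000007e00000003 4 8) 0 0 (step_sound _ 0 [(rhb6f72982232a8164.shift 2 1), rhca9569cc80abfe76] (by decide +kernel))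
noncomputable def rhd69b822472924509 : CRef := CRef.mk (Pat.mk 0x1c0000000e0000000400000000 0xe0000000f0000001c0000000e0000000600000002 4 5) 0 0 (step_sound _ 131 [(rh5c5e593799055d58.shift 2 1), rhd4ae1995e458b8b0] (by decide +kernel))
noncomputable def rhd193448ee9d702f0 : CRef := CRef.mk (Pat.mk 0x600000007000000020000000000000000 0x300000003000000030000000600000007000000030000000300000003 4 3) 0 0 (step_sound _ 161 [(rh03dfdf12d5937476.shift 0 1), (rh90b823c913a425e8.shift 0 2), rhbb83b53687587fb2] (by decide +kernel))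
noncomputable def rh855f024a01e88439 : CRef := CRef.mk (Pat.mk 0x1e00000014 0x70000007f0000001c 4 7) 0 0 (step_sound _ 3 [rh771383521b68d2cd, rhb739f4f82bb681b4] (by decide +kernel))
noncomputable def rha211d0403d724572 : CRef := CRef.mk (Pat.mk 0x100000001a000000380000000000000000 0xc0000000c0000001f0000001b0000003f0000000e00000008 4 6) 0 0 (step_sound _ 131 [(rh38c0839969445246.shift 0 1), rh3a8c39a005159e2c, (rhfb64ba5458f5c134.shift 2 0)] (by decide +kernel))
noncomputable def rh8f2e720eec3705ed : CRef := CRef.mk (Pat.mk 0xc000000180000001800000008 0x100000003f0000001f0000003800000008 4 6) 0 0 (step_sound _ 100 [(rh2f68792b6b779e96.shift 3 0), (rh4151cdc63c0644d2.shift 0 1)] (by decide +kernel))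
noncomputable def rh9860ef7cc22ed3c8 : CRef := CRef.mk (Pat.mk 0xe00000006000000020000000000000000 0x390000003f00000006000000020000000200000002 4 6) 0 0 (step_sound _ 33 [(rh71222050f2c63a3a.shift 1 0), (rh77fcd6e96530338f.shift 0 1)] (by decide +kernel))
noncomputable def rh338d520748c847d4 : CRef := CRef.mk (Pat.mk 0x1c00000008 0x700000003f0000003f 4 7) 0 0 (step_sound _ 33 [rha03f6e28ea70fc7d, rhdd4fe9fd28ed4c0f] (by decide +kernel))
noncomputable def rhf3492ef03bd1d80c : CRef := CRef.mk (Pat.mk 0xe0000000800000008 0x10000000770000003e0000003f00000008 4 7) 0 0 (step_sound _ 68 [(rh56f43794bcf10c2f.shift 0 1), (rhbbda3e5cf400e6dd.shift 1 0), (rhdd4fe9fd28ed4c0f.shift 0 1), (rhf94411b389c3e54c.shift 0 2)] (by decide +kernel))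
noncomputable def rh5862860910126169 : CRef := CRef.mk (Pat.mk 0x1c00000000 0xef0000007e0000000f 4 8) 0 0 (step_sound _ 37 [rh2cc7d62e70c02209, (rh56f43794bcf10c2f.shift 1 0), (rhdd4fe9fd28ed4c0f.shift 1 0), (rhf94411b389c3e54c.shift 1 1)] (by decide +kernel))
noncomputable def rh2a6642618d0784fe : CRef := CRef.mk (Pat.mk 0x80000001c00000000 0x3f0000003f00000070 4 7) 0 0 (step_sound _ 33 [rh2eb6cac0fecf3e9c, (rhec46bd5500c722c9.shift 0 1)] (by decide +kernel))
noncomputable def rhdd0295a9044f09ad : CRef := CRef.mk (Pat.mk 0x8000000080000000e000000000000000000000000 0x80000001f0000003e000000770000001000000010 4 7) 0 0 (step_sound _ 100 [(rh2eb6cac0fecf3e9c.shift 0 2), (rh56f43794bcf10c2f.shift 0 2), (rh8db7f7558b75b2b1.shift 0 2), (rhd132b680030c88e0.shift 1 0)] (by decide +kernel))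
end Crest.Agent.S0047.Helper85.Cert
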