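import Crest.Agent.Lib.S0047.Helper85CertPL4F0
import Crest.Agent.Lib.S0047.Helper85CertPL4F1
import Crest.Agent.Lib.S0047.Helper85CertPL4F2
import Crest.Agent.Lib.S0047.Helper85CertPL4F3
import Crest.Agent.Lib.S0047.Helper85CertPL4F4
import Crest.Agent.Lib.S0047.Helper85CertPL4F5
import Crest.Agent.Lib.S0047.Helper85CertPL4F6
import Crest.Agent.Lib.S0047.Helper85CertPL4F7
import Crest.Agent.Lib.S0047.Helper85CertPL4F8
import Crest.Agent.Lib.S0047.Helper85CertPL4F9
set_option autoImplicit false
set_option linter.all false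
set_option Elab.async false
namespace Crest.Agent.S0047.Helper85.Cert
open Crest.Agent.S0047.Helper85

noncomputable def rhf0561682bb684ebc : CRef := CRef.mk (Pat.mk 0x2000000020000000300000000 0x1000000030000000300000002000000060000000700000005 5 3) 0 0 (step_sound _ 129 [rh5abfc4c9d959be03, rh932754581e0f4330] (by decide +kernel))
noncomputable def rh373528e2a88da97e : CRef := CRef.mk (Pat.mk 0x140000000e000000000000000000000000 0x80000001e0000007f000000700000001000000010 5 7) 0 0 (step_sound _ 131 [(rh53b3c253cb0c65f4.shift 0 3), (rh8720d8615d26237c.shift 1 0)] (by decide +kernel))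
noncomputable def rh054eec66bdc88820 : CRef := CRef.mk (Pat.mk 0x40000000e000000020000000000000000 0x4000000040000000c0000001f0000007a0000000800000008 5 7) 0 0 (step_sound _ 162 [(rh5c5e593799055d58.shift 1 2), rhc32688944b7f7dbb] (by decide +kernel))
noncomputable def rhdd09290f7b9a6b86 : CRef := CRef.mk (Pat.mk 0x20000000000000006000000070000000000000000 0x60000000e0000003c0000001f000000070000000400000004 5 6) 0 0 (step_sound _ 130 [(rh16567ae718d9fd54.shift 1 2), rh9d7eecd03247998a] (by decide +kernel))
noncomputable def rh5c7a728efd46786b : CRef := CRef.mk (Pat.mk 0xc0000000e0000000800000000 0x1800000018000000180000000c0000000f0000001800000010 5 5) 0 0 (step_sound _ 36 [(rh4c60faed9e5f228f.shift 2 0), (rhb739f4f82bb681b4.shift 0 1)] (by decide +kernel))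
noncomputable def rh217b08859d1b3da1 : CRef := CRef.mk (Pat.mk 0x20000000e0000000c0000000000000000 0x80000007e0000000f0000000c0000000400000004 5 7) 0 0 (step_sound _ 34 [(rh411646f6a841c00f.shift 0 1), (rh7b1f1fb55310c477.shift 1 0)] (by decide +kernel))
noncomputable def rhe7a5ce759d0851aa : CRef := CRef.mk (Pat.mk 0x20000000e00000007000000000000000000000000 0x60000000f0000003f0000003c0000000c00000008 5 6) 0 0 (step_sound _ 66 [(rh7b1f1fb55310c477.shift 1 1), rh8720d8615d26237c] (by decide +kernel))
noncomputable def rha06847d8752fa06c : CRef := CRef.mk (Pat.mk 0x1000000010000000180000001800000000 0xc0000001f00000038000000180000001800000010 5 6) 0 0 (step_sound _ 131 [rh3f018065b6b6dc8a, (rh50fbb5868c909700.shift 3 1)] (by decide +kernel))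
noncomputable def rhdc8c05ba9d0622cf : CRef := CRef.mk (Pat.mk 0x80000000a000000080000000800000000 0x8000000080000001f000000780000001800000010 5 7) 0 0 (step_sound _ 36 [(rh072ca38ca0a5522d.shift 0 1), (rh55afc6a59410cf00.shift 3 0)] (by decide +kernel))
noncomputable def rha24da5e2cde976c0 : CRef := CRef.mk (Pat.mk 0x4000000040000001c0000000c00000000 0x180000003c0000000f0000001c0000000c00000004 5 6) 0 0 (step_sound _ 131 [(rh2f68792b6b779e96.shift 2 1), rh384e57f60b394a53] (by decide +kernel))
noncomputable def rh06309941c37f521d : CRef := CRef.mk (Pat.mk 0x180000003800000000 0x38000000ff0000000e 5 8) 0 0 (step_sound _ 38 [rhcef93a29c93c96c9, (rhf48373e13d2bc128.shift 3 1)] (by decide +kernel))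
noncomputable def rh99b7f9be74bfeae7 : CRef := CRef.mk (Pat.mk 0x10000000380000002000000008 0x1000000010000000180000007c0000002f00000008 5 7) 0 0 (step_sound _ 132 [(rh2145e1d24b96a57e.shift 4 1), rhb06e941809a8007f] (by decide +kernel))
noncomputable def rhda98f5cded33c272 : CRef := CRef.mk (Pat.mk 0xf00000002 0x380000003f00000076 5 7) 0 0 (step_sound _ 68 [(rh428265de8cd3cd2d.shift 0 1), (rh61ac970646979e5d.shift 1 0)] (by decide +kernel))
noncomputable def rh73f5f7cdf41b5bc9 : CRef := CRef.mk (Pat.mk 0x1c0000000200000000 0x400000004000000070000003e0000000300000002 5 6) 0 0 (step_sound _ 65 [rhaf661323c6e1d2ba, (rheb0810cc63b001d8.shift 0 1)] (by decide +kernel))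
noncomputable def rhb1e7e204f6df838b : CRef := CRef.mk (Pat.mk 0xe000000080000000a 0x1000000014000000370000003e0000001b0000000a 5 6) 0 0 (step_sound _ 68 [(rh94246470f0e6fdf7.shift 1 0), rh9b0cad5576ee35a9] (by decide +kernel))
noncomputable def rh8500cd69be4b12f2 : CRef := CRef.mk (Pat.mk 0x1c0000001000000010 0x2000000020000000770000003e0000001700000010 5 7) 0 0 (step_sound _ 69 [(rh49606a42a30c7ac4.shift 2 0), (rh592c7139d2c44767.shift 0 1)] (by decide +kernel))
noncomputable def rh32b30de8bbba4e94 : CRef := CRef.mk (Pat.mk 0xa000000080000000800000000 0x140000001c0000003c0000000f000000180000001800000010 5 6) 0 0 (step_sound _ 131 [(rh53141e54dc480be0.shift 0 1), (rh5abfc4c9d959be03.shift 2 0), (rhc85cc95794737cf7.shift 2 1), (rhced6d86d2069808b.shift 3 0)] (by decide +kernel))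
noncomputable def rh252cb171b47bf1e3 : CRef := CRef.mk (Pat.mk 0x600000002000000070000000c00000000 0x80000003e0000003e000000070000000c00000008 5 6) 0 0 (step_sound _ 98 [(rh55afc6a59410cf00.shift 2 0), (rhfec2a119712df0ef.shift 0 1)] (by decide +kernel))
noncomputable def rhccb3a79fd989e123 : CRef := CRef.mk (Pat.mk 0x2000000020000000600000002 0x1000000070000000700000006000000060000000600000002 5 3) 0 0 (step_sound _ 130 [(rh0a9f21384ef6efe7.shift 0 1), (rhbaefcd01e0a8bca3.shift 1 0)] (by decide +kernel))
noncomputable def rhfd5d85378354752d : CRef := CRef.mk (Pat.mk 0x600000004000000040000000400000000 0x80000003e00000007000000040000000600000006 5 6) 0 0 (step_sound _ 97 [rh38c692001887cc76, (rh7b1f1fb55310c477.shift 1 0)] (by decide +kernel))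
noncomputable def rh5bea1c72dfb63883 : CRef := CRef.mk (Pat.mk 0x18000000080000001800000018 0x24000000ff0000003c0000001800000018 5 8) 0 0 (step_sound _ 98 [(rh50fbb5868c909700.shift 2 0), rha89a299380c25f38] (by decide +kernel))
noncomputable def rhfc8f187c9dfd416e : CRef := CRef.mk (Pat.mk 0xc0000003800000020 0x7c0000003e00000067 5 7) 0 0 (step_sound _ 34 [rh5c75ef1ea170a9c9, (rhe25b0a99195a5d59.shift 2 0)] (by decide +kernel))
noncomputable def rh39721980bec152d6 : CRef := CRef.mk (Pat.mk 0x6000000140000001400000000 0x400000004000000060000003e0000003700000002 5 6) 0 0 (step_sound _ 67 [rhf4352fa3d803eb1c, (rhf48373e13d2bc128.shift 1 2)] (by decide +kernel))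
noncomputable def rhf5c9064e93a8e5d4 : CRef := CRef.mk (Pat.mk 0x7000000030000000000000004 0x180000001f0000001f0000000c00000004 5 5) 0 0 (step_sound _ 99 [(rh18965a982d73c794.shift 0 2), rh2859277a9ebbf43c] (by decide +kernel))
noncomputable def rh31b679a2a3cca353 : CRef := CRef.mk (Pat.mk 0x200000003000000020000000000000000 0x500000007000000070000000300000003000000030000000300000003 5 3) 0 0 (step_sound _ 161 [(rh03dfdf12d5937476.shift 0 1), (rhc85cc95794737cf7.shift 0 2), rhd1fa8140a3eb151f] (by decide +kernel))
noncomputable def rhbf0bf90fa53994cc : CRef := CRef.mk (Pat.mk 0x200000010000000140000001400000014 0x28000000380000003e00000037000000140000001400000014 5 6) 0 0 (step_sound _ 132 [(rh1741680720c097b4.shift 3 1), (rh44f453b84f013105.shift 4 0), (rh6d358513f5f5c93f.shift 1 0), rh8c39f7366bbb9df4] (by decide +kernel))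
noncomputable def rh70609e0125eacac1 : CRef := CRef.mk (Pat.mk 0x11000000080000000b0000000a 0x40000001f0000001d000000090000000b0000000a 5 5) 0 0 (step_sound _ 99 [(rh2f68792b6b779e96.shift 3 0), rh3821f27595b6ffa5] (by decide +kernel))
noncomputable def rh6e898b6e3328309f : CRef := CRef.mk (Pat.mk 0x200000010000000140000001400000010 0x280000003b0000003e00000034000000140000001400000010 5 6) 0 0 (step_sound _ 132 [(rh1741680720c097b4.shift 3 1), (rh3e44317e09a2fa76.shift 0 1), (rh44f453b84f013105.shift 4 0), (rh6d358513f5f5c93f.shift 1 0)] (by decide +kernel))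
noncomputable def rh0cc9c0ca431601b8 : CRef := CRef.mk (Pat.mk 0x200000002000000020000000200000002 0x3000000030000000700000006000000060000000600000002 5 3) 0 0 (step_sound _ 160 [rh7dd41af14d149511, (rhffd04209dc8ea796.shift 0 1)] (by decide +kernel))
noncomputable def rh4d813bfaa3e78a80 : CRef := CRef.mk (Pat.mk 0x400000008000000090000000b00000002 0x100000001c0000001f00000009000000090000000b00000002 5 5) 0 0 (step_sound _ 131 [rh12c8cd1d22ea440b, (rh50fbb5868c909700.shift 2 1)] (by decide +kernel))
noncomputable def rhd1e1ceb333a56828 : CRef := CRef.mk (Pat.mk 0x10000000090000000b0000000a 0x40000001f0000001d000000090000000b0000000a 5 5) 0 0 (step_sound _ 99 [(rh2f68792b6b779e96.shift 3 0), rhe5b3481b4f92c984] (by decide +kernel))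
noncomputable def rhd18828be79d827be : CRef := CRef.mk (Pat.mk 0xc0000002c00000020 0x7c0000003e00000067 5 7) 0 0 (step_sound _ 36 [rh5c75ef1ea170a9c9, (rhe25b0a99195a5d59.shift 2 0)] (by decide +kernel))
noncomputable def rhecc5d109a043e5d4 : CRef := CRef.mk (Pat.mk 0x1000000018000000180000001000000000 0xc0000001f00000038000000180000001800000008 5 6) 0 0 (step_sound _ 131 [(rh50fbb5868c909700.shift 3 1), rhae5f43e8a6821d5e] (by decide +kernel))
noncomputable def rh443551ddd324c10d : CRef := CRef.mk (Pat.mk 0xc00000038000000100000001800000000 0x40000000c000000380000001f0000001f00000004 5 6) 0 0 (step_sound _ 67 [(rh50fbb5868c909700.shift 2 1), rhb877d4918ed6ab68] (by decide +kernel))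
noncomputable def rh8c91dc3ace112e53 : CRef := CRef.mk (Pat.mk 0x8000000090000000f0000000800000000 0x120000001e0000000b0000001f0000000900000001 5 5) 0 0 (step_sound _ 97 [rh02189d8b3f10096b, (rhf48373e13d2bc128.shift 0 2)] (by decide +kernel))
noncomputable def rh66ec6f42cbc7e875 : CRef := CRef.mk (Pat.mk 0x200000003c00000020 0x500000007000000070000000200000003e00000037 5 7) 0 0 (step_sound _ 101 [rh0de499e0455c9c14, (rhc85cc95794737cf7.shift 4 0)] (by decide +kernel))
noncomputable def rh0f7592996b34cd67 : CRef := CRef.mk (Pat.mk 0x1000000010000000160000001700000001 0xb0000001e00000036000000160000001700000001 5 6) 0 0 (step_sound _ 129 [(rh3e44317e09a2fa76.shift 0 1), rhee230b994cc8b773] (by decide +kernel))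
noncomputable def rheaabd5a84de133d8 : CRef := CRef.mk (Pat.mk 0x800000010000000120000001300000001 0x20000000380000003e00000012000000120000001300000001 5 6) 0 0 (step_sound _ 132 [(rh50fbb5868c909700.shift 3 1), rh6f00e9497de31a2d] (by decide +kernel))
noncomputable def rh47091a2b392f4be8 : CRef := CRef.mk (Pat.mk 0xa00000010000000120000001c 0xb0000001e00000034000000160000003c 5 6) 0 0 (step_sound _ 100 [(rh50fbb5868c909700.shift 3 0), rha3a9ae4397383967] (by decide +kernel))
noncomputable def rh41d0c3389f36d9fc : CRef := CRef.mk (Pat.mk 0x200000010000000120000001200000010 0xc0000001e0000003b000000120000001200000010 5 6) 0 0 (step_sound _ 131 [(rhf028dcfba67001c0.shift 0 1), (rhffd04209dc8ea796.shift 3 0)] (by decide +kernel))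
noncomputable def rhdf7238ac894838d7 : CRef := CRef.mk (Pat.mk 0x100000007800000000 0x370000007e0000000f 5 7) 0 0 (step_sound _ 34 [rh775ca1963e850b80, (rheae1728ff4a56756.shift 1 0), (rhedf6b6c69a16cbd5.shift 0 1)] (by decide +kernel))
noncomputable def rha1aacb774a2b98b2 : CRef := CRef.mk (Pat.mk 0x40000000580000005c0000004000000000 0x90000000f0000000580000005f0000004800000008 5 8) 0 0 (step_sound _ 65 [(rh02189d8b3f10096b.shift 3 0), (rh53b3c253cb0c65f4.shift 0 2)] (by decide +kernel))
noncomputable def rha2e182fd6274be10 : CRef := CRef.mk (Pat.mk 0x400000003800000000 0x670000003e00000070 5 7) 0 0 (step_sound _ 34 [rh0d378fd9e8917c5a, (rh428265de8cd3cd2d.shift 2 1)] (by decide +kernel))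
noncomputable def rh4b7a031cbbef5be8 : CRef := CRef.mk (Pat.mk 0x1e0000001000000010 0x2000000020000000700000003e0000001700000010 5 7) 0 0 (step_sound _ 69 [(rh971b3ab80d822487.shift 1 0), (rh9890f9d77740bbed.shift 1 2), (rheae1728ff4a56756.shift 0 1)] (by decide +kernel))
noncomputable def rhdaf51d2c6458409f : CRef := CRef.mk (Pat.mk 0x200000006000000020000000000000000 0x500000007000000070000000600000006000000060000000600000004 5 3) 0 0 (step_sound _ 161 [(rh1741680720c097b4.shift 0 2), (rh6c59ce14113da07f.shift 1 0), (rhd4b4beefcd67f51e.shift 1 1)] (by decide +kernel))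
noncomputable def rh0b7bba6deeda2ac3 : CRef := CRef.mk (Pat.mk 0x38000000100000000000000000 0x2000000020000000770000003e000000700000001000000010 5 7) 0 0 (step_sound _ 98 [(rh4c622fddc53a5f99.shift 0 3), (rh4f8edb321cf5b49d.shift 0 2), (rha03f6e28ea70fc7d.shift 1 2), (rhd039e5a02ea548e4.shift 2 0)] (by decide +kernel))
noncomputable def rhc939a205c68c7915 : CRef := CRef.mk (Pat.mk 0x200000003000000020000000000000000 0x500000007000000070000000300000003000000030000000300000003 5 3) 0 0 (step_sound _ 161 [(rh03dfdf12d5937476.shift 0 1), (rh1741680720c097b4.shift 0 2), rhd1fa8140a3eb151f] (by decide +kernel))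
noncomputable def rh7539d725656f4a7b : CRef := CRef.mk (Pat.mk 0x1000000038000000000000000000000000 0x1000000010000000700000003e000000770000002000000020 5 7) 0 0 (step_sound _ 98 [(rh185f35b8bd8ec37f.shift 0 2), (rh65dcfd18fd55cba0.shift 2 0), (rhec46bd5500c722c9.shift 1 3)] (by decide +kernel))
noncomputable def rh01b886edb9b23012 : CRef := CRef.mk (Pat.mk 0x7c00000000 0x700000007f0000003c 5 7) 0 0 (step_sound _ 69 [(rh33e738c4ed385b9f.shift 2 1), rh6feecf28fd3d5237] (by decide +kernel))
noncomputable def rha4afa637f1fadb5e : CRef := CRef.mk (Pat.mk 0x18000000180000000a0000000c 0x70000001f0000001b0000000e0000000c 5 5) 0 0 (step_sound _ 98 [rh2e0f10d207746a3f, (rh50fbb5868c909700.shift 2 0)] (by decide +kernel))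
noncomputable def rh92e11a489b7e95f3 : CRef := CRef.mk (Pat.mk 0x8000000180000001e0000000800000000 0x60000000f0000001b0000001e0000000c00000004 5 5) 0 0 (step_sound _ 34 [(rh932754581e0f4330.shift 2 0), (rhb565b03594c9dec9.shift 0 1)] (by decide +kernel))
noncomputable def rhff6ece9e9c262963 : CRef := CRef.mk (Pat.mk 0x80000001a0000000a000000180000000000000000 0x60000000f0000001a0000000f0000001b0000000100000001 5 5) 0 0 (step_sound _ 161 [(rh876344954e856662.shift 0 2), rhe9e21535c03568b2] (by decide +kernel))
noncomputable def rhf2eb0d5b8c248a4e : CRef := CRef.mk (Pat.mk 0xa0000001a00000002000000000000000000000000 0x10000000f0000001b00000002000000030000000300000001 5 5) 0 0 (step_sound _ 160 [rh01483ff9cba2f6ac, (rhc10214bf3fe8094a.shift 0 4)] (by decide +kernel))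
noncomputable def rhceb5f5a915f974ce : CRef := CRef.mk (Pat.mk 0x200000002000000020000000000000000 0x500000007000000070000000300000003000000030000000300000001 5 3) 0 0 (step_sound _ 161 [(rh1741680720c097b4.shift 0 2), (rh20966da26a1c2ae8.shift 0 1), (rh771d065bdc85bf2d.shift 0 1), rhc4526fc8abf298b6] (by decide +kernel))
noncomputable def rhc9980783718588ac : CRef := CRef.mk (Pat.mk 0x200000002000000020000000000000000 0x500000007000000070000000600000003000000030000000300000001 5 3) 0 0 (step_sound _ 161 [(rh1741680720c097b4.shift 0 2), (rh20966da26a1c2ae8.shift 0 1), (rh771d065bdc85bf2d.shift 0 1), rhcab3157f7bdcba3e] (by decide +kernel))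
noncomputable def rh02e5b67989130615 : CRef := CRef.mk (Pat.mk 0xc0000001a000000020000001a0000000000000000 0xf0000001a000000020000001b0000000f00000005 5 5) 0 0 (step_sound _ 161 [(rhb739f4f82bb681b4.shift 0 4), rhbd7d57cbe6532a20] (by decide +kernel))
noncomputable def rh66d93aa3738235ba : CRef := CRef.mk (Pat.mk 0x400000004000000050000000500000000000000000000000000000000 0x400000005000000050000000700000007000000030000000200000002 5 3) 0 0 (step_sound _ 97 [rh027ca4baf779dc2f, (rh79877ebd3ef475dd.shift 1 3)] (by decide +kernel))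
noncomputable def rh2d30d7e3cbdc5593 : CRef := CRef.mk (Pat.mk 0x40000000c000000180000000c00000000 0x40000000e0000000f0000001a0000000f00000002 5 5) 0 0 (step_sound _ 97 [(rhb739f4f82bb681b4.shift 0 2), rhc7dec398d5b8dc4d] (by decide +kernel))
noncomputable def rhb9c383b3f0d7f2d9 : CRef := CRef.mk (Pat.mk 0x80000001c000000300000001800000000 0x20000000f0000001c000000340000001e0000000c 5 6) 0 0 (step_sound _ 34 [(rh53b3c253cb0c65f4.shift 1 1), rhd64445e5e724fed5] (by decide +kernel))
noncomputable def rhea7cc32a2d3e8797 : CRef := CRef.mk (Pat.mk 0x20000000200000002000000000000000400000000 0x1000000030000000300000002000000070000000700000001 5 3) 0 0 (step_sound _ 65 [rh6aa5625770489e83, (rhd3458b32566d63f7.shift 1 1)] (by decide +kernel))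
noncomputable def rha5e26d27d1f82a4a : CRef := CRef.mk (Pat.mk 0x3800000010 0x7000000fe000000ff 5 8) 0 0 (step_sound _ 34 [(rh300eedc557b86950.shift 2 0), rh775ca1963e850b80, (rha03f6e28ea70fc7d.shift 1 0), rhfcb55d5dc3b78d1f] (by decide +kernel))
noncomputable def rh8aa59ce1113d81fc : CRef := CRef.mk (Pat.mk 0x200000007c00000000 0x2000000020000000300000007e000000c7 5 8) 0 0 (step_sound _ 6 [rhb38bc124ef23f2b9, (rhe25b0a99195a5d59.shift 3 0)] (by decide +kernel))
noncomputable def rha6c7e115f731f46c : CRef := CRef.mk (Pat.mk 0x18000000180000000c0000000800000000 0x70000001f0000001c0000000c0000000c00000004 5 5) 0 0 (step_sound _ 130 [(rh50fbb5868c909700.shift 2 1), rh7c3e2b7b1cb7d416] (by decide +kernel))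
noncomputable def rh01ff8e29f1e0af53 : CRef := CRef.mk (Pat.mk 0x180000001800000018 0xc0000000f0000007c0000001800000018 5 7) 0 0 (step_sound _ 99 [(rh2145e1d24b96a57e.shift 3 0), rhca405e350c462817] (by decide +kernel))
noncomputable def rh2b5e38c9874764db : CRef := CRef.mk (Pat.mk 0x18000000180000000e0000000800000000 0x60000001f0000001b0000000e0000000c00000004 5 5) 0 0 (step_sound _ 130 [(rh50fbb5868c909700.shift 2 1), rhef20c9ef58765c2c] (by decide +kernel))
noncomputable def rhdf8d307afd4a5706 : CRef := CRef.mk (Pat.mk 0x180000001800000018 0xc0000000f0000007c0000001800000018 5 7) 0 0 (step_sound _ 99 [(rh2145e1d24b96a57e.shift 3 0), rh215fef6ef21eb5a3] (by decide +kernel))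
noncomputable def rha9a9dd876407ae9a : CRef := CRef.mk (Pat.mk 0x2000000020000000600000006000000000000000000000000 0x100000003000000030000000600000006000000030000000300000003 5 3) 0 0 (step_sound _ 192 [rh000f75110575adc4, (rh50fbb5868c909700.shift 0 3)] (by decide +kernel))
noncomputable def rhd61524e17d46b610 : CRef := CRef.mk (Pat.mk 0x180000001c0000000c0000000000000000 0x60000001f0000001c0000000c0000000c0000000c 5 5) 0 0 (step_sound _ 35 [rh5de875f4640ad7ae, (rh71222050f2c63a3a.shift 3 0)] (by decide +kernel))
noncomputable def rh1973362723cba897 : CRef := CRef.mk (Pat.mk 0x80000001e00000018 0x30000000300000003f0000001e00000018 5 6) 0 0 (step_sound _ 68 [(rh33e738c4ed385b9f.shift 1 1), rhff273d5184c43958] (by decide +kernel))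
noncomputable def rha13e131ffd3e4b47 : CRef := CRef.mk (Pat.mk 0x28000000080000000800000000 0x140000001c0000001f0000007c0000000c0000000c00000004 5 7) 0 0 (step_sound _ 131 [(rh1741680720c097b4.shift 2 1), (rh20966da26a1c2ae8.shift 2 0), (rh7430a052bcb4bacd.shift 0 1), (rh771d065bdc85bf2d.shift 2 0)] (by decide +kernel))
noncomputable def rhef3ba3c62dc7a15c : CRef := CRef.mk (Pat.mk 0x2000000020000000200000002000000100000000000000000 0x20000000200000002000000060000001f0000000700000001 5 5) 0 0 (step_sound _ 66 [rh3cd11341cd3f7ff5, (rhd3458b32566d63f7.shift 1 2)] (by decide +kernel))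
noncomputable def rh1659a3368b863534 : CRef := CRef.mk (Pat.mk 0x2000000020000000200000002000000000000001000000000 0x2000000020000000200000003000000070000001f00000004 5 5) 0 0 (step_sound _ 64 [rh2abf176b1416536f, (rh79877ebd3ef475dd.shift 0 2)] (by decide +kernel))
noncomputable def rhf33fda193be64554 : CRef := CRef.mk (Pat.mk 0x140000000400000004000000600000002000000000 0xa0000003e00000007000000040000006c0000003c00000008 5 7) 0 0 (step_sound _ 66 [(rh5a5471947f56f4c8.shift 0 2), (rhd43983cdd3dd9c09.shift 2 0)] (by decide +kernel))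
noncomputable def rhbd12c57242090754 : CRef := CRef.mk (Pat.mk 0x200000002000000020000000000000000 0x500000007000000070000000700000002000000030000000300000001 5 3) 0 0 (step_sound _ 161 [(rh1741680720c097b4.shift 0 2), rhc4526fc8abf298b6, rhcab3157f7bdcba3e] (by decide +kernel))
noncomputable def rhd0f5cf9487d9ed6c : CRef := CRef.mk (Pat.mk 0xe0000001e00000002 0x1300000013000000330000001e0000001e0000000e 5 6) 0 0 (step_sound _ 97 [rh3da62da861143b9a, (rh3e595262c1b737ad.shift 1 0), rh7b9fbdf6d2d059e4, rh7dc512b965165b81] (by decide +kernel))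
noncomputable def rh640b58c26ccf7566 : CRef := CRef.mk (Pat.mk 0x300000007800000000 0x8000000080000001f0000007c0000007800000010 5 7) 0 0 (step_sound _ 67 [(rh3244c3cc8379b070.shift 2 1), rh358a2de5fab0b376] (by decide +kernel))
noncomputable def rhce2dbe6d9b8586ea : CRef := CRef.mk (Pat.mk 0xa0000001a00000000 0x1000000010000000300000001f0000001b00000008 5 6) 0 0 (step_sound _ 66 [rh1caaa2a8ac000ecb, (rhb739f4f82bb681b4.shift 0 1)] (by decide +kernel))
noncomputable def rh823dec6b0a4c3fe8 : CRef := CRef.mk (Pat.mk 0x20000001a0000000200000000 0x50000000700000007000000020000001a0000000f00000005 5 5) 0 0 (step_sound _ 129 [rh36e6bb6cca6188da, (rhc85cc95794737cf7.shift 0 1)] (by decide +kernel))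
noncomputable def rhb41395ed40c12f9c : CRef := CRef.mk (Pat.mk 0xf0000000d000000080000000800000000 0x200000002000000030000000f0000000d0000000d0000000d00000004 5 4) 0 0 (step_sound _ 34 [(rh932754581e0f4330.shift 2 0), (rhadad53f5e69105d7.shift 0 1)] (by decide +kernel))
noncomputable def rh2b612b3d3510db85 : CRef := CRef.mk (Pat.mk 0x80000001a000000020000001000000000 0x10000000180000001e0000000f0000001e0000000c 5 5) 0 0 (step_sound _ 64 [(rhb2a0b9ccfb5cecd5.shift 0 2), rhe914a40c124545dd] (by decide +kernel))
noncomputable def rh194940f530642ebb : CRef := CRef.mk (Pat.mk 0x200000002000000020000000000000000 0x500000007000000070000000600000006000000060000000600000004 5 3) 0 0 (step_sound _ 161 [(rh1741680720c097b4.shift 0 2), (rh5abfc4c9d959be03.shift 0 1), (rh6c59ce14113da07f.shift 1 0)] (by decide +kernel))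
noncomputable def rh169c0c6cb26b9603 : CRef := CRef.mk (Pat.mk 0x180000000a0000001a0000000800000000 0x40000001e0000000b0000001e0000000f00000004 5 5) 0 0 (step_sound _ 34 [(rh932754581e0f4330.shift 2 0), (rhd29842d42f7e7b06.shift 0 1)] (by decide +kernel))
noncomputable def rh8620d0b73d25d777 : CRef := CRef.mk (Pat.mk 0x80000000a0000001a000000080000000000000000 0x80000000b0000001e0000000f0000000e00000004 5 5) 0 0 (step_sound _ 34 [rh257f96e2b64fa328, (rh79877ebd3ef475dd.shift 2 1)] (by decide +kernel))
noncomputable def rh8bbe35cc8023df18 : CRef := CRef.mk (Pat.mk 0x80000000a0000001a0000001800000000 0x40000000c0000000e0000001a0000001f00000007 5 5) 0 0 (step_sound _ 34 [rh726348c618e59520, (rh932754581e0f4330.shift 2 0)] (by decide +kernel))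
noncomputable def rh3cde2b3cc262ee04 : CRef := CRef.mk (Pat.mk 0x80000000a0000001a0000001800000000 0x90000000b0000001e0000001f00000007 5 5) 0 0 (step_sound _ 34 [(rh932754581e0f4330.shift 2 0), rhaa6be28301af3a02] (by decide +kernel))
noncomputable def rhe1b3819c128a9e83 : CRef := CRef.mk (Pat.mk 0x40000000a0000001a0000000200000000 0x1000000010000000340000001e0000001b0000000a00000002 5 6) 0 0 (step_sound _ 98 [(rh1caaa2a8ac000ecb.shift 0 1), (rh71222050f2c63a3a.shift 1 0)] (by decide +kernel))
noncomputable def rh2e7f57f9715c4a34 : CRef := CRef.mk (Pat.mk 0x20000000200000002000000020000001400000000 0x100000003000000030000000200000003000000030000001e00000004 5 5) 0 0 (step_sound _ 33 [(rh42a040b9296f32ce.shift 0 1), (rh55afc6a59410cf00.shift 1 0)] (by decide +kernel))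
noncomputable def rh385c1f5a7480d523 : CRef := CRef.mk (Pat.mk 0xa0000001a0000000200000002 0x1000000010000000340000001e0000001b0000000a00000002 5 6) 0 0 (step_sound _ 98 [(rh1caaa2a8ac000ecb.shift 0 1), (rh2f68792b6b779e96.shift 1 0)] (by decide +kernel))
noncomputable def rhba432562c8b32508 : CRef := CRef.mk (Pat.mk 0x20000000200000002000000020000001400000000 0x2000000030000000300000003000000030000001e00000006 5 5) 0 0 (step_sound _ 33 [(rh55afc6a59410cf00.shift 1 0), rh710dec5f3612fa45] (by decide +kernel))
noncomputable def rha67dadb3b6397746 : CRef := CRef.mk (Pat.mk 0xc0000001c0000000000000000 0x4000000040000003f0000001f0000000300000002 5 6) 0 0 (step_sound _ 97 [rh2cc45461b6785525, (rhb739f4f82bb681b4.shift 0 2)] (by decide +kernel))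
noncomputable def rh04bc0bc315096e76 : CRef := CRef.mk (Pat.mk 0x200000002000000020000000000000000 0x500000007000000070000000300000003000000030000000300000001 5 3) 0 0 (step_sound _ 161 [(rh20966da26a1c2ae8.shift 0 1), (rh771d065bdc85bf2d.shift 0 1), rhc4526fc8abf298b6, (rhc85cc95794737cf7.shift 0 2)] (by decide +kernel))
noncomputable def rha5e6fd29cc0b64f8 : CRef := CRef.mk (Pat.mk 0x200000002000000060000000000000000 0x500000007000000070000000600000006000000070000000300000001 5 3) 0 0 (step_sound _ 161 [(rh5bd4bc0c2c48140c.shift 0 2), (rh73f605273a09a9d0.shift 1 2), rhcab3157f7bdcba3e] (by decide +kernel))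
noncomputable def rh45770f5c8b48b34f : CRef := CRef.mk (Pat.mk 0x3800000010000000300000001000000000 0x6000000ff0000003f000000380000001800000008 5 8) 0 0 (step_sound _ 35 [(rh932754581e0f4330.shift 3 0), (rhdb7be55f4e507c76.shift 0 1)] (by decide +kernel))
noncomputable def rh8ef08dc72f6a2a29 : CRef := CRef.mk (Pat.mk 0x4000000020000000200000002000000000000000000000000 0x5000000070000000300000002000000030000000300000001 5 3) 0 0 (step_sound _ 65 [(rhbaefcd01e0a8bca3.shift 1 2), rhfb48bea540f6436d] (by decide +kernel))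
noncomputable def rh3a61644a128cd4ab : CRef := CRef.mk (Pat.mk 0x800000008000000180000000800000000 0x140000003c0000000f000000180000000800000008 5 6) 0 0 (step_sound _ 130 [(rh50fbb5868c909700.shift 2 1), rh7549866fad7950b8] (by decide +kernel))
noncomputable def rh4d0677e78405f298 : CRef := CRef.mk (Pat.mk 0x2000000020000000600000002000000000000000000000000 0x100000003000000070000000600000002000000030000000300000001 5 3) 0 0 (step_sound _ 192 [(rh50fbb5868c909700.shift 0 3), rhfcec6b57166e4439] (by decide +kernel))
noncomputable def rhe0c5cfb61b3c2680 : CRef := CRef.mk (Pat.mk 0x6000000180000001400000000 0x400000004000000060000003e0000003700000002 5 6) 0 0 (step_sound _ 66 [rhf4352fa3d803eb1c, (rhf48373e13d2bc128.shift 1 2)] (by decide +kernel))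
noncomputable def rh1a4801c9c2b439f3 : CRef := CRef.mk (Pat.mk 0x40000003000000004 0xff0000007c00000006 5 8) 0 0 (step_sound _ 35 [(rh8c12fdbbddc1e7ab.shift 0 1), (rhcb763b151dc90fdc.shift 1 0), (rhdff2e0afc06e57b3.shift 1 0)] (by decide +kernel))
noncomputable def rhfb2246dccbfc1d78 : CRef := CRef.mk (Pat.mk 0xe00000004000000340000001400000000 0x100000003e00000037000000340000003600000022 5 6) 0 0 (step_sound _ 33 [(rh932754581e0f4330.shift 1 0), rhdbb6d6760fe01f3d] (by decide +kernel))
noncomputable def rh009db477ebccb70b : CRef := CRef.mk (Pat.mk 0x80000000a0000000800000008 0x140000001f0000003b0000000800000008 5 6) 0 0 (step_sound _ 98 [(rh50fbb5868c909700.shift 2 0), rh84c1248b7472e3f1] (by decide +kernel))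
noncomputable def rh43cebe0d33c4faa9 : CRef := CRef.mk (Pat.mk 0xd0000000e00000004 0x8000000080000000f0000007e00000074 5 7) 0 0 (step_sound _ 36 [(rh3f8766e6ecb455ce.shift 0 1), (rh78c9b3be5b3e8a50.shift 1 0)] (by decide +kernel))
noncomputable def rh65895bf6d3f2cc11 : CRef := CRef.mk (Pat.mk 0xd0000000c000000080000000000000000 0x18000000180000000f0000000c0000000c0000001c00000018 5 5) 0 0 (step_sound _ 35 [(rh7b1f1fb55310c477.shift 2 0), rhc54b3ea4d6a74f6e] (by decide +kernel))
noncomputable def rhdd11e03a2f8b13b6 : CRef := CRef.mk (Pat.mk 0x2000000020000000300000003000000000000000000000000 0x100000003000000030000000300000003000000060000000600000006 5 3) 0 0 (step_sound _ 192 [rh4759cac65c8c0a08, (rh50fbb5868c909700.shift 0 3)] (by decide +kernel))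
noncomputable def rhc9b77a278c88d98b : CRef := CRef.mk (Pat.mk 0x200000002000000020000000000000000 0x500000007000000070000000600000006000000060000000600000004 5 3) 0 0 (step_sound _ 161 [(rh25208373db83e521.shift 1 1), (rh5abfc4c9d959be03.shift 0 1), (rh6c59ce14113da07f.shift 1 0), (rhc85cc95794737cf7.shift 0 2)] (by decide +kernel))
noncomputable def rhdc9474e7b6feb773 : CRef := CRef.mk (Pat.mk 0x40000000180000001a 0x60000000ff000000fb 5 8) 0 0 (step_sound _ 34 [(rh4e96aff8f0598991.shift 2 0), rh710860539a4c4362] (by decide +kernel))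
noncomputable def rhc0b5b9f5a987ada9 : CRef := CRef.mk (Pat.mk 0x600000006000000000000000200000000 0x200000002000000020000000600000006000000070000000300000003 5 3) 0 0 (step_sound _ 65 [(rh71222050f2c63a3a.shift 1 0), rhea90e7358341a1a4] (by decide +kernel))
noncomputable def rh981df4d24ffbab05 : CRef := CRef.mk (Pat.mk 0x80000000c000000000000001e00000000 0x80000007c0000001f000000300000001e00000008 5 7) 0 0 (step_sound _ 68 [(rh33e738c4ed385b9f.shift 1 1), rhb9396e5ae032b2ca] (by decide +kernel))
noncomputable def rh2215fbe783434aa4 : CRef := CRef.mk (Pat.mk 0x2000000070000000600000000 0x8000000080000001b0000003f0000001e00000004 5 6) 0 0 (step_sound _ 35 [rh1531355c34484325, (rhf48373e13d2bc128.shift 0 1)] (by decide +kernel))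
noncomputable def rh0af5a455cbe36211 : CRef := CRef.mk (Pat.mk 0xc000000040000000e0000001800000000 0x100000003c0000003f0000000e0000001800000010 5 6) 0 0 (step_sound _ 99 [(rh55afc6a59410cf00.shift 3 0), (rh6f9d0ef92c6bc639.shift 0 1)] (by decide +kernel))
noncomputable def rhfcdf16689f8efda5 : CRef := CRef.mk (Pat.mk 0x180000000a000000000000000800000000 0x140000001f0000001b000000080000000800000008 5 5) 0 0 (step_sound _ 67 [(rh2f68792b6b779e96.shift 3 1), rhb29f77e14965ca87] (by decide +kernel))
noncomputable def rh2858257a4727a180 : CRef := CRef.mk (Pat.mk 0x800000008000000080000001a000000000000000800000000 0x8000000080000000c0000001f0000001b000000080000000800000008 5 5) 0 0 (step_sound _ 132 [rh15bfdba1faf37c2c, (rh2145e1d24b96a57e.shift 3 3)] (by decide +kernel))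
noncomputable def rh92e37159a2a3b051 : CRef := CRef.mk (Pat.mk 0xc00000008000000080000000a0000000000000008 0x100000003c0000000f0000001f0000003b0000001800000008 5 6) 0 0 (step_sound _ 98 [rhaa073ccf6512904d, (rhe0946ec7555c4ca1.shift 0 1)] (by decide +kernel))
noncomputable def rh305945700f20b255 : CRef := CRef.mk (Pat.mk 0x400000004000000040000000400000000 0xa0000000f0000003c000000040000000400000004 5 6) 0 0 (step_sound _ 131 [rh099a4ec72b73d1a6, (rh2f68792b6b779e96.shift 2 1)] (by decide +kernel))
noncomputable def rh367ba021e273d8d6 : CRef := CRef.mk (Pat.mk 0x600000002000000020000000200000000 0x200000002000000020000000600000006000000070000000300000003 5 3) 0 0 (step_sound _ 98 [(rh71222050f2c63a3a.shift 1 0), rhea90e7358341a1a4] (by decide +kernel))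
noncomputable def rh31f29076cbc7802e : CRef := CRef.mk (Pat.mk 0x600000002000000020000000200000000 0x200000003000000030000000700000006000000060000000200000002 5 3) 0 0 (step_sound _ 160 [rh47c52a7e57d2da64, (rhffd04209dc8ea796.shift 0 1)] (by decide +kernel))
noncomputable def rh1cbda79ca706763a : CRef := CRef.mk (Pat.mk 0x100000002000000020000000200000002000000020000000000000000 0x10000000300000002000000020000000200000002000000070000000700000005 5 3) 0 0 (step_sound _ 225 [(rh50fbb5868c909700.shift 0 4), rh8cdd36b03d57a2f6] (by decide +kernel))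
noncomputable def rh54a0263f69db99e1 : CRef := CRef.mk (Pat.mk 0x1c0000000a0000000800000008000000080000000000000000 0x1e0000000b00000008000000080000001c0000001c00000014 5 5) 0 0 (step_sound _ 193 [(rh8cdd36b03d57a2f6.shift 2 0), (rheb0810cc63b001d8.shift 0 5)] (by decide +kernel))
noncomputable def rh8a45b3c247e52441 : CRef := CRef.mk (Pat.mk 0x20000001c000000100000001000000010000000100000000000000000 0x30000001e000000100000001000000010000000380000003800000028 5 6) 0 0 (step_sound _ 193 [(rh3244c3cc8379b070.shift 0 6), (rh8cdd36b03d57a2f6.shift 3 0)] (by decide +kernel))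
noncomputable def rh5fcd8197f732a237 : CRef := CRef.mk (Pat.mk 0x38000000000000002000000000 0xe70000007e000000670000002000000020 5 8) 0 0 (step_sound _ 98 [(rh500a083f39e7580c.shift 2 0), (rh592c7139d2c44767.shift 0 2)] (by decide +kernel))
noncomputable def rh98ecf3849fe98d1a : CRef := CRef.mk (Pat.mk 0x3800000000 0xff0000007e00000007 5 8) 0 0 (step_sound _ 34 [rh592c7139d2c44767, rh9e97bba44c1b13e4, (rhb18e6c78a554867d.shift 1 1)] (by decide +kernel))
noncomputable def rh27b574b937c57303 : CRef := CRef.mk (Pat.mk 0x120000001e00000000 0x1000000010000000300000001e0000003f00000008 5 6) 0 0 (step_sound _ 66 [rh0c508dd24d4089fa, (rhf48373e13d2bc128.shift 1 1)] (by decide +kernel))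
noncomputable def rh4c3c6fa81e4efaea : CRef := CRef.mk (Pat.mk 0x3800000000000000200000000000000000 0x10000000370000003e00000077000000200000002000000020 5 7) 0 0 (step_sound _ 130 [(rh2cc7d62e70c02209.shift 0 3), (rhd45e3ae46e6d7252.shift 2 1), (rheb100aab8ed4573d.shift 1 0)] (by decide +kernel))
noncomputable def rh44f8cb5ad1b3583c : CRef := CRef.mk (Pat.mk 0x3800000000000000200000000000000000 0xf00000007e00000077000000200000002000000020 5 8) 0 0 (step_sound _ 130 [(rh4a7b438162e4ed40.shift 2 1), (rh9e97bba44c1b13e4.shift 0 3), (rhae665e80bb3d31ac.shift 1 1), (rheb100aab8ed4573d.shift 1 0), (rhfcffa0a9e99c8fd4.shift 2 1)] (by decide +kernel))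
noncomputable def rh75053f7bff468579 : CRef := CRef.mk (Pat.mk 0x38000000000000002000000000 0x10000000370000003e000000770000002000000020 5 7) 0 0 (step_sound _ 98 [(rh2cc7d62e70c02209.shift 0 2), (rhd45e3ae46e6d7252.shift 2 0)] (by decide +kernel))
noncomputable def rh55d37381f60dd4e9 : CRef := CRef.mk (Pat.mk 0x3800000000000000200000000000000000 0x10000000f00000007e00000077000000200000002000000020 5 8) 0 0 (step_sound _ 130 [(rh9e97bba44c1b13e4.shift 0 3), (rhae665e80bb3d31ac.shift 1 1), (rhd45e3ae46e6d7252.shift 2 1), (rheb100aab8ed4573d.shift 1 0), (rhfcffa0a9e99c8fd4.shift 2 1)] (by decide +kernel))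
noncomputable def rh5c3910cf570ed7d1 : CRef := CRef.mk (Pat.mk 0x40000000400000005000000000000000000000000 0x80000000c0000000c0000000c000000070000001e0000000e00000008 5 5) 0 0 (step_sound _ 66 [(rh20966da26a1c2ae8.shift 1 1), (rh6c59ce14113da07f.shift 2 0), (rh934b7b499abbb98b.shift 0 1)] (by decide +kernel))
noncomputable def rh587dfab8891a3581 : CRef := CRef.mk (Pat.mk 0xa000000080000000a000000000000000000000000 0xc0000000f0000007c0000000e0000003c0000001c00000010 5 7) 0 0 (step_sound _ 67 [(rh39bac26a3afdee51.shift 0 2), (rh8ff3dde5b1c639e0.shift 2 0), (rh934b7b499abbb98b.shift 1 1)] (by decide +kernel))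
noncomputable def rh17ad8f48124116eb : CRef := CRef.mk (Pat.mk 0xa0000000800000008000000000000000000000000 0x140000001f0000007c00000008000000180000001800000010 5 7) 0 0 (step_sound _ 67 [(rh293962040e7ea514.shift 0 1), (rh39bac26a3afdee51.shift 0 2), (rh6c59ce14113da07f.shift 3 0), (rh8ff3dde5b1c639e0.shift 2 0)] (by decide +kernel))
noncomputable def rh152cef056f41c349 : CRef := CRef.mk (Pat.mk 0x2000000020000000200000002000000020000000400000000 0x50000000700000007000000020000000200000002000000020000000600000004 5 3) 0 0 (step_sound _ 33 [(rh55afc6a59410cf00.shift 1 0), (rhc85cc95794737cf7.shift 0 3)] (by decide +kernel))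
noncomputable def rhc10ead4194dbdc10 : CRef := CRef.mk (Pat.mk 0xa000000080000000800000000 0x40000001c0000007c0000001f0000000c0000000c00000004 5 7) 0 0 (step_sound _ 131 [(rh0363d47a46978688.shift 0 1), (rh771d065bdc85bf2d.shift 2 0), (rhb034511df68c2fcf.shift 0 1)] (by decide +kernel))
noncomputable def rhf89ce9d7f313966a : CRef := CRef.mk (Pat.mk 0xa00000008000000080000000000000000 0x100000001c0000001f0000003c0000000c0000000c0000000c 5 6) 0 0 (step_sound _ 35 [(rh20966da26a1c2ae8.shift 2 0), rh293962040e7ea514, rhb60f052e6681930f] (by decide +kernel))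
noncomputable def rh4ec6bb9391b3c474 : CRef := CRef.mk (Pat.mk 0x20000000200000002000000000000000000000000 0x400000006000000060000000600000003000000070000000700000005 5 3) 0 0 (step_sound _ 65 [(rh20966da26a1c2ae8.shift 0 1), (rh6c59ce14113da07f.shift 1 0), rh8cdd36b03d57a2f6] (by decide +kernel))
noncomputable def rh6223fde72bf088a1 : CRef := CRef.mk (Pat.mk 0x40000000a0000000c0000000600000000 0x2000000070000003e0000003c0000000600000002 5 6) 0 0 (step_sound _ 98 [(rh1d8af2a1b39e5c14.shift 0 1), (rh932754581e0f4330.shift 1 0)] (by decide +kernel))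
noncomputable def rh5d51f0cb27f90eb5 : CRef := CRef.mk (Pat.mk 0x50000000400000004000000000000000000000000 0x80000000e0000000f0000001e00000006000000060000000600000002 5 5) 0 0 (step_sound _ 66 [(rh20966da26a1c2ae8.shift 1 1), (rhc4526fc8abf298b6.shift 1 0), (rhf5152ac7cd56ad5c.shift 0 1)] (by decide +kernel))
noncomputable def rhe3506fd8bfa5d1eb : CRef := CRef.mk (Pat.mk 0xa000000080000000800000000 0x40000003c0000001f0000007c0000000800000008 5 7) 0 0 (step_sound _ 98 [(rh7b24c4ccc068b0b2.shift 2 0), (rhc21a95c499b3efdb.shift 0 2), rhed5eaf5283335fff] (by decide +kernel))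
noncomputable def rh5b04d8d497d184b3 : CRef := CRef.mk (Pat.mk 0xa0000000800000008000000000000000000000000 0x40000000f0000007c000000080000001c0000001c00000014 5 7) 0 0 (step_sound _ 67 [(rh39bac26a3afdee51.shift 0 2), (rh8cdd36b03d57a2f6.shift 2 0)] (by decide +kernel))
noncomputable def rh5042db7f0b871028 : CRef := CRef.mk (Pat.mk 0x2000000020000000200000002000000020000000000000000 0x100000003000000020000000200000002000000070000000700000005 5 3) 0 0 (step_sound _ 192 [(rh50fbb5868c909700.shift 0 3), rh8cdd36b03d57a2f6] (by decide +kernel))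
noncomputable def rh713195889705734a : CRef := CRef.mk (Pat.mk 0xa00000008000000080000000800000000 0x1c0000000f000000180000000c0000000c00000004 5 5) 0 0 (step_sound _ 130 [(rh50fbb5868c909700.shift 2 1), rh6a5cd2a70fe239de] (by decide +kernel))
noncomputable def rhaeec3e7cb61cf764 : CRef := CRef.mk (Pat.mk 0x3c00000002 0xee0000007e00000003 5 8) 0 0 (step_sound _ 66 [(rh3244c3cc8379b070.shift 1 1), rhb000b47a35eee953] (by decide +kernel))
noncomputable def rhab9a5849f2aba49b : CRef := CRef.mk (Pat.mk 0xe000000000000000800000000 0x1000000010000000770000003e000000780000000800000008 5 7) 0 0 (step_sound _ 100 [(rhb18e6c78a554867d.shift 0 3), (rhceed0e29dfbc434b.shift 1 0), (rhe401600d466b97cd.shift 0 2)] (by decide +kernel))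
noncomputable def rh2cfa49cf7c88766d : CRef := CRef.mk (Pat.mk 0x1e00000010000000100000000000000000 0x270000003f00000018000000100000001000000010 5 6) 0 0 (step_sound _ 99 [rh21c9eb4e9f34f7fb, (rhb739f4f82bb681b4.shift 0 3)] (by decide +kernel))
noncomputable def rh50ee8b0bfe4250ef : CRef := CRef.mk (Pat.mk 0x1e00000010000000100000000000000000 0x140000001f00000018000000180000001800000018 5 5) 0 0 (step_sound _ 99 [(rha210c422688bf4e3.shift 2 0), (rhb739f4f82bb681b4.shift 0 3)] (by decide +kernel))
noncomputable def rha387be5ef5649a9c : CRef := CRef.mk (Pat.mk 0x1e00000000 0x3c000000ff00000070 5 8) 0 0 (step_sound _ 68 [rh16763889f7567d73, (rh33e738c4ed385b9f.shift 1 1)] (by decide +kernel))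
noncomputable def rh259d7508f2b8dd41 : CRef := CRef.mk (Pat.mk 0xe000000100000001400000000 0xc0000000c0000000f000000180000001c0000000c 5 5) 0 0 (step_sound _ 67 [(rh4203038acfa1c89f.shift 2 0), (rhb739f4f82bb681b4.shift 0 2)] (by decide +kernel))
noncomputable def rhdc9b566064fc5d7d : CRef := CRef.mk (Pat.mk 0x120000001e0000000000000000 0x10000000300000001e0000003f0000000800000008 5 6) 0 0 (step_sound _ 99 [(rh53b3c253cb0c65f4.shift 0 2), (rha0d560dcab205fc1.shift 1 0)] (by decide +kernel))
noncomputable def rhc79841b22b8a8d43 : CRef := CRef.mk (Pat.mk 0x3800000000000000200000000000000000 0xf00000007e00000077000000200000002000000020 5 8) 0 0 (step_sound _ 130 [(rh09d9f2ed3f61f767.shift 1 1), (rh4a7b438162e4ed40.shift 2 1), (rh9e97bba44c1b13e4.shift 0 3), (rheb100aab8ed4573d.shift 1 0), (rhfcffa0a9e99c8fd4.shift 2 1)] (by decide +kernel))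
noncomputable def rha80de7e2be2820dd : CRef := CRef.mk (Pat.mk 0x1c00000018000000100000000000000000 0x300000001f00000018000000300000003000000030 5 6) 0 0 (step_sound _ 36 [rh681420f7738fc424, (rh7b1f1fb55310c477.shift 3 0)] (by decide +kernel))
noncomputable def rh17824d5e1bc0351d : CRef := CRef.mk (Pat.mk 0x600000006000000070000000c 0x380000003e0000001e0000000f0000000c 5 6) 0 0 (step_sound _ 67 [(rh18965a982d73c794.shift 0 1), (rha30365077b15a33d.shift 1 0)] (by decide +kernel))
noncomputable def rh0d879c9ac8d6f930 : CRef := CRef.mk (Pat.mk 0x800000004000000080000001800000000 0x10000000780000001f000000080000001800000010 5 7) 0 0 (step_sound _ 99 [(rh55afc6a59410cf00.shift 3 0), (rhc9613fc5bab58382.shift 0 1)] (by decide +kernel))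
noncomputable def rh25f0c6692c5adf18 : CRef := CRef.mk (Pat.mk 0x7000000070000000000000000 0x8000000080000001c0000001f000000070000000400000004 5 5) 0 0 (step_sound _ 99 [(rh18965a982d73c794.shift 0 2), rhf60cdf71a14eca6b] (by decide +kernel))
noncomputable def rh6f5b630944e294cc : CRef := CRef.mk (Pat.mk 0x3800000010 0x7000000fe000000ff 5 8) 0 0 (step_sound _ 34 [(rh300eedc557b86950.shift 2 0), rh775ca1963e850b80, (rha03f6e28ea70fc7d.shift 1 0)] (by decide +kernel))
noncomputable def rha9c8ba8b59589816 : CRef := CRef.mk (Pat.mk 0x400000007000000020 0xe70000007e00000030 5 8) 0 0 (step_sound _ 35 [(rh33e738c4ed385b9f.shift 3 1), rhbfdaafe6cbbfd7f3] (by decide +kernel))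
noncomputable def rh7b39b956f4823eae : CRef := CRef.mk (Pat.mk 0xe000000000000000000000010 0x7f0000003f000000700000001000000010 5 7) 0 0 (step_sound _ 100 [rh63a29a5e89bddbd7, (rhb18e6c78a554867d.shift 0 3), (rhe401600d466b97cd.shift 0 2)] (by decide +kernel))
noncomputable def rh12a658487e7da690 : CRef := CRef.mk (Pat.mk 0x1000000012000000060000000200000000 0x6000000370000001e000000060000000600000006 5 6) 0 0 (step_sound _ 98 [rh2b8e5f16c5d7ff0a, (rh84d1c02a8954c6a8.shift 1 0)] (by decide +kernel))
noncomputable def rhf01b8fb4e8ab9fa8 : CRef := CRef.mk (Pat.mk 0x7800000020 0xe70000007e00000030 5 8) 0 0 (step_sound _ 70 [(rh33e738c4ed385b9f.shift 3 1), rhbfdaafe6cbbfd7f3] (by decide +kernel))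
noncomputable def rh8f7ef08428eb6a32 : CRef := CRef.mk (Pat.mk 0x1e00000000000000000000000800000000 0x10000000100000001f00000038000000180000000800000008 5 6) 0 0 (step_sound _ 100 [rh5970bab9912d2fed, (rhe25b0a99195a5d59.shift 1 3)] (by decide +kernel))
noncomputable def rh1a8158aff2ae5a1a : CRef := CRef.mk (Pat.mk 0x800000008000000380000001000000000 0x80000000f0000003e0000007700000004 5 7) 0 0 (step_sound _ 66 [(rh775ca1963e850b80.shift 0 1), (rha03f6e28ea70fc7d.shift 1 1), (rhae036cc4ef671676.shift 1 0), (rhfcb55d5dc3b78d1f.shift 0 1)] (by decide +kernel))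
noncomputable def rh325c05698cedaa51 : CRef := CRef.mk (Pat.mk 0x180000001c000000000000002000000000 0x180000003f000000670000002000000020 5 7) 0 0 (step_sound _ 97 [(rh53b3c253cb0c65f4.shift 0 3), rh808f571e1d6baf80] (by decide +kernel))
noncomputable def rha21931e1abf11b29 : CRef := CRef.mk (Pat.mk 0x1e00000004000000000000001000000000 0x80000001e0000003f000000300000001000000010 5 6) 0 0 (step_sound _ 100 [(rhe25b0a99195a5d59.shift 1 3), rhf842fc5c3001676e] (by decide +kernel))
noncomputable def rh6e7807b7fd7eb5f5 : CRef := CRef.mk (Pat.mk 0xe000000020000000000000008 0x300000001f0000003b0000000800000008 5 6) 0 0 (step_sound _ 100 [(rheb0810cc63b001d8.shift 0 2), rhf9fc252bb8290774] (by decide +kernel))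
noncomputable def rh416b24cc7bdeb028 : CRef := CRef.mk (Pat.mk 0x200000002000000020000000200000000 0x4000000060000000600000002000000060000000700000005 5 3) 0 0 (step_sound _ 34 [rh4b783bb445d2d96a, (rh55afc6a59410cf00.shift 1 0)] (by decide +kernel))
noncomputable def rh8a68cefc5770c933 : CRef := CRef.mk (Pat.mk 0x800000008000000080000000800000000 0x800000008000000080000001f0000007c00000010 5 7) 0 0 (step_sound _ 36 [(rh55afc6a59410cf00.shift 3 0), (rhe3961e3ead002362.shift 0 1)] (by decide +kernel))
noncomputable def rh30455f70e4150295 : CRef := CRef.mk (Pat.mk 0x7000000030000000000000004 0x180000001f0000001f0000000c00000004 5 5) 0 0 (step_sound _ 99 [(rh18965a982d73c794.shift 0 2), rh353ebc24c4d595b9] (by decide +kernel))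
noncomputable def rhf459621b93742302 : CRef := CRef.mk (Pat.mk 0x1e000000000000000000000000 0x10000000300000001f000000380000000800000008 5 6) 0 0 (step_sound _ 68 [rhba50fd7aca570c30, (rhe25b0a99195a5d59.shift 1 2)] (by decide +kernel))
noncomputable def rh89d040c75bd35288 : CRef := CRef.mk (Pat.mk 0x38000000080000000000000008 0x70000003f0000003f0000000800000008 5 6) 0 0 (step_sound _ 98 [(rh0da3f8d18d3a0dfd.shift 1 0), (rh775ca1963e850b80.shift 0 2), (rhed95296174ee961f.shift 0 2)] (by decide +kernel))
noncomputable def rh9b4dba8c043d8c52 : CRef := CRef.mk (Pat.mk 0x80000000800000008000000080000000800000008 0x8000000180000007c0000000f0000000c00000008 5 7) 0 0 (step_sound _ 66 [(rh932754581e0f4330.shift 2 1), rhdf8b9aa233deec1e] (by decide +kernel))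
noncomputable def rha1f05977cb30c9d7 : CRef := CRef.mk (Pat.mk 0x20000000f00000000 0x3e0000003f00000070 5 7) 0 0 (step_sound _ 68 [(rh428265de8cd3cd2d.shift 0 1), (rh66705069e76f670f.shift 1 0)] (by decide +kernel))
noncomputable def rh706d0cf4df26f420 : CRef := CRef.mk (Pat.mk 0x200000002000000020000000000000000 0x500000007000000070000000300000006000000060000000600000004 5 3) 0 0 (step_sound _ 161 [(rh1741680720c097b4.shift 0 2), rh8ff3dde5b1c639e0, (rhced6d86d2069808b.shift 1 1)] (by decide +kernel))
noncomputable def rhab6f55bc99585f19 : CRef := CRef.mk (Pat.mk 0x100000007800000000 0x370000007e0000000e 5 7) 0 0 (step_sound _ 2 [rh2793be06f124c05c, (rh80fcd6d0a18cb2dd.shift 2 0)] (by decide +kernel))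
noncomputable def rhd881a62c5ec8a717 : CRef := CRef.mk (Pat.mk 0x100000007000000000000000400000000 0x8000000080000003f0000001f0000003c0000000400000004 5 6) 0 0 (step_sound _ 99 [(rh2aac33c566332a8c.shift 0 2), (rh3fc3a7fb6866dcd4.shift 0 2), rhb705031692dfe65f] (by decide +kernel))
noncomputable def rh5122bfaf1b7c78bc : CRef := CRef.mk (Pat.mk 0x80000000800000008000000080000000800000008 0x800000018000000780000001f0000000c00000008 5 7) 0 0 (step_sound _ 100 [(rh2f68792b6b779e96.shift 3 0), (rh8dce4397d6075b0b.shift 0 1)] (by decide +kernel))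
noncomputable def rh5f431d3cea859888 : CRef := CRef.mk (Pat.mk 0x800000008000000080000000800000000 0x100000007c0000001f000000080000000800000008 5 7) 0 0 (step_sound _ 132 [(rh2f68792b6b779e96.shift 3 1), rhafcb5a75269730e3] (by decide +kernel))
noncomputable def rh4509a6c8db78986d : CRef := CRef.mk (Pat.mk 0x20000000200000002000000020000000000000002 0x50000000700000007000000060000000600000006000000060000000200000002 5 3) 0 0 (step_sound _ 193 [(rh44f453b84f013105.shift 1 2), (rhc85cc95794737cf7.shift 0 3), (rhc9d54926efc329d5.shift 1 0)] (by decide +kernel))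
noncomputable def rh8d47b117a3181398 : CRef := CRef.mk (Pat.mk 0x1e00000018000000080000000800000000 0x600000003e0000001f000000180000001800000010 5 7) 0 0 (step_sound _ 97 [(rhca014d4dbe230e87.shift 1 0), (rheb0810cc63b001d8.shift 0 3)] (by decide +kernel))
noncomputable def rh8e0756c4ae58c955 : CRef := CRef.mk (Pat.mk 0xe000000040000000000000008 0xf00000007f0000003f0000000800000008 5 8) 0 0 (step_sound _ 100 [(rhaf9f2efc81a8312b.shift 0 2), (rhdc1641106d7e5aa2.shift 1 2), rhe4331c6b06ac49c3] (by decide +kernel))
noncomputable def rhaf620906d0d35264 : CRef := CRef.mk (Pat.mk 0x200000007000000058 0x7c0000007f000000d8 5 8) 0 0 (step_sound _ 35 [(rhe25b0a99195a5d59.shift 3 0), rhfef1ab51412d1834] (by decide +kernel))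
noncomputable def rhb518acca1753e1aa : CRef := CRef.mk (Pat.mk 0x7000000058 0xf0000007f000000f8 5 8) 0 0 (step_sound _ 35 [rhd462f2ebc8407985, (rhe25b0a99195a5d59.shift 3 0)] (by decide +kernel))
noncomputable def rhdc943904de253ebd : CRef := CRef.mk (Pat.mk 0x8000000180000001e0000000600000000 0x60000000f0000001b0000001e0000001600000010 5 5) 0 0 (step_sound _ 36 [(rh1ba597799b5c5efa.shift 0 1), (rh7b1f1fb55310c477.shift 3 0)] (by decide +kernel))
noncomputable def rh406e69fd54876794 : CRef := CRef.mk (Pat.mk 0x1a0000001e0000000000000000 0x200000006000000070000001e0000001e0000000700000002 5 5) 0 0 (step_sound _ 33 [rh12c8c2b9ec3eca9f, (rheb0810cc63b001d8.shift 0 1)] (by decide +kernel))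
noncomputable def rh23abe14e4c828fd9 : CRef := CRef.mk (Pat.mk 0x4000000040000000c0000000c00000000 0xa0000000f0000003c0000000c0000000c00000004 5 6) 0 0 (step_sound _ 131 [(rh2f68792b6b779e96.shift 2 1), rhc7145c90d64786a7] (by decide +kernel))
noncomputable def rhbe61211f80e6c70e : CRef := CRef.mk (Pat.mk 0x6000000060000001e0000000e 0x190000003f000000360000001e0000000e 5 6) 0 0 (step_sound _ 96 [rh50fbb5868c909700, (rh57eff74f907e72e6.shift 1 0)] (by decide +kernel))
noncomputable def rhf7d12c6924e7e45b : CRef := CRef.mk (Pat.mk 0x2000000020000000600000003000000000000000800000000 0x2000000020000003e0000003f0000001c0000000800000008 5 6) 0 0 (step_sound _ 98 [(rh55afc6a59410cf00.shift 1 2), rh7b38a00019a0031b] (by decide +kernel))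
noncomputable def rh5aa55bd138007dd8 : CRef := CRef.mk (Pat.mk 0x20000001e000000000000000000000000 0x400000004000000060000003e000000070000000200000002 5 6) 0 0 (step_sound _ 130 [rhcfde16a7ff36af03, (rhf48373e13d2bc128.shift 1 3)] (by decide +kernel))
noncomputable def rh17165b0834d69604 : CRef := CRef.mk (Pat.mk 0x10000000100000001e0000001000000000 0x28000000380000001f0000001e0000001000000010 5 6) 0 0 (step_sound _ 131 [(rh50fbb5868c909700.shift 3 1), rh9ef3b07da8c55998] (by decide +kernel))
noncomputable def rh06e01e1c08a41fe8 : CRef := CRef.mk (Pat.mk 0xb0000000300000002 0x7000000070000001f0000001b0000000300000002 5 5) 0 0 (step_sound _ 97 [rh5fa50b509d4ce753, rh7ea0777708e7d2eb, rh7f9f3607ee25a93b] (by decide +kernel))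
noncomputable def rh2d405b9988772a1f : CRef := CRef.mk (Pat.mk 0xc0000000c000000000000001000000000 0xc0000000c0000001f000000780000001800000008 5 7) 0 0 (step_sound _ 67 [(rh032b9293535eedef.shift 0 1), (rh3cb04db3dd2b6a55.shift 2 0)] (by decide +kernel))
noncomputable def rhb5d85289ca26b1be : CRef := CRef.mk (Pat.mk 0x1800000038000000000000002000000000 0x180000003f000000670000002000000020 5 7) 0 0 (step_sound _ 69 [(rh7b1f1fb55310c477.shift 4 0), (rha4ae2ee71608971a.shift 0 2)] (by decide +kernel))
noncomputable def rh8f7039354bfc4ec2 : CRef := CRef.mk (Pat.mk 0x1c0000001c000000000000000000000000 0x4000000040000001c0000001f000000070000000200000002 5 5) 0 0 (step_sound _ 97 [(rh53b3c253cb0c65f4.shift 0 3), rhcfde16a7ff36af03] (by decide +kernel))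
noncomputable def rh6374dd1971f3a185 : CRef := CRef.mk (Pat.mk 0xe0000001c00000008 0x14000000770000007e0000001c00000008 5 7) 0 0 (step_sound _ 98 [(rh2145e1d24b96a57e.shift 2 0), rhcaf67e4505418626] (by decide +kernel))
noncomputable def rh64a9fd7e6d5009df : CRef := CRef.mk (Pat.mk 0x20000000e000000000000000800000000 0x1000000010000000330000001e000000180000000800000008 5 6) 0 0 (step_sound _ 100 [(rh3244c3cc8379b070.shift 0 3), (rhceed0e29dfbc434b.shift 1 0)] (by decide +kernel))
noncomputable def rh6ef7308397abfdcd : CRef := CRef.mk (Pat.mk 0x300000007000000000000000400000000 0x8000000080000001f0000001f000000040000000400000004 5 5) 0 0 (step_sound _ 99 [rhb705031692dfe65f, (rhf48373e13d2bc128.shift 0 3)] (by decide +kernel))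
noncomputable def rh1f12bf24ea3ddf13 : CRef := CRef.mk (Pat.mk 0xe000000020000000000000008 0x770000003f0000003e0000000800000008 5 7) 0 0 (step_sound _ 100 [(rh4c6d407c2048a5bb.shift 0 2), (rhd584a578337d0023.shift 1 2), rhf9fc252bb8290774] (by decide +kernel))
noncomputable def rh66df769176390699 : CRef := CRef.mk (Pat.mk 0x1c00000008000000000000003000000000 0x200000007f0000007e000000100000003000000020 5 7) 0 0 (step_sound _ 100 [(rh3c3e23a02e82b2ed.shift 0 3), (rh6292bd8784ece55f.shift 1 3), (rhd2c5d35a81143964.shift 1 0)] (by decide +kernel))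
noncomputable def rh6338043325e2f60c : CRef := CRef.mk (Pat.mk 0x800000004000000040000000400000000 0x2000000020000000f0000003e000000060000000400000004 5 6) 0 0 (step_sound _ 129 [(rh2e02ae96d64880aa.shift 1 0), rh6a53fb15660216ce, (rhbab796f6dafe9186.shift 1 1)] (by decide +kernel))
noncomputable def rh6ebed6b9b5c91f96 : CRef := CRef.mk (Pat.mk 0xc0000000c0000000c00000018 0x100000003c0000003f0000000f00000018 5 6) 0 0 (step_sound _ 33 [rh6f9d0ef92c6bc639, rhb739f4f82bb681b4] (by decide +kernel))
noncomputable def rh6477e5cdd5dd07fb : CRef := CRef.mk (Pat.mk 0xc00000008000000280000000800000000 0x80000000c0000001f000000380000001800000018 5 6) 0 0 (step_sound _ 36 [rh08a30ea5f80f9528, (rh55afc6a59410cf00.shift 3 0)] (by decide +kernel))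
noncomputable def rh9b323ef5a488003e : CRef := CRef.mk (Pat.mk 0x30000000200000002000000000000000000000000 0x5000000070000000600000002000000030000000300000001 5 3) 0 0 (step_sound _ 65 [(rh50fbb5868c909700.shift 0 2), rhcab3157f7bdcba3e] (by decide +kernel))
noncomputable def rha53399dbbc6fa82e : CRef := CRef.mk (Pat.mk 0x600000004000000040000000c00000000 0xc0000003e000000070000000c0000000c00000004 5 6) 0 0 (step_sound _ 67 [(rh2145e1d24b96a57e.shift 2 1), rhd5f3672bdd02e5db] (by decide +kernel))
noncomputable def rh7fcd588089ecd0df : CRef := CRef.mk (Pat.mk 0x1c0000001e00000000 0x200000002000000030000001f0000001e00000007 5 5) 0 0 (step_sound _ 65 [(rh3244c3cc8379b070.shift 0 1), rhf221f952be3bc70e] (by decide +kernel))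
noncomputable def rhce17cada0b9b1e14 : CRef := CRef.mk (Pat.mk 0xe0000001e000000180000000000000000 0x8000000080000000e0000001e0000001f0000000300000003 5 5) 0 0 (step_sound _ 163 [(rh2145e1d24b96a57e.shift 3 2), rh3ad675a172d88c03] (by decide +kernel))
noncomputable def rhf15f1e29f6f0aa1f : CRef := CRef.mk (Pat.mk 0x200000003000000020000000200000000 0x200000002000000030000000300000003000000070000000600000004 5 3) 0 0 (step_sound _ 128 [rh330f820e7f44bd5b, (rh50fbb5868c909700.shift 0 1)] (by decide +kernel))
noncomputable def rhec9768a6e44eac8b : CRef := CRef.mk (Pat.mk 0x80000000c000000080000000800000000 0x8000000080000001f000000780000001800000010 5 7) 0 0 (step_sound _ 36 [(rh55afc6a59410cf00.shift 3 0), (rh5974029d68103ee7.shift 0 1)] (by decide +kernel))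
noncomputable def rhef73e93368eb7f5c : CRef := CRef.mk (Pat.mk 0xe000000040000001400000000 0x2000000730000003e000000370000001400000010 5 7) 0 0 (step_sound _ 100 [(rh500a083f39e7580c.shift 1 0), (rhaf9f2efc81a8312b.shift 0 2), (rhe4f9133a81c1dbc5.shift 0 1)] (by decide +kernel))
noncomputable def rh8a3bf51b49c40fef : CRef := CRef.mk (Pat.mk 0x380000001000000010 0x2000000020000000770000003e0000001700000010 5 7) 0 0 (step_sound _ 66 [(rh49606a42a30c7ac4.shift 2 0), (rh4c622fddc53a5f99.shift 0 2), (rh592c7139d2c44767.shift 0 1), (rh9e97bba44c1b13e4.shift 0 1)] (by decide +kernel))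
noncomputable def rh08f78c9b6a7123e9 : CRef := CRef.mk (Pat.mk 0xe000000040000001000000000 0x800000008000000180000003e000000370000001000000010 5 6) 0 0 (step_sound _ 100 [(rh00c1a02c588da1b0.shift 1 0), (rhaf9f2efc81a8312b.shift 0 2)] (by decide +kernel))
noncomputable def rhdc59ba418ff98db2 : CRef := CRef.mk (Pat.mk 0x600000004000000140000000000000000 0x600000006000000040000001c0000000f0000000a 5 5) 0 0 (step_sound _ 34 [rh15f443a9a462a99b, (rh50fbb5868c909700.shift 1 1)] (by decide +kernel))
noncomputable def rhe398dab5b84aa6e5 : CRef := CRef.mk (Pat.mk 0x1e000000000000000200000000 0x2000000030000003e000000070000000600000004 5 6) 0 0 (step_sound _ 65 [rh53a46ddb51f5b71f, (rheb0810cc63b001d8.shift 0 2)] (by decide +kernel))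
noncomputable def rh1260a033a9ffa8a4 : CRef := CRef.mk (Pat.mk 0x38000000000000005000000000 0x670000003e000000670000007000000050 5 7) 0 0 (step_sound _ 98 [(rh592c7139d2c44767.shift 0 2), (rhbb30446677a12c7e.shift 2 0)] (by decide +kernel))
noncomputable def rhedf6a18f6f88178e : CRef := CRef.mk (Pat.mk 0x80000000c000000080000000800000000 0x8000000080000000f0000007c0000001800000010 5 7) 0 0 (step_sound _ 36 [(rh55afc6a59410cf00.shift 3 0), (rhc138c4cf5959f12b.shift 0 1)] (by decide +kernel))
noncomputable def rh27b637df7224086c : CRef := CRef.mk (Pat.mk 0xf000000080000001400000000 0x40000000c0000001c0000000f0000000c0000001c00000010 5 5) 0 0 (step_sound _ 131 [(rh33e738c4ed385b9f.shift 0 3), (rh984a59dca0ad86bb.shift 2 0)] (by decide +kernel))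
noncomputable def rhd97c7c4033cca5ce : CRef := CRef.mk (Pat.mk 0xc00000004000000140000000000000000 0xc0000000c000000040000001c0000000f0000000a 5 5) 0 0 (step_sound _ 34 [rh15f443a9a462a99b, (rh2f68792b6b779e96.shift 2 1)] (by decide +kernel))
noncomputable def rh3981cef1b92f475b : CRef := CRef.mk (Pat.mk 0x38000000000000001000000000 0x2000000020000000770000003e000000370000001000000010 5 7) 0 0 (step_sound _ 98 [(rh4c622fddc53a5f99.shift 0 3), (rh592c7139d2c44767.shift 0 2), (rh9e97bba44c1b13e4.shift 0 2), (rhceed0e29dfbc434b.shift 2 0)] (by decide +kernel))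
noncomputable def rh721a9f023dbadaa4 : CRef := CRef.mk (Pat.mk 0x1e000000000000001000000000 0x280000003e000000370000001000000010 5 6) 0 0 (step_sound _ 68 [rh0b99daf88cf56646, (rhe25b0a99195a5d59.shift 1 2)] (by decide +kernel))
noncomputable def rh96baeb6eaf172679 : CRef := CRef.mk (Pat.mk 0x1e000000000000000400000000 0x800000008000000080000003e0000000f0000000400000004 5 6) 0 0 (step_sound _ 65 [(rh9f53941b2ebdb395.shift 1 0), (rheb0810cc63b001d8.shift 0 2)] (by decide +kernel))
noncomputable def rh05a19ea783f2fd59 : CRef := CRef.mk (Pat.mk 0xc000000040000000c0000001c00000000 0x20000000f0000003c0000000f0000001c00000010 5 6) 0 0 (step_sound _ 99 [(rh2e7017bd00773d4a.shift 0 1), (rh55afc6a59410cf00.shift 3 0)] (by decide +kernel))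
noncomputable def rh0e18ef51f30687bd : CRef := CRef.mk (Pat.mk 0xe00000018000000280000000000000000 0x10000000180000001e0000001f000000380000003000000010 5 6) 0 0 (step_sound _ 68 [(rh55a1f6c57a317ce6.shift 3 0), (rh991484d3cbf908b4.shift 0 1)] (by decide +kernel))
noncomputable def rh50743d3b66e40ece : CRef := CRef.mk (Pat.mk 0x1c00000010 0x70000003e00000037 5 6) 0 0 (step_sound _ 33 [rh5f7b3bfbaf903d4f, (rhe25b0a99195a5d59.shift 1 0)] (by decide +kernel))
noncomputable def rhb77529f2dc2b7442 : CRef := CRef.mk (Pat.mk 0x3800000020 0x7e0000007e0000003f 5 7) 0 0 (step_sound _ 34 [(rh5f7b3bfbaf903d4f.shift 1 0), rh9e97bba44c1b13e4, (rha4e794e69630f173.shift 1 0)] (by decide +kernel))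
noncomputable def rh1484d0ac58222097 : CRef := CRef.mk (Pat.mk 0xe0000000800000008 0x10000000100000003f0000003e0000007800000008 5 7) 0 0 (step_sound _ 68 [(rh49606a42a30c7ac4.shift 1 0), (rhe401600d466b97cd.shift 0 1)] (by decide +kernel))
noncomputable def rhb51c6ae270bdb431 : CRef := CRef.mk (Pat.mk 0x70000000c0000000400000000 0xc0000003e000000070000003c0000000c00000008 5 6) 0 0 (step_sound _ 69 [(rh2fe78cc5ca4405d8.shift 1 2), rhe576ca16cb2e680e] (by decide +kernel))
noncomputable def rh091a64cd6a32b583 : CRef := CRef.mk (Pat.mk 0x600000007000000020000000000000000 0x40000000600000006000000070000001e0000000c0000000c 5 5) 0 0 (step_sound _ 162 [(rh5c5e593799055d58.shift 1 2), rh622e448bbfbd38ee] (by decide +kernel))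
noncomputable def rh3419a2a1e6037006 : CRef := CRef.mk (Pat.mk 0x3000000060000000e00000000 0xe0000001e00000007000000060000000e00000008 5 5) 0 0 (step_sound _ 129 [(rh2145e1d24b96a57e.shift 1 1), rh9a85f3aff7ea5cad] (by decide +kernel))
noncomputable def rh34a706fd115c6418 : CRef := CRef.mk (Pat.mk 0x600000004000000050000000000000000 0x60000000600000004000000070000001e0000000a 5 5) 0 0 (step_sound _ 34 [(rh50fbb5868c909700.shift 1 1), rhac3d6389f960a17c] (by decide +kernel))
noncomputable def rh1e6e51d679b73676 : CRef := CRef.mk (Pat.mk 0x70000000e0000000a00000000 0xc0000001c0000003f0000000f0000000e00000004 5 6) 0 0 (step_sound _ 130 [(rh5c5e593799055d58.shift 1 1), rh5f16ef4c2153b86a] (by decide +kernel))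
noncomputable def rh7804c1b82493f6cf : CRef := CRef.mk (Pat.mk 0x60000000e0000000a0000000800000000 0x80000003e0000000f0000000e0000003c00000014 5 6) 0 0 (step_sound _ 131 [(rh2612b4f73ba7c3b3.shift 0 3), (rhac3d6389f960a17c.shift 1 0)] (by decide +kernel))
noncomputable def rh4815ff8218b48055 : CRef := CRef.mk (Pat.mk 0xc0000001800000028 0x10000000300000003f0000001f00000038 5 6) 0 0 (step_sound _ 65 [rh0676f88fdf10751a, (rhb739f4f82bb681b4.shift 0 1)] (by decide +kernel))
noncomputable def rhf587b2e6bca3ffdb : CRef := CRef.mk (Pat.mk 0x200000003000000000000000500000000 0x2000000030000000300000003000000070000000700000006 5 3) 0 0 (step_sound _ 161 [(rh319673309b7ac683.shift 0 1), (rh615a42bddefc9f31.shift 0 1), rh7edb682a906f5030] (by decide +kernel))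
noncomputable def rhd11ff76a54243cb4 : CRef := CRef.mk (Pat.mk 0x38000000000000001000000000 0x2000000020000000770000003e000000170000001000000010 5 7) 0 0 (step_sound _ 98 [(rh4c622fddc53a5f99.shift 0 3), (rh592c7139d2c44767.shift 0 2), (rh9e97bba44c1b13e4.shift 0 2), (rhb705031692dfe65f.shift 2 0)] (by decide +kernel))
noncomputable def rhb5de44cb673d576c : CRef := CRef.mk (Pat.mk 0x60000000400000014000000000000000000000000 0xc0000000e0000000e0000001c0000000f0000000e0000000a 5 5) 0 0 (step_sound _ 66 [(rh15f443a9a462a99b.shift 0 1), (rh6c59ce14113da07f.shift 2 0), (rhe4441baab75a6f73.shift 1 0)] (by decide +kernel))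
noncomputable def rhd2fecc6c0af6720b : CRef := CRef.mk (Pat.mk 0x40000000f00000000 0x1e0000007f00000038 5 7) 0 0 (step_sound _ 67 [(rh33e738c4ed385b9f.shift 0 1), rh76c4edc656936505] (by decide +kernel))
noncomputable def rh7d288a353d8899c2 : CRef := CRef.mk (Pat.mk 0x20000000700000008 0x770000003f00000018 5 7) 0 0 (step_sound _ 35 [(rh38791ac5737ed75e.shift 0 1), rhe25b0a99195a5d59] (by decide +kernel))
noncomputable def rhd075f00dbfdf21bc : CRef := CRef.mk (Pat.mk 0x40000000f 0xfe0000007f 5 8) 0 0 (step_sound _ 4 [(rh38791ac5737ed75e.shift 1 0), rh775b78df42231b16, rh9890f9d77740bbed, (rhb6f72982232a8164.shift 1 0)] (by decide +kernel))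
noncomputable def rhb25c3ef9dc9288b4 : CRef := CRef.mk (Pat.mk 0x60000000c0000000a0000000800000000 0x180000003e0000000f0000000e0000003c00000014 5 6) 0 0 (step_sound _ 131 [(rh155e6e50148888bc.shift 0 1), (rh934b7b499abbb98b.shift 1 0)] (by decide +kernel))
noncomputable def rh8818eb43e264257b : CRef := CRef.mk (Pat.mk 0x80000000c000000080000000400000000 0x140000003c0000000f000000080000000c00000004 5 6) 0 0 (step_sound _ 35 [(rh20ee5c2c4c3a9878.shift 0 1), (rh932754581e0f4330.shift 2 0)] (by decide +kernel))
noncomputable def rh2cb670e5eefc6f52 : CRef := CRef.mk (Pat.mk 0x400000006000000030000000e00000000 0x40000001f0000007f0000000e00000008 5 7) 0 0 (step_sound _ 67 [(rh2489a6362d409e73.shift 0 2), (rha5aa03dd987c466d.shift 2 0), rhbd279f5f5cd2b8e8, rhdf2a0c4db5cecb38] (by decide +kernel))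
noncomputable def rhc23ec26ef2c84235 : CRef := CRef.mk (Pat.mk 0x2000000020000000200000001 0x4000000060000000600000002000000060000000700000005 5 3) 0 0 (step_sound _ 129 [rh79877ebd3ef475dd, (rhced6d86d2069808b.shift 1 0)] (by decide +kernel))
noncomputable def rh2559e966e5ad0c20 : CRef := CRef.mk (Pat.mk 0xc0000000400000014000000000000000000000000 0x40000000c0000000c0000001c0000000f0000000e0000000a 5 5) 0 0 (step_sound _ 66 [(rh15f443a9a462a99b.shift 0 1), (rh8c3839f9b9075f23.shift 2 0), (rha8bc3cae4d77a08f.shift 1 0)] (by decide +kernel))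
noncomputable def rhb5dfd3d89e915244 : CRef := CRef.mk (Pat.mk 0xe000000000000000800000000 0x1000000010000000380000003e0000007f0000000800000008 5 7) 0 0 (step_sound _ 100 [(rh8db7f7558b75b2b1.shift 0 2), (rhb705031692dfe65f.shift 1 0)] (by decide +kernel))
noncomputable def rh43f6b0f7303fd4e5 : CRef := CRef.mk (Pat.mk 0x1c000000100000001000000000 0x10000000300000001f000000380000001800000008 5 6) 0 0 (step_sound _ 97 [rh92a79156df2ec221, (rhe25b0a99195a5d59.shift 1 2)] (by decide +kernel))
noncomputable def rhf7af50ec0797f3e7 : CRef := CRef.mk (Pat.mk 0xe000000000000000800000000 0x10000000780000003f0000007f0000000800000008 5 7) 0 0 (step_sound _ 100 [(rh3fc3a7fb6866dcd4.shift 1 2), rh7b9364b1e35b54aa, (rh8db7f7558b75b2b1.shift 0 2)] (by decide +kernel))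
noncomputable def rh548693f3c5bfc69e : CRef := CRef.mk (Pat.mk 0x38000000000000005000000000 0x770000003e000000670000007000000050 5 7) 0 0 (step_sound _ 98 [(rh4c622fddc53a5f99.shift 0 3), (rh775ca1963e850b80.shift 0 2), (rhbb30446677a12c7e.shift 2 0)] (by decide +kernel))
noncomputable def rhfdb5da24f059b96f : CRef := CRef.mk (Pat.mk 0x1f00000000 0x1e0000007f00000070 5 7) 0 0 (step_sound _ 67 [(rh33e738c4ed385b9f.shift 0 1), (rh6a5aad1075fb7119.shift 1 0)] (by decide +kernel))
noncomputable def rh675f0335dbced7dd : CRef := CRef.mk (Pat.mk 0x3800000000 0xf70000007e0000000f 5 8) 0 0 (step_sound _ 34 [(rh4c622fddc53a5f99.shift 0 1), rh775ca1963e850b80, (rhdd4fe9fd28ed4c0f.shift 1 0)] (by decide +kernel))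
noncomputable def rhf8f9958de208feb3 : CRef := CRef.mk (Pat.mk 0x200000006000000160000001000000000 0x400000006000000060000001e0000003700000006 5 6) 0 0 (step_sound _ 2 [rh90b7179ed187cb22, (rh9e07f76261b05888.shift 1 0)] (by decide +kernel))
noncomputable def rh7b37756f32452040 : CRef := CRef.mk (Pat.mk 0xc000000060000001c00000008 0x2000000130000003e000000360000001c00000008 5 6) 0 0 (step_sound _ 100 [rh1467579d82f7fd3f, (rh18965a982d73c794.shift 1 2)] (by decide +kernel))
noncomputable def rhea649dfb49198f10 : CRef := CRef.mk (Pat.mk 0x400000007000000040000000000000000 0x20000000a0000003e0000000f000000060000000400000004 5 6) 0 0 (step_sound _ 131 [(rh572132728df34c43.shift 0 3), (rh80f90a60d87caa0d.shift 0 3), (rhada3ac4b811cf4f9.shift 1 0)] (by decide +kernel))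
noncomputable def rh4393124d97fc5bce : CRef := CRef.mk (Pat.mk 0xc000000080000001800000000 0x10000000780000001f000000080000001800000010 5 7) 0 0 (step_sound _ 131 [(rh55afc6a59410cf00.shift 3 0), (rhe9f9259b2da8d967.shift 0 1)] (by decide +kernel))
noncomputable def rhf3be144f86c87e65 : CRef := CRef.mk (Pat.mk 0xf000000000000000800000000 0x1000000010000000380000001f000000180000000800000008 5 6) 0 0 (step_sound _ 132 [(rh428265de8cd3cd2d.shift 0 3), (rh8d970345f31a7d67.shift 1 0)] (by decide +kernel))
noncomputable def rhfed50f03487f3f2a : CRef := CRef.mk (Pat.mk 0x40000000c0000000400000018000000000000000000000000 0x40000000c0000000c0000001f00000018000000100000001000000010 5 5) 0 0 (step_sound _ 131 [(rh2145e1d24b96a57e.shift 2 3), rh68ea0a57ffa23c21] (by decide +kernel))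
noncomputable def rh71cb6b2fa9b3ae56 : CRef := CRef.mk (Pat.mk 0x100000002000000020000000600000000 0x4000000070000000700000002000000060000000700000001 5 3) 0 0 (step_sound _ 129 [rh4b783bb445d2d96a, (rh50fbb5868c909700.shift 0 1)] (by decide +kernel))
noncomputable def rh9e3b3a9a70b6d573 : CRef := CRef.mk (Pat.mk 0x40000000c0000000e0000001800000000 0x100000003c0000003f0000000e0000001800000010 5 6) 0 0 (step_sound _ 100 [(rh18965a982d73c794.shift 1 2), rh8bfafb9e7ef9ac91] (by decide +kernel))
noncomputable def rhbd63311746eb940c : CRef := CRef.mk (Pat.mk 0x80000000c000000040000001800000000 0x10000000180000003c0000000f0000001800000018 5 6) 0 0 (step_sound _ 67 [(rh55afc6a59410cf00.shift 3 0), rh70bb96c7dfab8ffc] (by decide +kernel))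
noncomputable def rh794078ab81e5aa27 : CRef := CRef.mk (Pat.mk 0x80000000c00000000000000140000000000000000 0x8000000080000001f000000780000001c0000001400000010 5 7) 0 0 (step_sound _ 99 [(rh2818863d77d69ed0.shift 2 1), (rh47dece01c1595e79.shift 3 0), (rh5974029d68103ee7.shift 0 2)] (by decide +kernel))
noncomputable def rh8ea7cc5a8f344736 : CRef := CRef.mk (Pat.mk 0x1000000018000000080000002000000000 0x70000000fe000001ff0000002000000020 5 9) 0 0 (step_sound _ 101 [(rh2820ca9a6c4f41b4.shift 0 2), (rha3804abfec7df74a.shift 1 0), (rhb02f9c2bd63f56db.shift 2 2)] (by decide +kernel))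
noncomputable def rhf38e37b591928a0c : CRef := CRef.mk (Pat.mk 0x1c00000008 0xe00000007f000000ff 5 8) 0 0 (step_sound _ 37 [(rh3fc3a7fb6866dcd4.shift 2 0), (rhaf9f2efc81a8312b.shift 1 0), rhed95296174ee961f] (by decide +kernel))
noncomputable def rh7f4cd105e770d447 : CRef := CRef.mk (Pat.mk 0x1a000000020000000800000000 0x1000000010000000380000001e0000000b0000000800000008 5 6) 0 0 (step_sound _ 98 [(rhb705031692dfe65f.shift 1 0), (rheb0810cc63b001d8.shift 0 2)] (by decide +kernel))
noncomputable def rh26370054250c765f : CRef := CRef.mk (Pat.mk 0x200000003000000010000000000000000600000002 0x200000003000000010000000100000003e00000077 5 7) 0 0 (step_sound _ 36 [rh4460d1954bd8412f, (rh9e3edb185cc347de.shift 4 1)] (by decide +kernel))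
noncomputable def rh00cc3c557f52e3ac : CRef := CRef.mk (Pat.mk 0x10000000080000000800000008000000030000000000000000 0x100000001800000008000000080000001b0000001e00000014 5 5) 0 0 (step_sound _ 67 [rhac5757e976034cc0, (rhbaefcd01e0a8bca3.shift 3 2)] (by decide +kernel))
noncomputable def rhc192858dc363f708 : CRef := CRef.mk (Pat.mk 0x1a00000002 0x700000003e00000073 5 7) 0 0 (step_sound _ 34 [(rha93a5dd541ab8209.shift 1 0), rheb0810cc63b001d8] (by decide +kernel))
noncomputable def rh634d7f83e7f8db6d : CRef := CRef.mk (Pat.mk 0xa0000000a0000000e000000040000000000000000 0x100000001e0000003b0000000e0000003c0000001800000010 5 6) 0 0 (step_sound _ 67 [(rh42afa1af9fffa0e1.shift 1 1), (rh6c59ce14113da07f.shift 3 0), (rhe220a3c60ae0ac17.shift 0 1)] (by decide +kernel))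
noncomputable def rh31bf53284f0a2fb6 : CRef := CRef.mk (Pat.mk 0x200000007000000000 0x1fe000000fe0000000f 5 9) 0 0 (step_sound _ 35 [(rh56a24c72f1c55520.shift 2 1), (rh592c7139d2c44767.shift 1 0), rhb103f40a53fe1424, (rhec46bd5500c722c9.shift 2 1)] (by decide +kernel))
noncomputable def rhf2b553abd8191a47 : CRef := CRef.mk (Pat.mk 0x80000000c00000008000000000000000000000000 0x140000007c0000001f00000008000000180000001800000010 5 7) 0 0 (step_sound _ 67 [(rh5c651669912fbab1.shift 2 0), (rh6c59ce14113da07f.shift 3 0), (rhe286c75f2739cce2.shift 2 1), (rhe9f9259b2da8d967.shift 0 2)] (by decide +kernel))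
noncomputable def rhf0587d49e84ff7d9 : CRef := CRef.mk (Pat.mk 0x200000002000000020000000200000002000000000000000000000000 0x200000006000000060000000600000007000000030000000300000001 5 3) 0 0 (step_sound _ 65 [(rh7928877f9bf74a91.shift 0 1), (rha43277a93dc44e8f.shift 1 1), rhcab3157f7bdcba3e] (by decide +kernel))
noncomputable def rh08c75accbceac6f3 : CRef := CRef.mk (Pat.mk 0x20000000200000002000000040000000000000000 0x1000000030000000300000002000000070000000700000001 5 3) 0 0 (step_sound _ 65 [(rh55afc6a59410cf00.shift 1 1), rh6aa5625770489e83] (by decide +kernel))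
noncomputable def rh10f3b9579919d0bf : CRef := CRef.mk (Pat.mk 0x3800000000 0xf70000007e0000000f 5 8) 0 0 (step_sound _ 34 [(rh27ce058b59d72f64.shift 1 0), (rh4c622fddc53a5f99.shift 0 1), rh592c7139d2c44767, rh9e97bba44c1b13e4] (by decide +kernel))
noncomputable def rhc502eac36df96f07 : CRef := CRef.mk (Pat.mk 0x1c00000000 0xe70000007e000000e7 5 8) 0 0 (step_sound _ 37 [(rh3fc3a7fb6866dcd4.shift 2 0), rh592c7139d2c44767] (by decide +kernel))
noncomputable def rhfae129319be76921 : CRef := CRef.mk (Pat.mk 0x3800000000 0xff0000007e00000007 5 8) 0 0 (step_sound _ 34 [(rh4c622fddc53a5f99.shift 0 1), rh592c7139d2c44767, rh7654d7b92c96fe12, (rhb18e6c78a554867d.shift 1 1)] (by decide +kernel))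
noncomputable def rhae1dc7761d373688 : CRef := CRef.mk (Pat.mk 0x1e0000001800000008 0x4000000140000001f0000003e0000001800000008 5 6) 0 0 (step_sound _ 132 [rh3e34a007a92efc93, (rhee230b994cc8b773.shift 3 0)] (by decide +kernel))
noncomputable def rh8651b60ca4cd0dd2 : CRef := CRef.mk (Pat.mk 0x40000000e0000000800000008 0x10000000770000003e0000007800000008 5 7) 0 0 (step_sound _ 68 [(rh3fc3a7fb6866dcd4.shift 1 1), (rhbbda3e5cf400e6dd.shift 1 0), (rhe3060b190bc0bc78.shift 0 2)] (by decide +kernel))
noncomputable def rh7be56dea451b252f : CRef := CRef.mk (Pat.mk 0xf000000000000000400000000 0x40000001c0000000f000000180000000c0000000c 5 5) 0 0 (step_sound _ 131 [rh3340d8d890de195b, (rh33e738c4ed385b9f.shift 0 3)] (by decide +kernel))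
noncomputable def rh0dd03a0fe4bb5be9 : CRef := CRef.mk (Pat.mk 0x30000000f0000000000000004 0x10000000180000001f0000000f0000001c00000004 5 5) 0 0 (step_sound _ 99 [(rh33e738c4ed385b9f.shift 0 2), rh720338d7c09a2c09] (by decide +kernel))
noncomputable def rh6db5e6cb937903bb : CRef := CRef.mk (Pat.mk 0x3c00000000 0x70000003e00000067 5 7) 0 0 (step_sound _ 5 [rh775ca1963e850b80, (rhe25b0a99195a5d59.shift 2 0)] (by decide +kernel))
noncomputable def rhe795f256841c39ce : CRef := CRef.mk (Pat.mk 0x3800000000 0x70000007e000000ff 5 8) 0 0 (step_sound _ 34 [rh0d378fd9e8917c5a, rh185f35b8bd8ec37f, (rh42d32bf970c9c157.shift 1 0), rh775ca1963e850b80] (by decide +kernel))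
noncomputable def rh1f97002fc1ea2c82 : CRef := CRef.mk (Pat.mk 0x8000000000000000e000000000000000000000000 0x800000008000000780000003e0000007f0000001000000010 5 7) 0 0 (step_sound _ 100 [(rh03a6f79dca3226c9.shift 1 0), (rh06db8ceda6269a47.shift 0 2), (rh3b00e9e9432b8f40.shift 0 2), (rh3fc3a7fb6866dcd4.shift 1 2)] (by decide +kernel))
noncomputable def rhba3453355d44391b : CRef := CRef.mk (Pat.mk 0x200000000000000038000000000000000000000000 0x2000000020000000670000003e000000370000001000000010 5 7) 0 0 (step_sound _ 98 [(rh3927159016129638.shift 2 0), (rh775ca1963e850b80.shift 0 2)] (by decide +kernel))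
noncomputable def rha52e1acf7ed5511e : CRef := CRef.mk (Pat.mk 0x2000000060000000200000002000000000000000000000000 0x2000000060000000600000006000000070000000700000001 5 3) 0 0 (step_sound _ 66 [rh6f022302a8eeec88, (rhd3458b32566d63f7.shift 1 2)] (by decide +kernel))
noncomputable def rha760f76b6cb53190 : CRef := CRef.mk (Pat.mk 0x3800000000 0xe70000007e000000f7 5 8) 0 0 (step_sound _ 34 [rh0d378fd9e8917c5a, rh185f35b8bd8ec37f, (rh3fc3a7fb6866dcd4.shift 2 0), rh775ca1963e850b80] (by decide +kernel))
noncomputable def rh8ba946378c076615 : CRef := CRef.mk (Pat.mk 0x1000000010000000000000003800000000 0x1000000010000000100000003e00000077 5 7) 0 0 (step_sound _ 5 [rha0ae8adeb1dbcf8d, (rhff0f29cb645b05f7.shift 4 0)] (by decide +kernel))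
noncomputable def rh00497d8a8a1adb93 : CRef := CRef.mk (Pat.mk 0x1c00000000 0xe00000007e000000ff 5 8) 0 0 (step_sound _ 37 [rh185f35b8bd8ec37f, (rh3b00e9e9432b8f40.shift 1 0), (rh3fc3a7fb6866dcd4.shift 2 0)] (by decide +kernel))
noncomputable def rh4a074bb303831f6e : CRef := CRef.mk (Pat.mk 0x80000000800000008000000000000003800000000 0x800000008000000080000000f0000003e00000007 5 6) 0 0 (step_sound _ 34 [(rh12ce15e2055368ee.shift 1 1), (rh316d0c7c5292e4bb.shift 1 0), (rh343a5d3670c5295a.shift 2 0), rh592c7139d2c44767] (by decide +kernel))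
noncomputable def rh499c75226f92534c : CRef := CRef.mk (Pat.mk 0x700000000000000040000000400000004 0x380000001f0000003c000000040000000400000004 5 6) 0 0 (step_sound _ 131 [(rh47cbca82c94c0c1a.shift 2 0), (rh4fc80024ed3db095.shift 0 1), (rha93a5dd541ab8209.shift 0 3), rhdf88d096527d0db3] (by decide +kernel))
noncomputable def rh5b80d90965a2c21b : CRef := CRef.mk (Pat.mk 0x38000000000000002000000020 0xef0000007e000000270000002000000020 5 8) 0 0 (step_sound _ 98 [(rh6a78fa75f0f8d5b0.shift 2 0), (rh775ca1963e850b80.shift 0 2), (rhb18e6c78a554867d.shift 1 3)] (by decide +kernel))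
noncomputable def rhaac7e64f8151c096 : CRef := CRef.mk (Pat.mk 0x3800000000 0xef0000007e0000000f 5 8) 0 0 (step_sound _ 34 [(rh3b00e9e9432b8f40.shift 1 0), rh775ca1963e850b80, (rhb18e6c78a554867d.shift 1 1)] (by decide +kernel))
noncomputable def rh31a89230c7d93b0e : CRef := CRef.mk (Pat.mk 0x80000000a00000008000000000000000400000000 0x10000000780000001f00000008000000180000001c00000014 5 7) 0 0 (step_sound _ 67 [(rh0363d47a46978688.shift 0 2), (rhbd097c4034f102b6.shift 2 0)] (by decide +kernel))
noncomputable def rh62d9a08326752237 : CRef := CRef.mk (Pat.mk 0x1a000000020000000800000000 0x10000000300000001e0000003b0000000800000008 5 6) 0 0 (step_sound _ 98 [(rh8d7debc4db40f233.shift 1 0), (rheb0810cc63b001d8.shift 0 2)] (by decide +kernel))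
noncomputable def rh5097179b612bed67 : CRef := CRef.mk (Pat.mk 0xd000000010000000400000000 0x8000000380000001f0000003f0000000400000004 5 6) 0 0 (step_sound _ 97 [rh8d7debc4db40f233, (rhd584a578337d0023.shift 0 2), (rhf3baec4a0a3dd35e.shift 0 2)] (by decide +kernel))
noncomputable def rh39fd5b98275e7a9f : CRef := CRef.mk (Pat.mk 0x200000002000000020000000200000000 0x500000007000000070000000200000002000000060000000600000004 5 3) 0 0 (step_sound _ 161 [(rhc85cc95794737cf7.shift 0 2), (rhd29a1fb688eae70f.shift 1 0)] (by decide +kernel))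
noncomputable def rh28128a3e19931bf5 : CRef := CRef.mk (Pat.mk 0x180000000200000008000000000000000400000000 0x780000001f000000080000001c0000001c00000014 5 7) 0 0 (step_sound _ 131 [(rh0b786d94a31538a6.shift 0 4), (rhebbfc1325fb53d6f.shift 2 0)] (by decide +kernel))
noncomputable def rh0527642580dffc14 : CRef := CRef.mk (Pat.mk 0x20000000200000002000000000000000400000000 0x4000000060000000600000002000000070000000700000001 5 3) 0 0 (step_sound _ 65 [rhcab3157f7bdcba3e, (rhd3458b32566d63f7.shift 1 1)] (by decide +kernel))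
noncomputable def rhd8c02b1f5d1e0935 : CRef := CRef.mk (Pat.mk 0x7000000000000000a000000080000000800000000 0x380000001f000000780000001f000000080000000800000008 5 7) 0 0 (step_sound _ 132 [(rh02656b88bb9251f4.shift 0 1), (rh08d50fe567eb1045.shift 3 0), (rhbde3155b58799f90.shift 0 3), (rhc44aa952c63836fd.shift 0 4), (rhcd1fe2fd35e44d65.shift 1 0)] (by decide +kernel))
noncomputable def rh7f047e10541f99f0 : CRef := CRef.mk (Pat.mk 0x400000004000000140000001c 0x400000004000000740000007f0000001c 5 7) 0 0 (step_sound _ 35 [(rh2145e1d24b96a57e.shift 2 0), rhee4c4dd27f5d0359] (by decide +kernel))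
noncomputable def rh5a63d60437164e75 : CRef := CRef.mk (Pat.mk 0xe000000020000000a0000000a 0x310000001f0000003a0000001a0000000a 5 6) 0 0 (step_sound _ 96 [rh50fbb5868c909700, rh9a4a6673d077c16f] (by decide +kernel))
noncomputable def rh9f1ff6a5f1324a28 : CRef := CRef.mk (Pat.mk 0xa000000020000000a0000000a 0x3d0000001f0000000a0000000a0000000a 5 6) 0 0 (step_sound _ 98 [rh1ca6a411c4d776d2, (rh2f68792b6b779e96.shift 1 0)] (by decide +kernel))
noncomputable def rh317c4d3b549861df : CRef := CRef.mk (Pat.mk 0x1c00000002 0x700000003e00000073 5 7) 0 0 (step_sound _ 33 [(rh3fc3a7fb6866dcd4.shift 1 0), rheb0810cc63b001d8] (by decide +kernel))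
noncomputable def rh2669bb97c83f8432 : CRef := CRef.mk (Pat.mk 0x60000000a000000020000000a 0x390000001f0000001a0000000a0000000a 5 6) 0 0 (step_sound _ 96 [rh320c6d97c59498d4, rh50fbb5868c909700] (by decide +kernel))
noncomputable def rh2fbddababb45574a : CRef := CRef.mk (Pat.mk 0xa00000008000000080000000800000000 0x40000001f00000078000000080000000c00000004 5 7) 0 0 (step_sound _ 34 [(rh65ea2becd35674d0.shift 0 1), (rh932754581e0f4330.shift 2 0)] (by decide +kernel))
noncomputable def rhf73a05e6057f2bb8 : CRef := CRef.mk (Pat.mk 0xa0000000a00000006000000020000000000000000 0x7a0000003f00000006000000030000000300000003 5 7) 0 0 (step_sound _ 130 [rh0bd0e5256aa45955, rh46530d756bdf8511, (rha11dfd15f08f96e3.shift 0 4)] (by decide +kernel))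
noncomputable def rh1069793f7c6eec90 : CRef := CRef.mk (Pat.mk 0x80000000a0000000200000002000000020000000400000000 0x780000001f0000000600000002000000020000000600000004 5 7) 0 0 (step_sound _ 33 [(rh55afc6a59410cf00.shift 1 0), (rhefac8fab10c1a954.shift 0 1)] (by decide +kernel))
noncomputable def rhd0152085bc607411 : CRef := CRef.mk (Pat.mk 0x1400000004000000140000001400000000 0x1400000014000000340000001f0000001c00000008 5 6) 0 0 (step_sound _ 35 [(rh55afc6a59410cf00.shift 2 0), (rhcf9523056899b812.shift 0 1)] (by decide +kernel))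
noncomputable def rh12c68fd10c29b010 : CRef := CRef.mk (Pat.mk 0x16000000000000001400000018 0x20000000300000003e000000f00000003f00000018 5 8) 0 0 (step_sound _ 68 [(rhd444dcb48ef11957.shift 1 0), (rhe57df5fd7b63fb6b.shift 1 1), rhe989621af1e4961c] (by decide +kernel))
noncomputable def rh6c2ca09d6bdb9eea : CRef := CRef.mk (Pat.mk 0xe000000040000000000000008 0x700000007f0000007e0000001800000008 5 7) 0 0 (step_sound _ 100 [(rh353ebc24c4d595b9.shift 1 0), (rh4f9005b8aab47599.shift 0 2), (rh84d84ec8e59a0da5.shift 1 2), (rha93a5dd541ab8209.shift 1 2)] (by decide +kernel))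
noncomputable def rhfd10f4418abdb1e2 : CRef := CRef.mk (Pat.mk 0x8000000080000000a0000000a000000020000000200000000 0x8000000780000001f0000000e000000060000000200000002 5 7) 0 0 (step_sound _ 98 [rh6a772b105410b9b5, (rh932754581e0f4330.shift 2 2)] (by decide +kernel))
noncomputable def rh93ce42b527ed3561 : CRef := CRef.mk (Pat.mk 0x400000008000000080000000a00000000 0x40000000c00000008000000780000001f00000004 5 7) 0 0 (step_sound _ 131 [(rh50fbb5868c909700.shift 2 1), rh52d1052ba61f0dfd] (by decide +kernel))
noncomputable def rh9ddc3978d1b16209 : CRef := CRef.mk (Pat.mk 0xe000000020000000a0000000a 0x390000001f000000320000001a0000000a 5 6) 0 0 (step_sound _ 96 [rh2df5afcfc4cfd1fc, rh50fbb5868c909700] (by decide +kernel))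
noncomputable def rhd3326662841a24a2 : CRef := CRef.mk (Pat.mk 0x80000000c00000009000000000000000000000000 0x80000000c0000000c0000000f0000001c0000001c00000018 5 5) 0 0 (step_sound _ 98 [(rh1e309b005ffa1b36.shift 2 1), rh5f31868a4bdc1757] (by decide +kernel))
noncomputable def rh78b59af955bc1b62 : CRef := CRef.mk (Pat.mk 0x40000000000000002000000020000000200000000 0x1000000070000000700000002000000060000000600000004 5 3) 0 0 (step_sound _ 129 [rh5abfc4c9d959be03, (rhbaefcd01e0a8bca3.shift 1 1)] (by decide +kernel))
noncomputable def rhfb97c01108f1802d : CRef := CRef.mk (Pat.mk 0x3800000000 0xef0000007e000000e7 5 8) 0 0 (step_sound _ 34 [rh592c7139d2c44767, (rha93a5dd541ab8209.shift 2 0), (rhe401600d466b97cd.shift 1 0)] (by decide +kernel))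
noncomputable def rh7eba832750935fed : CRef := CRef.mk (Pat.mk 0xf00000008000000000000000a00000000 0x1c0000000f00000008000000180000001f00000004 5 5) 0 0 (step_sound _ 67 [(rh50fbb5868c909700.shift 2 1), rhb51e2403d3591ebc] (by decide +kernel))
noncomputable def rh98643480cb9ce90c : CRef := CRef.mk (Pat.mk 0x380000000000000000000000200000002000000000 0x1f0000007e000000e700000020000000300000003000000010 5 8) 0 0 (step_sound _ 162 [(rh592c7139d2c44767.shift 0 4), (rhd8e052951cb058e0.shift 2 0), (rhe401600d466b97cd.shift 1 4)] (by decide +kernel))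
noncomputable def rh5c5250123634c343 : CRef := CRef.mk (Pat.mk 0x100000001e0000001000000000 0x1000000038000000380000001f0000001e0000001800000010 5 6) 0 0 (step_sound _ 97 [(rh3244c3cc8379b070.shift 0 2), (rh85405a0bd20a5d58.shift 1 0)] (by decide +kernel))
noncomputable def rh41f124c60df35849 : CRef := CRef.mk (Pat.mk 0x180000000a0000000a000000080000000800000000 0x180000000f0000000e0000007c0000001800000008 5 7) 0 0 (step_sound _ 130 [(rh53b3c253cb0c65f4.shift 0 4), (rhe18541b2f26ec75a.shift 1 0)] (by decide +kernel))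
noncomputable def rh25a95c3cf753838b : CRef := CRef.mk (Pat.mk 0x60000000a0000000a00000002 0x10000000f0000007a0000001f00000002 5 7) 0 0 (step_sound _ 96 [(rh14f1061ecd68f544.shift 0 1), rh50fbb5868c909700] (by decide +kernel))
noncomputable def rh81643460d1204063 : CRef := CRef.mk (Pat.mk 0x4000000020000000a0000000a00000000 0x400000006000000020000007a0000001f00000004 5 7) 0 0 (step_sound _ 129 [(rh2f68792b6b779e96.shift 1 1), rh41a2721b347cda5f] (by decide +kernel))
noncomputable def rh606949c5f4b95d39 : CRef := CRef.mk (Pat.mk 0x1000000020000000a0000000a00000000 0x100000003000000020000007a0000001f00000004 5 7) 0 0 (step_sound _ 129 [rh41a2721b347cda5f, (rh50fbb5868c909700.shift 0 1)] (by decide +kernel))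
noncomputable def rh79f6ad7528adf340 : CRef := CRef.mk (Pat.mk 0x80000000a00000008000000000000000000000000 0x100000001000000018000000780000001f00000008000000180000001800000010 5 7) 0 0 (step_sound _ 164 [(rh0b786d94a31538a6.shift 0 4), (rh3820f35d5e705bec.shift 3 0), (rhdc9dff940ad3a13b.shift 0 2)] (by decide +kernel))
noncomputable def rhe4f57d2acbc4e1ac : CRef := CRef.mk (Pat.mk 0x800000008000000000000000e00000000 0x80000000800000008000000780000003f00000070 5 7) 0 0 (step_sound _ 36 [(rh49bdc49f6b132823.shift 1 0), (rh990f2a74d3707a53.shift 0 1), (rha93a5dd541ab8209.shift 1 0)] (by decide +kernel))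
noncomputable def rh8e6fc4330c105df7 : CRef := CRef.mk (Pat.mk 0x40000001400000014000000000000000e00000000 0x40000001400000014000000370000003e00000030 5 6) 0 0 (step_sound _ 65 [rha50ab434e2472bdb, (rheea67dfebd0f8008.shift 1 1)] (by decide +kernel))
noncomputable def rh5d3abd577faa14f2 : CRef := CRef.mk (Pat.mk 0x1c00000000 0xe70000007e000000ef 5 8) 0 0 (step_sound _ 37 [(rh3b00e9e9432b8f40.shift 1 0), (rh3fc3a7fb6866dcd4.shift 2 0), (rh42d32bf970c9c157.shift 1 0), rh775ca1963e850b80] (by decide +kernel))
noncomputable def rh1420a8e454ba040d : CRef := CRef.mk (Pat.mk 0x3800000000 0x70000007e000000ff 5 8) 0 0 (step_sound _ 34 [(rh06db8ceda6269a47.shift 1 0), rh0d378fd9e8917c5a, rh775ca1963e850b80] (by decide +kernel))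
noncomputable def rh757841c8d25f29d4 : CRef := CRef.mk (Pat.mk 0x800000008000000000000000e00000000 0x10000000180000001800000008000000780000003f00000070 5 7) 0 0 (step_sound _ 36 [(rh3fc3a7fb6866dcd4.shift 1 0), (rh49bdc49f6b132823.shift 1 0), (rh990f2a74d3707a53.shift 0 1), (rha07b5798de7ea8fb.shift 3 0)] (by decide +kernel))
noncomputable def rh5effb2bb22dd3661 : CRef := CRef.mk (Pat.mk 0x200000002000000000000000300000000 0x4000000060000000600000002000000060000000700000005 5 3) 0 0 (step_sound _ 65 [(rh5ef66011045fb859.shift 1 0), rh932754581e0f4330] (by decide +kernel))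
noncomputable def rh60b3ba3485c5f1a3 : CRef := CRef.mk (Pat.mk 0x1000000010000000000000001c00000000 0x1000000010000000f00000007e000000e7 5 8) 0 0 (step_sound _ 37 [(rh3fc3a7fb6866dcd4.shift 2 0), (rh49bdc49f6b132823.shift 2 0), rh9e97bba44c1b13e4] (by decide +kernel))
noncomputable def rh930aa306809532b2 : CRef := CRef.mk (Pat.mk 0xa000000080000000800000004 0x10000000780000001f000000080000000c00000004 5 7) 0 0 (step_sound _ 131 [(rh0363d47a46978688.shift 0 1), (rh79877ebd3ef475dd.shift 2 0)] (by decide +kernel))
noncomputable def rha6e4ed44f7b6a7de : CRef := CRef.mk (Pat.mk 0x200000003000000020000000200000002000000000000000000000000 0x200000003000000070000000600000006000000030000000300000001 5 3) 0 0 (step_sound _ 65 [rh042fb9b5ab502ead, (rhffd04209dc8ea796.shift 0 2)] (by decide +kernel))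
noncomputable def rh605ef5a5ae48f4b0 : CRef := CRef.mk (Pat.mk 0x100000001000000050000000500000000000000000000000000000000 0x100000005000000050000000700000007000000060000000200000002 5 3) 0 0 (step_sound _ 97 [rh0db24d183fcfcaaa, (rhd3458b32566d63f7.shift 0 3)] (by decide +kernel))
noncomputable def rh46aa47d8d369db75 : CRef := CRef.mk (Pat.mk 0x1000000020000000200000002000000020000000000000000 0x300000003000000060000000600000006000000060000000200000002 5 3) 0 0 (step_sound _ 193 [(rh50fbb5868c909700.shift 0 3), (rhc9696e4650cbd493.shift 1 0)] (by decide +kernel))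
noncomputable def rh313ed65a49c3075f : CRef := CRef.mk (Pat.mk 0x20000000200000002000000020000000000000000 0x10000000700000007000000060000000600000006000000060000000200000002 5 3) 0 0 (step_sound _ 193 [(rh44f453b84f013105.shift 1 2), (rh5abfc4c9d959be03.shift 0 2), (rhc9696e4650cbd493.shift 1 0)] (by decide +kernel))
noncomputable def rh13daa721e2618735 : CRef := CRef.mk (Pat.mk 0x800000008000000080000000800000000 0x40000001f0000007c000000080000000800000008 5 7) 0 0 (step_sound _ 130 [(rh50fbb5868c909700.shift 2 1), rhe2b91cb871a6b61c] (by decide +kernel))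
noncomputable def rh26c1cdea48278a44 : CRef := CRef.mk (Pat.mk 0x20000000200000002000000000000000000000000 0x500000007000000070000000700000002000000060000000600000004 5 3) 0 0 (step_sound _ 65 [(rh1741680720c097b4.shift 0 2), rh5ad9898cc32ef511, (rh6c59ce14113da07f.shift 1 0)] (by decide +kernel))
noncomputable def rhaa3bece996244111 : CRef := CRef.mk (Pat.mk 0x1000000010000000100000001000000000000000000000000 0x10000000100000003000000030000000300000003000000030000000300000002 5 2) 0 0 (step_sound _ 64 [rh6c59ce14113da07f, (rh9bb7d10ce98dcee4.shift 0 1), (rhd29a1fb688eae70f.shift 0 1)] (by decide +kernel))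
noncomputable def rh81093e72fc40e835 : CRef := CRef.mk (Pat.mk 0x20000000200000002000000020000000000000000 0x50000000700000007000000060000000600000006000000060000000200000002 5 3) 0 0 (step_sound _ 193 [(rh44f453b84f013105.shift 1 2), (rhc85cc95794737cf7.shift 0 3), (rhc9696e4650cbd493.shift 1 0)] (by decide +kernel))
noncomputable def rh50b4c4058f77120d : CRef := CRef.mk (Pat.mk 0x100000001000000010000000500000000 0x30000000300000003000000030000000700000007 5 3) 0 0 (step_sound _ 129 [rh23460d8e259a5482, (rh2f68792b6b779e96.shift 0 1)] (by decide +kernel))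
noncomputable def rhfb85b00d82a1f171 : CRef := CRef.mk (Pat.mk 0x1e00000004000000140000000400000000 0x300000001f0000003c0000001c0000000c00000008 5 6) 0 0 (step_sound _ 100 [rh34154a504ce726d2, (rhe25b0a99195a5d59.shift 1 3)] (by decide +kernel))
noncomputable def rh217f7934a512393b : CRef := CRef.mk (Pat.mk 0x1c00000008000000000000003000000000 0x200000007f0000007e000000100000003000000020 5 7) 0 0 (step_sound _ 100 [(rh6292bd8784ece55f.shift 1 3), (rhd2c5d35a81143964.shift 1 0), (rhdeca8db941583de2.shift 0 3)] (by decide +kernel))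
noncomputable def rhb01c8921475706a1 : CRef := CRef.mk (Pat.mk 0x800000008000000080000000800000000 0x40000001f0000007c000000080000000800000008 5 7) 0 0 (step_sound _ 130 [(rh50fbb5868c909700.shift 2 1), rh755b1072f474bcda] (by decide +kernel))
noncomputable def rh54955cb182c4b1a5 : CRef := CRef.mk (Pat.mk 0x800000008000000280000000800000000 0x100000003c0000001f000000380000000800000008 5 6) 0 0 (step_sound _ 132 [(rh2f68792b6b779e96.shift 3 1), rhaa633ebd3428d439] (by decide +kernel))
noncomputable def rhb105fa6bb0dc69be : CRef := CRef.mk (Pat.mk 0x180000000c00000008000000280000000800000000 0x8000000180000000f0000003e000000380000000800000008 5 6) 0 0 (step_sound _ 98 [(rh22f2da900a513914.shift 0 2), (rh7b1f1fb55310c477.shift 2 0)] (by decide +kernel))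
noncomputable def rh1374383510406736 : CRef := CRef.mk (Pat.mk 0x2000000020000000200000002 0x5000000070000000700000003000000060000000600000006 5 3) 0 0 (step_sound _ 129 [rh3ca48e2a6d60153d, (rhc85cc95794737cf7.shift 0 1), (rhced6d86d2069808b.shift 1 0)] (by decide +kernel))
noncomputable def rhdc64ca37ff5f0440 : CRef := CRef.mk (Pat.mk 0x20000000200000002000000020000000000000000 0x50000000700000007000000060000000600000006000000060000000200000002 5 3) 0 0 (step_sound _ 193 [(rh44f453b84f013105.shift 1 2), (rhc85cc95794737cf7.shift 0 3), (rhc9696e4650cbd493.shift 1 0), (rhced6d86d2069808b.shift 1 2)] (by decide +kernel))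
noncomputable def rh4def23ab09cc1832 : CRef := CRef.mk (Pat.mk 0x30000000200000002000000020000000000000000 0x200000002000000070000000700000006000000060000000200000002 5 3) 0 0 (step_sound _ 33 [(rh9bb7d10ce98dcee4.shift 1 0), (rhffd04209dc8ea796.shift 0 1)] (by decide +kernel))
noncomputable def rh1aa7645d07f45dd6 : CRef := CRef.mk (Pat.mk 0x1000000020000000200000002000000000000000000000000 0x5000000070000000600000002000000060000000600000004 5 3) 0 0 (step_sound _ 65 [(rh6b49c384df38419b.shift 1 0), (rhffd04209dc8ea796.shift 0 2)] (by decide +kernel))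
noncomputable def rhcdb368c5e68fbcfe : CRef := CRef.mk (Pat.mk 0xf00000002000000020000000200000000 0x180000000f0000001e0000000e0000000600000004 5 5) 0 0 (step_sound _ 99 [rh62dafca790b4f336, (rhe25b0a99195a5d59.shift 0 3)] (by decide +kernel))
noncomputable def rh1b6b46f2866dcae5 : CRef := CRef.mk (Pat.mk 0x20000000200000002000000000000000000000000 0x100000007000000070000000700000006000000060000000600000004 5 3) 0 0 (step_sound _ 65 [(rh373b7625e672cfd8.shift 0 1), (rh5abfc4c9d959be03.shift 0 1), (rh6c59ce14113da07f.shift 1 0)] (by decide +kernel))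
noncomputable def rh4623c30ddc32f114 : CRef := CRef.mk (Pat.mk 0x600000006000000020000000a00000000 0x80000003e00000007000000060000000e0000000c 5 6) 0 0 (step_sound _ 34 [(rh55afc6a59410cf00.shift 1 0), rh7e99bad398b5e81a] (by decide +kernel))
noncomputable def rh2e840919ac68a2db : CRef := CRef.mk (Pat.mk 0xc0000000c0000000c00000018 0x100000007c0000003e0000000f00000018 5 7) 0 0 (step_sound _ 33 [(rh83eb397d44d03c54.shift 1 0), rhb739f4f82bb681b4] (by decide +kernel))
noncomputable def rhc34bd1e15220d0e2 : CRef := CRef.mk (Pat.mk 0x20000000200000002000000000000000000000000 0x400000006000000060000000600000006000000070000000700000005 5 3) 0 0 (step_sound _ 65 [rh6eff4158bb400f47, rhcab3157f7bdcba3e, (rhced6d86d2069808b.shift 1 1)] (by decide +kernel))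
noncomputable def rhc7cc0e5d723530e1 : CRef := CRef.mk (Pat.mk 0x20000000200000002000000000000000000000000 0x500000007000000070000000700000002000000030000000300000001 5 3) 0 0 (step_sound _ 65 [(rh1741680720c097b4.shift 0 2), rhc4526fc8abf298b6, rhcab3157f7bdcba3e] (by decide +kernel))
noncomputable def rh738feff674d58b9d : CRef := CRef.mk (Pat.mk 0x20000000200000002000000000000000000000000 0x100000003000000030000000300000006000000070000000700000005 5 3) 0 0 (step_sound _ 65 [(rh5abfc4c9d959be03.shift 0 1), rh6eff4158bb400f47, rh8ff3dde5b1c639e0, rhc4526fc8abf298b6] (by decide +kernel))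
noncomputable def rhf1157099ae70afd3 : CRef := CRef.mk (Pat.mk 0x20000000200000002000000000000000000000000 0x400000007000000070000000300000006000000070000000700000005 5 3) 0 0 (step_sound _ 65 [rh6eff4158bb400f47, rhc4526fc8abf298b6, (rhced6d86d2069808b.shift 1 1)] (by decide +kernel))
noncomputable def rh137d22b41e17faf2 : CRef := CRef.mk (Pat.mk 0xe00000004000000140000000c00000000 0x300000003e000000370000001c0000000e00000002 5 6) 0 0 (step_sound _ 33 [(rh2ef84f03534d7885.shift 0 1), (rh932754581e0f4330.shift 1 0)] (by decide +kernel))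
noncomputable def rh25b5d3a6a885eed6 : CRef := CRef.mk (Pat.mk 0x1e00000004000000040000001400000000 0x100000001f0000003c0000000c0000001c00000018 5 6) 0 0 (step_sound _ 100 [rh0143939f2c16d700, (rhe25b0a99195a5d59.shift 1 3)] (by decide +kernel))
noncomputable def rh2bd1c6cb9723ed05 : CRef := CRef.mk (Pat.mk 0x400000004000000140000000400000000 0xc0000000c000000040000001c0000000f0000000a 5 5) 0 0 (step_sound _ 131 [rh15f443a9a462a99b, (rh2f68792b6b779e96.shift 2 1)] (by decide +kernel))
noncomputable def rh2f04825cf8607f55 : CRef := CRef.mk (Pat.mk 0xe00000004000000140000000400000000 0x300000003e000000370000001c0000000c00000008 5 6) 0 0 (step_sound _ 35 [(rh2ef84f03534d7885.shift 0 1), (rh55afc6a59410cf00.shift 2 0)] (by decide +kernel))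
noncomputable def rh834291253bf4364d : CRef := CRef.mk (Pat.mk 0x40000000400000014000000000000000000000000 0x600000006000000060000001c0000000f0000000e0000000a 5 5) 0 0 (step_sound _ 66 [(rh15f443a9a462a99b.shift 0 1), (rh8ff3dde5b1c639e0.shift 1 0), (rhc4526fc8abf298b6.shift 1 0)] (by decide +kernel))
noncomputable def rhf0106fb1fa06c188 : CRef := CRef.mk (Pat.mk 0x40000000400000014000000000000000000000000 0xc0000000c0000000c0000001c0000000f0000000e0000000a 5 5) 0 0 (step_sound _ 66 [(rh15f443a9a462a99b.shift 0 1), (rh6c59ce14113da07f.shift 2 0), (rhcab3157f7bdcba3e.shift 1 0)] (by decide +kernel))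
noncomputable def rh82cf52f5e05e5ae0 : CRef := CRef.mk (Pat.mk 0x40000000400000014000000000000000000000000 0x20000000600000006000000060000001c0000000f0000000e0000000a 5 5) 0 0 (step_sound _ 66 [(rh15f443a9a462a99b.shift 0 1), (rh5abfc4c9d959be03.shift 1 1), (rh8ff3dde5b1c639e0.shift 1 0), (rhc4526fc8abf298b6.shift 1 0)] (by decide +kernel))
noncomputable def rhda64cc5667b52153 : CRef := CRef.mk (Pat.mk 0x3800000010000000000000003c00000002 0x3e00000074000000060000003e00000003 5 7) 0 0 (step_sound _ 33 [(rh63bf3aa6dd7b2cff.shift 1 0), rheb0810cc63b001d8] (by decide +kernel))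
noncomputable def rh8c515cd1ca8d4dea : CRef := CRef.mk (Pat.mk 0x3800000010000000020000003c00000000 0x3e0000001e000000030000003e00000006 5 6) 0 0 (step_sound _ 33 [(rh201e0132300fe417.shift 1 0), (rh3244c3cc8379b070.shift 0 1)] (by decide +kernel))
noncomputable def rh5dffc5561274dae0 : CRef := CRef.mk (Pat.mk 0x1e000000000000000000000000 0x8000000380000001f000000300000001000000010 5 6) 0 0 (step_sound _ 132 [(rh33e738c4ed385b9f.shift 1 3), rh3cf1a66f5a1e4078] (by decide +kernel))
noncomputable def rh1f325e0f3e056dd5 : CRef := CRef.mk (Pat.mk 0x1800000038000000100000001800000000 0x180000003f000000770000001e00000004 5 7) 0 0 (step_sound _ 98 [(rh8d3f0896c66a47a6.shift 1 0), (rhcc2be1f880c5ea3e.shift 0 2), (rhf56e6bc5d2f7fe77.shift 0 2)] (by decide +kernel))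
noncomputable def rh3bb5ab68e077f59f : CRef := CRef.mk (Pat.mk 0x1c00000018000000100000000800000000 0x1c0000007f000000370000000c0000000c 5 7) 0 0 (step_sound _ 101 [rh5c62bbee060898ee, (rhf48373e13d2bc128.shift 2 3)] (by decide +kernel))
noncomputable def rhe81dfc0a63bb579e : CRef := CRef.mk (Pat.mk 0x400000004000000040000000400000000 0x40000000400000004000000070000003e0000000a 5 6) 0 0 (step_sound _ 33 [(rh932754581e0f4330.shift 1 0), rhbde7d95c34984ecf] (by decide +kernel))
noncomputable def rh82064b552a8316fd : CRef := CRef.mk (Pat.mk 0x7000000040000000400000000 0xa0000000e0000001e000000070000000c0000000c00000008 5 5) 0 0 (step_sound _ 130 [(rh4017de503635a93b.shift 0 1), (rh7eb4a07d72ad7934.shift 1 0), (rhced6d86d2069808b.shift 2 0)] (by decide +kernel))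
noncomputable def rh8f666d9a246f5c97 : CRef := CRef.mk (Pat.mk 0x60000000c0000000c000000000000000000000000 0x4000000060000003e0000000f000000020000000200000002 5 6) 0 0 (step_sound _ 132 [rha0fc30dd808625c1, (rhf48373e13d2bc128.shift 1 4)] (by decide +kernel))
noncomputable def rhca7b093a94043019 : CRef := CRef.mk (Pat.mk 0xc000000180000000e0000000000000000 0xc0000001f0000003e0000003300000012 5 6) 0 0 (step_sound _ 68 [(rh78974448101547fe.shift 1 0), rhc4658766f200b447] (by decide +kernel))
noncomputable def rh033be36e768cec15 : CRef := CRef.mk (Pat.mk 0xc000000080000000e0000000c 0x130000001f0000007c0000000e0000000c 5 7) 0 0 (step_sound _ 100 [rh19d7976b44620358, (rh2f68792b6b779e96.shift 3 0)] (by decide +kernel))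
noncomputable def rh641b5241be04eec6 : CRef := CRef.mk (Pat.mk 0x800000008000000080000000800000000 0x800000008000000080000000f0000003c00000014 5 6) 0 0 (step_sound _ 34 [rh0fc46964bf36b470, (rh932754581e0f4330.shift 2 0)] (by decide +kernel))
noncomputable def rhe33c9f4c7627940d : CRef := CRef.mk (Pat.mk 0xc0000001e000000180000000800000000 0x8000000080000000c0000001e0000001b0000000f00000006 5 5) 0 0 (step_sound _ 163 [(rh2145e1d24b96a57e.shift 3 2), rh8a8269f6d03330dc] (by decide +kernel))
noncomputable def rha9b45fc165e16ab9 : CRef := CRef.mk (Pat.mk 0x60000001e000000080000000000000000 0x60000001e0000003f0000000300000003 5 6) 0 0 (step_sound _ 68 [rh3ad675a172d88c03, (rhe25b0a99195a5d59.shift 1 2)] (by decide +kernel))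
noncomputable def rhb7fccbb677e762ea : CRef := CRef.mk (Pat.mk 0x18000000380000001000000000 0x1000000010000000180000003f000000f700000020 5 8) 0 0 (step_sound _ 37 [(rh3e595262c1b737ad.shift 4 0), (rh6292bd8784ece55f.shift 2 1), (rha4ae2ee71608971a.shift 0 1)] (by decide +kernel))
noncomputable def rh3ca4c10fdf355329 : CRef := CRef.mk (Pat.mk 0x400000004000000040000000400000000 0x400000004000000040000003c0000000f0000000a 5 6) 0 0 (step_sound _ 35 [(rh55afc6a59410cf00.shift 2 0), rh9657c25562dad1df] (by decide +kernel))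
noncomputable def rh2ca301d628ef7a86 : CRef := CRef.mk (Pat.mk 0x400000000000000000000003c00000000 0x4000000040000000e0000007e00000007 5 7) 0 0 (step_sound _ 66 [(rh3244c3cc8379b070.shift 1 1), rh36bba72bb2c41fbe] (by decide +kernel))
noncomputable def rh0da2e59bc176bb1b : CRef := CRef.mk (Pat.mk 0x60000001c000000180000000000000000 0x60000001f0000001f0000000300000003 5 5) 0 0 (step_sound _ 97 [rh3ad675a172d88c03, (rhb739f4f82bb681b4.shift 0 2)] (by decide +kernel))
noncomputable def rh3e50a038ba7d8ed0 : CRef := CRef.mk (Pat.mk 0x400000000000000080000001c00000000 0x4000000040000003f0000003f00000003 5 6) 0 0 (step_sound _ 33 [rh04d7e19c993f8872, (rhec46bd5500c722c9.shift 0 1)] (by decide +kernel))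
noncomputable def rhab082d0eddee63da : CRef := CRef.mk (Pat.mk 0x30000000000000002000000020000000000000000 0x1000000030000000200000002000000070000000700000005 5 3) 0 0 (step_sound _ 129 [(rh50fbb5868c909700.shift 0 2), rh8cdd36b03d57a2f6] (by decide +kernel))
noncomputable def rh7f3dd029b3944ffc : CRef := CRef.mk (Pat.mk 0x1800000010000000380000000000000000 0x180000001c000000fc0000000f0000000c 5 8) 0 0 (step_sound _ 99 [rh41eb4a13b78c152f, (rh79b3c29022acbdf3.shift 2 2)] (by decide +kernel))
noncomputable def rhb1d9a681991376a4 : CRef := CRef.mk (Pat.mk 0x2000000000000000600000006000000000000000000000000 0x20000000a0000003e00000007000000040000000400000004 5 6) 0 0 (step_sound _ 66 [rh20e3cbe97aab9353, (rh6f1cbe15c631ee70.shift 1 2)] (by decide +kernel))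
noncomputable def rhcfbea19f509e11c8 : CRef := CRef.mk (Pat.mk 0xc0000000c000000080000000800000000 0xc0000000c0000003c0000001f00000017 5 6) 0 0 (step_sound _ 34 [rh04c8e9e087c1fa01, (rh932754581e0f4330.shift 2 0)] (by decide +kernel))
noncomputable def rhbca22981d3151c8c : CRef := CRef.mk (Pat.mk 0x400000000000000180000001c00000000 0x4000000040000001f0000003f00000003 5 6) 0 0 (step_sound _ 33 [rh04d7e19c993f8872, (rh53b3c253cb0c65f4.shift 0 1)] (by decide +kernel))
noncomputable def rh311b7fb6883a242e : CRef := CRef.mk (Pat.mk 0x3c00000000 0x670000003e00000007 5 7) 0 0 (step_sound _ 70 [(rh428265de8cd3cd2d.shift 2 1), rh775ca1963e850b80] (by decide +kernel))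
noncomputable def rh023e01672e497271 : CRef := CRef.mk (Pat.mk 0x100000001e000000100000001000000000 0x100000001e0000001f0000003c00000028 5 6) 0 0 (step_sound _ 35 [rh1c24f3a102da336c, (rh932754581e0f4330.shift 3 0)] (by decide +kernel))
noncomputable def rh8ea5e4a7794c5a80 : CRef := CRef.mk (Pat.mk 0x7000000060000000000000000 0x8000000080000001c0000003f000000070000000400000004 5 6) 0 0 (step_sound _ 99 [(rh2612b4f73ba7c3b3.shift 0 2), rh6eb76252a9026692] (by decide +kernel))
noncomputable def rhb96e0fc334a287d7 : CRef := CRef.mk (Pat.mk 0x100000001e00000010000000000000000000000000 0x1000000010000000180000001e0000001f000000380000003800000018 5 6) 0 0 (step_sound _ 97 [(rh474e80922aa6bfad.shift 1 0), (rheb0810cc63b001d8.shift 0 3)] (by decide +kernel))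
noncomputable def rha22b2c434a94ac1f : CRef := CRef.mk (Pat.mk 0x1c00000000000000180000000800000000 0x100000001c0000000f0000007c0000000800000008 5 7) 0 0 (step_sound _ 99 [(rh2f68792b6b779e96.shift 3 1), rha34c4b685132e310] (by decide +kernel))
noncomputable def rh00816d89044311ce : CRef := CRef.mk (Pat.mk 0x200000003800000018 0x670000003f0000001e 5 7) 0 0 (step_sound _ 2 [rh370625f794a30c38, (rh53b3c253cb0c65f4.shift 1 0)] (by decide +kernel))
noncomputable def rh6a2476a587812df7 : CRef := CRef.mk (Pat.mk 0x1000000010000000180000000c0000000800000000 0x1000000030000000780000002f0000007c00000020 5 7) 0 0 (step_sound _ 65 [(rh005ebe51266aeb22.shift 1 0), (rh53b3c253cb0c65f4.shift 0 2)] (by decide +kernel))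
noncomputable def rh33d9608436eba56a : CRef := CRef.mk (Pat.mk 0x7000000040000000600000000 0xe0000001e00000007000000070000003e00000008 5 6) 0 0 (step_sound _ 130 [(rh4017de503635a93b.shift 0 1), rhbde7d95c34984ecf] (by decide +kernel))
noncomputable def rh29401b16b566653c : CRef := CRef.mk (Pat.mk 0xe000000080000000c00000000 0x1c0000003c0000000e000000380000001f00000010 5 6) 0 0 (step_sound _ 131 [(rh4017de503635a93b.shift 1 1), rh54968f8c0e71a67e] (by decide +kernel))
noncomputable def rh0515b5377c905995 : CRef := CRef.mk (Pat.mk 0x1000000010000000100000003000000000 0x1000000010000000100000001f0000007c00000008 5 7) 0 0 (step_sound _ 35 [(rh932754581e0f4330.shift 3 0), (rhc31ccd574348560f.shift 0 1)] (by decide +kernel))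
noncomputable def rh8da800ba2dfc5467 : CRef := CRef.mk (Pat.mk 0x1800000008000000180000000000000000 0x1000000018000000080000007c0000000f00000004 5 7) 0 0 (step_sound _ 35 [(rh2f68792b6b779e96.shift 3 1), rhb0de455c382c5b1c] (by decide +kernel))
noncomputable def rh958ac04a5d3bcb36 : CRef := CRef.mk (Pat.mk 0x2000000020000000300000000 0x4000000060000000600000002000000060000000700000005 5 3) 0 0 (step_sound _ 129 [rh932754581e0f4330, (rhced6d86d2069808b.shift 1 0)] (by decide +kernel))
noncomputable def rhbd22eca8adcb895f : CRef := CRef.mk (Pat.mk 0x6000000000000000e00000000 0x400000006000000730000003e00000073 5 7) 0 0 (step_sound _ 36 [(rh3fc3a7fb6866dcd4.shift 1 0), rh40bfdbfb16eaa264] (by decide +kernel))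
noncomputable def rh919ac74d9bd8c450 : CRef := CRef.mk (Pat.mk 0x1000000020000000600000003 0x4000000060000000700000003000000060000000700000003 5 3) 0 0 (step_sound _ 97 [rh50fbb5868c909700, rh5d410e570082021e] (by decide +kernel))
noncomputable def rhf747f40a263bf851 : CRef := CRef.mk (Pat.mk 0x200000002000000020000000200000002 0x100000003000000030000000700000006000000060000000600000002 5 3) 0 0 (step_sound _ 161 [(rh1f01239ae2eb1687.shift 1 0), (rh3ca48e2a6d60153d.shift 0 1), (rh5abfc4c9d959be03.shift 0 1)] (by decide +kernel))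
noncomputable def rh97fbc002008b0a7b : CRef := CRef.mk (Pat.mk 0x3000000040000000e00000000 0x30000007f0000003e00000070 5 7) 0 0 (step_sound _ 36 [(rha93a5dd541ab8209.shift 1 0), (rhe3060b190bc0bc78.shift 0 1), (rhf73f84e8c2adef2f.shift 0 1)] (by decide +kernel))
noncomputable def rh115c43e13eb9d2a1 : CRef := CRef.mk (Pat.mk 0x2000000070000000200000002 0x100000007000000070000000700000006000000070000000300000002 5 3) 0 0 (step_sound _ 129 [(rh1741680720c097b4.shift 0 1), (rh19425efbd4f76f8f.shift 0 1), (rh44f453b84f013105.shift 1 0)] (by decide +kernel))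
noncomputable def rh9f5e9b86f8715b6b : CRef := CRef.mk (Pat.mk 0x3000000010000000e00000000 0x6000000060000000600000003000000030000001e00000004 5 5) 0 0 (step_sound _ 65 [rh4c60faed9e5f228f, (rhf48373e13d2bc128.shift 0 1)] (by decide +kernel))
noncomputable def rhea6077f8c251a006 : CRef := CRef.mk (Pat.mk 0x1800000008000000700000000000000000 0x10000000180000000c0000007c0000000f00000004 5 7) 0 0 (step_sound _ 67 [(rh3244c3cc8379b070.shift 2 2), rh833981c53763488b] (by decide +kernel))
noncomputable def rh724d6ed95fc6d924 : CRef := CRef.mk (Pat.mk 0x200000002000000070000000200000002 0x300000003000000070000001e000000070000000200000002 5 5) 0 0 (step_sound _ 98 [(rh284ba75b0c0cf61a.shift 0 1), (rh2f68792b6b779e96.shift 1 0)] (by decide +kernel))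
noncomputable def rhe79590487a395ecc : CRef := CRef.mk (Pat.mk 0x10000000e00000000 0x30000003e00000077 5 7) 0 0 (step_sound _ 36 [rh06db8ceda6269a47, (rh3f8766e6ecb455ce.shift 0 1)] (by decide +kernel))
noncomputable def rhc09fc587550364d7 : CRef := CRef.mk (Pat.mk 0xf00000000 0x7f0000003f00000070 5 7) 0 0 (step_sound _ 36 [(rh3fc3a7fb6866dcd4.shift 1 0), (rh9890f9d77740bbed.shift 0 1), (rhb18e6c78a554867d.shift 0 1), rhe401600d466b97cd] (by decide +kernel))
noncomputable def rh6d5401b74a4c0ed8 : CRef := CRef.mk (Pat.mk 0xc000000000000003800000000 0x80000000c000000ec0000007e000000f7 5 8) 0 0 (step_sound _ 34 [rh3a522686800c907f, (rh5914ddd44e1a2b6e.shift 1 0), (rha93a5dd541ab8209.shift 2 0)] (by decide +kernel))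
noncomputable def rhcd796775d983042d : CRef := CRef.mk (Pat.mk 0x1e00000010 0x70000000ff0000001c 5 8) 0 0 (step_sound _ 69 [(rh428265de8cd3cd2d.shift 1 1), rhbb5b2b3c114b4457] (by decide +kernel))
noncomputable def rhdaec39178448f92a : CRef := CRef.mk (Pat.mk 0x3800000018000000080000000800000000 0x200000003800000018000000380000001f00000014 5 6) 0 0 (step_sound _ 36 [(rh55afc6a59410cf00.shift 3 0), rhf720ef07e4a826a3] (by decide +kernel))
noncomputable def rh4fa286acc4ae7598 : CRef := CRef.mk (Pat.mk 0x20000003c00000000 0x3000000ff0000003c 5 8) 0 0 (step_sound _ 33 [(rh3244c3cc8379b070.shift 0 1), rh992f31992592569e] (by decide +kernel))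
noncomputable def rhd95d9b4c8f300cb8 : CRef := CRef.mk (Pat.mk 0x100000001e00000010000000000000000000000000 0x10000000180000001e0000001f000000380000003800000010 5 6) 0 0 (step_sound _ 97 [(rh8a973ed835cba0cf.shift 1 0), (rheb0810cc63b001d8.shift 0 3)] (by decide +kernel))
noncomputable def rh18080533bf5a94f9 : CRef := CRef.mk (Pat.mk 0x8000000000000003e0000000000000000 0x80000000c000000ff0000003800000010 5 8) 0 0 (step_sound _ 36 [rh0f3ad84b859387bc, (rhe25b0a99195a5d59.shift 1 1)] (by decide +kernel))
noncomputable def rh3c8d48bbfc8a5af0 : CRef := CRef.mk (Pat.mk 0x8000000000000000c0000000c000000000000000000000000 0x80000000a0000000f0000003c000000040000000400000004 5 6) 0 0 (step_sound _ 66 [rh370af384ddd2082c, (rhee230b994cc8b773.shift 2 2)] (by decide +kernel))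
noncomputable def rh9ff6b5f518aa81cf : CRef := CRef.mk (Pat.mk 0x7c00000000 0x70000007f0000003c 5 7) 0 0 (step_sound _ 65 [(rh3f8766e6ecb455ce.shift 1 1), rhe2d67c06cce691aa] (by decide +kernel))
noncomputable def rh9754e95fae27c0d6 : CRef := CRef.mk (Pat.mk 0x80000000e000000180000000800000000 0x40000000c0000000e0000001e0000000f00000006 5 5) 0 0 (step_sound _ 34 [(rh932754581e0f4330.shift 2 0), rhe8bf3d9e427230f8] (by decide +kernel))
noncomputable def rh8fac90c51dc4d0a0 : CRef := CRef.mk (Pat.mk 0x100000000c000000080000000b000000010000000000000000 0x100000001a0000000f0000000a0000000b000000030000000100000001 5 5) 0 0 (step_sound _ 195 [(rh2f68792b6b779e96.shift 3 3), rh4d6f8f3046a44da6] (by decide +kernel))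
noncomputable def rhc96989fc2561d194 : CRef := CRef.mk (Pat.mk 0x60000000200000030000000180000000000000000 0x40000000600000006000000320000001f0000000300000001 5 6) 0 0 (step_sound _ 65 [(rh24ae073cf30720c4.shift 1 2), rh87ac23ce835a3079] (by decide +kernel))
noncomputable def rhc8aaee26b2031f08 : CRef := CRef.mk (Pat.mk 0x8000000080000000e0000001a000000000000000000000000 0x40000000c0000000c0000000e0000001e000000070000000200000002 5 5) 0 0 (step_sound _ 194 [(rh50fbb5868c909700.shift 2 3), rh9475d379bc1053e3] (by decide +kernel))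
noncomputable def rhf105c41a5093e558 : CRef := CRef.mk (Pat.mk 0x1e0000000000000003000000010000000000000000 0xe00000007e000000e600000003000000030000000100000001 5 8) 0 0 (step_sound _ 165 [(rha93a5dd541ab8209.shift 2 4), rhdc235d1700be4e20] (by decide +kernel))
noncomputable def rh57252df62b95110a : CRef := CRef.mk (Pat.mk 0x7800000000 0xe0000007e00000077 5 7) 0 0 (step_sound _ 66 [(rh3f8766e6ecb455ce.shift 2 1), rhf706828729e1b1e2] (by decide +kernel))
noncomputable def rh7e2ac6222c5947be : CRef := CRef.mk (Pat.mk 0xc0000001e000000180000000000000000 0xc0000001e0000001b0000000f0000000e 5 5) 0 0 (step_sound _ 35 [(rh7b1f1fb55310c477.shift 2 0), rhdd9aaa06458a6d73] (by decide +kernel))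
noncomputable def rh964db1912d3854a8 : CRef := CRef.mk (Pat.mk 0x18000000380000001000000000 0x300000003000000030000000180000003f0000007700000020 5 7) 0 0 (step_sound _ 37 [(rh4c60faed9e5f228f.shift 3 0), (rha4ae2ee71608971a.shift 0 1)] (by decide +kernel))
noncomputable def rhdd186e8d75b0c8ce : CRef := CRef.mk (Pat.mk 0x80000000c00000008000000080000000800000000 0x80000000c0000000f0000007c0000001800000008 5 7) 0 0 (step_sound _ 98 [(rh7b1f1fb55310c477.shift 2 0), (rh7fe11f484215afaf.shift 0 1)] (by decide +kernel))
noncomputable def rh88c7fcda31cba4dd : CRef := CRef.mk (Pat.mk 0x2000000030000000200000002 0x5000000070000000700000006000000030000000300000003 5 3) 0 0 (step_sound _ 129 [rh03dfdf12d5937476, (rh44f453b84f013105.shift 1 0), (rhc85cc95794737cf7.shift 0 1)] (by decide +kernel))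
noncomputable def rh26e973e2d7b954d4 : CRef := CRef.mk (Pat.mk 0x80000000e000000080000000c00000000 0x8000000080000000e0000003f0000003c00000010 5 6) 0 0 (step_sound _ 66 [rh3e50ec7680ad637d, (rh5c5e593799055d58.shift 2 1)] (by decide +kernel))
noncomputable def rhafaa61f79143ceed : CRef := CRef.mk (Pat.mk 0x100000003c00000000 0x1e0000007f00000007 5 7) 0 0 (step_sound _ 66 [rh08d810f24e5bb7e4, (rh3244c3cc8379b070.shift 1 1)] (by decide +kernel))
noncomputable def rhe547d009765a517f : CRef := CRef.mk (Pat.mk 0x4000000000000000c0000001c00000000 0x4000000040000007c0000007e00000003 5 7) 0 0 (step_sound _ 37 [rh9cf8490bd2aa0c89, (rhf48373e13d2bc128.shift 2 1)] (by decide +kernel))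
noncomputable def rhed2257d4723009e0 : CRef := CRef.mk (Pat.mk 0x1e00000002000000000000000400000000 0x30000001e00000002000000070000000700000005 5 5) 0 0 (step_sound _ 161 [(rh3244c3cc8379b070.shift 0 4), rhff763b75cad9671b] (by decide +kernel))
noncomputable def rh0abb1b51d7bfc180 : CRef := CRef.mk (Pat.mk 0xa000000180000000c000000000000000000000000 0xa0000000a0000001a0000000f000000060000000400000004 5 5) 0 0 (step_sound _ 66 [(rh5c5e593799055d58.shift 2 2), rh62e53aa2fb15efd7] (by decide +kernel))
noncomputable def rh2f5f07d1769e5d01 : CRef := CRef.mk (Pat.mk 0x1000000016000000120000001800000000 0x1400000016000000160000003e00000027 5 6) 0 0 (step_sound _ 37 [(rh55afc6a59410cf00.shift 4 0), rh8abb0b97c1e8cdf6] (by decide +kernel))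
noncomputable def rh845e6931135b38f6 : CRef := CRef.mk (Pat.mk 0x400000000000000000000007800000000 0x4000000040000000e0000007e00000007 5 7) 0 0 (step_sound _ 66 [(rh3f8766e6ecb455ce.shift 2 1), rh463e175230fcd751] (by decide +kernel))
noncomputable def rh4ba4900f310b23d0 : CRef := CRef.mk (Pat.mk 0x3000000060000000200000002000000040000000000000000 0x30000001e0000000600000002000000070000000700000001 5 5) 0 0 (step_sound _ 65 [(rh55afc6a59410cf00.shift 1 1), rhdfac2c1abebe7817] (by decide +kernel))
noncomputable def rhd98f0b8e29b2b9d5 : CRef := CRef.mk (Pat.mk 0x8000000180000000c0000000800000000 0x8000000780000000f0000007c00000010 5 7) 0 0 (step_sound _ 101 [(rh18965a982d73c794.shift 2 2), rh7fe11f484215afaf] (by decide +kernel))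
noncomputable def rheaaa7250048fb6ba : CRef := CRef.mk (Pat.mk 0x6000000030000000200000004000000000000000000000000 0x6000000070000000300000006000000070000000300000001 5 3) 0 0 (step_sound _ 97 [rh0d46191bda76a8f5, (rh55afc6a59410cf00.shift 1 2)] (by decide +kernel))
noncomputable def rh678b469c748f9cec : CRef := CRef.mk (Pat.mk 0x200000006000000020000000200000002000000000000000000000000 0x200000006000000070000000300000003000000060000000600000004 5 3) 0 0 (step_sound _ 65 [(rhbaefcd01e0a8bca3.shift 1 2), rhedadd08d79153bfe] (by decide +kernel))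
noncomputable def rh207d12a249edf027 : CRef := CRef.mk (Pat.mk 0xe00000008000000080000000000000000 0x10000000180000000f000000080000001c0000001c00000014 5 5) 0 0 (step_sound _ 163 [(rh8cdd36b03d57a2f6.shift 2 0), (rhdab32775f5c78fcf.shift 0 2)] (by decide +kernel))
noncomputable def rhb87c81b4d8d5df91 : CRef := CRef.mk (Pat.mk 0x20000001a00000002000000000000000000000000 0x1000000030000001f00000002000000030000000300000001 5 5) 0 0 (step_sound _ 160 [rh01483ff9cba2f6ac, (rh5419adcd928dba20.shift 0 4)] (by decide +kernel))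
noncomputable def rhe7744232a23032a1 : CRef := CRef.mk (Pat.mk 0x200000002000000020000000000000000 0x500000007000000070000000600000003000000030000000300000001 5 3) 0 0 (step_sound _ 161 [(rh1741680720c097b4.shift 0 2), (rh771d065bdc85bf2d.shift 0 1), rhcab3157f7bdcba3e] (by decide +kernel))
noncomputable def rhf1df4522a7046d82 : CRef := CRef.mk (Pat.mk 0x400000034000000040000000e00000000 0x80000002c00000034000000370000003e00000030 5 6) 0 0 (step_sound _ 131 [(rh2f68792b6b779e96.shift 2 1), rhc94bc23426eb70c1] (by decide +kernel))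
noncomputable def rhca073b25fa7f71ec : CRef := CRef.mk (Pat.mk 0x20000000200000002000000000000000000000000 0x500000007000000070000000300000002000000070000000700000005 5 3) 0 0 (step_sound _ 65 [rh6eff4158bb400f47, rh8ff3dde5b1c639e0, rhc4526fc8abf298b6, (rhc85cc95794737cf7.shift 0 2)] (by decide +kernel))
noncomputable def rh169481326810cf56 : CRef := CRef.mk (Pat.mk 0x38000000100000000000000008 0x70000003e0000003f0000000c00000008 5 6) 0 0 (step_sound _ 98 [(rh25efc5d5a6c022ff.shift 1 0), (rh4f8edb321cf5b49d.shift 0 2), (rhfcb55d5dc3b78d1f.shift 0 2)] (by decide +kernel))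
noncomputable def rhaf7955adbc1f7ff4 : CRef := CRef.mk (Pat.mk 0x20000000200000002000000000000000000000000 0x100000003000000030000000300000003000000070000000700000005 5 3) 0 0 (step_sound _ 65 [rh6eff4158bb400f47, (rh771d065bdc85bf2d.shift 0 1), rh8ff3dde5b1c639e0, rhc4526fc8abf298b6] (by decide +kernel))
noncomputable def rh187447a19d78efb5 : CRef := CRef.mk (Pat.mk 0x2000000020000000200000002000000000000000000000000 0x20000000200000003000000030000000300000003000000030000000300000001 5 2) 0 0 (step_sound _ 65 [(rh0105b2139521f473.shift 0 1), rh6aa5625770489e83, (rh7928877f9bf74a91.shift 0 1)] (by decide +kernel))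
noncomputable def rh1599a3ed570439c7 : CRef := CRef.mk (Pat.mk 0x20000000200000002000000020000000400000000 0x200000002000000030000000300000003000000030000000600000006 5 3) 0 0 (step_sound _ 33 [rh0105b2139521f473, (rh55afc6a59410cf00.shift 1 0)] (by decide +kernel))
noncomputable def rhb906b8f4b705b0da : CRef := CRef.mk (Pat.mk 0x3800000010000000100000001000000000 0x60000007f0000003e000000180000001800000008 5 7) 0 0 (step_sound _ 35 [(rh932754581e0f4330.shift 3 0), (rhcf399c1b682b19b3.shift 0 1)] (by decide +kernel))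
noncomputable def rhb977d68015c68995 : CRef := CRef.mk (Pat.mk 0x18000000080000000c00000000 0x40000000f0000007c000000080000000c00000004 5 7) 0 0 (step_sound _ 131 [(rh215fef6ef21eb5a3.shift 0 1), (rh932754581e0f4330.shift 2 0)] (by decide +kernel))
noncomputable def rh415dc6589756028c : CRef := CRef.mk (Pat.mk 0x30000000120000001000000010 0xf0000003e000000170000001000000010 5 6) 0 0 (step_sound _ 99 [(rh50fbb5868c909700.shift 3 0), (rh9f9dcaefc8da8d65.shift 0 2)] (by decide +kernel))
noncomputable def rhe600b60e755ae96c : CRef := CRef.mk (Pat.mk 0x30000000120000001000000000 0x8000000080000001f0000003e000000170000001000000010 5 6) 0 0 (step_sound _ 99 [(rh9f9dcaefc8da8d65.shift 0 2), (rhb1a251d9bff81766.shift 3 0)] (by decide +kernel))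
noncomputable def rhbaf1722104a48e62 : CRef := CRef.mk (Pat.mk 0x30000000120000001000000000 0x2f0000003e000000170000001000000010 5 6) 0 0 (step_sound _ 99 [(rh261f868a429ae0e3.shift 3 0), (rh9f9dcaefc8da8d65.shift 0 2)] (by decide +kernel))
noncomputable def rh746d570f5eb223ab : CRef := CRef.mk (Pat.mk 0x180000001e000000040000000000000000 0x180000001e0000003f0000003000000030 5 6) 0 0 (step_sound _ 68 [(rhe25b0a99195a5d59.shift 1 2), rhe333c4a685224437] (by decide +kernel))
noncomputable def rh523334f89545e18f : CRef := CRef.mk (Pat.mk 0x700000007000000000000000000000000 0x400000004000000070000001f0000001c0000000800000008 5 5) 0 0 (step_sound _ 99 [rh84970c2ccb9fe470, (rhf48373e13d2bc128.shift 0 3)] (by decide +kernel))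
noncomputable def rh56f3a2e824768648 : CRef := CRef.mk (Pat.mk 0x180000001e000000140000000000000000 0x180000001e000000170000003c0000001c 5 6) 0 0 (step_sound _ 36 [(rh7b1f1fb55310c477.shift 3 0), rhc3b91daee0ff521d] (by decide +kernel))
noncomputable def rh36753147e0ca5822 : CRef := CRef.mk (Pat.mk 0x80000001c0000000c0000000000000000 0x80000001e0000007f0000007000000010 5 7) 0 0 (step_sound _ 65 [(rh53b3c253cb0c65f4.shift 0 2), (rh74be7c372a8f2aff.shift 1 0)] (by decide +kernel))
noncomputable def rh468e4d4891e8acfc : CRef := CRef.mk (Pat.mk 0xe0000001a0000000800000000 0x400000004000000060000000e0000007a0000001f00000002 5 7) 0 0 (step_sound _ 69 [rh57993fbcf1098b52, (rhf48373e13d2bc128.shift 2 2)] (by decide +kernel))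
noncomputable def rhdaea1c71e873e3e0 : CRef := CRef.mk (Pat.mk 0x60000000600000004 0xe0000000e0000003e000000070000000600000004 5 6) 0 0 (step_sound _ 98 [(rh5fa50b509d4ce753.shift 1 0), (rh7f9f3607ee25a93b.shift 1 0), (rhc85cc95794737cf7.shift 1 0), rhd8406b09026060f8] (by decide +kernel))
noncomputable def rh40d380c2720167c3 : CRef := CRef.mk (Pat.mk 0xe0000000c000000080000000c00000000 0x20000000e0000000c0000001f0000007c00000010 5 7) 0 0 (step_sound _ 66 [rh42e615827c8908b1, (rh50fbb5868c909700.shift 1 1)] (by decide +kernel))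
noncomputable def rhce71534e51e0a15e : CRef := CRef.mk (Pat.mk 0x40000001e000000000000000000000000 0x10000000340000001f000000380000000800000008 5 6) 0 0 (step_sound _ 68 [rha4c1d69345b99268, (rhe25b0a99195a5d59.shift 1 2)] (by decide +kernel))
noncomputable def rh0e6d6cc7cb3285cf : CRef := CRef.mk (Pat.mk 0x80000000d000000080000000800000000 0x80000000f000000780000001f00000004 5 7) 0 0 (step_sound _ 68 [rh8dce4397d6075b0b, (rhab22b5b56e7b3243.shift 0 2)] (by decide +kernel))
noncomputable def rh69c97e361bfcdb15 : CRef := CRef.mk (Pat.mk 0x80000000e0000001e000000100000000000000000 0x80000000e0000001e0000001f0000000700000003 5 5) 0 0 (step_sound _ 66 [rh662ee70a1f2158a1, (rh71222050f2c63a3a.shift 2 1)] (by decide +kernel))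
noncomputable def rh7b539a635d9ab1f3 : CRef := CRef.mk (Pat.mk 0x40000001a000000100000000000000000 0x400000004000000040000001e000000370000000200000002 5 6) 0 0 (step_sound _ 98 [rhcfde16a7ff36af03, (rhe25b0a99195a5d59.shift 1 2)] (by decide +kernel))
noncomputable def rhfcbcce6cd1649a3a : CRef := CRef.mk (Pat.mk 0x80000000c000000180000001800000000 0x40000000c0000000c0000001c0000001f00000007 5 5) 0 0 (step_sound _ 34 [rh0aff0d2aba80e3a9, (rh932754581e0f4330.shift 2 0)] (by decide +kernel))
noncomputable def rhcd06652375b8e360 : CRef := CRef.mk (Pat.mk 0x80000001e0000001a000000000000000000000000 0x40000000c0000001e0000001a0000000f0000000e0000000c 5 5) 0 0 (step_sound _ 67 [(rh40241bd608e5be1a.shift 2 0), (rh46530d756bdf8511.shift 2 0), (rhe4cf73c4b95cc950.shift 0 1)] (by decide +kernel))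
noncomputable def rh87d6aa68aef5c62f : CRef := CRef.mk (Pat.mk 0x80000000d000000080000000800000000 0x80000000f000000780000001f00000004 5 7) 0 0 (step_sound _ 68 [(rhab22b5b56e7b3243.shift 0 2), rhfea49f007ffffe7c] (by decide +kernel))
noncomputable def rh71798756eeda8894 : CRef := CRef.mk (Pat.mk 0xe0000001a0000000000000000 0x4000000040000000c0000000e0000001e0000000f0000000a 5 5) 0 0 (step_sound _ 130 [rha2d972724209a96f, (rhadf429772c25fde0.shift 1 0), (rhf71cb1a94bedb48c.shift 1 0)] (by decide +kernel))
noncomputable def rhf26139e0ddf2f31b : CRef := CRef.mk (Pat.mk 0xc0000000c0000000c0000000000000000 0xc0000000c0000001f0000007800000018 5 7) 0 0 (step_sound _ 35 [rh42e615827c8908b1, (rh7b1f1fb55310c477.shift 2 0)] (by decide +kernel))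
noncomputable def rhfbb399d9cc55fe51 : CRef := CRef.mk (Pat.mk 0x8000000080000001c0000001800000000 0x40000000c0000000c0000001c0000001f00000007 5 5) 0 0 (step_sound _ 34 [rh00b85d5220e7ab18, (rh932754581e0f4330.shift 2 0)] (by decide +kernel))
noncomputable def rhfcad25e26c92b9e1 : CRef := CRef.mk (Pat.mk 0x70000000f000000050000000000000000 0x1000000070000000f0000001f0000001a0000000a 5 5) 0 0 (step_sound _ 67 [rh86709eb05c5e133b, (rhe25b0a99195a5d59.shift 0 2)] (by decide +kernel))
noncomputable def rh3349ed1fc23eb5dd : CRef := CRef.mk (Pat.mk 0xe0000000c000000080000000c00000000 0x20000000e0000000c0000003c0000001f00000012 5 6) 0 0 (step_sound _ 36 [(rh55afc6a59410cf00.shift 3 0), rhf7c27e59b1d77735] (by decide +kernel))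
noncomputable def rh64188d26538c33ed : CRef := CRef.mk (Pat.mk 0x1c00000000 0xf00000007e000000ef 5 8) 0 0 (step_sound _ 37 [(rh06db8ceda6269a47.shift 1 0), (rh27ce058b59d72f64.shift 1 0), rh9e97bba44c1b13e4, (rha93a5dd541ab8209.shift 2 0)] (by decide +kernel))
noncomputable def rh416cd9d729f64672 : CRef := CRef.mk (Pat.mk 0x1c00000000 0xe00000007e000000ff 5 8) 0 0 (step_sound _ 37 [(rh06db8ceda6269a47.shift 1 0), rh185f35b8bd8ec37f, (rh3b00e9e9432b8f40.shift 1 0), (rha93a5dd541ab8209.shift 2 0)] (by decide +kernel))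
noncomputable def rh78bdeaa6e0a93350 : CRef := CRef.mk (Pat.mk 0x8000000080000000e0000000000000000 0x8000000780000003e0000007700000010 5 7) 0 0 (step_sound _ 68 [(rh06db8ceda6269a47.shift 0 1), (rh3b00e9e9432b8f40.shift 0 1), (rh625dde73e665edc8.shift 1 0), (rha93a5dd541ab8209.shift 1 1)] (by decide +kernel))
noncomputable def rhd4d88f0a4294913c : CRef := CRef.mk (Pat.mk 0xa0000001a000000120000000200000000 0xa0000001a0000001a0000001f0000001d 5 5) 0 0 (step_sound _ 4 [(rh9e07f76261b05888.shift 3 0), rhbd9dc4ea21b46b2c] (by decide +kernel))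
noncomputable def rh609c5f22d4c52017 : CRef := CRef.mk (Pat.mk 0x1800000038000000080000000000000000 0x8000000180000003c0000000f0000000c0000000c 5 6) 0 0 (step_sound _ 35 [(rh71222050f2c63a3a.shift 3 0), rhc59a2df7a9768206] (by decide +kernel))
noncomputable def rhcab247afad26ba33 : CRef := CRef.mk (Pat.mk 0x18000000380000000800000000 0xc0000000c0000000c000000180000003c0000000f00000004 5 6) 0 0 (step_sound _ 34 [(rh1ed7a3503fa50fc8.shift 0 1), (rh623a731171d66e50.shift 2 0)] (by decide +kernel))
noncomputable def rh14f84c623687a231 : CRef := CRef.mk (Pat.mk 0x60000001e000000020000000200000000 0x2000000060000001e0000003e0000000700000005 5 6) 0 0 (step_sound _ 34 [(rh55afc6a59410cf00.shift 1 0), rhf0e2c011005d3205] (by decide +kernel))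
noncomputable def rhb23ce12a4334daa8 : CRef := CRef.mk (Pat.mk 0x4000000000000007800000000 0x4000000040000000e0000007e00000007 5 7) 0 0 (step_sound _ 66 [(rh3f8766e6ecb455ce.shift 2 1), rh82cbe8aa729508e4] (by decide +kernel))
noncomputable def rh76c97a59937af444 : CRef := CRef.mk (Pat.mk 0x7000000040000000400000000 0xe0000000e0000003e00000007000000060000000600000002 5 6) 0 0 (step_sound _ 130 [(rh1eeec04e73117746.shift 0 1), (rh20966da26a1c2ae8.shift 1 0), (rh79bf920132cab629.shift 1 1)] (by decide +kernel))
noncomputable def rh24ec4d0a17d8e0f4 : CRef := CRef.mk (Pat.mk 0xc00000018000000180000000800000000 0xc000000780000003e0000000f00000004 5 7) 0 0 (step_sound _ 101 [rh1802206e5fe446ca, (rhf48373e13d2bc128.shift 2 3)] (by decide +kernel))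
noncomputable def rh8cb8f560ae5e38af : CRef := CRef.mk (Pat.mk 0x80000001c00000018000000040000000000000000 0xc0000001c0000001f000000070000000600000002 5 5) 0 0 (step_sound _ 98 [rh339e9f32677d49c9, (rh71222050f2c63a3a.shift 2 1)] (by decide +kernel))
noncomputable def rh36256ee54d91ab35 : CRef := CRef.mk (Pat.mk 0x700000006000000050000000000000000 0x200000003000000070000001e000000070000000300000002 5 5) 0 0 (step_sound _ 99 [rh65a8cb0b49a1c5b8, (rhf48373e13d2bc128.shift 0 3)] (by decide +kernel))
noncomputable def rhfadd8949c9cade78 : CRef := CRef.mk (Pat.mk 0xe0000001c0000000a0000000000000000 0x20000000e0000001f0000007e0000003400000014 5 7) 0 0 (step_sound _ 68 [(rh3c3e23a02e82b2ed.shift 0 2), (rh6292bd8784ece55f.shift 1 2), (rh86709eb05c5e133b.shift 1 0), (rhad5d8fc3675c15dd.shift 0 2)] (by decide +kernel))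
noncomputable def rh0e054aa93492fc22 : CRef := CRef.mk (Pat.mk 0xc0000000c000000140000000000000000 0x40000000c0000000c0000001c0000000f0000000e 5 5) 0 0 (step_sound _ 34 [rh5196894f25ccb47b, (rh71222050f2c63a3a.shift 2 0)] (by decide +kernel))
noncomputable def rh3cac53e4439d9432 : CRef := CRef.mk (Pat.mk 0xe000000080000000a0000000000000000 0x4000000060000000e0000007c0000001f0000000600000004 5 7) 0 0 (step_sound _ 100 [(rh0b786d94a31538a6.shift 0 2), (rh89ade209b3e28f13.shift 1 3), rh9e4f5f4a33433ac3] (by decide +kernel))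
noncomputable def rh285f0764c5685928 : CRef := CRef.mk (Pat.mk 0x1c000000100000001400000000 0x8000000080000000c0000001c0000007f0000003600000004 5 7) 0 0 (step_sound _ 131 [(rh00d6a6e3c7e3bb40.shift 2 0), rh28513929020ef65a, (rhe072fffdd2fccf38.shift 3 1)] (by decide +kernel))
noncomputable def rh9cd180fc23032efa : CRef := CRef.mk (Pat.mk 0x1000000018000000000000002800000000 0x1000000018000000180000007c0000000f 5 7) 0 0 (step_sound _ 3 [(rh04253f50b6dd0619.shift 3 0), rh84a604d40f7df241] (by decide +kernel))
noncomputable def rhc88eb406ccb299be : CRef := CRef.mk (Pat.mk 0x2000000020000000600000000 0x4000000060000000600000002000000030000000700000005 5 3) 0 0 (step_sound _ 129 [rh3b734c5288922837, (rh55afc6a59410cf00.shift 1 0)] (by decide +kernel))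
noncomputable def rh186400995b27b60f : CRef := CRef.mk (Pat.mk 0xc000000000000001e00000000 0x8000000080000000c0000000c000000070000003e00000004 5 6) 0 0 (step_sound _ 65 [(rh3244c3cc8379b070.shift 0 1), (rh7702f42df6cc12c2.shift 1 0)] (by decide +kernel))
noncomputable def rhe7bee060fadb4663 : CRef := CRef.mk (Pat.mk 0x4000000000000001e000000000000000000000000 0x400000004000000070000001e000000070000000200000002 5 5) 0 0 (step_sound _ 129 [(rh3244c3cc8379b070.shift 0 3), rhad7f111fb10ea859] (by decide +kernel))
noncomputable def rhf816263d4a86d72d : CRef := CRef.mk (Pat.mk 0x2000000000000000e000000000000000000000000 0x200000002000000730000003e000000760000000400000004 5 7) 0 0 (step_sound _ 100 [(rh3fc3a7fb6866dcd4.shift 1 2), rh95b4c7d6d9b6685a] (by decide +kernel))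
noncomputable def rhc5a0d29a3b12ff5f : CRef := CRef.mk (Pat.mk 0x2000000180000000a000000000000000000000000 0x2000000020000001f0000000f000000010000000100000001 5 5) 0 0 (step_sound _ 96 [(rh1c62b6193297d9e3.shift 0 3), rh3a50e0bca28fd04c] (by decide +kernel))
noncomputable def rh29eed652a8fb50f2 : CRef := CRef.mk (Pat.mk 0x1c00000008000000180000000000000000 0x100000001c0000000f0000007c0000000800000008 5 7) 0 0 (step_sound _ 35 [(rh2f68792b6b779e96.shift 3 1), rha34c4b685132e310] (by decide +kernel))
noncomputable def rh21adf76e7fb969bc : CRef := CRef.mk (Pat.mk 0x2000000000000000e000000000000000000000000 0x200000002000000730000003e000000760000000400000004 5 7) 0 0 (step_sound _ 100 [rh95b4c7d6d9b6685a, (rha93a5dd541ab8209.shift 1 2)] (by decide +kernel))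
noncomputable def rh7438d9fbcd16d0e0 : CRef := CRef.mk (Pat.mk 0xc000000000000001c00000000 0xc0000000c000000e60000007e000000f7 5 8) 0 0 (step_sound _ 37 [rh185f35b8bd8ec37f, (rh40bfdbfb16eaa264.shift 1 0), (rha93a5dd541ab8209.shift 2 0), rhc50c2b097dd5cced] (by decide +kernel))
noncomputable def rh2f693d369a822c56 : CRef := CRef.mk (Pat.mk 0x6000000000000000e00000000 0x400000006000000730000003e00000077 5 7) 0 0 (step_sound _ 36 [rh3b00e9e9432b8f40, rh40bfdbfb16eaa264, (rha93a5dd541ab8209.shift 1 0)] (by decide +kernel))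
noncomputable def rh86376ed1aa30906a : CRef := CRef.mk (Pat.mk 0x80000000000000038000000000000000000000000 0x8000000080000000f0000003e0000007e0000000400000004 5 7) 0 0 (step_sound _ 98 [(rh0d378fd9e8917c5a.shift 0 2), (rhad7f111fb10ea859.shift 1 0)] (by decide +kernel))
noncomputable def rha19114e69f5ffe97 : CRef := CRef.mk (Pat.mk 0x8000000000000003800000000 0x8000000080000000f0000007e00000077 5 7) 0 0 (step_sound _ 34 [rh0d378fd9e8917c5a, rh185f35b8bd8ec37f, (rhac3be1f21c7f3db7.shift 1 0)] (by decide +kernel))
noncomputable def rhbfc4d5da9a49e7fe : CRef := CRef.mk (Pat.mk 0x1c00000000 0xe00000007e000000ff 5 8) 0 0 (step_sound _ 37 [rh185f35b8bd8ec37f, (rh3b00e9e9432b8f40.shift 1 0), (rha93a5dd541ab8209.shift 2 0)] (by decide +kernel))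
noncomputable def rh7f040bb5f162032c : CRef := CRef.mk (Pat.mk 0x3800000000 0xe70000007e000000f7 5 8) 0 0 (step_sound _ 34 [rh185f35b8bd8ec37f, (rh3fc3a7fb6866dcd4.shift 2 0), rh775ca1963e850b80] (by decide +kernel))
noncomputable def rh4761c0521d27eedf : CRef := CRef.mk (Pat.mk 0xc000000000000003800000000 0x8000000080000000c0000000c000000070000003e00000077 5 7) 0 0 (step_sound _ 34 [rh0d378fd9e8917c5a, rh185f35b8bd8ec37f, (rh1cba27e34096d111.shift 1 0)] (by decide +kernel))
noncomputable def rh2dbdc9e1a560e775 : CRef := CRef.mk (Pat.mk 0xc000000000000003800000000 0xc0000000c000000e60000007e000000f7 5 8) 0 0 (step_sound _ 34 [rh185f35b8bd8ec37f, (rh40bfdbfb16eaa264.shift 1 0), (rha93a5dd541ab8209.shift 2 0), rhc50c2b097dd5cced] (by decide +kernel))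
noncomputable def rh45df2a4f0b174bc8 : CRef := CRef.mk (Pat.mk 0x40000000e00000002 0x400000004000000760000003e00000003 5 7) 0 0 (step_sound _ 130 [rh6476892f2a819723, (rhee230b994cc8b773.shift 1 0)] (by decide +kernel))
noncomputable def rhea7ec97caa2f8b42 : CRef := CRef.mk (Pat.mk 0x38000000180000001800000000 0x800000008000000380000001f0000001f00000004 5 6) 0 0 (step_sound _ 65 [(rh24ae073cf30720c4.shift 1 2), rh918bcafda8d5258e] (by decide +kernel))
noncomputable def rh14586e57c357d12f : CRef := CRef.mk (Pat.mk 0x2000000060000001200000000000000000000000000000000 0x200000006000000060000001e00000007000000070000000700000004 5 5) 0 0 (step_sound _ 97 [(rh3820f35d5e705bec.shift 1 0), (rh91a545eb3be094e3.shift 0 1), (rhf8afc0ca7e2ebc9d.shift 0 2)] (by decide +kernel))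
noncomputable def rh3a649fe464366458 : CRef := CRef.mk (Pat.mk 0xf0000000f000000000000000000000000 0x180000000f0000000f0000001c0000000c0000000c 5 5) 0 0 (step_sound _ 67 [(rhe25b0a99195a5d59.shift 0 2), rhecb2927e8250214b] (by decide +kernel))
noncomputable def rhda0726d55627da7a : CRef := CRef.mk (Pat.mk 0x1c00000004 0x770000003e00000006 5 7) 0 0 (step_sound _ 37 [(rh4c622fddc53a5f99.shift 0 1), (rheb0810cc63b001d8.shift 1 0)] (by decide +kernel))
noncomputable def rh5b5414e18e3f4843 : CRef := CRef.mk (Pat.mk 0x4000000340000001c00000008000000000000000000000000 0x2000000060000003c0000001c0000000f000000060000000600000004 5 6) 0 0 (step_sound _ 98 [(rh5e05da03898e7023.shift 1 3), (rh7b18f3f209f14cd6.shift 1 0), (rhf5094ad2a427d4d3.shift 0 2)] (by decide +kernel))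
noncomputable def rhab2eb27912825b26 : CRef := CRef.mk (Pat.mk 0x6000000300000001c0000000000000000 0x2000000060000003c0000001c0000000f0000000a 5 6) 0 0 (step_sound _ 98 [(rh5419adcd928dba20.shift 1 3), rhee98f72ecd39c1e9] (by decide +kernel))
noncomputable def rh3548ad5ddd04d564 : CRef := CRef.mk (Pat.mk 0xa000000080000000c 0x40000001c0000007c0000001f0000000c0000000c 5 7) 0 0 (step_sound _ 99 [rh0363d47a46978688, (rhe62cab2ff5ad6fe2.shift 2 0)] (by decide +kernel))
noncomputable def rh8493a64a7fb85bb0 : CRef := CRef.mk (Pat.mk 0xf800000000 0x78000000fe0000000f 5 8) 0 0 (step_sound _ 34 [(rh6ea0c6639065f1d7.shift 1 1), rh9e97bba44c1b13e4, (rheae1728ff4a56756.shift 1 0)] (by decide +kernel))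
noncomputable def rhc1dce6944b181302 : CRef := CRef.mk (Pat.mk 0x8000000090000000b0000000b 0x170000001f0000000b0000000b0000000b 5 5) 0 0 (step_sound _ 96 [rh2145e1d24b96a57e, rh4503fe5b977e0772] (by decide +kernel))
noncomputable def rhcb0cbc676d27cd07 : CRef := CRef.mk (Pat.mk 0xe0000000800000008 0x14000000140000003f0000003e0000001800000008 5 6) 0 0 (step_sound _ 68 [rh3e34a007a92efc93, (rh94246470f0e6fdf7.shift 1 0)] (by decide +kernel))
noncomputable def rha969a84209daf2dc : CRef := CRef.mk (Pat.mk 0x6000000180000000200000000 0x100000001000000030000000f0000001e0000000200000002 5 5) 0 0 (step_sound _ 96 [rh58b3ccc609c7f9fc, (rhd6e447e81774439e.shift 0 2)] (by decide +kernel))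
noncomputable def rh03ff72220b1946bd : CRef := CRef.mk (Pat.mk 0x80000000c000000000000000c00000000 0x10000000780000001f000000080000000c00000004 5 7) 0 0 (step_sound _ 67 [(rh932754581e0f4330.shift 2 0), (rhe9f9259b2da8d967.shift 0 1)] (by decide +kernel))
noncomputable def rhb50febfc55fd96a6 : CRef := CRef.mk (Pat.mk 0x1c000000080000000c00000004 0x30000001f0000007b0000001f00000004 5 7) 0 0 (step_sound _ 68 [(rh6292bd8784ece55f.shift 1 2), (rh69012675dfdb1a5b.shift 0 1), rhb978d8716a693427] (by decide +kernel))
noncomputable def rhd35b10d96e4511a2 : CRef := CRef.mk (Pat.mk 0x1c000000080000001800000010 0x200000007c0000006f0000007c00000010 5 7) 0 0 (step_sound _ 66 [(rh2ed427353258d8dd.shift 0 1), (rh3c3e23a02e82b2ed.shift 0 1), (rh88b0f0daa26b3579.shift 2 0)] (by decide +kernel))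
noncomputable def rhe3796014472b2b6d : CRef := CRef.mk (Pat.mk 0x28000000000000001800000010 0xf0000007c000000180000001800000010 5 7) 0 0 (step_sound _ 131 [rh077dd41dfd272385, (rhff0f29cb645b05f7.shift 3 0)] (by decide +kernel))
noncomputable def rh8c1d47d14292b804 : CRef := CRef.mk (Pat.mk 0x20000000200000006000000020000000000000000 0x300000003000000070000000600000006000000020000000200000002 5 3) 0 0 (step_sound _ 192 [rhed50ae5da72d9082, (rhffd04209dc8ea796.shift 0 2)] (by decide +kernel))
noncomputable def rhaa580c9111ea37d9 : CRef := CRef.mk (Pat.mk 0x100000001c000000010000000000000000 0x1000000010000000180000001e0000000f0000000800000008 5 5) 0 0 (step_sound _ 65 [rh9317d1eb7655a28f, (rhca9569cc80abfe76.shift 0 2)] (by decide +kernel))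
noncomputable def rhad48fcc809438143 : CRef := CRef.mk (Pat.mk 0x1c0000001c000000000000000000000000 0x4000000040000001c0000001f000000070000000200000002 5 5) 0 0 (step_sound _ 97 [rh3423e5ac208fb65b, (rh53b3c253cb0c65f4.shift 0 3)] (by decide +kernel))
noncomputable def rh587dac98b18fa6dc : CRef := CRef.mk (Pat.mk 0x10000000180000003800000000 0x1000000010000000180000003f00000067 5 7) 0 0 (step_sound _ 5 [(rh2145e1d24b96a57e.shift 4 0), rha4ae2ee71608971a] (by decide +kernel))
noncomputable def rhf20405a597bd25b2 : CRef := CRef.mk (Pat.mk 0x1000000010000000140000003000000000 0x1000000010000000360000003e0000000f 5 6) 0 0 (step_sound _ 35 [rh89828354c362fe41, (rh932754581e0f4330.shift 3 0)] (by decide +kernel))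
noncomputable def rhb74a64de026db287 : CRef := CRef.mk (Pat.mk 0x3800000010 0x7000000fe000000ff 5 8) 0 0 (step_sound _ 34 [(rh300eedc557b86950.shift 2 0), rh4f8edb321cf5b49d, rh592c7139d2c44767, (rha03f6e28ea70fc7d.shift 1 0)] (by decide +kernel))
noncomputable def rhd6ce95258fbdc4ce : CRef := CRef.mk (Pat.mk 0xc000000080000000c0000000c 0x130000001f0000003b0000000e0000000c 5 6) 0 0 (step_sound _ 100 [(rh2f68792b6b779e96.shift 3 0), rhbe1bbe945df355cd] (by decide +kernel))
noncomputable def rh8624f2263a6928fd : CRef := CRef.mk (Pat.mk 0x180000001800000008 0x1c0000001c0000001f000000380000001800000008 5 6) 0 0 (step_sound _ 99 [(rh2ddd6c94c59240f8.shift 3 0), rh675eb0a114259074, (rh7b9fbdf6d2d059e4.shift 2 0), (rhc85cc95794737cf7.shift 2 0)] (by decide +kernel))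
noncomputable def rhdf7c0de3f22e4b83 : CRef := CRef.mk (Pat.mk 0x120000000600000002 0x400000007000000070000000f0000001e0000000600000006 5 5) 0 0 (step_sound _ 97 [rh1741680720c097b4, rh3da62da861143b9a, (rh8599f462953abc6e.shift 1 0), rhc3115e0f4b0bf27b] (by decide +kernel))
noncomputable def rh4fe885bb951b079c : CRef := CRef.mk (Pat.mk 0x1c00000000 0xff0000007e000000e0 5 8) 0 0 (step_sound _ 37 [(rh3947d1dfff0afc6c.shift 1 0), (rh4c622fddc53a5f99.shift 0 1), (rha93a5dd541ab8209.shift 2 0), (rhb18e6c78a554867d.shift 1 1)] (by decide +kernel))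
noncomputable def rhea3e9fa9f1c23f4d : CRef := CRef.mk (Pat.mk 0x3800000000 0xf70000007e0000000f 5 8) 0 0 (step_sound _ 34 [(rh3b00e9e9432b8f40.shift 1 0), (rh4c622fddc53a5f99.shift 0 1), rh592c7139d2c44767] (by decide +kernel))
noncomputable def rh6012c66676d1308a : CRef := CRef.mk (Pat.mk 0x1e000000000000000000000002 0x60000003e000000730000000200000002 5 7) 0 0 (step_sound _ 65 [(rh57006a2a21af6da3.shift 1 0), (rheb0810cc63b001d8.shift 0 2)] (by decide +kernel))
noncomputable def rh74bc9cb3ce9d0f37 : CRef := CRef.mk (Pat.mk 0x100000001200000012000000120000000000000000 0x1000000012000000130000003e0000000f00000004 5 6) 0 0 (step_sound _ 67 [rh540f437d7ed50685, (rh932754581e0f4330.shift 3 1)] (by decide +kernel))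
noncomputable def rhb5e2811106eb513a : CRef := CRef.mk (Pat.mk 0x20000000200000002000000020000000000000000 0x10000000300000003000000030000000300000003000000030000000200000002 5 2) 0 0 (step_sound _ 193 [(rh3ca48e2a6d60153d.shift 0 2), rh5baa46239919fe38, (rh771d065bdc85bf2d.shift 0 2)] (by decide +kernel))
noncomputable def rh081c416f9407b471 : CRef := CRef.mk (Pat.mk 0x4000000020000000200000002000000020000000000000000 0x600000006000000030000000300000003000000030000000200000002 5 3) 0 0 (step_sound _ 193 [(rh2f68792b6b779e96.shift 1 3), rh5baa46239919fe38] (by decide +kernel))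
noncomputable def rh59071b9e192e4f48 : CRef := CRef.mk (Pat.mk 0x10000000120000001200000012000000000000000000000000 0x1200000012000000130000001e0000000e0000000400000004 5 5) 0 0 (step_sound _ 99 [(rh932754581e0f4330.shift 3 2), rhede225ed38d90938] (by decide +kernel))
noncomputable def rh3ae0eea17cd22d4e : CRef := CRef.mk (Pat.mk 0x2000000024000000240000002400000000 0x2400000024000000260000003e00000017 5 6) 0 0 (step_sound _ 36 [rh7d91dec27a2fec16, (rh932754581e0f4330.shift 4 0)] (by decide +kernel))
noncomputable def rhd2170296de3090c7 : CRef := CRef.mk (Pat.mk 0x1000000012000000120000001200000000 0x12000000120000001b0000001f0000000d 5 5) 0 0 (step_sound _ 35 [rh2d3e98d3b8972054, (rh932754581e0f4330.shift 3 0)] (by decide +kernel))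
noncomputable def rhd996fb408621a886 : CRef := CRef.mk (Pat.mk 0x200000002000000020000000200000002 0x6000000060000000700000003000000030000000300000002 5 3) 0 0 (step_sound _ 162 [rh612d1dc4588c6663, (rhbaefcd01e0a8bca3.shift 1 1)] (by decide +kernel))
noncomputable def rhbb499e2c493a9c34 : CRef := CRef.mk (Pat.mk 0x600000022000000020000001a0000001200000002 0x1e0000007b0000001b0000001a0000001200000002 5 7) 0 0 (step_sound _ 128 [(rhd81088a8b1b98d93.shift 0 1), rhffd04209dc8ea796] (by decide +kernel))
noncomputable def rhf75b13dc1a566bce : CRef := CRef.mk (Pat.mk 0x10000000600000022000000020000001800000010 0x1000000030000001e0000007a0000001a0000001800000010 5 7) 0 0 (step_sound _ 161 [rh4d80a841e0cec192, (rh50fbb5868c909700.shift 0 2)] (by decide +kernel))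
noncomputable def rhfd2010745f5d6d8f : CRef := CRef.mk (Pat.mk 0x600000004000000340000002400000000 0x380000003e00000017000000340000002600000002 5 6) 0 0 (step_sound _ 131 [(rh2f68792b6b779e96.shift 2 1), rhd2301139146462cf] (by decide +kernel))
noncomputable def rhe9f813df1f0c0f62 : CRef := CRef.mk (Pat.mk 0x400000023000000020000001a00000010 0x40000001e0000007b0000001a0000001a00000010 5 7) 0 0 (step_sound _ 129 [(rh2f68792b6b779e96.shift 1 1), rhd81088a8b1b98d93] (by decide +kernel))
noncomputable def rhf0515a66dc50ebfe : CRef := CRef.mk (Pat.mk 0x2000000002000000220000001a00000012 0x3d0000001f0000003a0000001a00000012 5 6) 0 0 (step_sound _ 98 [(rh2f68792b6b779e96.shift 1 0), rh887f8898c25e39b6] (by decide +kernel))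
noncomputable def rh245d56c915813f64 : CRef := CRef.mk (Pat.mk 0x800000008000000080000000800000000 0x140000003c0000000f000000080000000800000008 5 6) 0 0 (step_sound _ 130 [(rh50fbb5868c909700.shift 2 1), rh98a2281efa777683] (by decide +kernel))
noncomputable def rh841cb160e01e706a : CRef := CRef.mk (Pat.mk 0x8000000480000004800000018 0x80000000800000068000000ff00000038 5 8) 0 0 (step_sound _ 36 [(rh2145e1d24b96a57e.shift 3 0), rhdf815e4f673b4ddd] (by decide +kernel))
noncomputable def rh4b86d6c07933485e : CRef := CRef.mk (Pat.mk 0x200000000800000002000000020000000200000002 0x3d0000001f00000003000000020000000200000002 5 6) 0 0 (step_sound _ 128 [(rh299977ca41c63e61.shift 0 1), rhffd04209dc8ea796] (by decide +kernel))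
noncomputable def rh79e47392fd96ea81 : CRef := CRef.mk (Pat.mk 0x20000000080000000200000002000000020000000200000000 0x340000001e0000000300000002000000030000000300000001 5 6) 0 0 (step_sound _ 32 [rh932754581e0f4330, (rhe82418d5d1e1558d.shift 0 1)] (by decide +kernel))
noncomputable def rh0dc3f68ac6126527 : CRef := CRef.mk (Pat.mk 0x9000000220000003200000012 0x3d0000003f000000220000003200000012 5 6) 0 0 (step_sound _ 97 [rh50fbb5868c909700, rhaf58ac91a7f2c7aa] (by decide +kernel))
noncomputable def rha97a59d1d6891f5d : CRef := CRef.mk (Pat.mk 0x20000000200000002000000020000001200000000 0x400000006000000060000000200000003000000030000001e00000004 5 5) 0 0 (step_sound _ 194 [rhabc60700d1c5e650, (rhbaefcd01e0a8bca3.shift 1 2)] (by decide +kernel))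
noncomputable def rh2e7f20a8aba3fbfd : CRef := CRef.mk (Pat.mk 0x20000000200000012000000000000000000000000 0x100000003000000030000001e0000000f0000000700000005 5 5) 0 0 (step_sound _ 65 [rh6eff4158bb400f47, rh8ff3dde5b1c639e0, (rhc36413e0a37e6551.shift 0 1), rhc4526fc8abf298b6] (by decide +kernel))
noncomputable def rh6a2e5e621aa6d1dd : CRef := CRef.mk (Pat.mk 0x300000002000000120000000200000000 0x2000000020000000200000003000000030000001f0000000600000002 5 5) 0 0 (step_sound _ 96 [rh7b1f1fb55310c477, (rhabbc875d2a4869df.shift 0 1)] (by decide +kernel))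
noncomputable def rh6e6514331e94cdab : CRef := CRef.mk (Pat.mk 0x8000000120000001e000000000000000000000000 0x80000001a0000003f0000000f0000000400000004 5 6) 0 0 (step_sound _ 65 [rh7dd25d4dd608b71a, (rheb0810cc63b001d8.shift 0 2)] (by decide +kernel))
noncomputable def rh7ac7f773826df96f : CRef := CRef.mk (Pat.mk 0x2000000020000000200000002000000020000000000000000 0x200000002000000030000000300000003000000060000000600000006 5 3) 0 0 (step_sound _ 34 [rh402d340225d74224, (rhd3458b32566d63f7.shift 1 1)] (by decide +kernel))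
noncomputable def rh7cf77bd26e4d39cf : CRef := CRef.mk (Pat.mk 0x20000000200000002000000000000000000000000 0x100000003000000030000000300000006000000070000000700000005 5 3) 0 0 (step_sound _ 65 [rh6eff4158bb400f47, (rh7eb4a07d72ad7934.shift 0 1), rhc4526fc8abf298b6] (by decide +kernel))
noncomputable def rhd965430f2dc09cb1 : CRef := CRef.mk (Pat.mk 0xc000000080000000c00000000 0x10000000780000001f000000080000000c00000004 5 7) 0 0 (step_sound _ 131 [(rh932754581e0f4330.shift 2 0), (rhc9613fc5bab58382.shift 0 1)] (by decide +kernel))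
noncomputable def rhf382552d881ae789 : CRef := CRef.mk (Pat.mk 0x1000000010000000240000007000000000 0x1000000010000000360000007e0000000f 5 7) 0 0 (step_sound _ 35 [(rh00b511fddce6f168.shift 1 0), rh0607660ff50d178c, (rh316d0c7c5292e4bb.shift 2 0), (rh7894e20a52c58ea5.shift 1 0)] (by decide +kernel))
noncomputable def rhe320e40b24390c6b : CRef := CRef.mk (Pat.mk 0x100000003800000000 0xff000000fe00000007 5 8) 0 0 (step_sound _ 34 [rh592c7139d2c44767, (rhe6bdd62e1711df0b.shift 2 1), (rhec46bd5500c722c9.shift 1 1)] (by decide +kernel))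
noncomputable def rhd439bfd913dd0dd2 : CRef := CRef.mk (Pat.mk 0x1e0000000000000000 0x1000000010000000300000001f0000003800000008 5 6) 0 0 (step_sound _ 36 [rh12110a2e57be7e25, (rhe25b0a99195a5d59.shift 1 1)] (by decide +kernel))
noncomputable def rh596e988aa0a40658 : CRef := CRef.mk (Pat.mk 0x200000003000000020000000000000000 0x500000007000000070000000300000003000000030000000300000001 5 3) 0 0 (step_sound _ 161 [(rh03dfdf12d5937476.shift 0 1), (rh1741680720c097b4.shift 0 2), rhc4526fc8abf298b6] (by decide +kernel))
noncomputable def rh6bcaee7827af1fe5 : CRef := CRef.mk (Pat.mk 0xf800000000 0xf000000fe00000078 5 8) 0 0 (step_sound _ 34 [rh0d378fd9e8917c5a, (rh5108aaa789497f8e.shift 1 0), (rhd5eb272e07a4e288.shift 1 1)] (by decide +kernel))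
noncomputable def rhda35d1ce97a5258f : CRef := CRef.mk (Pat.mk 0x80000000c0000000d000000000000000000000000 0x18000000180000000c0000000c0000000f000000180000001800000008 5 5) 0 0 (step_sound _ 195 [(rh5c5e593799055d58.shift 2 3), rh69431ce95b46fe34] (by decide +kernel))
noncomputable def rhf70ca38ffe1e340f : CRef := CRef.mk (Pat.mk 0x7c00000000 0x70000007f0000003c 5 7) 0 0 (step_sound _ 65 [rh0dd67523025e596c, (rh3f8766e6ecb455ce.shift 1 1)] (by decide +kernel))
noncomputable def rhb9a55834a23b38ee : CRef := CRef.mk (Pat.mk 0x2000000020000001e00000002 0x50000000f0000003e0000001e00000002 5 6) 0 0 (step_sound _ 68 [(rh33e738c4ed385b9f.shift 1 1), rhc3115e0f4b0bf27b] (by decide +kernel))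
noncomputable def rh59199e7aa8f0e169 : CRef := CRef.mk (Pat.mk 0x1e00000010000000000000001c0000000000000000 0x1e00000013000000100000003e0000003800000020 5 6) 0 0 (step_sound _ 128 [(rh80fcd6d0a18cb2dd.shift 0 4), (rhb079c41d94df98a4.shift 1 0)] (by decide +kernel))
noncomputable def rh0ed4768e422efdec : CRef := CRef.mk (Pat.mk 0x1e00000010000000000000001c00000000 0x1e00000013000000f00000003e00000008 5 8) 0 0 (step_sound _ 96 [(rh09916dc7d08ceeae.shift 1 0), (rh80fcd6d0a18cb2dd.shift 0 3)] (by decide +kernel))
noncomputable def rh5f0c99de1bb57e08 : CRef := CRef.mk (Pat.mk 0x1c00000002000000000000003c00000000 0x40000001e00000003000000030000003e00000007 5 6) 0 0 (step_sound _ 1 [rh5731220f036fdad4, (rh80fcd6d0a18cb2dd.shift 1 0)] (by decide +kernel))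
noncomputable def rh1199a7e8b12afa67 : CRef := CRef.mk (Pat.mk 0x1c00000000 0xe00000007e000000ff 5 8) 0 0 (step_sound _ 37 [(rh06db8ceda6269a47.shift 1 0), rh185f35b8bd8ec37f, (rh27ce058b59d72f64.shift 1 0), (rha93a5dd541ab8209.shift 2 0)] (by decide +kernel))
noncomputable def rh8f92933e2f0c94d0 : CRef := CRef.mk (Pat.mk 0x40000000400000004000000000000000700000000 0x400000004000000040000003c0000001f00000038 5 6) 0 0 (step_sound _ 35 [rh49bdc49f6b132823, (rh78bebf519769cb5e.shift 0 1), rha93a5dd541ab8209] (by decide +kernel))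
noncomputable def rhaf116c0614ce4772 : CRef := CRef.mk (Pat.mk 0x1000000010000000000000001c00000000 0x1000000010000000f00000007e000000e7 5 8) 0 0 (step_sound _ 37 [(rh3fc3a7fb6866dcd4.shift 2 0), (rh49bdc49f6b132823.shift 2 0), rh7654d7b92c96fe12] (by decide +kernel))
noncomputable def rh2eec039abdfe1253 : CRef := CRef.mk (Pat.mk 0x20000001e000000020000000200000000 0x20000001e0000003e0000000f00000005 5 6) 0 0 (step_sound _ 34 [rh1727d0471b276da2, (rh55afc6a59410cf00.shift 1 0)] (by decide +kernel))
noncomputable def rh20314cb26e627c28 : CRef := CRef.mk (Pat.mk 0x3800000000 0x70000007e000000ff 5 8) 0 0 (step_sound _ 34 [(rh06db8ceda6269a47.shift 1 0), rh0d378fd9e8917c5a, rh41140eaa67c26838, rh592c7139d2c44767] (by decide +kernel))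
noncomputable def rh21399312d69ee793 : CRef := CRef.mk (Pat.mk 0x80000000a00000006000000040000000000000000 0x8000000080000000b0000001e0000003c0000001000000010 5 6) 0 0 (step_sound _ 99 [rh2d71bfb3e5699952, (rh5c5e593799055d58.shift 2 2)] (by decide +kernel))
noncomputable def rh927027504f36f6e0 : CRef := CRef.mk (Pat.mk 0xf00000008000000000000000400000000 0x180000000f000000080000001c0000001c00000014 5 5) 0 0 (step_sound _ 163 [(rh33e738c4ed385b9f.shift 0 4), (rhebbfc1325fb53d6f.shift 2 0)] (by decide +kernel))
noncomputable def rh7edb1cbdb820e1d7 : CRef := CRef.mk (Pat.mk 0x1e000000040000000400000008 0x600000006000000060000001e000000070000000c00000008 5 5) 0 0 (step_sound _ 65 [(rh4c85b653ffd59f79.shift 1 0), (rheb0810cc63b001d8.shift 0 2)] (by decide +kernel))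
noncomputable def rhe90487692b2a42fe : CRef := CRef.mk (Pat.mk 0x2000000030000000200000002 0x4000000070000000700000003000000030000000300000002 5 3) 0 0 (step_sound _ 128 [(rhd3ccd1061e77a241.shift 0 1), rhffd04209dc8ea796] (by decide +kernel))
noncomputable def rh480231ab31e80384 : CRef := CRef.mk (Pat.mk 0xe0000000200000000 0x400000004000000070000003e0000000300000002 5 6) 0 0 (step_sound _ 68 [rhaf661323c6e1d2ba, (rheb0810cc63b001d8.shift 0 1)] (by decide +kernel))
noncomputable def rh69256efb3c60d299 : CRef := CRef.mk (Pat.mk 0x10000000180000001c000000140000000000000000 0x300000003000000030000000180000001f000000140000000400000004 5 6) 0 0 (step_sound _ 97 [(rh3b88b15b9ca37db5.shift 2 0), (rh53b3c253cb0c65f4.shift 0 3)] (by decide +kernel))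
noncomputable def rhd8b43b15431aaa50 : CRef := CRef.mk (Pat.mk 0xe0000000a0000000000000000 0x1000000010000000380000001e0000000b0000000800000008 5 6) 0 0 (step_sound _ 100 [(rh6eb76252a9026692.shift 1 0), (rheb0810cc63b001d8.shift 0 2)] (by decide +kernel))
noncomputable def rh4067b1842016ab0e : CRef := CRef.mk (Pat.mk 0x40000000e0000000a0000000800000000 0x100000003c0000000e0000000b0000001e00000016 5 6) 0 0 (step_sound _ 33 [(rh71222050f2c63a3a.shift 1 0), rhaa548217957140a1] (by decide +kernel))
noncomputable def rhdd4756ed63c5dbcb : CRef := CRef.mk (Pat.mk 0x3e00000000 0x1c000000ff000000e0 5 8) 0 0 (step_sound _ 6 [rh212d95e485501469, (rh96851dee118c1ba3.shift 2 0)] (by decide +kernel))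
noncomputable def rh37ed05a0c9e74c8f : CRef := CRef.mk (Pat.mk 0x100000001c000000040000000000000000 0x200000002000000370000001e000000040000000400000004 5 6) 0 0 (step_sound _ 97 [(rh33e738c4ed385b9f.shift 1 3), rhd5889c99d29bf7d6] (by decide +kernel))
noncomputable def rh15ff8a01f368762c : CRef := CRef.mk (Pat.mk 0x2000000038000000280000000000000010 0x4000000040000000c0000002f0000007c000000280000003800000010 5 7) 0 0 (step_sound _ 131 [(rha9fbfd4bb8cf890b.shift 0 3), (rhb5ba847c57864cbc.shift 2 1), (rhd3d019a85ab3f7d5.shift 3 0)] (by decide +kernel))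
noncomputable def rh97bd62662717f3a7 : CRef := CRef.mk (Pat.mk 0x20000000200000002000000000000000100000000 0x4000000060000000600000002000000070000000700000004 5 3) 0 0 (step_sound _ 65 [(rh6c59ce14113da07f.shift 1 0), (rh79877ebd3ef475dd.shift 0 1)] (by decide +kernel))
noncomputable def rh84f9c1b40d524b84 : CRef := CRef.mk (Pat.mk 0x2000000020000000200000002000000020000000000000000 0x3000000070000000700000006000000060000000200000002 5 3) 0 0 (step_sound _ 160 [(rh50fbb5868c909700.shift 0 2), rhd50d08631ad43fbf] (by decide +kernel))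
noncomputable def rhb0f7a2f757f4e5d2 : CRef := CRef.mk (Pat.mk 0x4000000000000000200000002000000020000000000000000 0x4000000060000000200000002000000070000000700000005 5 3) 0 0 (step_sound _ 161 [rh8cdd36b03d57a2f6, (rhbaefcd01e0a8bca3.shift 1 2)] (by decide +kernel))
noncomputable def rhfd070b4c3e3b8f1d : CRef := CRef.mk (Pat.mk 0x1c00000008 0xe00000007e000000ff 5 8) 0 0 (step_sound _ 37 [(rh3fc3a7fb6866dcd4.shift 2 0), rh41140eaa67c26838, rhf0f55c4504412200] (by decide +kernel))
noncomputable def rha5dacef301d83d5b : CRef := CRef.mk (Pat.mk 0x200000002000000020000000100000000 0x4000000060000000600000002000000060000000700000005 5 3) 0 0 (step_sound _ 33 [rh932754581e0f4330, (rhced6d86d2069808b.shift 1 0)] (by decide +kernel))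
noncomputable def rhfaa84588129e0940 : CRef := CRef.mk (Pat.mk 0x80000001c0000001400000014 0x20000000220000007f0000007c0000001400000014 5 7) 0 0 (step_sound _ 98 [(rh07ccc6e4230bb59c.shift 2 0), rh277b01412deaec89, (rh2e8814637c3f6d46.shift 1 0)] (by decide +kernel))
noncomputable def rh0838f67ba62d9801 : CRef := CRef.mk (Pat.mk 0x100000001c000000040000000000000000 0x200000002000000330000001e000000060000000400000004 5 6) 0 0 (step_sound _ 97 [(rh33e738c4ed385b9f.shift 1 3), rhaa738e8eddf7e18b] (by decide +kernel))
noncomputable def rh488657d2bf51f941 : CRef := CRef.mk (Pat.mk 0x18000000180000001c00000010 0x27000000ff000000f80000001c00000010 5 8) 0 0 (step_sound _ 98 [(rh62ee6b8370225d67.shift 1 1), rh69baf8aa117ba2ec, (rh70343e0afd866a51.shift 2 0)] (by decide +kernel))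
noncomputable def rh206d61528605a692 : CRef := CRef.mk (Pat.mk 0x1e000000040000000000000000 0x8000000080000003c0000001f000000040000000400000004 5 6) 0 0 (step_sound _ 132 [(rh33e738c4ed385b9f.shift 1 3), rhd29496a0b66fc9ff] (by decide +kernel))
noncomputable def rh8eea156ffecb6be4 : CRef := CRef.mk (Pat.mk 0xe00000002 0x770000003e00000003 5 7) 0 0 (step_sound _ 36 [(rhb18e6c78a554867d.shift 0 1), rheb0810cc63b001d8] (by decide +kernel))
noncomputable def rh62637d8bccd18ce9 : CRef := CRef.mk (Pat.mk 0x1000000002000000020000000a0000000a 0x3d0000001f0000000a0000000a0000000a 5 6) 0 0 (step_sound _ 98 [(rh2f68792b6b779e96.shift 1 0), rhc897e2556d02e609] (by decide +kernel))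
noncomputable def rhe3b2bda19a03ddf0 : CRef := CRef.mk (Pat.mk 0x60000000e00000008 0x10000000300000003e0000003f00000008 5 6) 0 0 (step_sound _ 36 [rh4d6ff7d31d8220d4, (rhf48373e13d2bc128.shift 1 1)] (by decide +kernel))
noncomputable def rha50144a89c1d346d : CRef := CRef.mk (Pat.mk 0x3000000010000000100000001000000000 0x80000007c0000001f000000100000001000000010 5 7) 0 0 (step_sound _ 131 [rh04c47e9426fff8d3, (rh50fbb5868c909700.shift 3 1)] (by decide +kernel))
noncomputable def rh1b00066703a0370a : CRef := CRef.mk (Pat.mk 0x80000000a00000008000000000000000000000000 0x10000000780000001f000000080000001c0000001c00000014 5 7) 0 0 (step_sound _ 67 [(rh0363d47a46978688.shift 0 2), (rh367118e0bf0473e0.shift 2 0), (rh8cdd36b03d57a2f6.shift 2 0)] (by decide +kernel))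
noncomputable def rh16f92f1c149db50f : CRef := CRef.mk (Pat.mk 0x5000000050000000100000001 0x200000002000000060000000700000007000000050000000500000001 5 3) 0 0 (step_sound _ 129 [(rh04ff14ccb3eb0c5e.shift 0 1), rhbaefcd01e0a8bca3] (by decide +kernel))
noncomputable def rh30a55c7edf518ace : CRef := CRef.mk (Pat.mk 0x20000000200000002000000060000000000000000 0x400000006000000060000000200000006000000070000000300000001 5 3) 0 0 (step_sound _ 32 [rh269fa17efa5fd3eb, (rh79877ebd3ef475dd.shift 0 1)] (by decide +kernel))
noncomputable def rhfb3bd7a117830e38 : CRef := CRef.mk (Pat.mk 0xf00000002 0x700000003f0000007e 5 7) 0 0 (step_sound _ 36 [rh4ad5fc38f1b69f65, (rha93a5dd541ab8209.shift 1 0), (rhd584a578337d0023.shift 1 0)] (by decide +kernel))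
noncomputable def rhce53315ccf995f19 : CRef := CRef.mk (Pat.mk 0x400000004000000040000000c00000000 0x400000004000000040000007c0000001f00000002 5 7) 0 0 (step_sound _ 33 [(rh932754581e0f4330.shift 1 0), (rhebedeba8ef332487.shift 0 1)] (by decide +kernel))
noncomputable def rh79c7eb941f340aab : CRef := CRef.mk (Pat.mk 0x1800000028000000280000002800000000 0x180000003c0000002f0000007800000030 5 7) 0 0 (step_sound _ 36 [(rh55afc6a59410cf00.shift 3 0), rh87648610ed2ca633] (by decide +kernel))
noncomputable def rhc0b158dcc8441ebe : CRef := CRef.mk (Pat.mk 0x4000000080000000a0000000a0000000000000000 0xc0000000c0000000b0000001e0000003800000010 5 6) 0 0 (step_sound _ 35 [rh358c231171d2d7ca, (rhffd04209dc8ea796.shift 2 1)] (by decide +kernel))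
noncomputable def rh5843dfbf97376d3a : CRef := CRef.mk (Pat.mk 0x20000000a0000000a0000000a000000000000000000000000 0x20000000a0000000b0000001e0000003c0000001000000010 5 6) 0 0 (step_sound _ 98 [rh2d71bfb3e5699952, (rh55afc6a59410cf00.shift 1 2)] (by decide +kernel))
noncomputable def rhf6bcf397458e27a9 : CRef := CRef.mk (Pat.mk 0x1800000028000000280000002800000000 0x180000003c0000002f0000007800000030 5 7) 0 0 (step_sound _ 36 [(rh55afc6a59410cf00.shift 3 0), rheff558eebe4b8e86] (by decide +kernel))
noncomputable def rh76607fc4896d543e : CRef := CRef.mk (Pat.mk 0x20000000a0000000a0000000a00000000 0x40000000e0000000a0000000b0000001e00000034 5 6) 0 0 (step_sound _ 162 [rh9811135352b05f37, (rhbaefcd01e0a8bca3.shift 1 1)] (by decide +kernel))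
noncomputable def rhe4809de3310af961 : CRef := CRef.mk (Pat.mk 0xe0000001c000000140000001400000000 0x300000007e0000001f000000170000003c00000020 5 7) 0 0 (step_sound _ 132 [rh2d151ceafdcfd52e, (rh763788a68c67bc0c.shift 1 1), (rhaf9f2efc81a8312b.shift 0 3), (rhf9d36e158778ce35.shift 1 3)] (by decide +kernel))
noncomputable def rh8e2540e27041d465 : CRef := CRef.mk (Pat.mk 0xa00000008000000080000000000000000 0x100000007c0000000f000000080000001c0000001c00000014 5 7) 0 0 (step_sound _ 163 [(rh8cdd36b03d57a2f6.shift 2 0), (rhb034511df68c2fcf.shift 0 2)] (by decide +kernel))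
noncomputable def rh6fa8dd4bf0561bd9 : CRef := CRef.mk (Pat.mk 0x2000000020000000200000002 0x1000000070000000700000006000000030000000300000003 5 3) 0 0 (step_sound _ 130 [rhb7f088ebf5701d6e, (rhbaefcd01e0a8bca3.shift 1 0)] (by decide +kernel))
noncomputable def rhfb39f57ae6073efa : CRef := CRef.mk (Pat.mk 0x20000000200000002000000000000000000000000 0x100000003000000030000000300000006000000070000000700000005 5 3) 0 0 (step_sound _ 65 [rh46baee19951a66e7, rh8cdd36b03d57a2f6, rhc4526fc8abf298b6, (rhd6c4655f6972a41c.shift 0 1)] (by decide +kernel))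
noncomputable def rh4d217e14c25dc9fe : CRef := CRef.mk (Pat.mk 0x3000000028000000280000002000000020 0x4000000040000000e0000007c0000006f000000280000002000000020 5 7) 0 0 (step_sound _ 131 [(rh151655600199b49f.shift 2 0), (rh2820ca9a6c4f41b4.shift 0 3), (rh38dab6a66c300bf2.shift 1 2)] (by decide +kernel))
noncomputable def rh00a52309bb08a95d : CRef := CRef.mk (Pat.mk 0x1200000006000000020000000800000008 0x7000000070000001e00000006000000060000000e00000008 5 5) 0 0 (step_sound _ 130 [rh38da93742bbed16d, (rh84d1c02a8954c6a8.shift 1 1)] (by decide +kernel))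
noncomputable def rh31daaeef1d7d74c9 : CRef := CRef.mk (Pat.mk 0x7800000000 0x7f0000007e00000007 5 7) 0 0 (step_sound _ 34 [rh775ca1963e850b80, rh9e97bba44c1b13e4, (rhd5eb272e07a4e288.shift 1 1)] (by decide +kernel))
noncomputable def rhe6f3651eb36c5c2c : CRef := CRef.mk (Pat.mk 0x4000000040000000000000002000000020000001a00000000 0x4000000070000000300000003000000030000001e00000003 5 5) 0 0 (step_sound _ 129 [(rh1006c02ae4212ff0.shift 1 2), rhecdf19ca2805377f] (by decide +kernel))
noncomputable def rh938bdd32f6670479 : CRef := CRef.mk (Pat.mk 0x40000000400000014000000000000000000000000 0x200000006000000060000003c0000000f0000000e0000000a 5 6) 0 0 (step_sound _ 66 [(rh1683b5e71e7f1dc2.shift 0 1), (rh46baee19951a66e7.shift 1 0), (rh8cdd36b03d57a2f6.shift 1 0), (rhc4526fc8abf298b6.shift 1 0)] (by decide +kernel))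
noncomputable def rhff9e236102c42956 : CRef := CRef.mk (Pat.mk 0x1c0000000000000002000000020000001c00000000 0x1f0000000300000003000000030000001e00000003 5 5) 0 0 (step_sound _ 33 [(rh3244c3cc8379b070.shift 0 1), rh7a0a50a400d2faa7] (by decide +kernel))
noncomputable def rh896ccaf2724ac0c5 : CRef := CRef.mk (Pat.mk 0x380000001400000004 0x200000002000000070000003e0000003600000004 5 6) 0 0 (step_sound _ 66 [rh38dab6a66c300bf2, (rheb0810cc63b001d8.shift 1 1)] (by decide +kernel))
noncomputable def rh69e29d723ee21a4f : CRef := CRef.mk (Pat.mk 0x180000000800000002000000020000001c00000000 0x190000000f00000003000000030000001e00000003 5 5) 0 0 (step_sound _ 33 [(rh3244c3cc8379b070.shift 0 1), rh7c65fdfd6a775418] (by decide +kernel))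
noncomputable def rh61a2c639fbf7f45b : CRef := CRef.mk (Pat.mk 0x14000000140000000400000000 0xa0000000a0000000f0000001e000000340000000400000004 5 6) 0 0 (step_sound _ 99 [(rh215e11e099257d75.shift 2 0), (rh38dab6a66c300bf2.shift 0 1), (rh48b17a255c93c121.shift 1 0)] (by decide +kernel))
noncomputable def rhae6c0b565d4dd1b2 : CRef := CRef.mk (Pat.mk 0x14000000140000000400000004 0x20000000b0000001e000000370000000400000004 5 6) 0 0 (step_sound _ 99 [(rh06be8e5562dc7104.shift 0 1), (rh2f68792b6b779e96.shift 2 0)] (by decide +kernel))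
noncomputable def rhdc0d6a1e31bca9d6 : CRef := CRef.mk (Pat.mk 0x20000000a0000000a0000000a 0x1d0000001f0000001a0000000a0000000a 5 5) 0 0 (step_sound _ 98 [(rh2f68792b6b779e96.shift 1 0), rh475168db3ef08423] (by decide +kernel))
noncomputable def rh380f73ccc23a6c58 : CRef := CRef.mk (Pat.mk 0x20000000200000002000000020000000000000000 0x50000000700000007000000030000000300000003000000030000000200000002 5 3) 0 0 (step_sound _ 193 [(rh3ca48e2a6d60153d.shift 0 2), rh5baa46239919fe38, (rhc85cc95794737cf7.shift 0 3)] (by decide +kernel))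
noncomputable def rhcf8f83ff79bf9c59 : CRef := CRef.mk (Pat.mk 0x20000000200000002000000000000000000000000 0x500000007000000070000000600000002000000070000000700000005 5 3) 0 0 (step_sound _ 65 [rh367118e0bf0473e0, rh8cdd36b03d57a2f6, (rhc85cc95794737cf7.shift 0 2), (rhc9de03f9731897d4.shift 1 0)] (by decide +kernel))
noncomputable def rh00c809e161b34002 : CRef := CRef.mk (Pat.mk 0x800000028000000080000000800000000 0x10000000180000007c0000000f0000000800000008 5 7) 0 0 (step_sound _ 132 [(rh2f68792b6b779e96.shift 3 1), rh757a9d81fa2f759f] (by decide +kernel))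
noncomputable def rh732072ef050d5f57 : CRef := CRef.mk (Pat.mk 0x1800000038000000280000000800000000 0x180000003c0000002f0000007800000030 5 7) 0 0 (step_sound _ 37 [rh775cf443270299f0, (rh7b1f1fb55310c477.shift 4 0)] (by decide +kernel))
noncomputable def rh9a07fae2e348cdeb : CRef := CRef.mk (Pat.mk 0x200000002000000020000000a00000002 0x4000000060000000600000002000000060000001f00000003 5 5) 0 0 (step_sound _ 0 [rh79877ebd3ef475dd, rha371b30a6f1169f8] (by decide +kernel))
noncomputable def rhbe492ff94b476bd2 : CRef := CRef.mk (Pat.mk 0x2000000020000000200000002000000020000000100000000 0x50000000700000007000000020000000200000002000000020000000300000001 5 3) 0 0 (step_sound _ 33 [(rh1741680720c097b4.shift 0 3), rh932754581e0f4330] (by decide +kernel))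
noncomputable def rhf17dbae82aa7160f : CRef := CRef.mk (Pat.mk 0x100000001a0000000a00000002000000040000000000000000 0x100000001a0000000a0000000a0000001f0000000700000001 5 5) 0 0 (step_sound _ 65 [(rh55afc6a59410cf00.shift 1 1), rhb926de49454c6622] (by decide +kernel))
noncomputable def rhbb70e0a4d5d67ef0 : CRef := CRef.mk (Pat.mk 0x1000000120000001a0000000a 0x40000001f00000017000000120000001a0000000a 5 5) 0 0 (step_sound _ 97 [rh50fbb5868c909700, rh6910e41b3fcd20f3] (by decide +kernel))
noncomputable def rhade4aa999c9d1413 : CRef := CRef.mk (Pat.mk 0x180000001c0000000400000000 0x30000001f0000003f0000000400000004 5 6) 0 0 (step_sound _ 65 [rh3faee1d7441d631a, (rh53b3c253cb0c65f4.shift 0 2)] (by decide +kernel))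
noncomputable def rhaa71fc4afe731bba : CRef := CRef.mk (Pat.mk 0x1c0000001400000000 0xa0000000a0000003b0000001f0000001700000014 5 6) 0 0 (step_sound _ 65 [rh2b40d254177f8dd3, rha20eb734ea932873] (by decide +kernel))
noncomputable def rh047f549357eb18af : CRef := CRef.mk (Pat.mk 0x2000000020000000200000002000000020000000000000000 0x2000000030000000300000003000000070000000600000006 5 3) 0 0 (step_sound _ 34 [(rhd3458b32566d63f7.shift 1 1), rhfc8cf34224bea7a0] (by decide +kernel))
noncomputable def rh53a9eca71b4a4b8f : CRef := CRef.mk (Pat.mk 0xa0000000e000000000000000000000000 0x8000000080000000b0000001e000000380000001000000010 5 6) 0 0 (step_sound _ 100 [(rh3244c3cc8379b070.shift 0 3), (rh84970c2ccb9fe470.shift 1 0)] (by decide +kernel))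
noncomputable def rh2fcd883c4bd901aa : CRef := CRef.mk (Pat.mk 0x800000000000000080000001e000000000000000000000000 0xa0000000a0000000f0000001e000000040000000400000004 5 5) 0 0 (step_sound _ 129 [(rh27042fca60deae2b.shift 1 0), (rh3244c3cc8379b070.shift 0 3)] (by decide +kernel))
noncomputable def rh12b8a66e37fc2bdd : CRef := CRef.mk (Pat.mk 0x1800000000000000020000001e0000000000000000 0x40000001f0000000f000000020000001e0000000700000004 5 5) 0 0 (step_sound _ 33 [(rheb0810cc63b001d8.shift 0 1), rhfa924f7a70a26e42] (by decide +kernel))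
noncomputable def rh2444968c807a2d98 : CRef := CRef.mk (Pat.mk 0x1c000000180000000000000004 0x30000001f0000001f0000000600000004 5 5) 0 0 (step_sound _ 97 [rh25efc5d5a6c022ff, (rhb739f4f82bb681b4.shift 0 2)] (by decide +kernel))
noncomputable def rh92ed3525f919a568 : CRef := CRef.mk (Pat.mk 0x800000008000000280000000800000000 0x40000000c0000000f0000007c0000000800000008 5 7) 0 0 (step_sound _ 130 [rh368d7bd9bf559600, (rh50fbb5868c909700.shift 2 1)] (by decide +kernel))
noncomputable def rha33da9b6fe83e41d : CRef := CRef.mk (Pat.mk 0x400000007000000030000000000000000 0x400000004000000040000001f0000001f0000000800000008 5 5) 0 0 (step_sound _ 99 [(rh18965a982d73c794.shift 0 2), rh84970c2ccb9fe470] (by decide +kernel))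
noncomputable def rh8db4b6bc3744497d : CRef := CRef.mk (Pat.mk 0x38000000000000000000000004000000040000000400000000 0xf0000007e000000e70000000600000006000000040000000400000004 5 8) 0 0 (step_sound _ 194 [(rh2bb3da8bc8afc618.shift 1 3), (rh5032d5f9d016731b.shift 1 0), (rh775ca1963e850b80.shift 0 5), (rhe401600d466b97cd.shift 1 5)] (by decide +kernel))
noncomputable def rh43a67f6e5a0f2338 : CRef := CRef.mk (Pat.mk 0x200000001c0000000000000000000000020000000200000000 0x340000001e0000000300000002000000030000000300000001 5 6) 0 0 (step_sound _ 161 [(rh428265de8cd3cd2d.shift 1 5), rh77502aab4757b0ce] (by decide +kernel))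
noncomputable def rh149367f9f1f8871e : CRef := CRef.mk (Pat.mk 0x100000000e00000000 0x370000003e00000070 5 7) 0 0 (step_sound _ 36 [(rh33e738c4ed385b9f.shift 1 1), rhe401600d466b97cd] (by decide +kernel))
noncomputable def rh3bc29805fee9d8b6 : CRef := CRef.mk (Pat.mk 0x90000000c0000000800000000 0x1c0000001c0000000f0000000c0000000c0000000c 5 5) 0 0 (step_sound _ 131 [(rh03dfdf12d5937476.shift 2 0), rh36eea9b8df2ca677] (by decide +kernel))
noncomputable def rha23cbc86790badb8 : CRef := CRef.mk (Pat.mk 0x90000000c0000000800000000 0x180000001c0000001c0000000f0000000c0000000c00000008 5 5) 0 0 (step_sound _ 98 [(rh4e334354818c0f5c.shift 0 1), (rhfc7c29d8e65d775f.shift 2 0)] (by decide +kernel))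
noncomputable def rh8670158281ccbe0c : CRef := CRef.mk (Pat.mk 0x3800000000 0xff0000007e00000007 5 8) 0 0 (step_sound _ 34 [rh775ca1963e850b80, rh9e97bba44c1b13e4, (rhb18e6c78a554867d.shift 1 1)] (by decide +kernel))
noncomputable def rhe7b89f55913433cd : CRef := CRef.mk (Pat.mk 0x28000000080000000c00000000 0x8000000080000007c0000000f0000000c00000004 5 7) 0 0 (step_sound _ 131 [(rh4cdf5fe98ac0cc22.shift 0 1), (rh932754581e0f4330.shift 2 0)] (by decide +kernel))
noncomputable def rha31ee65078464e98 : CRef := CRef.mk (Pat.mk 0x28000000080000000c00000000 0x40000000f0000007c000000080000000c00000004 5 7) 0 0 (step_sound _ 131 [(rh7430a052bcb4bacd.shift 0 1), (rh932754581e0f4330.shift 2 0)] (by decide +kernel))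
noncomputable def rhb84e061f03757d02 : CRef := CRef.mk (Pat.mk 0x2000000028000000280000003000000000 0x200000007c0000002f0000007800000040 5 7) 0 0 (step_sound _ 38 [(rh55afc6a59410cf00.shift 5 0), (rh5961fa93b56e2bd1.shift 0 1)] (by decide +kernel))
noncomputable def rh06f2148f998ff904 : CRef := CRef.mk (Pat.mk 0x280000002800000020000000000000000000000000 0x100000007c0000002f00000020000000700000007000000050 5 7) 0 0 (step_sound _ 69 [(rh6eff4158bb400f47.shift 4 0), (rha51f537e042fce54.shift 0 2)] (by decide +kernel))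
noncomputable def rhcaa3c446a18921a8 : CRef := CRef.mk (Pat.mk 0xa000000080000000800000010 0x100000007c0000000f000000080000001800000010 5 7) 0 0 (step_sound _ 131 [(rhb034511df68c2fcf.shift 0 1), (rhd3458b32566d63f7.shift 3 0)] (by decide +kernel))
noncomputable def rhf4d32ceb02606f40 : CRef := CRef.mk (Pat.mk 0xa00000008000000080000000800000000 0x100000001c0000000f000000080000000c0000000c00000004 5 5) 0 0 (step_sound _ 34 [(rh54278b2574c8dca5.shift 0 1), (rh932754581e0f4330.shift 2 0)] (by decide +kernel))
noncomputable def rhc84dbe89ac4dad8d : CRef := CRef.mk (Pat.mk 0xa0000000800000008000000000000000000000000 0x100000001c0000001f00000008000000080000001c0000001c00000014 5 5) 0 0 (step_sound _ 67 [(rh2c718f29f451ad95.shift 0 2), (rh8cdd36b03d57a2f6.shift 2 0)] (by decide +kernel))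
noncomputable def rhec5243c868644e71 : CRef := CRef.mk (Pat.mk 0x40000000400000014000000060000000000000000 0x400000006000000070000001e000000070000000400000004 5 5) 0 0 (step_sound _ 97 [(rh5c5e593799055d58.shift 1 2), rh8d6ba5dde7b2f1d1] (by decide +kernel))
noncomputable def rhe6df117360faba60 : CRef := CRef.mk (Pat.mk 0x1800000038000000000000000000000000 0x80000001f0000003f000000070000000400000004 5 6) 0 0 (step_sound _ 98 [(rh592c7139d2c44767.shift 0 2), (rh88129595a1b18399.shift 1 0), (rhbe5fc5902345a0b9.shift 0 3), (rhcc2be1f880c5ea3e.shift 0 2)] (by decide +kernel))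
noncomputable def rh885fae1c35d6e511 : CRef := CRef.mk (Pat.mk 0x60000000a00000018000000000000000000000000 0x1000000010000000380000001e0000000b00000018000000180000001000000010 5 6) 0 0 (step_sound _ 163 [(rh0aefef67a4f5e36d.shift 0 3), (rh5bc090164f229948.shift 0 2), (rh70e33bfdf511e144.shift 3 0)] (by decide +kernel))
noncomputable def rhe6c694c18721c656 : CRef := CRef.mk (Pat.mk 0xc0000000800000020000000280000000c0000000000000000 0x40000000400000007f0000007800000020000000780000006c0000004000000040 5 7) 0 0 (step_sound _ 165 [(rh028b73e3b7973375.shift 2 2), (rh126557da767e56cc.shift 0 5), (rhf35bfcad7d6b18ce.shift 2 0)] (by decide +kernel))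
noncomputable def rha7d822594f9720f6 : CRef := CRef.mk (Pat.mk 0x8000000080000000e00000000000000000000000000000000 0x800000008000000080000001f00000078000000180000001000000010 5 7) 0 0 (step_sound _ 100 [(rh06dad6edb7ce8d9c.shift 0 2), rh12b9cd66d8542877, (rh2f7ef8ef5c94975a.shift 3 1), (rh6e1f502161d2d285.shift 1 3), (rh7b93e260e30176fc.shift 0 3)] (by decide +kernel))
noncomputable def rhc28ac7ca760d1989 : CRef := CRef.mk (Pat.mk 0xc00000008000000020000001e00000000 0x10000000f0000001f000000020000001e00000003 5 5) 0 0 (step_sound _ 1 [rh32bea5880f07e60b, rheb0810cc63b001d8] (by decide +kernel))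
noncomputable def rh5ef80665ccc2c48a : CRef := CRef.mk (Pat.mk 0xc00000008000000200000003800000040 0x3f000000780000002000000078000000c0 5 8) 0 0 (step_sound _ 38 [rh4e316735d39c0b0f, (rhe25b0a99195a5d59.shift 3 0)] (by decide +kernel))
noncomputable def rh3faceb6b72173bf9 : CRef := CRef.mk (Pat.mk 0x20000000a0000000a0000000a00000000 0x10000000110000001b0000001e0000000a0000000a00000008 5 5) 0 0 (step_sound _ 128 [rh028b73e3b7973375, (rh50fbb5868c909700.shift 0 1)] (by decide +kernel))
noncomputable def rh05e59d85c4ec515f : CRef := CRef.mk (Pat.mk 0x3000000020000000a0000000a0000000a0000000000000000 0x130000001e0000000a0000000a0000001f0000001900000010 5 5) 0 0 (step_sound _ 64 [(rh932754581e0f4330.shift 0 1), rh94ee8d585e13c95f] (by decide +kernel))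
noncomputable def rh2251e5694db99b1b : CRef := CRef.mk (Pat.mk 0xa000000080000000800000008 0x100000007c0000001f000000080000000800000008 5 7) 0 0 (step_sound _ 132 [(rhbaefcd01e0a8bca3.shift 3 0), (rhd8fcc0fce79b987f.shift 0 1)] (by decide +kernel))
noncomputable def rh900de6cbf59b90ff : CRef := CRef.mk (Pat.mk 0x20000000a000000080000000b0000000000000000 0x100000001f0000001e000000080000001f0000001800000010 5 5) 0 0 (step_sound _ 35 [rh5f11ee373cbffcaa, (rhced6d86d2069808b.shift 3 0), (rhf86ac93687bef43a.shift 0 1)] (by decide +kernel))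
noncomputable def rhc639f8163a55a76f : CRef := CRef.mk (Pat.mk 0x60000000300000002000000020000000b00000018000000000000000000000000 0x1e000000130000001e0000001e0000000b00000018000000180000001000000010 5 5) 0 0 (step_sound _ 260 [(rh361cc68994bd8a63.shift 0 7), rh5c2e6150b0ec0f38] (by decide +kernel))
noncomputable def rh990d8b0ee44a8b62 : CRef := CRef.mk (Pat.mk 0x8000000080000002c00000028000000000000000000000000 0x40000000440000007f000000780000002c00000078000000600000004000000040 5 7) 0 0 (step_sound _ 165 [(rh3a925e7b8292dc86.shift 2 2), (rha66e4e5ada000089.shift 2 0), (rhd5d193521cc593a5.shift 0 3)] (by decide +kernel))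
noncomputable def rh9c5ff80d3ec3e386 : CRef := CRef.mk (Pat.mk 0x8000000080000001e0000000c 0x60000000f0000003b0000001e0000000c 5 6) 0 0 (step_sound _ 65 [(rh3244c3cc8379b070.shift 0 1), rh8bb748aa3bd94306] (by decide +kernel))
noncomputable def rhd7df709195facb47 : CRef := CRef.mk (Pat.mk 0x1a0000001e0000000000000000 0x600000006000000070000001e0000001e0000000700000002 5 5) 0 0 (step_sound _ 33 [rh34faa4ef2034f9f7, (rheb0810cc63b001d8.shift 0 1)] (by decide +kernel))
noncomputable def rh2b2b1e0bf067455c : CRef := CRef.mk (Pat.mk 0x40000001700000030000000000000000000000000 0x2000000020000000300000003e0000001700000030000000300000002000000020 5 6) 0 0 (step_sound _ 164 [(rh3a925e7b8292dc86.shift 1 2), (rh4fd54f6717f3e7ac.shift 0 4), (rh70e33bfdf511e144.shift 4 0)] (by decide +kernel))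
noncomputable def rhd1eb313eec82ca0b : CRef := CRef.mk (Pat.mk 0x12000000060000000200000000 0x7000000070000001e000000060000000600000006 5 5) 0 0 (step_sound _ 129 [rhc465be9a3d567854, (rhd4b4beefcd67f51e.shift 1 0)] (by decide +kernel))
noncomputable def rhf6d895f9ad95dba0 : CRef := CRef.mk (Pat.mk 0x1e0000001a0000000000000000 0x6000000070000001e0000001e0000000700000006 5 5) 0 0 (step_sound _ 129 [(rh3244c3cc8379b070.shift 0 3), rh5357388b2354ee7a] (by decide +kernel))
noncomputable def rh88b8cec4d183a8bd : CRef := CRef.mk (Pat.mk 0x1c000000040000000400000000 0xa0000000e0000000f0000001c000000060000000600000002 5 5) 0 0 (step_sound _ 130 [(rh039efe07c35de3d4.shift 0 1), (rh1741680720c097b4.shift 1 1), (rh20966da26a1c2ae8.shift 1 0), (rh771d065bdc85bf2d.shift 1 0)] (by decide +kernel))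
noncomputable def rh9109a289578dc515 : CRef := CRef.mk (Pat.mk 0x18000000100000003800000018 0x40000001e000000770000003f00000018 5 7) 0 0 (step_sound _ 34 [(rhafa88c550ea36308.shift 1 0), rhba89ab7cb81bcc90, (rhec46bd5500c722c9.shift 1 1)] (by decide +kernel))
noncomputable def rhafa8ad03fb07c74b : CRef := CRef.mk (Pat.mk 0x1e000000180000000000000000 0x4000000070000001e0000001f0000000300000003 5 5) 0 0 (step_sound _ 65 [rh4ed8f83e52b7dbab, (rheb0810cc63b001d8.shift 0 2)] (by decide +kernel))
noncomputable def rh7bb82bb52baebe64 : CRef := CRef.mk (Pat.mk 0x2c0000000c 0x70000003e0000007e 5 7) 0 0 (step_sound _ 36 [rh2456963ff1f7bf23, (rheb0810cc63b001d8.shift 1 0)] (by decide +kernel))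
noncomputable def rh482cbd948aaecf66 : CRef := CRef.mk (Pat.mk 0x20000000a0000000a0000000e 0x100000001f0000001f0000000a0000000e0000000e 5 5) 0 0 (step_sound _ 99 [rh2c718f29f451ad95, rha6a040162bfeb7da, (rhc50a9cb3b374a536.shift 1 0)] (by decide +kernel))
noncomputable def rha5713126c949d9f0 : CRef := CRef.mk (Pat.mk 0x20000000a0000000e00000006 0x3c0000001e0000000b0000000e0000000e 5 6) 0 0 (step_sound _ 99 [rh1d991cfd4e134774, (rh5c5e593799055d58.shift 2 0)] (by decide +kernel))
noncomputable def rh7829737509aebab4 : CRef := CRef.mk (Pat.mk 0x8000000280000003800000018 0x300000007c0000002f0000003800000018 5 7) 0 0 (step_sound _ 101 [rh57b469c1bf70b264, (rh5c5e593799055d58.shift 4 0)] (by decide +kernel))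
noncomputable def rh3e0678eb1e5c0f77 : CRef := CRef.mk (Pat.mk 0x20000000800000008000000080000000000000000 0x100000001c0000001f00000008000000080000001c0000001c00000014 5 5) 0 0 (step_sound _ 163 [(rh2c718f29f451ad95.shift 0 2), (rh8cdd36b03d57a2f6.shift 2 0)] (by decide +kernel))
noncomputable def rhd35bcd0deb2a35c8 : CRef := CRef.mk (Pat.mk 0x1800000038000000000000000000000000 0x80000001f0000003f000000070000000400000004 5 6) 0 0 (step_sound _ 98 [(rh775ca1963e850b80.shift 0 2), (rh88129595a1b18399.shift 1 0), (rhbe5fc5902345a0b9.shift 0 3), (rhcc2be1f880c5ea3e.shift 0 2)] (by decide +kernel))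
noncomputable def rh0ef07a2ae61f18b1 : CRef := CRef.mk (Pat.mk 0x1a00000002000000180000003c00000000 0x30000001e0000000300000018000000fc000000e0 5 8) 0 0 (step_sound _ 130 [rh5eb5358db658effe, (rheb0810cc63b001d8.shift 0 3)] (by decide +kernel))
noncomputable def rhfb6b854037bb694f : CRef := CRef.mk (Pat.mk 0x8000000080000000a00000002000000060000000100000000 0x8000000180000001a0000001a0000001e0000001300000001 5 5) 0 0 (step_sound _ 33 [(rh0d55a8f032c5133e.shift 0 1), rh932754581e0f4330] (by decide +kernel))
noncomputable def rh7dc41e4c9db082f4 : CRef := CRef.mk (Pat.mk 0x20000000b00000008000000080000000200000006 0x10000000180000001e0000000b00000018000000180000003b0000001e 5 6) 0 0 (step_sound _ 163 [(rh1df1df71a80a171b.shift 0 2), rh68ba80c74528fc46, (rhced6d86d2069808b.shift 3 1)] (by decide +kernel))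
noncomputable def rh2c0fe4d9f347314b : CRef := CRef.mk (Pat.mk 0x20000000b00000008000000080000000200000003 0x10000000180000001e0000000b00000018000000180000001e00000013 5 5) 0 0 (step_sound _ 163 [rh0f69178ab836bfd4, (rh1df1df71a80a171b.shift 0 2), (rhced6d86d2069808b.shift 3 1)] (by decide +kernel))
noncomputable def rh6222ee8af6037dff : CRef := CRef.mk (Pat.mk 0xa0000000a0000000a0000000200000000 0xa0000000a0000001a0000001f0000001d 5 5) 0 0 (step_sound _ 34 [rh1253bcc8ef5eaee7, (rh55afc6a59410cf00.shift 1 0)] (by decide +kernel))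
noncomputable def rh40df8b1665a3e8cc : CRef := CRef.mk (Pat.mk 0x80000002800000028000000000000000000000000 0x28000000280000002f0000007c000000300000001000000010 5 7) 0 0 (step_sound _ 100 [(rh1ed6ce059cc64630.shift 3 0), (rha9fbfd4bb8cf890b.shift 0 3)] (by decide +kernel))
noncomputable def rh67696df94ccc59a8 : CRef := CRef.mk (Pat.mk 0xa0000001a000000000000000000000000 0x8000000080000000b0000001e000000380000001000000010 5 6) 0 0 (step_sound _ 98 [(rh3244c3cc8379b070.shift 0 3), (rh84970c2ccb9fe470.shift 1 0)] (by decide +kernel))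
noncomputable def rh7a0813b81c8e120f : CRef := CRef.mk (Pat.mk 0xa0000000a000000020000001200000002 0x8000000080000000b0000001f0000001a0000001200000012 5 5) 0 0 (step_sound _ 128 [rh2aafd2d1129ff35b, rhffd04209dc8ea796] (by decide +kernel))
noncomputable def rhf57052375c38e6f0 : CRef := CRef.mk (Pat.mk 0x80000000e000000060000000000000000 0x80000003f0000003e0000003000000010 5 6) 0 0 (step_sound _ 100 [(rh18965a982d73c794.shift 1 2), rh715ef4deafe86686] (by decide +kernel))
noncomputable def rh297b31b992517702 : CRef := CRef.mk (Pat.mk 0x200000006000000020000000000000000 0x500000007000000070000000600000006000000060000000600000004 5 3) 0 0 (step_sound _ 161 [(rh6c59ce14113da07f.shift 1 0), (rhc85cc95794737cf7.shift 0 2), (rhd4b4beefcd67f51e.shift 1 1)] (by decide +kernel))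
noncomputable def rhffa3797c068e6299 : CRef := CRef.mk (Pat.mk 0xa0000000a00000008000000000000000000000000 0x140000001e0000000b000000080000001c0000001c00000014 5 5) 0 0 (step_sound _ 67 [(rh3a73674d7a676c64.shift 0 2), (rh8cdd36b03d57a2f6.shift 2 0)] (by decide +kernel))
noncomputable def rhb96e2ebcd9921083 : CRef := CRef.mk (Pat.mk 0x400000004000000100000001a00000000 0x4000000040000000600000006000000330000001e00000002 5 6) 0 0 (step_sound _ 34 [(rh33e738c4ed385b9f.shift 1 1), rhcac28a47c48fba62] (by decide +kernel))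
noncomputable def rha087ba316146066f : CRef := CRef.mk (Pat.mk 0x400000004000000100000001a 0x4000000040000000600000006000000370000001e 5 6) 0 0 (step_sound _ 2 [(rh33e738c4ed385b9f.shift 1 0), rh9365dadaedfa8cc2] (by decide +kernel))
noncomputable def rhdfdb54891d3dba56 : CRef := CRef.mk (Pat.mk 0x1000000030000000b00000008000000080000000800000000 0x1000000030000000b0000000b0000000f0000001b00000010 5 5) 0 0 (step_sound _ 65 [rh77b6660bf70ebfe3, (rh9e07f76261b05888.shift 0 2)] (by decide +kernel))
noncomputable def rh9f1b0d6d73e15f0f : CRef := CRef.mk (Pat.mk 0x90000000b0000000b000000080000000800000000 0x90000000b0000000b0000001b0000001f00000003 5 5) 0 0 (step_sound _ 33 [(rh9e07f76261b05888.shift 0 1), rhbe9be45c05f15da8] (by decide +kernel))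
noncomputable def rh2fb8b1d5540ddc92 : CRef := CRef.mk (Pat.mk 0x2c000000280000000800000000 0x60000003e0000003f0000000800000008 5 6) 0 0 (step_sound _ 130 [(rh125b6ad5e146425f.shift 0 2), (rh7b1f1fb55310c477.shift 2 0)] (by decide +kernel))
noncomputable def rhdf07b3373e283437 : CRef := CRef.mk (Pat.mk 0x600000014000000040000000400000000 0x400000004000000070000001e000000070000000600000004 5 5) 0 0 (step_sound _ 97 [(rh6e563f5fc6ca0bf2.shift 0 1), (rh7b1f1fb55310c477.shift 1 0)] (by decide +kernel))
noncomputable def rh8a475bde9860f00f : CRef := CRef.mk (Pat.mk 0x800000008000000080000001e00000000 0x40000000c0000000e0000000f0000001e00000003 5 5) 0 0 (step_sound _ 65 [(rh3244c3cc8379b070.shift 0 1), rhed06e1bbe137f765] (by decide +kernel))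
noncomputable def rha72b62203989cde9 : CRef := CRef.mk (Pat.mk 0x28000000280000000800000000 0x8000000080000003f0000007e0000000f00000004 5 7) 0 0 (step_sound _ 68 [(rh2820ca9a6c4f41b4.shift 0 1), rh91be864ca810e1b3, (rhd9106766b9ff53c0.shift 2 1), (rhf60aa8aede119d3b.shift 0 2)] (by decide +kernel))
noncomputable def rha37d485570fdcea2 : CRef := CRef.mk (Pat.mk 0x2c0000002800000008 0x4000000040000000e0000003e0000003f00000008 5 6) 0 0 (step_sound _ 98 [(rh125b6ad5e146425f.shift 0 1), (rhc89253ff58c66167.shift 2 0), (rhe072fffdd2fccf38.shift 2 0)] (by decide +kernel))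
noncomputable def rh84fe84ade06bc004 : CRef := CRef.mk (Pat.mk 0x60000000b0000000a000000000000000000000000 0x80000001e0000000b0000001e000000180000001000000010 5 5) 0 0 (step_sound _ 163 [(rh18965a982d73c794.shift 0 4), rha66e4e5ada000089] (by decide +kernel))
noncomputable def rhb9b453157177bd8c : CRef := CRef.mk (Pat.mk 0xa0000000a0000000a000000010000000000000000 0x80000000a0000000a0000001e0000001b0000001100000010 5 5) 0 0 (step_sound _ 65 [(rh932754581e0f4330.shift 0 1), rhf35bfcad7d6b18ce] (by decide +kernel))
noncomputable def rhc1122e6033417422 : CRef := CRef.mk (Pat.mk 0x2000000020000000a0000000a00000010000000000000000000000000 0x20000000a0000000a0000000f00000019000000180000001000000010 5 5) 0 0 (step_sound _ 128 [(rh932754581e0f4330.shift 0 3), rh9b7bbe4a4a7c90f5] (by decide +kernel))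
noncomputable def rhaf10089cb3890f2f : CRef := CRef.mk (Pat.mk 0x4000000020000000200000002000000300000001000000000 0x4000000060000000200000002000000330000001f00000005 5 6) 0 0 (step_sound _ 65 [rh1d14a583408e208e, (rhbaefcd01e0a8bca3.shift 1 2)] (by decide +kernel))
noncomputable def rh9c422a9b0fc60f6e : CRef := CRef.mk (Pat.mk 0x20000001a000000120000000300000000 0xa0000001a0000001a0000001f0000003c 5 6) 0 0 (step_sound _ 34 [(rh55afc6a59410cf00.shift 1 0), rh8ee8460c7dea5243] (by decide +kernel))
noncomputable def rhf0088796f775dd8b : CRef := CRef.mk (Pat.mk 0x300000003000000040000000400000000 0x8000000080000001f0000001f000000040000000400000004 5 5) 0 0 (step_sound _ 98 [(rh07ccc6e4230bb59c.shift 0 1), (rh7b1f1fb55310c477.shift 1 0)] (by decide +kernel))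
noncomputable def rh22ffac98b8cabdd0 : CRef := CRef.mk (Pat.mk 0x60000001700000014000000000000000000000000 0x100000001e000000170000003c000000300000002000000020 5 6) 0 0 (step_sound _ 164 [(rh361cc68994bd8a63.shift 0 4), (rha66e4e5ada000089.shift 1 0)] (by decide +kernel))
noncomputable def rh4c5cd0a413e1c786 : CRef := CRef.mk (Pat.mk 0xa0000000b0000001800000000 0x100000007c0000001e0000000b0000001800000010 5 7) 0 0 (step_sound _ 98 [(rh18965a982d73c794.shift 0 2), (rhf8e7a9b8065dda59.shift 1 0)] (by decide +kernel))
noncomputable def rh440679e1a3bd6398 : CRef := CRef.mk (Pat.mk 0xa0000000b0000000800000000 0x100000007c0000001e0000000b0000001e00000014 5 7) 0 0 (step_sound _ 98 [rh180db5250f736738, (rh18965a982d73c794.shift 0 2)] (by decide +kernel))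
noncomputable def rhcea16961d004063f : CRef := CRef.mk (Pat.mk 0xc0000000e000000180000000800000000 0xc0000000e0000001b0000001f00000016 5 5) 0 0 (step_sound _ 36 [(rh55afc6a59410cf00.shift 3 0), rh8dc6f25384ef0701] (by decide +kernel))
noncomputable def rh5b2ce1e5aa4a4edd : CRef := CRef.mk (Pat.mk 0x200000007800000000 0x3e0000007e00000007 5 7) 0 0 (step_sound _ 66 [rh1713b2a8615f2751, (rh3f8766e6ecb455ce.shift 2 1)] (by decide +kernel))
noncomputable def rh349f383953bf5019 : CRef := CRef.mk (Pat.mk 0x800000018000000080000000000000000 0x140000001f0000007c000000080000000800000008 5 7) 0 0 (step_sound _ 35 [(rh507c5779b6f84b86.shift 0 1), rh91996c881a145cdd, (rha707fb719e87fe6e.shift 3 0)] (by decide +kernel))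
noncomputable def rha92a316f980eef78 : CRef := CRef.mk (Pat.mk 0x380000001800000000 0x400000004000000070000003f0000001f00000008 5 6) 0 0 (step_sound _ 66 [(rhb14e2588a8d71db8.shift 0 1), (rhba89ab7cb81bcc90.shift 0 1), (rhdd3ef923ff6c7ad5.shift 1 0)] (by decide +kernel))
noncomputable def rh098c9ae918f31a59 : CRef := CRef.mk (Pat.mk 0x800000008000000280000000800000000 0x8000000080000000f0000007c0000001800000010 5 7) 0 0 (step_sound _ 36 [(rh2f2e76896831cbde.shift 0 1), (rh55afc6a59410cf00.shift 3 0)] (by decide +kernel))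
noncomputable def rh20988876f08645f0 : CRef := CRef.mk (Pat.mk 0x80000002c00000038000000100000000000000000 0x200000007c0000002f00000038000000100000001000000010 5 7) 0 0 (step_sound _ 36 [(rh6ce782edb505263d.shift 0 2), (rh7b1f1fb55310c477.shift 3 0)] (by decide +kernel))
noncomputable def rh5923591cc0599043 : CRef := CRef.mk (Pat.mk 0xc000000080000000c00000004 0x20000001f0000007e0000000f00000004 5 7) 0 0 (step_sound _ 68 [(rh0bb882ba86b2372d.shift 0 1), (rh4ca5dae25f5c14ff.shift 0 2), rhfb7a1ccd3842fdc2] (by decide +kernel))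
noncomputable def rhec8efbaea7c78e9f : CRef := CRef.mk (Pat.mk 0x20000000200000002000000000000000000000000 0x100000003000000030000000200000007000000070000000700000005 5 3) 0 0 (step_sound _ 65 [(rh565a0c22519f57e9.shift 0 1), rh6eff4158bb400f47, (rh7eb4a07d72ad7934.shift 0 1)] (by decide +kernel))
noncomputable def rhab9348a2cfbc9929 : CRef := CRef.mk (Pat.mk 0xa00000008000000080000000c 0x100000001c0000000f000000080000001c0000001c 5 5) 0 0 (step_sound _ 131 [(rh79877ebd3ef475dd.shift 2 0), rha6bb3c974217aa24] (by decide +kernel))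
noncomputable def rh83d0b9849dedb501 : CRef := CRef.mk (Pat.mk 0x14000000140000001000000014 0x2f0000003e000000140000001400000014 5 6) 0 0 (step_sound _ 99 [rh36fd1324b046d62b, (rh50fbb5868c909700.shift 3 0)] (by decide +kernel))
noncomputable def rh9e51c8b581e07e9b : CRef := CRef.mk (Pat.mk 0x400000004000000100000001400000010000000100000000800000000 0x4000000040000003c0000001e00000013000000100000001800000008 5 6) 0 0 (step_sound _ 36 [(rh040c71d7810d9ef3.shift 0 1), (rh932754581e0f4330.shift 3 0)] (by decide +kernel))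
noncomputable def rh56f84bb01397d516 : CRef := CRef.mk (Pat.mk 0x400000004000000180000001800000000 0x400000004000000040000003f0000001f00000002 5 6) 0 0 (step_sound _ 66 [(rh2145e1d24b96a57e.shift 2 1), rh6992f6e660b4e99e] (by decide +kernel))
noncomputable def rh2d59a82f792a29c1 : CRef := CRef.mk (Pat.mk 0x380000000800000060000000c0 0x40000000f0000007c0000000800000078000000c8 5 8) 0 0 (step_sound _ 35 [rh688228c9ae2f6eca, (rhab22b5b56e7b3243.shift 3 0)] (by decide +kernel))
noncomputable def rh36ce425c3febe2cc : CRef := CRef.mk (Pat.mk 0x20000001c000000040000001000000030 0x30000001e000000040000003e000000f4 5 8) 0 0 (step_sound _ 97 [(rh3244c3cc8379b070.shift 0 3), (rha5278ed83dd9694e.shift 1 0)] (by decide +kernel))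
noncomputable def rh14ab3a74ae069c9a : CRef := CRef.mk (Pat.mk 0x38000000080000003800000060 0x40000000f0000007c0000000800000038000001e8 5 9) 0 0 (step_sound _ 7 [rh688228c9ae2f6eca, (rhf48373e13d2bc128.shift 4 0)] (by decide +kernel))
noncomputable def rh0bf45180b3afe24d : CRef := CRef.mk (Pat.mk 0x2800000028000000280000002800000000 0x1000000038000000280000007c0000002f00000004 5 7) 0 0 (step_sound _ 132 [(rh50fbb5868c909700.shift 4 1), rhc8fd50c44a2112a0] (by decide +kernel))
noncomputable def rhf7497dc7ba4b5c28 : CRef := CRef.mk (Pat.mk 0x28000000280000002800000020 0x40000001f0000007c000000280000002800000028 5 7) 0 0 (step_sound _ 100 [(rh50fbb5868c909700.shift 4 0), rh688228c9ae2f6eca] (by decide +kernel))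
noncomputable def rhda2fb1cb5de1ff1c : CRef := CRef.mk (Pat.mk 0xa0000000a0000000a0000000800000000 0x20000000a0000000a0000001f0000007c00000004 5 7) 0 0 (step_sound _ 34 [(rh932754581e0f4330.shift 2 0), (rh9a426fb5a7f5d0e8.shift 0 1)] (by decide +kernel))
noncomputable def rhca453784ef4f3c8c : CRef := CRef.mk (Pat.mk 0x40000000400000018000000180000000000000000 0x400000004000000040000001f0000001f0000000200000002 5 5) 0 0 (step_sound _ 98 [(rh2145e1d24b96a57e.shift 2 2), rh72daaa274feb6686] (by decide +kernel))
noncomputable def rh5fd7f69c42abe3c9 : CRef := CRef.mk (Pat.mk 0x28000000280000002000000010 0x28000000280000002f0000007c00000010 5 7) 0 0 (step_sound _ 36 [(rh5c5e593799055d58.shift 4 0), rh68369413e321f539] (by decide +kernel))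
noncomputable def rh1cfa8e038e2f7eb2 : CRef := CRef.mk (Pat.mk 0x280000002800000020000000000000000000000000 0x100000007c0000002f00000020000000700000007000000050 5 7) 0 0 (step_sound _ 69 [(rh8cdd36b03d57a2f6.shift 4 0), (rha51f537e042fce54.shift 0 2)] (by decide +kernel))
noncomputable def rh2b829fc43539fe53 : CRef := CRef.mk (Pat.mk 0xa0000000a00000008000000000000000000000000 0x140000001e0000000b000000080000001c0000001c00000014 5 5) 0 0 (step_sound _ 67 [(rh8cdd36b03d57a2f6.shift 2 0), (rh9258736a7488cc35.shift 0 2)] (by decide +kernel))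
noncomputable def rh28b2f8835f2163cd : CRef := CRef.mk (Pat.mk 0x1000000014000000140000001800000000 0x1400000014000000160000003e00000027 5 6) 0 0 (step_sound _ 37 [(rh55afc6a59410cf00.shift 4 0), rh82cbe8aa729508e4] (by decide +kernel))
noncomputable def rhf60360c0d4215ec0 : CRef := CRef.mk (Pat.mk 0x200000006000000120000000000000000 0x600000006000000060000001e0000000700000007 5 5) 0 0 (step_sound _ 33 [rh699c9c97b73f58ec, (rha707fb719e87fe6e.shift 1 0)] (by decide +kernel))
noncomputable def rh8bb330ee5aea9f6b : CRef := CRef.mk (Pat.mk 0x20000001c000000000000000000000000 0x2000000030000003e000000070000000400000004 5 6) 0 0 (step_sound _ 97 [(rh3244c3cc8379b070.shift 0 3), rh44afbb496b7a3d6b] (by decide +kernel))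
noncomputable def rh98f41a9712e44987 : CRef := CRef.mk (Pat.mk 0x1e00000002000000140000000000000000 0x30000001e000000020000001f0000000700000001 5 5) 0 0 (step_sound _ 161 [(rh3244c3cc8379b070.shift 0 4), rh3cd11341cd3f7ff5] (by decide +kernel))
noncomputable def rhda2b60972d57e21b : CRef := CRef.mk (Pat.mk 0x1800000008000000280000000000000000 0x1000000018000000080000007c0000000f00000004 5 7) 0 0 (step_sound _ 35 [(rh2f68792b6b779e96.shift 3 1), rhc8fd50c44a2112a0] (by decide +kernel))
noncomputable def rhc4b38bd1b2cdf635 : CRef := CRef.mk (Pat.mk 0xc000000080000000a0000000000000000 0x40000000c000000080000001f0000007800000010 5 7) 0 0 (step_sound _ 35 [(rh50fbb5868c909700.shift 2 1), rhc486ae0fcc44be52] (by decide +kernel))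
noncomputable def rhb1688bf6da1a7843 : CRef := CRef.mk (Pat.mk 0x1c000000100000001000000000 0x670000003e000000170000001000000010 5 7) 0 0 (step_sound _ 101 [(rh775ca1963e850b80.shift 0 2), (rhd4d36b4007f546b1.shift 2 0)] (by decide +kernel))
noncomputable def rh43414acb434b2d81 : CRef := CRef.mk (Pat.mk 0x20000000600000002000000000000000000000000 0x400000006000000060000000600000006000000070000000700000005 5 3) 0 0 (step_sound _ 65 [rh6eff4158bb400f47, (rha707fb719e87fe6e.shift 1 1), (rhced6d86d2069808b.shift 1 1)] (by decide +kernel))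
noncomputable def rhcf6c56bff34c5cb5 : CRef := CRef.mk (Pat.mk 0x10000000000000001c0000001c0000000000000000 0x180000001e0000000f0000001c0000001c0000000c0000000c 5 5) 0 0 (step_sound _ 131 [(rh37d9ceebb86d75d1.shift 2 1), (rh82bd946b1709a78e.shift 3 2), rh8f13d5d6e6df802a] (by decide +kernel))
noncomputable def rh55f6bc4d69c1947b : CRef := CRef.mk (Pat.mk 0x40000000f800000000 0x67000000fe00000038 5 8) 0 0 (step_sound _ 34 [(rh428265de8cd3cd2d.shift 2 1), rhc980ea7e6060b9d2] (by decide +kernel))
noncomputable def rhe809f32eb9c43c69 : CRef := CRef.mk (Pat.mk 0x1000000038000000080000002000000000 0x10000000780000000f0000007c00000008 5 7) 0 0 (step_sound _ 66 [(rh18965a982d73c794.shift 2 2), rh666e4a2ed1e26534] (by decide +kernel))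
noncomputable def rh1d65bb0a35b59d5d : CRef := CRef.mk (Pat.mk 0xe000000080000000800000000 0x770000003e000000080000000800000008 5 7) 0 0 (step_sound _ 100 [(rh261f868a429ae0e3.shift 2 0), (rh56a24c72f1c55520.shift 0 3), rhc6bd36cea86c6c63, (rhd4d36b4007f546b1.shift 1 0)] (by decide +kernel))
noncomputable def rh2ad1eb9d76589cfb : CRef := CRef.mk (Pat.mk 0x10000000000000008000000080000000800000008 0x40000001f0000001c00000018000000080000000800000008 5 5) 0 0 (step_sound _ 132 [(rh53d1fdb8fd6cc20f.shift 0 1), (rhbaefcd01e0a8bca3.shift 3 0)] (by decide +kernel))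
noncomputable def rhdd56b8ba9f8186e7 : CRef := CRef.mk (Pat.mk 0x3c0000002000000020 0x400000004000000070000007e0000003c00000068 5 7) 0 0 (step_sound _ 34 [(rh6ca1648626227d49.shift 1 0), (rhd1d05263fabc0227.shift 0 1), (rhef50fe823a140c7d.shift 1 0)] (by decide +kernel))
noncomputable def rhfed24f5160a9e29e : CRef := CRef.mk (Pat.mk 0xc0000000800000008000000020000000000000000 0x40000000c00000008000000080000001f0000001c00000010 5 5) 0 0 (step_sound _ 67 [(rh50fbb5868c909700.shift 2 2), rhd8c37efe07b158de] (by decide +kernel))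
noncomputable def rhe45100d055fdd767 : CRef := CRef.mk (Pat.mk 0x4000000080000000800000008000000020000000000000000 0x40000000c00000008000000080000001f0000001c00000010 5 5) 0 0 (step_sound _ 67 [rhd8c37efe07b158de, (rhffd04209dc8ea796.shift 2 2)] (by decide +kernel))
noncomputable def rhf598e23487d34ab3 : CRef := CRef.mk (Pat.mk 0x7c00000000 0x38000000ff00000007 5 8) 0 0 (step_sound _ 1 [(rh80fcd6d0a18cb2dd.shift 1 0), rhcd1c1133d5a7e55c] (by decide +kernel))
noncomputable def rhf53978444c3034c3 : CRef := CRef.mk (Pat.mk 0x40000000e0000000c00000000 0x200000002000000770000007e0000000c00000004 5 7) 0 0 (step_sound _ 97 [(rh546551bfa61a8651.shift 0 1), (rhfc7c29d8e65d775f.shift 1 0)] (by decide +kernel))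
noncomputable def rhf5b44d004e0bdf54 : CRef := CRef.mk (Pat.mk 0x1000000018000000380000000000000000 0xc0000000c0000001c00000018000000380000001f0000000c 5 6) 0 0 (step_sound _ 35 [(rh71222050f2c63a3a.shift 3 0), rh779f81b5d898c236] (by decide +kernel))
noncomputable def rhec07b154fd1381ba : CRef := CRef.mk (Pat.mk 0xc000000170000000400000000 0x800000008000000180000003c000000170000003e00000010 5 6) 0 0 (step_sound _ 100 [(rh18965a982d73c794.shift 1 2), rhed837c80b955e6c0] (by decide +kernel))
noncomputable def rh88436902e0a0e2df : CRef := CRef.mk (Pat.mk 0x6000000020000001e0000000a 0x1000000130000001f000000320000001e0000000a 5 6) 0 0 (step_sound _ 68 [(rh33e738c4ed385b9f.shift 1 1), rhf11e5e44f310b79a] (by decide +kernel))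
noncomputable def rh9dd780c15a65806b : CRef := CRef.mk (Pat.mk 0x1c0000001000000010 0x800000008000000ef0000007e0000001f00000010 5 8) 0 0 (step_sound _ 69 [(rh3b00e9e9432b8f40.shift 1 1), (rh592c7139d2c44767.shift 0 1), (rhc3bb0f1b2af200a9.shift 1 0)] (by decide +kernel))
noncomputable def rhcaf13074474f34c3 : CRef := CRef.mk (Pat.mk 0x20000000600000002000000020000000000000000 0x2000000020000000600000006000000070000000700000003 5 3) 0 0 (step_sound _ 66 [(rh55afc6a59410cf00.shift 1 1), rheb6185a3cf95fec2] (by decide +kernel))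
noncomputable def rhfab3810acd859de0 : CRef := CRef.mk (Pat.mk 0xf00000008000000020000000600000000 0x180000000f000000080000001f0000001e00000010 5 5) 0 0 (step_sound _ 163 [(rh33e738c4ed385b9f.shift 0 4), rh7e45d100b9a5bd3d] (by decide +kernel))
noncomputable def rh74f48645dd37c94b : CRef := CRef.mk (Pat.mk 0x3c00000010 0x7000000ff0000001c 5 8) 0 0 (step_sound _ 65 [(rh3f8766e6ecb455ce.shift 1 1), rh4a67a3dfce14aa56] (by decide +kernel))
noncomputable def rh4656edcd6b6fd1bd : CRef := CRef.mk (Pat.mk 0x20000000f00000000 0x7e0000003f00000070 5 7) 0 0 (step_sound _ 36 [(rh2aac33c566332a8c.shift 1 0), (rh3fc3a7fb6866dcd4.shift 1 0), (rh9890f9d77740bbed.shift 0 1)] (by decide +kernel))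
noncomputable def rh504dd501578bf149 : CRef := CRef.mk (Pat.mk 0x1000000038000000280000000800000000 0x10000000780000002f0000007c00000020 5 7) 0 0 (step_sound _ 37 [(rh7b1f1fb55310c477.shift 4 0), (rhc3308e1e57f6856f.shift 0 1)] (by decide +kernel))
noncomputable def rhe445e3c8843379de : CRef := CRef.mk (Pat.mk 0x1c000000100000001000000000 0x670000003e000000170000001000000010 5 7) 0 0 (step_sound _ 101 [(rh592c7139d2c44767.shift 0 2), (rhd4d36b4007f546b1.shift 2 0)] (by decide +kernel))
noncomputable def rhe4c7949e3152959b : CRef := CRef.mk (Pat.mk 0x90000000900000009000000080000000000000000 0x9000000090000000f0000001f0000001200000002 5 5) 0 0 (step_sound _ 68 [(rh55afc6a59410cf00.shift 3 1), rhd3f6b0657da18a36] (by decide +kernel))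
noncomputable def rhabe060634d1463d3 : CRef := CRef.mk (Pat.mk 0x20000000200000002000000000000000000000000 0x100000003000000030000000300000003000000070000000700000005 5 3) 0 0 (step_sound _ 65 [(rh771d065bdc85bf2d.shift 0 1), rh8cdd36b03d57a2f6, rh8ff3dde5b1c639e0] (by decide +kernel))
noncomputable def rhc49c5b0433bad702 : CRef := CRef.mk (Pat.mk 0x20000000200000002000000000000000000000000 0x500000007000000070000000200000003000000070000000700000005 5 3) 0 0 (step_sound _ 65 [(rh771d065bdc85bf2d.shift 0 1), rh8cdd36b03d57a2f6, (rhc85cc95794737cf7.shift 0 2)] (by decide +kernel))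
noncomputable def rhff8326e31a7c12c8 : CRef := CRef.mk (Pat.mk 0x3400000020 0x70000003e00000067 5 7) 0 0 (step_sound _ 35 [rh592c7139d2c44767, (rhe25b0a99195a5d59.shift 2 0)] (by decide +kernel))
noncomputable def rhcaa2c1a05e34bcba : CRef := CRef.mk (Pat.mk 0x20000000200000003000000020000000000000000 0x600000006000000070000000300000003000000020000000200000002 5 3) 0 0 (step_sound _ 194 [rh86037c85ad04cdf9, (rhbaefcd01e0a8bca3.shift 1 2)] (by decide +kernel))
noncomputable def rhc46d75697d95630c : CRef := CRef.mk (Pat.mk 0x78000000180000000000000008 0xc70000007f000000380000000800000008 5 8) 0 0 (step_sound _ 134 [(rh33e738c4ed385b9f.shift 3 3), rh5ad181578d8e6357] (by decide +kernel))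
noncomputable def rh5f452f890cbd7cd4 : CRef := CRef.mk (Pat.mk 0x200000002000000020000000000000000 0x500000007000000070000000600000003000000030000000300000001 5 3) 0 0 (step_sound _ 161 [(rh20966da26a1c2ae8.shift 0 1), (rh771d065bdc85bf2d.shift 0 1), (rhc85cc95794737cf7.shift 0 2), rhcab3157f7bdcba3e] (by decide +kernel))
noncomputable def rh8d89c67429283111 : CRef := CRef.mk (Pat.mk 0x18000000120000001000000010 0x270000003e000000170000001000000010 5 6) 0 0 (step_sound _ 101 [(rh2f68792b6b779e96.shift 4 0), (rh9f9dcaefc8da8d65.shift 0 2)] (by decide +kernel))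
noncomputable def rh3df1c703e1be13a8 : CRef := CRef.mk (Pat.mk 0x200000002000000030000000800000000 0x5000000070000000700000002000000030000001e00000004 5 5) 0 0 (step_sound _ 33 [(rh1741680720c097b4.shift 0 1), rh6a56790be92093bf] (by decide +kernel))
noncomputable def rh1e6400bd70fa042e : CRef := CRef.mk (Pat.mk 0x200000002000000020000000000000000 0x500000007000000070000000300000003000000030000000300000001 5 3) 0 0 (step_sound _ 161 [(rh20966da26a1c2ae8.shift 0 1), rhc4526fc8abf298b6, (rhc85cc95794737cf7.shift 0 2)] (by decide +kernel))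
noncomputable def rh1d8ef35c5709b6d3 : CRef := CRef.mk (Pat.mk 0x200000002000000020000000000000000 0x500000007000000070000000300000002000000070000000700000005 5 3) 0 0 (step_sound _ 161 [rh8cdd36b03d57a2f6, rhc4526fc8abf298b6, (rhc85cc95794737cf7.shift 0 2)] (by decide +kernel))
noncomputable def rh2b75b59b91c70173 : CRef := CRef.mk (Pat.mk 0x200000003400000000 0x670000003e00000007 5 7) 0 0 (step_sound _ 35 [(rh33e738c4ed385b9f.shift 2 1), rh775ca1963e850b80] (by decide +kernel))
noncomputable def rh0fdfb57f6d06f1dd : CRef := CRef.mk (Pat.mk 0x800000000000000180000007800000000 0x800000008000000380000007f000000c7 5 8) 0 0 (step_sound _ 6 [(rhe25b0a99195a5d59.shift 3 0), rhfc39f041bb105480] (by decide +kernel))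
noncomputable def rhbce4ce20abb4e41c : CRef := CRef.mk (Pat.mk 0x1000000010000000120000001800000000 0x1000000010000000170000003e00000027 5 6) 0 0 (step_sound _ 37 [(rh55afc6a59410cf00.shift 4 0), rh876086c78aa9d0e6] (by decide +kernel))
noncomputable def rh54808b4dc6579a6d : CRef := CRef.mk (Pat.mk 0x80000000300000002000000020000000000000000 0x40000001e0000000300000002000000070000000700000005 5 5) 0 0 (step_sound _ 161 [rh6eff4158bb400f47, (rh8797c67fe3ac847a.shift 0 2)] (by decide +kernel))
noncomputable def rhf1a6462906e823e9 : CRef := CRef.mk (Pat.mk 0x3c00000010000000080000000000000000 0x40000003f0000001f000000080000000800000008 5 6) 0 0 (step_sound _ 97 [rh7e712a940a071591, (rh80fcd6d0a18cb2dd.shift 1 3)] (by decide +kernel))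
noncomputable def rhadc58f335021d7cb : CRef := CRef.mk (Pat.mk 0x1c00000040 0x770000003e00000060 5 7) 0 0 (step_sound _ 37 [(rh4c622fddc53a5f99.shift 0 1), (rh96851dee118c1ba3.shift 2 0)] (by decide +kernel))
noncomputable def rh1894f2ed4500f242 : CRef := CRef.mk (Pat.mk 0x1c00000040 0x700000003e00000067 5 7) 0 0 (step_sound _ 37 [rh7654d7b92c96fe12, (rh96851dee118c1ba3.shift 2 0)] (by decide +kernel))
noncomputable def rh97d83a53b7724a07 : CRef := CRef.mk (Pat.mk 0x1c0000001800000004 0x2000000030000003f0000001f00000004 5 6) 0 0 (step_sound _ 65 [rh9aa138e5ed752369, (rhb739f4f82bb681b4.shift 0 1)] (by decide +kernel))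
noncomputable def rhd83d09f3c6280def : CRef := CRef.mk (Pat.mk 0xe000000080000000c 0x1000000012000000330000003e0000001f0000000c 5 6) 0 0 (step_sound _ 68 [(rh94246470f0e6fdf7.shift 1 0), rh9aa138e5ed752369] (by decide +kernel))
noncomputable def rhc41618070c712993 : CRef := CRef.mk (Pat.mk 0x1000000002000000020000000200000002 0x1000000070000001f00000006000000020000000200000002 5 5) 0 0 (step_sound _ 130 [(rh6101fe544e2241cc.shift 0 1), (rhbaefcd01e0a8bca3.shift 1 0)] (by decide +kernel))
noncomputable def rh5bdb5a63b3b61781 : CRef := CRef.mk (Pat.mk 0x3800000010000000000000000a 0x70000003e000000770000000e0000000a 5 7) 0 0 (step_sound _ 98 [(rh6550be38bfd67d88.shift 1 0), (rh775ca1963e850b80.shift 0 2), (rha03f6e28ea70fc7d.shift 1 2)] (by decide +kernel))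
noncomputable def rh10d64b2efa68a36f : CRef := CRef.mk (Pat.mk 0x2000000030000001a00000000000000000000000000000000 0x100000003000000030000001b0000000f000000070000000700000004 5 5) 0 0 (step_sound _ 97 [(rh36e6bb6cca6188da.shift 0 2), (rh8cdd36b03d57a2f6.shift 0 1), rhd1779d7de7f8215b, (rhe286c75f2739cce2.shift 0 2)] (by decide +kernel))
noncomputable def rhe760af5cb6b0f988 : CRef := CRef.mk (Pat.mk 0x300000001a000000080000001800000000 0x4000000040000000f0000003f0000001b000000080000001800000010 5 6) 0 0 (step_sound _ 131 [(rh55afc6a59410cf00.shift 3 0), (rh9d841b7cb789126b.shift 0 2)] (by decide +kernel))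
noncomputable def rha6f802784adb25e2 : CRef := CRef.mk (Pat.mk 0x1800000018000000180000000000000000 0x18000000180000007c0000000f0000000c 5 7) 0 0 (step_sound _ 35 [(rh71222050f2c63a3a.shift 3 0), rh80650b8e93363f1e] (by decide +kernel))
noncomputable def rh4a8d7897815ccea4 : CRef := CRef.mk (Pat.mk 0x8000000080000000b000000000000000000000000 0x100000001800000018000000080000000f0000001c0000001c00000014 5 5) 0 0 (step_sound _ 67 [(rh20966da26a1c2ae8.shift 2 1), (rh5f11ee373cbffcaa.shift 0 1), (rh8cdd36b03d57a2f6.shift 2 0)] (by decide +kernel))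
noncomputable def rhbba60a05fb0c46a0 : CRef := CRef.mk (Pat.mk 0x8000000080000000b0000000000000000 0x140000001c0000001c00000008000000080000001f0000001800000010 5 5) 0 0 (step_sound _ 163 [(rh1741680720c097b4.shift 2 2), rhd8fc2fe14131b89c] (by decide +kernel))
noncomputable def rh367c4143e5a63119 : CRef := CRef.mk (Pat.mk 0xb0000000b0000000200000000 0x40000001c0000001f0000000b0000001e0000000c 5 5) 0 0 (step_sound _ 98 [(rh18965a982d73c794.shift 0 2), rh99a8f12009454ac4] (by decide +kernel))
noncomputable def rh172c452e5d13a21a : CRef := CRef.mk (Pat.mk 0xb00000008000000080000000000000000 0x140000001c0000001c0000000f00000008000000180000001800000010 5 5) 0 0 (step_sound _ 163 [(rh1741680720c097b4.shift 2 2), (rh8ff3dde5b1c639e0.shift 2 0), (rhddcd04bb31546311.shift 0 2)] (by decide +kernel))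
noncomputable def rhc2c0f24096bccdca : CRef := CRef.mk (Pat.mk 0x200000002000000020000000000000000 0x500000007000000070000000200000006000000070000000700000005 5 3) 0 0 (step_sound _ 161 [(rh1741680720c097b4.shift 0 2), (rh5abfc4c9d959be03.shift 0 1), rh6eff4158bb400f47, (rhced6d86d2069808b.shift 1 1)] (by decide +kernel))
noncomputable def rh6453855276b3cfdd : CRef := CRef.mk (Pat.mk 0x4000000080000000b0000000a0000000a00000008 0x50000000f000000190000001b0000000b0000000a00000008 5 5) 0 0 (step_sound _ 163 [rh376230f213e9a1a9, (rh50fbb5868c909700.shift 2 2)] (by decide +kernel))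
noncomputable def rh7f75c84896af440f : CRef := CRef.mk (Pat.mk 0xc000000080000000b0000000a00000002 0x10000000190000001f000000090000000b0000000b00000002 5 5) 0 0 (step_sound _ 164 [rhac8af6503ea94777, (rhbaefcd01e0a8bca3.shift 3 1)] (by decide +kernel))
noncomputable def rh5c2604daa0330ae7 : CRef := CRef.mk (Pat.mk 0x200000002000000020000000200000000 0x5000000070000000700000002000000020000000600000004 5 3) 0 0 (step_sound _ 34 [(rh1741680720c097b4.shift 0 1), (rh55afc6a59410cf00.shift 1 0)] (by decide +kernel))
noncomputable def rhb2057938e92e7d47 : CRef := CRef.mk (Pat.mk 0xa0000000a0000000800000000 0x14000000140000003c0000001e0000000b0000000800000008 5 6) 0 0 (step_sound _ 98 [(rh0aefef67a4f5e36d.shift 0 1), rh5bc090164f229948, (rhd01ed0cc6ce530d4.shift 1 0)] (by decide +kernel))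
noncomputable def rhbdce13b1f10ed42c : CRef := CRef.mk (Pat.mk 0xb0000000800000008000000000000000000000000 0x10000000180000001f00000008000000180000001c0000001c00000014 5 5) 0 0 (step_sound _ 67 [(rh8cdd36b03d57a2f6.shift 2 0), (rhced6d86d2069808b.shift 3 1), (rhd444dcb48ef11957.shift 0 2)] (by decide +kernel))
noncomputable def rh7448f9cefc0787ad : CRef := CRef.mk (Pat.mk 0x20000000200000002000000000000000000000000 0x500000007000000070000000200000006000000070000000700000005 5 3) 0 0 (step_sound _ 65 [(rh1741680720c097b4.shift 0 2), (rh7eb4a07d72ad7934.shift 0 1), rh8cdd36b03d57a2f6] (by decide +kernel))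
noncomputable def rhe3a0397bc25c036f : CRef := CRef.mk (Pat.mk 0x120000001b000000180000000000000000 0x8000000080000001e0000001b0000001c0000000c0000000c 5 5) 0 0 (step_sound _ 131 [(rh29e0362802793f45.shift 2 0), (rhb2a0b9ccfb5cecd5.shift 0 3)] (by decide +kernel))
noncomputable def rh0f485aa1343c40a5 : CRef := CRef.mk (Pat.mk 0x1200000003000000180000000000000000 0x50000001f000000030000001e0000000200000002 5 5) 0 0 (step_sound _ 130 [(rh361cc68994bd8a63.shift 0 3), rhdd26ee9b6b0f1580] (by decide +kernel))
noncomputable def rh704dac8eb83cb258 : CRef := CRef.mk (Pat.mk 0x600000003000000100000000000000000 0x20000000700000007000000030000001f0000000700000002 5 5) 0 0 (step_sound _ 65 [rh000637b5a81e86aa, (rh12452934acb847d5.shift 0 1)] (by decide +kernel))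
noncomputable def rh7dfb6563d40d6241 : CRef := CRef.mk (Pat.mk 0x200000003000000120000000000000000 0x300000003000000030000001e0000000600000006 5 5) 0 0 (step_sound _ 66 [(rh2fe78cc5ca4405d8.shift 0 2), rh481b2be359ac66f8] (by decide +kernel))
noncomputable def rhb27c850f34540d49 : CRef := CRef.mk (Pat.mk 0x70000000200000000000000010 0xf000000fe000000fe0000001000000010 5 8) 0 0 (step_sound _ 99 [(rh12a4aa43a438d841.shift 2 0), (rh775ca1963e850b80.shift 1 2), (rha03f6e28ea70fc7d.shift 2 2), (rhb2afcb5db661472f.shift 0 2)] (by decide +kernel))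
noncomputable def rh10e19c4a59f04b1a : CRef := CRef.mk (Pat.mk 0x2000000020000000300000002 0x5000000070000000700000003000000030000000300000002 5 3) 0 0 (step_sound _ 129 [(rh1741680720c097b4.shift 0 1), rh3ca48e2a6d60153d, (rh9a369cb82ea472da.shift 0 1), (rhe62cab2ff5ad6fe2.shift 0 1)] (by decide +kernel))
noncomputable def rhf54e6cdeb4f6531a : CRef := CRef.mk (Pat.mk 0x8000000180000000e0000000800000000 0x60000000f0000001e0000000e0000000c00000004 5 5) 0 0 (step_sound _ 130 [rh1b78ef1451a464c3, (rh50fbb5868c909700.shift 2 1)] (by decide +kernel))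
noncomputable def rh97173829eca70163 : CRef := CRef.mk (Pat.mk 0x2000000030000000200000000000000000000000000000000 0x30000000300000003000000030000000300000007000000070000000700000004 5 3) 0 0 (step_sound _ 97 [(rh79bf920132cab629.shift 0 3), (rh8cdd36b03d57a2f6.shift 0 1), rhd1779d7de7f8215b, (rhe286c75f2739cce2.shift 0 2)] (by decide +kernel))
noncomputable def rh27606828f2b15878 : CRef := CRef.mk (Pat.mk 0x8000000100000003c00000000 0x800000008000000080000001f0000003f00000004 5 6) 0 0 (step_sound _ 65 [(rh3f8766e6ecb455ce.shift 1 1), rh4879f6181e9312ea] (by decide +kernel))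
noncomputable def rhefb19ffaaa7a0748 : CRef := CRef.mk (Pat.mk 0x400000001c00000000 0x600000003e00000077 5 7) 0 0 (step_sound _ 37 [rh185f35b8bd8ec37f, (rh428265de8cd3cd2d.shift 2 1)] (by decide +kernel))
noncomputable def rh3d4bb710c6f26f04 : CRef := CRef.mk (Pat.mk 0x400000001c00000000 0x670000003e00000070 5 7) 0 0 (step_sound _ 37 [(rh428265de8cd3cd2d.shift 2 1), rh9c548838e8725ba1] (by decide +kernel))
noncomputable def rhcb5b53cf0ad40bfd : CRef := CRef.mk (Pat.mk 0x4000000180000001c0000000000000000 0x40000001f0000003f0000000300000002 5 6) 0 0 (step_sound _ 65 [(rh53b3c253cb0c65f4.shift 0 2), rhc4658766f200b447] (by decide +kernel))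
noncomputable def rh7a3ca161ad4117a3 : CRef := CRef.mk (Pat.mk 0xc000000080000000e000000000000000000000000 0xc0000001f0000003e000000330000001200000010 5 6) 0 0 (step_sound _ 100 [(rhc4658766f200b447.shift 0 1), (rhd132b680030c88e0.shift 1 0)] (by decide +kernel))
noncomputable def rh769c4338c227ba0a : CRef := CRef.mk (Pat.mk 0x60000000000000002000000020000000000000000 0x4000000060000000200000002000000070000000700000005 5 3) 0 0 (step_sound _ 129 [(rh2f68792b6b779e96.shift 1 2), rh8cdd36b03d57a2f6] (by decide +kernel))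
noncomputable def rhc53a9b8a9e1696cf : CRef := CRef.mk (Pat.mk 0xa00000000000000100000003800000000 0xa0000000e000000770000003e00000007 5 7) 0 0 (step_sound _ 34 [(rh32d6d5f30900c50f.shift 1 0), rh592c7139d2c44767, (rhec46bd5500c722c9.shift 1 1)] (by decide +kernel))
noncomputable def rhebc3800b446b6af8 : CRef := CRef.mk (Pat.mk 0x1a000000030000000200000000 0x400000007000000070000000f0000001b000000030000000300000001 5 5) 0 0 (step_sound _ 129 [rh03dfdf12d5937476, (rh330a005829cdd297.shift 0 1), (rh7a7e08304268422e.shift 0 1), (rhc85cc95794737cf7.shift 0 1)] (by decide +kernel))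
noncomputable def rhca106f645f07538a : CRef := CRef.mk (Pat.mk 0x18000000080000001a00000030000000000000000000000000 0x1000000018000000080000001b0000003f0000000f0000000400000004 5 6) 0 0 (step_sound _ 99 [(rh2f68792b6b779e96.shift 3 3), rhcc201a0d2a0e1fad] (by decide +kernel))
noncomputable def rh7ea56b2bf7210d79 : CRef := CRef.mk (Pat.mk 0x8000000080000000800000008000000000000000100000000 0x80000000800000008000000180000001c0000001f00000004 5 5) 0 0 (step_sound _ 68 [rhc728c761ae7f7ea7, (rhd3458b32566d63f7.shift 3 2)] (by decide +kernel))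
noncomputable def rhb47636cd7eaaed4f : CRef := CRef.mk (Pat.mk 0xb00000008000000080000000000000000 0x140000001c0000001c0000000f00000008000000180000001800000010 5 5) 0 0 (step_sound _ 163 [(rh8ff3dde5b1c639e0.shift 2 0), (rhc85cc95794737cf7.shift 2 2), (rhddcd04bb31546311.shift 0 2)] (by decide +kernel))
noncomputable def rhd03d0c8aad655629 : CRef := CRef.mk (Pat.mk 0x200000002000000020000000000000000 0x500000007000000070000000700000002000000060000000600000004 5 3) 0 0 (step_sound _ 161 [(rh6c59ce14113da07f.shift 1 0), rh8ff3dde5b1c639e0, (rhc85cc95794737cf7.shift 0 2)] (by decide +kernel))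
noncomputable def rh8062e0b2b3b80ab1 : CRef := CRef.mk (Pat.mk 0xb0000000800000008000000000000000000000000 0x10000000180000001f00000008000000080000001c0000001c00000014 5 5) 0 0 (step_sound _ 67 [(rh6eff4158bb400f47.shift 2 0), (rhd444dcb48ef11957.shift 0 2)] (by decide +kernel))
noncomputable def rh4a3ba4a889b0aa0d : CRef := CRef.mk (Pat.mk 0x20000000b0000000b0000000000000000 0xc0000001e0000000b0000001f0000001c00000004 5 5) 0 0 (step_sound _ 66 [rh9006c400766e5336, (rhf48373e13d2bc128.shift 0 2)] (by decide +kernel))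
noncomputable def rhd21e8935ac9bdb76 : CRef := CRef.mk (Pat.mk 0x8000000080000000b000000000000000000000000 0x100000001800000018000000080000000f0000001c0000001c00000014 5 5) 0 0 (step_sound _ 67 [(rh20966da26a1c2ae8.shift 2 1), (rh5f11ee373cbffcaa.shift 0 1), (rh6eff4158bb400f47.shift 2 0)] (by decide +kernel))
noncomputable def rh59b11acd61470a21 : CRef := CRef.mk (Pat.mk 0x20000000200000002000000000000000000000000 0x500000007000000070000000600000002000000070000000700000005 5 3) 0 0 (step_sound _ 65 [(rh1741680720c097b4.shift 0 2), (rh6c59ce14113da07f.shift 1 0), rh6eff4158bb400f47, rhcab3157f7bdcba3e] (by decide +kernel))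
noncomputable def rhc52b442705af957f : CRef := CRef.mk (Pat.mk 0x80000000a0000000a0000000b000000080000000400000000 0x80000000a0000000b0000001b000000190000000f00000005 5 5) 0 0 (step_sound _ 35 [rh6a2e1aa217dd7cc7, (rh932754581e0f4330.shift 2 0)] (by decide +kernel))
noncomputable def rhb6bee2ce3ee5b7cc : CRef := CRef.mk (Pat.mk 0x20000000a0000000b000000080000000c0000000000000000 0x20000000b0000000b000000090000001f0000001900000010 5 5) 0 0 (step_sound _ 36 [rh8c034964301cf751, (rhd3458b32566d63f7.shift 3 1)] (by decide +kernel))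
noncomputable def rh4a38b3b3b5efb383 : CRef := CRef.mk (Pat.mk 0x20000000200000002000000020000000000000000 0x4000000060000000200000002000000070000000700000005 5 3) 0 0 (step_sound _ 162 [(rh2f68792b6b779e96.shift 1 2), rh6eff4158bb400f47] (by decide +kernel))
noncomputable def rh5021f0ed06b32c6c : CRef := CRef.mk (Pat.mk 0x80000000a0000000a000000000000000000000000 0x8000000080000000b0000001e0000003c0000001400000014 5 6) 0 0 (step_sound _ 98 [(rh299a18a9bb09cab4.shift 0 2), rh2d71bfb3e5699952, (rh86bdd6388b8581ae.shift 1 0)] (by decide +kernel))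
noncomputable def rh3db5f7178a0e5bc6 : CRef := CRef.mk (Pat.mk 0x8000000080000000b0000000000000000 0x140000001c0000001c00000018000000080000001f0000001800000010 5 5) 0 0 (step_sound _ 163 [(rh6c59ce14113da07f.shift 3 0), (rhc85cc95794737cf7.shift 2 2), rhd8fc2fe14131b89c] (by decide +kernel))
noncomputable def rh61ee5ba52d1904f1 : CRef := CRef.mk (Pat.mk 0x200000002000000020000000000000000 0x500000007000000070000000600000002000000070000000700000005 5 3) 0 0 (step_sound _ 161 [rh367118e0bf0473e0, rh6eff4158bb400f47, (rhc85cc95794737cf7.shift 0 2)] (by decide +kernel))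
noncomputable def rh044f4d195f658110 : CRef := CRef.mk (Pat.mk 0x180000001b000000120000000000000000 0xc0000000c0000001c0000001b0000001e0000000800000008 5 5) 0 0 (step_sound _ 67 [(rh5419adcd928dba20.shift 0 2), (rhb6428504fe0baec6.shift 2 0)] (by decide +kernel))
noncomputable def rh6549222ce8036037 : CRef := CRef.mk (Pat.mk 0x18000000030000001200000000 0x2000000020000001e000000030000001f00000005 5 5) 0 0 (step_sound _ 34 [(rh2fe78cc5ca4405d8.shift 0 1), rhbd8f4f101439cb64] (by decide +kernel))
noncomputable def rh594a65e029332e91 : CRef := CRef.mk (Pat.mk 0x1000000003000000060000000000000000 0x2000000070000001f00000003000000070000000700000002 5 5) 0 0 (step_sound _ 129 [(rhb23658ecdd7ce5df.shift 0 1), rhc47fe1bc6b175f77] (by decide +kernel))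
noncomputable def rh1d7913ad4aba122e : CRef := CRef.mk (Pat.mk 0x12000000030000000200000000 0x6000000060000001e000000030000000300000003 5 5) 0 0 (step_sound _ 98 [(rh361cc68994bd8a63.shift 0 2), rhbfcaf333e353a827] (by decide +kernel))
noncomputable def rh1d9fee90fc307654 : CRef := CRef.mk (Pat.mk 0x1000000000000000200000007000000000 0x1000000010000000fe000000fe0000000f 5 8) 0 0 (step_sound _ 35 [(rh04d7e19c993f8872.shift 2 0), (rh592c7139d2c44767.shift 1 0), rhb103f40a53fe1424, (rhec46bd5500c722c9.shift 2 1)] (by decide +kernel))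
noncomputable def rh697eeeab831b09b3 : CRef := CRef.mk (Pat.mk 0x2000000030000000200000002000000000000000000000000 0x2000000030000000300000003000000070000000700000005 5 3) 0 0 (step_sound _ 65 [rh6eff4158bb400f47, (rh7928877f9bf74a91.shift 0 1), rha613ffd40b6c9d24, rhe4441baab75a6f73] (by decide +kernel))
noncomputable def rhdd300e2c6de2e7d6 : CRef := CRef.mk (Pat.mk 0x200000003000000020000000000000000 0x40000000700000007000000070000000300000003000000030000000300000003 5 3) 0 0 (step_sound _ 161 [(rh03dfdf12d5937476.shift 0 1), (rh7a7e08304268422e.shift 0 2), (rhc85cc95794737cf7.shift 0 2), rhd1fa8140a3eb151f] (by decide +kernel))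
noncomputable def rhc37667a07b8b8963 : CRef := CRef.mk (Pat.mk 0x100000001400000016000000120000000000000000 0x1000000014000000160000003b0000001e0000000a 5 6) 0 0 (step_sound _ 35 [(rh79877ebd3ef475dd.shift 3 1), rhc12c8ef9482391c2] (by decide +kernel))
noncomputable def rhfb187e564bf2ca3f : CRef := CRef.mk (Pat.mk 0x80000000a0000000b000000090000000000000000 0x80000000a0000000f0000001d0000000f00000005 5 5) 0 0 (step_sound _ 34 [rh20b9aad33ac709bf, (rh79877ebd3ef475dd.shift 2 1)] (by decide +kernel))
noncomputable def rh61a3c20c166dcc4a : CRef := CRef.mk (Pat.mk 0x100000005800000042000000600000008000000000 0x10000000780000004f00000078000000c800000080 5 8) 0 0 (step_sound _ 38 [(rh55afc6a59410cf00.shift 6 0), (rhc08717ac9a428dd2.shift 0 1)] (by decide +kernel))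
noncomputable def rh8e96100f5902472c : CRef := CRef.mk (Pat.mk 0x80000000a0000000800000000 0x140000001c0000001c000000080000001f0000007800000010 5 7) 0 0 (step_sound _ 131 [(rh1741680720c097b4.shift 2 1), (rh5abfc4c9d959be03.shift 2 0), rhc486ae0fcc44be52, (rhced6d86d2069808b.shift 3 0)] (by decide +kernel))
noncomputable def rh3448f51a3b593f45 : CRef := CRef.mk (Pat.mk 0x10000001c00000000 0x730000003e00000070 5 7) 0 0 (step_sound _ 33 [(rh3f8766e6ecb455ce.shift 0 1), (rh3fc3a7fb6866dcd4.shift 1 0)] (by decide +kernel))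
noncomputable def rh0d516add4271c7cc : CRef := CRef.mk (Pat.mk 0x5000000040000000e00000000 0xf0000003e0000003f00000070 5 7) 0 0 (step_sound _ 68 [(rh52b56b428549a9e5.shift 0 1), (rh6e96e90a79333766.shift 1 0), (rh7dcd5319f4f71bec.shift 0 1)] (by decide +kernel))
noncomputable def rh59ce109d1f7b4b44 : CRef := CRef.mk (Pat.mk 0x1800000014000000140000001400000000 0x2000000020000001b0000001f000000160000001400000010 5 5) 0 0 (step_sound _ 99 [(rh7b1f1fb55310c477.shift 3 0), (rhe5f99ab32c0102de.shift 0 1)] (by decide +kernel))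
noncomputable def rh418ffd80c404bef2 : CRef := CRef.mk (Pat.mk 0x60000000200000002000000020000000000000000 0x100000003000000070000000600000002000000030000000300000001 5 3) 0 0 (step_sound _ 192 [rh892ac74514465007, (rhffd04209dc8ea796.shift 0 2)] (by decide +kernel))
noncomputable def rh7a0a2d7bb6275fce : CRef := CRef.mk (Pat.mk 0xa0000000a0000000a00000000 0x100000007c0000000f0000000b0000001e00000014 5 7) 0 0 (step_sound _ 131 [rh11a243992b58ed44, (rhb034511df68c2fcf.shift 0 1)] (by decide +kernel))
noncomputable def rh6841182e24ff097b : CRef := CRef.mk (Pat.mk 0xa0000000a0000000a0000000800000000 0xc0000001e0000000b0000001e0000000c00000004 5 5) 0 0 (step_sound _ 34 [(rh3c87e23472cf1cd9.shift 0 1), (rh932754581e0f4330.shift 2 0)] (by decide +kernel))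
noncomputable def rhae8f6a55ffecec25 : CRef := CRef.mk (Pat.mk 0x7000000018000000180000000200000000 0x80000000c0000007800000018000000180000000f0000000c 5 7) 0 0 (step_sound _ 35 [rh2d1b82a7b018eef1, (rh71222050f2c63a3a.shift 3 0)] (by decide +kernel))
noncomputable def rh6264b41fa8064b76 : CRef := CRef.mk (Pat.mk 0xa0000000800000008000000000000000000000000 0x100000001c0000001f00000008000000080000001c0000001c00000014 5 5) 0 0 (step_sound _ 67 [(rh2c718f29f451ad95.shift 0 2), (rh6eff4158bb400f47.shift 2 0)] (by decide +kernel))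
noncomputable def rh9b578cfc7d2906a4 : CRef := CRef.mk (Pat.mk 0xa0000000a00000008000000000000000000000000 0x140000001e0000000b000000080000001c0000001c00000014 5 5) 0 0 (step_sound _ 67 [(rh6eff4158bb400f47.shift 2 0), (rh9258736a7488cc35.shift 0 2)] (by decide +kernel))
noncomputable def rh964a35208bb55492 : CRef := CRef.mk (Pat.mk 0x100000005300000052000000c00000002000000000 0x100000005b0000005e000000c80000007800000028 5 8) 0 0 (step_sound _ 38 [rh56627d55825cdb77, (rh932754581e0f4330.shift 5 0)] (by decide +kernel))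
noncomputable def rhf01a37632d3de5dd : CRef := CRef.mk (Pat.mk 0xa0000000a0000000b000000180000000000000000 0xa0000000b0000000b0000001d0000000f00000005 5 5) 0 0 (step_sound _ 34 [(rh79877ebd3ef475dd.shift 2 1), rhbdbcdcd0b4fdb578] (by decide +kernel))
noncomputable def rhc570cd3ed08f11ec : CRef := CRef.mk (Pat.mk 0x100000001c0000001400000014 0x20000000a0000001b0000001f0000001600000014 5 5) 0 0 (step_sound _ 99 [(rh50fbb5868c909700.shift 3 0), rhe5f99ab32c0102de] (by decide +kernel))
noncomputable def rh917e03f6565ef955 : CRef := CRef.mk (Pat.mk 0x80000000e0000000a00000008 0x40000007c0000007e0000000b00000008 5 7) 0 0 (step_sound _ 98 [(rh3a58cf8460a1b69d.shift 0 1), (rh50fbb5868c909700.shift 2 0)] (by decide +kernel))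
noncomputable def rhea92d0c3e56f56cb : CRef := CRef.mk (Pat.mk 0x140000001e00000010000000180000000000000000 0x140000001e000000130000003e0000003200000020 5 6) 0 0 (step_sound _ 37 [rh02ef3e159cbafa98, (rhd3458b32566d63f7.shift 4 1)] (by decide +kernel))
noncomputable def rh84cba109f4747302 : CRef := CRef.mk (Pat.mk 0x20000000a0000000f0000000000000000 0x1c0000001e0000000b0000000f0000001c00000004 5 5) 0 0 (step_sound _ 35 [rhc05af83b35be5a82, (rhe25b0a99195a5d59.shift 0 1)] (by decide +kernel))
noncomputable def rh1744121642accf6d : CRef := CRef.mk (Pat.mk 0x2000000020000001e0000000000000000 0x20000000600000006000000060000001e0000000700000002 5 5) 0 0 (step_sound _ 33 [(rh69c904193a3792b5.shift 1 0), (rheb0810cc63b001d8.shift 0 1)] (by decide +kernel))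
noncomputable def rh5dc8a6c485ce2ecd : CRef := CRef.mk (Pat.mk 0x4000000140000003c0000000000000000 0xa0000000f0000001c0000003c0000000600000004 5 6) 0 0 (step_sound _ 34 [(rheb0810cc63b001d8.shift 1 1), rhec7a88c6dcaa5d28] (by decide +kernel))
noncomputable def rh0f96178417f4b52e : CRef := CRef.mk (Pat.mk 0x180000000a0000000200000002000000040000000000000000 0x180000000f0000000300000002000000070000000700000001 5 5) 0 0 (step_sound _ 65 [rh16d3859cf3270ce8, (rh55afc6a59410cf00.shift 1 1)] (by decide +kernel))
noncomputable def rh637bb7f6314cfc86 : CRef := CRef.mk (Pat.mk 0x2000000020000000200000002000000000000000000000000 0x100000003000000030000000300000002000000070000000700000005 5 3) 0 0 (step_sound _ 65 [(rh3ca48e2a6d60153d.shift 0 2), rh8cdd36b03d57a2f6, rh8ff3dde5b1c639e0, rhc4526fc8abf298b6] (by decide +kernel))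
noncomputable def rheb40d71ad4cca9bd : CRef := CRef.mk (Pat.mk 0x20000001a00000002000000000000000000000000 0x50000000f0000001b00000002000000070000000700000005 5 5) 0 0 (step_sound _ 65 [(rh330a005829cdd297.shift 0 2), rh46baee19951a66e7, rh6eff4158bb400f47] (by decide +kernel))
noncomputable def rh1c7a94ff937bfd99 : CRef := CRef.mk (Pat.mk 0x800000068000000080000000800000000 0x8000000780000000f0000003c00000014 5 7) 0 0 (step_sound _ 66 [rh0b0198cd56a23f60, (rhb2a0b9ccfb5cecd5.shift 2 2)] (by decide +kernel))
noncomputable def rh373e20ec7cd1e21e : CRef := CRef.mk (Pat.mk 0x38000000100000000000000000 0x2000000020000000770000003e000000170000001000000010 5 7) 0 0 (step_sound _ 98 [(rh4c622fddc53a5f99.shift 0 3), (rh775ca1963e850b80.shift 0 2), (rhf60cdf71a14eca6b.shift 2 0)] (by decide +kernel))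
noncomputable def rh7a3105e5f8daf74a : CRef := CRef.mk (Pat.mk 0x200000002000000020000000000000000 0x500000007000000070000000200000002000000070000000700000005 5 3) 0 0 (step_sound _ 161 [rh8cdd36b03d57a2f6, (rhc85cc95794737cf7.shift 0 2)] (by decide +kernel))
noncomputable def rhec5c45900e0e4fe3 : CRef := CRef.mk (Pat.mk 0x20000001a0000000200000000 0x10000000300000003000000020000001f0000000300000001 5 5) 0 0 (step_sound _ 32 [rh976a48eb1c80a12f, (rhb2a0b9ccfb5cecd5.shift 0 1)] (by decide +kernel))
noncomputable def rh2ab61a0bdbe6c0cd : CRef := CRef.mk (Pat.mk 0xe00000008000000080000000c 0x130000003e0000000f0000000c0000000c 5 6) 0 0 (step_sound _ 100 [rh12a4aa43a438d841, (rh2f68792b6b779e96.shift 3 0)] (by decide +kernel))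
noncomputable def rhb9a02b14ad2280dd : CRef := CRef.mk (Pat.mk 0x20000001a00000002000000000000000000000000 0x50000000f0000001a00000002000000070000000700000005 5 5) 0 0 (step_sound _ 65 [(rh330a005829cdd297.shift 0 2), rh6eff4158bb400f47] (by decide +kernel))
noncomputable def rhf29317447ff2b22e : CRef := CRef.mk (Pat.mk 0x8000000080000000c0000000800000000 0x8000000080000001f0000007c00000014 5 7) 0 0 (step_sound _ 34 [rh42e615827c8908b1, (rh932754581e0f4330.shift 2 0)] (by decide +kernel))
noncomputable def rh523093e7909fd5eb : CRef := CRef.mk (Pat.mk 0x2000000020000000200000002000000000000000000000000 0x3000000030000000300000006000000070000000700000005 5 3) 0 0 (step_sound _ 65 [rh8ff3dde5b1c639e0, rhc4526fc8abf298b6, (rhd29a1fb688eae70f.shift 1 1)] (by decide +kernel))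
noncomputable def rh116b4ffcf41d9553 : CRef := CRef.mk (Pat.mk 0x20000001a00000002000000000000000000000000 0x4000000070000000f0000001a00000006000000070000000700000005 5 5) 0 0 (step_sound _ 65 [(rh330a005829cdd297.shift 0 2), rh6eff4158bb400f47, (rhced6d86d2069808b.shift 1 1)] (by decide +kernel))
noncomputable def rh33ba2c346b1bc992 : CRef := CRef.mk (Pat.mk 0x800000000000000100000003800000000 0x8000000080000007e0000007e00000007 5 7) 0 0 (step_sound _ 34 [(rh04d7e19c993f8872.shift 1 0), rh55c4ed4acec0f063, (rhec46bd5500c722c9.shift 1 1)] (by decide +kernel))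
noncomputable def rhb8f619541c88a58d : CRef := CRef.mk (Pat.mk 0x20000001a00000002000000000000000000000000 0x50000000f0000001b00000002000000070000000700000005 5 5) 0 0 (step_sound _ 65 [rh46baee19951a66e7, rh6eff4158bb400f47, rhc4526fc8abf298b6, (rhdc5671191cba2261.shift 0 1)] (by decide +kernel))
noncomputable def rh8aed41473eba51c1 : CRef := CRef.mk (Pat.mk 0x1c000000080000006000000004 0x30000003f0000003f0000006400000004 5 7) 0 0 (step_sound _ 66 [rh257dde69fd76f487, (rh4dc133ee0ba1420a.shift 0 2)] (by decide +kernel))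
noncomputable def rh795f45965b53473c : CRef := CRef.mk (Pat.mk 0x4000000040000000020000000e00000000 0x4000000040000000630000007e00000070 5 7) 0 0 (step_sound _ 36 [(rh3244c3cc8379b070.shift 0 1), (rhe21ae09da0455228.shift 1 0)] (by decide +kernel))
noncomputable def rh674d5c6fdec42510 : CRef := CRef.mk (Pat.mk 0x60000003400000018000000000000000000000000 0x6000000360000001e0000000f0000000e0000000a 5 6) 0 0 (step_sound _ 98 [rh43995ca800cfc0d6, (rh53b3c253cb0c65f4.shift 1 3)] (by decide +kernel))
noncomputable def rh9853d0e2ef0431f8 : CRef := CRef.mk (Pat.mk 0x20000000800000008000000080000000000000000 0x100000001c0000001f00000008000000180000001c0000001c00000014 5 5) 0 0 (step_sound _ 163 [(rh2c718f29f451ad95.shift 0 2), (rh8cdd36b03d57a2f6.shift 2 0), (rhced6d86d2069808b.shift 3 1)] (by decide +kernel))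
noncomputable def rhe39d8df881a686a0 : CRef := CRef.mk (Pat.mk 0x80000000b000000080000000800000000 0x80000000f0000007c0000000f00000004 5 7) 0 0 (step_sound _ 68 [rh80650b8e93363f1e, (rhc10214bf3fe8094a.shift 0 2)] (by decide +kernel))
noncomputable def rheb49a7303ab0d674 : CRef := CRef.mk (Pat.mk 0x220000002600000036000000010000000000000000 0x220000003600000036000000130000001f00000016 5 6) 0 0 (step_sound _ 65 [rh7c6141d2bb6519a4, (rh932754581e0f4330.shift 0 1)] (by decide +kernel))
noncomputable def rh9908ee43ca75d909 : CRef := CRef.mk (Pat.mk 0x38000001000000000000000004 0x7000000fe000001ce0000000400000004 5 9) 0 0 (step_sound _ 66 [(rh03238141166ed50f.shift 2 2), rhee37d230d297e9fd] (by decide +kernel))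
noncomputable def rh24d7a0c8a456afd9 : CRef := CRef.mk (Pat.mk 0xa00000008000000080000000000000000 0x140000001c0000007c0000001f00000008000000180000001800000010 5 7) 0 0 (step_sound _ 163 [(rh0363d47a46978688.shift 0 2), (rh1741680720c097b4.shift 2 2), (rh8ff3dde5b1c639e0.shift 2 0)] (by decide +kernel))
noncomputable def rh2e2af70cc0a250e3 : CRef := CRef.mk (Pat.mk 0x40000001e00000006 0x3000000030000003f0000001e00000006 5 6) 0 0 (step_sound _ 65 [(rh3244c3cc8379b070.shift 0 1), rhca2368649289e662] (by decide +kernel))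
noncomputable def rhe3502ca643db75db : CRef := CRef.mk (Pat.mk 0x20000001e00000006 0x3000000030000003e0000001f00000006 5 6) 0 0 (step_sound _ 97 [rh02ca81931d2dc5f6, (rh2145e1d24b96a57e.shift 1 0)] (by decide +kernel))
noncomputable def rh1f27b2bf275e3905 : CRef := CRef.mk (Pat.mk 0x400000006000000000000000c00000048 0x4000000040000000600000006000000020000000f0000007a 5 7) 0 0 (step_sound _ 4 [rh277af3b23bacbfd2, (rh2fe78cc5ca4405d8.shift 2 0)] (by decide +kernel))
noncomputable def rh1ebca14c845a2b5c : CRef := CRef.mk (Pat.mk 0x10000000180000000800000038 0x4000000760000007e0000000f0000003c 5 7) 0 0 (step_sound _ 34 [(rh02e7bb29240e64f1.shift 1 0), (rh0bb882ba86b2372d.shift 0 1), rhdbcea10a0fbe5ba6] (by decide +kernel))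
noncomputable def rh8616cf226e3de709 : CRef := CRef.mk (Pat.mk 0x2000000038000000000000001000000000 0x8000000080000002f0000007c000000180000001000000010 5 7) 0 0 (step_sound _ 68 [(rh71222050f2c63a3a.shift 4 0), (rhb98e183a12ed98e4.shift 0 1)] (by decide +kernel))
noncomputable def rh7ca466ec86f303a8 : CRef := CRef.mk (Pat.mk 0xe0000008400000004 0x2000000730000007e000000e700000004 5 8) 0 0 (step_sound _ 68 [(rh0f1f75917d11acd2.shift 1 1), (rhaf9f2efc81a8312b.shift 0 1), rhe4f9133a81c1dbc5] (by decide +kernel))
noncomputable def rhb187c60afc43a8a8 : CRef := CRef.mk (Pat.mk 0xe000000800000000200000000 0x4000000770000007e000000e30000000200000002 5 8) 0 0 (step_sound _ 100 [(rh0f1f75917d11acd2.shift 1 2), rh75b63e46072e6b6d, (rhc078b3dae8bdb359.shift 0 2)] (by decide +kernel))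
noncomputable def rh1fa77d469e93fa64 : CRef := CRef.mk (Pat.mk 0x1c00000100 0xef000000fe000001c7 5 9) 0 0 (step_sound _ 37 [(rh0f1f75917d11acd2.shift 2 0), rh775ca1963e850b80, (rhc078b3dae8bdb359.shift 1 0)] (by decide +kernel))
noncomputable def rh46b8273c9da31a19 : CRef := CRef.mk (Pat.mk 0x1e000000000000000400000000 0x4000000070000001e000000030000000600000006 5 5) 0 0 (step_sound _ 65 [rhb8e1e22c06ebc4eb, (rheb0810cc63b001d8.shift 0 2)] (by decide +kernel))
noncomputable def rh0dbd3b11c4ccf994 : CRef := CRef.mk (Pat.mk 0x800000008000000180000009800000000 0x8000000080000001f000000ff00000004 5 8) 0 0 (step_sound _ 37 [(rh2fe78cc5ca4405d8.shift 3 1), rhfd68868dd6d945e5] (by decide +kernel))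
noncomputable def rh674ae8d1927570ae : CRef := CRef.mk (Pat.mk 0x1400000004000000340000000000000000 0x20000003e00000007000000340000001e0000000e 5 6) 0 0 (step_sound _ 34 [rh2ca6829cf8c2858b, (rhd630af2e39ca770f.shift 1 0)] (by decide +kernel))
noncomputable def rh602732162fa3c73f : CRef := CRef.mk (Pat.mk 0x20000000e00000080 0x730000007e000000e0 5 8) 0 0 (step_sound _ 36 [(rh0f1f75917d11acd2.shift 1 0), (rh3244c3cc8379b070.shift 0 1)] (by decide +kernel))
noncomputable def rhf7f6ef450a0c249e : CRef := CRef.mk (Pat.mk 0x10000000080000000c0000004c000000000000000000000000 0x100000001c0000000f0000007c000000080000000800000008 5 7) 0 0 (step_sound _ 100 [rh0c072535b876ba69, (rh2fe78cc5ca4405d8.shift 2 3)] (by decide +kernel))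
noncomputable def rh00a864f2ef4b31d8 : CRef := CRef.mk (Pat.mk 0xe00000082 0x700000007e000000e3 5 8) 0 0 (step_sound _ 36 [(rh0f1f75917d11acd2.shift 1 0), rheb0810cc63b001d8] (by decide +kernel))
noncomputable def rhfbbabc305a51a822 : CRef := CRef.mk (Pat.mk 0x2000000020000001a0000003000000000 0x10000000300000003000000020000001b0000003f00000075 5 7) 0 0 (step_sound _ 33 [rh771d065bdc85bf2d, rhd0b5e121ccd1e6a2, rhd630af2e39ca770f] (by decide +kernel))
noncomputable def rhe520c97f67e4a7f2 : CRef := CRef.mk (Pat.mk 0x2000000020000000200000002000000000000000000000000 0x20000000200000003000000030000000300000003000000030000000300000001 5 2) 0 0 (step_sound _ 65 [(rh0105b2139521f473.shift 0 1), (rh7928877f9bf74a91.shift 0 1), rhc4526fc8abf298b6] (by decide +kernel))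
noncomputable def rh97d712217d1744a8 : CRef := CRef.mk (Pat.mk 0x2000000020000000300000002000000000000000000000000 0x2000000030000000300000006000000070000000700000005 5 3) 0 0 (step_sound _ 65 [rh5192e84255fe3228, rh6eff4158bb400f47, (rhd29a1fb688eae70f.shift 1 1)] (by decide +kernel))
noncomputable def rhac09afe906154c2a : CRef := CRef.mk (Pat.mk 0x800000028000000080000000800000000 0x8000000080000007c0000000f0000000c00000004 5 7) 0 0 (step_sound _ 34 [(rh4cdf5fe98ac0cc22.shift 0 1), (rh932754581e0f4330.shift 2 0)] (by decide +kernel))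
noncomputable def rh13be7c83e4667e34 : CRef := CRef.mk (Pat.mk 0xa00000002000000020000001e00000000 0x1000000030000001f00000006000000020000001e00000003 5 5) 0 0 (step_sound _ 1 [rh7522f36d238d6d9a, rheb0810cc63b001d8] (by decide +kernel))
noncomputable def rhc1afa7a83dc6d141 : CRef := CRef.mk (Pat.mk 0x380000000000000060000000c0 0x1000000010000000180000007c0000000f00000078000000c8 5 8) 0 0 (step_sound _ 35 [rh7d76065933faa4ae, (rhab22b5b56e7b3243.shift 3 0)] (by decide +kernel))
noncomputable def rh16f04c9d7fe4feb3 : CRef := CRef.mk (Pat.mk 0x1c00000100 0xf0000000fe000001cf 5 9) 0 0 (step_sound _ 37 [(rh0f1f75917d11acd2.shift 2 0), (rh4189d026c588653f.shift 1 0), rh9e97bba44c1b13e4] (by decide +kernel))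
noncomputable def rh1bd8c05544934544 : CRef := CRef.mk (Pat.mk 0x2000000020000001a0000003000000000 0x40000000600000006000000020000001b0000003f00000075 5 7) 0 0 (step_sound _ 33 [rh3b734c5288922837, rhd0b5e121ccd1e6a2, rhd630af2e39ca770f] (by decide +kernel))
noncomputable def rh8251479d50b891f5 : CRef := CRef.mk (Pat.mk 0x2000000020000001a0000000100000000 0x40000000600000006000000020000001b0000000f00000004 5 5) 0 0 (step_sound _ 161 [(rh79877ebd3ef475dd.shift 0 1), rha50dfa6cdf7a7462] (by decide +kernel))
noncomputable def rhefe6e5e7209ee476 : CRef := CRef.mk (Pat.mk 0x2000000020000001a0000000000000000 0x5000000070000000700000002000000030000001b0000000f00000005 5 5) 0 0 (step_sound _ 161 [(rh1741680720c097b4.shift 0 2), (rh20966da26a1c2ae8.shift 0 1), (rh771d065bdc85bf2d.shift 0 1), rhbd7d57cbe6532a20] (by decide +kernel))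
noncomputable def rh33f26072e0c5c9bf : CRef := CRef.mk (Pat.mk 0x1c00000100 0xff000000fe000001c0 5 9) 0 0 (step_sound _ 37 [(rh0f1f75917d11acd2.shift 2 0), (rh61325f73ebf98108.shift 0 1), (rhc078b3dae8bdb359.shift 1 0)] (by decide +kernel))
noncomputable def rh1af92528011baf55 : CRef := CRef.mk (Pat.mk 0x38000000000000001000000010 0x770000003e000000100000001000000010 5 7) 0 0 (step_sound _ 133 [(rh04253f50b6dd0619.shift 4 0), (rh3e0b38310ac09007.shift 0 3)] (by decide +kernel))
noncomputable def rh92730112edfa1a7d : CRef := CRef.mk (Pat.mk 0x2000000020000001a0000001000000000 0x50000000700000007000000020000001b0000001f00000004 5 5) 0 0 (step_sound _ 33 [rha893ef807ce322b1, (rhc85cc95794737cf7.shift 0 1)] (by decide +kernel))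
noncomputable def rh3b6da4ffa73d5ee4 : CRef := CRef.mk (Pat.mk 0x2000000020000001a000000000000000000000000 0x100000003000000030000001a0000000f0000000700000005 5 5) 0 0 (step_sound _ 65 [(rh36e6bb6cca6188da.shift 0 1), rh8ff3dde5b1c639e0, rhc4526fc8abf298b6] (by decide +kernel))
noncomputable def rhf67d12c2dccaf5d2 : CRef := CRef.mk (Pat.mk 0x2000000020000001a0000003000000000 0x10000000300000003000000020000001b0000003f00000075 5 7) 0 0 (step_sound _ 33 [rh771d065bdc85bf2d, rha893ef807ce322b1, rhd0b5e121ccd1e6a2, rhd630af2e39ca770f] (by decide +kernel))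
noncomputable def rh1d90b59f780b588e : CRef := CRef.mk (Pat.mk 0x4000000140000000400000004 0xa0000003e000000370000000400000004 5 6) 0 0 (step_sound _ 97 [(rh50fbb5868c909700.shift 1 0), rhc5cdb6415db667c5] (by decide +kernel))
noncomputable def rh43547bf3236f664a : CRef := CRef.mk (Pat.mk 0x1c00000100 0xf000000fe000001cf 5 9) 0 0 (step_sound _ 37 [(rh4189d026c588653f.shift 1 0), rh775ca1963e850b80, (rhc078b3dae8bdb359.shift 1 0)] (by decide +kernel))
noncomputable def rh5859a1af2a4aad2f : CRef := CRef.mk (Pat.mk 0x20000001e000000020000000000000000 0x200000007000000070000003e0000001e000000060000000200000002 5 6) 0 0 (step_sound _ 132 [(rh33e738c4ed385b9f.shift 1 3), rh63482c1755d01f9a] (by decide +kernel))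
noncomputable def rhc252441a73d811a8 : CRef := CRef.mk (Pat.mk 0x200000006000000020000000000000000 0x500000007000000070000000600000006000000060000000600000006 5 3) 0 0 (step_sound _ 161 [(rh14f80659e6313cc6.shift 1 2), (rhc85cc95794737cf7.shift 0 2), (rhca18712e5e5c7b8f.shift 1 0), (rhd4b4beefcd67f51e.shift 1 1)] (by decide +kernel))
noncomputable def rh486eb7c8c2e9ae71 : CRef := CRef.mk (Pat.mk 0x200000012000000020000000200000000 0x50000000f0000001e000000020000000600000004 5 5) 0 0 (step_sound _ 34 [(rh55afc6a59410cf00.shift 1 0), (rhc3115e0f4b0bf27b.shift 0 1)] (by decide +kernel))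
noncomputable def rh43ca58b80ff240ff : CRef := CRef.mk (Pat.mk 0x1e000000000000000400000000 0x4000000070000001e000000030000000600000006 5 5) 0 0 (step_sound _ 129 [(rh3244c3cc8379b070.shift 0 3), rha07f322cd977fa7a] (by decide +kernel))
noncomputable def rh59702931840a5d3f : CRef := CRef.mk (Pat.mk 0x20000001e0000000200000000 0x200000007000000070000003e0000001e0000000600000002 5 6) 0 0 (step_sound _ 100 [(rh33e738c4ed385b9f.shift 1 2), rhe651a079a1096c29] (by decide +kernel))
noncomputable def rh86df8e6589601709 : CRef := CRef.mk (Pat.mk 0x38000000000000003000000000 0x20000001f70000007e000000100000003000000030 5 9) 0 0 (step_sound _ 133 [(rh3e0b38310ac09007.shift 0 3), (rha11dfd15f08f96e3.shift 2 3), (rhec2955f76c307292.shift 4 0)] (by decide +kernel))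
noncomputable def rhf489700a5c89a9a3 : CRef := CRef.mk (Pat.mk 0x6000000040000001c0000003000000000 0x400000006000000060000001c0000003f00000077 5 7) 0 0 (step_sound _ 35 [(rh2145e1d24b96a57e.shift 2 1), rh8c3854c636c67d2b] (by decide +kernel))
noncomputable def rh5463fb2f987f55b9 : CRef := CRef.mk (Pat.mk 0x3800000000 0xf70000007e0000000f 5 8) 0 0 (step_sound _ 34 [(rh3b00e9e9432b8f40.shift 1 0), (rh4c622fddc53a5f99.shift 0 1), rh592c7139d2c44767, rh9e97bba44c1b13e4] (by decide +kernel))
noncomputable def rh1ed024172493deb7 : CRef := CRef.mk (Pat.mk 0xf000000010000001a0000000000000000 0x1f000000030000001a0000000f00000007 5 5) 0 0 (step_sound _ 97 [(rh18965a982d73c794.shift 0 3), rh1dd82125e2be3053] (by decide +kernel))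
noncomputable def rh424c8d85d70bde57 : CRef := CRef.mk (Pat.mk 0x38000000000000000800000000 0x40000007f0000003e0000000f0000000800000008 5 7) 0 0 (step_sound _ 98 [(rh4c622fddc53a5f99.shift 0 3), (rh592c7139d2c44767.shift 0 2), (rh9e97bba44c1b13e4.shift 0 2), (rhd0f2e39b54bcbf0d.shift 1 0)] (by decide +kernel))
noncomputable def rh981e53b33f264963 : CRef := CRef.mk (Pat.mk 0x1c00000080 0x770000007e000000e0 5 8) 0 0 (step_sound _ 37 [(rh4c622fddc53a5f99.shift 0 1), (rheaa91b92daf0efc8.shift 2 0)] (by decide +kernel))
noncomputable def rh9e174856810c5f95 : CRef := CRef.mk (Pat.mk 0x2000000020000000200000002000000000000000000000000 0x100000003000000030000000200000002000000070000000700000005 5 3) 0 0 (step_sound _ 192 [(rh50fbb5868c909700.shift 0 3), rh641084bb64cf8acf] (by decide +kernel))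
noncomputable def rh95c5f45598c2feec : CRef := CRef.mk (Pat.mk 0x380000001000000070000000e0000000800000000000000000 0xc0000000fc0000003f00000070000000e0000000800000008000000080 5 8) 0 0 (step_sound _ 39 [(rh6912cf8f42c51e89.shift 0 3), (rh7b1f1fb55310c477.shift 6 0)] (by decide +kernel))
noncomputable def rh5350a5c3672f0581 : CRef := CRef.mk (Pat.mk 0x80000000c0000001800000000 0x1000000010000000180000007c0000000f0000001800000008 5 7) 0 0 (step_sound _ 65 [(rh64210d62cede1278.shift 1 0), (rhb739f4f82bb681b4.shift 0 1)] (by decide +kernel))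
noncomputable def rhb79e7f6fd1cdda95 : CRef := CRef.mk (Pat.mk 0x200000002000000030000000600000002 0x100000003000000030000000600000007000000070000000600000002 5 3) 0 0 (step_sound _ 98 [(rh2f68792b6b779e96.shift 1 0), (rhb35e66efa75d67a8.shift 0 1)] (by decide +kernel))
noncomputable def rhc14d8284457bdedb : CRef := CRef.mk (Pat.mk 0x2000000020000000600000002000000000000000000000000 0x2000000060000000600000003000000070000000700000005 5 3) 0 0 (step_sound _ 65 [(rh301a6b3a9154ed36.shift 1 0), (rh7928877f9bf74a91.shift 0 1), rh8cdd36b03d57a2f6] (by decide +kernel))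
noncomputable def rh054d636c46bd466a : CRef := CRef.mk (Pat.mk 0x1800000018000000380000000000000000 0x40000001f0000001f000000380000000800000008 5 6) 0 0 (step_sound _ 130 [(rh40241bd608e5be1a.shift 2 0), rh6afa0c82223be7ff, (rhace16348de435294.shift 0 2)] (by decide +kernel))
noncomputable def rhd35ecca85946c7b5 : CRef := CRef.mk (Pat.mk 0x3800000018 0xe7000000ff00000018 5 8) 0 0 (step_sound _ 38 [(rh18965a982d73c794.shift 3 0), rh2c0c6ab943ebe285] (by decide +kernel))
noncomputable def rhf7c77fe48087fd5b : CRef := CRef.mk (Pat.mk 0x20000000600000006000000000000000000000000 0x300000003000000070000000600000006000000020000000200000002 5 3) 0 0 (step_sound _ 193 [(rh2145e1d24b96a57e.shift 1 3), rh544fd3f279a4d968] (by decide +kernel))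
noncomputable def rh4d7ddf60dd370de9 : CRef := CRef.mk (Pat.mk 0x2000000020000000e00000008 0x5000000070000000700000006000000060000000e0000000a 5 4) 0 0 (step_sound _ 130 [(rh08d50fe567eb1045.shift 1 0), (rh739b1d2a1da9317d.shift 0 1), (rh99de676ce09a077c.shift 1 0)] (by decide +kernel))
noncomputable def rh327cc032817ae423 : CRef := CRef.mk (Pat.mk 0xc000000080000001800000030000000000000000000000000 0x40000000c000000080000001f0000003f0000000f0000000400000004 5 6) 0 0 (step_sound _ 99 [(rh50fbb5868c909700.shift 2 3), rh71bc55fb4d1b3b62] (by decide +kernel))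
noncomputable def rhf9336b26de852197 : CRef := CRef.mk (Pat.mk 0x1e000000020000001a0000000000000000 0x30000001e000000020000001b0000000f00000005 5 5) 0 0 (step_sound _ 161 [(rh3244c3cc8379b070.shift 0 4), rhbd7d57cbe6532a20] (by decide +kernel))
noncomputable def rh8b7ec1b2b48007ba : CRef := CRef.mk (Pat.mk 0x1c00000100 0xe7000000fe000001c7 5 9) 0 0 (step_sound _ 37 [(rh0f1f75917d11acd2.shift 2 0), rh775ca1963e850b80] (by decide +kernel))
noncomputable def rh09231084b1f3e84e : CRef := CRef.mk (Pat.mk 0x3800000100 0xe7000000fe000001c7 5 9) 0 0 (step_sound _ 34 [(rh0f1f75917d11acd2.shift 2 0), rh2cc7d62e70c02209] (by decide +kernel))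
noncomputable def rhbcc219399b389c7c : CRef := CRef.mk (Pat.mk 0x600000000000000020000000200000000 0x1000000070000000700000002000000030000000300000001 5 3) 0 0 (step_sound _ 97 [(rh2f68792b6b779e96.shift 1 1), rh771d065bdc85bf2d] (by decide +kernel))
noncomputable def rhfbfdaa7871252f1e : CRef := CRef.mk (Pat.mk 0x1c000001000000000400000004 0xef000000fe000001c30000000600000004 5 9) 0 0 (step_sound _ 101 [(rhc078b3dae8bdb359.shift 1 2), rhcbce130df63aa989, (rhd458cf0431fcb667.shift 2 2)] (by decide +kernel))
noncomputable def rh5a1050b7247bea0e : CRef := CRef.mk (Pat.mk 0xc000000000000001a00000038000000000000000000000000 0x40000000c000000080000001b0000003f0000000e0000000400000004 5 6) 0 0 (step_sound _ 163 [(rh50fbb5868c909700.shift 2 3), rheaddb73221c872c2] (by decide +kernel))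
noncomputable def rh29b60c546f1f465c : CRef := CRef.mk (Pat.mk 0x1e000000000000000400000000 0x8000000080000003c0000001f000000040000000400000004 5 6) 0 0 (step_sound _ 132 [rh0e5cb3f678e965e5, (rh33e738c4ed385b9f.shift 1 3)] (by decide +kernel))
noncomputable def rh799fad6b6fcaa2cc : CRef := CRef.mk (Pat.mk 0x10000000e00000080 0x730000007e000000e0 5 8) 0 0 (step_sound _ 36 [(rh0f1f75917d11acd2.shift 1 0), (rh3f8766e6ecb455ce.shift 0 1)] (by decide +kernel))
noncomputable def rh938751a9eac52fdd : CRef := CRef.mk (Pat.mk 0xe000000800000000200000000 0x400000004000000760000007e000000e30000000200000002 5 8) 0 0 (step_sound _ 100 [(rh0f1f75917d11acd2.shift 1 2), rh4f79c519b7f04720] (by decide +kernel))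
noncomputable def rhc1eaeff53a3b1d6a : CRef := CRef.mk (Pat.mk 0xe00000082 0x70000007e000000e3 5 8) 0 0 (step_sound _ 36 [rhc078b3dae8bdb359, rheb0810cc63b001d8] (by decide +kernel))
noncomputable def rh74cc4263e5191d83 : CRef := CRef.mk (Pat.mk 0x3800000200 0x1f7000001fe0000038f 5 10) 0 0 (step_sound _ 34 [(rh4c622fddc53a5f99.shift 0 1), (rh5b1d16cb52c1e1e2.shift 1 0), rh775ca1963e850b80] (by decide +kernel))
noncomputable def rhdc447a92996c59d4 : CRef := CRef.mk (Pat.mk 0x7800000000 0xe70000007e00000007 5 8) 0 0 (step_sound _ 34 [rh775ca1963e850b80, (rh9890f9d77740bbed.shift 2 1)] (by decide +kernel))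
noncomputable def rh4a2ef90436fa9e13 : CRef := CRef.mk (Pat.mk 0x2000000020000000600000002000000000000000000000000 0x100000003000000070000000600000002000000060000000600000004 5 3) 0 0 (step_sound _ 192 [rh0d0fab9b7d00b2b5, (rh50fbb5868c909700.shift 0 3)] (by decide +kernel))
noncomputable def rh0b7b56b1d93191f8 : CRef := CRef.mk (Pat.mk 0x2000000020000000600000002000000000000000000000000 0x2000000060000000600000003000000070000000700000004 5 3) 0 0 (step_sound _ 64 [(rh79877ebd3ef475dd.shift 0 2), rhe96cc273fd1131e3] (by decide +kernel))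
noncomputable def rh87eaf0480ab90576 : CRef := CRef.mk (Pat.mk 0x20000000c000000840000000400000000 0x70000007e000000e40000000400000004 5 8) 0 0 (step_sound _ 97 [(rh627e2191a242939e.shift 0 2), (rh7b1f1fb55310c477.shift 1 0)] (by decide +kernel))
noncomputable def rh7a1f620a1c8cdd90 : CRef := CRef.mk (Pat.mk 0x20000001c0000000400000004 0x8000000080000003f0000001f0000000400000004 5 6) 0 0 (step_sound _ 65 [(rh3244c3cc8379b070.shift 0 2), rh4c7411087d622b9c] (by decide +kernel))
noncomputable def rh908ca6701f9ab3a2 : CRef := CRef.mk (Pat.mk 0x800000008000000180000003800000020 0x40000001f0000007c000000180000003800000020 5 7) 0 0 (step_sound _ 130 [(rh50fbb5868c909700.shift 2 1), rhdda7632047779180] (by decide +kernel))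
noncomputable def rh1de8c3115bce5e82 : CRef := CRef.mk (Pat.mk 0x3800000010 0x70000007e000000ff 5 8) 0 0 (step_sound _ 34 [(rh42d32bf970c9c157.shift 1 0), rh775ca1963e850b80, (rha03f6e28ea70fc7d.shift 1 0)] (by decide +kernel))
noncomputable def rh2edb723cdd034ac6 : CRef := CRef.mk (Pat.mk 0x3c00000014000000300000001000000000 0x70000003e00000014000000340000001e00000008 5 6) 0 0 (step_sound _ 161 [(rh3f8766e6ecb455ce.shift 1 4), rh86032c39eff35729] (by decide +kernel))
noncomputable def rh68869c06f0be1da0 : CRef := CRef.mk (Pat.mk 0x80000003800000008000000000000000000000000 0x40000001f00000038000000080000001c0000001c00000014 5 6) 0 0 (step_sound _ 67 [(rh79905f95cb2d899a.shift 0 2), (rh8cdd36b03d57a2f6.shift 2 0)] (by decide +kernel))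
noncomputable def rhf983b45ed502f8e7 : CRef := CRef.mk (Pat.mk 0x3000000020000000600000004000000000000000000000000 0x100000003000000030000000600000006000000030000000300000003 5 3) 0 0 (step_sound _ 97 [rh000f75110575adc4, (rh50fbb5868c909700.shift 0 3)] (by decide +kernel))
noncomputable def rh49c19d5e04bef9a6 : CRef := CRef.mk (Pat.mk 0xc0000000c000000180000001000000000 0xc0000000c0000001c0000001f0000000f 5 5) 0 0 (step_sound _ 35 [(rh7b1f1fb55310c477.shift 2 0), rhb1c06754cc0d7506] (by decide +kernel))
noncomputable def rha41a6bc976b49a2d : CRef := CRef.mk (Pat.mk 0x380000001800000030 0x400000004000000070000003f0000001f00000038 5 6) 0 0 (step_sound _ 66 [(rh2cc7d62e70c02209.shift 0 1), rhace16348de435294, (rhba89ab7cb81bcc90.shift 0 1), (rhdd3ef923ff6c7ad5.shift 1 0)] (by decide +kernel))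
noncomputable def rh85d385ed940ca6ec : CRef := CRef.mk (Pat.mk 0x100000001e00000000 0x1e0000007f00000070 5 7) 0 0 (step_sound _ 67 [(rh53b3c253cb0c65f4.shift 0 1), (rh6a5aad1075fb7119.shift 1 0)] (by decide +kernel))
noncomputable def rh3df4bc1dee31a5c0 : CRef := CRef.mk (Pat.mk 0xe000000020000004000000040 0x700000003e000000330000006000000040 5 7) 0 0 (step_sound _ 100 [(rheb0810cc63b001d8.shift 0 2), (rhfa0414344ad6364d.shift 1 0)] (by decide +kernel))
noncomputable def rh12134e6f6ee52d7d : CRef := CRef.mk (Pat.mk 0x380000000800000000 0x400000004000000770000003e0000000f00000008 5 7) 0 0 (step_sound _ 66 [(rh4c622fddc53a5f99.shift 0 2), (rh7654d7b92c96fe12.shift 0 1), (rh775ca1963e850b80.shift 0 1), (rhdd3ef923ff6c7ad5.shift 1 0)] (by decide +kernel))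
noncomputable def rhc3ddb7a8f33c453a : CRef := CRef.mk (Pat.mk 0x1c00000080 0x700000007e000000e7 5 8) 0 0 (step_sound _ 37 [rh9e97bba44c1b13e4, (rheaa91b92daf0efc8.shift 2 0)] (by decide +kernel))
noncomputable def rhccbbddc13e5c62d5 : CRef := CRef.mk (Pat.mk 0x120000000600000002 0x400000007000000070000000f0000001e0000000600000006 5 5) 0 0 (step_sound _ 97 [(rh14f80659e6313cc6.shift 1 0), rh3da62da861143b9a, (rh8599f462953abc6e.shift 1 0), rhc3115e0f4b0bf27b] (by decide +kernel))
noncomputable def rh5f78974281da546e : CRef := CRef.mk (Pat.mk 0x1e0000000c00000008 0x600000006000000070000001e0000000f00000008 5 5) 0 0 (step_sound _ 130 [(rh68da57567b86e05e.shift 0 1), (rh6f1cbe15c631ee70.shift 2 0)] (by decide +kernel))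
noncomputable def rh9ea900494366a087 : CRef := CRef.mk (Pat.mk 0x1c00000004000000180000001800000000 0x100000001c0000000c0000001c0000001f00000007 5 5) 0 0 (step_sound _ 99 [(rh2f68792b6b779e96.shift 3 1), rhb1c06754cc0d7506] (by decide +kernel))
noncomputable def rh6f62b5e2a571e0b2 : CRef := CRef.mk (Pat.mk 0x30000000300000004000000000000000000000000 0x30000000300000003000000030000000300000006000000060000000600000004 5 3) 0 0 (step_sound _ 97 [(rh3cb04db3dd2b6a55.shift 0 1), (rh6a8c156e22ebb6c5.shift 0 2), (rh70e33bfdf511e144.shift 1 0)] (by decide +kernel))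
noncomputable def rhfef3103d12bed0c2 : CRef := CRef.mk (Pat.mk 0x380000001a00000010 0x40000000c0000000f0000003f0000001b00000018 5 6) 0 0 (step_sound _ 99 [(rh2145e1d24b96a57e.shift 3 0), rh4fb723870936bb81] (by decide +kernel))
noncomputable def rhb74e79c8165c0c07 : CRef := CRef.mk (Pat.mk 0xe000000880000000800000000 0x300000007e000000ef0000000800000008 5 8) 0 0 (step_sound _ 100 [(rh4189d026c588653f.shift 0 2), (rhd4d36b4007f546b1.shift 1 0)] (by decide +kernel))
noncomputable def rh36f7e7157ad56577 : CRef := CRef.mk (Pat.mk 0x1e000000100000003000000000 0x2000000030000001e0000001f0000003400000004 5 6) 0 0 (step_sound _ 65 [rh3e3c77f21bb67fc6, (rheb0810cc63b001d8.shift 0 2)] (by decide +kernel))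
noncomputable def rh97a0a1d1b73b1ba2 : CRef := CRef.mk (Pat.mk 0xe00000081 0x700000007e000000e3 5 8) 0 0 (step_sound _ 36 [(rh0f1f75917d11acd2.shift 1 0), rh80fcd6d0a18cb2dd] (by decide +kernel))
noncomputable def rh57b65224143a00aa : CRef := CRef.mk (Pat.mk 0x4000000000000000e0000008800000008 0x4000000770000007e000000ef0000000a 5 8) 0 0 (step_sound _ 68 [(rh0f1f75917d11acd2.shift 1 1), (rh4189d026c588653f.shift 0 1), rhe433b7503f8e1e43] (by decide +kernel))
noncomputable def rh80708b9f1112ff1d : CRef := CRef.mk (Pat.mk 0x4000000040000000e0000008000000000 0x4000000770000007e000000e300000002 5 8) 0 0 (step_sound _ 68 [(rh0f1f75917d11acd2.shift 1 1), rhae036cc4ef671676, (rhe592f4561ded169a.shift 1 1)] (by decide +kernel))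
noncomputable def rh2edf0f50359cf5c2 : CRef := CRef.mk (Pat.mk 0x4000000000000001e00000002 0x10000000700000007000000030000001e00000006 5 5) 0 0 (step_sound _ 65 [(rh3244c3cc8379b070.shift 0 1), rhe7d208b70c184706] (by decide +kernel))
noncomputable def rh46a18fdc02aaa967 : CRef := CRef.mk (Pat.mk 0x20000000f800000040 0x37000000fe00000078 5 8) 0 0 (step_sound _ 4 [rh3b2b05f77630fe70, (rheb0810cc63b001d8.shift 3 0)] (by decide +kernel))
noncomputable def rh30f88917ca897635 : CRef := CRef.mk (Pat.mk 0x1c00000100 0xff000000fe000001c0 5 9) 0 0 (step_sound _ 37 [(rh0f1f75917d11acd2.shift 2 0), (rh4c622fddc53a5f99.shift 0 1), (rhc078b3dae8bdb359.shift 1 0)] (by decide +kernel))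
noncomputable def rhc967000a799847f7 : CRef := CRef.mk (Pat.mk 0x1c00000100 0xf000000fe000001cf 5 9) 0 0 (step_sound _ 37 [(rh4189d026c588653f.shift 1 0), rh592c7139d2c44767, (rhc078b3dae8bdb359.shift 1 0)] (by decide +kernel))
noncomputable def rhbbcb91e4e69473d1 : CRef := CRef.mk (Pat.mk 0xe000000400000000c00000008 0x2000000070000003e000000770000000c00000008 5 7) 0 0 (step_sound _ 66 [(rh2145e1d24b96a57e.shift 2 0), (rhaaa584095be142a6.shift 0 1)] (by decide +kernel))
noncomputable def rhdfb28ec9e8a5b241 : CRef := CRef.mk (Pat.mk 0x18000000180000000c00000004 0x20000003f0000001f0000000f00000004 5 6) 0 0 (step_sound _ 33 [rh483b36d2926fa52f, (rh53b3c253cb0c65f4.shift 0 1)] (by decide +kernel))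
noncomputable def rhc55f41ccd8b45a01 : CRef := CRef.mk (Pat.mk 0x400000006000000180000001000000000 0x180000003c0000000f000000180000001800000008 5 6) 0 0 (step_sound _ 99 [(rh61c7a83a1300bbb6.shift 1 0), (rhb739f4f82bb681b4.shift 0 2)] (by decide +kernel))
noncomputable def rh8e4a3ca8aa21e83d : CRef := CRef.mk (Pat.mk 0x4000000060000001a0000001200000000 0x180000003c0000000e0000001b0000001f00000008 5 6) 0 0 (step_sound _ 35 [(rh6e1685e3533aff0e.shift 0 1), (rhfce9cc94dfedd7c6.shift 1 0)] (by decide +kernel))
noncomputable def rhd9342f5793789f9a : CRef := CRef.mk (Pat.mk 0x4000000060000001a0000001000000000 0x40000000f0000001b0000001f0000000a 5 5) 0 0 (step_sound _ 99 [rh7d70e2e65a4f8551, (rhb739f4f82bb681b4.shift 0 2)] (by decide +kernel))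
noncomputable def rh885223d019c6e296 : CRef := CRef.mk (Pat.mk 0x1e0000000c00000008 0x600000006000000070000001e0000000f00000008 5 5) 0 0 (step_sound _ 33 [rh874a213df268dd65, (rheb0810cc63b001d8.shift 0 1)] (by decide +kernel))
noncomputable def rh46f16d35b6c1d372 : CRef := CRef.mk (Pat.mk 0x600000003000000060000000200000000 0x190000001f00000007000000060000000600000004 5 5) 0 0 (step_sound _ 34 [(rh55afc6a59410cf00.shift 1 0), (rha81916bd2c091619.shift 0 1)] (by decide +kernel))
noncomputable def rh9d9b064bebb3605d : CRef := CRef.mk (Pat.mk 0x4000000070000000400000030000000000000000000000000 0xa0000001e00000007000000040000003c0000000e0000000e0000000a 5 6) 0 0 (step_sound _ 98 [(rh4017de503635a93b.shift 0 3), (rh84a994e387d68e2f.shift 1 0), (rhe286c75f2739cce2.shift 1 2)] (by decide +kernel))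
noncomputable def rh8bbe4ceaae1efe77 : CRef := CRef.mk (Pat.mk 0x200000003000000060000000200000000 0xc0000001e00000007000000060000000600000006 5 5) 0 0 (step_sound _ 34 [(rh55afc6a59410cf00.shift 1 0), rhbdc736e7c68aa3b3] (by decide +kernel))
noncomputable def rha94eba71412b9d38 : CRef := CRef.mk (Pat.mk 0x1a00000038000000000000000000000000 0x8000000080000001b0000003f0000000e0000000400000004 5 6) 0 0 (step_sound _ 98 [(rh5c36e97be8af272f.shift 0 3), (rhcfde16a7ff36af03.shift 1 0)] (by decide +kernel))
noncomputable def rh4bf2f9462370443f : CRef := CRef.mk (Pat.mk 0x4000000020000000200000000000000020000000000000000 0x5000000070000000300000002000000060000000600000004 5 3) 0 0 (step_sound _ 97 [rh8ff3dde5b1c639e0, (rhbaefcd01e0a8bca3.shift 1 2)] (by decide +kernel))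
noncomputable def rh81a89e8b8715cc33 : CRef := CRef.mk (Pat.mk 0xc0000001c000000040000000400000000 0xc0000001c000000370000003e0000001a 5 6) 0 0 (step_sound _ 35 [rh20c29c94bc89e535, (rh55afc6a59410cf00.shift 2 0)] (by decide +kernel))
noncomputable def rh245c4add6bbc5798 : CRef := CRef.mk (Pat.mk 0x400000002000000180000001c00000000 0x40000000f0000001c0000001f0000000b 5 5) 0 0 (step_sound _ 33 [rh1004d00650209aee, (rh53b3c253cb0c65f4.shift 0 1)] (by decide +kernel))
noncomputable def rhfe763aeedfd677d7 : CRef := CRef.mk (Pat.mk 0x400000002000000180000003c000000000000000000000000 0x80000000c0000000f000000180000003c0000006c0000002000000020 5 7) 0 0 (step_sound _ 69 [rhad96261d3ec6aa9d, (rhe25b0a99195a5d59.shift 2 2)] (by decide +kernel))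
noncomputable def rh3d0ff1fe86a026fa : CRef := CRef.mk (Pat.mk 0x380000001800000008 0x4000000070000003f0000001f00000008 5 6) 0 0 (step_sound _ 66 [(rh775ca1963e850b80.shift 0 1), (rhb14e2588a8d71db8.shift 0 1), (rhba89ab7cb81bcc90.shift 0 1), (rhe4f9133a81c1dbc5.shift 1 0)] (by decide +kernel))
noncomputable def rha69b7014c57a74a9 : CRef := CRef.mk (Pat.mk 0x80000003800000018000000100000000000000000 0x140000001f0000003c000000180000001c0000000c00000004 5 6) 0 0 (step_sound _ 67 [(rh503dd4575245365b.shift 3 1), (rh79905f95cb2d899a.shift 0 2), (rhc4526fc8abf298b6.shift 2 0)] (by decide +kernel))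
noncomputable def rh19b2bbe2a87b1004 : CRef := CRef.mk (Pat.mk 0x38000000180000001000000008 0x140000003f0000001f0000001800000008 5 6) 0 0 (step_sound _ 35 [(rh5c5e593799055d58.shift 3 0), rhf37c6fa7e7b4e7c2] (by decide +kernel))
noncomputable def rh2dd651f8f9b0cdf5 : CRef := CRef.mk (Pat.mk 0x7000000030000001a00000011 0x2000000020000001a0000001f0000000b0000001b00000011 5 5) 0 0 (step_sound _ 129 [rh02f8541d9cf2aad5, rh79877ebd3ef475dd] (by decide +kernel))
noncomputable def rhe8e7286b99252a75 : CRef := CRef.mk (Pat.mk 0x200000006000000020000000000000000 0x10000000700000007000000070000000600000006000000060000000600000006 5 3) 0 0 (step_sound _ 161 [(rh0fa4a62bba50784f.shift 0 2), (rh7ef5fa5c39f1c762.shift 0 2), (rhca18712e5e5c7b8f.shift 1 0)] (by decide +kernel))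
noncomputable def rh790e417395f2af28 : CRef := CRef.mk (Pat.mk 0xc00000003000000020000000200000000 0x1000000030000001f00000003000000030000000300000001 5 5) 0 0 (step_sound _ 129 [(rh18965a982d73c794.shift 0 3), rh771d065bdc85bf2d] (by decide +kernel))
noncomputable def rh79b4850e0737c6c7 : CRef := CRef.mk (Pat.mk 0x1800000018000000100000001000000000 0x140000001f00000038000000180000001800000008 5 6) 0 0 (step_sound _ 35 [(rh932754581e0f4330.shift 3 0), (rhc0d27403de76d922.shift 0 1)] (by decide +kernel))
noncomputable def rh6ef0c00f4cfeb141 : CRef := CRef.mk (Pat.mk 0x20000000300000002000000000000000000000000 0x100000003000000030000000300000003000000070000000700000005 5 3) 0 0 (step_sound _ 65 [rh6eff4158bb400f47, (rh968ba7b0df7e4096.shift 0 1), (rhe286c75f2739cce2.shift 0 1)] (by decide +kernel))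
noncomputable def rh5a5d3607c6105e7b : CRef := CRef.mk (Pat.mk 0x40000000200000002000000120000000000000000 0x600000006000000020000001f0000000700000001 5 5) 0 0 (step_sound _ 33 [(rhbaefcd01e0a8bca3.shift 1 1), rhc0693af77a9e9811] (by decide +kernel))
noncomputable def rhd474430b4ffa505e : CRef := CRef.mk (Pat.mk 0x20000000a00000016000000000000000000000000 0xa0000000a0000000b0000001e0000000c0000000400000004 5 5) 0 0 (step_sound _ 99 [(rh3244c3cc8379b070.shift 0 3), (rh9e5f12e1f97a0f3d.shift 1 0)] (by decide +kernel))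
noncomputable def rhe380c42df720a63d : CRef := CRef.mk (Pat.mk 0x2000000020000000600000000 0x1000000030000000300000002000000030000000700000005 5 3) 0 0 (step_sound _ 129 [(rh55afc6a59410cf00.shift 1 0), rh771d065bdc85bf2d] (by decide +kernel))
noncomputable def rh124b8736b39446ea : CRef := CRef.mk (Pat.mk 0x2000000020000000200000002000000000000000000000000 0x3000000030000000300000006000000070000000700000005 5 3) 0 0 (step_sound _ 65 [rh6aa5625770489e83, rh8cdd36b03d57a2f6, rh8ff3dde5b1c639e0, (rhd29a1fb688eae70f.shift 1 1)] (by decide +kernel))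
noncomputable def rhe03933d511c256c8 : CRef := CRef.mk (Pat.mk 0xc0000000e000000180000001000000000 0xc0000000e0000001b0000001f0000000e 5 5) 0 0 (step_sound _ 35 [(rh7b1f1fb55310c477.shift 2 0), rh8dc6f25384ef0701] (by decide +kernel))
noncomputable def rh3f5c91607523fd66 : CRef := CRef.mk (Pat.mk 0xc00000002000000180000001000000000 0x180000003c0000000f000000180000001800000008 5 6) 0 0 (step_sound _ 99 [(rh2145e1d24b96a57e.shift 3 1), rh653e1a044592a43c] (by decide +kernel))
noncomputable def rh933ab3971aa79d28 : CRef := CRef.mk (Pat.mk 0x1c00000082 0x700000007e000000e3 5 8) 0 0 (step_sound _ 33 [(rh0f1f75917d11acd2.shift 1 0), rheb0810cc63b001d8] (by decide +kernel))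
noncomputable def rh43172e20cca0e4a6 : CRef := CRef.mk (Pat.mk 0x300000020800000060 0x1fc000003bf00000060 5 10) 0 0 (step_sound _ 34 [(rh06dcb19e21a0eafe.shift 2 1), (rh474430daf83b3188.shift 1 0), (rhbd2e91c3fdbfa961.shift 0 1)] (by decide +kernel))
noncomputable def rh99e2251b4930b5a4 : CRef := CRef.mk (Pat.mk 0xe000000000000000c00000008 0x7c0000001f000000040000000c0000000c 5 7) 0 0 (step_sound _ 66 [(rh2145e1d24b96a57e.shift 2 0), rh6ae1d99a9b0058f4] (by decide +kernel))
noncomputable def rh4eb92b8fbacb8f50 : CRef := CRef.mk (Pat.mk 0x7000000020000000600000004000000000000000000000000 0x400000007000000030000000600000006000000030000000300000003 5 3) 0 0 (step_sound _ 97 [rh000f75110575adc4, (rh2f68792b6b779e96.shift 1 3)] (by decide +kernel))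
noncomputable def rh90b958828706c85d : CRef := CRef.mk (Pat.mk 0x200000002000000320000000000000000 0x10000000300000003000000020000003f0000000f00000005 5 6) 0 0 (step_sound _ 33 [rh771d065bdc85bf2d, rhc36413e0a37e6551, (rhd98c38510daa35cb.shift 1 0)] (by decide +kernel))
noncomputable def rh847662810e4e0cac : CRef := CRef.mk (Pat.mk 0x20000000200000002000000000000000000000000 0x100000003000000030000000300000003000000070000000700000005 5 3) 0 0 (step_sound _ 65 [rh6eff4158bb400f47, (rh771d065bdc85bf2d.shift 0 1), rh8ff3dde5b1c639e0] (by decide +kernel))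
noncomputable def rhe2f7c1de7fd100cf : CRef := CRef.mk (Pat.mk 0x20000000200000032000000000000000000000000 0x100000003000000030000003e0000000f0000000700000005 5 6) 0 0 (step_sound _ 65 [(rh1ee5a357bdbd18e7.shift 0 1), rh46baee19951a66e7, rhc4526fc8abf298b6] (by decide +kernel))
noncomputable def rha04d70a23a331ab1 : CRef := CRef.mk (Pat.mk 0x200000006000000020000000200000016 0x40000000600000006000000020000000600000007000000030000001e 5 5) 0 0 (step_sound _ 32 [rh2fe78cc5ca4405d8, (rhf387e76ea145b531.shift 0 1)] (by decide +kernel))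
noncomputable def rh23c03c796ec155a3 : CRef := CRef.mk (Pat.mk 0xc0000001c000000080000001800000000 0x20000000f0000001c0000000e0000007c00000004 5 7) 0 0 (step_sound _ 34 [(rh932754581e0f4330.shift 2 0), (rhc97a246e65c86b18.shift 0 1)] (by decide +kernel))
noncomputable def rh895c5375da59f765 : CRef := CRef.mk (Pat.mk 0x400000004000000040000000400000000 0xa0000003e00000007000000040000000400000004 5 6) 0 0 (step_sound _ 129 [(rh50fbb5868c909700.shift 1 1), rh67f38977494a28b8] (by decide +kernel))
noncomputable def rh133c472556cb89a6 : CRef := CRef.mk (Pat.mk 0x40000001e000000180000001000000000 0x70000001e0000001f0000003300000002 5 6) 0 0 (step_sound _ 129 [(rh3244c3cc8379b070.shift 0 3), rh3e9223db32cad240] (by decide +kernel))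
noncomputable def rhdf1232a2f1837114 : CRef := CRef.mk (Pat.mk 0x80000001800000038000000000000000000000000 0x8000000180000003f0000003e0000001400000004 5 6) 0 0 (step_sound _ 68 [(rh7b1f1fb55310c477.shift 3 1), rhfff448ac9b6751e1] (by decide +kernel))
noncomputable def rh4be2e6a78b7c993f : CRef := CRef.mk (Pat.mk 0x1800000038000000000000000000000000 0x800000008000000180000003f0000007f0000000400000004 5 7) 0 0 (step_sound _ 98 [(rhcc2be1f880c5ea3e.shift 0 2), (rhcfde16a7ff36af03.shift 1 0), (rhe153806bfe3acc65.shift 0 2)] (by decide +kernel))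
noncomputable def rhcbaa34959f85e2ef : CRef := CRef.mk (Pat.mk 0x600000006000000020000000200000000 0x300000003000000030000000600000006000000060000000600000004 5 3) 0 0 (step_sound _ 34 [(rh4b685788b9557979.shift 0 1), (rh55afc6a59410cf00.shift 1 0)] (by decide +kernel))
noncomputable def rhba986975ba1103df : CRef := CRef.mk (Pat.mk 0x80000001c00000038000000000000000000000000 0x40000000c0000001c000000380000001f0000000c0000000c 5 6) 0 0 (step_sound _ 67 [(rh40241bd608e5be1a.shift 2 0), (rh46530d756bdf8511.shift 2 0), (rhcc0ec44f4a77daad.shift 0 1)] (by decide +kernel))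
end Crest.Agent.S0047.Helper85.Cert
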