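import Crest.Agent.Lib.S0047.Helper85CertPL4F0
import Crest.Agent.Lib.S0047.Helper85CertPL4F1
import Crest.Agent.Lib.S0047.Helper85CertPL4F2
import Crest.Agent.Lib.S0047.Helper85CertPL4F3
import Crest.Agent.Lib.S0047.Helper85CertPL4F4
import Crest.Agent.Lib.S0047.Helper85CertPL4F5
import Crest.Agent.Lib.S0047.Helper85CertPL4F6
import Crest.Agent.Lib.S0047.Helper85CertPL4F7
import Crest.Agent.Lib.S0047.Helper85CertPL4F8
import Crest.Agent.Lib.S0047.Helper85CertPL4F9
set_option autoImplicit false
set_option linter.all false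
set_option Elab.async false
namespace Crest.Agent.S0047.Helper85.Cert
open Crest.Agent.S0047.Helper85

noncomputable def rhb7d2787f9e95c9f7 : CRef := CRef.mk (Pat.mk 0x1e000000040000000000000000 0x800000008000000380000001f0000000c0000000400000004 5 6) 0 0 (step_sound _ 132 [(rh33e738c4ed385b9f.shift 1 3), rha4c7650dd909b849] (by decide +kernel))
noncomputable def rhc2680b32c4ede2b7 : CRef := CRef.mk (Pat.mk 0x80000001c000000040000000000000000 0x20000003b0000001f000000070000000400000004 5 6) 0 0 (step_sound _ 34 [(rh71222050f2c63a3a.shift 2 0), (rha8e118612a5545ec.shift 0 1)] (by decide +kernel))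
noncomputable def rh4f65a6bf45642e69 : CRef := CRef.mk (Pat.mk 0x200000002000000070000000200000000 0x40000000600000006000000070000001e0000000e 5 5) 0 0 (step_sound _ 34 [(rh55afc6a59410cf00.shift 1 0), rha0fd105268ab6567] (by decide +kernel))
noncomputable def rhabb51c13015db964 : CRef := CRef.mk (Pat.mk 0x8000000080000001c0000000c00000000 0x40000000c0000000f0000001c0000000f0000000a 5 5) 0 0 (step_sound _ 130 [rh445b3ce381be5c68, (rh50fbb5868c909700.shift 2 1)] (by decide +kernel))
noncomputable def rh9e40127d03ffcc22 : CRef := CRef.mk (Pat.mk 0xc0000001c000000040000000c00000000 0x40000000c0000001c0000003f0000000f00000002 5 6) 0 0 (step_sound _ 67 [(rh50fbb5868c909700.shift 2 1), rh9f10f9c198f00e65] (by decide +kernel))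
noncomputable def rh83e6822671e0ac4d : CRef := CRef.mk (Pat.mk 0x100000001e00000000 0x1000000010000000100000003e00000077 5 7) 0 0 (step_sound _ 5 [rh79abee73a6b91c48, (rh96851dee118c1ba3.shift 1 0)] (by decide +kernel))
noncomputable def rh26cdfd0ee59ad7b2 : CRef := CRef.mk (Pat.mk 0x8000000080000000c0000000e00000000 0x40000000c0000000c0000000c0000007e00000013 5 7) 0 0 (step_sound _ 36 [(rh55afc6a59410cf00.shift 3 0), rh8d6a04af6e2674c4] (by decide +kernel))
noncomputable def rh3d7e7cc4c51f6d01 : CRef := CRef.mk (Pat.mk 0x240000003800000010 0x2000000020000000360000003e00000017 5 6) 0 0 (step_sound _ 34 [(rh3244c3cc8379b070.shift 1 1), rhcafedc0c9cbeea78] (by decide +kernel))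
noncomputable def rhd3c9450a5a980233 : CRef := CRef.mk (Pat.mk 0x18000000060000000000000000 0x2000000030000003e000000070000000400000004 5 6) 0 0 (step_sound _ 98 [(rh18965a982d73c794.shift 1 2), rh7235e22a26ce31fe] (by decide +kernel))
noncomputable def rh5f276b94a38ceba1 : CRef := CRef.mk (Pat.mk 0x1c00000004 0x770000003e00000006 5 7) 0 0 (step_sound _ 37 [(rh61325f73ebf98108.shift 0 1), (rheb0810cc63b001d8.shift 1 0)] (by decide +kernel))
noncomputable def rh95c33204f0b463ff : CRef := CRef.mk (Pat.mk 0x1c00000004 0xff0000007e000000ec 5 8) 0 0 (step_sound _ 37 [(rh35e918dd76851f8c.shift 2 0), (rh4c6d407c2048a5bb.shift 1 0), (rh61325f73ebf98108.shift 0 1)] (by decide +kernel))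
noncomputable def rh846b171e1ea44eb6 : CRef := CRef.mk (Pat.mk 0x80000000e000000040000000000000000 0x2000000020000000f0000003e000000070000000400000004 5 6) 0 0 (step_sound _ 34 [(rh71222050f2c63a3a.shift 2 0), (rh9702936eb3f7b944.shift 0 1)] (by decide +kernel))
noncomputable def rh5fafc04cd9ebd0b4 : CRef := CRef.mk (Pat.mk 0x40000000f000000040000000400000000 0x40000001f0000003c0000001e0000000a 5 6) 0 0 (step_sound _ 68 [(rh96851dee118c1ba3.shift 0 2), (rhcec3c4536dfb55af.shift 1 0)] (by decide +kernel))
noncomputable def rh404e8af4a6aeb81d : CRef := CRef.mk (Pat.mk 0x180000001e000000180000000000000000 0x1b0000001e0000001f0000003000000030 5 6) 0 0 (step_sound _ 129 [(rh3244c3cc8379b070.shift 0 3), rhfd6c0d243878f96f] (by decide +kernel))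
noncomputable def rha35991e704852e98 : CRef := CRef.mk (Pat.mk 0x80000000d000000070000000000000000 0x40000001c0000000f0000001f0000001800000008 5 5) 0 0 (step_sound _ 97 [(rh33e738c4ed385b9f.shift 0 3), rh810a36d9e833e45d] (by decide +kernel))
noncomputable def rh262452ce8c1f8def : CRef := CRef.mk (Pat.mk 0x10000000180000000e00000000 0x3000000030000000300000001f0000003e00000030 5 6) 0 0 (step_sound _ 132 [rh418134fc08953c2d, (rh5c5e593799055d58.shift 3 1)] (by decide +kernel))
noncomputable def rhe26a032c48286cb0 : CRef := CRef.mk (Pat.mk 0x80000000e000000000000000400000000 0x2000000020000000f0000003e000000070000000400000004 5 6) 0 0 (step_sound _ 66 [(rh71222050f2c63a3a.shift 2 0), (rh9702936eb3f7b944.shift 0 1)] (by decide +kernel))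
noncomputable def rh689b9d3139276148 : CRef := CRef.mk (Pat.mk 0x180000000c000000040000000400000000 0x120000001f0000003c0000000f0000003c00000018 5 6) 0 0 (step_sound _ 35 [rh09523eec71061f6e, rh0b48232756d2831b] (by decide +kernel))
noncomputable def rh40867c009ec4d469 : CRef := CRef.mk (Pat.mk 0x80000000e000000040000000000000000 0x2000000020000000f0000003e000000060000000400000004 5 6) 0 0 (step_sound _ 34 [(rh104a142e7acfc826.shift 0 1), (rh71222050f2c63a3a.shift 2 0)] (by decide +kernel))
noncomputable def rh9e9aa24ca6c8cf7a : CRef := CRef.mk (Pat.mk 0x4000000040000001c0000000e00000000 0x80000000c0000000c0000001f0000003e00000014 5 6) 0 0 (step_sound _ 131 [(rh2f68792b6b779e96.shift 2 1), rh91029ba5a9b1a8c8] (by decide +kernel))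
noncomputable def rh79292a8ffdc19d6a : CRef := CRef.mk (Pat.mk 0x8000000180000000e00000004000000000000000000000000 0x60000000f0000001e0000000e0000003c000000180000001800000008 5 6) 0 0 (step_sound _ 99 [(rh42afa1af9fffa0e1.shift 1 2), (rh4f66b8b299b10e60.shift 2 0), (rh501207f89dcab93e.shift 0 3)] (by decide +kernel))
noncomputable def rh329d59e7f7a3e0d6 : CRef := CRef.mk (Pat.mk 0x1800000018000000080000001c 0x70000001f0000001c0000000f0000003c 5 6) 0 0 (step_sound _ 98 [(rh50fbb5868c909700.shift 2 0), rhfd668a9e26de0323] (by decide +kernel))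
noncomputable def rh1f8790d8851d9374 : CRef := CRef.mk (Pat.mk 0x600000006000000020000000200000000 0x200000002000000030000000700000006000000070000000300000001 5 3) 0 0 (step_sound _ 128 [(rh50fbb5868c909700.shift 0 1), rhea90e7358341a1a4] (by decide +kernel))
noncomputable def rhf3b423a4ef564285 : CRef := CRef.mk (Pat.mk 0x180000001800000018 0x1c0000001f000000380000001800000018 5 6) 0 0 (step_sound _ 100 [(rh5c5e593799055d58.shift 3 0), rh60310a71edd4a6ab] (by decide +kernel))
noncomputable def rh2a61bf30458103a1 : CRef := CRef.mk (Pat.mk 0x10000000180000000c0000000800000000 0x800000018000000180000001f0000007c00000010 5 7) 0 0 (step_sound _ 65 [(rh53b3c253cb0c65f4.shift 0 2), (rhd976812034deadf3.shift 1 0)] (by decide +kernel))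
noncomputable def rhd28f66e86fda7dee : CRef := CRef.mk (Pat.mk 0x180000000c0000000800000000 0x800000008000000180000001f0000003c00000014 5 6) 0 0 (step_sound _ 65 [(rh53b3c253cb0c65f4.shift 0 2), (rh64191fc31e6b1e16.shift 1 0)] (by decide +kernel))
noncomputable def rh4eb52541b40f9d72 : CRef := CRef.mk (Pat.mk 0x180000001c000000080000001000000000 0x180000001f0000003f0000003000000020 5 6) 0 0 (step_sound _ 97 [(rh53b3c253cb0c65f4.shift 0 3), rh8ec6931db7a49940] (by decide +kernel))
noncomputable def rh7605cec361e7594d : CRef := CRef.mk (Pat.mk 0x600000007000000020000000600000000 0x80000001e00000007000000070000003e00000008 5 6) 0 0 (step_sound _ 131 [(rh18965a982d73c794.shift 0 3), rhbe29180e1626a757] (by decide +kernel))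
noncomputable def rhd348c3004d8c50b5 : CRef := CRef.mk (Pat.mk 0x1c000000180000000800000004 0xb0000001f0000001c0000000f00000004 5 5) 0 0 (step_sound _ 34 [(rh5c5e593799055d58.shift 2 0), rh927dfe6ab8056394] (by decide +kernel))
noncomputable def rh22ec5234dc4593a9 : CRef := CRef.mk (Pat.mk 0x200000002000000020000000f00000000 0x400000006000000060000001e0000000f0000001a 5 5) 0 0 (step_sound _ 67 [(rh33e738c4ed385b9f.shift 0 1), rhff9088ea106d0623] (by decide +kernel))
noncomputable def rhbba2a7979e807562 : CRef := CRef.mk (Pat.mk 0x80000000c000000060000000400000000 0x20000000b0000003e0000003e0000003c00000010 5 6) 0 0 (step_sound _ 100 [(rh18965a982d73c794.shift 1 2), rhefb8b0e6b32d1121] (by decide +kernel))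
noncomputable def rhe8e1581ee0e9dc03 : CRef := CRef.mk (Pat.mk 0x40000000400000016000000020000000000000000 0x4000000040000001f0000003f0000000800000008 5 6) 0 0 (step_sound _ 99 [rh42c212064b599c2b, (rheb0810cc63b001d8.shift 0 2)] (by decide +kernel))
noncomputable def rhd4fe760ed5639bc8 : CRef := CRef.mk (Pat.mk 0x80000003800000004 0x3f0000003f00000006 5 6) 0 0 (step_sound _ 34 [(rh915c3ff3d4fe3a39.shift 0 1), (rheb0810cc63b001d8.shift 1 0)] (by decide +kernel))
noncomputable def rh188f5ec46134dc0b : CRef := CRef.mk (Pat.mk 0x40000000c0000000e0000000200000000 0x80000000c0000000c0000001e0000003b00000018 5 6) 0 0 (step_sound _ 68 [(rhb848572c2b751f6f.shift 1 0), (rheb0810cc63b001d8.shift 0 1)] (by decide +kernel))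
noncomputable def rhd25ccdd47059fa78 : CRef := CRef.mk (Pat.mk 0xc0000000600000002 0x3f0000003f00000003 5 6) 0 0 (step_sound _ 68 [(rh18965a982d73c794.shift 1 1), rhc16ec7475162ebde] (by decide +kernel))
noncomputable def rhb2b31770788dded8 : CRef := CRef.mk (Pat.mk 0x2000000020000000e000000010000000000000000 0x6000000060000001e000000070000000600000006 5 5) 0 0 (step_sound _ 65 [(rh18965a982d73c794.shift 0 2), (rhca18712e5e5c7b8f.shift 1 0)] (by decide +kernel))
noncomputable def rh2da13a5a73e0cdbe : CRef := CRef.mk (Pat.mk 0x2000000020000000b0000000300000000 0x500000007000000020000001b0000001f00000004 5 5) 0 0 (step_sound _ 130 [(rh2f68792b6b779e96.shift 1 1), rh5646077d50880e6b] (by decide +kernel))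
noncomputable def rhd699ae2018e567fb : CRef := CRef.mk (Pat.mk 0x180000000e0000000000000000 0x8000000080000001c000000fe0000003700000010 5 8) 0 0 (step_sound _ 68 [(rhb447f348b8f2aaa5.shift 0 1), (rhea719cc8bd0bdd28.shift 1 0)] (by decide +kernel))
noncomputable def rha0f7e92d30f83e91 : CRef := CRef.mk (Pat.mk 0xc000000070000000400000000 0x600000006000000060000000e0000000f0000001e00000008 5 5) 0 0 (step_sound _ 130 [rh548ca695070b4cbb, (rha86cc6850bd41e55.shift 1 1), (rhd2c74283b7b6e6b8.shift 1 1)] (by decide +kernel))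
noncomputable def rh3d71e93300bd048d : CRef := CRef.mk (Pat.mk 0x40000001c0000000e0000000200000000 0x80000000c0000001c0000001e0000003b00000018 5 6) 0 0 (step_sound _ 68 [(rh78318e74e44bb80d.shift 1 0), (rheb0810cc63b001d8.shift 0 1)] (by decide +kernel))
noncomputable def rh4949152dc5942436 : CRef := CRef.mk (Pat.mk 0x1c0000001c000000080000000800000000 0xa0000001f0000001f0000000c0000000c00000004 5 5) 0 0 (step_sound _ 97 [(rh53b3c253cb0c65f4.shift 0 3), rhb71748adeac66553] (by decide +kernel))
noncomputable def rh2d49c0ea23731b37 : CRef := CRef.mk (Pat.mk 0x1c0000001c000000080000000800000000 0x600000007f0000001c000000180000001800000010 5 7) 0 0 (step_sound _ 129 [(rhb739f4f82bb681b4.shift 0 3), (rhe5f1d6f0879cdb28.shift 2 0)] (by decide +kernel))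
noncomputable def rh0d53ff10fbe74866 : CRef := CRef.mk (Pat.mk 0x40000000e00000002 0xec0000007e00000007 5 8) 0 0 (step_sound _ 36 [rheb0810cc63b001d8, (rhf69eab89e5fbfa83.shift 1 0)] (by decide +kernel))
noncomputable def rh37bb8d43e96e3f1e : CRef := CRef.mk (Pat.mk 0x3800000058 0x670000003f00000078 5 7) 0 0 (step_sound _ 34 [(rh2fe78cc5ca4405d8.shift 2 0), rhf36fa81e239f1586] (by decide +kernel))
noncomputable def rh5e37e6ddc7c193ad : CRef := CRef.mk (Pat.mk 0x8000000180000000c0000000400000000 0x80000001b0000003f0000003700000010 5 6) 0 0 (step_sound _ 65 [(rh53b3c253cb0c65f4.shift 0 2), rhf09ca949b7d6bd7a] (by decide +kernel))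
noncomputable def rhaffc1da1130eb56c : CRef := CRef.mk (Pat.mk 0xc000000080000001c0000000600000000 0x100000003c0000000f0000001c0000000e0000000a 5 6) 0 0 (step_sound _ 98 [(rh932754581e0f4330.shift 1 0), rh9a3bfb7fb0179462] (by decide +kernel))
noncomputable def rh8dade4763de58752 : CRef := CRef.mk (Pat.mk 0x10000000180000001e0000000000000000 0x28000000380000001f0000001e0000001000000010 5 6) 0 0 (step_sound _ 97 [(rh3244c3cc8379b070.shift 0 2), (rhe6fcf08f32c9a99d.shift 1 0)] (by decide +kernel))
noncomputable def rh60ceebc1c1642da5 : CRef := CRef.mk (Pat.mk 0x8000000080000000d0000000600000000 0x40000000c0000001c0000000f0000001e0000000a 5 5) 0 0 (step_sound _ 65 [(rh33e738c4ed385b9f.shift 0 2), rh8d229caf536b709f] (by decide +kernel))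
noncomputable def rh328a12483ec065f3 : CRef := CRef.mk (Pat.mk 0x8000000180000000e00000004 0x20000000f0000001f0000003e00000007 5 6) 0 0 (step_sound _ 36 [rha7c39a327e399e52, rhaf9f2efc81a8312b, rhfcbe31f2f547bfce] (by decide +kernel))
noncomputable def rh4584b9929e6377eb : CRef := CRef.mk (Pat.mk 0x80000001e000000080000000800000000 0x80000003e0000001f0000007800000010 5 7) 0 0 (step_sound _ 65 [(rheb0810cc63b001d8.shift 0 2), (rhfce3931ff5b5956e.shift 1 0)] (by decide +kernel))
noncomputable def rh4b68e5329d6bf156 : CRef := CRef.mk (Pat.mk 0xc0000000e000000050000000000000000 0xc0000001e0000000f0000003c0000000c 5 6) 0 0 (step_sound _ 65 [rh17038b5ac487329e, (rh18965a982d73c794.shift 0 2)] (by decide +kernel))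
noncomputable def rhc981b08dd081dee0 : CRef := CRef.mk (Pat.mk 0x1a0000001e0000000800000000 0x14000000340000001e0000001e0000000b00000002 5 6) 0 0 (step_sound _ 33 [(rheb0810cc63b001d8.shift 0 1), (rhf12acb2a3ab3840e.shift 1 0)] (by decide +kernel))
noncomputable def rhba5651e75a980bf0 : CRef := CRef.mk (Pat.mk 0xa0000000700000004 0x1b0000003f00000076 5 7) 0 0 (step_sound _ 35 [(rh33e738c4ed385b9f.shift 0 1), rha086f24fc46b4198] (by decide +kernel))
noncomputable def rhbb67f86ec9825b9a : CRef := CRef.mk (Pat.mk 0xe0000000200000000 0x200000002000000030000003e0000000700000004 5 6) 0 0 (step_sound _ 68 [(rheb0810cc63b001d8.shift 0 1), rhef50fe823a140c7d] (by decide +kernel))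
noncomputable def rhffe2182b7575a0bb : CRef := CRef.mk (Pat.mk 0x100000001e0000001200000000 0x8000000080000001b0000003f0000001600000010 5 6) 0 0 (step_sound _ 34 [(rh18965a982d73c794.shift 1 1), rh31eb3cae7b44eddb] (by decide +kernel))
noncomputable def rh715c242616baed8b : CRef := CRef.mk (Pat.mk 0x20000001c0000000000000000 0x400000004000000070000003e0000000300000002 5 6) 0 0 (step_sound _ 65 [(rh3244c3cc8379b070.shift 0 2), rha8148b9bb2ff3cb1] (by decide +kernel))
noncomputable def rh3bd055cf819182eb : CRef := CRef.mk (Pat.mk 0xe0000000400000004 0x2000000730000003e0000007700000004 5 7) 0 0 (step_sound _ 68 [(rh3fc3a7fb6866dcd4.shift 1 1), rhe4f9133a81c1dbc5] (by decide +kernel))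
noncomputable def rhe92ab359b903e1d1 : CRef := CRef.mk (Pat.mk 0x80000000c000000070000000400000000 0x400000006000000060000000e0000000e0000000f0000003c00000008 5 6) 0 0 (step_sound _ 130 [(rh865cf161b9b29643.shift 1 1), (rha86cc6850bd41e55.shift 1 1), rhd9397e4126e81439, rhdd2601c875e3d18f] (by decide +kernel))
noncomputable def rhbf8d76b193b163fc : CRef := CRef.mk (Pat.mk 0x14000000180000000800000008 0x4000000040000003c0000001f0000003800000008 5 6) 0 0 (step_sound _ 130 [(rh317b2faed0dc7f3b.shift 0 1), (rhcfdf45280693d3da.shift 2 0)] (by decide +kernel))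
noncomputable def rhde6aa733ddf0851c : CRef := CRef.mk (Pat.mk 0x10000000180000000e0000000000000000 0x8000000380000001f000000fe0000007300000010 5 8) 0 0 (step_sound _ 68 [(rh2f5f69c8c7ba334f.shift 0 1), (rh76c4edc656936505.shift 1 1), (rhea719cc8bd0bdd28.shift 1 0)] (by decide +kernel))
noncomputable def rh50ef8aeceab30434 : CRef := CRef.mk (Pat.mk 0x60000001e000000020000000200000000 0x1000000030000003e0000001e000000060000000600000004 5 6) 0 0 (step_sound _ 34 [(rh55afc6a59410cf00.shift 1 0), (rhbe041a1165b69e26.shift 0 1)] (by decide +kernel))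
noncomputable def rhd673fe3b0daa2732 : CRef := CRef.mk (Pat.mk 0x180000000e0000000400000004 0x2000000020000001f000000fe0000007c00000004 5 8) 0 0 (step_sound _ 68 [rh0c04b97cec8b3249, (rh2cd553aa768cc9c0.shift 1 1), (rh31b96bf68293d1ba.shift 1 1), rheddd3d8f7db62149] (by decide +kernel))
noncomputable def rh1ba14daf07ce2b1d : CRef := CRef.mk (Pat.mk 0xa0000000c000000040000000400000000 0x4000000040000000f0000003c0000000e0000000e00000002 5 6) 0 0 (step_sound _ 130 [(rh6292bd8784ece55f.shift 0 3), (rhad2e5f3a7ec95118.shift 1 0)] (by decide +kernel))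
noncomputable def rhc0eb78c4fca2b39e : CRef := CRef.mk (Pat.mk 0x500000006000000020000000200000000 0x2000000030000000700000006000000070000000700000001 5 3) 0 0 (step_sound _ 129 [(rh50fbb5868c909700.shift 0 1), rhad2e5f3a7ec95118] (by decide +kernel))
noncomputable def rh391f4472eb57537b : CRef := CRef.mk (Pat.mk 0x1e000000180000000000000000 0x8000000080000003e0000001f0000003000000010 5 6) 0 0 (step_sound _ 65 [(rh3d0404269046c5d2.shift 1 0), (rheb0810cc63b001d8.shift 0 2)] (by decide +kernel))
noncomputable def rh726166dfdd761e81 : CRef := CRef.mk (Pat.mk 0x10000000180000001e0000000800000000 0x800000018000000180000003e0000003f00000004 5 6) 0 0 (step_sound _ 36 [rhe13d654486ddf91d, (rhe25b0a99195a5d59.shift 1 1)] (by decide +kernel))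
noncomputable def rhd1b2ab4d6a89f457 : CRef := CRef.mk (Pat.mk 0x1e0000000800000008 0x4000000040000000f0000003e0000003800000008 5 6) 0 0 (step_sound _ 36 [rh3e34a007a92efc93, (rhe25b0a99195a5d59.shift 1 1)] (by decide +kernel))
noncomputable def rh72647915080d7d02 : CRef := CRef.mk (Pat.mk 0xa0000001e000000000000000000000000 0x20000000a0000003e000000370000000400000004 5 6) 0 0 (step_sound _ 68 [rh5002fd5ca5291a69, (rhe25b0a99195a5d59.shift 1 2)] (by decide +kernel))
noncomputable def rha28030fabcd97406 : CRef := CRef.mk (Pat.mk 0x10000000180000000c0000000800000000 0xc0000001e000000780000000f0000000c00000004 5 7) 0 0 (step_sound _ 65 [(rh53b3c253cb0c65f4.shift 0 2), (rhef1fef9b2fe09d8c.shift 1 0)] (by decide +kernel))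
noncomputable def rh5fac114b21d4a090 : CRef := CRef.mk (Pat.mk 0x10000000180000000e0000000000000000 0xa0000003b0000001f0000001e0000003400000014 5 6) 0 0 (step_sound _ 97 [rh0eba255d854412ca, rh9458e878ee940312] (by decide +kernel))
noncomputable def rh0cb2fd80825d0e37 : CRef := CRef.mk (Pat.mk 0x40000000c0000000700000002000000000000000000000000 0xc0000000e000000070000001e0000000c0000000c0000000c 5 5) 0 0 (step_sound _ 98 [(rh3470fcd67ff81181.shift 1 0), (rh42afa1af9fffa0e1.shift 0 2), (rh8379dda7bed67b0f.shift 1 0)] (by decide +kernel))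
noncomputable def rh8d66ed37db62efc3 : CRef := CRef.mk (Pat.mk 0x380000000c0000000400000004000000000000000000000000 0x720000003e0000000c0000000f0000003c000000180000000800000008 5 7) 0 0 (step_sound _ 99 [(rh046c5eb18e55a239.shift 2 0), (rh0b48232756d2831b.shift 0 2), (rh2fba133a7dfa2331.shift 1 2)] (by decide +kernel))
noncomputable def rh898fe8f31f8f137d : CRef := CRef.mk (Pat.mk 0x8000000180000000e00000004 0x20000000f0000001f000000fe0000000f 5 8) 0 0 (step_sound _ 36 [rh361078a933aacf43, rh9e4a4fa661ab7448, rhaf9f2efc81a8312b, rhfcbe31f2f547bfce] (by decide +kernel))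
noncomputable def rhf11640b0da92086c : CRef := CRef.mk (Pat.mk 0x4000000000000001c0000000600000002 0x600000006000000030000001f0000003e00000003 5 6) 0 0 (step_sound _ 65 [(rh075c58b8bd52f215.shift 0 1), (rhc6719c6594e47b00.shift 0 1), rhf6d72ac90bd26cb0] (by decide +kernel))
noncomputable def rhee77a3fe4d16747f : CRef := CRef.mk (Pat.mk 0x20000000e000000030000000600000000 0x60000000e0000001b0000001f00000019 5 5) 0 0 (step_sound _ 32 [rh46d94ef482239556, rh932754581e0f4330] (by decide +kernel))
noncomputable def rha966122faacc1d2e : CRef := CRef.mk (Pat.mk 0x1c0000000c000000080000000c00000000 0x80000001c0000000f0000003c0000000f00000002 5 6) 0 0 (step_sound _ 66 [rh2daff436fbd6cc69, (rh2f68792b6b779e96.shift 2 1)] (by decide +kernel))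
noncomputable def rh18c677c17116583b : CRef := CRef.mk (Pat.mk 0x200000001c000000040000000000000000 0x200000002000000370000001e000000040000000400000004 5 6) 0 0 (step_sound _ 97 [(rh428265de8cd3cd2d.shift 1 3), rhd5889c99d29bf7d6] (by decide +kernel))
noncomputable def rh9db01fbc8232eac9 : CRef := CRef.mk (Pat.mk 0xe00000002 0x380000001f0000003b 5 6) 0 0 (step_sound _ 36 [rh3e1b7b343686dca1, rheb0810cc63b001d8] (by decide +kernel))
noncomputable def rh4e6c5a7f6fc4c362 : CRef := CRef.mk (Pat.mk 0x80000000c00000008000000180000000000000000 0xc0000000c0000000f0000003c0000000c00000008 5 6) 0 0 (step_sound _ 66 [rh0472ea5f0562a0d2, (rh932754581e0f4330.shift 2 1)] (by decide +kernel))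
noncomputable def rh52d627a795ac4e6c : CRef := CRef.mk (Pat.mk 0xa0000000300000002000000040000000000000000 0xa0000000a0000000b0000001e0000000c0000000400000004 5 5) 0 0 (step_sound _ 98 [(rh2145e1d24b96a57e.shift 1 2), rh700158ad6001656e] (by decide +kernel))
noncomputable def rh5ff210a8cfa3e51c : CRef := CRef.mk (Pat.mk 0x100000001000000018000000080000000000000000 0x100000003f000000fe0000007c0000002000000020 5 8) 0 0 (step_sound _ 101 [(rh04048a4a2acf2c94.shift 2 2), rh807d482b3ee4b0c5, (rha83d0a1d851c6a27.shift 2 2)] (by decide +kernel))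
noncomputable def rh8ac3084f852f5d2c : CRef := CRef.mk (Pat.mk 0xf0000000b0000000000000000 0x40000001c0000000f0000000f0000001c0000001c 5 5) 0 0 (step_sound _ 131 [(rh33e738c4ed385b9f.shift 0 3), rh5ca7e9153c2320ee] (by decide +kernel))
noncomputable def rh29de00e83d9cefcd : CRef := CRef.mk (Pat.mk 0xe000000100000000000000000 0x10000000300000001f000000380000000800000008 5 6) 0 0 (step_sound _ 100 [rh833381308a6c8cf7, (rhe25b0a99195a5d59.shift 1 2)] (by decide +kernel))
noncomputable def rhd874854b53e4228b : CRef := CRef.mk (Pat.mk 0x2000000030000000600000002000000000000000000000000 0x2000000030000000700000007000000070000000300000002 5 3) 0 0 (step_sound _ 98 [rh1152aee0afa96cae, (rh55afc6a59410cf00.shift 1 2)] (by decide +kernel))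
noncomputable def rh2586d1810f2e3a9a : CRef := CRef.mk (Pat.mk 0x80000000e0000000b0000000000000000 0x40000000c0000000c0000000e0000000f0000001e0000000e 5 5) 0 0 (step_sound _ 130 [(rh0182d199955ec3ce.shift 1 0), (rh35ab8589afe62dd0.shift 1 1), rhc13c80fddf288e56] (by decide +kernel))
noncomputable def rh5e2873dff0a356e8 : CRef := CRef.mk (Pat.mk 0x180000001e0000000000000000 0x8000000080000001f0000003e0000003000000010 5 6) 0 0 (step_sound _ 36 [rh5e0b99043b8dda1b, (rhe25b0a99195a5d59.shift 1 1)] (by decide +kernel))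
noncomputable def rhed31fe3d3cc5e5ee : CRef := CRef.mk (Pat.mk 0x40000000f000000030000000200000000 0x1c0000000f0000001b0000001e0000000c 5 5) 0 0 (step_sound _ 67 [rhc6740ea15e0d7784, (rhe25b0a99195a5d59.shift 0 2)] (by decide +kernel))
noncomputable def rh4f9757f8ed44b91e : CRef := CRef.mk (Pat.mk 0x80000001c000000060000000400000000 0x20000000b0000001e0000003e0000003c00000010 5 6) 0 0 (step_sound _ 97 [(rh309fd0c3d364cd61.shift 0 1), (rh874593e3f05c8191.shift 1 0)] (by decide +kernel))
noncomputable def rh6300883d1f687102 : CRef := CRef.mk (Pat.mk 0x400000004000000060000000a0000000000000000 0x4000000070000003e0000000f0000000800000008 5 6) 0 0 (step_sound _ 35 [rh0b3ded462f6cc1c6, (rhbe0e43a3bc50a43f.shift 2 1)] (by decide +kernel))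
noncomputable def rh990c9b4b894ef13e : CRef := CRef.mk (Pat.mk 0x18000000180000000800000004 0x8000000380000003f0000000f00000004 5 6) 0 0 (step_sound _ 34 [(rh5c5e593799055d58.shift 2 0), (rhea6e6080790f38b5.shift 0 1)] (by decide +kernel))
noncomputable def rha4b2d01b942dac20 : CRef := CRef.mk (Pat.mk 0x1800000010000000180000001800000000 0x20000000780000001e000000780000003f00000007 5 7) 0 0 (step_sound _ 34 [rha5e87fdea5a2a125, (rhaac4eca025ee7762.shift 1 0), (rhf9d36e158778ce35.shift 1 1)] (by decide +kernel))
noncomputable def rh3e6c315caf6f8b94 : CRef := CRef.mk (Pat.mk 0xc000000080000000c0000000800000000 0xc0000000c0000003c0000000f0000000e 5 6) 0 0 (step_sound _ 34 [(rh932754581e0f4330.shift 2 0), rha7ab19b0c62ea737] (by decide +kernel))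
noncomputable def rhed310c43d1bb1612 : CRef := CRef.mk (Pat.mk 0x1800000010000000180000000000000000 0x240000007f0000003e000000180000001800000018 5 7) 0 0 (step_sound _ 99 [(rh677e6fbb651585de.shift 1 0), rhc24ef288f4895ae7] (by decide +kernel))
noncomputable def rh1878020f69e9d46b : CRef := CRef.mk (Pat.mk 0x8000000180000001800000008 0x40000000f0000007c0000001e00000008 5 7) 0 0 (step_sound _ 98 [(rh50fbb5868c909700.shift 2 0), (rh9dd4739bdb597b40.shift 0 1)] (by decide +kernel))
noncomputable def rh9bf22e708841bd13 : CRef := CRef.mk (Pat.mk 0x8000000080000000c0000000c00000000 0x40000000c0000000c0000000f0000003c00000018 5 6) 0 0 (step_sound _ 130 [(rh50fbb5868c909700.shift 2 1), rhfae8098f6a2d3a7b] (by decide +kernel))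
noncomputable def rhfe7835e19c9c4d3b : CRef := CRef.mk (Pat.mk 0x8000000080000000c0000000000000000 0x140000001c0000001c0000001f0000007800000018 5 7) 0 0 (step_sound _ 35 [rh42e615827c8908b1, (rhc4055b4872d6fb38.shift 2 0)] (by decide +kernel))
noncomputable def rhe57843cdfa259fd4 : CRef := CRef.mk (Pat.mk 0x10000000100000001c00000002 0x300000001f0000003f00000003 5 6) 0 0 (step_sound _ 33 [(rh7a32c57a7c61d0c8.shift 0 1), rheb0810cc63b001d8] (by decide +kernel))
noncomputable def rh67fae0f1b92e06b7 : CRef := CRef.mk (Pat.mk 0x1e0000000000000000 0x200000002000000030000003e0000000700000004 5 6) 0 0 (step_sound _ 97 [(rh3244c3cc8379b070.shift 0 2), rh92753b9d07d99e9c] (by decide +kernel))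
noncomputable def rh5fdd1da96b57d205 : CRef := CRef.mk (Pat.mk 0x80000001e0000000400000000 0x800000008000000380000001e0000003700000010 5 6) 0 0 (step_sound _ 100 [rh220f6e6f17aa03f7, (rh33e738c4ed385b9f.shift 1 2)] (by decide +kernel))
noncomputable def rhca499ce2bfadea5b : CRef := CRef.mk (Pat.mk 0x3c00000010 0x70000007f0000001e 5 7) 0 0 (step_sound _ 2 [rh8d773fe922f3e745, (rheb0810cc63b001d8.shift 1 0)] (by decide +kernel))
noncomputable def rhe30e1ae75b550229 : CRef := CRef.mk (Pat.mk 0x8000000080000001c0000000400000000 0x40000000c0000000c0000001f0000003f0000001a 5 6) 0 0 (step_sound _ 35 [rha5db35bed5b9a95e, rhfe557af9112f51d6] (by decide +kernel))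
noncomputable def rh3f468690718d5840 : CRef := CRef.mk (Pat.mk 0x400000006000000030000000200000000 0x2000000060000001e0000000f0000001f0000000d 5 5) 0 0 (step_sound _ 99 [(rh18965a982d73c794.shift 0 2), rh83df0b786ba1cdf5] (by decide +kernel))
noncomputable def rh5d4f4f34aff62b3b : CRef := CRef.mk (Pat.mk 0x40000000f0000000b0000000000000000 0x80000001c0000000f0000000f0000001c0000000c 5 5) 0 0 (step_sound _ 131 [(rh33e738c4ed385b9f.shift 0 3), rhc13c80fddf288e56] (by decide +kernel))
noncomputable def rh231989296d6ff0d0 : CRef := CRef.mk (Pat.mk 0x400000004000000040000000400000000 0x20000000f0000003e000000040000000400000004 5 6) 0 0 (step_sound _ 129 [(rh50fbb5868c909700.shift 1 1), rh59a94a69f989c1ea] (by decide +kernel))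
noncomputable def rh102518a8aa0a2890 : CRef := CRef.mk (Pat.mk 0x2000000040000000c0000000400000000 0x600000006000000040000003c0000000f00000002 5 6) 0 0 (step_sound _ 130 [rh43c56be7aad47ea0, (rh50fbb5868c909700.shift 1 1)] (by decide +kernel))
noncomputable def rh358bc84bf33f2b11 : CRef := CRef.mk (Pat.mk 0x40000000400000006000000020000000000000000 0x40000000e0000003f0000007f0000000800000008 5 7) 0 0 (step_sound _ 99 [(rh04048a4a2acf2c94.shift 0 2), rh6b86d8f5e6e0aec7, (rha0d3126b889206a8.shift 0 2)] (by decide +kernel))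
noncomputable def rhf03d2d27d34cf817 : CRef := CRef.mk (Pat.mk 0x40000000c000000060000000200000000 0xa0000000f0000003e000000060000000600000004 5 6) 0 0 (step_sound _ 100 [(rh18965a982d73c794.shift 1 2), rhe7700dbdb36cca6f] (by decide +kernel))
noncomputable def rh87e404630e3492e0 : CRef := CRef.mk (Pat.mk 0x2000000020000000f000000020000000000000000 0x20000001a0000000f0000001e0000000e00000004 5 5) 0 0 (step_sound _ 34 [rhc7c98f9e0817dfe9, (rhd3458b32566d63f7.shift 1 1)] (by decide +kernel))
noncomputable def rh5c1e3b0f4de86cda : CRef := CRef.mk (Pat.mk 0x20000000200000006000000030000000000000000 0x100000003000000030000001e000000070000000600000004 5 5) 0 0 (step_sound _ 99 [(rh18965a982d73c794.shift 0 2), rh8ff3dde5b1c639e0] (by decide +kernel))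
noncomputable def rh85c6105982c48ee0 : CRef := CRef.mk (Pat.mk 0x200000002000000070000000700000000 0x400000006000000060000001f0000001f00000018 5 5) 0 0 (step_sound _ 67 [(rh18965a982d73c794.shift 0 1), rhf2362e95aa73f806] (by decide +kernel))
noncomputable def rh02f8eec3bbe38b5c : CRef := CRef.mk (Pat.mk 0x8000000180000000c0000000000000000 0x140000001f0000007c0000000c0000000800000008 5 7) 0 0 (step_sound _ 101 [(rh18965a982d73c794.shift 2 2), rh23ff9f0490ec755c] (by decide +kernel))
noncomputable def rh3f52abcacb6d443b : CRef := CRef.mk (Pat.mk 0x14000000300000001c0000000800000000 0xc0000001e000000340000001c0000000f00000002 5 6) 0 0 (step_sound _ 131 [rh94eecf20a5b238dd, (rhb739f4f82bb681b4.shift 1 3)] (by decide +kernel))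
noncomputable def rh1b6f292dde0dcb60 : CRef := CRef.mk (Pat.mk 0x18000000080000003800000008 0x40000003f0000003f0000003800000008 5 6) 0 0 (step_sound _ 98 [(rh50fbb5868c909700.shift 2 0), (rhd14dfb9528fb66b6.shift 0 1)] (by decide +kernel))
noncomputable def rh4129b19bd98e8ac0 : CRef := CRef.mk (Pat.mk 0x10000000000000007000000018 0x1800000018000000ec0000007f00000038 5 8) 0 0 (step_sound _ 35 [rh210e2d9c685c857e, (rhc6719c6594e47b00.shift 2 0)] (by decide +kernel))
noncomputable def rhdf57d2b29a83fe59 : CRef := CRef.mk (Pat.mk 0x1a0000000e000000020000000000000000 0xe0000000f0000001a0000000e0000000e0000000400000004 5 5) 0 0 (step_sound _ 66 [(rh3ebc98c19791ad58.shift 1 0), (rh72ec092b6790b150.shift 0 2), (rhcf80391c5046a495.shift 2 0)] (by decide +kernel))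
noncomputable def rh43b1aa70d3df3d8f : CRef := CRef.mk (Pat.mk 0x1a0000001e000000000000000000000000 0xb0000000b0000001e0000001e000000070000000400000004 5 5) 0 0 (step_sound _ 65 [rh71de106cb11f29ee, (rheb0810cc63b001d8.shift 0 2)] (by decide +kernel))
noncomputable def rhf8fba4b186197408 : CRef := CRef.mk (Pat.mk 0x180000001e000000100000001000000000 0x10000000180000001e0000001f0000003800000028 5 6) 0 0 (step_sound _ 35 [rh2e64fec86d666c9c, (rh932754581e0f4330.shift 3 0)] (by decide +kernel))
noncomputable def rhbfa9903384e8d00a : CRef := CRef.mk (Pat.mk 0x140000001c000000080000000800000000 0x30000001f0000003c0000000c0000000c00000004 5 6) 0 0 (step_sound _ 129 [rh0b240212b88cca0b, (rhf48373e13d2bc128.shift 1 3)] (by decide +kernel))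
noncomputable def rh7bf2bc8ae99bd1f8 : CRef := CRef.mk (Pat.mk 0x4000000080000001c0000000600000000 0x2000000070000003f0000001c0000000600000002 5 6) 0 0 (step_sound _ 98 [(rh932754581e0f4330.shift 1 0), (rhb183b7ca4f065e7c.shift 0 1)] (by decide +kernel))
noncomputable def rhaf5febba81597cab : CRef := CRef.mk (Pat.mk 0x3c00000000 0x600000003e00000077 5 7) 0 0 (step_sound _ 5 [rh33919328d9341ad1, (rhe25b0a99195a5d59.shift 2 0)] (by decide +kernel))
noncomputable def rh36f70bb591beb0da : CRef := CRef.mk (Pat.mk 0x7800000000 0xe0000007e00000077 5 7) 0 0 (step_sound _ 34 [rh185f35b8bd8ec37f, (rh3105afbdea19ea6a.shift 1 0), (rhd5eb272e07a4e288.shift 1 1)] (by decide +kernel))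
noncomputable def rh7ad2ceea6fa3aeb0 : CRef := CRef.mk (Pat.mk 0x200000001c00000000 0x670000003e00000070 5 7) 0 0 (step_sound _ 37 [(rh33e738c4ed385b9f.shift 2 1), rh3a835c9c24581dd0] (by decide +kernel))
noncomputable def rh21410d531236d2da : CRef := CRef.mk (Pat.mk 0x60000000e000000020000000300000000 0x2000000060000000e0000001b0000001f0000000c 5 5) 0 0 (step_sound _ 34 [(rh55afc6a59410cf00.shift 1 0), rh8f1d933ea365614f] (by decide +kernel))
noncomputable def rh2443a1aa287935fc : CRef := CRef.mk (Pat.mk 0x80000001c000000060000000000000000 0x2000000060000000f0000001c000000060000000600000006 5 5) 0 0 (step_sound _ 34 [(rh71222050f2c63a3a.shift 2 0), rhdb6b2f9b1dd8a053] (by decide +kernel))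
noncomputable def rh9bcbbf2b7080fe66 : CRef := CRef.mk (Pat.mk 0x10000000380000000c0000000000000000 0x1000000010000000370000003e0000007c0000002000000020 5 7) 0 0 (step_sound _ 164 [(rh5c5e593799055d58.shift 3 2), rha7723ac9834dd99b] (by decide +kernel))
noncomputable def rh69cec6a8b8e37e38 : CRef := CRef.mk (Pat.mk 0x380000000c00000004 0x4000000040000000c0000001f0000003c0000000c0000000c 5 6) 0 0 (step_sound _ 99 [rh292e10fae0e5298d, (rh5c5e593799055d58.shift 2 0)] (by decide +kernel))
noncomputable def rh79d72cb49cd4445b : CRef := CRef.mk (Pat.mk 0x1c00000006000000020000000200000000 0x2000000020000003b0000001f00000006000000070000000300000001 5 6) 0 0 (step_sound _ 129 [(rh11ae469c2f55ec35.shift 0 1), rhea90e7358341a1a4] (by decide +kernel))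
noncomputable def rh56efbc0cfbfcc4b8 : CRef := CRef.mk (Pat.mk 0xe00000001 0x380000001f0000003b 5 6) 0 0 (step_sound _ 36 [rh3e1b7b343686dca1, rh80fcd6d0a18cb2dd] (by decide +kernel))
noncomputable def rh04ed010102327534 : CRef := CRef.mk (Pat.mk 0x800000007000000040000000400000000 0x80000003f0000003f0000000400000004 5 6) 0 0 (step_sound _ 99 [(rh300eedc557b86950.shift 0 2), (rh71222050f2c63a3a.shift 2 0)] (by decide +kernel))
noncomputable def rh9c3fb3650554b4fb : CRef := CRef.mk (Pat.mk 0x1000000060000000300000002 0x4000000060000000700000003000000060000000700000003 5 3) 0 0 (step_sound _ 97 [rh50fbb5868c909700, rh57a06b43e72703e1] (by decide +kernel))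
noncomputable def rhf9f7f6c98cb1f657 : CRef := CRef.mk (Pat.mk 0x1c00000006000000020000000000000000 0x30000001f0000003e000000030000000300000003 5 6) 0 0 (step_sound _ 33 [(rh71222050f2c63a3a.shift 1 0), rhfff07ea40944f173] (by decide +kernel))
noncomputable def rh691787cae84f0149 : CRef := CRef.mk (Pat.mk 0xc000000180000000c0000000800000000 0x200000002000000020000000f0000001e0000000c0000000c00000008 5 5) 0 0 (step_sound _ 98 [(rh6b1b5b4d23f13f44.shift 0 1), (rh7b1f1fb55310c477.shift 2 0)] (by decide +kernel))
noncomputable def rh97ee1d9c43e0ab4a : CRef := CRef.mk (Pat.mk 0x1c000000100000000000000000 0x10000000300000001f000000380000000800000008 5 6) 0 0 (step_sound _ 97 [rhba50fd7aca570c30, (rhe25b0a99195a5d59.shift 1 2)] (by decide +kernel))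
noncomputable def rh2ea883171c5f1002 : CRef := CRef.mk (Pat.mk 0xf000000050000000000000000 0x4000000040000001f0000001f0000001800000008 5 5) 0 0 (step_sound _ 65 [(rh18965a982d73c794.shift 0 2), rh810a36d9e833e45d] (by decide +kernel))
noncomputable def rh0ac3ce708b11d3d7 : CRef := CRef.mk (Pat.mk 0xf000000050000000000000000 0x800000008000000180000001f0000000f0000000400000004 5 5) 0 0 (step_sound _ 65 [(rh18965a982d73c794.shift 0 2), rhe5ad44e27e846693] (by decide +kernel))
noncomputable def rhd3fc2e94dec37dd3 : CRef := CRef.mk (Pat.mk 0x1c00000004 0x770000003e00000006 5 7) 0 0 (step_sound _ 37 [(rh67fc5628a4cda3d1.shift 0 1), (rheb0810cc63b001d8.shift 1 0)] (by decide +kernel))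
noncomputable def rh3f98bf70c5ff87c8 : CRef := CRef.mk (Pat.mk 0x600000002000000020000000600000000 0x300000003000000030000000600000006000000060000000600000002 5 3) 0 0 (step_sound _ 98 [(rh4b685788b9557979.shift 0 1), (rh71222050f2c63a3a.shift 1 0)] (by decide +kernel))
noncomputable def rhc689736d0798ae79 : CRef := CRef.mk (Pat.mk 0xc00000018000000080000000c00000000 0x80000000c000000780000000f0000003c00000010 5 7) 0 0 (step_sound _ 66 [(rh5c5e593799055d58.shift 2 1), rhca8a26e74c728b7a] (by decide +kernel))
noncomputable def rh1b23f6887ff7eb2c : CRef := CRef.mk (Pat.mk 0x40000000c0000000c000000000000000000000000 0x40000000c0000003c0000000f0000000e0000000e 5 6) 0 0 (step_sound _ 66 [(rh4053c12da95c0aa0.shift 2 0), (rh46530d756bdf8511.shift 1 0), (rh7f2a49c2502589b3.shift 0 1), (rha664b3df98ca982b.shift 1 0)] (by decide +kernel))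
noncomputable def rh7ec71dda4d389276 : CRef := CRef.mk (Pat.mk 0x40000000c000000180000000e00000000 0x180000003c0000000f0000001c0000000e00000002 5 6) 0 0 (step_sound _ 66 [(rh7f64bc8b189f1ccd.shift 0 1), (rh932754581e0f4330.shift 1 0)] (by decide +kernel))
noncomputable def rhf364945a41219eae : CRef := CRef.mk (Pat.mk 0x200000002000000020000000400000000 0x5000000070000000300000002000000030000000700000005 5 3) 0 0 (step_sound _ 33 [(rh55afc6a59410cf00.shift 1 0), rhc12517b0db36af6d] (by decide +kernel))
noncomputable def rhb83a6265397673b2 : CRef := CRef.mk (Pat.mk 0x1f000000020000000000000000 0x30000003f000000760000000200000002 5 7) 0 0 (step_sound _ 128 [(rh3f8766e6ecb455ce.shift 0 3), rhf4e1306272e16d44] (by decide +kernel))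
noncomputable def rh1c5294bdda4296d6 : CRef := CRef.mk (Pat.mk 0x40000001c0000000800000000 0x400000004000000070000001f0000003b00000002 5 6) 0 0 (step_sound _ 130 [(rh2145e1d24b96a57e.shift 2 1), rhbb07bccc04294ee7] (by decide +kernel))
noncomputable def rhae1003c84e4b307a : CRef := CRef.mk (Pat.mk 0x60000001e000000080000000800000000 0x60000001e0000003b0000000f00000006 5 6) 0 0 (step_sound _ 68 [rh4752cf450ee1f99f, (rhe25b0a99195a5d59.shift 1 2)] (by decide +kernel))
noncomputable def rh2cfcbf2461165233 : CRef := CRef.mk (Pat.mk 0xe000000040000000000000000 0x200000002000000770000003e000000740000000400000004 5 7) 0 0 (step_sound _ 100 [(rh3947d1dfff0afc6c.shift 0 2), (rh3fc3a7fb6866dcd4.shift 1 2), rhe1ef59f9ff87186c] (by decide +kernel))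
noncomputable def rhb63a67c86dd72137 : CRef := CRef.mk (Pat.mk 0x38000000100000000000000000 0x8000000080000001f000000fc000001d00000001000000010 5 9) 0 0 (step_sound _ 131 [(rh1aae126fdb0efa1d.shift 2 2), (rha40d42a2e34c408d.shift 3 0), (rha9fbfd4bb8cf890b.shift 0 3)] (by decide +kernel))
noncomputable def rh4f4a3d055e00b6e0 : CRef := CRef.mk (Pat.mk 0x8000000180000000e0000000400000000 0x60000000f0000001c0000000e0000003c00000018 5 6) 0 0 (step_sound _ 35 [(rh42afa1af9fffa0e1.shift 1 0), rh5c27d44caf70376c, rh9e3680845ae0253e] (by decide +kernel))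
noncomputable def rh214b5f744448ca32 : CRef := CRef.mk (Pat.mk 0x20000000200000002000000030000000000000000 0x6000000070000000700000003000000030000000200000002 5 3) 0 0 (step_sound _ 96 [rh3724468151636231, (rh5c5e593799055d58.shift 0 2)] (by decide +kernel))
noncomputable def rheca30300426d4a09 : CRef := CRef.mk (Pat.mk 0x2000000030000000f0000000000000000 0xc0000001e0000001b0000000f0000001c00000004 5 5) 0 0 (step_sound _ 35 [(rhe25b0a99195a5d59.shift 0 1), rhf141635268a5d7b5] (by decide +kernel))
noncomputable def rhe561745b02a087ad : CRef := CRef.mk (Pat.mk 0x80000001c000000040000000400000000 0x400000004000000060000000f0000001c0000000e0000000600000002 5 5) 0 0 (step_sound _ 130 [(rh277b01412deaec89.shift 0 1), (rhea90e7358341a1a4.shift 1 0), rheaa413f4e0769a51] (by decide +kernel))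
noncomputable def rhf453ca0ff275433e : CRef := CRef.mk (Pat.mk 0x120000001e0000000000000000 0x2000000030000001e0000003f0000000400000004 5 6) 0 0 (step_sound _ 99 [(rh53b3c253cb0c65f4.shift 0 2), rh84c6ea69d5090d99] (by decide +kernel))
noncomputable def rh53daa803953ee8cc : CRef := CRef.mk (Pat.mk 0x18000000380000000000000000 0x8000000080000001f0000003f0000000700000004 5 6) 0 0 (step_sound _ 66 [(rh04029d7e2e3adf1c.shift 1 0), (rhbe5fc5902345a0b9.shift 0 2), (rhcc2be1f880c5ea3e.shift 0 1)] (by decide +kernel))
noncomputable def rhaeda3127d6c72bd9 : CRef := CRef.mk (Pat.mk 0x40000000e0000000800000008 0x10000000760000003e0000003f00000008 5 7) 0 0 (step_sound _ 68 [(rh3b00e9e9432b8f40.shift 0 1), (rhb36f6120eccc373f.shift 0 1), (rhbbda3e5cf400e6dd.shift 1 0)] (by decide +kernel))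
noncomputable def rhb200f8a046f24278 : CRef := CRef.mk (Pat.mk 0x40000000700000004000000000000000000000000 0x20000000600000006000000040000000f0000003c0000000c0000000800000008 5 6) 0 0 (step_sound _ 99 [(rh0fa4a62bba50784f.shift 1 2), (rh4a0b10776449c3e9.shift 0 3), (rh70e33bfdf511e144.shift 2 0)] (by decide +kernel))
noncomputable def rh50b5edd735f877d8 : CRef := CRef.mk (Pat.mk 0x20000000080000003800000010 0x80000007c0000000f0000007800000010 5 7) 0 0 (step_sound _ 66 [rh376b08d695d5e724, (rhf48373e13d2bc128.shift 2 1)] (by decide +kernel))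
noncomputable def rh0a9b1e6d802982f7 : CRef := CRef.mk (Pat.mk 0x3800000000 0xf0000007e000000ef 5 8) 0 0 (step_sound _ 34 [(rh06db8ceda6269a47.shift 1 0), rh592c7139d2c44767, (rhaeebc73f5a9c796a.shift 1 0), (rhe401600d466b97cd.shift 1 0)] (by decide +kernel))
noncomputable def rh6786c6539ffba563 : CRef := CRef.mk (Pat.mk 0x100000001e000000100000001000000000 0x1000000010000000100000001e0000001f0000003800000020 5 6) 0 0 (step_sound _ 65 [(rhc461ae945b37d5e0.shift 1 0), (rheb0810cc63b001d8.shift 0 2)] (by decide +kernel))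
noncomputable def rhbf86255b59a129e0 : CRef := CRef.mk (Pat.mk 0x100000001e000000100000001000000000 0x10000000100000001e0000001f0000003800000028 5 6) 0 0 (step_sound _ 35 [(rh932754581e0f4330.shift 3 0), rhc1a0206f9d000baa] (by decide +kernel))
noncomputable def rh0a1263634bfccf2c : CRef := CRef.mk (Pat.mk 0x4000000070000000400000000 0x600000006000000040000000f0000001e0000000a 5 5) 0 0 (step_sound _ 130 [(rh03dfdf12d5937476.shift 1 0), rh5bf09c06b0158781, rhb379f99078aafa2d] (by decide +kernel))
noncomputable def rhdd106b30880b68fa : CRef := CRef.mk (Pat.mk 0x80000000c000000180000000000000000 0x40000000c0000000c000000780000001f0000000c 5 7) 0 0 (step_sound _ 69 [rh4bcb18fc14cd73eb, (rhf48373e13d2bc128.shift 2 2)] (by decide +kernel))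
noncomputable def rh0baaca16de8d4a3d : CRef := CRef.mk (Pat.mk 0x1800000008000000180000000800000000 0x40000001c0000000f0000007c0000000800000008 5 7) 0 0 (step_sound _ 130 [(rh50fbb5868c909700.shift 2 1), rhc0b4ebd5b6ac40cf] (by decide +kernel))
noncomputable def rh8fd1ff9ad0411a0a : CRef := CRef.mk (Pat.mk 0x40000000c000000040000000c 0x1c0000003c0000000f0000000c0000000c 5 6) 0 0 (step_sound _ 99 [(rh2f68792b6b779e96.shift 2 0), rh86450771c0b856e0] (by decide +kernel))
noncomputable def rhf6aeabd2b751fe3d : CRef := CRef.mk (Pat.mk 0xc0000000c0000000c00000000 0xc0000000c0000000c0000003c0000000f00000002 5 6) 0 0 (step_sound _ 131 [(rh5c5e593799055d58.shift 2 1), rh9816434bd6468104] (by decide +kernel))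
noncomputable def rh330b1afeca33f8f0 : CRef := CRef.mk (Pat.mk 0x4000000040000000c00000000 0x400000004000000040000003c0000000f0000000a 5 6) 0 0 (step_sound _ 130 [(rh55afc6a59410cf00.shift 2 0), rh9657c25562dad1df] (by decide +kernel))
noncomputable def rh98609006dffafada : CRef := CRef.mk (Pat.mk 0x1800000008000000080000001800000000 0x800000018000000180000000f0000003c0000000c 5 6) 0 0 (step_sound _ 34 [(rh932754581e0f4330.shift 2 0), rhb139b36739a98272] (by decide +kernel))
noncomputable def rhc544c9b98c53fcc3 : CRef := CRef.mk (Pat.mk 0x80000001e0000000800000008 0x40000000e0000000f0000001e0000000b00000008 5 5) 0 0 (step_sound _ 130 [(rh66de9923c178d0d5.shift 0 1), (rhffd04209dc8ea796.shift 2 0)] (by decide +kernel))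
noncomputable def rha6c38ec6d730dbf9 : CRef := CRef.mk (Pat.mk 0x100000001000000038000000000000000000000000 0x10000000370000007e000001e00000002000000020 5 9) 0 0 (step_sound _ 69 [(rh08edf065357d68e5.shift 4 0), (rh39ee55465d7f1610.shift 0 2), (rh8ee80cc30e93a344.shift 2 2)] (by decide +kernel))
noncomputable def rh0e869b8a4202836a : CRef := CRef.mk (Pat.mk 0x100000001e000000020000000000000000 0x8000000080000001c0000003f000000060000000400000004 5 6) 0 0 (step_sound _ 131 [(rh53b3c253cb0c65f4.shift 0 3), (rh57335751f17679e1.shift 1 0)] (by decide +kernel))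
noncomputable def rhae6ef49c15d3e446 : CRef := CRef.mk (Pat.mk 0x80000001e00000004 0x2000000030000003f0000003e00000004 5 6) 0 0 (step_sound _ 65 [(rh3244c3cc8379b070.shift 0 1), rh62609ceaf4d9359b] (by decide +kernel))
noncomputable def rh8c184412721daecf : CRef := CRef.mk (Pat.mk 0x10000000160000001c0000000800000000 0x4000000340000001e0000001f0000000b00000002 5 6) 0 0 (step_sound _ 99 [(rh33e738c4ed385b9f.shift 1 3), rh55f51947f22e17d6] (by decide +kernel))
noncomputable def rh922f91b07b355c56 : CRef := CRef.mk (Pat.mk 0xe000000040000000000000000 0x200000002000000770000003e000000740000000400000004 5 7) 0 0 (step_sound _ 100 [(rh3947d1dfff0afc6c.shift 0 2), (rh3fc3a7fb6866dcd4.shift 1 2), rhd5889c99d29bf7d6] (by decide +kernel))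
noncomputable def rh2fbcc400ac3d93ac : CRef := CRef.mk (Pat.mk 0xe000000040000000000000000 0x200000002000000770000003e000000740000000400000004 5 7) 0 0 (step_sound _ 100 [(rh3fc3a7fb6866dcd4.shift 1 2), (rhb18e6c78a554867d.shift 0 3), rhd5889c99d29bf7d6] (by decide +kernel))
noncomputable def rh764870de6d9410b0 : CRef := CRef.mk (Pat.mk 0x80000000e0000000b0000000000000000 0x4000000040000000e0000000e0000000b0000001e0000000e 5 5) 0 0 (step_sound _ 130 [(rh35ab8589afe62dd0.shift 1 1), (rh6e672cddce798f8b.shift 1 0), rhd138ef2a7d4df157] (by decide +kernel))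
noncomputable def rhcdcb55bc1be8953b : CRef := CRef.mk (Pat.mk 0x2000000160000001c0000000000000000 0x4000000070000001e0000001f0000000300000002 5 5) 0 0 (step_sound _ 99 [(rh3244c3cc8379b070.shift 0 3), rh81df3c7a5b7d1079] (by decide +kernel))
noncomputable def rh76eaa169e961a689 : CRef := CRef.mk (Pat.mk 0x100000001e000000160000000000000000 0x20000000a0000001b0000001e0000001e0000003000000030 5 6) 0 0 (step_sound _ 129 [(rh3244c3cc8379b070.shift 0 3), (rhb23e8ac67015d80c.shift 1 0)] (by decide +kernel))
noncomputable def rh9d3529dc850247f7 : CRef := CRef.mk (Pat.mk 0x2000000020000001e00000002 0x50000000f0000003a0000001f00000002 5 6) 0 0 (step_sound _ 98 [(rh2f68792b6b779e96.shift 1 0), rh9b6503b37f951afa] (by decide +kernel))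
noncomputable def rhe4492ceb5b2e0bd3 : CRef := CRef.mk (Pat.mk 0x8000000080000000c0000001800000000 0x10000000180000007c0000000f0000001800000008 5 7) 0 0 (step_sound _ 65 [(rhb739f4f82bb681b4.shift 0 1), (rhdee30487d27d3288.shift 1 0)] (by decide +kernel))
noncomputable def rh05fbb5fa1196296b : CRef := CRef.mk (Pat.mk 0x2000000020000000600000002000000000000000000000000 0x100000003000000070000000600000006000000060000000200000002 5 3) 0 0 (step_sound _ 98 [rh544fd3f279a4d968, (rh55afc6a59410cf00.shift 1 2)] (by decide +kernel))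
noncomputable def rh1f33fe15fe64c97f : CRef := CRef.mk (Pat.mk 0x8000000080000000c0000000600000000 0x140000001c0000001c0000000f0000003e00000018 5 6) 0 0 (step_sound _ 35 [rh58f49594b41e4958, (rhc4055b4872d6fb38.shift 2 0)] (by decide +kernel))
noncomputable def rh4dc95c49ae01b68d : CRef := CRef.mk (Pat.mk 0x100000001000000038000000000000000000000000 0x10000000170000007e000001f00000002000000020 5 9) 0 0 (step_sound _ 69 [(rh79ad7b82ec8c35e2.shift 4 0), (rh8ee80cc30e93a344.shift 2 2), (rhb2afcb5db661472f.shift 0 2)] (by decide +kernel))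
noncomputable def rhf87419f1557ab700 : CRef := CRef.mk (Pat.mk 0x8000000380000000c00000000 0x4000000040000000c0000001f000000380000000f00000008 5 6) 0 0 (step_sound _ 33 [(rh53b3c253cb0c65f4.shift 0 1), rh5840dbfc019b4d17] (by decide +kernel))
noncomputable def rhfccd9c6f70d46299 : CRef := CRef.mk (Pat.mk 0x8000000080000000c0000000000000000 0x140000001c0000001c000000080000001f0000007800000010 5 7) 0 0 (step_sound _ 35 [(rhc85cc95794737cf7.shift 2 1), rhcc2a2baa9246395a, (rhe8f31657c9a71e12.shift 1 0)] (by decide +kernel))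
noncomputable def rh5e4f34502a826196 : CRef := CRef.mk (Pat.mk 0x200000002000000020000000f00000000 0x400000006000000020000003a0000001f00000038 5 6) 0 0 (step_sound _ 130 [(rh2f68792b6b779e96.shift 1 1), rha93a5dd541ab8209] (by decide +kernel))
noncomputable def rh1ddc9724efb9ca1d : CRef := CRef.mk (Pat.mk 0x1800000008000000080000003c00000000 0x40000001f00000038000000180000003c00000060 5 7) 0 0 (step_sound _ 130 [(rh50fbb5868c909700.shift 2 1), rh993d711fc86fb35f] (by decide +kernel))
noncomputable def rh1dddd78ebae21a24 : CRef := CRef.mk (Pat.mk 0x4000000140000001e00000000 0xc0000000c0000000c0000001c0000001f00000014 5 5) 0 0 (step_sound _ 67 [(rh1dc900ed663fe718.shift 2 0), (rh53b3c253cb0c65f4.shift 0 1)] (by decide +kernel))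
noncomputable def rhc886ad9fdc5d06b5 : CRef := CRef.mk (Pat.mk 0x7800000010 0xe0000007f0000003c 5 7) 0 0 (step_sound _ 3 [rh15a2b73944acc7e4, (rheb0810cc63b001d8.shift 2 0)] (by decide +kernel))
noncomputable def rh4a81b279a40262a1 : CRef := CRef.mk (Pat.mk 0xe00000002 0x780000003f0000007e 5 7) 0 0 (step_sound _ 36 [rh3e1b7b343686dca1, (rhd584a578337d0023.shift 1 0), (rhf3baec4a0a3dd35e.shift 1 0)] (by decide +kernel))
noncomputable def rh7847051ba627ac19 : CRef := CRef.mk (Pat.mk 0x8000000080000000c0000000000000004 0x8000000080000001f0000007c00000014 5 7) 0 0 (step_sound _ 35 [rh42e615827c8908b1, (rh79877ebd3ef475dd.shift 2 0)] (by decide +kernel))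
noncomputable def rh12eeb6e96e64e320 : CRef := CRef.mk (Pat.mk 0x80000000c000000080000000400000000 0x10000000380000001f000000080000000c0000000c 5 6) 0 0 (step_sound _ 35 [(rh932754581e0f4330.shift 2 0), rh94b60c179d6f0f3c] (by decide +kernel))
noncomputable def rhc7dbdd812ba4952c : CRef := CRef.mk (Pat.mk 0x100000001000000038000000000000000000000000 0x10000000370000003e000000670000002000000020 5 7) 0 0 (step_sound _ 98 [(rh503775339733bab1.shift 0 3), (rh775ca1963e850b80.shift 0 2), (rhd132b680030c88e0.shift 2 0)] (by decide +kernel))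
noncomputable def rh6d814c1196ca315c : CRef := CRef.mk (Pat.mk 0x80000000c0000000600000004 0x20000001b0000003f0000003e00000004 5 6) 0 0 (step_sound _ 68 [(rh18965a982d73c794.shift 1 1), rh30cc5a29cc962312] (by decide +kernel))
noncomputable def rh622fac71635b0c04 : CRef := CRef.mk (Pat.mk 0x18000000080000000800000010 0x40000001f00000078000000080000001800000010 5 7) 0 0 (step_sound _ 131 [(rh507c5779b6f84b86.shift 0 1), (rhd3458b32566d63f7.shift 3 0)] (by decide +kernel))
noncomputable def rh3f4e587af562c60b : CRef := CRef.mk (Pat.mk 0x180000000b0000000800000000 0x40000000c0000001f000000780000001b0000001e00000014 5 7) 0 0 (step_sound _ 131 [rh5045a7dd3c2710bf, (rh507c5779b6f84b86.shift 0 1), (rh5abfc4c9d959be03.shift 2 0)] (by decide +kernel))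
noncomputable def rh3d980a95bbd7ebd4 : CRef := CRef.mk (Pat.mk 0x1400000007000000000000000000000000 0x4000000040000001c0000000f0000001c0000000800000008 5 5) 0 0 (step_sound _ 99 [(rh428265de8cd3cd2d.shift 0 3), rh65dcfd18fd55cba0] (by decide +kernel))
noncomputable def rh52c8c7e9d70a3e92 : CRef := CRef.mk (Pat.mk 0x3800000000 0xe0000007e000000ff 5 8) 0 0 (step_sound _ 34 [rh185f35b8bd8ec37f, (rh5f7b3bfbaf903d4f.shift 1 0), (rhe401600d466b97cd.shift 1 0)] (by decide +kernel))
noncomputable def rhf9adc524e90a9f35 : CRef := CRef.mk (Pat.mk 0x8000000080000000c0000000000000000 0x800000008000000080000000f0000003c00000014 5 6) 0 0 (step_sound _ 34 [(rh5c5e593799055d58.shift 2 1), rhc6c8721b98efe6cc] (by decide +kernel))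
noncomputable def rh97c00ba0f746cce8 : CRef := CRef.mk (Pat.mk 0x40000000f00000001 0x1c0000007f00000073 5 7) 0 0 (step_sound _ 36 [rh80fcd6d0a18cb2dd, rh9c71485ed59a17cd] (by decide +kernel))
noncomputable def rh5d8da7022e217ad8 : CRef := CRef.mk (Pat.mk 0x380000000e0000000800000000 0xc0000001f000000380000000e0000007c00000014 5 7) 0 0 (step_sound _ 36 [(rh89ade209b3e28f13.shift 1 1), rhb232fadadcf6cde8, (rhb23658ecdd7ce5df.shift 2 0)] (by decide +kernel))
noncomputable def rh497db2942f8c7aa2 : CRef := CRef.mk (Pat.mk 0x1400000007000000000000000000000000 0x4000000040000001c0000000f0000001c0000000800000008 5 5) 0 0 (step_sound _ 99 [(rh428265de8cd3cd2d.shift 0 3), rh84970c2ccb9fe470] (by decide +kernel))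
noncomputable def rhe96eadab5b74afd7 : CRef := CRef.mk (Pat.mk 0x140000000e0000000000000000 0x400000004000000340000003e0000000700000002 5 6) 0 0 (step_sound _ 68 [(rh33e738c4ed385b9f.shift 1 2), rhec861ec1780c1825] (by decide +kernel))
noncomputable def rh217e0253150c7736 : CRef := CRef.mk (Pat.mk 0x140000001e000000020000000000000000 0x10000000140000001f0000003a0000000a0000000a 5 6) 0 0 (step_sound _ 33 [(rh71222050f2c63a3a.shift 1 0), rh9483656c38360087] (by decide +kernel))
noncomputable def rhc111df6006b22752 : CRef := CRef.mk (Pat.mk 0x80000003800000008000000000000000000000000 0x4000000040000000c0000001f0000003800000008000000180000001800000010 5 6) 0 0 (step_sound _ 162 [(rh39b036797fb07457.shift 2 0), (rh8d5c06fc0c5e4b8d.shift 0 2), (rhb1a251d9bff81766.shift 2 2), (rhc02b3aee7ab87ee1.shift 0 4)] (by decide +kernel))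
noncomputable def rhc0eec6926dcfdd31 : CRef := CRef.mk (Pat.mk 0x10000000f00000002 0x100000001000000390000001f0000003a 5 6) 0 0 (step_sound _ 96 [rh2145e1d24b96a57e, rha93a5dd541ab8209] (by decide +kernel))
noncomputable def rh9a31fbe43d419ad3 : CRef := CRef.mk (Pat.mk 0x1c00000006000000020000000000000000 0x3d0000001f00000006000000020000000200000002 5 6) 0 0 (step_sound _ 33 [(rh71222050f2c63a3a.shift 1 0), (rhc8ae4b86ed9fbf6c.shift 0 1)] (by decide +kernel))
noncomputable def rh28f30092f8d9e21e : CRef := CRef.mk (Pat.mk 0x80000000e000000000000000000000000 0x80000007f0000003e000000700000001000000010 5 7) 0 0 (step_sound _ 100 [(rh0cc4c691701426ad.shift 0 3), (rh4569bd9aa4440d20.shift 1 0), (rhe401600d466b97cd.shift 0 2)] (by decide +kernel))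
noncomputable def rh141ffe1472b1d565 : CRef := CRef.mk (Pat.mk 0x200000003800000000 0x3f0000007e0000000f 5 7) 0 0 (step_sound _ 34 [rh21d582c147e7e118, (rh5f7b3bfbaf903d4f.shift 1 0), (rh7fb660bc21ce4329.shift 0 1)] (by decide +kernel))
noncomputable def rh03fb6d255e75e28a : CRef := CRef.mk (Pat.mk 0x80000000e000000000000000400000004 0x80000003b0000001e000000330000001600000014 5 6) 0 0 (step_sound _ 100 [rh04395309fba550d6, (rh4569bd9aa4440d20.shift 1 0)] (by decide +kernel))
noncomputable def rh6e8f5cdd81ae725e : CRef := CRef.mk (Pat.mk 0x60000000200000002000000000000000000000000 0x5000000070000000300000002000000060000000600000004 5 3) 0 0 (step_sound _ 65 [(rh2f68792b6b779e96.shift 1 2), rh5ad9898cc32ef511] (by decide +kernel))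
noncomputable def rh69f74b130feaf51b : CRef := CRef.mk (Pat.mk 0x180000000c0000000c 0x380000007f0000007c 5 7) 0 0 (step_sound _ 33 [(rh53b3c253cb0c65f4.shift 0 1), (rhefe9757a59950e11.shift 1 0)] (by decide +kernel))
noncomputable def rh5ab39876a3b655af : CRef := CRef.mk (Pat.mk 0x180000000c0000000c0000000000000000 0x10000000380000001f0000003c0000000800000008 5 6) 0 0 (step_sound _ 97 [(rh53b3c253cb0c65f4.shift 0 3), (rhc25edeb5f5a66af9.shift 1 0)] (by decide +kernel))
noncomputable def rhec5edd754181e961 : CRef := CRef.mk (Pat.mk 0xc000000040000000c0000000c00000000 0x20000000f0000003c0000007f0000007e00000012 5 7) 0 0 (step_sound _ 36 [(rhc19f71adb3231860.shift 1 0), rhf308b3363d037c07, rhfdb02788af4b697e] (by decide +kernel))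
noncomputable def rh5bde0ea50657f0d8 : CRef := CRef.mk (Pat.mk 0x40000000c0000000c0000000000000000 0x8000000180000003c0000000f0000001c0000001800000018 5 6) 0 0 (step_sound _ 35 [rh6e78fdc1dfd0abb9, (rh7b1f1fb55310c477.shift 2 0)] (by decide +kernel))
noncomputable def rhc807d034c68e856c : CRef := CRef.mk (Pat.mk 0xc000000180000000800000000 0x140000001c0000001c0000001f0000003c0000001c00000004 5 6) 0 0 (step_sound _ 131 [(rh3b734c5288922837.shift 2 0), (rh812b908590c67662.shift 2 1), (rhb0121edee88fe839.shift 0 2)] (by decide +kernel))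
noncomputable def rhb3a3508ef260b8be : CRef := CRef.mk (Pat.mk 0x180000000e0000000400000000 0x8000000080000001b0000003e0000003700000010 5 6) 0 0 (step_sound _ 131 [(rh5c5e593799055d58.shift 2 1), rhf09ca949b7d6bd7a] (by decide +kernel))
noncomputable def rha14d9d3e67190df6 : CRef := CRef.mk (Pat.mk 0x1e0000001400000000 0x400000004000000060000007f0000001c00000008 5 7) 0 0 (step_sound _ 35 [(rh113e957afa7c17ad.shift 1 0), (rhb739f4f82bb681b4.shift 0 1)] (by decide +kernel))
noncomputable def rh7e517874e55e345b : CRef := CRef.mk (Pat.mk 0x1e000000180000000800000000 0x4000000070000001e0000001b0000000f00000003 5 5) 0 0 (step_sound _ 65 [(rheb0810cc63b001d8.shift 0 2), rhf218fb04bedc3957] (by decide +kernel))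
noncomputable def rhd2c3f4a0db4431b7 : CRef := CRef.mk (Pat.mk 0x4000000060000000c0000000400000000000000000000000000000000 0x4000000060000000f0000003c0000000c0000000c0000000c00000008 5 6) 0 0 (step_sound _ 98 [(rh46bfb734f58a0e67.shift 1 0), (rha613ffd40b6c9d24.shift 1 1), (rhd29a1fb688eae70f.shift 2 2), (rhd56080ffed28c033.shift 0 2)] (by decide +kernel))
noncomputable def rhd8ba788e15a14b00 : CRef := CRef.mk (Pat.mk 0x400000004000000060000000000000000 0x40000000400000004000000070000003e0000000a 5 6) 0 0 (step_sound _ 33 [(rh5c5e593799055d58.shift 1 1), rh96daba97ac8db274] (by decide +kernel))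
noncomputable def rhb3a090e527051e00 : CRef := CRef.mk (Pat.mk 0x4000000080000000c0000000c00000000 0x2000000060000000c0000003c0000000f0000000a 5 6) 0 0 (step_sound _ 98 [(rh7b1f1fb55310c477.shift 2 0), rhccd319e91889d23e] (by decide +kernel))
noncomputable def rha9e26ca927c0a31a : CRef := CRef.mk (Pat.mk 0x200000002000000020000000000000000 0x500000007000000070000000700000002000000030000000300000001 5 3) 0 0 (step_sound _ 161 [rh367118e0bf0473e0, (rhc85cc95794737cf7.shift 0 2), rhfb48bea540f6436d] (by decide +kernel))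
noncomputable def rhd956edf64253352f : CRef := CRef.mk (Pat.mk 0x1c00000008 0xff000001ff 5 9) 0 0 (step_sound _ 37 [rh28eb2fee3aa90ff3, (rhaf9f2efc81a8312b.shift 1 0), rhed95296174ee961f] (by decide +kernel))
noncomputable def rh3431df911cfad314 : CRef := CRef.mk (Pat.mk 0x20000000200000002000000020000000000000000 0x4000000060000000600000002000000070000000700000004 5 3) 0 0 (step_sound _ 64 [(rh932754581e0f4330.shift 0 1), (rhc9de03f9731897d4.shift 1 0)] (by decide +kernel))
noncomputable def rha8608b51c10bffb6 : CRef := CRef.mk (Pat.mk 0x40000000f00000000 0xfc0000007f00000070 5 8) 0 0 (step_sound _ 36 [(rh9890f9d77740bbed.shift 0 1), rh9c71485ed59a17cd, (rha93a5dd541ab8209.shift 1 0), (rhc3f8d890a3bb80c0.shift 1 0)] (by decide +kernel))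
noncomputable def rhf300f571c00d73dc : CRef := CRef.mk (Pat.mk 0x20000000f00000004 0x3e0000007f0000001c 5 7) 0 0 (step_sound _ 3 [rh726ed8e3d0fdcf87, rhe25b0a99195a5d59] (by decide +kernel))
noncomputable def rh4e23d06bd7461233 : CRef := CRef.mk (Pat.mk 0x80000000c000000080000000800000008 0x8000000180000001f000000380000001800000018 5 6) 0 0 (step_sound _ 36 [rh353da909fc1b63b4, (rh55afc6a59410cf00.shift 3 0)] (by decide +kernel))
noncomputable def rh95c36413021fa127 : CRef := CRef.mk (Pat.mk 0x1000000020000000200000002000000000000000000000000 0x5000000070000000600000002000000030000000300000001 5 3) 0 0 (step_sound _ 65 [rha78b327dad5d6a04, (rhffd04209dc8ea796.shift 0 2)] (by decide +kernel))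
noncomputable def rhbf0d0487774a0f3e : CRef := CRef.mk (Pat.mk 0x20000000e00000000 0x3b0000001f00000038 5 6) 0 0 (step_sound _ 36 [rh17f08a0ad30ba6e8, (rh3244c3cc8379b070.shift 0 1)] (by decide +kernel))
noncomputable def rha047d6d673670cc3 : CRef := CRef.mk (Pat.mk 0x40000001c000000080000000000000000 0x1000000010000000f40000003f000000380000000800000008 5 8) 0 0 (step_sound _ 35 [(rh305e60cb0bb1bfe3.shift 0 1), (rh7b1f1fb55310c477.shift 2 0)] (by decide +kernel))
noncomputable def rhacbd1f6ebef21db5 : CRef := CRef.mk (Pat.mk 0x20000000a0000000f000000000000000000000000 0xe0000000e0000000f0000001c0000000c0000000c 5 5) 0 0 (step_sound _ 67 [(rh9828a2373d969d0b.shift 1 0), (rhe25b0a99195a5d59.shift 0 2)] (by decide +kernel))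
noncomputable def rh9ffdfa8ce4b4b565 : CRef := CRef.mk (Pat.mk 0x800000018000000180000007000000000 0x140000001f00000038000000f80000007e00000004 5 8) 0 0 (step_sound _ 35 [(rh5aa5e9dc84124dd6.shift 0 1), (rha71afc656c87d410.shift 1 0), (rhfbaad5cc0c1e2a29.shift 2 0)] (by decide +kernel))
noncomputable def rhc1ef240f5928cae8 : CRef := CRef.mk (Pat.mk 0x300000003000000060000000000000000 0x200000006000000060000000700000007000000060000000200000002 5 3) 0 0 (step_sound _ 33 [(rh58c63edee24a7e9f.shift 0 1), rh7b1f1fb55310c477] (by decide +kernel))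
noncomputable def rh7500686ab197c6e2 : CRef := CRef.mk (Pat.mk 0x100000000000000020000000f000000000 0x10000000100000003f000000fe0000000e 5 8) 0 0 (step_sound _ 35 [(rh592c7139d2c44767.shift 1 0), (rh9cd5e48c631416e3.shift 2 0), rhc0d3e82dfe617fcf, (rhd5eb272e07a4e288.shift 2 1)] (by decide +kernel))
noncomputable def rh78f82c032a59fa37 : CRef := CRef.mk (Pat.mk 0xc00000004000000040000000f00000000 0x40000000c0000000c0000007c0000003f00000070 5 7) 0 0 (step_sound _ 36 [(rh3fc3a7fb6866dcd4.shift 1 0), (rh884488355b3e3112.shift 1 0), (rh9890f9d77740bbed.shift 0 1)] (by decide +kernel))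
noncomputable def rhdfab3255a926b16b : CRef := CRef.mk (Pat.mk 0x80000000e00000018000000000000000000000000 0x100000003c0000000e000000780000001f0000000c00000004 5 7) 0 0 (step_sound _ 101 [rh2bb0164e8e86d673, (rhf48373e13d2bc128.shift 2 3)] (by decide +kernel))
noncomputable def rhe18864cb772fcf35 : CRef := CRef.mk (Pat.mk 0x100000006000000020000000200000000000000000000000000000000 0x100000007000000060000000200000002000000070000000700000005 5 3) 0 0 (step_sound _ 97 [rhc87f7657c377b457, (rhffd04209dc8ea796.shift 0 3)] (by decide +kernel))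
noncomputable def rhc14e0758a183ac7a : CRef := CRef.mk (Pat.mk 0x80000000c000000180000000c 0x100000007c0000000f000000180000000f 5 7) 0 0 (step_sound _ 65 [rh692def4f9c2bdc93, (rhb739f4f82bb681b4.shift 0 1)] (by decide +kernel))
noncomputable def rh7a13d538435703f0 : CRef := CRef.mk (Pat.mk 0x3000000060000000200000000000000000000000000000000 0x100000003000000070000000600000002000000030000000300000001 5 3) 0 0 (step_sound _ 97 [(rh50fbb5868c909700.shift 0 3), rhde32e0b5ff3be9cc] (by decide +kernel))
noncomputable def rh87c6dd92c83504e8 : CRef := CRef.mk (Pat.mk 0x1800000070000000100000001000000000 0x180000007f0000003e0000001000000010 5 7) 0 0 (step_sound _ 99 [(rh2ccea04b951e92fb.shift 0 2), (rh7b1f1fb55310c477.shift 3 0)] (by decide +kernel))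
noncomputable def rh906b0622defffad0 : CRef := CRef.mk (Pat.mk 0x2000000060000001e0000000000000000 0x80000000b0000003e0000001e0000003000000010 5 6) 0 0 (step_sound _ 100 [(rh33e738c4ed385b9f.shift 1 2), rh5f6d8ca6f72335b8] (by decide +kernel))
noncomputable def rh6ff5b79a60a2b575 : CRef := CRef.mk (Pat.mk 0x1a0000001e00000000 0x400000007000000070000001e0000001e00000007 5 5) 0 0 (step_sound _ 1 [rhdd108f60249a3821, rheb0810cc63b001d8] (by decide +kernel))
noncomputable def rh23b23c4e0037e49a : CRef := CRef.mk (Pat.mk 0x40000001c0000000c00000000 0x6000000060000000f0000001e0000000c00000004 5 5) 0 0 (step_sound _ 130 [(rh2145e1d24b96a57e.shift 2 1), rh35d892e3560cef81] (by decide +kernel))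
noncomputable def rhdc717ef3f469a3af : CRef := CRef.mk (Pat.mk 0x80000001a0000001a00000000 0xc0000000c0000000f0000001a0000001a0000000a 5 5) 0 0 (step_sound _ 131 [(rh2145e1d24b96a57e.shift 3 1), rheaf4189574da5b8b] (by decide +kernel))
noncomputable def rh3cba60bd885039ad : CRef := CRef.mk (Pat.mk 0x300000002000000020000000200000000 0x2000000020000000300000003000000070000000700000006 5 3) 0 0 (step_sound _ 96 [rh7b1f1fb55310c477, rhc5dda5c85486a818] (by decide +kernel))
noncomputable def rh39ab082dc7dd5aa2 : CRef := CRef.mk (Pat.mk 0x180000000c000000080000000800000000 0x8000000180000000f0000007c0000001800000010 5 7) 0 0 (step_sound _ 97 [(rh53b3c253cb0c65f4.shift 0 3), (rh6f235c76ee6d9186.shift 1 0)] (by decide +kernel))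
noncomputable def rh96d07357a88c7683 : CRef := CRef.mk (Pat.mk 0x800000000000000100000003800000000 0x8000000080000003e000000ff00000006 5 8) 0 0 (step_sound _ 67 [rh25e108b6c345e320, rh840f47f01888fa07, (rhe2b63c00a3d7bb73.shift 1 1)] (by decide +kernel))
noncomputable def rh69bd1a3d09edbee9 : CRef := CRef.mk (Pat.mk 0x1e0000000800000008 0x400000004000000060000003e0000000f0000000a 5 6) 0 0 (step_sound _ 33 [(rheb0810cc63b001d8.shift 0 1), (rhecbf6c06895e3682.shift 1 0)] (by decide +kernel))
noncomputable def rh2cb1e906d6a40fc8 : CRef := CRef.mk (Pat.mk 0x20000000300000001800000010 0x80000006c000000ff000000f800000010 5 8) 0 0 (step_sound _ 70 [(rh18965a982d73c794.shift 3 1), rh843f8c6634d773f8] (by decide +kernel))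
noncomputable def rh055eea5193a22998 : CRef := CRef.mk (Pat.mk 0x100000002000000020000000200000000 0x30000000300000002000000070000000700000005 5 3) 0 0 (step_sound _ 129 [(rh50fbb5868c909700.shift 0 1), rhed79e5c5ffee0217] (by decide +kernel))
noncomputable def rh6fdfe652501a6d76 : CRef := CRef.mk (Pat.mk 0x18000000100000003800000018 0x40000001e000000770000003f0000001e 5 7) 0 0 (step_sound _ 34 [rh34517e326ddb5b25, rh9ac6ff8cd5c17ac4, (rhafa88c550ea36308.shift 1 0)] (by decide +kernel))
noncomputable def rhf44e586b768a091f : CRef := CRef.mk (Pat.mk 0x700000002000000060 0xe000000fe0000003f000001f0 5 9) 0 0 (step_sound _ 67 [(rh2b8fd85eb96d9f56.shift 2 0), (rh30d0de1a76abc67c.shift 0 1), (rh775ca1963e850b80.shift 1 1), (rha0c4bf22e9ef19c1.shift 1 0)] (by decide +kernel))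
noncomputable def rh80cb8ef2e5ec4c94 : CRef := CRef.mk (Pat.mk 0x180000000c0000001800000008000000080000000000000000 0x180000000f00000018000000180000001c0000000c0000000c 5 5) 0 0 (step_sound _ 161 [(rh53b3c253cb0c65f4.shift 0 5), (rh96f119fce01cb5f6.shift 2 0)] (by decide +kernel))
noncomputable def rhdaefda965ff6ab0f : CRef := CRef.mk (Pat.mk 0x180000000c0000000800000008000000080000000000000000 0x180000000f00000008000000080000001c0000001c00000014 5 5) 0 0 (step_sound _ 161 [(rh53b3c253cb0c65f4.shift 0 5), (rh6eff4158bb400f47.shift 2 0)] (by decide +kernel))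
noncomputable def rh8589a34519302e20 : CRef := CRef.mk (Pat.mk 0x600000004000000040000000c00000000 0x4000000060000000f0000003e0000000c00000004 5 6) 0 0 (step_sound _ 97 [(rh243d5250d4e47e79.shift 0 1), (rh7b1f1fb55310c477.shift 1 0)] (by decide +kernel))
noncomputable def rh82978e0e876440e5 : CRef := CRef.mk (Pat.mk 0x400000002000000020000000200000000 0x60000000600000002000000070000000700000005 5 3) 0 0 (step_sound _ 129 [(rh2f68792b6b779e96.shift 1 1), rhc9ac229b3c77cd55] (by decide +kernel))
noncomputable def rhfa3fb0b3a381ce83 : CRef := CRef.mk (Pat.mk 0xc0000000c0000000000000004 0x800000008000000080000000f0000003c0000001400000004 5 6) 0 0 (step_sound _ 131 [(rh9e3edb185cc347de.shift 2 0), (rhc355bcc39d2b9dce.shift 0 1)] (by decide +kernel))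
noncomputable def rh38448bed95c46478 : CRef := CRef.mk (Pat.mk 0x20000000200000002000000000000000400000000 0x100000003000000030000000300000003000000030000000700000005 5 3) 0 0 (step_sound _ 65 [rh73329e8902d29e57, (rh771d065bdc85bf2d.shift 0 1), rhb687ca735479b4da] (by decide +kernel))
noncomputable def rhbf9e4cbcfeee59af : CRef := CRef.mk (Pat.mk 0x80000001c00000000 0xff0000007e000000e0 5 8) 0 0 (step_sound _ 37 [(rha93a5dd541ab8209.shift 2 0), (rhb9d63ffe7f077fd8.shift 0 1), (rhe3060b190bc0bc78.shift 1 1)] (by decide +kernel))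
noncomputable def rh02a6232717b1c57e : CRef := CRef.mk (Pat.mk 0xe00000008000000080000000c 0x130000003e0000000f0000000c0000000c 5 6) 0 0 (step_sound _ 100 [(rh2f68792b6b779e96.shift 3 0), rh63665d28061a121c] (by decide +kernel))
noncomputable def rh5d1695c79e3cca08 : CRef := CRef.mk (Pat.mk 0x3800000020000000200000002000000000 0x70000003e00000070000000200000006000000040 5 7) 0 0 (step_sound _ 130 [rhc94427ed938b95ee, (rhe25b0a99195a5d59.shift 2 3)] (by decide +kernel))
noncomputable def rh958d60077674138f : CRef := CRef.mk (Pat.mk 0x1e0000000a00000000 0x200000002000000030000003e0000003e00000004 5 6) 0 0 (step_sound _ 34 [(rh18965a982d73c794.shift 1 1), rhcdeb3bcefc910133] (by decide +kernel))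
noncomputable def rha28c8a023d182fe9 : CRef := CRef.mk (Pat.mk 0x80000001e00000008 0x3f000000fe0000000c 5 8) 0 0 (step_sound _ 68 [rh136869139557eafd, (rh33e738c4ed385b9f.shift 1 1)] (by decide +kernel))
noncomputable def rh31449ef6e5b56af3 : CRef := CRef.mk (Pat.mk 0xe0000000e00000008 0x600000006000000070000003e0000000e00000008 5 6) 0 0 (step_sound _ 130 [(rh32ba05270f5883a6.shift 0 1), (rh6f1cbe15c631ee70.shift 2 0)] (by decide +kernel))
noncomputable def rhdce80c6eb7d59202 : CRef := CRef.mk (Pat.mk 0x1e00000008 0xe70000007e0000000c 5 8) 0 0 (step_sound _ 65 [(rh3244c3cc8379b070.shift 0 1), (rh6d7c3230128b1d54.shift 1 0)] (by decide +kernel))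
noncomputable def rh3523d2f198d443f9 : CRef := CRef.mk (Pat.mk 0x1e0000001800000030 0x400000004000000070000003e0000001e00000032 5 6) 0 0 (step_sound _ 97 [(rh3244c3cc8379b070.shift 0 2), (rhd376175ba3678d98.shift 1 0)] (by decide +kernel))
noncomputable def rhf765a9dbcf9edc5c : CRef := CRef.mk (Pat.mk 0x1800000018000000100000000000000000 0x1c0000001f0000003c00000018000000180000000800000008 5 6) 0 0 (step_sound _ 163 [(rh2145e1d24b96a57e.shift 3 2), rh445bdd16318da6af] (by decide +kernel))
noncomputable def rh1350115047441203 : CRef := CRef.mk (Pat.mk 0x18000000180000007000000010 0x270000007f000000f80000007800000010 5 8) 0 0 (step_sound _ 101 [(rh2f68792b6b779e96.shift 4 0), (rh52675df350b830ee.shift 0 1)] (by decide +kernel))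
noncomputable def rh752cb53747d63e0e : CRef := CRef.mk (Pat.mk 0x1e000000180000001000000000 0x1000000010000000300000001e0000001f0000003000000020 5 6) 0 0 (step_sound _ 132 [(rh33e738c4ed385b9f.shift 1 3), rh370843733b2fcf0d] (by decide +kernel))
noncomputable def rh8d8c9d8a382f5fcd : CRef := CRef.mk (Pat.mk 0x2000000038000000100000000000000000 0x8000000080000003f00000078000000180000001000000010 5 7) 0 0 (step_sound _ 36 [(rh71222050f2c63a3a.shift 4 0), (rhc2fda292a3a41b50.shift 0 1)] (by decide +kernel))
noncomputable def rh0bd94f05f8e689fc : CRef := CRef.mk (Pat.mk 0x4000000140000001e0000000000000000 0x80000000c0000001c0000001f0000003800000018 5 6) 0 0 (step_sound _ 99 [(rh53b3c253cb0c65f4.shift 0 2), (rh78318e74e44bb80d.shift 1 0)] (by decide +kernel))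
noncomputable def rhc60d79c6d02125ea : CRef := CRef.mk (Pat.mk 0x180000001e00000008 0x10000000300000001f0000003e00000038 5 6) 0 0 (step_sound _ 4 [rh98bfe017ab5fead7, (rhe25b0a99195a5d59.shift 1 0)] (by decide +kernel))
noncomputable def rh457044260194aa30 : CRef := CRef.mk (Pat.mk 0x300000001c00000010 0x2000000020000000770000007f0000001c00000010 5 7) 0 0 (step_sound _ 67 [rh0776fb12a04abd29, (rh18965a982d73c794.shift 2 1)] (by decide +kernel))
noncomputable def rhd0e020d11111160b : CRef := CRef.mk (Pat.mk 0xc0000000c000000060000000c00000000 0x100000003c0000000f0000000e0000003c00000010 5 6) 0 0 (step_sound _ 36 [rhd2c5d35a81143964, (rhf48373e13d2bc128.shift 1 1)] (by decide +kernel))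
noncomputable def rh763085980e23c60e : CRef := CRef.mk (Pat.mk 0x180000000c000000080000000000000000 0x8000000380000001f000000380000001000000010 5 6) 0 0 (step_sound _ 97 [(rh00fcb61af2b439ac.shift 1 0), (rh53b3c253cb0c65f4.shift 0 3)] (by decide +kernel))
noncomputable def rh5ead30ef98d3ed68 : CRef := CRef.mk (Pat.mk 0x1e00000000 0x700000003e00000073 5 7) 0 0 (step_sound _ 1 [(rha93a5dd541ab8209.shift 1 0), rheb0810cc63b001d8] (by decide +kernel))
noncomputable def rh6970e1f3726660a5 : CRef := CRef.mk (Pat.mk 0x100000002000000020000000200000000 0x4000000070000000700000002000000030000000300000001 5 3) 0 0 (step_sound _ 129 [rh3b734c5288922837, (rh50fbb5868c909700.shift 0 1)] (by decide +kernel))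
noncomputable def rh8276a28b36b0df67 : CRef := CRef.mk (Pat.mk 0x1000000008000000180000000c00000000 0x80000000c0000001f000000380000001c0000000c00000008 5 6) 0 0 (step_sound _ 100 [(rh71222050f2c63a3a.shift 3 0), (rh8768cac6096e8b6e.shift 0 1)] (by decide +kernel))
noncomputable def rh319ed8b014104f09 : CRef := CRef.mk (Pat.mk 0x8000000080000000c000000000000000000000000 0x1000000018000000180000000f0000003c0000001c00000014 5 6) 0 0 (step_sound _ 67 [(rh0b0198cd56a23f60.shift 0 1), (rh367118e0bf0473e0.shift 2 0), (rh6c59ce14113da07f.shift 3 0)] (by decide +kernel))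
noncomputable def rha383e883c0bb58ae : CRef := CRef.mk (Pat.mk 0x8000000040000000e0000000000000000 0x80000007f0000003f0000003000000010 5 7) 0 0 (step_sound _ 68 [rh3d12b22a3a27ac9e, (rhb0716bb49afa8156.shift 1 2), (rhe3060b190bc0bc78.shift 0 2)] (by decide +kernel))
noncomputable def rh15983a9fa35a29a5 : CRef := CRef.mk (Pat.mk 0xc000000180000000c0000000800000000 0xc000000780000000f0000007c00000010 5 7) 0 0 (step_sound _ 101 [rha06798a7fea02eea, (rhf48373e13d2bc128.shift 2 3)] (by decide +kernel))
noncomputable def rhbfe678a2e0e82212 : CRef := CRef.mk (Pat.mk 0x40000001c00000004000000040000000400000000 0x40000001c0000003f000000070000000600000004 5 6) 0 0 (step_sound _ 99 [(rh71222050f2c63a3a.shift 2 0), (rhbb078f97b92eba7a.shift 0 1)] (by decide +kernel))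
noncomputable def rhcca71ed482fd4d65 : CRef := CRef.mk (Pat.mk 0x1c000000080000000000000004 0x30000007f0000003f0000000400000004 5 7) 0 0 (step_sound _ 66 [rh223d9e07be031c44, rh49a326d07cb2d195, (rh4dc133ee0ba1420a.shift 0 2)] (by decide +kernel))
noncomputable def rheef2b3d6c3713016 : CRef := CRef.mk (Pat.mk 0x80000001e0000000200000000 0x3000000030000003f0000001e0000000600000004 5 6) 0 0 (step_sound _ 97 [(rh3244c3cc8379b070.shift 0 2), rh604fdf17deeaff03] (by decide +kernel))
noncomputable def rh649b17d361927b87 : CRef := CRef.mk (Pat.mk 0x80000001e0000001a000000000000000000000000 0x80000003e0000001e000000070000000600000006 5 6) 0 0 (step_sound _ 98 [(rh33e738c4ed385b9f.shift 1 3), rhba2f5aa16a65f4be] (by decide +kernel))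
noncomputable def rhefe0a598df5bf420 : CRef := CRef.mk (Pat.mk 0x80000000c0000001a000000100000000000000000 0xc0000000c0000001e000000370000000600000002 5 6) 0 0 (step_sound _ 98 [rha5ef98d9768becaf, (rhe25b0a99195a5d59.shift 1 2)] (by decide +kernel))
noncomputable def rh995dc3b188104229 : CRef := CRef.mk (Pat.mk 0xe00000002 0x770000003e00000003 5 7) 0 0 (step_sound _ 36 [(rh0cc4c691701426ad.shift 0 1), rheb0810cc63b001d8] (by decide +kernel))
noncomputable def rh7e1f8a70e5b4af52 : CRef := CRef.mk (Pat.mk 0x180000001e00000018 0x38000000380000001f0000001e00000018 5 6) 0 0 (step_sound _ 100 [(rh5c5e593799055d58.shift 3 0), rh99668cd0800fef58] (by decide +kernel))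
noncomputable def rh4083aefcedd355d9 : CRef := CRef.mk (Pat.mk 0xa0000001e000000180000000000000000 0xe0000003e0000001b0000000f0000000e 5 6) 0 0 (step_sound _ 130 [rh68dc67b7b00714c1, (rhf48373e13d2bc128.shift 1 3)] (by decide +kernel))
noncomputable def rh0247462e5ca63cb5 : CRef := CRef.mk (Pat.mk 0x200000002000000030000000e00000000 0x4000000060000001e0000000f0000000e0000000a 5 5) 0 0 (step_sound _ 130 [(rh2f68792b6b779e96.shift 1 1), rh97effc89ba81087f] (by decide +kernel))
noncomputable def rhba96842ad3e22ecf : CRef := CRef.mk (Pat.mk 0x40000001e000000080000000000000000 0x40000003e0000003f0000000300000002 5 6) 0 0 (step_sound _ 65 [rh8748b363fef5a948, (rheb0810cc63b001d8.shift 0 2)] (by decide +kernel))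
noncomputable def rhceaabac02e703afb : CRef := CRef.mk (Pat.mk 0x20000000200000002000000020000000000000000 0x4000000060000000600000002000000070000000700000001 5 3) 0 0 (step_sound _ 66 [rh367118e0bf0473e0, (rh55afc6a59410cf00.shift 1 1)] (by decide +kernel))
noncomputable def rhaaa1c3a857c35d86 : CRef := CRef.mk (Pat.mk 0x4000000000000000200000002000000020000000000000000 0x5000000070000000300000002000000060000000600000004 5 3) 0 0 (step_sound _ 161 [rh8ff3dde5b1c639e0, (rhbaefcd01e0a8bca3.shift 1 2)] (by decide +kernel))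
noncomputable def rha4ce135436b3c234 : CRef := CRef.mk (Pat.mk 0x20000000200000002000000000000000000000000 0x100000007000000070000000600000006000000070000000700000001 5 3) 0 0 (step_sound _ 65 [(rh5abfc4c9d959be03.shift 0 1), rhcab3157f7bdcba3e] (by decide +kernel))
noncomputable def rh8a9b13f0cd282068 : CRef := CRef.mk (Pat.mk 0x1c00000014000000100000001800000000 0x40000001c0000007f0000007f0000001e00000004 5 7) 0 0 (step_sound _ 99 [(rh7cc9619ceb05e5d2.shift 0 1), (rh9ce3a16f91dcd4b0.shift 0 2), (rhd9f38d00c87ab561.shift 1 0)] (by decide +kernel))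
noncomputable def rh607519a0b9ade97d : CRef := CRef.mk (Pat.mk 0x3800000008000000200000003000000000 0x800000008000000780000000c0000007f0000003e00000006 5 7) 0 0 (step_sound _ 34 [(rh0109c1f5b269e043.shift 0 1), (rh4657d6bf491c09a2.shift 1 0), (rh48e21794b03732dd.shift 2 0)] (by decide +kernel))
noncomputable def rh64e5b42bf7acf154 : CRef := CRef.mk (Pat.mk 0xe00000002000000080000000c00000000 0x30000003e000000760000001f0000000f00000001 5 7) 0 0 (step_sound _ 161 [(rh8c70a726a3a85f76.shift 0 3), rhd4d2b871e42cedd8] (by decide +kernel))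
noncomputable def rh96cf7519699172f4 : CRef := CRef.mk (Pat.mk 0xe0000001800000008 0x10000000370000007e0000001e00000008 5 7) 0 0 (step_sound _ 68 [(rh5421160f8e9bcf07.shift 1 0), (rh9393867a9802ea6f.shift 0 1)] (by decide +kernel))
noncomputable def rhb6df19a606f92e8e : CRef := CRef.mk (Pat.mk 0xc000000180000000800000000 0x8000000080000000c0000007c0000001f00000004 5 7) 0 0 (step_sound _ 69 [rh78181bcdc505f883, (rhf48373e13d2bc128.shift 2 2)] (by decide +kernel))
noncomputable def rh45382e873e6de244 : CRef := CRef.mk (Pat.mk 0x4000000030000000600000002 0x1000000030000000700000006000000030000000700000006 5 3) 0 0 (step_sound _ 97 [(rh2f68792b6b779e96.shift 1 0), rh8b45a73eaadf2a53] (by decide +kernel))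
noncomputable def rhb4ac883459ef2222 : CRef := CRef.mk (Pat.mk 0xf00000004 0x380000003f00000076 5 7) 0 0 (step_sound _ 68 [(rh428265de8cd3cd2d.shift 0 1), (rh4b7c21c12855a0fc.shift 1 0)] (by decide +kernel))
noncomputable def rh870a866e348bf852 : CRef := CRef.mk (Pat.mk 0x20000001e000000100000000000000000 0x10000000360000003f000000180000000800000008 5 6) 0 0 (step_sound _ 130 [rha4c1d69345b99268, (rhf48373e13d2bc128.shift 1 3)] (by decide +kernel))
noncomputable def rhdd82aadf23142bcb : CRef := CRef.mk (Pat.mk 0x140000001e00000000 0x1000000010000000300000001f0000001f00000008 5 6) 0 0 (step_sound _ 67 [(rh53b3c253cb0c65f4.shift 0 1), rhae14cf4db31ea47b] (by decide +kernel))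
noncomputable def rh03bcd6f6d790fbaf : CRef := CRef.mk (Pat.mk 0x4000000140000001c00000000 0x1000000010000000360000007f0000001c00000008 5 7) 0 0 (step_sound _ 67 [(rhb762f327c85d41a0.shift 1 1), rhc04bdb4f52da4841] (by decide +kernel))
noncomputable def rhcb294b42d666f577 : CRef := CRef.mk (Pat.mk 0x4000000140000001c0000000000000000 0x40000003f0000001f0000000300000002 5 6) 0 0 (step_sound _ 65 [rh2862eb75e5bdafe3, (rh33e738c4ed385b9f.shift 1 2)] (by decide +kernel))
noncomputable def rhb63f23ca8ee319cb : CRef := CRef.mk (Pat.mk 0x4000000040000000e000000080000000800000000 0x14000000360000001e0000003b0000000a00000002 5 6) 0 0 (step_sound _ 65 [(rh89536becce4a9eeb.shift 0 1), (rhf9af042da61fc652.shift 1 0)] (by decide +kernel))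
noncomputable def rh66c2d2b9858ee976 : CRef := CRef.mk (Pat.mk 0x4000000040000000c000000180000000000000000 0x4000000060000003f0000001f0000000200000002 5 6) 0 0 (step_sound _ 97 [(rhb739f4f82bb681b4.shift 0 2), rhc63f8a843d7c7acb] (by decide +kernel))
noncomputable def rhe4d4365ee4fe9d01 : CRef := CRef.mk (Pat.mk 0x200000002000000060000001c00000000 0x3000000030000003e0000001f00000003 5 6) 0 0 (step_sound _ 33 [rh736ad3523bdf45b7, (rh9fdcb09dfa6419d9.shift 0 1), rha37779f9238271b6, rhb3b931ebba8a3f92] (by decide +kernel))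
noncomputable def rh1265a58133d311aa : CRef := CRef.mk (Pat.mk 0x1000000030000000100000001 0x200000003000000030000000300000003000000030000000300000001 5 2) 0 0 (step_sound _ 128 [(rh14f80659e6313cc6.shift 0 1), rh44f453b84f013105, (rh8599f462953abc6e.shift 0 1), rhb8566e9a0302f73d] (by decide +kernel))
noncomputable def rh67504244231c5625 : CRef := CRef.mk (Pat.mk 0xc000000060000002c0000000400000000 0x20000000f0000003e0000006c0000007c00000018 5 7) 0 0 (step_sound _ 35 [rh14946c88364d19ce, (rh55afc6a59410cf00.shift 2 0)] (by decide +kernel))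
noncomputable def rhe0416c1b0e2a4508 : CRef := CRef.mk (Pat.mk 0x2000000030000000600000002 0x2000000060000000700000007000000070000000600000002 5 3) 0 0 (step_sound _ 96 [rh50fbb5868c909700, rh58c63edee24a7e9f] (by decide +kernel))
noncomputable def rhb1114ff230eb01ae : CRef := CRef.mk (Pat.mk 0xe0000001800000008 0x4000000140000003f0000003e0000001800000008 5 6) 0 0 (step_sound _ 68 [rh3e34a007a92efc93, (rh5421160f8e9bcf07.shift 1 0)] (by decide +kernel))
noncomputable def rhe54b34086112e199 : CRef := CRef.mk (Pat.mk 0x40000001e0000000400000000 0x400000004000000040000001f0000003f00000008 5 6) 0 0 (step_sound _ 33 [rh082a4b21b1673342, (rheb0810cc63b001d8.shift 0 1)] (by decide +kernel))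
noncomputable def rh0e11d512bf77af46 : CRef := CRef.mk (Pat.mk 0x80000000c0000003800000000 0x800000008000000080000007c0000003e00000017 5 7) 0 0 (step_sound _ 34 [(rh571950d89739e871.shift 2 0), rh9e97bba44c1b13e4] (by decide +kernel))
noncomputable def rhe95d1698e6af9655 : CRef := CRef.mk (Pat.mk 0x2000000030000000200000002000000000000000000000000 0x400000006000000070000000300000002000000060000000600000004 5 3) 0 0 (step_sound _ 194 [(rh2f68792b6b779e96.shift 1 3), rh99807ad0ef617e05] (by decide +kernel))
noncomputable def rhe5fee142b10295f1 : CRef := CRef.mk (Pat.mk 0x2000000020000000200000001 0x1000000030000000300000002000000060000000700000005 5 3) 0 0 (step_sound _ 129 [rh79877ebd3ef475dd, rh8065c10b3cae6218] (by decide +kernel))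
noncomputable def rha0d1be62cc6edd87 : CRef := CRef.mk (Pat.mk 0x6000000020000000e0000000200000000 0x1000000070000003e0000003e0000000200000002 5 6) 0 0 (step_sound _ 98 [(rh04efcf4a704307d0.shift 0 1), (rh71222050f2c63a3a.shift 1 0)] (by decide +kernel))
noncomputable def rh7aec231efb846772 : CRef := CRef.mk (Pat.mk 0x20000001a0000000e0000000000000000 0x80000000b0000001e0000003e0000003000000010 5 6) 0 0 (step_sound _ 98 [(rh3244c3cc8379b070.shift 0 3), (rh810a36d9e833e45d.shift 1 0)] (by decide +kernel))
noncomputable def rhf213f0b95cfab292 : CRef := CRef.mk (Pat.mk 0x2000000120000001e0000000000000000 0x80000000b0000001e0000003e0000003000000010 5 6) 0 0 (step_sound _ 98 [rh9bc085288900b3d5, (rhf48373e13d2bc128.shift 1 2)] (by decide +kernel))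
noncomputable def rh89aca29fd3fad272 : CRef := CRef.mk (Pat.mk 0x2000000020000000e 0x30000003f0000003f 5 6) 0 0 (step_sound _ 4 [rh3244c3cc8379b070, rh722ebfeb95c22fd8] (by decide +kernel))
noncomputable def rhac9d071515877bcf : CRef := CRef.mk (Pat.mk 0x7800000010 0xe00000007e00000037 5 8) 0 0 (step_sound _ 70 [(rh33e738c4ed385b9f.shift 3 1), rhe9d0c63b662b3e5a] (by decide +kernel))
noncomputable def rh1ca66957bfc03aef : CRef := CRef.mk (Pat.mk 0x1c00000008 0xe0000000ff0000003f 5 8) 0 0 (step_sound _ 37 [rh72577dc24d987d5b, (rhaf9f2efc81a8312b.shift 1 0), rhed95296174ee961f] (by decide +kernel))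
noncomputable def rhc15b3ab058dfda2a : CRef := CRef.mk (Pat.mk 0x1000000038000000040000000000000000 0x8000000080000001f0000003f0000000e0000000400000004 5 6) 0 0 (step_sound _ 98 [rh14dd238acf618045, (rheb0810cc63b001d8.shift 1 2)] (by decide +kernel))
noncomputable def rh794a694b2d7b44c3 : CRef := CRef.mk (Pat.mk 0x2000000060000001c000000100000000000000000 0x80000002f0000007e0000001c000000180000001000000010 5 7) 0 0 (step_sound _ 131 [rh0aeae3ddcc080ba0, (rh7577e90c7a26b0f4.shift 0 3), (rhc38f566cab2818e5.shift 3 0)] (by decide +kernel))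
noncomputable def rh331a739d7fcec445 : CRef := CRef.mk (Pat.mk 0x200000002000000020000000000000004 0x4000000060000000600000002000000030000000700000005 5 3) 0 0 (step_sound _ 33 [rh20966da26a1c2ae8, (rhd3458b32566d63f7.shift 1 0)] (by decide +kernel))
noncomputable def rhe14adcaf6c23d52b : CRef := CRef.mk (Pat.mk 0x200000002000000020000000000000004 0x50000000700000007000000020000000600000006 5 3) 0 0 (step_sound _ 33 [rh00c644645561e9be, (rhd3458b32566d63f7.shift 1 0)] (by decide +kernel))
noncomputable def rh526eaade1918ed86 : CRef := CRef.mk (Pat.mk 0x100000000c0000000c00000008 0x800000018000000180000000f0000003c00000018 5 6) 0 0 (step_sound _ 99 [(rh2f68792b6b779e96.shift 3 0), rh8564be3c15eb8f39] (by decide +kernel))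
noncomputable def rh93dd30d492f679c2 : CRef := CRef.mk (Pat.mk 0x1e000000000000000400000004 0x8000000080000001f000000380000001c00000014 5 6) 0 0 (step_sound _ 68 [(rhe25b0a99195a5d59.shift 1 2), rhe6a00171695aab8a] (by decide +kernel))
noncomputable def rh44f31b8d74d9bd47 : CRef := CRef.mk (Pat.mk 0x1400000070000000000000002000000020 0xf60000007e000000c70000006000000020 5 8) 0 0 (step_sound _ 99 [(rh89828354c362fe41.shift 0 2), (rh9c9de8a82d5e4ca8.shift 3 0)] (by decide +kernel))
noncomputable def rhe2d828d623e1bb11 : CRef := CRef.mk (Pat.mk 0xf00000004 0xe00000007f0000007e 5 8) 0 0 (step_sound _ 36 [rh4ad5fc38f1b69f65, (rh9ab60d74117ac343.shift 1 0), (rhdc1641106d7e5aa2.shift 1 0)] (by decide +kernel))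
noncomputable def rh7ec66969bb1960a9 : CRef := CRef.mk (Pat.mk 0x20000001e00000010 0xe6000000ff00000018 5 8) 0 0 (step_sound _ 37 [(rh3f8766e6ecb455ce.shift 1 1), rhbfbca84ec1a53183] (by decide +kernel))
noncomputable def rhbaf603c89264bd61 : CRef := CRef.mk (Pat.mk 0xc0000001c00000000 0x7c0000007e00000007 5 7) 0 0 (step_sound _ 37 [rh9e97bba44c1b13e4, (rhf48373e13d2bc128.shift 2 1)] (by decide +kernel))
noncomputable def rh0d22eea66c99620f : CRef := CRef.mk (Pat.mk 0x180000003800000000 0x400000004000000060000007e0000003f0000000f 5 7) 0 0 (step_sound _ 66 [rh3698ae4e5f8dd06d, (rhb739f4f82bb681b4.shift 1 1)] (by decide +kernel))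
noncomputable def rh6aa0422a96f72886 : CRef := CRef.mk (Pat.mk 0x180000001c00000000 0x18000000ff000000e7 5 8) 0 0 (step_sound _ 33 [(rh53b3c253cb0c65f4.shift 0 1), rhd13786f2292342c8] (by decide +kernel))
noncomputable def rh21588ce4b762d348 : CRef := CRef.mk (Pat.mk 0xc0000000e000000040000000c00000000 0x3c0000007e000000770000003c00000010 5 7) 0 0 (step_sound _ 132 [(rh18965a982d73c794.shift 1 3), rhb65539d81bf34bae] (by decide +kernel))
noncomputable def rh13d4145ff8d9f755 : CRef := CRef.mk (Pat.mk 0x200000002000000020000000400000000 0x50000000700000007000000020000000600000006 5 3) 0 0 (step_sound _ 33 [rh373b7625e672cfd8, (rh55afc6a59410cf00.shift 1 0)] (by decide +kernel))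
noncomputable def rh569f6852f7bb76d3 : CRef := CRef.mk (Pat.mk 0x10000000e000000020000000200000000 0x400000006000000070000001e000000060000000600000004 5 5) 0 0 (step_sound _ 129 [(rhced6d86d2069808b.shift 1 0), (rhf48373e13d2bc128.shift 0 3)] (by decide +kernel))
noncomputable def rhcc4964e547424109 : CRef := CRef.mk (Pat.mk 0x80000001e00000008 0x10000000300000003f0000003e00000008 5 6) 0 0 (step_sound _ 68 [(rh33e738c4ed385b9f.shift 1 1), rh6c65facbfc311a89] (by decide +kernel))
noncomputable def rha665c7525191f299 : CRef := CRef.mk (Pat.mk 0x40000000e0000001c0000000000000000 0x80000000f0000003e0000001f0000003000000010 5 6) 0 0 (step_sound _ 100 [rha8bcb4927b3d3cd5, (rhe3060b190bc0bc78.shift 0 3)] (by decide +kernel))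
noncomputable def rh13b6a0c93f7b942d : CRef := CRef.mk (Pat.mk 0x10000000f0000000c 0x18000000180000001f0000001f0000000c 5 5) 0 0 (step_sound _ 65 [rh85edaa7e257fdb26, (rhf48373e13d2bc128.shift 0 1)] (by decide +kernel))
noncomputable def rh4ff7d8537adf0731 : CRef := CRef.mk (Pat.mk 0x1e000000000000000800000000 0x8000000380000001f000000300000001800000008 5 6) 0 0 (step_sound _ 132 [(rh33e738c4ed385b9f.shift 1 3), rhb995784b403f00c5] (by decide +kernel))
noncomputable def rhe0ce021f192c8cdf : CRef := CRef.mk (Pat.mk 0x40000000c000000000000000800000000 0x140000003c0000000f000000080000000800000008 5 6) 0 0 (step_sound _ 67 [(rh1f7c8c7ebf15f44e.shift 0 1), (rh7b1f1fb55310c477.shift 2 0)] (by decide +kernel))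
noncomputable def rh345c4f0008bef59e : CRef := CRef.mk (Pat.mk 0x1c00000002 0x700000003e00000073 5 7) 0 0 (step_sound _ 33 [(rha93a5dd541ab8209.shift 1 0), rheb0810cc63b001d8] (by decide +kernel))
noncomputable def rh12124437aeb52afb : CRef := CRef.mk (Pat.mk 0x800000008000000180000000c0000000000000000 0x1000000018000000180000001800000018000000180000000f0000000800000008 5 5) 0 0 (step_sound _ 65 [(rh53b3c253cb0c65f4.shift 0 2), (rhe53958ffbb9ed408.shift 3 0)] (by decide +kernel))
noncomputable def rhbbc9ce310ac646aa : CRef := CRef.mk (Pat.mk 0x20000000e00000000 0x730000003e00000007 5 7) 0 0 (step_sound _ 36 [rh27ce058b59d72f64, (rh3244c3cc8379b070.shift 0 1)] (by decide +kernel))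
noncomputable def rh92f351e5c2c3dea1 : CRef := CRef.mk (Pat.mk 0x10000000140000001c00000000 0x400000004000000360000007f0000001c00000008 5 7) 0 0 (step_sound _ 67 [(rh113e957afa7c17ad.shift 1 0), (rh34517e326ddb5b25.shift 0 1)] (by decide +kernel))
noncomputable def rh1570bfd00237cade : CRef := CRef.mk (Pat.mk 0xe0000000e00000000 0x200000002000000030000003e0000003e00000004 5 6) 0 0 (step_sound _ 68 [(rh18965a982d73c794.shift 1 1), rhcdeb3bcefc910133] (by decide +kernel))
noncomputable def rh7f44b27153327405 : CRef := CRef.mk (Pat.mk 0x1e000000000000000000000000 0x400000004000000060000003e000000070000000200000002 5 6) 0 0 (step_sound _ 65 [(rha42ad51b4a6c06f4.shift 1 0), (rheb0810cc63b001d8.shift 0 2)] (by decide +kernel))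
noncomputable def rhe73fe696c4c039b7 : CRef := CRef.mk (Pat.mk 0x800000003000000070000000000000000 0x2000000070000001f00000003000000070000000600000002 5 5) 0 0 (step_sound _ 129 [rh112619997b213725, (rh571950d89739e871.shift 0 1)] (by decide +kernel))
noncomputable def rh9f0f972b3c6a7c5a : CRef := CRef.mk (Pat.mk 0x8000000180000000c00000000 0x4000000040000000c0000000f0000007c0000000c00000008 5 7) 0 0 (step_sound _ 69 [(rh18965a982d73c794.shift 2 1), rheafc667cde9531dc] (by decide +kernel))
noncomputable def rh7849060c200f5180 : CRef := CRef.mk (Pat.mk 0x10000000000000002000000020000000200000004 0x5000000070000000600000002000000030000000700000004 5 3) 0 0 (step_sound _ 129 [(rh71c2a92708b9cc1a.shift 0 1), (rhd3458b32566d63f7.shift 1 0)] (by decide +kernel))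
noncomputable def rh9c7ec389ba8f31b8 : CRef := CRef.mk (Pat.mk 0x40000001e000000180000000800000000 0x70000001e0000001b0000000f00000006 5 5) 0 0 (step_sound _ 65 [(rheb0810cc63b001d8.shift 0 2), rhf726105a8b0e229d] (by decide +kernel))
noncomputable def rh148f7450ac1f5a8e : CRef := CRef.mk (Pat.mk 0x50000000e0000000c 0x400000004000000770000007e0000000c 5 7) 0 0 (step_sound _ 36 [(rh037d2ef09b071581.shift 1 0), (rh3f8766e6ecb455ce.shift 0 1)] (by decide +kernel))
noncomputable def rhf13812e8f42b0343 : CRef := CRef.mk (Pat.mk 0x40000001e000000040000000000000000 0x4000000040000001f0000003f0000000800000008 5 6) 0 0 (step_sound _ 65 [rhbd68d223a126eb87, (rheb0810cc63b001d8.shift 0 2)] (by decide +kernel))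
noncomputable def rh11fad4d59a278960 : CRef := CRef.mk (Pat.mk 0x40000001c000000040000000c00000000 0xc0000000c0000001c0000000f0000003c00000010 5 6) 0 0 (step_sound _ 67 [(rh2145e1d24b96a57e.shift 2 1), rh3721d2c973aa2e21] (by decide +kernel))
noncomputable def rheebfbcc5d7189c8f : CRef := CRef.mk (Pat.mk 0x400000038000000080000000800000000 0x40000003f0000003f0000000800000008 5 6) 0 0 (step_sound _ 98 [(rh7b1f1fb55310c477.shift 2 0), (rhed95296174ee961f.shift 0 2)] (by decide +kernel))
noncomputable def rh37b321cf4a86b013 : CRef := CRef.mk (Pat.mk 0x20000000200000002000000040000000000000000 0x4000000060000000600000002000000070000000700000001 5 3) 0 0 (step_sound _ 65 [(rh55afc6a59410cf00.shift 1 1), rh82ca4d13b15beb50] (by decide +kernel))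
noncomputable def rh1a738581815cd520 : CRef := CRef.mk (Pat.mk 0x100000001c000000380000000000000000 0x4000000160000007c0000003f0000000f00000008 5 7) 0 0 (step_sound _ 35 [(rh71222050f2c63a3a.shift 3 0), (rhafc4c9a9d69fbade.shift 0 1)] (by decide +kernel))
noncomputable def rh7e0eb7361aa0748b : CRef := CRef.mk (Pat.mk 0x8000000080000000e0000001c0000000000000000 0x40000001c000000380000003e0000001f0000000800000008 5 6) 0 0 (step_sound _ 162 [(rh50fbb5868c909700.shift 2 2), rhe1eb410f20df8382] (by decide +kernel))
noncomputable def rhad56b7b51bc91aa7 : CRef := CRef.mk (Pat.mk 0x380000000c000000180000000000000000 0x40000000c0000000c0000000f0000003c0000001c000000180000000800000008 5 6) 0 0 (step_sound _ 163 [(rh53509d91ff78ed56.shift 0 2), (rh5bd4bc0c2c48140c.shift 2 2), (rhb35e66efa75d67a8.shift 2 2), (rhd6283e59309edcf9.shift 2 0)] (by decide +kernel))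
noncomputable def rhab05f8b7b959ead8 : CRef := CRef.mk (Pat.mk 0x1c000000060000001c0000000000000000 0x20000000b0000001f0000003e0000001c0000001000000010 5 6) 0 0 (step_sound _ 129 [(rh309fd0c3d364cd61.shift 0 2), rh7e56818eb170a271] (by decide +kernel))
noncomputable def rh23c14eb9bbfebe82 : CRef := CRef.mk (Pat.mk 0xc00000004000000040000000000000000 0xa0000000f0000003c000000040000000400000004 5 6) 0 0 (step_sound _ 34 [(rh2f68792b6b779e96.shift 2 1), rhecf4cf49642b1cf9] (by decide +kernel))
noncomputable def rh8e5e76ccbe228894 : CRef := CRef.mk (Pat.mk 0x20000000200000002000000020000000000000000 0x4000000060000000600000002000000070000000700000001 5 3) 0 0 (step_sound _ 66 [(rh55afc6a59410cf00.shift 1 1), rh82ca4d13b15beb50] (by decide +kernel))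
noncomputable def rh63423e35ee4718c3 : CRef := CRef.mk (Pat.mk 0xa0000001a0000000600000000 0x3000000030000003e0000001e0000000600000004 5 6) 0 0 (step_sound _ 129 [(rh55afc6a59410cf00.shift 1 0), (rh83ff764f2a469f9e.shift 0 1)] (by decide +kernel))
noncomputable def rh2381fb964bdc202d : CRef := CRef.mk (Pat.mk 0x8000000180000000c0000000000000000 0x40000001f0000007c0000000c0000000800000008 5 7) 0 0 (step_sound _ 101 [(rh18965a982d73c794.shift 2 2), rhd070d57e36cbafca] (by decide +kernel))
noncomputable def rh6a0d432b8da5b206 : CRef := CRef.mk (Pat.mk 0x2000000080000000e00000004 0x80000001f000000780000000f00000004 5 7) 0 0 (step_sound _ 68 [(rh53b3c253cb0c65f4.shift 0 1), rh8a99b3cd292b8285] (by decide +kernel))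
noncomputable def rh72125b4f2c1b30b5 : CRef := CRef.mk (Pat.mk 0x2000000030000000f00000004 0xc0000001e0000001b0000000f0000001c 5 5) 0 0 (step_sound _ 67 [(rh33e738c4ed385b9f.shift 0 1), rh6c660ae08add69aa] (by decide +kernel))
noncomputable def rh65e9253e718182a0 : CRef := CRef.mk (Pat.mk 0x4000000020000000200000002000000020000000000000000 0x400000006000000020000000200000002000000070000000700000005 5 3) 0 0 (step_sound _ 193 [(rh2f68792b6b779e96.shift 1 3), rh6eff4158bb400f47] (by decide +kernel))
noncomputable def rhdb8479242c299d0c : CRef := CRef.mk (Pat.mk 0x100000003800000000 0xff000000fe00000007 5 8) 0 0 (step_sound _ 34 [(rh503775339733bab1.shift 0 1), rh592c7139d2c44767, (rhe6bdd62e1711df0b.shift 2 1), (rhec46bd5500c722c9.shift 1 1)] (by decide +kernel))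
noncomputable def rh556a45ec8ab0f70b : CRef := CRef.mk (Pat.mk 0x4000000040000000c0000000000000000 0x400000004000000040000003c0000000f0000000a 5 6) 0 0 (step_sound _ 35 [(rh2145e1d24b96a57e.shift 2 1), rh7d7040c5e5990909] (by decide +kernel))
noncomputable def rh01b3ae1aac06a75f : CRef := CRef.mk (Pat.mk 0x800000008000000180000000000000010 0x8000000080000007c0000001f00000014 5 7) 0 0 (step_sound _ 35 [rhb0de455c382c5b1c, (rhd3458b32566d63f7.shift 3 0)] (by decide +kernel))
noncomputable def rhdc27bc6980aa4b6b : CRef := CRef.mk (Pat.mk 0x80000000800000018000000000000001000000000 0x18000000180000007c0000000f0000001c00000018 5 7) 0 0 (step_sound _ 67 [(rh8f4050c06a082165.shift 3 0), (rhb0de455c382c5b1c.shift 0 1)] (by decide +kernel))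
noncomputable def rh85996d48865af747 : CRef := CRef.mk (Pat.mk 0xc0000000c000000180000000800000000 0xc0000000f0000001e0000000f00000006 5 5) 0 0 (step_sound _ 97 [rh3123287b48aef0cd, (rhb739f4f82bb681b4.shift 0 2)] (by decide +kernel))
noncomputable def rhb2ba62121c20819f : CRef := CRef.mk (Pat.mk 0x30000000200000002000000000000000000000000 0x400000006000000070000000700000003000000030000000300000001 5 3) 0 0 (step_sound _ 65 [(rh20966da26a1c2ae8.shift 0 1), (rhd22616887d452319.shift 0 1), rhe4441baab75a6f73] (by decide +kernel))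
noncomputable def rhed2878e87211d64e : CRef := CRef.mk (Pat.mk 0x10000000e0000000200000002 0x600000006000000070000001e0000000600000006 5 5) 0 0 (step_sound _ 97 [(rh7ab09f375cd5d482.shift 1 0), (rhf48373e13d2bc128.shift 0 2)] (by decide +kernel))
noncomputable def rh264c4a62efd1b5eb : CRef := CRef.mk (Pat.mk 0xc0000001c000000080000000c00000000 0x20000000f0000001c0000003c0000000f00000002 5 6) 0 0 (step_sound _ 129 [(rhb739f4f82bb681b4.shift 0 3), rhf7c27e59b1d77735] (by decide +kernel))
noncomputable def rh902b63fe11510fa0 : CRef := CRef.mk (Pat.mk 0x180000000c00000008000000000000000000000000 0x8000000180000001f0000003c000000180000001000000010 5 6) 0 0 (step_sound _ 129 [(rh53b3c253cb0c65f4.shift 0 4), (rhdfc9ab5f307912cb.shift 1 0)] (by decide +kernel))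
noncomputable def rh7e304abac51d1461 : CRef := CRef.mk (Pat.mk 0x200000002000000020000000f00000000 0x400000006000000020000003a0000001f00000038 5 6) 0 0 (step_sound _ 130 [(rh2f68792b6b779e96.shift 1 1), rh3fc3a7fb6866dcd4] (by decide +kernel))
noncomputable def rh399a4306c3957ea3 : CRef := CRef.mk (Pat.mk 0x20000000f00000000 0x760000003f00000038 5 7) 0 0 (step_sound _ 4 [(rh202c4837cbd169c8.shift 1 0), rh96851dee118c1ba3] (by decide +kernel))
noncomputable def rhbb4cbf87c97ba3b2 : CRef := CRef.mk (Pat.mk 0x3000000020000000200000002000000000000000000000000 0x3000000030000000200000003000000070000000700000004 5 3) 0 0 (step_sound _ 65 [rhc8d8968d053fe9bb, (rhffd04209dc8ea796.shift 0 2)] (by decide +kernel))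
noncomputable def rhe744950f77206504 : CRef := CRef.mk (Pat.mk 0x200000003000000020000000200000000 0x400000006000000060000000200000003000000070000000600000004 5 3) 0 0 (step_sound _ 34 [(rh55afc6a59410cf00.shift 1 0), (rh97e7a3cec66f312d.shift 0 1)] (by decide +kernel))
noncomputable def rh9a828782adc9bde2 : CRef := CRef.mk (Pat.mk 0x8000000080000001e000000000000000000000000 0xa0000000f0000003e000000060000000400000004 5 6) 0 0 (step_sound _ 129 [(rh3244c3cc8379b070.shift 0 3), (rhb5ebbb579fb61215.shift 1 0)] (by decide +kernel))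
noncomputable def rh11fb5d476a544814 : CRef := CRef.mk (Pat.mk 0x6000000060000000c0000000800000000 0x30000000300000007000000060000000f0000001b00000002 5 5) 0 0 (step_sound _ 161 [(rh2145e1d24b96a57e.shift 1 2), rh8275b699f50a65f0] (by decide +kernel))
noncomputable def rhf6acf8a9fbc33f25 : CRef := CRef.mk (Pat.mk 0x1000000000000000200000002000000020000000000000000 0x5000000070000000600000002000000030000000300000001 5 3) 0 0 (step_sound _ 161 [rha78b327dad5d6a04, (rhffd04209dc8ea796.shift 0 2)] (by decide +kernel))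
noncomputable def rhe23cfe9124753bf4 : CRef := CRef.mk (Pat.mk 0x10000000000000002000000020000000200000000 0x30000000300000002000000070000000700000005 5 3) 0 0 (step_sound _ 129 [rhc4ec57a3756c3a6c, (rhffd04209dc8ea796.shift 0 1)] (by decide +kernel))
noncomputable def rhb3d94b11b6341193 : CRef := CRef.mk (Pat.mk 0x800000018000000080000001000000000 0x40000000f0000003c000000080000001800000018 5 6) 0 0 (step_sound _ 35 [(rh55afc6a59410cf00.shift 3 0), rh91996c881a145cdd] (by decide +kernel))
noncomputable def rhee98cb849a7618e6 : CRef := CRef.mk (Pat.mk 0x20000000600000006000000010000000000000000 0x100000003000000070000001e000000030000000300000002 5 5) 0 0 (step_sound _ 65 [rh838804c15a5b1edd, (rh932754581e0f4330.shift 0 1)] (by decide +kernel))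
noncomputable def rhcefb17716b0e9664 : CRef := CRef.mk (Pat.mk 0x380000001400000000 0x400000004000000060000007f0000003c00000008 5 7) 0 0 (step_sound _ 35 [(rh18965a982d73c794.shift 2 1), rh8061784ae8734931] (by decide +kernel))
noncomputable def rh102ff83374b12adf : CRef := CRef.mk (Pat.mk 0x20000000200000002000000020000000000000000 0x1000000030000000300000002000000070000000700000001 5 3) 0 0 (step_sound _ 66 [(rh55afc6a59410cf00.shift 1 1), rhc4526fc8abf298b6] (by decide +kernel))
noncomputable def rhc07bb72395eb1181 : CRef := CRef.mk (Pat.mk 0x80000001800000008000000080000000800000000 0x80000000800000008000000380000001f0000000c0000000800000008 5 6) 0 0 (step_sound _ 100 [(rh71222050f2c63a3a.shift 3 0), (rhe2d7daae1577d340.shift 0 2)] (by decide +kernel))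
noncomputable def rh91fc61c66e640f29 : CRef := CRef.mk (Pat.mk 0x20000001c000000000000000800000008 0x330000001e000000330000001800000008 5 6) 0 0 (step_sound _ 97 [(rh3244c3cc8379b070.shift 0 3), rh41f615f62bd9da0d] (by decide +kernel))
noncomputable def rh6c145a5aa052d879 : CRef := CRef.mk (Pat.mk 0x1800000070000000100000002000000020 0x80000000c000000f80000007f000000de0000006000000020 5 8) 0 0 (step_sound _ 99 [(rh41f615f62bd9da0d.shift 2 0), (rh90466d99f0f48f3c.shift 2 2), (rhcef93a29c93c96c9.shift 0 2)] (by decide +kernel))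
noncomputable def rh8f34f9439bbe2e08 : CRef := CRef.mk (Pat.mk 0x1c00000008000000080000000800000000 0x30000003f0000003f0000000c0000000c00000004 5 6) 0 0 (step_sound _ 34 [(rh8c616eee48d946df.shift 0 1), (rh932754581e0f4330.shift 2 0)] (by decide +kernel))
noncomputable def rh0291c41216c7b1e2 : CRef := CRef.mk (Pat.mk 0x120000001e000000000000000400000004 0x10000000300000001e0000003f000000080000000c00000004 5 6) 0 0 (step_sound _ 131 [(rh4f331c55848546af.shift 1 0), (rh53b3c253cb0c65f4.shift 0 3)] (by decide +kernel))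
noncomputable def rhf5ed9ccc05cb4de7 : CRef := CRef.mk (Pat.mk 0x1000000000000000080000001c00000000 0x1000000010000001df000000ff000000e0 5 9) 0 0 (step_sound _ 37 [rh18171610b1a442b5, (rhc3f8d890a3bb80c0.shift 2 0), (rhe3060b190bc0bc78.shift 1 1)] (by decide +kernel))
noncomputable def rh8aa0b4e7739f28a1 : CRef := CRef.mk (Pat.mk 0x8000000080000001e000000000000000000000000 0x80000000b0000003e0000000f0000000400000004 5 6) 0 0 (step_sound _ 128 [rh375f643453e42b7a, (rh3f8766e6ecb455ce.shift 0 3)] (by decide +kernel))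
noncomputable def rh9d4a75e793e76bcf : CRef := CRef.mk (Pat.mk 0x180000001c0000000000000000 0x4000000060000007f0000003c0000000800000008 5 7) 0 0 (step_sound _ 101 [(rh18965a982d73c794.shift 2 2), rh22bc6c6ba20d9cfb] (by decide +kernel))
noncomputable def rh3e7e8b6d9c6d8299 : CRef := CRef.mk (Pat.mk 0x1e00000010 0x7000000ff0000001c 5 8) 0 0 (step_sound _ 65 [rh1e25901ef1905410, (rh3244c3cc8379b070.shift 0 1)] (by decide +kernel))
noncomputable def rh3e4c350819528c4b : CRef := CRef.mk (Pat.mk 0x400000004000000080000000800000000 0x400000004000000040000003c0000000f0000000a 5 6) 0 0 (step_sound _ 66 [(rh2145e1d24b96a57e.shift 2 1), rh7d7040c5e5990909] (by decide +kernel))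
noncomputable def rh6d8cb109a9cc428e : CRef := CRef.mk (Pat.mk 0xe0000001800000008 0x1000000037000000fe0000001c00000008 5 8) 0 0 (step_sound _ 68 [(rh412d230494194d0a.shift 0 1), (rh5421160f8e9bcf07.shift 1 0)] (by decide +kernel))
noncomputable def rh14cf5d46e5456f2b : CRef := CRef.mk (Pat.mk 0x40000001c0000000c000000000000000000000000 0x40000001c0000007f000000770000000200000002 5 7) 0 0 (step_sound _ 97 [(rh53b3c253cb0c65f4.shift 0 3), rh75ab166bafd6c308] (by decide +kernel))
noncomputable def rh379aa2230ca57fc6 : CRef := CRef.mk (Pat.mk 0x2000000020000000200000002000000020000000000000000 0x200000002000000020000000300000003000000070000000600000006 5 3) 0 0 (step_sound _ 96 [rh7a73d6b95d200bd4, (rh932754581e0f4330.shift 0 2)] (by decide +kernel))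
noncomputable def rhf3fc0f2306b47fb4 : CRef := CRef.mk (Pat.mk 0x1c0000000c0000000800000000 0x1800000018000000180000001c0000001f0000007800000010 5 7) 0 0 (step_sound _ 65 [(rh53b3c253cb0c65f4.shift 0 2), (rhaced4ac610f93b45.shift 1 0)] (by decide +kernel))
noncomputable def rh7875d85a97e97e5d : CRef := CRef.mk (Pat.mk 0x30000000600000006000000000000000000000000 0x600000006000000070000000700000006000000020000000200000002 5 3) 0 0 (step_sound _ 193 [(rh2145e1d24b96a57e.shift 1 3), rh60c17605e880d32b] (by decide +kernel))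
noncomputable def rhabf2c0b050f7c569 : CRef := CRef.mk (Pat.mk 0x3800000010 0x70000007e000000ff 5 8) 0 0 (step_sound _ 34 [(rh0edd3afef6b5d7e0.shift 1 0), rh775ca1963e850b80, (rha03f6e28ea70fc7d.shift 1 0)] (by decide +kernel))
noncomputable def rh9cffa5cc82da3121 : CRef := CRef.mk (Pat.mk 0x60000001e000000080000000800000000 0x60000001e0000003b0000000f00000003 5 6) 0 0 (step_sound _ 68 [rh57e49d4ee7cd34ec, (rhe25b0a99195a5d59.shift 1 2)] (by decide +kernel))
noncomputable def rhc0582aba1fbfe08b : CRef := CRef.mk (Pat.mk 0x40000000c0000000e000000000000000000000000 0x40000000c0000007e000000770000000200000002 5 7) 0 0 (step_sound _ 65 [(rh42548283029e2a39.shift 1 0), (rhbb8ddf6556e5ee9b.shift 0 2), (rhedf43d9310a523b3.shift 0 2)] (by decide +kernel))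
noncomputable def rhe58870a9ea0b50be : CRef := CRef.mk (Pat.mk 0x80000000a0000000600000002000000000000000000000000 0xa0000000e0000000600000006000000070000000700000005 5 4) 0 0 (step_sound _ 65 [(rh127b405bd7f7b930.shift 1 0), (rh2b186d00f5cd3f68.shift 1 1), rh6eff4158bb400f47, rh91a545eb3be094e3] (by decide +kernel))
noncomputable def rh853927cba9a5440b : CRef := CRef.mk (Pat.mk 0x80000000c0000001c0000000000000000 0x140000007c0000001f0000001c0000000800000008 5 7) 0 0 (step_sound _ 97 [(rh78589806ce01c73f.shift 1 0), (rhb739f4f82bb681b4.shift 0 2)] (by decide +kernel))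
noncomputable def rh3df3ff115a1614da : CRef := CRef.mk (Pat.mk 0x800000008000000380000000800000000 0x40000000c0000001f000000380000001800000018 5 6) 0 0 (step_sound _ 36 [(rh55afc6a59410cf00.shift 3 0), rhd716e2ab31203e19] (by decide +kernel))
noncomputable def rh2efbb3071513816e : CRef := CRef.mk (Pat.mk 0xc000000180000000800000000 0x18000000380000001f000000180000001800000018 5 6) 0 0 (step_sound _ 97 [(rh0fefe7d5fb8d2382.shift 1 0), (rhb739f4f82bb681b4.shift 0 2)] (by decide +kernel))
noncomputable def rh881d88294fdaab25 : CRef := CRef.mk (Pat.mk 0x80000000c000000080000000800000000 0x140000003c0000000f000000080000000c00000004 5 6) 0 0 (step_sound _ 130 [(rh50fbb5868c909700.shift 2 1), rh56d3171fc336fc95] (by decide +kernel))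
noncomputable def rh98107b1bf0065c07 : CRef := CRef.mk (Pat.mk 0x80000000c00000008000000080000000800000000 0x80000000c0000001f000000780000001800000008 5 7) 0 0 (step_sound _ 68 [(rh55afc6a59410cf00.shift 3 1), rhbd74c53779ca277f] (by decide +kernel))
noncomputable def rh600ac662adbb0262 : CRef := CRef.mk (Pat.mk 0x1000000020000000200000002000000000000000000000000 0x5000000070000000600000002000000030000000300000001 5 3) 0 0 (step_sound _ 65 [rh367118e0bf0473e0, (rhffd04209dc8ea796.shift 0 2)] (by decide +kernel))
noncomputable def rh49cd43ac23821111 : CRef := CRef.mk (Pat.mk 0xe00000004000000040000000400000000 0x40000003e000000070000000c0000000c0000000c 5 6) 0 0 (step_sound _ 97 [rh6f9771bcc966834d, (rh7b1f1fb55310c477.shift 1 0)] (by decide +kernel))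
noncomputable def rh121b15bbfd6a4240 : CRef := CRef.mk (Pat.mk 0x1c00000002000000080000000c00000000 0x3c000000060000007e0000001f00000002 5 7) 0 0 (step_sound _ 98 [(rh18965a982d73c794.shift 1 3), rh5a8a7f9e51be3b01] (by decide +kernel))
noncomputable def rh6f837f8bf215431e : CRef := CRef.mk (Pat.mk 0x3800000004000000100000001800000000 0x70000003e00000006000000fc0000001e00000003 5 8) 0 0 (step_sound _ 130 [rh05b0be8bde736eb4, (rheb0810cc63b001d8.shift 1 3)] (by decide +kernel))
noncomputable def rh99d0d99b455cec03 : CRef := CRef.mk (Pat.mk 0x80000001e00000008 0xc000000fe0000003f 5 8) 0 0 (step_sound _ 4 [rh3637b98dec3858d5, (rhe25b0a99195a5d59.shift 1 0)] (by decide +kernel))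
noncomputable def rhd96d63f6d5943b32 : CRef := CRef.mk (Pat.mk 0x1000000018000000060000000000000000 0x2000000330000003e000000060000000400000004 5 6) 0 0 (step_sound _ 98 [(rh18965a982d73c794.shift 1 2), rh67608fbd135ba3d0] (by decide +kernel))
noncomputable def rhbbc51700bf94db04 : CRef := CRef.mk (Pat.mk 0xa0000000e000000060000000400000000 0xb0000001e0000003e0000003c00000010 5 6) 0 0 (step_sound _ 100 [(rh3244c3cc8379b070.shift 0 3), (rh874593e3f05c8191.shift 1 0)] (by decide +kernel))
noncomputable def rhb569eea4a735f823 : CRef := CRef.mk (Pat.mk 0x2000000020000000200000002 0x50000000700000007000000020000000300000003 5 3) 0 0 (step_sound _ 128 [rh71c2a92708b9cc1a, rhffd04209dc8ea796] (by decide +kernel))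
noncomputable def rhf163d72258121a87 : CRef := CRef.mk (Pat.mk 0x1c00000018000000080000001800000000 0x1c0000007c0000003f0000007800000020 5 7) 0 0 (step_sound _ 101 [rh0758392690618eb3, (rhf48373e13d2bc128.shift 2 3)] (by decide +kernel))
noncomputable def rh49def758a321f3b6 : CRef := CRef.mk (Pat.mk 0x1c00000018000000080000001800000000 0x3f0000001f0000003c000000f800000020 5 8) 0 0 (step_sound _ 129 [rhb3ba2a68cb72d754, (rhb739f4f82bb681b4.shift 0 3)] (by decide +kernel))
noncomputable def rh209d6a6eb2da8dd5 : CRef := CRef.mk (Pat.mk 0x200000002000000020000000600000000 0x200000002000000030000000300000003000000070000000600000002 5 3) 0 0 (step_sound _ 161 [rh0105b2139521f473, (rhd3458b32566d63f7.shift 1 1)] (by decide +kernel))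
noncomputable def rh3de4a7082cb069d0 : CRef := CRef.mk (Pat.mk 0x800000008000000080000000800000000 0x800000008000000080000007c0000001f00000004 5 7) 0 0 (step_sound _ 34 [(rh2fc3fad3b0557a5a.shift 0 1), (rh932754581e0f4330.shift 2 0)] (by decide +kernel))
noncomputable def rhdb25a5474e26143a : CRef := CRef.mk (Pat.mk 0x80000001c00000000 0xff0000007f000000e0 5 8) 0 0 (step_sound _ 65 [(rh1136b81d2c6924ee.shift 1 0), (rh508d31626b5d2be8.shift 0 1), (rhd0ed6ce702d0de55.shift 0 1)] (by decide +kernel))
noncomputable def rh848b416e416a65ee : CRef := CRef.mk (Pat.mk 0x2000000020000000200000002000000000000000000000000 0x400000007000000070000000300000002000000030000000300000001 5 3) 0 0 (step_sound _ 194 [(rh2f68792b6b779e96.shift 1 3), rhcb1d701eef7f8bae] (by decide +kernel))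
noncomputable def rh54063546e68442c2 : CRef := CRef.mk (Pat.mk 0x4000000040000000c0000000e00000000 0x80000000c0000000c0000000f0000003e00000014 5 6) 0 0 (step_sound _ 131 [(rh2f68792b6b779e96.shift 2 1), rh4fc2726e16dd2260] (by decide +kernel))
noncomputable def rh9f804a10bb44620a : CRef := CRef.mk (Pat.mk 0x20000000f00000004 0x60000007f000000fc 5 8) 0 0 (step_sound _ 36 [(rh2aac33c566332a8c.shift 1 0), rh4ad5fc38f1b69f65, rh64fa2638f58ff22d, (rh6d3439b2ebcbd624.shift 1 0)] (by decide +kernel))
noncomputable def rh9435b120267fd85c : CRef := CRef.mk (Pat.mk 0x18000000180000003000000020 0x4000000040000000c0000000f0000007c000000180000003c00000064 5 7) 0 0 (step_sound _ 131 [(rh2145e1d24b96a57e.shift 3 1), rh6bf720a383ca080e] (by decide +kernel))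
noncomputable def rh83aedc160a7f657e : CRef := CRef.mk (Pat.mk 0x2000000030000000600000006 0x1d0000001f000000070000000600000006 5 5) 0 0 (step_sound _ 98 [(rh2f68792b6b779e96.shift 1 0), rha81916bd2c091619] (by decide +kernel))
noncomputable def rh22b12dd1353b44f4 : CRef := CRef.mk (Pat.mk 0x800000008000000080000001e00000000 0x40000000c0000000c0000000f0000003e0000000a 5 6) 0 0 (step_sound _ 65 [(rh3244c3cc8379b070.shift 0 1), (rh72274c1dfd51176c.shift 1 0)] (by decide +kernel))
noncomputable def rhdad877f36e9733d8 : CRef := CRef.mk (Pat.mk 0x1000000000000000180000001c00000000 0x10000000100000001f0000003f00000060 5 7) 0 0 (step_sound _ 33 [(rh53b3c253cb0c65f4.shift 0 1), rhaad951dfb9c73db4] (by decide +kernel))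
noncomputable def rh13d8440bcf1a7093 : CRef := CRef.mk (Pat.mk 0x3800000000000000000000006000000040 0x1f00000078000000180000001c000000f8000003d0 5 10) 0 0 (step_sound _ 36 [(rh1017b7a1d9aba48b.shift 0 1), (rh663b50036dae2c4b.shift 2 0), (rh8ee80cc30e93a344.shift 3 0)] (by decide +kernel))
noncomputable def rh341c6833ccdeba53 : CRef := CRef.mk (Pat.mk 0x1800000070000000000000003000000020 0x10000000f80000007f0000000f0000007c000001e8 5 9) 0 0 (step_sound _ 99 [(rh6e35f5d1a3c4bb19.shift 2 0), (rh7654d7b92c96fe12.shift 1 2), (rh8ec66a7fc6d9eb07.shift 0 2)] (by decide +kernel))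
noncomputable def rh4461088443626e94 : CRef := CRef.mk (Pat.mk 0x1e00000000 0x380000001f0000003b 5 6) 0 0 (step_sound _ 1 [rh2381ca26b8b38d1e, rheb0810cc63b001d8] (by decide +kernel))
noncomputable def rh24c0faa775fa2763 : CRef := CRef.mk (Pat.mk 0x4000000020000001e00000000000000000000000000000000 0x4000000060000001e00000003000000070000000700000005 5 5) 0 0 (step_sound _ 97 [rhc87f7657c377b457, (rheb0810cc63b001d8.shift 0 3)] (by decide +kernel))
noncomputable def rhae0e887bcb4a7906 : CRef := CRef.mk (Pat.mk 0x1000000008000000380000006000000000 0x100000007c0000002f000000780000006000000040 5 7) 0 0 (step_sound _ 98 [rh82615cc00d181ffe, (rhf48373e13d2bc128.shift 2 2)] (by decide +kernel))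
noncomputable def rh025f50bea12aa8b3 : CRef := CRef.mk (Pat.mk 0xe0000001a0000000000000000 0x8000000080000003e0000001f0000003000000010 5 6) 0 0 (step_sound _ 100 [(rh3d0404269046c5d2.shift 1 0), (rheb0810cc63b001d8.shift 0 2)] (by decide +kernel))
noncomputable def rh32299c4141658829 : CRef := CRef.mk (Pat.mk 0x6000000020000000e00000008 0x5000000070000001e0000000a0000000e0000000c 5 5) 0 0 (step_sound _ 129 [(rh55afc6a59410cf00.shift 1 0), rha1ef4ee3ae093e66] (by decide +kernel))
noncomputable def rhc3976272001683df : CRef := CRef.mk (Pat.mk 0x4000000020000000e00000018 0x600000006000000030000003e0000001f 5 6) 0 0 (step_sound _ 36 [(rh3244c3cc8379b070.shift 0 1), rha06ad2ce3bc67618] (by decide +kernel))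
noncomputable def rhbb490568a65dc4af : CRef := CRef.mk (Pat.mk 0x80000000c000000180000001000000000 0x140000007c0000001f000000180000001800000008 5 7) 0 0 (step_sound _ 97 [(rhb739f4f82bb681b4.shift 0 2), (rhf10aada8718f2af7.shift 1 0)] (by decide +kernel))
noncomputable def rhe13854c674fe5d3a : CRef := CRef.mk (Pat.mk 0x1c0000000e0000000000000000 0x2000000030000001f0000007e0000007400000004 5 7) 0 0 (step_sound _ 68 [(rh0cb6a409506b34ea.shift 1 1), rh12b3e7d1014f8218, (rh73aed199c1a62ed4.shift 0 2)] (by decide +kernel))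
noncomputable def rh16b4d8287bf1fc57 : CRef := CRef.mk (Pat.mk 0x800000007000000020 0xc70000007e00000070 5 8) 0 0 (step_sound _ 35 [(rh428265de8cd3cd2d.shift 3 1), rhb2afcb5db661472f] (by decide +kernel))
noncomputable def rhf3889cbcd8405cb8 : CRef := CRef.mk (Pat.mk 0x80000000700000002 0x180000003f00000077 5 7) 0 0 (step_sound _ 35 [(rh33e738c4ed385b9f.shift 0 1), rhb02f9c2bd63f56db] (by decide +kernel))
noncomputable def rh20df1f66517a092e : CRef := CRef.mk (Pat.mk 0x50000000700000004000000000000000000000000 0x1000000050000000700000007000000060000000e0000000e00000008 5 4) 0 0 (step_sound _ 65 [(rh0db119afefb5ebc7.shift 1 1), (rh24475f7678211b71.shift 1 0), (rh2cb7763468269676.shift 0 2)] (by decide +kernel))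
noncomputable def rhab0175585b4b9e7c : CRef := CRef.mk (Pat.mk 0x4000000040000000e0000000000000000 0x4000000770000003e0000007300000002 5 7) 0 0 (step_sound _ 68 [(rh3fc3a7fb6866dcd4.shift 1 1), rhae036cc4ef671676, (rhe3060b190bc0bc78.shift 0 2)] (by decide +kernel))
noncomputable def rh74fdf8d82f05be69 : CRef := CRef.mk (Pat.mk 0x40000001c00000000 0x760000003e00000007 5 7) 0 0 (step_sound _ 37 [(rh3244c3cc8379b070.shift 1 1), rh9e97bba44c1b13e4] (by decide +kernel))
noncomputable def rhaea0e5974a1b33d0 : CRef := CRef.mk (Pat.mk 0x40000001c00000000 0x7c0000007e000000f7 5 8) 0 0 (step_sound _ 37 [(rh3e1b7b343686dca1.shift 1 0), (rh60e95adc726bb530.shift 2 0), rh9e97bba44c1b13e4] (by decide +kernel))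
noncomputable def rh0942ce6c90983eb7 : CRef := CRef.mk (Pat.mk 0x60000001e000000020000000000000000 0x10000000360000001e0000003e0000000b0000000b 5 6) 0 0 (step_sound _ 68 [rh902f34c93eb48901, (rhe25b0a99195a5d59.shift 1 2)] (by decide +kernel))
noncomputable def rh5a280e49da9b7604 : CRef := CRef.mk (Pat.mk 0x180000001c00000000 0x1f000000ff000000e0 5 8) 0 0 (step_sound _ 33 [rh1960b7bea141c657, (rh53b3c253cb0c65f4.shift 0 1)] (by decide +kernel))
noncomputable def rh718d78634d13fd4e : CRef := CRef.mk (Pat.mk 0x2000000020000000600000002000000000000000000000000 0x2000000060000000600000007000000070000000300000002 5 3) 0 0 (step_sound _ 98 [(rh55afc6a59410cf00.shift 1 2), rh7b18f3f209f14cd6] (by decide +kernel))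
noncomputable def rh225b33797687f1e5 : CRef := CRef.mk (Pat.mk 0x2000000008000000180000001000000000 0x380000007c0000001f000000180000001800000008 5 7) 0 0 (step_sound _ 131 [(rh2145e1d24b96a57e.shift 3 1), rhf2fe03bbab0572c7] (by decide +kernel))
noncomputable def rhc8bf89fbcf441e9d : CRef := CRef.mk (Pat.mk 0x400000001000000030000001a0000000000000000 0x2000000060000000600000003000000030000001b0000000f00000007 5 5) 0 0 (step_sound _ 33 [rh7b1f1fb55310c477, rhd68a86fea69f7105] (by decide +kernel))
noncomputable def rhab69574ab2e3421e : CRef := CRef.mk (Pat.mk 0x40000001c00000000 0xfc0000007e00000077 5 8) 0 0 (step_sound _ 37 [rh185f35b8bd8ec37f, (rh790acd67f4fffd04.shift 2 1), rh9e97bba44c1b13e4] (by decide +kernel))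
noncomputable def rh5b6574fdb121ea51 : CRef := CRef.mk (Pat.mk 0x80000000800000018000000080000001000000000 0x8000000080000007c0000000f0000001c00000010 5 7) 0 0 (step_sound _ 66 [rh81ee81de43d928d7, (rh932754581e0f4330.shift 2 1)] (by decide +kernel))
noncomputable def rh39e0eec5fc728115 : CRef := CRef.mk (Pat.mk 0xc000000040000000c00000000 0x20000000f0000003e000000040000000c00000008 5 6) 0 0 (step_sound _ 130 [(rh17d893c7538e1819.shift 0 1), (rh55afc6a59410cf00.shift 2 0)] (by decide +kernel))
noncomputable def rh14a9563831292a9d : CRef := CRef.mk (Pat.mk 0x100000000c0000001800000000 0x10000000100000001c0000007c0000000f0000001800000008 5 7) 0 0 (step_sound _ 65 [(rhb739f4f82bb681b4.shift 0 1), (rhbfcac7838ffb44c2.shift 1 0)] (by decide +kernel))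
noncomputable def rh5b3d87d50d654779 : CRef := CRef.mk (Pat.mk 0x40000001c000000160000000000000000 0x40000001c0000007f0000000f00000008 5 7) 0 0 (step_sound _ 67 [(rh53b3c253cb0c65f4.shift 0 2), rhe84ca77c31647bba] (by decide +kernel))
noncomputable def rh543c24d529f35d58 : CRef := CRef.mk (Pat.mk 0xc000000040000000c00000000 0xa0000000f0000003c000000040000000c00000008 5 6) 0 0 (step_sound _ 130 [(rh1b866c4ae8b50bb9.shift 0 1), (rh55afc6a59410cf00.shift 2 0)] (by decide +kernel))
noncomputable def rh5238b48a4a49ce7e : CRef := CRef.mk (Pat.mk 0x4000000000000000c0000000800000000 0x400000004000000040000003c0000000f0000000a 5 6) 0 0 (step_sound _ 98 [(rh2145e1d24b96a57e.shift 2 1), rh7d7040c5e5990909] (by decide +kernel))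
noncomputable def rh73f1c1e21e218931 : CRef := CRef.mk (Pat.mk 0x38000000100000001000000038 0x70000003e000000770000007e0000007e 5 7) 0 0 (step_sound _ 98 [(rh592c7139d2c44767.shift 0 2), (rh9ad257ee707ad9ae.shift 1 0), (rha03f6e28ea70fc7d.shift 1 2)] (by decide +kernel))
noncomputable def rhd156fa241efeb068 : CRef := CRef.mk (Pat.mk 0x8000000080000003c0000000400000000 0x8000000780000007f0000001c00000010 5 7) 0 0 (step_sound _ 35 [(rh18965a982d73c794.shift 2 1), rh752807c7a5d3fff6] (by decide +kernel))
noncomputable def rhd34bc89f40435aa8 : CRef := CRef.mk (Pat.mk 0x200000007800000010 0x3e0000007f0000001c 5 7) 0 0 (step_sound _ 3 [rh14b7f29a2029f50d, (rheb0810cc63b001d8.shift 2 0)] (by decide +kernel))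
noncomputable def rhe1422ce20adc6e28 : CRef := CRef.mk (Pat.mk 0xa0000001e00000004 0x3000000030000003e0000001e00000007 5 6) 0 0 (step_sound _ 68 [(rh33e738c4ed385b9f.shift 1 1), rh48833c2e25383c2e] (by decide +kernel))
noncomputable def rhf1f3e2d43a118d9d : CRef := CRef.mk (Pat.mk 0x40000000f00000000 0xfc0000007f00000070 5 8) 0 0 (step_sound _ 36 [(rh3fc3a7fb6866dcd4.shift 1 0), (rh9890f9d77740bbed.shift 0 1), rh9c71485ed59a17cd, (rhc3f8d890a3bb80c0.shift 1 0)] (by decide +kernel))
noncomputable def rh3c13e10ce72425b0 : CRef := CRef.mk (Pat.mk 0x80000001c000000040000000000000000 0x20000000b0000003e000000070000000400000004 5 6) 0 0 (step_sound _ 65 [(rh18965a982d73c794.shift 1 2), rh4e178f5baf4ec5b3] (by decide +kernel))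
noncomputable def rh2cdfea78c6914bf6 : CRef := CRef.mk (Pat.mk 0x4000000040000000e000000000000000000000000 0x4000000060000003e000000770000000200000002 5 7) 0 0 (step_sound _ 65 [(rh42548283029e2a39.shift 1 0), (rhdd1f17e324a6ef8c.shift 0 2)] (by decide +kernel))
noncomputable def rhd78783b377ff8bf8 : CRef := CRef.mk (Pat.mk 0x4000000040000001c00000000 0x400000004000000740000003e00000073 5 7) 0 0 (step_sound _ 33 [rh1ae4704ae86cb9a8, (rh3fc3a7fb6866dcd4.shift 1 0)] (by decide +kernel))
noncomputable def rh99a461004b671b8c : CRef := CRef.mk (Pat.mk 0xc0000000e000000040000000c00000000 0xc0000007e000000770000003c00000010 5 7) 0 0 (step_sound _ 100 [(rh0cb6a409506b34ea.shift 1 2), (rhaf9f2efc81a8312b.shift 0 2), rhd11fbfd75114ae00] (by decide +kernel))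
noncomputable def rhf63fdee7f253523b : CRef := CRef.mk (Pat.mk 0x18000000180000000c 0x80000001c0000001f000000380000001c0000000c 5 6) 0 0 (step_sound _ 100 [(rh5c5e593799055d58.shift 3 0), rh8768cac6096e8b6e] (by decide +kernel))
noncomputable def rh484cbea75ed0336e : CRef := CRef.mk (Pat.mk 0x18000000380000000c0000000800000000 0x380000003f0000006c0000007800000030 5 7) 0 0 (step_sound _ 36 [(rh55afc6a59410cf00.shift 3 0), rh9f56cf26f70ed7e4] (by decide +kernel))
noncomputable def rh0477d13a5aae0e40 : CRef := CRef.mk (Pat.mk 0x1800000008000000080000001800000000 0x800000018000000180000000f0000003c0000000c 5 6) 0 0 (step_sound _ 100 [rh66eeaab91603179f, (rh71222050f2c63a3a.shift 3 0)] (by decide +kernel))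
noncomputable def rhff0c7776917c9a6f : CRef := CRef.mk (Pat.mk 0xe0000001800000008 0x10000000370000003e0000001f00000008 5 6) 0 0 (step_sound _ 68 [(rh3bbb6459c441914e.shift 0 1), (rh5421160f8e9bcf07.shift 1 0)] (by decide +kernel))
noncomputable def rh0b41d276f137a972 : CRef := CRef.mk (Pat.mk 0x1e0000001a000000080000000000000000 0x200000002000000030000003e0000001e0000000c0000000800000008 5 6) 0 0 (step_sound _ 98 [(rh33e738c4ed385b9f.shift 1 3), rh417bea29615968a1] (by decide +kernel))
noncomputable def rha5f847bf8aee2a57 : CRef := CRef.mk (Pat.mk 0x20000000200000002000000000000000000000000 0x500000007000000070000000700000002000000030000000300000001 5 3) 0 0 (step_sound _ 65 [rhc4526fc8abf298b6, (rhc85cc95794737cf7.shift 0 2), rhcab3157f7bdcba3e] (by decide +kernel))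
noncomputable def rh76ef3887783defbe : CRef := CRef.mk (Pat.mk 0x6000000020000000200000003000000000000000000000000 0x200000006000000060000000300000003000000060000000600000006 5 3) 0 0 (step_sound _ 65 [rh7a73d6b95d200bd4, (rhbaefcd01e0a8bca3.shift 1 2)] (by decide +kernel))
noncomputable def rh705538e519d3863a : CRef := CRef.mk (Pat.mk 0x1f00000004 0x800000008000000180000003f00000076 5 7) 0 0 (step_sound _ 67 [(rh33e738c4ed385b9f.shift 0 1), (rhde3dcaee8c2ff2ce.shift 1 0)] (by decide +kernel))
noncomputable def rhfee9114d0243076f : CRef := CRef.mk (Pat.mk 0x1e000000000000000000000000 0x200000002000000070000003e000000060000000400000004 5 6) 0 0 (step_sound _ 129 [(rh240b30a29d0de1bf.shift 1 0), (rh3244c3cc8379b070.shift 0 3)] (by decide +kernel))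
noncomputable def rh1a21da3de03172c3 : CRef := CRef.mk (Pat.mk 0x80000001e000000040000000400000000 0x20000000b0000001e000000370000001400000010 5 6) 0 0 (step_sound _ 129 [(rh3244c3cc8379b070.shift 0 3), rhe51b6c0f34aeaca7] (by decide +kernel))
noncomputable def rh1b610515904646e2 : CRef := CRef.mk (Pat.mk 0x100000001c0000000800000008 0x4000000040000003f0000003e0000000800000008 5 6) 0 0 (step_sound _ 65 [(rh33e738c4ed385b9f.shift 1 2), rh3e34a007a92efc93] (by decide +kernel))
noncomputable def rh4141ad616a639e65 : CRef := CRef.mk (Pat.mk 0xe00000004000000040000000e 0x100000003f0000003f0000003c0000000f 5 6) 0 0 (step_sound _ 67 [rh4a836dc107530aaa, (rh6292bd8784ece55f.shift 0 2)] (by decide +kernel))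
noncomputable def rh653726311b917cd6 : CRef := CRef.mk (Pat.mk 0x2000000060000001e0000000400000000 0x80000000b0000003e0000001e0000003400000010 5 6) 0 0 (step_sound _ 100 [rh3292886153c861b7, (rh33e738c4ed385b9f.shift 1 2)] (by decide +kernel))
noncomputable def rh299ff4d63237e5cf : CRef := CRef.mk (Pat.mk 0x180000007000000010 0x1c0000007f0000003e 5 7) 0 0 (step_sound _ 35 [rh2ccea04b951e92fb, (rh3244c3cc8379b070.shift 2 1)] (by decide +kernel))
noncomputable def rh2eef6b0b5785cfba : CRef := CRef.mk (Pat.mk 0x40000003800000008 0x60000003f0000003f 5 6) 0 0 (step_sound _ 34 [(rh3244c3cc8379b070.shift 1 1), rhed95296174ee961f] (by decide +kernel))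
noncomputable def rh58c784e03144af51 : CRef := CRef.mk (Pat.mk 0x1e000000000000000000000000 0x800000008000000180000001f000000380000001000000010 5 6) 0 0 (step_sound _ 68 [rh73f1eebc063cfedf, (rhe25b0a99195a5d59.shift 1 2)] (by decide +kernel))
noncomputable def rh7a7c89c57ec0d30e : CRef := CRef.mk (Pat.mk 0x2000000180000001c000000000000000000000000 0x80000000c0000001f000000180000001c0000000c0000000800000008 5 5) 0 0 (step_sound _ 163 [(rh017613c6b92cc082.shift 0 2), (rh37d9ceebb86d75d1.shift 2 2), rhed43c569f6d4e300] (by decide +kernel))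
noncomputable def rhebef72fb6a8d68f9 : CRef := CRef.mk (Pat.mk 0x100000001000000038000000080000000800000000 0x14000000370000003e0000006e0000002800000020 5 7) 0 0 (step_sound _ 69 [(rh06be8e5562dc7104.shift 1 1), (rh08edf065357d68e5.shift 4 0), (rh39ee55465d7f1610.shift 0 2)] (by decide +kernel))
noncomputable def rh8e89ae0e98130f2c : CRef := CRef.mk (Pat.mk 0x4000000040000000e000000020000000000000000 0x40000000c0000001f0000003b0000000800000008 5 6) 0 0 (step_sound _ 100 [rhaa5997f027e3866e, (rheb0810cc63b001d8.shift 0 2)] (by decide +kernel))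
noncomputable def rhd2bf33c75c56dd81 : CRef := CRef.mk (Pat.mk 0x80000001e000000040000000400000000 0x20000000b0000001e000000370000001400000010 5 6) 0 0 (step_sound _ 68 [rhbaeddab3d7549ceb, (rhe25b0a99195a5d59.shift 1 2)] (by decide +kernel))
noncomputable def rh2d9828c6f9c9f36e : CRef := CRef.mk (Pat.mk 0x80000001a0000000200000000 0x800000008000000380000001e0000003300000010 5 6) 0 0 (step_sound _ 66 [(rh1fc9a83231fa2929.shift 1 0), (rheb0810cc63b001d8.shift 0 1)] (by decide +kernel))
noncomputable def rh94696ecf4eb36c5e : CRef := CRef.mk (Pat.mk 0x380000001000000010 0x20000000670000003e0000007700000010 5 7) 0 0 (step_sound _ 66 [(rh592c7139d2c44767.shift 0 1), (rhbbda3e5cf400e6dd.shift 2 0)] (by decide +kernel))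
noncomputable def rhd8cb4a296078e630 : CRef := CRef.mk (Pat.mk 0x200000006000000020000000000000000 0x400000006000000060000000200000007000000070000000700000005 5 3) 0 0 (step_sound _ 161 [(rh20966da26a1c2ae8.shift 0 1), rh74b3eef2d5b4c994, (rhd4b4beefcd67f51e.shift 1 1)] (by decide +kernel))
noncomputable def rhef542d1a8a804277 : CRef := CRef.mk (Pat.mk 0x200000006000000070000000000000000 0xc0000000c0000000e000000060000000f0000001e0000000c 5 5) 0 0 (step_sound _ 34 [(rh7b1f1fb55310c477.shift 1 0), rhdabfd48bdae7b189] (by decide +kernel))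
noncomputable def rh6877aa1b25d6856a : CRef := CRef.mk (Pat.mk 0x40000000c0000000600000000 0x200000002000000060000000f0000003e0000000600000004 5 6) 0 0 (step_sound _ 68 [(rh18965a982d73c794.shift 1 1), rhce0d207fc960f0ee] (by decide +kernel))
noncomputable def rh1efd476b5857a05d : CRef := CRef.mk (Pat.mk 0xc0000001800000008000000000000000000000000 0x80000000c0000007c0000000f0000000c0000000400000004 5 7) 0 0 (step_sound _ 133 [rh493aea110f12214a, (rhf48373e13d2bc128.shift 2 4)] (by decide +kernel))
noncomputable def rh3d7151462090f86e : CRef := CRef.mk (Pat.mk 0x1e000000180000000000000000 0x2000000030000003e0000001f0000000400000004 5 6) 0 0 (step_sound _ 129 [(rh3244c3cc8379b070.shift 0 3), rh3e236db47208617e] (by decide +kernel))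
noncomputable def rh1346e72f0829785b : CRef := CRef.mk (Pat.mk 0x2000000030000000e0000000200000000 0xc0000001e0000000f0000000e0000000600000004 5 5) 0 0 (step_sound _ 34 [(rh55afc6a59410cf00.shift 1 0), (rhe0af9f7b1164cb64.shift 0 1)] (by decide +kernel))
noncomputable def rh85c0b598b01483fb : CRef := CRef.mk (Pat.mk 0x60000001e000000040000000000000000 0x60000001e0000003f0000000300000003 5 6) 0 0 (step_sound _ 65 [(rheb0810cc63b001d8.shift 0 2), rhec36f35a4c9dfaa1] (by decide +kernel))
noncomputable def rhfd4f77c59ce6444f : CRef := CRef.mk (Pat.mk 0xe000000180000000a 0x10000000300000001e0000001f0000000f 5 6) 0 0 (step_sound _ 0 [rh1c62b6193297d9e3, rhd5944c88ba08939d] (by decide +kernel))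
noncomputable def rhda5c24898b172b78 : CRef := CRef.mk (Pat.mk 0x8000000080000000c0000000000000004 0x8000000080000001f0000007c00000014 5 7) 0 0 (step_sound _ 35 [(rh79877ebd3ef475dd.shift 2 0), rhcc2a2baa9246395a] (by decide +kernel))
noncomputable def rh3990b01325a162c5 : CRef := CRef.mk (Pat.mk 0x8000000080000000c000000000000000400000000 0xc0000000c0000001f000000780000001c0000001c 5 7) 0 0 (step_sound _ 67 [(rh752c9303f297f9fa.shift 2 0), (rhbd097c4034f102b6.shift 2 0), (rhcc2a2baa9246395a.shift 0 1)] (by decide +kernel))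
noncomputable def rh63c404d8cf5f1e56 : CRef := CRef.mk (Pat.mk 0x180000000c000000080000000800000008000000000000000000000000 0x180000000f0000007c0000001f0000000c000000180000001800000010 5 7) 0 0 (step_sound _ 164 [(rh0b007fc291716b29.shift 0 3), (rh11258dce8573113d.shift 0 3), (rh46bfb734f58a0e67.shift 2 0), (rh7b24a275b820efdd.shift 0 2)] (by decide +kernel))
noncomputable def rhd4b77628d61fd29b : CRef := CRef.mk (Pat.mk 0x18000000080000000800000008000000080000000000000000 0x1c0000000f0000000c00000008000000180000001800000010 5 5) 0 0 (step_sound _ 162 [(rh50fbb5868c909700.shift 2 2), rhbb85e2aff8cba182] (by decide +kernel))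
noncomputable def rhfb5cb32e78c34261 : CRef := CRef.mk (Pat.mk 0x18000000080000000800000008000000080000000000000000 0x1c0000000f0000000c000000080000000c0000000c00000004 5 5) 0 0 (step_sound _ 162 [(rh50fbb5868c909700.shift 2 2), rh7fb0429d473d622b] (by decide +kernel))
noncomputable def rh0ec5c2b2f2873473 : CRef := CRef.mk (Pat.mk 0x200000002000000020000000000000000 0x500000007000000070000000200000003000000070000000700000005 5 3) 0 0 (step_sound _ 161 [(rh1741680720c097b4.shift 0 2), (rh771d065bdc85bf2d.shift 0 1), rh8cdd36b03d57a2f6] (by decide +kernel))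
noncomputable def rh5b6dfefa866f05f2 : CRef := CRef.mk (Pat.mk 0x10000000200000002000000020000000000000000 0x4000000070000000700000002000000060000000600000004 5 3) 0 0 (step_sound _ 33 [(rhced6d86d2069808b.shift 1 0), (rhffd04209dc8ea796.shift 0 1)] (by decide +kernel))
noncomputable def rh4bab342c0ce02530 : CRef := CRef.mk (Pat.mk 0xc00000008000000180000000000000000 0x40000000c0000000f0000007c0000000800000008 5 7) 0 0 (step_sound _ 35 [(rh50fbb5868c909700.shift 2 1), rha34c4b685132e310] (by decide +kernel))
noncomputable def rh3e86b50c48a174df : CRef := CRef.mk (Pat.mk 0xc0000000c000000180000000000000000 0xc0000000c000000780000001f0000000c 5 7) 0 0 (step_sound _ 35 [rh0b007fc291716b29, (rh7b1f1fb55310c477.shift 2 0)] (by decide +kernel))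
noncomputable def rh08d3933f89fce00d : CRef := CRef.mk (Pat.mk 0x100000000e000000040000000c00000000 0x300000001e000000370000003c00000008 5 6) 0 0 (step_sound _ 100 [(rh33e738c4ed385b9f.shift 1 3), rhef101642296f593f] (by decide +kernel))
noncomputable def rhda8d1212cc9747c1 : CRef := CRef.mk (Pat.mk 0x200000006000000060000000c0000000000000000 0x10000000300000007000000060000003f0000003b00000002 5 6) 0 0 (step_sound _ 68 [rh56a7c070e3871720, (rhf48373e13d2bc128.shift 1 2)] (by decide +kernel))
noncomputable def rh5e25212b4bf4f7ec : CRef := CRef.mk (Pat.mk 0x6000000040000000c0000000000000000 0x200000006000000040000003c0000000f0000000a 5 6) 0 0 (step_sound _ 34 [(rh50fbb5868c909700.shift 1 1), rh5d1f2830390e4c60] (by decide +kernel))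
noncomputable def rh3e8318bba8498a21 : CRef := CRef.mk (Pat.mk 0x100000007800000000 0x370000007e000000e0 5 8) 0 0 (step_sound _ 6 [rh5aec078577363013, (rhe25b0a99195a5d59.shift 3 0)] (by decide +kernel))
noncomputable def rhacb3d3504478a8ae : CRef := CRef.mk (Pat.mk 0x8000000080000000c000000060000000000000000 0x8000000380000003f0000003e0000001000000010 5 6) 0 0 (step_sound _ 100 [(rh18965a982d73c794.shift 1 2), rh215bac0b51b41add] (by decide +kernel))
noncomputable def rh3ac89f80640fbc5e : CRef := CRef.mk (Pat.mk 0xc0000000400000004000000000000000000000000 0x2000000060000000f0000003c0000000c0000000c0000000c00000008 5 6) 0 0 (step_sound _ 66 [(rh099a4ec72b73d1a6.shift 0 1), (rh5abfc4c9d959be03.shift 1 1), (rh8c3839f9b9075f23.shift 2 0)] (by decide +kernel))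
noncomputable def rhdc47af25aa4e67ca : CRef := CRef.mk (Pat.mk 0x1e00000008 0xe0000000fe0000003f 5 8) 0 0 (step_sound _ 1 [(rh3204ddedfc1c6ee2.shift 1 0), rheb0810cc63b001d8] (by decide +kernel))
noncomputable def rh7efd17aed6c4d9fd : CRef := CRef.mk (Pat.mk 0x1800000008000000200000001c00000000 0xc0000000780000003f000000600000007c000000e0 5 8) 0 0 (step_sound _ 37 [(rh33e738c4ed385b9f.shift 2 1), rh92387ae747d0ba9a] (by decide +kernel))
noncomputable def rha731882d5846ed59 : CRef := CRef.mk (Pat.mk 0x800000018000000080000000800000008 0x80000000c0000003c0000000f0000000c0000000c 5 6) 0 0 (step_sound _ 34 [rh3d046c549d141ca7, (rh932754581e0f4330.shift 2 0)] (by decide +kernel))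
noncomputable def rh34969f5e351ad088 : CRef := CRef.mk (Pat.mk 0xc000000080000000c0000000600000000 0x100000003c0000000f0000000c0000000e0000000a 5 6) 0 0 (step_sound _ 98 [rh677e6fbb651585de, (rh932754581e0f4330.shift 1 0)] (by decide +kernel))
noncomputable def rh9cbf4b3761b77191 : CRef := CRef.mk (Pat.mk 0xc0000000c0000000c0000000600000000 0x100000003c0000000f0000003c0000000e00000008 5 6) 0 0 (step_sound _ 35 [(rh7b1f1fb55310c477.shift 2 0), (rh95d9a0003f61d1a2.shift 0 1)] (by decide +kernel))
noncomputable def rh1d6f0b00bc8dbeea : CRef := CRef.mk (Pat.mk 0x80000000c000000080000000c0000000000000000 0x8000000180000003c0000000f0000000c0000000800000008 5 6) 0 0 (step_sound _ 98 [(rh5c5e593799055d58.shift 2 2), rh677e6fbb651585de] (by decide +kernel))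
noncomputable def rh5957e7489ef71d5a : CRef := CRef.mk (Pat.mk 0x80000000c000000080000000c00000000 0x18000000180000003c0000000f0000000c00000008 5 6) 0 0 (step_sound _ 66 [(rh5c5e593799055d58.shift 2 1), rh62db4c8fbfbee101] (by decide +kernel))
noncomputable def rh28b200cdda9d6110 : CRef := CRef.mk (Pat.mk 0x200000002000000020000000000000000 0x500000007000000070000000700000002000000060000000600000004 5 3) 0 0 (step_sound _ 161 [(rh00c644645561e9be.shift 0 1), (rh6c59ce14113da07f.shift 1 0), rh8ff3dde5b1c639e0, (rhc85cc95794737cf7.shift 0 2)] (by decide +kernel))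
noncomputable def rh912f56bea38523b2 : CRef := CRef.mk (Pat.mk 0x60000000300000001000000010 0x8000000080000007f0000007c0000001800000010 5 7) 0 0 (step_sound _ 67 [(rh53b3c253cb0c65f4.shift 2 2), rhf9e36269fdb9e191] (by decide +kernel))
noncomputable def rhf5cc576d48fe508a : CRef := CRef.mk (Pat.mk 0x70000000180000000800000008 0x800000008000000ec0000007f000000380000001800000008 5 8) 0 0 (step_sound _ 99 [(rh11ae469c2f55ec35.shift 2 0), (rh210e2d9c685c857e.shift 0 2), (rhbdb8dfd08861fbf7.shift 2 1)] (by decide +kernel))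
noncomputable def rhed0046e0a5e2120e : CRef := CRef.mk (Pat.mk 0xc0000000e000000030000000000000000 0x80000000c0000000e0000000f0000001e0000000e 5 5) 0 0 (step_sound _ 33 [(rh71222050f2c63a3a.shift 1 0), rhc093eae0e2e51ea7] (by decide +kernel))
noncomputable def rha5d276d823977079 : CRef := CRef.mk (Pat.mk 0x1e00000016000000000000000400000000 0x8000000080000001e0000001e000000330000001600000006 5 6) 0 0 (step_sound _ 65 [(rh9b4df57cddcda711.shift 1 0), rhc78e8b5d4a1195af, (rhe1c545a0fa7090aa.shift 0 1)] (by decide +kernel))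
noncomputable def rh9b688ef6647088e0 : CRef := CRef.mk (Pat.mk 0x60000000300000000000000020000000000000000 0x4000000060000000700000003000000060000000600000006 5 3) 0 0 (step_sound _ 97 [(rh2f68792b6b779e96.shift 1 2), rhff2082a920985f19] (by decide +kernel))
noncomputable def rhd19292634af6195b : CRef := CRef.mk (Pat.mk 0x3800000018000000080000000000000000 0x80000002800000038000000380000001f0000001400000010 5 6) 0 0 (step_sound _ 68 [(rhb0c1e7919d9be92d.shift 3 0), (rhe2d7daae1577d340.shift 0 1), (rhfc7c29d8e65d775f.shift 3 1)] (by decide +kernel))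
noncomputable def rh1776f86c326c61ef : CRef := CRef.mk (Pat.mk 0xc00000004000000040000000600000000 0xc0000000c0000003e0000007f00000038 5 7) 0 0 (step_sound _ 35 [(rh55afc6a59410cf00.shift 2 0), rh7642678cdd78152d] (by decide +kernel))
noncomputable def rhe0330d848409bf44 : CRef := CRef.mk (Pat.mk 0x1e0000001600000004000000000000000000000000 0x800000008000000180000001f000000160000003e000000380000002800000008 5 6) 0 0 (step_sound _ 100 [(rh4ed3a8a36438274d.shift 1 1), (rh63e3e58eda49bb28.shift 1 0), (rhbbfb944354d9e46e.shift 1 1), (rhd01ed0cc6ce530d4.shift 2 2), (rhe0cf969e0950f7de.shift 0 2)] (by decide +kernel))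
noncomputable def rhc9767901e158f21b : CRef := CRef.mk (Pat.mk 0xe00000006000000020000000000000000 0x20000000a0000000e00000006000000070000000700000007 5 4) 0 0 (step_sound _ 66 [(rhb0c1e7919d9be92d.shift 1 0), rhee4750e86d347f32, (rhfc7c29d8e65d775f.shift 1 1)] (by decide +kernel))
noncomputable def rh733db848967e575c : CRef := CRef.mk (Pat.mk 0xe00000006000000020000000000000000 0x190000000f00000006000000060000000600000006 5 5) 0 0 (step_sound _ 33 [rh654a5d57fd8b9734, (rh71222050f2c63a3a.shift 1 0)] (by decide +kernel))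
noncomputable def rh6045a1928ff32884 : CRef := CRef.mk (Pat.mk 0xc0000000700000014000000000000000000000000 0xc0000000f0000001c0000000f0000000e0000000a 5 5) 0 0 (step_sound _ 66 [(rh41f458053cc6e2ad.shift 0 1), (rh8cdd36b03d57a2f6.shift 1 0), (rhd7919c2e864531da.shift 0 1)] (by decide +kernel))
noncomputable def rha12ac78707b0d6bf : CRef := CRef.mk (Pat.mk 0x180000001e000000180000000000000000 0x30000000300000001f0000001e000000180000001000000010 5 6) 0 0 (step_sound _ 36 [(rh7b1f1fb55310c477.shift 3 0), (rhff273d5184c43958.shift 0 2)] (by decide +kernel))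
noncomputable def rha05dade6c2e991f3 : CRef := CRef.mk (Pat.mk 0x8000000080000001c000000060000000000000000 0xa0000001b0000001e000000360000001400000014 5 6) 0 0 (step_sound _ 34 [(rh71222050f2c63a3a.shift 2 0), rhfcd87a89b7b6768d] (by decide +kernel))
noncomputable def rh766dbcce72bea175 : CRef := CRef.mk (Pat.mk 0x4000000040000000e0000000800000000 0x80000000c0000000c0000000f0000003c00000014 5 6) 0 0 (step_sound _ 36 [(rh53c91709130c1742.shift 1 0), (rhb739f4f82bb681b4.shift 0 1)] (by decide +kernel))
noncomputable def rh145ac8fb36838629 : CRef := CRef.mk (Pat.mk 0x40000000e000000030000000a0000000000000000 0xc0000000f0000001b0000001e0000001800000010 5 5) 0 0 (step_sound _ 99 [rh0b42c9ce9e78cae1, (rh7b1f1fb55310c477.shift 2 1)] (by decide +kernel))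
noncomputable def rh2da56ecb3e4490c7 : CRef := CRef.mk (Pat.mk 0xe000000030000000a0000000000000000 0x80000000f0000001f0000001e0000001000000010 5 5) 0 0 (step_sound _ 68 [(rh5419adcd928dba20.shift 0 2), rh6c5c746b1234ec8e] (by decide +kernel))
noncomputable def rh0346e09be1867b88 : CRef := CRef.mk (Pat.mk 0x4000000040000000e0000000600000000 0x80000000c0000000c0000000f0000001e0000001c 5 5) 0 0 (step_sound _ 35 [(rh55afc6a59410cf00.shift 2 0), rhf3f7c1a0a4bb36bf] (by decide +kernel))
noncomputable def rhc13f280295a1b38c : CRef := CRef.mk (Pat.mk 0x200000000e00000000 0x300000003e00000077 5 7) 0 0 (step_sound _ 36 [rh06db8ceda6269a47, (rh428265de8cd3cd2d.shift 1 1)] (by decide +kernel))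
noncomputable def rha38d52882d47603b : CRef := CRef.mk (Pat.mk 0x20000000380000000000000000 0x10000000100000003e0000007e0000006f00000020 5 7) 0 0 (step_sound _ 66 [(rh2591032a0e7f4182.shift 0 1), (rh4983c44f3a2eb597.shift 1 0), (rhaeebc73f5a9c796a.shift 1 1)] (by decide +kernel))
noncomputable def rh1c41db8ae0e7331c : CRef := CRef.mk (Pat.mk 0x140000000c0000000400000000 0x60000000e0000000f0000001c0000000c0000000c00000004 5 5) 0 0 (step_sound _ 130 [(rh3da62da861143b9a.shift 1 1), (rh69c904193a3792b5.shift 2 0), rhec7a88c6dcaa5d28] (by decide +kernel))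
noncomputable def rh19502d533fc90228 : CRef := CRef.mk (Pat.mk 0x100000003c00000000 0x180000003f00000077 5 7) 0 0 (step_sound _ 5 [rh076a85d51a7438d0, (rhe25b0a99195a5d59.shift 2 0)] (by decide +kernel))
noncomputable def rh84e3b9e87d369e42 : CRef := CRef.mk (Pat.mk 0x20000001e000000000000000000000000 0x2000000020000003e000000370000000400000004 5 6) 0 0 (step_sound _ 68 [rh44afbb496b7a3d6b, (rhe25b0a99195a5d59.shift 1 2)] (by decide +kernel))
noncomputable def rh730dc7ad59ab4dad : CRef := CRef.mk (Pat.mk 0xa000000060000000200000000 0x7000000070000001e000000060000000600000006 5 5) 0 0 (step_sound _ 129 [rh628e47a64f5ba963, (rhd4b4beefcd67f51e.shift 1 0)] (by decide +kernel))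
noncomputable def rhdc69c39e7a1096f3 : CRef := CRef.mk (Pat.mk 0x1a00000006000000020000000000000000 0x40000000700000007000000070000001e00000006000000020000000200000002 5 5) 0 0 (step_sound _ 161 [(rh1741680720c097b4.shift 0 2), (rh5e05da03898e7023.shift 0 2), (rhe53958ffbb9ed408.shift 1 0)] (by decide +kernel))
noncomputable def rh50687376d5c2323e : CRef := CRef.mk (Pat.mk 0x8000000180000001a000000000000000000000000 0x8000000180000001b0000001f0000001c0000001c 5 5) 0 0 (step_sound _ 67 [(rh4053c12da95c0aa0.shift 3 0), (rh46530d756bdf8511.shift 2 0), (rhf98a3e7b0a58e1df.shift 0 1)] (by decide +kernel))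
noncomputable def rh1ed8b4fdcc71a9ed : CRef := CRef.mk (Pat.mk 0x80000003800000018000000000000000000000000 0x40000000f0000003c000000180000000c0000000c0000000c 5 6) 0 0 (step_sound _ 67 [(rh46530d756bdf8511.shift 2 0), (rh8292e11cff743ce0.shift 0 1), (rhdf997f77704b6375.shift 2 0)] (by decide +kernel))
noncomputable def rh2b795e827cf38bdb : CRef := CRef.mk (Pat.mk 0x400000006000000080000000800000000 0x10000000340000001f000000380000000800000008 5 6) 0 0 (step_sound _ 99 [(rh7b1f1fb55310c477.shift 2 0), (rh9ed5bb099649ffd3.shift 0 1)] (by decide +kernel))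
noncomputable def rhbee6e767e08e2d8f : CRef := CRef.mk (Pat.mk 0x40000000e0000001800000000 0x400000004000000070000003e0000001f00000002 5 6) 0 0 (step_sound _ 130 [(rh2145e1d24b96a57e.shift 2 1), rh4f572c0a15a3e836] (by decide +kernel))
noncomputable def rh40b6721531d9ea8b : CRef := CRef.mk (Pat.mk 0x4000000060000001e000000000000000000000000 0x4000000060000001f0000003e0000000a00000008 5 6) 0 0 (step_sound _ 65 [rh42c212064b599c2b, (rh71222050f2c63a3a.shift 1 1)] (by decide +kernel))
noncomputable def rh3a92da8e06ec150a : CRef := CRef.mk (Pat.mk 0x800000008000000180000001800000000 0x8000000080000001f000000ff000000e4 5 8) 0 0 (step_sound _ 34 [rh556db68d6427c9a6, (rh932754581e0f4330.shift 2 0)] (by decide +kernel))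
noncomputable def rh193de8196b00d2cf : CRef := CRef.mk (Pat.mk 0x40000000e000000080000000000000000 0x10000000370000003e000000380000000800000008 5 6) 0 0 (step_sound _ 35 [(rh7b1f1fb55310c477.shift 2 0), (rhcced840e0475f351.shift 0 1)] (by decide +kernel))
noncomputable def rhcfe47c40aa7ead36 : CRef := CRef.mk (Pat.mk 0x200000003800000040 0x330000003e00000067 5 7) 0 0 (step_sound _ 34 [rh7aa2738cfe64dbfa, (rh96851dee118c1ba3.shift 2 0)] (by decide +kernel))
noncomputable def rh55b3b931b9652e9d : CRef := CRef.mk (Pat.mk 0x4000000380000000000000000 0x8000000080000000c0000007c0000001f00000004 5 7) 0 0 (step_sound _ 34 [(rh3b98845ede295126.shift 1 0), (rh3cc5c7fb74c49f61.shift 0 1), (rhe1c32197ffb40f8f.shift 0 1), (rhe9d682012dbceb06.shift 2 1)] (by decide +kernel))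
noncomputable def rhb04ed090344b019b : CRef := CRef.mk (Pat.mk 0x50000000f000000090000000000000000 0x3000000070000000f0000000f0000001f0000000b 5 5) 0 0 (step_sound _ 35 [rh15d49d44cbd656f2, (rh7b1f1fb55310c477.shift 2 0)] (by decide +kernel))
noncomputable def rhedb501bfc7f08999 : CRef := CRef.mk (Pat.mk 0x20000000f000000040000000000000000 0x3a0000003f000000070000000400000004 5 6) 0 0 (step_sound _ 34 [(rh7b1f1fb55310c477.shift 1 0), (rhed57d1a6d4db2db6.shift 0 2)] (by decide +kernel))
noncomputable def rhe2a0f19f7db7bdb8 : CRef := CRef.mk (Pat.mk 0x400000006000000080000000800000000 0x10000000370000003e000000380000000800000008 5 6) 0 0 (step_sound _ 99 [(rh7b1f1fb55310c477.shift 2 0), (rhcced840e0475f351.shift 0 1)] (by decide +kernel))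
noncomputable def rh5d3cb440e0073c05 : CRef := CRef.mk (Pat.mk 0x400000006000000080000000800000000 0x200000006000000060000003f0000003f0000000e 5 6) 0 0 (step_sound _ 66 [rh0fcb228d13e9ff47, (rhc7a10ee8d0d37048.shift 1 0)] (by decide +kernel))
noncomputable def rhcdf35ec952c0de69 : CRef := CRef.mk (Pat.mk 0x400000004000000000000000a00000002 0x400000004000000740000003e00000007 5 7) 0 0 (step_sound _ 34 [(rh3c88ce959c0e423f.shift 1 0), rhdc1641106d7e5aa2] (by decide +kernel))
noncomputable def rh953e4076a99828a5 : CRef := CRef.mk (Pat.mk 0x80000000c000000100000001400000000 0x80000003c0000007f0000003600000004 5 7) 0 0 (step_sound _ 66 [(rh71222050f2c63a3a.shift 2 0), (rh7f7f452162bb4343.shift 0 1)] (by decide +kernel))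
noncomputable def rhd84b9c1352ccd1a3 : CRef := CRef.mk (Pat.mk 0x80000000c000000300000000600000000 0x20000000f0000003c0000003c0000000600000002 5 6) 0 0 (step_sound _ 66 [rha813eb03930c4935, (rhb2a0b9ccfb5cecd5.shift 1 1)] (by decide +kernel))
noncomputable def rhcebb9c2b96ff6c9a : CRef := CRef.mk (Pat.mk 0x80000000c000000100000001400000000 0x80000000c0000003c0000003e00000007 5 6) 0 0 (step_sound _ 2 [(rh04253f50b6dd0619.shift 2 0), rh37dc721e4cd708f5] (by decide +kernel))
noncomputable def rhdeef127948b9fe58 : CRef := CRef.mk (Pat.mk 0x4000000060000000c0000000000000000 0x4000000070000003e0000003300000002 5 6) 0 0 (step_sound _ 68 [rha214880861f65972, (rhf48373e13d2bc128.shift 1 2)] (by decide +kernel))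
noncomputable def rhcf2a1f5a1f336c17 : CRef := CRef.mk (Pat.mk 0xe000000080000001c00000000 0x1e000000ef0000007e000000e0 5 8) 0 0 (step_sound _ 37 [(rh48e915b80e361ac6.shift 0 1), (rha93a5dd541ab8209.shift 2 0), (rhe3060b190bc0bc78.shift 1 1)] (by decide +kernel))
noncomputable def rhdfd366c8d9639428 : CRef := CRef.mk (Pat.mk 0x1e00000000 0x730000003e00000007 5 7) 0 0 (step_sound _ 65 [(rh3244c3cc8379b070.shift 0 1), rh3b00e9e9432b8f40] (by decide +kernel))
noncomputable def rhd47128db7eee9055 : CRef := CRef.mk (Pat.mk 0xc0000001c000000040000000400000000 0x40000000c0000001c0000000f0000003c00000018 5 6) 0 0 (step_sound _ 35 [(rh55afc6a59410cf00.shift 2 0), rhe47ad95e5e7ab725] (by decide +kernel))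
noncomputable def rh7e46ea4146e96981 : CRef := CRef.mk (Pat.mk 0xc0000001c0000000c0000000000000000 0xc0000001c0000001f0000007800000018 5 7) 0 0 (step_sound _ 35 [rh63a11a4b4e5b135a, (rh7b1f1fb55310c477.shift 2 0)] (by decide +kernel))
noncomputable def rhc0ac317fedfcc4fa : CRef := CRef.mk (Pat.mk 0x160000001e000000100000000000000000 0x10000000160000001e0000001f0000000b0000000b 5 5) 0 0 (step_sound _ 65 [rh705621acdcab9361, (rheb0810cc63b001d8.shift 0 2)] (by decide +kernel))
noncomputable def rh3f49fb746b0b9db9 : CRef := CRef.mk (Pat.mk 0xc0000001c0000000000000000 0x400000006000000070000003f0000001c0000000c00000004 5 6) 0 0 (step_sound _ 97 [(rhb739f4f82bb681b4.shift 0 2), rhcfea58ebbf2bcb76] (by decide +kernel))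
noncomputable def rhc374d120537e5679 : CRef := CRef.mk (Pat.mk 0xe0000000c00000004 0x200000002000000070000007e0000007c00000004 5 7) 0 0 (step_sound _ 37 [(rh2fe78cc5ca4405d8.shift 1 1), rhd39e3da1b0275b35] (by decide +kernel))
noncomputable def rh5edc28b3b13a94d0 : CRef := CRef.mk (Pat.mk 0xc0000000c000000080000000c00000000 0x20000000f0000003c0000000f0000003c00000010 5 6) 0 0 (step_sound _ 36 [(rh47e47b59287f9e68.shift 0 1), (rh55afc6a59410cf00.shift 3 0)] (by decide +kernel))
noncomputable def rhe1895bac57b7c265 : CRef := CRef.mk (Pat.mk 0x100000000e000000080000000800000000 0x100000003e0000007f0000000800000008 5 7) 0 0 (step_sound _ 100 [(rh42d32bf970c9c157.shift 0 2), (rh71222050f2c63a3a.shift 3 0)] (by decide +kernel))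
noncomputable def rhfb5158def8c091b2 : CRef := CRef.mk (Pat.mk 0x80000000c0000000d0000000000000000 0xc0000000c0000000c0000000c0000000f0000001800000010 5 5) 0 0 (step_sound _ 163 [rh14d0a004e7a9880b, (rh5c5e593799055d58.shift 2 2)] (by decide +kernel))
noncomputable def rh01dabd5d8d550e03 : CRef := CRef.mk (Pat.mk 0x50000000600000004000000000000000000000000 0x70000000700000006000000060000000e0000000e0000000a 5 4) 0 0 (step_sound _ 66 [(rh8cdd36b03d57a2f6.shift 1 0), (rhe286c75f2739cce2.shift 1 1), (rhfbbd9f4aeabe2d93.shift 0 1)] (by decide +kernel))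
noncomputable def rhc63fea8de369bd5a : CRef := CRef.mk (Pat.mk 0x1e0000000e00000000 0x600000006000000070000001e0000000e0000000a 5 5) 0 0 (step_sound _ 97 [(rh1dc900ed663fe718.shift 1 0), (rh3244c3cc8379b070.shift 0 2)] (by decide +kernel))
noncomputable def rhc0b2f4c5a70222e2 : CRef := CRef.mk (Pat.mk 0x100000001e00000010000000000000000000000000 0x1800000018000000180000001e0000001b000000380000003800000028 5 6) 0 0 (step_sound _ 97 [(rh900f07d1e6974715.shift 3 0), (rheb0810cc63b001d8.shift 0 3)] (by decide +kernel))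
noncomputable def rh2b599ba28e9b9b7c : CRef := CRef.mk (Pat.mk 0xe00000018000000100000001000000000 0x300000003e0000001f000000300000003000000020 5 6) 0 0 (step_sound _ 132 [(rh763788a68c67bc0c.shift 1 1), (rhc31b6f966e0d7e89.shift 0 2), rhcc1f77eb9b2a8c60] (by decide +kernel))
noncomputable def rh1fae7b04b87de3ff : CRef := CRef.mk (Pat.mk 0x100000001c0000003800000000 0x1800000018000000180000003c0000003f00000006 5 6) 0 0 (step_sound _ 132 [rh24d5823cf79f1eda, (rh5c5e593799055d58.shift 3 1)] (by decide +kernel))
noncomputable def rhebf196258d397ebc : CRef := CRef.mk (Pat.mk 0x80000001e0000001a0000000000000000 0x20000000b0000001e0000001e0000003400000014 5 6) 0 0 (step_sound _ 129 [(rh1eb5fba744744213.shift 1 0), (rh3244c3cc8379b070.shift 0 3)] (by decide +kernel))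
noncomputable def rh76f196ebe344ffab : CRef := CRef.mk (Pat.mk 0x1c00000010 0x70000003e00000037 5 6) 0 0 (step_sound _ 33 [rh47c07cd0cc865f65, (rhe25b0a99195a5d59.shift 1 0)] (by decide +kernel))
noncomputable def rh21ec48dd0948616f : CRef := CRef.mk (Pat.mk 0x300000003000000020000000000000000 0x20000000300000003000000070000000700000007 5 3) 0 0 (step_sound _ 33 [rh0cf13ccc76a23a72, rh7b1f1fb55310c477] (by decide +kernel))
noncomputable def rhf5948cc8025fecd3 : CRef := CRef.mk (Pat.mk 0x100000001e000000120000000000000000 0x8000000080000001c0000003f000000160000000400000004 5 6) 0 0 (step_sound _ 131 [(rh53b3c253cb0c65f4.shift 0 3), (rha720a20fa508ed70.shift 1 0)] (by decide +kernel))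
noncomputable def rh5dbe3ffea280c1d2 : CRef := CRef.mk (Pat.mk 0x90000000f0000000500000000 0xb0000001f0000000f0000000f0000000700000003 5 5) 0 0 (step_sound _ 131 [(rh5c5e593799055d58.shift 2 1), rh657816e8f8150543] (by decide +kernel))
noncomputable def rh181181fc45c2bb3b : CRef := CRef.mk (Pat.mk 0x200000003c0000001c000000000000000000000000 0x2000000028000000380000003c0000003c0000000f0000000c00000008 5 6) 0 0 (step_sound _ 197 [rh3f1a214c47151a18, (rh5c5e593799055d58.shift 4 3)] (by decide +kernel))
noncomputable def rh771cddb673a52b2d : CRef := CRef.mk (Pat.mk 0x30000000f00000004 0xa0000001e0000001f0000000f00000004 5 5) 0 0 (step_sound _ 67 [rh027d4e0842061688, (rh33e738c4ed385b9f.shift 0 1)] (by decide +kernel))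
noncomputable def rhe8762994e38c2500 : CRef := CRef.mk (Pat.mk 0x3c00000004 0x3c000000ff0000000c 5 8) 0 0 (step_sound _ 38 [(rh80fcd6d0a18cb2dd.shift 2 0), (rhd64ac1b1180c5fc8.shift 0 1)] (by decide +kernel))
noncomputable def rhcc105fcf32c4cfa3 : CRef := CRef.mk (Pat.mk 0x1c00000008 0x70000007e0000007e 5 7) 0 0 (step_sound _ 37 [rh0d378fd9e8917c5a, (rhaf9f2efc81a8312b.shift 1 0)] (by decide +kernel))
noncomputable def rhf4c3a701c5b3ffe1 : CRef := CRef.mk (Pat.mk 0xa000000080000000e0000000000000000 0x140000001f000000180000000f0000000800000008 5 5) 0 0 (step_sound _ 100 [rh53775b89502d99fc, (rh53b3c253cb0c65f4.shift 0 2)] (by decide +kernel))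
noncomputable def rha9088ffe4c58d4ac : CRef := CRef.mk (Pat.mk 0x20000000a0000000e0000000400000000 0x1c0000001e0000000b0000000e0000003c00000010 5 6) 0 0 (step_sound _ 131 [(rh5c5e593799055d58.shift 2 1), rhe9bbc1b5dd74d452] (by decide +kernel))
noncomputable def rh2261439357d3814e : CRef := CRef.mk (Pat.mk 0x8000000380000001000000000 0xc0000000c0000000f0000003c0000001e0000000c 5 6) 0 0 (step_sound _ 131 [(rh2145e1d24b96a57e.shift 3 1), rh506e99e83de2df76] (by decide +kernel))
noncomputable def rha6576687d4f6663f : CRef := CRef.mk (Pat.mk 0x3800000020 0x70000003e00000076 5 7) 0 0 (step_sound _ 34 [rh4782abd61b9a3d45, (rhe25b0a99195a5d59.shift 2 0)] (by decide +kernel))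
noncomputable def rhc050ba39eecbb0fd : CRef := CRef.mk (Pat.mk 0x1c0000001000000000 0x800000008000000380000001f0000003000000010 5 6) 0 0 (step_sound _ 65 [rh6206d00fae46d42a, (rhe25b0a99195a5d59.shift 1 1)] (by decide +kernel))
noncomputable def rh8d5f0807ccfa8de1 : CRef := CRef.mk (Pat.mk 0xf0000000c000000000000000000000000 0xc0000000c0000001c0000000f0000000c000000180000001800000018 5 5) 0 0 (step_sound _ 163 [(rh33e738c4ed385b9f.shift 0 4), (rh838edc2c8f476783.shift 2 0)] (by decide +kernel))
noncomputable def rh151e2a60f27a60dd : CRef := CRef.mk (Pat.mk 0x60000000e000000080000000400000000 0x2000000060000000e0000003c0000000f0000000a 5 6) 0 0 (step_sound _ 66 [(rh50fbb5868c909700.shift 1 1), rhccd1134496526620] (by decide +kernel))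
noncomputable def rhabf429c344baf3e3 : CRef := CRef.mk (Pat.mk 0x1c000000100000000000000000 0x10000000300000001f000000380000000800000008 5 6) 0 0 (step_sound _ 97 [rh833381308a6c8cf7, (rhe25b0a99195a5d59.shift 1 2)] (by decide +kernel))
noncomputable def rh14160a14f7484138 : CRef := CRef.mk (Pat.mk 0x18000000180000000800000000 0xc0000000c0000000c000000180000007c0000000f00000004 5 7) 0 0 (step_sound _ 131 [(rh7b9fbdf6d2d059e4.shift 2 1), rh80650b8e93363f1e] (by decide +kernel))
noncomputable def rhbfad43945e84143d : CRef := CRef.mk (Pat.mk 0x18000000380000000000000000 0x8000000080000001f0000003f0000000700000004 5 6) 0 0 (step_sound _ 66 [(rh04029d7e2e3adf1c.shift 1 0), (rh70d8af94cc7ffa15.shift 0 2), (rhcc2be1f880c5ea3e.shift 0 1)] (by decide +kernel))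
noncomputable def rhff12211f8d540627 : CRef := CRef.mk (Pat.mk 0x6000000180000001400000000 0xc0000000c0000000f000000180000001c0000000c 5 5) 0 0 (step_sound _ 99 [(rh4203038acfa1c89f.shift 2 0), (rhb739f4f82bb681b4.shift 0 2)] (by decide +kernel))
noncomputable def rhff05dfd7e8f9c96d : CRef := CRef.mk (Pat.mk 0x7c00000040 0x2000000020000000700000007e00000047 5 7) 0 0 (step_sound _ 69 [(rh33e738c4ed385b9f.shift 2 1), rhb38bc124ef23f2b9] (by decide +kernel))
noncomputable def rh13e3211f0ffb8916 : CRef := CRef.mk (Pat.mk 0x40000000f8000000a0 0x400000004000000067000000fe000000b0 5 8) 0 0 (step_sound _ 102 [(rh2145e1d24b96a57e.shift 6 0), rhbfdaafe6cbbfd7f3] (by decide +kernel))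
noncomputable def rh17e8264d38bbd1e6 : CRef := CRef.mk (Pat.mk 0x38000000140000000000000000 0x4000000770000007f0000001c0000000800000008 5 7) 0 0 (step_sound _ 67 [(rh18965a982d73c794.shift 2 2), rh67e7a1b48b08f3dd] (by decide +kernel))
noncomputable def rh8a7835817a1c7776 : CRef := CRef.mk (Pat.mk 0x3c00000000 0x770000003e00000006 5 7) 0 0 (step_sound _ 2 [(rh4c622fddc53a5f99.shift 0 1), (rheb0810cc63b001d8.shift 1 0)] (by decide +kernel))
noncomputable def rh92c22b27b7f4eaac : CRef := CRef.mk (Pat.mk 0x20000001c0000000800000000 0x400000004000000070000003e0000000b00000002 5 6) 0 0 (step_sound _ 65 [(rh3244c3cc8379b070.shift 0 2), rhb0c2c62f63c289c4] (by decide +kernel))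
noncomputable def rh9a4ffeb09aa9e643 : CRef := CRef.mk (Pat.mk 0x4000000060000001c0000000800000000 0x10000000340000003e0000001f0000000b00000002 5 6) 0 0 (step_sound _ 65 [(rh5245f99ce672d8bb.shift 0 1), rh9c40a739b57d6d20] (by decide +kernel))
noncomputable def rhfb2a8799b26953bf : CRef := CRef.mk (Pat.mk 0x3c00000010 0x70000000ff0000001c 5 8) 0 0 (step_sound _ 69 [(rh33e738c4ed385b9f.shift 2 1), rh4f24b26ce02ae66a] (by decide +kernel))
noncomputable def rhd9e44fd599f5bede : CRef := CRef.mk (Pat.mk 0xc0000000e000000000000000000000000 0x4000000040000000c0000007e000000770000000200000002 5 7) 0 0 (step_sound _ 100 [(rh0cb6a409506b34ea.shift 1 2), rhcfde16a7ff36af03] (by decide +kernel))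
noncomputable def rhf26117fad763842f : CRef := CRef.mk (Pat.mk 0xc0000000c00000004 0xe0000000e0000000f0000003c0000000c00000004 5 6) 0 0 (step_sound _ 98 [(rh7b9fbdf6d2d059e4.shift 1 0), (rhc0301b400ca2a736.shift 2 0), rhfc21d93c70905a0f] (by decide +kernel))
noncomputable def rhf3425bc7faf16171 : CRef := CRef.mk (Pat.mk 0x10000000f00000007000000000000000000000000 0x3000000030000000b0000000f00000007000000040000000400000004 5 4) 0 0 (step_sound _ 192 [(rh2145e1d24b96a57e.shift 0 3), rhbe8c356d17dc96f3] (by decide +kernel))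
noncomputable def rha0fcf3c501ffacbe : CRef := CRef.mk (Pat.mk 0xc0000000e0000000000000000 0x8000000080000003c0000007e0000003700000010 5 7) 0 0 (step_sound _ 68 [(rh1fc9a83231fa2929.shift 1 0), (rh8a88abf038d31fd2.shift 0 1)] (by decide +kernel))
noncomputable def rhcc02bf86af4319b7 : CRef := CRef.mk (Pat.mk 0x8000000180000001c0000000000000000 0xf0000007f0000007c0000000600000004 5 7) 0 0 (step_sound _ 101 [(rh18965a982d73c794.shift 2 2), rh59636db2c2de9a7b] (by decide +kernel))
noncomputable def rh234adebce3596918 : CRef := CRef.mk (Pat.mk 0x1c0000000e000000180000000000000000 0x1f0000003e0000001b0000000f0000000e 5 6) 0 0 (step_sound _ 35 [(rh7b1f1fb55310c477.shift 2 0), rh7f14bdde6f929701] (by decide +kernel))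
noncomputable def rh9b31a0be7d4ce494 : CRef := CRef.mk (Pat.mk 0x50000000e0000000c0000000000000000 0xc0000000c0000000f0000001e0000000c0000000400000004 5 5) 0 0 (step_sound _ 129 [(rhe77dc4789bb0bb98.shift 1 0), (rhf48373e13d2bc128.shift 0 3)] (by decide +kernel))
noncomputable def rh098e26fda667b337 : CRef := CRef.mk (Pat.mk 0x2000000020000000600000000 0x1000000030000000300000002000000070000000700000004 5 3) 0 0 (step_sound _ 129 [(rh55afc6a59410cf00.shift 1 0), (rheb55271ca11500c6.shift 0 1)] (by decide +kernel))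
noncomputable def rh9b56a0f36c0ce20d : CRef := CRef.mk (Pat.mk 0xc00000008000000180000000800000000 0x100000003c0000000f000000780000000800000008 5 7) 0 0 (step_sound _ 98 [(rh7b1f1fb55310c477.shift 2 0), (rhdfe5b77ce29d6f71.shift 0 1)] (by decide +kernel))
noncomputable def rh4cd5f7367b3868c0 : CRef := CRef.mk (Pat.mk 0x4000000040000000c0000001c00000000 0xa0000000f0000003c0000000c0000001c00000010 5 6) 0 0 (step_sound _ 131 [(rh2f68792b6b779e96.shift 2 1), rhfdb02788af4b697e] (by decide +kernel))
noncomputable def rhf58499fa2494ad26 : CRef := CRef.mk (Pat.mk 0x2000000120000001e00000000 0x8000000080000000f0000001e0000003f00000014 5 6) 0 0 (step_sound _ 67 [(rh53b3c253cb0c65f4.shift 0 1), rhd55277563daa595c] (by decide +kernel))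
noncomputable def rhc6122d79db3d31ea : CRef := CRef.mk (Pat.mk 0xc00000008000000180000000000000000 0xc0000000c000000080000003c0000000f00000004 5 6) 0 0 (step_sound _ 35 [rh04e877282bc382ca, (rh50fbb5868c909700.shift 2 1)] (by decide +kernel))
noncomputable def rh550d505cf26eb720 : CRef := CRef.mk (Pat.mk 0x6000000090000001800000000 0x40000000400000006000000060000000f0000001e00000002 5 5) 0 0 (step_sound _ 65 [rh43961ab818d1382a, (rhc10214bf3fe8094a.shift 0 1)] (by decide +kernel))
noncomputable def rh62563edd96cb8121 : CRef := CRef.mk (Pat.mk 0x80000000c000000180000000000000000 0x100000007c0000001f000000180000000800000008 5 7) 0 0 (step_sound _ 97 [(rh0d3fb7d67dbd7480.shift 1 0), (rhb739f4f82bb681b4.shift 0 2)] (by decide +kernel))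
noncomputable def rh45c59f613d9fae03 : CRef := CRef.mk (Pat.mk 0x400000004000000040000000c000000060000000000000000 0x400000004000000060000000f0000003c000000060000000400000004 5 6) 0 0 (step_sound _ 131 [rh1eef98f3e0ecb390, (rh2145e1d24b96a57e.shift 2 3)] (by decide +kernel))
noncomputable def rh2a4a5390095447c0 : CRef := CRef.mk (Pat.mk 0x1000000008000000080000001c0000000000000000 0x140000001c0000000f0000003c0000000800000008 5 6) 0 0 (step_sound _ 35 [rh5faad4c20e3aad11, (rhbaefcd01e0a8bca3.shift 3 1)] (by decide +kernel))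
noncomputable def rhd52dab47ddad7b78 : CRef := CRef.mk (Pat.mk 0x1c0000002000000004 0x2000000030000003e0000003700000004 5 6) 0 0 (step_sound _ 65 [(rh96851dee118c1ba3.shift 1 1), rh9aa138e5ed752369] (by decide +kernel))
noncomputable def rh1ca3eff66d43e5b6 : CRef := CRef.mk (Pat.mk 0x800000008000000040000000400000000 0xa0000000f0000003c000000040000000400000004 5 6) 0 0 (step_sound _ 98 [(rh516a021585c206bf.shift 0 1), (rh71222050f2c63a3a.shift 2 0)] (by decide +kernel))
noncomputable def rh8b7d6449565abf29 : CRef := CRef.mk (Pat.mk 0x40000001e00000016000000000000000000000000 0x40000001f0000001e000000380000001800000018 5 6) 0 0 (step_sound _ 99 [(rh3244c3cc8379b070.shift 0 3), (rh4f5f1a99d6baeb5a.shift 1 0)] (by decide +kernel))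
noncomputable def rhc75a4e91146dd483 : CRef := CRef.mk (Pat.mk 0x40000000c0000000700000000000000000000000000000000 0x40000000c0000000c0000000f0000001c0000000c0000000c00000008 5 5) 0 0 (step_sound _ 98 [(rh301a6b3a9154ed36.shift 2 1), (rh3820f35d5e705bec.shift 2 0), (rh3e471ba87cfd720c.shift 0 1), (rhdd2601c875e3d18f.shift 0 2)] (by decide +kernel))
noncomputable def rh00bf03c298320d59 : CRef := CRef.mk (Pat.mk 0x40000000c000000060000000000000000 0xa0000000f0000003e000000060000000400000004 5 6) 0 0 (step_sound _ 100 [(rh18965a982d73c794.shift 1 2), rh1a8ae9197b778af9] (by decide +kernel))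
noncomputable def rhe54355bc0aaf2ee4 : CRef := CRef.mk (Pat.mk 0x8000000180000000c000000000000000000000000 0x1000000018000000180000001f0000003c0000001800000010 5 6) 0 0 (step_sound _ 97 [(rh53b3c253cb0c65f4.shift 0 3), (rh867f6cba49450cc2.shift 1 0)] (by decide +kernel))
noncomputable def rh66e9ffaa969ff0d3 : CRef := CRef.mk (Pat.mk 0x800000008000000080000003c00000000 0x100000001800000018000000380000003f00000060 5 7) 0 0 (step_sound _ 132 [(rh2f68792b6b779e96.shift 3 1), rhf3731febd9c20499] (by decide +kernel))
noncomputable def rh9f35cfae21decbb8 : CRef := CRef.mk (Pat.mk 0x4000000000000000c0000000e00000000 0x4000000040000003f0000003e00000003 5 6) 0 0 (step_sound _ 68 [(rh18965a982d73c794.shift 1 1), rhbd9b1796f733003a] (by decide +kernel))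
noncomputable def rhf7bd9f8272d21472 : CRef := CRef.mk (Pat.mk 0x1c0000000a0000000c 0x3e0000007e0000001f 5 7) 0 0 (step_sound _ 69 [(rh80fcd6d0a18cb2dd.shift 1 1), rh958722c130221f87] (by decide +kernel))
noncomputable def rh9d3e74c268257940 : CRef := CRef.mk (Pat.mk 0x20000000a000000030000000700000000 0x4000000060000000e0000001b0000001f00000018 5 5) 0 0 (step_sound _ 35 [rh2863a633550a101d, (rhf48373e13d2bc128.shift 0 1)] (by decide +kernel))
noncomputable def rh5e93b8f47958f24c : CRef := CRef.mk (Pat.mk 0x400000014000000040000000400000000 0xa0000000f0000001c000000040000000600000006 5 5) 0 0 (step_sound _ 33 [(rh932754581e0f4330.shift 1 0), rhec7a88c6dcaa5d28] (by decide +kernel))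
noncomputable def rhc16b02c29788942e : CRef := CRef.mk (Pat.mk 0x20000000a000000020000000200000000 0x50000001f0000001b000000020000000200000002 5 5) 0 0 (step_sound _ 128 [rh00dbae5ee7f1b6d5, (rh50fbb5868c909700.shift 0 1)] (by decide +kernel))
noncomputable def rhf9d96bc4cfb7dfa2 : CRef := CRef.mk (Pat.mk 0x40000001e000000060000000000000000 0x70000001e0000003e0000000300000003 5 6) 0 0 (step_sound _ 129 [(rh3244c3cc8379b070.shift 0 3), rhec36f35a4c9dfaa1] (by decide +kernel))
noncomputable def rh0eb14a2989a253bc : CRef := CRef.mk (Pat.mk 0x80000003c0000000c0000000000000000 0x1f0000003f0000001c0000000400000004 5 6) 0 0 (step_sound _ 129 [(rh3f8766e6ecb455ce.shift 1 3), rhddd04d66a09f5cd5] (by decide +kernel))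
noncomputable def rh6b7a766b12bc56c9 : CRef := CRef.mk (Pat.mk 0x1000000010000000b0000000300000000 0x200000003000000030000001b0000001f00000005 5 5) 0 0 (step_sound _ 129 [rh01bf07818f4f9d95, (rh2f68792b6b779e96.shift 0 1)] (by decide +kernel))
noncomputable def rhd4e50120a01cc726 : CRef := CRef.mk (Pat.mk 0x200000002000000020000000100000000 0x50000000700000007000000020000000300000003 5 3) 0 0 (step_sound _ 33 [rh373b7625e672cfd8, rh932754581e0f4330] (by decide +kernel))
noncomputable def rh6575bc1d3dcb7608 : CRef := CRef.mk (Pat.mk 0x400000004000000040000000600000000 0x600000006000000040000003c0000000f00000008 5 6) 0 0 (step_sound _ 35 [(rh55afc6a59410cf00.shift 2 0), (rh7a38171ff6d06716.shift 0 1)] (by decide +kernel))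
noncomputable def rhbf000823819f4c0d : CRef := CRef.mk (Pat.mk 0x200000002000000030000000000000000 0x1000000030000000300000002000000070000000700000004 5 3) 0 0 (step_sound _ 161 [rh8ff3dde5b1c639e0, (rh932754581e0f4330.shift 0 1)] (by decide +kernel))
noncomputable def rh746c156abc5cc63f : CRef := CRef.mk (Pat.mk 0x4000000040000000c0000000200000000 0xa0000000e0000000e0000003c0000000f0000000c 5 6) 0 0 (step_sound _ 34 [(rh373b7625e672cfd8.shift 1 0), rh69fd1474b487b3e0] (by decide +kernel))
noncomputable def rh5fc82c61eb8d1a66 : CRef := CRef.mk (Pat.mk 0x2000000020000000600000000 0x5000000070000000700000007000000060000000600000002 5 3) 0 0 (step_sound _ 129 [rh373b7625e672cfd8, (rh5bd4bc0c2c48140c.shift 0 1), (rh73f605273a09a9d0.shift 1 1)] (by decide +kernel))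
noncomputable def rh8af790ade9572468 : CRef := CRef.mk (Pat.mk 0x800000000000000100000003800000000 0x8000000080000007f0000007e00000006 5 7) 0 0 (step_sound _ 34 [(rh04d7e19c993f8872.shift 1 0), (rh503775339733bab1.shift 0 1), (rhec46bd5500c722c9.shift 1 1)] (by decide +kernel))
noncomputable def rh6bb874f4d1fe849e : CRef := CRef.mk (Pat.mk 0x40000000c000000180000000c00000000 0x40000001f0000001b0000001f00000002 5 5) 0 0 (step_sound _ 97 [rhab9de803f8db9bf5, (rhb739f4f82bb681b4.shift 0 2)] (by decide +kernel))
noncomputable def rha3351b5409dc08fd : CRef := CRef.mk (Pat.mk 0x20000000200000002000000020000000000000000 0x5000000070000000700000002000000020000000600000004 5 3) 0 0 (step_sound _ 160 [(rh50fbb5868c909700.shift 0 2), rhd2da3f947de1a99e] (by decide +kernel))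
noncomputable def rh39cea3beabd786c1 : CRef := CRef.mk (Pat.mk 0x200000007800000010 0x300000007f000000fc 5 8) 0 0 (step_sound _ 3 [rhc6f8b44da755dc85, (rheb0810cc63b001d8.shift 2 0)] (by decide +kernel))
noncomputable def rh4cc838eefa4b2d39 : CRef := CRef.mk (Pat.mk 0x80000000c000000070000000400000000 0x400000006000000060000000e0000000e000000070000001e0000000a 5 5) 0 0 (step_sound _ 130 [(rh865cf161b9b29643.shift 1 1), rhb379f99078aafa2d] (by decide +kernel))
noncomputable def rhf16b1384490fe85a : CRef := CRef.mk (Pat.mk 0x200000002000000020000000200000000 0x50000000700000007000000020000000600000006 5 3) 0 0 (step_sound _ 34 [rh00c644645561e9be, (rh55afc6a59410cf00.shift 1 0)] (by decide +kernel))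
noncomputable def rh037a4dc33df8ef41 : CRef := CRef.mk (Pat.mk 0x40000001c00000004000000000000000000000000 0xa0000000f0000001c000000040000000e0000000e0000000a 5 5) 0 0 (step_sound _ 66 [(rh039efe07c35de3d4.shift 0 2), (rh8cdd36b03d57a2f6.shift 1 0)] (by decide +kernel))
noncomputable def rhad089deb6eb8bd72 : CRef := CRef.mk (Pat.mk 0x8000000080000000e0000001c000000000000000000000000 0x10000000180000000c0000003e0000001f000000030000000200000002 5 6) 0 0 (step_sound _ 196 [(rh2f68792b6b779e96.shift 3 3), rhaecf007e95ea9630] (by decide +kernel))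
noncomputable def rhae17d7873d576200 : CRef := CRef.mk (Pat.mk 0x180000001c0000000800000004 0x20000000a0000001f0000001f0000000c00000004 5 5) 0 0 (step_sound _ 34 [(rh5c5e593799055d58.shift 2 0), rh8ba6ef9bea29e42f] (by decide +kernel))
noncomputable def rh1b16f7308fd202f1 : CRef := CRef.mk (Pat.mk 0xc0000001c000000040000000c00000000 0x40000000c0000007c0000003c0000000f00000002 5 7) 0 0 (step_sound _ 67 [(rh50fbb5868c909700.shift 2 1), rh7d6af398f14dc945] (by decide +kernel))
noncomputable def rh04d9d60f04554b8a : CRef := CRef.mk (Pat.mk 0x80000001c000000040000000400000000 0x60000000f0000001c0000000e0000000e0000000a 5 5) 0 0 (step_sound _ 130 [(rh277b01412deaec89.shift 0 1), (rh4bc3fb1b54fe76ba.shift 1 0)] (by decide +kernel))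
noncomputable def rh31b06de3f67a0d8a : CRef := CRef.mk (Pat.mk 0x1c0000001c00000000 0x200000002000000030000001f0000001f00000004 5 5) 0 0 (step_sound _ 33 [(rh53b3c253cb0c65f4.shift 0 1), rhe342e74196eab19c] (by decide +kernel))
noncomputable def rh6eb5f9579b0359b0 : CRef := CRef.mk (Pat.mk 0x1000000070000000180000000800000000 0x3e0000007f000000f80000000c00000004 5 8) 0 0 (step_sound _ 99 [(rh719a4defb16e1b89.shift 0 2), (rhb91bd40a584180c1.shift 1 2), (rhdfb45a0764e33452.shift 2 0), (rhf63fad18013868a1.shift 0 2)] (by decide +kernel))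
noncomputable def rhf2946fb63d238d89 : CRef := CRef.mk (Pat.mk 0x180000000e0000000400000000 0xa0000000f0000001f0000001e0000003400000010 5 6) 0 0 (step_sound _ 131 [(rh5c5e593799055d58.shift 2 1), rhcf83eca7035b3d24] (by decide +kernel))
noncomputable def rhf6211e16945a8873 : CRef := CRef.mk (Pat.mk 0x100000001a0000000e0000000800000000 0x6000000370000001e0000000e0000000c00000004 5 6) 0 0 (step_sound _ 98 [(rh33e738c4ed385b9f.shift 1 3), rha7c666192f458a6e] (by decide +kernel))
noncomputable def rh50cca83f35acae29 : CRef := CRef.mk (Pat.mk 0x1c000000040000000400000000 0xa0000000e0000000f0000001c0000000c0000000c00000008 5 5) 0 0 (step_sound _ 130 [(rh039efe07c35de3d4.shift 0 1), (rh5abfc4c9d959be03.shift 1 0), (rh5ef66011045fb859.shift 2 0)] (by decide +kernel))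
noncomputable def rh1f49594e57f9ba80 : CRef := CRef.mk (Pat.mk 0xe0000000300000002000000000000000000000000 0xa0000000e0000000f0000001e000000070000000700000005 5 5) 0 0 (step_sound _ 66 [(rh00252dbeb2746f9c.shift 0 2), (rh2f7ef8ef5c94975a.shift 1 0), rh6f022302a8eeec88] (by decide +kernel))
noncomputable def rh88aceeed5f73738e : CRef := CRef.mk (Pat.mk 0x100000001a0000000e0000000000000000 0x4000000340000001e0000003e0000000300000002 5 6) 0 0 (step_sound _ 98 [(rh33e738c4ed385b9f.shift 1 3), rh87e2ca517c87b4c2] (by decide +kernel))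
noncomputable def rh96d282fa4bcad58d : CRef := CRef.mk (Pat.mk 0x80000001c000000080000000800000000 0x8000000080000003c0000000f0000001c00000014 5 6) 0 0 (step_sound _ 36 [(rh55afc6a59410cf00.shift 3 0), rhbde581ad67601c48] (by decide +kernel))
noncomputable def rh64f88405a603b15d : CRef := CRef.mk (Pat.mk 0x80000001e000000100000000400000000 0x20000000b0000003e000000170000001400000010 5 6) 0 0 (step_sound _ 36 [(rh7b1f1fb55310c477.shift 3 0), (rhcdee6bd3ac30bbd9.shift 0 1)] (by decide +kernel))
noncomputable def rha069e784eb1f39f2 : CRef := CRef.mk (Pat.mk 0x4000000040000001e00000004 0xa0000000f0000003c0000001f00000004 5 6) 0 0 (step_sound _ 68 [rh194191abb0721b79, (rh33e738c4ed385b9f.shift 1 1)] (by decide +kernel))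
noncomputable def rh0ac221a48d90f265 : CRef := CRef.mk (Pat.mk 0x1e000000060000000200000000 0x2000000020000001e0000003e0000000700000005 5 6) 0 0 (step_sound _ 68 [rh30bb26c24d1addac, (rhe25b0a99195a5d59.shift 1 2)] (by decide +kernel))
noncomputable def rh590a91a96503862e : CRef := CRef.mk (Pat.mk 0x8000000380000000c00000000 0x4000000040000003e0000003f0000007c00000008 5 7) 0 0 (step_sound _ 66 [(rh668d1876510a8d45.shift 0 1), (rha3e1d11cef3fbde8.shift 1 0)] (by decide +kernel))
noncomputable def rh05aa446b544bee25 : CRef := CRef.mk (Pat.mk 0x60000001c000000060000000000000000 0x70000001f0000003e0000000300000002 5 6) 0 0 (step_sound _ 97 [(rh3244c3cc8379b070.shift 0 3), rh4c11c491f4d8ec0e] (by decide +kernel))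
noncomputable def rhefa3f62f67d9152a : CRef := CRef.mk (Pat.mk 0x10000000380000000c00000000 0x1000000010000000770000003e0000007c00000020 5 7) 0 0 (step_sound _ 132 [rh560c43f945219ddc, (rh5c5e593799055d58.shift 3 1)] (by decide +kernel))
noncomputable def rh44e05cc68d72e3a4 : CRef := CRef.mk (Pat.mk 0x20000000200000002000000020000000000000000 0x1000000030000000300000002000000070000000700000004 5 3) 0 0 (step_sound _ 64 [rh5ad9898cc32ef511, (rh932754581e0f4330.shift 0 1)] (by decide +kernel))
noncomputable def rh667910d784635838 : CRef := CRef.mk (Pat.mk 0x8000000380000000c0000000000000000 0x40000003f0000003f0000007c0000000800000008 5 7) 0 0 (step_sound _ 98 [(rh06d16ed1005b3fa2.shift 0 2), (rh38a0850c9fea941e.shift 1 0), (rh668d1876510a8d45.shift 0 2)] (by decide +kernel))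
noncomputable def rhff3539f9e6be4aa8 : CRef := CRef.mk (Pat.mk 0x3c00000000 0x70000003e00000076 5 7) 0 0 (step_sound _ 2 [rh0d378fd9e8917c5a, (rheb0810cc63b001d8.shift 1 0)] (by decide +kernel))
noncomputable def rh14137cadce7ed032 : CRef := CRef.mk (Pat.mk 0x8000000180000000e00000008 0xe0000000f0000001e0000000e0000000c 5 5) 0 0 (step_sound _ 98 [rh307d9d56a8a305e7, (rh50fbb5868c909700.shift 2 0)] (by decide +kernel))
noncomputable def rh8989e259dcfcecc2 : CRef := CRef.mk (Pat.mk 0x80000001c000000060000000000000000 0x60000000f0000001c0000000e0000000e0000000c 5 5) 0 0 (step_sound _ 34 [(rh71222050f2c63a3a.shift 2 0), rhf5e626eff880154e] (by decide +kernel))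
noncomputable def rhaeeecdf244ae8de6 : CRef := CRef.mk (Pat.mk 0x18000000180000000e00000008 0x70000001f0000001b0000000e0000000c 5 5) 0 0 (step_sound _ 98 [(rh50fbb5868c909700.shift 2 0), rh7587ec2175ea55ef] (by decide +kernel))
noncomputable def rh9373409cff1dd827 : CRef := CRef.mk (Pat.mk 0x1e000000160000000000000000 0x10000000300000001f0000001e0000000b00000008 5 6) 0 0 (step_sound _ 67 [(rh3244c3cc8379b070.shift 0 2), rh5172c33c97baa9af] (by decide +kernel))
noncomputable def rh97fc7a214b1cc341 : CRef := CRef.mk (Pat.mk 0x80000001c000000060000000400000000 0x20000000f0000001c0000001e0000003c00000018 5 6) 0 0 (step_sound _ 130 [(rh277b01412deaec89.shift 0 1), (rh770992ee6cf16ba5.shift 1 0)] (by decide +kernel))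
noncomputable def rh7490b3c9b401cf70 : CRef := CRef.mk (Pat.mk 0x80000001c0000000600000004 0x400000006000000060000000f0000001c0000000e00000006 5 5) 0 0 (step_sound _ 98 [rh277b01412deaec89, (rh933f3ac7d57d09d8.shift 1 0), (rhb69bc438e154a59a.shift 1 0)] (by decide +kernel))
noncomputable def rhad2688ef6603f2bb : CRef := CRef.mk (Pat.mk 0x10000000100000007000000018 0x10000000100000003e0000007f00000018 5 7) 0 0 (step_sound _ 35 [(rh5c5e593799055d58.shift 3 0), rh719a4defb16e1b89] (by decide +kernel))
noncomputable def rh51faba9adaf36222 : CRef := CRef.mk (Pat.mk 0x80000001c000000060000000400000000 0x60000000f0000001c0000001e0000003e00000018 5 6) 0 0 (step_sound _ 130 [(rh277b01412deaec89.shift 0 1), (rh770992ee6cf16ba5.shift 1 0), (rh871caa7606de9ca4.shift 1 0)] (by decide +kernel))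
noncomputable def rh561e94cc331e17a1 : CRef := CRef.mk (Pat.mk 0x2000000060000000600000000 0x70000000700000007000000060000000600000002 5 3) 0 0 (step_sound _ 129 [(rh2145e1d24b96a57e.shift 1 1), rh373b7625e672cfd8] (by decide +kernel))
noncomputable def rh61a4ef5851d4c3c5 : CRef := CRef.mk (Pat.mk 0x8000000080000001e0000000000000000 0x8000000080000003e0000003f00000014 5 6) 0 0 (step_sound _ 36 [rh883c8f798b36c961, (rhe25b0a99195a5d59.shift 1 1)] (by decide +kernel))
noncomputable def rhae7c0d2a25043073 : CRef := CRef.mk (Pat.mk 0x1c000000070000000400000000 0xa0000000f0000001c000000070000003e00000008 5 6) 0 0 (step_sound _ 35 [(rh89ade209b3e28f13.shift 0 1), rhcc60a17a1a87c612] (by decide +kernel))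
noncomputable def rh27da4609da47c500 : CRef := CRef.mk (Pat.mk 0xc000000180000000e00000008 0x130000001f0000001b0000000e0000000c 5 5) 0 0 (step_sound _ 100 [(rh2f68792b6b779e96.shift 3 0), rh7587ec2175ea55ef] (by decide +kernel))
noncomputable def rhc3e986643a26658d : CRef := CRef.mk (Pat.mk 0x20000001e000000040000000000000000 0x8000000080000003e0000001f000000040000000400000004 5 6) 0 0 (step_sound _ 34 [(rh4c7411087d622b9c.shift 0 1), (rh7b1f1fb55310c477.shift 1 0)] (by decide +kernel))
noncomputable def rh9cdd1d9c0b4e0ec0 : CRef := CRef.mk (Pat.mk 0x80000001c000000060000000400000000 0x380000001f0000003e0000003c00000010 5 6) 0 0 (step_sound _ 97 [(rh874593e3f05c8191.shift 1 0), (rhec46bd5500c722c9.shift 0 3)] (by decide +kernel))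
noncomputable def rhce337c34cf7794f8 : CRef := CRef.mk (Pat.mk 0x40000000e000000100000000000000000 0x10000000340000001f000000380000000800000008 5 6) 0 0 (step_sound _ 100 [rha4c1d69345b99268, (rhe25b0a99195a5d59.shift 1 2)] (by decide +kernel))
noncomputable def rha08c385e91247958 : CRef := CRef.mk (Pat.mk 0x1e000000160000000400000000 0x380000001f000000160000003c00000018 5 6) 0 0 (step_sound _ 132 [(rh33e738c4ed385b9f.shift 1 3), rhf1ad75e01735842b] (by decide +kernel))
noncomputable def rh93132d5d08907e33 : CRef := CRef.mk (Pat.mk 0xc0000000400000004000000000000000000000000 0x60000000f0000003c0000000e0000000e0000000e00000002 5 6) 0 0 (step_sound _ 66 [(rh099a4ec72b73d1a6.shift 0 1), (rha8bc3cae4d77a08f.shift 1 0), (rhc4ec57a3756c3a6c.shift 1 1)] (by decide +kernel))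
noncomputable def rhba9c966cb675b0c6 : CRef := CRef.mk (Pat.mk 0x8000000180000000800000018 0xc0000000f0000007c0000001800000018 5 7) 0 0 (step_sound _ 36 [(rh2145e1d24b96a57e.shift 3 0), rhca405e350c462817] (by decide +kernel))
noncomputable def rhc7b627fc1fce0ce6 : CRef := CRef.mk (Pat.mk 0x1c000000040000000400000000 0xe30000007e000000fc0000000400000004 5 8) 0 0 (step_sound _ 69 [(rh20553f44f3de3897.shift 2 2), (rh7b93e260e30176fc.shift 1 2), rhf87585b0e9b4fc36] (by decide +kernel))
noncomputable def rhdfecfd54cee84037 : CRef := CRef.mk (Pat.mk 0x1e00000008000000080000000800000000 0x30000007e0000000e0000000c0000000c00000004 5 7) 0 0 (step_sound _ 34 [(rh3c662dd0b2d81b5b.shift 0 1), (rh932754581e0f4330.shift 2 0)] (by decide +kernel))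
noncomputable def rh3f586e1f22541a90 : CRef := CRef.mk (Pat.mk 0x180000001e000000180000000000000000 0x1b0000001e0000001f0000003000000030 5 6) 0 0 (step_sound _ 65 [rh0cc012cde8209369, (rheb0810cc63b001d8.shift 0 2)] (by decide +kernel))
noncomputable def rh5baed06ef358fa9a : CRef := CRef.mk (Pat.mk 0x20000000a0000000f00000000000000000000000000000000 0xa0000000e0000000f0000001e0000001c0000001c00000010 5 5) 0 0 (step_sound _ 99 [(rh782bd1fe812dc152.shift 1 0), (rhe25b0a99195a5d59.shift 0 3)] (by decide +kernel))
noncomputable def rhe08b9b2fb0ef2273 : CRef := CRef.mk (Pat.mk 0x8000000080000000c000000060000000000000000 0x8000000180000003f0000003e0000001000000010 5 6) 0 0 (step_sound _ 100 [(rh18965a982d73c794.shift 1 2), rh34ff5d56432b202d] (by decide +kernel))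
noncomputable def rhfcd1a0faed0b2ebe : CRef := CRef.mk (Pat.mk 0xc000000040000000400000002 0x2000000070000003e000000040000000600000006 5 6) 0 0 (step_sound _ 130 [(rh79877ebd3ef475dd.shift 1 0), rh8fab73097cf3a8c4] (by decide +kernel))
noncomputable def rhe6c5f01932c735b9 : CRef := CRef.mk (Pat.mk 0x1800000008000000080000000800000000 0x40000003c0000000f000000080000001800000018 5 6) 0 0 (step_sound _ 36 [(rh55afc6a59410cf00.shift 3 0), rh9aab2e37f490e5ca] (by decide +kernel))
noncomputable def rheafbbacb2d90c3c4 : CRef := CRef.mk (Pat.mk 0x400000004000000040000000600000000 0x600000006000000040000003c0000000f00000008 5 6) 0 0 (step_sound _ 129 [rh3038ab5f74634e6d, (rh50fbb5868c909700.shift 1 1)] (by decide +kernel))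
noncomputable def rh4d07a0e09c775b4b : CRef := CRef.mk (Pat.mk 0x80000000c000000040000000400000000 0x4000000060000000f0000003c0000000e0000000e00000002 5 6) 0 0 (step_sound _ 130 [(rhad2e5f3a7ec95118.shift 1 0), (rhcf85c92937975d4d.shift 0 1)] (by decide +kernel))
noncomputable def rh3649f0f9b2ae946e : CRef := CRef.mk (Pat.mk 0x200000007800000000 0x370000007e000000e0 5 8) 0 0 (step_sound _ 6 [(rhe25b0a99195a5d59.shift 3 0), rhf771e1bb7545b213] (by decide +kernel))
noncomputable def rh55a312b9fce4d00f : CRef := CRef.mk (Pat.mk 0xa0000000300000006000000000000000000000000 0xa0000000a0000000b0000001e0000000c0000000400000004 5 5) 0 0 (step_sound _ 66 [(rh2145e1d24b96a57e.shift 1 2), rh501cc80bdbe726b2] (by decide +kernel))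
noncomputable def rh5e5fa176a38538a9 : CRef := CRef.mk (Pat.mk 0xc000000060000000c0000000000000000 0x80000000c000000060000003c0000000f0000000a 5 6) 0 0 (step_sound _ 34 [(rh2f68792b6b779e96.shift 2 1), rheec59a2749f6e5f0] (by decide +kernel))
noncomputable def rhecc20fd3195b88b6 : CRef := CRef.mk (Pat.mk 0x20000000e000000100000000000000000 0x4000000060000003e000000330000000200000002 5 6) 0 0 (step_sound _ 100 [rh8fc6e84d6e407574, (rhe25b0a99195a5d59.shift 1 2)] (by decide +kernel))
noncomputable def rh1aa4b2cdb404bb38 : CRef := CRef.mk (Pat.mk 0x80000000e000000040000000000000000 0x800000008000000080000003e0000003f0000001000000010 5 6) 0 0 (step_sound _ 100 [(rh84970c2ccb9fe470.shift 1 0), (rhaf9f2efc81a8312b.shift 0 2)] (by decide +kernel))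
noncomputable def rhf8478942b2af157e : CRef := CRef.mk (Pat.mk 0xc0000000e000000040000000c00000000 0x100000003c0000000e0000003c0000000f00000002 5 6) 0 0 (step_sound _ 33 [(rh2ffd7ddfa1630cfb.shift 0 1), (rh932754581e0f4330.shift 1 0)] (by decide +kernel))
noncomputable def rh0eac73e1cd41bc58 : CRef := CRef.mk (Pat.mk 0xc000000080000000c0000000c00000000 0x100000003c0000000f0000000c0000000e0000000a 5 6) 0 0 (step_sound _ 98 [(rh7b1f1fb55310c477.shift 2 0), rhe145f3af56ef93f3] (by decide +kernel))
noncomputable def rh89edc132b13a1000 : CRef := CRef.mk (Pat.mk 0x180000000e0000000000000000 0x8000000080000001f0000003e0000003700000010 5 6) 0 0 (step_sound _ 68 [(rh5f7b3bfbaf903d4f.shift 0 1), (rhea719cc8bd0bdd28.shift 1 0)] (by decide +kernel))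
noncomputable def rh43aadf7a7f3a9f86 : CRef := CRef.mk (Pat.mk 0x38000000040000000000000000 0x40000001f0000007c0000000c0000000800000008 5 7) 0 0 (step_sound _ 130 [(rh40811da85268475d.shift 0 3), (rh8c12fdbbddc1e7ab.shift 0 3), (rh9bdb2f981711dfd3.shift 1 0), (rhe9d682012dbceb06.shift 2 2)] (by decide +kernel))
noncomputable def rh864e700a232e5d04 : CRef := CRef.mk (Pat.mk 0x100000001a0000000e00000008 0x600000006000000370000001e0000000e00000008 5 6) 0 0 (step_sound _ 66 [(rh33e738c4ed385b9f.shift 1 2), rh874a213df268dd65] (by decide +kernel))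
noncomputable def rh0dcb5839311c3864 : CRef := CRef.mk (Pat.mk 0x180000000e0000000400000004 0x20000001b000000fe0000007f00000004 5 8) 0 0 (step_sound _ 68 [(rh0ae232cce48795b7.shift 1 1), (rh31b96bf68293d1ba.shift 1 1), rhe4f9133a81c1dbc5] (by decide +kernel))
noncomputable def rh859c65c606d77f13 : CRef := CRef.mk (Pat.mk 0x40000000e000000030000000200000000 0x2000000060000000e0000000f0000001f0000000d 5 5) 0 0 (step_sound _ 129 [rh03dfdf12d5937476, rh770992ee6cf16ba5, rh871caa7606de9ca4] (by decide +kernel))
noncomputable def rh235cfc679c7203d6 : CRef := CRef.mk (Pat.mk 0x8000000080000000c0000000e00000000 0x40000000c0000000c0000000f0000001e0000001a 5 5) 0 0 (step_sound _ 36 [(rh55afc6a59410cf00.shift 3 0), rh9f5561334d1b39b7] (by decide +kernel))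
noncomputable def rh05e88f19e129c927 : CRef := CRef.mk (Pat.mk 0x3000000020000000700000001000000000000000000000000 0x100000003000000060000000700000007000000060000000600000002 5 3) 0 0 (step_sound _ 97 [(rh50fbb5868c909700.shift 0 3), rhdaa34f01e5e560a1] (by decide +kernel))
noncomputable def rhaff73c82a66aa2fb : CRef := CRef.mk (Pat.mk 0x600000004000000040000000400000000 0x80000000f0000003c000000040000000c0000000c 5 6) 0 0 (step_sound _ 35 [(rh55afc6a59410cf00.shift 2 0), rh5eb116785a745a33] (by decide +kernel))
noncomputable def rhd72044392b4d28d0 : CRef := CRef.mk (Pat.mk 0x1e000000000000000000000000 0x400000004000000060000003e000000070000000200000002 5 6) 0 0 (step_sound _ 65 [(rhc0fa617a4da4b195.shift 1 0), (rheb0810cc63b001d8.shift 0 2)] (by decide +kernel))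
noncomputable def rh7761c03094161dbb : CRef := CRef.mk (Pat.mk 0x1e000000000000000000000000 0x200000002000000070000003e000000060000000400000004 5 6) 0 0 (step_sound _ 129 [(rh3244c3cc8379b070.shift 0 3), (rhc07034f2f4840cd9.shift 1 0)] (by decide +kernel))
noncomputable def rh36caa74d350fc8e1 : CRef := CRef.mk (Pat.mk 0x80000001c00000006000000140000000000000000 0x80000001c000000360000003e0000001300000002 5 6) 0 0 (step_sound _ 67 [rhabdb7a7c9ea17a45, (rhf48373e13d2bc128.shift 1 2)] (by decide +kernel))
noncomputable def rh6f2718c4c2575f17 : CRef := CRef.mk (Pat.mk 0x8000000030000000a000000000000000000000000 0x8000000080000001f0000001e000000100000001000000010 5 5) 0 0 (step_sound _ 100 [(rh5419adcd928dba20.shift 0 3), rha61552900fcb9c16] (by decide +kernel))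
noncomputable def rh1518b939c428b973 : CRef := CRef.mk (Pat.mk 0x60000000300000002000000000000000000000000 0x6000000070000000300000003000000030000000300000002 5 3) 0 0 (step_sound _ 65 [(rh2f68792b6b779e96.shift 1 2), rhb8100e737f749136] (by decide +kernel))
noncomputable def rh1f92911e4f033b3f : CRef := CRef.mk (Pat.mk 0xe0000000300000002000000000000000000000000 0xa0000000e0000000f0000001e000000070000000700000005 5 5) 0 0 (step_sound _ 66 [(rh00252dbeb2746f9c.shift 0 2), (rh2977b00063528966.shift 1 0), rh6f022302a8eeec88] (by decide +kernel))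
noncomputable def rh2945e0cb3c5365fb : CRef := CRef.mk (Pat.mk 0xc000000080000000c0000000400000000 0x120000007f0000003e0000000c0000000c00000008 5 7) 0 0 (step_sound _ 98 [(rh20e3cbe97aab9353.shift 1 0), (rhcf85c92937975d4d.shift 0 1)] (by decide +kernel))
noncomputable def rh1e1f6096f7be8bf4 : CRef := CRef.mk (Pat.mk 0x4000000040000001c00000006000000000000000000000000 0x40000000c0000001f0000003e000000380000001000000010 5 6) 0 0 (step_sound _ 99 [(rh55afc6a59410cf00.shift 2 2), rhbdbb8fa5d5d8c328] (by decide +kernel))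
noncomputable def rh30317101fbbcd958 : CRef := CRef.mk (Pat.mk 0xc0000000e0000000100000000 0xc0000000c0000000c0000001e0000000700000006 5 5) 0 0 (step_sound _ 33 [(rh18965a982d73c794.shift 0 1), (rh2f169b62b92f842d.shift 1 0)] (by decide +kernel))
noncomputable def rha899a957ae791d46 : CRef := CRef.mk (Pat.mk 0x1e000000060000000000000000 0x8000000380000001f0000003e0000003000000020 5 6) 0 0 (step_sound _ 68 [rh5f59ce465f9d3e25, (rhe25b0a99195a5d59.shift 1 2)] (by decide +kernel))
noncomputable def rh8c6243e3738b27d7 : CRef := CRef.mk (Pat.mk 0xc0000000f000000040000000400000000 0xc0000000f0000001e0000007c00000018 5 7) 0 0 (step_sound _ 67 [(rh61abea9b92003218.shift 1 0), (rhe25b0a99195a5d59.shift 0 2)] (by decide +kernel))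
noncomputable def rh0000e2b7950eae36 : CRef := CRef.mk (Pat.mk 0xc0000000e00000005 0x8000000080000000c0000007e00000077 5 7) 0 0 (step_sound _ 36 [(rh78c9b3be5b3e8a50.shift 1 0), rh80fcd6d0a18cb2dd] (by decide +kernel))
noncomputable def rh242dfbe4e7098cac : CRef := CRef.mk (Pat.mk 0xc0000000f00000004 0x8000000080000000c0000007f0000003e 5 7) 0 0 (step_sound _ 4 [rh96851dee118c1ba3, (rhb0ba97b7a9e603db.shift 1 0)] (by decide +kernel))
noncomputable def rhc9968ecf1b033886 : CRef := CRef.mk (Pat.mk 0x80000001c000000060000000400000000 0x80000001f0000007e0000003e00000010 5 7) 0 0 (step_sound _ 68 [(rh3b97c0bc2615f008.shift 1 1), (rh6a7d78a202a43da8.shift 1 0), (rh8349b894a33edab5.shift 1 0), rh89012dd016b5feb1] (by decide +kernel))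
noncomputable def rh707095ba11024fc9 : CRef := CRef.mk (Pat.mk 0x1000000010000000180000000c00000000 0x80000001800000018000000180000003f00000037 5 6) 0 0 (step_sound _ 33 [rh494a6335a3a1445a, (rh53b3c253cb0c65f4.shift 0 1)] (by decide +kernel))
noncomputable def rh39a2b588b77d96d3 : CRef := CRef.mk (Pat.mk 0x8000000080000001c00000006000000000000000000000000 0x40000000c0000000c0000001f0000003e0000001a0000001800000008 5 6) 0 0 (step_sound _ 99 [(rh18b49738f4e5d343.shift 1 2), (rh4f66b8b299b10e60.shift 2 0), (rhcf0f1f5b2b1be263.shift 0 2)] (by decide +kernel))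
noncomputable def rh7bbc308168ad65a6 : CRef := CRef.mk (Pat.mk 0xc00000007000000040000000000000000 0xc0000000c0000000f0000001c0000000c0000000c 5 5) 0 0 (step_sound _ 34 [(rh2f68792b6b779e96.shift 2 1), rhf7a8bed0a1ea9d2a] (by decide +kernel))
noncomputable def rh3e6fa113d96337e6 : CRef := CRef.mk (Pat.mk 0x1a0000000e0000000000000000 0x6000000070000001e0000003e0000000700000006 5 6) 0 0 (step_sound _ 98 [rh38a0850c9fea941e, rh87e2ca517c87b4c2] (by decide +kernel))
noncomputable def rh8958290225f88f65 : CRef := CRef.mk (Pat.mk 0x10000000380000000c0000000000000000 0x4000000770000003e0000000c0000000800000008 5 7) 0 0 (step_sound _ 35 [(rh71222050f2c63a3a.shift 3 0), (rhaf73b8e8519192b4.shift 0 1)] (by decide +kernel))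
noncomputable def rh9c3657c62bacdcf1 : CRef := CRef.mk (Pat.mk 0x40000000400000006000000020000000000000000 0x40000000f0000003f0000007f0000000800000008 5 7) 0 0 (step_sound _ 99 [rh360de2d52098df7a, (rha83d0a1d851c6a27.shift 0 2)] (by decide +kernel))
noncomputable def rh1146b196d1fe7f18 : CRef := CRef.mk (Pat.mk 0x8000000080000001c000000060000000400000000 0x8000000380000001f000000360000003e00000010 5 6) 0 0 (step_sound _ 68 [(rh08edf065357d68e5.shift 3 0), (rh3ce854f4a795c89f.shift 0 2), (rh8349b894a33edab5.shift 1 0), (rhb8a1f9a12fc8f26e.shift 0 1)] (by decide +kernel))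
noncomputable def rh56e0b13cd0948f51 : CRef := CRef.mk (Pat.mk 0x40000000e000000030000000200000000 0x20000000e0000000f0000001b0000001f0000000d 5 5) 0 0 (step_sound _ 34 [rh172d9a5e6cdaefb8, rh6cd1a6e674c008c8, rhb23658ecdd7ce5df] (by decide +kernel))
noncomputable def rh37e1dec1d8213dc7 : CRef := CRef.mk (Pat.mk 0x180000000e0000000800000000 0x8000000080000001f0000007e0000007e00000010 5 7) 0 0 (step_sound _ 68 [(rh5f68d4d802450994.shift 1 1), (rh79ca413a1e436ec6.shift 0 1), (rhea719cc8bd0bdd28.shift 1 0)] (by decide +kernel))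
noncomputable def rhca9730d7dcb5167d : CRef := CRef.mk (Pat.mk 0x20000000600000003000000000000000000000000 0x2000000060000000600000003000000070000000700000004 5 3) 0 0 (step_sound _ 64 [(rh5c5e593799055d58.shift 0 2), rh816debf2b169d216] (by decide +kernel))
noncomputable def rh3adaef6d8a04de5e : CRef := CRef.mk (Pat.mk 0x1000000010000000180000000e00000000 0x8000000080000000c0000001f00000038000000180000003e00000027 5 6) 0 0 (step_sound _ 131 [rh1a41c2c18ae1ba11, rh4da3e6be34f94b62, (rhe19b9661a558a92e.shift 2 0), (rhf9a6286f1d5377a2.shift 3 1)] (by decide +kernel))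
noncomputable def rh2146cc88d1a43824 : CRef := CRef.mk (Pat.mk 0xc00000008000000080000000c 0x10000000180000001f0000007c0000000f0000000c 5 7) 0 0 (step_sound _ 68 [rh132b701239a98d7a, (rh1ae8cb0b33fd1844.shift 2 0), (rhb0121edee88fe839.shift 0 2)] (by decide +kernel))
noncomputable def rh72f97b660f3d13c7 : CRef := CRef.mk (Pat.mk 0x40000000c0000000600000000 0x200000002000000070000003e0000000700000004 5 6) 0 0 (step_sound _ 68 [(rh18965a982d73c794.shift 1 1), rhd11c1e2b34ac059f] (by decide +kernel))
noncomputable def rhf4b85956d2095a74 : CRef := CRef.mk (Pat.mk 0x1a0000001e000000100000000000000000 0x4000000340000001e0000001e0000001b0000001a00000018 5 6) 0 0 (step_sound _ 36 [rh622a435b57d9fa58, (rh7b1f1fb55310c477.shift 3 0)] (by decide +kernel))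
noncomputable def rhb42a8287ba86c86a : CRef := CRef.mk (Pat.mk 0xc0000000f000000000000000000000000 0x800000008000000080000000c0000001f0000003c0000000c0000000c 5 6) 0 0 (step_sound _ 163 [rh225a66d7634c3aad, (rh503dd4575245365b.shift 2 2), (rh5e044f2a7fe8917d.shift 0 2)] (by decide +kernel))
noncomputable def rh4726f1e1122a954b : CRef := CRef.mk (Pat.mk 0x8000000080000000c0000000800000000 0x40000000c000000080000001f0000007800000010 5 7) 0 0 (step_sound _ 36 [(rh53da26e47990748d.shift 0 1), (rh55afc6a59410cf00.shift 3 0)] (by decide +kernel))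
noncomputable def rh275b33ee64930548 : CRef := CRef.mk (Pat.mk 0x7c00000000 0xc70000007e00000007 5 8) 0 0 (step_sound _ 71 [(rh428265de8cd3cd2d.shift 3 1), rh592c7139d2c44767] (by decide +kernel))
noncomputable def rh35d23f98a08e168e : CRef := CRef.mk (Pat.mk 0x8000000080000000c0000000000000000 0x140000001c0000001c000000080000001f0000007800000010 5 7) 0 0 (step_sound _ 35 [(rh5abfc4c9d959be03.shift 2 0), (rhc85cc95794737cf7.shift 2 1), rhcc2a2baa9246395a] (by decide +kernel))
noncomputable def rhe40b193aff768ad1 : CRef := CRef.mk (Pat.mk 0x80000001c000000060000000000000000 0x800000008000000380000001f0000003e0000001000000010 5 6) 0 0 (step_sound _ 163 [(rh5c5e593799055d58.shift 2 2), rhd021823f79792fb4] (by decide +kernel))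
noncomputable def rh1a349d8f9e8539eb : CRef := CRef.mk (Pat.mk 0x4000000060000000300000002 0x2000000030000000700000007000000070000000300000002 5 3) 0 0 (step_sound _ 97 [(rh2f68792b6b779e96.shift 1 0), rh865cf161b9b29643] (by decide +kernel))
noncomputable def rhfba8a95c9d8d620d : CRef := CRef.mk (Pat.mk 0xe00000002 0x380000001f0000003b 5 6) 0 0 (step_sound _ 36 [rh17f08a0ad30ba6e8, rheb0810cc63b001d8] (by decide +kernel))
noncomputable def rhae759747b8fd9d01 : CRef := CRef.mk (Pat.mk 0x80000001c0000000400000004 0x2000000020000003f0000001f0000000400000004 5 6) 0 0 (step_sound _ 97 [rha358927870346b7d, (rhd0ed6ce702d0de55.shift 0 2), rhecf45992c6df8765] (by decide +kernel))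
noncomputable def rh2cebb6564821bd8b : CRef := CRef.mk (Pat.mk 0x180000001e000000080000000000000000 0x40000001c0000007e0000000f0000000800000008 5 7) 0 0 (step_sound _ 35 [(rh24e4c8de3fcd983e.shift 0 1), (rh71222050f2c63a3a.shift 3 0)] (by decide +kernel))
noncomputable def rh6eab07bafa742d17 : CRef := CRef.mk (Pat.mk 0x1a0000001e0000000800000000 0x12000000330000001e0000001e0000000c00000004 5 6) 0 0 (step_sound _ 132 [(rh5c5e593799055d58.shift 3 1), rh9458e878ee940312] (by decide +kernel))
noncomputable def rh2fbbf879f99de263 : CRef := CRef.mk (Pat.mk 0x1c00000000 0xff0000007e000000e0 5 8) 0 0 (step_sound _ 37 [(rh4c622fddc53a5f99.shift 0 1), (rha93a5dd541ab8209.shift 2 0), (rhe401600d466b97cd.shift 1 0)] (by decide +kernel))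
noncomputable def rh2306c76fed6a2b1b : CRef := CRef.mk (Pat.mk 0x120000001e000000120000000000000000 0x7000000070000000f0000001e0000001e000000160000001200000010 5 5) 0 0 (step_sound _ 161 [(rh1741680720c097b4.shift 0 2), (rh69c904193a3792b5.shift 1 1), rhfb575fe29f306ecb] (by decide +kernel))
noncomputable def rhbae14a666ac7cad9 : CRef := CRef.mk (Pat.mk 0x1e00000004 0x380000001f0000003f 5 6) 0 0 (step_sound _ 1 [rhb2d1aa7b1ffc4eb6, rheb0810cc63b001d8] (by decide +kernel))
noncomputable def rhc7d592a49b2c2ab2 : CRef := CRef.mk (Pat.mk 0x200000007800000000 0x300000007e000000e7 5 8) 0 0 (step_sound _ 6 [(rhe25b0a99195a5d59.shift 3 0), rhfd3b863ea463319a] (by decide +kernel))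
noncomputable def rh167428fe1b8e498c : CRef := CRef.mk (Pat.mk 0xc000000080000001c0000000c00000000 0x20000000f0000003c0000001c0000000f00000002 5 6) 0 0 (step_sound _ 33 [(rh53b3c253cb0c65f4.shift 0 1), rhc3a9559c72b00d0b] (by decide +kernel))
noncomputable def rhe34eb1c5e947ccf9 : CRef := CRef.mk (Pat.mk 0x1c000000060000000000000000 0x20000003b0000001f0000003e0000000400000004 5 6) 0 0 (step_sound _ 97 [rh38a0850c9fea941e, (rhb2d1aa7b1ffc4eb6.shift 0 2)] (by decide +kernel))
noncomputable def rh3303903b5fb91e1a : CRef := CRef.mk (Pat.mk 0x1e00000002000000020000000000000000 0x30000001e00000002000000070000000700000005 5 5) 0 0 (step_sound _ 161 [(rh3244c3cc8379b070.shift 0 4), rh6eff4158bb400f47] (by decide +kernel))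
noncomputable def rh219cc654dcd922b3 : CRef := CRef.mk (Pat.mk 0xf0000000200000002000000020000000000000000 0xf0000001a00000002000000070000000700000005 5 5) 0 0 (step_sound _ 132 [rh6eff4158bb400f47, (rh96851dee118c1ba3.shift 0 4)] (by decide +kernel))
noncomputable def rh138e912e9fa81428 : CRef := CRef.mk (Pat.mk 0x2000000020000001e000000020000000000000000 0x1000000070000003e0000001e000000020000000200000002 5 6) 0 0 (step_sound _ 132 [(rh33e738c4ed385b9f.shift 1 3), rh439d04a0aade1de0] (by decide +kernel))
noncomputable def rh0e6606a44d49538f : CRef := CRef.mk (Pat.mk 0x1e0000000200000000 0x400000004000000070000003e0000003200000002 5 6) 0 0 (step_sound _ 97 [(rh04a978a26ee643ec.shift 1 0), (rh3244c3cc8379b070.shift 0 2)] (by decide +kernel))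
noncomputable def rh2129b6e5ea41379d : CRef := CRef.mk (Pat.mk 0x1e000000120000000000000000 0xc0000000c0000001f0000003e0000001a0000001200000010 5 6) 0 0 (step_sound _ 131 [(rh5d54cb79a67f97ab.shift 3 0), (rha40d42a2e34c408d.shift 3 0), (rhaf661323c6e1d2ba.shift 0 1)] (by decide +kernel))
noncomputable def rh25464d5536c65525 : CRef := CRef.mk (Pat.mk 0x800000038000000080000000800000000 0x40000000f0000003c000000080000001c00000014 5 6) 0 0 (step_sound _ 34 [(rh932754581e0f4330.shift 2 0), rhea511d651e81ee9a] (by decide +kernel))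
noncomputable def rh601478da40dcbc50 : CRef := CRef.mk (Pat.mk 0x1c0000000200000000 0x200000002000000030000003e0000000700000004 5 6) 0 0 (step_sound _ 65 [(rheb0810cc63b001d8.shift 0 1), rhef50fe823a140c7d] (by decide +kernel))
noncomputable def rhf619052be4aa0481 : CRef := CRef.mk (Pat.mk 0xf0000000f000000000000000000000000 0x180000000f0000000f0000001c0000000c0000000c 5 5) 0 0 (step_sound _ 67 [rh27132d7fa65d0aa6, (rhe25b0a99195a5d59.shift 0 2)] (by decide +kernel))
noncomputable def rhdd21c41104e3ad38 : CRef := CRef.mk (Pat.mk 0x40000000700000004000000060000000000000000 0x400000004000000070000001e0000000e0000000c0000000c 5 5) 0 0 (step_sound _ 97 [rh0a56e95103a190d5, (rh5c5e593799055d58.shift 1 2)] (by decide +kernel))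
noncomputable def rhfcf8453754690561 : CRef := CRef.mk (Pat.mk 0x600000006000000060000000000000000 0x600000006000000070000003e0000000e 5 6) 0 0 (step_sound _ 33 [rh61abea9b92003218, (rh71222050f2c63a3a.shift 1 0)] (by decide +kernel))
noncomputable def rhe7c6a4dbed22a5ec : CRef := CRef.mk (Pat.mk 0x300000001c000000080000000000000000 0x2c0000003f0000003c000000180000001800000018 5 6) 0 0 (step_sound _ 35 [(rh71222050f2c63a3a.shift 3 0), rhf88ddd6d2c12e77e] (by decide +kernel))
noncomputable def rha45c9d34a59a0199 : CRef := CRef.mk (Pat.mk 0x8000000080000000c0000000700000000 0x40000000c0000000c0000000e0000007f0000001a 5 7) 0 0 (step_sound _ 35 [(rh18b49738f4e5d343.shift 1 0), rh2aa7c1d375387a4e, (rh9688f1ad5c9f5013.shift 1 0)] (by decide +kernel))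
noncomputable def rh2cb282a1ece82d5d : CRef := CRef.mk (Pat.mk 0x1000000010000000180000000e0000000000000000 0x800000018000000380000001f0000003e0000003000000010 5 6) 0 0 (step_sound _ 68 [(rh870359598daa9f92.shift 0 2), (rhea719cc8bd0bdd28.shift 1 0), (rhfa182594f433339e.shift 0 1)] (by decide +kernel))
noncomputable def rh19d92346f4c1f069 : CRef := CRef.mk (Pat.mk 0x800000008000000100000003000000004 0x8000000080000000f0000003e0000003400000004 5 6) 0 0 (step_sound _ 67 [(rh2145e1d24b96a57e.shift 3 1), rh5ec1f9073aef4c89] (by decide +kernel))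
noncomputable def rh4e6c13ae5f4eff09 : CRef := CRef.mk (Pat.mk 0x8000000180000003000000004 0x8000000080000000f0000003e0000003400000004 5 6) 0 0 (step_sound _ 66 [(rhb739f4f82bb681b4.shift 1 1), rhd0f9c5f0c47c457d] (by decide +kernel))
noncomputable def rhbb96aa47da16921b : CRef := CRef.mk (Pat.mk 0x8000000380000000e0000000000000000 0x40000001f000000380000000e0000007c00000010 5 7) 0 0 (step_sound _ 130 [(rh77eb2cd1dc010e50.shift 1 0), (rhc02b3aee7ab87ee1.shift 0 3)] (by decide +kernel))
noncomputable def rh92469a0e2be42b47 : CRef := CRef.mk (Pat.mk 0x80000001c0000000600000000 0xc0000000c0000000c0000001f0000003e0000001a 5 6) 0 0 (step_sound _ 131 [(rh5c5e593799055d58.shift 2 1), rh9eba87caa067ef1f] (by decide +kernel))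
noncomputable def rh702bf3d300087ad4 : CRef := CRef.mk (Pat.mk 0xc0000000c0000000c 0xe0000000f0000003c0000000c0000000c 5 6) 0 0 (step_sound _ 98 [(rh2145e1d24b96a57e.shift 2 0), rhfc21d93c70905a0f] (by decide +kernel))
noncomputable def rhd62161f3d73f6721 : CRef := CRef.mk (Pat.mk 0x60000001e00000006 0x3000000030000003e0000001e00000036 5 6) 0 0 (step_sound _ 4 [(rhe25b0a99195a5d59.shift 1 0), rhf8367319461b97e0] (by decide +kernel))
noncomputable def rh84cafdab28ae2921 : CRef := CRef.mk (Pat.mk 0x1c00000006000000020000000000000000 0x2000000030000001f0000003e000000070000000600000002 5 6) 0 0 (step_sound _ 33 [(rh71222050f2c63a3a.shift 1 0), (rh8128722f424aca7f.shift 0 1)] (by decide +kernel))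
noncomputable def rhb21866e5f36817d6 : CRef := CRef.mk (Pat.mk 0x8000000380000000c0000000000000000 0x40000003e0000003f0000007c0000000800000008 5 7) 0 0 (step_sound _ 98 [(rh38a0850c9fea941e.shift 1 0), (rh668d1876510a8d45.shift 0 2)] (by decide +kernel))
noncomputable def rh0e5cb9e22de26f97 : CRef := CRef.mk (Pat.mk 0x2000000020000000e000000020000000200000000 0x1000000030000003e0000003e000000020000000200000002 5 6) 0 0 (step_sound _ 130 [(rh04efcf4a704307d0.shift 0 2), (rh71222050f2c63a3a.shift 1 0)] (by decide +kernel))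
noncomputable def rhd2b8d05d0c0cd0b8 : CRef := CRef.mk (Pat.mk 0x8000000380000000800000010 0x40000000c0000001f000000380000001800000018 5 6) 0 0 (step_sound _ 131 [(rhd3458b32566d63f7.shift 3 0), rhd716e2ab31203e19] (by decide +kernel))
noncomputable def rh5cd6293173e0dd10 : CRef := CRef.mk (Pat.mk 0xc0000000700000002000000000000000000000000 0x40000000c0000000e000000070000001e0000000c0000000400000004 5 5) 0 0 (step_sound _ 194 [rh360fd851ab3239e8, (rh5c5e593799055d58.shift 1 3)] (by decide +kernel))
noncomputable def rhea112361e3f87cdc : CRef := CRef.mk (Pat.mk 0x8000000180000000e00000004 0x20000000f0000001f0000003e00000007 5 6) 0 0 (step_sound _ 36 [rh93c0feb6cf144553, rhaf9f2efc81a8312b, rhfcbe31f2f547bfce] (by decide +kernel))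
noncomputable def rhcb5a3ed276e314a0 : CRef := CRef.mk (Pat.mk 0x400000004000000040000000800000000 0x400000004000000040000003c0000000f0000000a 5 6) 0 0 (step_sound _ 34 [(rh55afc6a59410cf00.shift 2 0), rh74cc25b0d7bfca46] (by decide +kernel))
noncomputable def rhc707078c7abd5102 : CRef := CRef.mk (Pat.mk 0x90000000f00000009000000000000000000000000 0x10000000d0000000f0000000f0000001e0000001e00000014 5 5) 0 0 (step_sound _ 67 [(rh03d31f6d89a46618.shift 0 1), (rh24b4f41f846cb1d8.shift 2 0), (rh8cdd36b03d57a2f6.shift 2 0)] (by decide +kernel))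
noncomputable def rh3b74daaa9abe3933 : CRef := CRef.mk (Pat.mk 0x18000000040000000c0000000c00000000 0x10000000180000000f0000000f0000003c00000010 5 6) 0 0 (step_sound _ 99 [(rh2f68792b6b779e96.shift 3 1), rh8ee75dffd7c2f33f] (by decide +kernel))
noncomputable def rh8fe834413396f13d : CRef := CRef.mk (Pat.mk 0x8000000040000000e00000000 0x8000000080000003f0000003f00000070 5 7) 0 0 (step_sound _ 36 [rh011dae6dc44609f4, (rh695f888db18ad7c7.shift 1 0), (rhe3060b190bc0bc78.shift 0 1)] (by decide +kernel))
noncomputable def rhf92c71e6aca110e8 : CRef := CRef.mk (Pat.mk 0x80000003800000008000000000000000000000000 0x4000000040000000c0000001f0000003800000008000000180000001800000010 5 6) 0 0 (step_sound _ 162 [(rh2c9cf7e9328cac9c.shift 1 1), (rh39b036797fb07457.shift 2 0), (rhb1a251d9bff81766.shift 2 2), (rhc02b3aee7ab87ee1.shift 0 4)] (by decide +kernel))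
noncomputable def rh8ef2df872268fcd8 : CRef := CRef.mk (Pat.mk 0x600000006000000020000000000000000 0x2000000020000000600000006000000070000000700000003 5 3) 0 0 (step_sound _ 33 [(rh71222050f2c63a3a.shift 1 0), rhad2e5f3a7ec95118] (by decide +kernel))
noncomputable def rh1aa865ed692d276c : CRef := CRef.mk (Pat.mk 0xc0000000c000000080000001c00000000 0x100000007c0000000c0000003c0000001f00000003 5 7) 0 0 (step_sound _ 132 [(rh2f68792b6b779e96.shift 3 1), rhcb8d90c18428e06b] (by decide +kernel))
noncomputable def rh153c0aacef63f650 : CRef := CRef.mk (Pat.mk 0xb0000000f000000000000000000000000 0x100000001c0000000f0000000f0000001c0000000c0000000c 5 5) 0 0 (step_sound _ 67 [(rhe25b0a99195a5d59.shift 0 2), rhe611dff30c2316f7] (by decide +kernel))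
noncomputable def rheae1307b596ca461 : CRef := CRef.mk (Pat.mk 0x7000000060000000000000000 0x8000000380000003f0000003e0000000400000004 5 6) 0 0 (step_sound _ 99 [(rh06e62c5072b6268e.shift 0 2), (rh226655e3fe6b4a8a.shift 0 2), rh2ae694e25f74369c] (by decide +kernel))
noncomputable def rh30ab3c061ec51ccb : CRef := CRef.mk (Pat.mk 0x40000000c0000000c000000000000000000000000 0x40000000c0000003c0000000f0000000e0000000e 5 6) 0 0 (step_sound _ 66 [(rh46530d756bdf8511.shift 1 0), (rh7f2a49c2502589b3.shift 0 1), (rhf57bd6481b8b2ca7.shift 2 0)] (by decide +kernel))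
noncomputable def rha83cd31d87cb1f6f : CRef := CRef.mk (Pat.mk 0xc000000070000000200000000 0x60000000e0000000e000000070000001e0000000c 5 5) 0 0 (step_sound _ 130 [(rh5c5e593799055d58.shift 1 1), rhafb5dea55a8f8b53] (by decide +kernel))
noncomputable def rh0422353a5b2e567f : CRef := CRef.mk (Pat.mk 0x4000000040000001e0000000200000000 0x80000000c0000003c0000003f0000000600000004 5 6) 0 0 (step_sound _ 34 [(rh18965a982d73c794.shift 1 1), rh7ef96393e2144d84] (by decide +kernel))
noncomputable def rh0bf660ac3c3ef6b3 : CRef := CRef.mk (Pat.mk 0x1000000018000000080000001c00000000 0x100000007c0000006f0000007c00000020 5 7) 0 0 (step_sound _ 66 [(rh78b2a6c61aa99395.shift 2 0), (rhd69c262cd33b94b3.shift 0 2), (rhfdd338b587cdea0b.shift 0 1)] (by decide +kernel))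
noncomputable def rh751dab4454b0bc28 : CRef := CRef.mk (Pat.mk 0x40000000f00000000 0x760000003f00000038 5 7) 0 0 (step_sound _ 4 [rh96851dee118c1ba3, (rhd26e640af6b2d89a.shift 1 0)] (by decide +kernel))
noncomputable def rhb35240c28645ef62 : CRef := CRef.mk (Pat.mk 0x2000000020000000b00000001000000000000000000000000 0x400000006000000070000001b0000001f000000060000000200000002 5 5) 0 0 (step_sound _ 97 [rh3502d92c6cce609b, (rh509847d0837ffcc5.shift 0 2)] (by decide +kernel))
noncomputable def rh6c68c55921d3e4f3 : CRef := CRef.mk (Pat.mk 0x1000000010000000180000000e00000000 0x30000000300000001f0000003e00000030 5 6) 0 0 (step_sound _ 36 [(rh2aa7c1d375387a4e.shift 1 0), (rh870359598daa9f92.shift 0 1), rhbd70501440a02fa8] (by decide +kernel))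
noncomputable def rhcbb59bc309171cfe : CRef := CRef.mk (Pat.mk 0x80000001c00000000 0x3f0000003f00000070 5 7) 0 0 (step_sound _ 33 [rhe401600d466b97cd, (rhec46bd5500c722c9.shift 0 1)] (by decide +kernel))
noncomputable def rh80c09f69edf603c5 : CRef := CRef.mk (Pat.mk 0x3c00000008 0x70000003e0000007e 5 7) 0 0 (step_sound _ 2 [rh2456963ff1f7bf23, (rheb0810cc63b001d8.shift 1 0)] (by decide +kernel))
noncomputable def rh2b2e38de92f27449 : CRef := CRef.mk (Pat.mk 0x8000000080000001c0000000c000000000000000000000000 0x10000000180000001c0000001c0000000f000000080000000800000008 5 5) 0 0 (step_sound _ 97 [(rh3502d92c6cce609b.shift 2 0), (rh53b3c253cb0c65f4.shift 0 3)] (by decide +kernel))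
noncomputable def rh586561cf30402569 : CRef := CRef.mk (Pat.mk 0x40000000200000002000000020000000000000000 0x4000000060000000200000002000000070000000700000005 5 3) 0 0 (step_sound _ 161 [(rh2f68792b6b779e96.shift 1 2), rh6eff4158bb400f47] (by decide +kernel))
noncomputable def rh717ac2d9e652bef7 : CRef := CRef.mk (Pat.mk 0x40000000200000002000000020000000000000000 0x5000000070000000300000002000000060000000600000004 5 3) 0 0 (step_sound _ 161 [(rh2f68792b6b779e96.shift 1 2), rh8ff3dde5b1c639e0] (by decide +kernel))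
noncomputable def rh34c9ded342efa7c3 : CRef := CRef.mk (Pat.mk 0x120000001e0000000000000000 0x2000000030000001e0000003f0000000400000004 5 6) 0 0 (step_sound _ 98 [rh2a6d13f47ca0e172, (rhf48373e13d2bc128.shift 1 2)] (by decide +kernel))
noncomputable def rh23be4a946fe7a9a7 : CRef := CRef.mk (Pat.mk 0x80000000e000000040000000000000000 0x2000000020000000f0000003e000000060000000400000004 5 6) 0 0 (step_sound _ 34 [(rh1778294ed519f05a.shift 0 1), (rh71222050f2c63a3a.shift 2 0)] (by decide +kernel))
noncomputable def rh72affcb440dc9fc0 : CRef := CRef.mk (Pat.mk 0xc0000000c0000000800000000 0x1c0000003c0000000f0000000c0000000c00000004 5 6) 0 0 (step_sound _ 130 [(rh2145e1d24b96a57e.shift 2 1), rh59fa0dd343a43444] (by decide +kernel))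
noncomputable def rh146c5c5cb7631482 : CRef := CRef.mk (Pat.mk 0x380000001800000010 0x2000000020000000770000003f0000001800000010 5 7) 0 0 (step_sound _ 66 [(rh15c6bd118a09e701.shift 0 1), (rh1830a026b526961e.shift 1 0), (rhba89ab7cb81bcc90.shift 0 1)] (by decide +kernel))
noncomputable def rhb14ca7081cb9104d : CRef := CRef.mk (Pat.mk 0x8000000180000000c00000018 0x140000001f000000380000000c00000078 5 7) 0 0 (step_sound _ 5 [rh5aa5e9dc84124dd6, (rhf48373e13d2bc128.shift 2 0)] (by decide +kernel))
noncomputable def rh53ea059c32e64118 : CRef := CRef.mk (Pat.mk 0x80000001800000008000000000000000000000000 0x10000000340000001f0000003c00000008000000180000001800000010 5 6) 0 0 (step_sound _ 162 [(rh6d7e9fbf5dfafd17.shift 2 0), (rhcf8e04ac2e2850fe.shift 0 3)] (by decide +kernel))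
noncomputable def rh04d5e742bcc1b46d : CRef := CRef.mk (Pat.mk 0x300000001c0000000000000000 0x4000000760000007f0000001c0000000800000008 5 7) 0 0 (step_sound _ 99 [(rh18965a982d73c794.shift 2 2), rhb42b4aad6355cf35] (by decide +kernel))
noncomputable def rh7b7667181d5c7dbe : CRef := CRef.mk (Pat.mk 0x100000001c000000080000000000000000 0x4000000040000001e0000007c0000000f0000000800000008 5 7) 0 0 (step_sound _ 35 [(rh4440dd2ef2108b0c.shift 0 1), (rh71222050f2c63a3a.shift 3 0)] (by decide +kernel))
noncomputable def rh0016b6b1baf8d810 : CRef := CRef.mk (Pat.mk 0xe0000000400000004 0x200000002000000070000003e0000007600000004 5 7) 0 0 (step_sound _ 97 [rh44858d7cb17813b7, (rha086f24fc46b4198.shift 0 1), (rhe072fffdd2fccf38.shift 1 0)] (by decide +kernel))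
noncomputable def rh0dbbd572901b56fd : CRef := CRef.mk (Pat.mk 0x80000000e000000040000000000000000 0x20000000f0000003e000000070000000400000004 5 6) 0 0 (step_sound _ 34 [(rh71222050f2c63a3a.shift 2 0), (rhc11b5e428305a85f.shift 0 1)] (by decide +kernel))
noncomputable def rh9e0505190579641f : CRef := CRef.mk (Pat.mk 0xc000000080000000c0000001c 0x130000001f0000003c0000000f0000001c 5 6) 0 0 (step_sound _ 33 [rh3d9fc58b50ff3185, rhb739f4f82bb681b4] (by decide +kernel))
noncomputable def rhab30a5c44bc7a5b9 : CRef := CRef.mk (Pat.mk 0x40000000c0000000a0000000200000000 0x40000000c0000000c0000000b0000001e0000001c 5 5) 0 0 (step_sound _ 35 [(rh7b1f1fb55310c477.shift 2 0), rh843696907668fbcf] (by decide +kernel))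
noncomputable def rh8ef2a0a653a2af3e : CRef := CRef.mk (Pat.mk 0x8000000080000001c0000000c00000000 0x40000000c0000000c0000001c0000001f00000013 5 5) 0 0 (step_sound _ 130 [(rh50fbb5868c909700.shift 2 1), rhf4da931168e34a69] (by decide +kernel))
noncomputable def rh44628f5a9eecbcc4 : CRef := CRef.mk (Pat.mk 0x40000000c00000006000000020000000000000000 0x20000000f0000003e000000060000000e0000000c00000008 5 6) 0 0 (step_sound _ 132 [(rh18965a982d73c794.shift 1 3), rhd27761211e267870] (by decide +kernel))
noncomputable def rh9f5ab7570034ea0b : CRef := CRef.mk (Pat.mk 0x8000000180000000c0000000400000000 0x40000001c0000001c0000000f0000003c00000018 5 6) 0 0 (step_sound _ 65 [(rh3c8e6b3b0adfdc96.shift 1 0), (rh53b3c253cb0c65f4.shift 0 2)] (by decide +kernel))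
noncomputable def rh35e47d5f944b4abb : CRef := CRef.mk (Pat.mk 0x40000001c000000060000000200000000 0x40000001c0000007f0000000f00000008 5 7) 0 0 (step_sound _ 67 [(rh53b3c253cb0c65f4.shift 0 2), rhd13061f77f941c21] (by decide +kernel))
noncomputable def rh2d8f527606017d8a : CRef := CRef.mk (Pat.mk 0x80000001e000000040000000400000000 0x80000001e0000003f0000003c00000010 5 6) 0 0 (step_sound _ 68 [(rhe25b0a99195a5d59.shift 1 2), rhf15d0e2f50bef65a] (by decide +kernel))
noncomputable def rh418410019543c870 : CRef := CRef.mk (Pat.mk 0x400000004000000060000000200000000 0x20000000600000004000000070000003e0000000a 5 6) 0 0 (step_sound _ 34 [(rh932754581e0f4330.shift 1 0), rh9688f1ad5c9f5013] (by decide +kernel))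
noncomputable def rhb6ae154c262e3c9b : CRef := CRef.mk (Pat.mk 0x80000003800000008000000000000000000000000 0x40000000f0000003c000000080000001c0000001c00000014 5 6) 0 0 (step_sound _ 67 [(rh53509d91ff78ed56.shift 0 2), (rh5ad9898cc32ef511.shift 2 0), (rh6eff4158bb400f47.shift 2 0)] (by decide +kernel))
noncomputable def rhbaa339b91915b911 : CRef := CRef.mk (Pat.mk 0x40000001e0000000400000000 0x8000000080000003f0000001f0000000400000004 5 6) 0 0 (step_sound _ 97 [rh245cfab0de74c583, (rh3244c3cc8379b070.shift 0 2)] (by decide +kernel))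
noncomputable def rhc2c993d792b339fc : CRef := CRef.mk (Pat.mk 0x400000004000000060000000380000000000000000 0x80000000c8000000cc0000007f00000078000000d000000010 5 8) 0 0 (step_sound _ 99 [(rh9458e878ee940312.shift 2 0), (rhaa73d67be2de7cd7.shift 2 1), (rhf60aa8aede119d3b.shift 0 2)] (by decide +kernel))
noncomputable def rha87de843d45cdf12 : CRef := CRef.mk (Pat.mk 0x10000000180000000c00000008 0x4000000770000007e0000000c00000008 5 7) 0 0 (step_sound _ 69 [(rh18965a982d73c794.shift 2 1), rhaf73b8e8519192b4] (by decide +kernel))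
noncomputable def rh319ab92dc6f1177b : CRef := CRef.mk (Pat.mk 0x10000000180000000c0000000800000000 0x800000018000000180000001f0000003c00000010 5 6) 0 0 (step_sound _ 65 [(rh53b3c253cb0c65f4.shift 0 2), (rhea32677a8c68bf5a.shift 1 0)] (by decide +kernel))
noncomputable def rhcd26e4b6f232bfc1 : CRef := CRef.mk (Pat.mk 0x8000000180000000c0000000400000000 0x4000000040000001f0000007c0000000c0000000c00000008 5 7) 0 0 (step_sound _ 101 [(rh18965a982d73c794.shift 2 2), rhda5c4c46a29f8285] (by decide +kernel))
noncomputable def rha087fc7ad945a77f : CRef := CRef.mk (Pat.mk 0x3800000010000000180000001800000000 0x40000003f0000001f000000780000001f00000004 5 7) 0 0 (step_sound _ 99 [rh6fae963f33cfdfd7, (rh74e1986433cb0511.shift 1 0), (rhc75a54885a6c376b.shift 0 1)] (by decide +kernel))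
noncomputable def rh767ce3ebb7f93a9b : CRef := CRef.mk (Pat.mk 0x10000000300000001c00000008 0x40000003e0000003f0000003c00000008 5 6) 0 0 (step_sound _ 66 [(rh2f32edc41b016dfb.shift 1 0), (rh441f3098d3a9709b.shift 1 0), (rhaa94dcb375d6f8a1.shift 0 1)] (by decide +kernel))
noncomputable def rhae07c45ecc7aba92 : CRef := CRef.mk (Pat.mk 0x4000000030000000200000002 0x30000000700000007000000030000000300000003 5 3) 0 0 (step_sound _ 97 [(rh2f68792b6b779e96.shift 1 0), rh79bf920132cab629] (by decide +kernel))
noncomputable def rh5ca26ca11585cddf : CRef := CRef.mk (Pat.mk 0x40000000400000006000000020000000000000000 0x40000007c0000003f0000007f0000000800000008 5 7) 0 0 (step_sound _ 99 [rh360de2d52098df7a, rhc32688944b7f7dbb, (rhdc1641106d7e5aa2.shift 0 2)] (by decide +kernel))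
noncomputable def rh5ad4bb574e084c28 : CRef := CRef.mk (Pat.mk 0x8000000080000000e0000000400000000 0x80000007b0000003e0000007600000010 5 7) 0 0 (step_sound _ 68 [(rh62a51e5e348b9e49.shift 1 1), (rh9ab60d74117ac343.shift 1 1), rhd314f27c5797cb0f] (by decide +kernel))
noncomputable def rha60544b5be4ccfb6 : CRef := CRef.mk (Pat.mk 0x100000007000000058 0x3e0000007f000000d8 5 8) 0 0 (step_sound _ 35 [rh719a4defb16e1b89, (rhe25b0a99195a5d59.shift 3 0)] (by decide +kernel))
noncomputable def rha88d12cce40942f8 : CRef := CRef.mk (Pat.mk 0x80000001c000000040000000000000000 0x800000008000000180000003f000000f40000001000000010 5 8) 0 0 (step_sound _ 163 [(rh5c5e593799055d58.shift 2 2), rhca63126ab802e5da] (by decide +kernel))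
noncomputable def rh71ca52c3fdaf5e64 : CRef := CRef.mk (Pat.mk 0x200000007000000080 0x700000007e000000c7 5 8) 0 0 (step_sound _ 35 [(rh96851dee118c1ba3.shift 3 0), rhb103f40a53fe1424] (by decide +kernel))
noncomputable def rhbf6e0c6b450c9abe : CRef := CRef.mk (Pat.mk 0x10000000700000001800000000 0x8000000080000003e0000007f000000f800000010 5 8) 0 0 (step_sound _ 67 [(rha3e1d11cef3fbde8.shift 2 0), (rhb91bd40a584180c1.shift 1 1), (rhf63fad18013868a1.shift 0 1)] (by decide +kernel))
noncomputable def rhe735b39eebc4ab20 : CRef := CRef.mk (Pat.mk 0x8000000080000000c0000003c00000000 0x40000000c0000000c0000007c0000003e00000003 5 7) 0 0 (step_sound _ 69 [(rh33e738c4ed385b9f.shift 2 1), rha01abb66db16eada] (by decide +kernel))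
noncomputable def rh9ee2ed0c1de5bc6b : CRef := CRef.mk (Pat.mk 0x38000000100000001800000008 0x70000003e000000770000001e00000008 5 7) 0 0 (step_sound _ 98 [(rh775ca1963e850b80.shift 0 2), (rha03f6e28ea70fc7d.shift 1 2), (rhcda1dbe8b9c3c0ef.shift 1 0)] (by decide +kernel))
noncomputable def rhc4c5634cd01c372c : CRef := CRef.mk (Pat.mk 0x600000007000000020000000200000000 0x200000002000000020000001e00000007000000070000000300000001 5 5) 0 0 (step_sound _ 32 [rh932754581e0f4330, (rhfc41b510c72a7f33.shift 0 1)] (by decide +kernel))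
noncomputable def rh0c71ff48c31a0108 : CRef := CRef.mk (Pat.mk 0x400000008000000180000000e00000000 0x40000001f0000001b0000001e0000000a 5 5) 0 0 (step_sound _ 98 [rh5d412a2971011347, (rh7b1f1fb55310c477.shift 2 0)] (by decide +kernel))
noncomputable def rh8dfaabd96171a6f4 : CRef := CRef.mk (Pat.mk 0x40000000c000000060000000000000000 0x20000000f0000003e000000060000000400000004 5 6) 0 0 (step_sound _ 100 [(rh18965a982d73c794.shift 1 2), rhfc1353632aed9ea3] (by decide +kernel))
noncomputable def rh14a45c2a68070e75 : CRef := CRef.mk (Pat.mk 0x8000000080000000c0000000400000000 0x4000000060000000f0000003c0000000e0000000600000006 5 6) 0 0 (step_sound _ 98 [rh38f4965f18f9b03d, (rh71222050f2c63a3a.shift 2 0)] (by decide +kernel))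
noncomputable def rh184c42aa2f8eb37b : CRef := CRef.mk (Pat.mk 0x80000000c0000000600000000 0x2000000020000003b0000003f0000000600000004 5 6) 0 0 (step_sound _ 68 [(rh18965a982d73c794.shift 1 1), rh43b509fe3bff0fb1] (by decide +kernel))
noncomputable def rh20dd76e97b439bad : CRef := CRef.mk (Pat.mk 0x800000008000000080000000400000000 0x800000008000000080000000f0000003c00000014 5 6) 0 0 (step_sound _ 35 [rh0fc46964bf36b470, (rh932754581e0f4330.shift 2 0)] (by decide +kernel))
noncomputable def rh7ce20fb4f79b94b5 : CRef := CRef.mk (Pat.mk 0x8000000180000000c000000000000000000000000 0x1000000018000000180000000f0000007c0000001800000010 5 7) 0 0 (step_sound _ 97 [(rh53b3c253cb0c65f4.shift 0 3), (rhbbb44bdd937835e8.shift 1 0)] (by decide +kernel))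
noncomputable def rh24084ff40d1da7a8 : CRef := CRef.mk (Pat.mk 0x8000000180000000c0000000000000000 0x140000001f0000007c0000000c0000000800000008 5 7) 0 0 (step_sound _ 101 [(rh18965a982d73c794.shift 2 2), rh7dd968b1f7333103] (by decide +kernel))
noncomputable def rh05f89ab9356854f0 : CRef := CRef.mk (Pat.mk 0xc0000001c0000000000000000 0x4000000040000003f0000001f0000000300000002 5 6) 0 0 (step_sound _ 97 [rh3d14136b9174be6b, (rhb739f4f82bb681b4.shift 0 2)] (by decide +kernel))
noncomputable def rh72c402b810747421 : CRef := CRef.mk (Pat.mk 0x18000000380000000800000000 0xc0000000c0000000c000000180000003c0000000f00000004 5 6) 0 0 (step_sound _ 131 [rh3291de2d96fb8d58, (rh349ec9f7ee54d10d.shift 1 0), (rh7b9fbdf6d2d059e4.shift 2 1)] (by decide +kernel))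
noncomputable def rh86fc4b0766d29250 : CRef := CRef.mk (Pat.mk 0x380000001000000000 0x8000000080000000f0000007c0000001e00000014 5 7) 0 0 (step_sound _ 99 [(rh2420ce23e32af1a0.shift 1 0), (rha9fbfd4bb8cf890b.shift 0 2)] (by decide +kernel))
noncomputable def rh7308c2ed1eec0daa : CRef := CRef.mk (Pat.mk 0x180000000e0000000400000000 0x2000000030000001f0000003e0000000700000004 5 6) 0 0 (step_sound _ 68 [rha20eb734ea932873, (rhaf9f2efc81a8312b.shift 0 1), (rhcea95bd1ecd58bb2.shift 0 1)] (by decide +kernel))
noncomputable def rh480c1fbb48b7a161 : CRef := CRef.mk (Pat.mk 0x380000000c0000000400000000 0x70000003e0000007c0000000600000006 5 7) 0 0 (step_sound _ 98 [rh3998ad7415607566, (rhdfb45a0764e33452.shift 1 0), (rhf6d72ac90bd26cb0.shift 1 1)] (by decide +kernel))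
noncomputable def rh7eb5361c36ecb0c1 : CRef := CRef.mk (Pat.mk 0x1e00000000 0x730000003e00000070 5 7) 0 0 (step_sound _ 64 [(rh3f8766e6ecb455ce.shift 0 1), (rha93a5dd541ab8209.shift 1 0)] (by decide +kernel))
noncomputable def rh0b056ffd0003fa89 : CRef := CRef.mk (Pat.mk 0xf000000020 0x7000000fe0000007e 5 8) 0 0 (step_sound _ 35 [rhb2afcb5db661472f, (rheae1728ff4a56756.shift 2 0), (rhfcb55d5dc3b78d1f.shift 1 0)] (by decide +kernel))
noncomputable def rh8fc978b213ac5273 : CRef := CRef.mk (Pat.mk 0xc00000018000000080000000800000000 0x80000000c000000780000001f0000000c00000004 5 7) 0 0 (step_sound _ 101 [rhde807367643436d4, (rhf48373e13d2bc128.shift 2 3)] (by decide +kernel))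
noncomputable def rhce35044a2e36176d : CRef := CRef.mk (Pat.mk 0xc0000000700000004000000000000000000000000 0x4000000040000003c000000070000003e0000000e0000000800000008 5 6) 0 0 (step_sound _ 164 [(rh18965a982d73c794.shift 1 4), rhb6e5fd90818b20b8] (by decide +kernel))
noncomputable def rhecaaf0825d5d5513 : CRef := CRef.mk (Pat.mk 0x80000000c0000000c0000000800000000 0x80000000f0000003f0000003800000010 5 6) 0 0 (step_sound _ 36 [(rh09fddc8e1606f2d8.shift 0 1), (rh55afc6a59410cf00.shift 3 0)] (by decide +kernel))
noncomputable def rhecfb7cb8b09e5801 : CRef := CRef.mk (Pat.mk 0x800000008000000180000000800000000 0x100000001800000018000000080000001c0000000f00000004 5 5) 0 0 (step_sound _ 34 [(rh3cc3c65d3df82dc1.shift 0 1), (rh932754581e0f4330.shift 2 0)] (by decide +kernel))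
noncomputable def rh41cf98abf6c3c536 : CRef := CRef.mk (Pat.mk 0x600000002000000060000000000000000 0x2000000020000000600000006000000070000000700000003 5 3) 0 0 (step_sound _ 161 [(rh55afc6a59410cf00.shift 1 1), rheb6185a3cf95fec2] (by decide +kernel))
noncomputable def rh4de9dd90dbde9ba9 : CRef := CRef.mk (Pat.mk 0x1800000008000000180000000800000000 0x18000000180000007c0000000f0000000c 5 7) 0 0 (step_sound _ 100 [(rh71222050f2c63a3a.shift 3 0), rh80650b8e93363f1e] (by decide +kernel))
noncomputable def rh66b4d12b93241fb4 : CRef := CRef.mk (Pat.mk 0xc000000040000000c0000000400000000 0x4000000040000000c0000003c0000000f0000000600000004 5 6) 0 0 (step_sound _ 99 [(rh045eb03ae04c46fa.shift 0 1), (rh71222050f2c63a3a.shift 2 0)] (by decide +kernel))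
noncomputable def rhe0918f8a4faf36ed : CRef := CRef.mk (Pat.mk 0x2000000020000000200000002000000000000000000000000 0x3000000030000000300000003000000070000000700000004 5 3) 0 0 (step_sound _ 65 [(rh7928877f9bf74a91.shift 0 1), rh8ff3dde5b1c639e0] (by decide +kernel))
noncomputable def rhf063b78f3267ae57 : CRef := CRef.mk (Pat.mk 0x2000000070000000180000001000000000 0x80000002e0000007f000000f8000000f000000040 5 8) 0 0 (step_sound _ 99 [(rh15a2b73944acc7e4.shift 0 2), (rh309fd0c3d364cd61.shift 2 1), (rh874593e3f05c8191.shift 3 0)] (by decide +kernel))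
noncomputable def rh2b0504560f4c0dac : CRef := CRef.mk (Pat.mk 0x80000001e000000080000000000000000 0x80000000b0000003e0000000f0000000400000004 5 6) 0 0 (step_sound _ 129 [(rh3244c3cc8379b070.shift 0 3), rh93e8fe2ae070d0cb] (by decide +kernel))
noncomputable def rh7cb52dfd9e5e5e10 : CRef := CRef.mk (Pat.mk 0x18000000180000001800000018 0x240000003f0000001f0000001800000018 5 6) 0 0 (step_sound _ 98 [(rh50fbb5868c909700.shift 2 0), rh590a337e38bbccc4] (by decide +kernel))
noncomputable def rh779eb9b4539c8099 : CRef := CRef.mk (Pat.mk 0x800000018000000180000001800000000 0x8000000380000001f0000003f00000004 5 6) 0 0 (step_sound _ 34 [(rh584fe6ab0ae51ce0.shift 0 1), (rh932754581e0f4330.shift 2 0)] (by decide +kernel))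
noncomputable def rh7dbe310cc4557d9a : CRef := CRef.mk (Pat.mk 0x100000001e000000020000000000000000 0x800000008000000180000003f0000000e0000000400000004 5 6) 0 0 (step_sound _ 66 [(rh18965a982d73c794.shift 1 2), rh325e64ab5f1edf02] (by decide +kernel))
noncomputable def rh7d7468ac364f2a3c : CRef := CRef.mk (Pat.mk 0x40000000e000000080000000000000000 0x10000000770000003e000000380000000800000008 5 7) 0 0 (step_sound _ 35 [(rh7b1f1fb55310c477.shift 2 0), (rhe8eac7de61269b8d.shift 0 1)] (by decide +kernel))
noncomputable def rh7fa23aa6d6cb24f1 : CRef := CRef.mk (Pat.mk 0x10000000e00000008 0x730000007e0000000e 5 7) 0 0 (step_sound _ 36 [(rh3f8766e6ecb455ce.shift 0 1), (rhed57d1a6d4db2db6.shift 1 0)] (by decide +kernel))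
noncomputable def rh5f6e56dc9ac81cf8 : CRef := CRef.mk (Pat.mk 0x20000001e00000010 0xe6000000ff00000018 5 8) 0 0 (step_sound _ 37 [(rh3f8766e6ecb455ce.shift 1 1), rh5002edf35d7f2ef3] (by decide +kernel))
noncomputable def rh3dc85d4e0f820638 : CRef := CRef.mk (Pat.mk 0x40000000e000000080000000000000000 0x10000000340000001f000000380000000800000008 5 6) 0 0 (step_sound _ 68 [(rh882345cbc6e068b1.shift 1 0), (rhb739f4f82bb681b4.shift 0 2)] (by decide +kernel))
noncomputable def rh122aad65a16885af : CRef := CRef.mk (Pat.mk 0x60000001e000000020000000200000000 0x60000001f0000003a0000000f0000000c 5 6) 0 0 (step_sound _ 68 [rh54d3395065f30d2d, (rhe25b0a99195a5d59.shift 1 2)] (by decide +kernel))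
noncomputable def rh83b55585f378f0a5 : CRef := CRef.mk (Pat.mk 0x100000001c000000040000000000000000 0x12000000130000001f0000003f0000000c0000000c 5 6) 0 0 (step_sound _ 97 [rh9483656c38360087, rhb9dd680bb9375a9f] (by decide +kernel))
noncomputable def rheba0f9876a24a3b7 : CRef := CRef.mk (Pat.mk 0x80000000e000000020000000000000000 0x800000008000000080000003f0000007e0000001400000014 5 7) 0 0 (step_sound _ 100 [(rh4636d8947554fe71.shift 1 0), rh8862001fbd813c47, (rhf3baec4a0a3dd35e.shift 1 2)] (by decide +kernel))
noncomputable def rh4ef1bb7b40c5405e : CRef := CRef.mk (Pat.mk 0x100000001c000000000000000000000000 0x1000000010000000170000003e000000770000002000000020 5 7) 0 0 (step_sound _ 101 [(rh592c7139d2c44767.shift 0 2), (rh65dcfd18fd55cba0.shift 2 0), (rh9c548838e8725ba1.shift 0 2)] (by decide +kernel))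
noncomputable def rh5616e9dc2e154ca9 : CRef := CRef.mk (Pat.mk 0x1800000008000000080000000000000000 0x40000000f0000007c000000080000001c0000001c00000014 5 7) 0 0 (step_sound _ 163 [(rh5ad9898cc32ef511.shift 2 0), (rh6eff4158bb400f47.shift 2 0), (rhca405e350c462817.shift 0 2)] (by decide +kernel))
noncomputable def rh6dfda82b760c256f : CRef := CRef.mk (Pat.mk 0x8000000080000001e00000004 0x20000000f0000003f0000001e00000004 5 6) 0 0 (step_sound _ 65 [(rh3244c3cc8379b070.shift 0 1), rhed28f44ebe588c02] (by decide +kernel))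
noncomputable def rh41abb4a080fb0537 : CRef := CRef.mk (Pat.mk 0x1e000000180000000800000000 0x4000000070000001e0000001b0000000f00000006 5 5) 0 0 (step_sound _ 65 [rh9b923fc8ae04309b, (rheb0810cc63b001d8.shift 0 2)] (by decide +kernel))
noncomputable def rh9b48793af4ccea18 : CRef := CRef.mk (Pat.mk 0x40000000c0000001a0000000200000000 0x80000000c0000000c0000001e0000003b00000018 5 6) 0 0 (step_sound _ 66 [(rhcca870acd6232b3c.shift 1 0), (rheb0810cc63b001d8.shift 0 1)] (by decide +kernel))
noncomputable def rha8f0c706540dbddb : CRef := CRef.mk (Pat.mk 0x800000008000000090000000800000000 0x40000000c000000080000000f0000001e00000014 5 5) 0 0 (step_sound _ 130 [(rh50fbb5868c909700.shift 2 1), rhfcde4125e83054cb] (by decide +kernel))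
noncomputable def rh93b8fd814817752e : CRef := CRef.mk (Pat.mk 0x200000002000000070000000200000000 0x40000000600000006000000070000001e0000000e 5 5) 0 0 (step_sound _ 34 [(rh55afc6a59410cf00.shift 1 0), rh7176a54275fd3e59] (by decide +kernel))
noncomputable def rhaec5f5fa5619f593 : CRef := CRef.mk (Pat.mk 0x8000000080000001c000000040000000000000000 0x8000000380000003f000000f40000001400000014 5 8) 0 0 (step_sound _ 34 [rh2ead9b9cc22afc12, (rh71222050f2c63a3a.shift 2 0)] (by decide +kernel))
noncomputable def rh31bde021a3df9e03 : CRef := CRef.mk (Pat.mk 0xe0000000c0000000000000000 0x10000000370000007e0000003c0000000800000008 5 7) 0 0 (step_sound _ 68 [rhbab53e8167d67671, (rhf48373e13d2bc128.shift 1 2)] (by decide +kernel))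
noncomputable def rh5c357cd273638c5d : CRef := CRef.mk (Pat.mk 0x1c00000018 0x770000003f00000018 5 7) 0 0 (step_sound _ 33 [(rh22b38309c56a80eb.shift 0 1), rhb739f4f82bb681b4] (by decide +kernel))
noncomputable def rhfb56f51c8f859b25 : CRef := CRef.mk (Pat.mk 0x1c000000040000000000000000 0x200000002000000770000003e000000740000000400000004 5 7) 0 0 (step_sound _ 97 [(rh3fc3a7fb6866dcd4.shift 1 2), rhe1ef59f9ff87186c, (rhe401600d466b97cd.shift 0 2)] (by decide +kernel))
noncomputable def rhfca50a465a3469f7 : CRef := CRef.mk (Pat.mk 0x8000000000000000c0000000400000000 0x800000008000000080000000f0000003c00000014 5 6) 0 0 (step_sound _ 99 [(rh5c5e593799055d58.shift 2 1), rhc6c8721b98efe6cc] (by decide +kernel))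
noncomputable def rh630a93a3f95eb5d4 : CRef := CRef.mk (Pat.mk 0x140000001e0000000000000000 0x2000000030000001f0000001f0000000400000004 5 5) 0 0 (step_sound _ 99 [rh12b3e7d1014f8218, (rh53b3c253cb0c65f4.shift 0 2)] (by decide +kernel))
noncomputable def rhed9b4e74edbbfd52 : CRef := CRef.mk (Pat.mk 0xe0000000b0000000800000000 0x140000003c0000000e0000000f0000001800000010 5 6) 0 0 (step_sound _ 36 [(rhc10214bf3fe8094a.shift 0 1), (rhececa53a40e65492.shift 1 0)] (by decide +kernel))
noncomputable def rh2f3125684856df45 : CRef := CRef.mk (Pat.mk 0x4000000060000000600000004 0x40000000600000006000000070000003e0000000c 5 6) 0 0 (step_sound _ 97 [(rh50fbb5868c909700.shift 1 0), rh70cfad7a15d735cc] (by decide +kernel))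
noncomputable def rh6f728df43593bc4b : CRef := CRef.mk (Pat.mk 0x180000000b0000000800000000 0x140000001f000000380000000b0000001e00000014 5 6) 0 0 (step_sound _ 131 [rh5045a7dd3c2710bf, (rh5aa5e9dc84124dd6.shift 0 1)] (by decide +kernel))
noncomputable def rh6036771f72f66ddf : CRef := CRef.mk (Pat.mk 0x80000001e000000100000000000000000 0x8000000080000000b0000001e0000001b0000001000000010 5 5) 0 0 (step_sound _ 129 [(rh3244c3cc8379b070.shift 0 3), rh5b00c754ee0da874] (by decide +kernel))
noncomputable def rh2e87c015ec8670f0 : CRef := CRef.mk (Pat.mk 0x100000003c000000200000000000000000 0x170000003e000000270000002000000020 5 6) 0 0 (step_sound _ 37 [(rh592c7139d2c44767.shift 0 2), (rh7b1f1fb55310c477.shift 4 0)] (by decide +kernel))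
noncomputable def rhae51237c22c10c94 : CRef := CRef.mk (Pat.mk 0x140000000e000000000000000000000000 0x4000000340000003e000000070000000200000002 5 6) 0 0 (step_sound _ 100 [(rh33e738c4ed385b9f.shift 1 3), rh35597c491b77cb29] (by decide +kernel))
noncomputable def rh2f1921455488e2a6 : CRef := CRef.mk (Pat.mk 0xe0000000400000004 0x2000000730000003e0000007700000004 5 7) 0 0 (step_sound _ 68 [(rha93a5dd541ab8209.shift 1 1), rhe4f9133a81c1dbc5] (by decide +kernel))
noncomputable def rh6f0e0ef2f1f57e1c : CRef := CRef.mk (Pat.mk 0x800000008000000000000001c0000000400000000 0xa0000001a000000330000001e0000003700000004 5 6) 0 0 (step_sound _ 65 [(rh6797c410c820e91e.shift 1 1), rhdd3ef923ff6c7ad5] (by decide +kernel))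
noncomputable def rh4372035da2c2de0c : CRef := CRef.mk (Pat.mk 0x8000000080000001c000000040000000400000000 0xa0000001b0000001f000000370000001400000010 5 6) 0 0 (step_sound _ 68 [(rh06be8e5562dc7104.shift 0 1), (rh08edf065357d68e5.shift 3 0), (rhb8a1f9a12fc8f26e.shift 0 1)] (by decide +kernel))
noncomputable def rh1715455e0923a43f : CRef := CRef.mk (Pat.mk 0x1000000008000000080000000c0000000000000000 0x1000000018000000080000001f0000007800000010 5 7) 0 0 (step_sound _ 35 [rh42e615827c8908b1, (rhbaefcd01e0a8bca3.shift 3 1)] (by decide +kernel))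
noncomputable def rh440fed56995fb185 : CRef := CRef.mk (Pat.mk 0x100000001000000038000000000000000000000000 0x10000000370000003e000000670000002000000020 5 7) 0 0 (step_sound _ 98 [(rh592c7139d2c44767.shift 0 2), (rhd132b680030c88e0.shift 2 0)] (by decide +kernel))
noncomputable def rhaaf41b08e98bba87 : CRef := CRef.mk (Pat.mk 0x80000000e000000010000000000000000 0x800000008000000080000001e0000003b0000001000000010 5 6) 0 0 (step_sound _ 100 [(rh65dcfd18fd55cba0.shift 1 0), (rh80fcd6d0a18cb2dd.shift 0 2)] (by decide +kernel))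
noncomputable def rh818a0d2a5d6a2115 : CRef := CRef.mk (Pat.mk 0x400000034000000060000000000000000 0xa0000001e00000034000000070000003e0000000a 5 6) 0 0 (step_sound _ 34 [rh1861173042f24e9a, (rh330a005829cdd297.shift 1 1), (rhdc5671191cba2261.shift 1 0)] (by decide +kernel))
noncomputable def rh6d6bbc8340733a81 : CRef := CRef.mk (Pat.mk 0x10000000f000000020000000000000000 0x390000001f0000003a0000000200000002 5 6) 0 0 (step_sound _ 33 [(rh3fc3a7fb6866dcd4.shift 0 2), rh7b1f1fb55310c477] (by decide +kernel))
noncomputable def rh1ea0e2de227fcbb5 : CRef := CRef.mk (Pat.mk 0x10000000e00000000 0x3b0000001f00000038 5 6) 0 0 (step_sound _ 36 [rh3e1b7b343686dca1, (rh3f8766e6ecb455ce.shift 0 1)] (by decide +kernel))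
noncomputable def rhd7494d5bf999ebc3 : CRef := CRef.mk (Pat.mk 0x1e000000000000001800000008 0x70000003e000000070000003c00000008 5 6) 0 0 (step_sound _ 65 [rh79ade6d724d2d9f3, (rheb0810cc63b001d8.shift 0 2)] (by decide +kernel))
noncomputable def rh70b2e85b7b996209 : CRef := CRef.mk (Pat.mk 0x80000000e0000000200000000 0x800000008000000380000001e0000003300000010 5 6) 0 0 (step_sound _ 68 [(rh1fc9a83231fa2929.shift 1 0), (rheb0810cc63b001d8.shift 0 1)] (by decide +kernel))
noncomputable def rh020bff7d6646a926 : CRef := CRef.mk (Pat.mk 0x1800000010000000100000001800000000 0x100000001800000018000000380000001f00000014 5 6) 0 0 (step_sound _ 99 [rh4f45ae9129c0c822, (rh7b1f1fb55310c477.shift 3 0)] (by decide +kernel))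
noncomputable def rh519f6741bfad5fe3 : CRef := CRef.mk (Pat.mk 0x1c000000040000000000000000 0x2000000030000003e000000070000000400000004 5 6) 0 0 (step_sound _ 65 [(rh18965a982d73c794.shift 1 2), rh7235e22a26ce31fe] (by decide +kernel))
noncomputable def rhbc0fe5a3a27f1285 : CRef := CRef.mk (Pat.mk 0x20000000200000002000000020000000600000003 0x500000007000000070000000200000002000000020000001e00000003 5 5) 0 0 (step_sound _ 35 [(rh1741680720c097b4.shift 0 2), rh18965a982d73c794] (by decide +kernel))
noncomputable def rh8b24b8cfbab3984a : CRef := CRef.mk (Pat.mk 0x7800000008 0xe0000000ff00000038 5 8) 0 0 (step_sound _ 4 [(rh18965a982d73c794.shift 3 0), rh210e2d9c685c857e] (by decide +kernel))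
noncomputable def rhbfb3b7bb3caef61c : CRef := CRef.mk (Pat.mk 0x1e00000018000000080000000800000000 0x80000003e0000001f000000380000001800000010 5 6) 0 0 (step_sound _ 36 [(rh55afc6a59410cf00.shift 3 0), (rh7b35225ad7ab1e56.shift 0 1)] (by decide +kernel))
noncomputable def rh5d54a4077da1482e : CRef := CRef.mk (Pat.mk 0x40000001c00000004000000000000000000000000 0xa0000000f0000001c000000040000000e0000000e0000000a 5 5) 0 0 (step_sound _ 66 [(rh039efe07c35de3d4.shift 0 2), (rh8cdd36b03d57a2f6.shift 1 0), (rhd1d1631c4c8d27fe.shift 2 1)] (by decide +kernel))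
noncomputable def rhad1412821aef833c : CRef := CRef.mk (Pat.mk 0x40000000c000000060000000000000000 0xa0000000f0000003e000000060000000c0000000c 5 6) 0 0 (step_sound _ 100 [(rh18965a982d73c794.shift 1 2), rhfae3185d833ce382] (by decide +kernel))
noncomputable def rh5f8ba4de600d26c4 : CRef := CRef.mk (Pat.mk 0x20000000300000002000000020000000000000000 0x40000001e0000000700000002000000060000000600000004 5 5) 0 0 (step_sound _ 162 [(rh2f68792b6b779e96.shift 1 2), rhc28510d914fccafc] (by decide +kernel))
noncomputable def rh1469ddb4039b2ce8 : CRef := CRef.mk (Pat.mk 0x100000001a00000000 0x370000003e00000070 5 7) 0 0 (step_sound _ 34 [(rh33e738c4ed385b9f.shift 1 1), rh3947d1dfff0afc6c] (by decide +kernel))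
noncomputable def rh9648900f59aa7f70 : CRef := CRef.mk (Pat.mk 0x80000001800000018000000000000000000000000 0x40000001f0000007c00000018000000080000000800000008 5 7) 0 0 (step_sound _ 67 [(rhca405e350c462817.shift 0 2), (rhea7a1800d6f053bd.shift 3 0)] (by decide +kernel))
noncomputable def rh677433e0c238648e : CRef := CRef.mk (Pat.mk 0x1800000038000000000000000000000000 0x10000000780000003f000000700000002000000020 5 7) 0 0 (step_sound _ 98 [(rhab2ad169e49f9c5e.shift 0 3), (rhe7d1749390aefb37.shift 2 0), (rhf56dc6c929980f59.shift 0 2)] (by decide +kernel))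
noncomputable def rh7f81bdf8946a82b0 : CRef := CRef.mk (Pat.mk 0x80000000c0000000c0000000800000000 0x80000000c0000001f0000007c00000014 5 7) 0 0 (step_sound _ 2 [(rh9e3edb185cc347de.shift 2 0), rhcc2a2baa9246395a] (by decide +kernel))
noncomputable def rhddf797fbef905425 : CRef := CRef.mk (Pat.mk 0xe0000002c0000000000000000 0x200000002000000070000007e0000006c0000000400000004 5 7) 0 0 (step_sound _ 129 [rh5ceac9e6c337a4a5, (rh939fe1b2e148a985.shift 0 2), (rha40d42a2e34c408d.shift 1 0)] (by decide +kernel))
noncomputable def rhce8d7469bd5b0a7a : CRef := CRef.mk (Pat.mk 0x1e000000080000000000000000 0x4000000040000000f0000003e000000080000000800000008 5 6) 0 0 (step_sound _ 129 [(rh22379625ea693b2d.shift 1 0), (rh3244c3cc8379b070.shift 0 3)] (by decide +kernel))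
noncomputable def rhb2c573f098aca38a : CRef := CRef.mk (Pat.mk 0x1800000018000000080000001800000000 0x18000000180000003c000000ff00000024 5 8) 0 0 (step_sound _ 34 [rh92397ea603017814, (rh932754581e0f4330.shift 2 0)] (by decide +kernel))
noncomputable def rhcf22385aa238e8cf : CRef := CRef.mk (Pat.mk 0x1000000010000000180000003800000000 0x8000000180000001800000038000000ff00000006 5 8) 0 0 (step_sound _ 38 [rh4dde18cb6dee16c9, (rhf48373e13d2bc128.shift 3 1)] (by decide +kernel))
noncomputable def rh98fe03b4552f6a6d : CRef := CRef.mk (Pat.mk 0x4000000080000000c0000000c000000000000000000000000 0x40000001c0000003c0000000f000000080000000800000008 5 6) 0 0 (step_sound _ 67 [rh677e6fbb651585de, (rhffd04209dc8ea796.shift 2 2)] (by decide +kernel))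
noncomputable def rhc2bf42c525961a11 : CRef := CRef.mk (Pat.mk 0x80000000c0000000c000000100000000000000000 0x180000003c0000000f000000180000001800000008 5 6) 0 0 (step_sound _ 67 [(rh55afc6a59410cf00.shift 3 1), rh9a3bfb7fb0179462] (by decide +kernel))
noncomputable def rh2f38b8fe53bae3f2 : CRef := CRef.mk (Pat.mk 0x380000001c000000000000000000000000 0xf0000003f0000007c000000060000000400000004 5 7) 0 0 (step_sound _ 130 [(rh39b36e93b258e604.shift 1 0), (rh79b3c29022acbdf3.shift 1 3), (rhba89ab7cb81bcc90.shift 0 3)] (by decide +kernel))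
noncomputable def rhdf3333e361614e0e : CRef := CRef.mk (Pat.mk 0x80000001800000018000000080000000000000000 0x800000018000000380000001f0000001c00000008 5 6) 0 0 (step_sound _ 3 [(rh51f5a245ef7eb6cb.shift 0 1), (rh9e3edb185cc347de.shift 3 0)] (by decide +kernel))
noncomputable def rh31042eb1ba98bf1d : CRef := CRef.mk (Pat.mk 0x100000003c00000002 0x1c000000fe000000e3 5 8) 0 0 (step_sound _ 0 [(rh6a5aad1075fb7119.shift 2 0), rhca9569cc80abfe76] (by decide +kernel))
noncomputable def rh3b07aae555d9b7cc : CRef := CRef.mk (Pat.mk 0x200000007800000004 0x370000007e000000c6 5 8) 0 0 (step_sound _ 6 [(rhe25b0a99195a5d59.shift 3 0), rhe391af62c2a85c90] (by decide +kernel))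
noncomputable def rhd171144836989e05 : CRef := CRef.mk (Pat.mk 0xc000000080000000c0000000c00000000 0x20000000f0000003c0000000c0000000e0000000a 5 6) 0 0 (step_sound _ 98 [(rh7b1f1fb55310c477.shift 2 0), rhd24778b085d8f6e1] (by decide +kernel))
noncomputable def rhaf086fbf83221240 : CRef := CRef.mk (Pat.mk 0xe0000000400000004 0x2000000730000003e0000007700000004 5 7) 0 0 (step_sound _ 68 [(rh3fc3a7fb6866dcd4.shift 1 1), (rhaf9f2efc81a8312b.shift 0 1), rhe4f9133a81c1dbc5] (by decide +kernel))
noncomputable def rhf73931904536f8ca : CRef := CRef.mk (Pat.mk 0x20000000300000001c0000000000000000 0x4000000670000003f0000007c000000ee00000008 5 8) 0 0 (step_sound _ 98 [(rh1561ff1fafeb7917.shift 1 1), (rh85d8fbe61f816818.shift 0 2), (rh9458e878ee940312.shift 1 0)] (by decide +kernel))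
noncomputable def rh79c9ba71be5d4cd2 : CRef := CRef.mk (Pat.mk 0x180000000c000000280000000000000000 0x20000000780000003c0000007f0000001600000014 5 7) 0 0 (step_sound _ 68 [rh399802e8c9120a61, (rhf48373e13d2bc128.shift 2 2)] (by decide +kernel))
noncomputable def rh965f546bcc7224ed : CRef := CRef.mk (Pat.mk 0x80000000c00000006000000140000000000000000 0x80000003c000000160000003e0000003300000002 5 6) 0 0 (step_sound _ 132 [(rh18965a982d73c794.shift 1 3), rhbf7bcacf9a181d0a] (by decide +kernel))
noncomputable def rh407dcf397709fcdc : CRef := CRef.mk (Pat.mk 0x400000004000000030000000a00000000 0x400000004000000070000001f0000007c 5 7) 0 0 (step_sound _ 34 [rhe9937ce8bcea713a, (rhf48373e13d2bc128.shift 0 1)] (by decide +kernel))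
noncomputable def rh88977a5f61b5e624 : CRef := CRef.mk (Pat.mk 0x10000000180000000c000000280000000000000000 0x30000000780000007c0000003f0000003600000034 5 7) 0 0 (step_sound _ 100 [(rh07ee7d978889a21f.shift 2 0), (rh1b8bcb4747e3f510.shift 1 1), rh2955b4ac6c23dcb0, (rh475253e964ed1313.shift 4 0), (rh7ca236c3671f0972.shift 1 0)] (by decide +kernel))
noncomputable def rh67d40af89fd647fc : CRef := CRef.mk (Pat.mk 0x80000000c000000060000001400000000 0x80000003c0000003e0000003700000010 5 6) 0 0 (step_sound _ 100 [(rh18965a982d73c794.shift 1 2), rh3be6b8746885e3c9] (by decide +kernel))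
noncomputable def rha10475ec2ecc2b78 : CRef := CRef.mk (Pat.mk 0x18000000100000001800000018 0x40000001e000000f7000000ff0000001e 5 8) 0 0 (step_sound _ 37 [(rh4dc133ee0ba1420a.shift 1 0), rh87851f299980bbd9, rha4f89db2d82eac15] (by decide +kernel))
noncomputable def rh5a36c77af034e072 : CRef := CRef.mk (Pat.mk 0x80000001e000000100000000000000000 0x7f0000003e000000100000001000000010 5 7) 0 0 (step_sound _ 4 [(rh9e07f76261b05888.shift 3 0), (rhb18e6c78a554867d.shift 0 3)] (by decide +kernel))
noncomputable def rhf395d7c5367a3739 : CRef := CRef.mk (Pat.mk 0x20000000200000002000000020000000200000000 0x200000002000000020000000600000007000000070000000300000002 5 3) 0 0 (step_sound _ 64 [rh28ac4feb1c873600, (rh932754581e0f4330.shift 0 1)] (by decide +kernel))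
noncomputable def rh74eb86970c84bc0f : CRef := CRef.mk (Pat.mk 0x800000008000000080000001c00000000 0x1000000018000000180000003e0000007f00000060 5 7) 0 0 (step_sound _ 132 [rh1376ce36e8c87dc9, (rh2f68792b6b779e96.shift 3 1)] (by decide +kernel))
noncomputable def rh081287252393d3c5 : CRef := CRef.mk (Pat.mk 0x800000008000000080000000c000000180000000000000000 0x8000000080000000c0000000c0000000f000000780000000800000008 5 7) 0 0 (step_sound _ 69 [rh50bde758741b8a22, (rhf48373e13d2bc128.shift 2 2)] (by decide +kernel))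
noncomputable def rh54751e91c6829bac : CRef := CRef.mk (Pat.mk 0x1800000018000000080000001800000000 0x40000001f0000001f0000007c000000fe00000020 5 8) 0 0 (step_sound _ 68 [(rh36d4d92ef3dad5f8.shift 2 0), (rhe3465b3d36b3aa2f.shift 0 1)] (by decide +kernel))
noncomputable def rhf8e9495d292c86b5 : CRef := CRef.mk (Pat.mk 0x1000000018000000080000001800000000 0x100000007c0000003f0000007800000020 5 7) 0 0 (step_sound _ 66 [(rh557b120f072744ca.shift 0 2), (rh755f2acca808efc4.shift 0 1), (rhe20b69cab189b9e3.shift 2 0), (rhfdaba9284cdfee4b.shift 0 1)] (by decide +kernel))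
noncomputable def rh1b5880c8df69d5ca : CRef := CRef.mk (Pat.mk 0x4000000020000000200000002000000000000000000000000 0x5000000070000000300000002000000060000000600000004 5 3) 0 0 (step_sound _ 65 [rh46baee19951a66e7, (rhbaefcd01e0a8bca3.shift 1 2)] (by decide +kernel))
noncomputable def rh960b8df1fc4f4720 : CRef := CRef.mk (Pat.mk 0x20000000200000002000000020000000200000000 0x600000006000000070000000300000003000000020000000200000002 5 3) 0 0 (step_sound _ 128 [(rh50fbb5868c909700.shift 0 1), rh73eb6e5aec2448b7] (by decide +kernel))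
noncomputable def rh69a53c039d5b2d3f : CRef := CRef.mk (Pat.mk 0x3800000010000000100000001000000000 0x70000007e000000ff000000100000001800000008 5 8) 0 0 (step_sound _ 130 [(rh0edd3afef6b5d7e0.shift 1 3), (rha03f6e28ea70fc7d.shift 1 3), rhaff5f38ae4e80b23] (by decide +kernel))
noncomputable def rh891e8803ead4f377 : CRef := CRef.mk (Pat.mk 0x200000007800000000 0x370000007e000000e0 5 8) 0 0 (step_sound _ 6 [rh3b2b05f77630fe70, (rhe25b0a99195a5d59.shift 3 0)] (by decide +kernel))
noncomputable def rh74723a599927bd90 : CRef := CRef.mk (Pat.mk 0x800000018000000080000000800000000 0x40000001f00000078000000080000001800000010 5 7) 0 0 (step_sound _ 4 [(rhd3458b32566d63f7.shift 3 0), (rhdb019b0e908810fb.shift 0 1)] (by decide +kernel))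
noncomputable def rh30bc3e998acc8179 : CRef := CRef.mk (Pat.mk 0x40000000600000006000000020000000000000000 0x600000006000000070000003e0000000c00000004 5 6) 0 0 (step_sound _ 66 [(rh36d4d92ef3dad5f8.shift 0 1), (rh3cb04db3dd2b6a55.shift 1 0), rh80e37db04cf10411] (by decide +kernel))
noncomputable def rh11ccf8fcce206609 : CRef := CRef.mk (Pat.mk 0x800000018000000080000000800000000 0x40000000f0000007c000000080000001800000010 5 7) 0 0 (step_sound _ 4 [(rhca405e350c462817.shift 0 1), (rhd3458b32566d63f7.shift 3 0)] (by decide +kernel))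
noncomputable def rh96212f0ea3d40cdd : CRef := CRef.mk (Pat.mk 0x1800000038000000080000000800000000 0x1f0000003f0000006f0000007800000030 5 7) 0 0 (step_sound _ 98 [(rh0e1512cbacfbd48b.shift 0 2), rh1c074a8a97243bd2, rh69975ae0ef29f63d, (rhb4ff80d28394d33e.shift 1 0)] (by decide +kernel))
noncomputable def rhaeb0a2adc71b136f : CRef := CRef.mk (Pat.mk 0x380000000800000008 0x4000000070000003e0000007f00000008 5 7) 0 0 (step_sound _ 66 [(rh008b05f4778dc30d.shift 0 1), (rh0d378fd9e8917c5a.shift 0 1), (rh775ca1963e850b80.shift 0 1), (rhe4f9133a81c1dbc5.shift 1 0)] (by decide +kernel))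
noncomputable def rhb12fc399deec5698 : CRef := CRef.mk (Pat.mk 0x1800000008000000080000001c00000000 0x40000001e00000078000001f8000000ff000001e0 5 9) 0 0 (step_sound _ 37 [(rh3fc3a7fb6866dcd4.shift 2 0), (rh561032ade0f18075.shift 1 0), (rh5744ed557bb5a452.shift 0 1), (rhf1f2a6392a8362a4.shift 2 0), rhf3731febd9c20499] (by decide +kernel))
noncomputable def rh0e9299592e9e3236 : CRef := CRef.mk (Pat.mk 0x40000000f000000060000000000000000 0x3c0000003f0000001e0000000200000002 5 6) 0 0 (step_sound _ 1 [(rh0e9b5f627e6f57d3.shift 0 2), (rh9e3edb185cc347de.shift 1 0)] (by decide +kernel))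
noncomputable def rh700cf9e742ca3424 : CRef := CRef.mk (Pat.mk 0x80000000c0000000c0000000400000000 0x6000000060000000f0000003c0000000e0000000600000002 5 6) 0 0 (step_sound _ 130 [(rh90b823c913a425e8.shift 1 1), (rhbd1553ade3ecbf42.shift 1 0), rhd24778b085d8f6e1] (by decide +kernel))
noncomputable def rhe4cf97a152f25fa9 : CRef := CRef.mk (Pat.mk 0xe0000000c00000004 0x200000002000000770000007e0000003c00000004 5 7) 0 0 (step_sound _ 36 [rhe1323e51c7b14ae8, (rhf48373e13d2bc128.shift 1 1)] (by decide +kernel))
noncomputable def rhd0b933781d225d0a : CRef := CRef.mk (Pat.mk 0x18000000180000000800000000 0xc0000000c0000000c000000180000007c0000000f00000004 5 7) 0 0 (step_sound _ 131 [(rh90b823c913a425e8.shift 2 1), rhb0de455c382c5b1c] (by decide +kernel))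
noncomputable def rh6ab24e62d11ce4aa : CRef := CRef.mk (Pat.mk 0x80000001e0000000c0000000000000000 0xf0000007e0000003c0000001000000010 5 7) 0 0 (step_sound _ 68 [rh95077a83b6ede789, (rhf48373e13d2bc128.shift 1 2)] (by decide +kernel))
noncomputable def rhc73ed1f94993536e : CRef := CRef.mk (Pat.mk 0xe000000060000000200000000 0x30000003e0000003e0000000300000001 5 6) 0 0 (step_sound _ 100 [(rh18965a982d73c794.shift 1 2), rhcf05e6c45bea2f53] (by decide +kernel))
noncomputable def rh8dd58e947a2e4c30 : CRef := CRef.mk (Pat.mk 0x3800000010000000100000001800000000 0x70000003e0000007f0000001c000000f800000020 5 8) 0 0 (step_sound _ 37 [(rh55afc6a59410cf00.shift 4 0), (rh8dd905c3d94db0c3.shift 0 1)] (by decide +kernel))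
noncomputable def rh44cb98fd4d993e43 : CRef := CRef.mk (Pat.mk 0x20000000200000002000000020000000200000000 0x300000003000000070000000600000006000000020000000200000002 5 3) 0 0 (step_sound _ 130 [(rh2f68792b6b779e96.shift 1 1), rhf4e6fedba06c3e58] (by decide +kernel))
noncomputable def rh72e6e61c121fb4f7 : CRef := CRef.mk (Pat.mk 0xd0000000e000000000000000000000000 0x80000000f0000007e000000060000000400000004 5 7) 0 0 (step_sound _ 100 [(rh39b36e93b258e604.shift 1 0), (rh3f8766e6ecb455ce.shift 0 3)] (by decide +kernel))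
noncomputable def rhddd3738b978d50a2 : CRef := CRef.mk (Pat.mk 0x600000007000000080000000000000000 0x4000000060000003f0000001b0000000200000002 5 6) 0 0 (step_sound _ 99 [rh39b36e93b258e604, (rhe25b0a99195a5d59.shift 0 2)] (by decide +kernel))
noncomputable def rh92cc1ecf7c562c8f : CRef := CRef.mk (Pat.mk 0x1a0000001e000000000000000000000000 0x2000000170000001e0000001e0000003c0000001c0000001c 5 6) 0 0 (step_sound _ 35 [(rh2c7fc7a7cc8a47be.shift 3 0), rhbd58788658af0fe1, (rhdc461deccfb05432.shift 1 0)] (by decide +kernel))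
noncomputable def rh07463c89a22e304a : CRef := CRef.mk (Pat.mk 0xc0000000f000000010000000000000000 0x80000000c0000000f0000001f0000001c0000001c 5 5) 0 0 (step_sound _ 67 [rh733d860fd1efbb37, (rhe25b0a99195a5d59.shift 0 2)] (by decide +kernel))
noncomputable def rh8b4e02a3f5c6ee22 : CRef := CRef.mk (Pat.mk 0xc0000000b00000002000000000000000000000000 0x40000000c0000000f0000001f0000001c0000001c00000014 5 5) 0 0 (step_sound _ 99 [(rh0ca44f0044f30d2f.shift 0 1), (rha6816dee951f7ee6.shift 0 3), (rhe181d564227a886f.shift 2 0)] (by decide +kernel))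
noncomputable def rh94eb517cbfbcbab4 : CRef := CRef.mk (Pat.mk 0x340000001c00000010000000000000000000000000 0x6000000060000003c0000003c0000003f0000000e0000000e00000004 5 6) 0 0 (step_sound _ 99 [rh98b477c1d1c885aa, (rhade0f4c81793f68e.shift 2 1), (rhbe707112c53dab40.shift 2 1), (rhf222870040a7c7c5.shift 0 2)] (by decide +kernel))
noncomputable def rh930c05e820260354 : CRef := CRef.mk (Pat.mk 0x40000000f000000090000000000000000 0x80000001c0000000f0000000f0000001c0000001c 5 5) 0 0 (step_sound _ 35 [rh2d404d92963bc025, (rh7b1f1fb55310c477.shift 2 0)] (by decide +kernel))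
noncomputable def rh36ef443ce665afe9 : CRef := CRef.mk (Pat.mk 0x900000007000000040000000000000000 0x2000000020000001b0000001f000000060000000400000004 5 5) 0 0 (step_sound _ 99 [(rh33e738c4ed385b9f.shift 0 3), rhd53253172fd55ac8] (by decide +kernel))
noncomputable def rh1e9f43c7d263906f : CRef := CRef.mk (Pat.mk 0x20000000f00000009000000000000000000000000 0x4000000040000001e0000000f0000000f0000001f0000001d00000014 5 5) 0 0 (step_sound _ 67 [(rh13508b7b8382faa4.shift 0 1), rha28c4069e3d16801, (rhbc403b8ff14fc467.shift 0 1), (rhf764365d1985f497.shift 0 1)] (by decide +kernel))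
noncomputable def rhdfd8cae5fc52a4c0 : CRef := CRef.mk (Pat.mk 0x40000001e000000000000000000000000 0x740000003e000000070000000200000002 5 7) 0 0 (step_sound _ 65 [(rh1f3d3ec4f2060646.shift 1 0), (rheb0810cc63b001d8.shift 0 2)] (by decide +kernel))
noncomputable def rh91d9f1766187f438 : CRef := CRef.mk (Pat.mk 0x40000001e000000000000000000000000 0x40000003e000000770000000200000002 5 7) 0 0 (step_sound _ 65 [(rheb0810cc63b001d8.shift 0 2), (rhec9ce50cf1f066e7.shift 1 0)] (by decide +kernel))
noncomputable def rh6d97f8f538840ee5 : CRef := CRef.mk (Pat.mk 0x1000000030000000000000001800000008 0x1000000030000000200000007c000001ff 5 9) 0 0 (step_sound _ 37 [rh2820ca9a6c4f41b4, (rh6750075f6e760f16.shift 2 0), rhf0f55c4504412200] (by decide +kernel))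
noncomputable def rh728372d848f52fc7 : CRef := CRef.mk (Pat.mk 0x1000000030000000000000001800000008 0x3000000030000000270000007e000001ef 5 9) 0 0 (step_sound _ 37 [rh2820ca9a6c4f41b4, (rh82b45f9bc7ec6902.shift 2 0), rh85fa2c655af9c66c, (rhcfb22383fd07fce4.shift 2 0)] (by decide +kernel))
noncomputable def rh55f67c0642d2ed1f : CRef := CRef.mk (Pat.mk 0x200000006000000000000000700000000 0x400000006000000060000001c0000000f0000000e 5 5) 0 0 (step_sound _ 66 [rh3143bbbbaa06ef3a, (rh7b1f1fb55310c477.shift 1 0)] (by decide +kernel))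
noncomputable def rh154d421d313d2dd8 : CRef := CRef.mk (Pat.mk 0x3800000000 0x70000007e000000ff 5 8) 0 0 (step_sound _ 34 [rh008b05f4778dc30d, rh0d378fd9e8917c5a, (rh0edd3afef6b5d7e0.shift 1 0), rh775ca1963e850b80] (by decide +kernel))
noncomputable def rh100136e0fcd97dfd : CRef := CRef.mk (Pat.mk 0x1c00000000 0xf00000007e000000ef 5 8) 0 0 (step_sound _ 37 [(rh0edd3afef6b5d7e0.shift 1 0), (rh3b00e9e9432b8f40.shift 1 0), (rh3fc3a7fb6866dcd4.shift 2 0), rh7654d7b92c96fe12] (by decide +kernel))
noncomputable def rh60d5722eb6dd19dd : CRef := CRef.mk (Pat.mk 0x40000000c000000000000000e00000000 0x80000000c0000000c0000007c0000003f00000074 5 7) 0 0 (step_sound _ 131 [(rh2c7fc7a7cc8a47be.shift 2 0), rha6fe48e4f0621ac5, (rhe930ac50058ee750.shift 1 0), (rhecb97fed8c7f1286.shift 2 0)] (by decide +kernel))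
noncomputable def rh9e3cd6579b1eb96f : CRef := CRef.mk (Pat.mk 0x80000001c000000080000000c 0x170000001f0000001c0000000c0000000c 5 5) 0 0 (step_sound _ 98 [rh0e0e58129f24b345, (rh50fbb5868c909700.shift 2 0)] (by decide +kernel))
noncomputable def rhf6c82440a4814b59 : CRef := CRef.mk (Pat.mk 0x800000000000000380000000000000000 0x80000007f0000007e0000000700000004 5 7) 0 0 (step_sound _ 66 [(rh0ab123b03b848a6d.shift 1 0), (rh61325f73ebf98108.shift 0 2), (rh7654d7b92c96fe12.shift 0 1), (rh775ca1963e850b80.shift 0 1)] (by decide +kernel))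
noncomputable def rha890e1424484c799 : CRef := CRef.mk (Pat.mk 0x80000001c000000000000001c00000000 0x20000000f0000001c000000e60000007c000000e8 5 8) 0 0 (step_sound _ 37 [(rh3fc3a7fb6866dcd4.shift 2 0), rh5b6c16d5abe12253] (by decide +kernel))
noncomputable def rh2b0f085744c42cc0 : CRef := CRef.mk (Pat.mk 0x800000000000000380000000000000000 0x80000000f0000007e0000007700000004 5 7) 0 0 (step_sound _ 66 [(rh008b05f4778dc30d.shift 0 1), (rh0ab123b03b848a6d.shift 1 0), (rh0d378fd9e8917c5a.shift 0 1), (rh775ca1963e850b80.shift 0 1)] (by decide +kernel))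
noncomputable def rh18cf995b29e19680 : CRef := CRef.mk (Pat.mk 0x60000001e000000020000000000000000 0x2000000060000001e0000003e0000000700000007 5 6) 0 0 (step_sound _ 33 [rh036295beb5b91416, (rh71222050f2c63a3a.shift 1 0)] (by decide +kernel))
noncomputable def rh65eb58ad6f7f1a3d : CRef := CRef.mk (Pat.mk 0x80000000e000000080000000800000000 0x40000000c0000001e0000007b0000001f00000016 5 7) 0 0 (step_sound _ 34 [rh01de3d2b5996430b, (rh932754581e0f4330.shift 2 0)] (by decide +kernel))
noncomputable def rh7bfe3f2f446c4b3f : CRef := CRef.mk (Pat.mk 0x8000000180000001c0000000800000000 0x40000000c0000001c0000001c0000001f00000017 5 5) 0 0 (step_sound _ 34 [(rh932754581e0f4330.shift 2 0), rhee598711b2b58375] (by decide +kernel))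
noncomputable def rh8e882ea258c6ca15 : CRef := CRef.mk (Pat.mk 0xc0000000c000000000000000c00000000 0x40000000c0000000c000000070000003e00000006 5 6) 0 0 (step_sound _ 66 [(rh71222050f2c63a3a.shift 2 0), rhc6caea4112c2545d] (by decide +kernel))
noncomputable def rh4f39df29e6982ba9 : CRef := CRef.mk (Pat.mk 0x1000000038000000000000003000000000 0x140000001e00000038000001cf000000fc000001ff 5 9) 0 0 (step_sound _ 35 [(rh0789fb5060e9c65e.shift 1 0), rh1dc15afdf305bd94, rhb31ed74e4c4d2f19, rhd8970f20df7aae31, (rhec2955f76c307292.shift 3 0)] (by decide +kernel))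
noncomputable def rha4392931b279a0ee : CRef := CRef.mk (Pat.mk 0x800000018000000180000000c00000000 0x8000000380000001f0000003f00000010 5 6) 0 0 (step_sound _ 33 [rh0237016f78d3e327, (rh53b3c253cb0c65f4.shift 0 1)] (by decide +kernel))
noncomputable def rh8df01f45f12b1b07 : CRef := CRef.mk (Pat.mk 0xe000000060000000000000000 0x2000000030000003e000000360000000400000004 5 6) 0 0 (step_sound _ 100 [(rh18965a982d73c794.shift 1 2), rhc298b91816a3bf40] (by decide +kernel))
noncomputable def rhf0d968e9e1b48d5d : CRef := CRef.mk (Pat.mk 0x80000003800000018000000000000000000000000 0x40000000f0000003c000000180000000c0000000c0000000c 5 6) 0 0 (step_sound _ 67 [rh576fe90dac99d593, (rhbb83b53687587fb2.shift 2 0), (rhf0eae3109e9a967c.shift 0 1)] (by decide +kernel))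
noncomputable def rha9cf00949a0a2b57 : CRef := CRef.mk (Pat.mk 0x180000001a000000080000000000000000 0x40000001f0000001b000000080000001800000018 5 5) 0 0 (step_sound _ 35 [(rh71222050f2c63a3a.shift 3 0), rhf80fa74dc7fc7478] (by decide +kernel))
noncomputable def rh5985850aa843fa06 : CRef := CRef.mk (Pat.mk 0x180000001a000000080000000000000000 0x40000001f0000001b000000080000000c0000000c 5 5) 0 0 (step_sound _ 35 [rh6117c24be3f87082, (rh71222050f2c63a3a.shift 3 0)] (by decide +kernel))
noncomputable def rha1d054e92d475c44 : CRef := CRef.mk (Pat.mk 0xa0000001a00000008000000000000000000000000 0x1000000030000000b0000001b0000001f000000370000001700000005 5 6) 0 0 (step_sound _ 97 [(rh70c88061d19295ac.shift 0 1), rh73e4dc42196a65d8, rh9025223dca583e9f, rhde5b474548b482d7, rhe4e4efb231e692a9] (by decide +kernel))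
noncomputable def rh166f6fa279722ce2 : CRef := CRef.mk (Pat.mk 0x180000001a000000080000000800000000 0x40000001f0000001b000000080000001c00000014 5 5) 0 0 (step_sound _ 2 [(rh79877ebd3ef475dd.shift 2 0), rhf80fa74dc7fc7478] (by decide +kernel))
noncomputable def rh239f548d8fc67672 : CRef := CRef.mk (Pat.mk 0x100000001e000000180000000000000000 0x17000000fe0000001c0000000800000008 5 8) 0 0 (step_sound _ 3 [(rh412d230494194d0a.shift 0 2), (rh9e3edb185cc347de.shift 3 0)] (by decide +kernel))
noncomputable def rh8dee1f47d8998322 : CRef := CRef.mk (Pat.mk 0x20000000600000006000000060000000000000000 0x2000000060000001f0000003f0000001900000008 5 6) 0 0 (step_sound _ 64 [(rh932754581e0f4330.shift 0 1), rhe3ea657a9325ac2f] (by decide +kernel))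
noncomputable def rh1af844ea1fb49739 : CRef := CRef.mk (Pat.mk 0x80000001a0000001a0000000000000000 0x500000007000000070000000f0000001b0000001b0000001b00000011 5 5) 0 0 (step_sound _ 129 [rh093ae2dd059bf86a, (rh58ffa0133807a088.shift 0 1), rhbeabf4ac06c8a9a7, (rhde92960d702df969.shift 0 1), (rhf9873f5b3346f9e6.shift 0 1)] (by decide +kernel))
noncomputable def rhf37c83b170ac0f6a : CRef := CRef.mk (Pat.mk 0x180000007800000000 0x180000007f000000e7 5 8) 0 0 (step_sound _ 6 [rh972b3c97bbc25bef, (rhe25b0a99195a5d59.shift 3 0)] (by decide +kernel))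
noncomputable def rhf3d61659b1fc7e32 : CRef := CRef.mk (Pat.mk 0x60000000e000000020000000200000000 0x60000003e0000003e0000000f00000005 5 6) 0 0 (step_sound _ 34 [(rh55afc6a59410cf00.shift 1 0), rhefef6a3d1c708dbc] (by decide +kernel))
noncomputable def rhd81be5dd160c5ea0 : CRef := CRef.mk (Pat.mk 0x20000000f000000010000000000000000 0x3a0000001f000000390000000100000001 5 6) 0 0 (step_sound _ 0 [(rh3fc3a7fb6866dcd4.shift 0 2), rh9e3edb185cc347de] (by decide +kernel))
noncomputable def rha3ab3f433f6159b0 : CRef := CRef.mk (Pat.mk 0x10000000380000000800000028000000000000000000000000 0x30000000380000003f00000078000000f00000001000000010 5 8) 0 0 (step_sound _ 133 [(rh7b1f1fb55310c477.shift 4 2), rhac092b2efe708213] (by decide +kernel))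
noncomputable def rh9bf0a1a2034f975c : CRef := CRef.mk (Pat.mk 0x40000000c000000020000000a000000000000000000000000 0xc0000000c0000003b0000001f000000380000001000000010 5 6) 0 0 (step_sound _ 131 [rh7aedc61e2f29f3f1, (rh7b1f1fb55310c477.shift 2 2)] (by decide +kernel))
noncomputable def rh1c477af91ef64248 : CRef := CRef.mk (Pat.mk 0x380000000800000028000000000000000000000000 0x2000000038000001ff000000ff000001d60000001400000014 5 9) 0 0 (step_sound _ 100 [(rh00a187acd9599501.shift 2 2), rh1f22a759dc75265b, (rh6f3fb444c358c783.shift 2 0), (rhfd99604093c09fe0.shift 0 3)] (by decide +kernel))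
noncomputable def rh0e53d4288c8110f5 : CRef := CRef.mk (Pat.mk 0x1000000018000000080000002800000000 0x1000000018000001df000000fc000001f0 5 9) 0 0 (step_sound _ 36 [(rh00a187acd9599501.shift 2 0), (rhe9937ce8bcea713a.shift 2 0), (rhfd99604093c09fe0.shift 0 1)] (by decide +kernel))
noncomputable def rhf4466150813eb0fd : CRef := CRef.mk (Pat.mk 0x18000000180000001000000010 0x27000000ff000000f80000001000000010 5 8) 0 0 (step_sound _ 101 [(rh2f68792b6b779e96.shift 4 0), (rha3eb0745c7730869.shift 0 2)] (by decide +kernel))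
end Crest.Agent.S0047.Helper85.Cert
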