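import Crest.Agent.Lib.S0047.Helper85CertPL4F0
import Crest.Agent.Lib.S0047.Helper85CertPL4F1
import Crest.Agent.Lib.S0047.Helper85CertPL4F2
import Crest.Agent.Lib.S0047.Helper85CertPL4F3
import Crest.Agent.Lib.S0047.Helper85CertPL4F4
import Crest.Agent.Lib.S0047.Helper85CertPL4F5
import Crest.Agent.Lib.S0047.Helper85CertPL4F6
import Crest.Agent.Lib.S0047.Helper85CertPL4F7
import Crest.Agent.Lib.S0047.Helper85CertPL4F8
import Crest.Agent.Lib.S0047.Helper85CertPL4F9
set_option autoImplicit false
set_option linter.all false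
set_option Elab.async false
namespace Crest.Agent.S0047.Helper85.Cert
open Crest.Agent.S0047.Helper85

noncomputable def rh4b87214d11111f94 : CRef := CRef.mk (Pat.mk 0x80000001c00000018 0xe0000007f0000001f 5 7) 0 0 (step_sound _ 33 [rhb739f4f82bb681b4, rhfea8a9bfcf0a6001] (by decide +kernel))
noncomputable def rh999938b976058e1c : CRef := CRef.mk (Pat.mk 0x80000000c000000060000000000000000 0x60000000f0000003c000000060000000600000006 5 6) 0 0 (step_sound _ 34 [(rh71222050f2c63a3a.shift 2 0), rhef1fef9b2fe09d8c] (by decide +kernel))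
noncomputable def rha3ead4047ee2ca4c : CRef := CRef.mk (Pat.mk 0x20000000300000001c0000001000000000 0x18000000780000003f0000007c0000007000000020 5 7) 0 0 (step_sound _ 131 [(rh1b09a855e0f58c8f.shift 2 0), (rh279dbb2cafdc79ed.shift 0 1), (rh5bbe1c004ccdf534.shift 1 0), (rh616c75d1b5542aee.shift 3 1)] (by decide +kernel))
noncomputable def rh8baa809f2ab624a9 : CRef := CRef.mk (Pat.mk 0x8000000100000001c000000180000000000000000 0x8000000180000001f0000001f0000003000000020 5 6) 0 0 (step_sound _ 36 [rhf417e11bfb378c28, (rhffd04209dc8ea796.shift 3 1)] (by decide +kernel))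
noncomputable def rh79356c9f5994ef5c : CRef := CRef.mk (Pat.mk 0x400000004000000070000000000000000 0x80000000c0000003c0000000f0000001e0000000e 5 6) 0 0 (step_sound _ 99 [(rh572132728df34c43.shift 0 2), rhc1b5d17a350cbb83] (by decide +kernel))
noncomputable def rha9fe710bdcac5192 : CRef := CRef.mk (Pat.mk 0x400000004000000030000000200000000000000000000000000000000 0x400000007000000030000000300000002000000060000000600000004 5 3) 0 0 (step_sound _ 97 [(rh1006c02ae4212ff0.shift 1 3), rhd1779d7de7f8215b] (by decide +kernel))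
noncomputable def rhfcc0570a3af4020d : CRef := CRef.mk (Pat.mk 0x200000002800000018000000100000000000000000 0x200000002f0000007c000000300000001000000010 5 7) 0 0 (step_sound _ 36 [(rh7b1f1fb55310c477.shift 3 0), (rhf227ff6d7ced7e72.shift 0 1)] (by decide +kernel))
noncomputable def rhef9eed06fc1b6e36 : CRef := CRef.mk (Pat.mk 0x14000000040000000c0000000800000000 0xa0000003e000000070000003c0000000f00000002 5 6) 0 0 (step_sound _ 34 [(rh335053264b680a96.shift 0 1), rha71afc656c87d410] (by decide +kernel))
noncomputable def rhe16a0380744fa5ba : CRef := CRef.mk (Pat.mk 0x80000001a00000006000000040000000000000000 0x80000001b0000001e0000003c0000001400000004 5 6) 0 0 (step_sound _ 34 [(rh7b1f1fb55310c477.shift 1 0), (rhae478df3bbb11de4.shift 0 1)] (by decide +kernel))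
noncomputable def rh6184e64a20a9676d : CRef := CRef.mk (Pat.mk 0xa0000001a0000000600000000 0x40000001f0000001b0000001e0000000a 5 5) 0 0 (step_sound _ 98 [rh7445222732380737, (rhb739f4f82bb681b4.shift 0 2)] (by decide +kernel))
noncomputable def rh39466dce28815332 : CRef := CRef.mk (Pat.mk 0xe000000080000000600000004 0x60000001e0000000b0000001e0000000e 5 5) 0 0 (step_sound _ 65 [(rh2145e1d24b96a57e.shift 1 0), rh7445222732380737] (by decide +kernel))
noncomputable def rhe3f3f779bbef6571 : CRef := CRef.mk (Pat.mk 0x6000000300000000c0000000800000000 0x2000000060000003c0000003c0000000f00000002 5 6) 0 0 (step_sound _ 98 [(rh5419adcd928dba20.shift 1 3), rhf12dd11a9c1c957f] (by decide +kernel))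
noncomputable def rhb293aee5043df599 : CRef := CRef.mk (Pat.mk 0x20000000a000000180000000400000004 0x10000000330000001e0000001c0000000c0000000c 5 6) 0 0 (step_sound _ 98 [(rh2613c889e411427e.shift 1 0), rh8373accf56e6eff5] (by decide +kernel))
noncomputable def rhb7df83653bb2af37 : CRef := CRef.mk (Pat.mk 0xa0000001a000000060000000000000000 0xb0000001f0000003e0000003000000010 5 6) 0 0 (step_sound _ 98 [(rh3244c3cc8379b070.shift 0 3), rh715ef4deafe86686] (by decide +kernel))
noncomputable def rh4361e8e9aa9e1717 : CRef := CRef.mk (Pat.mk 0x80000000c000000070000000400000000 0x400000006000000060000000e0000000e000000070000001e0000000a 5 5) 0 0 (step_sound _ 130 [(rh03dfdf12d5937476.shift 1 0), (rh865cf161b9b29643.shift 1 1), rhb379f99078aafa2d] (by decide +kernel))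
noncomputable def rh999a9d636a1a4f7c : CRef := CRef.mk (Pat.mk 0x140000007000000018000000080000000000000000 0x360000007f000000f8000000cc0000004000000040 5 8) 0 0 (step_sound _ 102 [(rh593c7bd1e783a56a.shift 0 3), (rh93a403cd651853c3.shift 2 0), (rhf0d541925459d994.shift 1 3)] (by decide +kernel))
noncomputable def rha03971277375fc15 : CRef := CRef.mk (Pat.mk 0x8000000180000000e00000006 0x60000000f0000001b0000003e00000006 5 6) 0 0 (step_sound _ 36 [(rh18965a982d73c794.shift 1 0), rh1ba597799b5c5efa] (by decide +kernel))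
noncomputable def rh49f2159f6768bc7c : CRef := CRef.mk (Pat.mk 0x10000000300000001c0000000c00000000 0xc0000001e0000003c0000001c0000000f00000006 5 6) 0 0 (step_sound _ 33 [(rh53b3c253cb0c65f4.shift 0 1), (rh8c9d714d057b15c2.shift 1 0)] (by decide +kernel))
noncomputable def rh31b8fdce777d18e4 : CRef := CRef.mk (Pat.mk 0x8000000080000000c0000000800000000 0x1000000018000000080000001f0000007800000010 5 7) 0 0 (step_sound _ 132 [(rh2f68792b6b779e96.shift 3 1), rh42e615827c8908b1] (by decide +kernel))
noncomputable def rhde64d14c1aaebd33 : CRef := CRef.mk (Pat.mk 0x100000001a0000000e0000000000000000 0x2000000330000001f0000001e0000000400000004 5 6) 0 0 (step_sound _ 68 [(rh3244c3cc8379b070.shift 0 2), rh9458e878ee940312] (by decide +kernel))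
noncomputable def rh4bae17a3737c7fc2 : CRef := CRef.mk (Pat.mk 0x8000000080000000c000000060000000000000000 0x8000000180000003f0000003e0000001000000010 5 6) 0 0 (step_sound _ 100 [rh0c17f602ec019e20, (rh18965a982d73c794.shift 1 2)] (by decide +kernel))
noncomputable def rh6095a226209a05e8 : CRef := CRef.mk (Pat.mk 0x2000000020000000200000002000000000000000000000000 0x100000007000000070000000600000002000000060000000600000004 5 3) 0 0 (step_sound _ 192 [(rh50fbb5868c909700.shift 0 3), rh9e853c74263c2c6b] (by decide +kernel))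
noncomputable def rh06b0087d92eaf4aa : CRef := CRef.mk (Pat.mk 0xc000000080000000c0000000c00000000 0x20000000f0000003f0000007f0000000f00000002 5 7) 0 0 (step_sound _ 68 [(rh2612b4f73ba7c3b3.shift 1 1), rh29c69f5a26b9e730, (rh49fe441a135c9e9a.shift 0 1)] (by decide +kernel))
noncomputable def rh8e10826bef9e44cd : CRef := CRef.mk (Pat.mk 0x4000000000000000200000002000000020000000000000000 0x5000000070000000300000002000000060000000600000004 5 3) 0 0 (step_sound _ 161 [rh5ad9898cc32ef511, (rhbaefcd01e0a8bca3.shift 1 2)] (by decide +kernel))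
noncomputable def rhfed70eac6bc86d41 : CRef := CRef.mk (Pat.mk 0x40000000200000002000000020000000000000000 0x4000000060000000600000002000000030000000700000005 5 3) 0 0 (step_sound _ 33 [(rhbaefcd01e0a8bca3.shift 1 1), rheb0689193266b61e] (by decide +kernel))
noncomputable def rh0ecdd53d02b05e9f : CRef := CRef.mk (Pat.mk 0x1e0000001000000000 0x1800000018000000380000001f0000001800000018 5 6) 0 0 (step_sound _ 100 [(rh33e738c4ed385b9f.shift 1 2), rh4a104851dd48efee] (by decide +kernel))
noncomputable def rhfe23b61bbd853707 : CRef := CRef.mk (Pat.mk 0x40000000f00000000 0x7e0000007f000000e0 5 8) 0 0 (step_sound _ 36 [(rh9890f9d77740bbed.shift 0 1), (rhae8d21abc86b555a.shift 1 0), (rhb6f72982232a8164.shift 1 1)] (by decide +kernel))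
noncomputable def rhd625aee22ad6412d : CRef := CRef.mk (Pat.mk 0x3800000018000000000000000000000000 0xf0000003f0000007e000000060000000400000004 5 7) 0 0 (step_sound _ 98 [rh4ee3a9791379d30d, (rh53b3c253cb0c65f4.shift 1 3)] (by decide +kernel))
noncomputable def rh2fc30f3bf4bdbaa4 : CRef := CRef.mk (Pat.mk 0x20000000200000002000000060000000000000000 0x200000002000000030000000300000007000000070000000200000002 5 3) 0 0 (step_sound _ 193 [rh5baa46239919fe38, (rhd3458b32566d63f7.shift 1 2)] (by decide +kernel))
noncomputable def rh08a2f3b9ab8bb748 : CRef := CRef.mk (Pat.mk 0x2000000080000000c000000080000000000000000 0x100000001c0000001f0000000c0000000c0000000c0000000c00000004 5 5) 0 0 (step_sound _ 163 [(rh03dfdf12d5937476.shift 2 1), (rh6aa5625770489e83.shift 2 0), (rh7182140bdec2c358.shift 0 2)] (by decide +kernel))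
noncomputable def rhb766730d84069b16 : CRef := CRef.mk (Pat.mk 0x80000000e0000000b0000000000000000 0x10000000180000000f0000000b0000001e00000014 5 5) 0 0 (step_sound _ 132 [rh05342883a1fb985e, (rh53b3c253cb0c65f4.shift 0 3)] (by decide +kernel))
noncomputable def rh47e0a9b799fc3f54 : CRef := CRef.mk (Pat.mk 0x400000007000000018 0xce0000007f00000038 5 8) 0 0 (step_sound _ 35 [rh15a2b73944acc7e4, (rh33e738c4ed385b9f.shift 3 1)] (by decide +kernel))
noncomputable def rh8ebd26fbcb726e53 : CRef := CRef.mk (Pat.mk 0x8000000100000001c00000006 0x1800000018000000300000001f0000003e 5 6) 0 0 (step_sound _ 33 [(rh33e738c4ed385b9f.shift 1 1), rhddec593cad12bd8a] (by decide +kernel))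
noncomputable def rh38c5f33090b49f61 : CRef := CRef.mk (Pat.mk 0x3800000010 0x1c7000000ff000000fc 5 9) 0 0 (step_sound _ 34 [(rha03f6e28ea70fc7d.shift 1 0), rhd678aa3b45ecbc96, (rhe388d93a40face2b.shift 2 0)] (by decide +kernel))
noncomputable def rh6c8796be1c96b30a : CRef := CRef.mk (Pat.mk 0x200000002000000020000000200000000 0x400000006000000060000000200000006000000070000000700000001 5 3) 0 0 (step_sound _ 32 [rh932754581e0f4330, (rhac79635ca9d536ac.shift 0 1)] (by decide +kernel))
noncomputable def rh1c81dd0868462a7a : CRef := CRef.mk (Pat.mk 0x1c0000000c0000000000000000 0x2000000030000001f0000003f0000000400000004 5 6) 0 0 (step_sound _ 65 [(rh53b3c253cb0c65f4.shift 0 2), rhe211a5562844a99b] (by decide +kernel))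
noncomputable def rh444d7d405a119a95 : CRef := CRef.mk (Pat.mk 0x3800000018 0x7000000ff000000f8 5 8) 0 0 (step_sound _ 38 [(rh18965a982d73c794.shift 3 0), rhd8f1f2b4852c6cfd] (by decide +kernel))
noncomputable def rh222d888fd60cc765 : CRef := CRef.mk (Pat.mk 0x100000000800000038000000080000000000000000 0x1800000018000000380000001f0000000c00000004 5 6) 0 0 (step_sound _ 35 [(rhbaefcd01e0a8bca3.shift 3 1), rhde807367643436d4] (by decide +kernel))
noncomputable def rh291c00562ed26269 : CRef := CRef.mk (Pat.mk 0x40000000c000000040000000000000008 0x400000004000000040000003c0000000f0000000a00000008 5 6) 0 0 (step_sound _ 67 [(rh045eb03ae04c46fa.shift 0 1), (rh9e07f76261b05888.shift 2 0)] (by decide +kernel))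
noncomputable def rhf2d2137cae204fd2 : CRef := CRef.mk (Pat.mk 0x40000000c000000180000000800000000 0x180000003c0000000f000000780000001800000010 5 7) 0 0 (step_sound _ 69 [rhd2ff1294fee72422, (rhf48373e13d2bc128.shift 2 2)] (by decide +kernel))
noncomputable def rh95d9fb24a3f07dee : CRef := CRef.mk (Pat.mk 0x2000000060000000c0000000c0000000000000000 0x80000001b0000001e0000000c0000001c0000001800000018 5 5) 0 0 (step_sound _ 35 [rh3464ac1fa38557f1, (rh7b1f1fb55310c477.shift 2 0)] (by decide +kernel))
noncomputable def rh049e3c24586be4e8 : CRef := CRef.mk (Pat.mk 0x40000001e000000180000000800000000 0x60000003e0000001b0000000f00000006 5 6) 0 0 (step_sound _ 65 [rh0c95666b3d06010c, (rheb0810cc63b001d8.shift 0 2)] (by decide +kernel))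
noncomputable def rh5f05078d5830ba1b : CRef := CRef.mk (Pat.mk 0xc0000000e0000000000000000 0x8000000080000003f0000003e0000003000000010 5 6) 0 0 (step_sound _ 100 [(rh18965a982d73c794.shift 1 2), rhcbd57ce556df05bf] (by decide +kernel))
noncomputable def rh03f2f8f9607e7ba7 : CRef := CRef.mk (Pat.mk 0x160000001e000000000000000800000000 0x1800000018000000380000001e0000001f000000100000001800000018 5 6) 0 0 (step_sound _ 131 [(rh53b3c253cb0c65f4.shift 0 3), (rhf3b7fe2e34c75b3f.shift 1 0)] (by decide +kernel))
noncomputable def rh795777f307eda92b : CRef := CRef.mk (Pat.mk 0xc0000000c000000020000000000000000 0xc0000000c0000000c0000000c0000000f0000001e0000001c 5 5) 0 0 (step_sound _ 67 [rha39f043e4d7fd2d8, (rhe6002ac52d5b88c9.shift 1 1), (rhfc7c29d8e65d775f.shift 2 1)] (by decide +kernel))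
noncomputable def rhd5b99634dfe2752b : CRef := CRef.mk (Pat.mk 0x140000001e00000010000000080000000000000000 0x140000001e000000130000003e0000003a00000020 5 6) 0 0 (step_sound _ 68 [(rh932754581e0f4330.shift 3 1), rhbea8a1c5a3332e48] (by decide +kernel))
noncomputable def rhedb4d608a3c720b0 : CRef := CRef.mk (Pat.mk 0x40000003c00000000 0x3c0000007f00000070 5 7) 0 0 (step_sound _ 5 [rh48defdfe433a402b, (rhe25b0a99195a5d59.shift 2 0)] (by decide +kernel))
noncomputable def rh448c185d2cf81b25 : CRef := CRef.mk (Pat.mk 0x10000000180000000800000008 0x4000000040000007f0000007e0000000c00000008 5 7) 0 0 (step_sound _ 98 [(rh53dbd3431b01b25c.shift 1 1), rh5a73400300d93dfc, (rhbab796f6dafe9186.shift 2 0), (rhf8e4a327f3068606.shift 1 0)] (by decide +kernel))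
noncomputable def rhe440281e1f51eec9 : CRef := CRef.mk (Pat.mk 0x40000001c0000000000000000 0x400000004000000070000003e0000000300000002 5 6) 0 0 (step_sound _ 97 [rh3001434bc51a43e8, (rhf48373e13d2bc128.shift 1 2)] (by decide +kernel))
noncomputable def rh184d66895af61295 : CRef := CRef.mk (Pat.mk 0x20000000080000001800000018 0x20000000200000006e0000007f00000078 5 7) 0 0 (step_sound _ 34 [(rh56c25050c36f2711.shift 1 0), rh5ad8b227a394b7c1, rhad5d8fc3675c15dd] (by decide +kernel))
noncomputable def rh21040db9a7b64265 : CRef := CRef.mk (Pat.mk 0x3000000030000000e0000000200000000 0xc0000001f0000001b0000000e0000000600000004 5 5) 0 0 (step_sound _ 34 [(rh55afc6a59410cf00.shift 1 0), (rh57eff74f907e72e6.shift 0 1)] (by decide +kernel))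
noncomputable def rhcaebf3de2cb6cf33 : CRef := CRef.mk (Pat.mk 0x18000000080000000c0000001c 0x20000000780000003e0000007f0000001e 5 7) 0 0 (step_sound _ 36 [rh6f2cbab5a053ff72, (rhf9d36e158778ce35.shift 1 0)] (by decide +kernel))
noncomputable def rh77905f480ce68f46 : CRef := CRef.mk (Pat.mk 0x800000000000000060000000e00000000 0x8000000080000003e0000003f00000030 5 6) 0 0 (step_sound _ 36 [rhbcd52c91d552d530, (rhf48373e13d2bc128.shift 1 1)] (by decide +kernel))
noncomputable def rh1a7fb8cbc9114e79 : CRef := CRef.mk (Pat.mk 0x10000000180000000e00000008 0x20000000300000001f0000007e0000007e 5 7) 0 0 (step_sound _ 36 [(rh300eedc557b86950.shift 1 0), (rh6a5aad1075fb7119.shift 1 0), (rh870359598daa9f92.shift 0 1), rhd8d98eb6ec46d5f8] (by decide +kernel))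
noncomputable def rh56d924f8388e4bc6 : CRef := CRef.mk (Pat.mk 0x40000000e000000030000000a00000000 0x100000003c0000000e0000000b0000001e0000000c 5 6) 0 0 (step_sound _ 34 [(rhc22deff993a3faec.shift 1 0), (rhf48373e13d2bc128.shift 0 1)] (by decide +kernel))
noncomputable def rhc29f09fa821c16b1 : CRef := CRef.mk (Pat.mk 0xc0000000c0000000800000010 0x80000000f0000003f0000003800000010 5 6) 0 0 (step_sound _ 36 [(rh09fddc8e1606f2d8.shift 0 1), (rh2145e1d24b96a57e.shift 3 0)] (by decide +kernel))
noncomputable def rh1bd8298309534102 : CRef := CRef.mk (Pat.mk 0x80000000e000000000000000400000004 0x7f0000007e000000730000000600000004 5 7) 0 0 (step_sound _ 100 [rh04395309fba550d6, (rh6a5aad1075fb7119.shift 1 2), (rha93a5dd541ab8209.shift 1 2)] (by decide +kernel))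
noncomputable def rhd4398bbf2f753983 : CRef := CRef.mk (Pat.mk 0x120000001e000000000000000800000008 0x2000000030000001e0000003f000000040000000c00000008 5 6) 0 0 (step_sound _ 130 [(rhf48373e13d2bc128.shift 1 3), rhf536f6ccd488f809] (by decide +kernel))
noncomputable def rhf38efc5d82dd6ddb : CRef := CRef.mk (Pat.mk 0x7800000010 0x70000007e0000003e 5 7) 0 0 (step_sound _ 2 [(rh80fcd6d0a18cb2dd.shift 2 0), rhb2de7aa0384527c8] (by decide +kernel))
noncomputable def rh1ed17d822df4ce82 : CRef := CRef.mk (Pat.mk 0x400000004000000040000000c000000060000000000000000 0x400000004000000060000000f0000003c000000060000000400000004 5 6) 0 0 (step_sound _ 131 [rh14b948cf9e1d405c, (rh2145e1d24b96a57e.shift 2 3)] (by decide +kernel))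
noncomputable def rhf151867da92813fe : CRef := CRef.mk (Pat.mk 0x200000002000000020000000200000003 0x1000000030000000300000002000000060000001e00000007 5 5) 0 0 (step_sound _ 34 [rh1f79386945322159, (rh55afc6a59410cf00.shift 1 0)] (by decide +kernel))
noncomputable def rh9c619a461b43d31f : CRef := CRef.mk (Pat.mk 0x3000000030000000000000004 0x6000000070000000700000003000000030000000600000006 5 3) 0 0 (step_sound _ 33 [rhdc29ce31a7530d3c, rhfc7c29d8e65d775f] (by decide +kernel))
noncomputable def rh79a90556cd67da8d : CRef := CRef.mk (Pat.mk 0x4000000000000000f000000030000000000000000 0x40000001c0000000f0000001f0000001800000010 5 5) 0 0 (step_sound _ 67 [rh275df068cf7297df, (rhe25b0a99195a5d59.shift 0 2)] (by decide +kernel))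
noncomputable def rh57a97e0228fc1d6a : CRef := CRef.mk (Pat.mk 0x1800000008000000080000000800000000 0x40000003c0000000f000000080000000c0000000c 5 6) 0 0 (step_sound _ 130 [rh103adcb03926bc7f, (rh50fbb5868c909700.shift 2 1)] (by decide +kernel))
noncomputable def rh57310e96556fe28e : CRef := CRef.mk (Pat.mk 0xc0000000c000000080000000c00000000 0x20000000f0000007f0000003f0000000f00000002 5 7) 0 0 (step_sound _ 100 [(rh610267671e5c46ab.shift 0 2), rhbd3896373e9c15d1, (rhe2b63c00a3d7bb73.shift 0 3)] (by decide +kernel))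
noncomputable def rh5b2d970c17910f02 : CRef := CRef.mk (Pat.mk 0x4000000040000001c0000000800000008 0x1000000014000000370000001e0000001b0000000a 5 6) 0 0 (step_sound _ 100 [(rh69755ef358ebfd54.shift 3 0), rhe4d937a80d476d3f] (by decide +kernel))
noncomputable def rhc1c18abef92d2a14 : CRef := CRef.mk (Pat.mk 0xf00000004 0x700000007f000000fc 5 8) 0 0 (step_sound _ 36 [rh11aa37d4829402ae, (rh3fc3a7fb6866dcd4.shift 1 0), rh4ad5fc38f1b69f65, (rhfb69184a5e95e0cd.shift 1 0)] (by decide +kernel))
noncomputable def rh3ab931031846c706 : CRef := CRef.mk (Pat.mk 0x20000000200000002000000020000000000000000 0x4000000060000000600000002000000030000000700000005 5 3) 0 0 (step_sound _ 162 [(rh2f68792b6b779e96.shift 1 2), rhae8267178c83481d] (by decide +kernel))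
noncomputable def rh94571179a39a6e64 : CRef := CRef.mk (Pat.mk 0x40000001c000000000000000800000008 0x4000000370000001e000000330000001a0000000a 5 6) 0 0 (step_sound _ 97 [(rh1fbc9fee05401eba.shift 1 0), rh88129595a1b18399] (by decide +kernel))
noncomputable def rhe75dea9eacce1bfb : CRef := CRef.mk (Pat.mk 0x100000002000000020000000200000000 0x30000000300000002000000070000000700000005 5 3) 0 0 (step_sound _ 129 [(rh50fbb5868c909700.shift 0 1), rhce9a49803a550f13] (by decide +kernel))
noncomputable def rhc6512897c544e487 : CRef := CRef.mk (Pat.mk 0xc00000008000000080000000800000000 0x100000001f00000038000000080000000c0000000c 5 6) 0 0 (step_sound _ 132 [(rh2f68792b6b779e96.shift 3 1), rh7220791028024300] (by decide +kernel))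
noncomputable def rhcf2c15f1dd5017bb : CRef := CRef.mk (Pat.mk 0x4000000040000000e000000080000000800000000 0x1000000014000000360000001e0000001b0000000a00000002 5 6) 0 0 (step_sound _ 65 [(rhbd3560211fa7f71a.shift 0 1), (rhf9af042da61fc652.shift 1 0)] (by decide +kernel))
noncomputable def rhb6ab89e80271d358 : CRef := CRef.mk (Pat.mk 0x4000000040000000e000000180000000000000000 0x14000000370000001e0000001b0000000a00000008 5 6) 0 0 (step_sound _ 35 [(rh4f69161290e78322.shift 0 1), (rh7b1f1fb55310c477.shift 2 0)] (by decide +kernel))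
noncomputable def rhc9fe0bd4321b71a4 : CRef := CRef.mk (Pat.mk 0x8000000080000001c0000000400000000 0x40000000c0000000c0000003c0000000f0000000a 5 6) 0 0 (step_sound _ 33 [(rh18965a982d73c794.shift 1 1), rh75357fce5fdb03cd] (by decide +kernel))
noncomputable def rhfb54e35e573edc89 : CRef := CRef.mk (Pat.mk 0x1800000078000000100000000000000000 0x380000007f0000001e0000001000000010 5 7) 0 0 (step_sound _ 36 [(rh7b1f1fb55310c477.shift 3 0), (rhcef93a29c93c96c9.shift 0 2)] (by decide +kernel))
noncomputable def rh2a9fd0ace8c8ecc6 : CRef := CRef.mk (Pat.mk 0xc0000003c000000080000000000000000 0x100000001c0000003f000000780000000800000008 5 7) 0 0 (step_sound _ 35 [(rh7b1f1fb55310c477.shift 2 0), (rhd68b3c6982f2efc3.shift 0 1)] (by decide +kernel))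
noncomputable def rhe97a37752cb3e3e2 : CRef := CRef.mk (Pat.mk 0x100000003800000000 0x3be000001fe000001c7 5 10) 0 0 (step_sound _ 38 [rh7651a8b49df67a90, (rhc3f8d890a3bb80c0.shift 3 0), (rhe3060b190bc0bc78.shift 2 1)] (by decide +kernel))
noncomputable def rh3ae59fc487f1f27f : CRef := CRef.mk (Pat.mk 0x200000002000000020000000200000000 0x30000000300000002000000070000000700000005 5 3) 0 0 (step_sound _ 128 [(rh50fbb5868c909700.shift 0 1), rhce9a49803a550f13] (by decide +kernel))
noncomputable def rh2ada9617d70c0b74 : CRef := CRef.mk (Pat.mk 0x800000008000000080000001800000000 0xc0000000c000000080000000f0000003c00000004 5 6) 0 0 (step_sound _ 130 [rh01b78e5ef59799ae, (rh50fbb5868c909700.shift 2 1)] (by decide +kernel))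
noncomputable def rh47051c83af3a8861 : CRef := CRef.mk (Pat.mk 0x800000008000000380000000000000000 0x80000000f0000003e0000007700000004 5 7) 0 0 (step_sound _ 66 [(rh185f35b8bd8ec37f.shift 0 1), (rh9c548838e8725ba1.shift 0 1), (rhae036cc4ef671676.shift 1 0)] (by decide +kernel))
noncomputable def rh37816854459689de : CRef := CRef.mk (Pat.mk 0x10000000200000002000000020000000000000000 0x4000000070000000700000002000000030000000300000001 5 3) 0 0 (step_sound _ 33 [rh20966da26a1c2ae8, (rhffd04209dc8ea796.shift 0 1)] (by decide +kernel))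
noncomputable def rhade834efeba5196f : CRef := CRef.mk (Pat.mk 0x200000006000000030000000200000000 0x60000000600000006000000070000001e0000000c 5 5) 0 0 (step_sound _ 34 [(rh55afc6a59410cf00.shift 1 0), rhcfaf1cfbddc04afa] (by decide +kernel))
noncomputable def rhc66fad097d71a02d : CRef := CRef.mk (Pat.mk 0x400000002000000030000000200000000 0x1000000070000000700000002000000030000000700000004 5 3) 0 0 (step_sound _ 129 [(rh2f68792b6b779e96.shift 1 1), rhd02abaf16d860561] (by decide +kernel))
noncomputable def rh49085cc1db4b6aee : CRef := CRef.mk (Pat.mk 0x1c00000018 0x700000003f0000001f 5 7) 0 0 (step_sound _ 33 [rh40635836353d44db, rhb739f4f82bb681b4] (by decide +kernel))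
noncomputable def rhbe9602a3a460b7d5 : CRef := CRef.mk (Pat.mk 0xe0000000c000000000000000000000000 0x780000003e0000007f000000300000001000000010 5 7) 0 0 (step_sound _ 132 [(rh0b7a23fbde3c801e.shift 1 3), (rh4dc133ee0ba1420a.shift 0 3), rh573e0c66e6a11818, (rh81591a168fdda2f0.shift 1 3)] (by decide +kernel))
noncomputable def rh73d0cab49a921a35 : CRef := CRef.mk (Pat.mk 0x18000000100000003800000018 0x40000001e000000760000003f0000001f 5 7) 0 0 (step_sound _ 34 [rh583cd2949503eb8f, (rhafa88c550ea36308.shift 1 0), (rhec46bd5500c722c9.shift 1 1)] (by decide +kernel))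
noncomputable def rh153dc625dfb1e6fc : CRef := CRef.mk (Pat.mk 0x20000000200000002000000020000000000000000 0x4000000070000000700000002000000060000000600000004 5 3) 0 0 (step_sound _ 34 [(rhd3458b32566d63f7.shift 1 1), rhf67a62a20ac2f468] (by decide +kernel))
noncomputable def rh58ee83271d542edc : CRef := CRef.mk (Pat.mk 0x1e000000000000000000000000 0x200000002000000070000003e000000060000000400000004 5 6) 0 0 (step_sound _ 129 [(rh3244c3cc8379b070.shift 0 3), (rh5d114241629a05e6.shift 1 0)] (by decide +kernel))
noncomputable def rhcfb0ba73e719a504 : CRef := CRef.mk (Pat.mk 0x4000000000000000300000003000000000000000000000000 0x6000000060000000300000003000000070000000700000006 5 3) 0 0 (step_sound _ 161 [(rh1e309b005ffa1b36.shift 0 1), rh662eb0e511c11564] (by decide +kernel))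
noncomputable def rh2d099a7790034590 : CRef := CRef.mk (Pat.mk 0x20000003c00000010 0xe3000000ff00000018 5 8) 0 0 (step_sound _ 33 [(rh3244c3cc8379b070.shift 0 1), rhbfbca84ec1a53183] (by decide +kernel))
noncomputable def rh0c7885d546dce306 : CRef := CRef.mk (Pat.mk 0x8000000000000000c0000000e00000000 0x8000000080000003f0000007e00000070 5 7) 0 0 (step_sound _ 68 [(rh18965a982d73c794.shift 1 1), rh79d795d09f557974] (by decide +kernel))
noncomputable def rh4a349d43a93867c7 : CRef := CRef.mk (Pat.mk 0xc000000080000000c0000000800000000 0x100000001c000000780000001f0000000800000008 5 7) 0 0 (step_sound _ 132 [(rh2f68792b6b779e96.shift 3 1), rh74dfb1069b8ef18b] (by decide +kernel))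
noncomputable def rh743c9b3f24b6ee03 : CRef := CRef.mk (Pat.mk 0x200000002000000030000000700000000 0x40000000600000006000000070000001f0000001a 5 5) 0 0 (step_sound _ 130 [(rh2f68792b6b779e96.shift 1 1), rh80fcaaca440220e7] (by decide +kernel))
noncomputable def rh6cc4abf20248405b : CRef := CRef.mk (Pat.mk 0x2000000080000000f000000010000000000000000 0x20000000e0000000e0000000f0000001d0000000c0000000c 5 5) 0 0 (step_sound _ 67 [(rhe25b0a99195a5d59.shift 0 2), rhecdb04c7443210b0] (by decide +kernel))
noncomputable def rh6346549a2c766215 : CRef := CRef.mk (Pat.mk 0x4000000000000000e000000020000000000000000 0x4000000040000000c0000001f0000007a0000000800000008 5 7) 0 0 (step_sound _ 130 [(rh5c5e593799055d58.shift 1 2), rhc32688944b7f7dbb] (by decide +kernel))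
noncomputable def rhd507ea8799bfefb9 : CRef := CRef.mk (Pat.mk 0x1800000000000000100000001e00000000 0x280000003800000030000000130000001e00000030 5 6) 0 0 (step_sound _ 65 [(rh1ee7e6c03918bde1.shift 1 0), (rh3244c3cc8379b070.shift 0 1)] (by decide +kernel))
noncomputable def rh5af4d68923b5c928 : CRef := CRef.mk (Pat.mk 0x8000000000000001e00000014 0x1800000018000000300000001f0000001f 5 6) 0 0 (step_sound _ 3 [rh1b150e02c8dbe6e0, rhb739f4f82bb681b4] (by decide +kernel))
noncomputable def rha55067a0a50aff3b : CRef := CRef.mk (Pat.mk 0x800000008000000080000000800000000 0x40000001f0000007c000000080000000800000008 5 7) 0 0 (step_sound _ 130 [(rh50fbb5868c909700.shift 2 1), rhda62a374aa1dddc2] (by decide +kernel))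
noncomputable def rhe6af08b6db6b1e4b : CRef := CRef.mk (Pat.mk 0x7000000020 0x38e000001fe000001f7 5 10) 0 0 (step_sound _ 35 [rh30d0de1a76abc67c, (rha03f6e28ea70fc7d.shift 2 0), (rhe388d93a40face2b.shift 3 0)] (by decide +kernel))
noncomputable def rh1f7f7941cc017749 : CRef := CRef.mk (Pat.mk 0x70000000200000000000000010 0xe000001fe000001f70000001000000010 5 9) 0 0 (step_sound _ 99 [(rh30d0de1a76abc67c.shift 0 2), (rha03f6e28ea70fc7d.shift 2 2), (rhb6a065f8da5aeefb.shift 2 0)] (by decide +kernel))
noncomputable def rh442698779f0d964b : CRef := CRef.mk (Pat.mk 0x4000000040000000e000000080000000800000000 0x14000000360000001e0000007b0000001f00000002 5 7) 0 0 (step_sound _ 68 [rh26aa86d41d42ba83, (rh4a0b10776449c3e9.shift 1 2), rha45e9337bdf87adf] (by decide +kernel))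
noncomputable def rhdbc6315c3a213206 : CRef := CRef.mk (Pat.mk 0xe0000000c0000000400000000 0x600000006000000060000000e0000003c0000000f0000000a 5 6) 0 0 (step_sound _ 68 [rh22d83e6dd573ff4d, (rhf48373e13d2bc128.shift 1 2)] (by decide +kernel))
noncomputable def rh736967bd52c60815 : CRef := CRef.mk (Pat.mk 0x180000000c0000000c00000000 0xe0000000f0000001c0000000c0000000c00000008 5 5) 0 0 (step_sound _ 131 [(rh5c5e593799055d58.shift 2 1), rh9e3680845ae0253e] (by decide +kernel))
noncomputable def rha30f883f15c89951 : CRef := CRef.mk (Pat.mk 0x1e00000016000000040000000000000000 0x1000000010000000300000001f0000001e0000000c0000000400000004 5 6) 0 0 (step_sound _ 99 [(rh3244c3cc8379b070.shift 0 3), (rhd20cf5f59f4d085a.shift 1 0)] (by decide +kernel))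
noncomputable def rh59f49a3eec4c4198 : CRef := CRef.mk (Pat.mk 0x1000000000000000200000007000000000 0x1000000010000001f7000001fe0000000e 5 9) 0 0 (step_sound _ 35 [(rh778d3a81dc7805b1.shift 2 0), rhc0d3e82dfe617fcf, (rhec46bd5500c722c9.shift 2 1)] (by decide +kernel))
noncomputable def rhfa6769a4f47619f7 : CRef := CRef.mk (Pat.mk 0x600000002000000020000000300000000 0x300000003000000030000000600000006000000030000000300000002 5 3) 0 0 (step_sound _ 161 [(rh79877ebd3ef475dd.shift 0 1), rhbaebc0cc9cf01c79] (by decide +kernel))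
noncomputable def rh12717b0756106fb1 : CRef := CRef.mk (Pat.mk 0x800000000000000040000000e00000000 0x8000000180000003f0000003e00000030 5 6) 0 0 (step_sound _ 36 [(rh0c7ea8e21d1faf2f.shift 1 0), (rhe3060b190bc0bc78.shift 0 1)] (by decide +kernel))
noncomputable def rhf23058fa669ece74 : CRef := CRef.mk (Pat.mk 0xc0000000e00000008 0x10000000300000003f0000007e00000078 5 7) 0 0 (step_sound _ 68 [(rh18965a982d73c794.shift 1 1), rh700221d143fee73f] (by decide +kernel))
noncomputable def rhc593227a8ec8f04e : CRef := CRef.mk (Pat.mk 0x380000001000000010 0x20000000670000003e0000007700000010 5 7) 0 0 (step_sound _ 66 [(rh592c7139d2c44767.shift 0 1), (rha03f6e28ea70fc7d.shift 1 1), (rhbbda3e5cf400e6dd.shift 2 0)] (by decide +kernel))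
noncomputable def rh6f08c57c368a43fb : CRef := CRef.mk (Pat.mk 0x4000000000000001e0000000a 0x600000006000000030000003e0000003e 5 6) 0 0 (step_sound _ 4 [rhe22039bf13727556, (rhe25b0a99195a5d59.shift 1 0)] (by decide +kernel))
noncomputable def rh8386a58ada269d10 : CRef := CRef.mk (Pat.mk 0x4000000160000001000000000 0x400000004000000070000001e0000003300000002 5 6) 0 0 (step_sound _ 67 [rh04029d7e2e3adf1c, (rhe25b0a99195a5d59.shift 1 1)] (by decide +kernel))
noncomputable def rhf46683c0e5e522b9 : CRef := CRef.mk (Pat.mk 0x1000000000000000080000001c00000000 0x10000000100000007c000000ff00000060 5 8) 0 0 (step_sound _ 68 [rh45109dfe0da23a74, (rh5bb1369bbc51bc6b.shift 2 0), (rhab2ad169e49f9c5e.shift 0 1)] (by decide +kernel))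
noncomputable def rh2c6a315c9e5a1f9d : CRef := CRef.mk (Pat.mk 0x8000000080000001e00000006 0x30000000f0000003b0000001e00000006 5 6) 0 0 (step_sound _ 68 [(rh33e738c4ed385b9f.shift 1 1), rhc203f2247d99db91] (by decide +kernel))
noncomputable def rh952e5c36171cea6c : CRef := CRef.mk (Pat.mk 0x1000000008000000380000000800000000 0x100000007f0000003f0000006800000028 5 7) 0 0 (step_sound _ 100 [rh3aae8cd2ef12d99f, (rh71222050f2c63a3a.shift 3 0)] (by decide +kernel))
noncomputable def rh20fa8837cb09aa8c : CRef := CRef.mk (Pat.mk 0xc000000040000000c0000000400000000 0x1000000010000000100000003c0000001f0000000c0000000c00000004 5 6) 0 0 (step_sound _ 99 [(rh71222050f2c63a3a.shift 2 0), (rhc94509045ed9c4bf.shift 0 1)] (by decide +kernel))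
noncomputable def rhe9c748870063bd30 : CRef := CRef.mk (Pat.mk 0xe0000000c00000004 0x1000000018000000380000003e0000000f0000000c 5 6) 0 0 (step_sound _ 99 [rh15c20a83c4662461, (rh5c5e593799055d58.shift 2 0)] (by decide +kernel))
noncomputable def rhea0fe28ec5e58ae8 : CRef := CRef.mk (Pat.mk 0x1c0000003800000000 0x2000000020000000600000007c0000003f00000070 5 7) 0 0 (step_sound _ 34 [(rh84f481bf465139c4.shift 2 0), rhe153806bfe3acc65, (rhf9d36e158778ce35.shift 1 1)] (by decide +kernel))
noncomputable def rh839f3efd3accf3b8 : CRef := CRef.mk (Pat.mk 0x1e0000001a000000080000000000000000 0x200000002000000030000003e0000001e0000000c0000000800000008 5 6) 0 0 (step_sound _ 98 [(rh33e738c4ed385b9f.shift 1 3), rh4df0b66ac9a5a952] (by decide +kernel))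
noncomputable def rh55263462ef60c56f : CRef := CRef.mk (Pat.mk 0x1e0000000600000000 0x1000000010000000300000001f0000003e00000008 5 6) 0 0 (step_sound _ 36 [rh688b6edb741433ed, (rhe25b0a99195a5d59.shift 1 1)] (by decide +kernel))
noncomputable def rh99eb9182786c345b : CRef := CRef.mk (Pat.mk 0x80000000c000000060000000200000000 0x60000000f0000003c000000060000000600000004 5 6) 0 0 (step_sound _ 34 [(rh71222050f2c63a3a.shift 2 0), (rhd56db00674809b41.shift 0 1)] (by decide +kernel))
noncomputable def rh7112057f2d661c2e : CRef := CRef.mk (Pat.mk 0x10000000180000001c000000040000000000000000 0x120000001f0000001c0000000c0000000c0000000c 5 5) 0 0 (step_sound _ 35 [(rh9e3edb185cc347de.shift 3 1), rhedad3a56e453d4a1] (by decide +kernel))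
noncomputable def rhfbc8842918c75006 : CRef := CRef.mk (Pat.mk 0xe0000000400000008 0x10000000300000003f0000003f00000008 5 6) 0 0 (step_sound _ 68 [(rhaf9f2efc81a8312b.shift 0 1), rhfab75c4621a59c2e] (by decide +kernel))
noncomputable def rh92376b39062348f1 : CRef := CRef.mk (Pat.mk 0x400000004000000040000001c00000004 0x400000006000000070000003f0000001c00000004 5 6) 0 0 (step_sound _ 67 [(rh2145e1d24b96a57e.shift 2 1), rhfffc65e29fee7a84] (by decide +kernel))
noncomputable def rh24e98de1b235f302 : CRef := CRef.mk (Pat.mk 0x80000000a0000001e00000004 0x60000000f0000003a0000001e00000007 5 6) 0 0 (step_sound _ 1 [rh6a336740706270b1, rheb0810cc63b001d8] (by decide +kernel))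
noncomputable def rhba8d96aa51f537fc : CRef := CRef.mk (Pat.mk 0x1c0000000e00000000 0x200000002000000030000001f0000007e00000074 5 7) 0 0 (step_sound _ 36 [(rh0cb6a409506b34ea.shift 1 0), (rh695f888db18ad7c7.shift 1 0), rhe342e74196eab19c] (by decide +kernel))
noncomputable def rhc5a5777137d2c728 : CRef := CRef.mk (Pat.mk 0x1c0000000a00000000 0x1000000010000000380000001f0000000b00000008 5 6) 0 0 (step_sound _ 65 [rhd54c2617908b97c7, (rheb0810cc63b001d8.shift 0 1)] (by decide +kernel))
noncomputable def rh27ab7d96b8412d78 : CRef := CRef.mk (Pat.mk 0x600000007000000020000000200000000 0x190000001f00000007000000060000000600000004 5 5) 0 0 (step_sound _ 131 [(rh18965a982d73c794.shift 0 3), rhe43b4aaaf26647b5] (by decide +kernel))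
noncomputable def rh566eb1dd19a513b9 : CRef := CRef.mk (Pat.mk 0x6000000070000000200000002 0x200000003000000030000001f000000070000000600000002 5 5) 0 0 (step_sound _ 99 [(rh18965a982d73c794.shift 0 2), rh933f3ac7d57d09d8] (by decide +kernel))
noncomputable def rha81c2618e5626448 : CRef := CRef.mk (Pat.mk 0x40000000e000000100000000200000000 0x40000000f000000780000001f00000008 5 7) 0 0 (step_sound _ 67 [rh02794658cccf00d8, (rhb739f4f82bb681b4.shift 0 2)] (by decide +kernel))
noncomputable def rh13f6549e00735078 : CRef := CRef.mk (Pat.mk 0x1c00000016000000000000000000000000 0x6000000070000001f0000001e000000070000000600000002 5 5) 0 0 (step_sound _ 99 [(rh04029d7e2e3adf1c.shift 0 1), (rh12b3e7d1014f8218.shift 0 1), rhcfde16a7ff36af03] (by decide +kernel))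
noncomputable def rhb55025af278c7206 : CRef := CRef.mk (Pat.mk 0x20000000f00000004 0x1b0000003f00000076 5 7) 0 0 (step_sound _ 36 [(rh3244c3cc8379b070.shift 0 1), rh74d4d656fb784e22] (by decide +kernel))
noncomputable def rh2ce0597e345b4170 : CRef := CRef.mk (Pat.mk 0x20000001a0000000b000000000000000100000000 0x5000000050000000d0000000f0000001b0000000b0000000a0000000300000003 5 5) 0 0 (step_sound _ 162 [rhdf23c9fd8bfa40f3, (rhe1f2078909fd6fe3.shift 0 2), (rheae1012c426b8935.shift 1 2), (rhf2019483e9703d11.shift 0 2)] (by decide +kernel))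
noncomputable def rh5dd044a1fc18c168 : CRef := CRef.mk (Pat.mk 0x1c0000002400000000 0x200000002000000070000003e0000003400000004 5 6) 0 0 (step_sound _ 65 [rh6c918a7151ce5cb8, (rh96851dee118c1ba3.shift 1 1)] (by decide +kernel))
noncomputable def rh2ba10533b652c59d : CRef := CRef.mk (Pat.mk 0x6000000030000000400000000 0x1000000030000000300000006000000070000000700000004 5 3) 0 0 (step_sound _ 129 [(rh478c4cadbcd4e066.shift 1 0), (rh85a605aac6183f28.shift 0 1), rh94c570dcecc2e246] (by decide +kernel))
noncomputable def rh055e965eca6fb182 : CRef := CRef.mk (Pat.mk 0xc000000070000000800000000 0x20000000e0000000e0000000c000000070000003e0000000c 5 6) 0 0 (step_sound _ 34 [(rh32c58e03f09ef244.shift 2 0), (rh89ade209b3e28f13.shift 0 1), (rh93acef825b4343d6.shift 1 0)] (by decide +kernel))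
noncomputable def rh56cd7350293095e8 : CRef := CRef.mk (Pat.mk 0x600000006000000020000000200000000 0xa0000003e00000007000000060000000600000004 5 6) 0 0 (step_sound _ 34 [(rh3cb959d13ed9ca45.shift 0 1), (rh55afc6a59410cf00.shift 1 0)] (by decide +kernel))
noncomputable def rhd8a12d3b5f530cda : CRef := CRef.mk (Pat.mk 0x100000001c00000000 0x370000003e00000070 5 7) 0 0 (step_sound _ 33 [(rh33e738c4ed385b9f.shift 1 1), rh3947d1dfff0afc6c] (by decide +kernel))
noncomputable def rh0a9158bbf9bf8338 : CRef := CRef.mk (Pat.mk 0x4000000070000000180000000000000000 0x20000000280000006c0000007f000000380000001000000010 5 7) 0 0 (step_sound _ 99 [(rh38a0850c9fea941e.shift 2 0), (rh551a9ca0f9b08dd5.shift 0 2), (rha4c7650dd909b849.shift 2 0)] (by decide +kernel))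
noncomputable def rh603ed7b51569986f : CRef := CRef.mk (Pat.mk 0x100000001c00000002 0x1b0000001f0000003b 5 6) 0 0 (step_sound _ 33 [rha213947929d1259e, rheb0810cc63b001d8] (by decide +kernel))
noncomputable def rh6581462c250f8292 : CRef := CRef.mk (Pat.mk 0x400000007800000008 0x67000000ff00000018 5 8) 0 0 (step_sound _ 34 [(rh428265de8cd3cd2d.shift 2 1), rh53b7ce6480e4adea] (by decide +kernel))
noncomputable def rhb2c56db41580ca5c : CRef := CRef.mk (Pat.mk 0x1a0000001e00000000 0x1e000000fe000000e3 5 8) 0 0 (step_sound _ 37 [(rh3f8766e6ecb455ce.shift 1 1), rha5535e81987b32a5] (by decide +kernel))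
noncomputable def rhf3131809594041a9 : CRef := CRef.mk (Pat.mk 0x3000000180000000800000000 0x1c0000001e0000000f000000180000001800000010 5 5) 0 0 (step_sound _ 99 [(rhc10214bf3fe8094a.shift 0 2), rhff9488f1098ad9ac] (by decide +kernel))
noncomputable def rheb423d2aecc2203c : CRef := CRef.mk (Pat.mk 0x200000003000000020000000000000000 0x500000007000000070000000300000003000000030000000300000001 5 3) 0 0 (step_sound _ 161 [(rh03dfdf12d5937476.shift 0 1), rhc4526fc8abf298b6, (rhc85cc95794737cf7.shift 0 2), (rhd2c74283b7b6e6b8.shift 0 2)] (by decide +kernel))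
noncomputable def rh5861f303e21db104 : CRef := CRef.mk (Pat.mk 0x1c0000000400000004 0x200000002000000770000003e0000007400000004 5 7) 0 0 (step_sound _ 65 [rh1c1037cb5b3fe471, (rha93a5dd541ab8209.shift 1 1)] (by decide +kernel))
noncomputable def rh73a7f050659c6b57 : CRef := CRef.mk (Pat.mk 0x180000001e00000002 0x1b000000fe000000e6 5 8) 0 0 (step_sound _ 37 [rh131a9c3873f7ba3d, (rh80fcd6d0a18cb2dd.shift 1 0)] (by decide +kernel))
noncomputable def rh46ff75de96f7b437 : CRef := CRef.mk (Pat.mk 0x18000000180000000a0000001800000000 0x80000001800000018000000fb000000ff00000020 5 8) 0 0 (step_sound _ 68 [(rh50fbb5868c909700.shift 3 1), rhcc321edaf6e867ef] (by decide +kernel))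
noncomputable def rh9b308a25b356e959 : CRef := CRef.mk (Pat.mk 0x100000001a0000000c00000008 0x200000006000000370000001e0000000c0000000c 5 6) 0 0 (step_sound _ 66 [rh0bd5ecf4a3398dd5, (rh33e738c4ed385b9f.shift 1 2)] (by decide +kernel))
noncomputable def rha865f53758b15b39 : CRef := CRef.mk (Pat.mk 0x1a0000000e00000008 0x1b000000fe0000007c 5 8) 0 0 (step_sound _ 36 [(rh3244c3cc8379b070.shift 0 1), (rhc6919780d26a686c.shift 1 0)] (by decide +kernel))
noncomputable def rh1d2c153754206a16 : CRef := CRef.mk (Pat.mk 0xa00000008000000060000000500000000 0x70000000f0000001a000000060000000700000001 5 5) 0 0 (step_sound _ 97 [(rh2145e1d24b96a57e.shift 1 1), rheccc3d313762d6ee] (by decide +kernel))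
noncomputable def rh15d3e764d8d3f0a9 : CRef := CRef.mk (Pat.mk 0x80000001c000000070000000400000000 0x600000006000000060000000f0000001c000000070000003e00000008 5 6) 0 0 (step_sound _ 130 [(rh277b01412deaec89.shift 0 1), (rh623a731171d66e50.shift 1 1), rhb0c6196f710d9a93] (by decide +kernel))
noncomputable def rhe6a417bfa3e0f26e : CRef := CRef.mk (Pat.mk 0x400000006000000030000000600000000 0x200000002000000030000000700000007000000030000000700000004 5 3) 0 0 (step_sound _ 129 [(rh55afc6a59410cf00.shift 1 0), (rh779ca6482bfd6299.shift 0 1)] (by decide +kernel))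
noncomputable def rh5ac1b224de8fd3f8 : CRef := CRef.mk (Pat.mk 0x1a00000018 0x70000003e0000003f 5 6) 0 0 (step_sound _ 34 [rh97457c7ea50eb2c2, (rhe25b0a99195a5d59.shift 1 0)] (by decide +kernel))
noncomputable def rhe43cece8b4d25eeb : CRef := CRef.mk (Pat.mk 0x1a00000018 0x700000003e0000003f 5 7) 0 0 (step_sound _ 34 [rh40635836353d44db, (rhe25b0a99195a5d59.shift 1 0)] (by decide +kernel))
noncomputable def rh393f50b024d88137 : CRef := CRef.mk (Pat.mk 0x38000000100000000400000000 0x70000007e000000fe0000000400000004 5 8) 0 0 (step_sound _ 98 [(rh06db8ceda6269a47.shift 1 2), (rha03f6e28ea70fc7d.shift 1 2), rha07d2257d78bf998] (by decide +kernel))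
noncomputable def rhaf8848b531986964 : CRef := CRef.mk (Pat.mk 0x800000018000000080000000a00000000 0x800000008000000380000003f0000000e00000004 5 6) 0 0 (step_sound _ 34 [(rh932754581e0f4330.shift 2 0), (rhdf0df2f0929ca131.shift 0 1)] (by decide +kernel))
noncomputable def rh9e960590b8205d7e : CRef := CRef.mk (Pat.mk 0x1c000000080000000a00000010 0x80000003c0000000f0000003e00000030 5 6) 0 0 (step_sound _ 36 [(rh2145e1d24b96a57e.shift 3 0), rhd5a80ed044ea829f] (by decide +kernel))
noncomputable def rhc5cb6cc859a57772 : CRef := CRef.mk (Pat.mk 0x100000001c0000000a 0x1f0000003f0000001e 5 6) 0 0 (step_sound _ 37 [rh72ddbefe89b0241f, (rh80fcd6d0a18cb2dd.shift 1 0)] (by decide +kernel))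
noncomputable def rhd4af4e82df2adeb5 : CRef := CRef.mk (Pat.mk 0x100000003c00000000 0x1e0000007f00000070 5 7) 0 0 (step_sound _ 66 [(rh3244c3cc8379b070.shift 1 1), rhc2306452995c7da8] (by decide +kernel))
noncomputable def rh517307bc45ee289a : CRef := CRef.mk (Pat.mk 0xe00000001 0x700000003e00000073 5 7) 0 0 (step_sound _ 36 [(rh5c4e3b9267338a4f.shift 1 0), rh80fcd6d0a18cb2dd] (by decide +kernel))
noncomputable def rh16c7077617300364 : CRef := CRef.mk (Pat.mk 0x100000001c0000000200000000 0x400000004000000370000003e0000000200000002 5 6) 0 0 (step_sound _ 65 [(rh33e738c4ed385b9f.shift 1 2), rhaf661323c6e1d2ba] (by decide +kernel))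
noncomputable def rhee3d0890ab3a7d6a : CRef := CRef.mk (Pat.mk 0x380000000800000008 0x4000000040000007f0000003e0000000f00000008 5 7) 0 0 (step_sound _ 66 [(rh1c1037cb5b3fe471.shift 1 0), (rh4c622fddc53a5f99.shift 0 2), (rh7654d7b92c96fe12.shift 0 1)] (by decide +kernel))
noncomputable def rh139e2a32e9cd161f : CRef := CRef.mk (Pat.mk 0x1c0000000400000004 0x20000000a000000ff0000007e0000000400000004 5 8) 0 0 (step_sound _ 101 [rh415dafe8159bbbea, (rhb8022f71dc28021b.shift 1 2), (rhbbda6ce5fdbfe8e9.shift 1 0)] (by decide +kernel))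
noncomputable def rh7cb5b982a1f7ba7c : CRef := CRef.mk (Pat.mk 0x18000000080000000800000010 0x40000000f0000007c000000080000001800000010 5 7) 0 0 (step_sound _ 131 [(rhca405e350c462817.shift 0 1), (rhd3458b32566d63f7.shift 3 0)] (by decide +kernel))
noncomputable def rhfbd771d936c6609a : CRef := CRef.mk (Pat.mk 0xe00000010 0x70000003e00000037 5 6) 0 0 (step_sound _ 36 [rh5f7b3bfbaf903d4f, (rhe25b0a99195a5d59.shift 1 0)] (by decide +kernel))
noncomputable def rhc521a2dfead6757a : CRef := CRef.mk (Pat.mk 0x1c0000003c0000002000000000 0x1c0000001e0000001f0000001c0000003c0000002c00000004 5 6) 0 0 (step_sound _ 131 [(rh37d9ceebb86d75d1.shift 2 1), (rh4f89f797aa397115.shift 3 1), rhd1e32e33403ffb70] (by decide +kernel))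
noncomputable def rh04158c6564b35924 : CRef := CRef.mk (Pat.mk 0x80000000e00000010 0xe0000007e00000037 5 7) 0 0 (step_sound _ 36 [rhbc221e1a102c3bdc, (rhe25b0a99195a5d59.shift 1 0)] (by decide +kernel))
noncomputable def rhbc1e46933b5c42d5 : CRef := CRef.mk (Pat.mk 0x1e0000000200000000 0x400000004000000070000003e0000003200000002 5 6) 0 0 (step_sound _ 36 [rhaf661323c6e1d2ba, (rhe25b0a99195a5d59.shift 1 1)] (by decide +kernel))
noncomputable def rh6376d9bab352e16c : CRef := CRef.mk (Pat.mk 0xe0000000a00000000 0x1000000010000000300000001e0000003b00000008 5 6) 0 0 (step_sound _ 68 [(rh5c20e88f02f0c9cc.shift 1 0), (rheb0810cc63b001d8.shift 0 1)] (by decide +kernel))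
noncomputable def rhb93f5381508b6cd1 : CRef := CRef.mk (Pat.mk 0x120000001e0000000a00000000 0x14000000340000001e0000001f0000000a00000002 5 6) 0 0 (step_sound _ 99 [(rh53b3c253cb0c65f4.shift 0 2), (rhf12acb2a3ab3840e.shift 1 0)] (by decide +kernel))
noncomputable def rh62147b20ce599723 : CRef := CRef.mk (Pat.mk 0x1000000030000000280000000000000000 0x10000000100000001c0000007c0000002f0000000800000008 5 7) 0 0 (step_sound _ 164 [(rh2145e1d24b96a57e.shift 4 2), rh6ba71bd3f0c5a3b8] (by decide +kernel))
noncomputable def rh64d0cec9c30c03bf : CRef := CRef.mk (Pat.mk 0x180000001c000000040000000000000000 0x2000000020000001f0000001f000000040000000400000004 5 5) 0 0 (step_sound _ 97 [(rh53b3c253cb0c65f4.shift 0 3), rh5aaccf088493f334] (by decide +kernel))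
noncomputable def rhfc63d9a7482e2465 : CRef := CRef.mk (Pat.mk 0xc0000000c0000000a0000001800000000 0x80000000c0000000f0000001b0000001f00000002 5 5) 0 0 (step_sound _ 68 [(rh2145e1d24b96a57e.shift 3 1), rh3c2aa4c676dc45fc] (by decide +kernel))
noncomputable def rhd7a4c4c066e784ff : CRef := CRef.mk (Pat.mk 0xe0000000a00000000 0x1000000010000000380000001f0000000b00000008 5 6) 0 0 (step_sound _ 68 [rhd54c2617908b97c7, (rheb0810cc63b001d8.shift 0 1)] (by decide +kernel))
noncomputable def rh9cb1baa24be679bc : CRef := CRef.mk (Pat.mk 0x30000000200000002000000000000000000000000 0x5000000070000000600000002000000060000000600000004 5 3) 0 0 (step_sound _ 65 [(rh50fbb5868c909700.shift 0 2), (rh6c59ce14113da07f.shift 1 0)] (by decide +kernel))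
noncomputable def rh2291f67d5dae1743 : CRef := CRef.mk (Pat.mk 0xe00000006000000040000000400000000 0x300000003f0000003e0000000c0000000c00000008 5 6) 0 0 (step_sound _ 132 [(rh18965a982d73c794.shift 1 3), rh55971d098fc122af] (by decide +kernel))
noncomputable def rh3c6d61da915368b3 : CRef := CRef.mk (Pat.mk 0x80000000800000018000000140000000000000000 0x80000000e0000003e000000770000000400000004 5 7) 0 0 (step_sound _ 98 [(rhb5aebc126187b5a1.shift 1 1), (rhdf1028bdcc8bfa19.shift 0 2), (rhf9af042da61fc652.shift 2 0)] (by decide +kernel))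
noncomputable def rheeb39dbfbd046322 : CRef := CRef.mk (Pat.mk 0x40000000c0000000a 0xee0000007f0000003b 5 8) 0 0 (step_sound _ 36 [(rh47aee474a240d3ee.shift 1 1), rhd526f9b20c752965] (by decide +kernel))
noncomputable def rh9a0d4d6f390e20fe : CRef := CRef.mk (Pat.mk 0x80000000e0000000100000000 0x800000008000000080000001f0000003b00000010 5 6) 0 0 (step_sound _ 68 [rh5c7c2cfbe82ee90f, (rh80fcd6d0a18cb2dd.shift 0 1)] (by decide +kernel))
noncomputable def rh2f6e241f19106585 : CRef := CRef.mk (Pat.mk 0xc0000000e000000090000000000000000 0xc0000001e0000000b0000001e0000000e 5 5) 0 0 (step_sound _ 35 [(rh7b1f1fb55310c477.shift 2 0), rh83bb80c64f9f27ad] (by decide +kernel))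
noncomputable def rh21813610927c0a1b : CRef := CRef.mk (Pat.mk 0x18000000180000001000000000 0x180000001800000018000000380000001f0000000c 5 6) 0 0 (step_sound _ 131 [(rh2145e1d24b96a57e.shift 3 1), rh9182d06c5b964f41] (by decide +kernel))
noncomputable def rha741ced187085847 : CRef := CRef.mk (Pat.mk 0x20000001a0000000300000000000000010000000000000000 0x50000000f0000001b0000000300000002000000070000000700000004 5 5) 0 0 (step_sound _ 97 [rh29367e05abc1b745, (rh330a005829cdd297.shift 0 3), (rh374dff4f3719a414.shift 0 1)] (by decide +kernel))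
noncomputable def rhef803f7741d1b089 : CRef := CRef.mk (Pat.mk 0x1c00000010000000100000001000000000 0x3f0000001f000000300000001000000010 5 6) 0 0 (step_sound _ 99 [(rh67a2afc464f6d014.shift 0 2), (rh7b1f1fb55310c477.shift 3 0)] (by decide +kernel))
noncomputable def rh9eae795f67609286 : CRef := CRef.mk (Pat.mk 0x40000000c0000000c000000000000000000000000 0xc0000000c0000003c0000000f0000000e00000004 5 6) 0 0 (step_sound _ 67 [rh349e5a357b692685, (rh7b1f1fb55310c477.shift 2 1)] (by decide +kernel))
noncomputable def rhff182c8497d735e3 : CRef := CRef.mk (Pat.mk 0x280000000e000000000000000000000000 0x800000008000000680000003e0000003f0000001000000010 5 7) 0 0 (step_sound _ 100 [(rh84970c2ccb9fe470.shift 1 0), (rha3b69f5d63cf6454.shift 0 2)] (by decide +kernel))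
noncomputable def rhba0a3928c182bc59 : CRef := CRef.mk (Pat.mk 0x40000000e000000090000000000000000 0x40000001e0000000f0000001e0000000a 5 5) 0 0 (step_sound _ 65 [(rh18965a982d73c794.shift 0 2), rhdcb23b63f888217c] (by decide +kernel))
noncomputable def rh2b311fb351321abd : CRef := CRef.mk (Pat.mk 0x2000000038000000080000000000000000 0x14000000140000003f0000007e000000080000000800000008 5 7) 0 0 (step_sound _ 98 [(rh6c918a7151ce5cb8.shift 1 1), (rh7fb660bc21ce4329.shift 0 3), (rhd29496a0b66fc9ff.shift 1 0)] (by decide +kernel))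
noncomputable def rh732361783a6aa381 : CRef := CRef.mk (Pat.mk 0x100000001e000000040000000000000000 0x8000000080000001f0000001f000000040000000400000004 5 5) 0 0 (step_sound _ 131 [(rh53b3c253cb0c65f4.shift 0 3), rhb4ca93a306b8d63c] (by decide +kernel))
noncomputable def rh1e1c298343268b38 : CRef := CRef.mk (Pat.mk 0x100000001e000000040000000000000000 0x800000008000000180000001f0000000f0000000400000004 5 5) 0 0 (step_sound _ 65 [rha4c7650dd909b849, (rheb0810cc63b001d8.shift 0 2)] (by decide +kernel))
noncomputable def rh91f3397f5fb455c4 : CRef := CRef.mk (Pat.mk 0x140000001c000000080000000800000000 0x130000001f0000001c0000000c0000000c00000004 5 5) 0 0 (step_sound _ 131 [(rh2f68792b6b779e96.shift 3 1), rh4edb157f09354d7e] (by decide +kernel))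
noncomputable def rh4d1d2132774a7e45 : CRef := CRef.mk (Pat.mk 0x8000000080000000e0000000000000000 0x100000001c0000001c0000000c0000000c0000000f0000001a00000010 5 5) 0 0 (step_sound _ 162 [rh0f78e0f694da1d7a, (rh24e740d338799ad7.shift 1 1), (rh466a2277bc06011f.shift 2 2)] (by decide +kernel))
noncomputable def rhb1c18129679171f4 : CRef := CRef.mk (Pat.mk 0x400000004000000010000000e0000000000000000 0x10000000500000007000000030000001f0000000200000002 5 5) 0 0 (step_sound _ 97 [rh00038e3aab2bc85d, (rhf48373e13d2bc128.shift 0 2)] (by decide +kernel))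
noncomputable def rhc2abba98ac8ec4ca : CRef := CRef.mk (Pat.mk 0x8000000080000000900000018 0x140000001c0000001c000000080000000f00000018 5 5) 0 0 (step_sound _ 33 [rhc10214bf3fe8094a, (rhc85cc95794737cf7.shift 2 0)] (by decide +kernel))
noncomputable def rh26d887f3726e1abc : CRef := CRef.mk (Pat.mk 0x1800000010000000120000003400000000 0x180000001f0000001f0000003400000014 5 6) 0 0 (step_sound _ 99 [(rh7b1f1fb55310c477.shift 3 0), rhda9478efade17cc2] (by decide +kernel))
noncomputable def rhbafe1b71c35f72e2 : CRef := CRef.mk (Pat.mk 0x200000001000000010000000120000003400000000 0x200000003000000010000000100000001b0000003e00000007 5 6) 0 0 (step_sound _ 164 [(rh2f68792b6b779e96.shift 4 2), rh44759aa664900c04] (by decide +kernel))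
noncomputable def rhe652f201b0742df1 : CRef := CRef.mk (Pat.mk 0x80000001000000010000000120000003400000000 0x80000001800000010000000100000001b0000003e00000007 5 6) 0 0 (step_sound _ 164 [rh44759aa664900c04, (rh50fbb5868c909700.shift 3 2)] (by decide +kernel))
noncomputable def rhbdda2659d39caad2 : CRef := CRef.mk (Pat.mk 0xc000000080000000800000000 0x140000003c0000000f000000080000000800000008 5 6) 0 0 (step_sound _ 130 [(rh1f7c8c7ebf15f44e.shift 0 1), (rh7b1f1fb55310c477.shift 2 0)] (by decide +kernel))
noncomputable def rh00d02a897ebd199e : CRef := CRef.mk (Pat.mk 0x2000000030000000200000002 0x400000007000000070000000300000003000000030000000300000002 5 3) 0 0 (step_sound _ 129 [rh3ca48e2a6d60153d, (rh7a7e08304268422e.shift 0 1), (rha77f215723363df0.shift 0 1)] (by decide +kernel))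
noncomputable def rh29c945565e5d58c5 : CRef := CRef.mk (Pat.mk 0x8000000080000000a0000000800000000 0x800000008000000080000001b0000001f00000014 5 5) 0 0 (step_sound _ 36 [rh43696dd4ebb6926f, (rh55afc6a59410cf00.shift 3 0)] (by decide +kernel))
noncomputable def rh4bf7e4f2df228537 : CRef := CRef.mk (Pat.mk 0x1000000010000000100000001c00000000 0x1000000010000000170000003e00000027 5 6) 0 0 (step_sound _ 37 [(rh55afc6a59410cf00.shift 4 0), rh775ca1963e850b80] (by decide +kernel))
noncomputable def rh4d607de5a8c3e6ec : CRef := CRef.mk (Pat.mk 0x800000008000000080000000a00000000 0x800000008000000080000000f0000003e00000014 5 6) 0 0 (step_sound _ 34 [rh214f7b8225467f65, (rh932754581e0f4330.shift 2 0)] (by decide +kernel))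
noncomputable def rhc6bbd0f7fd4fbb7b : CRef := CRef.mk (Pat.mk 0xc000000080000000a000000000000000000000000 0xc0000000c0000001f0000007c0000001c00000014 5 7) 0 0 (step_sound _ 67 [(rha613ffd40b6c9d24.shift 2 0), (rhc486ae0fcc44be52.shift 0 1), (rhe4441baab75a6f73.shift 2 0)] (by decide +kernel))
noncomputable def rh4b0e85d5f2353e98 : CRef := CRef.mk (Pat.mk 0x1800000018000000140000000000000000 0x800000008000000180000001f0000003c0000000400000004 5 6) 0 0 (step_sound _ 163 [(rh2145e1d24b96a57e.shift 3 2), rhf53875c1e166dcb6] (by decide +kernel))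
noncomputable def rh55c7b0b41b27b1a9 : CRef := CRef.mk (Pat.mk 0x600000006000000050000000000000000 0x3000000030000000700000006000000070000000300000002 5 3) 0 0 (step_sound _ 161 [(rh2145e1d24b96a57e.shift 1 2), rh9309a626035d1b3b] (by decide +kernel))
noncomputable def rhd7fd758ba0d70678 : CRef := CRef.mk (Pat.mk 0x1c0000001c000000080000000800000000 0x30000001f0000001c0000000c0000001c00000014 5 5) 0 0 (step_sound _ 34 [(rh932754581e0f4330.shift 2 0), rhd67e7e690f8ff017] (by decide +kernel))
noncomputable def rh61f46f9091f0b9cb : CRef := CRef.mk (Pat.mk 0x8000000080000000e0000000400000000 0x4000000060000000f0000003c0000000e0000003e00000018 5 6) 0 0 (step_sound _ 130 [rh1c7377849cff9458, (rh5fd02d1ea8227619.shift 0 1), (rhb7aea7a74bead576.shift 1 0)] (by decide +kernel))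
noncomputable def rh479a591aadac29f9 : CRef := CRef.mk (Pat.mk 0xe0000001a0000000800000000 0x4000000040000000e0000000e0000001a0000000f00000006 5 5) 0 0 (step_sound _ 130 [(rh6e672cddce798f8b.shift 1 0), (rh8045a4749be85c44.shift 1 1), rhaee1b6b76f9e3678] (by decide +kernel))
noncomputable def rh6651af40f9af2978 : CRef := CRef.mk (Pat.mk 0xe0000001a000000080000000000000000 0xa0000001e0000001e0000000f0000000c0000000c 5 5) 0 0 (step_sound _ 35 [rh326bb5c62e94def2, (rhc705a4e0321a1bff.shift 2 0)] (by decide +kernel))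
noncomputable def rh8cdf08abeba9dc4e : CRef := CRef.mk (Pat.mk 0xa0000000c000000000000000400000000 0x2000000020000007a0000001f000000060000000400000004 5 7) 0 0 (step_sound _ 66 [(rh71222050f2c63a3a.shift 2 0), (rh7226533da7c31f0a.shift 0 1)] (by decide +kernel))
noncomputable def rha690ce9fcb5068d2 : CRef := CRef.mk (Pat.mk 0x400000006000000040000000200000000 0x80000003c0000000f000000040000000600000006 5 6) 0 0 (step_sound _ 34 [rh7d46edadae5d2a38, (rh932754581e0f4330.shift 1 0)] (by decide +kernel))
noncomputable def rh1c4a0c09e24b0f2e : CRef := CRef.mk (Pat.mk 0xe0000001a00000010 0x200000002000000030000003e0000001e00000034 5 6) 0 0 (step_sound _ 34 [(rhe25b0a99195a5d59.shift 1 0), rhfa0a1e0a8a93877a] (by decide +kernel))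
noncomputable def rh47590f78245f6767 : CRef := CRef.mk (Pat.mk 0xc000000080000000e0000000c 0x20000000f0000003b0000003e0000000f 5 6) 0 0 (step_sound _ 36 [rh4dc133ee0ba1420a, rhe27eb8489a333d1c] (by decide +kernel))
noncomputable def rh82d1df2ac73b6d40 : CRef := CRef.mk (Pat.mk 0x200000004000000050000000400000000 0x60000000600000004000000070000001e0000000a 5 5) 0 0 (step_sound _ 130 [(rh50fbb5868c909700.shift 1 1), rhac3d6389f960a17c] (by decide +kernel))
noncomputable def rhb1f079c0ff02d1da : CRef := CRef.mk (Pat.mk 0x80000001a0000000e0000000000000000 0x20000000b0000001e0000003e0000003400000014 5 6) 0 0 (step_sound _ 68 [rh197eac3645f3813e, (rh78974448101547fe.shift 1 0)] (by decide +kernel))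
noncomputable def rh566f1b45e7b7dce0 : CRef := CRef.mk (Pat.mk 0x80000001a0000000e0000000000000000 0x20000000b0000003e0000003e0000000400000004 5 6) 0 0 (step_sound _ 98 [rh03df0bf72897c3a4, (rh18965a982d73c794.shift 1 2)] (by decide +kernel))
noncomputable def rh2f2db4a0b163e025 : CRef := CRef.mk (Pat.mk 0x3000000020000000080000007000000000 0x70000003e0000006f0000000c0000007c0000000e 5 7) 0 0 (step_sound _ 131 [(rh2f90d0283ff8b6d8.shift 1 1), (rh463e175230fcd751.shift 1 0), (rh6c6cc8f59caab3aa.shift 0 3)] (by decide +kernel))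
noncomputable def rh0e2f66b9530a6012 : CRef := CRef.mk (Pat.mk 0x4000000040000000e000000000000000000000000 0xc0000000c0000003e0000000f0000000e0000000c 5 6) 0 0 (step_sound _ 66 [(rhca18712e5e5c7b8f.shift 2 0), (rhea6d74bc2b985bd7.shift 0 1)] (by decide +kernel))
noncomputable def rh16ef14085b2b6785 : CRef := CRef.mk (Pat.mk 0x1800000010000000140000001000000000 0x1e0000007f000000360000001000000010 5 7) 0 0 (step_sound _ 99 [(rh7b1f1fb55310c477.shift 3 0), (rha7c572416bb141da.shift 0 2)] (by decide +kernel))
noncomputable def rhcd0ab74adf624db3 : CRef := CRef.mk (Pat.mk 0x1c000000140000000000000000 0x2000000030000001e000000370000000400000004 5 6) 0 0 (step_sound _ 97 [rhb9dd680bb9375a9f, (rhe25b0a99195a5d59.shift 1 2)] (by decide +kernel))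
noncomputable def rh97da081bf21b385e : CRef := CRef.mk (Pat.mk 0x2000000020000000200000002000000020000000000000000 0x100000007000000060000000600000002000000060000000600000004 5 3) 0 0 (step_sound _ 162 [(rh2f68792b6b779e96.shift 1 2), rhd0c1377a218fed40] (by decide +kernel))
noncomputable def rhd79703ca2bead0c3 : CRef := CRef.mk (Pat.mk 0x1000000010000000140000003c00000000 0xb0000001e000000fc000000140000003e00000007 5 8) 0 0 (step_sound _ 131 [rh04a0a6d6a6d7ba9a, (rh50fbb5868c909700.shift 3 1)] (by decide +kernel))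
noncomputable def rh41f22c48721f59ee : CRef := CRef.mk (Pat.mk 0x140000001c0000000000000000 0x400000004000000370000001e0000000300000002 5 6) 0 0 (step_sound _ 65 [rh04029d7e2e3adf1c, (rh33e738c4ed385b9f.shift 1 2)] (by decide +kernel))
noncomputable def rhc1c1dc6967ad6567 : CRef := CRef.mk (Pat.mk 0x80000000a0000000e000000000000000000000000 0xa0000003a0000003e000000370000001400000004 5 6) 0 0 (step_sound _ 100 [rh5002fd5ca5291a69, (rh625dde73e665edc8.shift 1 1)] (by decide +kernel))
noncomputable def rh72b68a77e9600268 : CRef := CRef.mk (Pat.mk 0x80000000a0000000c00000000 0x800000008000000080000001b0000001f00000014 5 5) 0 0 (step_sound _ 131 [rh160d38d49b900fad, (rh932754581e0f4330.shift 2 0)] (by decide +kernel))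
noncomputable def rha6ec4829a59c38e2 : CRef := CRef.mk (Pat.mk 0x3000000028000000200000003000000000 0x280000007c0000006f0000003e0000003000000020 5 7) 0 0 (step_sound _ 131 [(rh2820ca9a6c4f41b4.shift 0 3), (rh7dbc6d4231be866c.shift 1 1), (rhdde0e1a78f5059ea.shift 2 0)] (by decide +kernel))
noncomputable def rh0de26a20b88d2e45 : CRef := CRef.mk (Pat.mk 0x40000000700000004000000000000000000000000 0x80000003c0000000f000000040000000e0000000e0000000a 5 6) 0 0 (step_sound _ 66 [(rh684e729394fba19d.shift 0 2), (rh8cdd36b03d57a2f6.shift 1 0)] (by decide +kernel))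
noncomputable def rhaec872ec404cf678 : CRef := CRef.mk (Pat.mk 0x80000001e000000180000000000000000 0x380000001e0000001f0000003000000030 5 6) 0 0 (step_sound _ 65 [(rh2d63caf237ebca99.shift 1 0), (rheb0810cc63b001d8.shift 0 2)] (by decide +kernel))
noncomputable def rh666963be1c07257b : CRef := CRef.mk (Pat.mk 0x4000000040000000e00000000 0x400000004000000740000003e00000007 5 7) 0 0 (step_sound _ 1 [rh09cd08bf7d5fae33, (rh5c5e593799055d58.shift 1 0)] (by decide +kernel))
noncomputable def rh2dd4785ad1851971 : CRef := CRef.mk (Pat.mk 0x40000000000000002000000020000000200000000 0x60000000600000002000000070000000700000005 5 3) 0 0 (step_sound _ 129 [(rhbaefcd01e0a8bca3.shift 1 1), rhce9a49803a550f13] (by decide +kernel))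
noncomputable def rh9c729286c00415e0 : CRef := CRef.mk (Pat.mk 0x800000004000000040000000600000000 0xc0000000c000000040000003c0000000f00000008 5 6) 0 0 (step_sound _ 130 [(rh2f68792b6b779e96.shift 2 1), rh3038ab5f74634e6d] (by decide +kernel))
noncomputable def rhfe4ee77e0002780a : CRef := CRef.mk (Pat.mk 0xc0000001c000000000000000000000000 0x40000003f0000001f000000030000000200000002 5 6) 0 0 (step_sound _ 129 [rhaecf007e95ea9630, (rhb739f4f82bb681b4.shift 0 3)] (by decide +kernel))
noncomputable def rh0db2da1274803b04 : CRef := CRef.mk (Pat.mk 0x30000000200000002000000040000000000000000 0x4000000070000000300000002000000070000000700000001 5 3) 0 0 (step_sound _ 65 [(rh55afc6a59410cf00.shift 1 1), rhfd8780583b3a591d] (by decide +kernel))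
noncomputable def rha46c6238824f0a07 : CRef := CRef.mk (Pat.mk 0x10000000180000000800000008 0x4000000040000007e000000fe0000000f00000008 5 8) 0 0 (step_sound _ 69 [(rh246bb6eff8175e68.shift 1 0), (rh2820ca9a6c4f41b4.shift 0 1), (rha83d0a1d851c6a27.shift 2 1)] (by decide +kernel))
noncomputable def rh982ddba9009dd54b : CRef := CRef.mk (Pat.mk 0xe00000002 0x300000003e00000077 5 7) 0 0 (step_sound _ 36 [(rh7bec90963910ddfd.shift 1 0), rheb0810cc63b001d8] (by decide +kernel))
noncomputable def rh30cc24978c78d09c : CRef := CRef.mk (Pat.mk 0x100000003c00000008 0x1f0000003f0000001e 5 6) 0 0 (step_sound _ 2 [rh72ddbefe89b0241f, (rheb0810cc63b001d8.shift 1 0)] (by decide +kernel))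
noncomputable def rhcd97354d95c8638e : CRef := CRef.mk (Pat.mk 0x1c00000016000000000000000000000000 0x40000001f0000003e000000030000000200000002 5 6) 0 0 (step_sound _ 129 [rh9bb455da33111465, (rhe25b0a99195a5d59.shift 1 3)] (by decide +kernel))
noncomputable def rh9caae4b1e9a8d708 : CRef := CRef.mk (Pat.mk 0x8000000000000001c00000016 0x1800000018000000300000001f0000003e 5 6) 0 0 (step_sound _ 33 [rh7bb83ee4d3f999ba, (rhe25b0a99195a5d59.shift 1 0)] (by decide +kernel))
noncomputable def rhdce28373eae47117 : CRef := CRef.mk (Pat.mk 0x4000000180000000c0000000000000000 0x4000000040000001c0000001f000000780000000c0000000800000008 5 7) 0 0 (step_sound _ 101 [(rh18965a982d73c794.shift 2 2), rhb77b11edaa200ee8] (by decide +kernel))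
noncomputable def rh4158fba5e578f86c : CRef := CRef.mk (Pat.mk 0x180000003800000000 0xf8000000ff00000007 5 8) 0 0 (step_sound _ 38 [rh06c30badca0e2643, (rhf48373e13d2bc128.shift 3 1)] (by decide +kernel))
noncomputable def rh677eec97b64b932a : CRef := CRef.mk (Pat.mk 0x80000000c0000000c0000001000000000 0x1c0000003c0000000f0000001800000018 5 6) 0 0 (step_sound _ 35 [rh0332da129f4e58ac, (rh55afc6a59410cf00.shift 3 0)] (by decide +kernel))
noncomputable def rhb851bb2d9a1bb6bd : CRef := CRef.mk (Pat.mk 0x2000000080000000c0000000400000000 0xe0000001f0000007c0000000c0000000c00000008 5 7) 0 0 (step_sound _ 131 [(rh5c5e593799055d58.shift 2 1), rh799a2147a4227d0c] (by decide +kernel))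
noncomputable def rh214f3bca0327aa94 : CRef := CRef.mk (Pat.mk 0x400000010000000180000000b0000000000000000 0x80000000c0000000c00000018000000180000001b0000001e0000001c 5 5) 0 0 (step_sound _ 35 [rh4dada0759b7e9b31, (rh71222050f2c63a3a.shift 3 0)] (by decide +kernel))
noncomputable def rh90505b7a95df56f7 : CRef := CRef.mk (Pat.mk 0x120000001e00000000 0x200000002000000030000001e0000003f00000004 5 6) 0 0 (step_sound _ 66 [rh305bae41965b54e2, (rhf48373e13d2bc128.shift 1 1)] (by decide +kernel))
noncomputable def rh622fb814d4d81162 : CRef := CRef.mk (Pat.mk 0x1000000038000000000000000000000000 0x1000000010000000170000003e000000770000002000000020 5 7) 0 0 (step_sound _ 98 [(rh0d378fd9e8917c5a.shift 0 2), (rh592c7139d2c44767.shift 0 2), (rh84970c2ccb9fe470.shift 2 0)] (by decide +kernel))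
noncomputable def rhd26afdb95a51b9ac : CRef := CRef.mk (Pat.mk 0x8000000180000000c0000000000000000 0x4000000040000001c0000001f000000780000000c0000000800000008 5 7) 0 0 (step_sound _ 101 [(rh18965a982d73c794.shift 2 2), rh4fa02edefd3dd027] (by decide +kernel))
noncomputable def rh1f89fe1fa0396ef4 : CRef := CRef.mk (Pat.mk 0x20000000200000002000000000000000000000000 0x400000006000000060000000600000003000000070000000700000005 5 3) 0 0 (step_sound _ 65 [(rh20966da26a1c2ae8.shift 0 1), (rh6c59ce14113da07f.shift 1 0), rh6eff4158bb400f47] (by decide +kernel))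
noncomputable def rhe1184ed7de424113 : CRef := CRef.mk (Pat.mk 0x1e00000012 0xe0000000ff0000001e 5 8) 0 0 (step_sound _ 3 [(rh1bd512052dde4f2d.shift 1 0), rhb739f4f82bb681b4] (by decide +kernel))
noncomputable def rh8db3639cf3f20581 : CRef := CRef.mk (Pat.mk 0x1400000070000000000000002000000020 0xf60000007e000000c70000006000000020 5 8) 0 0 (step_sound _ 99 [(rh1fbc9fee05401eba.shift 3 0), (rh89828354c362fe41.shift 0 2)] (by decide +kernel))
noncomputable def rh0efd06122c11d03d : CRef := CRef.mk (Pat.mk 0x4000000070000000400000000 0xa0000000e0000000e000000040000000f0000003c00000008 5 6) 0 0 (step_sound _ 130 [(rhc85cc95794737cf7.shift 1 1), rhd9397e4126e81439] (by decide +kernel))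
noncomputable def rhcf76227e399dda82 : CRef := CRef.mk (Pat.mk 0x1e0000000400000004 0x8000000080000003c0000001f0000000700000004 5 6) 0 0 (step_sound _ 33 [rh4c7411087d622b9c, (rheb0810cc63b001d8.shift 0 1)] (by decide +kernel))
noncomputable def rh1626414fc80454b9 : CRef := CRef.mk (Pat.mk 0x40000000e0000001c0000000000000000 0x80000000f0000003e0000001f0000003000000010 5 6) 0 0 (step_sound _ 100 [(rh4dc133ee0ba1420a.shift 0 2), rha8bcb4927b3d3cd5, (rhe3060b190bc0bc78.shift 0 3)] (by decide +kernel))
noncomputable def rhdb44bbcb1af3448c : CRef := CRef.mk (Pat.mk 0x2000000030000000200000002000000000000000400000000 0x200000003000000070000000600000006000000020000000600000006 5 3) 0 0 (step_sound _ 65 [(rh50fbb5868c909700.shift 0 2), (rh725f0051efd686b2.shift 1 0)] (by decide +kernel))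
noncomputable def rhffa6626333fb9695 : CRef := CRef.mk (Pat.mk 0x80000000c0000000800000000 0x800000008000000080000001f0000003c00000014 5 6) 0 0 (step_sound _ 131 [(rh03dfdf12d5937476.shift 2 0), rh0b0198cd56a23f60, (rh5969fc1db7f0e0cc.shift 2 0), rh763c912fff7511ee] (by decide +kernel))
noncomputable def rh789bd2867c112ed3 : CRef := CRef.mk (Pat.mk 0x2000000060000000200000002000000000000000400000000 0x200000006000000070000000300000003000000020000000600000006 5 3) 0 0 (step_sound _ 65 [(rh2f68792b6b779e96.shift 1 2), rh402d340225d74224] (by decide +kernel))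
noncomputable def rh86f63a2dc51cda1a : CRef := CRef.mk (Pat.mk 0x8000000180000000800000000 0x800000008000000080000003c0000001f00000014 5 6) 0 0 (step_sound _ 131 [rh04e877282bc382ca, rh0d35c975ee37cf45, (rh24d3f566c3de18ad.shift 2 0), (rhd4b4beefcd67f51e.shift 3 0)] (by decide +kernel))
noncomputable def rh04bda9fd528c2b12 : CRef := CRef.mk (Pat.mk 0x6000000020000000200000002000000000000000400000000 0x200000006000000070000000300000003000000020000000600000006 5 3) 0 0 (step_sound _ 65 [rh402d340225d74224, (rhbaefcd01e0a8bca3.shift 1 2)] (by decide +kernel))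
noncomputable def rhae6963f741337a93 : CRef := CRef.mk (Pat.mk 0x4000000060000000400000000 0x400000004000000040000000f0000003e0000000a 5 6) 0 0 (step_sound _ 130 [(rh03dfdf12d5937476.shift 1 0), rh66920cdd747eb116, rhfe15d25f0821986f] (by decide +kernel))
noncomputable def rh6e3dbae996527b3c : CRef := CRef.mk (Pat.mk 0x4000000040000001e00000008 0x100000003c0000003f0000001e00000008 5 6) 0 0 (step_sound _ 65 [(rh109640f491574d7e.shift 1 0), (rh3244c3cc8379b070.shift 0 1)] (by decide +kernel))
noncomputable def rh45df595d1ad06a3d : CRef := CRef.mk (Pat.mk 0x80000000c0000001800000000 0x100000001000000018000000780000001f0000001800000008 5 7) 0 0 (step_sound _ 65 [(rhb447be62e606bd33.shift 1 0), (rhb739f4f82bb681b4.shift 0 1)] (by decide +kernel))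
noncomputable def rhe57853ab57eb0f2c : CRef := CRef.mk (Pat.mk 0x40000000c000000040000003800000000 0x20000000f0000003e000000740000003e00000002 5 7) 0 0 (step_sound _ 129 [(rh75ea294132184f25.shift 0 3), (rh9194fc15b00cfe56.shift 1 0)] (by decide +kernel))
noncomputable def rh68a8056ad4449cd4 : CRef := CRef.mk (Pat.mk 0x3800000010000000100000003800000000 0x3c000000f0000001f7000000fe000001c7 5 9) 0 0 (step_sound _ 34 [(rh28aac2b3a6f7b41e.shift 2 0), rh592c7139d2c44767, (rhec46bd5500c722c9.shift 1 1)] (by decide +kernel))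
noncomputable def rh61e5bc5519caa3bb : CRef := CRef.mk (Pat.mk 0x800000008000000180000000e00000000 0x8000000080000001f000000fe000000f0 5 8) 0 0 (step_sound _ 36 [rh1960b7bea141c657, (rh55afc6a59410cf00.shift 3 0)] (by decide +kernel))
noncomputable def rhf8c9c2a754b51f59 : CRef := CRef.mk (Pat.mk 0x3800000010 0x70000007e000000ff 5 8) 0 0 (step_sound _ 34 [(rh06db8ceda6269a47.shift 1 0), rh775ca1963e850b80, (rha03f6e28ea70fc7d.shift 1 0), rhb2432c16363a7e8d] (by decide +kernel))
noncomputable def rh865d08e07bfd97af : CRef := CRef.mk (Pat.mk 0x180000001c0000001000000008 0x300000003000000030000000180000001f0000001800000008 5 6) 0 0 (step_sound _ 132 [(rh1f1124cdb70aa310.shift 0 1), (rh9e3edb185cc347de.shift 3 0)] (by decide +kernel))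
noncomputable def rhe66e63ebd0555c09 : CRef := CRef.mk (Pat.mk 0x80000001c000000020000000000000000 0x20000000b0000003e000000070000000400000004 5 6) 0 0 (step_sound _ 97 [rh97008031ef76f114, (rheb0810cc63b001d8.shift 0 2)] (by decide +kernel))
noncomputable def rh730e79d6750badce : CRef := CRef.mk (Pat.mk 0x80000001c00000010 0x1e0000007f0000001f 5 7) 0 0 (step_sound _ 37 [(rhe3060b190bc0bc78.shift 1 1), rhee41ea3ba0cbf52f] (by decide +kernel))
noncomputable def rh392f0d2e5cba5850 : CRef := CRef.mk (Pat.mk 0x8000000080000000c0000000000000000 0x100000001800000018000000180000000f0000003c0000001800000010 5 6) 0 0 (step_sound _ 163 [(rh0fc46964bf36b470.shift 0 1), (rh6c59ce14113da07f.shift 3 0), (rh9a369cb82ea472da.shift 2 2)] (by decide +kernel))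
noncomputable def rhc90b5dbafac5c9d8 : CRef := CRef.mk (Pat.mk 0xc00000008000000080000000800000000 0x100000003c0000000f000000080000000c0000000c 5 6) 0 0 (step_sound _ 98 [rh56d3171fc336fc95, (rh7b1f1fb55310c477.shift 2 0)] (by decide +kernel))
noncomputable def rh19e0adafe84a5e2e : CRef := CRef.mk (Pat.mk 0x1c00000004000000040000000e00000000 0x120000001e000000340000003c0000003f00000070 5 7) 0 0 (step_sound _ 68 [(rh1d48077d84cc1ebc.shift 1 0), (rh4021166e51d1fb8a.shift 0 1), (rh7dcd5319f4f71bec.shift 0 1)] (by decide +kernel))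
noncomputable def rh0a2ac98560ce45de : CRef := CRef.mk (Pat.mk 0x80000000800000018000000000000001000000000 0x18000000180000007c0000000f0000001c0000001c 5 7) 0 0 (step_sound _ 67 [(rh73329e8902d29e57.shift 2 0), (rh8f4050c06a082165.shift 3 0), (rhb0de455c382c5b1c.shift 0 1)] (by decide +kernel))
noncomputable def rh18b9fc92d3b717e4 : CRef := CRef.mk (Pat.mk 0x4000000040000000c0000000000000000 0x20000000600000006000000060000003c0000000f0000000600000002 5 6) 0 0 (step_sound _ 162 [(rh5bd4bc0c2c48140c.shift 1 2), (rh9657c25562dad1df.shift 0 1), (rhc4526fc8abf298b6.shift 1 0)] (by decide +kernel))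
noncomputable def rh81125b816b39ad72 : CRef := CRef.mk (Pat.mk 0x3000000020000000000000007800000000 0x70000003e0000007c0000000c000000780000000c 5 7) 0 0 (step_sound _ 130 [(rh174e40dcef10aa99.shift 1 1), (rh32d6d5f30900c50f.shift 2 0), (rhf762bcda196c9e5f.shift 0 3)] (by decide +kernel))
noncomputable def rhca16660e8b7b4cec : CRef := CRef.mk (Pat.mk 0x800000000000000040000000f00000000 0x800000008000000fc0000007f00000070 5 8) 0 0 (step_sound _ 36 [rh4e2e409ae54a82ac, (rh9890f9d77740bbed.shift 0 1), (rha93a5dd541ab8209.shift 1 0), (rhc3f8d890a3bb80c0.shift 1 0)] (by decide +kernel))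
noncomputable def rhd2de1ce8c1d8cf00 : CRef := CRef.mk (Pat.mk 0x200000002000000020000000200000000 0x5000000070000000600000002000000060000000600000004 5 3) 0 0 (step_sound _ 34 [(rh55afc6a59410cf00.shift 1 0), (rhcbc9db666e255849.shift 0 1)] (by decide +kernel))
noncomputable def rhf8437121ddf01094 : CRef := CRef.mk (Pat.mk 0x400000007000000040000000600000000 0x40000000f0000003e0000003f00000078 5 7) 0 0 (step_sound _ 35 [(rh55afc6a59410cf00.shift 2 0), rhaa91b64744410bc4] (by decide +kernel))
noncomputable def rhad42fb35214b7812 : CRef := CRef.mk (Pat.mk 0x380000001c000000100000001000000000 0x400000004000000070000003f0000007c000000180000003000000020 5 7) 0 0 (step_sound _ 37 [(rh09cecbb56272cec8.shift 0 2), (rh55afc6a59410cf00.shift 4 0)] (by decide +kernel))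
noncomputable def rh10d1778eab3cd4c6 : CRef := CRef.mk (Pat.mk 0x1c0000000e00000008 0x600000006000000070000001f0000003e00000008 5 6) 0 0 (step_sound _ 130 [(rh0e127fc81175aae6.shift 0 1), (rh6f1cbe15c631ee70.shift 2 0)] (by decide +kernel))
noncomputable def rh55e60302792fb64b : CRef := CRef.mk (Pat.mk 0x1e000000040000000000000000 0x800000008000000380000001f0000000c0000000400000004 5 6) 0 0 (step_sound _ 132 [rh325e64ab5f1edf02, (rh33e738c4ed385b9f.shift 1 3)] (by decide +kernel))
noncomputable def rh70df386839da8173 : CRef := CRef.mk (Pat.mk 0xc00000007000000040000000400000000 0xc0000007f0000003e0000000400000004 5 7) 0 0 (step_sound _ 99 [(rh71222050f2c63a3a.shift 2 0), (rhc6919780d26a686c.shift 0 2)] (by decide +kernel))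
noncomputable def rh7c06ca21cbea9275 : CRef := CRef.mk (Pat.mk 0xc0000000f00000004 0x8000000080000000e0000003f0000003e 5 6) 0 0 (step_sound _ 4 [rh96851dee118c1ba3, (rhdae3c159087517a8.shift 1 0)] (by decide +kernel))
noncomputable def rh203eeaf3c8b3b121 : CRef := CRef.mk (Pat.mk 0x1a0000001e0000000000000000 0x2000000330000001e0000003e0000000400000004 5 6) 0 0 (step_sound _ 98 [rh16ddc676cfb27a1e, (rhf48373e13d2bc128.shift 1 2)] (by decide +kernel))
noncomputable def rhe6743be51ea768bf : CRef := CRef.mk (Pat.mk 0x8000000380000001c0000000000000000 0xf0000003f0000003c0000000600000006 5 6) 0 0 (step_sound _ 98 [(rhba89ab7cb81bcc90.shift 0 2), (rhe2b63c00a3d7bb73.shift 0 2), (rhfaf1c550164acf9d.shift 1 0)] (by decide +kernel))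
noncomputable def rh30f50dcd5dc059cc : CRef := CRef.mk (Pat.mk 0xc0000000e000000080000000800000000 0xc0000001e0000007b0000001f00000006 5 7) 0 0 (step_sound _ 34 [rh1946672786d2d4df, (rh932754581e0f4330.shift 2 0)] (by decide +kernel))
noncomputable def rh5759d9c1c0335006 : CRef := CRef.mk (Pat.mk 0x180000000e00000018 0x30000000300000001f0000001e00000038 5 6) 0 0 (step_sound _ 36 [rha2b37da49d51aaf0, (rhe25b0a99195a5d59.shift 1 0)] (by decide +kernel))
noncomputable def rh1b62961e9504bdd7 : CRef := CRef.mk (Pat.mk 0x80000001e000000120000000000000000 0x20000000b0000003e000000160000001400000014 5 6) 0 0 (step_sound _ 66 [(rh18965a982d73c794.shift 1 2), rhaf94d02cceb17c14] (by decide +kernel))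
noncomputable def rh367f577d745ba07a : CRef := CRef.mk (Pat.mk 0x60000001e000000020000000000000000 0x60000001f0000003e0000000300000003 5 6) 0 0 (step_sound _ 68 [rha313e5a3965a1803, (rhe25b0a99195a5d59.shift 1 2)] (by decide +kernel))
noncomputable def rh5a41665339964b7d : CRef := CRef.mk (Pat.mk 0xc0000000e000000080000000c00000000 0x80000000c0000000e0000001b0000001f00000012 5 5) 0 0 (step_sound _ 36 [(rh55afc6a59410cf00.shift 3 0), rh7cdc0d12d032f0e7] (by decide +kernel))
noncomputable def rh49b95b9d667c2387 : CRef := CRef.mk (Pat.mk 0xc0000000e0000000000000000 0x8000000080000000f0000003f0000003800000010 5 6) 0 0 (step_sound _ 68 [rhb50b7a7e5bc2b52c, (rhe3060b190bc0bc78.shift 0 2)] (by decide +kernel))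
noncomputable def rh1986ad29b18dc9d4 : CRef := CRef.mk (Pat.mk 0x10000000600000007000000000000000000000000 0x300000003000000030000000600000007000000030000000300000003 5 3) 0 0 (step_sound _ 161 [(rh37d9ceebb86d75d1.shift 0 2), rh46d6183566ef1216, (rh5151f730a117c598.shift 0 2)] (by decide +kernel))
noncomputable def rhcde521a026efcdfa : CRef := CRef.mk (Pat.mk 0x38000000180000000000000000 0x4000000070000003f0000001f0000000800000008 5 6) 0 0 (step_sound _ 98 [(rhb915fcea497142c6.shift 0 2), (rhba89ab7cb81bcc90.shift 0 2), (rhf16166e16dbfa564.shift 1 0)] (by decide +kernel))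
noncomputable def rhee5340ae360403b6 : CRef := CRef.mk (Pat.mk 0x2000000160000001c000000000000000000000000 0xb0000001e0000001f000000300000001000000010 5 6) 0 0 (step_sound _ 131 [(rh3244c3cc8379b070.shift 0 4), rh7fe3849afaeeddfd] (by decide +kernel))
noncomputable def rhdf10431edb470062 : CRef := CRef.mk (Pat.mk 0x500000007000000020 0x77000001fe000001f0 5 9) 0 0 (step_sound _ 35 [(rh3bd77ad381b0c7ec.shift 3 0), (rha03f6e28ea70fc7d.shift 2 0), rhbfdaafe6cbbfd7f3] (by decide +kernel))
noncomputable def rh040ab19acf1ad50d : CRef := CRef.mk (Pat.mk 0x4000000040000001c000000000000000000000000 0x200000006000000060000001c0000000f0000000e0000000a 5 5) 0 0 (step_sound _ 66 [(rh46baee19951a66e7.shift 1 0), (rhc4526fc8abf298b6.shift 1 0), (rhfbf2eae4035425b6.shift 0 1)] (by decide +kernel))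
noncomputable def rh8680adb1fc683951 : CRef := CRef.mk (Pat.mk 0x100000002000000020000000e00000000 0x70000000700000006000000060000000e0000000a 5 4) 0 0 (step_sound _ 129 [(rh50fbb5868c909700.shift 0 1), (rh94d112e14e7db675.shift 1 0)] (by decide +kernel))
noncomputable def rhf0a88059f68a2c1c : CRef := CRef.mk (Pat.mk 0x200000003c000000100000000000000000 0x20000000ff0000003c0000001000000010 5 8) 0 0 (step_sound _ 36 [(rh71222050f2c63a3a.shift 4 0), (rh8a7e2ad037db1a90.shift 0 2)] (by decide +kernel))
noncomputable def rh211b21a6a0e098eb : CRef := CRef.mk (Pat.mk 0x1000000078000000280000000000000000 0x10000000f8000000780000001f00000008 5 8) 0 0 (step_sound _ 68 [(rh18965a982d73c794.shift 3 2), rh256e543a815a6d4c] (by decide +kernel))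
noncomputable def rh35bfc9cd57e21426 : CRef := CRef.mk (Pat.mk 0x4000000078000000200000000000000000 0x400000007e000000770000002000000020 5 7) 0 0 (step_sound _ 37 [(rh71222050f2c63a3a.shift 5 0), (rha0ae8adeb1dbcf8d.shift 0 2)] (by decide +kernel))
noncomputable def rh598f13c23c68daa6 : CRef := CRef.mk (Pat.mk 0x400000014000000140000000400000000 0xa0000000f0000001c000000140000001400000014 5 5) 0 0 (step_sound _ 131 [(rh2f68792b6b779e96.shift 2 1), rh66837eb0d9652cee] (by decide +kernel))
noncomputable def rh9abf52f0ca0e4187 : CRef := CRef.mk (Pat.mk 0x1c0000001c000000100000001000000000 0x400000004000000040000001c0000001f0000001a0000001800000008 5 5) 0 0 (step_sound _ 35 [(rh932754581e0f4330.shift 3 0), (rhd8ea9957838569ec.shift 0 1)] (by decide +kernel))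
noncomputable def rh4bd0022705776518 : CRef := CRef.mk (Pat.mk 0xe0000000e000000080000000800000000 0x20000000e0000000e0000003c0000000f00000006 5 6) 0 0 (step_sound _ 34 [(rh932754581e0f4330.shift 2 0), rhd9f38d00c87ab561] (by decide +kernel))
noncomputable def rh6a407878b8f12b5d : CRef := CRef.mk (Pat.mk 0x140000001c0000000000000000 0xc0000000c0000001c0000003f0000003700000012 5 6) 0 0 (step_sound _ 65 [rh4983c44f3a2eb597, rhec861ec1780c1825] (by decide +kernel))
noncomputable def rh0ff90647ca4cf789 : CRef := CRef.mk (Pat.mk 0x200000006000000120000000000000000 0x20000000600000006000000060000001e0000000700000007 5 5) 0 0 (step_sound _ 66 [rh1e5c947400197b91, (rh55a1f6c57a317ce6.shift 1 0), rh8124dcd7bfca2d26] (by decide +kernel))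
noncomputable def rhf59978a9a6a11423 : CRef := CRef.mk (Pat.mk 0x280000003800000018000000000000000000000000 0x3800000038000000380000001f0000001c00000008 5 6) 0 0 (step_sound _ 68 [(rh71222050f2c63a3a.shift 4 1), rhbfbe640d96d6aa18] (by decide +kernel))
noncomputable def rh6c6d07a2e8baec04 : CRef := CRef.mk (Pat.mk 0x1e000000060000000400000000 0x8000000080000001f0000003e0000003400000010 5 6) 0 0 (step_sound _ 68 [(rhe25b0a99195a5d59.shift 1 2), rhe82f19749b22633d] (by decide +kernel))
noncomputable def rheaefec6968dc4847 : CRef := CRef.mk (Pat.mk 0xf000000030000000200000000 0x40000001c0000000f0000001b0000001e00000018 5 5) 0 0 (step_sound _ 67 [rh50dd76a5815aa3e4, (rhe25b0a99195a5d59.shift 0 2)] (by decide +kernel))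
noncomputable def rh03765aa183ffec27 : CRef := CRef.mk (Pat.mk 0xe0000000600000004 0x800000008000000380000003f0000000e00000004 5 6) 0 0 (step_sound _ 68 [(rh18965a982d73c794.shift 1 1), rh1e803a780da5fd4e] (by decide +kernel))
noncomputable def rhdff11192f1b2345e : CRef := CRef.mk (Pat.mk 0x40000000c0000000c000000000000000000000000 0x2000000060000000e0000003c0000000f0000000e00000004 5 6) 0 0 (step_sound _ 66 [(rh674dd4f5f6cca5c0.shift 1 0), (rh7f2a49c2502589b3.shift 0 1)] (by decide +kernel))
noncomputable def rh077a892b2c2a0357 : CRef := CRef.mk (Pat.mk 0xb0000000f0000000000000000 0xc0000001c0000000f0000000f0000001c0000000c 5 5) 0 0 (step_sound _ 35 [rh9237e43f157d762c, (rhe25b0a99195a5d59.shift 0 1)] (by decide +kernel))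
noncomputable def rh350fae61fe0d2331 : CRef := CRef.mk (Pat.mk 0x300000007000000020000000200000000 0x1c0000001f00000007000000060000000600000004 5 5) 0 0 (step_sound _ 130 [(rh2f68792b6b779e96.shift 1 1), rha90ace3b4967360c] (by decide +kernel))
noncomputable def rh93a4d4c3a547f847 : CRef := CRef.mk (Pat.mk 0xe0000000c0000000000000000 0x200000002000000770000007e0000000c0000000400000004 5 7) 0 0 (step_sound _ 129 [(rha40d42a2e34c408d.shift 1 0), (rhcb054c600a87078d.shift 0 2)] (by decide +kernel))
noncomputable def rh0ec3d074a1c4dd03 : CRef := CRef.mk (Pat.mk 0x7000000060000000000000000 0x8000000380000003f0000003e0000000400000004 5 6) 0 0 (step_sound _ 99 [(rh226655e3fe6b4a8a.shift 0 2), rh2ae694e25f74369c, (rhaa3375a4cdea04ee.shift 0 2), (rhf5e124ec5c58a2dd.shift 0 2)] (by decide +kernel))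
noncomputable def rhaa0a2c2063f95363 : CRef := CRef.mk (Pat.mk 0xe0000000c0000000000000000 0x200000012000000370000001e0000003c0000000c0000000c 5 6) 0 0 (step_sound _ 100 [(rh2ae694e25f74369c.shift 1 0), rhd5889c99d29bf7d6] (by decide +kernel))
noncomputable def rh0ea61d18447d2745 : CRef := CRef.mk (Pat.mk 0x10000000100000001e00000018 0xc0000003c000000170000003e00000018 5 6) 0 0 (step_sound _ 65 [(rh3244c3cc8379b070.shift 0 1), (rh87df661bbaffebd1.shift 1 0)] (by decide +kernel))
noncomputable def rha18a36afa84014b3 : CRef := CRef.mk (Pat.mk 0x180000007800000020 0x1c0000001c0000001f00000038000000780000002c 5 7) 0 0 (step_sound _ 99 [(rh3ed9ffe6c1eb7294.shift 2 0), (rh9be513b18bc3ec68.shift 3 0), rhe2e9b1e85360a054] (by decide +kernel))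
noncomputable def rha554c4fbc1e2279b : CRef := CRef.mk (Pat.mk 0x4000000060000001c0000000800000008 0x100000003e000000360000001f0000003800000008 5 6) 0 0 (step_sound _ 100 [(rh006fb59e5a4558ab.shift 1 1), (rh5dec5e73a267a1c4.shift 0 1), (rh69755ef358ebfd54.shift 3 0)] (by decide +kernel))
noncomputable def rhaedf09f5a1add2eb : CRef := CRef.mk (Pat.mk 0x40000001c000000080000000000000000 0x10000000100000003c0000001f000000180000000800000008 5 6) 0 0 (step_sound _ 35 [(rh3230cb3d8d842a78.shift 0 1), (rh7b1f1fb55310c477.shift 2 0)] (by decide +kernel))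
noncomputable def rh82b9d3707a7a7a5f : CRef := CRef.mk (Pat.mk 0x2000000030000000f00000004 0xc0000001e0000001b0000000f0000001c 5 5) 0 0 (step_sound _ 3 [rh50cfa82f61bf1f99, rhe25b0a99195a5d59] (by decide +kernel))
noncomputable def rhd77fd6f32ccc9db0 : CRef := CRef.mk (Pat.mk 0x30000000f0000000c00000000 0xf0000001f000000070000000f0000000e0000000a 5 5) 0 0 (step_sound _ 129 [(rh2145e1d24b96a57e.shift 1 1), rh2e3eab673aa82be1] (by decide +kernel))
noncomputable def rhcaa5c4c939a3b777 : CRef := CRef.mk (Pat.mk 0x100000001e0000000000000000 0x800000008000000180000001f0000003300000010 5 6) 0 0 (step_sound _ 33 [rh4983c44f3a2eb597, (rheb0810cc63b001d8.shift 0 1)] (by decide +kernel))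
noncomputable def rh2af4a7c76f687c38 : CRef := CRef.mk (Pat.mk 0x1800000078000000080000000000000000 0x380000007f000000e80000000800000008 5 8) 0 0 (step_sound _ 35 [(rh71222050f2c63a3a.shift 3 0), (rhe74f96057964b96f.shift 0 2)] (by decide +kernel))
noncomputable def rh8812465fa2f7a23a : CRef := CRef.mk (Pat.mk 0x180000000e000000180000000000000000 0x30000000300000001f0000001e0000001f0000003000000030 5 6) 0 0 (step_sound _ 100 [(rha2b37da49d51aaf0.shift 0 2), rhee2f2527188aceae] (by decide +kernel))
noncomputable def rhd928ee29fce1d19b : CRef := CRef.mk (Pat.mk 0x100000001e00000018 0x30000000300000001f0000003e00000018 5 6) 0 0 (step_sound _ 65 [(rh3244c3cc8379b070.shift 0 1), (rh98b7c4761887259c.shift 1 0)] (by decide +kernel))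
noncomputable def rh19f7aa8f14294c50 : CRef := CRef.mk (Pat.mk 0x8000000080000000e0000000c 0x170000001f0000003a0000000e0000000c 5 6) 0 0 (step_sound _ 98 [rh4739f52aca242488, (rh50fbb5868c909700.shift 2 0)] (by decide +kernel))
noncomputable def rh9a6336ec530b5904 : CRef := CRef.mk (Pat.mk 0x4000000010000000f0000000400000000 0x700000007000000030000001f0000000600000002 5 5) 0 0 (step_sound _ 97 [rh61b5ccd5a9704a7e, (rhf48373e13d2bc128.shift 0 2)] (by decide +kernel))
noncomputable def rhae8c41a72f3ea647 : CRef := CRef.mk (Pat.mk 0x20000000e0000000800000000 0x400000004000000070000003e0000000b00000002 5 6) 0 0 (step_sound _ 68 [(rh3244c3cc8379b070.shift 0 2), rhb0c2c62f63c289c4] (by decide +kernel))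
noncomputable def rh13de50e15465e3c2 : CRef := CRef.mk (Pat.mk 0x1c0000000600000004 0x80000000a0000003f0000001f0000000600000004 5 6) 0 0 (step_sound _ 65 [rh309fd0c3d364cd61, rh4c7411087d622b9c] (by decide +kernel))
noncomputable def rhb3038b95fd1cbee8 : CRef := CRef.mk (Pat.mk 0x400000014000000040000001c00000000 0xa0000000f0000001c0000001c0000001c00000010 5 5) 0 0 (step_sound _ 131 [(rh2f68792b6b779e96.shift 2 1), rh75258bcdae870cc0] (by decide +kernel))
noncomputable def rhc6aaf8a5726020ab : CRef := CRef.mk (Pat.mk 0x300000007000000020000000000000000 0x6000000060000000700000007000000060000000600000002 5 3) 0 0 (step_sound _ 33 [(rh7ab09f375cd5d482.shift 1 1), rh7b1f1fb55310c477] (by decide +kernel))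
noncomputable def rh9ed26992548b4ebe : CRef := CRef.mk (Pat.mk 0x60000001e0000000000000000 0x400000004000000060000001f0000003b00000002 5 6) 0 0 (step_sound _ 36 [rhd8fd028f3f683295, (rhe25b0a99195a5d59.shift 1 1)] (by decide +kernel))
noncomputable def rh043bc1678f619ec5 : CRef := CRef.mk (Pat.mk 0x80000000e0000000c00000000 0x1c0000001c000000180000000f0000000c00000008 5 5) 0 0 (step_sound _ 131 [(rh5c5e593799055d58.shift 2 1), rh689ef61e4bf91e6d] (by decide +kernel))
noncomputable def rh317638de84cab6e9 : CRef := CRef.mk (Pat.mk 0x80000000e0000000c00000000 0xc0000000c0000003c0000000f0000000c00000008 5 6) 0 0 (step_sound _ 131 [rh12845aa71a6eb5ac, (rh5c5e593799055d58.shift 2 1)] (by decide +kernel))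
noncomputable def rh2fdae9fed29d7d13 : CRef := CRef.mk (Pat.mk 0x100000000e0000000c0000000000000000 0x4000000370000003e0000000c0000000800000008 5 6) 0 0 (step_sound _ 100 [(rh33e738c4ed385b9f.shift 1 3), rh7eb864e4e2865b39] (by decide +kernel))
noncomputable def rhb68950aa462b9074 : CRef := CRef.mk (Pat.mk 0x18000000180000000800000000 0xc0000000c0000000c000000180000007c0000000f00000004 5 7) 0 0 (step_sound _ 131 [(rh7b9fbdf6d2d059e4.shift 2 1), rh80650b8e93363f1e, (rh925a1628dd8a50da.shift 2 0)] (by decide +kernel))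
noncomputable def rhf49ce65645c98f45 : CRef := CRef.mk (Pat.mk 0x20000001a0000000e0000000400000000 0x80000000b0000001e0000003e0000003400000010 5 6) 0 0 (step_sound _ 98 [(rh11433ab998d7d753.shift 1 0), (rh3244c3cc8379b070.shift 0 3)] (by decide +kernel))
noncomputable def rh8dbe165f3df8eff4 : CRef := CRef.mk (Pat.mk 0x4000000060000001c0000000800000000 0x10000000340000003e0000001f0000000b00000002 5 6) 0 0 (step_sound _ 65 [(rh5245f99ce672d8bb.shift 0 1), rh9c40a739b57d6d20, rhd26776bf91d336b3] (by decide +kernel))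
noncomputable def rh79aadab0206114da : CRef := CRef.mk (Pat.mk 0x80000000400000004000000140000000000000000 0xc0000000c000000040000001c0000000f0000000a 5 5) 0 0 (step_sound _ 34 [rh15f443a9a462a99b, (rhbaefcd01e0a8bca3.shift 2 1)] (by decide +kernel))
noncomputable def rhfd9bff258e786a79 : CRef := CRef.mk (Pat.mk 0x20000001e00000004 0x2000000030000003e0000003f00000004 5 6) 0 0 (step_sound _ 68 [(rh33e738c4ed385b9f.shift 1 1), rh8236c88a764114ac] (by decide +kernel))
noncomputable def rh85aae64a7a5643b5 : CRef := CRef.mk (Pat.mk 0x100000000e0000000c0000000000000000 0x4000000370000003e0000000c0000000800000008 5 6) 0 0 (step_sound _ 100 [(rh33e738c4ed385b9f.shift 1 3), rhb4704b31e9978721] (by decide +kernel))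
noncomputable def rh31ec6f084612c9e8 : CRef := CRef.mk (Pat.mk 0x1c000000020000000000000000 0x2000000030000003e000000070000000400000004 5 6) 0 0 (step_sound _ 97 [rha812867386aecac6, (rheb0810cc63b001d8.shift 0 2)] (by decide +kernel))
noncomputable def rh6b0255a73ec27639 : CRef := CRef.mk (Pat.mk 0x400000004000000040000001e00000000 0x80000000c0000000c0000003c0000001f00000030 5 6) 0 0 (step_sound _ 68 [rh2f411bb559b57a2c, (rh33e738c4ed385b9f.shift 1 1)] (by decide +kernel))
noncomputable def rh7069d2c85215ff3f : CRef := CRef.mk (Pat.mk 0xc0000000c0000000400000000 0x60000000e0000000f0000003c0000000e0000000600000002 5 6) 0 0 (step_sound _ 131 [(rh5c5e593799055d58.shift 2 1), rhc26f75b0009aa44a] (by decide +kernel))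
noncomputable def rhbfa472c8b9599924 : CRef := CRef.mk (Pat.mk 0x1c0000000c000000000000000000000000 0x40000000c0000001c0000003f000000070000000600000004 5 6) 0 0 (step_sound _ 97 [(rh53b3c253cb0c65f4.shift 0 3), rhf1d8b8bf8fe4c6a6] (by decide +kernel))
noncomputable def rh34acf0675916da21 : CRef := CRef.mk (Pat.mk 0x6000000070000000000000000 0x4000000040000003e0000003f0000003800000008 5 6) 0 0 (step_sound _ 67 [(rh07e006e2762b0d4d.shift 0 2), (rh0cb6a409506b34ea.shift 0 1), rh1fc9a83231fa2929] (by decide +kernel))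
noncomputable def rhbeaa18741c03b4ee : CRef := CRef.mk (Pat.mk 0xc0000000e0000000000000000 0xc0000000c0000003c0000003e0000003700000012 5 6) 0 0 (step_sound _ 68 [(rh1fc9a83231fa2929.shift 1 0), rhcffb98d4c5aa625f] (by decide +kernel))
noncomputable def rh98566c88551f9101 : CRef := CRef.mk (Pat.mk 0x10000000100000001e0000001000000000 0x8000000380000001f0000003e0000001000000010 5 6) 0 0 (step_sound _ 97 [(rh3244c3cc8379b070.shift 0 2), (rh53930224ef8d2b8b.shift 1 0)] (by decide +kernel))
noncomputable def rh94fac57a5d0cb9dd : CRef := CRef.mk (Pat.mk 0x20000000300000003000000000000000000000000 0x300000003000000030000000300000003000000060000000600000006 5 3) 0 0 (step_sound _ 193 [(rh5c5e593799055d58.shift 0 3), rh799ef6644158bd5b] (by decide +kernel))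
noncomputable def rh3ea8001728d608b7 : CRef := CRef.mk (Pat.mk 0x180000001e00000018 0x38000000380000001f0000001e00000018 5 6) 0 0 (step_sound _ 99 [rh064d8acd4183ad75, (rh2145e1d24b96a57e.shift 3 0)] (by decide +kernel))
noncomputable def rhc4d33873add69d74 : CRef := CRef.mk (Pat.mk 0x80000001c0000001800000000 0x1800000018000000080000003c0000001f00000004 5 6) 0 0 (step_sound _ 131 [(rh2145e1d24b96a57e.shift 3 1), rhea91b5b6d9c8c5e9] (by decide +kernel))
noncomputable def rh78b5d49ab0d498b4 : CRef := CRef.mk (Pat.mk 0x180000001e00000018 0x18000000380000001f0000003e00000018 5 6) 0 0 (step_sound _ 99 [(rh2145e1d24b96a57e.shift 3 0), rh6391ced9b880e9b8] (by decide +kernel))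
noncomputable def rh6aeb88ae816778de : CRef := CRef.mk (Pat.mk 0x8000000070000000c00000000 0x80000000c0000000c0000003e000000070000000e00000008 5 6) 0 0 (step_sound _ 98 [(rh7e653527db30a532.shift 1 0), (rh80f90a60d87caa0d.shift 0 2)] (by decide +kernel))
noncomputable def rh3e06362985c4d61e : CRef := CRef.mk (Pat.mk 0x100000001e000000000000000000000000 0x4000000040000001e0000007f000000070000000200000002 5 7) 0 0 (step_sound _ 65 [rha248679c8c70f575, (rheb0810cc63b001d8.shift 0 2)] (by decide +kernel))
noncomputable def rh2d6a5ccf7920951b : CRef := CRef.mk (Pat.mk 0x40000000d0000000f00000000 0x600000006000000060000000f0000001f00000005 5 5) 0 0 (step_sound _ 65 [rh1cfde5e461caf7c8, (rhf48373e13d2bc128.shift 0 1)] (by decide +kernel))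
noncomputable def rh79a00dda177b905b : CRef := CRef.mk (Pat.mk 0x1800000038000000000000000800000000 0x1f0000003f000000070000000c0000000c 5 6) 0 0 (step_sound _ 98 [(rh70d8af94cc7ffa15.shift 0 3), (rh80d989ad9265e9fa.shift 1 0), (rhcc2be1f880c5ea3e.shift 0 2)] (by decide +kernel))
noncomputable def rhb37afb3435e351bf : CRef := CRef.mk (Pat.mk 0x80000000c0000001800000008 0x140000003c0000000f0000007800000008 5 7) 0 0 (step_sound _ 37 [rh20ee5c2c4c3a9878, (rhf48373e13d2bc128.shift 2 1)] (by decide +kernel))
noncomputable def rhb33330df6f1365b1 : CRef := CRef.mk (Pat.mk 0xc00000006000000040000000400000000 0x60000003e000000070000000c0000000c00000008 5 6) 0 0 (step_sound _ 129 [(rh50fbb5868c909700.shift 1 1), rh6f9771bcc966834d] (by decide +kernel))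
noncomputable def rha3865d5fab792e26 : CRef := CRef.mk (Pat.mk 0x1c00000008000000080000000c00000000 0x80000001f0000001b000000380000001f00000018 5 6) 0 0 (step_sound _ 97 [rh54968f8c0e71a67e, rhed7143d28310f0d3] (by decide +kernel))
noncomputable def rhaee3a92ea0afaa04 : CRef := CRef.mk (Pat.mk 0x40000001c0000000400000000 0x80000000c0000000c000000040000001e0000000f0000000a 5 5) 0 0 (step_sound _ 130 [(rh22cde4a1aed087ae.shift 2 1), (rhb7ee8905496f843d.shift 1 0), rhfbf2eae4035425b6] (by decide +kernel))
noncomputable def rh62c4dc930f46e8f7 : CRef := CRef.mk (Pat.mk 0x80000000800000008000000080000000c0000000000000000 0x8000000080000001800000018000000180000001f0000000800000008 5 5) 0 0 (step_sound _ 100 [(rh55afc6a59410cf00.shift 3 2), rhf5b9771386dae5ad] (by decide +kernel))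
noncomputable def rhef71ad58160ef3a0 : CRef := CRef.mk (Pat.mk 0xc00000008000000080000000c 0x130000003f0000003f0000000c0000000c 5 6) 0 0 (step_sound _ 100 [(rh2f68792b6b779e96.shift 3 0), rhed9fa2a4bcc848be] (by decide +kernel))
noncomputable def rh07794fa67ad472b2 : CRef := CRef.mk (Pat.mk 0x1c00000008000000080000000800000000 0x30000003f0000003f0000000c0000000c00000004 5 6) 0 0 (step_sound _ 34 [(rh932754581e0f4330.shift 2 0), (rhed9fa2a4bcc848be.shift 0 1)] (by decide +kernel))
noncomputable def rhb5b123beaf1935eb : CRef := CRef.mk (Pat.mk 0x400000002000000020000000200000000 0x1000000070000000700000002000000060000000600000004 5 3) 0 0 (step_sound _ 129 [(rh2f68792b6b779e96.shift 1 1), rh8065c10b3cae6218] (by decide +kernel))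
noncomputable def rhc5ce58e1919d8f72 : CRef := CRef.mk (Pat.mk 0xe00000004000000040000000400000000 0x300000003f0000003f0000000c0000000c00000008 5 6) 0 0 (step_sound _ 35 [(rh55afc6a59410cf00.shift 2 0), (rhe1e2ed3c138a9421.shift 0 1)] (by decide +kernel))
noncomputable def rhfd7f936d46f69e7f : CRef := CRef.mk (Pat.mk 0x200000006000000060000000200000000 0x40000000600000006000000070000003e0000000c 5 6) 0 0 (step_sound _ 34 [(rh7b1f1fb55310c477.shift 1 0), rhfa2e681ef328425e] (by decide +kernel))
noncomputable def rh324ff6f9d7421747 : CRef := CRef.mk (Pat.mk 0xe0000001c000000000000000000000000 0xf0000007e0000001f000000300000001000000010 5 7) 0 0 (step_sound _ 132 [(rh771383521b68d2cd.shift 0 3), rh7fe3849afaeeddfd, (rhab2ad169e49f9c5e.shift 0 3)] (by decide +kernel))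
noncomputable def rhf8ebcda9439dcbb4 : CRef := CRef.mk (Pat.mk 0x80000001800000018000000000000001000000000 0x40000000f0000007c00000018000000080000001800000018 5 7) 0 0 (step_sound _ 67 [(rh9b4df57cddcda711.shift 3 0), (rhca405e350c462817.shift 0 2)] (by decide +kernel))
noncomputable def rha1910e9007d5fcfc : CRef := CRef.mk (Pat.mk 0x40000000c0000000c0000000800000000 0x80000000a0000000f0000003c0000001c0000001c00000014 5 6) 0 0 (step_sound _ 131 [(rh0ff7ca71cb891e23.shift 2 0), rh370af384ddd2082c, (rhea7a1800d6f053bd.shift 2 0)] (by decide +kernel))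
noncomputable def rh315295d3498f2211 : CRef := CRef.mk (Pat.mk 0xe0000002c0000000000000000 0x200000002000000070000007e0000006c0000000400000004 5 7) 0 0 (step_sound _ 100 [(rhbca71ab025ef4262.shift 2 2), rhd5889c99d29bf7d6] (by decide +kernel))
noncomputable def rhd34d3c3f5780ccdd : CRef := CRef.mk (Pat.mk 0x800000018000000180000000000000000 0x40000000f000000ff0000001f0000000800000008 5 8) 0 0 (step_sound _ 101 [rh1e6db4fed28ca580, (rh4dc133ee0ba1420a.shift 1 2), (rhb762f327c85d41a0.shift 2 2)] (by decide +kernel))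
noncomputable def rh97e0e4cadca5618d : CRef := CRef.mk (Pat.mk 0xc0000000c000000040000000400000000 0xc0000000c0000000f0000003e0000003a 5 6) 0 0 (step_sound _ 33 [(rh932754581e0f4330.shift 1 0), rhece16f90c09cfc87] (by decide +kernel))
noncomputable def rhdbdcdf99c21cf24d : CRef := CRef.mk (Pat.mk 0x2c0000000e000000000000000000000000 0x4000000040000006c0000007e000000070000000200000002 5 7) 0 0 (step_sound _ 100 [rh3423e5ac208fb65b, (rheff610e725081997.shift 2 3)] (by decide +kernel))
noncomputable def rh620e9bc22f574d81 : CRef := CRef.mk (Pat.mk 0x1c00000038000000000000000000000000 0x140000003c0000003f0000000f0000000c0000000c 5 6) 0 0 (step_sound _ 98 [(rh0e1512cbacfbd48b.shift 0 2), (rhab2ad169e49f9c5e.shift 0 3), (rhac9cbcbee43d660a.shift 1 0)] (by decide +kernel))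
noncomputable def rh17d56540389a38a4 : CRef := CRef.mk (Pat.mk 0x180000001c000000000000000000000000 0xf0000007f0000007c000000060000000400000004 5 7) 0 0 (step_sound _ 133 [(rh18965a982d73c794.shift 2 3), rha63760247f93a8c8] (by decide +kernel))
noncomputable def rh783c74fd45f4aff5 : CRef := CRef.mk (Pat.mk 0x1000000010000000180000001800000000 0x1000000010000000f8000000ff00000027 5 8) 0 0 (step_sound _ 37 [rh23070a1f15e38fa9, (rh55afc6a59410cf00.shift 4 0)] (by decide +kernel))
noncomputable def rh514ffdc208a38878 : CRef := CRef.mk (Pat.mk 0x1000000010000000180000001800000000 0x80000001800000018000000380000003f00000026 5 6) 0 0 (step_sound _ 37 [rh4dde18cb6dee16c9, (rh55afc6a59410cf00.shift 4 0)] (by decide +kernel))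
noncomputable def rh96285023cc78081c : CRef := CRef.mk (Pat.mk 0x20000000300000001000000010 0x800000008000001ef000000fe000001df00000010 5 9) 0 0 (step_sound _ 67 [rh6da00715e09dd404, (rha11dfd15f08f96e3.shift 2 2), (rhbb0d784aa99aa5e4.shift 2 0), (rhc50f11260b687fdd.shift 1 0), (rhf2cc7d47ec58b7ff.shift 0 1)] (by decide +kernel))
noncomputable def rhc8207e4ebf4fc306 : CRef := CRef.mk (Pat.mk 0x3800000010000000100000000000000000 0xc0000000c000000fe0000007e0000001f0000000c00000008 5 8) 0 0 (step_sound _ 99 [(rh0f936b2c74e7b815.shift 2 2), (rh4dc133ee0ba1420a.shift 1 3), rh95477202962e8ef9] (by decide +kernel))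
noncomputable def rha3dc767376265489 : CRef := CRef.mk (Pat.mk 0x100000001000000038000000000000000000000000 0x10000000770000003e000000670000002000000020 5 7) 0 0 (step_sound _ 98 [(rh2588bdc66826497d.shift 1 0), (rh775ca1963e850b80.shift 0 2), (rhec46bd5500c722c9.shift 1 3)] (by decide +kernel))
noncomputable def rh43d1d645e0bc9f3f : CRef := CRef.mk (Pat.mk 0x1000000018000000180000000800000000 0x80000000800000018000000180000003c0000001f00000014 5 6) 0 0 (step_sound _ 131 [(rh3cb04db3dd2b6a55.shift 3 0), rh51f5a245ef7eb6cb, (rhbd1553ade3ecbf42.shift 2 0)] (by decide +kernel))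
noncomputable def rh2fb40929dde8459b : CRef := CRef.mk (Pat.mk 0x600000006000000020000000200000000 0x200000002000000020000000600000006000000070000000700000005 5 3) 0 0 (step_sound _ 2 [(rhd3458b32566d63f7.shift 1 0), rhea90e7358341a1a4] (by decide +kernel))
noncomputable def rh82d2d6892f0407f1 : CRef := CRef.mk (Pat.mk 0xc0000000e000000000000000000000000 0x40000000f0000007e000000730000000200000002 5 7) 0 0 (step_sound _ 100 [rh4f129d8f37c2c70a, (rh79b3c29022acbdf3.shift 1 3), (rhf2abb75b3aff7e41.shift 0 2)] (by decide +kernel))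
noncomputable def rh042b8f0daff4b95b : CRef := CRef.mk (Pat.mk 0x80000000c0000000c000000000000000400000000 0x10000000780000001f0000000c000000080000000c0000000c 5 7) 0 0 (step_sound _ 67 [(rhc9613fc5bab58382.shift 0 2), (rhe437f081bfcdb831.shift 2 0)] (by decide +kernel))
noncomputable def rh7cfb8e71b3247a54 : CRef := CRef.mk (Pat.mk 0xc0000000e000000000000000000000000 0x40000000f0000007e000000070000000200000002 5 7) 0 0 (step_sound _ 100 [rh4f129d8f37c2c70a, (rh79b3c29022acbdf3.shift 1 3), (rhf10fa853c2693a25.shift 0 2)] (by decide +kernel))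
noncomputable def rh914a7d01dbee48f8 : CRef := CRef.mk (Pat.mk 0x8000000080000001800000010000000000000000000000000 0x1000000018000000180000003c000000ff0000002c0000000c00000008 5 8) 0 0 (step_sound _ 99 [(rh6fae963f33cfdfd7.shift 0 2), (rh7b18f3f209f14cd6.shift 2 0), (rhfa88012a51cb806b.shift 2 2)] (by decide +kernel))
noncomputable def rhae1631282c444918 : CRef := CRef.mk (Pat.mk 0x1a00000038000000000000000000000000 0x10000000100000001b0000003f000000700000002000000020 5 7) 0 0 (step_sound _ 98 [(rh5c36e97be8af272f.shift 0 3), (rh65dcfd18fd55cba0.shift 2 0)] (by decide +kernel))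
noncomputable def rhc9f75854f20bbb48 : CRef := CRef.mk (Pat.mk 0xe00000007000000000000000000000000 0xa0000000f0000003f0000001c0000000c0000000c 5 6) 0 0 (step_sound _ 99 [rh45ac7a71bc55c807, (rh79b3c29022acbdf3.shift 0 3)] (by decide +kernel))
noncomputable def rh4a16138fc970c973 : CRef := CRef.mk (Pat.mk 0xe0000001c00000000 0x1800000018000000780000007e0000001f00000014 5 7) 0 0 (step_sound _ 68 [(rh226655e3fe6b4a8a.shift 1 1), (rh54feb13ca81dbc4a.shift 1 0), (rhab2ad169e49f9c5e.shift 0 1)] (by decide +kernel))
noncomputable def rhfd1bd3840cb177f8 : CRef := CRef.mk (Pat.mk 0x40000003c00000000 0xec0000007e00000007 5 8) 0 0 (step_sound _ 1 [rh2e5758df0d15f6e4, (rh80fcd6d0a18cb2dd.shift 1 0)] (by decide +kernel))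
noncomputable def rh9997040ee4bbeecd : CRef := CRef.mk (Pat.mk 0x40000003c00000000 0xc0000007e000000e7 5 8) 0 0 (step_sound _ 1 [rh0bd78183c5d99a0d, (rh80fcd6d0a18cb2dd.shift 1 0)] (by decide +kernel))
noncomputable def rh9f312cecdd838504 : CRef := CRef.mk (Pat.mk 0x300000003000000020000000200000000 0x200000006000000060000000700000003000000030000000600000004 5 3) 0 0 (step_sound _ 2 [(rh028809442a7beef4.shift 0 1), (rhd3458b32566d63f7.shift 1 0)] (by decide +kernel))
noncomputable def rha1283c70eba8adfe : CRef := CRef.mk (Pat.mk 0x70000000c000000000000000000000000 0x20000000e0000000e0000003c0000000f0000000e0000000e0000000e0000000e 5 6) 0 0 (step_sound _ 162 [(rh046c5eb18e55a239.shift 2 0), rh449509f64d9b5dec, (rh70e33bfdf511e144.shift 2 0), (rh8363cb2812f7a1f1.shift 0 2)] (by decide +kernel))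
noncomputable def rhd190fac8ae8fca3d : CRef := CRef.mk (Pat.mk 0x40000000c000000080000000800000000 0x180000003c0000000f0000001c0000001c00000014 5 6) 0 0 (step_sound _ 131 [(rh71db9facc75efbcc.shift 2 0), rh80d10083eb6a67cd, rhe9a6f79979c06978] (by decide +kernel))
noncomputable def rhbf9001043084262c : CRef := CRef.mk (Pat.mk 0x100000001800000018000000080000000000000000 0x280000003800000038000000380000001f0000001400000010 5 6) 0 0 (step_sound _ 68 [(rh15a1b6b82d9fd81f.shift 3 0), (rh251f4c515ef5ed3d.shift 0 1), (rh3cb04db3dd2b6a55.shift 3 0)] (by decide +kernel))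
noncomputable def rh5ec4925c724bae18 : CRef := CRef.mk (Pat.mk 0x1e0000000c0000000000000000 0x10000000300000001e0000003f0000000800000008 5 6) 0 0 (step_sound _ 64 [(rh24ae073cf30720c4.shift 0 2), (rh2ae694e25f74369c.shift 1 0)] (by decide +kernel))
noncomputable def rh629061bc49d81225 : CRef := CRef.mk (Pat.mk 0x1c000000180000000000000000 0x10000000300000001f0000001b0000000800000008 5 6) 0 0 (step_sound _ 97 [rh531cacad9958d8ca, (rhb739f4f82bb681b4.shift 0 2)] (by decide +kernel))
noncomputable def rh8e491963971115dd : CRef := CRef.mk (Pat.mk 0xe0000000c000000000000000000000000 0x740000007e0000003f000000030000000200000002 5 7) 0 0 (step_sound _ 132 [(rh226655e3fe6b4a8a.shift 1 3), (rh4dc133ee0ba1420a.shift 0 3), rha80f7301cddb7f2d] (by decide +kernel))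
noncomputable def rhd1386e0e87f3a399 : CRef := CRef.mk (Pat.mk 0x80000000c0000000c0000000400000000 0x4000000140000003c0000000f0000000e0000000e0000000a 5 6) 0 0 (step_sound _ 130 [(rh3cb04db3dd2b6a55.shift 2 0), rh677e6fbb651585de, (rhbd1553ade3ecbf42.shift 1 0)] (by decide +kernel))
noncomputable def rh9cb016ed34e5654e : CRef := CRef.mk (Pat.mk 0x3800000018000000000000000000000000 0x780000003f0000007e000000060000000400000004 5 7) 0 0 (step_sound _ 98 [(rh53b3c253cb0c65f4.shift 1 3), rhe444acc7624ec294] (by decide +kernel))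
noncomputable def rh975ca7952424260a : CRef := CRef.mk (Pat.mk 0x3c00000012 0xe0000000ff0000001b 5 8) 0 0 (step_sound _ 33 [rhbfbca84ec1a53183, rheb0810cc63b001d8] (by decide +kernel))
noncomputable def rhc65d370c448045aa : CRef := CRef.mk (Pat.mk 0xc0000000c000000080000000800000000 0x130000001f0000003c0000000c0000000c00000004 5 6) 0 0 (step_sound _ 132 [rh0f39790b47b16fa7, (rh2f68792b6b779e96.shift 3 1)] (by decide +kernel))
noncomputable def rhf34d1365dfc229a8 : CRef := CRef.mk (Pat.mk 0x100000001000000030000000200000000000000000 0x10000001df000000fe000001ef0000000800000008 5 9) 0 0 (step_sound _ 99 [(rh341dee64fc3e0b7f.shift 2 0), rh596def3aae05c2e3, (rh6c6cc8f59caab3aa.shift 0 2), (rh8ee80cc30e93a344.shift 2 2)] (by decide +kernel))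
noncomputable def rhf3b65d1cfd736f22 : CRef := CRef.mk (Pat.mk 0x1000000010000000380000000000000000 0xc0000001e0000007c000000ff0000000e0000000c 5 8) 0 0 (step_sound _ 99 [(rh7478433a598f2371.shift 2 0), (rh79b3c29022acbdf3.shift 2 2), rh8cfe401bae60829f] (by decide +kernel))
noncomputable def rh7ac07226dc440ec8 : CRef := CRef.mk (Pat.mk 0x4000000040000000e000000000000000000000000 0x4000000770000003e000000730000000200000002 5 7) 0 0 (step_sound _ 100 [(rh3fc3a7fb6866dcd4.shift 1 2), rhd1474a84c69f0140, (rhe3060b190bc0bc78.shift 0 3)] (by decide +kernel))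
noncomputable def rh727195e107caf84e : CRef := CRef.mk (Pat.mk 0x20000000e00000004 0x70000007f0000003c 5 7) 0 0 (step_sound _ 36 [(rh3244c3cc8379b070.shift 0 1), rh3a298edabae1d8a9] (by decide +kernel))
noncomputable def rh5520e1e47a87b7aa : CRef := CRef.mk (Pat.mk 0x380000001000000010 0x20000000670000003e0000007700000010 5 7) 0 0 (step_sound _ 66 [(rh019ca8406bd10e18.shift 1 0), (rh775ca1963e850b80.shift 0 1), (rha03f6e28ea70fc7d.shift 1 1)] (by decide +kernel))
noncomputable def rh0fa6f3f2f0117080 : CRef := CRef.mk (Pat.mk 0x1e000000080000000000000000 0x10000000330000001e000000380000000800000008 5 6) 0 0 (step_sound _ 68 [rh4b961a3659b5c1c1, (rhe25b0a99195a5d59.shift 1 2)] (by decide +kernel))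
noncomputable def rhdeb7817366061d91 : CRef := CRef.mk (Pat.mk 0x80000000c000000040000000400000000 0x160000003f0000003f0000000c0000000c00000008 5 6) 0 0 (step_sound _ 130 [rh5b42d230652d96f8, rhc49dcbc8b1f304cb, (rhcf85c92937975d4d.shift 0 1)] (by decide +kernel))
noncomputable def rhb0112447139ce8dc : CRef := CRef.mk (Pat.mk 0x1e0000000c0000000000000000 0x200000002000000070000001e0000000f0000000400000004 5 5) 0 0 (step_sound _ 64 [(rh24ae073cf30720c4.shift 0 2), rhd5889c99d29bf7d6] (by decide +kernel))
noncomputable def rh2a6139ed0bfbb5be : CRef := CRef.mk (Pat.mk 0x80000000c0000000c0000000800000000 0x60000000f0000003c0000000c0000000c00000004 5 6) 0 0 (step_sound _ 34 [(rh71222050f2c63a3a.shift 2 0), (rhcd8ace9fca182ce7.shift 0 1)] (by decide +kernel))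
noncomputable def rh6e502120a7aa4e3e : CRef := CRef.mk (Pat.mk 0x1c000000380000000000000000 0x4000000060000007c0000003f0000007800000008 5 7) 0 0 (step_sound _ 66 [(rh0c6c933ef0e0882e.shift 1 0), (rhab2ad169e49f9c5e.shift 0 2), (rhf56dc6c929980f59.shift 0 1)] (by decide +kernel))
noncomputable def rhed62966816666820 : CRef := CRef.mk (Pat.mk 0x4000000000000000c0000000c0000000800000000 0xc0000000c000000080000000c0000001f0000007800000010 5 7) 0 0 (step_sound _ 131 [(rh16567ae718d9fd54.shift 2 2), rhcc2a2baa9246395a] (by decide +kernel))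
noncomputable def rh9f6546627d0f1fd7 : CRef := CRef.mk (Pat.mk 0x80000001800000018000000000000000000000000 0x40000001f0000007c00000018000000080000000800000008 5 7) 0 0 (step_sound _ 67 [(rhca405e350c462817.shift 0 2), (rhdf997f77704b6375.shift 2 0), (rhea7a1800d6f053bd.shift 3 0)] (by decide +kernel))
noncomputable def rh47cea386f8da23f0 : CRef := CRef.mk (Pat.mk 0x7800000008 0xe000000ff00000038 5 8) 0 0 (step_sound _ 4 [rh15a2b73944acc7e4, (rh18965a982d73c794.shift 3 0)] (by decide +kernel))
noncomputable def rh6369b75c5e5b720c : CRef := CRef.mk (Pat.mk 0xc0000000700000000000000000000000000000000 0xa0000000e0000000e0000000e0000000f0000003c0000000e0000000e00000002 5 6) 0 0 (step_sound _ 98 [(rh000637b5a81e86aa.shift 1 1), (rh9bb5c7e5c08d4582.shift 1 1), rha16732076a6944c8, (rhcf09044ce26472e1.shift 0 2)] (by decide +kernel))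
noncomputable def rhc45e7c30a458a522 : CRef := CRef.mk (Pat.mk 0x1e000000040000000000000000 0x2000000030000001e000000370000000400000004 5 6) 0 0 (step_sound _ 65 [rhc298b91816a3bf40, (rheb0810cc63b001d8.shift 0 2)] (by decide +kernel))
noncomputable def rh019d199c7d44f4ea : CRef := CRef.mk (Pat.mk 0x3c0000000a0000000000000000 0x4000000040000000e0000003e0000000b0000000800000008 5 6) 0 0 (step_sound _ 64 [(rhca9569cc80abfe76.shift 0 2), (rhd5889c99d29bf7d6.shift 1 0)] (by decide +kernel))
noncomputable def rh6c41233e4b9e1d83 : CRef := CRef.mk (Pat.mk 0x40000000400000006000000020000000000000000 0xa0000000e0000000e000000070000003e0000000c00000008 5 6) 0 0 (step_sound _ 66 [(rh36d4d92ef3dad5f8.shift 0 1), (rhc4055b4872d6fb38.shift 1 1), (rhc9de03f9731897d4.shift 2 0)] (by decide +kernel))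
noncomputable def rh740d94341a3f5d79 : CRef := CRef.mk (Pat.mk 0x70000000180000000000000000 0x8000000ee0000007f000000f80000001000000010 5 8) 0 0 (step_sound _ 99 [(rh15a2b73944acc7e4.shift 0 2), (rh2456963ff1f7bf23.shift 1 2), (rhb2d1aa7b1ffc4eb6.shift 2 2), (rhc298b91816a3bf40.shift 2 0)] (by decide +kernel))
noncomputable def rh3ce4b70399c80ff1 : CRef := CRef.mk (Pat.mk 0xa0000001e000000000000000000000000 0x10000000700000007000000070000000e0000001e000000070000000600000006 5 5) 0 0 (step_sound _ 161 [(rh235edbdf3bbc6c03.shift 1 0), rh3be0a94983e82c2d, (rhb313d89573cddecd.shift 0 2), (rhc65f5dc89ddae11a.shift 0 1), rhed21e45804eeb376] (by decide +kernel))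
noncomputable def rhe1f3293e3b54dab5 : CRef := CRef.mk (Pat.mk 0x380000000c000000000000000000000000 0x40000000c0000000c0000000f0000003c0000001c0000001c0000001c0000001c 5 6) 0 0 (step_sound _ 163 [(rh281c6819542c66e6.shift 2 0), (rh2e3d5de6d81b6e20.shift 0 2), rh8f73153b706e41e8, (rhfafeb437ceb8396d.shift 2 0)] (by decide +kernel))
noncomputable def rhbf283d9b2c2ae744 : CRef := CRef.mk (Pat.mk 0x1c000000020000000000000000 0x4000000070000003e000000030000000200000002 5 6) 0 0 (step_sound _ 97 [rhd1f95657bcbb399e, (rheb0810cc63b001d8.shift 0 2)] (by decide +kernel))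
noncomputable def rh3a20343579a9cdce : CRef := CRef.mk (Pat.mk 0x40000000f00000001 0xe0000007f0000001f 5 7) 0 0 (step_sound _ 3 [rh329ecf290f5e6ec5, rhe25b0a99195a5d59] (by decide +kernel))
noncomputable def rhc23e9f090ccbf71d : CRef := CRef.mk (Pat.mk 0xe0000001c000000000000000000000000 0x600000006000000060000000e0000001c0000000f0000000e00000006 5 5) 0 0 (step_sound _ 162 [rh12e8650b5b234176, (rh35a0bf0845304006.shift 1 0), (rh55a1f6c57a317ce6.shift 2 1)] (by decide +kernel))
noncomputable def rhceb064f556f3188a : CRef := CRef.mk (Pat.mk 0x80000001c00000000 0xe0000007e00000077 5 7) 0 0 (step_sound _ 37 [rh008b05f4778dc30d, (rhe3060b190bc0bc78.shift 1 1)] (by decide +kernel))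
noncomputable def rh6fcb529ae753fa36 : CRef := CRef.mk (Pat.mk 0x8000000180000001800000000 0x800000008000000080000001f000000ff000000e6 5 8) 0 0 (step_sound _ 37 [(rh4b914407e7e47c77.shift 2 0), rh544f486c8c292a66, (rh79b3c29022acbdf3.shift 2 1)] (by decide +kernel))
noncomputable def rhb93921118ecba2c8 : CRef := CRef.mk (Pat.mk 0x800000018000000180000000800000000 0x8000000380000001f0000003f00000014 5 6) 0 0 (step_sound _ 34 [rh29ee05cdb3fe74bc, (rh932754581e0f4330.shift 2 0)] (by decide +kernel))
noncomputable def rh409a9929c04ca2d2 : CRef := CRef.mk (Pat.mk 0x80000003c00000000 0xec0000007e00000007 5 8) 0 0 (step_sound _ 1 [rh6f40afde8c328292, (rh80fcd6d0a18cb2dd.shift 1 0)] (by decide +kernel))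
noncomputable def rha8244c71b57b4d05 : CRef := CRef.mk (Pat.mk 0xc0000000c0000000c0000000000000000 0xc0000000c0000001f0000007800000018 5 7) 0 0 (step_sound _ 35 [(rh7b1f1fb55310c477.shift 2 0), rhcc2a2baa9246395a] (by decide +kernel))
noncomputable def rh6104aa46050c048d : CRef := CRef.mk (Pat.mk 0x1e0000000c0000000000000000 0x10000000330000001e0000003c0000000800000008 5 6) 0 0 (step_sound _ 68 [rh4b961a3659b5c1c1, (rhf48373e13d2bc128.shift 1 2)] (by decide +kernel))
noncomputable def rh4c3d64c7e4203526 : CRef := CRef.mk (Pat.mk 0x1800000070000000000000000000000000 0x10000000380000007f000000ee0000000800000008 5 8) 0 0 (step_sound _ 99 [(rh008b05f4778dc30d.shift 1 2), (rh9a011a4d0ec8f646.shift 2 0), (rhe74f96057964b96f.shift 0 2)] (by decide +kernel))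
noncomputable def rhfb5cf6739612f322 : CRef := CRef.mk (Pat.mk 0x1c0000000e000000000000000000000000 0x60000000e0000000f0000001c0000000e000000060000000600000006 5 5) 0 0 (step_sound _ 66 [(rhd193448ee9d702f0.shift 1 0), (rhd69b822472924509.shift 0 1), (rhea7a1800d6f053bd.shift 2 0)] (by decide +kernel))
noncomputable def rhce72e3ceb13712db : CRef := CRef.mk (Pat.mk 0x1c00000008 0x770000007e0000000e 5 7) 0 0 (step_sound _ 37 [(rh61325f73ebf98108.shift 0 1), (rhaf9f2efc81a8312b.shift 1 0)] (by decide +kernel))
noncomputable def rh761422403972b6ba : CRef := CRef.mk (Pat.mk 0x1e00000004 0x70000007f0000003c 5 7) 0 0 (step_sound _ 4 [rh855f024a01e88439, (rhe25b0a99195a5d59.shift 1 0)] (by decide +kernel))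
noncomputable def rha64ae85040c3f79e : CRef := CRef.mk (Pat.mk 0x1e00000018 0x70000000fe0000001f 5 8) 0 0 (step_sound _ 0 [(rh70f75251a6f67951.shift 1 0), rh80fcd6d0a18cb2dd] (by decide +kernel))
noncomputable def rhd32903b2b1e4b4f6 : CRef := CRef.mk (Pat.mk 0x1a000000380000000000000000 0x1c0000001c0000001f0000001b0000003f0000002e00000008 5 6) 0 0 (step_sound _ 132 [(rh1e309b005ffa1b36.shift 3 0), (rh571950d89739e871.shift 3 1), rha211d0403d724572] (by decide +kernel))
noncomputable def rhd21762f8710ba4c5 : CRef := CRef.mk (Pat.mk 0x8000000180000001800000008 0x140000003f0000001f0000003800000008 5 6) 0 0 (step_sound _ 98 [(rh50fbb5868c909700.shift 2 0), rh8f2e720eec3705ed] (by decide +kernel))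
noncomputable def rh349b86a16c32f35d : CRef := CRef.mk (Pat.mk 0x1800000018000000080000000000000000 0xe4000000ff0000001f000000080000000800000008 5 8) 0 0 (step_sound _ 133 [rh443beb14aac0b25e, (rh4dc133ee0ba1420a.shift 1 3), (rh9860ef7cc22ed3c8.shift 2 0)] (by decide +kernel))
noncomputable def rh6f09c2b37e32926c : CRef := CRef.mk (Pat.mk 0xc0000000e000000000000000000000000 0x80000007c0000007e000000730000001000000010 5 7) 0 0 (step_sound _ 100 [(rh4c40641a327d7ac1.shift 0 2), (rhe7d1749390aefb37.shift 1 0), (rhf2abb75b3aff7e41.shift 0 2)] (by decide +kernel))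
noncomputable def rhabc582c25c792f36 : CRef := CRef.mk (Pat.mk 0x180000001000000010000000000000000000000000 0xe70000007e000000ff00000010000000180000001800000008 5 8) 0 0 (step_sound _ 165 [(rh15590a39afd9a120.shift 3 0), (rh338d520748c847d4.shift 1 4), (rh435fb3ef4ac648b4.shift 3 1), (rh4afb4a6b6b4fb2c0.shift 3 0), (rhc2e8c4735a3891ff.shift 0 4)] (by decide +kernel))
noncomputable def rha06be1b6d9023774 : CRef := CRef.mk (Pat.mk 0x180000001000000010 0x20000000ef0000007e000000ff00000010 5 8) 0 0 (step_sound _ 66 [(rh5862860910126169.shift 0 1), (rh8ee80cc30e93a344.shift 1 1), (rhc21a95c499b3efdb.shift 1 1), (rhf3492ef03bd1d80c.shift 1 0)] (by decide +kernel))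
noncomputable def rhe6814bb3ae48d0ee : CRef := CRef.mk (Pat.mk 0x100000001000000018000000000000000000000000 0x1000000010000000ff0000007e000001e70000002000000020 5 9) 0 0 (step_sound _ 101 [(rh046c5eb18e55a239.shift 4 0), (rh2a6642618d0784fe.shift 1 2), (rh6119e99be32c3c3a.shift 0 2), (rhd5979d9ced4acd89.shift 2 2)] (by decide +kernel))
noncomputable def rh08be46cefc6c679d : CRef := CRef.mk (Pat.mk 0x200000002000000030000000000000000000000000 0x20000001fe000000fe000001df0000004000000040 5 9) 0 0 (step_sound _ 99 [(rh7f0f728c796044ac.shift 0 2), (rha11dfd15f08f96e3.shift 2 3), (rhb9216f5f29d394d8.shift 1 2), (rhdd0295a9044f09ad.shift 2 0)] (by decide +kernel))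
end Crest.Agent.S0047.Helper85.Cert
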