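import Crest.Agent.Lib.S0047.Helper85CertPL4F0
import Crest.Agent.Lib.S0047.Helper85CertPL4F1
import Crest.Agent.Lib.S0047.Helper85CertPL4F2
import Crest.Agent.Lib.S0047.Helper85CertPL4F3
import Crest.Agent.Lib.S0047.Helper85CertPL4F4
import Crest.Agent.Lib.S0047.Helper85CertPL4F5
import Crest.Agent.Lib.S0047.Helper85CertPL4F6
import Crest.Agent.Lib.S0047.Helper85CertPL4F7
import Crest.Agent.Lib.S0047.Helper85CertPL4F8
import Crest.Agent.Lib.S0047.Helper85CertPL4F9
set_option autoImplicit false
set_option linter.all false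
set_option Elab.async false
namespace Crest.Agent.S0047.Helper85.Cert
open Crest.Agent.S0047.Helper85

noncomputable def rha0050008f5b8a734 : CRef := CRef.mk (Pat.mk 0x18000000380000000000000000 0x8000000080000001e0000003f0000007700000004 5 7) 0 0 (step_sound _ 98 [rh0ec1fd8dc34e1a29, (rhb739f4f82bb681b4.shift 1 2)] (by decide +kernel))
noncomputable def rhf892423d5a119808 : CRef := CRef.mk (Pat.mk 0x400000000000000180000001c00000000 0x4000000040000001e0000007f00000003 5 7) 0 0 (step_sound _ 33 [(rh53b3c253cb0c65f4.shift 0 1), rha08de9eefe64cf20] (by decide +kernel))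
noncomputable def rhca33dde870b19192 : CRef := CRef.mk (Pat.mk 0x800000008000000180000000800000000 0x40000000c000000080000007c0000000f00000004 5 7) 0 0 (step_sound _ 130 [(rh50fbb5868c909700.shift 2 1), rh80650b8e93363f1e] (by decide +kernel))
noncomputable def rh0aba81494a248b74 : CRef := CRef.mk (Pat.mk 0x800000008000000180000001c00000000 0x40000000c0000000c0000001c0000001f0000000b 5 5) 0 0 (step_sound _ 33 [rh102c06f3317148d0, (rh53b3c253cb0c65f4.shift 0 1)] (by decide +kernel))
noncomputable def rh0f35f4a725d7a12a : CRef := CRef.mk (Pat.mk 0x80000001800000098000000000000000000000000 0x80000001f000000ff000000070000000400000004 5 8) 0 0 (step_sound _ 101 [(rh2fe78cc5ca4405d8.shift 3 3), rh9d14abd203ea6f73] (by decide +kernel))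
noncomputable def rh22a5190655f3c169 : CRef := CRef.mk (Pat.mk 0x40000000c0000001c0000000c0000000000000000 0x2000000060000000c0000001f0000003e0000003200000010 5 6) 0 0 (step_sound _ 161 [rh46abe9950ad883d6, (rh50fbb5868c909700.shift 1 2)] (by decide +kernel))
noncomputable def rh3e4bb1a3c66c43bf : CRef := CRef.mk (Pat.mk 0x40000000c0000001e000000080000000000000000 0x40000000c0000001e0000003f0000003200000010 5 6) 0 0 (step_sound _ 65 [(rhc788304733c0a62d.shift 1 0), (rheb0810cc63b001d8.shift 0 2)] (by decide +kernel))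
noncomputable def rh13efdc63b4500c65 : CRef := CRef.mk (Pat.mk 0xe0000001e000000180000000000000000 0x2000000020000000e0000001e0000001f0000003400000010 5 6) 0 0 (step_sound _ 65 [(rh9fd7910cf6797209.shift 1 0), (rheb0810cc63b001d8.shift 0 2)] (by decide +kernel))
noncomputable def rh61bb5761f33eeb27 : CRef := CRef.mk (Pat.mk 0x800000001e00000000 0xc70000007e000000e0 5 8) 0 0 (step_sound _ 65 [(rh3244c3cc8379b070.shift 0 1), (rh6735c2d255de3301.shift 1 0)] (by decide +kernel))
noncomputable def rhb647b3f6aec79f61 : CRef := CRef.mk (Pat.mk 0x1800000018000000100000000000000000 0xc0000000c0000001c000000380000001f0000000c00000008 5 6) 0 0 (step_sound _ 163 [(rh2145e1d24b96a57e.shift 3 2), rhd9eed210d492b25a] (by decide +kernel))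
noncomputable def rhdda1f3cd8969da05 : CRef := CRef.mk (Pat.mk 0x1c000000380000001000000000 0x8000000080000001c0000003f0000003700000004 5 6) 0 0 (step_sound _ 131 [rh0c1dff9b65503750, (rh2145e1d24b96a57e.shift 3 1)] (by decide +kernel))
noncomputable def rh5476e00417110f39 : CRef := CRef.mk (Pat.mk 0x200000002700000036000000040000000000000000 0x20000002300000037000000360000001e0000001200000012 5 6) 0 0 (step_sound _ 161 [(rh2145e1d24b96a57e.shift 1 2), rh44375dcd393fca89] (by decide +kernel))
noncomputable def rh80e664f3a39fb441 : CRef := CRef.mk (Pat.mk 0x400000004800000068000000080000000800000000 0x4000000068000000680000002f0000007c00000030 5 7) 0 0 (step_sound _ 36 [(rh55afc6a59410cf00.shift 3 0), rhb6e62b71cb0f382c] (by decide +kernel))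
noncomputable def rh411eefd93b2b4274 : CRef := CRef.mk (Pat.mk 0x1800000018000000180000000c 0x40000001f0000001f000000780000000c 5 7) 0 0 (step_sound _ 37 [(rh18965a982d73c794.shift 2 0), rh9c6fc39ad557aaae] (by decide +kernel))
noncomputable def rh68bf02475e7c598f : CRef := CRef.mk (Pat.mk 0xc000000880000001a00000008 0x100000007e000000ef0000001e00000008 5 8) 0 0 (step_sound _ 100 [(rh11fd92140ef78e92.shift 0 1), (rh2f68792b6b779e96.shift 3 0)] (by decide +kernel))
noncomputable def rh134451eb1aba78ca : CRef := CRef.mk (Pat.mk 0x1800000038000000000000000000000000 0x8000000080000001f0000003f0000000e0000000400000004 5 6) 0 0 (step_sound _ 98 [(rhbe5fc5902345a0b9.shift 0 3), (rhcfde16a7ff36af03.shift 1 0)] (by decide +kernel))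
noncomputable def rhc5f7a71e94609c64 : CRef := CRef.mk (Pat.mk 0x70000000f000000050000000000000000 0x100000001000000070000000f0000001f0000001a00000008 5 5) 0 0 (step_sound _ 67 [rh9fd7910cf6797209, (rhe25b0a99195a5d59.shift 0 2)] (by decide +kernel))
noncomputable def rh5be033e06c5ae67a : CRef := CRef.mk (Pat.mk 0xe0000000f000000010000000000000000 0x2000000020000000e0000000f0000001d0000000c0000000c 5 5) 0 0 (step_sound _ 161 [rh4f5f1a99d6baeb5a, (rh5c5e593799055d58.shift 0 2)] (by decide +kernel))
noncomputable def rh86d28d4178059560 : CRef := CRef.mk (Pat.mk 0x80000001800000018000000000000000000000000 0x40000000c0000001c000000380000001f0000001c00000008 5 6) 0 0 (step_sound _ 68 [(rh7b1f1fb55310c477.shift 3 1), rhd9eed210d492b25a] (by decide +kernel))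
noncomputable def rh83925760de8cb0a5 : CRef := CRef.mk (Pat.mk 0x200000002600000036000000040000000000000000 0x30000002300000037000000360000001e0000001200000012 5 6) 0 0 (step_sound _ 161 [(rh2145e1d24b96a57e.shift 1 2), rh277cbd247e5e36c8] (by decide +kernel))
noncomputable def rh5b0804451fe0f844 : CRef := CRef.mk (Pat.mk 0x1800000038000000100000000000000000 0x8000000080000001c0000003f000000360000000400000004 5 6) 0 0 (step_sound _ 163 [(rh2145e1d24b96a57e.shift 3 2), rhdfed119a3454bc5d] (by decide +kernel))
noncomputable def rh8d7a4246a59e77ca : CRef := CRef.mk (Pat.mk 0xc0000001e0000000a0000000000000000 0xc0000001e0000003e0000003300000012 5 6) 0 0 (step_sound _ 68 [rh593658fd7da791c2, (rhe25b0a99195a5d59.shift 1 2)] (by decide +kernel))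
noncomputable def rhdbe28937c2a0d29a : CRef := CRef.mk (Pat.mk 0xc000000180000000c0000000000000000 0x4000000060000000f0000001c0000000f0000000600000004 5 5) 0 0 (step_sound _ 65 [rh4df5bb42c0c62bd3, (rh53b3c253cb0c65f4.shift 0 2)] (by decide +kernel))
noncomputable def rh27e2d065a4a374ca : CRef := CRef.mk (Pat.mk 0xc00000018000000000000001e00000000 0xf0000001f000000030000001e00000003 5 5) 0 0 (step_sound _ 128 [rh32d6d5f30900c50f, (rhab22b5b56e7b3243.shift 0 3)] (by decide +kernel))
noncomputable def rh7b266c28d89d540a : CRef := CRef.mk (Pat.mk 0x1e00000000000000180000000c 0x30000001e000000030000001f0000000f 5 5) 0 0 (step_sound _ 0 [rh24ae073cf30720c4, rh6550be38bfd67d88] (by decide +kernel))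
noncomputable def rhb08129624acaf7b4 : CRef := CRef.mk (Pat.mk 0xc0000001c0000000800000000 0x4000000040000000f0000001f0000003b00000002 5 6) 0 0 (step_sound _ 97 [(rhb739f4f82bb681b4.shift 0 2), rhb8a0a47969052ef0] (by decide +kernel))
noncomputable def rhc905ab6fd70ff3f8 : CRef := CRef.mk (Pat.mk 0x1000000010000000020000000e00000000 0x1000000030000000630000003e00000070 5 7) 0 0 (step_sound _ 36 [(rh3244c3cc8379b070.shift 0 1), (rh59810ecc3e5f50ca.shift 1 0)] (by decide +kernel))
noncomputable def rhe1f407bd3f9cdcdc : CRef := CRef.mk (Pat.mk 0xc0000001c000000180000000800000000 0x20000000f0000001c0000001c0000000f00000006 5 5) 0 0 (step_sound _ 34 [(rh932754581e0f4330.shift 2 0), rhe8721226ff0940be] (by decide +kernel))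
noncomputable def rh64dd1c3b293b78d8 : CRef := CRef.mk (Pat.mk 0x1c00000018000000100000000000000000 0x80000001c0000007f000000370000000400000004 5 7) 0 0 (step_sound _ 101 [rhe69392b3a45010cd, (rhf48373e13d2bc128.shift 2 3)] (by decide +kernel))
noncomputable def rhdd4a295b53e08af6 : CRef := CRef.mk (Pat.mk 0x200000002300000036000000040000000000000000 0x30000002300000033000000360000001e0000001200000010 5 6) 0 0 (step_sound _ 161 [(rh2145e1d24b96a57e.shift 1 2), rhfcf0fc842d84b1a6] (by decide +kernel))
noncomputable def rh3745adb98c59b9e2 : CRef := CRef.mk (Pat.mk 0xc0000001c000000180000001800000000 0x20000000f0000001c0000001f0000003f00000002 5 6) 0 0 (step_sound _ 129 [rh49bc575c6f3dbdda, (rhb739f4f82bb681b4.shift 0 3)] (by decide +kernel))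
noncomputable def rh203d9a3bbeddb858 : CRef := CRef.mk (Pat.mk 0xc0000001c0000000800000000 0x6000000060000000f0000001c0000000f00000006 5 5) 0 0 (step_sound _ 130 [(rh2145e1d24b96a57e.shift 2 1), rh45166f720c0a3f0d] (by decide +kernel))
noncomputable def rhbaa8ff3eafdf7cc3 : CRef := CRef.mk (Pat.mk 0x1800000038000000100000000000000000 0x800000008000000180000003f0000003e0000000400000004 5 6) 0 0 (step_sound _ 163 [(rh2145e1d24b96a57e.shift 3 2), rhfff448ac9b6751e1] (by decide +kernel))
noncomputable def rh708738f1a30da4fa : CRef := CRef.mk (Pat.mk 0x20000000600000016000000000000000000000000 0x30000000300000006000000060000001e000000030000000300000002 5 5) 0 0 (step_sound _ 193 [(rh2145e1d24b96a57e.shift 1 3), rhc3ddc1a7c5d82f6d] (by decide +kernel))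
noncomputable def rhd9a1075ae977c2f6 : CRef := CRef.mk (Pat.mk 0xc00000018000000180000001c 0x20000000f0000001f0000003f0000007c 5 7) 0 0 (step_sound _ 97 [(rhb739f4f82bb681b4.shift 0 2), rhbf5a232a605b66c9] (by decide +kernel))
noncomputable def rhbf1eb4da8fa76cc5 : CRef := CRef.mk (Pat.mk 0x80000001c0000001c0000000000000000 0x20000000f0000001c0000003c0000000600000006 5 6) 0 0 (step_sound _ 34 [(rh71222050f2c63a3a.shift 2 0), rhe94eefc7cd61cf70] (by decide +kernel))
noncomputable def rh329ace851711c188 : CRef := CRef.mk (Pat.mk 0x1a0000001e0000000000000000 0x6000000070000001e0000001e0000000700000006 5 5) 0 0 (step_sound _ 33 [(rheb0810cc63b001d8.shift 0 1), rhfdd6cc2cbbab9f07] (by decide +kernel))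
noncomputable def rh7a5b3f41310b71fb : CRef := CRef.mk (Pat.mk 0x600000018000000180000000e00000000 0x2000000060000001f0000001f0000003e00000003 5 6) 0 0 (step_sound _ 66 [(rh15046019fc1d2e12.shift 0 1), rh22b41900c9ae2872, (rh4176b1306bc070ea.shift 1 0)] (by decide +kernel))
noncomputable def rh10200b5a50d032fb : CRef := CRef.mk (Pat.mk 0x20000000e0000001a0000000000000000 0x4000000040000000e0000000e0000001a0000000f0000000b 5 5) 0 0 (step_sound _ 130 [(rh84d1c02a8954c6a8.shift 1 1), (rhc2c7bae8f445c890.shift 2 0), rhfdc18f1f459863a2] (by decide +kernel))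
noncomputable def rh42eeeaf8cbfaff8e : CRef := CRef.mk (Pat.mk 0xc0000000c000000040000000400000000 0xc0000000c0000000f0000003e0000003a 5 6) 0 0 (step_sound _ 35 [rh3211faaf6703964e, (rh55afc6a59410cf00.shift 2 0)] (by decide +kernel))
noncomputable def rh8ad626b30f15c88f : CRef := CRef.mk (Pat.mk 0x60000000e0000000200000000 0x30000000300000003000000060000001e0000000300000001 5 5) 0 0 (step_sound _ 32 [(rh18965a982d73c794.shift 0 1), rh623a731171d66e50] (by decide +kernel))
noncomputable def rh826010815be3df46 : CRef := CRef.mk (Pat.mk 0x14000000040000000400000000 0xa0000000e0000000f0000001c000000060000000600000006 5 5) 0 0 (step_sound _ 130 [(rh20966da26a1c2ae8.shift 1 0), (rh771d065bdc85bf2d.shift 1 0), rhec7a88c6dcaa5d28] (by decide +kernel))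
noncomputable def rh881741dd46027e55 : CRef := CRef.mk (Pat.mk 0x400000008000000180000001c00000000 0x40000000f0000001e0000001f00000003 5 5) 0 0 (step_sound _ 33 [(rh53b3c253cb0c65f4.shift 0 1), rhbfa5fcc07811e7ad] (by decide +kernel))
noncomputable def rh66e6579f064f347c : CRef := CRef.mk (Pat.mk 0x80000001800000018000000000000000000000000 0x800000018000000380000001f0000001c0000001c 5 6) 0 0 (step_sound _ 67 [(rh21cc983f04d25e46.shift 0 1), (rh4053c12da95c0aa0.shift 3 0), (rh46530d756bdf8511.shift 2 0)] (by decide +kernel))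
noncomputable def rhee537adefd1463ea : CRef := CRef.mk (Pat.mk 0x18000000180000000800000000 0x80000000800000008000000180000003c0000001f00000014 5 6) 0 0 (step_sound _ 131 [rh21cc983f04d25e46, (rh3e595262c1b737ad.shift 3 1), (rh925a1628dd8a50da.shift 2 0)] (by decide +kernel))
noncomputable def rh4f4c4c1027c971e0 : CRef := CRef.mk (Pat.mk 0x600000006000000020000000000000000 0x200000002000000020000000600000006000000070000000300000003 5 3) 0 0 (step_sound _ 33 [(rh71222050f2c63a3a.shift 1 0), rhea90e7358341a1a4] (by decide +kernel))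
noncomputable def rh4e38d5d715849da4 : CRef := CRef.mk (Pat.mk 0x1800000018000000080000000800000000 0x80000001800000018000000380000001f00000014 5 6) 0 0 (step_sound _ 36 [rh090c358acdc95f29, (rh55afc6a59410cf00.shift 3 0)] (by decide +kernel))
noncomputable def rh4c6fcd9c022c1b38 : CRef := CRef.mk (Pat.mk 0xc00000008000000040000000800000000 0x40000000c000000080000001f0000007800000010 5 7) 0 0 (step_sound _ 67 [rh42e615827c8908b1, (rh50fbb5868c909700.shift 2 1)] (by decide +kernel))
noncomputable def rh2b3810573df11829 : CRef := CRef.mk (Pat.mk 0x600000006000000050000000000000000 0x3000000030000000700000006000000070000000300000002 5 3) 0 0 (step_sound _ 161 [(rh2145e1d24b96a57e.shift 1 2), rhce84b681b9576197] (by decide +kernel))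
noncomputable def rh887326a780fa1f87 : CRef := CRef.mk (Pat.mk 0x38000000600000000c00000000 0x40000001f00000038000000780000000c00000004 5 7) 0 0 (step_sound _ 67 [rh426dce397529b38d, (rhb2a0b9ccfb5cecd5.shift 2 1)] (by decide +kernel))
noncomputable def rh1fe47bc4ab7a2544 : CRef := CRef.mk (Pat.mk 0xa000000180000000e0000000000000000 0x20000000a0000001a0000003e0000003700000014 5 6) 0 0 (step_sound _ 68 [(rh78974448101547fe.shift 1 0), rh9cb1ae0e1c12574f] (by decide +kernel))
noncomputable def rh1281dba85437d8e6 : CRef := CRef.mk (Pat.mk 0x80000001c000000300000000400000000 0x20000000f0000001c0000003c0000000600000006 5 6) 0 0 (step_sound _ 66 [(rh71222050f2c63a3a.shift 2 0), rhb70d9353a0c1e322] (by decide +kernel))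
noncomputable def rhb5d844c5457b41c6 : CRef := CRef.mk (Pat.mk 0x1000000018000000000000002800000000 0x100000001800000018000000780000001f 5 7) 0 0 (step_sound _ 3 [(rh04253f50b6dd0619.shift 3 0), rhc5858971fcb7c5ab] (by decide +kernel))
noncomputable def rhedb5be6a0337ac60 : CRef := CRef.mk (Pat.mk 0x8000000180000000e000000000000000000000000 0x80000001c0000003e000000370000001400000004 5 6) 0 0 (step_sound _ 100 [rh61f918dfd48e4d6c, (rh78974448101547fe.shift 1 1)] (by decide +kernel))
noncomputable def rh9ae491e50d513673 : CRef := CRef.mk (Pat.mk 0x800000018000000300000000600000000 0x20000000f0000001e0000003c0000000600000002 5 6) 0 0 (step_sound _ 66 [(rhb2a0b9ccfb5cecd5.shift 1 1), rhd9e9ec0b7dc2279e] (by decide +kernel))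
noncomputable def rhbbc23dc90748575a : CRef := CRef.mk (Pat.mk 0x400000000000000080000001c00000000 0x4000000040000003e0000007f00000003 5 7) 0 0 (step_sound _ 33 [rha08de9eefe64cf20, (rhec46bd5500c722c9.shift 0 1)] (by decide +kernel))
noncomputable def rh575b3c4afaa651d0 : CRef := CRef.mk (Pat.mk 0xc00000000000000100000003800000000 0x40000000c000000080000003f000000ff00000004 5 8) 0 0 (step_sound _ 67 [(rh5c5a2014709044d0.shift 1 1), rh89de19f2d001b1ec, (rha9fbfd4bb8cf890b.shift 0 1)] (by decide +kernel))
noncomputable def rh7f4e8040fcd9bc4a : CRef := CRef.mk (Pat.mk 0x200000002700000034000000040000000400000000 0x2100000037000000360000001e0000001600000016 5 6) 0 0 (step_sound _ 97 [rh44375dcd393fca89, (rh7b1f1fb55310c477.shift 1 0)] (by decide +kernel))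
noncomputable def rha1d1978a80892dae : CRef := CRef.mk (Pat.mk 0xe000000180000000c000000000000000000000000 0x20000000e0000001e0000000f000000060000000400000004 5 5) 0 0 (step_sound _ 97 [(rh31f1da862c8e9c76.shift 1 0), (rh53b3c253cb0c65f4.shift 0 3)] (by decide +kernel))
noncomputable def rhfef176dbc6a0de61 : CRef := CRef.mk (Pat.mk 0xc00000010000000180000000800000000 0x40000000c00000018000000380000001f00000014 5 6) 0 0 (step_sound _ 99 [rh21cc983f04d25e46, (rh50fbb5868c909700.shift 2 1)] (by decide +kernel))
noncomputable def rha653f0f2fffecc3e : CRef := CRef.mk (Pat.mk 0xc00000000000000180000000800000000 0x40000000c000000080000007c0000000f00000004 5 7) 0 0 (step_sound _ 99 [(rh50fbb5868c909700.shift 2 1), rh80650b8e93363f1e] (by decide +kernel))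
noncomputable def rh38c7f2b162caa2f9 : CRef := CRef.mk (Pat.mk 0x80000000000000038000000100000000000000000 0x8000000080000000f0000007c000000100000001000000010 5 7) 0 0 (step_sound _ 131 [(rh2145e1d24b96a57e.shift 3 2), rh22ded93bb1171860] (by decide +kernel))
noncomputable def rhc93c85c35c9e08d5 : CRef := CRef.mk (Pat.mk 0x3c00000010 0x70000007f0000001e 5 7) 0 0 (step_sound _ 2 [rh4022f56809afe20b, (rheb0810cc63b001d8.shift 1 0)] (by decide +kernel))
noncomputable def rh214b7374472f3bef : CRef := CRef.mk (Pat.mk 0x800000018000000380000000000000000 0x80000001f0000003f0000000700000004 5 6) 0 0 (step_sound _ 66 [(rh592c7139d2c44767.shift 0 1), (rhae036cc4ef671676.shift 1 0), (rhbe5fc5902345a0b9.shift 0 2), (rhcc2be1f880c5ea3e.shift 0 1)] (by decide +kernel))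
noncomputable def rh6daa1d4df6027665 : CRef := CRef.mk (Pat.mk 0x1800000018000000380000000000000000 0x180000001e0000003c0000000f0000000c 5 6) 0 0 (step_sound _ 98 [rh41eb4a13b78c152f, (rhb739f4f82bb681b4.shift 1 2)] (by decide +kernel))
noncomputable def rhaa496eca688350de : CRef := CRef.mk (Pat.mk 0x80000001c0000000c0000000000000000 0x6000000060000000f0000001c0000000c0000000c00000004 5 5) 0 0 (step_sound _ 34 [(rh71222050f2c63a3a.shift 2 0), (rh923bedb54c249860.shift 0 1)] (by decide +kernel))
noncomputable def rhfa64662eddc87243 : CRef := CRef.mk (Pat.mk 0xc000000880000000a0000000a00000000 0x130000007f000000ef0000000a0000000a00000002 5 8) 0 0 (step_sound _ 132 [(rh2f68792b6b779e96.shift 3 1), rh97336e2b123b307b] (by decide +kernel))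
noncomputable def rh98e50fe9ba394ce9 : CRef := CRef.mk (Pat.mk 0x60000001e000000020000000200000000 0x200000002000000060000001e0000003e0000000700000001 5 6) 0 0 (step_sound _ 68 [rh0efd964a4694c8da, (rhe25b0a99195a5d59.shift 1 2)] (by decide +kernel))
noncomputable def rh0f91aee1c2776dac : CRef := CRef.mk (Pat.mk 0xe000000180000000300000000 0x400000004000000060000000e0000001a0000000f0000000a 5 5) 0 0 (step_sound _ 35 [(rh1c62b6193297d9e3.shift 0 1), (rhd776eb44f7a8b71d.shift 1 0)] (by decide +kernel))
noncomputable def rhb01968ee546c41dc : CRef := CRef.mk (Pat.mk 0x100000000000000038000000000000000000000000 0x1000000010000000170000003e000000770000002000000020 5 7) 0 0 (step_sound _ 98 [(rh03a6f79dca3226c9.shift 2 0), (rh592c7139d2c44767.shift 0 2)] (by decide +kernel))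
noncomputable def rh05cbd13c93f30ce9 : CRef := CRef.mk (Pat.mk 0x70000000400000007000000000000000000000000 0x10000000700000006000000070000001e0000000e0000000a 5 5) 0 0 (step_sound _ 65 [(rh1c69bb92c13f27a0.shift 0 1), (rh36f5b7631f426395.shift 1 0), (rh42548283029e2a39.shift 1 0), (rh5e6da6f5b1e0c82f.shift 0 1)] (by decide +kernel))
noncomputable def rhf3d11b058448e968 : CRef := CRef.mk (Pat.mk 0x800000018000000080000000800000000 0x800000008000000180000000f0000003c00000014 5 6) 0 0 (step_sound _ 34 [rh26fd428daa97b787, (rh932754581e0f4330.shift 2 0)] (by decide +kernel))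
noncomputable def rh672219f05f75effa : CRef := CRef.mk (Pat.mk 0x20000000600000002000000000000000000000000 0x600000006000000060000000600000006000000070000000700000005 5 3) 0 0 (step_sound _ 65 [(rh301a6b3a9154ed36.shift 1 0), rh6eff4158bb400f47, (rh7ab09f375cd5d482.shift 1 2), (rha707fb719e87fe6e.shift 1 1)] (by decide +kernel))
noncomputable def rh1471fd48a0d0d5c3 : CRef := CRef.mk (Pat.mk 0x220000002300000030000000050000000000000000 0x2200000033000000330000001f0000001100000010 5 6) 0 0 (step_sound _ 32 [(rh04253f50b6dd0619.shift 0 1), rh55b8fff06fd3e955] (by decide +kernel))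
noncomputable def rhf88acd9bc70b9c5f : CRef := CRef.mk (Pat.mk 0x800000001e00000000 0xc00000007e000000e7 5 8) 0 0 (step_sound _ 1 [(rhca003fc3e91a5ecd.shift 1 0), rheb0810cc63b001d8] (by decide +kernel))
noncomputable def rh2d3d2386ddc6714e : CRef := CRef.mk (Pat.mk 0x800000001c00000000 0xc70000007e000000e7 5 8) 0 0 (step_sound _ 37 [rh775ca1963e850b80, (rhc13dbb2602bbcc3a.shift 2 0)] (by decide +kernel))
noncomputable def rhecafe19473e551aa : CRef := CRef.mk (Pat.mk 0x18000000300000001400000000 0x8000000080000001e0000003f0000003e00000004 5 6) 0 0 (step_sound _ 67 [(rh076be03eb7063320.shift 1 1), (rh39f2aa650c834471.shift 0 1), (rh48e942bb1296f20c.shift 1 0), (rh931244f04c55416a.shift 1 0)] (by decide +kernel))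
noncomputable def rh33fc6225c209d855 : CRef := CRef.mk (Pat.mk 0xc000000180000000e000000000000000000000000 0x40000000c0000001c0000001e000000370000001200000002 5 6) 0 0 (step_sound _ 100 [(rh78974448101547fe.shift 1 1), rhad7f111fb10ea859] (by decide +kernel))
noncomputable def rhcd04678be7d3282a : CRef := CRef.mk (Pat.mk 0xc000000180000000e0000000000000000 0x40000000f0000001b0000001e0000003300000010 5 6) 0 0 (step_sound _ 129 [(rhb739f4f82bb681b4.shift 0 3), rhcb9d2d3c1c03a5a3] (by decide +kernel))
noncomputable def rh66401232e395d8af : CRef := CRef.mk (Pat.mk 0x80000001a0000001e000000000000000000000000 0x30000000b0000001e0000001e000000070000000400000004 5 5) 0 0 (step_sound _ 65 [rh1d0fe99501a2f3ce, (rheb0810cc63b001d8.shift 0 2)] (by decide +kernel))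
noncomputable def rh6a3a4751c0ee2923 : CRef := CRef.mk (Pat.mk 0x1a0000001e000000000000000000000000 0x70000001e0000003e000000030000000200000002 5 6) 0 0 (step_sound _ 130 [rh14e41ec733e8d930, (rhf48373e13d2bc128.shift 1 3)] (by decide +kernel))
noncomputable def rh1137fe00bdf5afa1 : CRef := CRef.mk (Pat.mk 0xc000000080000000e000000000000000000000000 0xc0000001f0000003e000000330000001200000010 5 6) 0 0 (step_sound _ 100 [(rhc4658766f200b447.shift 0 1), rhc6045640141cea3d, (rhd132b680030c88e0.shift 1 0)] (by decide +kernel))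
noncomputable def rh30ceb8bd6f1e9e97 : CRef := CRef.mk (Pat.mk 0x4000000400000000e000000000000000000000000 0x400000004000000660000003e000000730000000200000002 5 7) 0 0 (step_sound _ 100 [(rhbb2385dc95a6af82.shift 1 2), rhf3caf215570e71a5] (by decide +kernel))
noncomputable def rhb488ce1dd3fb0052 : CRef := CRef.mk (Pat.mk 0x8000000020000000600000002000000000000000000000000 0xe0000000e0000000600000006000000070000000700000005 5 4) 0 0 (step_sound _ 65 [rh8cdd36b03d57a2f6, (rha707fb719e87fe6e.shift 1 1), (rhc1f1ae533ca3eb1e.shift 1 1)] (by decide +kernel))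
noncomputable def rhff203d587041af11 : CRef := CRef.mk (Pat.mk 0x8000000180000001c0000000800000000 0x80000001f0000007f0000000c00000004 5 7) 0 0 (step_sound _ 34 [(rh913b307903916f01.shift 0 1), (rh932754581e0f4330.shift 2 0)] (by decide +kernel))
noncomputable def rhd530000cacc6ef98 : CRef := CRef.mk (Pat.mk 0x6000000180000000a000000020000000000000000 0x60000001f0000003e000000070000000700000005 5 6) 0 0 (step_sound _ 129 [(rh4878d65877923bf4.shift 0 1), rh6eff4158bb400f47, (rh999c66e1f1e798df.shift 1 0), rha8bc3cae4d77a08f] (by decide +kernel))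
noncomputable def rhabfe588ce4ea32b5 : CRef := CRef.mk (Pat.mk 0x60000000000000002000000020000000000000000 0x4000000060000000200000002000000070000000700000005 5 3) 0 0 (step_sound _ 129 [(rh2f68792b6b779e96.shift 1 2), rh6eff4158bb400f47] (by decide +kernel))
noncomputable def rh355e32c877ed8638 : CRef := CRef.mk (Pat.mk 0x3000000120000000200000002000000000000000000000000 0x30000001e0000000600000003000000070000000700000004 5 5) 0 0 (step_sound _ 65 [(rh7928877f9bf74a91.shift 0 1), rhffd74a4ae28208a9] (by decide +kernel))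
noncomputable def rhad96a6a641ccc9a7 : CRef := CRef.mk (Pat.mk 0x400000004800000068000000080000000800000000 0x4000000068000000680000003c0000003f00000024 5 7) 0 0 (step_sound _ 69 [rh73b9bb010e52e87e, (rhf9af042da61fc652.shift 5 0)] (by decide +kernel))
noncomputable def rh0cfd407e2f78a809 : CRef := CRef.mk (Pat.mk 0x400000000000000000000001e00000000 0x400000006000000370000001e00000003 5 6) 0 0 (step_sound _ 68 [(rh33e738c4ed385b9f.shift 1 1), rhd5358021be058853] (by decide +kernel))
noncomputable def rha95627f8f20f132a : CRef := CRef.mk (Pat.mk 0x7800000000 0x1fe0000007f 5 9) 0 0 (step_sound _ 34 [rh185f35b8bd8ec37f, (rh992f31992592569e.shift 1 0), (rheae1728ff4a56756.shift 1 0)] (by decide +kernel))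
noncomputable def rhfae45c24f58ebc1e : CRef := CRef.mk (Pat.mk 0x400000004000000040000000000000001e00000000 0x400000006000000060000000300000003e00000027 5 7) 0 0 (step_sound _ 1 [(rh41c74e6c0a42e997.shift 1 0), rheb0810cc63b001d8] (by decide +kernel))
noncomputable def rh2a4fa12694f96dbe : CRef := CRef.mk (Pat.mk 0x4000000000000001e0000000800000008 0x200000006000000070000001e0000000f0000000c 5 5) 0 0 (step_sound _ 34 [(rh6f1cbe15c631ee70.shift 2 0), rhdd3ef923ff6c7ad5] (by decide +kernel))
noncomputable def rh3ffd3ed722b95752 : CRef := CRef.mk (Pat.mk 0xc0000000c000000040000000600000000 0xc0000000c0000003e0000007f00000018 5 7) 0 0 (step_sound _ 35 [(rh55afc6a59410cf00.shift 2 0), rh67a45aff1ea551b3] (by decide +kernel))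
noncomputable def rh9ac953fe06873c81 : CRef := CRef.mk (Pat.mk 0x4000000000000001c00000018 0x400000006000000070000001f0000001b 5 5) 0 0 (step_sound _ 33 [rh7e3a735964db830c, rhb739f4f82bb681b4] (by decide +kernel))
noncomputable def rh646ef66315089d91 : CRef := CRef.mk (Pat.mk 0x1c000000800000000800000008 0x70000007e000000e70000000c00000008 5 8) 0 0 (step_sound _ 101 [(rh04395309fba550d6.shift 1 0), (rh592c7139d2c44767.shift 0 2), (rheaa91b92daf0efc8.shift 2 2)] (by decide +kernel))
noncomputable def rh9544a0e48813fe4b : CRef := CRef.mk (Pat.mk 0xe000000400000000400000004 0x770000003e000000730000000600000004 5 7) 0 0 (step_sound _ 100 [rh04395309fba550d6, (rh22b38309c56a80eb.shift 0 3), (rheaa91b92daf0efc8.shift 1 2)] (by decide +kernel))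
noncomputable def rh63ba7f6374f53ee8 : CRef := CRef.mk (Pat.mk 0x200000006000000020000001800000000 0x500000007000000070000000200000006000000060000001f00000007 5 5) 0 0 (step_sound _ 161 [(rh1741680720c097b4.shift 0 2), rhb5fbd239a000a527, (rhd4b4beefcd67f51e.shift 1 1)] (by decide +kernel))
noncomputable def rh3a652aecf1f4722c : CRef := CRef.mk (Pat.mk 0x1c00000080 0xff0000007e000000e0 5 8) 0 0 (step_sound _ 37 [(rh22b38309c56a80eb.shift 1 1), (rh4c622fddc53a5f99.shift 0 1), (rheaa91b92daf0efc8.shift 2 0)] (by decide +kernel))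
noncomputable def rh9b2efa5b37e02f19 : CRef := CRef.mk (Pat.mk 0x1000000000000000600000006000000000000000000000000 0x300000003000000030000000600000006000000030000000300000003 5 3) 0 0 (step_sound _ 161 [rh000f75110575adc4, (rhf627eb01e9e8db9a.shift 0 3)] (by decide +kernel))
noncomputable def rh1e2336b9674b311e : CRef := CRef.mk (Pat.mk 0x500000018000000980000001c00000000 0x50000001f000000df0000007e000000e3 5 8) 0 0 (step_sound _ 65 [(rh39f426ebe0691969.shift 0 1), (rh6735c2d255de3301.shift 1 0), rh73f272a3392b1f45, (rhe25176f89823b1c7.shift 0 2)] (by decide +kernel))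
noncomputable def rhd3eeea79491f9d32 : CRef := CRef.mk (Pat.mk 0x1c00000018000000180000000c 0x30000001f0000001c0000003c0000000f 5 6) 0 0 (step_sound _ 1 [rh53b3c253cb0c65f4, rh80a640509e94aeb8] (by decide +kernel))
noncomputable def rhb0a0e93e4c3d58cf : CRef := CRef.mk (Pat.mk 0x40000001a0000001a0000000800000000 0x70000001f0000001a0000000f00000003 5 5) 0 0 (step_sound _ 98 [rh4717434c66cc6827, (rhb739f4f82bb681b4.shift 0 2)] (by decide +kernel))
noncomputable def rhcbdda36469f57799 : CRef := CRef.mk (Pat.mk 0x80000001a000000060000000200000000 0x2000000070000000f0000001e000000060000000600000002 5 5) 0 0 (step_sound _ 129 [rh097efa6a0ad6e172, (rh5e05da03898e7023.shift 0 1), (rh69c904193a3792b5.shift 1 0), (rhb43b15493b096632.shift 0 1)] (by decide +kernel))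
noncomputable def rh37d523ab9929ee04 : CRef := CRef.mk (Pat.mk 0x180000001e000000020000000000000000 0x200000006000000070000001f0000001e000000060000000200000002 5 5) 0 0 (step_sound _ 129 [(rh3244c3cc8379b070.shift 0 3), rh77a67bf1f6025007] (by decide +kernel))
noncomputable def rh6766255ae5eb98d7 : CRef := CRef.mk (Pat.mk 0x80000001a00000002000000000000000000000000 0x400000004000000060000000f0000001e00000003000000030000000100000001 5 5) 0 0 (step_sound _ 161 [(rh01e48cd9f335aa73.shift 0 3), rh5c8c873042790be0, (rhbe5703805fd7fa8f.shift 0 2)] (by decide +kernel))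
noncomputable def rh24bb41d7856d3534 : CRef := CRef.mk (Pat.mk 0x20000001a0000001a00000010 0x4000000040000000e0000000f0000001a0000001a00000012 5 5) 0 0 (step_sound _ 99 [(rh2145e1d24b96a57e.shift 3 0), rhbe5703805fd7fa8f] (by decide +kernel))
noncomputable def rh3d51e934f233df12 : CRef := CRef.mk (Pat.mk 0x4000000020000000a0000001a00000010 0x1000000070000001f0000000a0000000a0000001a00000010 5 5) 0 0 (step_sound _ 131 [(rh3bde0bd801823f5c.shift 0 1), (rh6f1cbe15c631ee70.shift 3 0)] (by decide +kernel))
noncomputable def rheb7ae1e770074a03 : CRef := CRef.mk (Pat.mk 0x1c0000001000000038000000000000000000000000 0x40000001c00000018000000380000001f0000000c00000008 5 6) 0 0 (step_sound _ 67 [(rh42548283029e2a39.shift 3 0), (rhaf76838d9a78fff9.shift 0 1), (rhf9af042da61fc652.shift 3 0)] (by decide +kernel))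
noncomputable def rh8773c9813d8b5e01 : CRef := CRef.mk (Pat.mk 0x40000000c000000180000001800000010 0x400000004000000060000000f0000001a0000001f00000032 5 6) 0 0 (step_sound _ 97 [rhac392ddf8b7aad42, (rhb739f4f82bb681b4.shift 0 2)] (by decide +kernel))
noncomputable def rh02402bbbc38aeea8 : CRef := CRef.mk (Pat.mk 0x6000000180000001800000010 0x40000000400000006000000060000001f0000001f00000033 5 6) 0 0 (step_sound _ 33 [rh03dc6678e49e2f26, rh39f426ebe0691969, rhcc9b7f9cec94c987] (by decide +kernel))
noncomputable def rh5ce9f17e85b2287e : CRef := CRef.mk (Pat.mk 0x1c000000880000000200000002 0xe30000007f000000ef0000000200000002 5 8) 0 0 (step_sound _ 101 [rh2fb6a25f131e6388, (rh62a51e5e348b9e49.shift 2 2), (rhe80c67fb403a51c5.shift 2 2), (rheaa91b92daf0efc8.shift 2 2)] (by decide +kernel))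
noncomputable def rhdcf1ec8670fd2d9a : CRef := CRef.mk (Pat.mk 0x8000000180000001e00000000 0xc0000000c0000000c0000001c0000001e0000000b 5 5) 0 0 (step_sound _ 131 [rh102c06f3317148d0, (rh2145e1d24b96a57e.shift 3 1)] (by decide +kernel))
noncomputable def rhf276fd0a929d4e0b : CRef := CRef.mk (Pat.mk 0x80000001a0000001e00000002000000000000000000000000 0x80000001e0000001e0000000e0000000f0000000f00000001 5 5) 0 0 (step_sound _ 66 [(rh06181a2dc624c6f8.shift 2 2), (rhd8c1c87541a7b7cb.shift 2 1), (rhdebc43b768884653.shift 2 1), rhf57aef432b6ec1e1] (by decide +kernel))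
noncomputable def rh21b1e16abc3ac978 : CRef := CRef.mk (Pat.mk 0x1a0000000e000000000000000000000000 0xa0000000f0000001e0000000e0000000c0000000400000004 5 5) 0 0 (step_sound _ 66 [(rh55bd1d49f52856d6.shift 0 2), (rha40d42a2e34c408d.shift 1 0), (rhadf429772c25fde0.shift 2 0)] (by decide +kernel))
noncomputable def rhfff1a45c82c3d560 : CRef := CRef.mk (Pat.mk 0x1a0000000e000000020000000000000000 0xf0000000f0000001a0000000e0000000e0000000400000004 5 5) 0 0 (step_sound _ 66 [(rh55a1f6c57a317ce6.shift 1 0), (rhcf80391c5046a495.shift 2 0), (rhd2b7f0ec558b2a82.shift 0 2)] (by decide +kernel))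
noncomputable def rh5e6fe1ff40cfa896 : CRef := CRef.mk (Pat.mk 0x8000000180000001c0000000c00000000 0x60000000f0000001c0000001c0000000f00000002 5 5) 0 0 (step_sound _ 130 [(rh50fbb5868c909700.shift 2 1), rhaa9ac8a5d07cbbde] (by decide +kernel))
noncomputable def rh1a3c27c1bedf6727 : CRef := CRef.mk (Pat.mk 0x1a0000000600000002000000000000000000000000 0x50000000f0000001e0000000600000002000000070000000700000005 5 5) 0 0 (step_sound _ 65 [(rh05d37fbaec337859.shift 0 2), (rh301a6b3a9154ed36.shift 1 0), rh8cdd36b03d57a2f6, rh91a545eb3be094e3] (by decide +kernel))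
noncomputable def rh13185e48ed11d144 : CRef := CRef.mk (Pat.mk 0x2000000060000000a00000008 0x5000000070000000700000006000000060000000e0000000c 5 4) 0 0 (step_sound _ 129 [(rh1741680720c097b4.shift 0 1), (rh6c80b8fccd5bb0e1.shift 1 0), (rhd4b4beefcd67f51e.shift 1 0)] (by decide +kernel))
noncomputable def rh361697386ff004a3 : CRef := CRef.mk (Pat.mk 0x2000000060000001a00000000000000000000000000000000 0x6000000060000001e00000003000000030000000300000001 5 5) 0 0 (step_sound _ 97 [rh274a837cd7eaa569, (rh5710f30ba40ee3ec.shift 0 2), (rh91a545eb3be094e3.shift 0 1), (rhf3b0450cbffe4da9.shift 0 1)] (by decide +kernel))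
noncomputable def rhd3114851a34382be : CRef := CRef.mk (Pat.mk 0x180000001e000000080000000000000000 0x180000001e0000003f0000003000000030 5 6) 0 0 (step_sound _ 68 [(rhe25b0a99195a5d59.shift 1 2), rhfd6c0d243878f96f] (by decide +kernel))
noncomputable def rhbc4537562ad6dbf9 : CRef := CRef.mk (Pat.mk 0x1e0000001a000000080000000000000000 0x4000000070000001e0000001a0000000f0000000700000004 5 5) 0 0 (step_sound _ 161 [(rh3244c3cc8379b070.shift 0 4), rh51be11e2016289cc] (by decide +kernel))
noncomputable def rhd6645cafb7fd723e : CRef := CRef.mk (Pat.mk 0x1000000050000000d000000050000000000000000 0x100000001000000050000000f0000001f0000001a00000008 5 5) 0 0 (step_sound _ 65 [(rh55afc6a59410cf00.shift 0 1), rh5824808db832a621] (by decide +kernel))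
noncomputable def rh08618864a6ae8f50 : CRef := CRef.mk (Pat.mk 0x1c00000018000000180000001c00000000 0x1f0000001f000000780000003c00000020 5 7) 0 0 (step_sound _ 69 [(rh18965a982d73c794.shift 2 1), rhdd58f18b31870685] (by decide +kernel))
noncomputable def rh962af61af614cf13 : CRef := CRef.mk (Pat.mk 0x1e00000000000000180000001c00000000 0x1e000000070000001b0000001f00000003 5 5) 0 0 (step_sound _ 97 [rh552a0bb2e68ffa8c, (rheb0810cc63b001d8.shift 0 3)] (by decide +kernel))
noncomputable def rhf516d1cec07c11dd : CRef := CRef.mk (Pat.mk 0x4000000040000000020000000e00000000 0x4000000060000000330000003e00000070 5 7) 0 0 (step_sound _ 36 [(rh175976049947b90e.shift 1 0), (rh3244c3cc8379b070.shift 0 1)] (by decide +kernel))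
noncomputable def rh67a05475ed343c81 : CRef := CRef.mk (Pat.mk 0x4000000040000000010000000e00000000 0x4000000060000000330000003e00000070 5 7) 0 0 (step_sound _ 36 [(rh175976049947b90e.shift 1 0), (rh3f8766e6ecb455ce.shift 0 1)] (by decide +kernel))
noncomputable def rhad6f722233554f74 : CRef := CRef.mk (Pat.mk 0x20000000600000012000000000000000000000000 0x400000006000000060000001e0000000f0000000700000001 5 5) 0 0 (step_sound _ 65 [rh91a545eb3be094e3, (rha707fb719e87fe6e.shift 1 1), (rhdb57bcbe4a84bd4b.shift 0 1)] (by decide +kernel))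
noncomputable def rhe88f6e1835de12b1 : CRef := CRef.mk (Pat.mk 0x3800000000 0x70000007e000000ff 5 8) 0 0 (step_sound _ 34 [(rh06db8ceda6269a47.shift 1 0), rh0d378fd9e8917c5a, rh592c7139d2c44767] (by decide +kernel))
noncomputable def rh6b1bc05f1d977f0b : CRef := CRef.mk (Pat.mk 0x8000000180000000a0000001e00000000 0x40000000f0000001f0000000a0000001e00000003 5 5) 0 0 (step_sound _ 130 [(rh50fbb5868c909700.shift 2 1), rh9fbe6440a5fd6b9c] (by decide +kernel))
noncomputable def rh720319bc9a74472b : CRef := CRef.mk (Pat.mk 0x700000006000000040000000400000000 0x10000000700000006000000070000003e0000000a 5 6) 0 0 (step_sound _ 33 [rh8e55015ec1d2de5d, (rh932754581e0f4330.shift 1 0)] (by decide +kernel))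
noncomputable def rh6333f1db26f97d95 : CRef := CRef.mk (Pat.mk 0x1000000000000000600000006000000040000000000000000 0x3000000030000000600000006000000070000000300000003 5 3) 0 0 (step_sound _ 161 [rh000f75110575adc4, (rh2145e1d24b96a57e.shift 1 2)] (by decide +kernel))
noncomputable def rhd6b9d9d01a8bb3b0 : CRef := CRef.mk (Pat.mk 0x1000000000000000600000006000000000000000000000000 0x10000000300000003000000030000000700000006000000030000000300000003 5 3) 0 0 (step_sound _ 161 [rh000f75110575adc4, (rh0dbc8abee7ad42d4.shift 0 2), (rhf627eb01e9e8db9a.shift 0 3)] (by decide +kernel))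
noncomputable def rh70b5a108a02c807f : CRef := CRef.mk (Pat.mk 0x3800000000 0xff0000007e00000007 5 8) 0 0 (step_sound _ 34 [(rh4c622fddc53a5f99.shift 0 1), rh7654d7b92c96fe12, rh775ca1963e850b80, (rhb18e6c78a554867d.shift 1 1)] (by decide +kernel))
noncomputable def rh1e49d4c5bead25a2 : CRef := CRef.mk (Pat.mk 0x1c00000100 0xf7000000fe000001c7 5 9) 0 0 (step_sound _ 37 [(rh0f1f75917d11acd2.shift 2 0), (rh4c622fddc53a5f99.shift 0 1), rh592c7139d2c44767] (by decide +kernel))
noncomputable def rh6a7176c231ab0ddc : CRef := CRef.mk (Pat.mk 0x600000000000000020000000200000000 0x1000000070000000700000002000000030000000300000001 5 3) 0 0 (step_sound _ 97 [(rh2f68792b6b779e96.shift 1 1), rh968ba7b0df7e4096] (by decide +kernel))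
noncomputable def rh6eee485fb591ff64 : CRef := CRef.mk (Pat.mk 0x38000000000000000800000008 0x770000003e000000070000000c00000008 5 7) 0 0 (step_sound _ 98 [(rh04395309fba550d6.shift 1 0), (rh4c622fddc53a5f99.shift 0 3), (rh7654d7b92c96fe12.shift 0 2)] (by decide +kernel))
noncomputable def rh22f9092da71f0b6b : CRef := CRef.mk (Pat.mk 0xe00000000000000020000000200000000 0x70000001e00000003000000030000000300000001 5 5) 0 0 (step_sound _ 97 [(rh2f68792b6b779e96.shift 1 1), rha73137a1fd2de2a3] (by decide +kernel))
noncomputable def rh3bdb7b67178fae2d : CRef := CRef.mk (Pat.mk 0x80000001a00000038000000180000000000000000 0x80000001b0000003f0000007c0000006400000020 5 7) 0 0 (step_sound _ 66 [(rh932754581e0f4330.shift 2 1), rhd75a7acf486622a5] (by decide +kernel))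
noncomputable def rh63840dbdb4d13278 : CRef := CRef.mk (Pat.mk 0x220000002600000036000000000000000000000000 0x2200000036000000360000001f0000001700000013 5 6) 0 0 (step_sound _ 66 [rh5e5794ed45ae5668, (rh7b1f1fb55310c477.shift 1 1)] (by decide +kernel))
noncomputable def rh84f6ed9995a315bc : CRef := CRef.mk (Pat.mk 0x3000000020000000600000006000000000000000000000000 0x400000007000000030000000600000006000000030000000300000003 5 3) 0 0 (step_sound _ 194 [rh000f75110575adc4, (rh2f68792b6b779e96.shift 1 3)] (by decide +kernel))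
noncomputable def rhdeffc169d2474e23 : CRef := CRef.mk (Pat.mk 0x200000006000000060000000000000000 0x3000000030000000300000006000000070000000300000001 5 3) 0 0 (step_sound _ 161 [(rh2145e1d24b96a57e.shift 1 2), rhc4526fc8abf298b6] (by decide +kernel))
noncomputable def rh443986bade187874 : CRef := CRef.mk (Pat.mk 0xc0000000c000000280000000800000000 0xc0000000c0000003c0000001e00000017 5 6) 0 0 (step_sound _ 34 [(rh932754581e0f4330.shift 2 0), rhbf764494b74a9782] (by decide +kernel))
noncomputable def rh4b98a2cd7e3a1baa : CRef := CRef.mk (Pat.mk 0xe0000001e000000100000000600000000 0xe0000001e0000001a0000001f0000001b 5 5) 0 0 (step_sound _ 65 [(rh71222050f2c63a3a.shift 1 0), rhe02964abf3a68a21] (by decide +kernel))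
noncomputable def rhb52f621a7dbf34d4 : CRef := CRef.mk (Pat.mk 0xc0000001c000000100000000600000000 0xc0000001c000000180000001f0000007c 5 7) 0 0 (step_sound _ 4 [(rh9e07f76261b05888.shift 3 0), rhd1d2b52a1eea221e] (by decide +kernel))
noncomputable def rh408e65ef3e818fe1 : CRef := CRef.mk (Pat.mk 0x60000000f000000020000000200000000 0x200000002000000060000000f0000001b0000001f0000000c 5 5) 0 0 (step_sound _ 64 [(rh503dd4575245365b.shift 0 1), rhece6e0089c7424c3] (by decide +kernel))
noncomputable def rhf96766ef57f24332 : CRef := CRef.mk (Pat.mk 0x220000002600000036000000000000000000000000 0x10000002300000037000000360000001e0000001600000012 5 6) 0 0 (step_sound _ 66 [rh277cbd247e5e36c8, (rh7b1f1fb55310c477.shift 1 1)] (by decide +kernel))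
noncomputable def rhe606862926198964 : CRef := CRef.mk (Pat.mk 0x12000000160000001400000010 0xa0000001e0000003b000000160000001400000010 5 6) 0 0 (step_sound _ 131 [(rh1063862a70c9fa4f.shift 0 1), (rhffd04209dc8ea796.shift 3 0)] (by decide +kernel))
noncomputable def rh8fc62e25076e002b : CRef := CRef.mk (Pat.mk 0x90000000b0000000a00000008 0x50000000f0000001d0000000f0000000a00000008 5 5) 0 0 (step_sound _ 130 [(rhe18fc4146d3f3f2b.shift 0 1), (rhffd04209dc8ea796.shift 2 0)] (by decide +kernel))
noncomputable def rh14fa1482f8ff5e1b : CRef := CRef.mk (Pat.mk 0x8000000060000000420000005800000010 0x80000000c8000000780000004f0000007800000010 5 8) 0 0 (step_sound _ 134 [(rh2f68792b6b779e96.shift 6 1), rhd04cc321ead33346] (by decide +kernel))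
noncomputable def rhf591575282a31422 : CRef := CRef.mk (Pat.mk 0x80000000a00000008000000000000000000000000 0x10000000780000001f000000080000001c0000001c00000014 5 7) 0 0 (step_sound _ 67 [(rh0363d47a46978688.shift 0 2), (rh6c59ce14113da07f.shift 3 0), (rh6eff4158bb400f47.shift 2 0), (rhcab3157f7bdcba3e.shift 2 0)] (by decide +kernel))
noncomputable def rhd8c394f6f1cae318 : CRef := CRef.mk (Pat.mk 0x1c00000001 0x700000003e00000073 5 7) 0 0 (step_sound _ 33 [rh80fcd6d0a18cb2dd, (rha93a5dd541ab8209.shift 1 0)] (by decide +kernel))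
noncomputable def rh73defbe0d585e6ce : CRef := CRef.mk (Pat.mk 0xe00000002 0x780000003f0000007e 5 7) 0 0 (step_sound _ 36 [rh44fae8d9c1045ff0, (rha93a5dd541ab8209.shift 1 0), (rhd584a578337d0023.shift 1 0), (rhf3baec4a0a3dd35e.shift 1 0)] (by decide +kernel))
noncomputable def rh3b262d73dc93b0fc : CRef := CRef.mk (Pat.mk 0xe0000000400000005 0x700000003f0000003e0000000f 5 7) 0 0 (step_sound _ 36 [(rh7344b4efa7925350.shift 0 1), rhbab5059118667c88, (rhdaae84b65b246d22.shift 1 1)] (by decide +kernel))
noncomputable def rh1da0f313faee2e88 : CRef := CRef.mk (Pat.mk 0x140000001400000014000000180000000000000000 0x1000000014000000160000001f0000001b0000000200000002 5 5) 0 0 (step_sound _ 99 [rh477fdd9d2c1e98fc, (rh5c5e593799055d58.shift 3 2)] (by decide +kernel))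
noncomputable def rh069689bba01d845e : CRef := CRef.mk (Pat.mk 0x20000000200000002000000060000000000000000 0x100000003000000030000000200000006000000070000000300000001 5 3) 0 0 (step_sound _ 32 [rh683a190b8388b625, (rh79877ebd3ef475dd.shift 0 1)] (by decide +kernel))
noncomputable def rh744add5a1d9c68a1 : CRef := CRef.mk (Pat.mk 0xa0000000a0000000a0000000000000000 0x140000001e0000000b0000000f0000007c00000010 5 7) 0 0 (step_sound _ 35 [(rh9258736a7488cc35.shift 0 1), rhabaa648d2bc9d61c] (by decide +kernel))
noncomputable def rh703e1f49b8dbfbee : CRef := CRef.mk (Pat.mk 0x80000000a0000000a0000000a00000000 0x40000000c0000001e0000000b0000001e0000000c 5 5) 0 0 (step_sound _ 130 [(rh50fbb5868c909700.shift 2 1), rhea9bbcda97f27418] (by decide +kernel))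
noncomputable def rh0f06c269910e831e : CRef := CRef.mk (Pat.mk 0x20000001800000018000000700000000000000000 0xc0000000f0000001800000018000000780000000c00000008 5 7) 0 0 (step_sound _ 163 [(rh2145e1d24b96a57e.shift 3 2), rhbaa32f624ded3670] (by decide +kernel))
noncomputable def rh6610980f531298df : CRef := CRef.mk (Pat.mk 0x8000000080000000a0000000000000000 0x140000001c0000001c00000008000000080000001f0000001c00000010 5 5) 0 0 (step_sound _ 163 [(rh1741680720c097b4.shift 2 2), rhd8c37efe07b158de] (by decide +kernel))
noncomputable def rh4c461be7b7b39b2d : CRef := CRef.mk (Pat.mk 0x80000000a0000000a00000000 0x140000001c0000001c000000080000000b0000001e00000014 5 5) 0 0 (step_sound _ 131 [rh11a243992b58ed44, (rh1741680720c097b4.shift 2 1)] (by decide +kernel))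
noncomputable def rh5467f8a7ebddd2d8 : CRef := CRef.mk (Pat.mk 0x20000000c0000000520000005300000010 0x2800000078000000c80000005e0000005b00000010 5 8) 0 0 (step_sound _ 134 [rh25f78a9683db91c3, (rh50fbb5868c909700.shift 5 1)] (by decide +kernel))
noncomputable def rh48bdb31849c83d76 : CRef := CRef.mk (Pat.mk 0x180000000b0000000a0000000a 0x50000000f0000001d0000000b0000000b0000000a 5 5) 0 0 (step_sound _ 130 [rh6ab6ad00a9f3d737, (rhffd04209dc8ea796.shift 2 0)] (by decide +kernel))
noncomputable def rh01027f0b9a8d00ba : CRef := CRef.mk (Pat.mk 0x14000000140000001c000000100000000000000000 0x14000000160000001f0000001b0000000a00000002 5 5) 0 0 (step_sound _ 67 [rh477fdd9d2c1e98fc, (rh932754581e0f4330.shift 3 1)] (by decide +kernel))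
noncomputable def rh54500e755d88beaf : CRef := CRef.mk (Pat.mk 0x3e00000000 0xe0000000ff0000001c 5 8) 0 0 (step_sound _ 70 [(rh428265de8cd3cd2d.shift 2 1), rhb9f0dbea8af93d44] (by decide +kernel))
noncomputable def rh1a33908c8c221aa7 : CRef := CRef.mk (Pat.mk 0x80000000a0000000e0000000800000000 0x80000000b0000007e0000007c00000004 5 7) 0 0 (step_sound _ 34 [(rh610ac9a8eb925710.shift 0 1), (rh932754581e0f4330.shift 2 0)] (by decide +kernel))
noncomputable def rh541d5c471d9e55a7 : CRef := CRef.mk (Pat.mk 0x18000000100000001e00000014 0x20000000320000003e000000130000001e00000014 5 6) 0 0 (step_sound _ 133 [rhb02183d07db8479b, (rhbaefcd01e0a8bca3.shift 4 0)] (by decide +kernel))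
noncomputable def rh8ff7de88444805b5 : CRef := CRef.mk (Pat.mk 0xf0000000a0000000200000000 0x40000001c0000000f0000000b0000001e0000001c 5 5) 0 0 (step_sound _ 131 [(rh33e738c4ed385b9f.shift 0 3), rhd8f7bc1ffea72a9a] (by decide +kernel))
noncomputable def rh09434c5c7c2faa76 : CRef := CRef.mk (Pat.mk 0x1e00000002000000020000000000000000 0x2000000070000001e00000006000000060000000600000002 5 5) 0 0 (step_sound _ 161 [(rh3244c3cc8379b070.shift 0 4), (rhf54eb268e673aa4b.shift 1 0)] (by decide +kernel))
noncomputable def rh53e2edde17e72ab8 : CRef := CRef.mk (Pat.mk 0x3c000000140000000400000000 0x4000000060000003c0000001c0000000f0000000a 5 6) 0 0 (step_sound _ 130 [rh15f443a9a462a99b, (rh3244c3cc8379b070.shift 1 3)] (by decide +kernel))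
noncomputable def rh63e025c26d1b6de3 : CRef := CRef.mk (Pat.mk 0x400000002000000020000000a00000018 0x1000000070000000700000002000000030000000f00000018 5 5) 0 0 (step_sound _ 129 [(rh2f68792b6b779e96.shift 1 1), rh319bffbb0603e240] (by decide +kernel))
noncomputable def rh613f209fe4f78614 : CRef := CRef.mk (Pat.mk 0x200000002000000020000000200000000 0x500000007000000070000000200000003000000030000000300000001 5 3) 0 0 (step_sound _ 161 [(rh20966da26a1c2ae8.shift 0 1), (rh771d065bdc85bf2d.shift 0 1), rh7928877f9bf74a91, (rhc85cc95794737cf7.shift 0 2)] (by decide +kernel))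
noncomputable def rhc5e22b757115ea30 : CRef := CRef.mk (Pat.mk 0x20000001a0000000200000000 0x50000000700000007000000020000001b0000000f00000005 5 5) 0 0 (step_sound _ 129 [(rh1741680720c097b4.shift 0 1), rh36e6bb6cca6188da, rh3b734c5288922837] (by decide +kernel))
noncomputable def rh81777994d02217c0 : CRef := CRef.mk (Pat.mk 0x8000000080000006800000008 0x140000003c0000000f0000007800000008 5 7) 0 0 (step_sound _ 66 [rh20ee5c2c4c3a9878, (rh5419adcd928dba20.shift 2 1)] (by decide +kernel))
noncomputable def rh5c62ef27abcc04f6 : CRef := CRef.mk (Pat.mk 0x1000000038000000000000000000000000 0x1000000010000000170000003e000000770000002000000020 5 7) 0 0 (step_sound _ 98 [(rh185f35b8bd8ec37f.shift 0 2), (rh592c7139d2c44767.shift 0 2), (rh65dcfd18fd55cba0.shift 2 0)] (by decide +kernel))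
noncomputable def rhdee67538b8dccf39 : CRef := CRef.mk (Pat.mk 0x20000000200000002000000000000000000000000 0x500000007000000070000000200000002000000070000000700000005 5 3) 0 0 (step_sound _ 65 [rh8cdd36b03d57a2f6, (rhc85cc95794737cf7.shift 0 2)] (by decide +kernel))
noncomputable def rh93dda9760d3e1fd3 : CRef := CRef.mk (Pat.mk 0xc00000008000000080000000e00000000 0xc0000000c0000000f0000003e00000013 5 6) 0 0 (step_sound _ 36 [rh04d7e19c993f8872, (rh55afc6a59410cf00.shift 3 0)] (by decide +kernel))
noncomputable def rha749589d3479e302 : CRef := CRef.mk (Pat.mk 0x20000001a0000000200000000 0x50000000700000007000000020000001a0000000f00000005 5 5) 0 0 (step_sound _ 129 [(rh1741680720c097b4.shift 0 1), rh36e6bb6cca6188da] (by decide +kernel))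
noncomputable def rh1b459c1a8e45abea : CRef := CRef.mk (Pat.mk 0x80000000c0000000800000008 0x140000007c0000001f0000000800000008 5 7) 0 0 (step_sound _ 98 [(rh50fbb5868c909700.shift 2 0), rhc9613fc5bab58382] (by decide +kernel))
noncomputable def rh69032fcc3e239b7f : CRef := CRef.mk (Pat.mk 0x2000000020000000200000002 0x5000000070000000700000006000000030000000300000003 5 3) 0 0 (step_sound _ 129 [rh20966da26a1c2ae8, (rh44f453b84f013105.shift 1 0), rh771d065bdc85bf2d] (by decide +kernel))
noncomputable def rh0bf089275365921a : CRef := CRef.mk (Pat.mk 0x20000001a000000020000000000000000 0x50000000700000007000000060000001a0000000f0000000700000004 5 5) 0 0 (step_sound _ 161 [(rh1741680720c097b4.shift 0 2), (rh36e6bb6cca6188da.shift 0 1), (rh6c59ce14113da07f.shift 1 0)] (by decide +kernel))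
noncomputable def rhb69e01359119a9fa : CRef := CRef.mk (Pat.mk 0x38000000100000000000000008 0x70000007e0000007e0000000800000008 5 7) 0 0 (step_sound _ 98 [(rh12a4aa43a438d841.shift 1 0), (rh4f8edb321cf5b49d.shift 0 2), (rha03f6e28ea70fc7d.shift 1 2)] (by decide +kernel))
noncomputable def rh92dd5669f32a5756 : CRef := CRef.mk (Pat.mk 0x20000001a0000000200000000 0x50000000700000007000000020000001b0000000f00000005 5 5) 0 0 (step_sound _ 129 [rh0095f0d853411769, (rh1741680720c097b4.shift 0 1), rh3b734c5288922837, rh771d065bdc85bf2d] (by decide +kernel))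
noncomputable def rhc08bd25093e3450d : CRef := CRef.mk (Pat.mk 0x400000060000000080000001c00000000 0x4000000640000003f0000003f00000003 5 7) 0 0 (step_sound _ 66 [rh65abb25e6451d760, (rhe2b63c00a3d7bb73.shift 0 1)] (by decide +kernel))
noncomputable def rhe81f52ced7ab21b3 : CRef := CRef.mk (Pat.mk 0xe000000020000004000000040 0x700000007e000000630000004000000040 5 7) 0 0 (step_sound _ 100 [(rh88ed6743a006af60.shift 1 0), (rheb0810cc63b001d8.shift 0 2)] (by decide +kernel))
noncomputable def rh5dfc83794b23ff78 : CRef := CRef.mk (Pat.mk 0x180000003400000006 0xa0000000e0000000f0000001e0000003600000006 5 6) 0 0 (step_sound _ 66 [rhb1e7e9b89e1378a4, (rhb739f4f82bb681b4.shift 1 1)] (by decide +kernel))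
noncomputable def rh6126f4d0a8025a48 : CRef := CRef.mk (Pat.mk 0x80000000800000008000000020000000000000000 0x140000001c0000001c00000018000000080000001f0000001c00000010 5 5) 0 0 (step_sound _ 67 [(rh6c59ce14113da07f.shift 3 0), (rhc85cc95794737cf7.shift 2 2), rhd8c37efe07b158de] (by decide +kernel))
noncomputable def rha100d0586d1721fb : CRef := CRef.mk (Pat.mk 0x8000000080000000b00000008 0x40000000f0000007c0000000f00000008 5 7) 0 0 (step_sound _ 68 [(rh1c62b6193297d9e3.shift 0 1), rhca405e350c462817] (by decide +kernel))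
noncomputable def rha86bf47c08392c9e : CRef := CRef.mk (Pat.mk 0x1000000360000002600000022 0x160000001f00000013000000360000003600000022 5 6) 0 0 (step_sound _ 97 [rh50fbb5868c909700, rh6ed79afb053e7d95] (by decide +kernel))
noncomputable def rhd507977c021a553a : CRef := CRef.mk (Pat.mk 0x400000000000001000000003800000000 0x400000004000001ce000000fe00000007 5 9) 0 0 (step_sound _ 66 [(rh06f87a331c7e5d9a.shift 2 1), rh463e175230fcd751] (by decide +kernel))
noncomputable def rh24d54ffed2f04580 : CRef := CRef.mk (Pat.mk 0x8000000080000000a000000000000000000000000 0x100000001800000018000000080000001f0000007c0000001c00000014 5 7) 0 0 (step_sound _ 67 [(rh20966da26a1c2ae8.shift 2 1), (rh6eff4158bb400f47.shift 2 0), (rhc486ae0fcc44be52.shift 0 1)] (by decide +kernel))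
noncomputable def rh8cd7ffe18900bf90 : CRef := CRef.mk (Pat.mk 0x60000001e000000040000000000000000 0x60000001e0000003f0000000300000003 5 6) 0 0 (step_sound _ 65 [rh5bbb42b4dd96b3c7, (rheb0810cc63b001d8.shift 0 2)] (by decide +kernel))
noncomputable def rh30554cc634f864ce : CRef := CRef.mk (Pat.mk 0x60000001e000000020000000000000000 0x60000001f0000003e0000000300000003 5 6) 0 0 (step_sound _ 33 [rh20b1b26cebdc24cf, (rh71222050f2c63a3a.shift 1 0)] (by decide +kernel))
noncomputable def rh189a6c4d974aeeca : CRef := CRef.mk (Pat.mk 0x480000000c0000000000000006000000040000000000000000 0x7a0000000f0000000200000006000000060000000400000004 5 7) 0 0 (step_sound _ 196 [(rh361cc68994bd8a63.shift 2 5), rh70191dc3e851f633] (by decide +kernel))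
noncomputable def rhfe82e24163af4047 : CRef := CRef.mk (Pat.mk 0x1e0000001a000000000000000000000000 0x2000000070000001e0000001e000000070000000600000002 5 5) 0 0 (step_sound _ 161 [rh318c6514c4b07af1, (rh3244c3cc8379b070.shift 0 4)] (by decide +kernel))
noncomputable def rh0a6f7b7eb06de4c1 : CRef := CRef.mk (Pat.mk 0x3800000008000000180000001000000000 0x3c0000000f0000007e0000007600000004 5 7) 0 0 (step_sound _ 98 [(rh0fcb228d13e9ff47.shift 1 0), (rh1ed7a3503fa50fc8.shift 0 3), (rhdeca8db941583de2.shift 0 2)] (by decide +kernel))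
noncomputable def rh58d54f102ab270ae : CRef := CRef.mk (Pat.mk 0x100000000000000038000000200000000000000000 0x1000000010000000180000007c0000002f0000000800000008 5 7) 0 0 (step_sound _ 132 [(rh2145e1d24b96a57e.shift 4 2), rh596def3aae05c2e3] (by decide +kernel))
noncomputable def rh02dc690356e91745 : CRef := CRef.mk (Pat.mk 0x4000000840000000e0000000000000000 0x4000000e70000007e0000007300000002 5 8) 0 0 (step_sound _ 68 [(rh6dd26613a1ae639b.shift 1 1), rhae036cc4ef671676, (rhe3060b190bc0bc78.shift 0 2)] (by decide +kernel))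
noncomputable def rh52c53252a5cafda8 : CRef := CRef.mk (Pat.mk 0x2000000800000000e0000000000000000 0x200000002000000e30000007e0000007700000004 5 8) 0 0 (step_sound _ 68 [(rh6dd26613a1ae639b.shift 1 1), rh7655e1d834265650, (rhf0e41d6fe90b727a.shift 0 1)] (by decide +kernel))
noncomputable def rh21c58d57e7f99cd1 : CRef := CRef.mk (Pat.mk 0x1000000001c00000000 0x1c7000000fe000000ef 5 9) 0 0 (step_sound _ 37 [rh592c7139d2c44767, (rh6dd26613a1ae639b.shift 2 0), (rhf0e41d6fe90b727a.shift 1 0)] (by decide +kernel))
noncomputable def rh3542aec337c58088 : CRef := CRef.mk (Pat.mk 0x4000000000000001e0000000000000000 0x600000006000000030000001e0000000700000004 5 5) 0 0 (step_sound _ 97 [(rh3244c3cc8379b070.shift 0 2), rh3b10f7c9e6b72717] (by decide +kernel))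
noncomputable def rh34d5700d8f1990b7 : CRef := CRef.mk (Pat.mk 0x98000000180000000800000008 0x4000000ff0000001f0000000800000008 5 8) 0 0 (step_sound _ 101 [(rh361cc68994bd8a63.shift 3 2), rhf37c6fa7e7b4e7c2] (by decide +kernel))
noncomputable def rh013b530ea2c4c364 : CRef := CRef.mk (Pat.mk 0x1e00000008000000080000000800000000 0x30000001e0000000f0000000e0000000c00000004 5 5) 0 0 (step_sound _ 97 [rh9c4c5c988c3e824f, (rheb0810cc63b001d8.shift 0 3)] (by decide +kernel))
noncomputable def rh74249c1e49477e8a : CRef := CRef.mk (Pat.mk 0x34000000040000001400000000 0xe0000001e00000034000000070000003e00000002 5 6) 0 0 (step_sound _ 130 [(rh2f7aebebd7d680c3.shift 1 1), rh64d324585ca865ad] (by decide +kernel))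
noncomputable def rh963aae9dcd3ec6a5 : CRef := CRef.mk (Pat.mk 0x800000000e00000002 0xe00000007e00000073 5 8) 0 0 (step_sound _ 36 [(rh6dd26613a1ae639b.shift 1 0), rheb0810cc63b001d8] (by decide +kernel))
noncomputable def rh76dc740c962f4db7 : CRef := CRef.mk (Pat.mk 0x4c0000000c0000000800000010 0x800000008000000080000007c0000000f0000001c00000010 5 7) 0 0 (step_sound _ 100 [rh2c5fdec6afa469ec, (rh361cc68994bd8a63.shift 2 2)] (by decide +kernel))
noncomputable def rhb0d8db7cceb3a8e2 : CRef := CRef.mk (Pat.mk 0x820000000e00000000 0xe30000007e00000070 5 8) 0 0 (step_sound _ 36 [(rh3244c3cc8379b070.shift 0 1), (rh6dd26613a1ae639b.shift 1 0)] (by decide +kernel))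
noncomputable def rhc4fe7eb023ee3c03 : CRef := CRef.mk (Pat.mk 0x300000001a00000002000000020000000000000000 0x750000003f0000001b00000002000000030000000300000001 5 7) 0 0 (step_sound _ 161 [(rh0f7120a7b28fa607.shift 0 2), (rh2f7aebebd7d680c3.shift 0 2), rhc4526fc8abf298b6] (by decide +kernel))
noncomputable def rh9d7ed252db961d27 : CRef := CRef.mk (Pat.mk 0x2000000030000000200000002 0x5000000070000000700000006000000030000000300000002 5 3) 0 0 (step_sound _ 129 [(rh1741680720c097b4.shift 0 1), (rh44f453b84f013105.shift 1 0), (rha77f215723363df0.shift 0 1)] (by decide +kernel))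
noncomputable def rhe740c8e7ff8e968f : CRef := CRef.mk (Pat.mk 0x1e00000002000000020000000a0000000000000000 0x30000001e00000002000000060000001f0000000300000001 5 5) 0 0 (step_sound _ 193 [(rh3244c3cc8379b070.shift 0 5), rhacc6bd57f7d8409e] (by decide +kernel))
noncomputable def rhaa203263abd046db : CRef := CRef.mk (Pat.mk 0xc0000000600000000000000038000000000000000000000000 0xc8000000780000000f0000007c000000180000001000000010 5 8) 0 0 (step_sound _ 163 [(rh24ae073cf30720c4.shift 3 5), rhd6dd8c60e72fc04d] (by decide +kernel))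
noncomputable def rhe5a9f5da05e448ca : CRef := CRef.mk (Pat.mk 0x1000000001c00000000 0x1cf000000fe000000f0 5 9) 0 0 (step_sound _ 37 [rh0d378fd9e8917c5a, (rh3e2531436cb70ef7.shift 1 1), (rh6dd26613a1ae639b.shift 2 0)] (by decide +kernel))
noncomputable def rhc36d181a5544240c : CRef := CRef.mk (Pat.mk 0x300000001a00000002000000020000000000000000 0x750000003f0000001b00000002000000060000000600000004 5 7) 0 0 (step_sound _ 161 [(rh0f7120a7b28fa607.shift 0 2), (rh2f7aebebd7d680c3.shift 0 2), rh46baee19951a66e7] (by decide +kernel))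
noncomputable def rh42ac638a6bc44305 : CRef := CRef.mk (Pat.mk 0x10000001a00000002000000020000000000000000 0x40000000f0000001b00000002000000060000000600000004 5 5) 0 0 (step_sound _ 33 [rhf7a0a7e6b12e15c2, (rhffd04209dc8ea796.shift 0 1)] (by decide +kernel))
noncomputable def rhf7b6f5f5273b3e3a : CRef := CRef.mk (Pat.mk 0x1a0000000200000002000000000000000000000000 0x50000000f0000001b0000000300000002000000070000000700000005 5 5) 0 0 (step_sound _ 65 [rh6eff4158bb400f47, (rh769c8bac0b178383.shift 0 2), rh8ff3dde5b1c639e0, rhc4526fc8abf298b6] (by decide +kernel))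
noncomputable def rhea52d00ba1b1d8d4 : CRef := CRef.mk (Pat.mk 0x2000000120000001a0000000a 0x1d0000001f0000001a0000001a0000000a 5 5) 0 0 (step_sound _ 132 [rhc38176d5265d3b20, (rhee230b994cc8b773.shift 3 0)] (by decide +kernel))
noncomputable def rhcb80472e20cd3872 : CRef := CRef.mk (Pat.mk 0x1000000001c00000000 0x1c0000000fe000000ff 5 9) 0 0 (step_sound _ 37 [rh41140eaa67c26838, (rh6dd26613a1ae639b.shift 2 0), (rhf0e41d6fe90b727a.shift 1 0)] (by decide +kernel))
noncomputable def rhb15965421efe1c21 : CRef := CRef.mk (Pat.mk 0x100000001a00000002000000020000000000000000 0x40000001f0000001b00000002000000070000000700000005 5 5) 0 0 (step_sound _ 161 [rh8cdd36b03d57a2f6, (rhd30c856bbcb3617d.shift 0 2)] (by decide +kernel))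
noncomputable def rhe9d6dee13fb537c8 : CRef := CRef.mk (Pat.mk 0x1a000000020000000200000000 0x5000000070000000f0000001a000000030000000300000001 5 5) 0 0 (step_sound _ 129 [rh20966da26a1c2ae8, (rh330a005829cdd297.shift 0 1), rh771d065bdc85bf2d] (by decide +kernel))
noncomputable def rhf672f1925a7f52e3 : CRef := CRef.mk (Pat.mk 0x300000001a00000002000000020000000000000000 0x750000003f0000001b00000002000000030000000300000001 5 7) 0 0 (step_sound _ 161 [(rh0f7120a7b28fa607.shift 0 2), (rh2f7aebebd7d680c3.shift 0 2), rhc4526fc8abf298b6, (rhd30c856bbcb3617d.shift 0 2)] (by decide +kernel))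
noncomputable def rhe06c7604aef75ec4 : CRef := CRef.mk (Pat.mk 0x400000004000000140000000400000000 0x400000004000000370000003e0000000a 5 6) 0 0 (step_sound _ 33 [rh3bbd61c3f937e3ba, (rh932754581e0f4330.shift 1 0)] (by decide +kernel))
noncomputable def rhcc2b60f0e2d6a7d9 : CRef := CRef.mk (Pat.mk 0x1000000001c00000000 0x1cf000000fe0000000f 5 9) 0 0 (step_sound _ 37 [(rh3e2531436cb70ef7.shift 1 1), rh592c7139d2c44767, (rhf0e41d6fe90b727a.shift 1 0)] (by decide +kernel))
noncomputable def rhb388c22bb80b26bb : CRef := CRef.mk (Pat.mk 0x20000001e00000002000000000000000000000000 0x200000002000000060000001e0000003e000000070000000700000002 5 6) 0 0 (step_sound _ 100 [rh6d5dd99310f86b92, (rhe25b0a99195a5d59.shift 1 3)] (by decide +kernel))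
noncomputable def rh8e8119342f154b06 : CRef := CRef.mk (Pat.mk 0x20000000600000002000000000000000000000000 0x600000006000000060000000600000006000000070000000700000005 5 3) 0 0 (step_sound _ 65 [(rh301a6b3a9154ed36.shift 1 0), (rh7ab09f375cd5d482.shift 1 2), rh8cdd36b03d57a2f6, (rha707fb719e87fe6e.shift 1 1)] (by decide +kernel))
noncomputable def rh91a940540eb880d4 : CRef := CRef.mk (Pat.mk 0x200000002000000120000000200000000 0x400000006000000020000001e0000000f00000005 5 5) 0 0 (step_sound _ 130 [(rh2f68792b6b779e96.shift 1 1), rhdb57bcbe4a84bd4b] (by decide +kernel))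
noncomputable def rha700292a805d5a54 : CRef := CRef.mk (Pat.mk 0x4000000000000001e0000000000000000 0x600000006000000030000001e0000000700000004 5 5) 0 0 (step_sound _ 33 [rh6aa1e08010d2d040, (rheb0810cc63b001d8.shift 0 1)] (by decide +kernel))
noncomputable def rh64be2b5d11a71c7a : CRef := CRef.mk (Pat.mk 0x3000000000000000380000000000000000 0x3000000030000000100000007e000001f700000020 5 9) 0 0 (step_sound _ 37 [(rh8ee80cc30e93a344.shift 2 1), (rha0ae8adeb1dbcf8d.shift 0 1), (rhe22962262ebe4d70.shift 4 0)] (by decide +kernel))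
noncomputable def rhe39e26b66b1f1506 : CRef := CRef.mk (Pat.mk 0x300000001c000000040000000600000000 0x770000003f0000001c000000060000000600000004 5 7) 0 0 (step_sound _ 131 [(rh71222050f2c63a3a.shift 2 0), (rh8f74ab5cf507d7a5.shift 0 1)] (by decide +kernel))
noncomputable def rhda43b8224550ae6c : CRef := CRef.mk (Pat.mk 0x3800000000 0xf0000007e000000f7 5 8) 0 0 (step_sound _ 34 [rh0d378fd9e8917c5a, rh185f35b8bd8ec37f, rh775ca1963e850b80, (rhe401600d466b97cd.shift 1 0)] (by decide +kernel))
noncomputable def rhe2892c72bc3d22be : CRef := CRef.mk (Pat.mk 0x100000000000000038000000000000000000000000 0x1000000010000000170000003e000000770000002000000020 5 7) 0 0 (step_sound _ 98 [(rh03a6f79dca3226c9.shift 2 0), (rh0d378fd9e8917c5a.shift 0 2), (rh185f35b8bd8ec37f.shift 0 2), (rh775ca1963e850b80.shift 0 2)] (by decide +kernel))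
noncomputable def rh7c8b9aa03d3da415 : CRef := CRef.mk (Pat.mk 0x1a000000010000000f 0x70000000f0000001a000000030000001f 5 5) 0 0 (step_sound _ 33 [rh3c03db1b8548c01f, rhf48373e13d2bc128] (by decide +kernel))
noncomputable def rh3197eb789e6d3734 : CRef := CRef.mk (Pat.mk 0x800000000000000380000000000000000 0x8000000080000000f0000003e0000007f00000004 5 7) 0 0 (step_sound _ 66 [(rh0d378fd9e8917c5a.shift 0 1), (rh185f35b8bd8ec37f.shift 0 1), (rh775ca1963e850b80.shift 0 1), (rhddfc9ff189dc5aa0.shift 1 0)] (by decide +kernel))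
noncomputable def rh36c0fb010e405737 : CRef := CRef.mk (Pat.mk 0x800000001c00000000 0xe00000007e00000077 5 8) 0 0 (step_sound _ 37 [rh185f35b8bd8ec37f, (rh45e9dfbd6bd5d256.shift 2 1)] (by decide +kernel))
noncomputable def rh795a9fa361f5265f : CRef := CRef.mk (Pat.mk 0x180000001c000000080000000800000000 0x70000001f0000001c0000000c0000000c00000004 5 5) 0 0 (step_sound _ 130 [(rh50fbb5868c909700.shift 2 1), rhcf217803b01e13b7] (by decide +kernel))
noncomputable def rh3d48cb4e7e716da9 : CRef := CRef.mk (Pat.mk 0x200000002000000020000000200000000 0x500000007000000070000000200000002000000030000000300000001 5 3) 0 0 (step_sound _ 32 [rh932754581e0f4330, (rhbf86953346e76381.shift 0 1)] (by decide +kernel))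
noncomputable def rh699f2521a4eaa123 : CRef := CRef.mk (Pat.mk 0x80000000e000000070000000100000003800000000 0x800000008000000080000000e0000000700000003f000000fc000000c0 5 8) 0 0 (step_sound _ 199 [(rh5c5e593799055d58.shift 6 3), rh5d0ec3add0332eba] (by decide +kernel))
noncomputable def rhbd8dff2a50231c67 : CRef := CRef.mk (Pat.mk 0x180000000c00000008000000000000000000000000 0x8000000180000000f0000007c000000180000001000000010 5 7) 0 0 (step_sound _ 129 [(rh3f069944e50c0cbf.shift 1 0), (rh53b3c253cb0c65f4.shift 0 4)] (by decide +kernel))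
noncomputable def rhf9611d7b42e43f6f : CRef := CRef.mk (Pat.mk 0x200000006000000030000000200000002000000000000000000000000 0x200000006000000070000000700000006000000030000000300000001 5 3) 0 0 (step_sound _ 130 [rh0d46191bda76a8f5, (rh55afc6a59410cf00.shift 1 3)] (by decide +kernel))
noncomputable def rh01ba62302411d9ea : CRef := CRef.mk (Pat.mk 0x38000000180000001800000000 0x800000008000000380000001f0000001f00000004 5 6) 0 0 (step_sound _ 34 [(rh37d9ceebb86d75d1.shift 2 0), (rh87fb4af8316b9600.shift 0 1), (rha75e145a5bcea259.shift 0 1)] (by decide +kernel))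
noncomputable def rhd1ccaa590d295a24 : CRef := CRef.mk (Pat.mk 0x180000003800000000 0x18000000ff000000e7 5 8) 0 0 (step_sound _ 38 [rhd78948c5f384d80f, (rhf48373e13d2bc128.shift 3 1)] (by decide +kernel))
noncomputable def rh4d9128180b38b07f : CRef := CRef.mk (Pat.mk 0x80000000e0000000200000002000000000000000000000000 0xa0000000e0000000600000006000000070000000700000005 5 4) 0 0 (step_sound _ 66 [(rh24011d6715496e65.shift 1 2), (rh2977b00063528966.shift 1 0), rh6f022302a8eeec88] (by decide +kernel))
noncomputable def rhce4256d72c6e6180 : CRef := CRef.mk (Pat.mk 0x3000000018000000080000000c00000000 0x4000000040000000f0000003f0000001f000000080000000c00000004 5 6) 0 0 (step_sound _ 131 [(rh1854c49e6a99a323.shift 0 2), (rh932754581e0f4330.shift 2 0)] (by decide +kernel))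
noncomputable def rhe6f3c981f45ee7b2 : CRef := CRef.mk (Pat.mk 0x1e000000000000000000000000 0x2000000030000003e000000070000000400000004 5 6) 0 0 (step_sound _ 65 [rha812867386aecac6, (rheb0810cc63b001d8.shift 0 2)] (by decide +kernel))
noncomputable def rhae8e86f5e02127e5 : CRef := CRef.mk (Pat.mk 0x1a000000020000001e00000000 0x50000000f0000001b000000020000001e00000003 5 5) 0 0 (step_sound _ 1 [rh769c8bac0b178383, rheb0810cc63b001d8] (by decide +kernel))
noncomputable def rhb35119aab3f911f9 : CRef := CRef.mk (Pat.mk 0x1000000001c00000000 0x1c7000000fe000000e7 5 9) 0 0 (step_sound _ 37 [rh592c7139d2c44767, (rh6dd26613a1ae639b.shift 2 0)] (by decide +kernel))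
noncomputable def rhc207702f6b85f3c9 : CRef := CRef.mk (Pat.mk 0x1000000003800000000 0x1c7000000fe000000e7 5 9) 0 0 (step_sound _ 34 [rh2cc7d62e70c02209, (rh6dd26613a1ae639b.shift 2 0)] (by decide +kernel))
noncomputable def rh7aa579b740a9f5a6 : CRef := CRef.mk (Pat.mk 0x400000004000001000000001c00000000 0x400000006000001c3000000fe000000ef 5 9) 0 0 (step_sound _ 37 [(rh16c2b5900981f814.shift 2 0), rh2c56be22e7e0e355, (rhf0e41d6fe90b727a.shift 1 0)] (by decide +kernel))
noncomputable def rh2ff73263f99fc7e9 : CRef := CRef.mk (Pat.mk 0x380000001a000000000000000c00000000 0x4000000040000000e0000003f0000001b000000080000000c00000004 5 6) 0 0 (step_sound _ 67 [(rh932754581e0f4330.shift 2 0), (rha4cf3550c7ace5e4.shift 0 2)] (by decide +kernel))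
noncomputable def rh190607c0dc91f39b : CRef := CRef.mk (Pat.mk 0x4000000000000001e000000000000000000000000 0x400000004000000040000001f0000003c0000000800000008 5 6) 0 0 (step_sound _ 68 [rhad4824d27d262a1c, (rhe25b0a99195a5d59.shift 1 2)] (by decide +kernel))
noncomputable def rh7bdc8fb334803635 : CRef := CRef.mk (Pat.mk 0x800000000e00000001 0xe00000007e00000073 5 8) 0 0 (step_sound _ 36 [(rh6dd26613a1ae639b.shift 1 0), rh80fcd6d0a18cb2dd] (by decide +kernel))
noncomputable def rhf232a8bc5bd0bd8b : CRef := CRef.mk (Pat.mk 0x2000000800000000e000000000000000000000000 0x200000002000000e30000007e000000760000000400000004 5 8) 0 0 (step_sound _ 100 [(rh6dd26613a1ae639b.shift 1 2), rh95b4c7d6d9b6685a] (by decide +kernel))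
noncomputable def rh6dec51b1663754ba : CRef := CRef.mk (Pat.mk 0x820000000e00000000 0xe30000007e00000007 5 8) 0 0 (step_sound _ 36 [(rh3244c3cc8379b070.shift 0 1), rhf0e41d6fe90b727a] (by decide +kernel))
noncomputable def rh97bd709de7f57db6 : CRef := CRef.mk (Pat.mk 0x2000000003800000000 0x38f000001fe000001f7 5 10) 0 0 (step_sound _ 34 [rh185f35b8bd8ec37f, rh592c7139d2c44767, (rh84d61bfb0e115296.shift 1 0)] (by decide +kernel))
noncomputable def rh13e028aafd6db171 : CRef := CRef.mk (Pat.mk 0x7800000000 0x70000007e000000e7 5 8) 0 0 (step_sound _ 34 [(rh4ad5fc38f1b69f65.shift 2 0), rh592c7139d2c44767] (by decide +kernel))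
noncomputable def rh72afbdc90680d7b8 : CRef := CRef.mk (Pat.mk 0x2000000060000000200000002 0x4000000070000000700000003000000060000000600000002 5 3) 0 0 (step_sound _ 128 [(rh28ddb368dec7d952.shift 0 1), rhffd04209dc8ea796] (by decide +kernel))
noncomputable def rhaf2f2e26ac4cafd3 : CRef := CRef.mk (Pat.mk 0x4000000840000000c00000002 0x400000004000000e40000007e00000007 5 8) 0 0 (step_sound _ 33 [rh3f8564bdea790926, (rh5c5e593799055d58.shift 1 0)] (by decide +kernel))
noncomputable def rhd2399dbd2a7b3537 : CRef := CRef.mk (Pat.mk 0x4000000040000001c000000020000000000000000 0x4000000040000001f0000003f0000000800000008 5 6) 0 0 (step_sound _ 97 [rh42c212064b599c2b, (rheb0810cc63b001d8.shift 0 2)] (by decide +kernel))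
noncomputable def rhc620e832d7557315 : CRef := CRef.mk (Pat.mk 0x200000003800000018000000080000000800000000 0x2000000038000000180000007c0000001f00000004 5 7) 0 0 (step_sound _ 34 [(rh932754581e0f4330.shift 2 0), (rh99c9c024d4aac679.shift 0 1)] (by decide +kernel))
noncomputable def rh798451748619462a : CRef := CRef.mk (Pat.mk 0x100000003800000000 0xff0000007e00000007 5 8) 0 0 (step_sound _ 34 [(rh56a24c72f1c55520.shift 1 1), rh592c7139d2c44767, (rhec46bd5500c722c9.shift 1 1)] (by decide +kernel))
noncomputable def rh2330dd9b9e514411 : CRef := CRef.mk (Pat.mk 0x1000000030000000140000003c00000000 0x80000001e00000034000000140000003e00000007 5 6) 0 0 (step_sound _ 1 [rh3225c20e49536112, (rh80fcd6d0a18cb2dd.shift 1 0)] (by decide +kernel))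
noncomputable def rhd1c1bbf10d9d7a4b : CRef := CRef.mk (Pat.mk 0x8000000380000000800000000 0x140000001c0000001c00000008000000380000001f00000004 5 6) 0 0 (step_sound _ 131 [rh852e818bc8629e77, (rhc85cc95794737cf7.shift 2 1)] (by decide +kernel))
noncomputable def rhf0d38cf1e7116183 : CRef := CRef.mk (Pat.mk 0x800000018000000080000000800000000 0x800000008000000180000000f0000003c00000014 5 6) 0 0 (step_sound _ 34 [rh2f7ff4e16e8026d2, (rh932754581e0f4330.shift 2 0)] (by decide +kernel))
noncomputable def rh4b430f2f69007c97 : CRef := CRef.mk (Pat.mk 0x400000006000000020000000300000000 0x300000003000000030000000600000006000000030000000300000001 5 3) 0 0 (step_sound _ 129 [(rh4f01fe223ae1129c.shift 0 1), rh932754581e0f4330] (by decide +kernel))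
noncomputable def rh168c702fc6e06326 : CRef := CRef.mk (Pat.mk 0x10000000180000000c0000000c 0xf0000001f0000001c0000000c0000000c 5 5) 0 0 (step_sound _ 99 [(rh5c5e593799055d58.shift 2 0), rhf3f3bfc6f0b9eef2] (by decide +kernel))
noncomputable def rh5e6ca3fc62dd0c14 : CRef := CRef.mk (Pat.mk 0x300000001800000038000000000000000000000000 0x380000001f0000003f000000070000000400000004 5 6) 0 0 (step_sound _ 98 [(rh2cc7d62e70c02209.shift 0 2), (rh87fb4af8316b9600.shift 0 3), (rh88129595a1b18399.shift 1 0), (rhcc2be1f880c5ea3e.shift 0 2)] (by decide +kernel))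
noncomputable def rh85480f11efc1e555 : CRef := CRef.mk (Pat.mk 0xc0000000c000000040000000400000000 0x40000000c0000000c0000003c0000000f0000000a 5 6) 0 0 (step_sound _ 35 [rh01ce93e43e99afcb, (rh55afc6a59410cf00.shift 2 0)] (by decide +kernel))
noncomputable def rhbb54e4ea06d58e5e : CRef := CRef.mk (Pat.mk 0x1e00000010 0x700000007f0000001e 5 7) 0 0 (step_sound _ 3 [rhb739f4f82bb681b4, (rhed57d1a6d4db2db6.shift 1 0)] (by decide +kernel))
noncomputable def rh217f95aeeba9853f : CRef := CRef.mk (Pat.mk 0x800000038000000000000000000000000 0x80000000f0000003e000000770000000400000004 5 7) 0 0 (step_sound _ 98 [(rh185f35b8bd8ec37f.shift 0 2), (rh592c7139d2c44767.shift 0 2), (rh88129595a1b18399.shift 1 0), (rh9c548838e8725ba1.shift 0 2)] (by decide +kernel))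
noncomputable def rh8f13cca74c435a72 : CRef := CRef.mk (Pat.mk 0x800000001c00000000 0xe70000007e00000070 5 8) 0 0 (step_sound _ 37 [rh0d378fd9e8917c5a, (rh45e9dfbd6bd5d256.shift 2 1)] (by decide +kernel))
noncomputable def rhb13d8951f671c715 : CRef := CRef.mk (Pat.mk 0x2000000060000001200000000000000000000000000000000 0x6000000060000001e0000000f000000070000000700000004 5 5) 0 0 (step_sound _ 97 [(rh301a6b3a9154ed36.shift 1 1), (rh3820f35d5e705bec.shift 1 0), (rh91a545eb3be094e3.shift 0 1), (rhdb57bcbe4a84bd4b.shift 0 2)] (by decide +kernel))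
noncomputable def rhd393b1e3f03a7ca9 : CRef := CRef.mk (Pat.mk 0x80000000c0000001e000000000000000000000000 0x80000000f0000001e000000070000000600000006 5 5) 0 0 (step_sound _ 34 [rh80d989ad9265e9fa, (rh9e3edb185cc347de.shift 2 1)] (by decide +kernel))
noncomputable def rhf7382352fd4148eb : CRef := CRef.mk (Pat.mk 0x1800000018000000040000001c00000000 0x70000001f0000001c0000000c0000001c00000010 5 5) 0 0 (step_sound _ 67 [(rh55afc6a59410cf00.shift 3 0), (rhf3f3bfc6f0b9eef2.shift 0 1)] (by decide +kernel))
noncomputable def rhab3cdbf75f319587 : CRef := CRef.mk (Pat.mk 0x40000000300000003000000000000000000000000 0x40000000600000006000000060000000300000003000000030000000300000003 5 3) 0 0 (step_sound _ 161 [(rh215e11e099257d75.shift 1 2), (rh503dd4575245365b.shift 0 2), rh8f27166e94cf51dc] (by decide +kernel))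
noncomputable def rh1a040d9779a6b5b6 : CRef := CRef.mk (Pat.mk 0x100000001a00000038000000000000000000000000 0x180000001b0000003f0000000f0000000c00000004 5 6) 0 0 (step_sound _ 67 [rh0b4976d2378ba76d, (rh71222050f2c63a3a.shift 3 1)] (by decide +kernel))
noncomputable def rhc438194bb1afa290 : CRef := CRef.mk (Pat.mk 0x8000000880000000e00000000 0x800000008000000ef0000007e00000030 5 8) 0 0 (step_sound _ 36 [(rh3e2531436cb70ef7.shift 0 1), (rhba04d77b039f69d9.shift 1 0)] (by decide +kernel))
noncomputable def rhc998c0f565f37bf8 : CRef := CRef.mk (Pat.mk 0x30000000100000001e0000000000000000 0x4000000340000001f0000001e0000000300000002 5 6) 0 0 (step_sound _ 97 [(rh3244c3cc8379b070.shift 0 2), rhf35c99f515e747aa] (by decide +kernel))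
noncomputable def rh1c73e70c09a1abf9 : CRef := CRef.mk (Pat.mk 0x810000000e00000000 0xe30000007e00000070 5 8) 0 0 (step_sound _ 36 [(rh3f8766e6ecb455ce.shift 0 1), (rh6dd26613a1ae639b.shift 1 0)] (by decide +kernel))
noncomputable def rhb06fe4ed243a8544 : CRef := CRef.mk (Pat.mk 0x8000000880000000e0000000000000004 0xa000000ef0000007e0000007700000004 5 8) 0 0 (step_sound _ 68 [(rh3e2531436cb70ef7.shift 0 2), rh63108cb551ec9b6e, (rh6dd26613a1ae639b.shift 1 1)] (by decide +kernel))
noncomputable def rhc6a45747c220df1f : CRef := CRef.mk (Pat.mk 0x800000000e0000000400000004 0x2000000e30000007e0000007700000004 5 8) 0 0 (step_sound _ 68 [(rh0fa62796f4844f7a.shift 1 1), (rh6dd26613a1ae639b.shift 1 1), rhe4f9133a81c1dbc5] (by decide +kernel))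
noncomputable def rh355ef750ac291b8d : CRef := CRef.mk (Pat.mk 0x20000001e00000000000000040000000000000000 0x60000001e00000003000000070000000700000001 5 5) 0 0 (step_sound _ 97 [(rheb0810cc63b001d8.shift 0 3), rhf57aef432b6ec1e1] (by decide +kernel))
noncomputable def rh7bf405d4f6ac0e1d : CRef := CRef.mk (Pat.mk 0x7c00000000 0x7000000ff00000038 5 8) 0 0 (step_sound _ 65 [(rh3f8766e6ecb455ce.shift 1 1), rh564b17f6250b4475] (by decide +kernel))
noncomputable def rhac4dc1e88438ad5d : CRef := CRef.mk (Pat.mk 0x40000000f800000020 0x78000000fe00000037 5 8) 0 0 (step_sound _ 68 [(rh3244c3cc8379b070.shift 3 1), rhbfe376cd40aaedfb] (by decide +kernel))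
noncomputable def rh160ea79b42883ba9 : CRef := CRef.mk (Pat.mk 0x1000000001c00000000 0x1c0000000fe000000ff 5 9) 0 0 (step_sound _ 37 [rh185f35b8bd8ec37f, (rh6dd26613a1ae639b.shift 2 0), (rhf0e41d6fe90b727a.shift 1 0)] (by decide +kernel))
noncomputable def rhd858f25f2ab2a781 : CRef := CRef.mk (Pat.mk 0x1000000001c00000000 0x1cf000000fe0000000f 5 9) 0 0 (step_sound _ 37 [(rh3e2531436cb70ef7.shift 1 1), rh775ca1963e850b80, (rhf0e41d6fe90b727a.shift 1 0)] (by decide +kernel))
noncomputable def rh6368a6616c0ddb23 : CRef := CRef.mk (Pat.mk 0x80000000c000000400000000e0000000000000000 0x80000000c000000770000003e0000000700000002 5 7) 0 0 (step_sound _ 98 [(rh71222050f2c63a3a.shift 2 1), rhe819de87439f0195] (by decide +kernel))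
noncomputable def rh883451bd3feec117 : CRef := CRef.mk (Pat.mk 0x180000001e00000000 0x1f000000fe000000e0 5 8) 0 0 (step_sound _ 65 [(rh3244c3cc8379b070.shift 0 1), (rh9f8260404b4a157e.shift 1 0)] (by decide +kernel))
noncomputable def rh97fdc19db3ba12e7 : CRef := CRef.mk (Pat.mk 0x40000000c000000180000001800000000 0x40000000f0000001f0000003f00000002 5 6) 0 0 (step_sound _ 97 [rh701fef53c6222f22, (rhb739f4f82bb681b4.shift 0 2)] (by decide +kernel))
noncomputable def rhbbd9e14f32dff073 : CRef := CRef.mk (Pat.mk 0x1000000018000000060000000400000000 0x800000018000000180000000f0000003c00000018 5 6) 0 0 (step_sound _ 67 [(rh48d5fcc0b87ffc25.shift 1 0), (rh53b3c253cb0c65f4.shift 0 2)] (by decide +kernel))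
noncomputable def rh55dea3d950dac75f : CRef := CRef.mk (Pat.mk 0x120000001a000000060000000400000000 0x80000001f0000001b0000000e0000003c00000018 5 6) 0 0 (step_sound _ 131 [(rh086f6046fa319626.shift 0 3), (rh3b6b218b1a1ae36f.shift 1 0)] (by decide +kernel))
noncomputable def rhbbe114f0deb83c44 : CRef := CRef.mk (Pat.mk 0x100000001a0000000600000004 0xa0000001f0000001b0000000f00000004 5 5) 0 0 (step_sound _ 35 [(rh53b3c253cb0c65f4.shift 0 1), rhbfcc80f4b5225353] (by decide +kernel))
noncomputable def rh2915b2337146e149 : CRef := CRef.mk (Pat.mk 0x80000000c0000001e000000000000000000000000 0x80000000f0000001e000000070000000600000006 5 5) 0 0 (step_sound _ 129 [(rh3244c3cc8379b070.shift 0 3), rhba2f5aa16a65f4be] (by decide +kernel))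
noncomputable def rh5506525d0b4b5993 : CRef := CRef.mk (Pat.mk 0x200000006000000030000000600000000 0x40000000600000006000000070000001f00000019 5 5) 0 0 (step_sound _ 130 [(rh2f68792b6b779e96.shift 1 1), rh72340e602a6d535e] (by decide +kernel))
noncomputable def rh0be5156fc06e855c : CRef := CRef.mk (Pat.mk 0x3000000004000000070000000400000000 0xa0000000e0000000e0000003c00000004000000070000001e0000000a 5 6) 0 0 (step_sound _ 130 [(rh03dfdf12d5937476.shift 1 0), (rh7d762c380b7df881.shift 1 1), rhb379f99078aafa2d] (by decide +kernel))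
noncomputable def rh94a24b8486b76775 : CRef := CRef.mk (Pat.mk 0x200000006000000030000000200000000 0x60000000600000006000000070000001e0000000c 5 5) 0 0 (step_sound _ 130 [(rh2f68792b6b779e96.shift 1 1), rh7c5c9e3d7752e57e] (by decide +kernel))
noncomputable def rhe9f2892de26ba682 : CRef := CRef.mk (Pat.mk 0x380000001a0000000000000000 0x4000000040000000e0000003f0000001b0000000800000008 5 6) 0 0 (step_sound _ 98 [(rh710860539a4c4362.shift 0 2), (rhd5889c99d29bf7d6.shift 1 0)] (by decide +kernel))
noncomputable def rh88ae9b09c902c875 : CRef := CRef.mk (Pat.mk 0x200000000000000020000000200000004 0x4000000060000000600000002000000030000000700000005 5 3) 0 0 (step_sound _ 97 [rh20966da26a1c2ae8, (rhd3458b32566d63f7.shift 1 0)] (by decide +kernel))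
noncomputable def rh18833f4945ec6b8e : CRef := CRef.mk (Pat.mk 0x4000000040000001c0000000c 0x1a0000003e000000370000001c0000000c 5 6) 0 0 (step_sound _ 99 [(rh2f68792b6b779e96.shift 2 0), rh67d25839cc1d1ea5] (by decide +kernel))
noncomputable def rh037c93713750da4f : CRef := CRef.mk (Pat.mk 0x1c000000180000000200000004 0xb0000001f0000001c0000000f00000004 5 5) 0 0 (step_sound _ 97 [(rhb739f4f82bb681b4.shift 0 2), rhc6a4b01c5e5b47a7] (by decide +kernel))
noncomputable def rhfe42d4adc6b275a8 : CRef := CRef.mk (Pat.mk 0x3c00000018000000020000000400000000 0x20000000200000006c0000003c000000180000000f0000000c00000008 5 7) 0 0 (step_sound _ 165 [rh06e4bec717d21e8c, (rh33e738c4ed385b9f.shift 2 4)] (by decide +kernel))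
noncomputable def rh3efdcd2b78015352 : CRef := CRef.mk (Pat.mk 0x1000000018000000380000000800000000 0x40000000c0000001c000000180000003c0000001f00000014 5 6) 0 0 (step_sound _ 131 [(rh3cb04db3dd2b6a55.shift 3 0), (rh771d065bdc85bf2d.shift 2 0), rh852e818bc8629e77] (by decide +kernel))
noncomputable def rh46de63a881c17f6e : CRef := CRef.mk (Pat.mk 0x800000010000000180000003800000000 0x8000000180000001f0000003f00000014 5 6) 0 0 (step_sound _ 99 [(rh7b1f1fb55310c477.shift 3 0), rhfd68868dd6d945e5] (by decide +kernel))
noncomputable def rh6ed40e55fcec9405 : CRef := CRef.mk (Pat.mk 0x110000001a0000000300000007000000000000000000000000 0x110000001b0000000b0000001f0000001a0000000200000002 5 5) 0 0 (step_sound _ 65 [rhbb4d2dd95b6c151e, (rhffd04209dc8ea796.shift 0 2)] (by decide +kernel))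
noncomputable def rh379372817fb3b65e : CRef := CRef.mk (Pat.mk 0x2000000060000000200000000000000000000000000000000 0x60000000600000006000000060000000600000007000000070000000700000001 5 3) 0 0 (step_sound _ 97 [rh274a837cd7eaa569, (rh3181373a30ceb9e3.shift 0 1), (rh7ab09f375cd5d482.shift 1 3)] (by decide +kernel))
noncomputable def rh6ff9a8a9668587b3 : CRef := CRef.mk (Pat.mk 0x200000002000000030000000c0000000000000000 0x10000000300000003000000030000001f0000000300000001 5 5) 0 0 (step_sound _ 65 [rhc4526fc8abf298b6, (rhf48373e13d2bc128.shift 0 2)] (by decide +kernel))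
noncomputable def rh2386d7c29ba9e7c7 : CRef := CRef.mk (Pat.mk 0x1000000010000000180000001800000000 0x80000001800000018000000380000001f00000014 5 6) 0 0 (step_sound _ 131 [(rh50fbb5868c909700.shift 3 1), rheebe8ab979afbd72] (by decide +kernel))
noncomputable def rhee29f156cbe62897 : CRef := CRef.mk (Pat.mk 0x200000003000000020000000000000000 0x500000007000000070000000300000003000000030000000300000001 5 3) 0 0 (step_sound _ 161 [(rh03dfdf12d5937476.shift 0 1), (rh1741680720c097b4.shift 0 2), rh6aa5625770489e83] (by decide +kernel))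
noncomputable def rhb762589b1bfc4883 : CRef := CRef.mk (Pat.mk 0x12000000020000000200000004 0x1000000070000001f000000020000000600000006 5 5) 0 0 (step_sound _ 129 [rh6290225f7e481854, (rhd3458b32566d63f7.shift 1 0)] (by decide +kernel))
noncomputable def rhff22d4451558933b : CRef := CRef.mk (Pat.mk 0x160000000a0000000200000000 0x4000000040000000c0000001e0000000b0000000a0000000a 5 5) 0 0 (step_sound _ 99 [(rh7c620dc4e2b65334.shift 1 0), (rheb0810cc63b001d8.shift 0 2)] (by decide +kernel))
noncomputable def rh985c8ee03f02e610 : CRef := CRef.mk (Pat.mk 0x2000000020000000200000002 0x5000000070000000700000006000000030000000300000003 5 3) 0 0 (step_sound _ 129 [rh20966da26a1c2ae8, (rh44f453b84f013105.shift 1 0), rh968ba7b0df7e4096, (rhc85cc95794737cf7.shift 0 1)] (by decide +kernel))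
noncomputable def rh2ec5df6bb50c4d4b : CRef := CRef.mk (Pat.mk 0x10000000180000000e0000000c 0xe0000001f0000001b0000000e0000000c 5 5) 0 0 (step_sound _ 99 [(rh5c5e593799055d58.shift 2 0), rh625e024e534c5ee6] (by decide +kernel))
noncomputable def rh6306c33b2c5ecc3d : CRef := CRef.mk (Pat.mk 0x1000000018000000020000000c00000000 0x800000018000000180000000f0000003c00000018 5 6) 0 0 (step_sound _ 67 [rh1392220268a7a143, (rh71222050f2c63a3a.shift 3 0)] (by decide +kernel))
noncomputable def rh460c932591a1b2be : CRef := CRef.mk (Pat.mk 0x820000001c00000000 0xe30000007e00000070 5 8) 0 0 (step_sound _ 33 [(rh3244c3cc8379b070.shift 0 1), (rh6dd26613a1ae639b.shift 1 0)] (by decide +kernel))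
noncomputable def rh2674d74952efbaa7 : CRef := CRef.mk (Pat.mk 0x600000020800000030 0x60000003bf000001fc 5 10) 0 0 (step_sound _ 34 [(rh7d90fe40d221f980.shift 1 0), rh95f73988d2dec2c0, (rhf5756da00139facb.shift 2 0)] (by decide +kernel))
noncomputable def rh17eb8375087a255d : CRef := CRef.mk (Pat.mk 0x80000000c000000000000000e00000000 0xc0000000c000000040000001f0000007c 5 7) 0 0 (step_sound _ 66 [(rh71222050f2c63a3a.shift 2 0), rhd5979d9ced4acd89] (by decide +kernel))
noncomputable def rh168b3c5843250013 : CRef := CRef.mk (Pat.mk 0x400000006000000020000000700000000 0x300000003000000030000000600000006000000030000000700000004 5 3) 0 0 (step_sound _ 129 [(rh4f01fe223ae1129c.shift 0 1), (rh55afc6a59410cf00.shift 1 0)] (by decide +kernel))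
noncomputable def rhaadf7d6cd4f29883 : CRef := CRef.mk (Pat.mk 0x3200000002000000020000000000000000 0x50000000f0000003f00000002000000030000000300000001 5 6) 0 0 (step_sound _ 161 [(rh61043f70763267c4.shift 0 2), (rha67bf539dc855cea.shift 1 1), rhc4526fc8abf298b6] (by decide +kernel))
noncomputable def rh8e2c76647c3a302a : CRef := CRef.mk (Pat.mk 0x380000001800000000 0x400000004000000070000003f0000001f00000008 5 6) 0 0 (step_sound _ 66 [(rh775ca1963e850b80.shift 0 1), (rhb14e2588a8d71db8.shift 0 1), (rhba89ab7cb81bcc90.shift 0 1), (rhdd3ef923ff6c7ad5.shift 1 0)] (by decide +kernel))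
noncomputable def rha19b78461a10c4a2 : CRef := CRef.mk (Pat.mk 0x200000002000000020000000000000000 0x500000007000000070000000300000003000000030000000300000001 5 3) 0 0 (step_sound _ 161 [(rh1741680720c097b4.shift 0 2), (rh20966da26a1c2ae8.shift 0 1), rhc4526fc8abf298b6] (by decide +kernel))
noncomputable def rh98b677f6f0365f5e : CRef := CRef.mk (Pat.mk 0x32000000020000000200000000 0x5000000070000000f0000003e000000030000000300000001 5 6) 0 0 (step_sound _ 129 [rh3b734c5288922837, rh771d065bdc85bf2d, (rh7e2e28d96720284e.shift 0 1)] (by decide +kernel))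
noncomputable def rh4096e2a223fd659d : CRef := CRef.mk (Pat.mk 0x1600000002000000020000000600000002000000000000000000000000 0x1e00000003000000070000000600000002000000060000000600000004 5 5) 0 0 (step_sound _ 192 [rh0d0fab9b7d00b2b5, (rh361cc68994bd8a63.shift 0 6)] (by decide +kernel))
noncomputable def rh54db3367ec9757b5 : CRef := CRef.mk (Pat.mk 0x18000000080000001c0000000c00000000 0x40000007c0000000e0000001c0000000f00000002 5 7) 0 0 (step_sound _ 130 [rh120e7ef9a8a5b2b5, (rh50fbb5868c909700.shift 2 1)] (by decide +kernel))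
noncomputable def rh1904b52b42aee148 : CRef := CRef.mk (Pat.mk 0x400000004000000040000000400000000 0x40000000400000004000000070000003e0000000a 5 6) 0 0 (step_sound _ 33 [rh49c84b78421e0bb2, (rh932754581e0f4330.shift 1 0)] (by decide +kernel))
noncomputable def rh2f4faa21aafd37ef : CRef := CRef.mk (Pat.mk 0x10000000180000001e00000004 0x2000000330000001f0000001e00000007 5 6) 0 0 (step_sound _ 1 [rh224c880ba0316e80, rheb0810cc63b001d8] (by decide +kernel))
noncomputable def rh3a54a75d2b2b49ab : CRef := CRef.mk (Pat.mk 0x380000001800000008 0x4000000140000003e0000003f0000001800000008 5 6) 0 0 (step_sound _ 100 [rh28122285637fe30b, (rh5c5e593799055d58.shift 3 0)] (by decide +kernel))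
noncomputable def rhef9c6260436474bd : CRef := CRef.mk (Pat.mk 0x38000000180000000000000000 0x4000000040000007f0000003f000000180000000800000008 5 7) 0 0 (step_sound _ 98 [(rhba89ab7cb81bcc90.shift 0 2), (rhd5889c99d29bf7d6.shift 1 0), (rhe25191970535449e.shift 0 2)] (by decide +kernel))
noncomputable def rha5dcd58df6282ff1 : CRef := CRef.mk (Pat.mk 0x380000001c0000000800000000 0xc0000000c0000001f000000380000001c0000000c00000004 5 6) 0 0 (step_sound _ 131 [(rh37d9ceebb86d75d1.shift 2 1), (rh7b9fbdf6d2d059e4.shift 2 1), rhd88b01da517454f7] (by decide +kernel))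
noncomputable def rh2efabce65fe9705f : CRef := CRef.mk (Pat.mk 0x38000000180000000000000000 0x4000000770000003f0000001e0000000800000008 5 7) 0 0 (step_sound _ 66 [(rh53b3c253cb0c65f4.shift 1 2), rh67e7a1b48b08f3dd] (by decide +kernel))
noncomputable def rh1744f7bccf959ee6 : CRef := CRef.mk (Pat.mk 0x1c000000180000000000000004 0x30000007f0000001e0000000400000004 5 7) 0 0 (step_sound _ 97 [rh3c662dd0b2d81b5b, (rhb739f4f82bb681b4.shift 0 2)] (by decide +kernel))
noncomputable def rhed310ccdcd6bafd6 : CRef := CRef.mk (Pat.mk 0x800000018000000080000000800000000 0x40000000f0000007c000000080000000c00000004 5 7) 0 0 (step_sound _ 34 [(rh932754581e0f4330.shift 2 0), (rhca405e350c462817.shift 0 1)] (by decide +kernel))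
noncomputable def rh4cca7e61d181dcfb : CRef := CRef.mk (Pat.mk 0x1c00000018000000080000000800000000 0xb0000001f0000001c0000000c0000000c00000004 5 5) 0 0 (step_sound _ 129 [rh9b3a2aca8b56d34f, (rhb739f4f82bb681b4.shift 0 3)] (by decide +kernel))
noncomputable def rh453165d469b43fc6 : CRef := CRef.mk (Pat.mk 0x980000001800000008 0x40000000400000007000000ff0000001f00000008 5 8) 0 0 (step_sound _ 69 [rh0a0469db70299055, (rh361cc68994bd8a63.shift 3 1)] (by decide +kernel))
noncomputable def rh69663e11985fb7bd : CRef := CRef.mk (Pat.mk 0xc0000001c0000000c0000000400000000 0x10000000320000003e0000001f0000000c0000000600000002 5 6) 0 0 (step_sound _ 33 [(rh932754581e0f4330.shift 1 0), (rh9f1e47db95aa257e.shift 0 1)] (by decide +kernel))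
noncomputable def rh512f4da88209c434 : CRef := CRef.mk (Pat.mk 0x80000001e0000000c00000004 0x10000000320000003f0000001e0000000c00000004 5 6) 0 0 (step_sound _ 97 [(rh3244c3cc8379b070.shift 0 2), (rhea0adcb6e73c687a.shift 1 0)] (by decide +kernel))
noncomputable def rhf95f7282a68dc6ee : CRef := CRef.mk (Pat.mk 0x180000001e0000000e0000000000000000 0x10000000340000001f0000001e0000000e0000000200000002 5 6) 0 0 (step_sound _ 129 [(rh3244c3cc8379b070.shift 0 3), (rh58a247e0069b3379.shift 1 0)] (by decide +kernel))
noncomputable def rhd342afdb03ac995a : CRef := CRef.mk (Pat.mk 0x1e00000080 0xe00000007e000000c7 5 8) 0 0 (step_sound _ 1 [(rh67e600e1a8caac9c.shift 1 0), rheb0810cc63b001d8] (by decide +kernel))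
noncomputable def rh66c7c83a7c9c6108 : CRef := CRef.mk (Pat.mk 0x1000000018000000180000000000000000 0x80000000c0000001f000000380000001c0000000c0000000c 5 6) 0 0 (step_sound _ 35 [rh229d4058478c1b5f, (rh71222050f2c63a3a.shift 3 0)] (by decide +kernel))
noncomputable def rhe5529eaf58922dcf : CRef := CRef.mk (Pat.mk 0x10000000380000001c0000000000000000 0x4000000370000003f0000001c0000000800000008 5 6) 0 0 (step_sound _ 35 [(rh6e840e952c9e7627.shift 0 1), (rh71222050f2c63a3a.shift 3 0)] (by decide +kernel))
noncomputable def rh7e24dc22889eb307 : CRef := CRef.mk (Pat.mk 0x10000000180000001e0000000000000000 0x2000000330000001f0000001e0000000400000004 5 6) 0 0 (step_sound _ 97 [(rh3244c3cc8379b070.shift 0 2), rh9458e878ee940312] (by decide +kernel))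
noncomputable def rh2c7029d00d8cf8bb : CRef := CRef.mk (Pat.mk 0x400000036000000270000002000000000 0x12000000120000001e00000036000000370000002300000002 5 6) 0 0 (step_sound _ 33 [(rh71222050f2c63a3a.shift 1 0), (rhcbec6b940adb7d73.shift 0 1)] (by decide +kernel))
noncomputable def rh9f89e1c9a8e3f981 : CRef := CRef.mk (Pat.mk 0x800000008000000680000004800000040 0x300000007c0000002f000000680000006800000040 5 7) 0 0 (step_sound _ 132 [(rh2f68792b6b779e96.shift 3 1), rh415420bd363bb86f] (by decide +kernel))
noncomputable def rhe65c912b02fb04ec : CRef := CRef.mk (Pat.mk 0xc00000018000000180000001800000000 0xc000000780000001f0000001f00000004 5 7) 0 0 (step_sound _ 101 [rhb877d4918ed6ab68, (rhf48373e13d2bc128.shift 2 3)] (by decide +kernel))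
noncomputable def rh33d8875b8d57cf1a : CRef := CRef.mk (Pat.mk 0x80000001a000000880000000c00000000 0x80000001e000000ef0000007e00000010 5 8) 0 0 (step_sound _ 36 [(rh55afc6a59410cf00.shift 3 0), (rhdbc8f3062b44c359.shift 0 1)] (by decide +kernel))
noncomputable def rh7117490dfabd530d : CRef := CRef.mk (Pat.mk 0x38000000180000000000000000 0x4000000040000000e0000003f0000001f0000000800000008 5 6) 0 0 (step_sound _ 98 [(rhb14e2588a8d71db8.shift 0 2), (rhd5889c99d29bf7d6.shift 1 0)] (by decide +kernel))
noncomputable def rh09a9dc9801c17900 : CRef := CRef.mk (Pat.mk 0x50000000f000000070000000000000000 0x80000001a0000001f0000000f000000070000000100000001 5 5) 0 0 (step_sound _ 131 [(rh33e738c4ed385b9f.shift 0 3), rh58a247e0069b3379] (by decide +kernel))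
noncomputable def rh1595c39662a666bb : CRef := CRef.mk (Pat.mk 0x10000000f0000000e0000000000000000 0xc0000000c0000001d0000000f0000000e0000000200000002 5 5) 0 0 (step_sound _ 33 [rh7b1f1fb55310c477, (rhb5a5b9d9db627df0.shift 0 1)] (by decide +kernel))
noncomputable def rh5fb5fc5f2cc2ee3c : CRef := CRef.mk (Pat.mk 0x18000000180000000800000000 0x80000001c0000001f000000380000001c0000000c00000004 5 6) 0 0 (step_sound _ 132 [rh229d4058478c1b5f, (rh5c5e593799055d58.shift 3 1)] (by decide +kernel))
noncomputable def rhe389f45105baff9f : CRef := CRef.mk (Pat.mk 0x400000036000000260000002000000000 0x12000000120000001e00000036000000370000002300000003 5 6) 0 0 (step_sound _ 33 [rh218cb5b453957506, (rh71222050f2c63a3a.shift 1 0)] (by decide +kernel))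
noncomputable def rh7095fddf8fde9152 : CRef := CRef.mk (Pat.mk 0x1000000038000000180000000000000000 0x400000004000000360000003f0000001c0000000800000008 5 6) 0 0 (step_sound _ 35 [(rh71222050f2c63a3a.shift 3 0), (rhe6005a450c383c5e.shift 0 1)] (by decide +kernel))
noncomputable def rh9c5cc70afb76e5d9 : CRef := CRef.mk (Pat.mk 0xa0000001e0000000c 0x12000000330000003e0000001e0000000c 5 6) 0 0 (step_sound _ 68 [(rh33e738c4ed385b9f.shift 1 1), rh6e737295f0bdfd68] (by decide +kernel))
noncomputable def rh39ad1af23eacf258 : CRef := CRef.mk (Pat.mk 0xc000000180000000c0000000000000000 0x4000000060000000f0000001c0000000f0000000600000004 5 5) 0 0 (step_sound _ 129 [rh40dd3ea875ee1f04, (rhb739f4f82bb681b4.shift 0 3)] (by decide +kernel))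
noncomputable def rh4f8ee7bca979aa45 : CRef := CRef.mk (Pat.mk 0x80000001c0000000c0000000000000000 0x20000003b0000001f0000000f0000000400000004 5 6) 0 0 (step_sound _ 65 [(rh53b3c253cb0c65f4.shift 0 2), rhdc564b97248c4913] (by decide +kernel))
noncomputable def rhb559f2e5fcebee8b : CRef := CRef.mk (Pat.mk 0xe000000020000001000000010 0x700000003e000000630000003000000010 5 7) 0 0 (step_sound _ 100 [(rh2df5afcfc4cfd1fc.shift 1 0), (rheb0810cc63b001d8.shift 0 2)] (by decide +kernel))
noncomputable def rhf242e6ffc3620de2 : CRef := CRef.mk (Pat.mk 0x10000000180000001c00000000 0x400000004000000370000007f0000001c00000008 5 7) 0 0 (step_sound _ 69 [(rh18965a982d73c794.shift 2 1), rhf37f78650509d0e7] (by decide +kernel))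
noncomputable def rh526e4942d02059c6 : CRef := CRef.mk (Pat.mk 0x400000036000000230000002000000000 0x10000000120000001e00000036000000330000002300000003 5 6) 0 0 (step_sound _ 33 [rh2a7392229ba373dd, (rh71222050f2c63a3a.shift 1 0)] (by decide +kernel))
noncomputable def rhe3c6626ae9596944 : CRef := CRef.mk (Pat.mk 0x18000000180000001c0000000c00000000 0x20000003f0000001f0000001c0000000f00000002 5 6) 0 0 (step_sound _ 33 [(rh53b3c253cb0c65f4.shift 0 1), rhadd49fb35924efaf] (by decide +kernel))
noncomputable def rhea4467c2ed9e4ffc : CRef := CRef.mk (Pat.mk 0x80000001c0000000c0000000000000000 0x60000000f0000001c0000000f0000000600000006 5 5) 0 0 (step_sound _ 34 [rh618ec59bff92b68e, (rh71222050f2c63a3a.shift 2 0)] (by decide +kernel))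
noncomputable def rh48db1473ea428b31 : CRef := CRef.mk (Pat.mk 0x1000000038000000180000000000000000 0x4000000040000003e0000003f000000180000000800000008 5 6) 0 0 (step_sound _ 35 [(rh28122285637fe30b.shift 0 1), (rh71222050f2c63a3a.shift 3 0)] (by decide +kernel))
noncomputable def rh1790ec355e1c8572 : CRef := CRef.mk (Pat.mk 0x1600000006000000020000000000000000 0x200000003000000030000001e00000006000000060000000300000003 5 5) 0 0 (step_sound _ 33 [(rh71222050f2c63a3a.shift 1 0), rh91d0cd1c31ad60a6] (by decide +kernel))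
noncomputable def rhef8492eafdb94808 : CRef := CRef.mk (Pat.mk 0x1c00000018000000180000000c00000000 0x7c0000003f0000001f0000000f00000002 5 7) 0 0 (step_sound _ 33 [(rh53b3c253cb0c65f4.shift 0 1), rh59c20af28c07bdd5] (by decide +kernel))
noncomputable def rhee5b01ddcc81cea2 : CRef := CRef.mk (Pat.mk 0x1c0000001c0000000800000000 0x6000000060000003c0000001c0000000f00000002 5 6) 0 0 (step_sound _ 130 [(rh2145e1d24b96a57e.shift 2 1), rh84bcff23bdb1974c] (by decide +kernel))
noncomputable def rh9008712af596adf2 : CRef := CRef.mk (Pat.mk 0xe00000018000000180000000600000000 0x30000003e0000001f0000001f0000000600000002 5 6) 0 0 (step_sound _ 98 [rh46af0760dcab1b05, (rhd8e3ec04df043c57.shift 1 0), (rhdaadb9593e85f33a.shift 0 1)] (by decide +kernel))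
noncomputable def rh8bc8602bc1c4295d : CRef := CRef.mk (Pat.mk 0x1a0000000e000000020000000000000000 0xb0000000f0000001a0000000e0000000e0000000400000004 5 5) 0 0 (step_sound _ 66 [(rh55a1f6c57a317ce6.shift 1 0), (rh60b8081e2dd2d3a6.shift 0 2), (rhcf80391c5046a495.shift 2 0)] (by decide +kernel))
noncomputable def rh0d923e35326744ed : CRef := CRef.mk (Pat.mk 0x20000000e00000006000000000000000000000000 0x1000000030000001e00000006000000030000000300000003 5 5) 0 0 (step_sound _ 160 [rh46d6183566ef1216, (rhf48373e13d2bc128.shift 0 4)] (by decide +kernel))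
noncomputable def rh7183d73c74feafce : CRef := CRef.mk (Pat.mk 0x20000001a0000000a00000000 0x10000000300000003000000020000001b0000000f00000001 5 5) 0 0 (step_sound _ 32 [(rh1c62b6193297d9e3.shift 0 1), rh976a48eb1c80a12f] (by decide +kernel))
noncomputable def rh7c93112ed7f34066 : CRef := CRef.mk (Pat.mk 0x4000000040000001c000000000000000000000000 0x200000006000000060000001c0000000f0000000e0000000a 5 5) 0 0 (step_sound _ 66 [(rh6eff4158bb400f47.shift 1 0), (rh8ff3dde5b1c639e0.shift 1 0), (rhc4526fc8abf298b6.shift 1 0), (rhfbf2eae4035425b6.shift 0 1)] (by decide +kernel))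
noncomputable def rh75d162d705c4e52f : CRef := CRef.mk (Pat.mk 0x1c000000180000000800000004 0x30000001f0000001e0000000f00000004 5 5) 0 0 (step_sound _ 97 [(rhb739f4f82bb681b4.shift 0 2), rhd0cc8472445c30dd] (by decide +kernel))
noncomputable def rhc3b3fbc12563084b : CRef := CRef.mk (Pat.mk 0x80000001800000018000000000000000000000000 0x140000001f0000003c00000018000000080000000800000008 5 6) 0 0 (step_sound _ 67 [(rh675eb0a114259074.shift 0 2), (rhdf997f77704b6375.shift 2 0), (rhea7a1800d6f053bd.shift 3 0)] (by decide +kernel))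
noncomputable def rh9eba3b0ca80b715c : CRef := CRef.mk (Pat.mk 0x800000008000000180000001800000000 0x140000001f00000038000000180000001800000008 5 6) 0 0 (step_sound _ 132 [(rh2f68792b6b779e96.shift 3 1), rha5c3be8085bb5a37] (by decide +kernel))
noncomputable def rh0b63817ffb39ce77 : CRef := CRef.mk (Pat.mk 0x500000006000000060000000000000000 0x2000000030000000700000006000000070000000300000003 5 3) 0 0 (step_sound _ 33 [rh0439fe1776192bec, (rh71222050f2c63a3a.shift 1 0)] (by decide +kernel))
noncomputable def rh08ed56a5db9e76a2 : CRef := CRef.mk (Pat.mk 0xc00000060000000380000000000000000 0x40000000c00000078000000380000001f00000004 5 7) 0 0 (step_sound _ 99 [rh2e3891c714c60516, (rh5419adcd928dba20.shift 2 3)] (by decide +kernel))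
noncomputable def rhe2295c8f6cc1e478 : CRef := CRef.mk (Pat.mk 0xe000000180000000a00000000 0x14000000370000003e0000001a0000000a00000002 5 6) 0 0 (step_sound _ 100 [rh1acd7c8ef3e0031d, (rh5421160f8e9bcf07.shift 1 1)] (by decide +kernel))
noncomputable def rh92220073c6802d6d : CRef := CRef.mk (Pat.mk 0x4000000300000001c0000000800000000 0x6000000060000003c0000001c0000000f00000002 5 6) 0 0 (step_sound _ 98 [(rh2145e1d24b96a57e.shift 2 1), rhb7844097d09c85bb] (by decide +kernel))
noncomputable def rhe3431944d00189fb : CRef := CRef.mk (Pat.mk 0x28000000000000001800000010 0x1f00000078000000180000001800000010 5 7) 0 0 (step_sound _ 131 [rh931de0aafb3a2d56, (rhff0f29cb645b05f7.shift 3 0)] (by decide +kernel))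
noncomputable def rhc6e74fd705abae6f : CRef := CRef.mk (Pat.mk 0xe0000001800000008 0x400000014000000370000003e0000001c00000008 5 6) 0 0 (step_sound _ 68 [(rh5421160f8e9bcf07.shift 1 0), rhc3bb0f1b2af200a9] (by decide +kernel))
noncomputable def rh81c4772705a37b64 : CRef := CRef.mk (Pat.mk 0x600000030000000180000000800000000 0x2000000060000003c0000001e0000000f00000002 5 6) 0 0 (step_sound _ 98 [(rh5419adcd928dba20.shift 1 3), rh65ec91fb56e0d823] (by decide +kernel))
noncomputable def rh0d15d13d9e214c0e : CRef := CRef.mk (Pat.mk 0x1c000000080000000000000004 0x30000007f0000003e0000000400000004 5 7) 0 0 (step_sound _ 97 [rh3c662dd0b2d81b5b, (rha03f6e28ea70fc7d.shift 0 2)] (by decide +kernel))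
noncomputable def rhe1840b7e700e9b6c : CRef := CRef.mk (Pat.mk 0x3800000010000000000000000c00000000 0x4000000ff0000003f000000080000000c00000004 5 8) 0 0 (step_sound _ 99 [(rh2820ca9a6c4f41b4.shift 0 3), (rh69012675dfdb1a5b.shift 1 3), rh98c4fd04b3f5448e] (by decide +kernel))
noncomputable def rhba3de35515f04ede : CRef := CRef.mk (Pat.mk 0xa000000180000000200000000 0x100000001000000010000000f0000001f0000000200000002 5 5) 0 0 (step_sound _ 96 [rh35a0970f257c7e59, (rhc10214bf3fe8094a.shift 0 2)] (by decide +kernel))
noncomputable def rh82fed6b8dd95d65f : CRef := CRef.mk (Pat.mk 0x400000004000000340000002700000020 0x16000000160000001e000000360000003700000021 5 6) 0 0 (step_sound _ 65 [(rh5c5e593799055d58.shift 1 1), rhcbec6b940adb7d73] (by decide +kernel))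
noncomputable def rh742dfdc9bb0c9526 : CRef := CRef.mk (Pat.mk 0xc000000180000000e00000000 0x400000004000000060000000f0000001e0000000e00000002 5 5) 0 0 (step_sound _ 97 [(rh086cb5958a3298b1.shift 1 0), (rhb739f4f82bb681b4.shift 0 2)] (by decide +kernel))
noncomputable def rhb968e2603ebae66f : CRef := CRef.mk (Pat.mk 0x800000018000000100000000c00000000 0x140000001f00000038000000180000000c00000004 5 6) 0 0 (step_sound _ 67 [(rh675eb0a114259074.shift 0 1), (rh932754581e0f4330.shift 2 0)] (by decide +kernel))
noncomputable def rh565efde0ae11a447 : CRef := CRef.mk (Pat.mk 0x800000018000000000000000c00000000 0x40000000f0000007c000000080000000c00000004 5 7) 0 0 (step_sound _ 67 [(rh932754581e0f4330.shift 2 0), (rhca405e350c462817.shift 0 1)] (by decide +kernel))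
noncomputable def rh556364117efe2d13 : CRef := CRef.mk (Pat.mk 0x1000000038000000000000000800000000 0x1000000010000000100000007c0000000f0000000800000008 5 7) 0 0 (step_sound _ 67 [(rh71222050f2c63a3a.shift 3 0), (rhf4da0a6d018278ef.shift 0 2)] (by decide +kernel))
noncomputable def rhae1e33cc61dbc251 : CRef := CRef.mk (Pat.mk 0x380000001800000018 0xc0000000f0000003c0000001e00000018 5 6) 0 0 (step_sound _ 34 [(rh53b3c253cb0c65f4.shift 1 1), rhdfed4ebb0eb54f43] (by decide +kernel))
noncomputable def rh0efea48c36e092f0 : CRef := CRef.mk (Pat.mk 0x8000000380000001800000000 0xc0000000c0000000f0000003c0000001800000008 5 6) 0 0 (step_sound _ 131 [(rh2145e1d24b96a57e.shift 3 1), rhdd21cabff6f8c986] (by decide +kernel))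
noncomputable def rh29c652e82a1d2d96 : CRef := CRef.mk (Pat.mk 0xc0000001c000000080000000000000000 0x40000000c0000000c0000001c0000000f0000000600000006 5 5) 0 0 (step_sound _ 162 [(rh2145e1d24b96a57e.shift 2 2), rhf1229802d62f0ca4] (by decide +kernel))
noncomputable def rh68bb7d7d8847fb1d : CRef := CRef.mk (Pat.mk 0xa0000000a000000880000000c00000000 0x20000000a0000000a000000ef0000007f00000013 5 8) 0 0 (step_sound _ 36 [rh4fff2e1bc9425bbf, (rh55afc6a59410cf00.shift 3 0)] (by decide +kernel))
noncomputable def rhb8ed21780c0b45e3 : CRef := CRef.mk (Pat.mk 0x2000000020000001e000000060000000000000000 0x1000000070000003e0000001e000000060000000200000002 5 6) 0 0 (step_sound _ 132 [(rh33e738c4ed385b9f.shift 1 3), rh90af220f5f37e8a7] (by decide +kernel))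
noncomputable def rh6cc82e8c4cdeaafe : CRef := CRef.mk (Pat.mk 0x3000000180000000e000000000000000000000000 0xa0000000f0000001a0000000e000000060000000400000004 5 5) 0 0 (step_sound _ 163 [(rh1b8205aeab53059f.shift 1 0), (rhc10214bf3fe8094a.shift 0 4)] (by decide +kernel))
noncomputable def rha3e7fbcec29f6413 : CRef := CRef.mk (Pat.mk 0x7000000040000000700000000 0xa0000000e0000001e00000007000000060000000700000001 5 5) 0 0 (step_sound _ 129 [(rh466a2277bc06011f.shift 1 1), rh5fb2fb5dd7a56f8b, rh79a48be3ac30af6a, (rhc89253ff58c66167.shift 1 1)] (by decide +kernel))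
noncomputable def rhf19810d9c5bffd02 : CRef := CRef.mk (Pat.mk 0x200000006000000020000000000000000 0x500000007000000070000000600000006000000060000000600000006 5 3) 0 0 (step_sound _ 161 [(rh14f80659e6313cc6.shift 1 2), (rh1741680720c097b4.shift 0 2), (rhca18712e5e5c7b8f.shift 1 0), (rhd4b4beefcd67f51e.shift 1 1)] (by decide +kernel))
noncomputable def rhe88c550d8f93cc58 : CRef := CRef.mk (Pat.mk 0x5000000300000002300000022 0x10000000110000001f000000330000003300000022 5 6) 0 0 (step_sound _ 128 [rha90cf224e1c1419c, rhff0f29cb645b05f7] (by decide +kernel))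
noncomputable def rh77357ee3dc978de7 : CRef := CRef.mk (Pat.mk 0x1e00000080 0xe70000007e000000c0 5 8) 0 0 (step_sound _ 65 [(rh3244c3cc8379b070.shift 0 1), (rhfb70e015e1f6e042.shift 1 0)] (by decide +kernel))
noncomputable def rhf8e735c4fd37dbb2 : CRef := CRef.mk (Pat.mk 0x1c00000080 0xe70000007e000000c7 5 8) 0 0 (step_sound _ 37 [(rh1a48baf448afc5e7.shift 2 0), rh592c7139d2c44767] (by decide +kernel))
noncomputable def rh47d082acf47c2159 : CRef := CRef.mk (Pat.mk 0x1400000030000000180000000000000000 0x40000003e0000003f0000001e0000000800000008 5 6) 0 0 (step_sound _ 99 [(rh54c49bb299227e8d.shift 1 3), (rhb835a85ee1719a0e.shift 1 0), (rhd079f97860062e85.shift 1 0), (rhf3c0837ef67ba892.shift 0 2)] (by decide +kernel))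
noncomputable def rhce35300b7a9f67e3 : CRef := CRef.mk (Pat.mk 0xe000000180000000c00000000 0x200000012000000370000001e0000001c0000000c00000004 5 6) 0 0 (step_sound _ 100 [(rh5421160f8e9bcf07.shift 1 1), rh59377470057f4368] (by decide +kernel))
noncomputable def rh75f618e21d4ecb83 : CRef := CRef.mk (Pat.mk 0xe000000180000000c00000000 0x10000000330000001e0000001b0000000f00000004 5 6) 0 0 (step_sound _ 33 [(rh53b3c253cb0c65f4.shift 0 1), rhbe4b7eb4a8283e95] (by decide +kernel))
noncomputable def rh0388ec78313fa2af : CRef := CRef.mk (Pat.mk 0x1e0000001a0000000800000000 0x400000004000000070000001e0000001e0000000b00000003 5 5) 0 0 (step_sound _ 129 [rh0d2b701d57c77b87, (rh3244c3cc8379b070.shift 0 3)] (by decide +kernel))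
noncomputable def rh9043931d57da4602 : CRef := CRef.mk (Pat.mk 0x1e0000001a00000000 0x200000002000000030000003e0000001e00000007 5 6) 0 0 (step_sound _ 34 [(rh18965a982d73c794.shift 1 1), rhf221f952be3bc70e] (by decide +kernel))
noncomputable def rhbf42f742ec28df21 : CRef := CRef.mk (Pat.mk 0xe000000080000000c 0x1000000012000000330000003e0000001f0000000c 5 6) 0 0 (step_sound _ 68 [(rh94246470f0e6fdf7.shift 1 0), rh9aa138e5ed752369, rhd8584583625e3f54] (by decide +kernel))
noncomputable def rh4f2c27d2a76172a7 : CRef := CRef.mk (Pat.mk 0xe000000400000000400000000 0x200000002000000730000003e000000660000000400000004 5 7) 0 0 (step_sound _ 100 [rh1ed635f5a7ab102e, (rhc04ec862bf732639.shift 1 2)] (by decide +kernel))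
noncomputable def rh7c06bf6f59c7c250 : CRef := CRef.mk (Pat.mk 0x2000000060000000200000008 0x5000000070000000700000006000000060000000e0000000e 5 4) 0 0 (step_sound _ 129 [(rh2a94466b0b83d379.shift 1 0), (rhc85cc95794737cf7.shift 0 1), (rhd4b4beefcd67f51e.shift 1 0)] (by decide +kernel))
noncomputable def rhbeb525c07659e885 : CRef := CRef.mk (Pat.mk 0x80000001c0000001800000008 0x40000000c0000007f0000001f00000008 5 7) 0 0 (step_sound _ 98 [(rh50fbb5868c909700.shift 2 0), (rhcf09f38993cff6c4.shift 0 1)] (by decide +kernel))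
noncomputable def rhe5da2ab9687a85a3 : CRef := CRef.mk (Pat.mk 0x20000000a0000001800000006 0x500000007000000070000003e0000001f00000006 5 6) 0 0 (step_sound _ 33 [rh1741680720c097b4, rh5bd4bc0c2c48140c, rh8f9f5854842e6dab, (rha1447db93ca109b8.shift 1 0)] (by decide +kernel))
noncomputable def rh1f38d91509c9a600 : CRef := CRef.mk (Pat.mk 0x2000000020000001200000003 0x4000000070000000700000003000000060000001e00000003 5 5) 0 0 (step_sound _ 129 [rh3ca48e2a6d60153d, rh84b09c9de005157a] (by decide +kernel))
noncomputable def rh007e5e1797c6396b : CRef := CRef.mk (Pat.mk 0x800000008000000680000004800000040 0x240000003f0000003c000000680000006800000040 5 7) 0 0 (step_sound _ 101 [(rhd226f490cad4d7ca.shift 0 1), (rhe072fffdd2fccf38.shift 5 0)] (by decide +kernel))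
noncomputable def rh16b92b6fc23cc186 : CRef := CRef.mk (Pat.mk 0x1e00000000000000400000004000000040 0x270000003e00000030000000600000006000000040 5 7) 0 0 (step_sound _ 161 [(rh1ad068a2bd12dfd1.shift 1 0), (rh3244c3cc8379b070.shift 0 4)] (by decide +kernel))
noncomputable def rhe6c1ef918b590bde : CRef := CRef.mk (Pat.mk 0x8000000080000001e000000000000000400000000 0xc0000000f0000001e000000070000000600000002 5 5) 0 0 (step_sound _ 130 [rh88129595a1b18399, (rh9e3edb185cc347de.shift 2 1)] (by decide +kernel))
noncomputable def rhb062de995c5b365e : CRef := CRef.mk (Pat.mk 0x6000000040000000c0000000c 0x180000007f0000003e0000000c0000000c 5 7) 0 0 (step_sound _ 99 [(rh2f68792b6b779e96.shift 2 0), rh8df030afdafb859f] (by decide +kernel))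
noncomputable def rhfe78e78768b72ccf : CRef := CRef.mk (Pat.mk 0x180000001c000000000000000400000000 0x1b0000001f000000070000000600000004 5 5) 0 0 (step_sound _ 97 [rh237e9b41f21601a6, (rh53b3c253cb0c65f4.shift 0 3)] (by decide +kernel))
noncomputable def rhcee8b2cb9be8f853 : CRef := CRef.mk (Pat.mk 0x800000008000000800000001c00000000 0x80000000c000000e70000007e00000007 5 8) 0 0 (step_sound _ 37 [(rh45e9dfbd6bd5d256.shift 2 1), rh775ca1963e850b80, (rheb505ef94539da28.shift 1 0)] (by decide +kernel))
noncomputable def rh49cab235059a3e27 : CRef := CRef.mk (Pat.mk 0x400000004000000400000000e00000000 0x400000006000000730000003e00000077 5 7) 0 0 (step_sound _ 36 [rh0edd3afef6b5d7e0, (rh45e9dfbd6bd5d256.shift 1 1), rheb505ef94539da28] (by decide +kernel))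
noncomputable def rh84f4520a00546192 : CRef := CRef.mk (Pat.mk 0x18000000020000000600000002000000000000000000000000 0x70000001f000000060000000600000002000000070000000700000005 5 5) 0 0 (step_sound _ 65 [rh6eff4158bb400f47, (rha707fb719e87fe6e.shift 1 1), (rhff514599ac705ffe.shift 0 2)] (by decide +kernel))
noncomputable def rh38dd4840086d1986 : CRef := CRef.mk (Pat.mk 0x800000001c00000000 0xe00000007e000000ff 5 8) 0 0 (step_sound _ 37 [(rh0edd3afef6b5d7e0.shift 1 0), rh185f35b8bd8ec37f, (rh45e9dfbd6bd5d256.shift 2 1)] (by decide +kernel))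
noncomputable def rh59f92a84afa916ea : CRef := CRef.mk (Pat.mk 0x600000006000000000000000100000000 0x300000003000000030000000600000006000000030000000300000003 5 3) 0 0 (step_sound _ 65 [(rh4f01fe223ae1129c.shift 0 1), rh5769ed4fe2fe4c14] (by decide +kernel))
noncomputable def rh5c14a59be890f700 : CRef := CRef.mk (Pat.mk 0x1c000000980000001800000005 0xe30000007e000000df0000001f00000005 5 8) 0 0 (step_sound _ 65 [rh5f000102cb5eaa54, (rh67e600e1a8caac9c.shift 1 2), (rh7dcc577706dd2abd.shift 0 1), (rhd268c6b2d65bf10d.shift 0 1)] (by decide +kernel))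
noncomputable def rhf4404e1f5c482db4 : CRef := CRef.mk (Pat.mk 0xc00000018000000180000001c00000000 0xf0000003c0000001c0000001f00000003 5 6) 0 0 (step_sound _ 129 [rh7437f966bf9e856b, (rhb739f4f82bb681b4.shift 0 3)] (by decide +kernel))
noncomputable def rh98bff1a25a46049b : CRef := CRef.mk (Pat.mk 0x80000001a0000001a00000004 0x30000000f0000001a0000001f00000007 5 5) 0 0 (step_sound _ 34 [(rh53b3c253cb0c65f4.shift 0 1), rhf1caa18fadfe243b] (by decide +kernel))
noncomputable def rhbf28e78a1778010f : CRef := CRef.mk (Pat.mk 0x2000000060000001a000000080000000000000000 0x200000006000000060000001e0000000f0000000700000002 5 5) 0 0 (step_sound _ 65 [(rh5710f30ba40ee3ec.shift 0 1), (rh59d9996d7c0033c3.shift 0 1), (rhabf42db7287f8a50.shift 0 1), (rhf54eb268e673aa4b.shift 1 0)] (by decide +kernel))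
noncomputable def rh05b44a4ee3038b07 : CRef := CRef.mk (Pat.mk 0x20000001e00000018000000000000000000000000 0x200000002000000060000001e0000001f000000070000000600000002 5 5) 0 0 (step_sound _ 97 [rhdffb2354b62dc252, (rheb0810cc63b001d8.shift 0 3)] (by decide +kernel))
noncomputable def rh5ceae416b9294fb0 : CRef := CRef.mk (Pat.mk 0x20000001a00000008000000000000000000000000 0x10000000100000003000000030000001e0000000f000000060000000400000004 5 5) 0 0 (step_sound _ 97 [(rh01e48cd9f335aa73.shift 0 3), rh794501743a61ce18, (rhe8a9e0e6037b7c6e.shift 0 2)] (by decide +kernel))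
noncomputable def rh27e30d8b8d621d8d : CRef := CRef.mk (Pat.mk 0x100000001a0000001a00000002000000000000000000000000 0x120000001a0000001a0000000f0000000e0000000400000004 5 5) 0 0 (step_sound _ 99 [(rh71222050f2c63a3a.shift 3 2), rh794501743a61ce18] (by decide +kernel))
noncomputable def rh81156b46702557d3 : CRef := CRef.mk (Pat.mk 0x100000001a0000000a00000002000000040000000000000000 0x100000001a0000000a0000000a0000001f0000000700000001 5 5) 0 0 (step_sound _ 67 [(rh9e3edb185cc347de.shift 3 2), rhb1385f5583bb96cc] (by decide +kernel))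
noncomputable def rh754ed8af3fcc8232 : CRef := CRef.mk (Pat.mk 0x8000000080000000c0000000c 0x170000001f0000003c0000000c0000000c 5 6) 0 0 (step_sound _ 98 [rh3d9fc58b50ff3185, (rh50fbb5868c909700.shift 2 0)] (by decide +kernel))
noncomputable def rhb5ffae6359841451 : CRef := CRef.mk (Pat.mk 0x38000000100000001c00000000 0x80000000c0000001f00000038000000180000001c00000004 5 6) 0 0 (step_sound _ 131 [rh8cb19a28260c04d1, (rhc89253ff58c66167.shift 3 1), (rhe072fffdd2fccf38.shift 3 1)] (by decide +kernel))
noncomputable def rh4746d5e3ef8a70d4 : CRef := CRef.mk (Pat.mk 0x1000000018000000180000000c000000040000000000000000 0x320000001f0000001a0000000f000000060000000400000004 5 6) 0 0 (step_sound _ 97 [(rh53b3c253cb0c65f4.shift 0 3), rhe92c4a6b89bf4809] (by decide +kernel))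
noncomputable def rhaf5f46506ad5a7b1 : CRef := CRef.mk (Pat.mk 0x10000000180000001800000006000000000000000000000000 0x330000001f0000001f00000006000000060000000400000004 5 6) 0 0 (step_sound _ 161 [(rh7dcc577706dd2abd.shift 0 4), (rhc363dc9724f7518b.shift 0 2), rhd518d174b80f32e2] (by decide +kernel))
noncomputable def rh8629ced67a9d33d7 : CRef := CRef.mk (Pat.mk 0x200000002000000880000001c00000000 0x200000002000000ef0000007f000000e3 5 8) 0 0 (step_sound _ 37 [(rh241ddf12d4fc9298.shift 2 1), rh2f99e5d883eba31a, (rh45e9dfbd6bd5d256.shift 2 1), (rh695f888db18ad7c7.shift 2 0)] (by decide +kernel))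
noncomputable def rhe171bd6c193f5452 : CRef := CRef.mk (Pat.mk 0x1e00000018000000080000000000000000 0xb0000001e0000001c0000000c0000000c0000000c 5 5) 0 0 (step_sound _ 35 [(rh71222050f2c63a3a.shift 3 0), rh9b3a2aca8b56d34f] (by decide +kernel))
noncomputable def rhe32db257ab024b3e : CRef := CRef.mk (Pat.mk 0x20000001e0000001a00000008 0x10000000f0000000f0000000e0000001e0000001e00000008 5 5) 0 0 (step_sound _ 130 [(rh1f72e38f783022bd.shift 2 0), (rh92d527fd57e151ef.shift 2 0), (rhdf6eda84f2eabc48.shift 2 0), (rhe7d208b70c184706.shift 0 1)] (by decide +kernel))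
noncomputable def rh000f0e7b16582d14 : CRef := CRef.mk (Pat.mk 0xe0000001a0000000000000000 0x4000000040000000c0000000e0000001e0000000f0000000a 5 5) 0 0 (step_sound _ 130 [rha2d972724209a96f, (rha40d42a2e34c408d.shift 2 0), (rhadf429772c25fde0.shift 1 0)] (by decide +kernel))
noncomputable def rh4df7560808619a23 : CRef := CRef.mk (Pat.mk 0x20000000e0000001a0000000000000000 0x4000000040000000e0000000e0000001a0000000f0000000f 5 5) 0 0 (step_sound _ 130 [rh4cb43126e760f5cf, (rh84d1c02a8954c6a8.shift 1 1), (rhc2c7bae8f445c890.shift 2 0)] (by decide +kernel))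
noncomputable def rh606dd016e7a94696 : CRef := CRef.mk (Pat.mk 0x2000000060000001a0000000000000000 0x5000000070000000700000002000000060000001e0000000f00000005 5 5) 0 0 (step_sound _ 161 [(rh14f80659e6313cc6.shift 1 2), rh3ba86853cdc9d88c, (rh3da62da861143b9a.shift 0 2), (rhc85cc95794737cf7.shift 0 2)] (by decide +kernel))
noncomputable def rhb6109fba24b8cdde : CRef := CRef.mk (Pat.mk 0x80000000a0000000600000002000000000000000000000000 0xc0000000e0000000600000006000000070000000700000005 5 4) 0 0 (step_sound _ 65 [(rh06a1ed5f660558e7.shift 1 1), rh6eff4158bb400f47, (rha707fb719e87fe6e.shift 1 1)] (by decide +kernel))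
noncomputable def rh64b8b5e305fadb80 : CRef := CRef.mk (Pat.mk 0x80000001a0000001e0000000000000000 0x4000000070000000f0000001a0000001e0000000700000004 5 5) 0 0 (step_sound _ 33 [rh7fae8aa228cbf251, (rheb0810cc63b001d8.shift 0 1)] (by decide +kernel))
noncomputable def rh1a85c6e3088be9ec : CRef := CRef.mk (Pat.mk 0x50000000d000000050000000100000000 0x80000001a0000001f0000000f000000050000000100000001 5 5) 0 0 (step_sound _ 129 [rh18858f5d94959510, (rh2f68792b6b779e96.shift 0 1)] (by decide +kernel))
noncomputable def rh920e41f2c7613f79 : CRef := CRef.mk (Pat.mk 0x1c00000018000000180000001c 0x200000003c000000780000001f0000001f 5 7) 0 0 (step_sound _ 69 [rh42e41b7f366f1c7e, (rhf48373e13d2bc128.shift 2 2)] (by decide +kernel))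
noncomputable def rh5971009295f75fb0 : CRef := CRef.mk (Pat.mk 0x1c00000018000000000000001e 0x30000001f0000001b000000070000001e 5 5) 0 0 (step_sound _ 33 [rh2e0f10d207746a3f, rh3244c3cc8379b070] (by decide +kernel))
noncomputable def rh8e50e2f3eaeb384b : CRef := CRef.mk (Pat.mk 0xe000000010000004000000040 0x700000003e000000330000006000000040 5 7) 0 0 (step_sound _ 100 [(rh80fcd6d0a18cb2dd.shift 0 2), (rhfa0414344ad6364d.shift 1 0)] (by decide +kernel))
noncomputable def rhaa0902b9b73b1f16 : CRef := CRef.mk (Pat.mk 0x12000000060000000200000000 0x1000000070000000f0000001e000000060000000600000004 5 5) 0 0 (step_sound _ 129 [(rh3da62da861143b9a.shift 0 1), (rhc3115e0f4b0bf27b.shift 0 1), (rhd4b4beefcd67f51e.shift 1 0)] (by decide +kernel))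
noncomputable def rh0820524d33dda8d7 : CRef := CRef.mk (Pat.mk 0x1e0000000a000000180000000800000000 0x30000001e0000000a0000001f0000000f00000004 5 5) 0 0 (step_sound _ 34 [(rh932754581e0f4330.shift 2 0), (rhf79d7ba0e4773a6f.shift 0 1)] (by decide +kernel))
noncomputable def rhf5d94ee53bf9d7bc : CRef := CRef.mk (Pat.mk 0x400000004000000060000000700000000 0xa0000003e00000007000000060000000700000001 5 6) 0 0 (step_sound _ 129 [rh34e73f5b30d76b09, (rh50fbb5868c909700.shift 1 1)] (by decide +kernel))
noncomputable def rh18292bb1ef730b41 : CRef := CRef.mk (Pat.mk 0x400000006000000060000000000000001 0x3000000030000000700000006000000060000000300000003 5 3) 0 0 (step_sound _ 33 [rh4f01fe223ae1129c, (rh71222050f2c63a3a.shift 1 0)] (by decide +kernel))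
noncomputable def rhc1ff5c2cbf72ce3c : CRef := CRef.mk (Pat.mk 0x60000000600000000000000010000000000000000 0x30000000300000003000000060000000700000003000000030000000300000001 5 3) 0 0 (step_sound _ 97 [(rh4f01fe223ae1129c.shift 0 2), rh544d3caba1e1e2bb, (rh5769ed4fe2fe4c14.shift 0 1)] (by decide +kernel))
noncomputable def rh64425fd874e7768c : CRef := CRef.mk (Pat.mk 0x3800000000 0x70000007e000000ff 5 8) 0 0 (step_sound _ 34 [(rh06db8ceda6269a47.shift 1 0), rh185f35b8bd8ec37f, rh592c7139d2c44767, rh9c548838e8725ba1] (by decide +kernel))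
noncomputable def rhb1b17f124f454658 : CRef := CRef.mk (Pat.mk 0x1000000001c00000000 0x1c7000000fe000000f7 5 9) 0 0 (step_sound _ 37 [rh185f35b8bd8ec37f, (rh6dd26613a1ae639b.shift 2 0), rh775ca1963e850b80] (by decide +kernel))
noncomputable def rhb5e57d376b469d66 : CRef := CRef.mk (Pat.mk 0x20000000200000000000000060000000000000000 0x1000000030000000300000002000000070000000700000001 5 3) 0 0 (step_sound _ 97 [(rh55afc6a59410cf00.shift 1 1), rh6aa5625770489e83] (by decide +kernel))
noncomputable def rh5a9c00b5c9c7c66d : CRef := CRef.mk (Pat.mk 0x800000008000000000000003800000000 0x80000000c000000070000003e00000077 5 7) 0 0 (step_sound _ 34 [rh185f35b8bd8ec37f, rh9c548838e8725ba1, (rheb505ef94539da28.shift 1 0)] (by decide +kernel))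
noncomputable def rh595dea1cb3fa7b59 : CRef := CRef.mk (Pat.mk 0x200000002000000000000000e00000000 0x10000000300000003000000030000001e00000007 5 5) 0 0 (step_sound _ 65 [(rh55afc6a59410cf00.shift 1 0), rh76169ad10431134e] (by decide +kernel))
noncomputable def rh5d43bc3ef6bc7d44 : CRef := CRef.mk (Pat.mk 0x18000000380000001a00000008 0x20000000640000007c0000003f0000001b00000008 5 7) 0 0 (step_sound _ 98 [(rh50fbb5868c909700.shift 2 0), (rhaec2d6327f2d3939.shift 0 1)] (by decide +kernel))
noncomputable def rh4c1df022320c34d4 : CRef := CRef.mk (Pat.mk 0x360000002600000022 0x13000000170000001f000000360000003600000022 5 6) 0 0 (step_sound _ 98 [(rh5c5e593799055d58.shift 1 0), rh925f2a74e937f060] (by decide +kernel))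
noncomputable def rha06d11519298828d : CRef := CRef.mk (Pat.mk 0x600000006000000020000000300000000 0x300000003000000030000000600000006000000030000000700000004 5 3) 0 0 (step_sound _ 34 [(rh4f01fe223ae1129c.shift 0 1), (rh55afc6a59410cf00.shift 1 0)] (by decide +kernel))
noncomputable def rh8838b43a888e502e : CRef := CRef.mk (Pat.mk 0x600000006000000020000000000000000 0x1000000030000000700000006000000030000000300000003 5 3) 0 0 (step_sound _ 33 [(rh71222050f2c63a3a.shift 1 0), rh771d065bdc85bf2d] (by decide +kernel))
noncomputable def rhee5481c844b13972 : CRef := CRef.mk (Pat.mk 0x8000000280000000c0000000c 0x170000001e0000003c0000000c0000000c 5 6) 0 0 (step_sound _ 98 [(rh50fbb5868c909700.shift 2 0), rhf4e86e88e384a8c5] (by decide +kernel))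
noncomputable def rhebde58787eb4d3f8 : CRef := CRef.mk (Pat.mk 0x6000000100000001e0000000e 0x1b0000001f0000001a0000001e0000000e 5 5) 0 0 (step_sound _ 65 [(rh2145e1d24b96a57e.shift 1 0), rhabac3201c0820485] (by decide +kernel))
noncomputable def rh992834908b182e85 : CRef := CRef.mk (Pat.mk 0x6000000100000001c0000000c 0x7c0000001f000000180000001c0000000c 5 7) 0 0 (step_sound _ 132 [rh9b536e29f6cf0416, (rhee230b994cc8b773.shift 3 0)] (by decide +kernel))
noncomputable def rh6fc70eb8b87295ef : CRef := CRef.mk (Pat.mk 0x2000000020000000f000000060000000000000000 0xc0000001f0000001b0000000f000000060000000200000002 5 5) 0 0 (step_sound _ 128 [rh3cb04db3dd2b6a55, (rhf203402b4dc835d6.shift 0 2)] (by decide +kernel))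
noncomputable def rh75cd61a586ef3bbd : CRef := CRef.mk (Pat.mk 0x36000000260000002200000000 0x12000000160000001e00000036000000370000002300000001 5 6) 0 0 (step_sound _ 130 [rh218cb5b453957506, (rh5c5e593799055d58.shift 1 1)] (by decide +kernel))
noncomputable def rhc5f4d1574c7890d6 : CRef := CRef.mk (Pat.mk 0x1000000010000000180000009200000000 0x10000000100000001f000000ff00000008 5 8) 0 0 (step_sound _ 35 [(rh78468d6e44643ee6.shift 0 1), (rh932754581e0f4330.shift 3 0)] (by decide +kernel))
noncomputable def rhb3874da3d6cb19a4 : CRef := CRef.mk (Pat.mk 0x200000002000000020000000000000000 0x500000007000000070000000300000003000000030000000300000001 5 3) 0 0 (step_sound _ 161 [(rh20966da26a1c2ae8.shift 0 1), rh6aa5625770489e83, (rh771d065bdc85bf2d.shift 0 1), (rhc85cc95794737cf7.shift 0 2)] (by decide +kernel))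
noncomputable def rhe810f4074e8af6bf : CRef := CRef.mk (Pat.mk 0x20000001e00000000000000000000000000000000 0x2000000020000003e00000007000000060000000400000004 5 6) 0 0 (step_sound _ 97 [(rh98ff2bdcd141d122.shift 1 0), (rheb0810cc63b001d8.shift 0 3)] (by decide +kernel))
noncomputable def rh6ad057e4a6aad04e : CRef := CRef.mk (Pat.mk 0x20000000200000002000000000000000000000000 0x400000006000000060000000200000007000000070000000700000005 5 3) 0 0 (step_sound _ 65 [(rh20966da26a1c2ae8.shift 0 1), rh6eff4158bb400f47, (rhced6d86d2069808b.shift 1 1)] (by decide +kernel))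
noncomputable def rhfaefcf42ee69a391 : CRef := CRef.mk (Pat.mk 0x1000000010000000100000003800000000 0x800000018000000180000003e0000007f00000006 5 7) 0 0 (step_sound _ 131 [(rh50fbb5868c909700.shift 3 1), rhb7596e3236d95ab6] (by decide +kernel))
noncomputable def rh7fa4493a99c3bc1f : CRef := CRef.mk (Pat.mk 0x1000000010000000180000009200000000 0x100000001000000018000000ff0000000f 5 8) 0 0 (step_sound _ 35 [rh6b37188ebdd8ae16, (rh932754581e0f4330.shift 3 0)] (by decide +kernel))
noncomputable def rhc4f5889e12d4daa1 : CRef := CRef.mk (Pat.mk 0x2000000000000001a000000020000000000000000 0x10000000300000003000000030000001b0000000f0000000700000004 5 5) 0 0 (step_sound _ 129 [(rh36e6bb6cca6188da.shift 0 1), (rh771d065bdc85bf2d.shift 0 1), rh8ff3dde5b1c639e0] (by decide +kernel))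
noncomputable def rhde9387220b2fb778 : CRef := CRef.mk (Pat.mk 0xe000000080000000c0000004c 0x120000001e0000000b0000000f0000007c 5 7) 0 0 (step_sound _ 100 [rh1eb7165168429537, (rh2f68792b6b779e96.shift 3 0)] (by decide +kernel))
noncomputable def rhc449309dc938f088 : CRef := CRef.mk (Pat.mk 0x78000000000000000400000000 0x70000007e0000000e0000000400000004 5 7) 0 0 (step_sound _ 66 [rh399b956f36739947, (rh80fcd6d0a18cb2dd.shift 2 2)] (by decide +kernel))
noncomputable def rh890dcec7b7e08996 : CRef := CRef.mk (Pat.mk 0x78000000000000003400000030 0xf0000007e00000007000000360000003e 5 7) 0 0 (step_sound _ 98 [(rh775ca1963e850b80.shift 0 2), (rh9bf8ee21173d234c.shift 1 0), (rhd5eb272e07a4e288.shift 1 3)] (by decide +kernel))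
noncomputable def rh7dbf60ac82f2b997 : CRef := CRef.mk (Pat.mk 0x1c000000040000001c00000018000000000000000000000000 0x20000001e000000070000001c0000001f000000070000000200000002 5 5) 0 0 (step_sound _ 98 [rhbd0b832b6a6e272b, (rhc4526fc8abf298b6.shift 1 1), (rhd9bed81dc2893f9b.shift 0 2), (rhf5094ad2a427d4d3.shift 0 2)] (by decide +kernel))
noncomputable def rh5ee89f67e2414ce6 : CRef := CRef.mk (Pat.mk 0x1c00000080 0xe70000007e000000c7 5 8) 0 0 (step_sound _ 37 [(rh1a48baf448afc5e7.shift 2 0), rh775ca1963e850b80] (by decide +kernel))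
noncomputable def rhcadbf8b56d5190d5 : CRef := CRef.mk (Pat.mk 0xe000000080000000c0000004c 0x130000001e0000000a0000000f0000007c 5 7) 0 0 (step_sound _ 100 [rh1ab60030b8dde24e, (rh2f68792b6b779e96.shift 3 0)] (by decide +kernel))
noncomputable def rhc88627fee266e570 : CRef := CRef.mk (Pat.mk 0x6000000020000001a0000001200000010 0x10000000b0000001f0000000a0000001a0000001a00000010 5 5) 0 0 (step_sound _ 160 [rhd134caa5b1076e60, (rhffd04209dc8ea796.shift 0 1)] (by decide +kernel))
noncomputable def rhcb8436b057c810c0 : CRef := CRef.mk (Pat.mk 0x2000000030000000200000002000000000000000000000000 0x2000000030000000300000003000000070000000700000004 5 3) 0 0 (step_sound _ 64 [(rh79877ebd3ef475dd.shift 0 2), rha99139b99b82e6fa] (by decide +kernel))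
noncomputable def rhd67b0201b2c3f191 : CRef := CRef.mk (Pat.mk 0x2000000120000001300000012 0x8000000090000000f0000001e0000001b00000012 5 5) 0 0 (step_sound _ 67 [(rhb2a0b9ccfb5cecd5.shift 0 1), rhb2aa47935e7ef7cb] (by decide +kernel))
noncomputable def rh225b49a2593a35ce : CRef := CRef.mk (Pat.mk 0x120000000300000002 0x5000000070000000f0000001e0000000300000003 5 5) 0 0 (step_sound _ 67 [(rhb2a0b9ccfb5cecd5.shift 0 1), rhe36c74e0f2b34f1f] (by decide +kernel))
noncomputable def rh895b0a41ee2559ce : CRef := CRef.mk (Pat.mk 0x18000000030000000600000000 0x100000003000000030000001e000000030000000700000004 5 5) 0 0 (step_sound _ 97 [rh8b45a73eaadf2a53, (rhb2a0b9ccfb5cecd5.shift 0 2)] (by decide +kernel))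
noncomputable def rhda1dd8873eb36000 : CRef := CRef.mk (Pat.mk 0x8000000080000000b0000000000000000 0x100000001800000018000000080000001f0000001c00000014 5 5) 0 0 (step_sound _ 35 [(rh20966da26a1c2ae8.shift 2 0), rh5f11ee373cbffcaa, (rhced6d86d2069808b.shift 3 0)] (by decide +kernel))
noncomputable def rh25b3cf3a604f4e4a : CRef := CRef.mk (Pat.mk 0x8000000080000000800000008000000010000000000000000 0x800000008000000080000000c0000001f0000001c00000010 5 5) 0 0 (step_sound _ 66 [rh667145c8633d3ef4, (rh79877ebd3ef475dd.shift 2 2)] (by decide +kernel))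
noncomputable def rh1247bddab16a0de2 : CRef := CRef.mk (Pat.mk 0x1000000008000000080000000a00000003 0x40000001c0000001c000000080000000c0000001e00000003 5 5) 0 0 (step_sound _ 131 [(rh2f68792b6b779e96.shift 3 1), rhb6a60781e2db6700] (by decide +kernel))
noncomputable def rhed3a6a1b98813cbc : CRef := CRef.mk (Pat.mk 0x8000000080000000a0000000b000000090000000000000000 0x18000000180000001c0000000c0000001e0000000b000000090000000100000001 5 5) 0 0 (step_sound _ 32 [rh71222050f2c63a3a, (rh9b74c57545d0e73d.shift 0 2)] (by decide +kernel))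
noncomputable def rhd48b1ade410eab35 : CRef := CRef.mk (Pat.mk 0x80000000800000008000000080000000500000000 0x1000000018000000180000000800000018000000180000000f00000004 5 5) 0 0 (step_sound _ 35 [(rh630e8191ba09888d.shift 0 1), (rh932754581e0f4330.shift 2 0)] (by decide +kernel))
noncomputable def rh33c1a52a0041c4be : CRef := CRef.mk (Pat.mk 0x5000000080000000800000008000000080000000000000000 0x40000000f000000180000001800000008000000180000001800000010 5 5) 0 0 (step_sound _ 195 [(rh50fbb5868c909700.shift 2 3), rhf23abc6050d50443] (by decide +kernel))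
noncomputable def rh1efe470493b598b7 : CRef := CRef.mk (Pat.mk 0x100000008000000080000000800000008 0x100000001c0000001f0000000c000000080000000800000008 5 5) 0 0 (step_sound _ 130 [(rh0dc8b42ff0b64d8a.shift 0 1), (rhffd04209dc8ea796.shift 2 0)] (by decide +kernel))
noncomputable def rh423f813b3a8ace03 : CRef := CRef.mk (Pat.mk 0x200000018000000030000000200000000 0x5000000070000000f0000001a000000030000000300000001 5 5) 0 0 (step_sound _ 97 [rh03dfdf12d5937476, (rh1741680720c097b4.shift 0 1), rhcc7daa0651f59aff] (by decide +kernel))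
noncomputable def rh570521d157b736d4 : CRef := CRef.mk (Pat.mk 0x1a000000130000001200000000 0x80000000b0000000f0000001a0000001b0000001300000001 5 5) 0 0 (step_sound _ 129 [rh03dfdf12d5937476, (rhb2aa47935e7ef7cb.shift 0 1)] (by decide +kernel))
noncomputable def rh4e22726321437a71 : CRef := CRef.mk (Pat.mk 0x18000000030000000200000000 0x70000000f0000001e000000030000000300000001 5 5) 0 0 (step_sound _ 97 [rh41c226a5c3d0003c, (rhb2a0b9ccfb5cecd5.shift 0 2)] (by decide +kernel))
noncomputable def rh8905b5191ffba9e6 : CRef := CRef.mk (Pat.mk 0x1a0000000300000002 0x5000000070000000f0000001a0000000300000003 5 5) 0 0 (step_sound _ 97 [rh1741680720c097b4, rh2f7aebebd7d680c3, rh769be3fe24eee174, rha77f215723363df0] (by decide +kernel))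
noncomputable def rhff72182a645569c1 : CRef := CRef.mk (Pat.mk 0xc00000008000000100000000800000000 0x40000000c000000080000007c0000000f00000004 5 7) 0 0 (step_sound _ 67 [(rh50fbb5868c909700.shift 2 1), rh80650b8e93363f1e] (by decide +kernel))
noncomputable def rha7406972bfcc7521 : CRef := CRef.mk (Pat.mk 0x200000018000000180000000c 0x2000000020000001b0000003f0000000f 5 6) 0 0 (step_sound _ 1 [rh53b3c253cb0c65f4, rh5ba049ffa16e58a5] (by decide +kernel))
noncomputable def rhb0499c1a17fb2640 : CRef := CRef.mk (Pat.mk 0xc000000180000000e00000004 0x20000000f0000001b0000003e00000007 5 6) 0 0 (step_sound _ 97 [rh5f0c231a26d4677a, (rhb739f4f82bb681b4.shift 0 2)] (by decide +kernel))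
noncomputable def rh50b7db18287db600 : CRef := CRef.mk (Pat.mk 0x800000018000000080000000800000008000000000000000000000000 0x8000000180000001f0000007c000000180000000c0000000c00000004 5 7) 0 0 (step_sound _ 162 [(rh0d46191bda76a8f5.shift 2 0), (rh42e615827c8908b1.shift 0 3), (rh7fe11f484215afaf.shift 0 3)] (by decide +kernel))
noncomputable def rha2a306de83e488e0 : CRef := CRef.mk (Pat.mk 0xe000000180000000c000000000000000000000000 0x20000000e0000001e0000000f000000060000000400000004 5 5) 0 0 (step_sound _ 97 [(rh1455b602a2464eeb.shift 1 0), (rh53b3c253cb0c65f4.shift 0 3)] (by decide +kernel))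
noncomputable def rh7a18d5e30baf8995 : CRef := CRef.mk (Pat.mk 0x1a0000001e000000000000000000000000 0x200000006000000070000001e0000001e000000070000000200000002 5 5) 0 0 (step_sound _ 65 [rh77a67bf1f6025007, (rheb0810cc63b001d8.shift 0 2)] (by decide +kernel))
noncomputable def rheeff0f52e54b684a : CRef := CRef.mk (Pat.mk 0x1c00000018000000180000000800000000 0x1f0000001f000000780000000c00000004 5 7) 0 0 (step_sound _ 129 [rh7154bbd92eca13ed, (rhb739f4f82bb681b4.shift 0 3)] (by decide +kernel))
noncomputable def rh2405fc3f4e66b324 : CRef := CRef.mk (Pat.mk 0x1a0000001a0000000800000000 0x4000000070000001f0000001a0000000f00000006 5 5) 0 0 (step_sound _ 98 [rh9b923fc8ae04309b, (rhb739f4f82bb681b4.shift 0 2)] (by decide +kernel))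
noncomputable def rh5060782f41321f7f : CRef := CRef.mk (Pat.mk 0x20000001a0000000a00000000 0x40000000600000006000000020000001b0000000f00000001 5 5) 0 0 (step_sound _ 32 [(rh1c62b6193297d9e3.shift 0 1), rh7a7e08304268422e] (by decide +kernel))
noncomputable def rh242a5e04aa0bbe9c : CRef := CRef.mk (Pat.mk 0x200000002000000020000000000000000 0x500000007000000070000000300000002000000070000000700000005 5 3) 0 0 (step_sound _ 161 [rh6eff4158bb400f47, rh8ff3dde5b1c639e0, (rhc85cc95794737cf7.shift 0 2)] (by decide +kernel))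
noncomputable def rh8acd0d1af0f44b22 : CRef := CRef.mk (Pat.mk 0x40000003400000014000000000000000000000000 0x200000006000000360000001e0000000f0000000e0000000a 5 6) 0 0 (step_sound _ 66 [(rh378c544d8190faf9.shift 0 1), (rh8cdd36b03d57a2f6.shift 1 0), (rh8ff3dde5b1c639e0.shift 1 0), (rhc4526fc8abf298b6.shift 1 0)] (by decide +kernel))
noncomputable def rh3d98fac3888c5a99 : CRef := CRef.mk (Pat.mk 0x1a0000001a0000000800000000 0x4000000070000001e0000001b0000000f00000006 5 5) 0 0 (step_sound _ 98 [rh9b923fc8ae04309b, (rheb0810cc63b001d8.shift 0 2)] (by decide +kernel))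
noncomputable def rh268398b3f32f9821 : CRef := CRef.mk (Pat.mk 0x18000000180000000c0000000c 0x60000001f0000001b0000000f0000000c 5 5) 0 0 (step_sound _ 33 [(rh53b3c253cb0c65f4.shift 0 1), rh625e024e534c5ee6] (by decide +kernel))
noncomputable def rh418bce8a30d18c8f : CRef := CRef.mk (Pat.mk 0x1800000018000000180000000e 0x70000001f0000001c0000003c0000000e 5 6) 0 0 (step_sound _ 98 [(rh50fbb5868c909700.shift 2 0), rh80a640509e94aeb8] (by decide +kernel))
noncomputable def rh54a65a323a42707d : CRef := CRef.mk (Pat.mk 0x180000001c00000006 0x3000000030000001f0000001f00000006 5 5) 0 0 (step_sound _ 33 [rh1df41c6aff28951f, (rh53b3c253cb0c65f4.shift 0 1)] (by decide +kernel))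
noncomputable def rhcf5ea783a60d2501 : CRef := CRef.mk (Pat.mk 0x1800000010000000100000003000000000 0x18000000180000003c000000ff0000000e 5 8) 0 0 (step_sound _ 35 [rh46c394614903929b, (rh932754581e0f4330.shift 3 0)] (by decide +kernel))
noncomputable def rha83b9947c4b91a20 : CRef := CRef.mk (Pat.mk 0x100000000300000002000000020000000000000000 0x40000001e0000000300000002000000070000000700000005 5 5) 0 0 (step_sound _ 161 [(rh04e571695666b5c1.shift 0 2), rh8cdd36b03d57a2f6] (by decide +kernel))
noncomputable def rhe1593724d3f0d843 : CRef := CRef.mk (Pat.mk 0x12000000030000000200000000 0x70000000f0000001e000000030000000300000001 5 5) 0 0 (step_sound _ 99 [rh0331dac5a18645bd, (rhb2a0b9ccfb5cecd5.shift 0 2)] (by decide +kernel))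
noncomputable def rh69d74edc6ed8b1cb : CRef := CRef.mk (Pat.mk 0x800000008000000080000000800000000 0x800000008000000080000000f0000003c00000014 5 6) 0 0 (step_sound _ 36 [rh01b78e5ef59799ae, (rh55afc6a59410cf00.shift 3 0)] (by decide +kernel))
noncomputable def rh24e7089cea57625c : CRef := CRef.mk (Pat.mk 0x2000000030000000200000002 0x1000000070000000700000006000000030000000300000002 5 3) 0 0 (step_sound _ 130 [(rh8b0f6dfa53ad9781.shift 0 1), (rhbaefcd01e0a8bca3.shift 1 0)] (by decide +kernel))
noncomputable def rha8b0985656d36605 : CRef := CRef.mk (Pat.mk 0x92000000180000001000000010 0x8000000ff0000001f0000001000000010 5 8) 0 0 (step_sound _ 99 [(rh4e85042e27484548.shift 0 2), (rh50fbb5868c909700.shift 3 0)] (by decide +kernel))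
noncomputable def rh356c5c4886fa2593 : CRef := CRef.mk (Pat.mk 0x20000000200000002000000000000000000000000 0x100000003000000030000000300000003000000070000000700000005 5 3) 0 0 (step_sound _ 65 [rh8cdd36b03d57a2f6, rh8ff3dde5b1c639e0, (rh968ba7b0df7e4096.shift 0 1), rhc4526fc8abf298b6] (by decide +kernel))
noncomputable def rhf6271806d5dafbc1 : CRef := CRef.mk (Pat.mk 0x1e0000000200000000 0x40000000400000006000000070000003e0000000200000002 5 6) 0 0 (step_sound _ 97 [(rh3244c3cc8379b070.shift 0 2), (rh562f03b97f8bf5c5.shift 1 0)] (by decide +kernel))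
noncomputable def rh3193d494772eaa23 : CRef := CRef.mk (Pat.mk 0x200000002000000020000000000000000 0x500000007000000070000000700000002000000060000000600000004 5 3) 0 0 (step_sound _ 161 [(rh1741680720c097b4.shift 0 2), (rh6c59ce14113da07f.shift 1 0), rh8ff3dde5b1c639e0] (by decide +kernel))
noncomputable def rh03787e581418bf47 : CRef := CRef.mk (Pat.mk 0x92000000180000001000000010 0xf000000ff000000180000001000000010 5 8) 0 0 (step_sound _ 99 [(rh50fbb5868c909700.shift 3 0), (rh660ef48beff2decc.shift 0 2)] (by decide +kernel))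
noncomputable def rhf2e2a2960521b070 : CRef := CRef.mk (Pat.mk 0x20000001a00000000000000020000000000000000 0x4000000070000000f0000001b00000003000000030000000300000001 5 5) 0 0 (step_sound _ 97 [(rh20966da26a1c2ae8.shift 0 1), (rh330a005829cdd297.shift 0 2), rhc4526fc8abf298b6] (by decide +kernel))
noncomputable def rh889c36e495db4d77 : CRef := CRef.mk (Pat.mk 0x4c0000000c000000080000000e00000000 0x7c0000000f0000000b0000001e00000012 5 7) 0 0 (step_sound _ 36 [(rh55afc6a59410cf00.shift 3 0), rh8733b962e0b8dd30] (by decide +kernel))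
noncomputable def rh607b5088031550bc : CRef := CRef.mk (Pat.mk 0x3000000034000000000000007800000000 0x3e00000036000000070000007e0000000f 5 7) 0 0 (step_sound _ 34 [rh592c7139d2c44767, (rhaf754fcaa50c128f.shift 1 0), (rheae1728ff4a56756.shift 1 0)] (by decide +kernel))
noncomputable def rh4daf1f5057fd0538 : CRef := CRef.mk (Pat.mk 0x180000001c000000040000001c00000000 0x200000002000000070000001f0000001c000000070000001e00000002 5 5) 0 0 (step_sound _ 130 [(rh277b01412deaec89.shift 0 1), (rh5e8e503cdbced5c1.shift 0 2), rh642b26d7cba6ff2f, (rh771d065bdc85bf2d.shift 1 0)] (by decide +kernel))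
noncomputable def rh4bc85716c4d7384f : CRef := CRef.mk (Pat.mk 0x800000001c00000000 0xc70000007e000000e7 5 8) 0 0 (step_sound _ 37 [rh592c7139d2c44767, (rhc13dbb2602bbcc3a.shift 2 0)] (by decide +kernel))
noncomputable def rh1025acd51930fafb : CRef := CRef.mk (Pat.mk 0x4c0000000c000000080000000e00000000 0x7c0000000f0000000a0000001e00000013 5 7) 0 0 (step_sound _ 36 [(rh55afc6a59410cf00.shift 3 0), rh805582629f36f77d] (by decide +kernel))
noncomputable def rhb85fd6af28677b4f : CRef := CRef.mk (Pat.mk 0x10000000120000001a00000002000000060000000000000000 0x100000001a0000001a0000000a0000001f0000000b00000001 5 5) 0 0 (step_sound _ 32 [(rh79877ebd3ef475dd.shift 0 1), rh8f55412641f6b176] (by decide +kernel))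
noncomputable def rhd2ab22822575c27c : CRef := CRef.mk (Pat.mk 0x2000000020000000300000002 0x4000000070000000700000003000000030000000300000002 5 3) 0 0 (step_sound _ 128 [(rhcaf47705a2dc7a90.shift 0 1), rhffd04209dc8ea796] (by decide +kernel))
noncomputable def rhe8a1e39a5429e85b : CRef := CRef.mk (Pat.mk 0x120000001300000012000000020000000000000000 0x120000001b0000001e0000000f0000000900000008 5 5) 0 0 (step_sound _ 99 [rh22f11455a56364ec, (rh5419adcd928dba20.shift 0 3)] (by decide +kernel))
noncomputable def rh3227f9918bb30abf : CRef := CRef.mk (Pat.mk 0x20000000300000012000000000000000000000000 0x3000000030000001e0000000f0000000700000005 5 5) 0 0 (step_sound _ 99 [(rh5419adcd928dba20.shift 0 3), rh7db291d389567aa4] (by decide +kernel))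
noncomputable def rh6288ca52aacb84a7 : CRef := CRef.mk (Pat.mk 0x60000000300000018000000000000000000000000 0x400000007000000030000001e000000030000000300000001 5 5) 0 0 (step_sound _ 97 [(rh5419adcd928dba20.shift 0 3), rhf6237156212ce777] (by decide +kernel))
noncomputable def rh13161b07ff9822ca : CRef := CRef.mk (Pat.mk 0xb00000008000000080000000000000000 0x140000001c0000001f00000008000000180000001800000010 5 5) 0 0 (step_sound _ 163 [(rh6c59ce14113da07f.shift 3 0), (rh8ff3dde5b1c639e0.shift 2 0), (rhddcd04bb31546311.shift 0 2)] (by decide +kernel))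
noncomputable def rh685d99b57c08e367 : CRef := CRef.mk (Pat.mk 0x30000000a0000000800000008000000100000000000000000 0x30000001e0000000c000000080000001c0000001c00000004 5 5) 0 0 (step_sound _ 67 [rh16f7b7fbf4829b11, (rh55afc6a59410cf00.shift 3 1)] (by decide +kernel))
noncomputable def rh0ab125abced139d0 : CRef := CRef.mk (Pat.mk 0x90000000b0000000a00000008000000080000000000000000 0x100000001000000090000000b0000001e0000000c0000001c0000001800000018 5 5) 0 0 (step_sound _ 224 [(rh2145e1d24b96a57e.shift 0 4), rh9e4b4aa58109e616] (by decide +kernel))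
noncomputable def rh2aa4895b439b62aa : CRef := CRef.mk (Pat.mk 0x20000000300000018000000020000000000000000 0x100000003000000030000001a0000000f0000000700000005 5 5) 0 0 (step_sound _ 97 [rh6eff4158bb400f47, (rhbeda07e14bc28c05.shift 0 1), (rhe286c75f2739cce2.shift 0 1)] (by decide +kernel))
noncomputable def rh6de1388fc1e3922b : CRef := CRef.mk (Pat.mk 0x12000000130000001a000000000000000000000000 0x1000000130000001b0000001a0000000f0000000b00000008 5 5) 0 0 (step_sound _ 65 [rh22f11455a56364ec, (rhe286c75f2739cce2.shift 0 1)] (by decide +kernel))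
noncomputable def rh9555cd22f03b8595 : CRef := CRef.mk (Pat.mk 0x200000003000000180000000000000000 0x100000003000000030000001e0000000f00000007 5 5) 0 0 (step_sound _ 65 [(rh5419adcd928dba20.shift 0 2), rhad376fbe1f0e053b] (by decide +kernel))
noncomputable def rhd1b013162cd34f94 : CRef := CRef.mk (Pat.mk 0x2000000030000001a000000000000000000000000 0x3000000030000001a0000000f0000000700000005 5 5) 0 0 (step_sound _ 65 [rh5192e84255fe3228, rh5c651669912fbab1, rh6eff4158bb400f47, (rhd630af2e39ca770f.shift 0 1)] (by decide +kernel))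
noncomputable def rhcee1e6d04cd506ad : CRef := CRef.mk (Pat.mk 0x800000010000000080000000c00000000 0x40000000f0000007c000000080000000c00000004 5 7) 0 0 (step_sound _ 99 [(rh932754581e0f4330.shift 2 0), (rhca405e350c462817.shift 0 1)] (by decide +kernel))
noncomputable def rh36d1c55234fd2d57 : CRef := CRef.mk (Pat.mk 0xc00000018000000180000000200000000 0xf0000003f0000001b0000000200000002 5 6) 0 0 (step_sound _ 129 [(rhb739f4f82bb681b4.shift 0 3), rhdf4ed50bba69fd94] (by decide +kernel))
noncomputable def rh6a391396ab07a663 : CRef := CRef.mk (Pat.mk 0x40000000e000000180000000c00000000 0x70000003e0000001b0000000f00000002 5 6) 0 0 (step_sound _ 33 [(rh53b3c253cb0c65f4.shift 0 1), rh56e4e454e4507d2a] (by decide +kernel))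
noncomputable def rh452fa7d71c21e424 : CRef := CRef.mk (Pat.mk 0x800000008000000080000001800000008 0x40000000c0000000c000000180000007c0000001f0000001800000008 5 7) 0 0 (step_sound _ 66 [rh0f88566f1a09c677, (rhb35e66efa75d67a8.shift 2 1), rhc9613fc5bab58382] (by decide +kernel))
noncomputable def rh94ba0a757810b193 : CRef := CRef.mk (Pat.mk 0xc000000180000000e00000000 0x400000004000000060000000f0000001e0000000e00000002 5 5) 0 0 (step_sound _ 97 [(rh788442b1d0408941.shift 1 0), (rhb739f4f82bb681b4.shift 0 2)] (by decide +kernel))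
noncomputable def rh75a203849584b190 : CRef := CRef.mk (Pat.mk 0x1e0000001a000000000000000000000000 0x200000002000000070000001e0000001e000000070000000600000002 5 5) 0 0 (step_sound _ 161 [(rh3244c3cc8379b070.shift 0 4), rhdffb2354b62dc252] (by decide +kernel))
noncomputable def rh661a595deb5c2d1b : CRef := CRef.mk (Pat.mk 0x800000018000000180000001c 0x40000000c000000780000001f0000001f 5 7) 0 0 (step_sound _ 1 [rh53b3c253cb0c65f4, rhfeda66ef1656704d] (by decide +kernel))
noncomputable def rhcc6468ed8f53dcbd : CRef := CRef.mk (Pat.mk 0x80000001a0000001a0000000000000000 0x60000000f0000001a0000001f0000000700000004 5 5) 0 0 (step_sound _ 66 [rh18d4af882fdb0df8, (rh53b3c253cb0c65f4.shift 0 2)] (by decide +kernel))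
noncomputable def rh9b320d1cf11ff356 : CRef := CRef.mk (Pat.mk 0xa0000001a00000002000000000000000000000000 0x10000000f0000001b00000002000000060000000600000004 5 5) 0 0 (step_sound _ 160 [(rhc10214bf3fe8094a.shift 0 4), rhd1779d7de7f8215b] (by decide +kernel))
noncomputable def rhcb7b4e79ea1cbd08 : CRef := CRef.mk (Pat.mk 0x20000000200000002000000000000000000000000 0x500000007000000070000000200000003000000070000000700000005 5 3) 0 0 (step_sound _ 65 [(rh1741680720c097b4.shift 0 2), (rh20966da26a1c2ae8.shift 0 1), rh8cdd36b03d57a2f6] (by decide +kernel))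
noncomputable def rh17fd614b617605e1 : CRef := CRef.mk (Pat.mk 0x14000000340000000400000000 0xa0000000e0000000f0000001e000000360000000600000002 5 6) 0 0 (step_sound _ 130 [(rh20966da26a1c2ae8.shift 1 0), (rh32867e3943f3c89e.shift 0 1), (rh771d065bdc85bf2d.shift 1 0), (rhc85cc95794737cf7.shift 1 1)] (by decide +kernel))
noncomputable def rh13e22583a37a3f05 : CRef := CRef.mk (Pat.mk 0x80000001a0000001a0000000000000000 0x60000000f0000001b0000001e0000000700000004 5 5) 0 0 (step_sound _ 66 [rh18d4af882fdb0df8, (rh3244c3cc8379b070.shift 0 2)] (by decide +kernel))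
noncomputable def rh11381261f960340f : CRef := CRef.mk (Pat.mk 0xc0000000c000000180000001800000000 0xc0000000f0000001b0000001f00000006 5 5) 0 0 (step_sound _ 97 [rh8dc6f25384ef0701, (rhb739f4f82bb681b4.shift 0 2)] (by decide +kernel))
noncomputable def rh2a52c1abc4d0f2ff : CRef := CRef.mk (Pat.mk 0xe00000018000000180000001800000000 0xe0000003c0000001c0000001f00000007 5 6) 0 0 (step_sound _ 34 [rh7437f966bf9e856b, (rh932754581e0f4330.shift 2 0)] (by decide +kernel))
noncomputable def rhae2458d910ee3ae7 : CRef := CRef.mk (Pat.mk 0x30000000100000001000000018 0xe000000ff0000003c0000001800000018 5 8) 0 0 (step_sound _ 99 [rh4cc7f36aab453f71, (rh50fbb5868c909700.shift 3 0)] (by decide +kernel))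
noncomputable def rh52a14b35399e424a : CRef := CRef.mk (Pat.mk 0x200000002000000030000001000000000 0x5000000070000000700000002000000030000001e00000004 5 5) 0 0 (step_sound _ 33 [(rhc85cc95794737cf7.shift 0 1), rhf8edb192cdea7ada] (by decide +kernel))
noncomputable def rh68980286cfabf004 : CRef := CRef.mk (Pat.mk 0x200000003000000120000000000000000 0x100000003000000030000001e0000000f00000007 5 5) 0 0 (step_sound _ 67 [(rh5419adcd928dba20.shift 0 2), rh91892f85951c505e] (by decide +kernel))
noncomputable def rh59c6c9d9132801ae : CRef := CRef.mk (Pat.mk 0x800000008000000080000000800000000 0x140000003c0000000f000000080000000800000008 5 6) 0 0 (step_sound _ 132 [(rh2f68792b6b779e96.shift 3 1), rh9aab2e37f490e5ca] (by decide +kernel))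
noncomputable def rhafd44d417107dbfd : CRef := CRef.mk (Pat.mk 0x2000000020000000300000002000000000000000000000000 0x2000000030000000300000006000000070000000700000001 5 3) 0 0 (step_sound _ 66 [rh5f1f0ffeb6a8fa09, (rhd3458b32566d63f7.shift 1 2)] (by decide +kernel))
noncomputable def rh9b8ae1499e18f4f6 : CRef := CRef.mk (Pat.mk 0x8000000680000000c0000000000000000 0x140000003c000000680000000f0000007c00000010 5 7) 0 0 (step_sound _ 35 [(rh330a005829cdd297.shift 2 1), rhaa4d9de99c4ea825] (by decide +kernel))
noncomputable def rhe7a7e420e57ba421 : CRef := CRef.mk (Pat.mk 0x110000001100000011000000030000000000000000 0x100000011000000190000001f0000000f0000000800000008 5 5) 0 0 (step_sound _ 97 [rh0fbbb92589a12005, (rh2145e1d24b96a57e.shift 0 2)] (by decide +kernel))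
noncomputable def rha9774d3fe0d9106c : CRef := CRef.mk (Pat.mk 0x400000004000000440000000400000000 0x400000004000000040000007c0000000f0000000a 5 7) 0 0 (step_sound _ 35 [rh3ba31b4b8ec53b11, (rh55afc6a59410cf00.shift 2 0)] (by decide +kernel))
noncomputable def rh6f80ed56fb94ab57 : CRef := CRef.mk (Pat.mk 0x20000000600000002000000020000000100000000 0x300000003000000030000000600000006000000020000000300000003 5 3) 0 0 (step_sound _ 33 [rh932754581e0f4330, rhbaebc0cc9cf01c79] (by decide +kernel))
noncomputable def rh1048063cb396e77a : CRef := CRef.mk (Pat.mk 0x400000007000000060000000400000000 0x4000000070000003e0000003e0000000a 5 6) 0 0 (step_sound _ 33 [(rh932754581e0f4330.shift 1 0), rhda8b3d2a3e590da7] (by decide +kernel))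
noncomputable def rh7e6c0749b1cabd18 : CRef := CRef.mk (Pat.mk 0x4000000070000000400000000 0xa0000000e0000000e00000004000000070000001e0000000a 5 5) 0 0 (step_sound _ 130 [(rh03dfdf12d5937476.shift 1 0), (rh1741680720c097b4.shift 1 1), rhb379f99078aafa2d] (by decide +kernel))
noncomputable def rhf37e64d8b3bfed19 : CRef := CRef.mk (Pat.mk 0x20000001a000000030000000300000000 0x120000001a0000001b0000001f0000001c 5 5) 0 0 (step_sound _ 34 [rh4322abf74e56b92e, (rh55afc6a59410cf00.shift 1 0)] (by decide +kernel))
noncomputable def rhbc04116938f327fd : CRef := CRef.mk (Pat.mk 0x20000000300000002000000000000000000000000 0x100000003000000030000000300000006000000070000000700000005 5 3) 0 0 (step_sound _ 65 [rh5192e84255fe3228, (rh7eb4a07d72ad7934.shift 0 1), rh8cdd36b03d57a2f6, (rhe286c75f2739cce2.shift 0 1)] (by decide +kernel))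
noncomputable def rh4c2d83a2c439dd4b : CRef := CRef.mk (Pat.mk 0x1a0000000300000002000000000000000000000000 0x50000000f0000001b0000000300000002000000070000000700000005 5 5) 0 0 (step_sound _ 65 [rh5192e84255fe3228, (rh769c8bac0b178383.shift 0 2), rh8cdd36b03d57a2f6, (rhe286c75f2739cce2.shift 0 1)] (by decide +kernel))
noncomputable def rha4e372968e1ad1d0 : CRef := CRef.mk (Pat.mk 0x18000000d800000008 0x4000000070000007f000000df00000008 5 8) 0 0 (step_sound _ 69 [rh20595ccdccbf31d9, (rhd6e447e81774439e.shift 3 1)] (by decide +kernel))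
noncomputable def rhdf91c04362b89133 : CRef := CRef.mk (Pat.mk 0x1c0000001c0000000000000000 0x200000002000000070000001f0000001c0000000400000004 5 5) 0 0 (step_sound _ 97 [(rhb739f4f82bb681b4.shift 0 2), rhe1ef59f9ff87186c] (by decide +kernel))
noncomputable def rha439a8634b776aa8 : CRef := CRef.mk (Pat.mk 0x60000000000000003000000010000000000000000 0x6000000060000000600000003000000070000000600000004 5 3) 0 0 (step_sound _ 129 [(rh3820f35d5e705bec.shift 1 0), (rh5c5e593799055d58.shift 0 2)] (by decide +kernel))
noncomputable def rh5fcef0471e9e6014 : CRef := CRef.mk (Pat.mk 0x1000000003000000120000000200000000 0x40000001e000000030000001e0000000f00000005 5 5) 0 0 (step_sound _ 67 [(rh5419adcd928dba20.shift 0 2), rh8edb78d1f8c506a0] (by decide +kernel))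
noncomputable def rh96c52f0dd04c065d : CRef := CRef.mk (Pat.mk 0x300000018000000030000000600000000 0x8000000080000001f00000018000000130000001e00000010 5 5) 0 0 (step_sound _ 36 [(rh2fe78cc5ca4405d8.shift 0 1), rhdb27e06ccf41b6c5] (by decide +kernel))
noncomputable def rhcb1f65bfb8ab90b7 : CRef := CRef.mk (Pat.mk 0x10000000200000002000000030000000200000000 0x400000007000000070000000200000003000000030000000600000004 5 3) 0 0 (step_sound _ 161 [(rh50fbb5868c909700.shift 0 2), rha75bcec463365ea9] (by decide +kernel))
noncomputable def rh47a878e73c9b99fb : CRef := CRef.mk (Pat.mk 0x600000018000000030000000600000000 0x8000000080000001f00000018000000130000001e00000010 5 5) 0 0 (step_sound _ 131 [(rhb739f4f82bb681b4.shift 0 3), rhf0fece33e6b49d9e] (by decide +kernel))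
noncomputable def rha4cb5ea0f16d4208 : CRef := CRef.mk (Pat.mk 0x180000000000000010000000060000000300000000 0x80000001800000018000000100000003e0000003300000020 5 6) 0 0 (step_sound _ 68 [(rh361cc68994bd8a63.shift 0 1), (rhcbbabd6e55c46fe9.shift 3 0)] (by decide +kernel))
noncomputable def rhaaf0e2206c1bbaa5 : CRef := CRef.mk (Pat.mk 0x10000000130000001a000000020000000000000000 0x40000001e0000001b0000001a0000000f0000000900000008 5 5) 0 0 (step_sound _ 67 [(rh3808b57c450de6fc.shift 0 1), (rhf9af042da61fc652.shift 3 0)] (by decide +kernel))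
noncomputable def rh48410b67ea4b661e : CRef := CRef.mk (Pat.mk 0x10000000130000001a000000020000000000000000 0x40000001e0000001b0000001a0000000f0000000c00000008 5 5) 0 0 (step_sound _ 67 [(rhf9af042da61fc652.shift 3 0), (rhfa6702f91f12be96.shift 0 1)] (by decide +kernel))
noncomputable def rhbf1e57e3ece72e30 : CRef := CRef.mk (Pat.mk 0x200000002400000034000000040000000400000000 0x200000003400000034000000170000003e0000001a 5 6) 0 0 (step_sound _ 33 [rh63582001efb17316, (rh932754581e0f4330.shift 1 0)] (by decide +kernel))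
noncomputable def rhb8a270321a453828 : CRef := CRef.mk (Pat.mk 0x10000000030000000200000002000000000000000000000000 0x40000001e000000030000000300000003000000070000000700000004 5 5) 0 0 (step_sound _ 65 [(rh1dcec6fb95be00b0.shift 0 1), rha613ffd40b6c9d24] (by decide +kernel))
noncomputable def rhdc66d69a1ab5e852 : CRef := CRef.mk (Pat.mk 0x10000000030000000200000002000000000000000000000000 0x40000001e000000030000000300000006000000070000000700000005 5 5) 0 0 (step_sound _ 65 [(rh09234555bd5e60c4.shift 0 1), rha613ffd40b6c9d24, rhe4441baab75a6f73] (by decide +kernel))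
noncomputable def rh9879c1889b763495 : CRef := CRef.mk (Pat.mk 0x200000002600000036000000020000000000000000 0x3000000030000002300000036000000360000001e0000001400000010 5 6) 0 0 (step_sound _ 161 [(rh2cbe60a7542baf95.shift 1 0), (rh55a1f6c57a317ce6.shift 1 1), (rh7b9fbdf6d2d059e4.shift 0 2)] (by decide +kernel))
noncomputable def rh59c7e6038592522c : CRef := CRef.mk (Pat.mk 0x600000032000000060000000200000000 0x190000001f00000036000000060000000600000004 5 6) 0 0 (step_sound _ 34 [(rh55afc6a59410cf00.shift 1 0), (rhdce41fa93ed92335.shift 0 1)] (by decide +kernel))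
noncomputable def rh7dfca775922f353b : CRef := CRef.mk (Pat.mk 0x1800000018000000080000000800000000 0x18000000180000007c000000ff00000034 5 8) 0 0 (step_sound _ 68 [(rh61abea9b92003218.shift 2 0), (rh7f2a49c2502589b3.shift 1 0), rhb0de455c382c5b1c] (by decide +kernel))
noncomputable def rha72203318594aacf : CRef := CRef.mk (Pat.mk 0x40000000700000006000000000000000000000000 0x4000000070000001f0000003e0000000e00000006 5 6) 0 0 (step_sound _ 66 [(rh53e41f96b2b88c97.shift 1 0), (rh58b51dcfc97ca552.shift 0 1)] (by decide +kernel))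
noncomputable def rh23e2369413be63c2 : CRef := CRef.mk (Pat.mk 0x400000007000000040000000600000000 0x400000004000000070000001f0000003e00000008 5 6) 0 0 (step_sound _ 65 [rh58b51dcfc97ca552, (rh5c5e593799055d58.shift 1 1)] (by decide +kernel))
noncomputable def rhbb209563535988dc : CRef := CRef.mk (Pat.mk 0x1800000038000000000000000000000000 0x80000001f0000003f000000070000000400000004 5 6) 0 0 (step_sound _ 98 [(rh88129595a1b18399.shift 1 0), (rhbe5fc5902345a0b9.shift 0 3), (rhcc2be1f880c5ea3e.shift 0 2)] (by decide +kernel))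
noncomputable def rhc39aa86b0941cb24 : CRef := CRef.mk (Pat.mk 0x3400000004 0x770000003e00000006 5 7) 0 0 (step_sound _ 35 [(rh4c622fddc53a5f99.shift 0 1), (rheb0810cc63b001d8.shift 1 0)] (by decide +kernel))
noncomputable def rh79fb81afd37333ad : CRef := CRef.mk (Pat.mk 0x80000001a0000001e000000000000000000000000 0x60000001f0000001a0000001e0000000c0000000c0000000c 5 5) 0 0 (step_sound _ 67 [(rh46530d756bdf8511.shift 2 0), (rh91a545eb3be094e3.shift 2 0), (rhd664060a7978cce7.shift 0 1), (rhea7a1800d6f053bd.shift 3 0)] (by decide +kernel))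
noncomputable def rh93fa1e348e3c1468 : CRef := CRef.mk (Pat.mk 0x100000000300000003000000020000000000000000 0x40000001e0000000300000003000000030000000300000003 5 5) 0 0 (step_sound _ 33 [rh1dcec6fb95be00b0, rh7b1f1fb55310c477] (by decide +kernel))
noncomputable def rhac4b4763407a46df : CRef := CRef.mk (Pat.mk 0x800000008000000080000000400000000 0x80000000800000008000000380000001f00000014 5 6) 0 0 (step_sound _ 35 [rh54968f8c0e71a67e, (rh932754581e0f4330.shift 2 0)] (by decide +kernel))
noncomputable def rh61ed4812ddb14cee : CRef := CRef.mk (Pat.mk 0xe000000020000000200000000 0x100000003000000030000001e000000030000000300000001 5 5) 0 0 (step_sound _ 129 [(rh2e8814637c3f6d46.shift 0 1), rh771d065bdc85bf2d, rh91eb5f83fd73c291, (rhd9106766b9ff53c0.shift 0 2)] (by decide +kernel))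
noncomputable def rhd1fd8cf6458d03f9 : CRef := CRef.mk (Pat.mk 0xc00000007000000040000000000000000 0xc0000000c000000070000003e0000000c00000008 5 6) 0 0 (step_sound _ 34 [(rh2f68792b6b779e96.shift 2 1), rh6f235c76ee6d9186] (by decide +kernel))
noncomputable def rheb140202705fca6a : CRef := CRef.mk (Pat.mk 0x880000001a0000001800000018 0x24000000ff0000001b0000001800000018 5 8) 0 0 (step_sound _ 98 [rh4e1352852197e108, (rh50fbb5868c909700.shift 2 0)] (by decide +kernel))
noncomputable def rh504e55626661b5b1 : CRef := CRef.mk (Pat.mk 0x100000000300000003000000020000000000000000 0x40000001e0000000300000003000000060000000600000006 5 5) 0 0 (step_sound _ 33 [rh09234555bd5e60c4, rh7b1f1fb55310c477] (by decide +kernel))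
noncomputable def rhe3a23512fa7472e8 : CRef := CRef.mk (Pat.mk 0x10000000130000001a000000020000000000000000 0x40000001e0000001b0000001a0000000f0000000900000008 5 5) 0 0 (step_sound _ 161 [(rh04e571695666b5c1.shift 0 2), rh22f11455a56364ec] (by decide +kernel))
noncomputable def rhfdab1fbace7f67ad : CRef := CRef.mk (Pat.mk 0x1000000020000000200000002000000020000000000000000 0x100000003000000020000000200000002000000070000000700000005 5 3) 0 0 (step_sound _ 224 [rh8cdd36b03d57a2f6, (rhcfdf45280693d3da.shift 0 3)] (by decide +kernel))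
noncomputable def rh97d1b0758f72a81e : CRef := CRef.mk (Pat.mk 0x1000000020000000600000002000000020000000000000000 0x300000003000000020000000600000006000000030000000300000003 5 3) 0 0 (step_sound _ 193 [(rh50fbb5868c909700.shift 0 3), rhba0980461ef7e7ca] (by decide +kernel))
noncomputable def rh5ee9775f641b57d0 : CRef := CRef.mk (Pat.mk 0x1a0000008a00000000 0x1b000000ff00000070 5 8) 0 0 (step_sound _ 34 [(rh53b3c253cb0c65f4.shift 0 1), rhfbd90be67f70f880] (by decide +kernel))
noncomputable def rhafbf85665ef748c4 : CRef := CRef.mk (Pat.mk 0x1a0000000a000000000000000000000000 0x80000001b0000001f000000300000001000000010 5 6) 0 0 (step_sound _ 98 [(rh53b3c253cb0c65f4.shift 0 3), rh6811d9ed11d2c57c] (by decide +kernel))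
noncomputable def rhcff43d2ab56ffd42 : CRef := CRef.mk (Pat.mk 0x400000000c000000090000000800000000 0x10000000780000000c0000000f0000001e00000014 5 7) 0 0 (step_sound _ 131 [(rh04e571695666b5c1.shift 2 1), rhfcde4125e83054cb] (by decide +kernel))
noncomputable def rh827ca88e9d7776ba : CRef := CRef.mk (Pat.mk 0x100000000300000002000000020000000000000000 0x40000001f0000000300000002000000060000000600000004 5 5) 0 0 (step_sound _ 33 [rh09234555bd5e60c4, (rh50fbb5868c909700.shift 0 1)] (by decide +kernel))
noncomputable def rh4d075da104d1d80d : CRef := CRef.mk (Pat.mk 0xc0000004e000000000000000000000000 0x4000000040000000c0000007e000000070000000200000002 5 7) 0 0 (step_sound _ 100 [(rh2fe78cc5ca4405d8.shift 2 3), rhcfde16a7ff36af03] (by decide +kernel))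
noncomputable def rh488c9ffebf1f8cbb : CRef := CRef.mk (Pat.mk 0x20000008a0000000c0000000000000000 0x2000000ef0000007e0000000700000004 5 8) 0 0 (step_sound _ 68 [(rh06f87a331c7e5d9a.shift 1 2), (rh508d31626b5d2be8.shift 0 2), (rh54c49bb299227e8d.shift 0 2), rh91c13f66a23a53b7] (by decide +kernel))
noncomputable def rh4bc4e4c9d04f4699 : CRef := CRef.mk (Pat.mk 0xa0000008a0000000c0000000000000000 0x80000000a000000eb0000007e0000003700000004 5 8) 0 0 (step_sound _ 68 [rh91c13f66a23a53b7, (rh969492b52b32ccec.shift 1 1), (rhd9019e070e902b32.shift 0 1), (rhde10baa3043a2b46.shift 2 1)] (by decide +kernel))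
noncomputable def rhfa24987f9e3722ea : CRef := CRef.mk (Pat.mk 0x8000000080000000a0000000800000000 0x8000000080000003b0000001f00000014 5 6) 0 0 (step_sound _ 36 [rh165dbd507babda64, (rh55afc6a59410cf00.shift 3 0)] (by decide +kernel))
noncomputable def rhd339b309600f487e : CRef := CRef.mk (Pat.mk 0xa0000008a000000180000000000000000 0x80000000a000000eb0000007e0000003700000004 5 8) 0 0 (step_sound _ 66 [rh91c13f66a23a53b7, (rh969492b52b32ccec.shift 1 1), (rhd9019e070e902b32.shift 0 1), (rhde10baa3043a2b46.shift 2 1)] (by decide +kernel))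
noncomputable def rh4b21977160783fa2 : CRef := CRef.mk (Pat.mk 0x80000000880000008a000000180000000000000000 0x800000088000000c8000000fb0000007f0000004400000040 5 8) 0 0 (step_sound _ 100 [(rh0fbbb92589a12005.shift 3 0), (rh918bcafda8d5258e.shift 0 1)] (by decide +kernel))
noncomputable def rh2a090be7cc26eac9 : CRef := CRef.mk (Pat.mk 0x10000000130000001b000000030000000000000000 0x100000001b0000001b0000000b0000001e0000000e 5 5) 0 0 (step_sound _ 33 [rh7b1f1fb55310c477, rhd830212f3f5feb56] (by decide +kernel))
noncomputable def rhc0e9703577a7275f : CRef := CRef.mk (Pat.mk 0x100000001300000010000000030000000000000000 0x100000001000000130000001b0000001e0000000f0000000a00000008 5 5) 0 0 (step_sound _ 99 [(rh58b3ccc609c7f9fc.shift 0 1), rhc4713ca36c943a51] (by decide +kernel))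
noncomputable def rh72123796bae919d9 : CRef := CRef.mk (Pat.mk 0xc0000000c000000090000000000000000 0xc0000000c0000000f0000001e0000001c 5 5) 0 0 (step_sound _ 35 [(rh7b1f1fb55310c477.shift 2 0), rhfcde4125e83054cb] (by decide +kernel))
noncomputable def rh9cf1eae2eabf38ec : CRef := CRef.mk (Pat.mk 0x80000001e000000000000000000000000 0x800000008000000080000003e0000000f0000000400000004 5 6) 0 0 (step_sound _ 65 [(rh4636d8947554fe71.shift 1 0), (rheb0810cc63b001d8.shift 0 2)] (by decide +kernel))
noncomputable def rhde8b278b709ee203 : CRef := CRef.mk (Pat.mk 0x400000000c000000190000000800000000 0x10000000780000000c0000001b0000001f00000014 5 7) 0 0 (step_sound _ 131 [(rh04e571695666b5c1.shift 2 1), rhd409ad6245f481f2] (by decide +kernel))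
noncomputable def rhc68b2c2a42ef0b11 : CRef := CRef.mk (Pat.mk 0x8000000080000001c0000001c00000000 0x40000000c0000000c0000001c0000007f00000003 5 7) 0 0 (step_sound _ 37 [rh00b85d5220e7ab18, (rhf48373e13d2bc128.shift 2 1)] (by decide +kernel))
noncomputable def rh140530bf49e2635c : CRef := CRef.mk (Pat.mk 0x8000000080000000c000000000000000000000000 0x40000000c0000000c0000000f0000003c0000001c00000014 5 6) 0 0 (step_sound _ 67 [(rh0b0198cd56a23f60.shift 0 1), (rh6eff4158bb400f47.shift 2 0), (rh8ff3dde5b1c639e0.shift 2 0), (rhc4526fc8abf298b6.shift 2 0)] (by decide +kernel))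
noncomputable def rhbada8856367645ac : CRef := CRef.mk (Pat.mk 0xa0000000e000000120000000800000000 0x4000000040000000e0000000e0000001a0000000f00000007 5 5) 0 0 (step_sound _ 130 [(rh14496ca70edf5ece.shift 1 1), rh3dd04c196f70eb60, (rh84d1c02a8954c6a8.shift 1 1)] (by decide +kernel))
noncomputable def rh08419cdab7183a22 : CRef := CRef.mk (Pat.mk 0x2000000020000000200000002 0x5000000070000000700000003000000030000000300000003 5 3) 0 0 (step_sound _ 129 [(rh1741680720c097b4.shift 0 1), rh20966da26a1c2ae8, rh3ca48e2a6d60153d, rh771d065bdc85bf2d] (by decide +kernel))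
noncomputable def rhcf95ed618a683c78 : CRef := CRef.mk (Pat.mk 0x2000000020000001a0000000200000000 0x4000000060000003f0000001b0000000200000002 5 6) 0 0 (step_sound _ 130 [(rh2f68792b6b779e96.shift 1 1), rhaa65d48a25a1e631] (by decide +kernel))
noncomputable def rhcbfd66965b1220a8 : CRef := CRef.mk (Pat.mk 0x2000000020000000200000002000000000000000000000000 0x3000000030000000300000006000000070000000700000005 5 3) 0 0 (step_sound _ 65 [rh46baee19951a66e7, rh8cdd36b03d57a2f6, rhc4526fc8abf298b6, (rhd29a1fb688eae70f.shift 1 1)] (by decide +kernel))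
noncomputable def rh9962625567047d0d : CRef := CRef.mk (Pat.mk 0x600000004000000340000002400000000 0x180000001f0000003e000000340000002600000002 5 6) 0 0 (step_sound _ 131 [(rh2f68792b6b779e96.shift 2 1), rhe53cd30921f5d00d] (by decide +kernel))
noncomputable def rh552e145dd80c3aa0 : CRef := CRef.mk (Pat.mk 0x14000000340000000400000000 0xa0000000e0000000f0000001e000000360000000600000002 5 6) 0 0 (step_sound _ 130 [(rh1741680720c097b4.shift 1 1), (rh20966da26a1c2ae8.shift 1 0), (rh771d065bdc85bf2d.shift 1 0), (rh89fa8203101ec029.shift 0 1)] (by decide +kernel))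
noncomputable def rh212e60089d21115e : CRef := CRef.mk (Pat.mk 0x3400000004 0x70000003e00000076 5 7) 0 0 (step_sound _ 35 [rh0d378fd9e8917c5a, (rheb0810cc63b001d8.shift 1 0)] (by decide +kernel))
noncomputable def rh12ed8423659e7f19 : CRef := CRef.mk (Pat.mk 0x20000000600000002000000000000000000000000 0x400000006000000060000000600000006000000070000000700000005 5 3) 0 0 (step_sound _ 65 [rh8cdd36b03d57a2f6, rh91a545eb3be094e3, (rhced6d86d2069808b.shift 1 1)] (by decide +kernel))
noncomputable def rh769c11a9f69cf74d : CRef := CRef.mk (Pat.mk 0x1c000000080000000000000004 0x30000003f0000003f0000000400000004 5 6) 0 0 (step_sound _ 97 [rh63665d28061a121c, (rha03f6e28ea70fc7d.shift 0 2)] (by decide +kernel))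
noncomputable def rh2a51b324027df434 : CRef := CRef.mk (Pat.mk 0x80000001e000000000000000000000000 0x8000000080000000c0000003e000000070000000400000004 5 6) 0 0 (step_sound _ 65 [(rheb0810cc63b001d8.shift 0 2), (rheba11baa92df53a7.shift 1 0)] (by decide +kernel))
noncomputable def rh655e5788d5e5cde7 : CRef := CRef.mk (Pat.mk 0x60000000300000002000000000000000000000000 0x100000003000000070000000700000006000000070000000700000001 5 3) 0 0 (step_sound _ 65 [rh5192e84255fe3228, (rh5abfc4c9d959be03.shift 0 1), rha8bc3cae4d77a08f, (rhe286c75f2739cce2.shift 0 1)] (by decide +kernel))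
noncomputable def rh67e68e733fb290f2 : CRef := CRef.mk (Pat.mk 0x600000002000000020000000000000000 0x1000000070000000700000002000000060000000600000004 5 3) 0 0 (step_sound _ 33 [(rh2f68792b6b779e96.shift 1 1), rh5abfc4c9d959be03] (by decide +kernel))
noncomputable def rh228c9e7411cf1f55 : CRef := CRef.mk (Pat.mk 0xe00000006000000030000000200000000 0x80000000e00000006000000070000001f0000000d 5 5) 0 0 (step_sound _ 32 [rh4464c1ac60871149, rh932754581e0f4330] (by decide +kernel))
noncomputable def rhe50ee3e12503f9e2 : CRef := CRef.mk (Pat.mk 0x30000000600000001000000010 0x1f0000007c000000700000001000000010 5 7) 0 0 (step_sound _ 99 [(rhb739f4f82bb681b4.shift 2 2), rhf32297923889a514] (by decide +kernel))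
noncomputable def rh2a7d854bcc08cc32 : CRef := CRef.mk (Pat.mk 0x8000000180000000e000000060000000000000000 0x60000001f0000001c0000003e0000000e0000000a00000008 5 6) 0 0 (step_sound _ 100 [(rh18965a982d73c794.shift 1 2), rhf52138b2abba0490] (by decide +kernel))
noncomputable def rh287fe7f02e8efeb2 : CRef := CRef.mk (Pat.mk 0xc0000001c000000100000000200000000 0x80000000c0000001c000000180000001f0000001c 5 5) 0 0 (step_sound _ 36 [rh126fa767d377009f, (rh7b1f1fb55310c477.shift 3 0)] (by decide +kernel))
noncomputable def rhed20bdce0d4270f8 : CRef := CRef.mk (Pat.mk 0x180000008a0000000000000000 0x80000000800000018000000ff0000003700000010 5 8) 0 0 (step_sound _ 66 [rh303c77f7a1c96578, (rh53b3c253cb0c65f4.shift 0 2)] (by decide +kernel))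
noncomputable def rhade1ea1e06278213 : CRef := CRef.mk (Pat.mk 0x180000000e000000040000000c00000000 0x10000000180000000e0000003f0000003c00000010 5 6) 0 0 (step_sound _ 67 [(rh2f68792b6b779e96.shift 3 1), rh3e50ec7680ad637d] (by decide +kernel))
noncomputable def rh0ac8273b3ea62a46 : CRef := CRef.mk (Pat.mk 0x80000000c00000004000000080000000000000000 0x40000000c0000000c0000001f000000780000001800000008 5 7) 0 0 (step_sound _ 99 [(rh3cb04db3dd2b6a55.shift 2 0), (rh42e615827c8908b1.shift 0 1), (rhe286c75f2739cce2.shift 2 1)] (by decide +kernel))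
noncomputable def rhdbe623a85527638a : CRef := CRef.mk (Pat.mk 0xc0000000c000000080000000c00000000 0xc0000000c0000003f0000003f00000012 5 6) 0 0 (step_sound _ 36 [rh30692571948a20b7, (rh55afc6a59410cf00.shift 3 0)] (by decide +kernel))
noncomputable def rh17b57fb9811034e1 : CRef := CRef.mk (Pat.mk 0x2000000006000000260000000400000000 0x80000003c00000006000000370000001e0000000a 5 6) 0 0 (step_sound _ 130 [(rh04e571695666b5c1.shift 1 1), rhb327c1a16f903a99] (by decide +kernel))
noncomputable def rhf0f8f775961e9a33 : CRef := CRef.mk (Pat.mk 0x20000001c00000000 0x30000003e00000077 5 7) 0 0 (step_sound _ 33 [rh0edd3afef6b5d7e0, (rh3244c3cc8379b070.shift 0 1)] (by decide +kernel))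
noncomputable def rh8c14fac0d659668c : CRef := CRef.mk (Pat.mk 0x2200000006000000070000000600000000 0x80000003e00000006000000070000001f00000009 5 6) 0 0 (step_sound _ 32 [rh206c712a6cf53f05, rh932754581e0f4330] (by decide +kernel))
noncomputable def rhe56a240322c9305b : CRef := CRef.mk (Pat.mk 0x8a0000001a 0x7000000ff0000001b 5 8) 0 0 (step_sound _ 34 [rh19e0274e08a1e06d, rhb739f4f82bb681b4] (by decide +kernel))
noncomputable def rhfa443fa422c23000 : CRef := CRef.mk (Pat.mk 0x180000001a00000012000000300000000000000000 0x20000001f0000001b0000001e000000360000000400000004 5 6) 0 0 (step_sound _ 98 [rh621d707b746c8d85, (rhc10214bf3fe8094a.shift 1 2)] (by decide +kernel))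
noncomputable def rh35967058101b1e1c : CRef := CRef.mk (Pat.mk 0x1a0000000200000002000000000000000000000000 0x50000000f0000001b0000000200000003000000070000000700000005 5 5) 0 0 (step_sound _ 65 [(rh769c8bac0b178383.shift 0 2), (rh771d065bdc85bf2d.shift 0 1), rh8cdd36b03d57a2f6] (by decide +kernel))
noncomputable def rhfe4a8670fdff8a5f : CRef := CRef.mk (Pat.mk 0x100000002000000020000000200000002000000020000000000000000 0x10000000300000002000000020000000200000002000000070000000700000005 5 3) 0 0 (step_sound _ 225 [(rh50fbb5868c909700.shift 0 4), rh6eff4158bb400f47] (by decide +kernel))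
noncomputable def rh6fc706adb2aaec4b : CRef := CRef.mk (Pat.mk 0x1a0000001200000002000000000000000000000000 0x120000001a0000001e0000000f0000000b0000000900000001 5 5) 0 0 (step_sound _ 96 [rh281c6819542c66e6, (rhf29347b59bdd5363.shift 0 1)] (by decide +kernel))
noncomputable def rh7f7aac5d675db3db : CRef := CRef.mk (Pat.mk 0x80000001a0000001e000000100000000000000000 0x60000001f0000001a0000001e0000001c0000000c00000008 5 5) 0 0 (step_sound _ 67 [(rh1e309b005ffa1b36.shift 3 0), (rhd664060a7978cce7.shift 0 1)] (by decide +kernel))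
noncomputable def rh34dc86014f46ad4d : CRef := CRef.mk (Pat.mk 0x8000000180000001e000000020000000000000000 0x30000001f0000001b0000001e0000000e0000000c0000000c 5 5) 0 0 (step_sound _ 129 [(rh3244c3cc8379b070.shift 0 3), rhd4b284b9b74ef49c] (by decide +kernel))
noncomputable def rh7c7cfc2336397a60 : CRef := CRef.mk (Pat.mk 0x80000001a0000000e000000040000000000000000 0x20000001f0000001b0000001e000000040000000400000004 5 5) 0 0 (step_sound _ 34 [(rh4009421664267a20.shift 0 2), (rh7b1f1fb55310c477.shift 1 0)] (by decide +kernel))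
noncomputable def rh50d67ce69c8914bc : CRef := CRef.mk (Pat.mk 0x30000000140000000e000000180000000000000000 0x2400000034000000140000001e0000001f0000000200000002 5 6) 0 0 (step_sound _ 162 [(rh2145e1d24b96a57e.shift 2 2), rhb1de7428f14a0f67] (by decide +kernel))
noncomputable def rh333ce09d487c5288 : CRef := CRef.mk (Pat.mk 0x80000001a0000001e000000040000000000000000 0x60000001f0000001a0000001e0000000c0000000800000008 5 5) 0 0 (step_sound _ 161 [(rh2145e1d24b96a57e.shift 1 2), rhed43c569f6d4e300] (by decide +kernel))
noncomputable def rhb5644b0700ae2baa : CRef := CRef.mk (Pat.mk 0x8000000180000001e00000004 0x30000000f0000001b0000001e00000007 5 5) 0 0 (step_sound _ 1 [rhc203f2247d99db91, rheb0810cc63b001d8] (by decide +kernel))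
noncomputable def rh3d5fda01adc2effe : CRef := CRef.mk (Pat.mk 0x1a0000000e000000020000000000000000 0xe0000000f0000001a0000000e0000000e0000000400000004 5 5) 0 0 (step_sound _ 66 [(rh55a1f6c57a317ce6.shift 1 0), (rh72ec092b6790b150.shift 0 2), (rhadf429772c25fde0.shift 2 0)] (by decide +kernel))
noncomputable def rh61580cdf1880c62d : CRef := CRef.mk (Pat.mk 0x180000001e00000006 0xb0000000f0000001b0000001e00000006 5 5) 0 0 (step_sound _ 99 [(rh5c5e593799055d58.shift 2 0), rhc203f2247d99db91] (by decide +kernel))
noncomputable def rhec34db23bd854706 : CRef := CRef.mk (Pat.mk 0x6000000030000000200000000000000000000000000000000 0x20000000600000006000000030000000300000003000000030000000300000001 5 3) 0 0 (step_sound _ 97 [(rh2f68792b6b779e96.shift 1 3), rh81b7e492bbe9bc86] (by decide +kernel))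
noncomputable def rh76259dc848ce737c : CRef := CRef.mk (Pat.mk 0x800000001c00000000 0xe00000007e00000077 5 8) 0 0 (step_sound _ 37 [rh41140eaa67c26838, (rh45e9dfbd6bd5d256.shift 2 1)] (by decide +kernel))
noncomputable def rh211b9f24729a4651 : CRef := CRef.mk (Pat.mk 0x1000000030000000140000003c00000000 0x80000001e00000034000000140000003e00000007 5 6) 0 0 (step_sound _ 1 [(rh80fcd6d0a18cb2dd.shift 1 0), rhc5069345000a16e5] (by decide +kernel))
noncomputable def rhb2fcc7beba62e5a5 : CRef := CRef.mk (Pat.mk 0x800000008000000180000001e00000000 0x40000000c0000000f0000001b0000001e0000000a 5 5) 0 0 (step_sound _ 130 [rh320e719a832634ce, (rh50fbb5868c909700.shift 2 1)] (by decide +kernel))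
noncomputable def rh4131384d1d229643 : CRef := CRef.mk (Pat.mk 0xc00000008000000000000001e00000002 0x10000000f0000001f000000030000001e00000002 5 5) 0 0 (step_sound _ 65 [(rh3244c3cc8379b070.shift 0 1), rh32bea5880f07e60b] (by decide +kernel))
noncomputable def rhd927a438369e6c24 : CRef := CRef.mk (Pat.mk 0xc000000680000000800000000 0x100000007c0000000f000000680000003c00000014 5 7) 0 0 (step_sound _ 131 [(rh36e6bb6cca6188da.shift 2 0), (rhdf8b9aa233deec1e.shift 0 1)] (by decide +kernel))
noncomputable def rh37ebee5daa3a4ed9 : CRef := CRef.mk (Pat.mk 0x300000011000000110000001100000000 0x8000000080000000f0000001f000000190000001100000001 5 5) 0 0 (step_sound _ 97 [(rh6a6060c6b6bde3df.shift 0 1), rh71222050f2c63a3a] (by decide +kernel))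
noncomputable def rh5e316f32a5df4ca6 : CRef := CRef.mk (Pat.mk 0x400000044000000040000000400000000 0xa0000000f0000007c000000040000000400000004 5 7) 0 0 (step_sound _ 131 [rh0e265529ce57de43, (rh2f68792b6b779e96.shift 2 1)] (by decide +kernel))
noncomputable def rh857671a640d94bec : CRef := CRef.mk (Pat.mk 0x1000000020000000200000006000000020000000000000000 0x300000003000000020000000600000006000000030000000300000003 5 3) 0 0 (step_sound _ 193 [(rh50fbb5868c909700.shift 0 3), rha57e27ffd18e5c84] (by decide +kernel))
noncomputable def rhdaf42ef4e57613f8 : CRef := CRef.mk (Pat.mk 0x2000000060000000200000001000000000000000000000000 0x6000000060000000600000003000000070000000600000004 5 3) 0 0 (step_sound _ 97 [(rh3820f35d5e705bec.shift 1 0), (rh932754581e0f4330.shift 0 2)] (by decide +kernel))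
noncomputable def rha83e7d29d1c20489 : CRef := CRef.mk (Pat.mk 0x4000000060000000700000004 0xa0000003e0000003e0000000700000004 5 6) 0 0 (step_sound _ 97 [(rh50fbb5868c909700.shift 1 0), rhfec2a119712df0ef] (by decide +kernel))
noncomputable def rh6651941e2d90b947 : CRef := CRef.mk (Pat.mk 0x40000000700000004000000000000000000000000 0xa0000001e00000007000000040000000e0000000e0000000a 5 5) 0 0 (step_sound _ 66 [(rh4017de503635a93b.shift 0 2), (rh6eff4158bb400f47.shift 1 0), (rhe286c75f2739cce2.shift 1 1)] (by decide +kernel))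
noncomputable def rhffecb74827085417 : CRef := CRef.mk (Pat.mk 0x3000000030000001a00000002 0x1c0000001f0000001b0000001a00000012 5 5) 0 0 (step_sound _ 98 [rh006cf4540163ec52, (rh2f68792b6b779e96.shift 1 0)] (by decide +kernel))
noncomputable def rh299d03f09423980f : CRef := CRef.mk (Pat.mk 0x200000003000000020000000000000000 0x500000007000000070000000600000003000000030000000300000001 5 3) 0 0 (step_sound _ 161 [(rh03dfdf12d5937476.shift 0 1), rh367118e0bf0473e0, (rha77f215723363df0.shift 0 2), (rhc85cc95794737cf7.shift 0 2)] (by decide +kernel))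
noncomputable def rh39b48772e81d8426 : CRef := CRef.mk (Pat.mk 0x2000000030000001a0000000000000000 0x5000000070000000700000002000000030000001b0000000f00000005 5 5) 0 0 (step_sound _ 161 [(rh03dfdf12d5937476.shift 0 1), (rha77f215723363df0.shift 0 2), rhbd7d57cbe6532a20, (rhc85cc95794737cf7.shift 0 2)] (by decide +kernel))
noncomputable def rh77baf8721b75ba21 : CRef := CRef.mk (Pat.mk 0x8000000d8000000180000000000000000 0x8000000df0000007f0000000700000004 5 8) 0 0 (step_sound _ 69 [(rh3fc040e777f1679e.shift 3 2), rh66308995486c6adc] (by decide +kernel))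
noncomputable def rhe8d2c0cbd900e2b3 : CRef := CRef.mk (Pat.mk 0x100000003000000000000000600000000 0x4000000060000000700000003000000060000000600000006 5 3) 0 0 (step_sound _ 65 [rh7b1f1fb55310c477, (rh8599f462953abc6e.shift 1 0)] (by decide +kernel))
noncomputable def rhc90a4a3d68552525 : CRef := CRef.mk (Pat.mk 0x200000012000000030000001000000000 0x50000000f0000001e000000030000001e00000004 5 5) 0 0 (step_sound _ 99 [rh9f841c13ae1bbde2, (rhb2a0b9ccfb5cecd5.shift 0 2)] (by decide +kernel))
noncomputable def rh2d2b676a16ddb204 : CRef := CRef.mk (Pat.mk 0x60000000300000018000000030000000000000000 0x100000001e00000013000000180000001f0000000800000008 5 5) 0 0 (step_sound _ 164 [(rh361cc68994bd8a63.shift 0 4), rhbfdf6b4e4f80c7c5] (by decide +kernel))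
noncomputable def rh388f6e448205f304 : CRef := CRef.mk (Pat.mk 0x2000000030000000200000002000000010000000000000000 0x400000006000000030000000300000002000000070000000700000004 5 3) 0 0 (step_sound _ 65 [rh74e1e0c876e18749, (rh932754581e0f4330.shift 0 1)] (by decide +kernel))
noncomputable def rhfc3182ea1e8950f2 : CRef := CRef.mk (Pat.mk 0x60000000300000018000000060000000000000000 0x100000001e00000013000000180000001f0000000800000008 5 5) 0 0 (step_sound _ 67 [(rh53b3c253cb0c65f4.shift 0 2), rhc296b91694a1b1e2] (by decide +kernel))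
noncomputable def rh4aeea1a4f1d6f674 : CRef := CRef.mk (Pat.mk 0x30000000600000010000000000000001800000000 0x20000000330000003e00000010000000180000001800000008 5 6) 0 0 (step_sound _ 132 [(rh1336b731aace5bfc.shift 3 0), (rh2fe78cc5ca4405d8.shift 0 4)] (by decide +kernel))
noncomputable def rh212f526f336186b2 : CRef := CRef.mk (Pat.mk 0x20000001a000000130000001000000000 0x8000000090000000f0000001a0000001b0000001e00000004 5 5) 0 0 (step_sound _ 131 [rh454d8ac7255d5acb, (rhe072fffdd2fccf38.shift 3 1)] (by decide +kernel))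
noncomputable def rhcbba4376e303d662 : CRef := CRef.mk (Pat.mk 0x20000001a000000130000001000000000 0x80000000c0000000f0000001a0000001b0000001e00000004 5 5) 0 0 (step_sound _ 131 [rh43dacaa5d1728963, (rhe072fffdd2fccf38.shift 3 1)] (by decide +kernel))
noncomputable def rha38c5c11d985b66b : CRef := CRef.mk (Pat.mk 0x400000004000000340000002400000020 0x1a0000003e00000017000000340000003400000020 5 6) 0 0 (step_sound _ 129 [(rh50fbb5868c909700.shift 1 1), rh5a4953a7a5c591a1] (by decide +kernel))
noncomputable def rha965b8b136d85005 : CRef := CRef.mk (Pat.mk 0x200000002000000030000001000000000 0x400000007000000070000000300000003000000030000001e00000004 5 5) 0 0 (step_sound _ 161 [rh758e491264c39691, (rh9a369cb82ea472da.shift 0 2)] (by decide +kernel))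
noncomputable def rh5aa4b7d75b99940f : CRef := CRef.mk (Pat.mk 0x200000002000000030000001000000000 0x500000007000000070000000600000003000000030000001e00000004 5 5) 0 0 (step_sound _ 161 [(rh9a369cb82ea472da.shift 0 2), rhb4ad15d6999021c8, (rhe62cab2ff5ad6fe2.shift 0 2)] (by decide +kernel))
noncomputable def rh59e45f966923f969 : CRef := CRef.mk (Pat.mk 0x20000003600000026000000200000000000000000 0x10000000140000001e0000003600000036000000230000000300000003 5 6) 0 0 (step_sound _ 65 [rh46530d756bdf8511, (rh58b55850b7852ac4.shift 1 2), (rh84d1c02a8954c6a8.shift 1 1)] (by decide +kernel))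
noncomputable def rh19e48db1e9b4e625 : CRef := CRef.mk (Pat.mk 0x60000000200000002000000000000000000000000 0x5000000070000000300000002000000060000000600000004 5 3) 0 0 (step_sound _ 65 [(rh2f68792b6b779e96.shift 1 2), rh8ff3dde5b1c639e0] (by decide +kernel))
noncomputable def rhad2a4fefe120cb2b : CRef := CRef.mk (Pat.mk 0x200000006000000320000000600000000 0x40000000600000006000000360000001f00000019 5 6) 0 0 (step_sound _ 130 [(rh2f68792b6b779e96.shift 1 1), rh8edae1bea9ad1458] (by decide +kernel))
noncomputable def rh290dfe94a41ae790 : CRef := CRef.mk (Pat.mk 0x8000000080000001800000018 0x34000000ff0000007c0000001800000018 5 8) 0 0 (step_sound _ 68 [rh215fef6ef21eb5a3, (rh75737889aa2eafb8.shift 1 0), (rh8334762365a0a050.shift 2 0)] (by decide +kernel))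
noncomputable def rh8058c211c658cc68 : CRef := CRef.mk (Pat.mk 0x60000000700000004 0x60000000e0000003e0000001f0000000700000004 5 6) 0 0 (step_sound _ 98 [(rh7f9f3607ee25a93b.shift 1 0), rhc5c09fe147da0b41] (by decide +kernel))
noncomputable def rh0e1ef73d290b0962 : CRef := CRef.mk (Pat.mk 0x600000004000000070000000400000000 0x80000003e0000001f000000070000000400000004 5 6) 0 0 (step_sound _ 97 [(rh7b1f1fb55310c477.shift 1 0), (rhc5c09fe147da0b41.shift 0 1)] (by decide +kernel))
noncomputable def rhd3f92e1437b0e789 : CRef := CRef.mk (Pat.mk 0x40000003400000000 0x60000003e00000077 5 7) 0 0 (step_sound _ 35 [rh185f35b8bd8ec37f, (rh3244c3cc8379b070.shift 1 1)] (by decide +kernel))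
noncomputable def rh5bad6ad2fbf64f9c : CRef := CRef.mk (Pat.mk 0x1e0000001a0000000800000000 0xc0000000c0000000c0000001e0000001a0000001f00000006 5 5) 0 0 (step_sound _ 131 [(rh3da62da861143b9a.shift 2 1), (rh3e595262c1b737ad.shift 3 1), rh53defbd6160b1c0a, (rh7b9fbdf6d2d059e4.shift 2 1)] (by decide +kernel))
noncomputable def rh1e358bb15332430b : CRef := CRef.mk (Pat.mk 0x200000003000000030000001000000000 0x3000000030000000300000003000000030000001e00000004 5 5) 0 0 (step_sound _ 161 [(rh5c5e593799055d58.shift 0 2), rh758e491264c39691] (by decide +kernel))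
noncomputable def rha5dc83e34999ae02 : CRef := CRef.mk (Pat.mk 0x400000008000000080000000800000000 0x140000001f00000038000000080000000800000008 5 6) 0 0 (step_sound _ 131 [(rh50fbb5868c909700.shift 2 1), rhc3aca83855756cc0] (by decide +kernel))
noncomputable def rh01e2de5d84698d24 : CRef := CRef.mk (Pat.mk 0x2000000020000000e000000000000000000000000 0x100000003000000030000001e000000030000000300000001 5 5) 0 0 (step_sound _ 65 [(rh157b220518f94713.shift 0 1), rhc4526fc8abf298b6, (rhd9106766b9ff53c0.shift 0 2), (rhf5ea7b418e9de72b.shift 0 1)] (by decide +kernel))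
noncomputable def rhb663fcb7c55b19f9 : CRef := CRef.mk (Pat.mk 0x4000000070000000c00000000 0x80000000c0000003e000000070000000c0000000c 5 6) 0 0 (step_sound _ 130 [(rh55afc6a59410cf00.shift 2 0), rhdee30487d27d3288] (by decide +kernel))
noncomputable def rh669a44fafa146886 : CRef := CRef.mk (Pat.mk 0x18000000180000001a0000008800000000 0x18000000180000001b000000ff00000024 5 8) 0 0 (step_sound _ 34 [(rh932754581e0f4330.shift 2 0), rh9d16fcc6de9f79ad] (by decide +kernel))
noncomputable def rhd9a6eb52cc5f3a98 : CRef := CRef.mk (Pat.mk 0x200000003000000030000001000000000 0x6000000060000000600000003000000030000001e00000004 5 5) 0 0 (step_sound _ 161 [(rh5c5e593799055d58.shift 0 2), rhb4ad15d6999021c8] (by decide +kernel))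
noncomputable def rha27369f7683626ea : CRef := CRef.mk (Pat.mk 0x20000001a000000130000001000000000 0x8000000090000000f0000001a0000001b0000001e00000004 5 5) 0 0 (step_sound _ 33 [(rhb2aa47935e7ef7cb.shift 0 1), rhf8edb192cdea7ada] (by decide +kernel))
noncomputable def rhe18b4ffb6bab0e62 : CRef := CRef.mk (Pat.mk 0x20000000200000002000000020000000100000000 0x500000007000000070000000200000002000000020000000300000001 5 3) 0 0 (step_sound _ 0 [(rhc85cc95794737cf7.shift 0 2), rheea67dfebd0f8008] (by decide +kernel))
noncomputable def rh6448b1f5f279f95e : CRef := CRef.mk (Pat.mk 0x20000000200000006000000020000000100000000 0x300000003000000030000000600000006000000020000000300000003 5 3) 0 0 (step_sound _ 33 [rh932754581e0f4330, rhdd862a2eaa76836b] (by decide +kernel))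
noncomputable def rhe65292560721a966 : CRef := CRef.mk (Pat.mk 0x8a0000001a 0x70000000ff0000001b 5 8) 0 0 (step_sound _ 34 [rh78e525fbbf0c1cf1, rhb739f4f82bb681b4] (by decide +kernel))
noncomputable def rhf2ff3bf44f4202f5 : CRef := CRef.mk (Pat.mk 0x8000000090000000c0000004000000000 0x140000001e0000000f0000000c0000007800000010 5 7) 0 0 (step_sound _ 35 [(rh33e2e68d6dfbb63c.shift 0 1), (rhf8edb192cdea7ada.shift 2 0)] (by decide +kernel))
noncomputable def rh126cf590a5219cd4 : CRef := CRef.mk (Pat.mk 0x200000002000000030000001000000000 0x4000000060000000600000002000000030000001f00000004 5 5) 0 0 (step_sound _ 161 [(rh932754581e0f4330.shift 0 1), rhb4ad15d6999021c8] (by decide +kernel))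
noncomputable def rhc02275ce183c9512 : CRef := CRef.mk (Pat.mk 0x1e000000000000000000000000 0x10000000300000001f000000380000000800000008 5 6) 0 0 (step_sound _ 68 [rh833381308a6c8cf7, (rhe25b0a99195a5d59.shift 1 2)] (by decide +kernel))
noncomputable def rh1134327336d3a48e : CRef := CRef.mk (Pat.mk 0x4e0000000c0000000000000000 0x200000002000000070000007e0000000c0000000400000004 5 7) 0 0 (step_sound _ 100 [(rh361cc68994bd8a63.shift 2 2), rhd5889c99d29bf7d6] (by decide +kernel))
noncomputable def rhf4133b70aedb839d : CRef := CRef.mk (Pat.mk 0xc0000008a00000002 0x4000000070000007e000000ef00000002 5 8) 0 0 (step_sound _ 68 [(rh03238141166ed50f.shift 1 1), (rh076be03eb7063320.shift 0 1), rh6393c571f5ee53ef, (rh72297cd55a503360.shift 0 1)] (by decide +kernel))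
noncomputable def rh0ad651fa2bc3ff07 : CRef := CRef.mk (Pat.mk 0xc0000008a0000000a00000000 0x4000000370000007e000000eb0000000a00000008 5 8) 0 0 (step_sound _ 100 [(rh261f868a429ae0e3.shift 2 0), (rh6393c571f5ee53ef.shift 0 1), (rh675da2bd003e49f9.shift 1 0), rh865f061c75d22c64] (by decide +kernel))
noncomputable def rhec69f48eaf53827f : CRef := CRef.mk (Pat.mk 0x180000008a0000000a00000000 0x4000000370000007e000000eb0000000a00000008 5 8) 0 0 (step_sound _ 98 [(rh261f868a429ae0e3.shift 2 0), (rh6393c571f5ee53ef.shift 0 1), (rh675da2bd003e49f9.shift 1 0), rh865f061c75d22c64] (by decide +kernel))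
noncomputable def rhd76a1dd02d35d335 : CRef := CRef.mk (Pat.mk 0x180000008a000000880000008000000000 0x40000000440000007f000000fb000000c80000008800000008 5 8) 0 0 (step_sound _ 100 [rh025f5a8d72a8b681, (rh6a6060c6b6bde3df.shift 3 1)] (by decide +kernel))
noncomputable def rh6172318484dfaeef : CRef := CRef.mk (Pat.mk 0x30000001b0000001300000010 0xe0000001e0000000b0000001b0000001b00000010 5 5) 0 0 (step_sound _ 129 [rh30725b089a36a09f, (rh5c5e593799055d58.shift 0 1)] (by decide +kernel))
noncomputable def rh4b0c7742c0859820 : CRef := CRef.mk (Pat.mk 0x30000001000000013000000100000000000000000 0x80000000a0000000f0000001e0000001b000000130000000100000001 5 5) 0 0 (step_sound _ 131 [(rh23625f181fa295a9.shift 0 2), rh2f7d45a89346db2c] (by decide +kernel))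
noncomputable def rhbf1cba0a2c5b3fc1 : CRef := CRef.mk (Pat.mk 0x90000000c0000000c 0x1c0000001e0000000f0000000c0000000c 5 5) 0 0 (step_sound _ 99 [rh33e2e68d6dfbb63c, (rh5c5e593799055d58.shift 2 0)] (by decide +kernel))
noncomputable def rh0d07b10926dcd0c2 : CRef := CRef.mk (Pat.mk 0x1e000000080000000000000000 0x4000000040000000f0000003e000000080000000800000008 5 6) 0 0 (step_sound _ 129 [(rh3244c3cc8379b070.shift 0 3), (rh55c73d44b4618dfd.shift 1 0)] (by decide +kernel))
noncomputable def rhe9d5018a7cbc0303 : CRef := CRef.mk (Pat.mk 0x8000000190000000c0000004000000000 0x140000001f0000001b0000000c0000007800000010 5 7) 0 0 (step_sound _ 35 [(rh7551e4752fdd71e8.shift 0 1), (rhf8edb192cdea7ada.shift 2 0)] (by decide +kernel))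
noncomputable def rh2065ea92d3f7bbc7 : CRef := CRef.mk (Pat.mk 0x1c0000001c000000080000000800000000 0x30000007f0000001c0000000c0000000c00000004 5 7) 0 0 (step_sound _ 133 [(rh18965a982d73c794.shift 2 3), rhcf217803b01e13b7] (by decide +kernel))
noncomputable def rh2741032d10f98306 : CRef := CRef.mk (Pat.mk 0xc000000080000000800000000 0x140000001c0000003c0000000f0000000c0000000c00000004 5 6) 0 0 (step_sound _ 131 [(rh1741680720c097b4.shift 2 1), (rh20966da26a1c2ae8.shift 2 0), (rh20ee5c2c4c3a9878.shift 0 1), (rh771d065bdc85bf2d.shift 2 0)] (by decide +kernel))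
noncomputable def rh1998c2c4e75f3c71 : CRef := CRef.mk (Pat.mk 0x8000000120000000e0000000a0000000000000000 0x70000000f0000001a0000000e0000000e0000000400000004 5 5) 0 0 (step_sound _ 66 [(rh3d9ea522a568e981.shift 1 0), (rh452fb950e0614739.shift 0 2), (rh55a1f6c57a317ce6.shift 1 0)] (by decide +kernel))
noncomputable def rhe112f6997f8d595f : CRef := CRef.mk (Pat.mk 0x2000000020000000200000002000000000000000000000000 0x3000000030000000300000003000000070000000700000005 5 3) 0 0 (step_sound _ 65 [rh6eff4158bb400f47, (rh7928877f9bf74a91.shift 0 1), rh8ff3dde5b1c639e0, rhc4526fc8abf298b6] (by decide +kernel))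
noncomputable def rh09a28663422c2741 : CRef := CRef.mk (Pat.mk 0x20000001a000000020000000200000000 0x2000000020000001b0000003f0000000600000004 5 6) 0 0 (step_sound _ 34 [(rh55afc6a59410cf00.shift 1 0), (rh7aabf6b85ac57c07.shift 0 1)] (by decide +kernel))
noncomputable def rh39e8b268fcd19274 : CRef := CRef.mk (Pat.mk 0x2000000020000000200000002 0x5000000070000000700000006000000030000000300000003 5 3) 0 0 (step_sound _ 129 [rh3b734c5288922837, (rh44f453b84f013105.shift 1 0), rh771d065bdc85bf2d, (rhc85cc95794737cf7.shift 0 1)] (by decide +kernel))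
noncomputable def rh1f25bef8f9fe2597 : CRef := CRef.mk (Pat.mk 0x20000000200000002000000000000000000000000 0x100000003000000030000000300000006000000070000000700000005 5 3) 0 0 (step_sound _ 65 [(rh5abfc4c9d959be03.shift 0 1), rh6eff4158bb400f47, rhc4526fc8abf298b6] (by decide +kernel))
noncomputable def rhed5613ba5575f932 : CRef := CRef.mk (Pat.mk 0x2400000034000000040000000600000000 0x200000026000000340000003e0000001f00000018 5 6) 0 0 (step_sound _ 35 [(rh55afc6a59410cf00.shift 2 0), rh7e245d1360482e0d] (by decide +kernel))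
noncomputable def rh6f4a8ab15b59a16a : CRef := CRef.mk (Pat.mk 0x40000003400000014000000000000000000000000 0x200000006000000360000001e0000000f0000000e0000000a 5 6) 0 0 (step_sound _ 66 [(rh0fda8aa0520c2046.shift 0 1), (rh6eff4158bb400f47.shift 1 0), (rh8ff3dde5b1c639e0.shift 1 0), (rhc4526fc8abf298b6.shift 1 0)] (by decide +kernel))
noncomputable def rha7208d5eeafc31c8 : CRef := CRef.mk (Pat.mk 0x40000003400000000 0x760000003e00000007 5 7) 0 0 (step_sound _ 35 [(rh3244c3cc8379b070.shift 1 1), rh9e97bba44c1b13e4] (by decide +kernel))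
noncomputable def rh57885ee46facc399 : CRef := CRef.mk (Pat.mk 0x200000006000000020000000000000000 0x500000007000000070000000600000006000000060000000600000004 5 3) 0 0 (step_sound _ 161 [(rh3da62da861143b9a.shift 0 2), (rh6c59ce14113da07f.shift 1 0), (rhc85cc95794737cf7.shift 0 2)] (by decide +kernel))
noncomputable def rh4a9ede85e8f3a7f0 : CRef := CRef.mk (Pat.mk 0x400000000000000080000001c00000000 0x4000000040000003f0000003f00000003 5 6) 0 0 (step_sound _ 33 [rh972dbc07a0b18f2c, (rhec46bd5500c722c9.shift 0 1)] (by decide +kernel))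
noncomputable def rhc495c7abd6a5eafa : CRef := CRef.mk (Pat.mk 0x1e000000080000000000000000 0x400000004000000070000003e0000000c0000000800000008 5 6) 0 0 (step_sound _ 129 [(rh3244c3cc8379b070.shift 0 3), (rh7af235c0d499793a.shift 1 0)] (by decide +kernel))
noncomputable def rhc85ec9580a76dde6 : CRef := CRef.mk (Pat.mk 0x200000003000000060000000000000000 0x100000007000000070000000600000007000000070000000300000001 5 3) 0 0 (step_sound _ 161 [(rh03dfdf12d5937476.shift 0 1), (rh5bd4bc0c2c48140c.shift 0 2), (rha77f215723363df0.shift 0 2), rhcab3157f7bdcba3e] (by decide +kernel))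
noncomputable def rh6692864d249c2590 : CRef := CRef.mk (Pat.mk 0x3000000060000000200000001000000000000000000000000 0x3000000070000000600000003000000070000000600000004 5 3) 0 0 (step_sound _ 97 [rh46bfb734f58a0e67, (rh932754581e0f4330.shift 0 2)] (by decide +kernel))
noncomputable def rh53287dc308810e87 : CRef := CRef.mk (Pat.mk 0x200000002000000060000000000000000 0x4000000060000000600000002000000070000000700000001 5 3) 0 0 (step_sound _ 161 [(rh55afc6a59410cf00.shift 1 1), rhcab3157f7bdcba3e] (by decide +kernel))
noncomputable def rh8dfd472a79f6bb14 : CRef := CRef.mk (Pat.mk 0x200000003000000060000000e00000000 0xd0000001f00000007000000060000000e00000008 5 5) 0 0 (step_sound _ 128 [(rh50fbb5868c909700.shift 0 1), rhe4bf60b8023fdb34] (by decide +kernel))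
noncomputable def rh604f6c23d074beab : CRef := CRef.mk (Pat.mk 0x1000000010000000600000003000000000 0x1000000010000000700000007c0000001f 5 7) 0 0 (step_sound _ 35 [rh0d9382e6088855bc, (rh53b3c253cb0c65f4.shift 2 1)] (by decide +kernel))
noncomputable def rh5acd38f69cd83523 : CRef := CRef.mk (Pat.mk 0x60000000e000000180000000800000000 0x80000000a0000000e0000003e0000001c0000001f00000006 5 6) 0 0 (step_sound _ 100 [rh0487a6384922d21c, (rhf48373e13d2bc128.shift 1 3)] (by decide +kernel))
noncomputable def rh9f1ab24e80cb7f86 : CRef := CRef.mk (Pat.mk 0x2000000100000001c0000000c00000000 0x1c0000001f000000180000001c0000000c00000008 5 5) 0 0 (step_sound _ 132 [(rh5c5e593799055d58.shift 3 1), rha2ef5e791723ceeb] (by decide +kernel))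
noncomputable def rh30beeadf14f38b04 : CRef := CRef.mk (Pat.mk 0x8a000000180000000000000000 0x1000000037000000ff000000180000000800000008 5 8) 0 0 (step_sound _ 98 [(rhb739f4f82bb681b4.shift 0 2), rhd35359011c5dc39e] (by decide +kernel))
noncomputable def rh4147d61af8a93e3b : CRef := CRef.mk (Pat.mk 0x8000000040000000c0000000800000000 0x800000018000000780000001f0000000c0000000c00000004 5 7) 0 0 (step_sound _ 99 [(rh03dfdf12d5937476.shift 2 0), (rh503dd4575245365b.shift 2 1), (rhc9613fc5bab58382.shift 0 1)] (by decide +kernel))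
noncomputable def rh538c3b731f0aff77 : CRef := CRef.mk (Pat.mk 0x80000003800000018000000000000000000000000 0x40000000f0000003c000000180000000c0000000c0000000c 5 6) 0 0 (step_sound _ 162 [(rh46d6183566ef1216.shift 2 0), (rhdbcea10a0fbe5ba6.shift 0 4)] (by decide +kernel))
noncomputable def rhd57a477c48ddfb57 : CRef := CRef.mk (Pat.mk 0x400000026000000060000002000000000 0xa0000001e00000037000000060000003c00000008 5 6) 0 0 (step_sound _ 34 [(rh51f1467e598c322f.shift 0 1), (rhf8edb192cdea7ada.shift 1 0)] (by decide +kernel))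
noncomputable def rh476d140b4637cea8 : CRef := CRef.mk (Pat.mk 0x1c00000002 0x770000003e00000003 5 7) 0 0 (step_sound _ 33 [(rh22b38309c56a80eb.shift 0 1), rheb0810cc63b001d8] (by decide +kernel))
noncomputable def rh13258c65b626e4cd : CRef := CRef.mk (Pat.mk 0x600000007000000060000002200000000 0x90000001f00000007000000060000003e00000008 5 6) 0 0 (step_sound _ 128 [(rh50fbb5868c909700.shift 0 1), rh9cb13c23e4742c9d] (by decide +kernel))
noncomputable def rh4254078ec028aae0 : CRef := CRef.mk (Pat.mk 0x1a0000008a00000000 0x1b000000ff00000007 5 8) 0 0 (step_sound _ 34 [(rh53b3c253cb0c65f4.shift 0 1), rhafd6efcf336bc55c] (by decide +kernel))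
noncomputable def rhf8c9ba9113a9efbc : CRef := CRef.mk (Pat.mk 0x30000000120000001a0000001800000000 0x400000004000000360000001e0000001b0000001f00000002 5 6) 0 0 (step_sound _ 98 [rh1624a4bfbec88fde, (rh1c62b6193297d9e3.shift 1 3)] (by decide +kernel))
noncomputable def rh14bd9034918c1c2f : CRef := CRef.mk (Pat.mk 0x2000000020000001a0000000000000000 0x5000000070000000700000003000000020000001b0000000f00000005 5 5) 0 0 (step_sound _ 161 [rhbd7d57cbe6532a20, rhc4526fc8abf298b6, (rhc85cc95794737cf7.shift 0 2)] (by decide +kernel))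
noncomputable def rhdd26f49f64ab863a : CRef := CRef.mk (Pat.mk 0xa0000001800000018000000000000000000000000 0x40000000f00000018000000180000000c0000000c0000000c 5 5) 0 0 (step_sound _ 162 [(rh46d6183566ef1216.shift 2 0), (rhb739f4f82bb681b4.shift 0 4)] (by decide +kernel))
noncomputable def rhdfa8712e4a8a2f2d : CRef := CRef.mk (Pat.mk 0x2000000120000001a00000000 0x1000000090000000b0000000f0000001e0000001a00000012 5 5) 0 0 (step_sound _ 96 [rh64f890303e309f2d, rhb1a251d9bff81766] (by decide +kernel))
noncomputable def rh251fc034e5761d47 : CRef := CRef.mk (Pat.mk 0x100000001e0000001a0000000800000000 0x80000000c0000001c0000001e0000001a0000001f00000006 5 5) 0 0 (step_sound _ 131 [rh53defbd6160b1c0a, (rhfc7c29d8e65d775f.shift 3 1)] (by decide +kernel))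
noncomputable def rh752ba6df8acbf3aa : CRef := CRef.mk (Pat.mk 0x20000001e000000180000000800000000 0xc0000000c0000000e0000001e0000001b0000001f00000003 5 5) 0 0 (step_sound _ 65 [rhc37c11860256ba1f, (rheb0810cc63b001d8.shift 0 2)] (by decide +kernel))
noncomputable def rh1ed996d1be852b34 : CRef := CRef.mk (Pat.mk 0x40000000e0000001a0000000800000000 0x400000004000000040000001e0000001b0000001f00000002 5 5) 0 0 (step_sound _ 162 [(rh5c5e593799055d58.shift 1 2), rhf7fb508c4db37bd7] (by decide +kernel))
noncomputable def rh04ec961e463b7d04 : CRef := CRef.mk (Pat.mk 0x180000000e000000140000003000000000 0x2000000020000001f0000001e000000140000003400000024 5 6) 0 0 (step_sound _ 34 [(rh71222050f2c63a3a.shift 2 0), rhe243222b9392b392] (by decide +kernel))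
noncomputable def rh479acb6936ac53a2 : CRef := CRef.mk (Pat.mk 0x40000001e0000001a0000000800000000 0x8000000080000000c0000001e0000001a0000001f00000006 5 5) 0 0 (step_sound _ 33 [rh4a52ce5b87fe2b5a, (rh71222050f2c63a3a.shift 1 0)] (by decide +kernel))
noncomputable def rh8aaa22d8586bbc0f : CRef := CRef.mk (Pat.mk 0x40000001e000000180000000800000000 0x70000001e0000001b0000000f00000003 5 5) 0 0 (step_sound _ 129 [(rh3244c3cc8379b070.shift 0 3), rh57e49d4ee7cd34ec] (by decide +kernel))
noncomputable def rh1b01552d580a4d77 : CRef := CRef.mk (Pat.mk 0x20000000e0000001a0000000000000000 0x4000000040000000e0000000e0000001a0000000f0000000e 5 5) 0 0 (step_sound _ 130 [(rh84d1c02a8954c6a8.shift 1 1), (rha40d42a2e34c408d.shift 2 0), rhcb13d5eb0d34c64c] (by decide +kernel))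
noncomputable def rh5fdb7bf019cd9eb8 : CRef := CRef.mk (Pat.mk 0x60000001e000000180000000000000000 0x60000001e0000001b0000000f0000000b 5 5) 0 0 (step_sound _ 35 [rh57e49d4ee7cd34ec, (rh7b1f1fb55310c477.shift 2 0)] (by decide +kernel))
noncomputable def rh2f41fce678568e15 : CRef := CRef.mk (Pat.mk 0x200000003000000060000000000000000 0x10000000300000003000000030000000300000003000000060000000600000002 5 3) 0 0 (step_sound _ 161 [(rh55afc6a59410cf00.shift 1 1), rh8ff5e849f28319cc] (by decide +kernel))
noncomputable def rhf20a2e1680da789a : CRef := CRef.mk (Pat.mk 0x1c00000080 0x770000007e000000e0 5 8) 0 0 (step_sound _ 37 [(rh61325f73ebf98108.shift 0 1), (rheaa91b92daf0efc8.shift 2 0)] (by decide +kernel))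
noncomputable def rh10beb8edbc9f5a25 : CRef := CRef.mk (Pat.mk 0x3c00000014000000300000001000000000 0x70000003e00000014000000340000001e00000008 5 6) 0 0 (step_sound _ 161 [(rh3f8766e6ecb455ce.shift 1 4), rha25b11d72c4a20a9] (by decide +kernel))
noncomputable def rh4c82cbd1fd94211d : CRef := CRef.mk (Pat.mk 0x1e00000018000000080000000800000000 0xa0000001e0000001b0000000f0000000c00000004 5 5) 0 0 (step_sound _ 34 [(rh8f69cb06f231bec3.shift 0 1), (rh932754581e0f4330.shift 2 0)] (by decide +kernel))
noncomputable def rh68d15d3494574946 : CRef := CRef.mk (Pat.mk 0x20000001e00000000000000080000000c00000000 0x20000001e000000030000001f0000000f00000001 5 5) 0 0 (step_sound _ 97 [rhd4d2b871e42cedd8, (rheb0810cc63b001d8.shift 0 3)] (by decide +kernel))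
noncomputable def rh7272925cd043c56a : CRef := CRef.mk (Pat.mk 0x200000002000000060000000000000000 0x400000006000000060000000600000007000000070000000300000001 5 3) 0 0 (step_sound _ 161 [(rh20966da26a1c2ae8.shift 0 1), (rh50fc3837f5e8c53a.shift 0 1), (rh73f605273a09a9d0.shift 1 2), rhcab3157f7bdcba3e] (by decide +kernel))
noncomputable def rha07bf97b8ad93c2d : CRef := CRef.mk (Pat.mk 0x1100000003000000060000000200000000 0x600000006000000060000001f00000003000000060000000600000004 5 5) 0 0 (step_sound _ 129 [(rh04e571695666b5c1.shift 0 1), (rh4c60faed9e5f228f.shift 0 1), (rhd4b4beefcd67f51e.shift 1 0)] (by decide +kernel))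
noncomputable def rhcaf10b0b946a8038 : CRef := CRef.mk (Pat.mk 0x200000002000000060000002600000000 0x40000000600000006000000060000003f00000019 5 6) 0 0 (step_sound _ 35 [rh2ba2f6ef2c217e2c, (rh2fe78cc5ca4405d8.shift 1 1)] (by decide +kernel))
noncomputable def rhd4e86cf4ea96423e : CRef := CRef.mk (Pat.mk 0x4000000040000000c0000004c000000000000000000000000 0x4000000060000000f0000007e000000060000000600000004 5 7) 0 0 (step_sound _ 129 [(rh277593e967ce41e6.shift 1 0), (rh5bb78067c54b222b.shift 0 3)] (by decide +kernel))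
noncomputable def rh10956f5078a99dca : CRef := CRef.mk (Pat.mk 0x100000011000000130000001100000000 0x80000000a0000000f0000001f0000001b0000001100000001 5 5) 0 0 (step_sound _ 129 [(rh2f68792b6b779e96.shift 0 1), rha650411bdb0e18aa] (by decide +kernel))
noncomputable def rh9c167550c44371bd : CRef := CRef.mk (Pat.mk 0x80000001c000000300000001400000000 0x20000000f0000001c000000340000001e00000006 5 6) 0 0 (step_sound _ 66 [(rh71222050f2c63a3a.shift 2 0), rhc1389cfa6880b403] (by decide +kernel))
noncomputable def rh1262bff6bf078212 : CRef := CRef.mk (Pat.mk 0x80000001c000000300000001400000000 0x20000000f0000001c0000003c0000001e00000002 5 6) 0 0 (step_sound _ 33 [rh10fdd93ec2ad434c, (rh1c62b6193297d9e3.shift 1 1)] (by decide +kernel))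
noncomputable def rh53b7e2f1a6a47c7e : CRef := CRef.mk (Pat.mk 0x40000000e000000180000000a0000000000000000 0x40000000e0000001e0000001e0000003300000010 5 6) 0 0 (step_sound _ 33 [(rh04253f50b6dd0619.shift 1 1), rh31009c83461f9eab] (by decide +kernel))
noncomputable def rh01c64533f7878554 : CRef := CRef.mk (Pat.mk 0x40000000c000000180000000a0000000000000000 0x40000000c0000001c0000001f0000003300000010 5 6) 0 0 (step_sound _ 66 [(rh53b3c253cb0c65f4.shift 0 2), rhe479c8b1c23ac11c] (by decide +kernel))
noncomputable def rhd835e8b8dc07ccb4 : CRef := CRef.mk (Pat.mk 0x12000000030000000600000000 0x50000000f0000001e000000030000000600000004 5 5) 0 0 (step_sound _ 99 [rh2b18b3bc5e226f06, (rhb2a0b9ccfb5cecd5.shift 0 2)] (by decide +kernel))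
noncomputable def rh7958b423eea004f1 : CRef := CRef.mk (Pat.mk 0x38000000180000000000000000 0x4000000070000003f0000001f0000000800000008 5 6) 0 0 (step_sound _ 98 [(rh71f2db6f0f8252e9.shift 0 2), (rhb14e2588a8d71db8.shift 0 2), (rhb9dd680bb9375a9f.shift 1 0)] (by decide +kernel))
noncomputable def rh3e4a8377ed075629 : CRef := CRef.mk (Pat.mk 0x120000000300000002000000000000000000000000 0x40000001e0000000300000002000000070000000700000005 5 5) 0 0 (step_sound _ 162 [(rh361cc68994bd8a63.shift 0 4), rhfa40f754f1f7b88f] (by decide +kernel))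
noncomputable def rh2997503d57fc5b3f : CRef := CRef.mk (Pat.mk 0x200000002000000060000000000000000 0x100000007000000070000000600000006000000070000000300000001 5 3) 0 0 (step_sound _ 161 [(rh5bd4bc0c2c48140c.shift 0 2), rhcab3157f7bdcba3e] (by decide +kernel))
noncomputable def rh6ff3a987813f8140 : CRef := CRef.mk (Pat.mk 0xc00000018000000020000001c00000000 0xf0000001f000000030000001e00000003 5 5) 0 0 (step_sound _ 33 [(rh3244c3cc8379b070.shift 0 1), rh9fbe6440a5fd6b9c] (by decide +kernel))
noncomputable def rh78bf3ad049325429 : CRef := CRef.mk (Pat.mk 0x80000001c00000038000000000000000000000000 0x40000000c0000001c0000003c0000000f0000000c0000000c 5 6) 0 0 (step_sound _ 67 [(rh3291de2d96fb8d58.shift 0 1), (rh40241bd608e5be1a.shift 2 0), (rh46530d756bdf8511.shift 2 0)] (by decide +kernel))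
noncomputable def rh608b8581ff33f14f : CRef := CRef.mk (Pat.mk 0x38000000180000000000000000 0x4000000040000007f0000003f000000180000000800000008 5 7) 0 0 (step_sound _ 98 [(rh71f2db6f0f8252e9.shift 0 2), (rhd5889c99d29bf7d6.shift 1 0), (rhe25191970535449e.shift 0 2)] (by decide +kernel))
noncomputable def rhce40b8e5c6782f7b : CRef := CRef.mk (Pat.mk 0x3800000018000000100000000000000000 0xc0000000f0000003c000000180000001c0000000c0000000c 5 6) 0 0 (step_sound _ 163 [(rh2145e1d24b96a57e.shift 3 2), rh771633e495961670] (by decide +kernel))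
noncomputable def rh52d29ebd03e21878 : CRef := CRef.mk (Pat.mk 0x200000002000000060000000000000000 0x500000007000000070000000300000007000000070000000300000001 5 3) 0 0 (step_sound _ 161 [(rh20966da26a1c2ae8.shift 0 1), (rh73f605273a09a9d0.shift 1 2), (rh771d065bdc85bf2d.shift 0 1), rhc4526fc8abf298b6] (by decide +kernel))
noncomputable def rhd4b54dd7a1b064a8 : CRef := CRef.mk (Pat.mk 0x4000000440000000c0000000400000000 0xa0000000f0000007c0000000c0000000400000004 5 7) 0 0 (step_sound _ 131 [(rh2f68792b6b779e96.shift 2 1), rhf18ba62d0c4d6338] (by decide +kernel))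
noncomputable def rh36d02af028602191 : CRef := CRef.mk (Pat.mk 0x3000000030000001200000000 0x6000000060000000600000003000000030000001e00000004 5 5) 0 0 (step_sound _ 34 [(rh2fe78cc5ca4405d8.shift 0 1), rh4c60faed9e5f228f] (by decide +kernel))
noncomputable def rh91aa8270f8963b2f : CRef := CRef.mk (Pat.mk 0x38000000180000000000000000 0x2000000020000000770000003f000000180000001000000010 5 7) 0 0 (step_sound _ 98 [(rh6eb76252a9026692.shift 2 0), (rh71f2db6f0f8252e9.shift 0 2)] (by decide +kernel))
noncomputable def rh61e7afd2819f4ffd : CRef := CRef.mk (Pat.mk 0x8000000080000000a0000000a00000002 0x140000001f0000000f0000000a0000000a00000002 5 5) 0 0 (step_sound _ 130 [(rh50fbb5868c909700.shift 2 1), rh9b400489e06189e2] (by decide +kernel))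
noncomputable def rh8ba4ed1e55de5455 : CRef := CRef.mk (Pat.mk 0xc000000080000006c0000004c00000040 0x320000007f0000003e0000006c0000006c00000040 5 7) 0 0 (step_sound _ 132 [(rh2f68792b6b779e96.shift 3 1), rh6790a55e80f40ed9] (by decide +kernel))
noncomputable def rhaf5578bcdfcfcc0c : CRef := CRef.mk (Pat.mk 0xc000000080000000c0000000c 0x120000003f0000003f0000000c0000000c 5 6) 0 0 (step_sound _ 100 [(rh2f68792b6b779e96.shift 3 0), rhd01055b3fe1764f7] (by decide +kernel))
noncomputable def rhfe6dd5420f1f2bbc : CRef := CRef.mk (Pat.mk 0x1000000018000000180000000000000000 0xc0000000c0000001f000000380000001c0000000c0000000c 5 6) 0 0 (step_sound _ 35 [(rh71222050f2c63a3a.shift 3 0), rh7af209439ba41089] (by decide +kernel))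
noncomputable def rhd35332aa9cd4d6d7 : CRef := CRef.mk (Pat.mk 0x1000000038000000180000000000000000 0x4000000040000003f0000003f000000180000000800000008 5 6) 0 0 (step_sound _ 35 [(rh35b4665b2842b167.shift 0 1), (rh71222050f2c63a3a.shift 3 0)] (by decide +kernel))
noncomputable def rhc15182294bbbedcb : CRef := CRef.mk (Pat.mk 0x50000000f0000000700000000 0xa0000001a0000001f0000000f0000000700000001 5 5) 0 0 (step_sound _ 99 [rh1c1fbe19b8c8ab54, (rh33e738c4ed385b9f.shift 0 2)] (by decide +kernel))
noncomputable def rh75eac9abaceae3c7 : CRef := CRef.mk (Pat.mk 0x38000000180000000000000000 0x4000000770000003f0000001e0000000800000008 5 7) 0 0 (step_sound _ 66 [(rh53b3c253cb0c65f4.shift 1 2), rh938402d71b542cb1] (by decide +kernel))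
noncomputable def rh4fb38d06c08b3fb5 : CRef := CRef.mk (Pat.mk 0xc000000080000000c0000000e00000000 0x120000001f0000003c0000000c0000000e00000002 5 6) 0 0 (step_sound _ 132 [(rh2f68792b6b779e96.shift 3 1), rh7e4a2909218764e8] (by decide +kernel))
noncomputable def rh8cdc9a84da84a1a4 : CRef := CRef.mk (Pat.mk 0x10000000180000001e00000000 0x200000002000000330000001f0000001e00000004 5 6) 0 0 (step_sound _ 65 [rh114680e7a1ca66eb, (rh3244c3cc8379b070.shift 0 1)] (by decide +kernel))
noncomputable def rh92945f65719b0d46 : CRef := CRef.mk (Pat.mk 0xc000000440000000c0000000c 0x720000003e0000006f0000000c0000000c 5 7) 0 0 (step_sound _ 97 [(rh50fbb5868c909700.shift 1 0), rh7a700bf05d136a57] (by decide +kernel))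
noncomputable def rhf8fac699c81dd447 : CRef := CRef.mk (Pat.mk 0x60000000200000002000000000000000000000000 0x100000003000000070000000700000006000000060000000600000004 5 3) 0 0 (step_sound _ 65 [(rh5abfc4c9d959be03.shift 0 1), (rh8c3839f9b9075f23.shift 1 0), rh8ff3dde5b1c639e0, (rhffd0ff6f60fa3c9a.shift 0 1)] (by decide +kernel))
noncomputable def rha8947ce6e8473148 : CRef := CRef.mk (Pat.mk 0x2000000060000000300000011000000000000000000000000 0x40000000600000006000000030000001f000000060000000600000006 5 5) 0 0 (step_sound _ 97 [rh3470fcd67ff81181, (rha707fb719e87fe6e.shift 1 2), (rhf8edb192cdea7ada.shift 0 2)] (by decide +kernel))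
noncomputable def rh7e5ab8d5a20f14cd : CRef := CRef.mk (Pat.mk 0x2600000006000000020000000200000000 0x190000003f00000006000000060000000600000004 5 6) 0 0 (step_sound _ 131 [(rh361cc68994bd8a63.shift 1 3), rhe43b4aaaf26647b5] (by decide +kernel))
noncomputable def rhf11e9b61fc52dea4 : CRef := CRef.mk (Pat.mk 0x4c0000000c0000000400000004 0x400000006000000060000007e0000000f0000000600000004 5 7) 0 0 (step_sound _ 65 [(rh2b3584ef0f05e9c2.shift 0 2), (rhe897af202bc68eb8.shift 1 0)] (by decide +kernel))
noncomputable def rh6c1ac947f8fc1358 : CRef := CRef.mk (Pat.mk 0x110000001300000011000000010000000000000000 0x1000000110000001b0000001f0000000f0000000a00000008 5 5) 0 0 (step_sound _ 65 [rh2c7a27818daa572b, (rh55afc6a59410cf00.shift 0 1)] (by decide +kernel))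
noncomputable def rh2a8aa410140efb3e : CRef := CRef.mk (Pat.mk 0x14000000300000001c0000000800000000 0x60000001e000000340000001c0000000f00000002 5 6) 0 0 (step_sound _ 98 [(rh2145e1d24b96a57e.shift 2 1), rh573a4033e4c04025] (by decide +kernel))
noncomputable def rhf2549dc0da66b756 : CRef := CRef.mk (Pat.mk 0x14000000300000001c0000000800000000 0x20000001e0000003c0000001c0000000f00000002 5 6) 0 0 (step_sound _ 129 [rh85272f69ef6f1f05, (rhc10214bf3fe8094a.shift 1 3)] (by decide +kernel))
noncomputable def rh016cdad10fac5d9c : CRef := CRef.mk (Pat.mk 0xa000000180000000e00000004 0x10000000330000001e0000001e0000000e00000004 5 6) 0 0 (step_sound _ 129 [rhd8e0ede5418f9ab3, (rhff0f29cb645b05f7.shift 1 0)] (by decide +kernel))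
noncomputable def rh9873cc4ce4f39a86 : CRef := CRef.mk (Pat.mk 0xa000000180000000c00000004 0x10000000330000001f0000001c0000000c00000004 5 6) 0 0 (step_sound _ 98 [rh387bce5bf9755530, (rhb739f4f82bb681b4.shift 0 2)] (by decide +kernel))
noncomputable def rh32ba97e5134cf6df : CRef := CRef.mk (Pat.mk 0x600000003000000120000000000000000 0x400000006000000030000001e0000000f00000005 5 5) 0 0 (step_sound _ 67 [(rh5419adcd928dba20.shift 0 2), rh8ecfd56e19a4fe3c] (by decide +kernel))
noncomputable def rh62b7f49d90c71254 : CRef := CRef.mk (Pat.mk 0x18000000380000000000000000 0x8000000080000001f0000003f0000000700000004 5 6) 0 0 (step_sound _ 66 [(rh04029d7e2e3adf1c.shift 1 0), (rh0e1512cbacfbd48b.shift 0 1), (rhbe5fc5902345a0b9.shift 0 2)] (by decide +kernel))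
noncomputable def rh140c261fae91909a : CRef := CRef.mk (Pat.mk 0x2000000030000001200000000 0x5000000070000000700000002000000030000001e00000004 5 5) 0 0 (step_sound _ 34 [(rh2fe78cc5ca4405d8.shift 0 1), rhc0f6fe06378683f4] (by decide +kernel))
noncomputable def rhd3ce7047182a729e : CRef := CRef.mk (Pat.mk 0x60000000200000002000000000000000000000000 0x100000003000000070000000600000006000000070000000700000001 5 3) 0 0 (step_sound _ 65 [(rh5abfc4c9d959be03.shift 0 1), rha8bc3cae4d77a08f] (by decide +kernel))
noncomputable def rhc42d3653746534f7 : CRef := CRef.mk (Pat.mk 0x1c00000002000000180000000c 0x30000001e000000030000001f0000000f 5 5) 0 0 (step_sound _ 97 [(rheb0810cc63b001d8.shift 0 2), rhf79d7ba0e4773a6f] (by decide +kernel))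
noncomputable def rh452157582c3e7b95 : CRef := CRef.mk (Pat.mk 0x380000001c0000000800000000 0xc0000000c0000000f0000003c0000001c0000000c00000004 5 6) 0 0 (step_sound _ 131 [(rh37d9ceebb86d75d1.shift 2 1), (rh7b9fbdf6d2d059e4.shift 2 1), rh8292e11cff743ce0] (by decide +kernel))
noncomputable def rh10a871fa1c3089f7 : CRef := CRef.mk (Pat.mk 0x1800000038000000000000000000000000 0x800000008000000180000003f0000007f0000000400000004 5 7) 0 0 (step_sound _ 98 [(rh0e1512cbacfbd48b.shift 0 2), (rhcfde16a7ff36af03.shift 1 0), (rhe153806bfe3acc65.shift 0 2)] (by decide +kernel))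
noncomputable def rhb0dda779a2aac251 : CRef := CRef.mk (Pat.mk 0x1000000018000000380000000000000000 0xc0000000c0000001c000000180000003c0000000f0000000c 5 6) 0 0 (step_sound _ 35 [(rh71222050f2c63a3a.shift 3 0), rhf45ab07dedff8e50] (by decide +kernel))
noncomputable def rhf1892f40dde48c82 : CRef := CRef.mk (Pat.mk 0x60000000200000002000000000000000000000000 0x100000003000000070000000700000003000000070000000700000005 5 3) 0 0 (step_sound _ 65 [(rh771d065bdc85bf2d.shift 0 1), (rh8c3839f9b9075f23.shift 1 0), rh8ff3dde5b1c639e0, rhc4526fc8abf298b6] (by decide +kernel))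
noncomputable def rhbb00e3681d5eb8f8 : CRef := CRef.mk (Pat.mk 0x40000000c000000440000000400000000 0x4000000040000000c0000007c0000000f0000000a 5 7) 0 0 (step_sound _ 35 [(rh55afc6a59410cf00.shift 2 0), rhe05257dad29a3298] (by decide +kernel))
noncomputable def rh17fd23ce851b0345 : CRef := CRef.mk (Pat.mk 0x120000000300000003000000000000000000000000 0x40000001e0000000300000003000000060000000600000006 5 5) 0 0 (step_sound _ 162 [rh3470fcd67ff81181, (rh361cc68994bd8a63.shift 0 4)] (by decide +kernel))
noncomputable def rh71ccff0c01ecdde1 : CRef := CRef.mk (Pat.mk 0x1800000038000000000000000000000000 0x1000000010000000180000003f000000770000002000000020 5 7) 0 0 (step_sound _ 98 [(rh0e1512cbacfbd48b.shift 0 2), (rh84970c2ccb9fe470.shift 2 0)] (by decide +kernel))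
noncomputable def rhcb12a4143fa588a5 : CRef := CRef.mk (Pat.mk 0x20000000a0000000a000000080000000800000000 0x20000000a0000000a0000000f0000001f00000014 5 5) 0 0 (step_sound _ 34 [rh3847bd7367faf0ed, (rh932754581e0f4330.shift 2 0)] (by decide +kernel))
noncomputable def rhd4a67986fa73c4fa : CRef := CRef.mk (Pat.mk 0x400000004c0000006c000000080000000c00000000 0x400000006c0000006c0000003e0000007f00000032 5 7) 0 0 (step_sound _ 36 [rh48736f10208f0e53, (rh55afc6a59410cf00.shift 3 0)] (by decide +kernel))
noncomputable def rhef8bedd065b9c15d : CRef := CRef.mk (Pat.mk 0xc0000000c000000080000000c00000000 0xc0000000c0000003f0000003f00000012 5 6) 0 0 (step_sound _ 36 [rh064b7adbe1cfe68f, (rh55afc6a59410cf00.shift 3 0)] (by decide +kernel))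
noncomputable def rhbb33178ae52f4cf1 : CRef := CRef.mk (Pat.mk 0x1800000018000000100000000000000000 0xc0000000c0000001c000000380000001f0000000c0000000c 5 6) 0 0 (step_sound _ 163 [(rh2145e1d24b96a57e.shift 3 2), rhbd3bbf04399bfbf2] (by decide +kernel))
noncomputable def rh9109b25900d7e4c5 : CRef := CRef.mk (Pat.mk 0x1800000038000000100000000000000000 0x800000008000000180000003f0000003f0000000400000004 5 6) 0 0 (step_sound _ 163 [(rh2145e1d24b96a57e.shift 3 2), rhaa8d407810ab006e] (by decide +kernel))
noncomputable def rh65332554cc68bd31 : CRef := CRef.mk (Pat.mk 0x18000000380000000000000000 0x8000000080000001e0000003f0000007700000004 5 7) 0 0 (step_sound _ 98 [rh577cfffe9ccbe943, (rhb739f4f82bb681b4.shift 1 2)] (by decide +kernel))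
noncomputable def rh5ffbd44f21be049e : CRef := CRef.mk (Pat.mk 0xe0000000c000000080000000c00000000 0x20000000e0000000c0000003c0000001f00000012 5 6) 0 0 (step_sound _ 36 [(rh55afc6a59410cf00.shift 3 0), rh96e9d4b88cd9f2e7] (by decide +kernel))
noncomputable def rh56a93a661fcfd449 : CRef := CRef.mk (Pat.mk 0xc0000000c000000440000000c00000000 0xc0000000c0000006f0000003e00000072 5 7) 0 0 (step_sound _ 33 [(rh932754581e0f4330.shift 1 0), rhaa949e9a0bbf6d6e] (by decide +kernel))
noncomputable def rhe6729dea6088f28e : CRef := CRef.mk (Pat.mk 0x180000000c0000000c00000000 0x1800000018000000180000000f0000003c00000008 5 6) 0 0 (step_sound _ 65 [(rh53b3c253cb0c65f4.shift 0 2), (rhe8cadfe0dda5d62d.shift 1 0)] (by decide +kernel))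
noncomputable def rh7330e3cb934f8946 : CRef := CRef.mk (Pat.mk 0x3000000018000000080000000800000000 0x8000000080000000c0000003f0000001f0000001c0000000c00000004 5 6) 0 0 (step_sound _ 131 [(rhea90e7358341a1a4.shift 2 0), (rhf37c6fa7e7b4e7c2.shift 0 1)] (by decide +kernel))
noncomputable def rhd5336696c99a0473 : CRef := CRef.mk (Pat.mk 0x3000000018000000080000001800000000 0x40000003f0000001f000000080000001800000010 5 6) 0 0 (step_sound _ 131 [(rh55afc6a59410cf00.shift 3 0), (rhf37c6fa7e7b4e7c2.shift 0 1)] (by decide +kernel))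
noncomputable def rhc59aaa550078c212 : CRef := CRef.mk (Pat.mk 0xc00000004000000220000000400000000 0x80000000c00000004000000370000001e0000000a 5 6) 0 0 (step_sound _ 66 [(rh2f68792b6b779e96.shift 2 1), rhb327c1a16f903a99] (by decide +kernel))
noncomputable def rhccf8561f065d4b1b : CRef := CRef.mk (Pat.mk 0x180000000c0000004400000000 0x1800000018000000180000000f0000007c00000018 5 7) 0 0 (step_sound _ 65 [(rh27cad864287abf00.shift 2 0), (rh53b3c253cb0c65f4.shift 0 2)] (by decide +kernel))
noncomputable def rh7f0b7dfa09188ce2 : CRef := CRef.mk (Pat.mk 0x200000012000000030000001000000000 0x50000000f0000001e000000030000001e00000004 5 5) 0 0 (step_sound _ 99 [(rhb2a0b9ccfb5cecd5.shift 0 2), rhee125f5a1648a3e2] (by decide +kernel))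
noncomputable def rh494981b3eec18451 : CRef := CRef.mk (Pat.mk 0xc0000000c000000440000000c00000000 0xc0000000c0000006f0000003e00000072 5 7) 0 0 (step_sound _ 33 [(rh932754581e0f4330.shift 1 0), rhbce3994acefff466] (by decide +kernel))
noncomputable def rhf3c3448e0bb57ece : CRef := CRef.mk (Pat.mk 0x120000000300000003 0x70000000f0000001e0000000300000003 5 5) 0 0 (step_sound _ 97 [rh5c5e593799055d58, rhd570a51be978f92b] (by decide +kernel))
noncomputable def rh70288a8bc4f6be88 : CRef := CRef.mk (Pat.mk 0x12000000030000000600000000 0x50000000f0000001e000000030000000600000004 5 5) 0 0 (step_sound _ 129 [(rh55afc6a59410cf00.shift 1 0), (rhd570a51be978f92b.shift 0 1)] (by decide +kernel))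
noncomputable def rh161c003cd166b8ec : CRef := CRef.mk (Pat.mk 0x800000008000000080000000800000000 0x800000008000000080000000f0000003c00000014 5 6) 0 0 (step_sound _ 34 [rh361b7d07b7d79d82, (rh932754581e0f4330.shift 2 0)] (by decide +kernel))
noncomputable def rh1f026b08538b99bf : CRef := CRef.mk (Pat.mk 0xe0000001e000000000000000000000000 0xa0000000e0000001e000000070000000600000006 5 5) 0 0 (step_sound _ 65 [(rhbd4c2f053dfeea43.shift 1 0), (rheb0810cc63b001d8.shift 0 2)] (by decide +kernel))
noncomputable def rh623d34a362cd1de8 : CRef := CRef.mk (Pat.mk 0xc0000000e000000120000001200000000 0x20000000e0000000e0000001e0000003f0000000d 5 6) 0 0 (step_sound _ 66 [rh3d6958a8460625bc, (rha0ef1fdc060fd5f1.shift 1 0), (rhcaa7ba44a31c4370.shift 0 1)] (by decide +kernel))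
noncomputable def rh38e9b2b287d8d5ac : CRef := CRef.mk (Pat.mk 0x1800000038000000000000000000000000 0x1000000010000000180000003f000000770000002000000020 5 7) 0 0 (step_sound _ 98 [(rh84970c2ccb9fe470.shift 2 0), (rhcc2be1f880c5ea3e.shift 0 2), (rhe153806bfe3acc65.shift 0 2)] (by decide +kernel))
noncomputable def rh69e9e5818b2a6b7a : CRef := CRef.mk (Pat.mk 0xc0000001c000000080000001800000000 0x20000000f0000001c0000000f0000003c00000004 5 6) 0 0 (step_sound _ 34 [(rh0e8127070d63b4a2.shift 0 1), (rh932754581e0f4330.shift 2 0)] (by decide +kernel))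
noncomputable def rh56c4d967d40da13a : CRef := CRef.mk (Pat.mk 0x20000000600000006000000000000000000000000 0x200000003000000030000000700000007000000030000000300000003 5 3) 0 0 (step_sound _ 65 [rh46530d756bdf8511, (rhbd1553ade3ecbf42.shift 0 1), rhc4526fc8abf298b6, rhdf997f77704b6375] (by decide +kernel))
noncomputable def rh4e07029935d11114 : CRef := CRef.mk (Pat.mk 0xc0000001c000000080000001c 0x20000000f0000001c0000001f0000007c 5 7) 0 0 (step_sound _ 97 [rh18ac09fdec8bd05d, (rhb739f4f82bb681b4.shift 0 2)] (by decide +kernel))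
noncomputable def rh8685978e3e7ace93 : CRef := CRef.mk (Pat.mk 0x40000000c0000001c000000080000000000000000 0x60000000f0000001c0000000f0000000600000006 5 5) 0 0 (step_sound _ 129 [rh5c6621e072cc1b67, (rhb739f4f82bb681b4.shift 0 3)] (by decide +kernel))
noncomputable def rh6b5f39eac77d97f0 : CRef := CRef.mk (Pat.mk 0xc0000000c000000180000000000000000 0x80000003c0000000f000000180000001800000018 5 6) 0 0 (step_sound _ 97 [(rh934c2297862cf801.shift 1 0), (rhb739f4f82bb681b4.shift 0 2)] (by decide +kernel))
noncomputable def rh6d939f636fb17a9e : CRef := CRef.mk (Pat.mk 0x8000000080000001800000030000000000000000000000000 0x40000000c0000001c0000001f0000003f0000000c0000000800000008 5 6) 0 0 (step_sound _ 99 [(rh544fd3f279a4d968.shift 2 0), (rhfd68868dd6d945e5.shift 0 2)] (by decide +kernel))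
noncomputable def rh88404dfd45f81dc0 : CRef := CRef.mk (Pat.mk 0x1800000008000000180000003000000000 0x1000000018000000080000001f0000003f00000004 5 6) 0 0 (step_sound _ 35 [(rh2f68792b6b779e96.shift 3 1), rhfd68868dd6d945e5] (by decide +kernel))
noncomputable def rh990803f6d6d788b5 : CRef := CRef.mk (Pat.mk 0x400000022000000040000000c00000000 0xa0000001e00000037000000040000000c00000008 5 6) 0 0 (step_sound _ 98 [(rh51f1467e598c322f.shift 0 1), (rh55afc6a59410cf00.shift 2 0)] (by decide +kernel))
noncomputable def rh48101da350c59c19 : CRef := CRef.mk (Pat.mk 0x440000000c000000180000000000000000 0x180000007c0000000f000000180000001800000018 5 7) 0 0 (step_sound _ 97 [(rha47388d92edd01b5.shift 2 0), (rhb739f4f82bb681b4.shift 0 2)] (by decide +kernel))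
noncomputable def rhfde46ad05629591f : CRef := CRef.mk (Pat.mk 0x1000000003000000120000000200000000 0x40000001e000000030000001e0000000f00000005 5 5) 0 0 (step_sound _ 67 [rh0bbbf9a67ed808e0, (rh5419adcd928dba20.shift 0 2)] (by decide +kernel))
noncomputable def rh46d5bdedb4ebc2f9 : CRef := CRef.mk (Pat.mk 0xc000000080000000c0000000e00000000 0x120000001f0000003c0000000c0000000e00000002 5 6) 0 0 (step_sound _ 132 [(rh2f68792b6b779e96.shift 3 1), rhc3a9559c72b00d0b] (by decide +kernel))
noncomputable def rha2cb941078f8a551 : CRef := CRef.mk (Pat.mk 0xc000000440000000c0000000c 0x720000003e0000006f0000000c0000000c 5 7) 0 0 (step_sound _ 97 [(rh50fbb5868c909700.shift 1 0), rh63f440de99f9a65b] (by decide +kernel))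
noncomputable def rhed415b9bef8c31ec : CRef := CRef.mk (Pat.mk 0x300000003000000120000000000000000 0x3000000030000001e0000000f00000007 5 5) 0 0 (step_sound _ 33 [rh7b1f1fb55310c477, rhc4e3c40b2115f7d4] (by decide +kernel))
noncomputable def rhc7890503418409ac : CRef := CRef.mk (Pat.mk 0x600000003000000120000000000000000 0x400000006000000030000001e0000000f00000005 5 5) 0 0 (step_sound _ 33 [(rh2f68792b6b779e96.shift 1 1), rhc4e3c40b2115f7d4] (by decide +kernel))
noncomputable def rh4a5e3b3d46d8da94 : CRef := CRef.mk (Pat.mk 0x12000000120000000e0000000c00000000 0xd0000003f0000001e0000000e0000000e00000002 5 6) 0 0 (step_sound _ 98 [(rh12d50e65fdd458b1.shift 0 3), (rh5b0f9262ed76df6f.shift 1 1), rh779905d92e259b46] (by decide +kernel))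
noncomputable def rh8e056e79f3a940c9 : CRef := CRef.mk (Pat.mk 0x38000000180000000000000000 0x2000000020000000770000003f000000180000001000000010 5 7) 0 0 (step_sound _ 98 [(rh6eb76252a9026692.shift 2 0), (rhba89ab7cb81bcc90.shift 0 2), (rhe25191970535449e.shift 0 2)] (by decide +kernel))
noncomputable def rhad590f0693506156 : CRef := CRef.mk (Pat.mk 0xc0000000c0000000c 0x18000000780000001f0000000c0000000c 5 7) 0 0 (step_sound _ 99 [(rh5c5e593799055d58.shift 2 0), rhc9613fc5bab58382] (by decide +kernel))
noncomputable def rhbb6731dccd190410 : CRef := CRef.mk (Pat.mk 0x18000000080000001c0000000c00000000 0x40000003c0000000f0000001c0000000f00000002 5 6) 0 0 (step_sound _ 130 [rh376ceaca89a17906, (rh50fbb5868c909700.shift 2 1)] (by decide +kernel))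
noncomputable def rh4224daa486c73048 : CRef := CRef.mk (Pat.mk 0x600000006000000020000000000000000 0x300000003000000030000000700000007000000030000000300000002 5 3) 0 0 (step_sound _ 161 [rh674dd4f5f6cca5c0, (rh771d065bdc85bf2d.shift 0 1), (rh7b9fbdf6d2d059e4.shift 0 2), (rh925a1628dd8a50da.shift 0 1)] (by decide +kernel))
noncomputable def rh9de1b8e724dda612 : CRef := CRef.mk (Pat.mk 0x1c000000080000001c0000000c00000000 0x7c0000001f0000001c0000000f00000002 5 7) 0 0 (step_sound _ 33 [rh306af9a6dde1f05a, (rh53b3c253cb0c65f4.shift 0 1)] (by decide +kernel))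
noncomputable def rh55715cabf57189a9 : CRef := CRef.mk (Pat.mk 0x80000001c0000000c00000004 0x6000000060000000f0000001c0000000f00000006 5 5) 0 0 (step_sound _ 33 [rh236fbfb40f14a851, (rh53b3c253cb0c65f4.shift 0 1)] (by decide +kernel))
noncomputable def rh964f75781a0ff979 : CRef := CRef.mk (Pat.mk 0x18000000180000000800000000 0xc0000001c0000001f000000380000001c0000000c00000004 5 6) 0 0 (step_sound _ 132 [(rh5c5e593799055d58.shift 3 1), rh7af209439ba41089] (by decide +kernel))
noncomputable def rh555130c76c8b7190 : CRef := CRef.mk (Pat.mk 0xc0000000c00000008 0x1c0000001c0000003c0000000f0000000c00000008 5 6) 0 0 (step_sound _ 99 [(rh1741680720c097b4.shift 2 0), rh20ee5c2c4c3a9878, (rh5fa50b509d4ce753.shift 2 0), (rh7f9f3607ee25a93b.shift 2 0)] (by decide +kernel))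
noncomputable def rh6076add87d5fdaa7 : CRef := CRef.mk (Pat.mk 0x1e000000000000000000000000 0x4000000070000003e000000030000000200000002 5 6) 0 0 (step_sound _ 129 [rh0932b8145dafe2b1, (rh3244c3cc8379b070.shift 0 3)] (by decide +kernel))
noncomputable def rh13137cf09624ee38 : CRef := CRef.mk (Pat.mk 0x40000003c0000001c0000000800000000 0x20000000280000006c0000003c0000001c0000000f00000006 5 7) 0 0 (step_sound _ 133 [(rh33e738c4ed385b9f.shift 2 3), rh89d9db27e43334f5] (by decide +kernel))
noncomputable def rhd356a1540e9e6649 : CRef := CRef.mk (Pat.mk 0x80000003c0000001c0000000000000000 0xe0000003c0000001c0000000f0000000e 5 6) 0 0 (step_sound _ 34 [(rh71222050f2c63a3a.shift 2 0), rhb10f4d24ac97a26c] (by decide +kernel))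
noncomputable def rha395f170aa68ad4b : CRef := CRef.mk (Pat.mk 0x1800000018000000100000001800000000 0x18000000180000003e0000007f00000024 5 7) 0 0 (step_sound _ 37 [rh04b16dac58336647, (rh55afc6a59410cf00.shift 4 0)] (by decide +kernel))
noncomputable def rh4c67b88907bf96e2 : CRef := CRef.mk (Pat.mk 0x100000001800000018000000180000000000000000 0x10000000180000001f0000003f0000002700000004 5 6) 0 0 (step_sound _ 69 [(rh55afc6a59410cf00.shift 4 1), rh66308995486c6adc] (by decide +kernel))
noncomputable def rha235d9c8b0766a92 : CRef := CRef.mk (Pat.mk 0x4000000260000002700000020 0x12000000120000001e0000003e0000003700000021 5 6) 0 0 (step_sound _ 68 [(rh361cc68994bd8a63.shift 0 1), rhcbec6b940adb7d73] (by decide +kernel))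
noncomputable def rh62cfc7c12632b82d : CRef := CRef.mk (Pat.mk 0x1a0000001e000000000000000000000000 0xb0000000b0000001e0000001e000000070000000400000004 5 5) 0 0 (step_sound _ 65 [rh96b6bfc5eaf98210, (rheb0810cc63b001d8.shift 0 2)] (by decide +kernel))
noncomputable def rh535f56b42b556c60 : CRef := CRef.mk (Pat.mk 0x80000000c0000000c000000000000000000000000 0x140000003c0000000f0000000c000000180000001800000018 5 6) 0 0 (step_sound _ 67 [(rh20ee5c2c4c3a9878.shift 0 2), (rh3cb04db3dd2b6a55.shift 2 0), (rh820d4e04d5dcd02e.shift 2 0), (rhfc7c29d8e65d775f.shift 2 1)] (by decide +kernel))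
noncomputable def rh27dd67608abe571a : CRef := CRef.mk (Pat.mk 0x4000000080000001c0000000e00000008 0x6000000160000003b0000001e0000000e00000008 5 6) 0 0 (step_sound _ 100 [(rh2cbd2c3a155e12b7.shift 0 1), (rh2f68792b6b779e96.shift 3 0)] (by decide +kernel))
noncomputable def rhc027ac8885eb5463 : CRef := CRef.mk (Pat.mk 0x800000008000000180000001c000000000000000000000000 0x40000000c0000001c000000180000001f000000080000000800000008 5 5) 0 0 (step_sound _ 97 [(rh53b3c253cb0c65f4.shift 0 3), (rh544fd3f279a4d968.shift 2 0)] (by decide +kernel))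
noncomputable def rh8f345ec23673ea43 : CRef := CRef.mk (Pat.mk 0x1100000003000000020000000200000000 0x200000006000000060000001f00000003000000070000000600000004 5 5) 0 0 (step_sound _ 129 [(rh04e571695666b5c1.shift 0 1), (rh25208373db83e521.shift 1 0), rh330f820e7f44bd5b] (by decide +kernel))
noncomputable def rhfb6b7cece388d322 : CRef := CRef.mk (Pat.mk 0x8000000180000001e0000001e00000000 0x60000000f0000001b0000001e0000001e00000003 5 5) 0 0 (step_sound _ 1 [(rhb565b03594c9dec9.shift 0 1), rheb0810cc63b001d8] (by decide +kernel))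
noncomputable def rh7c6fae2a6884f4f3 : CRef := CRef.mk (Pat.mk 0x18000000080000000c0000000c 0x70000001f0000003b0000000e0000000c 5 6) 0 0 (step_sound _ 98 [rh3e039e30505c062d, (rh50fbb5868c909700.shift 2 0)] (by decide +kernel))
noncomputable def rhca6ff0b9ac402de6 : CRef := CRef.mk (Pat.mk 0x400000004000000340000002400000020 0x1a0000001f0000001e000000340000003400000020 5 6) 0 0 (step_sound _ 129 [rh4876ea08c31b92ca, (rh50fbb5868c909700.shift 1 1)] (by decide +kernel))
noncomputable def rh4c011db1ce950bab : CRef := CRef.mk (Pat.mk 0xc0000000c0000001800000008 0x800000018000000180000001c0000000f0000001c00000008 5 5) 0 0 (step_sound _ 65 [(rh028809442a7beef4.shift 2 0), (rhb739f4f82bb681b4.shift 0 1)] (by decide +kernel))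
noncomputable def rh9e442e72b44c4fc2 : CRef := CRef.mk (Pat.mk 0x400000008000000180000000c00000000 0x40000000f0000001e0000000f0000000a 5 5) 0 0 (step_sound _ 98 [rh66be565731889092, (rh7b1f1fb55310c477.shift 2 0)] (by decide +kernel))
noncomputable def rh6c5dbd4f1b7b7bf2 : CRef := CRef.mk (Pat.mk 0xc00000008000000180000001e00000000 0x100000003c0000000f0000001c0000001e00000003 5 6) 0 0 (step_sound _ 132 [(rh2f68792b6b779e96.shift 3 1), rh6a4d800e94adb468] (by decide +kernel))
noncomputable def rh921af43d3ba4d0b9 : CRef := CRef.mk (Pat.mk 0x80000001800000018000000000000000000000000 0x40000000c0000001c000000380000001f0000001c0000000c 5 6) 0 0 (step_sound _ 68 [(rh7b1f1fb55310c477.shift 3 1), rhbd3bbf04399bfbf2] (by decide +kernel))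
noncomputable def rh53f3e6031473637a : CRef := CRef.mk (Pat.mk 0x80000000c0000000c000000000000000000000000 0x80000000c0000000f0000003c0000001c0000001c 5 6) 0 0 (step_sound _ 67 [(rh0b0198cd56a23f60.shift 0 1), (rh53e41f96b2b88c97.shift 2 0), (rh6eff4158bb400f47.shift 2 0), (rh820d4e04d5dcd02e.shift 2 0)] (by decide +kernel))
noncomputable def rhf6485e53c27dead8 : CRef := CRef.mk (Pat.mk 0x80000001c0000003c000000040000000000000000 0x60000000f0000001c0000003c0000006c0000002800000020 5 7) 0 0 (step_sound _ 69 [rh0a7d651e6a98f2cf, (rhe25b0a99195a5d59.shift 2 2)] (by decide +kernel))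
noncomputable def rh851ba3bb292a7d11 : CRef := CRef.mk (Pat.mk 0x1c0000003c00000008 0xe0000000f0000001c0000003c0000000e 5 6) 0 0 (step_sound _ 98 [(rh2145e1d24b96a57e.shift 2 0), rh76193cbf6b71e3ce] (by decide +kernel))
noncomputable def rh1a62a12c8eba3779 : CRef := CRef.mk (Pat.mk 0x18000000180000001800000010 0x4000000270000003f0000001f0000001800000010 5 6) 0 0 (step_sound _ 101 [(rh20595ccdccbf31d9.shift 0 1), (rh2f68792b6b779e96.shift 4 0)] (by decide +kernel))
noncomputable def rh39b258f71cdd1414 : CRef := CRef.mk (Pat.mk 0x200000002700000026000000040000000000000000 0x21000000370000003e0000001e0000001200000012 5 6) 0 0 (step_sound _ 100 [(rh2fe78cc5ca4405d8.shift 0 3), rh44375dcd393fca89] (by decide +kernel))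
noncomputable def rhb09f7bd880adef19 : CRef := CRef.mk (Pat.mk 0x1e0000001a0000000000000000 0x400000004000000070000001e0000001e0000000b0000000b 5 5) 0 0 (step_sound _ 129 [(rh3244c3cc8379b070.shift 0 3), rhe81c66e6b97ae1e3] (by decide +kernel))
noncomputable def rhf75cf0fbd7efeb71 : CRef := CRef.mk (Pat.mk 0xc0000000c0000000800000000 0x1800000018000000180000000c0000000f0000003c00000014 5 6) 0 0 (step_sound _ 131 [rh0b0198cd56a23f60, (rh1e309b005ffa1b36.shift 2 0), (rh503dd4575245365b.shift 2 1), (rh5fa50b509d4ce753.shift 2 1)] (by decide +kernel))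
noncomputable def rh3e1a4e50597d43ff : CRef := CRef.mk (Pat.mk 0x80000000e0000001c000000080000000400000000 0x80000000e0000001e0000003b0000001600000006 5 6) 0 0 (step_sound _ 68 [(rh55afc6a59410cf00.shift 3 1), rhf46eab6356bde13e] (by decide +kernel))
noncomputable def rh766276261768fa70 : CRef := CRef.mk (Pat.mk 0x1c00000018000000080000000800000000 0x800000008000000080000001f000000180000001c0000000c00000004 5 5) 0 0 (step_sound _ 129 [(rhb739f4f82bb681b4.shift 0 3), (rhea90e7358341a1a4.shift 2 0)] (by decide +kernel))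
noncomputable def rhfe1f49b4c4a2a3f6 : CRef := CRef.mk (Pat.mk 0x2000000020000000300000011000000000000000000000000 0x40000000600000007000000030000001f000000060000000600000002 5 5) 0 0 (step_sound _ 97 [rh3502d92c6cce609b, (rhc9de03f9731897d4.shift 1 1), (rhf8edb192cdea7ada.shift 0 2)] (by decide +kernel))
noncomputable def rha0b6fd1ae990bd85 : CRef := CRef.mk (Pat.mk 0x1e0000001e000000180000000800000000 0x30000001e0000001e0000001b0000000f00000006 5 5) 0 0 (step_sound _ 161 [(rh3244c3cc8379b070.shift 0 4), rh8a8269f6d03330dc] (by decide +kernel))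
noncomputable def rh336601f414fcb0c7 : CRef := CRef.mk (Pat.mk 0xc0000000c000000080000001800000000 0xc0000000e0000003b0000001f00000007 5 6) 0 0 (step_sound _ 34 [rh1d9b563ceb4b1ed0, (rh932754581e0f4330.shift 2 0)] (by decide +kernel))
noncomputable def rhc9e10ea17a2a6fbe : CRef := CRef.mk (Pat.mk 0x200000002400000034000000040000000400000000 0x2000000034000000340000001e0000001f0000001a 5 6) 0 0 (step_sound _ 33 [(rh932754581e0f4330.shift 1 0), rha5a496d8a2ce15d5] (by decide +kernel))
noncomputable def rhd627aa265723db1c : CRef := CRef.mk (Pat.mk 0x8000000180000000c0000000c000000000000000000000000 0x80000001c0000000f0000001c000000180000001800000008 5 5) 0 0 (step_sound _ 129 [(rh4f66b8b299b10e60.shift 2 0), (rh53b3c253cb0c65f4.shift 0 4)] (by decide +kernel))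
noncomputable def rh83c61ce9bffbea83 : CRef := CRef.mk (Pat.mk 0xc000000180000000800000004 0xa0000000f0000001e0000000f00000004 5 5) 0 0 (step_sound _ 34 [(rh5c5e593799055d58.shift 2 0), rhfb7a1ccd3842fdc2] (by decide +kernel))
noncomputable def rh4a84ee6de58f9772 : CRef := CRef.mk (Pat.mk 0x1e00000018000000080000000c00000000 0x30000001e0000001c0000000f0000003c00000010 5 6) 0 0 (step_sound _ 36 [(rh55afc6a59410cf00.shift 3 0), (rh6fb36688710dc1cc.shift 0 1)] (by decide +kernel))
noncomputable def rh524e314e12e28fa7 : CRef := CRef.mk (Pat.mk 0x80000001a0000008800000004 0x8000000080000001b000000ff00000006 5 8) 0 0 (step_sound _ 34 [(rh5c5e593799055d58.shift 2 0), rh69c106917011e488] (by decide +kernel))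
noncomputable def rhbca44de9c1a665ee : CRef := CRef.mk (Pat.mk 0xa000000180000000e00000004 0x10000000330000001f0000001a0000000e00000004 5 6) 0 0 (step_sound _ 98 [rh2f487d89e467c1ec, (rhb739f4f82bb681b4.shift 0 2)] (by decide +kernel))
noncomputable def rhe1f0e66d0c8c7a86 : CRef := CRef.mk (Pat.mk 0x1a0000001300000013 0x80000000e0000000f0000001a0000001b00000013 5 5) 0 0 (step_sound _ 97 [rh4ebd90bd92772a20, rh5c5e593799055d58] (by decide +kernel))
noncomputable def rh6309ffb16c0441a7 : CRef := CRef.mk (Pat.mk 0xc0000001c0000000c0000000000000000 0x40000000c0000001c0000001f0000003300000010 5 6) 0 0 (step_sound _ 65 [(rh53b3c253cb0c65f4.shift 0 2), rhc5b3fe51a0686e3b] (by decide +kernel))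
noncomputable def rh27b44a0202980be0 : CRef := CRef.mk (Pat.mk 0x300000002000000020000000000000000 0x30000000300000002000000070000000700000005 5 3) 0 0 (step_sound _ 33 [(rh50fbb5868c909700.shift 0 1), rhc9ac229b3c77cd55] (by decide +kernel))
noncomputable def rh948bbd228a23e81f : CRef := CRef.mk (Pat.mk 0x1e0000001a00000010 0x200000002000000030000001e0000001e00000037 5 6) 0 0 (step_sound _ 34 [(rhe25b0a99195a5d59.shift 1 0), rhf221f952be3bc70e] (by decide +kernel))
noncomputable def rhdb26178b865bfe04 : CRef := CRef.mk (Pat.mk 0x1800000038000000000000000000000000 0x8000000080000001c0000003f000000770000000400000004 5 7) 0 0 (step_sound _ 98 [(rhcc2be1f880c5ea3e.shift 0 2), (rhe153806bfe3acc65.shift 0 2), (rhee7dc6826bc99ade.shift 1 0)] (by decide +kernel))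
noncomputable def rhb7d54fcdc47cf41f : CRef := CRef.mk (Pat.mk 0x980000001800000008 0x400000007000000ff0000001f00000008 5 8) 0 0 (step_sound _ 69 [(rh361cc68994bd8a63.shift 3 1), rh5d9b544e5d59a29d] (by decide +kernel))
noncomputable def rh2cfa9e9021b09755 : CRef := CRef.mk (Pat.mk 0xc0000001c000000180000000800000000 0x20000000f0000001c0000001c0000000f00000006 5 5) 0 0 (step_sound _ 129 [rha7e63793ac992cd7, (rhb739f4f82bb681b4.shift 0 3)] (by decide +kernel))
noncomputable def rh82d74fa7e4e9dd9d : CRef := CRef.mk (Pat.mk 0x980000001800000010 0x200000002000000077000000ff0000001800000010 5 8) 0 0 (step_sound _ 69 [(rh361cc68994bd8a63.shift 3 1), rhbd1729a7c00d4f1f] (by decide +kernel))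
noncomputable def rhfc71e6586508b315 : CRef := CRef.mk (Pat.mk 0x180000000c0000000400000004 0x2000000020000003b0000001f0000000600000004 5 6) 0 0 (step_sound _ 65 [(rh53b3c253cb0c65f4.shift 0 2), rhff426caa39996863] (by decide +kernel))
noncomputable def rh151270015baf7fb8 : CRef := CRef.mk (Pat.mk 0x2000000120000001300000012 0x80000000c0000000f0000001e0000001b00000012 5 5) 0 0 (step_sound _ 67 [rh4ebd90bd92772a20, (rhb2a0b9ccfb5cecd5.shift 0 1)] (by decide +kernel))
noncomputable def rhda1cb877a2b193c5 : CRef := CRef.mk (Pat.mk 0x180000001a000000180000000000000000 0x180000001f0000001f0000003000000030 5 6) 0 0 (step_sound _ 98 [(rhb739f4f82bb681b4.shift 0 2), rhee2f2527188aceae] (by decide +kernel))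
noncomputable def rh18bd90a18596a293 : CRef := CRef.mk (Pat.mk 0x180000001e000000180000000000000000 0x30000000300000001f0000001e000000180000001000000010 5 6) 0 0 (step_sound _ 36 [(rh7b1f1fb55310c477.shift 3 0), (rha2b37da49d51aaf0.shift 0 2)] (by decide +kernel))
noncomputable def rh3ef85b3256d22afa : CRef := CRef.mk (Pat.mk 0x10000000180000001a0000001800000030 0x20000000300000001f0000001e0000001f00000030 5 6) 0 0 (step_sound _ 33 [(rhab22b5b56e7b3243.shift 1 0), (rhc2ab03e1b0c4d423.shift 0 1)] (by decide +kernel))
noncomputable def rh244b94be7b9ece43 : CRef := CRef.mk (Pat.mk 0x1c0000000e0000000c 0x1a0000003b0000001e0000000e0000000c 5 6) 0 0 (step_sound _ 99 [(rh5c5e593799055d58.shift 2 0), rh95038703d14cdbe3] (by decide +kernel))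
noncomputable def rh4df73a097f5e9d23 : CRef := CRef.mk (Pat.mk 0x4c0000000c0000000c 0x18000000380000007f0000000c0000000c 5 7) 0 0 (step_sound _ 99 [(rh5c5e593799055d58.shift 2 0), rh83f358df21e4124f] (by decide +kernel))
noncomputable def rh64a783a8a2534a41 : CRef := CRef.mk (Pat.mk 0x200000002000000020000000300000002 0x100000003000000030000000600000006000000070000000300000002 5 3) 0 0 (step_sound _ 161 [rh0319fff1212f577b, (rh79877ebd3ef475dd.shift 0 1)] (by decide +kernel))
noncomputable def rh8ddf6776f98bb77a : CRef := CRef.mk (Pat.mk 0xc00000006000000020000000200000000 0x10000001b0000000f00000006000000070000000700000005 5 5) 0 0 (step_sound _ 129 [(rh62be5c716da4c399.shift 1 0), rh654a5d57fd8b9734, rh771d065bdc85bf2d] (by decide +kernel))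
noncomputable def rh6c67488fcbfe5f66 : CRef := CRef.mk (Pat.mk 0x4000000880000001a0000000800000000 0x6000000ff0000001b0000000800000008 5 8) 0 0 (step_sound _ 98 [(rh7b1f1fb55310c477.shift 2 0), (rhd79951b7e7cb3972.shift 0 2)] (by decide +kernel))
noncomputable def rh29e5722a7f50ef34 : CRef := CRef.mk (Pat.mk 0x40000000e000000180000000a0000000000000000 0x40000000e0000001a0000001f0000003300000010 5 6) 0 0 (step_sound _ 66 [(rh53b3c253cb0c65f4.shift 0 2), rhc53f9fe7f57ba697] (by decide +kernel))
noncomputable def rh8c6f76a968dca36a : CRef := CRef.mk (Pat.mk 0x13000000130000001a000000000000000000000000 0x130000001b0000001a0000000f0000000e00000008 5 5) 0 0 (step_sound _ 65 [rh5c735efb546c43d8, (rh7b1f1fb55310c477.shift 0 1)] (by decide +kernel))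
noncomputable def rhf9c595df43fc9926 : CRef := CRef.mk (Pat.mk 0xc0000001c0000000c00000000 0x10000000330000001f0000001c0000000c00000004 5 6) 0 0 (step_sound _ 97 [rh7047dba8614dda66, (rhb739f4f82bb681b4.shift 0 2)] (by decide +kernel))
noncomputable def rhb99f8f6e6677b04f : CRef := CRef.mk (Pat.mk 0x2000000020000000300000000 0x50000000700000007000000020000000300000003 5 3) 0 0 (step_sound _ 129 [rh00c644645561e9be, rh932754581e0f4330] (by decide +kernel))
noncomputable def rhb20aac79f1149244 : CRef := CRef.mk (Pat.mk 0x38000000180000000000000000 0x400000004000000770000003f0000001c0000000800000008 5 7) 0 0 (step_sound _ 98 [(rhaa738e8eddf7e18b.shift 1 0), (rhba89ab7cb81bcc90.shift 0 2), (rhe25191970535449e.shift 0 2)] (by decide +kernel))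
noncomputable def rh3f27d278502c088f : CRef := CRef.mk (Pat.mk 0x800000018000000980000000000000000 0x80000001f000000ff0000000700000004 5 8) 0 0 (step_sound _ 69 [rh1ee6fca8f7941981, (rh2fe78cc5ca4405d8.shift 3 2)] (by decide +kernel))
noncomputable def rhb4ba3c23d367a717 : CRef := CRef.mk (Pat.mk 0x8000000180000001c0000000c00000000 0x60000000f0000001c0000001c0000000f00000002 5 5) 0 0 (step_sound _ 33 [rh227a46cdd402ca16, (rh53b3c253cb0c65f4.shift 0 1)] (by decide +kernel))
noncomputable def rh8fea55a87ae27512 : CRef := CRef.mk (Pat.mk 0x100000001800000098000000000000000000000000 0x1000000018000000ff000000770000002000000020 5 8) 0 0 (step_sound _ 101 [(rh2fe78cc5ca4405d8.shift 3 3), rha18e7c91109963bc] (by decide +kernel))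
noncomputable def rhff013096d521b805 : CRef := CRef.mk (Pat.mk 0x4000000040000000c000000180000000000000000 0x4000000060000001f0000003b0000000200000002 5 6) 0 0 (step_sound _ 97 [(rhb739f4f82bb681b4.shift 0 2), rhf7703d9737976b13] (by decide +kernel))
noncomputable def rhb074b82648017cfe : CRef := CRef.mk (Pat.mk 0x120000001300000012000000020000000000000000 0x120000001b0000001e0000000f0000000c00000008 5 5) 0 0 (step_sound _ 99 [(rh5419adcd928dba20.shift 0 3), rh5c735efb546c43d8] (by decide +kernel))
noncomputable def rhcfc32c0662b2105e : CRef := CRef.mk (Pat.mk 0x180000001a00000018 0x30000000300000001f0000001f00000018 5 6) 0 0 (step_sound _ 34 [(rh53b3c253cb0c65f4.shift 0 1), rha2b37da49d51aaf0] (by decide +kernel))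
noncomputable def rh30631fb4c08bb71f : CRef := CRef.mk (Pat.mk 0x180000001e000000180000000000000000 0x1000000010000000180000001e0000001f0000003000000030 5 6) 0 0 (step_sound _ 164 [(rh5c5e593799055d58.shift 3 2), rhee2f2527188aceae] (by decide +kernel))
noncomputable def rhd1136665720b30d1 : CRef := CRef.mk (Pat.mk 0x30000000180000001a000000180000001000000000 0x300000001f0000001e0000001f0000003000000020 5 6) 0 0 (step_sound _ 129 [(rh24ae073cf30720c4.shift 1 4), rh62ff3fbd6319a3bd] (by decide +kernel))
noncomputable def rhfe01ebbf471ed921 : CRef := CRef.mk (Pat.mk 0xc0000000e0000001c0000000000000000 0xc0000000e0000001e0000003b0000001a 5 6) 0 0 (step_sound _ 35 [rh2090ae2add1536ae, (rh7b1f1fb55310c477.shift 2 0)] (by decide +kernel))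
noncomputable def rh4da28933022c17cc : CRef := CRef.mk (Pat.mk 0xc0000000c0000004c0000000000000000 0xc0000000c0000007f0000003800000018 5 7) 0 0 (step_sound _ 35 [(rh7b1f1fb55310c477.shift 2 0), rh85b49f3bce2e594d] (by decide +kernel))
noncomputable def rh0166d187857817ec : CRef := CRef.mk (Pat.mk 0x200000002000000060000000c0000000000000000 0x50000000700000007000000060000000f0000001b00000001 5 5) 0 0 (step_sound _ 65 [(rh612ef52cf48a41cc.shift 0 1), (rhb32faae6e8187273.shift 1 1), rhc4526fc8abf298b6] (by decide +kernel))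
noncomputable def rh36c29ac27f6c11e6 : CRef := CRef.mk (Pat.mk 0x80000001c000000040000003800000000 0x60000000f0000001c0000000c0000007c00000004 5 7) 0 0 (step_sound _ 67 [rhbc82adaadbf2c16f, (rhf48373e13d2bc128.shift 2 1)] (by decide +kernel))
noncomputable def rha4f1f1600994d031 : CRef := CRef.mk (Pat.mk 0xc0000000e000000180000000800000000 0x80000000c0000000e0000001b0000001f00000006 5 5) 0 0 (step_sound _ 34 [rh4f6041012a992d1e, (rh932754581e0f4330.shift 2 0)] (by decide +kernel))
noncomputable def rh3fa593463b88cf42 : CRef := CRef.mk (Pat.mk 0xc0000000e000000180000000800000000 0x3c0000000e0000001e0000000f00000006 5 6) 0 0 (step_sound _ 133 [rh3123287b48aef0cd, (rh361cc68994bd8a63.shift 1 3)] (by decide +kernel))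
noncomputable def rhb4a6e18e02a1acb7 : CRef := CRef.mk (Pat.mk 0x180000001a0000000800000004 0xa0000001f0000001b0000000f00000004 5 5) 0 0 (step_sound _ 34 [rh13f8617d7544d4b1, (rh5c5e593799055d58.shift 2 0)] (by decide +kernel))
noncomputable def rhafa64ccf0e3427d1 : CRef := CRef.mk (Pat.mk 0xc0000000e000000180000000800000000 0xc0000000e0000001b0000001f00000016 5 5) 0 0 (step_sound _ 34 [(rh932754581e0f4330.shift 2 0), rhe21cf8b1df011734] (by decide +kernel))
noncomputable def rhf3711a81227b0b0c : CRef := CRef.mk (Pat.mk 0x180000001c000000080000000800000000 0x70000001f0000001c0000000c0000000c00000004 5 5) 0 0 (step_sound _ 130 [rh4edb157f09354d7e, (rh50fbb5868c909700.shift 2 1)] (by decide +kernel))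
noncomputable def rh089bead2c0bb59a3 : CRef := CRef.mk (Pat.mk 0x180000000e0000000c 0xe0000000f0000001e0000000e0000000c 5 5) 0 0 (step_sound _ 99 [rh501207f89dcab93e, (rh5c5e593799055d58.shift 2 0)] (by decide +kernel))
noncomputable def rhf964fc5b57a9619f : CRef := CRef.mk (Pat.mk 0x10000000120000001a00000002000000000000000000000000 0x120000001a0000001a0000000f0000000b0000000900000001 5 5) 0 0 (step_sound _ 99 [rhde5b474548b482d7, (rhf9af042da61fc652.shift 3 1)] (by decide +kernel))
noncomputable def rh6dba9c436c8cba71 : CRef := CRef.mk (Pat.mk 0x8000000080000000c00000000 0x800000008000000080000000f0000003c00000014 5 6) 0 0 (step_sound _ 131 [rh0fc46964bf36b470, (rh932754581e0f4330.shift 2 0)] (by decide +kernel))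
noncomputable def rh8e4aaa8b9991ee54 : CRef := CRef.mk (Pat.mk 0x1c00000018000000000000001e00000000 0x1f0000001f000000030000001e00000003 5 5) 0 0 (step_sound _ 129 [rh8a1f0403f6889c03, (rhb739f4f82bb681b4.shift 0 3)] (by decide +kernel))
noncomputable def rhb25419b448e767b8 : CRef := CRef.mk (Pat.mk 0x3800000018000000180000000800000000 0x8000000380000001f0000001f0000000c00000004 5 6) 0 0 (step_sound _ 34 [(rh031efd0c1d4222ac.shift 0 1), (rh932754581e0f4330.shift 2 0)] (by decide +kernel))
noncomputable def rh12bc4b4b0585d7de : CRef := CRef.mk (Pat.mk 0x1000000000000000080000003800000008000000000000000000000000 0x140000001c0000000c000000080000003c0000000f000000040000000400000004 5 6) 0 0 (step_sound _ 98 [(rh1ed7a3503fa50fc8.shift 0 3), (rh4dd03d15956e18bf.shift 2 2), (rhfafeb437ceb8396d.shift 2 0)] (by decide +kernel))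
noncomputable def rh2f5ba7da041e58be : CRef := CRef.mk (Pat.mk 0x10000000120000001a00000002000000000000000000000000 0x120000001a0000001a0000000f0000000e0000000c00000004 5 5) 0 0 (step_sound _ 99 [rh794501743a61ce18, (rhf9af042da61fc652.shift 3 1)] (by decide +kernel))
noncomputable def rhfae2c36ff9126203 : CRef := CRef.mk (Pat.mk 0xc0000001c0000000c0000000000000000 0xc0000001e0000003f0000003300000012 5 6) 0 0 (step_sound _ 65 [(rh53b3c253cb0c65f4.shift 0 2), rhe758b50d40a7a7bf] (by decide +kernel))
noncomputable def rhfff9defbf7ff258e : CRef := CRef.mk (Pat.mk 0x200000002600000036000000040000000000000000 0x20000002200000036000000360000001f0000001300000013 5 6) 0 0 (step_sound _ 161 [(rh2145e1d24b96a57e.shift 1 2), rh5e5794ed45ae5668] (by decide +kernel))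
noncomputable def rhb7c0505f48595f23 : CRef := CRef.mk (Pat.mk 0x30000001200000002000000000000000000000000 0x1000000030000001f00000002000000030000000300000001 5 5) 0 0 (step_sound _ 130 [(rh2fe78cc5ca4405d8.shift 0 4), rh43d8dfd721575dfb] (by decide +kernel))
noncomputable def rh8679df43b0b72e47 : CRef := CRef.mk (Pat.mk 0x40000000c000000180000000c0000000000000000 0x40000000c0000001c0000001f0000003300000010 5 6) 0 0 (step_sound _ 65 [(rh53b3c253cb0c65f4.shift 0 2), rhe479c8b1c23ac11c] (by decide +kernel))
noncomputable def rha9c0814f47694856 : CRef := CRef.mk (Pat.mk 0x38000000040000001c0000000800000000 0x40000007c0000000c0000001c0000000f00000006 5 7) 0 0 (step_sound _ 99 [rh0b01da669bda3c44, (rh18965a982d73c794.shift 2 3)] (by decide +kernel))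
noncomputable def rh8cdc95fa188c33b6 : CRef := CRef.mk (Pat.mk 0x8000000180000000e0000000c00000000 0x60000001f0000001b0000000e0000000c00000008 5 5) 0 0 (step_sound _ 130 [(rh50fbb5868c909700.shift 2 1), rh5f1c29a01ddb2cd0] (by decide +kernel))
noncomputable def rh7a0689dcfeca7b5f : CRef := CRef.mk (Pat.mk 0x8000000180000000e0000000c 0x60000000f0000001e0000000e0000003c 5 6) 0 0 (step_sound _ 5 [(rh2fe78cc5ca4405d8.shift 1 0), rh501207f89dcab93e] (by decide +kernel))
noncomputable def rh33c668f4fe8f4f75 : CRef := CRef.mk (Pat.mk 0x4000000080000001a0000001800000000 0x40000000f0000001b0000001f0000000a 5 5) 0 0 (step_sound _ 98 [rh3c2aa4c676dc45fc, (rh7b1f1fb55310c477.shift 2 0)] (by decide +kernel))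
noncomputable def rh5e69dbad49dccf4d : CRef := CRef.mk (Pat.mk 0x8000000180000000e0000000c 0x160000001f0000001b0000000e0000000c 5 5) 0 0 (step_sound _ 98 [(rh50fbb5868c909700.shift 2 0), rh7113f685ac44ea2f] (by decide +kernel))
noncomputable def rh2b2a2906262d769a : CRef := CRef.mk (Pat.mk 0x8000000080000001c0000001800000000 0x40000000c0000000c0000001c0000001f00000007 5 5) 0 0 (step_sound _ 34 [rh2c477938a297ae1a, (rh932754581e0f4330.shift 2 0)] (by decide +kernel))
noncomputable def rhcc8ae2cac0a2d054 : CRef := CRef.mk (Pat.mk 0xc0000000e000000180000000000000000 0xc0000000e0000001e0000000f0000000e 5 5) 0 0 (step_sound _ 35 [rh3123287b48aef0cd, (rh7b1f1fb55310c477.shift 2 0)] (by decide +kernel))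
noncomputable def rh55b21ec330c97154 : CRef := CRef.mk (Pat.mk 0x20000001a0000001200000010 0x1000000090000000b0000000f0000001a0000001a00000012 5 5) 0 0 (step_sound _ 99 [rh46990448042cc692, (rhe072fffdd2fccf38.shift 3 0)] (by decide +kernel))
noncomputable def rh2de1ac2dd8f67323 : CRef := CRef.mk (Pat.mk 0x18000000300000001c0000000800000000 0xc0000001e000000340000001c0000000f00000002 5 6) 0 0 (step_sound _ 130 [rh94eecf20a5b238dd, (rhb739f4f82bb681b4.shift 1 3)] (by decide +kernel))
noncomputable def rh0e42de44541b09b1 : CRef := CRef.mk (Pat.mk 0x30000000200000002000000000000000000000000 0x5000000070000000600000002000000030000000300000001 5 3) 0 0 (step_sound _ 65 [rh367118e0bf0473e0, (rh50fbb5868c909700.shift 0 2)] (by decide +kernel))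
noncomputable def rhc189904a255ed82e : CRef := CRef.mk (Pat.mk 0xc00000008000000080000000000000000 0x140000003c0000000f000000080000000800000008 5 6) 0 0 (step_sound _ 35 [(rh50fbb5868c909700.shift 2 1), rh8d5397c29a6031ac] (by decide +kernel))
noncomputable def rhaad95b9346d86229 : CRef := CRef.mk (Pat.mk 0x1e00000000000000180000001c 0x30000001e000000030000001f0000001f 5 5) 0 0 (step_sound _ 1 [rh3b97d7f13c8c247f, rh53b3c253cb0c65f4] (by decide +kernel))
noncomputable def rh6a347865ba58ef83 : CRef := CRef.mk (Pat.mk 0x800000018000000180000003800000000 0x40000000c0000001f0000001f0000003800000008 5 6) 0 0 (step_sound _ 130 [rh239b3aff0a9ab77c, (rh50fbb5868c909700.shift 2 1)] (by decide +kernel))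
noncomputable def rh7ee1c75dce3a3561 : CRef := CRef.mk (Pat.mk 0x80000003800000008000000000000001000000000 0x400000004000000040000000f0000003c000000080000000c0000001c00000014 5 6) 0 0 (step_sound _ 162 [(rh3af49ec8327b3828.shift 2 0), (rhdbcea10a0fbe5ba6.shift 0 4), (rhf9a6286f1d5377a2.shift 2 2)] (by decide +kernel))
noncomputable def rh05980c2b2d00dd5b : CRef := CRef.mk (Pat.mk 0x20000001a0000001200000010 0x40000000c0000000e0000000f0000001a0000001a00000012 5 5) 0 0 (step_sound _ 99 [rhbe5703805fd7fa8f, (rhe072fffdd2fccf38.shift 3 0)] (by decide +kernel))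
noncomputable def rhf5aa101e97eaeba7 : CRef := CRef.mk (Pat.mk 0xc0000001c0000000c 0x12000000330000003f0000001e0000000c 5 6) 0 0 (step_sound _ 65 [rh12b86433d4e96731, (rhb739f4f82bb681b4.shift 0 1)] (by decide +kernel))
noncomputable def rhb91f6b1a39f94152 : CRef := CRef.mk (Pat.mk 0x400000036000000260000002000000000 0x13000000130000001f00000036000000360000002200000002 5 6) 0 0 (step_sound _ 33 [(rh71222050f2c63a3a.shift 1 0), (rh925f2a74e937f060.shift 0 1)] (by decide +kernel))
noncomputable def rh3f0b32771864e6b9 : CRef := CRef.mk (Pat.mk 0x2000000120000000300000000 0x10000000300000003000000020000001f0000000300000001 5 5) 0 0 (step_sound _ 66 [(rh361cc68994bd8a63.shift 0 1), rhc9b7a010d6829066] (by decide +kernel))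
noncomputable def rh7f8afeb5f6471ba5 : CRef := CRef.mk (Pat.mk 0xc000000180000000c00000004 0x10000000330000001f0000001c0000000c00000004 5 6) 0 0 (step_sound _ 97 [rh387bce5bf9755530, (rhb739f4f82bb681b4.shift 0 2)] (by decide +kernel))
noncomputable def rh90b15400f7b44aed : CRef := CRef.mk (Pat.mk 0x180000001a000000300000003000000000 0x40000001f0000001b0000003e0000007800000008 5 7) 0 0 (step_sound _ 35 [(rh750c877a06d1a565.shift 0 1), (rh932754581e0f4330.shift 3 0)] (by decide +kernel))
noncomputable def rh5e91a96fc1f60bcc : CRef := CRef.mk (Pat.mk 0x4000000180000001c0000000000000000 0x4000000040000001f0000001f0000000300000002 5 5) 0 0 (step_sound _ 65 [(rh53b3c253cb0c65f4.shift 0 2), rhd9fe5b86fad30047] (by decide +kernel))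
noncomputable def rhe4d62d9bfc5272a9 : CRef := CRef.mk (Pat.mk 0x80000001c000000300000003000000000 0x80000001c0000003f0000007f00000004 5 7) 0 0 (step_sound _ 66 [(rh9b5857224768a516.shift 0 1), (rhcd4eff53da13612e.shift 1 0), (rhcd6baf37b3e5de21.shift 1 1), (rhd37c20d84762fac4.shift 1 0)] (by decide +kernel))
noncomputable def rhb4a935b107fe5a63 : CRef := CRef.mk (Pat.mk 0x1a0000001800000008 0x1c0000001c0000001f0000001b0000001800000008 5 5) 0 0 (step_sound _ 99 [(rh1741680720c097b4.shift 2 0), (rh2ddd6c94c59240f8.shift 3 0), (rh7b9fbdf6d2d059e4.shift 2 0), rhc89d3265e5632fc6] (by decide +kernel))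
noncomputable def rhd6168162da46a2b8 : CRef := CRef.mk (Pat.mk 0x18000000380000000800000000 0xc0000000c0000000c000000180000003c0000000f00000004 5 6) 0 0 (step_sound _ 131 [rh322e79f034282812, (rh771d065bdc85bf2d.shift 2 0), (rh7b9fbdf6d2d059e4.shift 2 1)] (by decide +kernel))
noncomputable def rh0f03938129f8e8f4 : CRef := CRef.mk (Pat.mk 0x80000000c0000001c000000000000000000000000 0x80000000c0000001f0000003c0000001c0000001c 5 6) 0 0 (step_sound _ 34 [(rh9e3edb185cc347de.shift 2 1), rhc9d5b668377e3797] (by decide +kernel))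
noncomputable def rh1497ac4ca43cbe79 : CRef := CRef.mk (Pat.mk 0x1000000010000000100000001800000000 0x1000000010000000100000001f0000007c00000020 5 7) 0 0 (step_sound _ 67 [(rh5c5e593799055d58.shift 3 1), rhd708b95eb90384f1] (by decide +kernel))
noncomputable def rh267543c1c418c231 : CRef := CRef.mk (Pat.mk 0x300000003000000020000000000000000 0x200000002000000020000000300000003000000070000000600000006 5 3) 0 0 (step_sound _ 33 [rh330f820e7f44bd5b, rh7b1f1fb55310c477] (by decide +kernel))
noncomputable def rh442d1893a81a9bcd : CRef := CRef.mk (Pat.mk 0x4000000080000000c0000000800000000 0x18000000180000003c0000000f0000000c0000000c00000008 5 6) 0 0 (step_sound _ 98 [(rh7b1f1fb55310c477.shift 2 0), (rhbe1da03a03321223.shift 0 1)] (by decide +kernel))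
noncomputable def rh5a5da67778bbb555 : CRef := CRef.mk (Pat.mk 0x20000000600000002000000100000003000000000 0x40000000600000006000000020000001f0000003700000005 5 6) 0 0 (step_sound _ 65 [rh6eff4158bb400f47, (rha707fb719e87fe6e.shift 1 1), (rhf11a656c4019127b.shift 1 1)] (by decide +kernel))
noncomputable def rhcde2915409311e5b : CRef := CRef.mk (Pat.mk 0x1e000000000000003000000030 0x200000002000000070000001e000000040000003e00000074 5 7) 0 0 (step_sound _ 129 [(rh3244c3cc8379b070.shift 0 3), (rh4c5b10657a4a9e14.shift 1 0)] (by decide +kernel))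
noncomputable def rh3e2c52bdd461fe2b : CRef := CRef.mk (Pat.mk 0x1e000000180000003000000000 0x200000002000000070000001e0000001e0000003400000004 5 6) 0 0 (step_sound _ 66 [(rhb739f4f82bb681b4.shift 1 1), rhd5889c99d29bf7d6] (by decide +kernel))
noncomputable def rhaf10d9b96b28ff65 : CRef := CRef.mk (Pat.mk 0x1800000038000000080000000000000000 0x800000018000000380000001f0000000c0000000c 5 6) 0 0 (step_sound _ 35 [(rh71222050f2c63a3a.shift 3 0), rhde807367643436d4] (by decide +kernel))
noncomputable def rhe78d1101279a7d9f : CRef := CRef.mk (Pat.mk 0xc0000001c000000080000000800000000 0x130000001f0000001c0000000c0000000c00000004 5 5) 0 0 (step_sound _ 129 [rh3bcc3b100d33c9ff, (rhb739f4f82bb681b4.shift 0 3)] (by decide +kernel))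
noncomputable def rhb6d9a4788e160121 : CRef := CRef.mk (Pat.mk 0x3800000000 0xf70000007e0000000f 5 8) 0 0 (step_sound _ 34 [(rh3b00e9e9432b8f40.shift 1 0), (rh4c622fddc53a5f99.shift 0 1), rh775ca1963e850b80, rh9e97bba44c1b13e4] (by decide +kernel))
noncomputable def rh1852bd031f8b7240 : CRef := CRef.mk (Pat.mk 0x380000000800000008 0x4000000770000003e0000000f00000008 5 7) 0 0 (step_sound _ 66 [(rh4c622fddc53a5f99.shift 0 2), (rh775ca1963e850b80.shift 0 1), (rh9e97bba44c1b13e4.shift 0 1), (rhe4f9133a81c1dbc5.shift 1 0)] (by decide +kernel))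
noncomputable def rhc5265e13fb4e13b1 : CRef := CRef.mk (Pat.mk 0x800000018000000380000000800000000 0x40000000f00000018000000380000001f00000004 5 6) 0 0 (step_sound _ 130 [rh4d13272a9959cc95, (rh50fbb5868c909700.shift 2 1)] (by decide +kernel))
noncomputable def rhd8d5fbf074709d68 : CRef := CRef.mk (Pat.mk 0x1c0000000c000000040000000400000000 0x100000001c0000000c0000000f0000003c00000018 5 6) 0 0 (step_sound _ 35 [rh0b48232756d2831b, (rh55afc6a59410cf00.shift 2 0)] (by decide +kernel))
noncomputable def rh2d81f90b996d1e34 : CRef := CRef.mk (Pat.mk 0x30000000300000001a0000001800000000 0x8000000780000003e0000001b0000001f00000004 5 7) 0 0 (step_sound _ 131 [(rh50fbb5868c909700.shift 3 1), rhdfbe4f8abf08e9f6] (by decide +kernel))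
noncomputable def rh0d071f617d02f283 : CRef := CRef.mk (Pat.mk 0x1c000000180000000400000000 0x2000000030000001f0000001f0000000400000004 5 5) 0 0 (step_sound _ 97 [(rhb739f4f82bb681b4.shift 0 2), rhfcd0957979bf6d9d] (by decide +kernel))
noncomputable def rh01d53bca8422fea1 : CRef := CRef.mk (Pat.mk 0x30000000300000001c00000008 0x40000007f0000003f0000001c00000008 5 7) 0 0 (step_sound _ 66 [(rh2505e37b28f90391.shift 1 0), (rh6d571b54e8dd9e33.shift 1 2), (rh85d8fbe61f816818.shift 0 1), (rhdab0e6f012231ab6.shift 1 0)] (by decide +kernel))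
noncomputable def rh5850826491fb52fa : CRef := CRef.mk (Pat.mk 0x8000000180000001a000000000000000000000000 0x8000000180000001b0000001f0000001c0000001c 5 5) 0 0 (step_sound _ 67 [(rh4053c12da95c0aa0.shift 3 0), (rh46530d756bdf8511.shift 2 0), (rh6eff4158bb400f47.shift 2 0), (rhf98a3e7b0a58e1df.shift 0 1)] (by decide +kernel))
noncomputable def rh39fceb362813fb34 : CRef := CRef.mk (Pat.mk 0x80000003800000018000000000000000000000000 0x40000000f0000003c000000180000000c0000000c0000000c 5 6) 0 0 (step_sound _ 67 [(rh46530d756bdf8511.shift 2 0), (rh53509d91ff78ed56.shift 0 2), (rhc4526fc8abf298b6.shift 2 0)] (by decide +kernel))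
noncomputable def rh1f6906e1df2fe86a : CRef := CRef.mk (Pat.mk 0x1c0000000c00000008 0x1c0000001c0000003c0000001f0000000c00000008 5 6) 0 0 (step_sound _ 130 [(rh6f1cbe15c631ee70.shift 2 0), rhdba0a7a944617c85] (by decide +kernel))
noncomputable def rhf53bfbcd8330112c : CRef := CRef.mk (Pat.mk 0x20000000300000003000000000000000000000000 0x600000006000000070000000300000003000000020000000200000002 5 3) 0 0 (step_sound _ 193 [rh3502d92c6cce609b, (rh5c5e593799055d58.shift 0 3)] (by decide +kernel))
noncomputable def rhed841d9ebc5dd0e1 : CRef := CRef.mk (Pat.mk 0x2000000020000000300000002000000000000000000000000 0x2000000030000000300000003000000070000000700000004 5 3) 0 0 (step_sound _ 64 [rh24475f7678211b71, (rh79877ebd3ef475dd.shift 0 2)] (by decide +kernel))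
noncomputable def rhb1284ebed76b39cf : CRef := CRef.mk (Pat.mk 0x80000000c00000008000000040000000000000000 0x80000000c0000000c0000000f0000003c0000001800000018 5 6) 0 0 (step_sound _ 98 [(rh5c5e593799055d58.shift 2 2), rhaba08230c1b81f56] (by decide +kernel))
noncomputable def rh41cd93bb737276ca : CRef := CRef.mk (Pat.mk 0x300000001000000002000000060000000200000000 0x5000000370000001f00000002000000060000000600000004 5 6) 0 0 (step_sound _ 129 [(rh1741680720c097b4.shift 0 1), (rh2ad4f8fa55baa6f1.shift 1 1), (rhd4b4beefcd67f51e.shift 1 0)] (by decide +kernel))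
noncomputable def rhb4e3276becb3cc4c : CRef := CRef.mk (Pat.mk 0x3000000030000000000000001e000000000000000000000000 0x740000003e000000040000001e000000070000000200000002 5 7) 0 0 (step_sound _ 65 [(rhc9c91d2fbcbb1281.shift 1 0), (rheb0810cc63b001d8.shift 0 2)] (by decide +kernel))
noncomputable def rh3c79f2e28e37e346 : CRef := CRef.mk (Pat.mk 0x30000000180000001e000000000000000000000000 0x4000000340000001e0000001e000000070000000200000002 5 6) 0 0 (step_sound _ 130 [(rh53b3c253cb0c65f4.shift 1 4), rhcfde16a7ff36af03] (by decide +kernel))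
noncomputable def rhbdade720c6084246 : CRef := CRef.mk (Pat.mk 0x8000000380000001800000000 0xc0000000c0000001f000000380000001800000008 5 6) 0 0 (step_sound _ 131 [(rh2145e1d24b96a57e.shift 3 1), rhd716e2ab31203e19] (by decide +kernel))
noncomputable def rh4e2df8342d3b8ae8 : CRef := CRef.mk (Pat.mk 0x2000000020000000300000002 0x1000000070000000700000006000000030000000300000002 5 3) 0 0 (step_sound _ 130 [(rha76ca9ce157db44d.shift 0 1), (rhbaefcd01e0a8bca3.shift 1 0)] (by decide +kernel))
noncomputable def rhef4765d4d6b5afde : CRef := CRef.mk (Pat.mk 0x8000000080000001c0000000c00000000 0x40000000c0000000c0000001c0000001f00000013 5 5) 0 0 (step_sound _ 33 [(rh53b3c253cb0c65f4.shift 0 1), rh622e1e57e499877e] (by decide +kernel))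
noncomputable def rhf193011675629504 : CRef := CRef.mk (Pat.mk 0x3800000000 0xf0000007e000000f7 5 8) 0 0 (step_sound _ 34 [rh0d378fd9e8917c5a, rh185f35b8bd8ec37f, rh592c7139d2c44767, (rhe401600d466b97cd.shift 1 0)] (by decide +kernel))
noncomputable def rh6360f76fc69b77dd : CRef := CRef.mk (Pat.mk 0x800000008000000380000000000000000 0x80000000f0000003e0000007700000004 5 7) 0 0 (step_sound _ 66 [(rh0d378fd9e8917c5a.shift 0 1), (rh185f35b8bd8ec37f.shift 0 1), (rh592c7139d2c44767.shift 0 1), (rhae036cc4ef671676.shift 1 0)] (by decide +kernel))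
noncomputable def rhbb02371da2437aab : CRef := CRef.mk (Pat.mk 0x800000038000000180000000800000000 0x40000001f00000038000000180000000f00000004 5 6) 0 0 (step_sound _ 34 [(rh8d411b6ae1d96538.shift 0 1), (rh932754581e0f4330.shift 2 0)] (by decide +kernel))
noncomputable def rhf849c8472bff4b9d : CRef := CRef.mk (Pat.mk 0x60000000200000002000000000000000000000000 0x5000000070000000300000002000000060000000600000004 5 3) 0 0 (step_sound _ 65 [(rh2f68792b6b779e96.shift 1 2), rh46baee19951a66e7] (by decide +kernel))
noncomputable def rh728fb0f814e06178 : CRef := CRef.mk (Pat.mk 0x80000000800000018000000000000000000000000 0x40000000c0000000c0000000f0000007c0000000f0000000c00000004 5 7) 0 0 (step_sound _ 67 [(rh6aa5625770489e83.shift 2 0), (rh771d065bdc85bf2d.shift 2 1), (rh80650b8e93363f1e.shift 0 1), (rh8309b68334354bd1.shift 0 1)] (by decide +kernel))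
noncomputable def rh3d83d7b9f4117746 : CRef := CRef.mk (Pat.mk 0x3c000000000000000000000038 0x60000003c000000080000000f0000007c 5 7) 0 0 (step_sound _ 130 [(rh3244c3cc8379b070.shift 1 3), rhf97c42f9753351c8] (by decide +kernel))
noncomputable def rhbbf61c9933a527e1 : CRef := CRef.mk (Pat.mk 0x2000000020000000200000002000000000000000000000000 0x100000003000000030000000300000002000000070000000700000005 5 3) 0 0 (step_sound _ 65 [(rh3ca48e2a6d60153d.shift 0 2), rh8cdd36b03d57a2f6, rhc4526fc8abf298b6] (by decide +kernel))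
noncomputable def rh57e826f46a6fd887 : CRef := CRef.mk (Pat.mk 0x80000000800000038000000000000000000000000 0x80000000f0000003e000000770000000400000004 5 7) 0 0 (step_sound _ 98 [(rh0d378fd9e8917c5a.shift 0 2), (rh185f35b8bd8ec37f.shift 0 2), (rhd1474a84c69f0140.shift 1 0)] (by decide +kernel))
noncomputable def rh42a454947b14c367 : CRef := CRef.mk (Pat.mk 0x400000008000000180000000c00000000 0x40000000f0000001e0000000f0000000a 5 5) 0 0 (step_sound _ 98 [(rh7b1f1fb55310c477.shift 2 0), rhf33c9c7cd497f89c] (by decide +kernel))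
noncomputable def rh40789fe01e004519 : CRef := CRef.mk (Pat.mk 0x800000001c00000000 0xe00000007e000000f7 5 8) 0 0 (step_sound _ 37 [rh185f35b8bd8ec37f, (rh45e9dfbd6bd5d256.shift 2 1), (rhc13dbb2602bbcc3a.shift 2 0)] (by decide +kernel))
noncomputable def rhc1d9d95268728087 : CRef := CRef.mk (Pat.mk 0x800000001c00000000 0xe70000007e000000f0 5 8) 0 0 (step_sound _ 37 [rh0d378fd9e8917c5a, (rh45e9dfbd6bd5d256.shift 2 1), (rhc13dbb2602bbcc3a.shift 2 0)] (by decide +kernel))
noncomputable def rhfe448189e7c42541 : CRef := CRef.mk (Pat.mk 0x3800000000 0xf0000007e0000007f 5 7) 0 0 (step_sound _ 34 [rh0d378fd9e8917c5a, rh41140eaa67c26838, (rh5f7b3bfbaf903d4f.shift 1 0)] (by decide +kernel))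
noncomputable def rh00c94e032c7db787 : CRef := CRef.mk (Pat.mk 0x1000000003000000020000000200000000 0x5000000070000001f00000003000000030000000300000001 5 5) 0 0 (step_sound _ 129 [(rh04e571695666b5c1.shift 0 1), rh968ba7b0df7e4096, (rhc85cc95794737cf7.shift 0 1)] (by decide +kernel))
noncomputable def rh2840436db7424bdf : CRef := CRef.mk (Pat.mk 0x20000000300000002000000020000000000000000 0x2000000020000000300000003000000070000000700000006 5 3) 0 0 (step_sound _ 64 [rh3355b765474647cb, (rh932754581e0f4330.shift 0 1)] (by decide +kernel))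
noncomputable def rh727d23dbdb14369d : CRef := CRef.mk (Pat.mk 0x400000000c000000180000000800000000 0x18000000780000000f0000001c0000001c00000004 5 7) 0 0 (step_sound _ 97 [(rh38113f037141da33.shift 2 0), (rhb739f4f82bb681b4.shift 0 2)] (by decide +kernel))
noncomputable def rhf69bb057b946b622 : CRef := CRef.mk (Pat.mk 0x1000000003000000020000000200000000 0x1000000070000001f00000003000000030000000300000001 5 5) 0 0 (step_sound _ 129 [(rh04e571695666b5c1.shift 0 1), rh968ba7b0df7e4096] (by decide +kernel))
noncomputable def rh8bde8539a28334ec : CRef := CRef.mk (Pat.mk 0x30000001200000002000000000000000000000000 0x1000000030000001f00000002000000060000000600000004 5 5) 0 0 (step_sound _ 130 [(rh2fe78cc5ca4405d8.shift 0 4), rhd1779d7de7f8215b] (by decide +kernel))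
noncomputable def rh612f35418d67476f : CRef := CRef.mk (Pat.mk 0x400000000c000000480000000800000000 0x18000000780000000f000000780000001800000010 5 7) 0 0 (step_sound _ 68 [(rh2fe78cc5ca4405d8.shift 2 2), rhf6678364aa8fad05] (by decide +kernel))
noncomputable def rhe16d83a3918c75e2 : CRef := CRef.mk (Pat.mk 0xa000000180000000e000000000000000000000000 0x20000000a0000001b0000001e000000360000001400000004 5 6) 0 0 (step_sound _ 100 [(rh78974448101547fe.shift 1 1), rh95b4c7d6d9b6685a] (by decide +kernel))
noncomputable def rh65a4716999eb180c : CRef := CRef.mk (Pat.mk 0x1800000008000000180000000000000000 0x1000000018000000080000007c0000000f00000004 5 7) 0 0 (step_sound _ 35 [(rh2f68792b6b779e96.shift 3 1), rh80650b8e93363f1e] (by decide +kernel))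
noncomputable def rhbbcefddbd626d322 : CRef := CRef.mk (Pat.mk 0x20000000600000012000000000000000000000000 0x400000006000000060000001e0000000f0000000700000005 5 5) 0 0 (step_sound _ 65 [rh6eff4158bb400f47, (rha707fb719e87fe6e.shift 1 1), (rhdb57bcbe4a84bd4b.shift 0 1)] (by decide +kernel))
noncomputable def rh43de8ae96dd6be70 : CRef := CRef.mk (Pat.mk 0x800000000000000380000000000000000 0x80000000f0000007e0000007700000004 5 7) 0 0 (step_sound _ 66 [(rh0d378fd9e8917c5a.shift 0 1), (rh185f35b8bd8ec37f.shift 0 1), (rh775ca1963e850b80.shift 0 1), (rhc4658766f200b447.shift 1 0)] (by decide +kernel))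
end Crest.Agent.S0047.Helper85.Cert
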