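import Crest.Agent.Lib.S0047.Helper85CertPL4F0
import Crest.Agent.Lib.S0047.Helper85CertPL4F1
import Crest.Agent.Lib.S0047.Helper85CertPL4F2
import Crest.Agent.Lib.S0047.Helper85CertPL4F3
import Crest.Agent.Lib.S0047.Helper85CertPL4F4
import Crest.Agent.Lib.S0047.Helper85CertPL4F5
import Crest.Agent.Lib.S0047.Helper85CertPL4F6
import Crest.Agent.Lib.S0047.Helper85CertPL4F7
import Crest.Agent.Lib.S0047.Helper85CertPL4F8
import Crest.Agent.Lib.S0047.Helper85CertPL4F9
set_option autoImplicit false
set_option linter.all false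
set_option Elab.async false
namespace Crest.Agent.S0047.Helper85.Cert
open Crest.Agent.S0047.Helper85

noncomputable def rha27877704a25a47c : CRef := CRef.mk (Pat.mk 0x2000000200000000e0000000000000000 0x200000002000000330000001e0000000700000004 5 6) 0 0 (step_sound _ 68 [(rh428265de8cd3cd2d.shift 1 2), rh7655e1d834265650] (by decide +kernel))
noncomputable def rh46714a5ccfa33816 : CRef := CRef.mk (Pat.mk 0x8000000180000000c0000004000000000 0x40000001c0000001c0000000f0000007800000018 5 7) 0 0 (step_sound _ 65 [(rh53b3c253cb0c65f4.shift 0 2), (rh67ed513a7af76093.shift 2 0)] (by decide +kernel))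
noncomputable def rhd9b34bbb86b10264 : CRef := CRef.mk (Pat.mk 0x20000000200000003000000100000000000000000 0x10000000300000003000000030000001f0000000700000001 5 5) 0 0 (step_sound _ 65 [rh6aa5625770489e83, (rhf8edb192cdea7ada.shift 0 1)] (by decide +kernel))
noncomputable def rhd58048618f3d6a40 : CRef := CRef.mk (Pat.mk 0x2000000120000000300000000 0x40000000600000006000000020000001f0000000300000001 5 5) 0 0 (step_sound _ 66 [(rh361cc68994bd8a63.shift 0 1), rh7a7e08304268422e] (by decide +kernel))
noncomputable def rh2f51ab36adc3e505 : CRef := CRef.mk (Pat.mk 0x8000000480000000c0000004000000000 0x1000000018000000780000000f0000007800000018 5 7) 0 0 (step_sound _ 100 [(rh361cc68994bd8a63.shift 2 2), rhe5a2f7eaf7af2bb4] (by decide +kernel))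
noncomputable def rhca9a2d88b9539d0b : CRef := CRef.mk (Pat.mk 0xe000000180000000a00000000 0x400000014000000360000001e0000001b0000000a00000002 5 6) 0 0 (step_sound _ 100 [rh4f79c519b7f04720, (rh5421160f8e9bcf07.shift 1 1)] (by decide +kernel))
noncomputable def rhe5a43f9bb67c23ec : CRef := CRef.mk (Pat.mk 0x200000002000000020000000200000000 0x500000007000000070000000200000003000000030000000300000001 5 3) 0 0 (step_sound _ 161 [(rh771d065bdc85bf2d.shift 0 1), rh7928877f9bf74a91, (rhc85cc95794737cf7.shift 0 2)] (by decide +kernel))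
noncomputable def rh695957111d347926 : CRef := CRef.mk (Pat.mk 0x1800000008000000080000000000000000 0x40000000c0000000f0000007c0000000f0000000c0000000c00000004 5 7) 0 0 (step_sound _ 163 [(rh777b1608eac7f27b.shift 0 1), (rh968ba7b0df7e4096.shift 2 1), (rhc4526fc8abf298b6.shift 2 0), (rhca405e350c462817.shift 0 2)] (by decide +kernel))
noncomputable def rh32799b6a7926a032 : CRef := CRef.mk (Pat.mk 0x12000000060000000200000000 0x5000000070000000f0000001e000000060000000600000004 5 5) 0 0 (step_sound _ 129 [(rh1741680720c097b4.shift 0 1), (rhc3115e0f4b0bf27b.shift 0 1), (rhd4b4beefcd67f51e.shift 1 0)] (by decide +kernel))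
noncomputable def rh8f3f190a028f8b1d : CRef := CRef.mk (Pat.mk 0x380000000000000008 0x4000000770000007e0000000f00000008 5 7) 0 0 (step_sound _ 66 [(rh4c622fddc53a5f99.shift 0 2), (rh592c7139d2c44767.shift 0 1), (rh9aa138e5ed752369.shift 1 0), (rh9e97bba44c1b13e4.shift 0 1)] (by decide +kernel))
noncomputable def rh0f7b94108a361189 : CRef := CRef.mk (Pat.mk 0x380000000800000008 0x400000004000000770000003e0000000f00000008 5 7) 0 0 (step_sound _ 66 [(rh4c622fddc53a5f99.shift 0 2), (rh768a472a1ebe455c.shift 1 0), (rh9e97bba44c1b13e4.shift 0 1)] (by decide +kernel))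
noncomputable def rh70ec27f201c958bf : CRef := CRef.mk (Pat.mk 0xe000000200000000200000000 0x4000000070000001e000000330000000200000002 5 6) 0 0 (step_sound _ 100 [rh75b63e46072e6b6d, (rh96851dee118c1ba3.shift 1 2)] (by decide +kernel))
noncomputable def rh9a42f4164057f645 : CRef := CRef.mk (Pat.mk 0x1c00000080 0xf70000007e000000e0 5 8) 0 0 (step_sound _ 37 [(rh1a48baf448afc5e7.shift 2 0), (rh4c622fddc53a5f99.shift 0 1), (rheaa91b92daf0efc8.shift 2 0)] (by decide +kernel))
noncomputable def rh29ae7a2b4f5dbf8e : CRef := CRef.mk (Pat.mk 0x1c00000080 0xf00000007e000000e7 5 8) 0 0 (step_sound _ 37 [(rh1a48baf448afc5e7.shift 2 0), rh9e97bba44c1b13e4, (rheaa91b92daf0efc8.shift 2 0)] (by decide +kernel))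
noncomputable def rh90c8fdb25c0d8c07 : CRef := CRef.mk (Pat.mk 0x3800000000 0x7f0000007e0000000f 5 7) 0 0 (step_sound _ 34 [(rh47c07cd0cc865f65.shift 1 0), (rh61325f73ebf98108.shift 0 1), rh9e97bba44c1b13e4] (by decide +kernel))
noncomputable def rh24e28f3acaf6acc7 : CRef := CRef.mk (Pat.mk 0x140000001400000016000000000000000000000000 0x280000003c000000160000001e000000330000002200000002 5 6) 0 0 (step_sound _ 68 [rh04ac465dcf32a7fa, (rh5f11ee373cbffcaa.shift 1 1), (rh9258736a7488cc35.shift 1 2)] (by decide +kernel))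
noncomputable def rh91ae312c4f82eb01 : CRef := CRef.mk (Pat.mk 0x170000001000000010 0x2800000038000000380000001f0000001000000010 5 6) 0 0 (step_sound _ 100 [rh5d1f636d3d3322bc, (rhc85cc95794737cf7.shift 3 0), (rhddcd04bb31546311.shift 1 0)] (by decide +kernel))
noncomputable def rh8559b62e8d6d80e6 : CRef := CRef.mk (Pat.mk 0x800000058000000030000000200000000 0x60000000f0000007a000000030000000300000001 5 7) 0 0 (step_sound _ 130 [(rh2fe78cc5ca4405d8.shift 2 3), rh85dc1815e914335e] (by decide +kernel))
noncomputable def rh99cd86723e95b124 : CRef := CRef.mk (Pat.mk 0x20000005a00000008000000000000000000000000 0x2000000020000007a0000000f000000060000000400000004 5 7) 0 0 (step_sound _ 98 [(rh361cc68994bd8a63.shift 2 3), rh653221b698c39cf0] (by decide +kernel))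
noncomputable def rh63bb98ea5485828f : CRef := CRef.mk (Pat.mk 0x30000005a0000000800000000 0x10000000100000001000000030000007b0000000f00000002 5 7) 0 0 (step_sound _ 34 [(rh361cc68994bd8a63.shift 2 1), rh74149de5d3e000b2] (by decide +kernel))
noncomputable def rh6c1e14971d560b91 : CRef := CRef.mk (Pat.mk 0x12000000030000000200000000 0x70000000f0000001e000000030000000300000001 5 5) 0 0 (step_sound _ 99 [rh41c226a5c3d0003c, (rhb2a0b9ccfb5cecd5.shift 0 2)] (by decide +kernel))
noncomputable def rhb71a391a0ebc5b57 : CRef := CRef.mk (Pat.mk 0x200000002000000030000000200000000 0x6000000070000000700000003000000030000000200000002 5 3) 0 0 (step_sound _ 128 [rh1205a6aa72d92e21, (rh50fbb5868c909700.shift 0 1)] (by decide +kernel))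
noncomputable def rhb962b7a2607f856f : CRef := CRef.mk (Pat.mk 0x200000002000000020000000000000000 0x500000007000000070000000700000002000000030000000300000001 5 3) 0 0 (step_sound _ 161 [rh367118e0bf0473e0, rhc4526fc8abf298b6, (rhc85cc95794737cf7.shift 0 2)] (by decide +kernel))
noncomputable def rh1d3c4bb267bf41a3 : CRef := CRef.mk (Pat.mk 0x140000001400000016000000000000000000000000 0x28000000380000003800000014000000160000001e0000000b0000000200000002 5 6) 0 0 (step_sound _ 196 [rh3ad823cc352a02e6, (rhc85cc95794737cf7.shift 3 3)] (by decide +kernel))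
noncomputable def rh811ecdc7d5521ac8 : CRef := CRef.mk (Pat.mk 0x12000000030000000600000000 0x50000000f0000001e000000030000000600000004 5 5) 0 0 (step_sound _ 129 [(rh55afc6a59410cf00.shift 1 0), (rhc0378c037ae8bbdc.shift 0 1)] (by decide +kernel))
noncomputable def rhb415fb9ca08355d6 : CRef := CRef.mk (Pat.mk 0x200000003000000020000000000000000 0x500000007000000070000000600000003000000030000000300000001 5 3) 0 0 (step_sound _ 161 [(rh03dfdf12d5937476.shift 0 1), rh367118e0bf0473e0, (rhc85cc95794737cf7.shift 0 2)] (by decide +kernel))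
noncomputable def rhd299ff6330c48d25 : CRef := CRef.mk (Pat.mk 0x18000000030000001200000000 0x2000000020000001e000000030000001f00000005 5 5) 0 0 (step_sound _ 97 [rh12452934acb847d5, (rhb2a0b9ccfb5cecd5.shift 0 2)] (by decide +kernel))
noncomputable def rh32650d1bea17c2f2 : CRef := CRef.mk (Pat.mk 0x80000000a0000000a00000000 0x140000001c0000001c000000080000000b0000001e00000014 5 5) 0 0 (step_sound _ 131 [rh11a243992b58ed44, (rhc85cc95794737cf7.shift 2 1)] (by decide +kernel))
noncomputable def rh27d0a1dca773eab9 : CRef := CRef.mk (Pat.mk 0x10000000160000001400000014 0x20000000a0000001b0000001f0000001600000014 5 5) 0 0 (step_sound _ 99 [(rh50fbb5868c909700.shift 3 0), rh84f330d47c138f9f] (by decide +kernel))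
noncomputable def rh9de8c9e57f051075 : CRef := CRef.mk (Pat.mk 0x200000002000000060000000200000000000000000000000000000000 0x200000006000000060000000600000006000000070000000700000001 5 3) 0 0 (step_sound _ 97 [rh274a837cd7eaa569, (rh301a6b3a9154ed36.shift 1 1), (rhd29a1fb688eae70f.shift 1 2)] (by decide +kernel))
noncomputable def rhb72c6d3b8f00eaae : CRef := CRef.mk (Pat.mk 0x2000000020000000600000002000000000000000000000000 0x2000000060000000600000006000000070000000700000001 5 3) 0 0 (step_sound _ 66 [(rhd3458b32566d63f7.shift 1 2), rhf57aef432b6ec1e1] (by decide +kernel))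
noncomputable def rh574ebb91789afc68 : CRef := CRef.mk (Pat.mk 0x80000000b000000080000000100000000 0x140000001c0000001c000000080000001f0000001c0000000f00000004 5 5) 0 0 (step_sound _ 68 [rh74505ac74f60a4e7, (rhc10214bf3fe8094a.shift 0 2)] (by decide +kernel))
noncomputable def rh815c100185d6096d : CRef := CRef.mk (Pat.mk 0x100000005800000041000000600000008000000000 0x10000000780000004f00000078000000c800000080 5 8) 0 0 (step_sound _ 38 [(rh55afc6a59410cf00.shift 6 0), (rhf4aa316f4710e1c1.shift 0 1)] (by decide +kernel))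
noncomputable def rhfbe326b7d97c2972 : CRef := CRef.mk (Pat.mk 0x80000000b0000000800000000 0x40000000c0000000c000000080000001f0000001800000010 5 5) 0 0 (step_sound _ 36 [(rh0fa4a62bba50784f.shift 2 0), (rhc10214bf3fe8094a.shift 0 1)] (by decide +kernel))
noncomputable def rh20bb281e5d030845 : CRef := CRef.mk (Pat.mk 0x20000000e00000000 0x7e0000003f00000078 5 7) 0 0 (step_sound _ 36 [(rh2aac33c566332a8c.shift 1 0), (rh3fc3a7fb6866dcd4.shift 1 0), rh44fae8d9c1045ff0, (rh790acd67f4fffd04.shift 1 1)] (by decide +kernel))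
noncomputable def rhb8616a564591756f : CRef := CRef.mk (Pat.mk 0x10000000100000000000000007c00000002 0x10000000180000000c0000000fe000001c3 5 9) 0 0 (step_sound _ 33 [(rh175976049947b90e.shift 3 0), rheb0810cc63b001d8] (by decide +kernel))
noncomputable def rhb61fb6ff04036efb : CRef := CRef.mk (Pat.mk 0x1000000013000000190000000b0000000000000000 0x60000001e000000130000001b0000000b0000001e0000000e 5 5) 0 0 (step_sound _ 97 [(rh85c2755186779c7f.shift 0 2), rhf1e5cbdcfc437bc0] (by decide +kernel))
noncomputable def rhb63f02ba8de5f733 : CRef := CRef.mk (Pat.mk 0x800000008000000380000000000000000 0x80000000f0000003e0000007700000004 5 7) 0 0 (step_sound _ 66 [(rh185f35b8bd8ec37f.shift 0 1), (rh592c7139d2c44767.shift 0 1), (rh9c548838e8725ba1.shift 0 1), (rhae036cc4ef671676.shift 1 0)] (by decide +kernel))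
noncomputable def rhe8571d7c96142376 : CRef := CRef.mk (Pat.mk 0x12000000030000000200000001 0x50000000f0000001e000000030000000300000001 5 5) 0 0 (step_sound _ 129 [rh79877ebd3ef475dd, (rhbd9da586cd4293bc.shift 0 1)] (by decide +kernel))
noncomputable def rhb72551ddef00dd2f : CRef := CRef.mk (Pat.mk 0x80000000000000038000000000000000000000000 0x8000000080000000f0000003e000000770000000400000004 5 7) 0 0 (step_sound _ 98 [(rh0d378fd9e8917c5a.shift 0 2), (rh185f35b8bd8ec37f.shift 0 2), (rh775ca1963e850b80.shift 0 2), (rhf3caf215570e71a5.shift 1 0)] (by decide +kernel))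
noncomputable def rh8a734cfb59a2414c : CRef := CRef.mk (Pat.mk 0x4000000040000000c000000380000000000000000 0x4000000060000000f0000003a0000001f0000000a 5 6) 0 0 (step_sound _ 35 [(rh7b1f1fb55310c477.shift 2 0), rheb4c23b636fa57f1] (by decide +kernel))
noncomputable def rh1f77421b0c693600 : CRef := CRef.mk (Pat.mk 0x100000000300000000000000030000000600000000 0x60000001e0000000300000003000000030000000600000006 5 5) 0 0 (step_sound _ 97 [(rh55afc6a59410cf00.shift 1 0), rha00fd5ca7cf8d1be] (by decide +kernel))
noncomputable def rh54d147a1c45b3ccb : CRef := CRef.mk (Pat.mk 0x1e00000000000000000000001c 0x30000001e00000003000000070000001f 5 5) 0 0 (step_sound _ 129 [(rh3244c3cc8379b070.shift 0 3), rhdf41b505ca82b549] (by decide +kernel))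
noncomputable def rhfa80626feb4e9cb5 : CRef := CRef.mk (Pat.mk 0x800000008000000080000001000000000 0x800000008000000080000000f0000003c00000014 5 6) 0 0 (step_sound _ 35 [rh01b78e5ef59799ae, (rh55afc6a59410cf00.shift 3 0)] (by decide +kernel))
noncomputable def rhf0ac6d9d623f5fa8 : CRef := CRef.mk (Pat.mk 0x200000007000000000 0x1fe000001fe0000000f 5 9) 0 0 (step_sound _ 35 [(rh592c7139d2c44767.shift 1 0), rhb103f40a53fe1424, (rhe6bdd62e1711df0b.shift 3 1)] (by decide +kernel))
noncomputable def rh365d216e501145c4 : CRef := CRef.mk (Pat.mk 0x80000000a0000000800000000 0x140000001c0000001c000000080000001f0000007800000010 5 7) 0 0 (step_sound _ 131 [(rh1741680720c097b4.shift 2 1), (rh25208373db83e521.shift 3 0), (rh5abfc4c9d959be03.shift 2 0), rhc486ae0fcc44be52] (by decide +kernel))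
noncomputable def rh9b23d4ea40a77713 : CRef := CRef.mk (Pat.mk 0xa0000000800000008000000080000000400000000 0x1f0000007c00000008000000080000000c00000004 5 7) 0 0 (step_sound _ 35 [(rh60be6bea0ea1f35f.shift 0 1), (rh932754581e0f4330.shift 2 0)] (by decide +kernel))
noncomputable def rhf923c04afa70894d : CRef := CRef.mk (Pat.mk 0x2600000006000000020000000200000000 0x190000003f00000006000000060000000600000004 5 6) 0 0 (step_sound _ 128 [rh08d112cb492f14c2, (rh50fbb5868c909700.shift 0 1)] (by decide +kernel))
noncomputable def rh900d8766da5c1ea5 : CRef := CRef.mk (Pat.mk 0x80000000a0000000a0000000a00000000 0x40000000c0000001e0000000b0000001e0000000c 5 5) 0 0 (step_sound _ 130 [(rh50fbb5868c909700.shift 2 1), rh86623c6e5957dd8e] (by decide +kernel))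
noncomputable def rh6892b8f6cd97ee11 : CRef := CRef.mk (Pat.mk 0x120000000300000002000000000000000000000000 0x40000001f0000000300000002000000030000000300000001 5 5) 0 0 (step_sound _ 162 [(rh361cc68994bd8a63.shift 0 4), rhf6237156212ce777] (by decide +kernel))
noncomputable def rhdbcee09a3a0a9a82 : CRef := CRef.mk (Pat.mk 0x10000000030000000000000006000000000000000000000000 0x40000001f000000030000000300000006000000070000000300000001 5 5) 0 0 (step_sound _ 129 [rh01483ff9cba2f6ac, (rh625230e026c1189b.shift 0 2)] (by decide +kernel))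
noncomputable def rh3fe996e48b4620ce : CRef := CRef.mk (Pat.mk 0x8000000080000002c000000000000000000000000 0x80000000c0000007e000000f70000000400000004 5 8) 0 0 (step_sound _ 100 [(rh008b05f4778dc30d.shift 0 2), (rh695f888db18ad7c7.shift 2 2), (rhd1474a84c69f0140.shift 1 0)] (by decide +kernel))
noncomputable def rh3136b1eea67d4833 : CRef := CRef.mk (Pat.mk 0x1400000016000000020000000000000000 0x10000000140000001f0000003b0000000800000008 5 6) 0 0 (step_sound _ 99 [rha009eea60430f826, (rheb0810cc63b001d8.shift 0 2)] (by decide +kernel))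
noncomputable def rhf07892d9b8f1a789 : CRef := CRef.mk (Pat.mk 0x480000000c00000006000000020000000000000000 0x3000000030000007b0000000f00000006000000060000000600000006 5 7) 0 0 (step_sound _ 129 [rh177e91fc0ec8c431, (rh2b3584ef0f05e9c2.shift 0 4)] (by decide +kernel))
noncomputable def rh1779f98266d6b43c : CRef := CRef.mk (Pat.mk 0x8000000080000001800000000 0x800000008000000080000000f0000003c00000014 5 6) 0 0 (step_sound _ 131 [rh01b78e5ef59799ae, (rh55afc6a59410cf00.shift 3 0)] (by decide +kernel))
noncomputable def rhf73822d951402eec : CRef := CRef.mk (Pat.mk 0x30000000180000008c00000004 0x300000001f000000ff00000006 5 8) 0 0 (step_sound _ 65 [(rh24ae073cf30720c4.shift 1 2), rh69c106917011e488] (by decide +kernel))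
noncomputable def rh9cf50a99ea0d1827 : CRef := CRef.mk (Pat.mk 0x180000001e00000004 0x3000000030000001f0000001e00000007 5 5) 0 0 (step_sound _ 1 [rh1df41c6aff28951f, rheb0810cc63b001d8] (by decide +kernel))
noncomputable def rh6cc2eb734a05defc : CRef := CRef.mk (Pat.mk 0x380000001800000008 0xc0000000c0000001f000000380000001e0000000c 5 6) 0 0 (step_sound _ 34 [(rh53b3c253cb0c65f4.shift 1 1), rhf7862bb4af013b88] (by decide +kernel))
noncomputable def rhd09ca09ec644202f : CRef := CRef.mk (Pat.mk 0x800000038000000100000001800000000 0x40000001f000000380000001f0000001f00000004 5 6) 0 0 (step_sound _ 67 [rh0307b7c2a2d5b9f6, (rh79905f95cb2d899a.shift 0 1)] (by decide +kernel))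
noncomputable def rhd36d4a8e4624e168 : CRef := CRef.mk (Pat.mk 0x100000001e0000000200000000 0x200000007000000070000001f0000001e0000000600000002 5 5) 0 0 (step_sound _ 97 [(rh3244c3cc8379b070.shift 0 2), rhe651a079a1096c29] (by decide +kernel))
noncomputable def rhf2d7eac35964e1f3 : CRef := CRef.mk (Pat.mk 0x16000000130000001b000000000000000000000000 0x4000000160000001b0000001b0000000f0000000900000008 5 5) 0 0 (step_sound _ 64 [rh6bf58f3d6259bf81, (rh71222050f2c63a3a.shift 0 1)] (by decide +kernel))
noncomputable def rh73f0dabaeeedad6d : CRef := CRef.mk (Pat.mk 0x100000001a000000380000000800000000 0x40000001f0000001b0000003c0000000f00000004 5 6) 0 0 (step_sound _ 34 [rh199b75e937e0c6d9, (rh1ed7a3503fa50fc8.shift 0 1)] (by decide +kernel))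
noncomputable def rh69abf2a6a3d0359e : CRef := CRef.mk (Pat.mk 0x180000000c0000000c0000000000000000 0x10000000180000000c0000000f0000003c00000014 5 6) 0 0 (step_sound _ 34 [rh08c0a4b24e0c6ff9, (rh71222050f2c63a3a.shift 2 0)] (by decide +kernel))
noncomputable def rhaf41f0584532b69f : CRef := CRef.mk (Pat.mk 0x30000000180000008e00000000 0x300000001f000000fe00000007 5 8) 0 0 (step_sound _ 65 [(rh24ae073cf30720c4.shift 1 2), rhafd6efcf336bc55c] (by decide +kernel))
noncomputable def rhaa28b8c701868628 : CRef := CRef.mk (Pat.mk 0x1000000030000000140000001e00000000 0x20000000740000003e000000140000001e00000003 5 7) 0 0 (step_sound _ 1 [(rhca0d1eb9a72d6fbe.shift 1 0), rheb0810cc63b001d8] (by decide +kernel))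
noncomputable def rh846e8b4aebc3e3e0 : CRef := CRef.mk (Pat.mk 0x8000000480000000c0000000b000000010000000000000000 0x100000003a0000007f0000000e0000000b000000030000000100000001 5 7) 0 0 (step_sound _ 161 [rh02ef15e22aa7db92, (rhab6d3ee7760ef9d1.shift 0 3)] (by decide +kernel))
noncomputable def rh2979266e3fdf211e : CRef := CRef.mk (Pat.mk 0x80000003800000018000000000000000000000000 0x40000001f00000038000000180000000c0000000c0000000c 5 6) 0 0 (step_sound _ 162 [(rh46d6183566ef1216.shift 2 0), (rhc02b3aee7ab87ee1.shift 0 4)] (by decide +kernel))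
noncomputable def rh20264b3a54b954e4 : CRef := CRef.mk (Pat.mk 0x60000000180000001c000000000000000000000000 0xc0000000c00000078000000180000003c0000000f0000000c00000008 5 7) 0 0 (step_sound _ 163 [(rh37d9ceebb86d75d1.shift 2 2), rh7dd863f70d807e13, (rh9dc6f17ef8893ffe.shift 2 3)] (by decide +kernel))
noncomputable def rhe97cde4106ffba59 : CRef := CRef.mk (Pat.mk 0x80000003800000018000000000000000000000000 0x40000001f00000038000000180000000c0000000c0000000c 5 6) 0 0 (step_sound _ 67 [(rh46530d756bdf8511.shift 2 0), (rhd88b01da517454f7.shift 0 1), (rhea7a1800d6f053bd.shift 3 0)] (by decide +kernel))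
noncomputable def rh18038d47ab4cd7b4 : CRef := CRef.mk (Pat.mk 0x1a0000001e00000000 0x5000000070000000f0000001a0000001e00000007 5 5) 0 0 (step_sound _ 1 [rhdc5051f206574e66, rheb0810cc63b001d8] (by decide +kernel))
noncomputable def rhee46f363a617db69 : CRef := CRef.mk (Pat.mk 0xc0000001e000000000000000000000000 0xc0000000c0000001e000000070000000600000006 5 5) 0 0 (step_sound _ 65 [(rheaf7323e7f660408.shift 1 0), (rheb0810cc63b001d8.shift 0 2)] (by decide +kernel))
noncomputable def rh3eed729d5e4e6a62 : CRef := CRef.mk (Pat.mk 0x800000008000000380000000000000000 0x80000000f0000003e0000007700000004 5 7) 0 0 (step_sound _ 66 [(rh0d378fd9e8917c5a.shift 0 1), (rh185f35b8bd8ec37f.shift 0 1), (rh775ca1963e850b80.shift 0 1), (rhae036cc4ef671676.shift 1 0)] (by decide +kernel))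
noncomputable def rh97c0bb1b783a0a3e : CRef := CRef.mk (Pat.mk 0x160000001200000010000000030000000000000000 0x4000000160000001a0000001e0000000f0000000800000008 5 5) 0 0 (step_sound _ 97 [rh0fbbb92589a12005, (rh2f68792b6b779e96.shift 1 2)] (by decide +kernel))
noncomputable def rh358736babf21756e : CRef := CRef.mk (Pat.mk 0x12000000030000001100000000 0x6000000060000001e000000030000001f00000006 5 5) 0 0 (step_sound _ 98 [rh27cad864287abf00, (rh361cc68994bd8a63.shift 0 2)] (by decide +kernel))
noncomputable def rh7d56e8d224b77559 : CRef := CRef.mk (Pat.mk 0xc0000001e000000060000000000000000 0xc0000001e0000003e0000003300000012 5 6) 0 0 (step_sound _ 68 [rhc9bd55f0a7b1a259, (rhe25b0a99195a5d59.shift 1 2)] (by decide +kernel))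
noncomputable def rh5d7cb07254d911d1 : CRef := CRef.mk (Pat.mk 0xc0000001c000000040000000400000000 0xc0000001c000000170000003e0000003a 5 6) 0 0 (step_sound _ 35 [rh39b305ff33103625, (rh55afc6a59410cf00.shift 2 0)] (by decide +kernel))
noncomputable def rh94cc295130127ea4 : CRef := CRef.mk (Pat.mk 0x1000000030000000180000000800000000 0x4000000170000003f0000001f0000000800000008 5 6) 0 0 (step_sound _ 99 [(rh20595ccdccbf31d9.shift 0 1), (rh71222050f2c63a3a.shift 3 0)] (by decide +kernel))
noncomputable def rhb5c5a84caed5313f : CRef := CRef.mk (Pat.mk 0x9000000090000000880000001c0000000000000000 0x90000000d0000000fe0000007f0000006000000040 5 8) 0 0 (step_sound _ 100 [(rh0bb882ba86b2372d.shift 0 2), (rh0fbbb92589a12005.shift 3 0), (rhfe557af9112f51d6.shift 1 1)] (by decide +kernel))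
noncomputable def rh2915a4f5aa0492ea : CRef := CRef.mk (Pat.mk 0x20000001a00000002000000000000000000000000 0x50000000f0000001a00000002000000070000000700000005 5 5) 0 0 (step_sound _ 65 [(rh330a005829cdd297.shift 0 2), rh8cdd36b03d57a2f6] (by decide +kernel))
noncomputable def rh5a30d2353dbd5b74 : CRef := CRef.mk (Pat.mk 0x20000001a000000020000000000000000 0x5000000070000000f0000001a000000030000000300000001 5 5) 0 0 (step_sound _ 33 [rh20966da26a1c2ae8, (rh330a005829cdd297.shift 0 1), rh771d065bdc85bf2d] (by decide +kernel))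
noncomputable def rh470da441c69304ab : CRef := CRef.mk (Pat.mk 0x38000000100000000000000008 0x70000003e0000007f0000000c00000008 5 7) 0 0 (step_sound _ 98 [(rh25efc5d5a6c022ff.shift 1 0), (rh4f8edb321cf5b49d.shift 0 2), (rh775ca1963e850b80.shift 0 2), (rha03f6e28ea70fc7d.shift 1 2)] (by decide +kernel))
noncomputable def rh42af8a755b2bcce5 : CRef := CRef.mk (Pat.mk 0x920000001a0000000200000000 0x40000000400000006000000ff0000001b0000000200000002 5 8) 0 0 (step_sound _ 102 [rh35c52047b207528b, (rhb2a0b9ccfb5cecd5.shift 3 2)] (by decide +kernel))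
noncomputable def rh4a6d9446b9c372e1 : CRef := CRef.mk (Pat.mk 0x340000001c000000080000000800000000 0x630000003f0000001c0000001c0000001c00000014 5 7) 0 0 (step_sound _ 131 [(rh4522ea7bef838818.shift 2 0), rh4edb157f09354d7e] (by decide +kernel))
noncomputable def rha3902abeb940fc5f : CRef := CRef.mk (Pat.mk 0x180000000c0000001c000000000000000000000000 0x10000000180000000f0000001c000000180000001800000018 5 5) 0 0 (step_sound _ 129 [(rh3470fcd67ff81181.shift 2 0), (rhb739f4f82bb681b4.shift 0 3)] (by decide +kernel))
noncomputable def rhd0dc6b68d4309584 : CRef := CRef.mk (Pat.mk 0x1000000090000000180000000e000000000000000000000000 0x2000000030000000f8000000180000003e000000370000001000000010 5 8) 0 0 (step_sound _ 165 [rh13114270456eb896, (rh361cc68994bd8a63.shift 3 4)] (by decide +kernel))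
noncomputable def rha16436d1a6b5a15a : CRef := CRef.mk (Pat.mk 0x80000000180000000a0000000b000000010000000000000000 0x1000000010000000fa0000001e0000000a0000000b000000010000000100000001 5 8) 0 0 (step_sound _ 32 [rh71222050f2c63a3a, (rhe9619fa0d732683d.shift 0 2)] (by decide +kernel))
noncomputable def rh0bb2219927e980d0 : CRef := CRef.mk (Pat.mk 0x180000009a00000000 0x1f000000fe00000007 5 8) 0 0 (step_sound _ 37 [(rh2fe78cc5ca4405d8.shift 3 1), rh5f38919bb63ff723] (by decide +kernel))
noncomputable def rh8387c53dbad1e726 : CRef := CRef.mk (Pat.mk 0x180000009a00000000 0x1f000000fe00000070 5 8) 0 0 (step_sound _ 37 [(rh2fe78cc5ca4405d8.shift 3 1), rh43c2b98e2d068867] (by decide +kernel))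
noncomputable def rha4276a768bedc78f : CRef := CRef.mk (Pat.mk 0xc0000000d0000000800000000 0x1800000018000000180000000c0000000f0000001800000010 5 5) 0 0 (step_sound _ 36 [(rh4c60faed9e5f228f.shift 2 0), (rhab22b5b56e7b3243.shift 0 1)] (by decide +kernel))
noncomputable def rh8732e2b9fb7196fd : CRef := CRef.mk (Pat.mk 0x800000008000000100000003800000000 0x80000000c000000770000003e00000007 5 7) 0 0 (step_sound _ 34 [rh592c7139d2c44767, (rheb505ef94539da28.shift 1 0), (rhec46bd5500c722c9.shift 1 1)] (by decide +kernel))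
noncomputable def rhad48d9bf8f1ee86a : CRef := CRef.mk (Pat.mk 0x1a0000001e0000000000000000 0x4000000070000000f0000001a0000001e0000000700000004 5 5) 0 0 (step_sound _ 33 [rhbd17bf3452ac8c76, (rheb0810cc63b001d8.shift 0 1)] (by decide +kernel))
noncomputable def rhda307489dc5a66df : CRef := CRef.mk (Pat.mk 0x20000001a00000002000000020000000000000000 0x40000000f0000001b00000002000000060000000600000004 5 5) 0 0 (step_sound _ 162 [(rh2f68792b6b779e96.shift 1 2), rh4a01c680587ccf27] (by decide +kernel))
noncomputable def rh66ceed8bf3248660 : CRef := CRef.mk (Pat.mk 0x90000000f0000000d00000000 0x1a0000001a0000000f0000000f0000000d00000001 5 5) 0 0 (step_sound _ 131 [rh47a759ddc34a2afd, (rh5c5e593799055d58.shift 2 1)] (by decide +kernel))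
noncomputable def rh0d53cd1e9f3102a3 : CRef := CRef.mk (Pat.mk 0x3000000020000000300000001000000000000000000000000 0x100000003000000030000000300000003000000060000000600000006 5 3) 0 0 (step_sound _ 97 [rh4759cac65c8c0a08, (rh50fbb5868c909700.shift 0 3)] (by decide +kernel))
noncomputable def rh90a0cf1c31118684 : CRef := CRef.mk (Pat.mk 0x3800000010000000180000000800000000 0x80000000c0000003f0000001f0000001c0000000c00000004 5 6) 0 0 (step_sound _ 99 [(rh925a1628dd8a50da.shift 2 0), (rhf37c6fa7e7b4e7c2.shift 0 1)] (by decide +kernel))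
noncomputable def rh6b142fe5f73d4798 : CRef := CRef.mk (Pat.mk 0x3800000010000000180000001800000000 0x40000003f0000001f000000180000001800000010 5 6) 0 0 (step_sound _ 99 [(rh7b1f1fb55310c477.shift 3 0), (rhf37c6fa7e7b4e7c2.shift 0 1)] (by decide +kernel))
noncomputable def rhf5f0dba94bc921f7 : CRef := CRef.mk (Pat.mk 0x1e0000001a000000000000000000000000 0x2000000020000000f0000001e0000001e000000340000001400000010 5 6) 0 0 (step_sound _ 161 [(rh3244c3cc8379b070.shift 0 4), (rh7fa6bc5c2a9f3ea6.shift 1 0)] (by decide +kernel))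
noncomputable def rh7377ea77f49f58b2 : CRef := CRef.mk (Pat.mk 0x200000002700000036000000000000000000000000 0x2300000037000000360000001e0000001600000016 5 6) 0 0 (step_sound _ 65 [rh40241bd608e5be1a, (rh699a3d9fbbc9e241.shift 1 0)] (by decide +kernel))
noncomputable def rh98585738a0acbd68 : CRef := CRef.mk (Pat.mk 0x1e0000001a0000000000000000 0x4000000040000000f0000001e0000001e0000000b0000000b 5 5) 0 0 (step_sound _ 129 [(rh3244c3cc8379b070.shift 0 3), rh9bfdca6de417b6c6] (by decide +kernel))
noncomputable def rh76ac40e5db770964 : CRef := CRef.mk (Pat.mk 0x4000000440000000e00000000 0x400000004000000640000003e00000073 5 7) 0 0 (step_sound _ 1 [rh57c01229e6bca406, (rh5c5e593799055d58.shift 1 0)] (by decide +kernel))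
noncomputable def rhabb8eebead9d9f96 : CRef := CRef.mk (Pat.mk 0x2000000060000000c000000480000000000000000 0x60000000600000006000000060000000f0000007b0000000300000003 5 7) 0 0 (step_sound _ 97 [(rh5bb78067c54b222b.shift 0 2), rh805f552c45eb3f1a] (by decide +kernel))
noncomputable def rh6bc015b9268c8423 : CRef := CRef.mk (Pat.mk 0x1800000008000000080000000000000000 0x140000003c0000000f000000080000000800000008 5 6) 0 0 (step_sound _ 35 [(rh2f68792b6b779e96.shift 3 1), rh9aab2e37f490e5ca] (by decide +kernel))
noncomputable def rh4809bac70b018c84 : CRef := CRef.mk (Pat.mk 0x40000008c0000001800000030 0x6000000ff0000001f00000030 5 8) 0 0 (step_sound _ 33 [(rhab22b5b56e7b3243.shift 1 0), (rhd79951b7e7cb3972.shift 0 1)] (by decide +kernel))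
noncomputable def rh90b3399dfa71cac9 : CRef := CRef.mk (Pat.mk 0x40000001e000000180000000000000000 0x70000001e0000001f0000000300000003 5 5) 0 0 (step_sound _ 129 [(rh3244c3cc8379b070.shift 0 3), rh3ad675a172d88c03] (by decide +kernel))
noncomputable def rh12d80a56212b187a : CRef := CRef.mk (Pat.mk 0x80000001800000038000000000000000000000000 0xc0000001e000000380000001f0000000c0000000c 5 6) 0 0 (step_sound _ 130 [rhb2289d78f1aaaf2f, (rhb739f4f82bb681b4.shift 1 3)] (by decide +kernel))
noncomputable def rh465ff67eb4af07a7 : CRef := CRef.mk (Pat.mk 0x1800000010000000380000000800000000 0x40000001f0000001f000000380000001f00000004 5 6) 0 0 (step_sound _ 99 [rh852e818bc8629e77, (rhd54094d5453241f9.shift 0 1)] (by decide +kernel))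
noncomputable def rhf0dcb8af34d9ea65 : CRef := CRef.mk (Pat.mk 0x200000007800000000 0x370000007e0000000e 5 7) 0 0 (step_sound _ 2 [rh4dba48564e184892, (rh80fcd6d0a18cb2dd.shift 2 0)] (by decide +kernel))
noncomputable def rha7736fc44ab3d547 : CRef := CRef.mk (Pat.mk 0x20000001e00000010000000000000000000000000 0x2000000060000001e0000001f000000070000000700000002 5 5) 0 0 (step_sound _ 97 [rh0734553501313b0b, (rheb0810cc63b001d8.shift 0 3)] (by decide +kernel))
noncomputable def rh3ca07d9a9386ae9f : CRef := CRef.mk (Pat.mk 0x1b000000130000001600000000 0x8000000090000000f0000001b0000001b0000001600000004 5 5) 0 0 (step_sound _ 128 [(rh2145e1d24b96a57e.shift 0 1), rhcfa3ce0d1154c7da] (by decide +kernel))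
noncomputable def rh5b34d951e5a5ce6e : CRef := CRef.mk (Pat.mk 0x8000000380000001a0000001000000000 0x40000000f0000003c0000001b0000001f00000004 5 6) 0 0 (step_sound _ 130 [rhc74e5087263440f3, (rhdbcea10a0fbe5ba6.shift 0 3)] (by decide +kernel))
noncomputable def rhba6b5647c62b116f : CRef := CRef.mk (Pat.mk 0xc0000000c0000001800000000 0x140000003c0000000f0000000c0000001800000010 5 6) 0 0 (step_sound _ 130 [(rh2145e1d24b96a57e.shift 2 1), rh8bfafb9e7ef9ac91] (by decide +kernel))
noncomputable def rh2361c33c60746140 : CRef := CRef.mk (Pat.mk 0x8e0000001800000030 0x7000000fe0000001f00000030 5 8) 0 0 (step_sound _ 33 [(rh19e0274e08a1e06d.shift 0 1), (rhab22b5b56e7b3243.shift 1 0)] (by decide +kernel))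
noncomputable def rh895c833186b12ce8 : CRef := CRef.mk (Pat.mk 0x1e00000014000000300000001000000000 0x30000001e000000140000003e0000007400000020 5 7) 0 0 (step_sound _ 161 [(rh3244c3cc8379b070.shift 0 4), (rh417229f5e9012f38.shift 1 0)] (by decide +kernel))
noncomputable def rheac63212b8ca318a : CRef := CRef.mk (Pat.mk 0x10000000b0000000c000000480000000800000000 0x100000001000000030000000b0000000e0000007f0000003a00000010 5 7) 0 0 (step_sound _ 65 [(rh95a80f84f48ac358.shift 0 1), rhe7399ba2b689e637] (by decide +kernel))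
noncomputable def rh08714bc0cbbade30 : CRef := CRef.mk (Pat.mk 0x18000000380000000800000000 0xc0000000c0000000c00000018000000380000001f00000004 5 6) 0 0 (step_sound _ 34 [(rh623a731171d66e50.shift 2 0), (rheea1a90336e79c71.shift 0 1)] (by decide +kernel))
noncomputable def rh3b36c3ab6ac31419 : CRef := CRef.mk (Pat.mk 0x1c00000018000000600000000000000000 0x80000000c0000000f0000003c00000018000000780000000c0000000c 5 7) 0 0 (step_sound _ 67 [(rh1916590dd7a90ab5.shift 0 2), (rh40241bd608e5be1a.shift 2 0), (rhe58a7845769190f3.shift 2 0)] (by decide +kernel))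
noncomputable def rh548739421888b317 : CRef := CRef.mk (Pat.mk 0x18000000380000000800000000 0xc0000000c0000000c00000018000000380000001f00000004 5 6) 0 0 (step_sound _ 131 [(rh3e595262c1b737ad.shift 3 1), (rh7b9fbdf6d2d059e4.shift 2 1), rhcc0ec44f4a77daad] (by decide +kernel))
noncomputable def rh8610c4c735bf7740 : CRef := CRef.mk (Pat.mk 0x1e0000001a000000000000000000000000 0x70000001e0000001a0000000f0000000700000005 5 5) 0 0 (step_sound _ 161 [(rh3244c3cc8379b070.shift 0 4), rhe0a6ad54b03f60d6] (by decide +kernel))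
noncomputable def rhd69105b122185076 : CRef := CRef.mk (Pat.mk 0x1e0000000c00000000 0x600000006000000070000001e0000000c0000000c 5 5) 0 0 (step_sound _ 97 [(rh3244c3cc8379b070.shift 0 2), (rhe4ad1bd83b2bbdeb.shift 1 0)] (by decide +kernel))
noncomputable def rh50de79483cb23e8a : CRef := CRef.mk (Pat.mk 0x380000000800000008 0x4000000770000003e0000000f00000008 5 7) 0 0 (step_sound _ 66 [(rh4c622fddc53a5f99.shift 0 2), (rh592c7139d2c44767.shift 0 1), (rh9e97bba44c1b13e4.shift 0 1), (rhe4f9133a81c1dbc5.shift 1 0)] (by decide +kernel))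
noncomputable def rha61bfc5754658db7 : CRef := CRef.mk (Pat.mk 0x300000010000000120000001600000000 0x8000000080000000f0000001e0000001a0000001600000004 5 5) 0 0 (step_sound _ 97 [(rh55afc6a59410cf00.shift 1 0), (rh6a6060c6b6bde3df.shift 0 1)] (by decide +kernel))
noncomputable def rh4d5ec4caa1ea9a2e : CRef := CRef.mk (Pat.mk 0x1100000003000000120000000000000000 0x60000001f000000030000001e0000000600000006 5 5) 0 0 (step_sound _ 66 [(rh2fe78cc5ca4405d8.shift 0 2), rha47388d92edd01b5] (by decide +kernel))
noncomputable def rh3ee0f9ff4219760a : CRef := CRef.mk (Pat.mk 0x60000001e0000000c 0x12000000330000003e0000001e0000000c 5 6) 0 0 (step_sound _ 68 [(rh33e738c4ed385b9f.shift 1 1), rh3f853f49a57da585] (by decide +kernel))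
noncomputable def rh4b2b880cbb34d314 : CRef := CRef.mk (Pat.mk 0x800000018000000300000001000000000 0x8000000080000001f0000003f0000001700000004 5 6) 0 0 (step_sound _ 67 [(rh2145e1d24b96a57e.shift 3 1), rh66308995486c6adc] (by decide +kernel))
noncomputable def rhcf6ec0c8f6d8b380 : CRef := CRef.mk (Pat.mk 0x1c00000000000000000000001e00000000 0x1f00000007000000030000001e00000003 5 5) 0 0 (step_sound _ 1 [rhb89ec8cd6b8f44e1, rheb0810cc63b001d8] (by decide +kernel))
noncomputable def rh9c2f02d95e60a8a4 : CRef := CRef.mk (Pat.mk 0x1c000000880000009000000090 0x40000000600000007f000000fe000000d000000090 5 8) 0 0 (step_sound _ 68 [(rh6a6060c6b6bde3df.shift 3 0), (rhc0ddb33d3a52722b.shift 1 0), (rhdeca8db941583de2.shift 0 2)] (by decide +kernel))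
noncomputable def rhbf662421d2f80df0 : CRef := CRef.mk (Pat.mk 0x20000001a000000020000000000000000 0x100000003000000030000001a0000000f0000000700000005 5 5) 0 0 (step_sound _ 161 [(rh36e6bb6cca6188da.shift 0 1), rh8ff3dde5b1c639e0, rhc4526fc8abf298b6] (by decide +kernel))
noncomputable def rh9990f05971d35594 : CRef := CRef.mk (Pat.mk 0x800000000000000100000003800000000 0x80000000c0000007f0000003e00000007 5 7) 0 0 (step_sound _ 34 [rh55c4ed4acec0f063, rh592c7139d2c44767, (rhd5358021be058853.shift 1 0), (rhec46bd5500c722c9.shift 1 1)] (by decide +kernel))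
noncomputable def rh3e2df2ceeb32d6b8 : CRef := CRef.mk (Pat.mk 0x20000001a00000092000000000000000000000000 0x2000000020000001b000000ff000000060000000400000004 5 8) 0 0 (step_sound _ 102 [(rh5419adcd928dba20.shift 3 3), rh841bfdd31e40da95] (by decide +kernel))
noncomputable def rh57695cac46126e0c : CRef := CRef.mk (Pat.mk 0x8000000080000001c0000003400000000 0x140000001c0000001c0000001c0000003f00000063 5 7) 0 0 (step_sound _ 35 [rh2c477938a297ae1a, (rh822a66c22e949fd4.shift 2 0)] (by decide +kernel))
noncomputable def rh3b4bdb2e53b9db1d : CRef := CRef.mk (Pat.mk 0x1c0000000c0000001800000000 0x1800000018000000180000001c0000000f0000001800000010 5 5) 0 0 (step_sound _ 65 [(rh4c60faed9e5f228f.shift 2 0), (rh53b3c253cb0c65f4.shift 0 2)] (by decide +kernel))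
noncomputable def rh294869150c1d2661 : CRef := CRef.mk (Pat.mk 0xe00000018000000900000001000000000 0x1000000010000000370000003e00000018000000f80000003000000020 5 8) 0 0 (step_sound _ 69 [(rh2fe78cc5ca4405d8.shift 3 2), rhd8846ddc5ae26e22] (by decide +kernel))
noncomputable def rh240a2edace813db7 : CRef := CRef.mk (Pat.mk 0x10000000b0000000a00000018000000800000000000000000 0x100000001000000010000000b0000000a0000001e000000fa0000001000000010 5 8) 0 0 (step_sound _ 224 [(rh2145e1d24b96a57e.shift 0 4), rh5bb004db7372fa2f] (by decide +kernel))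
noncomputable def rhb641ea938b9240a9 : CRef := CRef.mk (Pat.mk 0x9a00000018 0x7000000fe0000001f 5 8) 0 0 (step_sound _ 37 [(rh361cc68994bd8a63.shift 3 0), rh8c162a45b2c34459] (by decide +kernel))
noncomputable def rhf36bdbce7d993ab7 : CRef := CRef.mk (Pat.mk 0x9a00000018 0x70000000fe0000001f 5 8) 0 0 (step_sound _ 37 [rh0f3809613a57ef80, (rh361cc68994bd8a63.shift 3 0)] (by decide +kernel))
noncomputable def rha7a7a4080eeb7f2d : CRef := CRef.mk (Pat.mk 0x80000000d0000000c000000000000000000000000 0x10000000180000000f0000000c000000180000001800000018 5 5) 0 0 (step_sound _ 164 [(rh24ae073cf30720c4.shift 0 4), (rh3470fcd67ff81181.shift 2 0)] (by decide +kernel))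
noncomputable def rha8f3a6d482590fcb : CRef := CRef.mk (Pat.mk 0x38000000100000000800000008 0x70000003e000000770000000c00000008 5 7) 0 0 (step_sound _ 98 [(rh04395309fba550d6.shift 1 0), (rh775ca1963e850b80.shift 0 2), (rha03f6e28ea70fc7d.shift 1 2)] (by decide +kernel))
noncomputable def rh980cc48aac6ae371 : CRef := CRef.mk (Pat.mk 0x1e0000001a000000000000000000000000 0x4000000070000001e0000001a0000000f0000000700000004 5 5) 0 0 (step_sound _ 161 [(rh3244c3cc8379b070.shift 0 4), rhf5351443a469f34e] (by decide +kernel))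
noncomputable def rh715961018179cca5 : CRef := CRef.mk (Pat.mk 0x2000000020000001a0000000200000000 0x40000000600000006000000020000001b0000000f00000004 5 5) 0 0 (step_sound _ 34 [(rh55afc6a59410cf00.shift 1 0), (rh74575fcb2c947490.shift 0 1)] (by decide +kernel))
noncomputable def rh385dc01d7d54bc00 : CRef := CRef.mk (Pat.mk 0xd0000000f000000090000000000000000 0x10000000d0000000f0000000f0000001a0000001a 5 5) 0 0 (step_sound _ 35 [rh03d31f6d89a46618, (rh7b1f1fb55310c477.shift 2 0)] (by decide +kernel))
noncomputable def rhb85933af4b83d5ab : CRef := CRef.mk (Pat.mk 0x100000003000000020000000300000000 0x600000006000000060000000300000003000000030000000300000001 5 3) 0 0 (step_sound _ 129 [rh932754581e0f4330, (rhcb4b35a0771db4b4.shift 0 1)] (by decide +kernel))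
noncomputable def rhb4a8657f7183e509 : CRef := CRef.mk (Pat.mk 0x1800000018000000180000001800000000 0x18000000180000001f0000003f00000024 5 6) 0 0 (step_sound _ 34 [rh172a9b91721ca148, (rh932754581e0f4330.shift 2 0)] (by decide +kernel))
noncomputable def rh69b67d1e07472fd8 : CRef := CRef.mk (Pat.mk 0x80000001800000010000000380000000000000000 0x40000000c0000001c0000001f0000003f0000000c00000008 5 6) 0 0 (step_sound _ 99 [(rhdf997f77704b6375.shift 2 0), (rhfd68868dd6d945e5.shift 0 1)] (by decide +kernel))
noncomputable def rh6937bef01fa5402a : CRef := CRef.mk (Pat.mk 0x1800000018000000100000003800000000 0x1000000018000000180000001f0000003f00000004 5 6) 0 0 (step_sound _ 67 [(rh5c5e593799055d58.shift 3 1), rhfd68868dd6d945e5] (by decide +kernel))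
noncomputable def rh635897fbf6909edf : CRef := CRef.mk (Pat.mk 0x1a0000001e000000000000000000000000 0x1000000014000000340000001e0000001e0000000f0000000200000002 5 6) 0 0 (step_sound _ 65 [(rh0572ca70d3a56462.shift 1 0), (rheb0810cc63b001d8.shift 0 2)] (by decide +kernel))
noncomputable def rhcbad41ef5983d2bf : CRef := CRef.mk (Pat.mk 0x360000002700000020 0x16000000160000001e000000360000003700000023 5 6) 0 0 (step_sound _ 97 [rh37d9ceebb86d75d1, (rh38aa8dd09980796f.shift 1 0)] (by decide +kernel))
noncomputable def rhd9065bd6a2155289 : CRef := CRef.mk (Pat.mk 0x1a0000001e000000000000000000000000 0xb0000000b0000001e0000001e0000000f0000000400000004 5 5) 0 0 (step_sound _ 65 [(rheb0810cc63b001d8.shift 0 2), rhed52f6d15229a2fa] (by decide +kernel))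
noncomputable def rhdbc1e5024263a679 : CRef := CRef.mk (Pat.mk 0xe000000440000000400000000 0x730000003e000000640000000400000004 5 7) 0 0 (step_sound _ 129 [(rh7b1f1fb55310c477.shift 1 0), (rhddaa03e5893ce3c5.shift 0 2)] (by decide +kernel))
noncomputable def rhe0f2a8ce205c4846 : CRef := CRef.mk (Pat.mk 0x5800000013000000520000000000000000 0x80000000c000000f80000001b000000fe0000000c00000008 5 8) 0 0 (step_sound _ 67 [(rh5419adcd928dba20.shift 0 2), (rh83a4c5c0feb85724.shift 2 0)] (by decide +kernel))
noncomputable def rh529b77dec6e034de : CRef := CRef.mk (Pat.mk 0x7c00000000 0x70000007f0000003c 5 7) 0 0 (step_sound _ 65 [(rh3f8766e6ecb455ce.shift 1 1), rhbf739a2069d3147e] (by decide +kernel))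
noncomputable def rh16731e6ce3e36f95 : CRef := CRef.mk (Pat.mk 0x70000000200000001000000010 0xf0000007e000000700000001000000010 5 7) 0 0 (step_sound _ 99 [(rh4f8edb321cf5b49d.shift 1 2), (rhb2afcb5db661472f.shift 0 2), (rhc45e6ce23ccfe60e.shift 1 0), (rhea1977e228a6d74a.shift 2 0)] (by decide +kernel))
noncomputable def rh68f6161c1b5a0308 : CRef := CRef.mk (Pat.mk 0x20000005a000000120000001200000000 0x80000000c0000000e0000007a0000001a0000001300000001 5 7) 0 0 (step_sound _ 32 [(rh2ad107ca13ef818e.shift 1 1), rh932754581e0f4330] (by decide +kernel))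
noncomputable def rh5b19e38918de2877 : CRef := CRef.mk (Pat.mk 0xe000000180000000a0000000000000000 0x40000000e0000001b0000001f0000003300000010 5 6) 0 0 (step_sound _ 66 [(rh53b3c253cb0c65f4.shift 0 2), rhcb9d2d3c1c03a5a3] (by decide +kernel))
noncomputable def rhe436b7f65189426c : CRef := CRef.mk (Pat.mk 0xa000000180000000e0000000000000000 0x20000000a0000001b0000003e0000003700000014 5 6) 0 0 (step_sound _ 68 [(rh4ed399e733b291be.shift 0 1), rh7655e1d834265650, (rh78974448101547fe.shift 1 0)] (by decide +kernel))
noncomputable def rh41907c1b6e1a3ddf : CRef := CRef.mk (Pat.mk 0x600000000000000080000001c00000000 0x200000006000000040000003f0000003f00000002 5 6) 0 0 (step_sound _ 66 [rh15d2d2578b54b533, (rhe2b63c00a3d7bb73.shift 0 1)] (by decide +kernel))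
noncomputable def rh250e13faf4d4ab6c : CRef := CRef.mk (Pat.mk 0x80000000c000000080000000e0000000000000000 0x80000000c0000000f0000003e0000001300000002 5 6) 0 0 (step_sound _ 68 [(rh55afc6a59410cf00.shift 3 1), rhc4658766f200b447] (by decide +kernel))
noncomputable def rh56575223a49d4aff : CRef := CRef.mk (Pat.mk 0x200000003000000060000000200000002000000000000000000000000 0x200000003000000070000000700000003000000060000000600000004 5 3) 0 0 (step_sound _ 128 [rh46bfb734f58a0e67, (rh932754581e0f4330.shift 0 3)] (by decide +kernel))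
noncomputable def rh5361af828aa1d44c : CRef := CRef.mk (Pat.mk 0x180000000300000002 0x5000000070000000f0000001e0000000300000003 5 5) 0 0 (step_sound _ 65 [(rhb2a0b9ccfb5cecd5.shift 0 1), rhe36c74e0f2b34f1f] (by decide +kernel))
noncomputable def rh60ae556da352f7f4 : CRef := CRef.mk (Pat.mk 0x1c0000004000000003000000010000000000000000 0x20000003e0000006600000003000000030000000100000001 5 7) 0 0 (step_sound _ 165 [rh784d8ea627962b40, (rh96851dee118c1ba3.shift 2 4)] (by decide +kernel))
noncomputable def rh8ba2aa402370793e : CRef := CRef.mk (Pat.mk 0x12000000030000000200000000 0x4000000070000000f0000001e000000030000000300000001 5 5) 0 0 (step_sound _ 99 [rh893b2dff2bcd2a94, (rhb2a0b9ccfb5cecd5.shift 0 2)] (by decide +kernel))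
noncomputable def rhd8bdfd4ba4d80bf5 : CRef := CRef.mk (Pat.mk 0x20000000300000006000000000000000000000000 0x2000000030000000300000006000000070000000700000001 5 3) 0 0 (step_sound _ 66 [(rh2145e1d24b96a57e.shift 1 2), rh5f1f0ffeb6a8fa09] (by decide +kernel))
noncomputable def rheecd95c732ca68e2 : CRef := CRef.mk (Pat.mk 0xc0000001c0000000c00000008 0x2000000130000003f0000001e0000000c00000008 5 6) 0 0 (step_sound _ 100 [(rh0f9436f541fd22fa.shift 0 1), (rh2f68792b6b779e96.shift 3 0)] (by decide +kernel))
noncomputable def rhe5aa548e129c1977 : CRef := CRef.mk (Pat.mk 0x80000009800000018000000000000000000000000 0x40000000f000000fc000000180000000c0000000c0000000c 5 8) 0 0 (step_sound _ 133 [(rh361cc68994bd8a63.shift 3 3), rh771633e495961670] (by decide +kernel))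
noncomputable def rh469e75c0bcd6e2dd : CRef := CRef.mk (Pat.mk 0x80000001c0000000e0000000800000000 0x120000003b0000001e0000000e0000000c00000004 5 6) 0 0 (step_sound _ 34 [(rh932754581e0f4330.shift 2 0), (rh95038703d14cdbe3.shift 0 1)] (by decide +kernel))
noncomputable def rh67ab0ed5680cc347 : CRef := CRef.mk (Pat.mk 0xe00000018000000180000001000000000 0x200000002000000020000000e0000001f0000003f0000003400000004 5 6) 0 0 (step_sound _ 66 [rh75fb09de0c589f41, (rhf56e6bc5d2f7fe77.shift 0 1)] (by decide +kernel))
noncomputable def rhd6084ca99383f4c2 : CRef := CRef.mk (Pat.mk 0x40000001c000000180000000000000000 0x4000000040000001f0000001f0000000300000002 5 5) 0 0 (step_sound _ 97 [rh660e64ff291cb876, (rhb739f4f82bb681b4.shift 0 2)] (by decide +kernel))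
noncomputable def rheec99d8f9699a991 : CRef := CRef.mk (Pat.mk 0xc0000001c000000180000000000000000 0xc0000001c0000003f0000003600000016 5 6) 0 0 (step_sound _ 36 [rh050a00b12dcdc633, (rh7b1f1fb55310c477.shift 3 0)] (by decide +kernel))
noncomputable def rh35654f37e19da3f5 : CRef := CRef.mk (Pat.mk 0x180000001c000000300000000000000000 0x180000001c0000007c0000000f0000000c 5 7) 0 0 (step_sound _ 67 [rh41eb4a13b78c152f, (rhf48373e13d2bc128.shift 2 2)] (by decide +kernel))
noncomputable def rh07409ef0f2eebd8c : CRef := CRef.mk (Pat.mk 0x40000000c0000001c0000000c0000000000000000 0x40000000c0000001f0000003e0000007200000010 5 7) 0 0 (step_sound _ 65 [(rh932754581e0f4330.shift 1 1), rhffa9269c5f8430e5] (by decide +kernel))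
noncomputable def rhf556bc1b2b6776a3 : CRef := CRef.mk (Pat.mk 0x1800000018000000180000000000000000 0x18000000180000007c0000000f0000000c 5 7) 0 0 (step_sound _ 35 [(rh71222050f2c63a3a.shift 3 0), rhb0de455c382c5b1c] (by decide +kernel))
noncomputable def rh1e9fd2dbd43d0fe3 : CRef := CRef.mk (Pat.mk 0x1800000018000000180000000000000000 0x800000018000000180000003c0000000f0000000c 5 6) 0 0 (step_sound _ 35 [rh04e877282bc382ca, (rh71222050f2c63a3a.shift 3 0)] (by decide +kernel))
noncomputable def rhb958eb30ef1f06a3 : CRef := CRef.mk (Pat.mk 0x100000001e000000100000001000000000 0x100000001e0000001f0000003c00000028 5 6) 0 0 (step_sound _ 35 [rh6d2f6e9aa2e81a1a, (rh932754581e0f4330.shift 3 0)] (by decide +kernel))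
noncomputable def rha42314f78429cd32 : CRef := CRef.mk (Pat.mk 0x800000018000000980000000000000000 0x80000001f000000ff0000000700000004 5 8) 0 0 (step_sound _ 69 [(rh2fe78cc5ca4405d8.shift 3 2), rh66308995486c6adc] (by decide +kernel))
noncomputable def rhf01e4155faa90c45 : CRef := CRef.mk (Pat.mk 0xc0000000c000000440000000c00000000 0xc0000000c0000007f0000003f00000012 5 7) 0 0 (step_sound _ 33 [rh379321b70c9537f3, (rh932754581e0f4330.shift 1 0)] (by decide +kernel))
noncomputable def rh6b45b4ee05d3aa15 : CRef := CRef.mk (Pat.mk 0x300000003000000110000000100000000 0x100000003000000030000001f0000000f00000006 5 5) 0 0 (step_sound _ 33 [rh485a653f93bbf986, rh55afc6a59410cf00] (by decide +kernel))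
noncomputable def rh44a2f003077b8089 : CRef := CRef.mk (Pat.mk 0x2c0000000800000008 0x400000004000000f70000007e0000000c00000008 5 8) 0 0 (step_sound _ 68 [(rh62a51e5e348b9e49.shift 2 1), (rh768a472a1ebe455c.shift 1 0), (rhb9d63ffe7f077fd8.shift 0 2)] (by decide +kernel))
noncomputable def rh553e48a42c517c15 : CRef := CRef.mk (Pat.mk 0x10000000130000001a000000030000000000000000 0x110000001b0000001a0000000b0000001e0000000c 5 5) 0 0 (step_sound _ 33 [(rh50fbb5868c909700.shift 0 1), rhd830212f3f5feb56] (by decide +kernel))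
noncomputable def rh456de6100f6c0f2c : CRef := CRef.mk (Pat.mk 0xc0000001a0000000300000000 0x100000003000000030000000f0000001b0000000300000001 5 5) 0 0 (step_sound _ 97 [rh976a48eb1c80a12f, (rhb739f4f82bb681b4.shift 0 2)] (by decide +kernel))
noncomputable def rh2d4fff601779b65f : CRef := CRef.mk (Pat.mk 0x80000000a0000000a000000000000000000000000 0x8000000080000000b0000001e0000003c0000001400000014 5 6) 0 0 (step_sound _ 98 [rh2d71bfb3e5699952, (rh86bdd6388b8581ae.shift 1 0), (rh8ab8c564895658e7.shift 0 2)] (by decide +kernel))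
noncomputable def rhe70b17d2dd399670 : CRef := CRef.mk (Pat.mk 0x8000000380000001a0000001000000000 0x400000004000000040000000f0000003c0000001b0000001f00000004 5 6) 0 0 (step_sound _ 130 [rhc74e5087263440f3, (rhdbcea10a0fbe5ba6.shift 0 3), (rhf9a6286f1d5377a2.shift 2 1)] (by decide +kernel))
noncomputable def rhde7259b95586fcff : CRef := CRef.mk (Pat.mk 0x8000000080000003800000018 0x300000007c0000003f0000003800000018 5 7) 0 0 (step_sound _ 100 [(rh2f68792b6b779e96.shift 3 0), rh7dc624d7dc927e44] (by decide +kernel))
noncomputable def rh2cc42727f986b943 : CRef := CRef.mk (Pat.mk 0x4000000040000001800000008 0x4000000140000003f0000003f0000001800000008 5 6) 0 0 (step_sound _ 67 [rh92011a909a77227f, (rhc89253ff58c66167.shift 2 0)] (by decide +kernel))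
noncomputable def rh6299d1722b6e1507 : CRef := CRef.mk (Pat.mk 0x200000002000000000000000300000000 0x5000000070000000700000002000000020000000300000001 5 3) 0 0 (step_sound _ 65 [rh932754581e0f4330, (rhc85cc95794737cf7.shift 0 1)] (by decide +kernel))
noncomputable def rhdd036ac67064a872 : CRef := CRef.mk (Pat.mk 0x100000011000000030000000700000000 0x60000000f0000001f000000030000000700000004 5 5) 0 0 (step_sound _ 129 [(rh2f68792b6b779e96.shift 0 1), rhbfcfb6dda3b7c143] (by decide +kernel))
noncomputable def rh75ffebe3a69e9e2f : CRef := CRef.mk (Pat.mk 0x4000000040000000c0000001c000000000000000000000000 0x2000000060000000e0000000f0000001c000000040000000400000004 5 5) 0 0 (step_sound _ 129 [(rh544fd3f279a4d968.shift 1 0), (rhb739f4f82bb681b4.shift 0 3)] (by decide +kernel))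
noncomputable def rh85aeda6ee413ef40 : CRef := CRef.mk (Pat.mk 0x2400000034000000140000000400000000 0x2400000034000000170000003e0000001a 5 6) 0 0 (step_sound _ 35 [(rh55afc6a59410cf00.shift 2 0), rhbeabb5977a5d4798] (by decide +kernel))
noncomputable def rhe1dedbc5846086f4 : CRef := CRef.mk (Pat.mk 0x20000000200000002000000000000000000000000 0x500000007000000070000000200000002000000070000000700000005 5 3) 0 0 (step_sound _ 65 [(rh1741680720c097b4.shift 0 2), rh6eff4158bb400f47] (by decide +kernel))
noncomputable def rh4ee5698776d7e75c : CRef := CRef.mk (Pat.mk 0x8000000080000000b0000000000000000 0x140000001c0000001c000000080000001f0000001800000010 5 5) 0 0 (step_sound _ 35 [(rh1741680720c097b4.shift 2 1), rh5f11ee373cbffcaa, (rhced6d86d2069808b.shift 3 0)] (by decide +kernel))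
noncomputable def rhf1f3fd02045b4e82 : CRef := CRef.mk (Pat.mk 0x100000001000000010000000030000000200000000 0x20000000300000003000000010000000300000003b0000003e00000028 5 6) 0 0 (step_sound _ 68 [rh4dbe32968eb69ebc, (rh6eff4158bb400f47.shift 3 0), (rhced6d86d2069808b.shift 4 1)] (by decide +kernel))
noncomputable def rhaf814fc0f93b4041 : CRef := CRef.mk (Pat.mk 0x8000000480000000c0000000800000000 0x8000000780000000f0000007c00000010 5 7) 0 0 (step_sound _ 100 [(rh361cc68994bd8a63.shift 2 2), rhaa4d9de99c4ea825] (by decide +kernel))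
noncomputable def rh40989ba3e5d7f38b : CRef := CRef.mk (Pat.mk 0x12000000030000000200000002000000000000000000000000 0x1e000000070000000300000002000000030000000300000001 5 5) 0 0 (step_sound _ 194 [rh0d46191bda76a8f5, (rh361cc68994bd8a63.shift 0 5)] (by decide +kernel))
noncomputable def rh37d1cdf84fe36e56 : CRef := CRef.mk (Pat.mk 0x30000001200000002000000020000000000000000 0x30000001e00000002000000070000000700000005 5 5) 0 0 (step_sound _ 130 [(rh2fe78cc5ca4405d8.shift 0 4), rh6eff4158bb400f47] (by decide +kernel))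
noncomputable def rhfc5a973da4625419 : CRef := CRef.mk (Pat.mk 0x10000000030000000200000002000000000000000000000000 0x40000001e000000030000000300000003000000070000000700000005 5 5) 0 0 (step_sound _ 65 [(rh1dcec6fb95be00b0.shift 0 1), rh6eff4158bb400f47, rha613ffd40b6c9d24] (by decide +kernel))
noncomputable def rh3104b646103ca68e : CRef := CRef.mk (Pat.mk 0x2000000020000000200000002 0x5000000070000000700000007000000020000000200000002 5 3) 0 0 (step_sound _ 129 [(rh1741680720c097b4.shift 0 1), rh3ca48e2a6d60153d, (rh44f453b84f013105.shift 1 0)] (by decide +kernel))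
noncomputable def rhc180a3bbf5f31bf4 : CRef := CRef.mk (Pat.mk 0x200000002000000000000000600000000 0x4000000060000000600000002000000030000000700000005 5 3) 0 0 (step_sound _ 65 [rh20966da26a1c2ae8, (rh55afc6a59410cf00.shift 1 0)] (by decide +kernel))
noncomputable def rhe9bd7fe2ad6d1ae9 : CRef := CRef.mk (Pat.mk 0x12000000060000000000000006 0x1000000070000003f000000070000000600000006 5 6) 0 0 (step_sound _ 98 [rhbb9f1ef96c38deb0, (rhd11dc6dd83191698.shift 0 2)] (by decide +kernel))
noncomputable def rhdacab380e925b3d1 : CRef := CRef.mk (Pat.mk 0x8000000090000001800000000 0x40000000c0000000c000000080000000f0000001c00000010 5 5) 0 0 (step_sound _ 66 [(rh8b45a73eaadf2a53.shift 2 0), (rhab22b5b56e7b3243.shift 0 1)] (by decide +kernel))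
noncomputable def rhf5b4dacfe43fd0b9 : CRef := CRef.mk (Pat.mk 0xe00000002 0x780000003f0000007e 5 7) 0 0 (step_sound _ 36 [rh17f08a0ad30ba6e8, (rhd584a578337d0023.shift 1 0), (rhf3baec4a0a3dd35e.shift 1 0)] (by decide +kernel))
noncomputable def rh77379433184b537c : CRef := CRef.mk (Pat.mk 0x8000000060000000410000005800000010 0x80000000c8000000780000004f0000007800000010 5 8) 0 0 (step_sound _ 134 [rh09fa1a26dd206053, (rh2f68792b6b779e96.shift 6 1)] (by decide +kernel))
noncomputable def rhac3c0059638ae378 : CRef := CRef.mk (Pat.mk 0x1800000008000000180000009800000000 0x180000001800000018000000ff00000064 5 8) 0 0 (step_sound _ 34 [rh0af92005833c4fe2, (rh932754581e0f4330.shift 2 0)] (by decide +kernel))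
noncomputable def rhce46a40da7da8a51 : CRef := CRef.mk (Pat.mk 0x4000000180000000e000000040000000000000000 0xa0000000f0000001a0000000e000000060000000400000004 5 5) 0 0 (step_sound _ 34 [(rh71222050f2c63a3a.shift 2 0), (rh93917f859014f1fa.shift 0 1)] (by decide +kernel))
noncomputable def rhe92a3e815aa67267 : CRef := CRef.mk (Pat.mk 0x80000003000000018000000080000000800000000 0x40000000f0000003c0000001e000000180000001800000010 5 6) 0 0 (step_sound _ 98 [(rh53b3c253cb0c65f4.shift 1 3), rhb1fb8fa58a43835e] (by decide +kernel))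
noncomputable def rhe825340878a3dad7 : CRef := CRef.mk (Pat.mk 0xc0000004e000000000000000000000000 0x40000000f0000007e000000030000000200000002 5 7) 0 0 (step_sound _ 100 [(rh2fe78cc5ca4405d8.shift 2 3), rh88129595a1b18399] (by decide +kernel))
noncomputable def rhdeb566a97d63a39f : CRef := CRef.mk (Pat.mk 0x20000000300000013000000000000000000000000 0x2000000030000001f0000000f0000000700000007 5 5) 0 0 (step_sound _ 65 [rh53e41f96b2b88c97, rh6eff4158bb400f47, rh820d4e04d5dcd02e, (rhc36413e0a37e6551.shift 0 1)] (by decide +kernel))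
noncomputable def rh57aaaf0352f46bc0 : CRef := CRef.mk (Pat.mk 0x1800000038000000000000000800000000 0x1f0000003f000000070000000c0000000c 5 6) 0 0 (step_sound _ 98 [(rh80d989ad9265e9fa.shift 1 0), (rhbe5fc5902345a0b9.shift 0 3), (rhcc2be1f880c5ea3e.shift 0 2)] (by decide +kernel))
noncomputable def rh7eff2141d7589b9f : CRef := CRef.mk (Pat.mk 0x100000001800000038000000000000000000000000 0x100000001e0000003f000000770000002000000020 5 7) 0 0 (step_sound _ 130 [rha18e7c91109963bc, (rhb739f4f82bb681b4.shift 1 3)] (by decide +kernel))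
noncomputable def rh6d6b249c85a0838e : CRef := CRef.mk (Pat.mk 0x40000000600000026000000000000000000000000 0x400000006000000370000001e0000000e0000000e 5 6) 0 0 (step_sound _ 66 [(rh53e41f96b2b88c97.shift 1 0), (rh6eff4158bb400f47.shift 1 0), (rh820d4e04d5dcd02e.shift 1 0), (rhb327c1a16f903a99.shift 0 1)] (by decide +kernel))
noncomputable def rh33e6d365a89c069c : CRef := CRef.mk (Pat.mk 0x8000000100000001600000014 0xa0000001e000000330000001e00000014 5 6) 0 0 (step_sound _ 65 [rh02a219798ccd00cd, (rh12d50e65fdd458b1.shift 0 1), rh57e904acb908a42d, (rhe18fc4146d3f3f2b.shift 1 0)] (by decide +kernel))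
noncomputable def rh1abe4adb128d0412 : CRef := CRef.mk (Pat.mk 0x20000000410000005800000050 0x2800000078000000cf0000007800000050 5 8) 0 0 (step_sound _ 67 [(rh0dda944375fef289.shift 0 1), (rh12d50e65fdd458b1.shift 2 1), (rh57e904acb908a42d.shift 2 0), (rhe18fc4146d3f3f2b.shift 3 0)] (by decide +kernel))
noncomputable def rh76b594d5fd8efb02 : CRef := CRef.mk (Pat.mk 0x80000000a00000008000000000000000000000000 0x10000000780000001f000000080000001c0000001c00000014 5 7) 0 0 (step_sound _ 67 [(rh0363d47a46978688.shift 0 2), (rh6eff4158bb400f47.shift 2 0)] (by decide +kernel))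
noncomputable def rhc3d3db0c6b4d5662 : CRef := CRef.mk (Pat.mk 0x38000000400000000400000004 0x70000003e000000630000000600000004 5 7) 0 0 (step_sound _ 98 [(rh96851dee118c1ba3.shift 2 2), rhcbce130df63aa989] (by decide +kernel))
noncomputable def rh7fb2d759e6ef648b : CRef := CRef.mk (Pat.mk 0x80000000c0000000800000000 0x100000001800000018000000080000001f0000007c00000010 5 7) 0 0 (step_sound _ 36 [(rh8599f462953abc6e.shift 3 0), (rhdeca8db941583de2.shift 0 1)] (by decide +kernel))
noncomputable def rhd204e232ef94685e : CRef := CRef.mk (Pat.mk 0x40000000800000008000000080000000a 0x40000000c00000008000000080000007c0000001f 5 7) 0 0 (step_sound _ 131 [(rh50fbb5868c909700.shift 2 1), rhec5e79449ea30f2b] (by decide +kernel))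
noncomputable def rhbc8795828c047a54 : CRef := CRef.mk (Pat.mk 0x80000000800000008000000080000000a 0x40000000c00000008000000080000007c0000001f 5 7) 0 0 (step_sound _ 130 [(rh50fbb5868c909700.shift 2 1), rhec5e79449ea30f2b] (by decide +kernel))
noncomputable def rhb7e554dc0df58ef3 : CRef := CRef.mk (Pat.mk 0x800000008000000080000000a 0x100000001800000018000000080000001c0000001f 5 5) 0 0 (step_sound _ 132 [rh741b6cc286b94df1, (rhbaefcd01e0a8bca3.shift 3 0)] (by decide +kernel))
noncomputable def rh082a9c7b1a2bf320 : CRef := CRef.mk (Pat.mk 0x800000008000000080000000a00000008 0x80000000800000018000000180000007c0000001f00000008 5 7) 0 0 (step_sound _ 100 [(rh2f68792b6b779e96.shift 3 0), (rh964a59538a450821.shift 0 1)] (by decide +kernel))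
noncomputable def rh88e9d2203d3e6459 : CRef := CRef.mk (Pat.mk 0x5200000013000000580000000000000000 0x80000000c000000fe0000001b000000f80000000c00000008 5 8) 0 0 (step_sound _ 131 [(rh83a4c5c0feb85724.shift 2 0), (rhb2a0b9ccfb5cecd5.shift 0 3)] (by decide +kernel))
noncomputable def rh624e7875a244d2e7 : CRef := CRef.mk (Pat.mk 0x7c00000000 0x3c0000007f00000007 5 7) 0 0 (step_sound _ 1 [(rh80fcd6d0a18cb2dd.shift 1 0), rhfceee77b133dacc5] (by decide +kernel))
noncomputable def rha805d199fb9ff167 : CRef := CRef.mk (Pat.mk 0x1000000010000000200000007000000000 0x1000000010000000700000007e0000000f 5 7) 0 0 (step_sound _ 35 [(rh316d0c7c5292e4bb.shift 2 0), (rh55c4ed4acec0f063.shift 1 0), (rh7be2e9ae184a873f.shift 1 0), rhb103f40a53fe1424] (by decide +kernel))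
noncomputable def rh4eff25e82d73a1d2 : CRef := CRef.mk (Pat.mk 0x12000000120000005a000000020000000000000000 0x1000000130000001a0000007a0000000e0000000c00000008 5 7) 0 0 (step_sound _ 160 [(rh50fbb5868c909700.shift 0 2), (rh74f00d2c2e35345d.shift 1 0)] (by decide +kernel))
noncomputable def rh9c21692481bcb707 : CRef := CRef.mk (Pat.mk 0x200000003000000120000000000000000 0x100000003000000030000001e0000000f00000007 5 5) 0 0 (step_sound _ 67 [(rh5419adcd928dba20.shift 0 2), rhad376fbe1f0e053b] (by decide +kernel))
noncomputable def rh71f126fe145790e8 : CRef := CRef.mk (Pat.mk 0xa000000180000000e00000000 0x10000000330000001f0000001b0000000e00000004 5 6) 0 0 (step_sound _ 98 [(rhb739f4f82bb681b4.shift 0 2), rhbe4b7eb4a8283e95] (by decide +kernel))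
noncomputable def rhbb5dc09a29d1f147 : CRef := CRef.mk (Pat.mk 0xe000000180000000a00000000 0x14000000370000003e0000001b0000000a00000002 5 6) 0 0 (step_sound _ 100 [(rh5421160f8e9bcf07.shift 1 1), rh6ed37a46f1e42752, rh75b63e46072e6b6d] (by decide +kernel))
noncomputable def rhf571f68a33e22dc6 : CRef := CRef.mk (Pat.mk 0x1c00000008000000000000000600000000 0x20000003f0000003f000000040000000600000002 5 6) 0 0 (step_sound _ 98 [(rh4dc133ee0ba1420a.shift 0 3), rh65271c6153afc2e0] (by decide +kernel))
noncomputable def rh879100b70082b4a9 : CRef := CRef.mk (Pat.mk 0xe000000080000000c00000008 0x2000000130000003e0000000f0000000c00000008 5 6) 0 0 (step_sound _ 100 [(rh2f68792b6b779e96.shift 3 0), (rh9aa138e5ed752369.shift 0 1)] (by decide +kernel))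
noncomputable def rh94d66c2effe5fb8c : CRef := CRef.mk (Pat.mk 0x200000002000000060000000300000002 0x400000006000000060000000300000007000000070000000300000002 5 3) 0 0 (step_sound _ 96 [rh50fbb5868c909700, (rh5d410e570082021e.shift 0 1)] (by decide +kernel))
noncomputable def rhedf5c1b0f11c602f : CRef := CRef.mk (Pat.mk 0x200000003000000580000000800000000 0x100000003000000030000007a0000000f00000006 5 7) 0 0 (step_sound _ 34 [(rh361cc68994bd8a63.shift 2 1), rha7b5dc9ddcd9f09d] (by decide +kernel))
noncomputable def rh1807c9f74b6a41cb : CRef := CRef.mk (Pat.mk 0x1200000003000000180000000000000000 0x50000001f000000030000001e0000000200000002 5 5) 0 0 (step_sound _ 65 [(rh5419adcd928dba20.shift 0 2), rhc47fe1bc6b175f77] (by decide +kernel))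
noncomputable def rh885fe8119fcfa194 : CRef := CRef.mk (Pat.mk 0x20000000300000018000000000000000000000000 0x3000000030000001e0000000f0000000700000005 5 5) 0 0 (step_sound _ 97 [(rh5419adcd928dba20.shift 0 3), rh7db291d389567aa4] (by decide +kernel))
noncomputable def rh03cbb3fc6034ad65 : CRef := CRef.mk (Pat.mk 0x100000003000000400000001c00000000 0x1000000010000000300000003000000660000003e00000002 5 7) 0 0 (step_sound _ 37 [(rh428265de8cd3cd2d.shift 2 1), rhb420e2f32691659a] (by decide +kernel))
noncomputable def rh4c4f1f8a139336b8 : CRef := CRef.mk (Pat.mk 0x20000000300000012000000000000000000000000 0x100000003000000030000001e0000000f0000000700000004 5 5) 0 0 (step_sound _ 99 [(rh5419adcd928dba20.shift 0 3), rhff883eeb52774e9d] (by decide +kernel))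
noncomputable def rhed4da78fe89f6176 : CRef := CRef.mk (Pat.mk 0x6000000030000000200000000 0x1000000070000000700000006000000030000000300000002 5 3) 0 0 (step_sound _ 130 [(rh71222050f2c63a3a.shift 1 0), (rh8b0f6dfa53ad9781.shift 0 1)] (by decide +kernel))
noncomputable def rh3dc762ecee405e19 : CRef := CRef.mk (Pat.mk 0x80000000c0000001c0000000c0000000000000000 0x80000000c0000001e0000003f0000001300000002 5 6) 0 0 (step_sound _ 68 [(rh55afc6a59410cf00.shift 3 1), rh7ef648bffff0c07b] (by decide +kernel))
noncomputable def rhfbdab12e12655bfc : CRef := CRef.mk (Pat.mk 0x18000000980000000800000000 0xc0000000c0000000c00000018000000fc0000000f00000004 5 8) 0 0 (step_sound _ 69 [(rh2fe78cc5ca4405d8.shift 3 2), rhf45ab07dedff8e50] (by decide +kernel))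
noncomputable def rh52b8dcc4d7ff63e5 : CRef := CRef.mk (Pat.mk 0x80000000e0000001c0000000800000000 0x40000000c0000000e0000001e0000003b00000012 5 6) 0 0 (step_sound _ 130 [rh2090ae2add1536ae, (rh50fbb5868c909700.shift 2 1)] (by decide +kernel))
noncomputable def rh1ed54d24d83d08b6 : CRef := CRef.mk (Pat.mk 0x1000000018000000180000000e000000000000000000000000 0x4000000340000003f0000001f0000000e000000020000000200000002 5 6) 0 0 (step_sound _ 162 [(rh34517e326ddb5b25.shift 0 4), rh87980f366b100a8e] (by decide +kernel))
noncomputable def rh8b2fda5a45b22ee6 : CRef := CRef.mk (Pat.mk 0x180000001c0000000400000000 0x2000000030000001f0000001f0000000400000004 5 5) 0 0 (step_sound _ 65 [(rh53b3c253cb0c65f4.shift 0 2), rhb5a7f92cc27b3f13] (by decide +kernel))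
noncomputable def rh4994af439152da2a : CRef := CRef.mk (Pat.mk 0x180000001c0000000c 0x16000000360000003f0000001c0000000c 5 6) 0 0 (step_sound _ 100 [rh50a1daef835fae7e, (rh5c5e593799055d58.shift 3 0)] (by decide +kernel))
noncomputable def rhad364f8145a59bd3 : CRef := CRef.mk (Pat.mk 0x300000001c00000018 0xc0000000f0000007c0000001c00000018 5 7) 0 0 (step_sound _ 67 [(rh18965a982d73c794.shift 2 1), rhdfed4ebb0eb54f43] (by decide +kernel))
noncomputable def rhfc9f240c24cca6f3 : CRef := CRef.mk (Pat.mk 0xc0000001c0000000c00000004 0x10000000720000003e0000001f0000000c00000004 5 7) 0 0 (step_sound _ 97 [(rh50fbb5868c909700.shift 1 0), (rh6abdd6f58fb93772.shift 0 1)] (by decide +kernel))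
noncomputable def rhf12614039854d837 : CRef := CRef.mk (Pat.mk 0x18000000180000001800000000 0xc0000000f0000003c000000180000001800000008 5 6) 0 0 (step_sound _ 131 [rh1edccfff645534d3, (rh2145e1d24b96a57e.shift 3 1)] (by decide +kernel))
noncomputable def rhf8011fcd879816a5 : CRef := CRef.mk (Pat.mk 0x980000001800000008 0x400000007000000ff0000001f00000008 5 8) 0 0 (step_sound _ 69 [rh20595ccdccbf31d9, (rh361cc68994bd8a63.shift 3 1)] (by decide +kernel))
noncomputable def rh81fd61964a6f58db : CRef := CRef.mk (Pat.mk 0xc000000440000000c0000000c 0x120000003f0000007f0000000c0000000c 5 7) 0 0 (step_sound _ 97 [(rh50fbb5868c909700.shift 1 0), rhad3ade5dceadddb4] (by decide +kernel))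
noncomputable def rh1a57cbc5afc41b5f : CRef := CRef.mk (Pat.mk 0x100000011000000030000000300000000 0x60000000f0000001f000000030000000300000001 5 5) 0 0 (step_sound _ 129 [(rh2f68792b6b779e96.shift 0 1), rh9b972fc44974c080] (by decide +kernel))
noncomputable def rhff8c8e8c37d692c3 : CRef := CRef.mk (Pat.mk 0x30000001a0000001300000010 0xc0000001e0000000b0000001a0000001b00000011 5 5) 0 0 (step_sound _ 129 [rh30725b089a36a09f, rh932754581e0f4330] (by decide +kernel))
noncomputable def rh8a5fe1dd9bb6066e : CRef := CRef.mk (Pat.mk 0x30000001a0000000c000000000000000000000000 0x1000000030000001b0000000f000000030000000300000001 5 5) 0 0 (step_sound _ 97 [rh01483ff9cba2f6ac, (rh53b3c253cb0c65f4.shift 0 3)] (by decide +kernel))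
noncomputable def rh30d276a602de0690 : CRef := CRef.mk (Pat.mk 0xa0000000a0000000800000000 0x14000000140000003c0000001e0000000b0000000800000008 5 6) 0 0 (step_sound _ 98 [(rh0aefef67a4f5e36d.shift 0 1), (rhd01ed0cc6ce530d4.shift 1 0), rhd76ec78a8155b0c9] (by decide +kernel))
noncomputable def rh25af20831f12ea3c : CRef := CRef.mk (Pat.mk 0x100000001a0000003800000008000000000000000000000000 0x40000001f0000001b0000003c0000000f000000040000000400000004 5 6) 0 0 (step_sound _ 98 [(rh199b75e937e0c6d9.shift 0 2), (rh1ed7a3503fa50fc8.shift 0 3), (rhfafeb437ceb8396d.shift 2 0)] (by decide +kernel))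
noncomputable def rh83816445271df0ea : CRef := CRef.mk (Pat.mk 0x1800000038000000080000000800000000 0x18000000380000003f0000007c00000030 5 7) 0 0 (step_sound _ 36 [(rh55afc6a59410cf00.shift 3 0), rhc4f7c28c47f045d9] (by decide +kernel))
noncomputable def rh86ff0b294d90594e : CRef := CRef.mk (Pat.mk 0x80000001800000004000000040000000000000000 0x8000000180000003f0000003f0000001400000004 5 6) 0 0 (step_sound _ 99 [(rh42548283029e2a39.shift 2 0), (rh82c32eec533ffa4c.shift 0 1)] (by decide +kernel))
noncomputable def rhec45253cfaab2d6a : CRef := CRef.mk (Pat.mk 0x700000003000000110000000100000000 0x400000007000000030000001f0000000f00000006 5 5) 0 0 (step_sound _ 33 [rh0104cc8cade74c86, rh55afc6a59410cf00] (by decide +kernel))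
noncomputable def rh0c1b433c053746b9 : CRef := CRef.mk (Pat.mk 0x1c0000000c000000040000000400000000 0x400000004000000040000001c0000000f0000000e0000000600000002 5 5) 0 0 (step_sound _ 97 [(rh53b3c253cb0c65f4.shift 0 3), (rhea90e7358341a1a4.shift 1 0)] (by decide +kernel))
noncomputable def rhb1813a1c2dc402fb : CRef := CRef.mk (Pat.mk 0x4000000140000003400000024 0x1a0000003e000000170000003400000024 5 6) 0 0 (step_sound _ 99 [(rh2f68792b6b779e96.shift 2 0), rh83a5231d12339864] (by decide +kernel))
noncomputable def rhabc5919e4ae81192 : CRef := CRef.mk (Pat.mk 0x200000002000000020000000000000000 0x500000007000000070000000200000002000000070000000700000005 5 3) 0 0 (step_sound _ 161 [(rh1741680720c097b4.shift 0 2), rh6eff4158bb400f47] (by decide +kernel))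
noncomputable def rh0229df9e8c2b8e28 : CRef := CRef.mk (Pat.mk 0x20000000200000002000000000000000000000000 0x100000003000000030000000200000007000000070000000700000005 5 3) 0 0 (step_sound _ 65 [(rh771d065bdc85bf2d.shift 0 1), (rh7eb4a07d72ad7934.shift 0 1), rh8cdd36b03d57a2f6] (by decide +kernel))
noncomputable def rh3debde4db4905e50 : CRef := CRef.mk (Pat.mk 0xb00000008000000080000000000000000 0x10000000180000001f000000080000001c0000001c00000014 5 5) 0 0 (step_sound _ 163 [(rh6c59ce14113da07f.shift 3 0), (rh6eff4158bb400f47.shift 2 0), (rhddcd04bb31546311.shift 0 2)] (by decide +kernel))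
noncomputable def rha0580894fb78b9fa : CRef := CRef.mk (Pat.mk 0x2000000030000001000000010000000100000000000000000 0x280000003e0000003b0000003000000010000000300000003000000020 5 6) 0 0 (step_sound _ 164 [(rh15ee9795a5e77dd1.shift 0 2), (rh1741680720c097b4.shift 3 2), (rh6c59ce14113da07f.shift 4 0)] (by decide +kernel))
noncomputable def rh32e98766b8fccedc : CRef := CRef.mk (Pat.mk 0x80000000c0000004800000008 0x100000007c0000000f0000007800000008 5 7) 0 0 (step_sound _ 36 [(rh2fe78cc5ca4405d8.shift 2 1), rhdf8b9aa233deec1e] (by decide +kernel))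
noncomputable def rhd1cd6acd6635dd49 : CRef := CRef.mk (Pat.mk 0x2000000020000000300000012 0x100000003000000030000000200000003000000070000001e 5 5) 0 0 (step_sound _ 2 [rh2fe78cc5ca4405d8, rhb35e66efa75d67a8] (by decide +kernel))
noncomputable def rh84d95ab90794ade2 : CRef := CRef.mk (Pat.mk 0x2000000020000001200000003 0x50000000700000007000000020000001e00000003 5 5) 0 0 (step_sound _ 34 [rh1741680720c097b4, rh361cc68994bd8a63] (by decide +kernel))
noncomputable def rh391e92a6dfb6116c : CRef := CRef.mk (Pat.mk 0x200000002000000030000001000000000 0x500000007000000070000000300000003000000030000001e00000004 5 5) 0 0 (step_sound _ 161 [(rh1741680720c097b4.shift 0 2), rh758e491264c39691, (rh9a369cb82ea472da.shift 0 2)] (by decide +kernel))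
noncomputable def rhbaa2aa7a431bd100 : CRef := CRef.mk (Pat.mk 0x2000000020000000200000002000000000000000000000000 0x2000000020000000200000007000000070000000700000005 5 3) 0 0 (step_sound _ 65 [rh6eff4158bb400f47, (rh7928877f9bf74a91.shift 0 1), (rhd29a1fb688eae70f.shift 1 1)] (by decide +kernel))
noncomputable def rhaa02dd547a368cc9 : CRef := CRef.mk (Pat.mk 0x60000000000000002000000020000000000000000 0x5000000070000000300000002000000060000000600000004 5 3) 0 0 (step_sound _ 129 [(rh2f68792b6b779e96.shift 1 2), rh8ff3dde5b1c639e0] (by decide +kernel))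
noncomputable def rh309256767465bfda : CRef := CRef.mk (Pat.mk 0x60000000000000006000000120000000000000000 0x600000006000000070000003f0000000700000001 5 6) 0 0 (step_sound _ 66 [rh3c37d9d76af39d76, (rhfd0f316c42bbba52.shift 0 2)] (by decide +kernel))
noncomputable def rhda0cd6b78000b5c8 : CRef := CRef.mk (Pat.mk 0x180000000900000008000000000000000000000000 0x100000001c0000000f000000080000000c0000000c00000004 5 5) 0 0 (step_sound _ 130 [(rh24ae073cf30720c4.shift 0 4), (rhf6237156212ce777.shift 2 0)] (by decide +kernel))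
noncomputable def rh08c8fb8e65451dc8 : CRef := CRef.mk (Pat.mk 0x20000000e00000000 0x7e0000003f00000078 5 7) 0 0 (step_sound _ 36 [(rh2aac33c566332a8c.shift 1 0), rh44fae8d9c1045ff0, (rh790acd67f4fffd04.shift 1 1)] (by decide +kernel))
noncomputable def rh99cda801d841c0b1 : CRef := CRef.mk (Pat.mk 0x98000000180000000800000018 0x64000000ff000000180000001800000018 5 8) 0 0 (step_sound _ 98 [rh4787bd8799cfdbb8, (rh50fbb5868c909700.shift 2 0)] (by decide +kernel))
noncomputable def rhd8a0883814f6bb6a : CRef := CRef.mk (Pat.mk 0x40000000e000000180000000400000000 0x400000004000000060000000e0000001a0000000f0000000a 5 5) 0 0 (step_sound _ 162 [(rh2145e1d24b96a57e.shift 2 2), rh613f18a14bcdc478] (by decide +kernel))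
noncomputable def rh82a5444e3a46de27 : CRef := CRef.mk (Pat.mk 0x80000000800000018000000300000000800000000 0x1000000018000000180000001e0000003c0000000f00000004 5 6) 0 0 (step_sound _ 98 [rhb25e23e515bd9515, (rhb739f4f82bb681b4.shift 1 2)] (by decide +kernel))
noncomputable def rh6777e7960e5db32a : CRef := CRef.mk (Pat.mk 0x4e0000000c00000000 0x200000002000000030000007e0000000f00000004 5 7) 0 0 (step_sound _ 68 [(rh361cc68994bd8a63.shift 2 1), rhdd3ef923ff6c7ad5] (by decide +kernel))
noncomputable def rh09c8174d9908c93a : CRef := CRef.mk (Pat.mk 0x130000000300000002 0x7000000070000000f0000001f0000000300000002 5 5) 0 0 (step_sound _ 97 [rh1741680720c097b4, rh5fa50b509d4ce753, rh61043f70763267c4, rh7f9f3607ee25a93b] (by decide +kernel))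
noncomputable def rheb4bed7d7070d6f7 : CRef := CRef.mk (Pat.mk 0x8000000000000003800000018 0xc0000000c000000070000003f0000001f 5 6) 0 0 (step_sound _ 34 [(rh68da57567b86e05e.shift 1 0), rhb14e2588a8d71db8, rhba89ab7cb81bcc90] (by decide +kernel))
noncomputable def rh21aa0be521da3da9 : CRef := CRef.mk (Pat.mk 0x380000001800000010 0x2000000020000000770000003f0000001e00000010 5 7) 0 0 (step_sound _ 34 [(rh53b3c253cb0c65f4.shift 1 1), rhbd1729a7c00d4f1f] (by decide +kernel))
noncomputable def rh667089498581842b : CRef := CRef.mk (Pat.mk 0x260000000600000004 0xe0000000e0000001e000000370000000600000004 5 6) 0 0 (step_sound _ 98 [(rh1741680720c097b4.shift 1 0), rh51f1467e598c322f, (rh5fa50b509d4ce753.shift 1 0), (rh7f9f3607ee25a93b.shift 1 0)] (by decide +kernel))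
noncomputable def rhd9e6805862b3eca6 : CRef := CRef.mk (Pat.mk 0x1400000016000000100000000800000000 0x140000001e000000330000001e0000000a 5 6) 0 0 (step_sound _ 65 [(rh20b9aad33ac709bf.shift 1 0), rh45afb35caab0b0f7, rhb6dca7745189bd5d, (rhcaa7ba44a31c4370.shift 0 2)] (by decide +kernel))
noncomputable def rh9290253259ab20d8 : CRef := CRef.mk (Pat.mk 0x5000000058000000410000002000000000 0x5000000078000000cf0000007800000028 5 8) 0 0 (step_sound _ 67 [(rh20b9aad33ac709bf.shift 3 0), (rh6a63694b978e6cfd.shift 0 2), (rhb6dca7745189bd5d.shift 2 0), (rhcaa7ba44a31c4370.shift 2 2)] (by decide +kernel))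
noncomputable def rh131960b11392079e : CRef := CRef.mk (Pat.mk 0x80000000a0000000800000000 0x140000001c0000001c000000080000001f0000007800000010 5 7) 0 0 (step_sound _ 131 [(rh1741680720c097b4.shift 2 1), rhc486ae0fcc44be52] (by decide +kernel))
noncomputable def rh7df12c1217453361 : CRef := CRef.mk (Pat.mk 0x400000004000000400000003800000000 0x400000006000000630000003e00000007 5 7) 0 0 (step_sound _ 34 [rh2c56be22e7e0e355, (rh428265de8cd3cd2d.shift 2 1)] (by decide +kernel))
noncomputable def rhe71255cabd85b222 : CRef := CRef.mk (Pat.mk 0x80000000c00000008000000000000000000000000 0x100000007c0000001f00000008000000180000001800000010 5 7) 0 0 (step_sound _ 164 [(rh0bb882ba86b2372d.shift 0 4), (rh3820f35d5e705bec.shift 3 0)] (by decide +kernel))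
noncomputable def rheb348af029e35c61 : CRef := CRef.mk (Pat.mk 0xa0000000800000008000000080000000800000000 0x1f0000007c00000008000000080000000c00000004 5 7) 0 0 (step_sound _ 34 [(rh60be6bea0ea1f35f.shift 0 1), (rh932754581e0f4330.shift 2 0)] (by decide +kernel))
noncomputable def rh929cf1c202877a71 : CRef := CRef.mk (Pat.mk 0xa0000000800000008000000080000000000000000 0x1f0000001c00000008000000180000001800000010 5 5) 0 0 (step_sound _ 36 [rh75befd57d7780d6f, (rhd3458b32566d63f7.shift 3 1)] (by decide +kernel))
noncomputable def rh1ace9c25bd406288 : CRef := CRef.mk (Pat.mk 0x80000000a0000000800000008000000080000000000000000 0x80000001f0000007c00000018000000180000000800000008 5 7) 0 0 (step_sound _ 100 [(rh55afc6a59410cf00.shift 3 2), rh92ed6038b28a5d89] (by decide +kernel))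
noncomputable def rh6803dd6780f09921 : CRef := CRef.mk (Pat.mk 0x400000004000000440000000c00000000 0x40000000400000004000000770000003e00000002 5 7) 0 0 (step_sound _ 33 [(rh932754581e0f4330.shift 1 0), (rhcecd9a94f2dc3209.shift 0 1)] (by decide +kernel))
noncomputable def rh69d88cbb5684b192 : CRef := CRef.mk (Pat.mk 0x160000001200000012000000010000000000000000 0x4000000160000001a0000001e0000000f0000000800000008 5 5) 0 0 (step_sound _ 65 [rh0fbbb92589a12005, (rh2f68792b6b779e96.shift 1 2)] (by decide +kernel))
noncomputable def rh982e4da1b73360b0 : CRef := CRef.mk (Pat.mk 0x80000001c00000000 0xff0000007f000000e0 5 8) 0 0 (step_sound _ 37 [(rh915c3ff3d4fe3a39.shift 0 1), (rha93a5dd541ab8209.shift 2 0), (rhe3060b190bc0bc78.shift 1 1)] (by decide +kernel))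
noncomputable def rh28c1b45380c0c693 : CRef := CRef.mk (Pat.mk 0x1e00000006000000000000000400000000 0x30000001e0000003e000000030000000700000006 5 6) 0 0 (step_sound _ 100 [rh5623f966371d87d6, (rhe25b0a99195a5d59.shift 1 3)] (by decide +kernel))
noncomputable def rh82020f427bd79aa1 : CRef := CRef.mk (Pat.mk 0x80000000a000000400000000600000004 0xa0000000a0000007b0000003e00000004 5 7) 0 0 (step_sound _ 35 [(rh3c88ce959c0e423f.shift 2 0), rh409ef0033743d2be] (by decide +kernel))
noncomputable def rhe50bbcfb92a78773 : CRef := CRef.mk (Pat.mk 0x4000000040000001c000000000000000000000000 0x4000000060000003e000000fb0000000200000002 5 8) 0 0 (step_sound _ 69 [(rh639c5d61b5ce9eea.shift 1 2), (rh6aa0ed61cce1493b.shift 1 2), rhb944afd64c605958] (by decide +kernel))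
noncomputable def rh261a8866d59fca2f : CRef := CRef.mk (Pat.mk 0x6000000030000000040000003800000000 0x640000003c000000060000003e00000007 5 7) 0 0 (step_sound _ 34 [rh12986f6786da0443, (rh3244c3cc8379b070.shift 1 1)] (by decide +kernel))
noncomputable def rh6815aea2c6c4a2a3 : CRef := CRef.mk (Pat.mk 0x2000000200000000e000000000000000000000000 0x200000002000000330000001e000000060000000400000004 5 6) 0 0 (step_sound _ 100 [(rh428265de8cd3cd2d.shift 1 3), rh95b4c7d6d9b6685a] (by decide +kernel))
noncomputable def rh42ba3e706da39527 : CRef := CRef.mk (Pat.mk 0x180000000c000000400000000c00000000 0x40000001c0000000f000000780000003c00000018 5 7) 0 0 (step_sound _ 97 [(rh53b3c253cb0c65f4.shift 0 3), (rhcc665d498e5a5a88.shift 2 0)] (by decide +kernel))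
noncomputable def rh969aa2cf75ad5e0c : CRef := CRef.mk (Pat.mk 0x480000000c0000000c0000000400000000 0x10000000780000000c0000000f0000003c00000010 5 7) 0 0 (step_sound _ 132 [rh08c0a4b24e0c6ff9, (rh361cc68994bd8a63.shift 2 3)] (by decide +kernel))
noncomputable def rhacac90aa3c848399 : CRef := CRef.mk (Pat.mk 0x100000000380000001000000010 0x2000000020000001f70000003e0000001000000010 5 9) 0 0 (step_sound _ 101 [(rh2b3584ef0f05e9c2.shift 2 2), (rh3e0b38310ac09007.shift 0 2), (rhbfb5770941270498.shift 4 0)] (by decide +kernel))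
noncomputable def rh7c9f981eae00e4ff : CRef := CRef.mk (Pat.mk 0x100000001300000013000000010000000000000000 0x110000001b0000001f0000000f0000000a0000000a 5 5) 0 0 (step_sound _ 99 [(rh5419adcd928dba20.shift 0 3), rh699a3d9fbbc9e241] (by decide +kernel))
noncomputable def rh29b6b9a476013994 : CRef := CRef.mk (Pat.mk 0x70000000400000007000000000000000000000000 0x10000000700000007000000070000000f0000000e0000000a 5 4) 0 0 (step_sound _ 65 [rh0588d2c7f2cab5e9, (rh36f5b7631f426395.shift 1 0), (rh42548283029e2a39.shift 1 0), (rhdb2909ac5c854515.shift 0 2)] (by decide +kernel))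
noncomputable def rhb2ad334fef123198 : CRef := CRef.mk (Pat.mk 0x100000001200000012000000030000000200000000 0x100000001a0000001e0000000b0000001e0000000c 5 5) 0 0 (step_sound _ 99 [(rhb2a0b9ccfb5cecd5.shift 0 2), rhd830212f3f5feb56] (by decide +kernel))
noncomputable def rh84b06d935020790e : CRef := CRef.mk (Pat.mk 0xc00000004000000200000000600000000 0xc0000000c00000004000000370000001e00000008 5 6) 0 0 (step_sound _ 66 [(rh2f68792b6b779e96.shift 2 1), rh66fb79ba164271da] (by decide +kernel))
noncomputable def rh98b7e41768c72bda : CRef := CRef.mk (Pat.mk 0x800000008000000380000001000000000 0x80000000f0000003e0000007700000004 5 7) 0 0 (step_sound _ 66 [(rh592c7139d2c44767.shift 0 1), (rha03f6e28ea70fc7d.shift 1 1), (rhae036cc4ef671676.shift 1 0)] (by decide +kernel))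
noncomputable def rh443525415d159627 : CRef := CRef.mk (Pat.mk 0x1e00000002000000040000000000000000 0x70000001e00000002000000070000000700000001 5 5) 0 0 (step_sound _ 161 [(rh3244c3cc8379b070.shift 0 4), rhf57aef432b6ec1e1] (by decide +kernel))
noncomputable def rh8d4f678fa811d376 : CRef := CRef.mk (Pat.mk 0x1800000010000000380000000000000000 0x180000001e0000007c0000000f0000000c 5 7) 0 0 (step_sound _ 99 [rh41eb4a13b78c152f, (rhe2b63c00a3d7bb73.shift 1 2)] (by decide +kernel))
noncomputable def rh75157e015ab5bf2f : CRef := CRef.mk (Pat.mk 0xa000000180000000e000000000000000000000000 0x20000000a0000001b0000001e0000003c0000001400000004 5 6) 0 0 (step_sound _ 100 [rh2d458025f6a354be, (rh78974448101547fe.shift 1 1)] (by decide +kernel))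
noncomputable def rh36d9ba0affc5ce9e : CRef := CRef.mk (Pat.mk 0x400000000c000000180000000e0000000000000000 0x18000000780000000f000000180000001e0000003000000010 5 7) 0 0 (step_sound _ 129 [(rh5e9057b506575dde.shift 1 0), (rhb739f4f82bb681b4.shift 0 3)] (by decide +kernel))
noncomputable def rhae5d538985446cc6 : CRef := CRef.mk (Pat.mk 0x1200000003000000000000000300000000 0x60000001e00000003000000070000000700000004 5 5) 0 0 (step_sound _ 130 [(rh361cc68994bd8a63.shift 0 3), rhf66943792be19228] (by decide +kernel))
noncomputable def rhbfaa91fc901ba0ec : CRef := CRef.mk (Pat.mk 0x1800000010000000180000001800000000 0x18000000180000001f0000003f00000026 5 6) 0 0 (step_sound _ 37 [(rh55afc6a59410cf00.shift 4 0), rh8b752e8fba7632d2] (by decide +kernel))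
noncomputable def rhb9ea9cf5d1b0852e : CRef := CRef.mk (Pat.mk 0x800000008000000180000000800000000 0x40000000c0000000f0000007c0000000800000008 5 7) 0 0 (step_sound _ 130 [(rh50fbb5868c909700.shift 2 1), rha34c4b685132e310] (by decide +kernel))
noncomputable def rh72a2a0258c45220e : CRef := CRef.mk (Pat.mk 0x20000000200000002000000010000000000000000 0x1000000030000000300000002000000070000000700000004 5 3) 0 0 (step_sound _ 65 [rh5ad9898cc32ef511, (rh932754581e0f4330.shift 0 1)] (by decide +kernel))
noncomputable def rhcf9f19377a1b8271 : CRef := CRef.mk (Pat.mk 0x100000001800000038000000000000000000000000 0x180000001f0000003f0000000f0000000c00000004 5 6) 0 0 (step_sound _ 98 [(rh775ca1963e850b80.shift 0 2), (rha5ef98d9768becaf.shift 1 0), (rhbe5fc5902345a0b9.shift 0 3), (rhcc2be1f880c5ea3e.shift 0 2)] (by decide +kernel))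
noncomputable def rhe7b42330235301f6 : CRef := CRef.mk (Pat.mk 0x18000000020000000600000002000000000000000000000000 0x70000001f000000060000000600000002000000070000000700000005 5 5) 0 0 (step_sound _ 65 [rh6eff4158bb400f47, rh91a545eb3be094e3, (rha707fb719e87fe6e.shift 1 1), (rhff514599ac705ffe.shift 0 2)] (by decide +kernel))
noncomputable def rh3596b36e97c776d4 : CRef := CRef.mk (Pat.mk 0x880000001c00000000 0xef0000007e000000e7 5 8) 0 0 (step_sound _ 37 [(rh45e9dfbd6bd5d256.shift 2 1), rh592c7139d2c44767, (rh695f888db18ad7c7.shift 2 0)] (by decide +kernel))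
noncomputable def rh8f3e40d1e258cb76 : CRef := CRef.mk (Pat.mk 0x600000006000000030000000000000000 0x200000003000000030000000700000007000000030000000200000002 5 3) 0 0 (step_sound _ 33 [(rh71222050f2c63a3a.shift 1 0), (rh865cf161b9b29643.shift 0 1)] (by decide +kernel))
noncomputable def rh1b293c6574892215 : CRef := CRef.mk (Pat.mk 0x380000000000000038000000000000000000000000 0x10000000140000001f000000380000000f0000007c000000180000001000000010 5 7) 0 0 (step_sound _ 131 [(rh215e11e099257d75.shift 3 2), (rh70e33bfdf511e144.shift 3 0), (rha9fbfd4bb8cf890b.shift 0 3), (rhb232fadadcf6cde8.shift 0 2)] (by decide +kernel))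
noncomputable def rhbd852b24efab923f : CRef := CRef.mk (Pat.mk 0x3800000000 0x70000007e000000ff 5 8) 0 0 (step_sound _ 34 [rh0d378fd9e8917c5a, (rh0edd3afef6b5d7e0.shift 1 0), rh185f35b8bd8ec37f, rh775ca1963e850b80] (by decide +kernel))
noncomputable def rhc3aa69e923ba2d93 : CRef := CRef.mk (Pat.mk 0xc000000180000000e000000000000000000000000 0x40000000c0000001e0000001e000000330000001200000002 5 6) 0 0 (step_sound _ 100 [(rh78974448101547fe.shift 1 1), rhf3caf215570e71a5] (by decide +kernel))
noncomputable def rh9bf7118bf0f2b22b : CRef := CRef.mk (Pat.mk 0x30000001200000003000000000000000000000000 0x1000000030000001f00000003000000060000000600000004 5 5) 0 0 (step_sound _ 130 [(rh361cc68994bd8a63.shift 0 3), rhd1779d7de7f8215b] (by decide +kernel))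
noncomputable def rhdf24145e521476d6 : CRef := CRef.mk (Pat.mk 0x800000008000000000000001800000000 0x800000008000000080000000f0000003c00000014 5 6) 0 0 (step_sound _ 67 [rh01b78e5ef59799ae, (rh55afc6a59410cf00.shift 3 0)] (by decide +kernel))
noncomputable def rhb91ae9be76ad097d : CRef := CRef.mk (Pat.mk 0x38000000180000000000000010 0x600000003f0000001f0000001000000010 5 7) 0 0 (step_sound _ 133 [(rh9e3edb185cc347de.shift 4 0), (rhf0ab1ab592ea3c19.shift 0 2)] (by decide +kernel))
noncomputable def rh427abe06d1d20c3a : CRef := CRef.mk (Pat.mk 0x1800000008000000000000001800000000 0x1800000018000000080000000f0000003c00000004 5 6) 0 0 (step_sound _ 67 [rh01b78e5ef59799ae, (rh2f68792b6b779e96.shift 3 1)] (by decide +kernel))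
noncomputable def rh2eb4be0e9b885cc5 : CRef := CRef.mk (Pat.mk 0x3800000018000000080000001800000000 0x8000000380000001e0000000f0000003c00000004 5 6) 0 0 (step_sound _ 98 [rh01b78e5ef59799ae, (rh53b3c253cb0c65f4.shift 1 3)] (by decide +kernel))
noncomputable def rh3a4656a0a86062f4 : CRef := CRef.mk (Pat.mk 0x8000000800000001c0000000000000000 0x8000000ef0000007e0000000700000004 5 8) 0 0 (step_sound _ 69 [(rh45e9dfbd6bd5d256.shift 2 2), (rh592c7139d2c44767.shift 0 1), (rhc4658766f200b447.shift 1 0)] (by decide +kernel))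
noncomputable def rh925ec17f5b254f51 : CRef := CRef.mk (Pat.mk 0x4000000400000000e000000000000000000000000 0x400000004000000770000003e000000730000000200000002 5 7) 0 0 (step_sound _ 100 [(rh1a9922713ba80f42.shift 0 2), (rh45e9dfbd6bd5d256.shift 1 3), rhf3caf215570e71a5] (by decide +kernel))
noncomputable def rh88355e241289722f : CRef := CRef.mk (Pat.mk 0x20000000000000007c00000000 0x2000000020000000300000007e00000057 5 7) 0 0 (step_sound _ 1 [(rh80fcd6d0a18cb2dd.shift 1 0), rhd341f37b0904818d] (by decide +kernel))
noncomputable def rhab05d356ba034c33 : CRef := CRef.mk (Pat.mk 0x18000000020000000e00000004 0x3a0000001f0000000e0000000e00000004 5 6) 0 0 (step_sound _ 131 [(rh3c88ce959c0e423f.shift 2 0), rhaabd50e4d2f78cb3] (by decide +kernel))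
noncomputable def rh49858638110b757d : CRef := CRef.mk (Pat.mk 0x18000000080000000c0000000000000000 0x1000000018000000080000001f0000007800000010 5 7) 0 0 (step_sound _ 35 [(rh2f68792b6b779e96.shift 3 1), rh42e615827c8908b1] (by decide +kernel))
noncomputable def rh2df446ca63b97b60 : CRef := CRef.mk (Pat.mk 0x3800000018000000080000000c00000000 0x8000000380000001e0000000f0000003c00000010 5 6) 0 0 (step_sound _ 98 [rh26fd428daa97b787, (rh53b3c253cb0c65f4.shift 1 3)] (by decide +kernel))
noncomputable def rhdaae011bf01303a8 : CRef := CRef.mk (Pat.mk 0x3800000010000000180000001800000000 0x380000001e000000380000001f00000014 5 6) 0 0 (step_sound _ 99 [rh4f09a66dbfe8c2f7, (rh7b1f1fb55310c477.shift 3 0)] (by decide +kernel))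
noncomputable def rhd939195c223196af : CRef := CRef.mk (Pat.mk 0x12000000030000000040000003c00000000 0x1e40000003c000000040000003e00000007 5 9) 0 0 (step_sound _ 134 [rh12986f6786da0443, (rh361cc68994bd8a63.shift 4 3)] (by decide +kernel))
noncomputable def rh9f7e4a240a60a242 : CRef := CRef.mk (Pat.mk 0x4000000000000001e000000000000000000000000 0x400000004000000070000003e0000000c0000000800000008 5 6) 0 0 (step_sound _ 129 [(rh3244c3cc8379b070.shift 0 3), (rhf33f845d08d79ab1.shift 1 0)] (by decide +kernel))
noncomputable def rh8e5eabe41d677c66 : CRef := CRef.mk (Pat.mk 0x2000000060000001200000000000000000000000000000000 0x600000006000000060000001e00000007000000070000000300000001 5 5) 0 0 (step_sound _ 97 [rh274a837cd7eaa569, (rh699c9c97b73f58ec.shift 0 2), (rha707fb719e87fe6e.shift 1 2)] (by decide +kernel))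
noncomputable def rh2aa1a308bf84e445 : CRef := CRef.mk (Pat.mk 0xc000000080000000c0000000000000000 0x40000000c000000080000000f0000007c00000010 5 7) 0 0 (step_sound _ 35 [(rh50fbb5868c909700.shift 2 1), rh7fe11f484215afaf] (by decide +kernel))
noncomputable def rh5a6fa080392d885b : CRef := CRef.mk (Pat.mk 0x180000000200000006000000020000000000000000 0x70000001f0000000600000006000000060000000600000004 5 5) 0 0 (step_sound _ 161 [(rhc9de03f9731897d4.shift 1 0), (rhd4b4beefcd67f51e.shift 1 1), (rhe3a24313497ad6a9.shift 0 2)] (by decide +kernel))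
noncomputable def rhd7636438a52c39de : CRef := CRef.mk (Pat.mk 0x80000001800000018000000000000000000000000 0x1800000018000000380000001f0000001c0000000c 5 6) 0 0 (step_sound _ 68 [rh4b0f872c23b8b926, (rh7b1f1fb55310c477.shift 3 1)] (by decide +kernel))
noncomputable def rhaf5dcbbedda62b0c : CRef := CRef.mk (Pat.mk 0x1a0000000600000002000000000000000000000000 0x1000000030000001e0000000600000006000000070000000700000001 5 5) 0 0 (step_sound _ 66 [(rh111b2aed802e4bf1.shift 0 2), (rh390a8df03c6c5a62.shift 1 1), rhf57aef432b6ec1e1] (by decide +kernel))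
noncomputable def rh6e7f58010cf0b92d : CRef := CRef.mk (Pat.mk 0x8000000080000000c0000000e00000000 0x60000000f0000003c0000000c0000000e00000002 5 6) 0 0 (step_sound _ 130 [(rh50fbb5868c909700.shift 2 1), rhc3a9559c72b00d0b] (by decide +kernel))
noncomputable def rhc4db719bbbd0a0e1 : CRef := CRef.mk (Pat.mk 0x800000000000000080000001c000000000000000800000000 0x80000000a0000000f0000001c000000040000000c0000000c 5 5) 0 0 (step_sound _ 66 [rhedad3a56e453d4a1, (rhee230b994cc8b773.shift 2 2)] (by decide +kernel))
noncomputable def rh9940bcd15fda4f3d : CRef := CRef.mk (Pat.mk 0x180000000900000003000000010000000400000000 0x190000000f00000003000000030000000700000007 5 5) 0 0 (step_sound _ 129 [(rh1c62b6193297d9e3.shift 0 4), rhbf52db6f1f0800fd] (by decide +kernel))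
noncomputable def rh59a39ce2032fa257 : CRef := CRef.mk (Pat.mk 0x40000000400000006000000100000000000000000 0x20000000600000006000000070000001e0000000e0000000a 5 5) 0 0 (step_sound _ 66 [(rh8cdd36b03d57a2f6.shift 1 0), (rh8ff3dde5b1c639e0.shift 1 0), (rhbc1d7ae32ca66bdf.shift 0 1), (rhc4526fc8abf298b6.shift 1 0)] (by decide +kernel))
noncomputable def rh8872976d1a76cb28 : CRef := CRef.mk (Pat.mk 0x40000000400000014000000000000000000000000 0x600000006000000060000001c0000000f0000000e0000000a 5 5) 0 0 (step_sound _ 66 [(rh15f443a9a462a99b.shift 0 1), (rh8cdd36b03d57a2f6.shift 1 0), (rh8ff3dde5b1c639e0.shift 1 0), (rhc4526fc8abf298b6.shift 1 0)] (by decide +kernel))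
noncomputable def rh6037157491ca79e8 : CRef := CRef.mk (Pat.mk 0x34000000000000001000000000 0x2000000020000000770000003e000000170000001000000010 5 7) 0 0 (step_sound _ 99 [(rh4c622fddc53a5f99.shift 0 3), (rh775ca1963e850b80.shift 0 2), (rhb705031692dfe65f.shift 2 0)] (by decide +kernel))
noncomputable def rh3dfd0fec5144fe4a : CRef := CRef.mk (Pat.mk 0x120000001200000012000000010000000000000000 0x120000001a0000001e0000000f0000000900000008 5 5) 0 0 (step_sound _ 65 [rh0fbbb92589a12005, (rh932754581e0f4330.shift 0 1)] (by decide +kernel))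
noncomputable def rh655cb6dd8ee3fe8d : CRef := CRef.mk (Pat.mk 0x10000000130000001000000003000000000000000000000000 0x110000001b0000001f0000000f0000000b0000000b00000001 5 5) 0 0 (step_sound _ 129 [rh01483ff9cba2f6ac, (rh0fbbb92589a12005.shift 0 1)] (by decide +kernel))
noncomputable def rhb6f87c3074f98a99 : CRef := CRef.mk (Pat.mk 0xc000000400000000e0000000000000000 0x40000000c0000007f0000003f0000003200000012 5 7) 0 0 (step_sound _ 68 [rh3d12b22a3a27ac9e, (rh45e9dfbd6bd5d256.shift 1 2), rh6f819ab0e2f6cdd3] (by decide +kernel))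
noncomputable def rh877815dff8f2c0f3 : CRef := CRef.mk (Pat.mk 0x10000000000000003800000000 0x100000001000000010000000f70000007e0000000f 5 8) 0 0 (step_sound _ 34 [(rh27ce058b59d72f64.shift 1 0), rh592c7139d2c44767, (rh9962464840ec1c04.shift 1 0)] (by decide +kernel))
noncomputable def rha0508b537a31e81b : CRef := CRef.mk (Pat.mk 0x10000000100000001000000003c0000000000000000 0x10000000180000001f0000000fe0000008700000080 5 9) 0 0 (step_sound _ 103 [(rh945a15344669bc6d.shift 0 1), (rhc4713ca36c943a51.shift 4 0)] (by decide +kernel))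
noncomputable def rh322c43ea68da35e1 : CRef := CRef.mk (Pat.mk 0x8000000000000001e000000000000000000000000 0x8000000080000003c0000001f000000040000000400000004 5 6) 0 0 (step_sound _ 132 [rh1c29b3d691cb9c17, (rh33e738c4ed385b9f.shift 1 3)] (by decide +kernel))
noncomputable def rh44ec1ee362871af7 : CRef := CRef.mk (Pat.mk 0x20000000000000003c00000000 0x2000000020000000370000003e00000030 5 6) 0 0 (step_sound _ 65 [(rh3f8766e6ecb455ce.shift 1 1), rhe93eae4d14599fab] (by decide +kernel))
noncomputable def rhbbcfe94caeb60d51 : CRef := CRef.mk (Pat.mk 0x4000000000000001e000000000000000000000000 0x400000004000000360000001e000000030000000200000002 5 6) 0 0 (step_sound _ 132 [(rh33e738c4ed385b9f.shift 1 3), rhf3caf215570e71a5] (by decide +kernel))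
noncomputable def rhc6e365d89b27af5e : CRef := CRef.mk (Pat.mk 0x8000000020000000600000002000000000000000000000000 0xe0000000e0000000600000006000000070000000700000005 5 4) 0 0 (step_sound _ 65 [rh6eff4158bb400f47, rh91a545eb3be094e3, (rha707fb719e87fe6e.shift 1 1), (rhc1f1ae533ca3eb1e.shift 1 1)] (by decide +kernel))
noncomputable def rh2b584295016b327a : CRef := CRef.mk (Pat.mk 0x10000000130000001000000003000000000000000000000000 0x110000001b0000001f0000000f0000000e0000000e00000004 5 5) 0 0 (step_sound _ 129 [(rh0fbbb92589a12005.shift 0 1), rhd1779d7de7f8215b] (by decide +kernel))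
noncomputable def rh84184a4a5fd81e24 : CRef := CRef.mk (Pat.mk 0x80000000000000038000000000000000000000000 0x8000000080000000f0000003e0000007f0000000400000004 5 7) 0 0 (step_sound _ 98 [(rh0d378fd9e8917c5a.shift 0 2), (rh775ca1963e850b80.shift 0 2), (rhad7f111fb10ea859.shift 1 0)] (by decide +kernel))
noncomputable def rh0835b06c06c97f13 : CRef := CRef.mk (Pat.mk 0xc00000044000000040000000400000000 0x20000003e00000077000000040000000400000004 5 7) 0 0 (step_sound _ 129 [(rh50fbb5868c909700.shift 1 1), rh7e6f5f75b1ea60e8] (by decide +kernel))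
noncomputable def rh0fd707edf5b3f4b4 : CRef := CRef.mk (Pat.mk 0x100000012000000120000001600000000 0x8000000080000000f0000001e0000001a0000001600000004 5 5) 0 0 (step_sound _ 129 [(rh55afc6a59410cf00.shift 1 0), (rh6a6060c6b6bde3df.shift 0 1)] (by decide +kernel))
noncomputable def rh10a52875d9e07b4e : CRef := CRef.mk (Pat.mk 0x400000000000000060000001e00000000 0x600000007000000030000003e0000001e00000003 5 6) 0 0 (step_sound _ 68 [(rh33e738c4ed385b9f.shift 1 1), rh7c7181d97df29415] (by decide +kernel))
noncomputable def rh46cec5aa7e4f60a1 : CRef := CRef.mk (Pat.mk 0x400000006000000400000000a00000008 0x40000003e0000007b0000000a0000000a 5 7) 0 0 (step_sound _ 99 [(rh2613c889e411427e.shift 2 0), rhf67e4f36c4d6af24] (by decide +kernel))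
noncomputable def rh033bc28c6fd34a2a : CRef := CRef.mk (Pat.mk 0x1c0000000400000004 0x200000002000000fb0000003e0000000600000004 5 8) 0 0 (step_sound _ 101 [rh081bb9bfedfba735, (rh90fcc1b0fe0017ad.shift 1 2), (rhee0891bc88ee3f94.shift 1 1)] (by decide +kernel))
noncomputable def rh02b4797a253dc82b : CRef := CRef.mk (Pat.mk 0x38000000040000003000000060 0x70000003e000000060000003c00000064 5 7) 0 0 (step_sound _ 98 [rh947224325a2e89d6, (rheb0810cc63b001d8.shift 1 2)] (by decide +kernel))
noncomputable def rh04263e10ff9fff0c : CRef := CRef.mk (Pat.mk 0xe000000200000000200000000 0x400000004000000060000001e000000330000000200000002 5 6) 0 0 (step_sound _ 100 [rh4f79c519b7f04720, (rh96851dee118c1ba3.shift 1 2)] (by decide +kernel))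
noncomputable def rhdaa3bf5eb98f4fd8 : CRef := CRef.mk (Pat.mk 0xc000000400000000c0000001800000000 0x180000003c000000780000000f0000001c00000004 5 7) 0 0 (step_sound _ 65 [(rhb739f4f82bb681b4.shift 0 1), (rhe1224f3a51caebb6.shift 2 0)] (by decide +kernel))
noncomputable def rh2e9314e21fe2be69 : CRef := CRef.mk (Pat.mk 0x40000000c0000000c0000004800000000 0x100000003c0000000f0000000c0000007800000010 5 7) 0 0 (step_sound _ 36 [(rh2fe78cc5ca4405d8.shift 2 1), rh8bfafb9e7ef9ac91] (by decide +kernel))
noncomputable def rh2a07ce201804340d : CRef := CRef.mk (Pat.mk 0x100000001000000038000001000000000000000000 0x10000000100000003e000001f70000002000000020 5 9) 0 0 (step_sound _ 69 [(rh5bb78067c54b222b.shift 2 2), (rh79ad7b82ec8c35e2.shift 4 0), (rha0ae8adeb1dbcf8d.shift 0 2)] (by decide +kernel))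
noncomputable def rhbe4ee7e45aebf17d : CRef := CRef.mk (Pat.mk 0x1000000130000001300000010 0xa0000000a0000000f0000001f0000001b00000011 5 5) 0 0 (step_sound _ 67 [rh38aa8dd09980796f, (rhb2a0b9ccfb5cecd5.shift 0 1)] (by decide +kernel))
noncomputable def rh3815fd1a783094e5 : CRef := CRef.mk (Pat.mk 0x7000000040000000700000000 0xa0000000e0000000f00000007000000070000000700000001 5 4) 0 0 (step_sound _ 129 [rh00d6a6e3c7e3bb40, (rh466a2277bc06011f.shift 1 1), (rhc89253ff58c66167.shift 1 1), rhecb97fed8c7f1286] (by decide +kernel))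
noncomputable def rhc3be7fe9a39320ed : CRef := CRef.mk (Pat.mk 0x200000003000000120000001200000010 0xc0000001e0000000b0000001e0000001a00000010 5 5) 0 0 (step_sound _ 67 [rh30725b089a36a09f, (rh5419adcd928dba20.shift 0 2)] (by decide +kernel))
noncomputable def rhceba72cf96d2e7d7 : CRef := CRef.mk (Pat.mk 0x600000020000000040000000c00000000 0x80000001e00000037000000040000000c0000000c 5 6) 0 0 (step_sound _ 98 [rh242850d06b020ddd, (rh55afc6a59410cf00.shift 2 0)] (by decide +kernel))
noncomputable def rh25517351e1959913 : CRef := CRef.mk (Pat.mk 0x4000000020000001e00000000 0x10000000700000007000000020000001e00000007 5 5) 0 0 (step_sound _ 1 [rhe7d208b70c184706, rheb0810cc63b001d8] (by decide +kernel))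
noncomputable def rh5bf1017ae96b8606 : CRef := CRef.mk (Pat.mk 0x380000001000000018 0xc0000000f0000007c0000001e00000018 5 7) 0 0 (step_sound _ 35 [(rh4dc133ee0ba1420a.shift 1 1), rhdfed4ebb0eb54f43] (by decide +kernel))
noncomputable def rhd9f2f493214e61cd : CRef := CRef.mk (Pat.mk 0xe000000180000000a00000000 0x4000000140000003c0000001e0000001b0000000a00000002 5 6) 0 0 (step_sound _ 100 [(rh5421160f8e9bcf07.shift 1 1), rha10cffaac4a90a7a] (by decide +kernel))
noncomputable def rh778fb1caa5103fdb : CRef := CRef.mk (Pat.mk 0xe000000180000000c0000004000000000 0x10000000300000001e000000180000000f0000007800000018 5 7) 0 0 (step_sound _ 65 [(rh53b3c253cb0c65f4.shift 0 2), (rhdfaa07d5d51ac401.shift 1 0)] (by decide +kernel))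
noncomputable def rhec588216115773d0 : CRef := CRef.mk (Pat.mk 0x300000000000000030000001200000000 0x40000000700000007000000030000001e00000006 5 5) 0 0 (step_sound _ 34 [(rh2fe78cc5ca4405d8.shift 0 1), rha2e49881a7a7bf50] (by decide +kernel))
noncomputable def rhbbe093cf23a1f744 : CRef := CRef.mk (Pat.mk 0x18000000180000001000000018 0x260000003f0000001f0000001800000018 5 6) 0 0 (step_sound _ 101 [(rh2f68792b6b779e96.shift 4 0), rh4762f6d21f76e63a] (by decide +kernel))
noncomputable def rh7efff25179d37ffa : CRef := CRef.mk (Pat.mk 0x800000018000000080000000800000000 0x8000000080000007c0000000f0000000c00000004 5 7) 0 0 (step_sound _ 34 [(rh013c36449a7cbf87.shift 0 1), (rh932754581e0f4330.shift 2 0)] (by decide +kernel))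
noncomputable def rhbef286b43898cec8 : CRef := CRef.mk (Pat.mk 0x100000002000000020000000200000000 0x4000000070000000700000002000000030000000300000001 5 3) 0 0 (step_sound _ 129 [(rh50fbb5868c909700.shift 0 1), rhb7ee8905496f843d] (by decide +kernel))
noncomputable def rha4147bca450a28fa : CRef := CRef.mk (Pat.mk 0x380000001800000010 0x40000000c0000000f0000003f0000001f00000018 5 6) 0 0 (step_sound _ 66 [(rh0bd5ecf4a3398dd5.shift 1 0), (rh592c7139d2c44767.shift 0 1), (rhb14e2588a8d71db8.shift 0 1), (rhba89ab7cb81bcc90.shift 0 1)] (by decide +kernel))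
noncomputable def rh6c49cebc50373930 : CRef := CRef.mk (Pat.mk 0x200000006000000020000001800000000 0x500000007000000070000000200000006000000060000001f00000007 5 5) 0 0 (step_sound _ 161 [(rh1741680720c097b4.shift 0 2), (rh3da62da861143b9a.shift 0 2), rhb5fbd239a000a527, (rhd4b4beefcd67f51e.shift 1 1)] (by decide +kernel))
noncomputable def rhf0f41e2e6ee52468 : CRef := CRef.mk (Pat.mk 0x1c00000088 0xe70000007e000000ef 5 8) 0 0 (step_sound _ 37 [(rh62a51e5e348b9e49.shift 2 0), rh775ca1963e850b80, (rheaa91b92daf0efc8.shift 2 0)] (by decide +kernel))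
noncomputable def rhba5b50064c74d6ff : CRef := CRef.mk (Pat.mk 0xe000000180000000c 0x12000000330000003e0000001f0000000c 5 6) 0 0 (step_sound _ 68 [(rh5421160f8e9bcf07.shift 1 0), rh9aa138e5ed752369] (by decide +kernel))
noncomputable def rh6e451cd30e20dffc : CRef := CRef.mk (Pat.mk 0x30000000600000006000000000000000000000000 0x200000002000000030000000700000007000000030000000300000002 5 3) 0 0 (step_sound _ 193 [rh1152aee0afa96cae, (rh2145e1d24b96a57e.shift 1 3)] (by decide +kernel))
noncomputable def rhf9ab2d41f5effb32 : CRef := CRef.mk (Pat.mk 0x1e000000000000000c000000000000000000000000 0x40000003e000000070000000c0000000c0000000800000008 5 6) 0 0 (step_sound _ 129 [(rh0859b418392d751e.shift 1 0), (rheb0810cc63b001d8.shift 0 4)] (by decide +kernel))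
noncomputable def rhb0bd3920ce91a0e5 : CRef := CRef.mk (Pat.mk 0x380000000000000038000000000000000000000000 0x1000000010000000180000007c0000000f000000380000001f0000001400000010 5 7) 0 0 (step_sound _ 131 [(rh215e11e099257d75.shift 3 2), (rh2820ca9a6c4f41b4.shift 0 4), (rh61147287bacde07b.shift 0 1), (rh70e33bfdf511e144.shift 3 0)] (by decide +kernel))
noncomputable def rhb947c64477cdd321 : CRef := CRef.mk (Pat.mk 0x3800000000 0xff0000007e00000007 5 8) 0 0 (step_sound _ 34 [(rh22b38309c56a80eb.shift 1 1), (rh4c622fddc53a5f99.shift 0 1), rh592c7139d2c44767, rh9e97bba44c1b13e4] (by decide +kernel))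
noncomputable def rh698846d908adeb0e : CRef := CRef.mk (Pat.mk 0xe000000180000000c00000000 0x200000012000000330000001e0000001e0000000c00000004 5 6) 0 0 (step_sound _ 100 [rh1ed635f5a7ab102e, (rh5421160f8e9bcf07.shift 1 1)] (by decide +kernel))
noncomputable def rhb10764487bb44a2b : CRef := CRef.mk (Pat.mk 0x3000000120000000300000000 0x40000000600000006000000030000001f0000000300000001 5 5) 0 0 (step_sound _ 66 [(rh2fe78cc5ca4405d8.shift 0 2), rh7a7e08304268422e] (by decide +kernel))
noncomputable def rh2d55c6a7f1c1aeb9 : CRef := CRef.mk (Pat.mk 0x1800000000000000080000000800000000 0x140000003c0000000f000000080000000800000008 5 6) 0 0 (step_sound _ 99 [(rh2f68792b6b779e96.shift 3 1), rh9aab2e37f490e5ca] (by decide +kernel))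
noncomputable def rh9be40762d589c2e0 : CRef := CRef.mk (Pat.mk 0x1000000000000000180000003800000000 0x10000000100000001f0000003f00000060 5 7) 0 0 (step_sound _ 5 [rh2ad3660c44d24f65, (rh6f1cbe15c631ee70.shift 4 0)] (by decide +kernel))
noncomputable def rh6a272813f9d4f2de : CRef := CRef.mk (Pat.mk 0x1800000000000000080000001800000000 0x40000003c0000000f000000080000001800000018 5 6) 0 0 (step_sound _ 99 [(rh55afc6a59410cf00.shift 3 0), rh9aab2e37f490e5ca] (by decide +kernel))
noncomputable def rh62f6060799044659 : CRef := CRef.mk (Pat.mk 0x1800000008000000180000003800000000 0x40000003c0000000f0000001e0000003800000008 5 6) 0 0 (step_sound _ 66 [rh9aab2e37f490e5ca, (rhb739f4f82bb681b4.shift 1 1)] (by decide +kernel))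
noncomputable def rhf4747517e0ee467b : CRef := CRef.mk (Pat.mk 0x1c0000008000000008 0x4000000070000007e000000ef00000008 5 8) 0 0 (step_sound _ 69 [(rh775ca1963e850b80.shift 0 1), (rh9aa138e5ed752369.shift 1 0), (rheaa91b92daf0efc8.shift 2 1)] (by decide +kernel))
noncomputable def rhc27dd28f5c2fd039 : CRef := CRef.mk (Pat.mk 0xe000000400000000400000000 0x200000002000000730000003e000000770000000400000004 5 7) 0 0 (step_sound _ 100 [rh1ed635f5a7ab102e, (rh6cc0f305be0098c0.shift 0 2), (rheaa91b92daf0efc8.shift 1 2)] (by decide +kernel))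
noncomputable def rh4086e2efec01ea9b : CRef := CRef.mk (Pat.mk 0x7c000000000000002000000000 0x570000007e000000300000002000000020 5 7) 0 0 (step_sound _ 129 [(rh3f8766e6ecb455ce.shift 1 3), rh5c6e6667de9735fd] (by decide +kernel))
noncomputable def rh81702334eca0f14b : CRef := CRef.mk (Pat.mk 0x40000000e000000020000001800000000 0x40000000e0000000e0000001f0000003a 5 6) 0 0 (step_sound _ 3 [(rh2613c889e411427e.shift 2 0), rhf74ce67f3915b2a9] (by decide +kernel))
noncomputable def rhe10aaf075294da23 : CRef := CRef.mk (Pat.mk 0xc000000080000001800000000 0x10000000780000001f000000080000001800000010 5 7) 0 0 (step_sound _ 131 [(rh55afc6a59410cf00.shift 3 0), (rhc9613fc5bab58382.shift 0 1)] (by decide +kernel))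
noncomputable def rh1d74563a2cff12f8 : CRef := CRef.mk (Pat.mk 0xc00000008000000180000003800000000 0x100000003c0000000f0000001e0000003800000008 5 6) 0 0 (step_sound _ 66 [rh424e12a4b1ec0cb3, (rhb739f4f82bb681b4.shift 1 1)] (by decide +kernel))
noncomputable def rh085af16cc259d3ea : CRef := CRef.mk (Pat.mk 0x18000000180000001000000038 0x140000001f000000380000001e00000038 5 6) 0 0 (step_sound _ 35 [(rh5c5e593799055d58.shift 3 0), rh851e6f554e188616] (by decide +kernel))
noncomputable def rhffdbb2ece4796ebe : CRef := CRef.mk (Pat.mk 0x3c000000040000003000000120 0x70000003e000000040000003c000001e4 5 9) 0 0 (step_sound _ 6 [(rh2fe78cc5ca4405d8.shift 4 0), rh947224325a2e89d6] (by decide +kernel))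
noncomputable def rh451cbccbd4bad72e : CRef := CRef.mk (Pat.mk 0x1e000000000000000400000000 0x8000000080000000c0000003e000000070000000400000004 5 6) 0 0 (step_sound _ 65 [(rh57b148fe4dfb8bc5.shift 1 0), (rheb0810cc63b001d8.shift 0 2)] (by decide +kernel))
noncomputable def rh27cc7357819ad907 : CRef := CRef.mk (Pat.mk 0xc000000080000000c00000000 0x100000007c0000000f000000080000000c00000004 5 7) 0 0 (step_sound _ 131 [(rh0f88566f1a09c677.shift 0 1), (rh932754581e0f4330.shift 2 0)] (by decide +kernel))
noncomputable def rh2339925e6738bb5e : CRef := CRef.mk (Pat.mk 0x200000006000000020000001800000000 0x4000000060000000600000006000000060000001f00000007 5 5) 0 0 (step_sound _ 33 [(rh25208373db83e521.shift 1 0), (rha707fb719e87fe6e.shift 1 0), rhf8cb4ab9f0c1a0ef] (by decide +kernel))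
noncomputable def rh018f5bd7478045d2 : CRef := CRef.mk (Pat.mk 0x180000001800000008 0xc0000001c0000001f000000380000001800000018 5 6) 0 0 (step_sound _ 100 [(rh5c5e593799055d58.shift 3 0), rhf09e2a9e9ed2c074] (by decide +kernel))
noncomputable def rhe70edb2d7c8b3d3c : CRef := CRef.mk (Pat.mk 0x2000000060000001a0000000000000000 0x1000000070000000700000006000000060000001e0000000300000001 5 5) 0 0 (step_sound _ 162 [(rh5fcbac5b57173fc5.shift 1 1), rhba796ffe97880c75, (rhe7d208b70c184706.shift 0 2)] (by decide +kernel))
noncomputable def rh271712a0bce3e10b : CRef := CRef.mk (Pat.mk 0xe0000000c000000080000000800000000 0x20000000e0000000c0000003c0000000f00000006 5 6) 0 0 (step_sound _ 34 [(rh932754581e0f4330.shift 2 0), rhf7c27e59b1d77735] (by decide +kernel))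
noncomputable def rh079487f62b141205 : CRef := CRef.mk (Pat.mk 0x8000000000000001c000000080000000000000008 0xc0000000c000000040000001c0000000f0000000a00000008 5 5) 0 0 (step_sound _ 130 [(rh1e8f96b5740c0428.shift 0 1), (rh9e07f76261b05888.shift 2 0)] (by decide +kernel))
noncomputable def rhe6d61bc26c9b4387 : CRef := CRef.mk (Pat.mk 0x400000001000000030000000900000018 0x70000000700000003000000030000000f00000019 5 5) 0 0 (step_sound _ 33 [rhc10214bf3fe8094a, rhec445915ac45f0bd] (by decide +kernel))
noncomputable def rha847f0e62bb0a16a : CRef := CRef.mk (Pat.mk 0x1000000006000000040000000400000000 0xa0000000e0000001e00000007000000060000000600000002 5 5) 0 0 (step_sound _ 130 [(rh20966da26a1c2ae8.shift 1 0), (rh32a32f08de912052.shift 0 1), (rh771d065bdc85bf2d.shift 1 0), (rhc85cc95794737cf7.shift 1 1)] (by decide +kernel))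
noncomputable def rh4f599728ef256801 : CRef := CRef.mk (Pat.mk 0x14000000040000000400000000 0xa0000000e0000000f0000001c000000060000000600000006 5 5) 0 0 (step_sound _ 130 [(rh20966da26a1c2ae8.shift 1 0), (rh771d065bdc85bf2d.shift 1 0), (rhc85cc95794737cf7.shift 1 1), rhec7a88c6dcaa5d28] (by decide +kernel))
noncomputable def rh093c042111894bc3 : CRef := CRef.mk (Pat.mk 0x100000000000000034000000000000000000000000 0x1000000010000000170000003e000000770000002000000020 5 7) 0 0 (step_sound _ 99 [(rh03a6f79dca3226c9.shift 2 0), (rh185f35b8bd8ec37f.shift 0 2), (rh592c7139d2c44767.shift 0 2)] (by decide +kernel))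
noncomputable def rhe93d745c30552876 : CRef := CRef.mk (Pat.mk 0x1000000120000001200000012 0x8000000090000000f0000001e0000001a00000012 5 5) 0 0 (step_sound _ 97 [rh50fbb5868c909700, rh6a6060c6b6bde3df] (by decide +kernel))
noncomputable def rh51ef15b4aa4066a5 : CRef := CRef.mk (Pat.mk 0x3000000100000001300000010 0x10000000b0000000b0000000f0000001f0000001b00000011 5 5) 0 0 (step_sound _ 65 [rh6a6060c6b6bde3df, rh976a48eb1c80a12f] (by decide +kernel))
noncomputable def rh4e19d4e59bbd8815 : CRef := CRef.mk (Pat.mk 0xe000000400000000c00000000 0x12000000320000003f0000007f0000000c00000004 5 7) 0 0 (step_sound _ 100 [rh93003b35b5f82d32, (rheaa91b92daf0efc8.shift 1 2), (rhfab75c4621a59c2e.shift 0 1)] (by decide +kernel))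
noncomputable def rhf1db2585fffcecc4 : CRef := CRef.mk (Pat.mk 0x3800000000000000100000000000000000 0xf0000007e000000f7000000100000001000000010 5 8) 0 0 (step_sound _ 130 [(rh3947d1dfff0afc6c.shift 1 3), (rh775ca1963e850b80.shift 0 3), (rhbf514b0117492d60.shift 1 0)] (by decide +kernel))
noncomputable def rhecf366b0ef44fd1e : CRef := CRef.mk (Pat.mk 0x3c000001000000010000000100 0x8000000087000000fe000001f00000018000000100 5 9) 0 0 (step_sound _ 71 [(rh23625f181fa295a9.shift 4 0), (rh60a3029b8dc1e046.shift 0 2)] (by decide +kernel))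
noncomputable def rh6420acd695fe1acd : CRef := CRef.mk (Pat.mk 0x1e000000000000000800000000 0x400000004000000040000001f0000003c0000000800000008 5 6) 0 0 (step_sound _ 68 [rh5a34004ac0df15c9, (rhe25b0a99195a5d59.shift 1 2)] (by decide +kernel))
noncomputable def rh23f950cc6aa2698d : CRef := CRef.mk (Pat.mk 0x3c000000000000002000000000 0x300000003e000000370000002000000020 5 6) 0 0 (step_sound _ 65 [(rh80fcd6d0a18cb2dd.shift 1 2), rhae11b466571defe2] (by decide +kernel))
noncomputable def rh2cc921f22fbb479c : CRef := CRef.mk (Pat.mk 0x1e000000000000000400000000 0x200000002000000030000001e000000360000000400000004 5 6) 0 0 (step_sound _ 68 [rh1ed635f5a7ab102e, (rhe25b0a99195a5d59.shift 1 2)] (by decide +kernel))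
noncomputable def rh7ae2656473691b63 : CRef := CRef.mk (Pat.mk 0x2000000060000000200000008 0x5000000070000000700000006000000060000000e0000000e 5 4) 0 0 (step_sound _ 129 [(rh1741680720c097b4.shift 0 1), (rh2a94466b0b83d379.shift 1 0), (rh3da62da861143b9a.shift 0 1), (rhd4b4beefcd67f51e.shift 1 0)] (by decide +kernel))
noncomputable def rh51323e3d015f6cf2 : CRef := CRef.mk (Pat.mk 0x3000000100000001300000010 0x40000000e0000000e0000000f0000001f0000001b00000011 5 5) 0 0 (step_sound _ 65 [rh6a6060c6b6bde3df, rh7a7e08304268422e] (by decide +kernel))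
noncomputable def rh61bc20c9bb823b52 : CRef := CRef.mk (Pat.mk 0x38000000000000000800000000 0x4000000040000007f0000003e0000000f0000000800000008 5 7) 0 0 (step_sound _ 98 [(rh592c7139d2c44767.shift 0 2), (rh59377470057f4368.shift 1 0), (rh9e97bba44c1b13e4.shift 0 2)] (by decide +kernel))
noncomputable def rh62fc971919903bd8 : CRef := CRef.mk (Pat.mk 0x200000000000000060000001c00000000 0x60000000600000006000000060000001f0000000b 5 5) 0 0 (step_sound _ 130 [(rha7e5b30d6e5612d1.shift 1 0), (rhc5351dabd90740aa.shift 1 0), rhc697557386494b9d] (by decide +kernel))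
noncomputable def rhf2d517384a41edd4 : CRef := CRef.mk (Pat.mk 0x4000000000000000c000000380000000000000000 0xc0000000c000000080000000c0000003c0000001f00000004 5 6) 0 0 (step_sound _ 131 [(rh6196b452c518de56.shift 2 1), (rha52e0141694f1c7d.shift 2 1), rhf02dc5f8674b7c2c] (by decide +kernel))
noncomputable def rh33251c41cc9e2c76 : CRef := CRef.mk (Pat.mk 0xc000000180000001c000000100000000000000000 0xc0000001c0000001c0000001f0000000f0000000c 5 5) 0 0 (step_sound _ 67 [(rh2f3e416c6263c0c2.shift 2 0), (rh46530d756bdf8511.shift 2 0), (rhb49626ece8ba93be.shift 0 1)] (by decide +kernel))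
noncomputable def rh5258ec1d25e4f835 : CRef := CRef.mk (Pat.mk 0x4000000200000000c0000002800000000 0x40000001f0000007c0000000c0000007800000010 5 7) 0 0 (step_sound _ 99 [(rh616c75d1b5542aee.shift 2 1), (rhb3a47b2ad93f1de3.shift 0 2), (rhda34373dbe539636.shift 1 1), (rhefa3d1af1b1337be.shift 2 0)] (by decide +kernel))
noncomputable def rhe88dc7c5f20af3f7 : CRef := CRef.mk (Pat.mk 0x100000008000000030000000a0000000000000000 0x70000001f000000030000001f0000000600000006 5 5) 0 0 (step_sound _ 66 [rh402ca2b2702bce41, (rhf48373e13d2bc128.shift 0 2)] (by decide +kernel))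
noncomputable def rhcd26bed8ba81c3c5 : CRef := CRef.mk (Pat.mk 0x280000000c000000380000000000000000 0x10000000780000000c0000003c0000000f00000004 5 7) 0 0 (step_sound _ 132 [(rh18965a982d73c794.shift 2 3), rh833981c53763488b] (by decide +kernel))
noncomputable def rh6eb9d2ddfb905593 : CRef := CRef.mk (Pat.mk 0x200000010000000160000000000000000 0x200000002000000330000001e0000000700000004 5 6) 0 0 (step_sound _ 67 [(rh33e738c4ed385b9f.shift 1 2), rh7655e1d834265650] (by decide +kernel))
noncomputable def rh2db2c8c34df74365 : CRef := CRef.mk (Pat.mk 0x200000000000000160000001000000000 0x200000002000000030000001e0000003700000004 5 6) 0 0 (step_sound _ 67 [rh7655e1d834265650, (rhe25b0a99195a5d59.shift 1 1)] (by decide +kernel))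
noncomputable def rhe4d178048650bd5f : CRef := CRef.mk (Pat.mk 0x2000000020000001e00000000 0x50000000700000007000000020000001e00000003 5 5) 0 0 (step_sound _ 1 [rhc85cc95794737cf7, rheb0810cc63b001d8] (by decide +kernel))
noncomputable def rh039c4a02c473f947 : CRef := CRef.mk (Pat.mk 0x6000000180000000a00000000 0x400000004000000060000000f0000001a0000000a0000000a 5 5) 0 0 (step_sound _ 99 [(rhb739f4f82bb681b4.shift 0 2), (rhd776eb44f7a8b71d.shift 1 0)] (by decide +kernel))
noncomputable def rh9daac14231a2f461 : CRef := CRef.mk (Pat.mk 0x3000000040000000d00000008 0x2000000020000000700000007000000050000000d0000000d 5 4) 0 0 (step_sound _ 98 [(rh2145e1d24b96a57e.shift 2 0), rhd776eb44f7a8b71d] (by decide +kernel))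
noncomputable def rhf333ecde551d43a5 : CRef := CRef.mk (Pat.mk 0x20000000e000000120000000800000000 0x4000000040000000e0000000e0000001e0000000b0000000b 5 5) 0 0 (step_sound _ 130 [rh63e85d7360b5230b, (rh95a80f84f48ac358.shift 2 0), (rhadf429772c25fde0.shift 1 0)] (by decide +kernel))
noncomputable def rhec6cd0f1d037e60d : CRef := CRef.mk (Pat.mk 0x20000000e0000000a00000008 0x100000007000000070000000e0000000e0000000e0000000a 5 4) 0 0 (step_sound _ 130 [(rh4c2adb5bda817a45.shift 0 1), (rh81a0b468accb8b7e.shift 1 0), (rhdf6eda84f2eabc48.shift 2 0)] (by decide +kernel))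
noncomputable def rh61da67344f1f2f17 : CRef := CRef.mk (Pat.mk 0x20000001e000000020000000000000000 0x200000003000000070000003e0000001e000000060000000200000002 5 6) 0 0 (step_sound _ 132 [(rh33e738c4ed385b9f.shift 1 3), rh829bec36f65a49b6] (by decide +kernel))
noncomputable def rh8c786e1f2e764b93 : CRef := CRef.mk (Pat.mk 0x38000000000000001000000000 0x2000000020000000770000003e000000170000001000000010 5 7) 0 0 (step_sound _ 98 [(rh775ca1963e850b80.shift 0 2), (rh9e97bba44c1b13e4.shift 0 2), (rhb705031692dfe65f.shift 2 0)] (by decide +kernel))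
noncomputable def rhc21b0f56bc7051a9 : CRef := CRef.mk (Pat.mk 0x380000001000000010 0x2000000020000000700000003e0000003700000010 5 7) 0 0 (step_sound _ 101 [(rh76807867c75da168.shift 0 1), (rhbfb5770941270498.shift 4 0)] (by decide +kernel))
noncomputable def rh6789ec82474e95b6 : CRef := CRef.mk (Pat.mk 0x3800000000 0xef0000007e0000000f 5 8) 0 0 (step_sound _ 34 [(rh0cc4c691701426ad.shift 1 1), (rh6cc0f305be0098c0.shift 1 0), rh775ca1963e850b80] (by decide +kernel))
noncomputable def rh26f7a43ad8c3d28e : CRef := CRef.mk (Pat.mk 0x38000000000000001000000000 0x28000000280000003f00000078000000180000001000000010 5 7) 0 0 (step_sound _ 68 [(rh215e11e099257d75.shift 4 0), (rh261f868a429ae0e3.shift 3 0), (rhb1a251d9bff81766.shift 3 0), (rhf9e36269fdb9e191.shift 0 1)] (by decide +kernel))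
noncomputable def rh31d55dd32e48ae3d : CRef := CRef.mk (Pat.mk 0x1c00000040 0x700000003e00000067 5 7) 0 0 (step_sound _ 37 [(rh96851dee118c1ba3.shift 2 0), rh9e97bba44c1b13e4] (by decide +kernel))
noncomputable def rh774f189fc47e55b9 : CRef := CRef.mk (Pat.mk 0xe000000200000000400000000 0x200000002000000070000001e000000340000000400000004 5 6) 0 0 (step_sound _ 100 [rh59377470057f4368, (rh96851dee118c1ba3.shift 1 2)] (by decide +kernel))
noncomputable def rh63971396f42d36e6 : CRef := CRef.mk (Pat.mk 0x2000000700000001800000010 0x8000000ef0000007f0000001800000010 5 8) 0 0 (step_sound _ 67 [(rh16d94f2eb9024526.shift 0 1), (rh309fd0c3d364cd61.shift 2 0)] (by decide +kernel))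
noncomputable def rh4c29853053063dd6 : CRef := CRef.mk (Pat.mk 0x1000000380000002c00000008 0x1000000014000000770000003e0000002c00000028 5 7) 0 0 (step_sound _ 66 [(rh2b40d254177f8dd3.shift 1 0), (rh309fd0c3d364cd61.shift 1 0), (rhcf82e4c9bf600ee2.shift 0 2)] (by decide +kernel))
noncomputable def rhcac7b5ab7a0bfdd2 : CRef := CRef.mk (Pat.mk 0x20000000200000002000000000000000000000000 0x500000007000000070000000300000002000000070000000700000005 5 3) 0 0 (step_sound _ 65 [rh5ad9898cc32ef511, rh6eff4158bb400f47, (rhc85cc95794737cf7.shift 0 2)] (by decide +kernel))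
noncomputable def rh7a1e396defbf2429 : CRef := CRef.mk (Pat.mk 0x20000001a00000018 0xe6000000ff00000018 5 8) 0 0 (step_sound _ 34 [(rh88e70b8df69afeaa.shift 1 0), rhb739f4f82bb681b4] (by decide +kernel))
noncomputable def rh404a32e66ca9f6b8 : CRef := CRef.mk (Pat.mk 0x2000000020000001a000000000000000000000000 0x100000003000000030000001a0000000f0000000700000005 5 5) 0 0 (step_sound _ 65 [rh46baee19951a66e7, rh6eff4158bb400f47, rhc4526fc8abf298b6, (rhd630af2e39ca770f.shift 0 1)] (by decide +kernel))
noncomputable def rha5ef04f8d2e642d4 : CRef := CRef.mk (Pat.mk 0x40000001600000012000000180000001800000000 0x400000016000000120000001a0000003f00000027 5 6) 0 0 (step_sound _ 33 [(rh9e3edb185cc347de.shift 1 1), rhcbca2407627b5588] (by decide +kernel))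
noncomputable def rhcfae684d46939137 : CRef := CRef.mk (Pat.mk 0x20000000b00000008000000080000000000000000 0x40000001e0000000b000000080000001c0000001c00000014 5 5) 0 0 (step_sound _ 163 [(rh5501401ca587e475.shift 0 2), (rh8cdd36b03d57a2f6.shift 2 0)] (by decide +kernel))
noncomputable def rhce574153cd9a0ee4 : CRef := CRef.mk (Pat.mk 0x4000000160000001c000000000000000000000000 0x14000000160000001f0000003b0000000a00000008 5 6) 0 0 (step_sound _ 97 [(rh9c40a739b57d6d20.shift 0 1), rha009eea60430f826] (by decide +kernel))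
noncomputable def rhdb609d5a257501df : CRef := CRef.mk (Pat.mk 0x200000002000000020000000200000002 0x400000006000000060000000700000003000000030000000300000002 5 3) 0 0 (step_sound _ 161 [(rh3b734c5288922837.shift 0 1), (rh44f453b84f013105.shift 1 1), rhad7f3a7ca7906542] (by decide +kernel))
noncomputable def rh63e3305009f2fc66 : CRef := CRef.mk (Pat.mk 0x100000003800000000 0xff0000007e00000007 5 8) 0 0 (step_sound _ 34 [(rh0cc4c691701426ad.shift 1 1), rh592c7139d2c44767, (rhec46bd5500c722c9.shift 1 1)] (by decide +kernel))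
noncomputable def rhddee6100c3f018ca : CRef := CRef.mk (Pat.mk 0x1e000000000000000000000000 0x400000004000000060000003e000000070000000200000002 5 6) 0 0 (step_sound _ 65 [(rha96ad946351762dd.shift 1 0), (rheb0810cc63b001d8.shift 0 2)] (by decide +kernel))
noncomputable def rhbea055beafeecaa1 : CRef := CRef.mk (Pat.mk 0x1a0000000600000002 0x40000000700000007000000030000001e0000000600000006 5 5) 0 0 (step_sound _ 97 [rh5e05da03898e7023, rh812b908590c67662, (rh8599f462953abc6e.shift 1 0)] (by decide +kernel))
noncomputable def rh163c9d803bc08f96 : CRef := CRef.mk (Pat.mk 0x100000003800000000 0xf70000007e0000000f 5 8) 0 0 (step_sound _ 34 [rh592c7139d2c44767, (rh6cc0f305be0098c0.shift 1 0), (rhec46bd5500c722c9.shift 1 1)] (by decide +kernel))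
noncomputable def rh637bb93ed3388f6f : CRef := CRef.mk (Pat.mk 0x2000000030000000300000000 0x70000000700000007000000030000000300000002 5 3) 0 0 (step_sound _ 129 [rh373b7625e672cfd8, (rh5c5e593799055d58.shift 0 1)] (by decide +kernel))
noncomputable def rh613b00708c318de9 : CRef := CRef.mk (Pat.mk 0x800000008000000180000000800000000 0x40000000c0000001f000000780000000800000008 5 7) 0 0 (step_sound _ 130 [(rh50fbb5868c909700.shift 2 1), rhf9d33626830989d0] (by decide +kernel))
noncomputable def rh138b0b3138b2dc1f : CRef := CRef.mk (Pat.mk 0x800000018000000380000000000000000 0x140000001f00000038000000780000000c00000004 5 7) 0 0 (step_sound _ 35 [(rh157b220518f94713.shift 2 0), (rh675eb0a114259074.shift 0 1)] (by decide +kernel))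
noncomputable def rh38b6a0047f80df8c : CRef := CRef.mk (Pat.mk 0x2000000060000000e0000000000000000 0x60000000600000006000000060000001e0000000300000001 5 5) 0 0 (step_sound _ 161 [(rh2145e1d24b96a57e.shift 1 2), rh3a2543d39b758482] (by decide +kernel))
noncomputable def rh7dea84c185fa7892 : CRef := CRef.mk (Pat.mk 0x3000000030000000a00000000 0x6000000060000000600000003000000030000001e00000004 5 5) 0 0 (step_sound _ 34 [rh4c60faed9e5f228f, (rhf48373e13d2bc128.shift 0 1)] (by decide +kernel))
noncomputable def rh0b00b38df847f9f6 : CRef := CRef.mk (Pat.mk 0x800000008000000180000000800000000 0x8000000080000007c0000001f00000014 5 7) 0 0 (step_sound _ 36 [(rh55afc6a59410cf00.shift 3 0), rhb0de455c382c5b1c] (by decide +kernel))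
noncomputable def rh73b2afd5bddb11b8 : CRef := CRef.mk (Pat.mk 0x200000002000000020000000200000002 0x50000000700000007000000060000000700000003000000030000000300000002 5 3) 0 0 (step_sound _ 161 [(rh44f453b84f013105.shift 1 1), rhad7f3a7ca7906542, (rhecbd96f9e94bfd4d.shift 0 1)] (by decide +kernel))
noncomputable def rh7ad3b45b40d96ddf : CRef := CRef.mk (Pat.mk 0x80000000800000008000000080000000800000008 0x80000000c0000000f0000003c0000001c00000008 5 6) 0 0 (step_sound _ 66 [rh2a4e135be18dd43b, (rh932754581e0f4330.shift 2 1)] (by decide +kernel))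
noncomputable def rh3006016462977b3a : CRef := CRef.mk (Pat.mk 0x20000000200000002000000000000000000000000 0x500000007000000070000000300000002000000070000000700000005 5 3) 0 0 (step_sound _ 65 [rh6eff4158bb400f47, rh8ff3dde5b1c639e0, (rhc85cc95794737cf7.shift 0 2)] (by decide +kernel))
noncomputable def rh0ac7068d00303fbb : CRef := CRef.mk (Pat.mk 0x200000002000000020000000200000002 0x3000000030000000700000006000000060000000600000002 5 3) 0 0 (step_sound _ 160 [rhf04942fd11223790, (rhffd04209dc8ea796.shift 0 1)] (by decide +kernel))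
noncomputable def rh0b1f78eb7e8c5b6e : CRef := CRef.mk (Pat.mk 0x8000000180000000800000000 0x40000000c0000000c000000080000007c0000001f00000014 5 7) 0 0 (step_sound _ 131 [(rh771d065bdc85bf2d.shift 2 0), (rhd4b4beefcd67f51e.shift 3 0), rhfea49f007ffffe7c] (by decide +kernel))
noncomputable def rh9bb2bee4114890af : CRef := CRef.mk (Pat.mk 0x2000000120000001200000012 0x8000000090000000f0000001e0000001a00000012 5 5) 0 0 (step_sound _ 96 [rh50fbb5868c909700, rh6a6060c6b6bde3df] (by decide +kernel))
noncomputable def rh2675c308c7cb7d60 : CRef := CRef.mk (Pat.mk 0x60000001600000018 0x30000000300000003f0000001e00000018 5 6) 0 0 (step_sound _ 35 [(rh3244c3cc8379b070.shift 0 1), (rh85edaa7e257fdb26.shift 1 0)] (by decide +kernel))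
noncomputable def rh2f79f1e5a92dfc25 : CRef := CRef.mk (Pat.mk 0x12000000060000000200000000 0x10000000700000007000000070000001e000000060000000600000002 5 5) 0 0 (step_sound _ 129 [(rh0fa4a62bba50784f.shift 0 1), (rh14f80659e6313cc6.shift 1 1), (rh1741680720c097b4.shift 0 1), rhfc0fa269c989ad37] (by decide +kernel))
noncomputable def rh2512363493965159 : CRef := CRef.mk (Pat.mk 0x30000000400000006000000040000000000000000 0x3000000030000000600000006000000070000000300000003 5 3) 0 0 (step_sound _ 129 [(rh2145e1d24b96a57e.shift 1 2), rh46d6183566ef1216] (by decide +kernel))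
noncomputable def rh042e0f0ce201750f : CRef := CRef.mk (Pat.mk 0x600000010000000160000000000000000 0x600000006000000340000001e0000000700000002 5 6) 0 0 (step_sound _ 67 [(rh33e738c4ed385b9f.shift 1 2), rh59428f635936b362] (by decide +kernel))
noncomputable def rhcb51f3f897da837e : CRef := CRef.mk (Pat.mk 0x40000000000000016000000100000000000000000 0x400000004000000040000001e000000370000000200000002 5 6) 0 0 (step_sound _ 99 [rhad7f111fb10ea859, (rhe25b0a99195a5d59.shift 1 2)] (by decide +kernel))
noncomputable def rha83495199c8d8363 : CRef := CRef.mk (Pat.mk 0xc000000080000000c00000000 0x140000003c0000000f000000080000000c00000004 5 6) 0 0 (step_sound _ 131 [(rh20ee5c2c4c3a9878.shift 0 1), (rh932754581e0f4330.shift 2 0)] (by decide +kernel))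
noncomputable def rh6cb9d992867f2897 : CRef := CRef.mk (Pat.mk 0xf0000000b000000020000000000000000 0x40000001c0000000f0000000b0000001e0000001c00000010 5 5) 0 0 (step_sound _ 163 [(rh33e738c4ed385b9f.shift 0 4), rh48c955e90eee0521] (by decide +kernel))
noncomputable def rhd31ad8cde770d6cd : CRef := CRef.mk (Pat.mk 0x600000000000000160000001000000000 0x600000006000000040000001e0000003700000002 5 6) 0 0 (step_sound _ 67 [rh59428f635936b362, (rhe25b0a99195a5d59.shift 1 1)] (by decide +kernel))
noncomputable def rh8d9483ddda77e992 : CRef := CRef.mk (Pat.mk 0x12000000120000000600000002 0x600000006000000370000001e0000000600000002 5 6) 0 0 (step_sound _ 130 [(rha9be558c675aaaa9.shift 0 1), (rhbaefcd01e0a8bca3.shift 1 0)] (by decide +kernel))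
noncomputable def rh4c6788d72aa0532b : CRef := CRef.mk (Pat.mk 0x20000001000000016000000000000000000000000 0x200000002000000330000001e000000060000000400000004 5 6) 0 0 (step_sound _ 99 [(rh33e738c4ed385b9f.shift 1 3), rh95b4c7d6d9b6685a] (by decide +kernel))
noncomputable def rh18c294c46dc722b1 : CRef := CRef.mk (Pat.mk 0x20000000000000016000000100000000000000000 0x200000002000000030000001e000000360000000400000004 5 6) 0 0 (step_sound _ 99 [rh95b4c7d6d9b6685a, (rhe25b0a99195a5d59.shift 1 2)] (by decide +kernel))
noncomputable def rhd5185c56d3f10740 : CRef := CRef.mk (Pat.mk 0x100000001000000030000000900000000 0x20000000300000003000000030000001f00000007 5 5) 0 0 (step_sound _ 33 [rh3bc2d8b78487d218, rh55afc6a59410cf00] (by decide +kernel))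
noncomputable def rhd5ec21d099a93ebd : CRef := CRef.mk (Pat.mk 0x200000002000000020000001200000000 0x10000000300000003000000020000001f00000007 5 5) 0 0 (step_sound _ 34 [(rh55afc6a59410cf00.shift 1 0), rh9778b70343cc975b] (by decide +kernel))
noncomputable def rhd63e3e773ff55fc0 : CRef := CRef.mk (Pat.mk 0x200000012000000060000000200000000 0x4000000070000003e000000060000000600000006 5 6) 0 0 (step_sound _ 34 [(rh55afc6a59410cf00.shift 1 0), rha16588eac53d6b31] (by decide +kernel))
noncomputable def rhefeb7aa590e27c5b : CRef := CRef.mk (Pat.mk 0x18000000180000005800000018 0x240000003f00000038000000f800000018 5 8) 0 0 (step_sound _ 37 [rhda0c8f9f6c183d35, (rhf48373e13d2bc128.shift 3 1)] (by decide +kernel))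
noncomputable def rh21e4a49dbe82aa73 : CRef := CRef.mk (Pat.mk 0x2000000060000000600000000 0x70000000700000007000000060000000600000002 5 3) 0 0 (step_sound _ 129 [(rh2145e1d24b96a57e.shift 1 1), rhfb4b0c4778973b3d] (by decide +kernel))
noncomputable def rhc49879b08428ed69 : CRef := CRef.mk (Pat.mk 0x20000000200000002000000100000000000000000 0x4000000060000000600000006000000060000001f0000000700000001 5 5) 0 0 (step_sound _ 65 [rh9aa6ac2fc87719f2, rhcab3157f7bdcba3e, (rhced6d86d2069808b.shift 1 1)] (by decide +kernel))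
noncomputable def rhd7562faea1633866 : CRef := CRef.mk (Pat.mk 0x2000000120000000200000002 0x10000000300000003000000030000003e0000000600000006 5 6) 0 0 (step_sound _ 129 [rh3ca48e2a6d60153d, rh43903eb41aa6ae4c, rh5abfc4c9d959be03] (by decide +kernel))
noncomputable def rh260e4e640dc6b4ff : CRef := CRef.mk (Pat.mk 0x20000001200000002000000000000000000000000 0x50000000f0000001f00000002000000030000000300000001 5 5) 0 0 (step_sound _ 65 [(rhc3115e0f4b0bf27b.shift 0 2), rhc4526fc8abf298b6, rhcab3157f7bdcba3e] (by decide +kernel))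
noncomputable def rh5404ac421cbdf612 : CRef := CRef.mk (Pat.mk 0x1c00000038000000600000000000000000 0xc0000000c0000000c0000001c000000380000007f0000000c0000000c 5 7) 0 0 (step_sound _ 67 [(rh40241bd608e5be1a.shift 2 0), (rh779f81b5d898c236.shift 0 1), (rhe58a7845769190f3.shift 2 0)] (by decide +kernel))
noncomputable def rh96c19045eef85d9d : CRef := CRef.mk (Pat.mk 0x3c0000000800000008 0x1000000010000000380000003e0000000f00000008 5 6) 0 0 (step_sound _ 33 [(rh80fcd6d0a18cb2dd.shift 1 1), rhaa2146dcdc353af5] (by decide +kernel))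
noncomputable def rh174fce71736e2b46 : CRef := CRef.mk (Pat.mk 0x380000001000000010 0x2000000020000000770000003e0000001700000010 5 7) 0 0 (step_sound _ 66 [(rh49606a42a30c7ac4.shift 2 0), (rh592c7139d2c44767.shift 0 1)] (by decide +kernel))
noncomputable def rhf500948df83d6194 : CRef := CRef.mk (Pat.mk 0x20000000e000000120000000800000000 0x400000004000000060000000e0000001e0000000b0000000b 5 5) 0 0 (step_sound _ 130 [rh63e85d7360b5230b, (rh84d1c02a8954c6a8.shift 1 1), (rhadf429772c25fde0.shift 1 0), (rhb11d41c808e1ab4d.shift 2 0)] (by decide +kernel))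
noncomputable def rh88c08cf226dcd40c : CRef := CRef.mk (Pat.mk 0x380000000000000020 0x10000000ff0000007e0000007000000020 5 8) 0 0 (step_sound _ 66 [(rh0d378fd9e8917c5a.shift 0 1), (rh22b38309c56a80eb.shift 1 2), (rh61325f73ebf98108.shift 0 2), (rhed1419bd24fead7d.shift 1 0)] (by decide +kernel))
noncomputable def rha04cb4f65792b3cb : CRef := CRef.mk (Pat.mk 0x3800000000 0xf70000007e0000000f 5 8) 0 0 (step_sound _ 34 [rh592c7139d2c44767, (rh61325f73ebf98108.shift 0 1), (rh6cc0f305be0098c0.shift 1 0), rh7654d7b92c96fe12] (by decide +kernel))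
noncomputable def rh833cbed0dc104bad : CRef := CRef.mk (Pat.mk 0x1c000000000000001000000000 0x2000000020000000770000003e000000170000001000000010 5 7) 0 0 (step_sound _ 101 [(rh592c7139d2c44767.shift 0 2), (rh9e97bba44c1b13e4.shift 0 2), (rhb705031692dfe65f.shift 2 0)] (by decide +kernel))
noncomputable def rhaf9c05432836c531 : CRef := CRef.mk (Pat.mk 0x7000000200000000400000000 0x8000000080000001c0000001f0000007c0000000400000004 5 7) 0 0 (step_sound _ 99 [(rh8d84b6ee4f446a42.shift 1 2), rhb705031692dfe65f, (rheaa91b92daf0efc8.shift 0 2)] (by decide +kernel))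
noncomputable def rh344a70c8e96766cc : CRef := CRef.mk (Pat.mk 0x1c00000080 0xf00000007e000000ef 5 8) 0 0 (step_sound _ 37 [(rh338840d5137dcab7.shift 1 0), rh9e97bba44c1b13e4, (rheaa91b92daf0efc8.shift 2 0)] (by decide +kernel))
noncomputable def rh16d3dd7868847644 : CRef := CRef.mk (Pat.mk 0x1e0000001a0000000000000000 0x4000000070000001e0000001a0000000f00000007 5 5) 0 0 (step_sound _ 129 [rh1e092fbadfab2d2c, (rh3244c3cc8379b070.shift 0 3)] (by decide +kernel))
noncomputable def rh50c9a591b6085b12 : CRef := CRef.mk (Pat.mk 0x1a0000000200000000 0x400000004000000070000003e0000000300000002 5 6) 0 0 (step_sound _ 66 [rhaf661323c6e1d2ba, (rheb0810cc63b001d8.shift 0 1)] (by decide +kernel))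
noncomputable def rh47eeeb670fa7f266 : CRef := CRef.mk (Pat.mk 0x20000001a000000020000000000000000 0x50000000700000007000000030000001a0000000f0000000700000001 5 5) 0 0 (step_sound _ 161 [(rh1741680720c097b4.shift 0 2), (rh36e6bb6cca6188da.shift 0 1), rhc4526fc8abf298b6] (by decide +kernel))
noncomputable def rh9d066feed1c0b143 : CRef := CRef.mk (Pat.mk 0x20000001a0000001200000000 0x50000000700000007000000020000001b0000001f00000004 5 5) 0 0 (step_sound _ 129 [(rh1741680720c097b4.shift 0 1), rha893ef807ce322b1] (by decide +kernel))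
noncomputable def rh487cf11878390cb2 : CRef := CRef.mk (Pat.mk 0x20000001a0000000200000000 0x50000000700000007000000020000001b0000000f00000005 5 5) 0 0 (step_sound _ 129 [(rh1741680720c097b4.shift 0 1), rh36e6bb6cca6188da, rh771d065bdc85bf2d] (by decide +kernel))
noncomputable def rhe1b350e936a4b1aa : CRef := CRef.mk (Pat.mk 0x1e000000180000000000000000 0x4000000040000003e0000001f0000000300000002 5 6) 0 0 (step_sound _ 65 [rh297b4ac2caea85c8, (rheb0810cc63b001d8.shift 0 2)] (by decide +kernel))
noncomputable def rhb6524700ef1c9b0c : CRef := CRef.mk (Pat.mk 0xe0000000c00000000 0x200000002000000730000007e0000000f00000004 5 7) 0 0 (step_sound _ 68 [(rh226655e3fe6b4a8a.shift 1 1), (rh2612b4f73ba7c3b3.shift 1 1), (rhaf9f2efc81a8312b.shift 0 1), rhdd3ef923ff6c7ad5] (by decide +kernel))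
noncomputable def rh1c3f47bb179c7b94 : CRef := CRef.mk (Pat.mk 0x200000006000000060000000000000000 0x6000000060000000600000006000000070000000300000001 5 3) 0 0 (step_sound _ 161 [(rh2145e1d24b96a57e.shift 1 2), rhcab3157f7bdcba3e] (by decide +kernel))
noncomputable def rh3dd876177ab7bbf3 : CRef := CRef.mk (Pat.mk 0x380000001800000010 0x2000000020000000770000003f0000001800000010 5 7) 0 0 (step_sound _ 66 [(rh1830a026b526961e.shift 1 0), (rh4c622fddc53a5f99.shift 0 2), (rhba89ab7cb81bcc90.shift 0 1), (rhe25191970535449e.shift 0 1)] (by decide +kernel))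
noncomputable def rhaeb0794a361d0e77 : CRef := CRef.mk (Pat.mk 0x38000000180000001000000000 0x670000003f000000180000001000000010 5 7) 0 0 (step_sound _ 133 [(rh370625f794a30c38.shift 0 2), (rh71222050f2c63a3a.shift 4 0)] (by decide +kernel))
noncomputable def rh789325fa9e448664 : CRef := CRef.mk (Pat.mk 0x800000008000000180000003000000000 0x8000000080000001f0000003f00000014 5 6) 0 0 (step_sound _ 35 [(rh55afc6a59410cf00.shift 3 0), rhfd68868dd6d945e5] (by decide +kernel))
noncomputable def rh645d4e9c89254357 : CRef := CRef.mk (Pat.mk 0x200000003000000060000000000000000 0x400000006000000060000000600000007000000070000000300000001 5 3) 0 0 (step_sound _ 161 [(rh03dfdf12d5937476.shift 0 1), (rh73f605273a09a9d0.shift 1 2), rh82ca4d13b15beb50] (by decide +kernel))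
noncomputable def rhd9ad9bf6025c735f : CRef := CRef.mk (Pat.mk 0x20000001e000000080000000000000000 0x400000004000000060000003e0000000b0000000a00000008 5 6) 0 0 (step_sound _ 130 [rh25710ea91b217312, (rhf48373e13d2bc128.shift 1 3)] (by decide +kernel))
noncomputable def rhd22590dd64ac39a1 : CRef := CRef.mk (Pat.mk 0x1c000000180000001000000000 0x670000003f000000180000001000000010 5 7) 0 0 (step_sound _ 97 [rh7cd27a71ce016d8d, (rhb739f4f82bb681b4.shift 0 2)] (by decide +kernel))
noncomputable def rh7a298803a9043391 : CRef := CRef.mk (Pat.mk 0x60000001e00000004 0x3000000030000003e0000001e00000007 5 6) 0 0 (step_sound _ 1 [rheb0810cc63b001d8, rhf8367319461b97e0] (by decide +kernel))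
noncomputable def rh4b2f0b3b6f128794 : CRef := CRef.mk (Pat.mk 0xc0000001c00000008 0x14000000370000003f0000001c00000008 5 6) 0 0 (step_sound _ 98 [(rh2145e1d24b96a57e.shift 2 0), rh92011a909a77227f] (by decide +kernel))
noncomputable def rh4a0402cc0c221ec5 : CRef := CRef.mk (Pat.mk 0x8000000180000001000000000 0x80000000800000008000000380000001f00000014 5 6) 0 0 (step_sound _ 131 [(rh2145e1d24b96a57e.shift 3 1), rha5ad71a109986e64] (by decide +kernel))
noncomputable def rh6e9dff32f37b2c48 : CRef := CRef.mk (Pat.mk 0x1c00000018 0xf0000000fe0000001f 5 8) 0 0 (step_sound _ 37 [(rh226655e3fe6b4a8a.shift 2 0), rh5c160883f28e43e1, (rhaf9f2efc81a8312b.shift 1 0)] (by decide +kernel))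
noncomputable def rh064bf7c4d77d22b8 : CRef := CRef.mk (Pat.mk 0x18000000380000000800000000 0xc0000000c0000000c00000018000000380000001f00000004 5 6) 0 0 (step_sound _ 131 [(rh3da62da861143b9a.shift 2 1), (rh7b9fbdf6d2d059e4.shift 2 1), rh852e818bc8629e77, rhcc0ec44f4a77daad] (by decide +kernel))
noncomputable def rh38eb5c9c20ef4abf : CRef := CRef.mk (Pat.mk 0xe0000001800000000 0x1000000010000000370000003e0000001f00000008 5 6) 0 0 (step_sound _ 68 [(rh47c07cd0cc865f65.shift 0 1), (rh5ba2d67652840f34.shift 1 0)] (by decide +kernel))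
noncomputable def rhd4999ead6bb0c91f : CRef := CRef.mk (Pat.mk 0x7800000000 0x7f0000007e00000007 5 7) 0 0 (step_sound _ 34 [(rh4c622fddc53a5f99.shift 0 1), rh592c7139d2c44767, rh9e97bba44c1b13e4, (rhd5eb272e07a4e288.shift 1 1)] (by decide +kernel))
noncomputable def rhfa26d5e1bc6d22bd : CRef := CRef.mk (Pat.mk 0x3000000100000001200000010 0x1000000090000000b0000000f0000001e0000001a00000012 5 5) 0 0 (step_sound _ 65 [rh6a6060c6b6bde3df, rhb1a251d9bff81766] (by decide +kernel))
noncomputable def rh9d93f454eec0442c : CRef := CRef.mk (Pat.mk 0x280000000c0000001800000000 0x40000000f0000007c0000000c0000001800000010 5 7) 0 0 (step_sound _ 131 [(rh55afc6a59410cf00.shift 3 0), (rh9a8eeb17648f6035.shift 0 1)] (by decide +kernel))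
noncomputable def rh7f0feb9d0da09cbe : CRef := CRef.mk (Pat.mk 0x600000014000000000000000000000000 0x4000000070000003e000000030000000200000002 5 6) 0 0 (step_sound _ 99 [rh5deaed7f1c5b350b, (rhf48373e13d2bc128.shift 1 3)] (by decide +kernel))
noncomputable def rh327f7ec535f2dea9 : CRef := CRef.mk (Pat.mk 0x6000000030000000200000000000000000000000000000000 0x400000007000000030000000300000002000000030000000300000001 5 3) 0 0 (step_sound _ 97 [rh01483ff9cba2f6ac, (rh2f68792b6b779e96.shift 1 3)] (by decide +kernel))
noncomputable def rh3d4b412f1939576c : CRef := CRef.mk (Pat.mk 0x800000008000000080000001e00000000 0x40000000c0000000c0000000f0000003e00000003 5 6) 0 0 (step_sound _ 65 [rh0c73e4f17f3bd5be, (rh3244c3cc8379b070.shift 0 1)] (by decide +kernel))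
noncomputable def rh1bb3d8bf661367fc : CRef := CRef.mk (Pat.mk 0x200000000c00000018000000000000000000000000 0x80000007c0000000f00000018000000180000001000000010 5 7) 0 0 (step_sound _ 129 [(rhb57ff43456187b66.shift 1 0), (rhb739f4f82bb681b4.shift 0 3)] (by decide +kernel))
noncomputable def rh61c422903d1b2f65 : CRef := CRef.mk (Pat.mk 0x1e00000008000000080000000800000000 0x30000003e0000000f0000000c0000000c00000004 5 6) 0 0 (step_sound _ 97 [(rheb0810cc63b001d8.shift 0 3), rhf73c5abcc141758b] (by decide +kernel))
noncomputable def rh7a15f36fd17e0a6b : CRef := CRef.mk (Pat.mk 0x2000000030000000600000000 0x100000003000000030000000200000003000000030000000700000004 5 3) 0 0 (step_sound _ 129 [(rh55afc6a59410cf00.shift 1 0), (rh976a48eb1c80a12f.shift 0 1)] (by decide +kernel))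
noncomputable def rhe0938477a56c1517 : CRef := CRef.mk (Pat.mk 0x180000000c0000002000000000 0x100000001000000018000000180000000f0000007c00000008 5 7) 0 0 (step_sound _ 65 [(rh53b3c253cb0c65f4.shift 0 2), (rha0e12cb1ec7d3fc8.shift 1 0)] (by decide +kernel))
noncomputable def rh953c74b3affc8480 : CRef := CRef.mk (Pat.mk 0x140000000600000000 0x200000002000000030000003e0000000700000004 5 6) 0 0 (step_sound _ 67 [(rh18965a982d73c794.shift 1 1), rh44abd4fb20e6dd41] (by decide +kernel))
noncomputable def rh935837544d9a3a55 : CRef := CRef.mk (Pat.mk 0x280000000c0000002000000000 0x100000001000000018000000780000000f0000007c00000008 5 7) 0 0 (step_sound _ 35 [(rh8c25cb665ab79ec0.shift 0 1), (rh9ab0ed084d168e00.shift 2 0)] (by decide +kernel))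
noncomputable def rhc4db8a39eb79d68c : CRef := CRef.mk (Pat.mk 0x200000000c00000028000000000000000000000000 0x80000007c0000000f00000078000000180000001000000010 5 7) 0 0 (step_sound _ 163 [(rh2af0210ad3cd0058.shift 2 0), (rhe33d9496e10d8eb0.shift 0 4)] (by decide +kernel))
noncomputable def rh45c32b87073902ff : CRef := CRef.mk (Pat.mk 0xc0000000700000012000000000000000000000000 0x80000000c000000070000001e0000000c0000000c0000000c 5 5) 0 0 (step_sound _ 98 [(rh2fe78cc5ca4405d8.shift 0 3), (rh3470fcd67ff81181.shift 1 0)] (by decide +kernel))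
noncomputable def rha3a1dc91c27a6c7a : CRef := CRef.mk (Pat.mk 0x380000000e000000040000000000000000 0xa0000001f0000003a0000000e000000060000000400000004 5 6) 0 0 (step_sound _ 34 [(rh71222050f2c63a3a.shift 2 0), (rha8ddd09d1ad82129.shift 0 1)] (by decide +kernel))
noncomputable def rh7e3e2f91db1b1e70 : CRef := CRef.mk (Pat.mk 0x8000000280000000c0000000000000000 0x140000001f0000007c0000000c0000000800000008 5 7) 0 0 (step_sound _ 100 [(rh18965a982d73c794.shift 2 2), rh4289f1f21bc106a3] (by decide +kernel))
noncomputable def rhfb7f43b538a8978d : CRef := CRef.mk (Pat.mk 0x18000000180000000a0000001e00000000 0x40000001f0000001f0000000a0000001e00000003 5 5) 0 0 (step_sound _ 130 [(rh50fbb5868c909700.shift 2 1), rhdfdbc1e383b2f115] (by decide +kernel))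
noncomputable def rh8f777744d5e66334 : CRef := CRef.mk (Pat.mk 0x12000000070000000c00000000 0xc0000000c0000000c0000001e000000070000000c00000008 5 5) 0 0 (step_sound _ 98 [(rh361cc68994bd8a63.shift 0 2), (rh4c60faed9e5f228f.shift 1 0)] (by decide +kernel))
noncomputable def rh83f766c2f871221d : CRef := CRef.mk (Pat.mk 0x40000000e000000380000000000000000 0x400000004000000060000000e0000003a0000001f0000000a 5 6) 0 0 (step_sound _ 162 [(rh2145e1d24b96a57e.shift 2 2), rh596b68a6fe9159ab] (by decide +kernel))
noncomputable def rh6b02a24a9ce55b94 : CRef := CRef.mk (Pat.mk 0xc000000280000000800000000 0x8000000080000000c0000007c0000001f00000014 5 7) 0 0 (step_sound _ 68 [rh10082ecbc154be46, (rhf48373e13d2bc128.shift 2 2)] (by decide +kernel))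
noncomputable def rha5fed430121b5eb8 : CRef := CRef.mk (Pat.mk 0x1e0000000a000000180000001800000000 0x30000001e0000000a0000001f0000001f00000004 5 5) 0 0 (step_sound _ 34 [(rh311ef152027b2125.shift 0 1), (rh932754581e0f4330.shift 2 0)] (by decide +kernel))
noncomputable def rhb437a80e8a99758d : CRef := CRef.mk (Pat.mk 0x4000000060000001c000000000000000000000000 0x200000006000000060000001c0000000f0000000e0000000a 5 5) 0 0 (step_sound _ 66 [(rh5c651669912fbab1.shift 1 0), (rh6eff4158bb400f47.shift 1 0), (rhe286c75f2739cce2.shift 1 1), (rhfbf2eae4035425b6.shift 0 1)] (by decide +kernel))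
noncomputable def rh252b5ef4d7eacff7 : CRef := CRef.mk (Pat.mk 0x1c000000060000000400000000 0xa0000000e0000000f0000001c000000060000000600000002 5 5) 0 0 (step_sound _ 130 [(rh039efe07c35de3d4.shift 0 1), (rh03dfdf12d5937476.shift 1 0), (rh1741680720c097b4.shift 1 1), (rh769be3fe24eee174.shift 1 1)] (by decide +kernel))
noncomputable def rhc7326dcf0db7b159 : CRef := CRef.mk (Pat.mk 0x800000008000000080000001e00000000 0x40000000c0000000c0000000f0000001e0000000b 5 5) 0 0 (step_sound _ 65 [rh102c06f3317148d0, (rh3244c3cc8379b070.shift 0 1)] (by decide +kernel))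
noncomputable def rh37fc16c4e5393ad6 : CRef := CRef.mk (Pat.mk 0x10000000180000001a0000001e00000000 0x20000000310000001f0000001e0000001e00000003 5 6) 0 0 (step_sound _ 1 [rhc2100785131b9586, rheb0810cc63b001d8] (by decide +kernel))
noncomputable def rh4c7f12f685c4ec3d : CRef := CRef.mk (Pat.mk 0x1c00000008000000180000000600000000 0x20000007f0000003f0000001c0000000600000002 5 7) 0 0 (step_sound _ 98 [(rh2ed427353258d8dd.shift 0 2), rh65271c6153afc2e0, (rh69012675dfdb1a5b.shift 0 3)] (by decide +kernel))
noncomputable def rh185ea437a42a90aa : CRef := CRef.mk (Pat.mk 0x800000008000000180000000800000000 0x140000003c0000000f000000180000000800000008 5 6) 0 0 (step_sound _ 130 [rh46ddfec63ed2a094, (rh50fbb5868c909700.shift 2 1)] (by decide +kernel))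
noncomputable def rh011177a61dcb3783 : CRef := CRef.mk (Pat.mk 0x200000002000000020000000200000002000000000000000000000000 0x200000003000000030000000300000007000000060000000600000004 5 3) 0 0 (step_sound _ 65 [(rh1fe7bd026babc309.shift 0 1), rh8ff3dde5b1c639e0, (rhd29a1fb688eae70f.shift 1 1)] (by decide +kernel))
noncomputable def rh55438bf355f7f1e0 : CRef := CRef.mk (Pat.mk 0x800000000000000100000003800000000 0x8000000080000003f0000007e00000007 5 7) 0 0 (step_sound _ 34 [rh55c4ed4acec0f063, (rh972dbc07a0b18f2c.shift 1 0), (rhedf6b6c69a16cbd5.shift 0 1)] (by decide +kernel))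
noncomputable def rh7701132f4c18061f : CRef := CRef.mk (Pat.mk 0xc000000200000000c000000000000000000000000 0x80000001f000000780000000c0000000c0000000400000004 5 7) 0 0 (step_sound _ 131 [(rh126557da767e56cc.shift 0 4), (rh281c6819542c66e6.shift 2 0), (rh4331da5e27ad89d1.shift 2 0)] (by decide +kernel))
noncomputable def rh4f34fdf39c8bfb04 : CRef := CRef.mk (Pat.mk 0xc000000080000000c00000000 0x140000003c0000000f000000080000000c00000004 5 6) 0 0 (step_sound _ 131 [(rh41341977c0a884ba.shift 0 1), (rh932754581e0f4330.shift 2 0)] (by decide +kernel))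
noncomputable def rh26fc79a6e7fea15b : CRef := CRef.mk (Pat.mk 0x20000001200000002000000000000000000000000 0x400000006000000060000003e00000003000000070000000700000005 5 6) 0 0 (step_sound _ 65 [(rh20966da26a1c2ae8.shift 0 1), (rh31d8278b7e19baad.shift 0 1), rh8cdd36b03d57a2f6] (by decide +kernel))
noncomputable def rh0ab8704dd5a38897 : CRef := CRef.mk (Pat.mk 0x70000000200000000000000010 0xf000000fe000000fc0000001000000010 5 8) 0 0 (step_sound _ 99 [(rh12a4aa43a438d841.shift 2 0), (rha03f6e28ea70fc7d.shift 2 2), (rhb2afcb5db661472f.shift 0 2)] (by decide +kernel))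
noncomputable def rh232f62be4d8f334e : CRef := CRef.mk (Pat.mk 0x2000000020000000200000000 0x5000000070000000700000007000000030000000300000003 5 3) 0 0 (step_sound _ 129 [rh20966da26a1c2ae8, rh771d065bdc85bf2d, rhc4055b4872d6fb38, (rhc85cc95794737cf7.shift 0 1)] (by decide +kernel))
noncomputable def rhaf922d1987d13d46 : CRef := CRef.mk (Pat.mk 0xe000000200000000400000000 0x200000002000000030000001e000000360000000400000004 5 6) 0 0 (step_sound _ 100 [rh1ed635f5a7ab102e, (rh96851dee118c1ba3.shift 1 2)] (by decide +kernel))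
noncomputable def rhd94c7fa29448f08c : CRef := CRef.mk (Pat.mk 0x800000008000000380000001000000000 0x80000000f0000003e0000003700000004 5 6) 0 0 (step_sound _ 66 [(rh4f8edb321cf5b49d.shift 0 1), (rh592c7139d2c44767.shift 0 1), (rhae036cc4ef671676.shift 1 0), (rhfcb55d5dc3b78d1f.shift 0 1)] (by decide +kernel))
noncomputable def rh4bce375e26d0c8b1 : CRef := CRef.mk (Pat.mk 0x30000000000000002000000020000000000000000 0x5000000070000000600000002000000030000000300000001 5 3) 0 0 (step_sound _ 129 [(rh50fbb5868c909700.shift 0 2), rhcab3157f7bdcba3e] (by decide +kernel))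
noncomputable def rh392de456d218632d : CRef := CRef.mk (Pat.mk 0x7000000100000000400000000 0x8000000080000001c0000000f0000001c0000000400000004 5 5) 0 0 (step_sound _ 99 [(rh96851dee118c1ba3.shift 0 2), rhb705031692dfe65f] (by decide +kernel))
noncomputable def rhe1afa9ace3a7e2de : CRef := CRef.mk (Pat.mk 0x3800000000 0xef0000007e0000000f 5 8) 0 0 (step_sound _ 34 [(rh22b38309c56a80eb.shift 1 1), (rh47c07cd0cc865f65.shift 1 0), rh592c7139d2c44767, (rh6cc0f305be0098c0.shift 1 0)] (by decide +kernel))
noncomputable def rhda71ec438b693a85 : CRef := CRef.mk (Pat.mk 0x180000001800000008 0x80000001c0000001f000000380000001800000018 5 6) 0 0 (step_sound _ 100 [(rh5c5e593799055d58.shift 3 0), rhc2e619bb47d3bea9] (by decide +kernel))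
noncomputable def rh0a8e1c25ff37edf3 : CRef := CRef.mk (Pat.mk 0x20000001200000002000000000000000000000000 0x50000000f0000003f00000003000000030000000300000001 5 6) 0 0 (step_sound _ 65 [(rh31d8278b7e19baad.shift 0 1), (rh6290225f7e481854.shift 0 1), (rhc3115e0f4b0bf27b.shift 0 2), rhc4526fc8abf298b6] (by decide +kernel))
noncomputable def rh2f8fab6247ecc6da : CRef := CRef.mk (Pat.mk 0x20000001600000002000000000000000000000000 0x1000000030000001f00000002000000030000000300000001 5 5) 0 0 (step_sound _ 160 [rh01483ff9cba2f6ac, (rh2fe78cc5ca4405d8.shift 0 4)] (by decide +kernel))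
noncomputable def rhef1c44b93c9d3b46 : CRef := CRef.mk (Pat.mk 0x2000000160000000200000000 0x10000000300000003000000020000001f0000000300000001 5 5) 0 0 (step_sound _ 32 [(rh361cc68994bd8a63.shift 0 1), rh976a48eb1c80a12f] (by decide +kernel))
noncomputable def rh77335f126eb6c32e : CRef := CRef.mk (Pat.mk 0x1e00000008000000080000000800000000 0xb0000001e0000000f0000000c0000000c00000004 5 5) 0 0 (step_sound _ 97 [rh9b3a2aca8b56d34f, (rheb0810cc63b001d8.shift 0 3)] (by decide +kernel))
noncomputable def rhd8740cf9f9029425 : CRef := CRef.mk (Pat.mk 0x1e0000001a000000180000001000000000 0x30000001e0000001e0000001f0000003100000020 5 6) 0 0 (step_sound _ 161 [rh066a2ed17f0079fa, (rh3244c3cc8379b070.shift 0 4)] (by decide +kernel))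
noncomputable def rhcae42670d5f3e5ea : CRef := CRef.mk (Pat.mk 0x600000018000000080000001c00000000 0x2000000060000001c0000003f0000007f00000002 5 7) 0 0 (step_sound _ 66 [rh15d2d2578b54b533, (rh5c5a2014709044d0.shift 0 1), (rhfdd338b587cdea0b.shift 0 1)] (by decide +kernel))
noncomputable def rhf1a8127573b72831 : CRef := CRef.mk (Pat.mk 0x800000018000000080000000800000000 0x800000008000000180000000f0000003c00000014 5 6) 0 0 (step_sound _ 34 [(rh932754581e0f4330.shift 2 0), rhd19af14e4509e964] (by decide +kernel))
noncomputable def rh7d1f984d8d7198f5 : CRef := CRef.mk (Pat.mk 0x200000002000000020000000200000002 0x400000006000000060000000700000003000000030000000300000002 5 3) 0 0 (step_sound _ 161 [(rh20966da26a1c2ae8.shift 0 1), (rh44f453b84f013105.shift 1 1), rhad7f3a7ca7906542] (by decide +kernel))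
noncomputable def rh147596d73417c89a : CRef := CRef.mk (Pat.mk 0x38000000100000000000000008 0x70000007e0000003f0000000800000008 5 7) 0 0 (step_sound _ 98 [(rh4f8edb321cf5b49d.shift 0 2), (rh63665d28061a121c.shift 1 0), (rhfcb55d5dc3b78d1f.shift 0 2)] (by decide +kernel))
noncomputable def rhfe55220a6e86d829 : CRef := CRef.mk (Pat.mk 0xc000000200000000c00000000 0x4000000040000000c0000000c000000780000001f00000008 5 7) 0 0 (step_sound _ 67 [(rh75e158ceab9afbd9.shift 2 0), (rhb1a251d9bff81766.shift 2 0), (rhcadd85ff2a73e8c7.shift 0 1)] (by decide +kernel))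
noncomputable def rhded67413d3ef3da1 : CRef := CRef.mk (Pat.mk 0xc000000080000000c0000000000000000 0x40000000c000000080000000f0000003c00000014 5 6) 0 0 (step_sound _ 35 [(rh50fbb5868c909700.shift 2 1), rhc9c1a6ade0802ee3] (by decide +kernel))
noncomputable def rh6fba981bb8ec7da0 : CRef := CRef.mk (Pat.mk 0x400000001c00000000 0x670000003e00000070 5 7) 0 0 (step_sound _ 37 [rh0d378fd9e8917c5a, (rh428265de8cd3cd2d.shift 2 1)] (by decide +kernel))
noncomputable def rh7d6bd9522969cc3e : CRef := CRef.mk (Pat.mk 0x120000001200000012000000020000000000000000 0x120000001a0000001e0000000f0000000900000008 5 5) 0 0 (step_sound _ 64 [rh0fbbb92589a12005, (rh932754581e0f4330.shift 0 1)] (by decide +kernel))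
noncomputable def rh3ef5ad1d089d1133 : CRef := CRef.mk (Pat.mk 0x200000012000000020000000000000000 0x50000000700000007000000030000003e000000060000000600000004 5 6) 0 0 (step_sound _ 161 [(rh43903eb41aa6ae4c.shift 0 1), rh8ff3dde5b1c639e0, (rhc85cc95794737cf7.shift 0 2)] (by decide +kernel))
noncomputable def rh72058a08ebab8fdb : CRef := CRef.mk (Pat.mk 0x1000000000000000200000007000000000 0x1000000010000000fc000000fe0000000f 5 8) 0 0 (step_sound _ 35 [(rh04d7e19c993f8872.shift 2 0), rhb103f40a53fe1424, (rhec46bd5500c722c9.shift 2 1)] (by decide +kernel))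
noncomputable def rh89be7a39d5d4be01 : CRef := CRef.mk (Pat.mk 0x20000000200000002000000000000000000000000 0x3000000030000000300000007000000070000000700000005 5 3) 0 0 (step_sound _ 65 [rh8cdd36b03d57a2f6, rh8ff3dde5b1c639e0, rhc4526fc8abf298b6, (rhed79e5c5ffee0217.shift 0 1)] (by decide +kernel))
noncomputable def rhf8a608ae1df96a14 : CRef := CRef.mk (Pat.mk 0x4000000200000000e000000000000000000000000 0x400000004000000360000001e000000030000000200000002 5 6) 0 0 (step_sound _ 100 [(rh428265de8cd3cd2d.shift 1 3), rhf3caf215570e71a5] (by decide +kernel))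
noncomputable def rh05f5b8cf9ecbc46c : CRef := CRef.mk (Pat.mk 0x10000000380000000800000008 0x4000000370000003e0000000f00000008 5 6) 0 0 (step_sound _ 66 [(rh55c4ed4acec0f063.shift 0 1), (rh775ca1963e850b80.shift 0 1), (rhe4f9133a81c1dbc5.shift 1 0), (rhedf6b6c69a16cbd5.shift 0 2)] (by decide +kernel))
noncomputable def rh8886afe3c5704de8 : CRef := CRef.mk (Pat.mk 0x400000001c00000000 0x670000003e00000007 5 7) 0 0 (step_sound _ 37 [(rh428265de8cd3cd2d.shift 2 1), rh775ca1963e850b80] (by decide +kernel))
noncomputable def rh5e8a9627c87c793f : CRef := CRef.mk (Pat.mk 0x200000002000000000000000300000000 0x1000000030000000300000002000000060000000700000005 5 3) 0 0 (step_sound _ 65 [rh5abfc4c9d959be03, rh932754581e0f4330] (by decide +kernel))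
noncomputable def rh88787d6e86cfe4c3 : CRef := CRef.mk (Pat.mk 0x40000001000000007000000000000000000000000 0x4000000040000001c0000000f0000001c0000000800000008 5 5) 0 0 (step_sound _ 99 [rh03a6f79dca3226c9, (rh428265de8cd3cd2d.shift 0 3)] (by decide +kernel))
noncomputable def rh5882fccdd3a3ae99 : CRef := CRef.mk (Pat.mk 0x3800000000 0xf0000007e000000ef 5 8) 0 0 (step_sound _ 34 [(rh0edd3afef6b5d7e0.shift 1 0), (rh1a9922713ba80f42.shift 1 0), (rh5f7b3bfbaf903d4f.shift 1 0), rh775ca1963e850b80] (by decide +kernel))
noncomputable def rha1d0df255320463f : CRef := CRef.mk (Pat.mk 0x80000001800000018000000000000000000000000 0x1800000018000000380000001f0000001c00000008 5 6) 0 0 (step_sound _ 68 [(rh7b1f1fb55310c477.shift 3 1), rhbfbe640d96d6aa18] (by decide +kernel))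
noncomputable def rhc4e000a6037db581 : CRef := CRef.mk (Pat.mk 0x2000000120000000200000000 0x10000000300000003000000030000003f0000000f00000005 5 6) 0 0 (step_sound _ 129 [rh43903eb41aa6ae4c, rh771d065bdc85bf2d, rhc0693af77a9e9811, rhdb57bcbe4a84bd4b] (by decide +kernel))
noncomputable def rha55c6794f27836c3 : CRef := CRef.mk (Pat.mk 0xb00000008000000080000000000000000 0x140000001c0000001c0000000f000000080000000c0000000c00000004 5 5) 0 0 (step_sound _ 163 [(rh1741680720c097b4.shift 2 2), (rhc4526fc8abf298b6.shift 2 0), (rhddcd04bb31546311.shift 0 2)] (by decide +kernel))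
noncomputable def rheeff411d9539be1f : CRef := CRef.mk (Pat.mk 0x1c000000040000000400000000 0xa0000000e0000000f0000001c000000060000000600000002 5 5) 0 0 (step_sound _ 130 [(rh039efe07c35de3d4.shift 0 1), (rh20966da26a1c2ae8.shift 1 0), (rh771d065bdc85bf2d.shift 1 0), (rhc85cc95794737cf7.shift 1 1)] (by decide +kernel))
noncomputable def rh02a62d0f950f92c9 : CRef := CRef.mk (Pat.mk 0x2000000008000000080000000800000000 0x140000001c0000007c0000000f0000000c0000000c00000004 5 7) 0 0 (step_sound _ 131 [(rh20966da26a1c2ae8.shift 2 0), (rh57b469c1bf70b264.shift 0 1), (rh771d065bdc85bf2d.shift 2 0), (rhc85cc95794737cf7.shift 2 1)] (by decide +kernel))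
noncomputable def rh0f6f02996735c9a5 : CRef := CRef.mk (Pat.mk 0x2000000180000001800000010 0x4000000040000000c0000000f0000001c0000001800000018 5 5) 0 0 (step_sound _ 99 [(rh2145e1d24b96a57e.shift 3 0), rh9ecbf812f1a555a9] (by decide +kernel))
noncomputable def rh9e85d6b9ab5a43e7 : CRef := CRef.mk (Pat.mk 0x2000000180000001a00000010 0x1000000030000001f0000001e00000033 5 6) 0 0 (step_sound _ 34 [rhd6cf46f2b20b840a, (rhe25b0a99195a5d59.shift 1 0)] (by decide +kernel))
noncomputable def rhb9d54c641577230c : CRef := CRef.mk (Pat.mk 0x70000000200000000000000010 0xf000000fe0000007c0000001800000010 5 8) 0 0 (step_sound _ 99 [(rh25efc5d5a6c022ff.shift 2 0), (rh4f8edb321cf5b49d.shift 1 2), (rhb2afcb5db661472f.shift 0 2), (rhb4f5b1f88c9a7c13.shift 1 2)] (by decide +kernel))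
noncomputable def rh2d89bf0155d72363 : CRef := CRef.mk (Pat.mk 0x1000000020000000a0000000a0000001a00000000 0x300000003000000060000000e0000000f0000001a0000000a 5 5) 0 0 (step_sound _ 161 [(rh50fbb5868c909700.shift 0 2), rh9df6cf614317fa1d] (by decide +kernel))
noncomputable def rh434f1ba6302e16e4 : CRef := CRef.mk (Pat.mk 0x100000002000000020000000a00000018 0x4000000070000000700000002000000060000000f00000018 5 5) 0 0 (step_sound _ 129 [(rh50fbb5868c909700.shift 0 1), rhf4b80757651261c4] (by decide +kernel))
noncomputable def rhf2190df6e018e61d : CRef := CRef.mk (Pat.mk 0xa000000180000000200000000 0x100000001000000030000000f0000001e0000000200000002 5 5) 0 0 (step_sound _ 96 [rh58b3ccc609c7f9fc, (rhc10214bf3fe8094a.shift 0 2)] (by decide +kernel))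
noncomputable def rhaf5cd423ca055650 : CRef := CRef.mk (Pat.mk 0xa000000180000000a00000000 0x400000004000000060000000f0000001a0000000a0000000a 5 5) 0 0 (step_sound _ 98 [(rhb739f4f82bb681b4.shift 0 2), (rhd776eb44f7a8b71d.shift 1 0)] (by decide +kernel))
noncomputable def rh6cff4b8fb39cab72 : CRef := CRef.mk (Pat.mk 0x180000001a00000010 0x40000000c0000000f0000003f0000001b00000018 5 6) 0 0 (step_sound _ 99 [(rh2145e1d24b96a57e.shift 3 0), rh349858425db3a66a] (by decide +kernel))
noncomputable def rh06455e3c12b131d2 : CRef := CRef.mk (Pat.mk 0x8000000080000000b000000000000000000000000 0x40000000c0000000c000000080000000f0000001c0000001c00000014 5 5) 0 0 (step_sound _ 67 [(rh5f11ee373cbffcaa.shift 0 1), (rh6eff4158bb400f47.shift 2 0), (rh771d065bdc85bf2d.shift 2 1)] (by decide +kernel))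
noncomputable def rh3e2c9a93a47040f2 : CRef := CRef.mk (Pat.mk 0x4000000040000001c000000000000000000000000 0x200000006000000060000001c0000000f0000000e0000000a 5 5) 0 0 (step_sound _ 66 [(rh8cdd36b03d57a2f6.shift 1 0), (rh8ff3dde5b1c639e0.shift 1 0), (rhc4526fc8abf298b6.shift 1 0), (rhfbf2eae4035425b6.shift 0 1)] (by decide +kernel))
noncomputable def rhcd834955861e3abc : CRef := CRef.mk (Pat.mk 0x80000000800000008000000200000000000000000 0x40000000c0000000c0000000f0000007c0000001c00000014 5 7) 0 0 (step_sound _ 67 [(rh8cdd36b03d57a2f6.shift 2 0), (rh8ff3dde5b1c639e0.shift 2 0), (rhc4526fc8abf298b6.shift 2 0), (rhfb2f47ebeee1de4a.shift 0 1)] (by decide +kernel))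
noncomputable def rh1f690bfcb5d80fa5 : CRef := CRef.mk (Pat.mk 0x20000001a000000000000000000000000 0x2000000030000003e000000070000000400000004 5 6) 0 0 (step_sound _ 98 [(rh3244c3cc8379b070.shift 0 3), rh44afbb496b7a3d6b] (by decide +kernel))
noncomputable def rhd2a448c9bc642ac8 : CRef := CRef.mk (Pat.mk 0x10000000180000001800000002000000000000000000000000 0x18000000180000001c0000000f0000000c0000000400000004 5 5) 0 0 (step_sound _ 99 [(rh71222050f2c63a3a.shift 3 2), rhc4dfd09c7d84fa19] (by decide +kernel))
noncomputable def rhbb4420c8950163a5 : CRef := CRef.mk (Pat.mk 0x100000001a000000180000000200000000 0x330000001e0000001f0000000300000001 5 6) 0 0 (step_sound _ 98 [(rh33e738c4ed385b9f.shift 1 3), rh54c5be17d36e99bc] (by decide +kernel))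
noncomputable def rhb63f16694a63b337 : CRef := CRef.mk (Pat.mk 0x200000003400000000 0x670000003e00000007 5 7) 0 0 (step_sound _ 35 [(rh33e738c4ed385b9f.shift 2 1), rh592c7139d2c44767] (by decide +kernel))
noncomputable def rhe24f71dc03673300 : CRef := CRef.mk (Pat.mk 0x1000000000000000200000007000000000 0x10000000180000007c000000fe0000000f 5 8) 0 0 (step_sound _ 35 [(rh4dbed1f4fe75234c.shift 1 1), (rh55c4ed4acec0f063.shift 1 0), rhb103f40a53fe1424, (rhd5358021be058853.shift 2 0)] (by decide +kernel))
noncomputable def rh9f7291656644d9f1 : CRef := CRef.mk (Pat.mk 0x1a0000000a0000000a000000020000000100000000 0xa0000001a0000000f0000000e000000060000000300000003 5 5) 0 0 (step_sound _ 33 [rh78939c3f3c2bce20, rh932754581e0f4330] (by decide +kernel))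
noncomputable def rhf4abd55e7dd18847 : CRef := CRef.mk (Pat.mk 0x180000000a0000000200000002000000010000000000000000 0x180000000f0000000600000002000000070000000700000004 5 5) 0 0 (step_sound _ 65 [(rh932754581e0f4330.shift 0 1), rhbb71650e724fd1b2] (by decide +kernel))
noncomputable def rh205cfa7c6d243a73 : CRef := CRef.mk (Pat.mk 0x2000000180000000a000000000000000000000000 0x2000000020000001e0000000f000000030000000100000001 5 5) 0 0 (step_sound _ 96 [(rh1c62b6193297d9e3.shift 0 3), rh2f7d45a89346db2c] (by decide +kernel))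
noncomputable def rh0bab0b19dbffbcbc : CRef := CRef.mk (Pat.mk 0xa000000180000000a000000000000000000000000 0xa0000000a0000001a0000000f000000060000000400000004 5 5) 0 0 (step_sound _ 98 [(rh1b8205aeab53059f.shift 1 0), (rh53b3c253cb0c65f4.shift 0 3)] (by decide +kernel))
noncomputable def rh59eead8bb005fdc6 : CRef := CRef.mk (Pat.mk 0x100000001a00000018000000000000000000000000 0x180000001b0000003f0000000f0000000c00000004 5 6) 0 0 (step_sound _ 67 [rh47886619858c4f12, (rh71222050f2c63a3a.shift 3 1)] (by decide +kernel))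
noncomputable def rh2f4077820d6815e0 : CRef := CRef.mk (Pat.mk 0x2000000030000001200000000 0x1000000030000000300000002000000070000001e00000004 5 5) 0 0 (step_sound _ 34 [rh0fa4a62bba50784f, (rh2fe78cc5ca4405d8.shift 0 1)] (by decide +kernel))
noncomputable def rhec9d84076eed1856 : CRef := CRef.mk (Pat.mk 0x100000001a0000000600000002 0x600000006000000370000001e0000000600000002 5 6) 0 0 (step_sound _ 66 [rh221abc7c7e5aa3e2, (rh33e738c4ed385b9f.shift 1 2)] (by decide +kernel))
noncomputable def rh5819c50225755edf : CRef := CRef.mk (Pat.mk 0x140000001e0000000e0000000000000000 0x3000000030000001f0000001e0000000e0000000800000008 5 5) 0 0 (step_sound _ 3 [(rh4e61b61d0b91fb70.shift 0 2), (rh9e07f76261b05888.shift 2 0)] (by decide +kernel))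
noncomputable def rhe08f8c3511b74955 : CRef := CRef.mk (Pat.mk 0xd0000000c000000080000000800000000 0x1800000018000000180000000f0000000c0000000c0000001800000010 5 5) 0 0 (step_sound _ 36 [(rh4e334354818c0f5c.shift 0 2), (rh55afc6a59410cf00.shift 3 0)] (by decide +kernel))
noncomputable def rh3fe7114d6bc3d64c : CRef := CRef.mk (Pat.mk 0x8000000180000001e000000100000000000000000 0x340000003c0000001f0000001e000000180000000800000008 5 6) 0 0 (step_sound _ 129 [(rh3244c3cc8379b070.shift 0 3), (rha7b4d1f149b42657.shift 1 0)] (by decide +kernel))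
noncomputable def rh6dfb376ebf9b442b : CRef := CRef.mk (Pat.mk 0x1a000000060000000200000000 0x10000000700000007000000070000001e000000060000000600000004 5 5) 0 0 (step_sound _ 129 [(rh0fa4a62bba50784f.shift 0 1), (rh1741680720c097b4.shift 0 1), (rh5e05da03898e7023.shift 0 1), (rhd4b4beefcd67f51e.shift 1 0)] (by decide +kernel))
noncomputable def rh221b511e29b67f08 : CRef := CRef.mk (Pat.mk 0x180000001e000000100000001000000000 0x20000000300000001f0000001e000000180000001800000008 5 6) 0 0 (step_sound _ 35 [(rh932754581e0f4330.shift 3 0), (rhcc2f921af643b00a.shift 0 1)] (by decide +kernel))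
noncomputable def rhb29a0c87b6dc9700 : CRef := CRef.mk (Pat.mk 0x1a00000016000000120000001800000000 0x3000000030000001e00000016000000160000003c00000020 5 6) 0 0 (step_sound _ 37 [(rh55afc6a59410cf00.shift 4 0), (rhc49d85044c340509.shift 0 1)] (by decide +kernel))
noncomputable def rh9a0f4239b7590e5d : CRef := CRef.mk (Pat.mk 0x1a0000001e000000000000000000000000 0xb0000000b0000001e0000001e000000070000000400000004 5 5) 0 0 (step_sound _ 65 [rhcc3a3cb083175d99, (rheb0810cc63b001d8.shift 0 2)] (by decide +kernel))
noncomputable def rhec8c889d2743abb7 : CRef := CRef.mk (Pat.mk 0x180000001c000000100000003000000000 0x40000001f0000003c0000001e0000007800000008 5 7) 0 0 (step_sound _ 35 [(rh932754581e0f4330.shift 3 0), (rh9e51d6d3d9549a92.shift 0 1)] (by decide +kernel))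
noncomputable def rhdae9388eef521f76 : CRef := CRef.mk (Pat.mk 0x2000000030000000600000000 0x400000006000000060000000200000003000000030000000700000004 5 3) 0 0 (step_sound _ 129 [(rh55afc6a59410cf00.shift 1 0), (rh7a7e08304268422e.shift 0 1)] (by decide +kernel))
noncomputable def rhba61bb40e316aa10 : CRef := CRef.mk (Pat.mk 0x8000000180000000e00000004 0x400000004000000060000000f0000001e0000000e0000000e 5 5) 0 0 (step_sound _ 98 [rh3cb659a608caaffd, rh92e8af02f8c05b34, (rhf9a6286f1d5377a2.shift 2 0)] (by decide +kernel))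
noncomputable def rh66c0439a462c197e : CRef := CRef.mk (Pat.mk 0x2000000038000000100000000000000000 0x8000000080000003f00000078000000180000001000000010 5 7) 0 0 (step_sound _ 36 [(rh71222050f2c63a3a.shift 4 0), (rhdbabc815483b1bd9.shift 0 1)] (by decide +kernel))
noncomputable def rh9c4169708e16af39 : CRef := CRef.mk (Pat.mk 0x120000000300000002000000000000000000000000 0x40000001e0000000700000002000000030000000300000001 5 5) 0 0 (step_sound _ 162 [rh274a837cd7eaa569, (rh361cc68994bd8a63.shift 0 4)] (by decide +kernel))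
noncomputable def rh43e6117207b0e5da : CRef := CRef.mk (Pat.mk 0x2000000060000001a000000100000000000000000 0x2000000060000001e000000370000000600000006 5 6) 0 0 (step_sound _ 98 [rh76ade6e409ca008f, (rhe25b0a99195a5d59.shift 1 2)] (by decide +kernel))
noncomputable def rhcc98a87cde199059 : CRef := CRef.mk (Pat.mk 0xe0000001e000000140000000000000000 0x8000000080000000e0000001e0000001f0000000300000003 5 5) 0 0 (step_sound _ 195 [rh662ee70a1f2158a1, (rhee230b994cc8b773.shift 2 2)] (by decide +kernel))
noncomputable def rhab950eb696986900 : CRef := CRef.mk (Pat.mk 0x8000000080000000c0000000d000000000000000000000000 0x10000000180000000c0000000c0000000f000000180000001800000018 5 5) 0 0 (step_sound _ 196 [(rh2f68792b6b779e96.shift 3 3), rhd44e315eab5a9a28] (by decide +kernel))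
noncomputable def rhf157e03fe27adc5d : CRef := CRef.mk (Pat.mk 0x100000001e000000180000000800000000 0x800000008000000180000001e0000001f0000003c00000034 5 6) 0 0 (step_sound _ 65 [(rh5bf3064767471257.shift 1 0), (rheb0810cc63b001d8.shift 0 2)] (by decide +kernel))
noncomputable def rhe13578c189c582ed : CRef := CRef.mk (Pat.mk 0x2000000060000001a00000000000000000000000000000000 0x400000006000000060000001e00000007000000070000000700000001 5 5) 0 0 (step_sound _ 97 [rh274a837cd7eaa569, (rh5710f30ba40ee3ec.shift 0 2), (rh6eff4158bb400f47.shift 0 1), (rha707fb719e87fe6e.shift 1 2)] (by decide +kernel))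
noncomputable def rhe954a79959057e62 : CRef := CRef.mk (Pat.mk 0x10000000100000001e000000180000000000000000 0x800000018000000180000001e0000001f0000003000000020 5 6) 0 0 (step_sound _ 163 [(rh50fbb5868c909700.shift 3 2), rhd002a3e9dd0dc9ef] (by decide +kernel))
noncomputable def rhefff3f4846c03ebb : CRef := CRef.mk (Pat.mk 0x1800000012000000160000001a0000000000000000 0x200000003c00000016000000160000001e0000000300000003 5 6) 0 0 (step_sound _ 165 [(rh2f68792b6b779e96.shift 4 2), rhab4d14c6cdcd2633] (by decide +kernel))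
noncomputable def rhc6d5474ff13d52c5 : CRef := CRef.mk (Pat.mk 0x1e0000001a0000000000000000 0x400000004000000070000001e0000001e0000000b0000000b 5 5) 0 0 (step_sound _ 129 [(rh3244c3cc8379b070.shift 0 3), rhd276c2bab5ecfd05] (by decide +kernel))
noncomputable def rh8da4497394892813 : CRef := CRef.mk (Pat.mk 0x30000000100000001c0000001800000000 0x8000000780000001e0000003c0000001f00000004 5 7) 0 0 (step_sound _ 131 [rh490fe2e9dd9b0129, (rh50fbb5868c909700.shift 3 1)] (by decide +kernel))
noncomputable def rh63aae37a5ea11039 : CRef := CRef.mk (Pat.mk 0x6000000030000000200000000000000000000000000000000 0x400000007000000030000000300000002000000060000000600000004 5 3) 0 0 (step_sound _ 97 [(rh2f68792b6b779e96.shift 1 3), rhd1779d7de7f8215b] (by decide +kernel))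
noncomputable def rh77fd1ef2a0a169ee : CRef := CRef.mk (Pat.mk 0x40000000e0000001800000008000000000000000000000000 0xe0000000e0000001e0000000f000000060000000400000004 5 5) 0 0 (step_sound _ 98 [(rh8c2964f45bc4fea3.shift 0 2), (rhebbf0f79de50f641.shift 0 2), (rhfafeb437ceb8396d.shift 2 0)] (by decide +kernel))
noncomputable def rh7494a966108a2ece : CRef := CRef.mk (Pat.mk 0x1000000038000000200000000000000000 0x100000001000000018000000780000003f0000000800000008 5 7) 0 0 (step_sound _ 164 [(rh2145e1d24b96a57e.shift 4 2), rhb6a924ca89d60b54] (by decide +kernel))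
noncomputable def rhfda18578e77e957e : CRef := CRef.mk (Pat.mk 0x10000000100000001c00000030000000000000000000000000 0x10000000180000003c0000003f0000000e0000000400000004 5 6) 0 0 (step_sound _ 99 [(rh932754581e0f4330.shift 3 2), rhfea4bcd7fdd2584d] (by decide +kernel))
noncomputable def rh19bab24bff12af71 : CRef := CRef.mk (Pat.mk 0x10000000f0000000700000003 0x80000001e0000001f0000000f0000000700000003 5 5) 0 0 (step_sound _ 97 [rh5c5e593799055d58, rh6a46548993957203] (by decide +kernel))
noncomputable def rh4dbc5144a11ac8d6 : CRef := CRef.mk (Pat.mk 0xf0000000f000000030000000000000000 0xc0000000c0000001c0000000f0000000f000000030000000100000001 5 5) 0 0 (step_sound _ 194 [rh8d77f51b3713ec08, (rhee230b994cc8b773.shift 1 2)] (by decide +kernel))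
noncomputable def rh2504670ad45ec1e5 : CRef := CRef.mk (Pat.mk 0x1800000010000000100000001800000000 0x18000000180000003e0000007f00000026 5 7) 0 0 (step_sound _ 37 [(rh55afc6a59410cf00.shift 4 0), rhb7596e3236d95ab6] (by decide +kernel))
noncomputable def rh74d112e91e138932 : CRef := CRef.mk (Pat.mk 0x3000000018000000080000000000000000 0x2c0000003f00000038000000180000001800000018 5 6) 0 0 (step_sound _ 35 [(rh71222050f2c63a3a.shift 3 0), rhf807ef2bc9602478] (by decide +kernel))
noncomputable def rh94f43f6d3c38e93e : CRef := CRef.mk (Pat.mk 0x3c00000000000000180000001800000000 0x7c0000000e000000380000001f00000004 5 7) 0 0 (step_sound _ 98 [(rheb0810cc63b001d8.shift 1 3), rhf690a1120ef747b0] (by decide +kernel))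
noncomputable def rhd5f5e764651cb542 : CRef := CRef.mk (Pat.mk 0x1e00000006000000120000000800000000 0x30000001e000000060000001a0000000f00000007 5 5) 0 0 (step_sound _ 33 [rh18b3f06961656b37, (rh71222050f2c63a3a.shift 1 0)] (by decide +kernel))
noncomputable def rh17d8eb0392ab8477 : CRef := CRef.mk (Pat.mk 0xd00000007000000010000000000000000 0x8000000080000001e0000000f00000007000000050000000500000001 5 5) 0 0 (step_sound _ 129 [(rh6eb76252a9026692.shift 0 1), rhea7a1800d6f053bd] (by decide +kernel))
noncomputable def rhe1d4bc43c9f1699d : CRef := CRef.mk (Pat.mk 0x100000001800000098000000000000000000000000 0x1000000038000000ff000000670000002000000020 5 8) 0 0 (step_sound _ 101 [(rh2fe78cc5ca4405d8.shift 3 3), rhe360cad595d4e85a] (by decide +kernel))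
noncomputable def rh99019e750b4c895e : CRef := CRef.mk (Pat.mk 0x80000000c0000001c000000000000000000000000 0x40000000c0000000c0000001f000000380000001800000018 5 6) 0 0 (step_sound _ 67 [(rh820d4e04d5dcd02e.shift 2 0), (rhc0f6a93bf472824a.shift 0 1), (rhe286c75f2739cce2.shift 2 1)] (by decide +kernel))
noncomputable def rh292171eb41eea2cc : CRef := CRef.mk (Pat.mk 0x80000000e000000180000001800000000 0x40000000c0000000e0000001b0000001f00000006 5 5) 0 0 (step_sound _ 130 [(rh50fbb5868c909700.shift 2 1), rh8dc6f25384ef0701] (by decide +kernel))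
noncomputable def rh481f6151603b093c : CRef := CRef.mk (Pat.mk 0x300000001c0000001000000010 0x4000000040000000e0000003f0000003c0000001800000010 5 6) 0 0 (step_sound _ 99 [(rh1f5ed24d8bcfc0cf.shift 0 1), (rh50fbb5868c909700.shift 3 0)] (by decide +kernel))
noncomputable def rh1898d98e81abdb9a : CRef := CRef.mk (Pat.mk 0x3000000070000000f000000010000000000000000 0x3000000070000000f0000001f0000001e00000008 5 5) 0 0 (step_sound _ 65 [(rh7b1f1fb55310c477.shift 0 1), rhfc369a7f27d1ec1d] (by decide +kernel))
noncomputable def rhf7330f0ed55e2683 : CRef := CRef.mk (Pat.mk 0x30000000f0000000f000000000000000000000000 0x100000001000000030000000f0000000f0000001c0000000c0000000c 5 5) 0 0 (step_sound _ 34 [rh489123e77495ea2b, (rh9e07f76261b05888.shift 1 1)] (by decide +kernel))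
noncomputable def rh8ad8d47dabe45cb0 : CRef := CRef.mk (Pat.mk 0x18000000100000001000000018 0x260000007f0000003e0000001800000018 5 7) 0 0 (step_sound _ 101 [(rh2f68792b6b779e96.shift 4 0), rhcf399c1b682b19b3] (by decide +kernel))
noncomputable def rh4357cdcd5863ddab : CRef := CRef.mk (Pat.mk 0x8000000180000003000000000 0x180000001800000018000000380000003f0000002c 5 6) 0 0 (step_sound _ 131 [(rh2145e1d24b96a57e.shift 3 1), rhba035a58d35ce5fb] (by decide +kernel))
noncomputable def rhffc3417a99d99833 : CRef := CRef.mk (Pat.mk 0x1800000018000000000000003c 0x40000001f000000380000000e0000007c 5 7) 0 0 (step_sound _ 34 [(rh3244c3cc8379b070.shift 1 0), rhba4c79d012a3bd5f] (by decide +kernel))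
noncomputable def rh02784299519ddbbc : CRef := CRef.mk (Pat.mk 0x800000012000000060000001e00000000 0x70000000f0000001a000000060000001e00000003 5 5) 0 0 (step_sound _ 129 [(rh2145e1d24b96a57e.shift 1 1), rhdc408a89938afb58] (by decide +kernel))
noncomputable def rhbde60aa2768df8a4 : CRef := CRef.mk (Pat.mk 0x18000000120000001600000010 0x270000003e000000160000001600000014 5 6) 0 0 (step_sound _ 101 [rh1fd74e78d89ec75e, (rh2f68792b6b779e96.shift 4 0)] (by decide +kernel))
noncomputable def rh7426e3451835402b : CRef := CRef.mk (Pat.mk 0x1000000070000000d000000000000000000000000 0x10000000500000005000000070000000f0000001e0000000800000008 5 5) 0 0 (step_sound _ 97 [(rh3e595262c1b737ad.shift 0 2), rh84970c2ccb9fe470] (by decide +kernel))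
noncomputable def rhfc65d810a86f213b : CRef := CRef.mk (Pat.mk 0x980000001800000010 0x200000002000000067000000ff0000003800000010 5 8) 0 0 (step_sound _ 69 [(rh361cc68994bd8a63.shift 3 1), rh4accb275d9204b93] (by decide +kernel))
noncomputable def rh5e169f0a5c154f5c : CRef := CRef.mk (Pat.mk 0x1c0000000c0000000800000000 0x1800000018000000380000001f0000000c0000000c00000004 5 6) 0 0 (step_sound _ 131 [(rh03dfdf12d5937476.shift 2 0), (rh5fa50b509d4ce753.shift 2 1), rh8dce9a5566bc2590] (by decide +kernel))
noncomputable def rhe537a55726f74dba : CRef := CRef.mk (Pat.mk 0x18000000180000000e0000000800000000 0x60000001f0000001b0000000e0000000c00000004 5 5) 0 0 (step_sound _ 34 [(rh625e024e534c5ee6.shift 0 1), (rh932754581e0f4330.shift 2 0)] (by decide +kernel))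
noncomputable def rh554e79eb2e884be1 : CRef := CRef.mk (Pat.mk 0x80000000c000000180000001800000000 0x40000000c0000000c0000001c0000001f00000007 5 5) 0 0 (step_sound _ 34 [rh3d46de1b96c343f7, (rh932754581e0f4330.shift 2 0)] (by decide +kernel))
noncomputable def rh11e9fe313df7f22f : CRef := CRef.mk (Pat.mk 0xe0000001a0000000000000000 0x4000000040000000c0000000e0000001e0000000f0000000a 5 5) 0 0 (step_sound _ 130 [rha2d972724209a96f, (rhadf429772c25fde0.shift 1 0), (rhc2c7bae8f445c890.shift 2 0), (rhc38f566cab2818e5.shift 2 0)] (by decide +kernel))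
noncomputable def rh10ba0ca25c006d5b : CRef := CRef.mk (Pat.mk 0x1e0000001a000000000000000000000000 0x20000000b0000001e0000001e000000340000001400000010 5 6) 0 0 (step_sound _ 161 [(rh3244c3cc8379b070.shift 0 4), (rh84a67cf0073779b6.shift 1 0)] (by decide +kernel))
noncomputable def rhe9b056c20f541b16 : CRef := CRef.mk (Pat.mk 0x20000000e0000001a0000000000000000 0x4000000040000000e0000000e0000001a0000000f0000000f 5 5) 0 0 (step_sound _ 130 [rh78a360d7c0e0d8d2, (rhc2c7bae8f445c890.shift 2 0), (rhea7a1800d6f053bd.shift 1 0)] (by decide +kernel))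
noncomputable def rh5f12238356841f88 : CRef := CRef.mk (Pat.mk 0x40000001e0000001a000000000000000000000000 0xc0000001e0000001e000000330000001200000010 5 6) 0 0 (step_sound _ 65 [rh070e4356f7cc8a1a, (rh71222050f2c63a3a.shift 1 1)] (by decide +kernel))
noncomputable def rh7d940291e15217aa : CRef := CRef.mk (Pat.mk 0x4000000090000000900000009 0x170000001f0000000b0000000900000009 5 5) 0 0 (step_sound _ 99 [(rh50fbb5868c909700.shift 2 0), rhc36216947a8c6f8e] (by decide +kernel))
noncomputable def rh715bb0b4ad87df65 : CRef := CRef.mk (Pat.mk 0x120000000200000002000000000000000000000000 0x1000000070000001f0000000200000002000000070000000700000005 5 5) 0 0 (step_sound _ 65 [rh6eff4158bb400f47, (rhb9834bf7884fd26e.shift 0 2)] (by decide +kernel))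
noncomputable def rh0b03ce87d609fb4f : CRef := CRef.mk (Pat.mk 0x40000000e000000180000000a0000000000000000 0x40000000e0000001b0000001f0000003200000010 5 6) 0 0 (step_sound _ 66 [rh31981161ce3fe160, (rh53b3c253cb0c65f4.shift 0 2)] (by decide +kernel))
noncomputable def rh4a76b395f69947c6 : CRef := CRef.mk (Pat.mk 0x80000001c000000300000001400000000 0x20000000f0000001c000000340000001e0000000c 5 6) 0 0 (step_sound _ 66 [rh0b268d1e3b08da39, (rh71222050f2c63a3a.shift 2 0)] (by decide +kernel))
noncomputable def rha4eb035c392bca11 : CRef := CRef.mk (Pat.mk 0x1800000018000000100000003000000000 0x180000001c000000370000003e0000000f 5 6) 0 0 (step_sound _ 35 [(rh932754581e0f4330.shift 3 0), rhdff86dfbc559b7c4] (by decide +kernel))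
noncomputable def rh7dff6100fdafddab : CRef := CRef.mk (Pat.mk 0x18000000180000000c0000000800000000 0x70000001f0000001c0000000c0000000c00000004 5 5) 0 0 (step_sound _ 130 [(rh50fbb5868c909700.shift 2 1), rhe053ff186ad2b33b] (by decide +kernel))
noncomputable def rha0048ef622af61c6 : CRef := CRef.mk (Pat.mk 0x1a0000000e000000000000000000000000 0xa0000000f0000001e0000000e0000000c0000000400000004 5 5) 0 0 (step_sound _ 66 [(rh55bd1d49f52856d6.shift 0 2), (rha40d42a2e34c408d.shift 1 0), (rhcf80391c5046a495.shift 2 0), (rhf9366b6a121593ef.shift 2 0)] (by decide +kernel))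
noncomputable def rh80505a500302d925 : CRef := CRef.mk (Pat.mk 0x1a0000001e0000000000000000 0x1000000014000000340000001e0000001e0000000b00000002 5 6) 0 0 (step_sound _ 33 [(rh77bb8b66e073a633.shift 1 0), (rheb0810cc63b001d8.shift 0 1)] (by decide +kernel))
noncomputable def rhc9c9cc5de4597856 : CRef := CRef.mk (Pat.mk 0x1a0000000e000000020000000000000000 0xf0000000f0000001a0000000e0000000e0000000400000004 5 5) 0 0 (step_sound _ 66 [(rh2b408ac967bdf1eb.shift 0 2), (rh3e595262c1b737ad.shift 1 1), (rhcf80391c5046a495.shift 2 0)] (by decide +kernel))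
noncomputable def rh3c35c3c11535b0fc : CRef := CRef.mk (Pat.mk 0x1a0000001e00000004 0x1000000012000000330000001e0000001e0000000c 5 6) 0 0 (step_sound _ 97 [rh04934d4036f52a12, (rh2145e1d24b96a57e.shift 1 0)] (by decide +kernel))
noncomputable def rh8a5fa899b79410ad : CRef := CRef.mk (Pat.mk 0x900000009000000090000000400000000 0x9000000090000000b0000001f00000017 5 5) 0 0 (step_sound _ 35 [(rh932754581e0f4330.shift 2 0), rhdfc7171a4d738d7a] (by decide +kernel))
noncomputable def rh2333d5e575238ae4 : CRef := CRef.mk (Pat.mk 0x200000002000000120000000000000000 0x5000000070000000700000002000000020000001f0000000700000001 5 5) 0 0 (step_sound _ 161 [(rh1741680720c097b4.shift 0 2), rh9aa6ac2fc87719f2] (by decide +kernel))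
noncomputable def rh5e0187cc6a14f9db : CRef := CRef.mk (Pat.mk 0xa000000180000000e00000004 0x10000000320000001f0000001b0000000e00000004 5 6) 0 0 (step_sound _ 98 [rh02f4f158f1f80c2a, (rhb739f4f82bb681b4.shift 0 2)] (by decide +kernel))
noncomputable def rheebe454d9244459d : CRef := CRef.mk (Pat.mk 0x14000000300000001c0000000800000000 0xc0000001e000000340000001c0000000f00000002 5 6) 0 0 (step_sound _ 98 [rh1e1c23ae07d7b94c, (rh2145e1d24b96a57e.shift 2 1)] (by decide +kernel))
noncomputable def rhef4920713d1aef64 : CRef := CRef.mk (Pat.mk 0x30000000100000001800000018 0xf0000003e000000370000001c00000018 5 6) 0 0 (step_sound _ 99 [(rh50fbb5868c909700.shift 3 0), rhe46155d475d08818] (by decide +kernel))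
noncomputable def rh9ab78d78ade9eb20 : CRef := CRef.mk (Pat.mk 0x80000001c000000180000000000000000 0x80000003c0000007f0000001600000014 5 7) 0 0 (step_sound _ 36 [rh2b577870cede931c, (rh7b1f1fb55310c477.shift 3 0)] (by decide +kernel))
noncomputable def rhd802bb8339359eae : CRef := CRef.mk (Pat.mk 0xc0000000c000000040000000400000000 0x40000000c0000000c0000000f0000003c00000018 5 6) 0 0 (step_sound _ 35 [(rh55afc6a59410cf00.shift 2 0), rhf8d9ac5b35cc26f5] (by decide +kernel))
noncomputable def rhb5e460c23702b783 : CRef := CRef.mk (Pat.mk 0xc0000000c000000440000000400000000 0x40000000c0000000c0000007c0000000f0000000a 5 7) 0 0 (step_sound _ 35 [(rh55afc6a59410cf00.shift 2 0), rhba9afb95c345922b] (by decide +kernel))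
noncomputable def rhb0ac4faa0637eb2b : CRef := CRef.mk (Pat.mk 0x1a0000001e000000000000000000000000 0x200000006000000070000001e0000001e000000070000000200000002 5 5) 0 0 (step_sound _ 65 [rhdd729eb0b4069efb, (rheb0810cc63b001d8.shift 0 2)] (by decide +kernel))
noncomputable def rh89b861083a18eae7 : CRef := CRef.mk (Pat.mk 0x1a000000020000000200000002 0x500000007000000070000001e000000020000000200000002 5 5) 0 0 (step_sound _ 129 [(rh1741680720c097b4.shift 0 1), (rh44f453b84f013105.shift 1 0), (rh5e05da03898e7023.shift 0 1)] (by decide +kernel))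
noncomputable def rhe1b9efe4ccac0d8a : CRef := CRef.mk (Pat.mk 0xc0000001c000000180000000800000000 0xc0000001c0000001c0000001f00000017 5 5) 0 0 (step_sound _ 36 [(rh7b1f1fb55310c477.shift 3 0), rhb1c06754cc0d7506] (by decide +kernel))
noncomputable def rh2f7db7f7aed1b41e : CRef := CRef.mk (Pat.mk 0x1000000000000000700000007000000180000000000000000 0x10000000100000007000000070000001a0000000f00000007 5 5) 0 0 (step_sound _ 65 [(rh6f1cbe15c631ee70.shift 0 2), rh78a360d7c0e0d8d2] (by decide +kernel))
noncomputable def rh626b92010afc5fd0 : CRef := CRef.mk (Pat.mk 0x1c0000001e0000000000000000 0x200000002000000070000001f0000001e0000000400000004 5 5) 0 0 (step_sound _ 97 [(rh3244c3cc8379b070.shift 0 2), rhd5889c99d29bf7d6] (by decide +kernel))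
noncomputable def rhb8339f1826889938 : CRef := CRef.mk (Pat.mk 0x180000001c00000008 0x14000000160000007f0000003c00000008 5 7) 0 0 (step_sound _ 100 [rh1eb520e6f2e56a5a, (rh5c5e593799055d58.shift 3 0)] (by decide +kernel))
noncomputable def rhcee506e245b5cffc : CRef := CRef.mk (Pat.mk 0x4000000040000000c0000000c00000000 0x180000003c0000000f0000000c0000000c00000004 5 6) 0 0 (step_sound _ 131 [(rh2f68792b6b779e96.shift 2 1), rhee6e41f347a62869] (by decide +kernel))
noncomputable def rh19a1649a669da04d : CRef := CRef.mk (Pat.mk 0x4000000440000000c0000000c00000000 0xa0000000f0000007c0000000c0000000c00000004 5 7) 0 0 (step_sound _ 131 [(rh2f68792b6b779e96.shift 2 1), rhca012b1710fc194f] (by decide +kernel))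
noncomputable def rhf86d54117f60b237 : CRef := CRef.mk (Pat.mk 0x1e0000001a000000000000000000000000 0x200000002000000070000001e0000001e000000070000000600000002 5 5) 0 0 (step_sound _ 161 [(rh3244c3cc8379b070.shift 0 4), rh3dcd80652d67cf83] (by decide +kernel))
noncomputable def rhde2e18f2e1e64515 : CRef := CRef.mk (Pat.mk 0x200000002000000020000001a000000000000000000000000 0x200000002000000020000001e000000070000000700000005 5 5) 0 0 (step_sound _ 65 [(rh5710f30ba40ee3ec.shift 0 1), rh6eff4158bb400f47, (rhd29a1fb688eae70f.shift 1 1)] (by decide +kernel))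
noncomputable def rh8dc52d3ebe36c0ba : CRef := CRef.mk (Pat.mk 0x1800000007000000070000000000000001 0x70000000f0000001a00000007000000070000000100000001 5 5) 0 0 (step_sound _ 129 [(rh2b408ac967bdf1eb.shift 0 2), rh9e3edb185cc347de] (by decide +kernel))
noncomputable def rhcf42599d162036f6 : CRef := CRef.mk (Pat.mk 0x1e0000001c000000000000000000000000 0x4000000040000001e0000001f000000070000000200000002 5 5) 0 0 (step_sound _ 97 [rhcfde16a7ff36af03, (rheb0810cc63b001d8.shift 0 3)] (by decide +kernel))
noncomputable def rhc318c00060e6cd76 : CRef := CRef.mk (Pat.mk 0x1000000010000000000000003800000000 0x1000000030000000670000003e00000067 5 7) 0 0 (step_sound _ 34 [rh775ca1963e850b80, (rhb677d5483aaebfd8.shift 2 0)] (by decide +kernel))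
noncomputable def rhd53c56968a9322a5 : CRef := CRef.mk (Pat.mk 0x3800000000 0x70000007e000000ff 5 8) 0 0 (step_sound _ 34 [rh0d378fd9e8917c5a, (rh0edd3afef6b5d7e0.shift 1 0), rh775ca1963e850b80] (by decide +kernel))
noncomputable def rhacc9bbdc1b978c29 : CRef := CRef.mk (Pat.mk 0x3800000000 0xf0000007e000000f7 5 8) 0 0 (step_sound _ 34 [rh0d378fd9e8917c5a, rh185f35b8bd8ec37f, (rh1a9922713ba80f42.shift 1 0), rh775ca1963e850b80] (by decide +kernel))
noncomputable def rh1721f7e9b0efc937 : CRef := CRef.mk (Pat.mk 0x1000000018000000000000001800000000 0x40000001f00000038000000080000001800000018 5 6) 0 0 (step_sound _ 67 [rh626cca2d83e6311d, (rh71222050f2c63a3a.shift 3 0)] (by decide +kernel))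
noncomputable def rh307c93154498e148 : CRef := CRef.mk (Pat.mk 0x6000000060000000380000001000000000 0x80000007c0000007f000000780000003000000020 5 7) 0 0 (step_sound _ 37 [(rh2da0ea28af51d92c.shift 0 1), (rh71222050f2c63a3a.shift 5 0)] (by decide +kernel))
noncomputable def rhe883adbd60e3e4d2 : CRef := CRef.mk (Pat.mk 0x38000000000000001000000010 0x670000003e000000670000003000000010 5 7) 0 0 (step_sound _ 98 [(rh592c7139d2c44767.shift 0 2), (rh9c9de8a82d5e4ca8.shift 2 0)] (by decide +kernel))
noncomputable def rh8927aeb4da307d73 : CRef := CRef.mk (Pat.mk 0x3800000000 0xff0000007e00000007 5 8) 0 0 (step_sound _ 34 [(rh22b38309c56a80eb.shift 1 1), rh592c7139d2c44767, rh9e97bba44c1b13e4] (by decide +kernel))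
noncomputable def rh93f0e85e241a7ddc : CRef := CRef.mk (Pat.mk 0x3800000000 0xf70000007e0000000f 5 8) 0 0 (step_sound _ 34 [(rh4c622fddc53a5f99.shift 0 1), rh592c7139d2c44767, (rh6cc0f305be0098c0.shift 1 0), rh9e97bba44c1b13e4] (by decide +kernel))
noncomputable def rh36ae2ab44cf797d9 : CRef := CRef.mk (Pat.mk 0x1800000000000000180000001000000000 0x180000001800000008000000380000001f00000004 5 6) 0 0 (step_sound _ 99 [(rh2145e1d24b96a57e.shift 3 1), rha4a90701732bc6b6] (by decide +kernel))
noncomputable def rhaccc902a020a0df3 : CRef := CRef.mk (Pat.mk 0x1000000038000000600000006000000000 0x2000000030000000780000007f0000007c00000008 5 7) 0 0 (step_sound _ 133 [(rh2145e1d24b96a57e.shift 5 1), rhd186de56a721691f] (by decide +kernel))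
noncomputable def rhad524fbc7e0727d3 : CRef := CRef.mk (Pat.mk 0x3000000018000000180000001800000000 0x780000001e000000380000001f00000004 5 7) 0 0 (step_sound _ 98 [(rh53b3c253cb0c65f4.shift 1 3), rhaaf4e29c7679cdb1] (by decide +kernel))
noncomputable def rh285e6585a4c5ed96 : CRef := CRef.mk (Pat.mk 0x1800000038000000000000000000000000 0x8000000080000001f0000003f000000070000000400000004 5 6) 0 0 (step_sound _ 98 [(rh50e736ca27d8bdbd.shift 1 0), (rh592c7139d2c44767.shift 0 2), (rhbe5fc5902345a0b9.shift 0 3), (rhcc2be1f880c5ea3e.shift 0 2)] (by decide +kernel))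
noncomputable def rh097cd9ebdd00847c : CRef := CRef.mk (Pat.mk 0x18000000180000001800000030 0x40000001f000000380000001e00000078 5 7) 0 0 (step_sound _ 34 [(rhb739f4f82bb681b4.shift 1 0), rhf6fbbd65bb36f450] (by decide +kernel))
noncomputable def rh0df6af711ad51250 : CRef := CRef.mk (Pat.mk 0x38000000180000000000000000 0x400000004000000070000003f0000001f0000000800000008 5 6) 0 0 (step_sound _ 98 [(rh6cc58692ec716844.shift 1 0), (rh775ca1963e850b80.shift 0 2), (rhb14e2588a8d71db8.shift 0 2), (rhba89ab7cb81bcc90.shift 0 2)] (by decide +kernel))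
noncomputable def rh4963face8a6af525 : CRef := CRef.mk (Pat.mk 0x1e0000001a0000000000000000 0x400000004000000070000001e0000001e0000000b0000000b 5 5) 0 0 (step_sound _ 129 [(rh3244c3cc8379b070.shift 0 3), rhdce7344d7fe15ffb] (by decide +kernel))
noncomputable def rh793930867e49eec7 : CRef := CRef.mk (Pat.mk 0x40000000e0000001a0000000000000000 0x40000000e0000001f0000003b0000000a 5 6) 0 0 (step_sound _ 33 [(rh71222050f2c63a3a.shift 1 0), rhfe52b50a4070aff4] (by decide +kernel))
noncomputable def rhb2e482cfc0fdb522 : CRef := CRef.mk (Pat.mk 0x80000001c000000040000000000000000 0x60000000f0000003c000000060000000600000006 5 6) 0 0 (step_sound _ 65 [(rh18965a982d73c794.shift 1 2), rhbe253d1426d5780c] (by decide +kernel))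
noncomputable def rh85d92d383ef6d439 : CRef := CRef.mk (Pat.mk 0x80000001a000000020000000000000000 0x800000008000000180000001e000000330000001000000010 5 6) 0 0 (step_sound _ 98 [(rh85069a6d037617f9.shift 1 0), (rheb0810cc63b001d8.shift 0 2)] (by decide +kernel))
noncomputable def rh0ea6ccce9923b6f7 : CRef := CRef.mk (Pat.mk 0x1000000038000000200000000000000000 0x100000001000000018000000780000003f0000000800000008 5 7) 0 0 (step_sound _ 164 [(rh2145e1d24b96a57e.shift 4 2), rh7b3ca0aa5193219e] (by decide +kernel))
noncomputable def rh19164014fbbda9ed : CRef := CRef.mk (Pat.mk 0xa0000000300000003000000000000000000000000 0x40000001e0000000300000003000000060000000600000006 5 5) 0 0 (step_sound _ 162 [(rh18965a982d73c794.shift 0 4), rh3470fcd67ff81181] (by decide +kernel))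
noncomputable def rhf9fc304f11ec8ad5 : CRef := CRef.mk (Pat.mk 0x8000000090000000900000009 0x170000001f0000000b0000000900000009 5 5) 0 0 (step_sound _ 98 [(rh50fbb5868c909700.shift 2 0), rhc36216947a8c6f8e] (by decide +kernel))
noncomputable def rh296152109c81e19c : CRef := CRef.mk (Pat.mk 0x3000000120000000300000000 0x40000000600000006000000030000001e0000000700000001 5 5) 0 0 (step_sound _ 66 [(rh2fe78cc5ca4405d8.shift 0 2), rh57a06b43e72703e1] (by decide +kernel))
noncomputable def rh60cc88978761733d : CRef := CRef.mk (Pat.mk 0x100000000300000006000000000000000000000000 0x400000006000000070000001f0000000700000006000000060000000600000004 5 5) 0 0 (step_sound _ 161 [(rh70e33bfdf511e144.shift 1 0), (rh8599f462953abc6e.shift 1 2), (rhc47fe1bc6b175f77.shift 0 1)] (by decide +kernel))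
noncomputable def rh247b9e8583f59695 : CRef := CRef.mk (Pat.mk 0x1a0000001e000000000000000000000000 0xb0000000b0000001e0000001e000000070000000400000004 5 5) 0 0 (step_sound _ 65 [rhdc9874b03b232223, (rheb0810cc63b001d8.shift 0 2)] (by decide +kernel))
noncomputable def rhefd1f92d87146dd0 : CRef := CRef.mk (Pat.mk 0x1a0000000e00000004 0xa0000003b0000001f0000000e00000004 5 6) 0 0 (step_sound _ 97 [(rh2145e1d24b96a57e.shift 1 0), rhb1f6c7657f492432] (by decide +kernel))
noncomputable def rh642fafb4709e98e4 : CRef := CRef.mk (Pat.mk 0x40000001c0000000800000000 0x600000006000000060000003c0000000f00000006 5 6) 0 0 (step_sound _ 97 [rhc04acbc801fe9a40, (rhf48373e13d2bc128.shift 1 2)] (by decide +kernel))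
noncomputable def rh09ba32f78f358d5d : CRef := CRef.mk (Pat.mk 0x20000001a000000080000000000000000 0x1000000010000000330000001e000000180000000800000008 5 6) 0 0 (step_sound _ 98 [(rh3244c3cc8379b070.shift 0 3), (rhe5ad44e27e846693.shift 1 0)] (by decide +kernel))
noncomputable def rh1ee8417e25c598ff : CRef := CRef.mk (Pat.mk 0x2000000038000000100000000000000000 0x8000000080000003f00000078000000180000001000000010 5 7) 0 0 (step_sound _ 36 [(rh009ae82a642315c6.shift 0 1), (rh71222050f2c63a3a.shift 4 0)] (by decide +kernel))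
noncomputable def rhd69d31ad6b6c8ab3 : CRef := CRef.mk (Pat.mk 0x900000009000000090000000800000000 0x9000000090000000b0000001f00000017 5 5) 0 0 (step_sound _ 34 [(rh932754581e0f4330.shift 2 0), rhdfc7171a4d738d7a] (by decide +kernel))
noncomputable def rhede4072b136292bc : CRef := CRef.mk (Pat.mk 0x30000001200000003000000000000000000000000 0x1000000070000001e00000003000000060000000600000004 5 5) 0 0 (step_sound _ 130 [(rh361cc68994bd8a63.shift 0 3), rh39b036797fb07457] (by decide +kernel))
noncomputable def rhf5231395bafb7692 : CRef := CRef.mk (Pat.mk 0x60000000300000010000000000000000000000000 0x4000000060000000600000006000000070000001f000000070000000600000004 5 5) 0 0 (step_sound _ 97 [(rh12452934acb847d5.shift 0 2), (rh215e11e099257d75.shift 1 2), (rh3820f35d5e705bec.shift 1 0)] (by decide +kernel))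
noncomputable def rh4145f0fcd95ceabb : CRef := CRef.mk (Pat.mk 0x1a0000001e000000000000000000000000 0x1000000010000000340000001e0000001e0000000b0000000200000002 5 6) 0 0 (step_sound _ 65 [(rh9fffeeac53327eff.shift 1 0), (rheb0810cc63b001d8.shift 0 2)] (by decide +kernel))
noncomputable def rhc251f793feb12098 : CRef := CRef.mk (Pat.mk 0xd0000000f000000090000000800000000 0x8000000080000001a0000000f0000000f0000000d0000001900000011 5 5) 0 0 (step_sound _ 36 [(rh55afc6a59410cf00.shift 3 0), rh9fffeeac53327eff] (by decide +kernel))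
noncomputable def rhbf4d29647f58797d : CRef := CRef.mk (Pat.mk 0xc000000180000000c0000000800000000 0x130000001f0000001c0000000c0000000c00000004 5 5) 0 0 (step_sound _ 34 [(rh8aaf6f94dabeb3c9.shift 0 1), (rh932754581e0f4330.shift 2 0)] (by decide +kernel))
noncomputable def rhb6f2e3f7b174d9e9 : CRef := CRef.mk (Pat.mk 0x70000000200000004000000040 0x8e000000fe000000ff0000004000000040 5 8) 0 0 (step_sound _ 99 [(rh1659cb662a8a4b7d.shift 2 0), (rh775ca1963e850b80.shift 1 2), (rha03f6e28ea70fc7d.shift 2 2), (rha0ae8adeb1dbcf8d.shift 0 2)] (by decide +kernel))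
noncomputable def rh11ed841b8aae55dc : CRef := CRef.mk (Pat.mk 0x8000000180000001e0000000000000000 0x60000000f0000001b0000001e0000000700000004 5 5) 0 0 (step_sound _ 33 [rhe103f3b245eccdf2, (rheb0810cc63b001d8.shift 0 1)] (by decide +kernel))
noncomputable def rhe9b01306f46aa92a : CRef := CRef.mk (Pat.mk 0x1e00000004000000000000000000000000 0x2000000030000001e00000007000000060000000400000004 5 5) 0 0 (step_sound _ 97 [rh28879c8a0fd1da92, (rheb0810cc63b001d8.shift 0 3)] (by decide +kernel))
noncomputable def rh6e228c0cf7dffd66 : CRef := CRef.mk (Pat.mk 0x80000001800000018000000100000000000000000 0x100000001800000018000000380000001f0000000c0000000c 5 6) 0 0 (step_sound _ 67 [(rh46530d756bdf8511.shift 2 0), (rh503dd4575245365b.shift 3 1), (rhbbe3ea43537fadcb.shift 0 1), (rhea7a1800d6f053bd.shift 3 0)] (by decide +kernel))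
noncomputable def rh22d3ee7a85991641 : CRef := CRef.mk (Pat.mk 0x12800000030 0x1ff0000007c 5 9) 0 0 (step_sound _ 38 [(rh361cc68994bd8a63.shift 4 0), rhf5c1ef464aae2412] (by decide +kernel))
noncomputable def rhfc68f6ba95bed7ca : CRef := CRef.mk (Pat.mk 0x1e0000001a000000000000000000000000 0x2000000070000001e0000001e000000070000000600000002 5 5) 0 0 (step_sound _ 161 [(rh3244c3cc8379b070.shift 0 4), rha7b4cd11312f72e7] (by decide +kernel))
noncomputable def rh208da5df98f813fb : CRef := CRef.mk (Pat.mk 0x34000000180000000000000000 0x4000000040000000e0000003f000000380000000800000008 5 6) 0 0 (step_sound _ 99 [(rhad5d8fc3675c15dd.shift 0 2), (rhd5889c99d29bf7d6.shift 1 0)] (by decide +kernel))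
noncomputable def rhc07527035a259674 : CRef := CRef.mk (Pat.mk 0x18000000100000001800000018 0x240000007f0000003f0000001800000018 5 7) 0 0 (step_sound _ 101 [(rh2f68792b6b779e96.shift 4 0), rh50c0383edfc08921] (by decide +kernel))
noncomputable def rh41cad92fb773e697 : CRef := CRef.mk (Pat.mk 0x3800000080000000180000001800000000 0x78000000cc000000380000001f00000004 5 8) 0 0 (step_sound _ 134 [(rh96851dee118c1ba3.shift 3 3), rhba00811e2116ed6c] (by decide +kernel))
noncomputable def rh54f9d0577c5559f1 : CRef := CRef.mk (Pat.mk 0x18000000180000001c0000000c00000000 0x40000003c0000001f0000001c0000000f00000002 5 6) 0 0 (step_sound _ 130 [(rh50fbb5868c909700.shift 2 1), rhd03be1cfdd2e96a0] (by decide +kernel))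
noncomputable def rhf62485a8243ef8a5 : CRef := CRef.mk (Pat.mk 0x80000001c0000000e0000000000000000 0x6000000060000000f0000001c0000000e0000000600000004 5 5) 0 0 (step_sound _ 34 [(rh236fbfb40f14a851.shift 0 1), (rh71222050f2c63a3a.shift 2 0)] (by decide +kernel))
noncomputable def rh7ec82f386c656a01 : CRef := CRef.mk (Pat.mk 0x1000000038000000180000000000000000 0x4000000040000003e0000003f000000180000000800000008 5 6) 0 0 (step_sound _ 98 [(rh34517e326ddb5b25.shift 0 2), (rhd5889c99d29bf7d6.shift 1 0)] (by decide +kernel))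
noncomputable def rh6f213118fac78571 : CRef := CRef.mk (Pat.mk 0x1e0000001a000000000000000000000000 0x2000000020000000b0000001e0000001e000000340000001000000010 5 6) 0 0 (step_sound _ 161 [(rh30c6e80cdfda4ed2.shift 1 0), (rh3244c3cc8379b070.shift 0 4)] (by decide +kernel))
noncomputable def rh72be6bcc04568e70 : CRef := CRef.mk (Pat.mk 0x8000000090000000f0000000d000000000000000000000000 0x11000000190000000d0000000f0000000f0000001a0000000800000008 5 5) 0 0 (step_sound _ 196 [(rh2f68792b6b779e96.shift 3 3), rh30c6e80cdfda4ed2] (by decide +kernel))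
noncomputable def rh88aad7333dd59a4c : CRef := CRef.mk (Pat.mk 0x80000000c000000180000000c00000000 0x40000000c0000000c0000001c0000001f00000013 5 5) 0 0 (step_sound _ 130 [(rh50fbb5868c909700.shift 2 1), rhc93ed808f6c269a4] (by decide +kernel))
noncomputable def rh0ce73f754f1e4b4e : CRef := CRef.mk (Pat.mk 0x4000000040000000200000007000000000 0x4000000040000000ff000000fe0000008e 5 8) 0 0 (step_sound _ 35 [(rh3e0b38310ac09007.shift 0 1), (rh592c7139d2c44767.shift 1 0), (rhb6dd664740077d60.shift 2 0), (rhec46bd5500c722c9.shift 2 1)] (by decide +kernel))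
noncomputable def rh3769e31627773032 : CRef := CRef.mk (Pat.mk 0x1e000000180000000800000000 0x4000000070000001e0000001b0000000f00000006 5 5) 0 0 (step_sound _ 129 [rh1ff38a4f94cedc54, (rh3244c3cc8379b070.shift 0 3)] (by decide +kernel))
noncomputable def rhb8dadbda1e6900cb : CRef := CRef.mk (Pat.mk 0x40000001e0000000000000000 0x40000000400000006000000070000001e0000000300000002 5 5) 0 0 (step_sound _ 97 [(rh3244c3cc8379b070.shift 0 2), rh37ea0e2bbdf51851] (by decide +kernel))
noncomputable def rhff79817f8acb9dbc : CRef := CRef.mk (Pat.mk 0x1000000018000000180000000800000000 0xc0000000c0000001f00000038000000180000001800000010 5 6) 0 0 (step_sound _ 131 [rh2559ab5a9948594c, (rh3cb04db3dd2b6a55.shift 3 0), (rh3e595262c1b737ad.shift 3 1), (rh7b9fbdf6d2d059e4.shift 2 1)] (by decide +kernel))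
noncomputable def rh4e81d3b3f50c5256 : CRef := CRef.mk (Pat.mk 0x3000000128 0x7c000001ff 5 9) 0 0 (step_sound _ 6 [(rh2fe78cc5ca4405d8.shift 4 0), rhb658cb508a14169b] (by decide +kernel))
noncomputable def rh11791c5106f385d4 : CRef := CRef.mk (Pat.mk 0x1a0000001e0000000000000000 0x200000006000000070000001e0000001e0000000700000002 5 5) 0 0 (step_sound _ 33 [rh8776aeea89141b68, (rheb0810cc63b001d8.shift 0 1)] (by decide +kernel))
noncomputable def rh04ec0e3e879a82c9 : CRef := CRef.mk (Pat.mk 0x1800000034000000000000000000000000 0x800000008000000380000003f0000000e0000000400000004 5 6) 0 0 (step_sound _ 99 [(rhab2ad169e49f9c5e.shift 0 3), (rhcfde16a7ff36af03.shift 1 0)] (by decide +kernel))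
noncomputable def rh00b128e5327f842d : CRef := CRef.mk (Pat.mk 0x1800000018000000100000001800000000 0x18000000180000003f0000007f00000024 5 7) 0 0 (step_sound _ 37 [(rh55afc6a59410cf00.shift 4 0), rhd6b9bed501d4d192] (by decide +kernel))
noncomputable def rh2996c918ab290eba : CRef := CRef.mk (Pat.mk 0x18000000180000008000000038 0x40000001f00000038000000cc00000078 5 8) 0 0 (step_sound _ 6 [rh0823dec8a6dbdb01, (rh428265de8cd3cd2d.shift 3 0)] (by decide +kernel))
noncomputable def rha1986d8efd0220d4 : CRef := CRef.mk (Pat.mk 0xc0000001c000000180000001800000000 0x20000000f0000001c0000001f0000003c00000004 5 6) 0 0 (step_sound _ 34 [(rh932754581e0f4330.shift 2 0), (rhd8bc781b795b752f.shift 0 1)] (by decide +kernel))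
noncomputable def rha10c01fc3b19786f : CRef := CRef.mk (Pat.mk 0xe0000001c000000080000000000000000 0x4000000060000000e0000001c0000000f0000000600000006 5 5) 0 0 (step_sound _ 162 [(rh2145e1d24b96a57e.shift 2 2), rh5c6621e072cc1b67] (by decide +kernel))
noncomputable def rh6825a1a3bcc807a9 : CRef := CRef.mk (Pat.mk 0x1800000038000000100000000000000000 0x800000008000000180000003f0000003e0000000400000004 5 6) 0 0 (step_sound _ 98 [(rhcfde16a7ff36af03.shift 1 0), (rhf56e6bc5d2f7fe77.shift 0 2)] (by decide +kernel))
noncomputable def rh29c980e47971e951 : CRef := CRef.mk (Pat.mk 0x1800000010000000180000001800000000 0x40000001f00000038000000380000001f00000004 5 6) 0 0 (step_sound _ 34 [rh4da3e6be34f94b62, (rhab2ad169e49f9c5e.shift 0 1)] (by decide +kernel))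
noncomputable def rh9c44363eb86cbb4e : CRef := CRef.mk (Pat.mk 0x900000001a00000038000000000000000000000000 0xf00000003b0000003f000000600000002000000020 5 8) 0 0 (step_sound _ 165 [(rh361cc68994bd8a63.shift 3 4), rh93e3746ea7a92ddc] (by decide +kernel))
noncomputable def rh774f423c1ba487ce : CRef := CRef.mk (Pat.mk 0x8000000180000000c0000000c 0x170000001f0000001c0000000c0000000c 5 5) 0 0 (step_sound _ 98 [(rh50fbb5868c909700.shift 2 0), rh8aaf6f94dabeb3c9] (by decide +kernel))
noncomputable def rh63239ceb15919636 : CRef := CRef.mk (Pat.mk 0x26000000060000000600000002 0x800000008000000190000003f0000000e0000000600000002 5 6) 0 0 (step_sound _ 99 [(rh361cc68994bd8a63.shift 1 2), rhe7e9fb0f2608dd2e] (by decide +kernel))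
noncomputable def rhe48d7094086cc06c : CRef := CRef.mk (Pat.mk 0x1800000038000000000000000000000000 0x1000000010000000380000003f000000670000002000000020 5 7) 0 0 (step_sound _ 98 [(rh85069a6d037617f9.shift 2 0), (rhab2ad169e49f9c5e.shift 0 3), (rhcc2be1f880c5ea3e.shift 0 2)] (by decide +kernel))
noncomputable def rhdaa5115eb3bc72b1 : CRef := CRef.mk (Pat.mk 0xc0000000e000000480000000c00000000 0xc0000000e0000006f0000003e00000012 5 7) 0 0 (step_sound _ 36 [rh4e7c1350891c9e1b, (rh55afc6a59410cf00.shift 3 0)] (by decide +kernel))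
noncomputable def rh3d03da2ecc0e0d56 : CRef := CRef.mk (Pat.mk 0x200000003000000060000000200000000000000000000000000000000 0x200000007000000070000000700000003000000030000000300000001 5 3) 0 0 (step_sound _ 97 [(rh7928877f9bf74a91.shift 0 2), (rh91a545eb3be094e3.shift 0 1), (rhc705a4e0321a1bff.shift 0 2), rhde32e0b5ff3be9cc] (by decide +kernel))
noncomputable def rh8f9f937ac6e23a17 : CRef := CRef.mk (Pat.mk 0xe0000000100000003000000000000000000000000 0x40000001e0000000300000003000000060000000600000006 5 5) 0 0 (step_sound _ 129 [(rh18965a982d73c794.shift 0 4), rh3470fcd67ff81181] (by decide +kernel))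
noncomputable def rhd4222e50469a44ed : CRef := CRef.mk (Pat.mk 0x1800000018000000100000001800000000 0x40000001f00000038000000380000001f00000004 5 6) 0 0 (step_sound _ 130 [(rhad5d8fc3675c15dd.shift 0 3), rhff9c0a7688d5638d] (by decide +kernel))
noncomputable def rhf5e5e3a405349eae : CRef := CRef.mk (Pat.mk 0x380000001a00000090 0x2000000020000000600000003f0000003b000000f0 5 8) 0 0 (step_sound _ 5 [(rh2fe78cc5ca4405d8.shift 3 0), rh5987d466e82b46b5] (by decide +kernel))
noncomputable def rhaa67d8b4f8d9d1da : CRef := CRef.mk (Pat.mk 0xc0000000c000000180000000800000000 0xc0000000c0000001c0000001f00000017 5 5) 0 0 (step_sound _ 34 [(rh932754581e0f4330.shift 2 0), rhc93ed808f6c269a4] (by decide +kernel))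
noncomputable def rh59c73cf74f4586a4 : CRef := CRef.mk (Pat.mk 0x2000000060000000600000026000000000000000000000000 0x2000000060000000e0000003f000000190000000800000008 5 6) 0 0 (step_sound _ 99 [(rh2fe78cc5ca4405d8.shift 1 3), rhcf0be5240bb46a0d] (by decide +kernel))
noncomputable def rh4436203d7d59d0ac : CRef := CRef.mk (Pat.mk 0x38000000180000000000000000 0x2000000020000000670000003f000000380000001000000010 5 7) 0 0 (step_sound _ 98 [(rhad5d8fc3675c15dd.shift 0 2), (rhba89ab7cb81bcc90.shift 0 2), (rhe5ad44e27e846693.shift 2 0)] (by decide +kernel))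
noncomputable def rh709bd562b634883d : CRef := CRef.mk (Pat.mk 0xc000000480000000e0000000c 0x120000003e0000006f0000000e0000000c 5 7) 0 0 (step_sound _ 100 [(rh2f68792b6b779e96.shift 3 0), rhf560d5018c3a7833] (by decide +kernel))
noncomputable def rh0bc01cf9be945ea6 : CRef := CRef.mk (Pat.mk 0x2000000060000000300000002 0x100000003000000030000000300000007000000070000000700000002 5 3) 0 0 (step_sound _ 129 [rh3ca48e2a6d60153d, (rh3da62da861143b9a.shift 0 1), (rh518d6f6eeebddcb2.shift 0 1), (rhdf9f2056a37121a5.shift 0 1)] (by decide +kernel))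
noncomputable def rhc172be51b136f13d : CRef := CRef.mk (Pat.mk 0x1800000018000000300000001800000000 0x40000001f00000038000000380000001e00000004 5 6) 0 0 (step_sound _ 34 [(rh53b3c253cb0c65f4.shift 1 1), rh98c4fd04b3f5448e] (by decide +kernel))
noncomputable def rh71880b0bbb2c1814 : CRef := CRef.mk (Pat.mk 0x30000000c0000001c000000000000000800000000 0x30000001e0000001f000000300000001800000018 5 6) 0 0 (step_sound _ 132 [(rh09d4dfe75d4407d6.shift 0 4), rh640f7d27b4b363ce] (by decide +kernel))
noncomputable def rh4887a71e4858694e : CRef := CRef.mk (Pat.mk 0xc0000001c000000120000001200000000 0x100000001c0000001c0000001e0000003f0000002c 5 6) 0 0 (step_sound _ 67 [(rh6b58076deebb465a.shift 1 0), (rhbf14f049e425ac01.shift 0 1), rhd6a58b3dfd819371] (by decide +kernel))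
noncomputable def rhb93224236df94bf8 : CRef := CRef.mk (Pat.mk 0x1800000038000000000000000000000000 0x8000000080000003c0000003f000000070000000400000004 5 6) 0 0 (step_sound _ 98 [(rh50e736ca27d8bdbd.shift 1 0), (rhab2ad169e49f9c5e.shift 0 3), (rhcc2be1f880c5ea3e.shift 0 2)] (by decide +kernel))
noncomputable def rh09c3cee1e3581333 : CRef := CRef.mk (Pat.mk 0x40000000c0000001c000000000000000000000000 0x40000000c0000001c0000000f0000000e0000000e 5 5) 0 0 (step_sound _ 66 [(rh2c57b4404ea586d3.shift 0 1), (rh4053c12da95c0aa0.shift 2 0), (rh46530d756bdf8511.shift 1 0), (rh8cdd36b03d57a2f6.shift 1 0)] (by decide +kernel))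
noncomputable def rhbd890518e657c1db : CRef := CRef.mk (Pat.mk 0x3800000000 0xf0000007e000000ef 5 8) 0 0 (step_sound _ 34 [(rh3947d1dfff0afc6c.shift 1 0), (rh42d32bf970c9c157.shift 1 0), rh592c7139d2c44767] (by decide +kernel))
noncomputable def rh3e79539001ea6c8f : CRef := CRef.mk (Pat.mk 0x20000000e000000120000000800000000 0x4000000040000000e0000000e0000001a0000000f0000000e 5 5) 0 0 (step_sound _ 130 [rh81e2bec735c1c310, (rh95a80f84f48ac358.shift 2 0), (rhea7a1800d6f053bd.shift 1 0)] (by decide +kernel))
noncomputable def rhb669767e3551d260 : CRef := CRef.mk (Pat.mk 0x20000001e000000180000000800000000 0x4000000040000000e0000001e0000001b0000000f00000006 5 5) 0 0 (step_sound _ 65 [rh30106afc83a92050, (rheb0810cc63b001d8.shift 0 2)] (by decide +kernel))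
noncomputable def rh1077f1a13a8edc72 : CRef := CRef.mk (Pat.mk 0x10000000120000001e000000100000000000000000 0x20000000340000001e0000001e000000130000000200000002 5 6) 0 0 (step_sound _ 65 [(rha143ffc671f01c76.shift 1 0), (rheb0810cc63b001d8.shift 0 2)] (by decide +kernel))
noncomputable def rh02d5e373d09155a6 : CRef := CRef.mk (Pat.mk 0x4000000120000001200000012 0x1d0000001f0000001a0000001200000012 5 5) 0 0 (step_sound _ 97 [(rh2f68792b6b779e96.shift 1 0), rh4679a35a2a652574] (by decide +kernel))
noncomputable def rh0acabac089cc1c4a : CRef := CRef.mk (Pat.mk 0x90000000b000000090000000c0000000000000000 0x20000000b0000000b000000090000001f0000001900000010 5 5) 0 0 (step_sound _ 36 [rh0b550571d3414394, (rhd3458b32566d63f7.shift 3 1)] (by decide +kernel))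
noncomputable def rh57d33fa649f849f2 : CRef := CRef.mk (Pat.mk 0x6000000120000001a00000002 0x390000001f0000001a0000001a0000000a 5 6) 0 0 (step_sound _ 96 [rh298087a7ec517908, rh50fbb5868c909700] (by decide +kernel))
noncomputable def rhd0d7463848f3c801 : CRef := CRef.mk (Pat.mk 0x100000006000000020000001a000000100000000000000000 0x10000000b0000001e0000000a0000001a000000180000001000000010 5 5) 0 0 (step_sound _ 193 [(rh50fbb5868c909700.shift 0 3), rh8f0a9efa03bf9f6c] (by decide +kernel))
noncomputable def rhc0ec0a10a6479237 : CRef := CRef.mk (Pat.mk 0x200000003000000020000000000000000 0x10000000700000007000000070000000300000003000000030000000300000003 5 3) 0 0 (step_sound _ 161 [(rh03dfdf12d5937476.shift 0 1), (rh1741680720c097b4.shift 0 2), (rh976a48eb1c80a12f.shift 0 2), rhd1fa8140a3eb151f] (by decide +kernel))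
noncomputable def rh9a61103240c46d89 : CRef := CRef.mk (Pat.mk 0x3800000000 0xef0000007e0000000f 5 8) 0 0 (step_sound _ 34 [(rh27ce058b59d72f64.shift 1 0), (rh56a24c72f1c55520.shift 1 1), rh775ca1963e850b80] (by decide +kernel))
noncomputable def rh758b55b34ff82bc0 : CRef := CRef.mk (Pat.mk 0x8000000120000000e000000020000000000000000 0xe0000000f0000001a0000000e0000000e0000000400000004 5 5) 0 0 (step_sound _ 66 [(rh02ef15e22aa7db92.shift 2 0), (rh3e595262c1b737ad.shift 1 1), (rhbb01d504274db35a.shift 0 2)] (by decide +kernel))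
noncomputable def rh5888b0eb65bead35 : CRef := CRef.mk (Pat.mk 0x8000000180000001e000000020000000000000000 0x60000000f0000001b0000001e0000000e0000000400000004 5 5) 0 0 (step_sound _ 129 [(rh3244c3cc8379b070.shift 0 3), rh33ac12255c7271d0] (by decide +kernel))
noncomputable def rh931d41a338b3027c : CRef := CRef.mk (Pat.mk 0x100000001e000000120000001000000000 0x200000002000000130000001e0000001e0000003400000020 5 6) 0 0 (step_sound _ 129 [(rh3244c3cc8379b070.shift 0 3), (rhaec89d66b3a9b96c.shift 1 0)] (by decide +kernel))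
noncomputable def rh74af583fb9ace204 : CRef := CRef.mk (Pat.mk 0x1200000012000000120000000400000000 0x12000000120000001a0000001f0000001d 5 5) 0 0 (step_sound _ 33 [(rh55afc6a59410cf00.shift 1 0), rhabff1a05b293764f] (by decide +kernel))
noncomputable def rh8d5812547e561489 : CRef := CRef.mk (Pat.mk 0xc000000090000000b0000000900000000 0x10000000190000001f000000090000000b0000000b00000002 5 5) 0 0 (step_sound _ 164 [(rhbaefcd01e0a8bca3.shift 3 1), rhc6ce3acda2655488] (by decide +kernel))
noncomputable def rh319c8019a5c49c0c : CRef := CRef.mk (Pat.mk 0x20000001a000000120000000600000000 0xa0000001a0000001a0000001f00000039 5 6) 0 0 (step_sound _ 32 [rh8ee8460c7dea5243, rh932754581e0f4330] (by decide +kernel))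
noncomputable def rh1f763070d77a940a : CRef := CRef.mk (Pat.mk 0x100000001a00000002000000060000000100000000 0x1000000010000000180000001a0000000a0000001e0000000b00000001 5 5) 0 0 (step_sound _ 33 [rh932754581e0f4330, (rhbaebd98167d6138a.shift 0 1)] (by decide +kernel))
noncomputable def rhbf955a2da84e0c42 : CRef := CRef.mk (Pat.mk 0x2000000030000000200000000000000000000000000000000 0x30000000300000003000000030000000300000007000000070000000700000001 5 3) 0 0 (step_sound _ 97 [rh01483ff9cba2f6ac, (rh6eff4158bb400f47.shift 0 1), (rh79bf920132cab629.shift 0 3), (rhe286c75f2739cce2.shift 0 2)] (by decide +kernel))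
noncomputable def rhd51074e9d61c62cf : CRef := CRef.mk (Pat.mk 0x3000000018000000380000000800000000 0xc0000000f0000003c000000180000003c0000000f00000004 5 6) 0 0 (step_sound _ 131 [rh3291de2d96fb8d58, (rh7b9fbdf6d2d059e4.shift 2 1), (rh925a1628dd8a50da.shift 2 0), (rhdfed4ebb0eb54f43.shift 0 2)] (by decide +kernel))
noncomputable def rhabdbb7b1b8dee9d0 : CRef := CRef.mk (Pat.mk 0x4000000240000000400000004 0xa0000001f0000007c0000000400000004 5 7) 0 0 (step_sound _ 97 [(rh50fbb5868c909700.shift 1 0), rh8babcc3eadc4ff45] (by decide +kernel))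
noncomputable def rhf03d4961c2903eaa : CRef := CRef.mk (Pat.mk 0x40000000f000000060000000400000000 0x80000000c0000000f0000001e0000003c00000018 5 6) 0 0 (step_sound _ 67 [(rha4e29d00f9cbded5.shift 1 0), (rhf48373e13d2bc128.shift 0 2)] (by decide +kernel))
noncomputable def rh1e835f861cabf4f4 : CRef := CRef.mk (Pat.mk 0x4c0000000c000000440000000c00000000 0x100000007c0000000c0000007c0000000f00000002 5 7) 0 0 (step_sound _ 33 [(rh8e7d7a38ae31ce04.shift 0 1), (rh932754581e0f4330.shift 1 0)] (by decide +kernel))
noncomputable def rh2f6b95e004f68a41 : CRef := CRef.mk (Pat.mk 0x20000000600000002000000020000000000000000 0x200000002000000020000000600000006000000070000000300000003 5 3) 0 0 (step_sound _ 32 [rh0aa20f94c2053ddd, (rh79877ebd3ef475dd.shift 0 1)] (by decide +kernel))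
noncomputable def rh65bbdb8058fbf355 : CRef := CRef.mk (Pat.mk 0x8000000180000000800000000 0x140000001c0000001c00000008000000380000001f00000014 5 6) 0 0 (step_sound _ 131 [rh2c5a6414b11f54f4, (rhc85cc95794737cf7.shift 2 1), rhd11e991ec7b8bb18] (by decide +kernel))
noncomputable def rh0694f8284f216183 : CRef := CRef.mk (Pat.mk 0x30000000180000000800000018 0x2c0000003f000000380000001800000018 5 6) 0 0 (step_sound _ 36 [(rh2f68792b6b779e96.shift 4 0), rh60310a71edd4a6ab] (by decide +kernel))
noncomputable def rh9834449445821d84 : CRef := CRef.mk (Pat.mk 0x2000000004000000080000000a0000000800000000 0x10000000780000000c000000080000001f0000007c00000010 5 7) 0 0 (step_sound _ 36 [(rh174a767562f03570.shift 0 1), (rh821743bf98774625.shift 2 0)] (by decide +kernel))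
noncomputable def rh924fb014e1a1c7d0 : CRef := CRef.mk (Pat.mk 0x30000000200000003000000080000000000000000 0x300000003000000030000001f0000000700000005 5 5) 0 0 (step_sound _ 65 [(rh6a56790be92093bf.shift 0 1), rh6eff4158bb400f47, rha613ffd40b6c9d24, rhe4441baab75a6f73] (by decide +kernel))
noncomputable def rh8548980f61e57ddc : CRef := CRef.mk (Pat.mk 0x8000000180000000c000000000000000000000000 0x1000000018000000180000001f000000780000001800000010 5 7) 0 0 (step_sound _ 97 [(rh23a7189115558792.shift 1 0), (rh53b3c253cb0c65f4.shift 0 3)] (by decide +kernel))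
noncomputable def rh36b6fdd991e5b57a : CRef := CRef.mk (Pat.mk 0x100000000200000006000000070000000400000000 0xc0000003c00000006000000060000000f0000003c00000008 5 6) 0 0 (step_sound _ 35 [(rh4a0b10776449c3e9.shift 0 1), (rh8d358dde56f9cfc6.shift 1 0)] (by decide +kernel))
noncomputable def rh10fdb3bfa6ad1047 : CRef := CRef.mk (Pat.mk 0x8000000180000000e0000000000000000 0x80000001f0000003e0000003700000010 5 6) 0 0 (step_sound _ 68 [(rh78974448101547fe.shift 1 0), (rhd52e3929053d9d5f.shift 0 1)] (by decide +kernel))
noncomputable def rhcfe6aac14436f88b : CRef := CRef.mk (Pat.mk 0xc000000080000000c000000000000000000000000 0xc0000000c0000000f0000003c0000001c00000014 5 6) 0 0 (step_sound _ 67 [(rh0b0198cd56a23f60.shift 0 1), (rh8cdd36b03d57a2f6.shift 2 0), (rha613ffd40b6c9d24.shift 2 0), (rhe4441baab75a6f73.shift 2 0)] (by decide +kernel))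
noncomputable def rh0c1c9fcda34d35cd : CRef := CRef.mk (Pat.mk 0x400000000c000000180000000c000000000000000000000000 0x10000000780000001c0000001c0000000f000000180000001800000010 5 7) 0 0 (step_sound _ 97 [(rh53b3c253cb0c65f4.shift 0 3), (rh832cf0f1aa8f67ef.shift 2 0)] (by decide +kernel))
noncomputable def rh1637493862bfe25b : CRef := CRef.mk (Pat.mk 0x2000000120000000300000000 0x40000000600000006000000020000001e0000000700000001 5 5) 0 0 (step_sound _ 66 [(rh361cc68994bd8a63.shift 0 1), rh57a06b43e72703e1] (by decide +kernel))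
noncomputable def rh7b980c7c0840b6b8 : CRef := CRef.mk (Pat.mk 0x2000000120000000300000002 0x600000006000000060000001f0000000700000002 5 5) 0 0 (step_sound _ 66 [(rh361cc68994bd8a63.shift 0 1), rh586b343be2471f50] (by decide +kernel))
noncomputable def rha03aae38ff55f8d6 : CRef := CRef.mk (Pat.mk 0x2000000120000000300000002 0x300000003000000030000001f0000000700000002 5 5) 0 0 (step_sound _ 128 [(rh496f5570bd96474b.shift 0 1), rhffd04209dc8ea796] (by decide +kernel))
noncomputable def rh626f0c57fbc458b6 : CRef := CRef.mk (Pat.mk 0x400000000c000000180000000c0000000000000000 0x18000000780000000c000000180000001f0000003000000010 5 7) 0 0 (step_sound _ 65 [(rh167758b835438f03.shift 1 0), (rh53b3c253cb0c65f4.shift 0 2)] (by decide +kernel))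
noncomputable def rha5a8ebbc55518652 : CRef := CRef.mk (Pat.mk 0x80000000000000018000000300000000800000000 0xc0000000c0000000c000000380000003f0000000f00000004 5 6) 0 0 (step_sound _ 131 [(rh2145e1d24b96a57e.shift 3 2), rh58b20c5512b3c07e] (by decide +kernel))
noncomputable def rh941438cd61fd788b : CRef := CRef.mk (Pat.mk 0x800000018000000180000001800000000 0x8000000380000001f0000003f00000004 5 6) 0 0 (step_sound _ 34 [(rh932754581e0f4330.shift 2 0), (rhaaa31fc581a8d47e.shift 0 1)] (by decide +kernel))
noncomputable def rh9ba9957bbfe0717f : CRef := CRef.mk (Pat.mk 0x12000000030000000600000000 0x400000006000000060000001e000000070000000600000004 5 5) 0 0 (step_sound _ 129 [(rh55afc6a59410cf00.shift 1 0), (rh6d8eb858c51c3f4f.shift 0 1)] (by decide +kernel))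
noncomputable def rhb6e11cfc959c8a3c : CRef := CRef.mk (Pat.mk 0x400000004000000040000000800000000 0x40000000400000004000000070000003e0000000a 5 6) 0 0 (step_sound _ 34 [(rh55afc6a59410cf00.shift 2 0), rhc6caea4112c2545d] (by decide +kernel))
noncomputable def rh85b25c6bf3d8761a : CRef := CRef.mk (Pat.mk 0x100000001000000038000000000000000000000000 0x10000000370000003e000000670000002000000020 5 7) 0 0 (step_sound _ 98 [(rh775ca1963e850b80.shift 0 2), (rhd132b680030c88e0.shift 2 0)] (by decide +kernel))
noncomputable def rhf6e91876d8890934 : CRef := CRef.mk (Pat.mk 0x30000001200000002000000000000000000000000 0x1000000070000001e00000002000000060000000600000004 5 5) 0 0 (step_sound _ 130 [(rh2fe78cc5ca4405d8.shift 0 4), rh39b036797fb07457] (by decide +kernel))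
noncomputable def rhf054c5595ccdec97 : CRef := CRef.mk (Pat.mk 0x2000000004000000080000000f00000000 0x100000007c0000000c000000080000000f0000001c 5 7) 0 0 (step_sound _ 3 [(rh3c0e29dc5062068f.shift 2 0), rhe25b0a99195a5d59] (by decide +kernel))
noncomputable def rh6f15502fd9441cc3 : CRef := CRef.mk (Pat.mk 0xc0000001e0000000400000000 0x600000006000000060000000c0000001e0000000700000002 5 5) 0 0 (step_sound _ 33 [(rh623a731171d66e50.shift 1 0), (rheb0810cc63b001d8.shift 0 1)] (by decide +kernel))
noncomputable def rhd78ef5af479876fa : CRef := CRef.mk (Pat.mk 0x8000000180000008c0000000800000000 0x800000038000000ff0000000e00000004 5 8) 0 0 (step_sound _ 34 [(rh932754581e0f4330.shift 2 0), (rhf3d47a2f85ecef05.shift 0 1)] (by decide +kernel))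
noncomputable def rh2f5450d4aa1a981a : CRef := CRef.mk (Pat.mk 0x80000001e000000040000000200000000 0x80000001e0000003f0000003300000010 5 6) 0 0 (step_sound _ 68 [rhbcc4fe5ed04bfb24, (rhe25b0a99195a5d59.shift 1 2)] (by decide +kernel))
noncomputable def rh09d7fc707019ddec : CRef := CRef.mk (Pat.mk 0x1000000000000000000000001e00000000 0x1000000010000000370000003e00000060 5 7) 0 0 (step_sound _ 68 [(rh33e738c4ed385b9f.shift 1 1), rhaad951dfb9c73db4] (by decide +kernel))
noncomputable def rh26ae4e741e976c04 : CRef := CRef.mk (Pat.mk 0x8000000180000000800000008 0x140000001c0000001c0000000c000000380000001f0000000c 5 6) 0 0 (step_sound _ 131 [(rh3ca48e2a6d60153d.shift 2 0), (rhc85cc95794737cf7.shift 2 1), rhd11e991ec7b8bb18] (by decide +kernel))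
noncomputable def rh811599e0338b4db9 : CRef := CRef.mk (Pat.mk 0x1800000038000000080000001800000000 0x380000003f0000006e0000007800000020 5 7) 0 0 (step_sound _ 98 [(rhab2ad169e49f9c5e.shift 0 3), (rhd11fbfd75114ae00.shift 1 0)] (by decide +kernel))
noncomputable def rh805914b67d25f947 : CRef := CRef.mk (Pat.mk 0x800000018000000080000000800000000 0x140000001f00000038000000080000001800000010 5 6) 0 0 (step_sound _ 36 [(rh55afc6a59410cf00.shift 3 0), (rh5aa5e9dc84124dd6.shift 0 1)] (by decide +kernel))
noncomputable def rh01d49d2eea03de7d : CRef := CRef.mk (Pat.mk 0x1e000000000000000000000000 0x200000002000000070000003e000000060000000400000004 5 6) 0 0 (step_sound _ 129 [(rh3244c3cc8379b070.shift 0 3), (rhe8c19771975f4a9d.shift 1 0)] (by decide +kernel))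
noncomputable def rh05fadc0638981c34 : CRef := CRef.mk (Pat.mk 0x1e000000000000000000000000 0x400000004000000060000003e000000070000000200000002 5 6) 0 0 (step_sound _ 65 [(rh499a8f5b4f2e3126.shift 1 0), (rheb0810cc63b001d8.shift 0 2)] (by decide +kernel))
noncomputable def rha4dd4a1058feb62e : CRef := CRef.mk (Pat.mk 0xc0000001c000000080000000800000000 0x130000001f0000001c0000000c0000000c00000004 5 5) 0 0 (step_sound _ 132 [(rh2f68792b6b779e96.shift 3 1), rhcf217803b01e13b7] (by decide +kernel))
noncomputable def rh67a3ed1dbca4285b : CRef := CRef.mk (Pat.mk 0x200000006000000030000000300000000 0x40000000600000006000000070000001f0000001c 5 5) 0 0 (step_sound _ 34 [(rh55afc6a59410cf00.shift 1 0), rhc92a87466e403616] (by decide +kernel))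
noncomputable def rh4edad24428732978 : CRef := CRef.mk (Pat.mk 0x40000000c00000007000000000000000000000000 0x80000000c0000000c000000070000001e0000000e0000000a 5 5) 0 0 (step_sound _ 66 [(rh8cdd36b03d57a2f6.shift 1 0), (rh91a545eb3be094e3.shift 1 0), (rha707fb719e87fe6e.shift 2 1), (rhb379f99078aafa2d.shift 0 1)] (by decide +kernel))
noncomputable def rh6601aa2ad49f5c8a : CRef := CRef.mk (Pat.mk 0x7c00000000 0x700000007f0000003c 5 7) 0 0 (step_sound _ 69 [rh0a341794b13bba9d, (rh33e738c4ed385b9f.shift 2 1)] (by decide +kernel))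
noncomputable def rhb1df27f77dd26d05 : CRef := CRef.mk (Pat.mk 0x180000001c000000080000000800000000 0x70000001e0000003c0000000c0000000c00000004 5 6) 0 0 (step_sound _ 130 [rh0511ae9ffd0e9541, (rh50fbb5868c909700.shift 2 1)] (by decide +kernel))
noncomputable def rh33e591d1663cc4bf : CRef := CRef.mk (Pat.mk 0x18000000180000000c0000000800000000 0x70000001f0000001c0000000c0000000c00000004 5 5) 0 0 (step_sound _ 34 [(rh932754581e0f4330.shift 2 0), (rhf3f3bfc6f0b9eef2.shift 0 1)] (by decide +kernel))
noncomputable def rh2af7ee4a33cab254 : CRef := CRef.mk (Pat.mk 0x8000000080000001c0000000c00000000 0x40000000c0000000c0000001c0000001f00000013 5 5) 0 0 (step_sound _ 36 [rh00b85d5220e7ab18, (rh55afc6a59410cf00.shift 3 0)] (by decide +kernel))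
noncomputable def rh16f8da415b48e1e4 : CRef := CRef.mk (Pat.mk 0x300000003000000060000000200000000 0x1c0000001f00000007000000060000000600000004 5 5) 0 0 (step_sound _ 130 [(rh2f68792b6b779e96.shift 1 1), rh6d6bcec3cb40a78e] (by decide +kernel))
noncomputable def rh8e90cc8cb769eb3e : CRef := CRef.mk (Pat.mk 0x70000000c0000000400000000 0xa0000000e0000001e000000070000000c0000000c00000008 5 5) 0 0 (step_sound _ 130 [(rh3da62da861143b9a.shift 1 1), (rh4017de503635a93b.shift 0 1), (rhc85cc95794737cf7.shift 1 1), (rhd4b4beefcd67f51e.shift 2 0)] (by decide +kernel))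
noncomputable def rhc88dbad8567ff01b : CRef := CRef.mk (Pat.mk 0x3800000040 0x770000003e00000060 5 7) 0 0 (step_sound _ 34 [(rh4c622fddc53a5f99.shift 0 1), (rh96851dee118c1ba3.shift 2 0)] (by decide +kernel))
noncomputable def rhd161285105292100 : CRef := CRef.mk (Pat.mk 0x7c00000000 0x3c0000007f00000070 5 7) 0 0 (step_sound _ 5 [rha05938dd7e0a683e, (rhe25b0a99195a5d59.shift 2 0)] (by decide +kernel))
noncomputable def rhfd7f50bc4465ec35 : CRef := CRef.mk (Pat.mk 0x7800000000 0x70000007e0000007f 5 7) 0 0 (step_sound _ 34 [rh0d378fd9e8917c5a, rh185f35b8bd8ec37f, rh775ca1963e850b80, (rheae1728ff4a56756.shift 1 0)] (by decide +kernel))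
noncomputable def rh88212fff6465e7ff : CRef := CRef.mk (Pat.mk 0x8000000080000001c0000001800000000 0x40000000c0000000c0000003c0000001e00000007 5 6) 0 0 (step_sound _ 34 [(rh932754581e0f4330.shift 2 0), rhabbc4ac3dadd65e8] (by decide +kernel))
noncomputable def rhd204a504bad0f148 : CRef := CRef.mk (Pat.mk 0x80000000c000000180000001800000000 0x40000000c0000000c0000001c0000001f00000007 5 5) 0 0 (step_sound _ 130 [(rh50fbb5868c909700.shift 2 1), rhb1c06754cc0d7506] (by decide +kernel))
noncomputable def rhddb11ac9167652cc : CRef := CRef.mk (Pat.mk 0x10000000b000000080000000c0000001000000000 0x100000001000000030000000b0000000a0000000f0000001a00000010 5 5) 0 0 (step_sound _ 35 [(rh30bb319167ae3296.shift 0 1), (rh55afc6a59410cf00.shift 3 0)] (by decide +kernel))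
noncomputable def rh75451e2a9db82819 : CRef := CRef.mk (Pat.mk 0x8000000080000001e00000018000000000000000000000000 0x80000000c0000001e0000001f000000070000000200000002 5 5) 0 0 (step_sound _ 98 [rh8035cc4411da4afd, (rh932754581e0f4330.shift 2 2)] (by decide +kernel))
noncomputable def rh28e11d0ded1008f1 : CRef := CRef.mk (Pat.mk 0xa0000000300000003000000000000000000000000 0x40000001e0000000300000003000000030000000300000003 5 5) 0 0 (step_sound _ 32 [rh086d0ff3c7edae2c, (rh9e3edb185cc347de.shift 0 1)] (by decide +kernel))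
noncomputable def rh658da1315278d932 : CRef := CRef.mk (Pat.mk 0x1000000003000000060000000000000000 0x500000007000000070000001f00000007000000060000000600000002 5 5) 0 0 (step_sound _ 129 [(rh0fa4a62bba50784f.shift 0 1), rh51698cea9087386d, (rh566659606c8abe04.shift 0 1)] (by decide +kernel))
noncomputable def rha46ada95e0c402f9 : CRef := CRef.mk (Pat.mk 0x1800000034000000000000000000000000 0x8000000080000001f0000003f0000000f0000000400000004 5 6) 0 0 (step_sound _ 99 [(rhbe5fc5902345a0b9.shift 0 3), (rhcc2be1f880c5ea3e.shift 0 2), (rhcfde16a7ff36af03.shift 1 0)] (by decide +kernel))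
noncomputable def rha6fbe20a9136f9eb : CRef := CRef.mk (Pat.mk 0x80000000e0000001a000000000000000000000000 0xc0000001e0000001e000000370000001600000012 5 6) 0 0 (step_sound _ 98 [rh9a011a4d0ec8f646, (rhc1bdba7c8457e5a3.shift 1 0)] (by decide +kernel))
noncomputable def rhc8c655bae42dfb9f : CRef := CRef.mk (Pat.mk 0x1800000034000000000000000000000000 0x800000008000000380000003f0000000f0000000400000004 5 6) 0 0 (step_sound _ 99 [(rhab2ad169e49f9c5e.shift 0 3), (rhcc2be1f880c5ea3e.shift 0 2), (rhcfde16a7ff36af03.shift 1 0)] (by decide +kernel))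
noncomputable def rh4030708c62e2bd2f : CRef := CRef.mk (Pat.mk 0x1800000034000000000000000000000000 0x1000000010000000380000003f000000670000002000000020 5 7) 0 0 (step_sound _ 99 [(rh85069a6d037617f9.shift 2 0), (rhcc2be1f880c5ea3e.shift 0 2)] (by decide +kernel))
noncomputable def rha183e8f14f5410fd : CRef := CRef.mk (Pat.mk 0x1e00000012000000000000000000000000 0x80000003f0000001e000000300000001000000010 5 6) 0 0 (step_sound _ 98 [(rh18965a982d73c794.shift 1 3), rh99515cbbb29e1be5] (by decide +kernel))
noncomputable def rhcde9ba80e1f7840a : CRef := CRef.mk (Pat.mk 0x280000000c0000000c 0xc0000001f000000780000000c0000000c 5 7) 0 0 (step_sound _ 99 [(rh5c5e593799055d58.shift 2 0), rhd5d193521cc593a5] (by decide +kernel))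
noncomputable def rhc1ad2708dfcb0927 : CRef := CRef.mk (Pat.mk 0x40000000c00000007000000000000000000000000 0x80000000c0000000c0000000f0000003e0000000e0000000a 5 6) 0 0 (step_sound _ 66 [(rh8cdd36b03d57a2f6.shift 1 0), (rha707fb719e87fe6e.shift 2 1), (rhd9397e4126e81439.shift 0 1)] (by decide +kernel))
noncomputable def rh2d74bb40630ceb5e : CRef := CRef.mk (Pat.mk 0x1800000034000000000000000000000000 0x800000008000000180000003f0000007e0000000400000004 5 7) 0 0 (step_sound _ 99 [(rhcfde16a7ff36af03.shift 1 0), (rhe153806bfe3acc65.shift 0 2)] (by decide +kernel))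
noncomputable def rh7696ae8b0f0f5a20 : CRef := CRef.mk (Pat.mk 0x180000001e0000000800000008 0x200000002000000070000001f0000001e0000000c00000008 5 5) 0 0 (step_sound _ 98 [(rh50fbb5868c909700.shift 2 0), (rhe342e74196eab19c.shift 0 1)] (by decide +kernel))
noncomputable def rh5a8b53a05d264a39 : CRef := CRef.mk (Pat.mk 0x3000000030000000a00000000 0x3000000030000000300000003000000030000001e00000004 5 5) 0 0 (step_sound _ 160 [(rh6f1cbe15c631ee70.shift 0 1), rh984b24d45fbc0911] (by decide +kernel))
noncomputable def rhbcfcf1634b9b9a7c : CRef := CRef.mk (Pat.mk 0x60000000300000010000000000000000000000000 0x20000000600000006000000070000001f000000070000000700000005 5 5) 0 0 (step_sound _ 97 [rh274a837cd7eaa569, rh4c145d583973abd2, (rh9c2924c8c4127d86.shift 0 2)] (by decide +kernel))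
noncomputable def rh626d78fccfc43ce8 : CRef := CRef.mk (Pat.mk 0x34000000180000000000000000 0x4000000040000000f0000003f0000001f0000000800000008 5 6) 0 0 (step_sound _ 99 [(rhb14e2588a8d71db8.shift 0 2), (rhba89ab7cb81bcc90.shift 0 2), (rhd5889c99d29bf7d6.shift 1 0)] (by decide +kernel))
noncomputable def rh37ba1e39df53a012 : CRef := CRef.mk (Pat.mk 0x1a0000000e00000008 0x1200000016000000370000001e0000001e0000000c 5 6) 0 0 (step_sound _ 66 [(rh5ed935544b1a1654.shift 1 0), rhbdb8dfd08861fbf7] (by decide +kernel))
noncomputable def rh37c4c4b1de5e582f : CRef := CRef.mk (Pat.mk 0x34000000180000000000000000 0x4000000040000000f0000003f000000380000000800000008 5 6) 0 0 (step_sound _ 99 [(rhad5d8fc3675c15dd.shift 0 2), (rhba89ab7cb81bcc90.shift 0 2), (rhd5889c99d29bf7d6.shift 1 0)] (by decide +kernel))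
noncomputable def rh37bd57b80fc3454b : CRef := CRef.mk (Pat.mk 0x34000000180000000000000000 0x2000000020000000670000003f000000380000001000000010 5 7) 0 0 (step_sound _ 99 [(rhba89ab7cb81bcc90.shift 0 2), (rhe5ad44e27e846693.shift 2 0)] (by decide +kernel))
noncomputable def rh38744284f81f2e95 : CRef := CRef.mk (Pat.mk 0xc0000000c000000280000000000000000 0xc0000000c000000780000001f0000000c 5 7) 0 0 (step_sound _ 35 [rh50d4d0fd838213a3, (rh7b1f1fb55310c477.shift 2 0)] (by decide +kernel))
noncomputable def rh8bd9bc34f1d6ae5f : CRef := CRef.mk (Pat.mk 0x70000000c0000000400000000 0xa0000000e0000003e0000000f0000000c0000000c00000008 5 6) 0 0 (step_sound _ 130 [(rh684e729394fba19d.shift 0 1), (rhc85cc95794737cf7.shift 1 1), (rhd4b4beefcd67f51e.shift 2 0)] (by decide +kernel))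
noncomputable def rh2c45203dfbb050be : CRef := CRef.mk (Pat.mk 0x34000000180000000000000000 0x4000000040000007e0000003f000000180000000800000008 5 7) 0 0 (step_sound _ 99 [(rhd5889c99d29bf7d6.shift 1 0), (rhe25191970535449e.shift 0 2)] (by decide +kernel))
noncomputable def rhda6f673521835f26 : CRef := CRef.mk (Pat.mk 0x3800000000 0xf70000007e000000f0 5 8) 0 0 (step_sound _ 34 [rh0d378fd9e8917c5a, (rh3fc3a7fb6866dcd4.shift 2 0), (rh4c622fddc53a5f99.shift 0 1)] (by decide +kernel))
noncomputable def rha64948426190b4e6 : CRef := CRef.mk (Pat.mk 0x3800000000 0xf00000007e000000f7 5 8) 0 0 (step_sound _ 34 [rh185f35b8bd8ec37f, rh9e97bba44c1b13e4, (rha93a5dd541ab8209.shift 2 0)] (by decide +kernel))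
noncomputable def rh65183b4f471e3fcb : CRef := CRef.mk (Pat.mk 0x3800000000 0xf70000007e000000f7 5 8) 0 0 (step_sound _ 34 [rh0d378fd9e8917c5a, rh185f35b8bd8ec37f, (rh4c622fddc53a5f99.shift 0 1), (rha93a5dd541ab8209.shift 2 0)] (by decide +kernel))
noncomputable def rh424e80a5aa539d4e : CRef := CRef.mk (Pat.mk 0x3800000000 0xf70000007e000000f7 5 8) 0 0 (step_sound _ 34 [rh185f35b8bd8ec37f, (rh3fc3a7fb6866dcd4.shift 2 0), (rh4c622fddc53a5f99.shift 0 1), rh9e97bba44c1b13e4] (by decide +kernel))
noncomputable def rh72041aff5aa454b7 : CRef := CRef.mk (Pat.mk 0x80000007000000020 0xc0000007e00000077 5 7) 0 0 (step_sound _ 35 [(rh3244c3cc8379b070.shift 2 1), rha0ae8adeb1dbcf8d] (by decide +kernel))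
noncomputable def rh6769b3640dc74d75 : CRef := CRef.mk (Pat.mk 0x200000007000000000 0x1fe000000fe0000000f 5 9) 0 0 (step_sound _ 35 [(rh56a24c72f1c55520.shift 2 1), (rh775ca1963e850b80.shift 1 0), rhb103f40a53fe1424, (rhedf6b6c69a16cbd5.shift 1 1)] (by decide +kernel))
noncomputable def rh6e2e73c314adbe23 : CRef := CRef.mk (Pat.mk 0x40000000400000004000000000000000e00000000 0x40000000400000004000000770000003e00000070 5 7) 0 0 (step_sound _ 36 [(rh12ce15e2055368ee.shift 0 1), (rh3fc3a7fb6866dcd4.shift 1 0)] (by decide +kernel))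
noncomputable def rhd99fbc0a21de7bce : CRef := CRef.mk (Pat.mk 0xa000000080000001c00000000 0xf0000007c0000007e000000e0 5 8) 0 0 (step_sound _ 69 [(rh4610ea79ea0a338e.shift 0 1), (rh6e96e90a79333766.shift 2 0), (rh7dcd5319f4f71bec.shift 1 1)] (by decide +kernel))
noncomputable def rh173fe9f1e12a7e5a : CRef := CRef.mk (Pat.mk 0x1e00000000000000000000001800000030 0x70000003e00000003000000020000001e00000030 5 6) 0 0 (step_sound _ 33 [(rhab22b5b56e7b3243.shift 1 0), (rhe4587a882b729654.shift 0 1)] (by decide +kernel))
noncomputable def rh82930c995aff0ed0 : CRef := CRef.mk (Pat.mk 0x20000001e00000000000000000000003000000018 0x4000000060000003e0000000300000002000000f200000018 5 8) 0 0 (step_sound _ 38 [(rh18965a982d73c794.shift 3 0), (rh8fc6e84d6e407574.shift 0 1)] (by decide +kernel))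
noncomputable def rh35766ea1bac3b566 : CRef := CRef.mk (Pat.mk 0x7000000040000000e00000000 0x70000003e0000003f00000070 5 7) 0 0 (step_sound _ 68 [(rh5e02580a73239971.shift 0 1), (rh68691964b29f233d.shift 0 2), (rh6e96e90a79333766.shift 1 0), (rh7dcd5319f4f71bec.shift 0 1)] (by decide +kernel))
noncomputable def rhc8f3dfa4c364df16 : CRef := CRef.mk (Pat.mk 0x200000003000000060000000200000000000000000000000000000000 0x200000003000000070000000700000003000000070000000700000005 5 3) 0 0 (step_sound _ 97 [(rh1f3a6ba70a310ab1.shift 0 1), rh46bfb734f58a0e67, (rh7928877f9bf74a91.shift 0 2), rhde32e0b5ff3be9cc] (by decide +kernel))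
noncomputable def rhb47dd2ce8212fe68 : CRef := CRef.mk (Pat.mk 0x10000000180000001e00000000 0x10000000100000001c000000fe000000e3 5 8) 0 0 (step_sound _ 1 [(rhac8e16d0ae38a800.shift 2 0), rheb0810cc63b001d8] (by decide +kernel))
noncomputable def rh05bdeb7a18a8d59a : CRef := CRef.mk (Pat.mk 0x400000004000000020000000700000000 0x400000004000000770000003f00000038 5 7) 0 0 (step_sound _ 35 [(rh38791ac5737ed75e.shift 0 1), rh49bdc49f6b132823, rh75c6fff53e4cbd6e] (by decide +kernel))
noncomputable def rh3e07e3f880744420 : CRef := CRef.mk (Pat.mk 0x1000000000000000180000001e00000000 0x10000000100000001c000000fe000000e3 5 8) 0 0 (step_sound _ 1 [(rhde83e62c415bcc31.shift 2 0), rheb0810cc63b001d8] (by decide +kernel))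
noncomputable def rhde2cb0e22ff15b58 : CRef := CRef.mk (Pat.mk 0x400000000000000020000000700000000 0x40000000c0000003f0000001f00000038 5 6) 0 0 (step_sound _ 35 [rh0c7ea8e21d1faf2f, rh3fc3a7fb6866dcd4, rh75c6fff53e4cbd6e, (rhb6f72982232a8164.shift 0 1)] (by decide +kernel))
noncomputable def rh6f53ac66167616a2 : CRef := CRef.mk (Pat.mk 0xf00000004 0x700000003f0000007e 5 7) 0 0 (step_sound _ 36 [rh4ad5fc38f1b69f65, (rh84d84ec8e59a0da5.shift 1 0), (rha93a5dd541ab8209.shift 1 0)] (by decide +kernel))
noncomputable def rh1b781e7362e23db8 : CRef := CRef.mk (Pat.mk 0x1400000004000000000000000a0000000800000000 0x10000000140000001c000000780000001f0000000800000008 5 7) 0 0 (step_sound _ 99 [rhcf4b42018da64cc7, (rhcfdf45280693d3da.shift 2 1)] (by decide +kernel))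
noncomputable def rh8b60d5d3a74f8e56 : CRef := CRef.mk (Pat.mk 0x1000000000000000000000000f00000000 0x1000000010000000380000003f00000070 5 7) 0 0 (step_sound _ 68 [(rh1d48077d84cc1ebc.shift 1 0), (rh428265de8cd3cd2d.shift 0 1)] (by decide +kernel))
noncomputable def rh2d14f7c82e276711 : CRef := CRef.mk (Pat.mk 0x40000001e000000080000000400000000 0x40000001e0000003b0000000f0000000a 5 6) 0 0 (step_sound _ 68 [rh50d505fb0cd92109, (rhe25b0a99195a5d59.shift 1 2)] (by decide +kernel))
noncomputable def rhbd444a4206cf258b : CRef := CRef.mk (Pat.mk 0x300000001c00000038000000100000000800000000 0xf00000001c0000003f000000370000000c0000000c 5 8) 0 0 (step_sound _ 166 [(rh18965a982d73c794.shift 3 4), rh5c62bbee060898ee] (by decide +kernel))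
noncomputable def rh943bffb3c35a4e10 : CRef := CRef.mk (Pat.mk 0x80000000c00000008000000080000000800000000 0x80000000c0000000f0000007c0000001800000008 5 7) 0 0 (step_sound _ 98 [(rh7b1f1fb55310c477.shift 2 0), (rhaa4d9de99c4ea825.shift 0 1)] (by decide +kernel))
noncomputable def rh109fab1c4964c4b6 : CRef := CRef.mk (Pat.mk 0xf0000000c0000000800000000 0x180000000f0000000e0000007c00000014 5 7) 0 0 (step_sound _ 131 [(rh1861173042f24e9a.shift 1 0), (rh33e738c4ed385b9f.shift 0 3)] (by decide +kernel))
noncomputable def rh1b73ce5f18a31d55 : CRef := CRef.mk (Pat.mk 0x40000000f000000070000000000000000 0x1c0000000f000000070000001e0000000e 5 5) 0 0 (step_sound _ 33 [rh4d6502f3efa43d2b, (rh71222050f2c63a3a.shift 1 0)] (by decide +kernel))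
noncomputable def rhbada7d39a80905cf : CRef := CRef.mk (Pat.mk 0x1c0000001c000000000000000800000000 0x30000001f0000001c0000000c0000000c0000000c 5 5) 0 0 (step_sound _ 67 [(rh7b1f1fb55310c477.shift 2 0), rhcf217803b01e13b7] (by decide +kernel))
noncomputable def rhef8793fac5c2f564 : CRef := CRef.mk (Pat.mk 0x1000000000000000010000001f0000000e000000000000000400000000 0x1000000010000000110000001f0000000e0000000e0000000e0000000a 5 5) 0 0 (step_sound _ 33 [(rh9e07f76261b05888.shift 0 1), (rhfe6afc976ddf028b.shift 1 0)] (by decide +kernel))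
noncomputable def rhbc8e10d82669204c : CRef := CRef.mk (Pat.mk 0xc00000008000000200000002000000020000000000000000000000000 0xf0000007c000000300000002000000020000000700000007000000050 5 7) 0 0 (step_sound _ 69 [(rh2f29f5fd3aa2e974.shift 0 2), (rh6eff4158bb400f47.shift 4 0)] (by decide +kernel))
noncomputable def rhb770b474263682d9 : CRef := CRef.mk (Pat.mk 0x20000000300000002000000000000000000000000 0x100000003000000030000000300000003000000070000000700000005 5 3) 0 0 (step_sound _ 65 [rh8cdd36b03d57a2f6, (rhe286c75f2739cce2.shift 0 1), (rhfbd142acd04e79a5.shift 0 1)] (by decide +kernel))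
noncomputable def rh0be2a4256982885c : CRef := CRef.mk (Pat.mk 0x2000000020000000200000002000000000000000000000000 0x6000000060000000600000003000000070000000700000004 5 3) 0 0 (step_sound _ 64 [(rh79877ebd3ef475dd.shift 0 2), rhbc808d4d9e8b71b2] (by decide +kernel))
noncomputable def rhc9162a6e1c6e1eb8 : CRef := CRef.mk (Pat.mk 0x800000000000000180000003800000000 0x80000000800000038000000ff000000c6 5 8) 0 0 (step_sound _ 38 [rh5cec23cb9f993674, (rhf48373e13d2bc128.shift 3 1)] (by decide +kernel))
noncomputable def rh21ed6c3662740d12 : CRef := CRef.mk (Pat.mk 0x100000003800000000 0xff000000fe00000007 5 8) 0 0 (step_sound _ 34 [rh592c7139d2c44767, (rhe6bdd62e1711df0b.shift 2 1), (rhff7d63dcb3cf9f74.shift 1 1)] (by decide +kernel))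
noncomputable def rh4bbb81894b96eb05 : CRef := CRef.mk (Pat.mk 0x2000000020000000200000002000000020000000000000000 0x2000000060000000600000006000000070000000300000003 5 3) 0 0 (step_sound _ 32 [(rh79877ebd3ef475dd.shift 0 1), rhc2a30e66e4f91bfc] (by decide +kernel))
noncomputable def rhf136b1eef1b05665 : CRef := CRef.mk (Pat.mk 0x800000018000000080000000000000000 0x140000001f0000007c000000080000000800000008 5 7) 0 0 (step_sound _ 35 [(rh215fef6ef21eb5a3.shift 0 1), (rha707fb719e87fe6e.shift 3 0)] (by decide +kernel))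
noncomputable def rh583145506b38834f : CRef := CRef.mk (Pat.mk 0x8000000080000000e000000000000000000000000 0x1000000018000000180000000f000000180000001800000010 5 5) 0 0 (step_sound _ 67 [(rh02de61bc697f3cfc.shift 0 1), (rh6c59ce14113da07f.shift 3 0), (rhbdde238153e38af9.shift 0 1), (rhcf86d050071af9b3.shift 0 2)] (by decide +kernel))
noncomputable def rh9468838130472af7 : CRef := CRef.mk (Pat.mk 0x500000001000000000000000280000003800000000 0x400000005000000070000000600000003f0000003c00000020 5 7) 0 0 (step_sound _ 101 [rh66a420705aa4c3b0, (rhcfdf45280693d3da.shift 4 1)] (by decide +kernel))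
noncomputable def rhfdf52a061710c7fa : CRef := CRef.mk (Pat.mk 0x3c00000000 0x70000003e00000067 5 7) 0 0 (step_sound _ 5 [rh592c7139d2c44767, (rhe25b0a99195a5d59.shift 2 0)] (by decide +kernel))
noncomputable def rh8377537580a72741 : CRef := CRef.mk (Pat.mk 0x40000000f00000000 0x3e0000003f00000070 5 7) 0 0 (step_sound _ 68 [(rh415fcfe4e9f7a6d1.shift 1 0), (rh428265de8cd3cd2d.shift 0 1)] (by decide +kernel))
noncomputable def rha2b6411962a48741 : CRef := CRef.mk (Pat.mk 0x100000001c00000000 0x370000003e00000070 5 7) 0 0 (step_sound _ 33 [rh1a9922713ba80f42, (rh33e738c4ed385b9f.shift 1 1)] (by decide +kernel))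
noncomputable def rha1eb337eeb07c2e7 : CRef := CRef.mk (Pat.mk 0x180000001e00000000 0x18000000fe000000e7 5 8) 0 0 (step_sound _ 1 [(rhc59c9f6e11dc219c.shift 1 0), rheb0810cc63b001d8] (by decide +kernel))
noncomputable def rhb0f6945cf1c2fac0 : CRef := CRef.mk (Pat.mk 0x1000000000000000000000000f00000002 0x1000000010000000380000003f00000066 5 7) 0 0 (step_sound _ 68 [(rh428265de8cd3cd2d.shift 0 1), (rhd697d02ffa0645e5.shift 1 0)] (by decide +kernel))
noncomputable def rh8a7e9eb2fb0a2ffa : CRef := CRef.mk (Pat.mk 0x80000000a0000000800000008000000080000000000000000 0x180000001f0000000c000000080000000c0000000c00000004 5 5) 0 0 (step_sound _ 196 [rh2c238a09e92daa45, (rhbaefcd01e0a8bca3.shift 3 2)] (by decide +kernel))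
noncomputable def rh21786a1828e613d9 : CRef := CRef.mk (Pat.mk 0xd0000000c00000000 0x3f0000007f00000070 5 7) 0 0 (step_sound _ 33 [rh9f8260404b4a157e, (rhf9d36e158778ce35.shift 0 1)] (by decide +kernel))
noncomputable def rh1ed422ad98229120 : CRef := CRef.mk (Pat.mk 0x100000001000000030000000100000000000000000000000000000000 0x100000003000000030000000300000003000000030000000300000002 5 2) 0 0 (step_sound _ 96 [(rh301a6b3a9154ed36.shift 0 1), rh3820f35d5e705bec, (rhb1fd7ebb07efd631.shift 0 1), (rhd29a1fb688eae70f.shift 0 2)] (by decide +kernel))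
noncomputable def rhaaeed4b7d5e79e0e : CRef := CRef.mk (Pat.mk 0xa0000000200000000000000090000000f0000000000000000 0xa0000001e0000001c0000000f0000000f0000001800000008 5 5) 0 0 (step_sound _ 35 [rhbcdc711872321c00, (rhe25b0a99195a5d59.shift 0 1)] (by decide +kernel))
noncomputable def rh2b4d53f3413265fb : CRef := CRef.mk (Pat.mk 0x8000000180000001e0000000000000000 0x80000001c000000fe0000001700000010 5 8) 0 0 (step_sound _ 4 [(rh9e07f76261b05888.shift 3 0), (rhb447f348b8f2aaa5.shift 0 1)] (by decide +kernel))
noncomputable def rh209658185e438b00 : CRef := CRef.mk (Pat.mk 0x100000001c00000000 0x300000003e00000077 5 7) 0 0 (step_sound _ 33 [rh0edd3afef6b5d7e0, (rh33e738c4ed385b9f.shift 1 1)] (by decide +kernel))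
noncomputable def rhf80ea7a5258c6cb1 : CRef := CRef.mk (Pat.mk 0x1e00000010 0x70000007f0000001e 5 7) 0 0 (step_sound _ 65 [(rh3244c3cc8379b070.shift 0 1), rh48377ce3ccce6cb7] (by decide +kernel))
noncomputable def rh885066b7bd8b27f9 : CRef := CRef.mk (Pat.mk 0x180000001c000000040000000000000000 0x2000000020000001f0000001f000000040000000400000004 5 5) 0 0 (step_sound _ 97 [(rh53b3c253cb0c65f4.shift 0 3), rhd5889c99d29bf7d6] (by decide +kernel))
noncomputable def rh2d604e8bba40a4c7 : CRef := CRef.mk (Pat.mk 0x1a000000140000000000000000 0x200000002000000070000001e000000340000000400000004 5 6) 0 0 (step_sound _ 98 [rhd5889c99d29bf7d6, (rhe25b0a99195a5d59.shift 1 2)] (by decide +kernel))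
noncomputable def rha8bc06e5ccb21da0 : CRef := CRef.mk (Pat.mk 0x8000000180000001c000000000000000000000000 0x80000001c0000003f000000070000000400000004 5 6) 0 0 (step_sound _ 97 [(rh53b3c253cb0c65f4.shift 0 3), rh61f918dfd48e4d6c] (by decide +kernel))
noncomputable def rhb9471a58a9808ccb : CRef := CRef.mk (Pat.mk 0x100000000000000002000000020000000200000002 0x40000001f0000000700000003000000020000000200000002 5 5) 0 0 (step_sound _ 128 [(rhf5244b03d2a97778.shift 0 1), rhffd04209dc8ea796] (by decide +kernel))
noncomputable def rh6c358308cb551af8 : CRef := CRef.mk (Pat.mk 0x6000000020000000e0000000000000000 0x20000000200000006000000060000003e0000000700000002 5 6) 0 0 (step_sound _ 161 [rh242d04f3e31b8ffb, (rh55afc6a59410cf00.shift 1 1)] (by decide +kernel))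
noncomputable def rhba96ef4af3ed81bd : CRef := CRef.mk (Pat.mk 0x40000001e0000000a0000000000000000 0x70000001e0000003e0000000300000003 5 6) 0 0 (step_sound _ 129 [(rh3244c3cc8379b070.shift 0 3), rh5e05d77759f5ac2b] (by decide +kernel))
noncomputable def rhe9aedd59d420df23 : CRef := CRef.mk (Pat.mk 0x1a00000010 0x70000003e00000037 5 6) 0 0 (step_sound _ 34 [rh5f7b3bfbaf903d4f, (rhe25b0a99195a5d59.shift 1 0)] (by decide +kernel))
noncomputable def rh39e359e67ba44962 : CRef := CRef.mk (Pat.mk 0x2000000000000000000000000f00000000 0x2000000020000000700000003f00000038 5 7) 0 0 (step_sound _ 4 [rh96851dee118c1ba3, (rhe3a96fe3bfc1461d.shift 1 0)] (by decide +kernel))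
noncomputable def rh8e1882cafcba546f : CRef := CRef.mk (Pat.mk 0x180000001c00000004 0x2000000030000001f0000003f00000004 5 6) 0 0 (step_sound _ 33 [(rh53b3c253cb0c65f4.shift 0 1), rhcea95bd1ecd58bb2] (by decide +kernel))
noncomputable def rh5225c68e0882bb34 : CRef := CRef.mk (Pat.mk 0x180000001c000000140000001400000000 0x200000002000000070000001f0000007c000000740000001e00000002 5 7) 0 0 (step_sound _ 130 [(rh5e8e503cdbced5c1.shift 0 2), (rhad5d8fc3675c15dd.shift 0 3), (rhff07f2b53ee23b53.shift 1 0)] (by decide +kernel))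
noncomputable def rh34b3399fa8422ec1 : CRef := CRef.mk (Pat.mk 0x400000014000000140000001400000000 0x4000000040000000c0000001e000000370000001600000014 5 6) 0 0 (step_sound _ 99 [(rhd8a13c7f042cc6ea.shift 2 0), (rhf4352fa3d803eb1c.shift 0 1)] (by decide +kernel))
noncomputable def rhd51647489ee32045 : CRef := CRef.mk (Pat.mk 0x100000000000000002000000020000000200000001 0x40000001f0000000700000002000000020000000300000001 5 5) 0 0 (step_sound _ 129 [rh79877ebd3ef475dd, (rh9dbf587d2da5af8d.shift 0 1)] (by decide +kernel))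
noncomputable def rh0e97c78c975ab610 : CRef := CRef.mk (Pat.mk 0xc0000001e00000000 0x200000002000000030000003f0000001e00000004 5 6) 0 0 (step_sound _ 65 [rh113e957afa7c17ad, (rh3244c3cc8379b070.shift 0 1)] (by decide +kernel))
noncomputable def rh9878baaeb09e5ca9 : CRef := CRef.mk (Pat.mk 0xc0000001e000000000000000000000000 0x4000000040000003c0000001e000000070000000200000002 5 6) 0 0 (step_sound _ 132 [(rh18965a982d73c794.shift 1 3), rhcfde16a7ff36af03] (by decide +kernel))
noncomputable def rh3d5d7415de6cd1b9 : CRef := CRef.mk (Pat.mk 0x80000000800000000000000140000001e00000000 0x800000038000000300000001f0000001e00000030 5 6) 0 0 (step_sound _ 65 [(rh3244c3cc8379b070.shift 0 1), (rhd8c5ad32e0255fe4.shift 1 0)] (by decide +kernel))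
noncomputable def rh182142b62bccbf23 : CRef := CRef.mk (Pat.mk 0x200000003800000000 0x3e0000007e000000e7 5 8) 0 0 (step_sound _ 34 [rh21d582c147e7e118, (rhe401600d466b97cd.shift 1 0)] (by decide +kernel))
noncomputable def rh8522c6bc3a1a8270 : CRef := CRef.mk (Pat.mk 0x100000001c00000000 0x370000003e00000070 5 7) 0 0 (step_sound _ 33 [(rh33e738c4ed385b9f.shift 1 1), rhe401600d466b97cd] (by decide +kernel))
noncomputable def rh0568b7ab013f43a7 : CRef := CRef.mk (Pat.mk 0x200000003800000000 0x600000003e00000077 5 7) 0 0 (step_sound _ 34 [rh185f35b8bd8ec37f, (rh33e738c4ed385b9f.shift 2 1)] (by decide +kernel))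
noncomputable def rhd7c0a18f92b59752 : CRef := CRef.mk (Pat.mk 0x100000001c00000000 0x370000003e00000007 5 6) 0 0 (step_sound _ 33 [(rh33e738c4ed385b9f.shift 1 1), rhd52e3929053d9d5f] (by decide +kernel))
noncomputable def rhfb46419da33febf8 : CRef := CRef.mk (Pat.mk 0x200000003800000000 0x3f0000007e0000000f 5 7) 0 0 (step_sound _ 34 [rh21d582c147e7e118, (rh7fb660bc21ce4329.shift 0 1), (rhaeebc73f5a9c796a.shift 1 0)] (by decide +kernel))
noncomputable def rh8faed0f84649b9fd : CRef := CRef.mk (Pat.mk 0xc00000008000000200000003800000040 0x2f0000007c0000002000000078000000c0 5 8) 0 0 (step_sound _ 38 [rh2abcdce65b0f666c, (rhe25b0a99195a5d59.shift 3 0)] (by decide +kernel))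
noncomputable def rh108c989a0d88fb53 : CRef := CRef.mk (Pat.mk 0xc000000080000000c0000000600000000 0x20000000f0000003c0000003c0000000600000002 5 6) 0 0 (step_sound _ 98 [(rh494ed70d2f70c43b.shift 0 1), (rh932754581e0f4330.shift 1 0)] (by decide +kernel))
noncomputable def rh3d1f2e9b220d3b59 : CRef := CRef.mk (Pat.mk 0x4000000000000001e00000006000000000000000000000000 0x4000000070000001e00000006000000030000000300000003 5 5) 0 0 (step_sound _ 65 [rh3b2fe3ab14852c84, (rhee230b994cc8b773.shift 1 2)] (by decide +kernel))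
noncomputable def rh8e633c2d019e1dd0 : CRef := CRef.mk (Pat.mk 0x1800000018000000380000000c 0x70000001f0000001e0000003c0000000c 5 6) 0 0 (step_sound _ 66 [(rhb739f4f82bb681b4.shift 1 1), rheece3a6582754a6e] (by decide +kernel))
noncomputable def rhcf7f3ebb9bd2f7e0 : CRef := CRef.mk (Pat.mk 0x18000000100000003800000018 0x40000001e000000770000003f00000018 5 7) 0 0 (step_sound _ 34 [rhba89ab7cb81bcc90, (rhe27eb8489a333d1c.shift 1 0), (rhec46bd5500c722c9.shift 1 1)] (by decide +kernel))
noncomputable def rhfdb2696429ffb75e : CRef := CRef.mk (Pat.mk 0x8000000080000001e00000006 0x70000000f0000001b0000001e00000006 5 5) 0 0 (step_sound _ 65 [(rh3244c3cc8379b070.shift 0 1), rh8ac4b10a053cad09] (by decide +kernel))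
noncomputable def rh554acc53d3682fd3 : CRef := CRef.mk (Pat.mk 0x280000000800000000000000140000001e00000000 0x200000002800000038000000300000001f0000001e00000010 5 6) 0 0 (step_sound _ 65 [(rh3244c3cc8379b070.shift 0 1), (rhd5c831412170e0ad.shift 1 0)] (by decide +kernel))
noncomputable def rhb71cbc9f55456523 : CRef := CRef.mk (Pat.mk 0x80000001e00000006 0x3000000030000003f0000001e00000006 5 6) 0 0 (step_sound _ 65 [(rh3244c3cc8379b070.shift 0 1), rhdee64f70e180fa19] (by decide +kernel))
noncomputable def rh2be070733f81f31a : CRef := CRef.mk (Pat.mk 0x1a000000100000000400000000 0x200000002000000070000001e000000340000000400000004 5 6) 0 0 (step_sound _ 98 [rh59377470057f4368, (rhe25b0a99195a5d59.shift 1 2)] (by decide +kernel))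
noncomputable def rhbd9df64c32c42184 : CRef := CRef.mk (Pat.mk 0x200000002000000020000000000000000 0x500000007000000070000000300000003000000030000000300000001 5 3) 0 0 (step_sound _ 161 [(rh1741680720c097b4.shift 0 2), (rh20966da26a1c2ae8.shift 0 1), rh6aa5625770489e83, (rh771d065bdc85bf2d.shift 0 1)] (by decide +kernel))
noncomputable def rhb3f0701341c741cf : CRef := CRef.mk (Pat.mk 0x200000002c00000000 0x670000003e00000007 5 7) 0 0 (step_sound _ 36 [(rh33e738c4ed385b9f.shift 2 1), rh592c7139d2c44767] (by decide +kernel))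
noncomputable def rh5ebe1f01a1ccbf88 : CRef := CRef.mk (Pat.mk 0x400000008000000080000000a0000000000000000 0x40000000c000000080000001f0000007800000010 5 7) 0 0 (step_sound _ 35 [rhc486ae0fcc44be52, (rhffd04209dc8ea796.shift 2 1)] (by decide +kernel))
noncomputable def rh4e8039a854d8b8c6 : CRef := CRef.mk (Pat.mk 0x90000000e000000000000000400000007 0xb0000001e000000300000003c0000001f 5 6) 0 0 (step_sound _ 100 [(rh3f8766e6ecb455ce.shift 0 3), rh8ada1313726d863b] (by decide +kernel))
noncomputable def rh89a76264ab73ceb7 : CRef := CRef.mk (Pat.mk 0x20000001e00000000000000000000000400000000 0x20000001e00000003000000070000000700000005 5 5) 0 0 (step_sound _ 97 [(rheb0810cc63b001d8.shift 0 3), rhff763b75cad9671b] (by decide +kernel))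
noncomputable def rhbdb56950f477f96c : CRef := CRef.mk (Pat.mk 0xc00000004000000100000001400000000 0x80000000c00000004000000370000003e00000002 5 6) 0 0 (step_sound _ 66 [(rh2f68792b6b779e96.shift 2 1), rh68eb33a74fda9aa8] (by decide +kernel))
noncomputable def rhece426e6d87926cf : CRef := CRef.mk (Pat.mk 0x400000007000000100000001e00000000 0x3c0000001f000000100000003e00000070 5 7) 0 0 (step_sound _ 5 [(rh96851dee118c1ba3.shift 1 0), rhffee83555a285083] (by decide +kernel))
noncomputable def rh11211571dc37a985 : CRef := CRef.mk (Pat.mk 0x40000000700000004000000040000000000000000 0xc0000000f0000001c000000060000000600000006 5 5) 0 0 (step_sound _ 33 [(rh79877ebd3ef475dd.shift 1 1), rh7d467d8e237726f9] (by decide +kernel))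
noncomputable def rh9e50e5faf03d6666 : CRef := CRef.mk (Pat.mk 0x40000000700000004000000040000000000000000 0xc0000000f0000001c0000000c0000000c0000000c 5 5) 0 0 (step_sound _ 35 [(rhd3458b32566d63f7.shift 2 1), rheebfba92566fef3d] (by decide +kernel))
noncomputable def rh0fa479cea2267816 : CRef := CRef.mk (Pat.mk 0x1c00000010 0x70000003e00000037 5 6) 0 0 (step_sound _ 33 [rhd52e3929053d9d5f, (rhe25b0a99195a5d59.shift 1 0)] (by decide +kernel))
noncomputable def rh7180a8c1fcdc4d47 : CRef := CRef.mk (Pat.mk 0x3800000000 0xf0000007e000000ef 5 8) 0 0 (step_sound _ 34 [(rh0edd3afef6b5d7e0.shift 1 0), (rh1a9922713ba80f42.shift 1 0), rh775ca1963e850b80] (by decide +kernel))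
noncomputable def rhe4cfd34388ff6f8d : CRef := CRef.mk (Pat.mk 0x1400000000000000020000000200000002 0x1000000070000001f00000006000000020000000200000002 5 5) 0 0 (step_sound _ 97 [(rh6101fe544e2241cc.shift 0 1), (rhbaefcd01e0a8bca3.shift 1 0)] (by decide +kernel))
noncomputable def rh2935cd497823f94c : CRef := CRef.mk (Pat.mk 0x100000001d0000000800000000 0x1000000010000000100000003f000000f800000020 5 8) 0 0 (step_sound _ 132 [(rh5c5e593799055d58.shift 3 1), rh835be2162ef72c9c] (by decide +kernel))
noncomputable def rhe475cc0d4c0164b1 : CRef := CRef.mk (Pat.mk 0x400000004000000070000000600000000 0x80000000c0000003c0000000f0000001e00000004 5 6) 0 0 (step_sound _ 131 [(rh2f68792b6b779e96.shift 2 1), rhfffbbe7d1d55a025] (by decide +kernel))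
noncomputable def rh9f0925e996c8e61d : CRef := CRef.mk (Pat.mk 0x4000000040000000700000002000000000000000000000000 0x80000000c0000000e000000070000001e0000000c0000000400000004 5 5) 0 0 (step_sound _ 98 [(rh3502d92c6cce609b.shift 1 0), (rh42afa1af9fffa0e1.shift 0 2)] (by decide +kernel))
noncomputable def rh4c1a60fb3c028022 : CRef := CRef.mk (Pat.mk 0x800000000000000040000000c000000070000000000000000 0x8000000080000000c0000000c0000000f0000003c0000000c 5 6) 0 0 (step_sound _ 131 [rh17038b5ac487329e, (rhee230b994cc8b773.shift 2 2)] (by decide +kernel))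
noncomputable def rh9bac737f852d529a : CRef := CRef.mk (Pat.mk 0x400000003c00000000 0xc0000000ff0000003c 5 8) 0 0 (step_sound _ 38 [(rh33e738c4ed385b9f.shift 3 1), rh94c710ab1ea57720] (by decide +kernel))
noncomputable def rh9e5463d5e5ab9743 : CRef := CRef.mk (Pat.mk 0x200000006000000000000000700000008 0x170000001e000000180000000f00000018 5 5) 0 0 (step_sound _ 35 [rh0996f01e7cad56a2, rhe25b0a99195a5d59] (by decide +kernel))
noncomputable def rhac236a24191623c6 : CRef := CRef.mk (Pat.mk 0x40000000c0000000800000002800000028 0x40000000c000000080000000fc000001ef 5 9) 0 0 (step_sound _ 7 [(rh9e07f76261b05888.shift 6 0), rhfb5bdf9bea979eb6] (by decide +kernel))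
noncomputable def rh9de956ef1ae824fc : CRef := CRef.mk (Pat.mk 0x1800000000000000280000000800000000 0x1000000018000000080000007c0000000f00000004 5 7) 0 0 (step_sound _ 99 [(rh2f68792b6b779e96.shift 3 1), rhc8fd50c44a2112a0] (by decide +kernel))
noncomputable def rhe6f7f99eaf67a1bb : CRef := CRef.mk (Pat.mk 0x1800000008000000200000000800000000 0x1000000018000000080000007c0000000f00000004 5 7) 0 0 (step_sound _ 67 [(rh2f68792b6b779e96.shift 3 1), rhc8fd50c44a2112a0] (by decide +kernel))
noncomputable def rh642171e5aebd4b20 : CRef := CRef.mk (Pat.mk 0x40000000200000002000000020000000000000000 0x5000000070000000300000002000000030000000300000001 5 3) 0 0 (step_sound _ 161 [(rh2f68792b6b779e96.shift 1 2), rhc4526fc8abf298b6] (by decide +kernel))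
noncomputable def rh1d742f25aee4f6d9 : CRef := CRef.mk (Pat.mk 0x400000004000000000000000200000002000000020000000000000000 0x400000007000000030000000300000002000000060000000600000004 5 3) 0 0 (step_sound _ 161 [(rh1006c02ae4212ff0.shift 1 3), rh46baee19951a66e7] (by decide +kernel))
noncomputable def rh6cce14c2ca471d6f : CRef := CRef.mk (Pat.mk 0xe0000000f000000080000000000000000 0x200000002000000020000000e0000000f0000000d0000000c0000000c 5 4) 0 0 (step_sound _ 35 [rh5d9c23adad4f4ee5, (rh7b1f1fb55310c477.shift 2 0)] (by decide +kernel))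
noncomputable def rha4da17fee09321fe : CRef := CRef.mk (Pat.mk 0x14000000000000001e00000002 0x1000000070000001f000000030000001e00000002 5 5) 0 0 (step_sound _ 65 [(rh3244c3cc8379b070.shift 0 1), rh6101fe544e2241cc] (by decide +kernel))
noncomputable def rh6393ba424d15bf34 : CRef := CRef.mk (Pat.mk 0x8000000080000000e000000000000000000000000 0x80000007f0000007e0000007b0000001000000010 5 7) 0 0 (step_sound _ 100 [rh3593e1fdb4246637, (rhc7b95363f9049b11.shift 1 0), (rhe401600d466b97cd.shift 0 2), (rhe6bdd62e1711df0b.shift 1 3)] (by decide +kernel))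
noncomputable def rheef32db46643edcf : CRef := CRef.mk (Pat.mk 0x80000000800000008000000100000000800000000 0x40000000c0000000c000000080000007c0000000f00000004 5 7) 0 0 (step_sound _ 67 [(rh3ca48e2a6d60153d.shift 2 1), rhb0de455c382c5b1c] (by decide +kernel))
noncomputable def rh9013baa11ce24040 : CRef := CRef.mk (Pat.mk 0x60000001e0000000000000004 0x30000000300000003000000060000001e0000000700000004 5 5) 0 0 (step_sound _ 129 [(rh144d0e472a55c6e4.shift 0 1), (rh9e07f76261b05888.shift 1 0)] (by decide +kernel))
noncomputable def rh8788ce12e6153d01 : CRef := CRef.mk (Pat.mk 0x1000000010000000000000001e00000000 0x1000000030000000600000003e00000067 5 7) 0 0 (step_sound _ 1 [(rh93ef61b51a2d6895.shift 1 0), rheb0810cc63b001d8] (by decide +kernel))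
noncomputable def rha92d88ebf24f190d : CRef := CRef.mk (Pat.mk 0x1c000000180000001000000008 0xc0000000c0000000c0000001c0000001f0000003800000008 5 6) 0 0 (step_sound _ 66 [(rh17c2d6a3bf856828.shift 2 0), (rhf56e6bc5d2f7fe77.shift 0 1)] (by decide +kernel))
noncomputable def rh4807bcad8a8ae332 : CRef := CRef.mk (Pat.mk 0x80000001e0000001a0000000000000000 0x4000000040000000f0000001e0000001e0000000b00000003 5 5) 0 0 (step_sound _ 129 [(rh3244c3cc8379b070.shift 0 3), rhe4da84b12fe4f25b] (by decide +kernel))
noncomputable def rh5048d0f92f1a3960 : CRef := CRef.mk (Pat.mk 0xc00000008000000100000000800000000 0x40000000c000000080000007c0000000f00000004 5 7) 0 0 (step_sound _ 67 [(rh50fbb5868c909700.shift 2 1), rhb0de455c382c5b1c] (by decide +kernel))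
noncomputable def rh091502fdd5147abf : CRef := CRef.mk (Pat.mk 0xc00000038000000180000001800000000 0xc0000003c0000001e0000001f00000007 5 6) 0 0 (step_sound _ 66 [(rh53b3c253cb0c65f4.shift 1 2), rhb49626ece8ba93be] (by decide +kernel))
noncomputable def rhffde65833b632b77 : CRef := CRef.mk (Pat.mk 0x80000001c000000180000001000000000 0x80000001c0000007f0000003700000004 5 7) 0 0 (step_sound _ 69 [rh0c1dff9b65503750, (rhf48373e13d2bc128.shift 2 2)] (by decide +kernel))
noncomputable def rhd1d8d37faf96da44 : CRef := CRef.mk (Pat.mk 0x2000000060000001a000000000000000000000000 0x400000006000000060000001e000000070000000700000005 5 5) 0 0 (step_sound _ 65 [(rh5710f30ba40ee3ec.shift 0 1), rh6eff4158bb400f47, (rha707fb719e87fe6e.shift 1 1)] (by decide +kernel))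
noncomputable def rh17796d2018aef083 : CRef := CRef.mk (Pat.mk 0x80000001800000038000000000000000000000000 0x80000001f0000003f0000000f0000000400000004 5 6) 0 0 (step_sound _ 98 [(rh1e8d6e1ef30e2d92.shift 1 0), (rh592c7139d2c44767.shift 0 2), (rhbe5fc5902345a0b9.shift 0 3)] (by decide +kernel))
noncomputable def rh7ec3a7c6f0b8dc0f : CRef := CRef.mk (Pat.mk 0x1000000000000000000000000e00000002 0x1000000010000000300000003e00000073 5 7) 0 0 (step_sound _ 36 [(rh52f94888bbeb9de6.shift 1 0), rheb0810cc63b001d8] (by decide +kernel))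
noncomputable def rhf2db13b4493c546c : CRef := CRef.mk (Pat.mk 0x1400000004000000000000000e0000000000000000 0x10000000140000001c000000780000003f0000007800000008 5 7) 0 0 (step_sound _ 100 [(rh1d48077d84cc1ebc.shift 1 1), rh52f8698f7232fb89, (rhb8022f71dc28021b.shift 0 2)] (by decide +kernel))
noncomputable def rhc5d56ee50519dac0 : CRef := CRef.mk (Pat.mk 0x800000018000000080000000400000000 0x1f0000007c000000080000000c0000000c 5 7) 0 0 (step_sound _ 35 [rh6d71ead2a2fb3ae0, (rh932754581e0f4330.shift 2 0)] (by decide +kernel))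
noncomputable def rh50cff516d4a16873 : CRef := CRef.mk (Pat.mk 0x1e00000012 0xe0000000ff0000001e 5 8) 0 0 (step_sound _ 3 [(rh20927f0bb3db88dd.shift 1 0), rhb739f4f82bb681b4] (by decide +kernel))
noncomputable def rha7d6b1db6fb5582a : CRef := CRef.mk (Pat.mk 0x80000000c000000080000001000000000 0x7c0000001f000000080000001800000018 5 7) 0 0 (step_sound _ 35 [rh3a6e7f5bed81e621, (rh55afc6a59410cf00.shift 3 0)] (by decide +kernel))
noncomputable def rh60ca9ad3e90a2511 : CRef := CRef.mk (Pat.mk 0x7c00000010 0x70000007f000000dc 5 8) 0 0 (step_sound _ 6 [rh70543c5e7e75eabe, (rhe25b0a99195a5d59.shift 3 0)] (by decide +kernel))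
noncomputable def rhe717f931aca9c60b : CRef := CRef.mk (Pat.mk 0x1a0000000600000002 0x10000000300000003000000030000001e0000000600000006 5 5) 0 0 (step_sound _ 97 [rh0fa4a62bba50784f, rh5a1cd893d8c4f41a, rh5e05da03898e7023, rh812b908590c67662] (by decide +kernel))
noncomputable def rhdb604dc5b89892de : CRef := CRef.mk (Pat.mk 0x3800000020 0xf0000007e0000003f 5 7) 0 0 (step_sound _ 34 [rh0de499e0455c9c14, rhd1d05263fabc0227, (rhd52e3929053d9d5f.shift 1 0)] (by decide +kernel))
noncomputable def rhacd1abfe38c938b7 : CRef := CRef.mk (Pat.mk 0x1000000010000000100000003800000000 0x800000018000000180000003e000000ff00000006 5 8) 0 0 (step_sound _ 131 [(rh50fbb5868c909700.shift 3 1), rhbf580582f289d177] (by decide +kernel))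
noncomputable def rh34ff750a29d4d0e1 : CRef := CRef.mk (Pat.mk 0x18000000000000000200000006000000020000000000000000 0x40000001e000000070000000600000006000000060000000600000006 5 5) 0 0 (step_sound _ 161 [(rh286a4225f59173b7.shift 0 2), (rhca18712e5e5c7b8f.shift 1 0), (rhd4b4beefcd67f51e.shift 1 1)] (by decide +kernel))
noncomputable def rh2e48f15827b65a79 : CRef := CRef.mk (Pat.mk 0x900000009000000090000000800000000 0x9000000090000000b0000001f00000017 5 5) 0 0 (step_sound _ 36 [rh225933e894b4bbc0, (rh55afc6a59410cf00.shift 3 0)] (by decide +kernel))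
noncomputable def rh5dce78d28c627f6b : CRef := CRef.mk (Pat.mk 0xf00000000 0x780000003f00000078 5 7) 0 0 (step_sound _ 36 [(rh3fc3a7fb6866dcd4.shift 1 0), rh4ad5fc38f1b69f65, (rh9890f9d77740bbed.shift 0 1)] (by decide +kernel))
noncomputable def rh60cb2f41c3946025 : CRef := CRef.mk (Pat.mk 0x400000007800000020 0x4000000040000000600000007e00000037 5 7) 0 0 (step_sound _ 134 [rhbfe376cd40aaedfb, (rhee230b994cc8b773.shift 5 0)] (by decide +kernel))
noncomputable def rh748ea6775b7f9a50 : CRef := CRef.mk (Pat.mk 0xfc00000000 0x7000000fe00000187 5 9) 0 0 (step_sound _ 7 [rh775ca1963e850b80, (rhe25b0a99195a5d59.shift 4 0)] (by decide +kernel))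
noncomputable def rh46dbadd1a3bb9b48 : CRef := CRef.mk (Pat.mk 0x80000000e000000000000000000000000 0x80000007f0000007e000000700000001000000010 5 7) 0 0 (step_sound _ 100 [(rh4569bd9aa4440d20.shift 1 0), (rhe401600d466b97cd.shift 0 2), (rhe6bdd62e1711df0b.shift 1 3)] (by decide +kernel))
noncomputable def rh6d475d0ca04f2880 : CRef := CRef.mk (Pat.mk 0x1200000006000000020000000000000000 0x7000000070000001e00000006000000060000000600000006 5 5) 0 0 (step_sound _ 161 [(rhca18712e5e5c7b8f.shift 1 0), (rhd4b4beefcd67f51e.shift 1 1), (rhfc0fa269c989ad37.shift 0 1)] (by decide +kernel))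
noncomputable def rh10604fd5dc6dbd11 : CRef := CRef.mk (Pat.mk 0x2000000020000000080000001800000010 0x280000007c0000001f0000001800000010 5 7) 0 0 (step_sound _ 99 [(rh2145e1d24b96a57e.shift 3 0), rh5643c3929946780a] (by decide +kernel))
noncomputable def rh63b4a96fa77f65ad : CRef := CRef.mk (Pat.mk 0x1400000016000000000000000000000000 0x400000004000000340000001e000000070000000200000002 5 6) 0 0 (step_sound _ 99 [(rh33e738c4ed385b9f.shift 1 3), rh3423e5ac208fb65b] (by decide +kernel))
noncomputable def rh3d783b671815c934 : CRef := CRef.mk (Pat.mk 0x30000000000000001e0000000e00000000 0x60000003e000000070000001e0000000e00000008 5 6) 0 0 (step_sound _ 97 [(rh3244c3cc8379b070.shift 0 2), (rh693739d6de12afdc.shift 1 0)] (by decide +kernel))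
noncomputable def rh10319172ff6ae2bf : CRef := CRef.mk (Pat.mk 0x1800000002000000020000000200000000 0x5000000070000001f00000003000000030000000300000001 5 5) 0 0 (step_sound _ 129 [(rh0102e0f3a8fa944d.shift 0 1), rh20966da26a1c2ae8, rh771d065bdc85bf2d, (rhc85cc95794737cf7.shift 0 1)] (by decide +kernel))
noncomputable def rhd9e8eea0787f5e0c : CRef := CRef.mk (Pat.mk 0x80000002800000008000000000000000000000000 0x40000001f00000078000000080000001c0000001c00000014 5 7) 0 0 (step_sound _ 67 [(rh8cdd36b03d57a2f6.shift 2 0), (rhd5d193521cc593a5.shift 0 2)] (by decide +kernel))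
noncomputable def rh89dce623fa74f28c : CRef := CRef.mk (Pat.mk 0x140000001e00000000 0x200000002000000030000001f0000001f00000004 5 5) 0 0 (step_sound _ 65 [(rh3244c3cc8379b070.shift 0 1), rha6fc0d3d47b3b66d] (by decide +kernel))
noncomputable def rhb139f9b8439fa6f2 : CRef := CRef.mk (Pat.mk 0x140000000c0000000c00000000 0xe0000000f0000001c0000000c0000000c00000004 5 5) 0 0 (step_sound _ 130 [(rh2145e1d24b96a57e.shift 2 1), rhe41d0219d4e1df88] (by decide +kernel))
noncomputable def rh0e8fac34037298f5 : CRef := CRef.mk (Pat.mk 0x2000000020000000000000001e000000140000000000000000 0x28000000380000001c0000001f000000140000000400000004 5 6) 0 0 (step_sound _ 132 [(rh1006c02ae4212ff0.shift 4 2), rhd29496a0b66fc9ff] (by decide +kernel))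
noncomputable def rh9ca629c497d227ee : CRef := CRef.mk (Pat.mk 0xf00000002 0x700000003f0000003e 5 7) 0 0 (step_sound _ 4 [(rh6e6db073cb0f6563.shift 1 0), rh96851dee118c1ba3] (by decide +kernel))
noncomputable def rh3dc35a93621e0713 : CRef := CRef.mk (Pat.mk 0x1000000000000000000000000f00000002 0x1000000010000000380000003f0000002e 5 6) 0 0 (step_sound _ 68 [(rh428265de8cd3cd2d.shift 0 1), (rhd2a5f72b122cd36d.shift 1 0)] (by decide +kernel))
noncomputable def rhf9d2abd7dfa4b4aa : CRef := CRef.mk (Pat.mk 0x1800000002000000020000000200000000 0x5000000070000001f00000003000000030000000300000001 5 5) 0 0 (step_sound _ 129 [(rh0102e0f3a8fa944d.shift 0 1), rh20966da26a1c2ae8, rh968ba7b0df7e4096, (rhc85cc95794737cf7.shift 0 1)] (by decide +kernel))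
noncomputable def rh9b03693b5fc008ff : CRef := CRef.mk (Pat.mk 0x38000000100000000000000008 0x70000003e0000003f0000000c00000008 5 6) 0 0 (step_sound _ 98 [(rh25efc5d5a6c022ff.shift 1 0), (rh4f8edb321cf5b49d.shift 0 2), (rh775ca1963e850b80.shift 0 2), (rhfcb55d5dc3b78d1f.shift 0 2)] (by decide +kernel))
noncomputable def rhf4f12114332b7238 : CRef := CRef.mk (Pat.mk 0x200000002000000004000000140000001400000000 0x280000007c0000001f000000140000001400000004 5 7) 0 0 (step_sound _ 132 [(rh04253f50b6dd0619.shift 4 1), rhc72356ee9f9f43e8] (by decide +kernel))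
noncomputable def rh194c1e59bae0431f : CRef := CRef.mk (Pat.mk 0x1000000010000000020000000a0000000a00000000 0x170000003f0000000e0000000a0000000a00000002 5 6) 0 0 (step_sound _ 131 [(rh04253f50b6dd0619.shift 3 1), rh38f1e3ab5014b965] (by decide +kernel))
noncomputable def rhcff54e5e807bd594 : CRef := CRef.mk (Pat.mk 0x80000002800000008000000000000000000000000 0x40000001f00000078000000080000001c0000001c00000014 5 7) 0 0 (step_sound _ 67 [(rh6eff4158bb400f47.shift 2 0), (rhd5d193521cc593a5.shift 0 2)] (by decide +kernel))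
noncomputable def rh288d5a0b571ff598 : CRef := CRef.mk (Pat.mk 0xa0000000a00000002000000000000000000000000 0x50000000f0000001b00000002000000070000000700000005 5 5) 0 0 (step_sound _ 65 [rh6eff4158bb400f47, rh8ff3dde5b1c639e0, (rhe3ca3d7b4fee55d8.shift 0 2)] (by decide +kernel))
noncomputable def rh4162d37c21748ae0 : CRef := CRef.mk (Pat.mk 0x1000000010000000000000000e00000002 0x1000000030000000600000003e00000073 5 7) 0 0 (step_sound _ 36 [(rh59810ecc3e5f50ca.shift 1 0), rheb0810cc63b001d8] (by decide +kernel))
noncomputable def rh43ac487bc75b4a22 : CRef := CRef.mk (Pat.mk 0x20000001a00000000 0x730000003e00000070 5 7) 0 0 (step_sound _ 34 [(rh3244c3cc8379b070.shift 0 1), (rha93a5dd541ab8209.shift 1 0)] (by decide +kernel))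
noncomputable def rhb24f99e7c4735939 : CRef := CRef.mk (Pat.mk 0xa0000001e00000000 0x200000002000000030000003e0000003e00000004 5 6) 0 0 (step_sound _ 66 [rh113e957afa7c17ad, (rhf48373e13d2bc128.shift 1 1)] (by decide +kernel))
noncomputable def rh5fd06f057288bbe5 : CRef := CRef.mk (Pat.mk 0x20000001a00000000 0x30000003e00000077 5 7) 0 0 (step_sound _ 34 [rh06db8ceda6269a47, (rh3244c3cc8379b070.shift 0 1)] (by decide +kernel))
noncomputable def rh937147bc63260665 : CRef := CRef.mk (Pat.mk 0x200000006000000020000000000000000 0x500000007000000070000000600000006000000060000000600000004 5 3) 0 0 (step_sound _ 161 [(rh6b49c384df38419b.shift 1 0), (rhc85cc95794737cf7.shift 0 2), (rhd4b4beefcd67f51e.shift 1 1)] (by decide +kernel))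
noncomputable def rhe0495e46ff6fc22b : CRef := CRef.mk (Pat.mk 0x100000003000000030000000800000000 0x20000000300000003000000030000001f00000007 5 5) 0 0 (step_sound _ 33 [rh7b1f1fb55310c477, rh873152f5c63c9e04] (by decide +kernel))
noncomputable def rh8b7c9f592041d36d : CRef := CRef.mk (Pat.mk 0x38000000000000001c0000003400000000 0x60000007e0000000f0000001c000000f400000004 5 8) 0 0 (step_sound _ 38 [rh009aada4df56d738, (rhf48373e13d2bc128.shift 3 1)] (by decide +kernel))
end Crest.Agent.S0047.Helper85.Cert
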