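import Crest.Agent.Lib.S0047.Helper85CertPL4F0
import Crest.Agent.Lib.S0047.Helper85CertPL4F1
import Crest.Agent.Lib.S0047.Helper85CertPL4F2
import Crest.Agent.Lib.S0047.Helper85CertPL4F3
import Crest.Agent.Lib.S0047.Helper85CertPL4F4
import Crest.Agent.Lib.S0047.Helper85CertPL4F5
import Crest.Agent.Lib.S0047.Helper85CertPL4F6
import Crest.Agent.Lib.S0047.Helper85CertPL4F7
import Crest.Agent.Lib.S0047.Helper85CertPL4F8
import Crest.Agent.Lib.S0047.Helper85CertPL4F9
set_option autoImplicit false
set_option linter.all false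
set_option Elab.async false
namespace Crest.Agent.S0047.Helper85.Cert
open Crest.Agent.S0047.Helper85

noncomputable def rh95336c3bcd924844 : CRef := CRef.mk (Pat.mk 0x38000000000000001400000030 0xf0000007c000000080000001e00000030 5 7) 0 0 (step_sound _ 35 [rh1c516df976aad272, (rhb739f4f82bb681b4.shift 1 0)] (by decide +kernel))
noncomputable def rh3b8783f67dd38410 : CRef := CRef.mk (Pat.mk 0x38000000000000000400000004 0xf0000003e000000070000000600000004 5 6) 0 0 (step_sound _ 98 [rhcbce130df63aa989, (rhe1a85963a7a8727e.shift 1 0), (rhe2a5b687fa797104.shift 1 0)] (by decide +kernel))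
noncomputable def rhf62e0bde5b9f0689 : CRef := CRef.mk (Pat.mk 0x2000000020000000200000002000000000000000000000000 0x6000000060000000600000006000000070000000700000001 5 3) 0 0 (step_sound _ 65 [rhcab3157f7bdcba3e, (rhd29a1fb688eae70f.shift 1 1)] (by decide +kernel))
noncomputable def rh811d65f05f134ee0 : CRef := CRef.mk (Pat.mk 0x20000000200000002000000000000000000000000 0x100000003000000030000000300000003000000070000000700000005 5 3) 0 0 (step_sound _ 65 [(rh565a0c22519f57e9.shift 0 1), rh8cdd36b03d57a2f6, rh8ff3dde5b1c639e0, rhc4526fc8abf298b6] (by decide +kernel))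
noncomputable def rhf04e99053436d749 : CRef := CRef.mk (Pat.mk 0x800000018000000180000000000000000 0x140000001f0000007c000000180000000800000008 5 7) 0 0 (step_sound _ 35 [(rh215fef6ef21eb5a3.shift 0 1), (rh84d1c02a8954c6a8.shift 3 0)] (by decide +kernel))
noncomputable def rh0ed5a7dfaa0ce6c5 : CRef := CRef.mk (Pat.mk 0xa00000007000000020 0xf00000007e00000067 5 8) 0 0 (step_sound _ 35 [rh3337059d65e56aaa, (rh428265de8cd3cd2d.shift 3 1)] (by decide +kernel))
noncomputable def rh724886eb9c465b0a : CRef := CRef.mk (Pat.mk 0x100000007800000000 0x3c0000007f000000e0 5 8) 0 0 (step_sound _ 67 [(rh3244c3cc8379b070.shift 2 1), rhe74f96057964b96f] (by decide +kernel))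
noncomputable def rh2395824d1086e2bc : CRef := CRef.mk (Pat.mk 0x80000001e000000000000000000000000 0x20000000b0000003e000000070000000400000004 5 6) 0 0 (step_sound _ 65 [rhc8f2cc1727a01e82, (rheb0810cc63b001d8.shift 0 2)] (by decide +kernel))
noncomputable def rhd4904aee7a311794 : CRef := CRef.mk (Pat.mk 0x10000000000000001a000000060000000200000000 0x40000001f000000070000001e000000060000000600000004 5 5) 0 0 (step_sound _ 129 [(rh5e05da03898e7023.shift 0 1), (rh9dbf587d2da5af8d.shift 0 1), (rhd4b4beefcd67f51e.shift 1 0)] (by decide +kernel))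
noncomputable def rh9248572e50f3aa2a : CRef := CRef.mk (Pat.mk 0x800000008000000000000000c000000060000000000000000 0x80000001a000000330000003e000000360000000400000004 5 6) 0 0 (step_sound _ 100 [(rh18965a982d73c794.shift 1 2), rhfc68a422060517d8] (by decide +kernel))
noncomputable def rhd8cbf4a778a40184 : CRef := CRef.mk (Pat.mk 0x90000000b000000080000000c00000000 0x1000000010000000b0000000b0000000f0000003e00000012 5 6) 0 0 (step_sound _ 36 [(rh55afc6a59410cf00.shift 3 0), rha56a23aa3f71903e] (by decide +kernel))
noncomputable def rh25ed62f4e62fba3b : CRef := CRef.mk (Pat.mk 0x100000003000000080000001e00000000 0x1000000010000000300000003000000ee0000007e000000e0 5 8) 0 0 (step_sound _ 37 [(rh3fc3a7fb6866dcd4.shift 2 0), (rhb44ea83a1cc11ff1.shift 0 1), (rhe3060b190bc0bc78.shift 1 1)] (by decide +kernel))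
noncomputable def rh71da28ba1c72137c : CRef := CRef.mk (Pat.mk 0xc0000000c000000080000000200000000 0xc0000000c0000000c0000001e0000001f 5 5) 0 0 (step_sound _ 35 [(rh7b1f1fb55310c477.shift 2 0), rh942711138a1792c8] (by decide +kernel))
noncomputable def rh1d8579dd636a074c : CRef := CRef.mk (Pat.mk 0x1e000000000000000400000000 0x200000002000000370000001e000000040000000400000004 5 6) 0 0 (step_sound _ 132 [(rh33e738c4ed385b9f.shift 1 3), rh59377470057f4368] (by decide +kernel))
noncomputable def rh3c5e373b2fb94698 : CRef := CRef.mk (Pat.mk 0x180000001c0000000000000000 0x4000000070000007f0000003c0000000800000008 5 7) 0 0 (step_sound _ 101 [(rh18965a982d73c794.shift 2 2), rhbc9525f19cc6ec4a] (by decide +kernel))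
noncomputable def rh2b0b4f8fe0be8394 : CRef := CRef.mk (Pat.mk 0x180000001c00000000 0x1f0000003f00000070 5 7) 0 0 (step_sound _ 33 [(rh53b3c253cb0c65f4.shift 0 1), rhe401600d466b97cd] (by decide +kernel))
noncomputable def rh4bf8c03067d58b2e : CRef := CRef.mk (Pat.mk 0x2000000008000000180000001800000000 0xc0000003c0000000f000000180000001800000008 5 6) 0 0 (step_sound _ 131 [(rh2145e1d24b96a57e.shift 3 1), rh6e750d361b5f2525] (by decide +kernel))
noncomputable def rh7392609c29b4875a : CRef := CRef.mk (Pat.mk 0x80000001800000018000000000000000000000000 0x40000000f0000007c000000180000000c0000000c0000000c 5 7) 0 0 (step_sound _ 67 [(rh46530d756bdf8511.shift 2 0), (rhca405e350c462817.shift 0 2)] (by decide +kernel))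
noncomputable def rh3f50d483717e304c : CRef := CRef.mk (Pat.mk 0x80000001800000018000000000000000000000000 0x800000018000000380000001f0000001c0000001c 5 6) 0 0 (step_sound _ 67 [(rh21cc983f04d25e46.shift 0 1), (rh4053c12da95c0aa0.shift 3 0), (rh46530d756bdf8511.shift 2 0), (rh8cdd36b03d57a2f6.shift 2 0)] (by decide +kernel))
noncomputable def rh7841066313475086 : CRef := CRef.mk (Pat.mk 0x80000001e000000000000000000000000 0x800000008000000080000003e0000000f0000000400000004 5 6) 0 0 (step_sound _ 65 [(rheb0810cc63b001d8.shift 0 2), (rhfb37b32a794a2140.shift 1 0)] (by decide +kernel))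
noncomputable def rhba4acffaa2641870 : CRef := CRef.mk (Pat.mk 0x180000001e000000100000000000000000 0x180000003e0000001f0000003000000030 5 6) 0 0 (step_sound _ 36 [(rh7b1f1fb55310c477.shift 3 0), rhf4afda61a686fdfb] (by decide +kernel))
noncomputable def rh51fb37c6ec9ae4f5 : CRef := CRef.mk (Pat.mk 0x180000001c00000000 0x1f0000003f00000007 5 6) 0 0 (step_sound _ 33 [(rh53b3c253cb0c65f4.shift 0 1), rhd52e3929053d9d5f] (by decide +kernel))
noncomputable def rh7013de74b17af9c7 : CRef := CRef.mk (Pat.mk 0x180000001e0000000a0000000000000000 0x1b0000001e0000003e0000003000000030 5 6) 0 0 (step_sound _ 129 [(rh3244c3cc8379b070.shift 0 3), (rh9a44118ce1dc73f2.shift 1 0)] (by decide +kernel))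
noncomputable def rhe59d6e78b3a0b690 : CRef := CRef.mk (Pat.mk 0x80000001800000018000000100000000000000000 0x40000000c0000001f000000380000001f0000000c00000008 5 6) 0 0 (step_sound _ 67 [(rh6fae963f33cfdfd7.shift 0 1), rhc24ef288f4895ae7, (rhdf997f77704b6375.shift 2 0)] (by decide +kernel))
noncomputable def rh5e1cce6794b94189 : CRef := CRef.mk (Pat.mk 0x1000000010000000020000000e0000000c 0x1000000030000000630000007e0000006c 5 7) 0 0 (step_sound _ 36 [(rh3244c3cc8379b070.shift 0 1), (rh4ab6fb4bdbc94f50.shift 2 0)] (by decide +kernel))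
noncomputable def rha7360cc2d941309a : CRef := CRef.mk (Pat.mk 0x40000000c0000000c000000000000000000000000 0x40000000c0000003c0000000f0000000e0000000e 5 6) 0 0 (step_sound _ 66 [(rh4053c12da95c0aa0.shift 2 0), (rh46530d756bdf8511.shift 1 0), (rh7f2a49c2502589b3.shift 0 1)] (by decide +kernel))
noncomputable def rh7cf4cc65f89ff878 : CRef := CRef.mk (Pat.mk 0x40000000400000000000000030000000f00000000 0x40000001c000000180000001f0000000f00000018 5 5) 0 0 (step_sound _ 67 [(rh33e738c4ed385b9f.shift 0 1), rhd8c5ad32e0255fe4] (by decide +kernel))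
noncomputable def rh2323bf9026c6ba06 : CRef := CRef.mk (Pat.mk 0x8000000080000000b000000000000000000000000 0x1000000018000000180000000b0000001e0000001c00000014 5 5) 0 0 (step_sound _ 67 [(rh5045a7dd3c2710bf.shift 0 1), (rh6c59ce14113da07f.shift 3 0), (rh8cdd36b03d57a2f6.shift 2 0), (rhcab3157f7bdcba3e.shift 2 0)] (by decide +kernel))
noncomputable def rh0c24fd1f6e8beccc : CRef := CRef.mk (Pat.mk 0x600000006000000030000000300000000 0x60000000e0000001b0000001f0000001c 5 5) 0 0 (step_sound _ 34 [rh51e1c6fcf00b5e70, (rh55afc6a59410cf00.shift 1 0)] (by decide +kernel))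
noncomputable def rh9dfe7bbd9d986933 : CRef := CRef.mk (Pat.mk 0x800000018000000080000000800000000 0x8000000080000007c0000000f0000000c00000004 5 7) 0 0 (step_sound _ 34 [(rh19a90a8a4ea29d9b.shift 0 1), (rh932754581e0f4330.shift 2 0)] (by decide +kernel))
noncomputable def rh145ff31644ad4168 : CRef := CRef.mk (Pat.mk 0x380000000800000008 0x4000000070000003e0000007f00000008 5 7) 0 0 (step_sound _ 66 [(rh0d378fd9e8917c5a.shift 0 1), (rh185f35b8bd8ec37f.shift 0 1), (rh592c7139d2c44767.shift 0 1), (rhe4f9133a81c1dbc5.shift 1 0)] (by decide +kernel))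
noncomputable def rh1e62cc755ec1c18b : CRef := CRef.mk (Pat.mk 0x80000000800000000000000000000001e0000000000000000 0x80000001800000010000000300000001f0000003800000008 5 6) 0 0 (step_sound _ 100 [(rh33e738c4ed385b9f.shift 1 2), rhc22d6a49cb2cc1ec] (by decide +kernel))
noncomputable def rh864763d2a0942e3f : CRef := CRef.mk (Pat.mk 0x200000007800000018 0x370000007e000000f8 5 8) 0 0 (step_sound _ 6 [rh23054d216486b9e9, (rhe25b0a99195a5d59.shift 3 0)] (by decide +kernel))
noncomputable def rh906e4d41718d774b : CRef := CRef.mk (Pat.mk 0x80000000c000000040000000400000000 0x2000000060000000f0000003c0000000e0000000e0000000a 5 6) 0 0 (step_sound _ 130 [(rh4bc3fb1b54fe76ba.shift 1 0), (rhbad6ff9bdc3f8001.shift 1 0), (rhcf85c92937975d4d.shift 0 1)] (by decide +kernel))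
noncomputable def rh41e1b03fec3d34e4 : CRef := CRef.mk (Pat.mk 0x1000000018000000080000000800000000 0x40000000c0000001f000000380000001c0000001c00000014 5 6) 0 0 (step_sound _ 131 [(rh4bc3fb1b54fe76ba.shift 2 0), (rhbad6ff9bdc3f8001.shift 2 0), (rhc647a25a08ddf0ec.shift 0 1)] (by decide +kernel))
noncomputable def rhdd74c1683d4052f6 : CRef := CRef.mk (Pat.mk 0x1000000010000000010000000e0000000c 0x1000000030000000630000007e0000006c 5 7) 0 0 (step_sound _ 36 [(rh3f8766e6ecb455ce.shift 0 1), (rh4ab6fb4bdbc94f50.shift 2 0)] (by decide +kernel))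
noncomputable def rh4d5f031aebbc48bc : CRef := CRef.mk (Pat.mk 0x1000000010000000000000001e00000000 0x1000000030000000670000003e00000060 5 7) 0 0 (step_sound _ 65 [(rh3244c3cc8379b070.shift 0 1), (rh954ab0752c7eb2bd.shift 1 0)] (by decide +kernel))
noncomputable def rh7ba9e957e91459b3 : CRef := CRef.mk (Pat.mk 0x38000000180000000000000000 0x400000004000000070000003f0000001f0000000800000008 5 6) 0 0 (step_sound _ 98 [(rh592c7139d2c44767.shift 0 2), (rh6cc58692ec716844.shift 1 0), (rhb14e2588a8d71db8.shift 0 2), (rhba89ab7cb81bcc90.shift 0 2)] (by decide +kernel))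
noncomputable def rh4342d2711953e832 : CRef := CRef.mk (Pat.mk 0xc0000000e0000000000000000 0x4000000040000000f0000007e0000007300000002 5 7) 0 0 (step_sound _ 68 [rh04029d7e2e3adf1c, (rh0cb6a409506b34ea.shift 1 1)] (by decide +kernel))
noncomputable def rh917636203298f252 : CRef := CRef.mk (Pat.mk 0x40000000400000007000000000000000000000000 0x80000000c0000000c000000070000001e0000000e0000000a 5 5) 0 0 (step_sound _ 66 [(rh6c59ce14113da07f.shift 2 0), (rhb379f99078aafa2d.shift 0 1), (rhcab3157f7bdcba3e.shift 1 0)] (by decide +kernel))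
noncomputable def rh6a6d0ad5a30616b5 : CRef := CRef.mk (Pat.mk 0x1600000016000000000000000000000000 0x10000000160000003f000000380000000800000008 5 6) 0 0 (step_sound _ 99 [rha009eea60430f826, (rhf48373e13d2bc128.shift 1 3)] (by decide +kernel))
noncomputable def rh8c4334def4dd9d2b : CRef := CRef.mk (Pat.mk 0x1c0000000c0000000000000000 0x200000002000000070000001f0000003c0000000400000004 5 6) 0 0 (step_sound _ 97 [(rh6292bd8784ece55f.shift 0 2), rhe1ef59f9ff87186c] (by decide +kernel))
noncomputable def rhe05f7033153303be : CRef := CRef.mk (Pat.mk 0x600000007000000000000000000000000 0x40000001f0000003f000000380000000800000008 5 6) 0 0 (step_sound _ 131 [(rh18965a982d73c794.shift 0 3), rha0a83d7551f054ad] (by decide +kernel))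
noncomputable def rh248a87c7370a10b9 : CRef := CRef.mk (Pat.mk 0x2000000020000000600000002000000000000000000000000 0x2000000060000000600000003000000070000000700000004 5 3) 0 0 (step_sound _ 64 [(rh79877ebd3ef475dd.shift 0 2), rh816debf2b169d216] (by decide +kernel))
noncomputable def rh68246db50bae41b7 : CRef := CRef.mk (Pat.mk 0x100000007000000060000000000000000 0x8000000080000001f0000001f000000070000000400000004 5 5) 0 0 (step_sound _ 99 [(rh795d3e5d420177aa.shift 0 2), rhf60cdf71a14eca6b] (by decide +kernel))
noncomputable def rh255ff363607cf503 : CRef := CRef.mk (Pat.mk 0x100000000000000002000000120000000e00000004 0x10000000180000003b0000001e0000000f00000004 5 6) 0 0 (step_sound _ 67 [rh301737bbc1902a26, (rh53b3c253cb0c65f4.shift 0 1)] (by decide +kernel))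
noncomputable def rh1ef20da3c41534a7 : CRef := CRef.mk (Pat.mk 0x60000000f000000000000000000000000 0x4000000040000001e0000000f0000001c0000000800000008 5 5) 0 0 (step_sound _ 131 [(rh18965a982d73c794.shift 0 3), rh84970c2ccb9fe470] (by decide +kernel))
noncomputable def rhb601f94d4be73af1 : CRef := CRef.mk (Pat.mk 0x700000006000000020000000000000000 0xc0000003c0000000f000000060000000e0000000c0000000c 5 6) 0 0 (step_sound _ 162 [(rh5c5e593799055d58.shift 1 2), rh7c20ffe7059869dd] (by decide +kernel))
noncomputable def rh1df732f43dde5891 : CRef := CRef.mk (Pat.mk 0xc00000004000000070000000000000000 0xc0000003e000000070000003e0000000c 5 6) 0 0 (step_sound _ 99 [(rh80f90a60d87caa0d.shift 0 2), rhd3a54786a1bf4b9b] (by decide +kernel))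
noncomputable def rhb9099e001c81485c : CRef := CRef.mk (Pat.mk 0x800000000000000040000000c000000070000000000000000 0x8000000080000000c0000000c000000070000003e0000000c 5 6) 0 0 (step_sound _ 131 [rhd3a54786a1bf4b9b, (rhee230b994cc8b773.shift 2 2)] (by decide +kernel))
noncomputable def rhadeaccf665c08ecc : CRef := CRef.mk (Pat.mk 0x40000000400000000000000000000001e0000000000000000 0x40000000c00000008000000380000001f0000003000000010 5 6) 0 0 (step_sound _ 100 [(rh33e738c4ed385b9f.shift 1 2), rhf0e1bc209faeb733] (by decide +kernel))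
noncomputable def rhe9663b50e1aef87e : CRef := CRef.mk (Pat.mk 0x2000000020000000f000000020000000000000000 0x20000001a0000000f0000001e0000000e00000004 5 5) 0 0 (step_sound _ 34 [rh33c2b5bc253e6685, (rhd3458b32566d63f7.shift 1 1)] (by decide +kernel))
noncomputable def rh3960f63bb99cbbd9 : CRef := CRef.mk (Pat.mk 0x100000007800000000 0x370000007e0000000e 5 7) 0 0 (step_sound _ 2 [rh2427cfbc99a0c8b7, (rh80fcd6d0a18cb2dd.shift 2 0)] (by decide +kernel))
noncomputable def rh43410a0e2beb6677 : CRef := CRef.mk (Pat.mk 0x7800000000 0x70000007e0000007f 5 7) 0 0 (step_sound _ 34 [rh0d378fd9e8917c5a, rh185f35b8bd8ec37f, (rheae1728ff4a56756.shift 1 0)] (by decide +kernel))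
noncomputable def rhb822f7880acf97b0 : CRef := CRef.mk (Pat.mk 0x10000000e00000000 0x730000003e00000007 5 7) 0 0 (step_sound _ 36 [rh3b00e9e9432b8f40, (rh3f8766e6ecb455ce.shift 0 1)] (by decide +kernel))
noncomputable def rh5dbb6833632f66b1 : CRef := CRef.mk (Pat.mk 0x20000000e000000040000000000000000 0x8000000080000007a0000001f0000000c0000000400000004 5 7) 0 0 (step_sound _ 34 [(rh7b1f1fb55310c477.shift 1 0), (rhce0f13be68529444.shift 0 1)] (by decide +kernel))
noncomputable def rh468b3601873f3f2a : CRef := CRef.mk (Pat.mk 0x100000000000000002000000020000001e 0x1000000010000000330000003e0000001f 5 6) 0 0 (step_sound _ 36 [(rh33e738c4ed385b9f.shift 1 0), rhf1e664470437524b] (by decide +kernel))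
noncomputable def rh213232d4567b81f0 : CRef := CRef.mk (Pat.mk 0x20000001f00000000 0xe60000007f0000001c 5 8) 0 0 (step_sound _ 37 [(rh3f8766e6ecb455ce.shift 1 1), rhaaff43875781a942] (by decide +kernel))
noncomputable def rh9b086622e277d2b1 : CRef := CRef.mk (Pat.mk 0xa0000000200000000000000010000000f0000000800000000 0xa0000001e0000001c0000001f0000000f0000000800000008 5 5) 0 0 (step_sound _ 99 [(rh33e738c4ed385b9f.shift 0 2), rhbcdc711872321c00] (by decide +kernel))
noncomputable def rhef9a75933276d06a : CRef := CRef.mk (Pat.mk 0x40000000400000000000000000000000e0000001000000000 0x40000000c00000008000000380000001f0000003000000010 5 6) 0 0 (step_sound _ 68 [rh1b8cd460823eec00, (rhe25b0a99195a5d59.shift 1 1)] (by decide +kernel))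
noncomputable def rh01189eed50c532bc : CRef := CRef.mk (Pat.mk 0x8000000180000001e0000000000000000 0x30000000f0000001b0000001e0000000700000004 5 5) 0 0 (step_sound _ 97 [(rh3244c3cc8379b070.shift 0 2), rhce5df7e7e845d32f] (by decide +kernel))
noncomputable def rhe755d80139a0ae3f : CRef := CRef.mk (Pat.mk 0x80000003c00000000 0x38000000ff000000e0 5 8) 0 0 (step_sound _ 6 [(rh96851dee118c1ba3.shift 2 0), rhe00fa71c1064dda3] (by decide +kernel))
noncomputable def rhdd363d948666913b : CRef := CRef.mk (Pat.mk 0x40000001e000000040000000000000008 0x3c0000001f000000340000001c00000008 5 6) 0 0 (step_sound _ 132 [rh25fe3fcdfa1135bc, (rh33e738c4ed385b9f.shift 1 3)] (by decide +kernel))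
noncomputable def rh025cec19fe93d2d3 : CRef := CRef.mk (Pat.mk 0x1c00000000 0xe00000007e000000ff 5 8) 0 0 (step_sound _ 37 [(rh06db8ceda6269a47.shift 1 0), rh185f35b8bd8ec37f, (rh3b00e9e9432b8f40.shift 1 0), (rh3fc3a7fb6866dcd4.shift 2 0)] (by decide +kernel))
noncomputable def rhe264bf233beab467 : CRef := CRef.mk (Pat.mk 0x1c0000000e000000000000000000000000 0x80000001f0000007e000000700000001000000010 5 7) 0 0 (step_sound _ 100 [(rh0cb6a409506b34ea.shift 1 2), (rh75c6fff53e4cbd6e.shift 1 2), rh9eb06f772dbcf4c5, (rhad5d8fc3675c15dd.shift 0 3)] (by decide +kernel))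
noncomputable def rhf41a34b41b8c2138 : CRef := CRef.mk (Pat.mk 0x1e0000000400000000 0x800000008000000380000001f0000003400000010 5 6) 0 0 (step_sound _ 100 [rh28d782e6e855ec21, (rh33e738c4ed385b9f.shift 1 2)] (by decide +kernel))
noncomputable def rh16e913c2fbd3f70f : CRef := CRef.mk (Pat.mk 0x80000000c00000009000000000000000100000000 0xc0000000c0000000b0000001e0000001f00000014 5 5) 0 0 (step_sound _ 67 [(rh5192e84255fe3228.shift 2 0), (rh5c651669912fbab1.shift 2 0), (rh8cdd36b03d57a2f6.shift 2 0), (rhf7d912bd89a7cc01.shift 0 1)] (by decide +kernel))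
noncomputable def rhfd45b41051000f6e : CRef := CRef.mk (Pat.mk 0x1400000014000000100000001000000002 0x1400000014000000140000003e0000002f 5 6) 0 0 (step_sound _ 35 [(rh932754581e0f4330.shift 3 0), rhd047788c50e063bb] (by decide +kernel))
noncomputable def rhf701bc9b9d058f63 : CRef := CRef.mk (Pat.mk 0x100000001e00000000000000060000000200000000 0x180000001e000000300000003e0000003b00000020 5 6) 0 0 (step_sound _ 100 [rh18c82c74b13f9793, (rhe25b0a99195a5d59.shift 1 3)] (by decide +kernel))
noncomputable def rhe89fd15297732f91 : CRef := CRef.mk (Pat.mk 0x100000003800000000 0xf70000007e0000000f 5 8) 0 0 (step_sound _ 34 [(rh27ce058b59d72f64.shift 1 0), rh592c7139d2c44767, (rhec46bd5500c722c9.shift 1 1), (rhedf6b6c69a16cbd5.shift 0 1)] (by decide +kernel))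
noncomputable def rh45b8cde2679da0c7 : CRef := CRef.mk (Pat.mk 0x8000000080000000a0000000b00000001 0x140000003e0000000f0000000a0000000b00000001 5 6) 0 0 (step_sound _ 132 [(rh2f68792b6b779e96.shift 3 1), rh5e5eace92e2cdd88] (by decide +kernel))
noncomputable def rh4fad32147ec52d84 : CRef := CRef.mk (Pat.mk 0x80000000a0000000a000000020000000200000000 0x80000000a0000000a0000001e0000001f00000005 5 5) 0 0 (step_sound _ 34 [(rh55afc6a59410cf00.shift 1 0), rh567f88318b6efdbd] (by decide +kernel))
noncomputable def rh436e0bc1a0f34f52 : CRef := CRef.mk (Pat.mk 0x1000000018000000080000000200000006 0x1000000018000000080000007f0000003e 5 7) 0 0 (step_sound _ 3 [rh38791ac5737ed75e, (rh9e3edb185cc347de.shift 3 0)] (by decide +kernel))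
noncomputable def rhc90aa78e377a83db : CRef := CRef.mk (Pat.mk 0x400000006800000028000000080000000800000000 0x4000000068000000280000007c0000002f00000004 5 7) 0 0 (step_sound _ 34 [(rh932754581e0f4330.shift 2 0), (rhbac4a8ff81a82abe.shift 0 1)] (by decide +kernel))
noncomputable def rh04f36b18797890ec : CRef := CRef.mk (Pat.mk 0x20000000a000000080000000800000000 0x140000001c0000001e0000000b000000180000001800000010 5 5) 0 0 (step_sound _ 131 [(rh1741680720c097b4.shift 2 1), (rh5abfc4c9d959be03.shift 2 0), (rh9258736a7488cc35.shift 0 1), (rhced6d86d2069808b.shift 3 0)] (by decide +kernel))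
noncomputable def rh9c29c6d6aa3762fe : CRef := CRef.mk (Pat.mk 0x8000000080000002800000008000000080000000400000000 0x80000000f0000007c00000018000000180000000c0000000c 5 7) 0 0 (step_sound _ 35 [rh4b86594633f64a7b, (rh932754581e0f4330.shift 2 0)] (by decide +kernel))
noncomputable def rh58f712b768d789e3 : CRef := CRef.mk (Pat.mk 0x8000000280000000800000008000000080000001000000000 0xf0000007c0000001800000008000000080000001800000010 5 7) 0 0 (step_sound _ 35 [(rh55afc6a59410cf00.shift 3 0), (rh5a6074de9ee7c6f1.shift 0 1)] (by decide +kernel))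
noncomputable def rh2c6371a59e1d4038 : CRef := CRef.mk (Pat.mk 0xa0000000a0000000800000004 0x10000000380000001e0000000b0000000c0000000c 5 6) 0 0 (step_sound _ 131 [rh3792a85d7f7b8435, (rh79877ebd3ef475dd.shift 2 0)] (by decide +kernel))
noncomputable def rh46d322ae0e89db60 : CRef := CRef.mk (Pat.mk 0x20000000200000002000000000000000000000000 0x500000007000000070000000200000002000000070000000700000005 5 3) 0 0 (step_sound _ 65 [(rh1741680720c097b4.shift 0 2), rh8cdd36b03d57a2f6] (by decide +kernel))
noncomputable def rhcdb9098f1bb090ca : CRef := CRef.mk (Pat.mk 0xa0000000a0000000a00000002 0x10000000100000003c0000001e0000000b0000000a00000002 5 6) 0 0 (step_sound _ 98 [(rh0aefef67a4f5e36d.shift 0 1), (rh2f68792b6b779e96.shift 1 0)] (by decide +kernel))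
noncomputable def rh1a1746eefc40a0ae : CRef := CRef.mk (Pat.mk 0x180000000c000000080000000800000008000000080000000000000000 0x180000000f0000000800000008000000080000001c0000001c00000014 5 5) 0 0 (step_sound _ 193 [(rh53b3c253cb0c65f4.shift 0 6), (rh8cdd36b03d57a2f6.shift 2 0)] (by decide +kernel))
noncomputable def rh61b1a130a089ea81 : CRef := CRef.mk (Pat.mk 0x60000000a0000000a000000020000001200000002 0x80000001e0000000b0000001b0000001a0000001200000012 5 5) 0 0 (step_sound _ 128 [rhca4bad3113a59c85, rhffd04209dc8ea796] (by decide +kernel))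
noncomputable def rh22eaacbc9acc2d10 : CRef := CRef.mk (Pat.mk 0xa0000000a0000001a000000020000000000000000 0x80000000b0000000f0000001a000000130000000300000001 5 5) 0 0 (step_sound _ 195 [rh2e9d459809ccd5a6, (rh55afc6a59410cf00.shift 3 2)] (by decide +kernel))
noncomputable def rh8c56c81183c6cc9e : CRef := CRef.mk (Pat.mk 0x80000000a00000008000000000000000000000000 0x100000001800000018000000080000001f00000078000000180000001000000010 5 7) 0 0 (step_sound _ 100 [(rh70e33bfdf511e144.shift 3 0), (rh9ebd639649ea671c.shift 0 3), (rhf64821747b7b1be1.shift 3 2)] (by decide +kernel))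
noncomputable def rh884f9b42c93cbb87 : CRef := CRef.mk (Pat.mk 0x28000000080000002800000008 0x10000000780000000f0000007c00000008 5 7) 0 0 (step_sound _ 100 [(rh2f68792b6b779e96.shift 3 0), (rhc3308e1e57f6856f.shift 0 1)] (by decide +kernel))
noncomputable def rh875b06254eb4f481 : CRef := CRef.mk (Pat.mk 0x20000000280000002800000000 0x500000007000000070000000200000002f0000007c00000010 5 7) 0 0 (step_sound _ 133 [rh3b06583a7967cba4, (rhc85cc95794737cf7.shift 4 1)] (by decide +kernel))
noncomputable def rhaefbe595090da7d6 : CRef := CRef.mk (Pat.mk 0x2800000028000000280000000800000000 0x40000000e0000000780000002f0000007c0000007800000040 5 8) 0 0 (step_sound _ 165 [(rh3792a85d7f7b8435.shift 2 1), (rh3b06583a7967cba4.shift 0 1), (rh6c59ce14113da07f.shift 5 0), (rh6cc0817e14e273da.shift 2 0)] (by decide +kernel))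
noncomputable def rh21ffa27e82a77d78 : CRef := CRef.mk (Pat.mk 0x10000000200000002000000020000000000000000 0x5000000070000000600000002000000060000000600000004 5 3) 0 0 (step_sound _ 161 [(rh50fbb5868c909700.shift 0 2), (rh6c59ce14113da07f.shift 1 0)] (by decide +kernel))
noncomputable def rhf6db93400df2b42b : CRef := CRef.mk (Pat.mk 0x80000000a0000000a000000000000000700000000 0x8000000080000000b0000001e000000380000001f00000038 5 6) 0 0 (step_sound _ 68 [(rh42a8aa31729a4595.shift 0 2), (rh4f294707ca39054f.shift 0 1), rh5d1ae49392eada61] (by decide +kernel))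
noncomputable def rh742a1c5bea3ca6eb : CRef := CRef.mk (Pat.mk 0x800000008000000080000000000000007 0x140000001c0000001c000000180000000800000018000000180000001f 5 5) 0 0 (step_sound _ 163 [(rh6c59ce14113da07f.shift 3 0), rh7fb316d46a6b41d3, (rhc85cc95794737cf7.shift 2 2)] (by decide +kernel))
noncomputable def rh373844673fdf6d00 : CRef := CRef.mk (Pat.mk 0x8000000080000000a0000000800000000 0x40000000c000000080000001f0000007800000010 5 7) 0 0 (step_sound _ 130 [(rh50fbb5868c909700.shift 2 1), rhc486ae0fcc44be52] (by decide +kernel))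
noncomputable def rh23b335396a05fb5c : CRef := CRef.mk (Pat.mk 0x8000000080000000a0000000a000000020000000200000000 0x8000000080000000a0000001a0000001a0000001f00000005 5 5) 0 0 (step_sound _ 68 [rh21a90e67e5aabcc8, (rhd3458b32566d63f7.shift 3 2)] (by decide +kernel))
noncomputable def rh9785273b4055cdd3 : CRef := CRef.mk (Pat.mk 0x20000000b0000001a000000020000000000000000 0xc0000001e0000000b0000001a0000001a0000001000000010 5 5) 0 0 (step_sound _ 162 [rh1ffe1036236442be, (rh2f68792b6b779e96.shift 1 2)] (by decide +kernel))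
noncomputable def rh5b8b3fce1b5a17d1 : CRef := CRef.mk (Pat.mk 0x2000000040000000500000005000000010000000200000000 0x20000000600000004000000050000000d0000000d0000000f00000002 5 4) 0 0 (step_sound _ 194 [rh3dc21273173ad94e, (rh50fbb5868c909700.shift 1 3)] (by decide +kernel))
noncomputable def rh526c73b5678bd6b8 : CRef := CRef.mk (Pat.mk 0x2000000028000000280000002000000000 0x20000000200000002f0000007c0000003000000010 5 7) 0 0 (step_sound _ 36 [(rh932754581e0f4330.shift 4 0), (rh93af014fd6478c8e.shift 0 1)] (by decide +kernel))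
noncomputable def rhfa4888791cee9f3a : CRef := CRef.mk (Pat.mk 0xa0000000a0000000a00000002 0x40000000c0000000e0000000b0000001e00000013 5 5) 0 0 (step_sound _ 130 [(rhbaefcd01e0a8bca3.shift 1 0), rhebd06d99576aa589] (by decide +kernel))
noncomputable def rh89dcbdf5731fbcab : CRef := CRef.mk (Pat.mk 0x20000000200000002000000000000000100000001 0x400000006000000060000000200000006000000060000000700000001 5 3) 0 0 (step_sound _ 65 [(rhced6d86d2069808b.shift 1 1), rheea67dfebd0f8008] (by decide +kernel))
noncomputable def rh477e5092e5aa7c7d : CRef := CRef.mk (Pat.mk 0x80000000a0000000a000000000000000400000004 0x80000000b0000001f000000380000001c00000004 5 6) 0 0 (step_sound _ 67 [(rhc247f2d7a10544ae.shift 0 1), (rheea67dfebd0f8008.shift 2 0)] (by decide +kernel))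
noncomputable def rh23bcbb5fea951416 : CRef := CRef.mk (Pat.mk 0x14000000140000001c0000000e00000000 0x200000003c000000170000001f0000007e00000070 5 7) 0 0 (step_sound _ 36 [(rh0cb6a409506b34ea.shift 1 0), (rh42afa1af9fffa0e1.shift 2 0), (rh695f888db18ad7c7.shift 1 0), (rh79b3c29022acbdf3.shift 1 1), (rhd7a3eadaefec4bde.shift 0 1)] (by decide +kernel))
noncomputable def rhf87dc096ad6b06e9 : CRef := CRef.mk (Pat.mk 0x100000007c00000000 0x1c0000007f000000c7 5 8) 0 0 (step_sound _ 67 [(rh3244c3cc8379b070.shift 2 1), rhb8e4566a62104c84] (by decide +kernel))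
noncomputable def rh66a190e6d68ff540 : CRef := CRef.mk (Pat.mk 0x20000000a0000000a0000000b0000000000000000 0x140000001e0000000b0000000a0000001f0000001800000010 5 5) 0 0 (step_sound _ 162 [(rh2f68792b6b779e96.shift 1 2), rhdf0c55f245815411] (by decide +kernel))
noncomputable def rh35cba1369d902f5e : CRef := CRef.mk (Pat.mk 0x70000000b0000000b0000000200000000 0x180000001f0000000b0000001b0000001e00000010 5 5) 0 0 (step_sound _ 131 [(rh18965a982d73c794.shift 0 3), rh4f401f7171d285c7] (by decide +kernel))
noncomputable def rh1674fcfc95d8da08 : CRef := CRef.mk (Pat.mk 0xe0000000c0000000000000004 0x730000007e0000000c0000000400000004 5 7) 0 0 (step_sound _ 129 [(rh546551bfa61a8651.shift 0 2), (rh9e07f76261b05888.shift 1 0)] (by decide +kernel))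
noncomputable def rh5c067d4e876f5172 : CRef := CRef.mk (Pat.mk 0x1800000018000000100000000800000000 0x18000000180000007c0000000f0000000c 5 7) 0 0 (step_sound _ 67 [(rh71222050f2c63a3a.shift 3 0), rh80650b8e93363f1e] (by decide +kernel))
noncomputable def rhd2a6aa75971f4bc3 : CRef := CRef.mk (Pat.mk 0x200000002000000020000001200000000 0x4000000060000000600000002000000030000001f00000004 5 5) 0 0 (step_sound _ 162 [rh01c69e5435d5d41a, (rhbaefcd01e0a8bca3.shift 1 1)] (by decide +kernel))
noncomputable def rh0f7085aba15a7e85 : CRef := CRef.mk (Pat.mk 0x20000000200000002000000000000000000000000 0x100000003000000030000000300000003000000070000000700000005 5 3) 0 0 (step_sound _ 65 [rh46baee19951a66e7, rh6eff4158bb400f47, (rh771d065bdc85bf2d.shift 0 1)] (by decide +kernel))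
noncomputable def rhd7da1bf6c5c2a4ea : CRef := CRef.mk (Pat.mk 0x1a000000060000000200000000 0x500000007000000070000001e000000060000000600000004 5 5) 0 0 (step_sound _ 129 [(rh1741680720c097b4.shift 0 1), (rh5e05da03898e7023.shift 0 1), (rhd4b4beefcd67f51e.shift 1 0)] (by decide +kernel))
noncomputable def rh0397897514f61d0d : CRef := CRef.mk (Pat.mk 0x1000000008000000080000000a0000000000000000 0x1000000018000000080000000f0000007c00000010 5 7) 0 0 (step_sound _ 35 [rhabaa648d2bc9d61c, (rhbaefcd01e0a8bca3.shift 3 1)] (by decide +kernel))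
noncomputable def rh499afd1279f0702e : CRef := CRef.mk (Pat.mk 0x1000000080000000800000008000000080000000000000000 0x40000000f0000001c0000001800000008000000180000001800000010 5 5) 0 0 (step_sound _ 35 [(rhc9d4bdedfbc5dd5f.shift 0 1), (rhd29a1fb688eae70f.shift 3 0)] (by decide +kernel))
noncomputable def rh122ba9816f30fc72 : CRef := CRef.mk (Pat.mk 0x8000000080000000a0000000000000000 0x140000001c0000001c00000008000000080000001f0000001c00000010 5 5) 0 0 (step_sound _ 163 [(rhc85cc95794737cf7.shift 2 2), rhd8c37efe07b158de] (by decide +kernel))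
noncomputable def rhe29607107df9456e : CRef := CRef.mk (Pat.mk 0x80000001800000018000000000000000000000000 0x40000000f0000007c000000180000000c0000000c0000000c 5 7) 0 0 (step_sound _ 67 [(rh46530d756bdf8511.shift 2 0), (rhca405e350c462817.shift 0 2), (rhdf997f77704b6375.shift 2 0)] (by decide +kernel))
noncomputable def rh3b0beb5a51087500 : CRef := CRef.mk (Pat.mk 0xc0000001e000000180000001800000000 0x20000000f0000001e0000001f0000003c00000004 5 6) 0 0 (step_sound _ 129 [rh0c20bb4cbdbf717c, (rh3244c3cc8379b070.shift 0 3)] (by decide +kernel))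
noncomputable def rh261cda20a097f1bf : CRef := CRef.mk (Pat.mk 0xc00000018000000180000001c00000000 0xf0000001c0000001c0000001f0000000b 5 5) 0 0 (step_sound _ 98 [rh2f07637c0aa62b76, (rh7b1f1fb55310c477.shift 2 0)] (by decide +kernel))
noncomputable def rh6d106ad5c54e5064 : CRef := CRef.mk (Pat.mk 0x400000018000000180000000c00000000 0x40000001f0000001b0000000f0000000a 5 5) 0 0 (step_sound _ 33 [rh30e03c9ae1d9a7fa, (rh53b3c253cb0c65f4.shift 0 1)] (by decide +kernel))
noncomputable def rh7a8df48d9000e0ad : CRef := CRef.mk (Pat.mk 0x200000003c00000010 0x2000000020000000270000003e00000017 5 6) 0 0 (step_sound _ 101 [rh592c7139d2c44767, (rh5c5e593799055d58.shift 4 0)] (by decide +kernel))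
noncomputable def rh05ed002a452bb230 : CRef := CRef.mk (Pat.mk 0xe0000001600000000 0x800000008000000380000003f0000001600000010 5 6) 0 0 (step_sound _ 68 [(rh18965a982d73c794.shift 1 1), rh2b40d254177f8dd3] (by decide +kernel))
noncomputable def rh946e925a5240a834 : CRef := CRef.mk (Pat.mk 0x18000000120000001000000000 0x1ef0000007c000000160000001000000010 5 9) 0 0 (step_sound _ 101 [(rh261f868a429ae0e3.shift 3 0), rh3c854e66629c2f4d, (rh6ae1d99a9b0058f4.shift 2 0), (rh72a786a9a1ce5403.shift 1 2)] (by decide +kernel))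
noncomputable def rhe6e9edbf4be5494a : CRef := CRef.mk (Pat.mk 0x400000020000000380000000000000000 0x4000000370000007e0000000f00000008 5 7) 0 0 (step_sound _ 66 [(rh21d582c147e7e118.shift 0 1), (rh3488745cee9b3890.shift 1 0), (rh7fb660bc21ce4329.shift 0 2)] (by decide +kernel))
noncomputable def rh963519b1454827ff : CRef := CRef.mk (Pat.mk 0x1000000080000001e00000000 0x1000000030000003f0000001e00000003 5 6) 0 0 (step_sound _ 68 [(rh33e738c4ed385b9f.shift 1 1), rhb6b531a77164b301] (by decide +kernel))
noncomputable def rhc816843aa549a9f1 : CRef := CRef.mk (Pat.mk 0x10000000010000000e00000000 0x1000000010000000330000003e00000070 5 7) 0 0 (step_sound _ 36 [(rh3f8766e6ecb455ce.shift 0 1), (rh7618364b9b53dd13.shift 1 0)] (by decide +kernel))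
noncomputable def rh6f5644ad7e5af09d : CRef := CRef.mk (Pat.mk 0x10000000000000000f00000000 0x1000000010000000380000003f00000070 5 7) 0 0 (step_sound _ 68 [(rh428265de8cd3cd2d.shift 0 1), (rhb930b94183d881f3.shift 1 0)] (by decide +kernel))
noncomputable def rhaceeea179a1cf127 : CRef := CRef.mk (Pat.mk 0x2000000020000000200000002400000000 0x2000000020000000700000003e00000017 5 7) 0 0 (step_sound _ 36 [rh6b20c526ec8deffc, (rh932754581e0f4330.shift 4 0)] (by decide +kernel))
noncomputable def rhebe7dfbad636764a : CRef := CRef.mk (Pat.mk 0x100000001a00000000 0x370000003e00000007 5 6) 0 0 (step_sound _ 34 [(rh33e738c4ed385b9f.shift 1 1), rh5f7b3bfbaf903d4f] (by decide +kernel))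
noncomputable def rh9962b72f78e1c2b2 : CRef := CRef.mk (Pat.mk 0x1c00000012000000100000001200000000 0x1e00000013000000330000001e0000000c 5 6) 0 0 (step_sound _ 35 [(rh932754581e0f4330.shift 3 0), rh9358f36a14bbabd2] (by decide +kernel))
noncomputable def rhc3e6b56a8a6c7f06 : CRef := CRef.mk (Pat.mk 0x600000002000000100000000200000000 0x400000006000000020000001e0000000f00000005 5 5) 0 0 (step_sound _ 65 [(rh2f68792b6b779e96.shift 1 1), rhec708e6f46cad756] (by decide +kernel))
noncomputable def rh8ce1ba4f6ed0f31c : CRef := CRef.mk (Pat.mk 0x180000001000000010000000020000000200000000 0x80000001800000010000000100000003b0000001e00000008 5 6) 0 0 (step_sound _ 68 [(rh50fbb5868c909700.shift 3 2), rh769475dd0d42f086] (by decide +kernel))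
noncomputable def rhc69ed8b8b451ca9a : CRef := CRef.mk (Pat.mk 0x60000000200000000000000020000000000000000 0x4000000060000000200000002000000070000000700000005 5 3) 0 0 (step_sound _ 97 [(rh2f68792b6b779e96.shift 1 2), rh6eff4158bb400f47] (by decide +kernel))
noncomputable def rh1d4d582b4a5524fc : CRef := CRef.mk (Pat.mk 0x2000000020000000200000002000000020000000000000000 0x2000000030000000300000003000000070000000600000006 5 3) 0 0 (step_sound _ 34 [rh5b11d35235f20a35, (rhd3458b32566d63f7.shift 1 1)] (by decide +kernel))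
noncomputable def rha149fcb7fc0c2899 : CRef := CRef.mk (Pat.mk 0x7800000020 0x70000007e0000003e 5 7) 0 0 (step_sound _ 2 [(rh80fcd6d0a18cb2dd.shift 2 0), rh9e6e84d9a913172b] (by decide +kernel))
noncomputable def rh51b7efd198d89261 : CRef := CRef.mk (Pat.mk 0x100000003000000008000000080000002800000008 0x10000000340000002f0000007c0000002800000008 5 7) 0 0 (step_sound _ 69 [(rh2613c889e411427e.shift 4 1), rh7430a052bcb4bacd] (by decide +kernel))
noncomputable def rha041a1d41fc5a8bd : CRef := CRef.mk (Pat.mk 0x8000000080000000a0000000800000000 0x1000000018000000780000001f0000000800000008 5 7) 0 0 (step_sound _ 132 [(rh2f68792b6b779e96.shift 3 1), rh42ae9b4d759f2f28] (by decide +kernel))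
noncomputable def rh17ae452972785d06 : CRef := CRef.mk (Pat.mk 0xe000000010000000100000001 0x70000003f000000710000000100000001 5 7) 0 0 (step_sound _ 129 [rh1006c02ae4212ff0, (rhae8d21abc86b555a.shift 0 2)] (by decide +kernel))
noncomputable def rh094108defb577481 : CRef := CRef.mk (Pat.mk 0x100000001e000000100000000000000000 0x1000000038000000380000001f0000001e000000180000001000000010 5 6) 0 0 (step_sound _ 129 [(rh3244c3cc8379b070.shift 0 3), (rhd54b5190a70df573.shift 1 0)] (by decide +kernel))
noncomputable def rh440bcca3b237d2d2 : CRef := CRef.mk (Pat.mk 0xe000000010000000100000001 0x770000003f000000010000000100000001 5 7) 0 0 (step_sound _ 129 [rh1006c02ae4212ff0, (rh38791ac5737ed75e.shift 0 3)] (by decide +kernel))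
noncomputable def rh49a2b9abcd32fefb : CRef := CRef.mk (Pat.mk 0xe000000000000000500000004 0x7c0000001f000000780000000f00000004 5 7) 0 0 (step_sound _ 67 [rh73248f6169943a03, (rh8ee80cc30e93a344.shift 0 2), rhb97863e637ac38f7] (by decide +kernel))
noncomputable def rhb25d7d955cc10542 : CRef := CRef.mk (Pat.mk 0x4000000070000000400000000 0xa0000000e0000000e000000040000000f0000003c00000008 5 6) 0 0 (step_sound _ 130 [(rh5abfc4c9d959be03.shift 1 0), (rhc85cc95794737cf7.shift 1 1), (rhced6d86d2069808b.shift 2 0), rhd9397e4126e81439] (by decide +kernel))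
noncomputable def rh68cfacebbf1789b8 : CRef := CRef.mk (Pat.mk 0x100000000a0000000a0000000a000000020000000000000000 0x100000001a0000000a0000000a0000001f0000001900000010 5 5) 0 0 (step_sound _ 67 [rh28e3c2bc65e8de75, (rhbaefcd01e0a8bca3.shift 3 2)] (by decide +kernel))
noncomputable def rhf1aa5d1d707e3985 : CRef := CRef.mk (Pat.mk 0xc0000000000000008000000080000000700000000 0x140000001c0000001800000008000000080000001f00000018 5 5) 0 0 (step_sound _ 131 [(rh50fbb5868c909700.shift 2 2), rhc13329c8cf1e23e2] (by decide +kernel))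
noncomputable def rh79752504a420f2c3 : CRef := CRef.mk (Pat.mk 0x2000000030000000200000002 0x100000003000000030000000300000003000000030000000300000002 5 2) 0 0 (step_sound _ 129 [rh3ca48e2a6d60153d, (rh976a48eb1c80a12f.shift 0 1), (rha77f215723363df0.shift 0 1), rhded9635978cce9d0] (by decide +kernel))
noncomputable def rhdc6ecbaaaf37a6e5 : CRef := CRef.mk (Pat.mk 0x3800000000 0x70000007e000000ff 5 8) 0 0 (step_sound _ 34 [rh0d378fd9e8917c5a, (rh42d32bf970c9c157.shift 1 0), rh775ca1963e850b80] (by decide +kernel))
noncomputable def rh619bcc8fbfd1202d : CRef := CRef.mk (Pat.mk 0x40000000e000000020000000800000000 0x340000001f0000003b0000000800000008 5 6) 0 0 (step_sound _ 100 [rh814e31ecfe909248, (rheb0810cc63b001d8.shift 0 2)] (by decide +kernel))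
noncomputable def rhddcd4384bee63015 : CRef := CRef.mk (Pat.mk 0xf0000000000000008000000000000000400000000 0xf00000018000000080000001c0000001c00000014 5 5) 0 0 (step_sound _ 131 [(rhe25b0a99195a5d59.shift 0 4), (rhebbfc1325fb53d6f.shift 2 0)] (by decide +kernel))
noncomputable def rh6f262db603c89561 : CRef := CRef.mk (Pat.mk 0x7000000010000000400000000 0x8000000080000001c0000001f0000003f0000000400000004 5 6) 0 0 (step_sound _ 99 [rhb705031692dfe65f, (rhf3baec4a0a3dd35e.shift 0 2)] (by decide +kernel))
noncomputable def rhd1f216945c3e1a0b : CRef := CRef.mk (Pat.mk 0xe0000000000000008000000000000000400000000 0x1f00000078000000080000001c0000001c00000014 5 7) 0 0 (step_sound _ 131 [(rh8ee80cc30e93a344.shift 0 4), (rhebbfc1325fb53d6f.shift 2 0)] (by decide +kernel))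
noncomputable def rhe81e1775382c4916 : CRef := CRef.mk (Pat.mk 0x7000000058 0x70000007f000000f8 5 8) 0 0 (step_sound _ 35 [rh4fb657239f791bb7, (rhe25b0a99195a5d59.shift 3 0)] (by decide +kernel))
noncomputable def rhc516a8c8b3fd042e : CRef := CRef.mk (Pat.mk 0x1e00000000000000000000003c 0x70000001e00000003000000070000003e 5 6) 0 0 (step_sound _ 129 [(rh3244c3cc8379b070.shift 0 3), rh42930dc66327fa1f] (by decide +kernel))
noncomputable def rhb0e86790e62db09c : CRef := CRef.mk (Pat.mk 0x20000000e00000004 0xe30000007e0000000e 5 8) 0 0 (step_sound _ 36 [(rh3244c3cc8379b070.shift 0 1), (rhdc1641106d7e5aa2.shift 1 0)] (by decide +kernel))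
noncomputable def rh8d415a1d004e8408 : CRef := CRef.mk (Pat.mk 0x1e00000018000000100000000000000000 0x7000000fe0000001c000000100000001000000010 5 8) 0 0 (step_sound _ 36 [(rh412d230494194d0a.shift 0 3), (rh7b1f1fb55310c477.shift 3 0)] (by decide +kernel))
noncomputable def rh27b625191f3c3dfa : CRef := CRef.mk (Pat.mk 0x3800000000 0xf0000007e0000007f 5 7) 0 0 (step_sound _ 34 [rh0d378fd9e8917c5a, rh185f35b8bd8ec37f, (rh47c07cd0cc865f65.shift 1 0)] (by decide +kernel))
noncomputable def rh7611754620ec4708 : CRef := CRef.mk (Pat.mk 0x40000000400000004000000000000000700000000 0x400000004000000040000003c0000001f00000038 5 6) 0 0 (step_sound _ 35 [(rh0b6a0038ecc85198.shift 2 0), rh3fc3a7fb6866dcd4, rh49bdc49f6b132823, (rh78bebf519769cb5e.shift 0 1)] (by decide +kernel))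
noncomputable def rh5b9e259bbcd4c97a : CRef := CRef.mk (Pat.mk 0x80000000800000008000000000000003800000000 0x800000008000000080000000f0000003e00000007 5 6) 0 0 (step_sound _ 34 [(rh12ce15e2055368ee.shift 1 1), (rh316d0c7c5292e4bb.shift 1 0), (rh343a5d3670c5295a.shift 2 0), rh775ca1963e850b80] (by decide +kernel))
noncomputable def rhf50f13a2a538f763 : CRef := CRef.mk (Pat.mk 0x700000000000000040000000400000004 0x380000001f0000003c000000040000000400000004 5 6) 0 0 (step_sound _ 131 [(rh3fc3a7fb6866dcd4.shift 0 3), (rh4fc80024ed3db095.shift 0 1), rhdf88d096527d0db3] (by decide +kernel))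
noncomputable def rh7521335df5013644 : CRef := CRef.mk (Pat.mk 0x60000000a00000002 0x1f0000007e00000077 5 7) 0 0 (step_sound _ 36 [rh01e48cd9f335aa73, (rh83ec37ff6e78b01f.shift 0 1), rhc6338602faf8e7de] (by decide +kernel))
noncomputable def rhb47955ff731f7614 : CRef := CRef.mk (Pat.mk 0x2000000060000000200000002 0x5000000070000000700000003000000060000000600000002 5 3) 0 0 (step_sound _ 129 [(rh14f80659e6313cc6.shift 1 1), (rh1741680720c097b4.shift 0 1), rh3ca48e2a6d60153d] (by decide +kernel))
noncomputable def rh7c06803154092368 : CRef := CRef.mk (Pat.mk 0x1a000000020000000800000000 0x1000000010000000300000001e0000001b0000000800000008 5 6) 0 0 (step_sound _ 98 [(rhceed0e29dfbc434b.shift 1 0), (rheb0810cc63b001d8.shift 0 2)] (by decide +kernel))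
noncomputable def rhe2d1e09dd3b8803a : CRef := CRef.mk (Pat.mk 0xd000000010000000400000000 0x800000008000000380000001f0000003f0000000400000004 5 6) 0 0 (step_sound _ 97 [rhceed0e29dfbc434b, (rhd584a578337d0023.shift 0 2), (rhf3baec4a0a3dd35e.shift 0 2)] (by decide +kernel))
noncomputable def rh9977a3a78b1c0a5f : CRef := CRef.mk (Pat.mk 0x1e0000000000000000 0x200000002000000030000003e0000000700000004 5 6) 0 0 (step_sound _ 33 [rha28726814a3beaac, (rheb0810cc63b001d8.shift 0 1)] (by decide +kernel))
noncomputable def rh87681ba6c867709f : CRef := CRef.mk (Pat.mk 0xf00000000 0x780000003f00000078 5 7) 0 0 (step_sound _ 36 [rh4ad5fc38f1b69f65, (rh9890f9d77740bbed.shift 0 1), (rha93a5dd541ab8209.shift 1 0)] (by decide +kernel))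
noncomputable def rh8423cfba4e63a652 : CRef := CRef.mk (Pat.mk 0x800000008000000080000003800000000 0x8000000080000007f0000003e00000004 5 7) 0 0 (step_sound _ 34 [(rh61325f73ebf98108.shift 0 1), (rh932754581e0f4330.shift 2 0)] (by decide +kernel))
noncomputable def rhe7e56187b4834028 : CRef := CRef.mk (Pat.mk 0x1e0000001a0000000800000000 0x40000000400000006000000070000001e0000001e0000000b00000003 5 5) 0 0 (step_sound _ 129 [(rh3244c3cc8379b070.shift 0 3), rh8cae4dc543f70a95] (by decide +kernel))
noncomputable def rh427b18cb5af6a3d8 : CRef := CRef.mk (Pat.mk 0x1e00000000 0xe70000007e000000e0 5 8) 0 0 (step_sound _ 37 [(rha93a5dd541ab8209.shift 2 0), (rhd5eb272e07a4e288.shift 0 1)] (by decide +kernel))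
noncomputable def rh00715ddcf8ecd76b : CRef := CRef.mk (Pat.mk 0x1a0000001800000008 0x1c0000001c0000001f0000001b0000001800000008 5 5) 0 0 (step_sound _ 99 [(rh2ddd6c94c59240f8.shift 3 0), (rh7b9fbdf6d2d059e4.shift 2 0), (rhc85cc95794737cf7.shift 2 0), rhc89d3265e5632fc6] (by decide +kernel))
noncomputable def rh0cf8a3cd1e9bb579 : CRef := CRef.mk (Pat.mk 0x180000001800000008 0x1c0000001c0000001f000000780000001800000008 5 7) 0 0 (step_sound _ 99 [(rh2ddd6c94c59240f8.shift 3 0), (rh7b9fbdf6d2d059e4.shift 2 0), rhdb019b0e908810fb] (by decide +kernel))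
noncomputable def rh487e398f2023ec8e : CRef := CRef.mk (Pat.mk 0x1e0000000a0000000000000000 0x4000000040000000f0000003e0000000a0000000800000008 5 6) 0 0 (step_sound _ 129 [(rh3244c3cc8379b070.shift 0 3), (rh8d7eda3b6a8a2015.shift 1 0)] (by decide +kernel))
noncomputable def rhae2b00f358a32051 : CRef := CRef.mk (Pat.mk 0x100000000200000002000000020000000200000000 0x2000000060000001f0000000300000003000000030000000200000002 5 5) 0 0 (step_sound _ 128 [(rh50fbb5868c909700.shift 0 1), rhe6214c1c44b2bb43] (by decide +kernel))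
noncomputable def rh36a57c5f2b6aeda1 : CRef := CRef.mk (Pat.mk 0x100000001a0000000200000000 0x400000004000000370000003e0000000200000002 5 6) 0 0 (step_sound _ 66 [(rh33e738c4ed385b9f.shift 1 2), rhaf661323c6e1d2ba] (by decide +kernel))
noncomputable def rhd7383e6e876f0e67 : CRef := CRef.mk (Pat.mk 0x1400000004000000000000000c00000000 0xa0000001e00000007000000040000000c0000000c 5 5) 0 0 (step_sound _ 66 [(rh55afc6a59410cf00.shift 2 0), rhbcc6f886ba73a011] (by decide +kernel))
noncomputable def rha4af4eafa49db91d : CRef := CRef.mk (Pat.mk 0x6000000020000000e0000000a0000000000000000 0x300000003000000070000000e0000000e0000000a0000000800000008 5 4) 0 0 (step_sound _ 192 [rh8189445942598317, (rhffd04209dc8ea796.shift 0 2)] (by decide +kernel))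
noncomputable def rh5c7452165e7e38a4 : CRef := CRef.mk (Pat.mk 0x800000002000000180000000c000000000000000000000000 0xa0000000a0000001a0000000f000000060000000400000004 5 5) 0 0 (step_sound _ 66 [rh62e53aa2fb15efd7, (rhee230b994cc8b773.shift 2 2)] (by decide +kernel))
noncomputable def rh0956dae0e4638e81 : CRef := CRef.mk (Pat.mk 0x1800000062000000300000000600000000 0x40000003e000001e3000000320000000600000004 5 9) 0 0 (step_sound _ 103 [(rh18965a982d73c794.shift 4 2), rh34c51e703bdbd1b9] (by decide +kernel))
noncomputable def rh2900058440e8ae56 : CRef := CRef.mk (Pat.mk 0x40000000700000004000000000000000000000000 0x80000003e00000007000000040000000e0000000e0000000a 5 6) 0 0 (step_sound _ 66 [(rh1eeec04e73117746.shift 0 2), (rh5c651669912fbab1.shift 1 0), (rh8cdd36b03d57a2f6.shift 1 0)] (by decide +kernel))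
noncomputable def rh145442cd3bdfda18 : CRef := CRef.mk (Pat.mk 0x7800000002 0xe70000007e00000003 5 8) 0 0 (step_sound _ 70 [(rh33e738c4ed385b9f.shift 3 1), rh8665c592092b269a] (by decide +kernel))
noncomputable def rh416b7159d5a5d59d : CRef := CRef.mk (Pat.mk 0x38000000020000002000000020 0x170000003e000000630000002000000020 5 7) 0 0 (step_sound _ 69 [(rh50fbb5868c909700.shift 4 0), (rh7e2b9951da22c484.shift 0 2)] (by decide +kernel))
noncomputable def rh93f42258268db2fc : CRef := CRef.mk (Pat.mk 0x10000000020000003800000008 0x140000001e0000001f0000003800000008 5 6) 0 0 (step_sound _ 67 [(rh075211c3608a5a57.shift 0 1), (rh93edfa1f77289b62.shift 3 0), rhd908ba6d9975de61] (by decide +kernel))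
noncomputable def rh05e901ba99ed5efd : CRef := CRef.mk (Pat.mk 0x1c00000001 0x770000003e00000003 5 7) 0 0 (step_sound _ 33 [rh80fcd6d0a18cb2dd, (rhb18e6c78a554867d.shift 0 1)] (by decide +kernel))
noncomputable def rhe16b0a92c8da5228 : CRef := CRef.mk (Pat.mk 0x200000000c000000400000004400000040 0x800000088000000fc000000ef000000440000004400000044 5 8) 0 0 (step_sound _ 102 [rhf7ec0c0bf5669b43, (rhffd04209dc8ea796.shift 5 0)] (by decide +kernel))
noncomputable def rhc98fbc63d71763af : CRef := CRef.mk (Pat.mk 0x200000000c0000004000000044000000400000000000000000 0x800000088000000fc000000cf0000004400000044000000e4000000e0000000a0 5 8) 0 0 (step_sound _ 166 [(rh8cdd36b03d57a2f6.shift 5 0), (rhf7ec0c0bf5669b43.shift 0 2)] (by decide +kernel))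
noncomputable def rh01c2cbc35a6b8288 : CRef := CRef.mk (Pat.mk 0x2000000030000000c0 0x700000007e000000c7 5 8) 0 0 (step_sound _ 35 [rhb103f40a53fe1424, (rhd6e447e81774439e.shift 3 0)] (by decide +kernel))
noncomputable def rh9ff0bceb6239a573 : CRef := CRef.mk (Pat.mk 0xa000000180000000c00000000 0x100000007c0000000f000000180000000c00000004 5 7) 0 0 (step_sound _ 131 [(rh648704db37c0fcc4.shift 0 1), (rh932754581e0f4330.shift 2 0)] (by decide +kernel))
noncomputable def rh5837a57d7c97da75 : CRef := CRef.mk (Pat.mk 0x4000000030000003a0000002a0000000000000000 0x140000001e000000330000003a0000002a0000002000000020 5 6) 0 0 (step_sound _ 161 [(rh2f68792b6b779e96.shift 1 2), rh97df2128bc730876] (by decide +kernel))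
noncomputable def rh9d164480263af76b : CRef := CRef.mk (Pat.mk 0x100000006000000020000003a000000280000000000000000 0x1000000130000001e000000320000003a000000280000002000000020 5 6) 0 0 (step_sound _ 193 [(rh50fbb5868c909700.shift 0 3), rhe8b1bf46e6b65faa] (by decide +kernel))
noncomputable def rhaa4aab183877d995 : CRef := CRef.mk (Pat.mk 0x1e000000180000000a00000000 0x14000000170000003e0000001a0000000a00000002 5 6) 0 0 (step_sound _ 164 [rh1acd7c8ef3e0031d, (rhee230b994cc8b773.shift 3 1)] (by decide +kernel))
noncomputable def rha54777067a2f7b62 : CRef := CRef.mk (Pat.mk 0x90000001c00000007000000000000000000000000 0x50000000f0000001d00000007000000030000000200000002 5 5) 0 0 (step_sound _ 162 [rh1b8205aeab53059f, (rhab22b5b56e7b3243.shift 0 4)] (by decide +kernel))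
noncomputable def rhf92edbcf3d10063c : CRef := CRef.mk (Pat.mk 0x1e000000180000000800000000 0x4000000040000003e0000001f0000000b00000002 5 6) 0 0 (step_sound _ 65 [rh436b44d34414ee83, (rheb0810cc63b001d8.shift 0 2)] (by decide +kernel))
noncomputable def rh4113266305f7f513 : CRef := CRef.mk (Pat.mk 0xa0000000b000000180000000800000000 0x2000000020000000a0000000b0000001b0000000f00000005 5 5) 0 0 (step_sound _ 34 [(rh932754581e0f4330.shift 2 0), rhef0c7f45c46c2d64] (by decide +kernel))
noncomputable def rh30a6383b9d7a72fd : CRef := CRef.mk (Pat.mk 0x10000000100000001c0000001000000010 0x300000003000000038000000180000001f0000001000000010 5 6) 0 0 (step_sound _ 99 [(rh1f1124cdb70aa310.shift 0 1), (rh50fbb5868c909700.shift 3 0)] (by decide +kernel))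
noncomputable def rhe936c95feb74ead4 : CRef := CRef.mk (Pat.mk 0x40000000c0000001c000000080000000000000000 0x80000000c0000000f0000001c0000000f0000000600000006 5 5) 0 0 (step_sound _ 128 [rh8f62a481ce9293f6, (rhab22b5b56e7b3243.shift 0 3)] (by decide +kernel))
noncomputable def rh5a29fa061ccd508c : CRef := CRef.mk (Pat.mk 0x2000000030000000e00000004 0x80000001f0000003f0000000f00000004 5 6) 0 0 (step_sound _ 67 [rh006fb59e5a4558ab, (rh637906290267366a.shift 0 1), rhc7fbeba8b6af5dd2] (by decide +kernel))
noncomputable def rh2d066ac7b6f55303 : CRef := CRef.mk (Pat.mk 0x80000000c000000180000001000000000 0x40000000c0000000f000000780000001e0000000c 5 7) 0 0 (step_sound _ 97 [(rhb739f4f82bb681b4.shift 0 2), (rhec7286d79d970a12.shift 1 0)] (by decide +kernel))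
noncomputable def rha15abe97501c09ac : CRef := CRef.mk (Pat.mk 0x4000000060000001c0000000800000000 0x100000003c0000003e0000001e0000000b00000002 5 6) 0 0 (step_sound _ 65 [(rh109640f491574d7e.shift 1 1), rh9c40a739b57d6d20] (by decide +kernel))
noncomputable def rhc31e1a2727346e0c : CRef := CRef.mk (Pat.mk 0xf0000000c0000002000000000 0x380000007f0000006c0000002000000020 5 7) 0 0 (step_sound _ 132 [(rh427f925b08200aad.shift 1 0), (rh428265de8cd3cd2d.shift 0 3)] (by decide +kernel))
noncomputable def rheb2cda520f051383 : CRef := CRef.mk (Pat.mk 0x40000000f0000000c00000008000000000000000000000000 0x3c0000007f0000000e0000000e000000060000000600000004 5 7) 0 0 (step_sound _ 98 [(rh1c214b98c27a159d.shift 1 0), (rh1e309b005ffa1b36.shift 2 1), (rh70f75251a6f67951.shift 0 4)] (by decide +kernel))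
noncomputable def rhe9878a50aac0bd7a : CRef := CRef.mk (Pat.mk 0x1e0000001000000010 0x2000000020000000700000003e0000001700000010 5 7) 0 0 (step_sound _ 33 [(rhcf7cf28850787f4e.shift 1 0), (rheb0810cc63b001d8.shift 0 1)] (by decide +kernel))
noncomputable def rh81337db91e26ab5b : CRef := CRef.mk (Pat.mk 0x4000000060000001c00000008000000000000000000000000 0xe0000000e0000001c0000000f000000060000000600000006 5 5) 0 0 (step_sound _ 98 [(rh46d6183566ef1216.shift 1 0), (rhe443475c6fff10d6.shift 1 1), (rhf5094ad2a427d4d3.shift 0 2)] (by decide +kernel))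
noncomputable def rh943cbf2d38755a25 : CRef := CRef.mk (Pat.mk 0x3800000040 0x700000003e00000067 5 7) 0 0 (step_sound _ 34 [rh7654d7b92c96fe12, (rh96851dee118c1ba3.shift 2 0)] (by decide +kernel))
noncomputable def rhe75cb24bf19af6cd : CRef := CRef.mk (Pat.mk 0x1e00000000 0x370000003e00000007 5 6) 0 0 (step_sound _ 68 [(rh33e738c4ed385b9f.shift 1 1), rh47c07cd0cc865f65] (by decide +kernel))
noncomputable def rh1a54bde169c54e1b : CRef := CRef.mk (Pat.mk 0x12000000060000000200000000 0x500000007000000070000001e000000060000000600000002 5 5) 0 0 (step_sound _ 129 [(rh14f80659e6313cc6.shift 1 1), (rh3da62da861143b9a.shift 0 1), (rhc85cc95794737cf7.shift 0 1), rhfc0fa269c989ad37] (by decide +kernel))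
noncomputable def rh2f4264054a10d1fa : CRef := CRef.mk (Pat.mk 0x100000001e000000180000001000000000 0x400000004000000170000003e0000001c0000001800000008 5 6) 0 0 (step_sound _ 35 [(rh932754581e0f4330.shift 3 0), (rhc3bb0f1b2af200a9.shift 0 1)] (by decide +kernel))
noncomputable def rha477348e8890404e : CRef := CRef.mk (Pat.mk 0x1e00000018 0xe0000000fe0000001f 5 8) 0 0 (step_sound _ 1 [(rh6d2a808545573a13.shift 1 0), rheb0810cc63b001d8] (by decide +kernel))
noncomputable def rh7bb630587de45a0e : CRef := CRef.mk (Pat.mk 0x40000000e0000001800000010000000000000000000000000 0xc0000000e0000001f0000001f0000000f0000000400000004 5 5) 0 0 (step_sound _ 99 [(rh7b1f1fb55310c477.shift 2 2), rh7d21396ac91cee51] (by decide +kernel))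
noncomputable def rh08d8da6ad145b4e8 : CRef := CRef.mk (Pat.mk 0x8000000180000003c0000000000000000 0x4000000060000000f0000001e0000003c0000000e00000008 5 6) 0 0 (step_sound _ 98 [rh17c9f13d6a1c2afb, (rh3244c3cc8379b070.shift 1 2)] (by decide +kernel))
noncomputable def rh4ea61d91c7b45512 : CRef := CRef.mk (Pat.mk 0x60000001c00000008000000000000000000000000 0x20000000200000006000000060000001e0000000f000000060000000600000006 5 5) 0 0 (step_sound _ 98 [(rh46d6183566ef1216.shift 1 0), rh5f4ebaa0ad71bbd5, rha0fc30dd808625c1, (rhb1a251d9bff81766.shift 1 2)] (by decide +kernel))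
noncomputable def rh9311bff356bd1036 : CRef := CRef.mk (Pat.mk 0xe0000000800000008 0x10000000100000003f0000003e0000007800000008 5 7) 0 0 (step_sound _ 68 [(rh3947d1dfff0afc6c.shift 0 1), (rh49606a42a30c7ac4.shift 1 0), (rh94246470f0e6fdf7.shift 1 0)] (by decide +kernel))
noncomputable def rh6ffdc9b6760f019c : CRef := CRef.mk (Pat.mk 0x6000000020000000600000004000000000000000000000000 0x400000006000000060000000600000006000000030000000300000003 5 3) 0 0 (step_sound _ 97 [(rh2f68792b6b779e96.shift 1 3), rhee95c19ccb9d5067] (by decide +kernel))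
noncomputable def rh0d7a0838762d3de4 : CRef := CRef.mk (Pat.mk 0x4000000070000001c00000008000000000000000000000000 0x80000003e000000070000001c0000000f000000060000000600000006 5 6) 0 0 (step_sound _ 98 [(rh1eeec04e73117746.shift 0 3), (rh46d6183566ef1216.shift 1 0), (rhf5094ad2a427d4d3.shift 0 2)] (by decide +kernel))
noncomputable def rhfc686f2c325d1902 : CRef := CRef.mk (Pat.mk 0x6000000030000000600000004000000000000000000000000 0x400000007000000030000000600000006000000030000000300000003 5 3) 0 0 (step_sound _ 97 [(rh2f68792b6b779e96.shift 1 3), rh46d6183566ef1216] (by decide +kernel))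
noncomputable def rh2a93610f372db098 : CRef := CRef.mk (Pat.mk 0xe000000100000001000000000 0x10000000300000001f000000380000001800000008 5 6) 0 0 (step_sound _ 100 [rh1757c5eb72c15b0f, (rhe25b0a99195a5d59.shift 1 2)] (by decide +kernel))
noncomputable def rhd283a685d2618d5b : CRef := CRef.mk (Pat.mk 0x80000001e00000018 0x30000000300000003f0000001e00000018 5 6) 0 0 (step_sound _ 68 [(rh33e738c4ed385b9f.shift 1 1), rha2b37da49d51aaf0] (by decide +kernel))
noncomputable def rha44bc9217eccd07b : CRef := CRef.mk (Pat.mk 0x6000000030000000400000004 0x7c0000001f000000070000000400000004 5 7) 0 0 (step_sound _ 99 [(rh18965a982d73c794.shift 0 2), rhb610a44bb7d47cab] (by decide +kernel))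
noncomputable def rha9e19554bd711938 : CRef := CRef.mk (Pat.mk 0x80000000c000000080000001e0000000000000000 0x100000001c0000000c0000000f0000001e0000000300000002 5 5) 0 0 (step_sound _ 164 [(rh2f68792b6b779e96.shift 3 2), rhd9fe5b86fad30047] (by decide +kernel))
noncomputable def rhe60dfcd57baa5bc1 : CRef := CRef.mk (Pat.mk 0xe000000180000001000000000 0x10000000370000003e0000001f0000001800000008 5 6) 0 0 (step_sound _ 100 [(rh47c07cd0cc865f65.shift 0 2), (rh7ff601fc6d1f05ff.shift 1 0)] (by decide +kernel))
noncomputable def rh9a07ed6d8ab07e0b : CRef := CRef.mk (Pat.mk 0x180000001c00000000 0x1f0000003f00000007 5 6) 0 0 (step_sound _ 33 [(rh53b3c253cb0c65f4.shift 0 1), rh5f7b3bfbaf903d4f] (by decide +kernel))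
noncomputable def rh3984a1b7de841ff3 : CRef := CRef.mk (Pat.mk 0x60000000400000014000000000000000000000000 0x400000006000000060000001c0000000f0000000e0000000a 5 5) 0 0 (step_sound _ 66 [(rh15f443a9a462a99b.shift 0 1), (rh8cdd36b03d57a2f6.shift 1 0), (rha613ffd40b6c9d24.shift 1 0), (rhe4441baab75a6f73.shift 1 0)] (by decide +kernel))
noncomputable def rhe344085bcd0133c7 : CRef := CRef.mk (Pat.mk 0xc0000000800000038000000000000000000000000 0xc0000000c000000380000001f0000001c00000014 5 6) 0 0 (step_sound _ 67 [(rh852e818bc8629e77.shift 0 1), (rh8cdd36b03d57a2f6.shift 2 0), (rha613ffd40b6c9d24.shift 2 0), (rhe4441baab75a6f73.shift 2 0)] (by decide +kernel))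
noncomputable def rh6ad33c5cad3d45f3 : CRef := CRef.mk (Pat.mk 0x90000000f000000310000001000000000 0x8000000090000000d0000000f000000370000001e00000006 5 6) 0 0 (step_sound _ 33 [rh390a8df03c6c5a62, (rhc2c09d2cca6704a9.shift 1 0)] (by decide +kernel))
noncomputable def rh91195d2f9fd9a558 : CRef := CRef.mk (Pat.mk 0x50000001c000000100000000000000000 0x280000007f0000001c000000100000001000000010 5 7) 0 0 (step_sound _ 131 [(rha7e239a8204be023.shift 2 0), (rhab22b5b56e7b3243.shift 0 3)] (by decide +kernel))
noncomputable def rhb4f4feeb79065e1f : CRef := CRef.mk (Pat.mk 0x60000000200000002000000000000000000000000 0x100000003000000070000000700000003000000030000000300000001 5 3) 0 0 (step_sound _ 65 [(rh771d065bdc85bf2d.shift 0 1), rha8bc3cae4d77a08f, (rhffd0ff6f60fa3c9a.shift 0 1)] (by decide +kernel))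
noncomputable def rh05154ecd4be11f67 : CRef := CRef.mk (Pat.mk 0x1000000008000000080000000a00000018 0x40000001c0000001c000000080000000c0000000f00000018 5 5) 0 0 (step_sound _ 131 [(rh2f68792b6b779e96.shift 3 1), rh5435a63a27e44fb9] (by decide +kernel))
noncomputable def rhc6e7c4c6d98d37ba : CRef := CRef.mk (Pat.mk 0x1000000010000000100000007000000040000000000000000 0x1000000010000000b0000001f00000007000000040000000400000004 5 5) 0 0 (step_sound _ 129 [(rh2145e1d24b96a57e.shift 0 3), rha7e239a8204be023] (by decide +kernel))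
noncomputable def rh181f5bebce65a136 : CRef := CRef.mk (Pat.mk 0x10000000000000001e0000001800000008 0x180000001c0000000f0000003e0000001800000008 5 6) 0 0 (step_sound _ 97 [(rh3244c3cc8379b070.shift 0 2), (rha1b6a7ccaa103011.shift 1 0)] (by decide +kernel))
noncomputable def rh536fe968b822c28b : CRef := CRef.mk (Pat.mk 0x380000000c0000000400000004 0xa0000001f0000003a0000000f0000000600000004 5 6) 0 0 (step_sound _ 131 [(rh5c5e593799055d58.shift 2 1), rheff388bd46fcfcaa] (by decide +kernel))
noncomputable def rh4c48a68e1f06589f : CRef := CRef.mk (Pat.mk 0x2000000180000000e000000000000000000000000 0xa0000001f0000007a0000000e000000060000000400000004 5 7) 0 0 (step_sound _ 133 [(rh18965a982d73c794.shift 2 3), rh97e9b8aefb4c3c5c] (by decide +kernel))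
noncomputable def rhdaf597e0539ea0b7 : CRef := CRef.mk (Pat.mk 0x800000008000000080000001800000008 0x80000000c0000000f0000007c0000001800000008 5 7) 0 0 (step_sound _ 98 [(rh50fbb5868c909700.shift 2 0), (rhc2b978e6dcd8bb51.shift 0 1)] (by decide +kernel))
noncomputable def rh66d6a627e69b735a : CRef := CRef.mk (Pat.mk 0x1a00000002000000000000000600000000 0x50000000f0000001b00000002000000020000000600000004 5 5) 0 0 (step_sound _ 65 [(rh55afc6a59410cf00.shift 1 0), (rh769c8bac0b178383.shift 0 1)] (by decide +kernel))
noncomputable def rh8bd8cf717677b3e2 : CRef := CRef.mk (Pat.mk 0x180000001e00000010 0x1800000038000000380000001f0000001e00000010 5 6) 0 0 (step_sound _ 131 [rh4254176a2453c670, (rh6f1cbe15c631ee70.shift 3 0)] (by decide +kernel))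
noncomputable def rha3a3aa2a7b3a9dc0 : CRef := CRef.mk (Pat.mk 0x120000001e00000000 0x1e000000ff000000e0 5 8) 0 0 (step_sound _ 67 [(rh53b3c253cb0c65f4.shift 0 1), (rh9f8260404b4a157e.shift 1 0)] (by decide +kernel))
noncomputable def rh7781319fadf471a8 : CRef := CRef.mk (Pat.mk 0x2000000030000001a0000000800000000 0x30000000300000003000000030000001b0000000f00000001 5 5) 0 0 (step_sound _ 32 [rh00d6a6e3c7e3bb40, (rh64ab8015a8c26b6a.shift 0 1), rh8f094ad1b12c8fd3] (by decide +kernel))
noncomputable def rh1184b4bf56fce392 : CRef := CRef.mk (Pat.mk 0x2000000030000001a0000000800000000 0x100000007000000070000000700000003000000030000001b0000000f00000001 5 5) 0 0 (step_sound _ 161 [(rh03dfdf12d5937476.shift 0 1), rh48099badca17f586, (rh976a48eb1c80a12f.shift 0 2), (rhc85cc95794737cf7.shift 0 2)] (by decide +kernel))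
noncomputable def rhb21d2480c522bb83 : CRef := CRef.mk (Pat.mk 0x80000000c000000680000002000000000 0x140000003c0000000f000000680000003c00000010 5 7) 0 0 (step_sound _ 35 [(rh20ee5c2c4c3a9878.shift 0 1), (rh5d5b9b56c19874f2.shift 2 0)] (by decide +kernel))
noncomputable def rh0f845378ca896b13 : CRef := CRef.mk (Pat.mk 0xc000000080000000c0000000c 0x130000001f0000007c0000000f0000000c 5 7) 0 0 (step_sound _ 100 [(rh2f68792b6b779e96.shift 3 0), rh643ee7d79253bead] (by decide +kernel))
noncomputable def rh8b66d3c921f16fdb : CRef := CRef.mk (Pat.mk 0x2000000020000001a0000000800000000 0x50000000700000007000000020000001b0000000f00000005 5 5) 0 0 (step_sound _ 33 [rh5d5b9b56c19874f2, rh771d065bdc85bf2d, (rhc85cc95794737cf7.shift 0 1)] (by decide +kernel))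
noncomputable def rh7f8cdc644ba9beee : CRef := CRef.mk (Pat.mk 0x300000002000000020000000200000000 0x200000006000000060000000700000003000000030000000200000002 5 3) 0 0 (step_sound _ 162 [rh3fdc65c26121fc5d, (rhbaefcd01e0a8bca3.shift 1 1)] (by decide +kernel))
noncomputable def rh6484df2a4870bee6 : CRef := CRef.mk (Pat.mk 0x30000000c40000000000000004 0x70000007e000000c60000000400000004 5 8) 0 0 (step_sound _ 99 [(rhd6e447e81774439e.shift 3 2), rhee37d230d297e9fd] (by decide +kernel))
noncomputable def rh3d36087d3a7e0089 : CRef := CRef.mk (Pat.mk 0x80000001c00000000 0xff0000007e000000e0 5 8) 0 0 (step_sound _ 37 [(rh3fc3a7fb6866dcd4.shift 2 0), (rhb9d63ffe7f077fd8.shift 0 1), (rhe3060b190bc0bc78.shift 1 1)] (by decide +kernel))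
noncomputable def rh7697a0a97776f263 : CRef := CRef.mk (Pat.mk 0xc00000002000000080000000a 0x70000003e0000000b0000000a0000000a 5 6) 0 0 (step_sound _ 130 [(rh2613c889e411427e.shift 2 0), rh99db6f2591fa1dc7] (by decide +kernel))
noncomputable def rh6f2b0bd460f46bca : CRef := CRef.mk (Pat.mk 0x800000013000000100000001100000000 0x20000000a0000001f00000013000000110000001100000001 5 5) 0 0 (step_sound _ 132 [rh371e63d99a2375b6, (rh50fbb5868c909700.shift 3 1)] (by decide +kernel))
noncomputable def rh889672774368853b : CRef := CRef.mk (Pat.mk 0x1c000000040000000400000000 0xa0000000e0000000f0000001c000000060000000600000002 5 5) 0 0 (step_sound _ 130 [(rh039efe07c35de3d4.shift 0 1), (rh3b734c5288922837.shift 1 0), (rh771d065bdc85bf2d.shift 1 0)] (by decide +kernel))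
noncomputable def rh9e660d2b90c4f6db : CRef := CRef.mk (Pat.mk 0x6000000020000000200000001 0x400000007000000070000000300000006000000060000000300000001 5 3) 0 0 (step_sound _ 129 [(rh252bad32582c99d7.shift 0 1), rh79877ebd3ef475dd] (by decide +kernel))
noncomputable def rha502044e6132b15f : CRef := CRef.mk (Pat.mk 0xe0000000600000002 0x700000007000000070000003e0000000600000002 5 6) 0 0 (step_sound _ 97 [(rh2ddd6c94c59240f8.shift 1 0), rh7b9fbdf6d2d059e4, (rhb762f327c85d41a0.shift 0 1), rhc85cc95794737cf7] (by decide +kernel))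
noncomputable def rhe68a8af67b9b7089 : CRef := CRef.mk (Pat.mk 0x80000001b000000180000001100000000 0x32000000320000003f0000001b000000190000001100000001 5 6) 0 0 (step_sound _ 132 [rh371e63d99a2375b6, (rh5fa50b509d4ce753.shift 3 1)] (by decide +kernel))
noncomputable def rh3c06965d32928d6c : CRef := CRef.mk (Pat.mk 0x190000001c00000010 0x2000000020000000700000007f0000001c00000010 5 7) 0 0 (step_sound _ 66 [(rh7b1f2bd04e3db55f.shift 2 0), (rhab22b5b56e7b3243.shift 0 1)] (by decide +kernel))
noncomputable def rh4772b2e4db6bb7c0 : CRef := CRef.mk (Pat.mk 0xe0000000800000008 0x10000000770000003e0000007800000008 5 7) 0 0 (step_sound _ 68 [(rhb18e6c78a554867d.shift 0 2), (rhbbda3e5cf400e6dd.shift 1 0), (rhe401600d466b97cd.shift 0 1)] (by decide +kernel))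
noncomputable def rh55acdb8233e2cee1 : CRef := CRef.mk (Pat.mk 0x1c00000000 0xef0000007e000000f0 5 8) 0 0 (step_sound _ 37 [rh0d378fd9e8917c5a, (rh3fc3a7fb6866dcd4.shift 2 0), (rhb18e6c78a554867d.shift 1 1)] (by decide +kernel))
noncomputable def rhde3576515f6fb0bd : CRef := CRef.mk (Pat.mk 0xb0000000800000008000000000000000000000000 0x140000001e0000001b00000008000000080000001c0000001c00000014 5 5) 0 0 (step_sound _ 67 [(rh3c8f4260c625d1ca.shift 0 2), (rh8cdd36b03d57a2f6.shift 2 0)] (by decide +kernel))
noncomputable def rha25b7542b24b352b : CRef := CRef.mk (Pat.mk 0x1000000013000000100000001100000000 0x20000000a0000001f00000013000000110000001100000001 5 5) 0 0 (step_sound _ 131 [rh371e63d99a2375b6, (rh50fbb5868c909700.shift 3 1)] (by decide +kernel))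
noncomputable def rhfda22eb3ba441088 : CRef := CRef.mk (Pat.mk 0x90000001c0000000600000000 0x600000006000000060000000f0000001c0000000600000002 5 5) 0 0 (step_sound _ 98 [(rh623a731171d66e50.shift 1 0), (rhab22b5b56e7b3243.shift 0 2)] (by decide +kernel))
noncomputable def rhef766b8fed2451e2 : CRef := CRef.mk (Pat.mk 0x1e000000180000000a00000000 0x10000000170000003e0000001b0000000a00000002 5 6) 0 0 (step_sound _ 164 [rh6ed37a46f1e42752, (rhee230b994cc8b773.shift 3 1)] (by decide +kernel))
noncomputable def rhd463eba807e70b5c : CRef := CRef.mk (Pat.mk 0x3c000000040000000000000000 0x1000000018000000380000007f0000000c0000000c00000004 5 7) 0 0 (step_sound _ 67 [(rh18965a982d73c794.shift 2 2), rha5eed815a86aaa93] (by decide +kernel))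
noncomputable def rhf548895766fc3a93 : CRef := CRef.mk (Pat.mk 0x80000000c0000000c000000000000000000000000 0xc0000000c0000000f0000003c0000001c00000008 5 6) 0 0 (step_sound _ 66 [rh4e52571c9b7deb8d, (rh71222050f2c63a3a.shift 2 1)] (by decide +kernel))
noncomputable def rhcea87fa9fe548f5b : CRef := CRef.mk (Pat.mk 0x40000001c00000004000000000000000000000000 0xa0000000f0000001c000000040000000e0000000e0000000a 5 5) 0 0 (step_sound _ 66 [(rh039efe07c35de3d4.shift 0 2), (rh6eff4158bb400f47.shift 1 0), (rha707fb719e87fe6e.shift 2 1)] (by decide +kernel))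
noncomputable def rh007694a9b1ccf5be : CRef := CRef.mk (Pat.mk 0x80000003800000018000000000000001000000000 0x8000000380000003e0000000f0000001c0000001c 5 6) 0 0 (step_sound _ 98 [(rh53b3c253cb0c65f4.shift 1 3), rhbb928ac00fbfafb3] (by decide +kernel))
noncomputable def rh4baf89b8c0b8562a : CRef := CRef.mk (Pat.mk 0x10000000180000003800000008 0xc0000000c0000001f0000003e0000003800000018 5 6) 0 0 (step_sound _ 66 [rhb5860f65207a2f21, (rhb739f4f82bb681b4.shift 1 1)] (by decide +kernel))
noncomputable def rh13add8468e8c9a56 : CRef := CRef.mk (Pat.mk 0x3800000000 0xef0000007e0000000f 5 8) 0 0 (step_sound _ 34 [rh592c7139d2c44767, (rh6cc0f305be0098c0.shift 1 0), (rhb18e6c78a554867d.shift 1 1)] (by decide +kernel))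
noncomputable def rhebc741fc23f3edc5 : CRef := CRef.mk (Pat.mk 0x200000006000000020000000000000000 0x10000000700000007000000070000000600000006000000060000000600000006 5 3) 0 0 (step_sound _ 161 [(rh0fa4a62bba50784f.shift 0 2), (rh3da62da861143b9a.shift 0 2), (rhc85cc95794737cf7.shift 0 2), (rhca18712e5e5c7b8f.shift 1 0)] (by decide +kernel))
noncomputable def rh9a0e6a9463b8cbbb : CRef := CRef.mk (Pat.mk 0x30000001a00000002000000000000000000000000 0x40000000f0000001b00000002000000030000000300000001 5 5) 0 0 (step_sound _ 162 [(rhd6e447e81774439e.shift 0 4), rhe6c357c9e3c8d320] (by decide +kernel))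
noncomputable def rh3e188b388f427a5c : CRef := CRef.mk (Pat.mk 0x8000000090000001c0000000600000000 0x20000000f0000003f0000001c0000000600000002 5 6) 0 0 (step_sound _ 98 [rha813eb03930c4935, (rhab22b5b56e7b3243.shift 0 2)] (by decide +kernel))
noncomputable def rh09a42fed23f84208 : CRef := CRef.mk (Pat.mk 0xa000000020000000e0000000e0000000a0000000000000000 0xc0000000f0000001b0000000e0000000e0000000a0000000800000008 5 5) 0 0 (step_sound _ 35 [(rh45e9bbc9c117588b.shift 0 2), (rh7b1f1fb55310c477.shift 2 0)] (by decide +kernel))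
noncomputable def rh1b158c3433386da7 : CRef := CRef.mk (Pat.mk 0x7000000060000000400000000 0xc0000000c0000003c0000000f000000060000000600000002 5 6) 0 0 (step_sound _ 130 [(rh03dfdf12d5937476.shift 1 0), rh32af3ac9501babcd, (rh5fa50b509d4ce753.shift 1 1)] (by decide +kernel))
noncomputable def rh188dd7f519d15d21 : CRef := CRef.mk (Pat.mk 0xe00000010 0x70000003e00000037 5 6) 0 0 (step_sound _ 36 [rh47c07cd0cc865f65, (rhe25b0a99195a5d59.shift 1 0)] (by decide +kernel))
noncomputable def rha8e0a75650f27cc7 : CRef := CRef.mk (Pat.mk 0x1e0000000800000008 0x4000000040000000f0000003e0000000b00000008 5 6) 0 0 (step_sound _ 33 [rh3e34a007a92efc93, (rheb0810cc63b001d8.shift 0 1)] (by decide +kernel))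
noncomputable def rh2e1e8f7eff233e39 : CRef := CRef.mk (Pat.mk 0x1c000000020000002000000020 0x600000007e000000730000002000000020 5 7) 0 0 (step_sound _ 97 [(rha3bc93d59a5021b5.shift 1 0), (rheb0810cc63b001d8.shift 0 2)] (by decide +kernel))
noncomputable def rh81a21d9aef0e52d5 : CRef := CRef.mk (Pat.mk 0x2000000020000000e0000000a0000000000000000 0x300000003000000170000003e0000000e0000000a0000000800000008 5 6) 0 0 (step_sound _ 130 [(rh7b9fbdf6d2d059e4.shift 0 2), (rha7e239a8204be023.shift 1 0)] (by decide +kernel))
noncomputable def rhb948f9e11cc344dd : CRef := CRef.mk (Pat.mk 0x1800000003000000180000000c00000000 0x2000000020000001e000000030000001b0000000f00000001 5 5) 0 0 (step_sound _ 129 [(rhb2a0b9ccfb5cecd5.shift 0 3), rhef0c7f45c46c2d64] (by decide +kernel))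
noncomputable def rhfaed7a8ddd08c10d : CRef := CRef.mk (Pat.mk 0x38000000200000000400000004 0x70000003e000000630000000600000004 5 7) 0 0 (step_sound _ 98 [rhcbce130df63aa989, (rhe25b0a99195a5d59.shift 2 2)] (by decide +kernel))
noncomputable def rhb852e51028e2230d : CRef := CRef.mk (Pat.mk 0x1c000000100000000400000000 0x200000002000000070000001e000000340000000400000004 5 6) 0 0 (step_sound _ 97 [rh59377470057f4368, (rhe25b0a99195a5d59.shift 1 2)] (by decide +kernel))
noncomputable def rh41d56736f60b370d : CRef := CRef.mk (Pat.mk 0x38000000100000000000000008 0x70000003e0000003f0000000c00000008 5 6) 0 0 (step_sound _ 98 [(rh25efc5d5a6c022ff.shift 1 0), (rh4f8edb321cf5b49d.shift 0 2), (rh592c7139d2c44767.shift 0 2), (rhfcb55d5dc3b78d1f.shift 0 2)] (by decide +kernel))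
noncomputable def rh2fdd0b9c391ae134 : CRef := CRef.mk (Pat.mk 0x20000000200000002000000000000000000000000 0x3000000030000000300000007000000070000000700000005 5 3) 0 0 (step_sound _ 65 [rh8ff3dde5b1c639e0, rhc4526fc8abf298b6, (rhce9a49803a550f13.shift 0 1)] (by decide +kernel))
noncomputable def rh9094d17f6beeebe0 : CRef := CRef.mk (Pat.mk 0xc000000080000000b0000000900000001 0x100000001a0000001f0000000a0000000b0000000b00000001 5 5) 0 0 (step_sound _ 164 [(rhbaefcd01e0a8bca3.shift 3 1), rhdce86e7aa11c891c] (by decide +kernel))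
noncomputable def rh74cbd60fdcb32646 : CRef := CRef.mk (Pat.mk 0x3000000020000000200000001 0x100000007000000070000000600000003000000030000000300000001 5 3) 0 0 (step_sound _ 129 [(rh0de078aa0be653b2.shift 0 1), rh79877ebd3ef475dd] (by decide +kernel))
noncomputable def rhbc3856c45b8aec4f : CRef := CRef.mk (Pat.mk 0x180000001c000000000000000400000000 0x2000000020000001f0000001f000000040000000400000004 5 5) 0 0 (step_sound _ 97 [(rh53b3c253cb0c65f4.shift 0 3), rh59377470057f4368] (by decide +kernel))
noncomputable def rhcae3a3c87db277b3 : CRef := CRef.mk (Pat.mk 0x1000000038000000080000006800000000 0xc0000001e000000380000000f0000007c00000004 5 7) 0 0 (step_sound _ 66 [(rh5419adcd928dba20.shift 2 1), rh7fbb723c5f662f62] (by decide +kernel))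
noncomputable def rh8a1863ea2c9c8c4f : CRef := CRef.mk (Pat.mk 0x200000002000000060000000200000000 0x100000003000000030000000200000006000000070000000300000001 5 3) 0 0 (step_sound _ 32 [(rh7f5ee5bbfdef1c38.shift 0 1), rh932754581e0f4330] (by decide +kernel))
noncomputable def rhc53d4c24604c4d00 : CRef := CRef.mk (Pat.mk 0x60000000c0000000800000000 0x600000006000000060000003c0000000f00000006 5 6) 0 0 (step_sound _ 130 [(rh2145e1d24b96a57e.shift 2 1), rhec7286d79d970a12] (by decide +kernel))
noncomputable def rh88b18f70d98dafc2 : CRef := CRef.mk (Pat.mk 0x700000003000000060000000400000000 0x80000001f0000001b0000001e0000000600000002 5 5) 0 0 (step_sound _ 131 [(rh18965a982d73c794.shift 0 3), rh721b3ada8ab0e270] (by decide +kernel))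
noncomputable def rhd6bc10e2a6aa5684 : CRef := CRef.mk (Pat.mk 0x2000000030000000e00000006 0xd0000001f0000001b0000000e00000006 5 5) 0 0 (step_sound _ 96 [rh50fbb5868c909700, rh57eff74f907e72e6] (by decide +kernel))
noncomputable def rh2a8986bfcf51cd35 : CRef := CRef.mk (Pat.mk 0x380000001800000010 0x40000000c0000000e0000003f0000001f00000018 5 6) 0 0 (step_sound _ 66 [(rh0bd5ecf4a3398dd5.shift 1 0), (rhb14e2588a8d71db8.shift 0 1)] (by decide +kernel))
noncomputable def rhdf4e16e660edac6b : CRef := CRef.mk (Pat.mk 0x6000000030000000e00000004 0x80000001e0000007f0000000f00000004 5 7) 0 0 (step_sound _ 99 [(rh18965a982d73c794.shift 0 2), rh18ca8b2ce8e5adeb] (by decide +kernel))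
noncomputable def rh4476a440891ea183 : CRef := CRef.mk (Pat.mk 0x30000000e00000006000000000000000000000000 0x80000001c0000003f0000000f00000006000000020000000200000002 5 6) 0 0 (step_sound _ 65 [rh2f3e416c6263c0c2, (rh84d1c02a8954c6a8.shift 1 1), (rh89390e923f7aeebc.shift 0 2)] (by decide +kernel))
noncomputable def rhdc8faaa3c70cb170 : CRef := CRef.mk (Pat.mk 0x1000000016000000040000000000000000 0x200000002000000330000001e000000060000000400000004 5 6) 0 0 (step_sound _ 99 [(rh33e738c4ed385b9f.shift 1 3), rh6cc58692ec716844] (by decide +kernel))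
noncomputable def rhf1a474528309ec68 : CRef := CRef.mk (Pat.mk 0x2000000030000000600000006 0x1d0000001f000000070000000600000006 5 5) 0 0 (step_sound _ 96 [rh50fbb5868c909700, rhc26a734abad09058] (by decide +kernel))
noncomputable def rh4b1755f8285e3534 : CRef := CRef.mk (Pat.mk 0x1e000000080000000000000000 0x400000004000000070000003e0000000c0000000800000008 5 6) 0 0 (step_sound _ 129 [(rh3244c3cc8379b070.shift 0 3), (rhe11bc280e54b6337.shift 1 0)] (by decide +kernel))
noncomputable def rh6a17cdff47514499 : CRef := CRef.mk (Pat.mk 0x1a0000001c0000000000000000 0x200000002000000070000001e0000003c0000000400000004 5 6) 0 0 (step_sound _ 98 [rhd5889c99d29bf7d6, (rhf48373e13d2bc128.shift 1 2)] (by decide +kernel))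
noncomputable def rh42a1045e8e0be4df : CRef := CRef.mk (Pat.mk 0x10000000f0000000400000004 0x20000000200000003000000070000001f0000000500000005 5 5) 0 0 (step_sound _ 97 [rhc5aaa18b61c4d968, (rhf48373e13d2bc128.shift 0 2)] (by decide +kernel))
noncomputable def rh5a079197757c06bc : CRef := CRef.mk (Pat.mk 0x10000000380000001a0000001800000000 0x240000003e000000380000001b0000001f00000004 5 6) 0 0 (step_sound _ 34 [(rh1406536fc593550f.shift 1 0), (rh5c36e97be8af272f.shift 0 1)] (by decide +kernel))
noncomputable def rhc2e4765e51126ea2 : CRef := CRef.mk (Pat.mk 0x80000001c000000080000000800000000 0xe0000000f0000001c0000000c0000000c00000004 5 5) 0 0 (step_sound _ 130 [rh15f565d0e11abf5c, (rh50fbb5868c909700.shift 2 1)] (by decide +kernel))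
noncomputable def rha4ddb8f0ec247c95 : CRef := CRef.mk (Pat.mk 0x1800000003000000180000000c00000000 0x2000000020000001f00000003000000190000000f00000001 5 5) 0 0 (step_sound _ 129 [(rhb2a0b9ccfb5cecd5.shift 0 3), rhc9657af766e3888f] (by decide +kernel))
noncomputable def rhfc45e8cb23cac674 : CRef := CRef.mk (Pat.mk 0x180000001600000000 0x200000002000000030000003e0000003600000004 5 6) 0 0 (step_sound _ 66 [(rh18965a982d73c794.shift 1 1), rh436f4c10dd3f39d7] (by decide +kernel))
noncomputable def rh53dc07c2de49cbb7 : CRef := CRef.mk (Pat.mk 0x180000000b0000001a0000000800000000 0x10000001f0000000b0000001a0000000f00000006 5 5) 0 0 (step_sound _ 129 [(rhb2a0b9ccfb5cecd5.shift 0 3), rhfc0c2df79ac338e6] (by decide +kernel))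
noncomputable def rh6b0cc764f89c397f : CRef := CRef.mk (Pat.mk 0x10000000160000001400000010 0xb0000003e000000360000001400000014 5 6) 0 0 (step_sound _ 99 [rh49b9b33e602300ad, (rh50fbb5868c909700.shift 3 0)] (by decide +kernel))
noncomputable def rh1df241f7a941b841 : CRef := CRef.mk (Pat.mk 0x1800000018000000100000001000000000 0x260000003f00000038000000180000001800000008 5 6) 0 0 (step_sound _ 133 [(rh2f68792b6b779e96.shift 4 1), rhfc3c268ec51aa194] (by decide +kernel))
noncomputable def rh58be10f3c1c4917e : CRef := CRef.mk (Pat.mk 0x7000000060000000400000000 0xc0000000c0000003c0000000f000000060000000600000002 5 6) 0 0 (step_sound _ 130 [(rh03dfdf12d5937476.shift 1 0), (rh5fa50b509d4ce753.shift 1 1), rhf40270103ba82e7c] (by decide +kernel))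
noncomputable def rh0d1ab260d4dd6524 : CRef := CRef.mk (Pat.mk 0xe0000000c00000000 0x200000002000000730000007e0000000f00000004 5 7) 0 0 (step_sound _ 68 [(rh9462503d16fc4086.shift 1 1), rhdd3ef923ff6c7ad5] (by decide +kernel))
noncomputable def rh30bfb683562752ca : CRef := CRef.mk (Pat.mk 0x1e0000000a0000000800000000 0x6000000070000003e0000000e0000000c00000004 5 6) 0 0 (step_sound _ 66 [(rh18965a982d73c794.shift 1 2), rha7c666192f458a6e] (by decide +kernel))
noncomputable def rh1bd65acde5b3b712 : CRef := CRef.mk (Pat.mk 0xe0000000800000008 0x1000000010000000780000007e0000007f00000008 5 7) 0 0 (step_sound _ 68 [(rh300eedc557b86950.shift 1 1), (rh3b00e9e9432b8f40.shift 0 1), (rh49606a42a30c7ac4.shift 1 0)] (by decide +kernel))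
noncomputable def rh659cac76b0a88dc0 : CRef := CRef.mk (Pat.mk 0xe0000000800000008 0x1000000010000000770000003e0000007f00000008 5 7) 0 0 (step_sound _ 68 [(rh3947d1dfff0afc6c.shift 0 1), (rh3b00e9e9432b8f40.shift 0 1), (rh94246470f0e6fdf7.shift 1 0)] (by decide +kernel))
noncomputable def rh87602db817253040 : CRef := CRef.mk (Pat.mk 0x1c0000001c000000180000000800000000 0x30000001f0000001c0000007c0000000c00000004 5 7) 0 0 (step_sound _ 70 [(rh2fe78cc5ca4405d8.shift 2 2), rhcf217803b01e13b7] (by decide +kernel))
noncomputable def rh86843d30e3111f67 : CRef := CRef.mk (Pat.mk 0x4000000070000000400000006 0xc0000003e000000070000001e00000006 5 6) 0 0 (step_sound _ 33 [(rh5c5e593799055d58.shift 1 0), rhd77f5ef34256fc46] (by decide +kernel))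
noncomputable def rhe77cdbae63d92bd9 : CRef := CRef.mk (Pat.mk 0x1c00000010 0x70000003e00000037 5 6) 0 0 (step_sound _ 33 [rhaeebc73f5a9c796a, (rhe25b0a99195a5d59.shift 1 0)] (by decide +kernel))
noncomputable def rh2a10de59957b9e43 : CRef := CRef.mk (Pat.mk 0x3c00000000 0x670000003e00000007 5 7) 0 0 (step_sound _ 69 [(rh33e738c4ed385b9f.shift 2 1), rh775ca1963e850b80] (by decide +kernel))
noncomputable def rh82d90cade0b08c2c : CRef := CRef.mk (Pat.mk 0x70000001c0000000c00000000 0xa0000001e000000070000001c0000000f00000002 5 5) 0 0 (step_sound _ 33 [(rh53b3c253cb0c65f4.shift 0 1), rh802c7087213427b5] (by decide +kernel))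
noncomputable def rh5ee6bfaca9f0fed8 : CRef := CRef.mk (Pat.mk 0x1e00000002000000020000000000000000 0x30000001e00000002000000070000000700000005 5 5) 0 0 (step_sound _ 161 [(rh3244c3cc8379b070.shift 0 4), rh8cdd36b03d57a2f6] (by decide +kernel))
noncomputable def rh56cc3e1ac19432a5 : CRef := CRef.mk (Pat.mk 0x12000000120000001200000012 0x50000002700000037000000120000001200000012 5 6) 0 0 (step_sound _ 101 [(rh2f68792b6b779e96.shift 4 0), rhc85cc95794737cf7] (by decide +kernel))
noncomputable def rheaa0e3c47ddb5ce8 : CRef := CRef.mk (Pat.mk 0x180000001c0000000400000000 0x40000000e0000000f0000001f0000003c0000000c00000008 5 6) 0 0 (step_sound _ 131 [(rh5c5e593799055d58.shift 2 1), rhe821dd2a9165c708] (by decide +kernel))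
noncomputable def rh9268484a68aeb700 : CRef := CRef.mk (Pat.mk 0x180000001c000000340000000400000000 0x60000001f0000001c0000003c0000000e00000008 5 6) 0 0 (step_sound _ 67 [rh998f0b184bcc059b, (rheb0810cc63b001d8.shift 1 1)] (by decide +kernel))
noncomputable def rhb2bddacb8295035d : CRef := CRef.mk (Pat.mk 0x100000001c0000000c0000000400000000 0xe0000001f0000001c0000000c0000000c00000008 5 5) 0 0 (step_sound _ 35 [(rh71222050f2c63a3a.shift 3 0), (rh8df5795807c01d70.shift 0 1)] (by decide +kernel))
noncomputable def rhff746848bf65afb6 : CRef := CRef.mk (Pat.mk 0x400000006000000080000000800000000 0x400000004000000060000003e0000000f00000002 5 6) 0 0 (step_sound _ 66 [(rh2145e1d24b96a57e.shift 2 1), rhfea2cc2f5edf90c1] (by decide +kernel))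
noncomputable def rhf14b1e043008d8da : CRef := CRef.mk (Pat.mk 0x8000000000000001c0000001e000000060000000000000000 0x180000001a000000330000001e0000001e000000060000000200000002 5 6) 0 0 (step_sound _ 33 [(rh2a3da572bcee6168.shift 0 2), (rh71222050f2c63a3a.shift 1 0)] (by decide +kernel))
noncomputable def rh3190ddce5a11f5a8 : CRef := CRef.mk (Pat.mk 0x4000000100000001c000000000000000000000000 0x400000004000000360000001e000000030000000200000002 5 6) 0 0 (step_sound _ 97 [(rh33e738c4ed385b9f.shift 1 3), rhf3caf215570e71a5] (by decide +kernel))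
noncomputable def rh988050a6fa3e9d04 : CRef := CRef.mk (Pat.mk 0x3800000040 0x700000003e00000067 5 7) 0 0 (step_sound _ 34 [(rh96851dee118c1ba3.shift 2 0), rh9e97bba44c1b13e4] (by decide +kernel))
noncomputable def rh564e267758468e04 : CRef := CRef.mk (Pat.mk 0x20000001e000000020000000000000000 0x200000007000000070000003e0000001e000000060000000200000002 5 6) 0 0 (step_sound _ 132 [rh1a65fd664a8b8455, (rh33e738c4ed385b9f.shift 1 3)] (by decide +kernel))
noncomputable def rhf5a1f18b35c2c7bc : CRef := CRef.mk (Pat.mk 0x100000001e00000000 0x1e0000007f00000007 5 7) 0 0 (step_sound _ 1 [rh67dadc490f6a2b0a, rheb0810cc63b001d8] (by decide +kernel))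
noncomputable def rh731f3ebca979647f : CRef := CRef.mk (Pat.mk 0x80000001c0000000c0000000000000000 0x6000000060000000f0000001c0000000c0000000c0000000c 5 5) 0 0 (step_sound _ 34 [(rh71222050f2c63a3a.shift 2 0), rhd8b83107b84ab88d] (by decide +kernel))
noncomputable def rh1e91a951ee12cbbd : CRef := CRef.mk (Pat.mk 0x60000001a0000000e000000040000000000000000 0x10000000380000001e0000001b0000000e000000040000000400000004 5 6) 0 0 (step_sound _ 34 [(rh7b1f1fb55310c477.shift 1 0), (rheef7d5e789be0456.shift 0 2)] (by decide +kernel))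
noncomputable def rh4b61a811a4171636 : CRef := CRef.mk (Pat.mk 0x30000000e0000000700000000 0xc0000001e0000000f0000000e0000000700000001 5 5) 0 0 (step_sound _ 129 [rh932754581e0f4330, (rhe0af9f7b1164cb64.shift 0 1)] (by decide +kernel))
noncomputable def rhb67fb61e5a664ab5 : CRef := CRef.mk (Pat.mk 0x4000000160000001a0000000a 0x130000003f000000360000001a0000000a 5 6) 0 0 (step_sound _ 100 [(rh5c5e593799055d58.shift 3 0), rhcffc1100afbc4aef] (by decide +kernel))
noncomputable def rh161b377929e491af : CRef := CRef.mk (Pat.mk 0x2000000030000000c0000000700000000 0xc0000001e0000000f0000000e0000000700000001 5 5) 0 0 (step_sound _ 65 [rh932754581e0f4330, (rhe0af9f7b1164cb64.shift 0 1)] (by decide +kernel))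
noncomputable def rh92ca7083b53c6ac4 : CRef := CRef.mk (Pat.mk 0x3000000030000000c00000006 0xd0000001f0000000f0000000e00000006 5 5) 0 0 (step_sound _ 33 [rh50fbb5868c909700, rhe0af9f7b1164cb64] (by decide +kernel))
noncomputable def rh6e89f1d5c7e3b33e : CRef := CRef.mk (Pat.mk 0x60000001c0000000c000000000000000000000000 0x10000000380000003e0000001f0000000c000000060000000600000006 5 6) 0 0 (step_sound _ 66 [(rh46530d756bdf8511.shift 1 0), (rh4a9aba01fee4029c.shift 0 2), (rhe4441baab75a6f73.shift 1 0)] (by decide +kernel))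
noncomputable def rh0346294028c2baab : CRef := CRef.mk (Pat.mk 0x20000000e00000018 0xe7000000fe00000018 5 8) 0 0 (step_sound _ 36 [(rh3244c3cc8379b070.shift 0 1), (rh88e70b8df69afeaa.shift 1 0)] (by decide +kernel))
noncomputable def rhb347705e89406b9c : CRef := CRef.mk (Pat.mk 0x30000000400000007000000000000000000000000 0x1000000030000000700000007000000030000000300000003 5 3) 0 0 (step_sound _ 65 [rh0588d2c7f2cab5e9, rhbe2ed2200cd61245, rhd79d2ecf89709c31, (rhdb2909ac5c854515.shift 0 2)] (by decide +kernel))
noncomputable def rh276b92895cffadbb : CRef := CRef.mk (Pat.mk 0x2000000060000001e0000000a0000000000000000 0x30000000300000003000000360000001e0000000a0000000800000008 5 6) 0 0 (step_sound _ 132 [(rh33e738c4ed385b9f.shift 1 3), rha24f73eabc846c73] (by decide +kernel))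
noncomputable def rhcaea2482bc503952 : CRef := CRef.mk (Pat.mk 0x2000000030000000700000004 0x80000001e0000001f0000001f00000004 5 5) 0 0 (step_sound _ 35 [rh109640f491574d7e, (rhf48373e13d2bc128.shift 0 1)] (by decide +kernel))
noncomputable def rh8b2d36c28c390ec0 : CRef := CRef.mk (Pat.mk 0x300000007000000040000000000000000 0x8000000080000001f0000001f000000040000000400000004 5 5) 0 0 (step_sound _ 99 [rh6eb76252a9026692, (rhf48373e13d2bc128.shift 0 3)] (by decide +kernel))
noncomputable def rh0f23d8f768c4ff38 : CRef := CRef.mk (Pat.mk 0x400000006000000000000000600000000 0x1000000070000000700000006000000060000000600000004 5 3) 0 0 (step_sound _ 129 [(rh807d78fa6ca78542.shift 1 0), (rhbb9f1ef96c38deb0.shift 0 1), (rhdd1b84382d19bcbb.shift 1 0)] (by decide +kernel))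
noncomputable def rh0892c6e71c888aa7 : CRef := CRef.mk (Pat.mk 0x20000000200000006000000300000001000000000 0x20000000600000006000000370000001f00000005 5 6) 0 0 (step_sound _ 34 [(rh3b5346b2e316d790.shift 1 0), rh6ef7c64351579691, (rhc140869848ea0f2e.shift 1 1)] (by decide +kernel))
noncomputable def rh71d72022feb6a164 : CRef := CRef.mk (Pat.mk 0x1a000000100000000200000000 0x4000000070000001e000000330000000200000002 5 6) 0 0 (step_sound _ 98 [rh75b63e46072e6b6d, (rhe25b0a99195a5d59.shift 1 2)] (by decide +kernel))
noncomputable def rh74d27e3a5c195e59 : CRef := CRef.mk (Pat.mk 0xc0000001c000000180000000800000000 0xc0000001f0000001b0000000f00000006 5 5) 0 0 (step_sound _ 97 [(rhb739f4f82bb681b4.shift 0 2), rhdd9aaa06458a6d73] (by decide +kernel))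
noncomputable def rh0445f8aec485ed09 : CRef := CRef.mk (Pat.mk 0x40000001e000000180000000000000000 0x70000001e0000001f0000000300000003 5 5) 0 0 (step_sound _ 65 [rh372df23d0ec787b3, (rheb0810cc63b001d8.shift 0 2)] (by decide +kernel))
noncomputable def rh9373d57ffb5050cd : CRef := CRef.mk (Pat.mk 0xa000000020000001a0000000a 0x3d0000001f000000120000001a0000000a 5 6) 0 0 (step_sound _ 98 [(rh2f68792b6b779e96.shift 1 0), rh5229f61174a0bd58] (by decide +kernel))
noncomputable def rh7fde2ea56181695b : CRef := CRef.mk (Pat.mk 0x40000000c0000000c0000001800000010 0x30000000360000007f0000007c0000001800000010 5 7) 0 0 (step_sound _ 68 [(rh07ccc6e4230bb59c.shift 2 0), (rh79b3c29022acbdf3.shift 1 2), (rhd765db0836a344b1.shift 0 1)] (by decide +kernel))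
noncomputable def rh4f1d2714fadf1c02 : CRef := CRef.mk (Pat.mk 0x1e0000000a00000008 0x6000000060000000f0000001e0000000e0000000c 5 5) 0 0 (step_sound _ 97 [(rh3244c3cc8379b070.shift 0 2), (rhba05f89746b26b59.shift 1 0)] (by decide +kernel))
noncomputable def rhf114f5dffdef7549 : CRef := CRef.mk (Pat.mk 0x7800000000 0xf0000007e0000000f 5 7) 0 0 (step_sound _ 34 [rh775ca1963e850b80, (rhd5eb272e07a4e288.shift 1 1), (rheae1728ff4a56756.shift 1 0)] (by decide +kernel))
noncomputable def rh04a831af7322b636 : CRef := CRef.mk (Pat.mk 0x2000000030000000e00000006 0xd0000001f0000000f0000000e00000006 5 5) 0 0 (step_sound _ 96 [rh50fbb5868c909700, rhe0af9f7b1164cb64] (by decide +kernel))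
noncomputable def rh6dca2897ad71631e : CRef := CRef.mk (Pat.mk 0x20000000f000000080000000000000000 0x20000000a0000003e0000007f0000000c0000000400000004 5 7) 0 0 (step_sound _ 66 [rh34b1188e635efc8d, (rh726ed8e3d0fdcf87.shift 0 2), (rha40d42a2e34c408d.shift 1 0)] (by decide +kernel))
noncomputable def rha9d5af57152f357b : CRef := CRef.mk (Pat.mk 0x40000001c000000100000000000000000 0x400000014000000fc000000ff000000180000000800000008 5 8) 0 0 (step_sound _ 67 [rh0693a0ad7c8af654, (rh1fe3a09d52af9009.shift 0 2), (rha40d42a2e34c408d.shift 2 0)] (by decide +kernel))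
noncomputable def rhc42aea36b73d40d2 : CRef := CRef.mk (Pat.mk 0x1000000018000000380000000000000000 0xc0000000c0000001c000000180000003c0000000f0000000c 5 6) 0 0 (step_sound _ 35 [rh361e5163f4e3dde9, (rh71222050f2c63a3a.shift 3 0)] (by decide +kernel))
noncomputable def rh2f1494ecfa8e9298 : CRef := CRef.mk (Pat.mk 0x1800000038000000000000000000000000 0x800000008000000380000003f0000000e0000000400000004 5 6) 0 0 (step_sound _ 98 [(rhab2ad169e49f9c5e.shift 0 3), (rhcfde16a7ff36af03.shift 1 0)] (by decide +kernel))
noncomputable def rh914a225e7f44ad68 : CRef := CRef.mk (Pat.mk 0x2000000060000001a000000000000000000000000 0x20000000600000006000000060000001e000000070000000600000002 5 5) 0 0 (step_sound _ 98 [(rh031a926e4a883687.shift 0 1), (rh55a1f6c57a317ce6.shift 1 1), (rha40d42a2e34c408d.shift 1 1), rhcfde16a7ff36af03] (by decide +kernel))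
noncomputable def rh21485744e9e3c6c6 : CRef := CRef.mk (Pat.mk 0x40000001e00000000 0xec0000007e00000007 5 8) 0 0 (step_sound _ 1 [rheb0810cc63b001d8, (rhf69eab89e5fbfa83.shift 1 0)] (by decide +kernel))
noncomputable def rhbb1543cc4473c6fc : CRef := CRef.mk (Pat.mk 0x40000003c0000001c000000080000000000000000 0x80000006c0000003c0000001c0000000f0000000600000002 5 7) 0 0 (step_sound _ 165 [(rh33e738c4ed385b9f.shift 2 4), rhb0f6c4e3b49711e9] (by decide +kernel))
noncomputable def rha4a9f577d73d1e7e : CRef := CRef.mk (Pat.mk 0x1800000008000000380000001800000000 0x40000001f00000038000000f80000001800000008 5 8) 0 0 (step_sound _ 100 [(rh932754581e0f4330.shift 3 0), (rhafcd5012ed06e599.shift 0 1)] (by decide +kernel))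
noncomputable def rhe3ebd767f1f38667 : CRef := CRef.mk (Pat.mk 0x800000038000000200000000000000000 0x800000008000000080000003e0000003f0000001400000014 5 6) 0 0 (step_sound _ 98 [(rh0de499e0455c9c14.shift 0 2), (rh31edea79c38d604a.shift 1 0), (rhcfde16a7ff36af03.shift 1 0)] (by decide +kernel))
noncomputable def rhca585123a0440cc2 : CRef := CRef.mk (Pat.mk 0x140000001a000000000000000000000000 0x400000004000000340000001e000000070000000200000002 5 6) 0 0 (step_sound _ 98 [(rh33e738c4ed385b9f.shift 1 3), rhcfde16a7ff36af03] (by decide +kernel))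
noncomputable def rh65c2583394a2e78b : CRef := CRef.mk (Pat.mk 0x140000001c000000000000000000000000 0x400000004000000340000001e000000070000000200000002 5 6) 0 0 (step_sound _ 97 [(rh33e738c4ed385b9f.shift 1 3), rhcfde16a7ff36af03] (by decide +kernel))
noncomputable def rh366c0b18dd5bd32d : CRef := CRef.mk (Pat.mk 0x80000001c0000001c0000000400000000 0x6000000060000000f0000001c0000007c0000000c00000008 5 7) 0 0 (step_sound _ 70 [(rh2fe78cc5ca4405d8.shift 2 2), rh98a63dd6e568c558] (by decide +kernel))
noncomputable def rh1f4b58e63a85b455 : CRef := CRef.mk (Pat.mk 0x80000001800000038000000000000000000000000 0x800000018000000380000001f0000001c0000001c 5 6) 0 0 (step_sound _ 67 [(rh4053c12da95c0aa0.shift 3 0), (rh46530d756bdf8511.shift 2 0), (rh852e818bc8629e77.shift 0 1), (rh8cdd36b03d57a2f6.shift 2 0)] (by decide +kernel))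
noncomputable def rh3396620b077b8c20 : CRef := CRef.mk (Pat.mk 0xe0000000a0000000000000000 0x1000000010000000380000001e0000000b0000000800000008 5 6) 0 0 (step_sound _ 100 [(rheb0810cc63b001d8.shift 0 2), (rhf60cdf71a14eca6b.shift 1 0)] (by decide +kernel))
noncomputable def rh4342dbbe6d26394a : CRef := CRef.mk (Pat.mk 0x40000001c000000180000000000000000 0x400000004000000040000001f0000001f0000000200000002 5 5) 0 0 (step_sound _ 97 [(rhb739f4f82bb681b4.shift 0 2), rhcfde16a7ff36af03] (by decide +kernel))
noncomputable def rh918500d067a35dc5 : CRef := CRef.mk (Pat.mk 0x16000000060000000000000000 0x200000002000000070000001e000000070000000400000004 5 5) 0 0 (step_sound _ 99 [rhe1ef59f9ff87186c, (rheb0810cc63b001d8.shift 0 2)] (by decide +kernel))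
noncomputable def rh14ebe618fe80128a : CRef := CRef.mk (Pat.mk 0x40000001e0000001000000000 0x30000000300000003f0000001e0000001800000008 5 6) 0 0 (step_sound _ 97 [(rh3244c3cc8379b070.shift 0 2), (rh98c86f3947f6fc11.shift 1 0)] (by decide +kernel))
noncomputable def rh648fbca10c851b74 : CRef := CRef.mk (Pat.mk 0x340000003c0000001c0000000800000000 0x20000000600000003c0000003c0000001c0000000f00000006 5 7) 0 0 (step_sound _ 165 [(rh5c5e593799055d58.shift 4 2), rhaecfc33e0c5083e3] (by decide +kernel))
noncomputable def rh317a984f04c5d4a3 : CRef := CRef.mk (Pat.mk 0x20000000a0000000a000000000000000000000000 0x2000000070000003e0000000f000000030000000100000001 5 6) 0 0 (step_sound _ 132 [(rh01e48cd9f335aa73.shift 0 3), (rh46ba0607dc7404b2.shift 0 3), (rhda02c4ce0b224328.shift 0 3), rhde5b474548b482d7] (by decide +kernel))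
noncomputable def rh2513590599929ea5 : CRef := CRef.mk (Pat.mk 0x20000001a0000000e000000040000000000000000 0x80000001f0000007a0000000e000000040000000400000004 5 7) 0 0 (step_sound _ 34 [(rh7b1f1fb55310c477.shift 1 0), (rh8a99b3cd292b8285.shift 0 2)] (by decide +kernel))
noncomputable def rhd448602067bf58b6 : CRef := CRef.mk (Pat.mk 0x400000001c00000000 0x670000003e00000007 5 7) 0 0 (step_sound _ 37 [(rh428265de8cd3cd2d.shift 2 1), rh592c7139d2c44767] (by decide +kernel))
noncomputable def rhdbcee9ee40422c1a : CRef := CRef.mk (Pat.mk 0x40000001c000000100000000000000000 0x400000004000000fc000000ff0000001c0000000800000008 5 8) 0 0 (step_sound _ 67 [(rh5d54cb79a67f97ab.shift 2 0), (rha40d42a2e34c408d.shift 2 0), (rhb0f20cdbadfe44b1.shift 0 2)] (by decide +kernel))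
noncomputable def rhde2581c0e57b3174 : CRef := CRef.mk (Pat.mk 0x80000002c000000200000000000000000 0x800000008000000080000003e0000003f0000001400000014 5 6) 0 0 (step_sound _ 100 [(rh0de499e0455c9c14.shift 0 2), (rh31edea79c38d604a.shift 1 0), (rhcfde16a7ff36af03.shift 1 0)] (by decide +kernel))
noncomputable def rh5bc5f4ab1822bc0a : CRef := CRef.mk (Pat.mk 0x200000002c00000000 0x670000003e00000007 5 7) 0 0 (step_sound _ 36 [(rh33e738c4ed385b9f.shift 2 1), rh775ca1963e850b80] (by decide +kernel))
noncomputable def rh9a6a47785262299f : CRef := CRef.mk (Pat.mk 0x2000000080000000e00000004 0x80000001f000000780000000f00000004 5 7) 0 0 (step_sound _ 99 [(rh5c5e593799055d58.shift 2 0), (rh6daba3c24b34fd80.shift 0 1)] (by decide +kernel))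
noncomputable def rhf04ce9dde6ca99d0 : CRef := CRef.mk (Pat.mk 0x200000002000000020000000200000002 0x6000000060000000700000003000000030000000300000002 5 3) 0 0 (step_sound _ 162 [rh270726bdc5476fed, (rhbaefcd01e0a8bca3.shift 1 1)] (by decide +kernel))
noncomputable def rhd3a227387be01e9d : CRef := CRef.mk (Pat.mk 0x2000000020000000a0000000a00000000 0x10000000300000003000000020000001a0000000f00000005 5 5) 0 0 (step_sound _ 160 [rh7334dc525def6ee8, (rhffd04209dc8ea796.shift 0 1)] (by decide +kernel))
noncomputable def rh253d98dfae48753b : CRef := CRef.mk (Pat.mk 0x100000001400000004000000040000000800000000 0x320000001e00000007000000040000000c0000000c 5 6) 0 0 (step_sound _ 34 [rh37f79a77f29c8bfd, (rh55afc6a59410cf00.shift 2 0)] (by decide +kernel))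
noncomputable def rhf41c85bbc6304092 : CRef := CRef.mk (Pat.mk 0x20000000a0000000a00000002000000020000000100000000 0x20000001b0000000f00000006000000060000000300000003 5 5) 0 0 (step_sound _ 33 [rh80027b375d3c4b74, rh932754581e0f4330] (by decide +kernel))
noncomputable def rh320dd554fcba184c : CRef := CRef.mk (Pat.mk 0x80000000a0000000200000002000000020000000000000000 0x190000000f0000000600000002000000060000000600000004 5 5) 0 0 (step_sound _ 34 [rh788a22f0a7933700, (rhd3458b32566d63f7.shift 1 1)] (by decide +kernel))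
noncomputable def rhc6361d3b88f12f56 : CRef := CRef.mk (Pat.mk 0x3c00000018000000300000001000000000 0x70000003f00000018000000f00000001800000008 5 8) 0 0 (step_sound _ 35 [(rh932754581e0f4330.shift 3 0), (rhdb6f32be950dbaea.shift 0 1)] (by decide +kernel))
noncomputable def rhafe4c4d156f2098b : CRef := CRef.mk (Pat.mk 0xb0000000e000000060000000000000000 0x2000000020000001b0000000f000000070000000300000003 5 5) 0 0 (step_sound _ 96 [rh06b43d49e338fab7, (rh33e738c4ed385b9f.shift 0 3)] (by decide +kernel))
noncomputable def rh3fab90c0b35cbbff : CRef := CRef.mk (Pat.mk 0xf00000000 0x7f0000003f00000070 5 7) 0 0 (step_sound _ 36 [(rh3fc3a7fb6866dcd4.shift 1 0), (rh9890f9d77740bbed.shift 0 1), rhe401600d466b97cd] (by decide +kernel))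
noncomputable def rhe1ccb8f6ef159d59 : CRef := CRef.mk (Pat.mk 0xb00000006 0x380000003f0000001f 5 6) 0 0 (step_sound _ 3 [rh1fa70f435c0d960e, rhf48373e13d2bc128] (by decide +kernel))
noncomputable def rhf7e82b189815bb81 : CRef := CRef.mk (Pat.mk 0x400000016000000040000000000000000 0x2000000070000003e000000070000000400000004 5 6) 0 0 (step_sound _ 99 [rh764116375c147c5a, (rhaf9f2efc81a8312b.shift 0 2), rhe8ba5e25e7c74702] (by decide +kernel))
noncomputable def rh0f68c1a65530806c : CRef := CRef.mk (Pat.mk 0x10000000160000000c00000008 0x200000006000000370000001e0000000c0000000c 5 6) 0 0 (step_sound _ 67 [rh1c5eb2973b6be816, (rh33e738c4ed385b9f.shift 1 2)] (by decide +kernel))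
noncomputable def rh8888040e550be6b5 : CRef := CRef.mk (Pat.mk 0x4000000060000001c00000008000000000000000000000000 0x200000006000000060000001c0000000f000000060000000600000006 5 5) 0 0 (step_sound _ 98 [(rh46d6183566ef1216.shift 1 0), (rhe286c75f2739cce2.shift 1 2), (rhf5094ad2a427d4d3.shift 0 2)] (by decide +kernel))
noncomputable def rh2a57291e548d51d9 : CRef := CRef.mk (Pat.mk 0x1e000000000000000000000000 0x1000000010000000380000001f000000180000000800000008 5 6) 0 0 (step_sound _ 132 [rh25c2458e723639d7, (rh33e738c4ed385b9f.shift 1 3)] (by decide +kernel))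
noncomputable def rhe26bcf15b0854b47 : CRef := CRef.mk (Pat.mk 0x40000000c000000380000001a 0x20000000e6000000fc0000003f0000001b 5 8) 0 0 (step_sound _ 69 [(rh1fa70f435c0d960e.shift 2 1), (rh28668c0e8f6621b1.shift 1 1), (rh2f50e1924537f66e.shift 1 0), rhec5da64b6932079e] (by decide +kernel))
noncomputable def rh50a812c0dc5ab146 : CRef := CRef.mk (Pat.mk 0x60000000c0000000800000000 0x400000004000000060000003e0000000f00000002 5 6) 0 0 (step_sound _ 130 [(rh2145e1d24b96a57e.shift 2 1), rhfea2cc2f5edf90c1] (by decide +kernel))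
noncomputable def rh4d4c77594d83f4b7 : CRef := CRef.mk (Pat.mk 0x200000007000000048 0x370000007e0000006c 5 7) 0 0 (step_sound _ 35 [rh3b2b05f77630fe70, (rheb0810cc63b001d8.shift 2 0)] (by decide +kernel))
noncomputable def rhc1222ba7dce1c980 : CRef := CRef.mk (Pat.mk 0x3e000000100000000000000000 0x400000004000000060000003f0000001c0000000800000008 5 6) 0 0 (step_sound _ 67 [(rhaa738e8eddf7e18b.shift 1 0), (rhb739f4f82bb681b4.shift 0 2)] (by decide +kernel))
noncomputable def rhd7d89176fb4e78fe : CRef := CRef.mk (Pat.mk 0x60000000200000002000000000000000000000000 0x100000003000000070000000700000003000000070000000700000005 5 3) 0 0 (step_sound _ 65 [rh6eff4158bb400f47, (rh771d065bdc85bf2d.shift 0 1), (rhffd0ff6f60fa3c9a.shift 0 1)] (by decide +kernel))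
noncomputable def rh74285ec58778426b : CRef := CRef.mk (Pat.mk 0x40000000c0000000500000004 0x400000006000000060000003c0000000f0000000c 5 6) 0 0 (step_sound _ 97 [(rh50fbb5868c909700.shift 1 0), rh89fda17218741938] (by decide +kernel))
noncomputable def rhed240bfa98a6b61b : CRef := CRef.mk (Pat.mk 0x800000008000000080000000800000000 0x800000008000000080000007c0000001f00000004 5 7) 0 0 (step_sound _ 34 [(rh3c92a9c9419476ca.shift 0 1), (rh932754581e0f4330.shift 2 0)] (by decide +kernel))
noncomputable def rhae5afef65312aeb4 : CRef := CRef.mk (Pat.mk 0x800000008000000080000000a00000008 0x40000000c0000000c000000080000000c0000001f00000018 5 5) 0 0 (step_sound _ 4 [rh032744bb2bad25b1, (rhd3458b32566d63f7.shift 3 0)] (by decide +kernel))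
noncomputable def rh9eada03944b465a1 : CRef := CRef.mk (Pat.mk 0x800000008000000080000000a00000000 0x800000008000000080000000f0000003e00000014 5 6) 0 0 (step_sound _ 34 [rh5e7d5b3d9aae96f3, (rh932754581e0f4330.shift 2 0)] (by decide +kernel))
noncomputable def rhe5001a5658bb5f8e : CRef := CRef.mk (Pat.mk 0x180000000a000000000000002000000000 0x380000003f000000700000002000000020 5 7) 0 0 (step_sound _ 98 [(rh53b3c253cb0c65f4.shift 0 3), (rh5d664ca4448c70a6.shift 1 0)] (by decide +kernel))
noncomputable def rh473f2e90fe253860 : CRef := CRef.mk (Pat.mk 0x120000001c000000180000000800000000 0xc0000000f0000001e0000001c0000001c0000000c00000004 5 5) 0 0 (step_sound _ 131 [(rh771d065bdc85bf2d.shift 2 0), (rh7b9fbdf6d2d059e4.shift 2 1), (rh925a1628dd8a50da.shift 2 0), rhfac0aba0b3f0cd24] (by decide +kernel))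
noncomputable def rha3951ca8e2244732 : CRef := CRef.mk (Pat.mk 0x80000001c000000100000001800000000 0x40000000f0000007c000000780000001e00000004 5 7) 0 0 (step_sound _ 130 [(rh79b3c29022acbdf3.shift 1 3), (rhd9f38d00c87ab561.shift 1 0), (rhe2b63c00a3d7bb73.shift 0 3)] (by decide +kernel))
noncomputable def rh80c83de2fe7e7c81 : CRef := CRef.mk (Pat.mk 0xc0000000c000000040000001600000000 0xc0000007c000000ff0000001700000010 5 8) 0 0 (step_sound _ 100 [rh584d90930a979f99, (rh8963eeeb48e2c8aa.shift 1 0), (rha9e1a5d55b907abf.shift 1 2), (rhb02f9c2bd63f56db.shift 1 2)] (by decide +kernel))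
noncomputable def rh4da05acc337b0fd1 : CRef := CRef.mk (Pat.mk 0x80000000a0000001e00000004 0x20000000f0000003e0000001e00000007 5 6) 0 0 (step_sound _ 1 [rheb0810cc63b001d8, rhed28f44ebe588c02] (by decide +kernel))
noncomputable def rha65de3b2416ea90c : CRef := CRef.mk (Pat.mk 0x60000000e000000080000000c00000000 0x60000003e0000003b0000000f00000002 5 6) 0 0 (step_sound _ 100 [rh4dee6a4c2358bafa, (rhf48373e13d2bc128.shift 1 3)] (by decide +kernel))
noncomputable def rhd45855be12dc6f72 : CRef := CRef.mk (Pat.mk 0x400000004000000040000001400000018000000000000000000000000 0x40000000400000004000000360000001e000000070000000200000002 5 6) 0 0 (step_sound _ 97 [(rh79877ebd3ef475dd.shift 1 3), rh8910848717c4eff5] (by decide +kernel))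
noncomputable def rh382daa379089707c : CRef := CRef.mk (Pat.mk 0x180000001e0000000000000004 0x1000000030000001f0000001e0000000700000004 5 5) 0 0 (step_sound _ 33 [rhe6b6cb55e74be843, (rheb0810cc63b001d8.shift 0 1)] (by decide +kernel))
noncomputable def rh326f2850607190c2 : CRef := CRef.mk (Pat.mk 0x100000001a000000000000002000000000 0x370000003e000000600000002000000020 5 7) 0 0 (step_sound _ 98 [(rh33e738c4ed385b9f.shift 1 3), rhdce6bd79c5f793f1] (by decide +kernel))
noncomputable def rh9963b93bb968eaf8 : CRef := CRef.mk (Pat.mk 0x4000000020000000300000002 0x1000000030000000700000006000000030000000300000003 5 3) 0 0 (step_sound _ 97 [(rh2f68792b6b779e96.shift 1 0), rh976a48eb1c80a12f] (by decide +kernel))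
noncomputable def rhfb1e9fe27ba300db : CRef := CRef.mk (Pat.mk 0x800000018000000080000000800000000 0x800000008000000780000001f0000000c00000004 5 7) 0 0 (step_sound _ 34 [(rh4d21a4f18ff372b1.shift 0 1), (rh932754581e0f4330.shift 2 0)] (by decide +kernel))
noncomputable def rh4118f86c89bdf296 : CRef := CRef.mk (Pat.mk 0x7000000010000000400000000 0x8000000080000003c0000001f0000003f0000000400000004 5 6) 0 0 (step_sound _ 99 [(rha93a5dd541ab8209.shift 0 2), rhb705031692dfe65f, (rhf3baec4a0a3dd35e.shift 0 2)] (by decide +kernel))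
noncomputable def rh0c4c62bc983d23eb : CRef := CRef.mk (Pat.mk 0x40000001c000000180000000000000000 0x40000003f0000001f0000000300000002 5 6) 0 0 (step_sound _ 97 [rh402171a2c2c50b85, (rhb739f4f82bb681b4.shift 0 2)] (by decide +kernel))
noncomputable def rh81fbcce0c8195beb : CRef := CRef.mk (Pat.mk 0x8000000040000001c00000018000000000000000000000000 0x80000000c0000003c0000001f000000070000000600000006 5 6) 0 0 (step_sound _ 98 [(rhab2ad169e49f9c5e.shift 0 3), rhe1a136e2584efaaa, (rhee95c19ccb9d5067.shift 1 0)] (by decide +kernel))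
noncomputable def rh78f34ce0795c94e2 : CRef := CRef.mk (Pat.mk 0x4000000140000001c00000018000000000000000000000000 0x2000000060000007c0000007c0000001f000000070000000200000002 5 7) 0 0 (step_sound _ 98 [(rh157b220518f94713.shift 1 2), (rh6d404ae96ba5755f.shift 1 3), (rhab2ad169e49f9c5e.shift 0 3), rhbd0b832b6a6e272b] (by decide +kernel))
noncomputable def rhead841a7dcb4c25d : CRef := CRef.mk (Pat.mk 0x1e0000001a0000000800000000 0x4000000040000000f0000001e0000001e0000000b00000003 5 5) 0 0 (step_sound _ 129 [(rh3244c3cc8379b070.shift 0 3), rh3700f99776e1695c] (by decide +kernel))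
noncomputable def rh479f5df3c533e71f : CRef := CRef.mk (Pat.mk 0x18000000080000000c0000000000000000 0x1000000018000000080000001f0000007800000010 5 7) 0 0 (step_sound _ 35 [(rh2f68792b6b779e96.shift 3 1), rhcc2a2baa9246395a] (by decide +kernel))
noncomputable def rh8e448531d034af3a : CRef := CRef.mk (Pat.mk 0xa0000000a0000000a000000000000000000000000 0xa0000001e0000007e0000000f000000040000000400000004 5 7) 0 0 (step_sound _ 98 [(rh229125b02bb7866b.shift 0 3), (rh235edbdf3bbc6c03.shift 1 0), (rh5fc67bac28a8b5bb.shift 1 2), (rhfafeb437ceb8396d.shift 2 0)] (by decide +kernel))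
noncomputable def rhe141a21172a8695f : CRef := CRef.mk (Pat.mk 0x20000000a0000000a00000000 0x50000000700000007000000020000001e0000000f00000001 5 5) 0 0 (step_sound _ 129 [(rh1741680720c097b4.shift 0 1), rhaf477bfe5ceac6e7] (by decide +kernel))
noncomputable def rh442fa2d526ae2329 : CRef := CRef.mk (Pat.mk 0x140000001400000014000000000000000000000000 0x14000000140000003c0000001e0000000f0000000a0000000a 5 6) 0 0 (step_sound _ 99 [(rh235edbdf3bbc6c03.shift 2 0), (rh5fc67bac28a8b5bb.shift 2 2), rhe1a136e2584efaaa, (rhfafeb437ceb8396d.shift 3 0)] (by decide +kernel))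
noncomputable def rh671764907e6e6cc9 : CRef := CRef.mk (Pat.mk 0x20000000a0000000a00000000 0x50000000700000007000000020000001e0000000f00000005 5 5) 0 0 (step_sound _ 129 [(rh1741680720c097b4.shift 0 1), (rh5ef66011045fb859.shift 1 0), rh65a643973921d367] (by decide +kernel))
noncomputable def rh6429be576e16fd89 : CRef := CRef.mk (Pat.mk 0x20000000a0000000a00000000 0x50000000700000007000000020000001b0000000f00000005 5 5) 0 0 (step_sound _ 129 [(rh1741680720c097b4.shift 0 1), rh3b734c5288922837, rh65a643973921d367, rh771d065bdc85bf2d] (by decide +kernel))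
noncomputable def rh0ef07c103931a100 : CRef := CRef.mk (Pat.mk 0x1e000000080000000800000000 0x6000000070000003e0000000c0000000c00000004 5 6) 0 0 (step_sound _ 129 [(rh3244c3cc8379b070.shift 0 3), (rh921fcc14caaf48a6.shift 1 0)] (by decide +kernel))
noncomputable def rh845be945ee0fd8dc : CRef := CRef.mk (Pat.mk 0x8000000280000000800000000 0x140000001c0000001c000000080000007c0000000f00000004 5 7) 0 0 (step_sound _ 131 [(rh1741680720c097b4.shift 2 1), (rh20966da26a1c2ae8.shift 2 0), (rh771d065bdc85bf2d.shift 2 0), rhc8fd50c44a2112a0] (by decide +kernel))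
noncomputable def rh3d5005cdd53aa835 : CRef := CRef.mk (Pat.mk 0x20000000a0000000a00000002000000020000000200000000 0x20000007a0000001f00000006000000060000000200000002 5 7) 0 0 (step_sound _ 98 [(rh55afc6a59410cf00.shift 1 2), rh6a772b105410b9b5] (by decide +kernel))
noncomputable def rhd8860d03bca57844 : CRef := CRef.mk (Pat.mk 0x20000000b0000000800000008000000000000000000000000 0x100000001e0000001b00000008000000080000001c0000001c00000014 5 5) 0 0 (step_sound _ 67 [(rh6d4e4609024b81df.shift 0 2), (rh8cdd36b03d57a2f6.shift 2 0)] (by decide +kernel))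
noncomputable def rh8cbbc29a150c4f10 : CRef := CRef.mk (Pat.mk 0x1a0000001a0000000800000000 0x1400000074000000fe0000001e0000000b00000002 5 8) 0 0 (step_sound _ 98 [rh436b44d34414ee83, (rh5421160f8e9bcf07.shift 1 1), (rh70f75251a6f67951.shift 1 2)] (by decide +kernel))
noncomputable def rhdf5658f8b5990bd3 : CRef := CRef.mk (Pat.mk 0x200000003000000040000000400000000 0x8000000080000001e0000000f0000000c0000000400000004 5 5) 0 0 (step_sound _ 98 [(rh4173edafc27ebb95.shift 0 1), (rh7b1f1fb55310c477.shift 1 0)] (by decide +kernel))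
noncomputable def rh946fef404b5a1533 : CRef := CRef.mk (Pat.mk 0x300000007000000040000000000000000 0x8000000080000001f0000001f000000040000000400000004 5 5) 0 0 (step_sound _ 99 [(rhf48373e13d2bc128.shift 0 3), rhf60cdf71a14eca6b] (by decide +kernel))
noncomputable def rh42a34b9871040516 : CRef := CRef.mk (Pat.mk 0x80000001c000000140000000400000000 0x2000000060000000f0000001c0000001c0000000f0000000a 5 5) 0 0 (step_sound _ 130 [(rh277b01412deaec89.shift 0 1), rh5196894f25ccb47b, (rh5abfc4c9d959be03.shift 1 0)] (by decide +kernel))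
noncomputable def rh48ee6959203e42da : CRef := CRef.mk (Pat.mk 0x2000000020000000a0000000a00000000 0x10000000300000003000000020000001b0000000f00000004 5 5) 0 0 (step_sound _ 34 [(rh39e72124de2421f5.shift 0 1), (rh55afc6a59410cf00.shift 1 0)] (by decide +kernel))
noncomputable def rhe936a4c9f168a7f5 : CRef := CRef.mk (Pat.mk 0x4000000140000001400000000 0xa0000000e0000000e00000004000000370000001e0000000a 5 6) 0 0 (step_sound _ 130 [(rh1741680720c097b4.shift 1 1), rh210928190827b327, (rhe8768a83bdb59c61.shift 1 0)] (by decide +kernel))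
noncomputable def rhc62057506e88083e : CRef := CRef.mk (Pat.mk 0x20000000a0000000a00000000 0x50000000700000007000000020000001a0000000f00000005 5 5) 0 0 (step_sound _ 129 [rh65a643973921d367, (rhc85cc95794737cf7.shift 0 1)] (by decide +kernel))
noncomputable def rh0fb41f9478a8a50d : CRef := CRef.mk (Pat.mk 0x14000000060000000c0000002000000000 0x2000000030000003e0000007e0000003c0000002000000020 5 7) 0 0 (step_sound _ 100 [(rh28733be19412e815.shift 0 2), (rh68488e09e7079b3e.shift 1 0), (rh9f2591205204f08d.shift 1 3), (rhfc74e0dde1b3d6d7.shift 1 2)] (by decide +kernel))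
noncomputable def rhbdd9d44a3e9d459c : CRef := CRef.mk (Pat.mk 0x120000000e00000006 0xe0000000f0000001a0000000f00000006 5 5) 0 0 (step_sound _ 97 [(rh2145e1d24b96a57e.shift 1 0), rhe96f9041f60d5c91] (by decide +kernel))
noncomputable def rhe0449c67592e3a1c : CRef := CRef.mk (Pat.mk 0xa000000000000000c00000004 0x7c0000000f0000000c0000000c00000004 5 7) 0 0 (step_sound _ 131 [(rh3c88ce959c0e423f.shift 2 0), rhaf0f129d6243b702] (by decide +kernel))
noncomputable def rh709b3fede80d4830 : CRef := CRef.mk (Pat.mk 0xa000000030000000600000004 0x80000001b0000003f0000001e00000004 5 6) 0 0 (step_sound _ 35 [rhddc6202572942df2, (rhf48373e13d2bc128.shift 0 1)] (by decide +kernel))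
noncomputable def rhbf51b21ad2a91570 : CRef := CRef.mk (Pat.mk 0x14000000060000001c00000008 0x2000000330000003e000000160000001c00000008 5 6) 0 0 (step_sound _ 99 [(rh18965a982d73c794.shift 1 2), rh27efd6a479973834] (by decide +kernel))
noncomputable def rhf153d2af6b144509 : CRef := CRef.mk (Pat.mk 0x100000002000000020000000200000000 0x4000000070000000700000002000000030000000300000001 5 3) 0 0 (step_sound _ 129 [rh20966da26a1c2ae8, (rh50fbb5868c909700.shift 0 1)] (by decide +kernel))
noncomputable def rh18657af0f84e8ce8 : CRef := CRef.mk (Pat.mk 0x200000002000000020000000200000002 0x2000000020000000600000006000000070000000700000003 5 3) 0 0 (step_sound _ 32 [rh932754581e0f4330, rhf5ae4681f99292ca] (by decide +kernel))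
noncomputable def rha8f711fd6ba989f1 : CRef := CRef.mk (Pat.mk 0x1c000000060000000c00000008 0xa0000001b0000001f0000003e0000000c00000008 5 6) 0 0 (step_sound _ 67 [(rh2f68792b6b779e96.shift 3 0), (rh68a2217402ab2ead.shift 0 1)] (by decide +kernel))
noncomputable def rh85decd6eb89b75a1 : CRef := CRef.mk (Pat.mk 0x1e0000001800000010 0x80000000c000000fe0000001f00000010 5 8) 0 0 (step_sound _ 33 [(rh756bbb27ba7b9330.shift 1 0), (rheb0810cc63b001d8.shift 0 1)] (by decide +kernel))
noncomputable def rh98e04801e6916a8f : CRef := CRef.mk (Pat.mk 0x1e0000001a0000001000000000 0xa0000000b0000003e0000001e0000001400000004 5 6) 0 0 (step_sound _ 66 [(rh18965a982d73c794.shift 1 2), rhccc9a49c13851aaf] (by decide +kernel))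
noncomputable def rh26504c798a5afe67 : CRef := CRef.mk (Pat.mk 0x38000000000000001000000030 0x370000003e000000670000003000000030 5 7) 0 0 (step_sound _ 98 [(rh4dfe14e1416680c8.shift 2 0), (rh592c7139d2c44767.shift 0 2)] (by decide +kernel))
noncomputable def rh82fea9a9cb14f153 : CRef := CRef.mk (Pat.mk 0x100000001e000000000000000000000008 0x170000003e000000780000000800000008 5 7) 0 0 (step_sound _ 67 [(rh3947d1dfff0afc6c.shift 0 2), (rh9e3edb185cc347de.shift 3 0)] (by decide +kernel))
noncomputable def rh43d08b0b50912c9b : CRef := CRef.mk (Pat.mk 0x3800000000 0xf70000007e000000e7 5 8) 0 0 (step_sound _ 34 [(rh3fc3a7fb6866dcd4.shift 2 0), rh592c7139d2c44767, rh9e97bba44c1b13e4] (by decide +kernel))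
noncomputable def rhfb51077b4cc60e11 : CRef := CRef.mk (Pat.mk 0x38000000000000001000000010 0x770000003e000000670000003000000010 5 7) 0 0 (step_sound _ 98 [(rh4c622fddc53a5f99.shift 0 3), (rh592c7139d2c44767.shift 0 2), (rh9c9de8a82d5e4ca8.shift 2 0), (rh9e97bba44c1b13e4.shift 0 2)] (by decide +kernel))
noncomputable def rh13c3dfc0882dac9c : CRef := CRef.mk (Pat.mk 0x1800000038000000000000000000000000 0x8000000080000001f0000003f000000070000000400000004 5 6) 0 0 (step_sound _ 98 [(rh50e736ca27d8bdbd.shift 1 0), (rhbe5fc5902345a0b9.shift 0 3), (rhcc2be1f880c5ea3e.shift 0 2)] (by decide +kernel))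
noncomputable def rh754572ce95ba782b : CRef := CRef.mk (Pat.mk 0x8000000090000000b000000090000000000000000 0x120000001a0000000f0000000b0000000b0000000100000001 5 5) 0 0 (step_sound _ 164 [(rh2f68792b6b779e96.shift 3 2), rhabaa2cb0d19e8906] (by decide +kernel))
noncomputable def rh67ebf2f1a2e5fb04 : CRef := CRef.mk (Pat.mk 0x100000001e00000018 0x100000001000000017000000fe0000001c 5 8) 0 0 (step_sound _ 100 [rh412d230494194d0a, (rh5c5e593799055d58.shift 3 0)] (by decide +kernel))
noncomputable def rh0b199c894ef542c0 : CRef := CRef.mk (Pat.mk 0x18000000380000002800000000 0x180000001800000018000000180000003c0000002f00000004 5 6) 0 0 (step_sound _ 131 [(rh20966da26a1c2ae8.shift 2 0), rh322e79f034282812, (rh4f89f797aa397115.shift 3 1)] (by decide +kernel))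
noncomputable def rh697cff6cd907d6da : CRef := CRef.mk (Pat.mk 0x1c00000000 0x7e0000007e000000e7 5 8) 0 0 (step_sound _ 37 [rh9e97bba44c1b13e4, (rhe401600d466b97cd.shift 1 0)] (by decide +kernel))
noncomputable def rhf3d731143f641bef : CRef := CRef.mk (Pat.mk 0x180000002800000008000000000000000000000000 0x40000001f0000007c000000080000001c0000001c00000014 5 7) 0 0 (step_sound _ 67 [(rh7430a052bcb4bacd.shift 0 2), (rh8c3839f9b9075f23.shift 3 0), (rh8cdd36b03d57a2f6.shift 2 0), (rha8bc3cae4d77a08f.shift 2 0)] (by decide +kernel))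
noncomputable def rhb61e5423e068bdb4 : CRef := CRef.mk (Pat.mk 0x18000000280000000800000000 0xc0000000c0000000c0000001f0000007c0000000f00000004 5 7) 0 0 (step_sound _ 68 [rh361e5163f4e3dde9, (rha9fbfd4bb8cf890b.shift 0 2), (rhe2b63c00a3d7bb73.shift 1 2)] (by decide +kernel))
noncomputable def rh4e7cc10b83f07fe7 : CRef := CRef.mk (Pat.mk 0xe0000000800000008 0x1000000010000000770000003e0000007f00000008 5 7) 0 0 (step_sound _ 68 [(rh3947d1dfff0afc6c.shift 0 1), (rh3b00e9e9432b8f40.shift 0 1), (rh42d32bf970c9c157.shift 0 1), (rh94246470f0e6fdf7.shift 1 0)] (by decide +kernel))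
noncomputable def rh22d92c6efb738ede : CRef := CRef.mk (Pat.mk 0xe0000000800000008 0x1000000010000000380000003e0000007f00000008 5 7) 0 0 (step_sound _ 68 [(rh42d32bf970c9c157.shift 0 1), (rh49606a42a30c7ac4.shift 1 0), (rh94246470f0e6fdf7.shift 1 0)] (by decide +kernel))
noncomputable def rh2af8dabd69baa977 : CRef := CRef.mk (Pat.mk 0x3800000000000000380000000000000000 0x100000007c0000000f000000380000001f00000004 5 7) 0 0 (step_sound _ 99 [(rh2820ca9a6c4f41b4.shift 0 3), rh61147287bacde07b] (by decide +kernel))
noncomputable def rhc4282c4921034716 : CRef := CRef.mk (Pat.mk 0xe000000000000000e0000000800000008 0x30000001e0000003b0000000e0000000c00000008 5 6) 0 0 (step_sound _ 132 [(rh23e8e8e874e3cb38.shift 0 1), (rh71bbb00ef1ecd8fb.shift 0 1), (rhdf88d096527d0db3.shift 1 0)] (by decide +kernel))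
noncomputable def rhe8acf97c41299ae7 : CRef := CRef.mk (Pat.mk 0x38000000000000000800000000 0x4000000040000007e0000003e0000000f0000000800000008 5 7) 0 0 (step_sound _ 98 [(rh59377470057f4368.shift 1 0), (rh9e97bba44c1b13e4.shift 0 2), (rhd0f2e39b54bcbf0d.shift 1 0)] (by decide +kernel))
noncomputable def rh201974044d7d82f8 : CRef := CRef.mk (Pat.mk 0xe000000000000000600000000 0x4000000770000003e000000720000000600000006 5 7) 0 0 (step_sound _ 100 [(rh3947d1dfff0afc6c.shift 0 2), (rh3fc3a7fb6866dcd4.shift 1 2), (rh56a24c72f1c55520.shift 0 3), rhbf73b95edfc5bae4] (by decide +kernel))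
noncomputable def rh33f8b5ed5da08169 : CRef := CRef.mk (Pat.mk 0x700000000000000040000000400000004 0x380000001f0000003c000000040000000400000004 5 6) 0 0 (step_sound _ 131 [(rh3fc3a7fb6866dcd4.shift 0 3), (rh47cbca82c94c0c1a.shift 2 0), (rh4fc80024ed3db095.shift 0 1), rhdf88d096527d0db3] (by decide +kernel))
noncomputable def rh84fc73035c5bb51a : CRef := CRef.mk (Pat.mk 0xe000000000000000e0000000800000008 0x130000001e0000003b0000000e0000000c00000008 5 6) 0 0 (step_sound _ 132 [(rh23e8e8e874e3cb38.shift 0 1), (rh47cbca82c94c0c1a.shift 3 0), (rh71bbb00ef1ecd8fb.shift 0 1)] (by decide +kernel))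
noncomputable def rheb4b7551e6a9833a : CRef := CRef.mk (Pat.mk 0x7c000000000000006000000000 0xc70000007e000000c00000006000000020 5 8) 0 0 (step_sound _ 129 [(rh3f8766e6ecb455ce.shift 1 3), rh42738b493da31e25] (by decide +kernel))
noncomputable def rhb14d08584ebcace2 : CRef := CRef.mk (Pat.mk 0x1c0000000c00000004 0x60000000e0000000f0000001c0000000c0000000c 5 5) 0 0 (step_sound _ 99 [(rh5c5e593799055d58.shift 2 0), rh6a095597f920c223] (by decide +kernel))
noncomputable def rh26da688a7a703678 : CRef := CRef.mk (Pat.mk 0x4000000060000001c0000000800000000 0x10000000340000003e0000001f0000000b00000002 5 6) 0 0 (step_sound _ 65 [(rh4d6ff7d31d8220d4.shift 0 1), rh9c40a739b57d6d20] (by decide +kernel))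
noncomputable def rh9e058bc8848e85c8 : CRef := CRef.mk (Pat.mk 0x40000001e0000001800000008000000000000000000000000 0x20000000f0000001e0000001e0000000f000000060000000400000004 5 5) 0 0 (step_sound _ 193 [(rh3244c3cc8379b070.shift 0 5), rhf2687490c9ee6157] (by decide +kernel))
noncomputable def rh3fa326a9ffc81fa1 : CRef := CRef.mk (Pat.mk 0x10000000180000001800000018 0x2c0000003f000000380000001800000018 5 6) 0 0 (step_sound _ 99 [(rh50fbb5868c909700.shift 3 0), rhda0c8f9f6c183d35] (by decide +kernel))
noncomputable def rhed3ccfd8661b8f81 : CRef := CRef.mk (Pat.mk 0x40000001c00000009000000000000000000000000 0xa0000000f0000001c0000000f0000000c0000000c0000000c 5 5) 0 0 (step_sound _ 98 [(rh24ae073cf30720c4.shift 0 3), rh39e9d303c9235226] (by decide +kernel))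
noncomputable def rh8e1b9958af61e01d : CRef := CRef.mk (Pat.mk 0x100000007000000004 0x370000007e0000000e 5 7) 0 0 (step_sound _ 35 [rh2793be06f124c05c, (rh80fcd6d0a18cb2dd.shift 2 0)] (by decide +kernel))
noncomputable def rhea3c36b66d54eaf8 : CRef := CRef.mk (Pat.mk 0x20000000e000000000000000000000000 0x2000000030000003e000000070000000400000004 5 6) 0 0 (step_sound _ 100 [(rh3244c3cc8379b070.shift 0 3), rh44afbb496b7a3d6b] (by decide +kernel))
noncomputable def rh03d5bca85b7d2a12 : CRef := CRef.mk (Pat.mk 0x100000007000000048 0x370000007e0000006c 5 7) 0 0 (step_sound _ 35 [rh476af4e76dfe292e, (rheb0810cc63b001d8.shift 2 0)] (by decide +kernel))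
noncomputable def rhdd1706b7405ed6b5 : CRef := CRef.mk (Pat.mk 0x600000006000000120000000000000000 0x200000006000000060000001e0000000700000007 5 5) 0 0 (step_sound _ 33 [(rh71222050f2c63a3a.shift 1 0), rh81368bc224c326e4] (by decide +kernel))
noncomputable def rh1128d50c553b7342 : CRef := CRef.mk (Pat.mk 0x31000000110000001700000014 0x80000001e0000003b000000130000001700000015 5 6) 0 0 (step_sound _ 131 [rhf224bf8f5ccc8764, (rhffd04209dc8ea796.shift 3 0)] (by decide +kernel))
noncomputable def rha1696439d43aff92 : CRef := CRef.mk (Pat.mk 0x7000000220000000400000024 0x380000003f000000760000002400000024 5 7) 0 0 (step_sound _ 99 [(rh1a48baf448afc5e7.shift 0 2), (rh44c6665d8922f192.shift 1 0), rh4fc80024ed3db095, (rhb96c91cf43e79fd2.shift 1 2)] (by decide +kernel))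
noncomputable def rh767e3705445de28c : CRef := CRef.mk (Pat.mk 0x300000002000000020000000000000000 0x4000000070000000700000002000000030000000300000001 5 3) 0 0 (step_sound _ 33 [rh20966da26a1c2ae8, (rh50fbb5868c909700.shift 0 1)] (by decide +kernel))
noncomputable def rh942b6aa83c4ea981 : CRef := CRef.mk (Pat.mk 0x1800000008000000080000003800000020 0x40000001f0000007c000000180000003800000020 5 7) 0 0 (step_sound _ 130 [(rh50fbb5868c909700.shift 2 1), rhe3d434e27a605579] (by decide +kernel))
noncomputable def rh93835cc399b8fd6d : CRef := CRef.mk (Pat.mk 0x200000002000000020000000600000002000000000000000000000000 0x4000000060000000600000002000000060000000600000002000000070000000700000005 5 3) 0 0 (step_sound _ 65 [(rh73f605273a09a9d0.shift 1 4), rh8cdd36b03d57a2f6] (by decide +kernel))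
noncomputable def rh98ffd43cad60040d : CRef := CRef.mk (Pat.mk 0x30000000200000002000000000000000000000000 0x400000006000000070000000300000003000000070000000700000005 5 3) 0 0 (step_sound _ 65 [(rh20966da26a1c2ae8.shift 0 1), rh8cdd36b03d57a2f6, rha613ffd40b6c9d24] (by decide +kernel))
noncomputable def rha0a96f1317818711 : CRef := CRef.mk (Pat.mk 0x1c0000000e0000000c 0xa0000000b0000001f0000003e0000000f 5 6) 0 0 (step_sound _ 99 [(rh5c5e593799055d58.shift 2 0), rh99367f08e66d2cf5] (by decide +kernel))
noncomputable def rh4c7c0cea13ff91e8 : CRef := CRef.mk (Pat.mk 0x18000000380000000800000000 0xc0000000c0000000c000000180000003c0000000f00000004 5 6) 0 0 (step_sound _ 131 [rh3291de2d96fb8d58, (rh7b9fbdf6d2d059e4.shift 2 1), (rh925a1628dd8a50da.shift 2 0)] (by decide +kernel))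
noncomputable def rhf4c6ac7062ef7056 : CRef := CRef.mk (Pat.mk 0x60000000e00000008 0x1c0000001c0000003c0000003e0000001f00000008 5 6) 0 0 (step_sound _ 67 [(rh1090e459624ad3a7.shift 1 0), (rh2612b4f73ba7c3b3.shift 0 1), (rh6876f05cc9661702.shift 1 0)] (by decide +kernel))
noncomputable def rh8fe7b1f9655e5dfd : CRef := CRef.mk (Pat.mk 0x1800000038000000000000000000000000 0x800000008000000780000003f0000000f0000000400000004 5 7) 0 0 (step_sound _ 98 [(rhcc2be1f880c5ea3e.shift 0 2), (rhcfde16a7ff36af03.shift 1 0), (rhec46bd5500c722c9.shift 1 3)] (by decide +kernel))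
noncomputable def rhe94c2c075aecb6f6 : CRef := CRef.mk (Pat.mk 0x20000000600000006000000000000000000000000 0x400000006000000060000000600000007000000030000000300000003 5 3) 0 0 (step_sound _ 65 [(rh3b734c5288922837.shift 0 1), rh46530d756bdf8511, (rh84d1c02a8954c6a8.shift 1 1)] (by decide +kernel))
noncomputable def rh4505f5afe22da3c0 : CRef := CRef.mk (Pat.mk 0x80000001800000018000000000000000000000000 0x140000001f00000038000000180000000c0000000c0000000c 5 6) 0 0 (step_sound _ 67 [(rh46530d756bdf8511.shift 2 0), (rh5aa5e9dc84124dd6.shift 0 2), (rha707fb719e87fe6e.shift 3 1)] (by decide +kernel))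
noncomputable def rhdd0ac0f88f27a08d : CRef := CRef.mk (Pat.mk 0x100000003800000020 0xff0000007e00000030 5 8) 0 0 (step_sound _ 34 [(rhb18e6c78a554867d.shift 1 1), rhd1d05263fabc0227, (rhec46bd5500c722c9.shift 1 1)] (by decide +kernel))
noncomputable def rh8a87d5db41754290 : CRef := CRef.mk (Pat.mk 0x100000003800000020 0xf00000007e0000003f 5 8) 0 0 (step_sound _ 34 [rh0de499e0455c9c14, (rh3b00e9e9432b8f40.shift 1 0), (rhec46bd5500c722c9.shift 1 1)] (by decide +kernel))
noncomputable def rh0a7b639b2b8c6814 : CRef := CRef.mk (Pat.mk 0x100000003800000000 0xf70000007e0000000f 5 8) 0 0 (step_sound _ 34 [(rh3b00e9e9432b8f40.shift 1 0), rh775ca1963e850b80, (rhec46bd5500c722c9.shift 1 1)] (by decide +kernel))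
noncomputable def rh733e490633d2cf51 : CRef := CRef.mk (Pat.mk 0x70000000600000004000000000000000000000000 0xc0000003d0000000f0000000600000006000000030000000300000003 5 6) 0 0 (step_sound _ 97 [rh46d6183566ef1216, (rh84d1c02a8954c6a8.shift 1 2), (rhd250cef9733fcca5.shift 0 3)] (by decide +kernel))
noncomputable def rh713d46511b2e7d9f : CRef := CRef.mk (Pat.mk 0x800000008000000180000001000000000 0x140000001c0000001c000000380000001f0000000c 5 6) 0 0 (step_sound _ 35 [(rh373b7625e672cfd8.shift 2 0), rh6fae963f33cfdfd7] (by decide +kernel))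
noncomputable def rh9bf74640ed06f161 : CRef := CRef.mk (Pat.mk 0x60000001e000000180000000000000000 0x60000001e0000001b0000000f00000007 5 5) 0 0 (step_sound _ 65 [rh78a360d7c0e0d8d2, (rheb0810cc63b001d8.shift 0 2)] (by decide +kernel))
noncomputable def rh2a95c5e23937f5c7 : CRef := CRef.mk (Pat.mk 0x1c0000001c00000000 0x200000002000000030000001f0000001f00000004 5 5) 0 0 (step_sound _ 65 [(rhb739f4f82bb681b4.shift 0 1), rhdd3ef923ff6c7ad5] (by decide +kernel))
noncomputable def rh18aea9f31a87285f : CRef := CRef.mk (Pat.mk 0xc000000040000001c0000001c00000000 0x100000003c0000000f0000001f0000001c00000004 5 6) 0 0 (step_sound _ 99 [(rh932754581e0f4330.shift 2 0), (rhefbdda40bcd96fe8.shift 0 1)] (by decide +kernel))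
noncomputable def rh408428b2447a6de6 : CRef := CRef.mk (Pat.mk 0x38000000100000000000000008 0x70000007e0000003f0000000800000008 5 7) 0 0 (step_sound _ 98 [(rh4f8edb321cf5b49d.shift 0 2), (rh63665d28061a121c.shift 1 0), (rh775ca1963e850b80.shift 0 2), (rhfcb55d5dc3b78d1f.shift 0 2)] (by decide +kernel))
noncomputable def rh042bb8ca439a3a8d : CRef := CRef.mk (Pat.mk 0x20000000a0000000a00000000 0x10000000300000003000000020000001f0000000f00000001 5 5) 0 0 (step_sound _ 32 [rh976a48eb1c80a12f, (rh9f2591205204f08d.shift 0 1)] (by decide +kernel))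
noncomputable def rh6ee0b2d9c4263c53 : CRef := CRef.mk (Pat.mk 0x4000000140000001400000000 0xa0000000e0000000e00000004000000370000001e0000000a 5 6) 0 0 (step_sound _ 130 [rh210928190827b327, (rh968ba7b0df7e4096.shift 1 0), (rhc85cc95794737cf7.shift 1 1), (rhe8768a83bdb59c61.shift 1 0)] (by decide +kernel))
noncomputable def rh0e376d85cdd05d46 : CRef := CRef.mk (Pat.mk 0x4000000140000001400000000 0xa0000000e0000000e0000000e000000370000001e0000000c 5 6) 0 0 (step_sound _ 130 [rh210928190827b327, (rhc4055b4872d6fb38.shift 1 0), (rhc85cc95794737cf7.shift 1 1)] (by decide +kernel))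
noncomputable def rhb5fa49299cd36f0b : CRef := CRef.mk (Pat.mk 0x40000001c00000018 0xc000000ff0000001f 5 8) 0 0 (step_sound _ 33 [rh64507f4dc8342fdc, rhb739f4f82bb681b4] (by decide +kernel))
noncomputable def rhf8c499ff59dad3f0 : CRef := CRef.mk (Pat.mk 0x200000007000000080 0x770000007e000000c0 5 8) 0 0 (step_sound _ 35 [(rh3e0b38310ac09007.shift 0 1), (rh96851dee118c1ba3.shift 3 0)] (by decide +kernel))
noncomputable def rh9a0e653e04772e16 : CRef := CRef.mk (Pat.mk 0x2000000020000000a000000080000000000000000 0x100000003000000030000001a0000000f0000000700000005 5 5) 0 0 (step_sound _ 65 [rh8ff3dde5b1c639e0, rhc4526fc8abf298b6, (rhe8768a83bdb59c61.shift 0 1)] (by decide +kernel))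
noncomputable def rhe49a27a008617f76 : CRef := CRef.mk (Pat.mk 0xc00000004000000040000001600000010 0x200000003c0000003e0000003e0000003700000010 5 6) 0 0 (step_sound _ 68 [(rh3bdbd3888abd9dc8.shift 0 1), (rh7e4251f6a933aad7.shift 1 0)] (by decide +kernel))
noncomputable def rh2ed2555faa788df9 : CRef := CRef.mk (Pat.mk 0x2000000020000000200000002 0x4000000070000000700000003000000060000000600000006 5 3) 0 0 (step_sound _ 128 [rh16c7ee6e1ca5897a, rhffd04209dc8ea796] (by decide +kernel))
noncomputable def rh51a14c77eb5c4f4a : CRef := CRef.mk (Pat.mk 0x180000001800000020 0x1f000000ff000001e0 5 9) 0 0 (step_sound _ 37 [rh6cd1dd557c78c9a4, (rh79b3c29022acbdf3.shift 2 1), (rh8ee80cc30e93a344.shift 2 0)] (by decide +kernel))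
noncomputable def rha709efe122825888 : CRef := CRef.mk (Pat.mk 0x2400000007000000040000001000000010 0x40000002400000024000000370000003e0000003200000010 5 6) 0 0 (step_sound _ 65 [(rh503dd4575245365b.shift 1 1), rhfe2e9b575c3c8e91] (by decide +kernel))
noncomputable def rh354553c19270c214 : CRef := CRef.mk (Pat.mk 0x6000000020000000a0000000b00000000 0x60000003f0000003a0000000f00000002 5 6) 0 0 (step_sound _ 98 [(rh71222050f2c63a3a.shift 1 0), (rhe7f189f63c05ca8e.shift 0 1)] (by decide +kernel))
noncomputable def rh12e2d20b3d4f381a : CRef := CRef.mk (Pat.mk 0x2000000020000000a0000000800000000 0x5000000070000000700000002000000020000001b0000000f00000005 5 5) 0 0 (step_sound _ 161 [(rh1741680720c097b4.shift 0 2), rhf389780122f41e70] (by decide +kernel))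
noncomputable def rh2b619d8e8ea743ad : CRef := CRef.mk (Pat.mk 0xe00000004000000000000001000000010 0x700000003f0000003c000000100000001000000010 5 7) 0 0 (step_sound _ 100 [(rh320c6d97c59498d4.shift 1 1), rh596be5a27a43c496, (rh7344b4efa7925350.shift 0 3), (rhb751464bcffabb58.shift 1 0)] (by decide +kernel))
noncomputable def rhfb4b4a93a91a3796 : CRef := CRef.mk (Pat.mk 0x4000000000000001e00000006000000000000000000000000 0x4000000070000001e00000006000000030000000300000003 5 5) 0 0 (step_sound _ 65 [rhb1403b591a73e9d4, (rhee230b994cc8b773.shift 1 2)] (by decide +kernel))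
noncomputable def rh122d54edc929fd49 : CRef := CRef.mk (Pat.mk 0xc000000080000000c00000004 0x20000000f0000007e0000001f00000004 5 7) 0 0 (step_sound _ 68 [rh13d54427c4631d50, (rh574fdbf07bdd18b9.shift 0 1), (rhdeca8db941583de2.shift 0 2)] (by decide +kernel))
noncomputable def rh1c6f081f11d77085 : CRef := CRef.mk (Pat.mk 0xc000000080000001e00000004 0x20000000f0000003b0000001e00000007 5 6) 0 0 (step_sound _ 1 [rhafa88c550ea36308, rheb0810cc63b001d8] (by decide +kernel))
noncomputable def rhc1c8ef3b77490bf7 : CRef := CRef.mk (Pat.mk 0x2000000070000000800000008 0x10000000100000003b0000001f0000001800000008 5 6) 0 0 (step_sound _ 67 [rhc3a62e1d6ae06e0b, (rhe25b0a99195a5d59.shift 0 1)] (by decide +kernel))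
noncomputable def rh581dd12d323cf751 : CRef := CRef.mk (Pat.mk 0x800000008000000080000002800000020 0x40000001f0000007c000000280000002800000028 5 7) 0 0 (step_sound _ 130 [(rh50fbb5868c909700.shift 2 1), rhe14642c44471547b] (by decide +kernel))
noncomputable def rh187733abe5006915 : CRef := CRef.mk (Pat.mk 0x200000002000000020000000a00000008 0x4000000060000003e0000000b0000000a0000000a 5 6) 0 0 (step_sound _ 130 [(rh2f68792b6b779e96.shift 1 1), rh92356f9bb5b9c0ff] (by decide +kernel))
noncomputable def rh69458e32707aa8ef : CRef := CRef.mk (Pat.mk 0x38000000100000000000000008 0x70000003e0000007f0000000c00000008 5 7) 0 0 (step_sound _ 98 [(rh25efc5d5a6c022ff.shift 1 0), (rh775ca1963e850b80.shift 0 2), (rha03f6e28ea70fc7d.shift 1 2)] (by decide +kernel))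
noncomputable def rh754d6cc2f12d32fd : CRef := CRef.mk (Pat.mk 0x1c000000180000000000000004 0x30000003f0000001f0000000400000004 5 6) 0 0 (step_sound _ 97 [rh12a4aa43a438d841, (rhb739f4f82bb681b4.shift 0 2)] (by decide +kernel))
noncomputable def rh6e82f132e469e0c0 : CRef := CRef.mk (Pat.mk 0x1a0000000a00000002 0x7e0000003e00000073 5 7) 0 0 (step_sound _ 34 [rh708536f06d9bd241, (rh80f90a60d87caa0d.shift 1 1), rhee0891bc88ee3f94] (by decide +kernel))
noncomputable def rh31f96e4badbdfa7c : CRef := CRef.mk (Pat.mk 0x28000000200000002000000020 0x170000003e000000700000002000000020 5 7) 0 0 (step_sound _ 100 [(rh50fbb5868c909700.shift 4 0), (rhb2afcb5db661472f.shift 0 2)] (by decide +kernel))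
noncomputable def rh69d3f1aa6a1df641 : CRef := CRef.mk (Pat.mk 0x2000000020000000a0000000a00000008 0x140000001e0000001f0000000a0000000a00000008 5 5) 0 0 (step_sound _ 130 [(rh2f68792b6b779e96.shift 1 1), rh7e4251f6a933aad7] (by decide +kernel))
noncomputable def rhf44f800d734a38f4 : CRef := CRef.mk (Pat.mk 0xc000000060000001200000010 0x80000003e0000003e0000001700000010 5 6) 0 0 (step_sound _ 100 [(rh18965a982d73c794.shift 1 2), rh90ae8c21274ef341] (by decide +kernel))
noncomputable def rh42dd8871f50eb7a6 : CRef := CRef.mk (Pat.mk 0x1000000030000000180000000c00000000 0x8000000080000000c0000003e00000038000000180000001f00000034 5 6) 0 0 (step_sound _ 33 [(rh53b3c253cb0c65f4.shift 0 1), (rh72925834e2064d56.shift 1 0)] (by decide +kernel))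
noncomputable def rhb8ffbf35a11bdd4d : CRef := CRef.mk (Pat.mk 0x8000000180000000c000000060000000000000000 0x400000004000000060000001f0000001c0000003c0000000e0000000a00000008 5 6) 0 0 (step_sound _ 100 [(rh18965a982d73c794.shift 1 2), rh2c4109f05c7a9534] (by decide +kernel))
noncomputable def rhf66813553e85d54a : CRef := CRef.mk (Pat.mk 0x10000000580000004c0000004800000000 0x80000000f0000000580000004f0000007800000020 5 8) 0 0 (step_sound _ 65 [(rh53b3c253cb0c65f4.shift 0 2), (rh716dec2b1ddf78d2.shift 2 0)] (by decide +kernel))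
noncomputable def rha932df7c759f8641 : CRef := CRef.mk (Pat.mk 0x4000000060000001200000010000000000000000000000000 0x600000006000000370000001e000000060000000400000004 5 6) 0 0 (step_sound _ 97 [(rh71222050f2c63a3a.shift 1 2), rh75b62c1dd21b1329] (by decide +kernel))
noncomputable def rh5da8874cbad56186 : CRef := CRef.mk (Pat.mk 0xc0000001c00000004 0x200000002000000730000007f0000001e00000004 5 7) 0 0 (step_sound _ 65 [(rhb739f4f82bb681b4.shift 0 1), rhfe505b911fd36a2b] (by decide +kernel))
noncomputable def rh6d5e3fbe353ee59f : CRef := CRef.mk (Pat.mk 0x100000001a000000180000000800000000 0xc0000000c0000001f0000001b000000180000001800000010 5 5) 0 0 (step_sound _ 131 [(rh3e595262c1b737ad.shift 3 1), rh4aa76acab27553ea, (rh7b9fbdf6d2d059e4.shift 2 1), (rh9cac931137f1cfa0.shift 0 1)] (by decide +kernel))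
noncomputable def rh9c5ba952d4c81738 : CRef := CRef.mk (Pat.mk 0x1c000000180000000800000000 0xc0000000c0000000f0000003c000000180000001800000010 5 6) 0 0 (step_sound _ 131 [(rh3e595262c1b737ad.shift 3 1), (rh7b9fbdf6d2d059e4.shift 2 1), rh88a8c9d3f20b7c45] (by decide +kernel))
noncomputable def rhc3b618ba71007413 : CRef := CRef.mk (Pat.mk 0x180000001800000008 0xc0000000c0000000f0000007c0000001800000018 5 7) 0 0 (step_sound _ 99 [(rh3e595262c1b737ad.shift 3 0), (rh7b9fbdf6d2d059e4.shift 2 0), rhca405e350c462817] (by decide +kernel))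
noncomputable def rhd0ce071ce58f6608 : CRef := CRef.mk (Pat.mk 0x80000000c0000000c0000000400000000 0x6000000060000000f0000003c0000000c0000000c00000008 5 6) 0 0 (step_sound _ 130 [(rh3e595262c1b737ad.shift 2 1), (rh7b9fbdf6d2d059e4.shift 1 1), rha294781f2efe6a2a] (by decide +kernel))
noncomputable def rh4ee102729e8c628b : CRef := CRef.mk (Pat.mk 0x1e0000001a000000180000000800000000 0x3e0000001e0000001b0000000f00000006 5 6) 0 0 (step_sound _ 98 [(rh18965a982d73c794.shift 1 3), rh4752cf450ee1f99f] (by decide +kernel))
noncomputable def rhf36cb9f0914cf800 : CRef := CRef.mk (Pat.mk 0x600000018000000180000000c00000000 0x60000003f0000001b0000000f00000002 5 6) 0 0 (step_sound _ 33 [(rh53b3c253cb0c65f4.shift 0 1), rhdf4ed50bba69fd94] (by decide +kernel))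
noncomputable def rh85903b4a8dd8ebcd : CRef := CRef.mk (Pat.mk 0x10000000180000001e0000000800000000 0x4000000340000001f0000001e0000000b00000002 5 6) 0 0 (step_sound _ 97 [(rh3244c3cc8379b070.shift 0 2), rhac95d28812a29a01] (by decide +kernel))
noncomputable def rh109a9fd3ce3a3c93 : CRef := CRef.mk (Pat.mk 0x80000000c0000000600000024 0x20000003b0000003f000000060000003c 5 6) 0 0 (step_sound _ 68 [(rh18965a982d73c794.shift 1 1), rh8f85c9a024eb9602] (by decide +kernel))
noncomputable def rhe311094826532d65 : CRef := CRef.mk (Pat.mk 0x400000007800000008 0x67000000ff00000018 5 8) 0 0 (step_sound _ 34 [(rh428265de8cd3cd2d.shift 2 1), rh89e73f054267eaca] (by decide +kernel))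
noncomputable def rh38588a875586d108 : CRef := CRef.mk (Pat.mk 0x8000000080000001e00000006 0x60000000f0000003b0000001e00000006 5 6) 0 0 (step_sound _ 65 [(rh3244c3cc8379b070.shift 0 1), rh6a336740706270b1] (by decide +kernel))
noncomputable def rhe69abdd71ef0eff8 : CRef := CRef.mk (Pat.mk 0x80000001a0000000e00000004 0x400000004000000060000000f0000001e0000000e0000000c 5 5) 0 0 (step_sound _ 97 [(rh2145e1d24b96a57e.shift 1 0), rh9ecbf812f1a555a9] (by decide +kernel))
noncomputable def rh7551299cce63a7a0 : CRef := CRef.mk (Pat.mk 0xc0000000600000010 0x200000002000000030000003f0000003e00000034 5 6) 0 0 (step_sound _ 68 [(rh18965a982d73c794.shift 1 1), rh890ac8a98ba850b1] (by decide +kernel))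
noncomputable def rh12863910bbd550ea : CRef := CRef.mk (Pat.mk 0x400000016000000100000000000000000 0x400000004000000040000001e000000370000000200000002 5 6) 0 0 (step_sound _ 99 [rh3423e5ac208fb65b, (rhe25b0a99195a5d59.shift 1 2)] (by decide +kernel))
noncomputable def rh083d55aa7a465bcb : CRef := CRef.mk (Pat.mk 0x1400000016000000100000001000000000 0x140000001e000000330000001e0000000a 5 6) 0 0 (step_sound _ 65 [(rh065f466862183727.shift 1 0), rh24dc7b831b52881b, rh5ce1d71398a3b99a, (rhcaa7ba44a31c4370.shift 0 2)] (by decide +kernel))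
noncomputable def rh251123ccb92f46c0 : CRef := CRef.mk (Pat.mk 0x500000003000000010000001100000000 0x60000000700000003000000030000001f00000006 5 5) 0 0 (step_sound _ 33 [rh55afc6a59410cf00, rh63bd1d8342766b11] (by decide +kernel))
noncomputable def rh0bfe5a46b29c1d06 : CRef := CRef.mk (Pat.mk 0x80000001e0000000000000004 0x80000000a0000000f0000001e0000000700000004 5 5) 0 0 (step_sound _ 97 [(rh3244c3cc8379b070.shift 0 2), rh86ba51e3fef6772f] (by decide +kernel))
noncomputable def rh4a9662abca1b8825 : CRef := CRef.mk (Pat.mk 0x100000003c000000000000000000000000 0x1000000010000000180000003f0000001f0000000800000008 5 6) 0 0 (step_sound _ 65 [(rh80fcd6d0a18cb2dd.shift 1 2), rhb4fe47bd93c50a74] (by decide +kernel))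
noncomputable def rh89b5f90df49b86fa : CRef := CRef.mk (Pat.mk 0x40000001e000000000000000000000000 0x400000004000000340000001e000000070000000200000002 5 6) 0 0 (step_sound _ 132 [(rh33e738c4ed385b9f.shift 1 3), rh3423e5ac208fb65b] (by decide +kernel))
noncomputable def rh2f3cad69fdd8054a : CRef := CRef.mk (Pat.mk 0x8000000080000000d00000008 0x40000001f000000780000000f00000008 5 7) 0 0 (step_sound _ 98 [(rh50fbb5868c909700.shift 2 0), (rhdb781f88dea9f0ff.shift 0 1)] (by decide +kernel))
noncomputable def rh3d501a730f77e9b6 : CRef := CRef.mk (Pat.mk 0x6000000070000000800000000 0x400000004000000060000003f0000001b00000002 5 6) 0 0 (step_sound _ 67 [rh581496e46a110a3e, (rhe25b0a99195a5d59.shift 0 1)] (by decide +kernel))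
noncomputable def rh3ba695d91ad9a720 : CRef := CRef.mk (Pat.mk 0x6000000030000000800000008 0x400000004000000060000001e0000000b0000000a0000000a 5 5) 0 0 (step_sound _ 99 [(rh18965a982d73c794.shift 0 2), (rh3760d8507877455e.shift 1 0)] (by decide +kernel))
noncomputable def rhd0011a5e4f42f723 : CRef := CRef.mk (Pat.mk 0x14000000160000000300000000 0x300000003000000030000001e000000370000000300000001 5 6) 0 0 (step_sound _ 97 [rh623a731171d66e50, rhc9b7a010d6829066, (rhcaa7ba44a31c4370.shift 0 2)] (by decide +kernel))
noncomputable def rhfaee95439ef8385a : CRef := CRef.mk (Pat.mk 0x200000008000000080000000800000000 0x140000001c0000001f00000038000000180000001800000010 5 6) 0 0 (step_sound _ 131 [(rh4a37486e0549b1bc.shift 0 1), (rh5abfc4c9d959be03.shift 2 0), (rhc85cc95794737cf7.shift 2 1), (rhced6d86d2069808b.shift 3 0)] (by decide +kernel))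
noncomputable def rh7128c5124d01767c : CRef := CRef.mk (Pat.mk 0x7000000040000000400000000 0xa0000000e0000001e000000070000000c0000000c00000008 5 5) 0 0 (step_sound _ 130 [(rh4017de503635a93b.shift 0 1), (rh5abfc4c9d959be03.shift 1 0), (rhced6d86d2069808b.shift 2 0)] (by decide +kernel))
noncomputable def rha5cd6bb0e1be770f : CRef := CRef.mk (Pat.mk 0x100000001200000003000000080000000a00000000 0x120000001300000013000000190000000f00000003 5 5) 0 0 (step_sound _ 68 [(rh3c88ce959c0e423f.shift 3 1), rh834988c384b1e37f] (by decide +kernel))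
noncomputable def rhb4dd944c95a9c0e2 : CRef := CRef.mk (Pat.mk 0x1a0000001e000000000000000000000000 0xb0000000b0000001e0000001e0000000f0000000400000004 5 5) 0 0 (step_sound _ 65 [rh64a6c84a6d089730, (rheb0810cc63b001d8.shift 0 2)] (by decide +kernel))
noncomputable def rh93f702319e6412c4 : CRef := CRef.mk (Pat.mk 0x5000000050000000400000004 0x200000002000000030000000700000007000000050000000500000004 5 3) 0 0 (step_sound _ 129 [(rh8f17af7e187d9ab9.shift 0 1), (rhffd04209dc8ea796.shift 1 0)] (by decide +kernel))
noncomputable def rh95fc87f9297d7a59 : CRef := CRef.mk (Pat.mk 0x10000000380000000800000008 0x4000000770000003e0000000f00000008 5 7) 0 0 (step_sound _ 66 [(rh592c7139d2c44767.shift 0 1), (rhe4f9133a81c1dbc5.shift 1 0), (rhec46bd5500c722c9.shift 1 2), (rhedf6b6c69a16cbd5.shift 0 2)] (by decide +kernel))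
noncomputable def rh465444efcb51b496 : CRef := CRef.mk (Pat.mk 0x80000001e0000000000000004 0x80000000a0000000b0000001e0000000f00000004 5 5) 0 0 (step_sound _ 33 [rh53e1cbd896b152b9, (rheb0810cc63b001d8.shift 0 1)] (by decide +kernel))
noncomputable def rh0eada5cfcca5be9d : CRef := CRef.mk (Pat.mk 0x1a0000001a00000002000000060000000000000000 0x100000001a0000001a0000000a0000001f0000000b00000001 5 5) 0 0 (step_sound _ 32 [rh742323df17b8c9a6, (rh79877ebd3ef475dd.shift 0 1)] (by decide +kernel))
noncomputable def rh558683efb07c0ccf : CRef := CRef.mk (Pat.mk 0x40000000e000000100000000000000000 0x400000004000000040000001e000000370000000200000002 5 6) 0 0 (step_sound _ 100 [rh3423e5ac208fb65b, (rhe25b0a99195a5d59.shift 1 2)] (by decide +kernel))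
noncomputable def rhb5fa927ebe54187b : CRef := CRef.mk (Pat.mk 0xe0000001e00000004 0x1000000012000000330000001e0000001e0000000c 5 6) 0 0 (step_sound _ 97 [(rh2145e1d24b96a57e.shift 1 0), rh7dc512b965165b81] (by decide +kernel))
noncomputable def rh6de466fa9ade19a6 : CRef := CRef.mk (Pat.mk 0x60000000e000000000000000000000000 0x400000004000000060000003e000000070000000200000002 5 6) 0 0 (step_sound _ 100 [rh3423e5ac208fb65b, (rhf48373e13d2bc128.shift 1 3)] (by decide +kernel))
noncomputable def rhb4380df2e2db088b : CRef := CRef.mk (Pat.mk 0x1e000000140000000000000000 0x200000002000000070000001f0000001c0000000400000004 5 5) 0 0 (step_sound _ 67 [(rhb739f4f82bb681b4.shift 0 2), rhd5889c99d29bf7d6] (by decide +kernel))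
noncomputable def rhccfa7b3c02894528 : CRef := CRef.mk (Pat.mk 0xe000000020000000000000020 0x300000003e000000730000002000000020 5 7) 0 0 (step_sound _ 100 [(rh282dcf2abcd74723.shift 1 0), (rheb0810cc63b001d8.shift 0 2)] (by decide +kernel))
noncomputable def rh78864f9e980aced1 : CRef := CRef.mk (Pat.mk 0x20000000f000000000000000000000010 0x660000003f000000380000001000000010 5 7) 0 0 (step_sound _ 68 [(rh161838138d27525b.shift 1 0), (rh96851dee118c1ba3.shift 0 2)] (by decide +kernel))
noncomputable def rh67d0180ef0585f3c : CRef := CRef.mk (Pat.mk 0x20000000f00000000 0x3e0000003f00000070 5 7) 0 0 (step_sound _ 68 [(rh428265de8cd3cd2d.shift 0 1), (rha0d2d254997cad6c.shift 1 0)] (by decide +kernel))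
noncomputable def rhb6147e185b794d59 : CRef := CRef.mk (Pat.mk 0x20000000280000003800000010 0x80000007c0000003f0000003800000010 5 7) 0 0 (step_sound _ 99 [(rh2145e1d24b96a57e.shift 3 0), (rh93d1c5fd225d9985.shift 0 1)] (by decide +kernel))
noncomputable def rhc7e8e87a0b43237b : CRef := CRef.mk (Pat.mk 0x7800000010 0xe0000007e00000037 5 7) 0 0 (step_sound _ 66 [(rh3f8766e6ecb455ce.shift 2 1), rh81fa5e29d8b2e2b8] (by decide +kernel))
noncomputable def rhfd3737a6223fa3ef : CRef := CRef.mk (Pat.mk 0x20000000e000000000000001000000010 0x730000003e000000600000003000000010 5 7) 0 0 (step_sound _ 100 [(rh2df5afcfc4cfd1fc.shift 1 0), (rh3244c3cc8379b070.shift 0 3)] (by decide +kernel))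
noncomputable def rh18ad902315d4a7c6 : CRef := CRef.mk (Pat.mk 0x40000000e000000020000000a00000008 0x20000000300000003000000370000003e000000360000001a00000008 5 6) 0 0 (step_sound _ 129 [(rh293be33b778343b4.shift 1 0), (rh8d99d90023130d2c.shift 0 1)] (by decide +kernel))
noncomputable def rhfc67fece3ec14ad5 : CRef := CRef.mk (Pat.mk 0x8000000180000003800000008 0x140000001f0000001f0000003800000008 5 6) 0 0 (step_sound _ 100 [(rh5c5e593799055d58.shift 3 0), rh9c6fc39ad557aaae] (by decide +kernel))
noncomputable def rh00321360533dfee0 : CRef := CRef.mk (Pat.mk 0x100000001a0000003c00000008 0xc0000001f0000001b0000003c0000000e 5 6) 0 0 (step_sound _ 2 [rh56b1f3275e5bfb30, (rheb0810cc63b001d8.shift 1 0)] (by decide +kernel))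
noncomputable def rh3163cc19a88bdc18 : CRef := CRef.mk (Pat.mk 0x180000001800000028 0x18000000ff000001ef 5 9) 0 0 (step_sound _ 37 [rh2820ca9a6c4f41b4, (rh8ee80cc30e93a344.shift 2 0), rha4ae2ee71608971a, (rha9e1a5d55b907abf.shift 2 0)] (by decide +kernel))
noncomputable def rh0076f4b8af27f5af : CRef := CRef.mk (Pat.mk 0x1e00000000000000000000000800000008 0x8000000380000001f00000030000000100000001800000008 5 6) 0 0 (step_sound _ 100 [rh857b80967ee3d489, (rhe25b0a99195a5d59.shift 1 3)] (by decide +kernel))
noncomputable def rhf51756e887fc1236 : CRef := CRef.mk (Pat.mk 0x180000001800000020 0x1c000000ff000001e7 5 9) 0 0 (step_sound _ 37 [(rh79b3c29022acbdf3.shift 2 1), (rh8ee80cc30e93a344.shift 2 0), rha4ae2ee71608971a] (by decide +kernel))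
noncomputable def rh85797ea7e03930ab : CRef := CRef.mk (Pat.mk 0x1c000000060000001000000000 0x200000002000000070000001f0000003e0000003400000004 5 6) 0 0 (step_sound _ 97 [(rha8f0bb47ccc0d695.shift 0 1), rhd5889c99d29bf7d6] (by decide +kernel))
noncomputable def rh17e80ddbe75641a6 : CRef := CRef.mk (Pat.mk 0x1a00000002000000020000000000000000 0x500000007000000070000001e00000002000000060000000600000004 5 5) 0 0 (step_sound _ 161 [(rh5e05da03898e7023.shift 0 2), (rhc85cc95794737cf7.shift 0 2), (rhc9de03f9731897d4.shift 1 0)] (by decide +kernel))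
noncomputable def rh6f050b870fcb2e57 : CRef := CRef.mk (Pat.mk 0x2000000020000000a0000000800000000 0x50000000700000007000000020000001b0000000f00000005 5 5) 0 0 (step_sound _ 33 [rh20966da26a1c2ae8, (rhc85cc95794737cf7.shift 0 1), rhe8768a83bdb59c61] (by decide +kernel))
noncomputable def rh490f5a1345100298 : CRef := CRef.mk (Pat.mk 0x3000000010000000040000001c00000002 0xf40000003e000000040000001e00000003 5 8) 0 0 (step_sound _ 33 [(rh162ca783742f2cda.shift 1 0), rheb0810cc63b001d8] (by decide +kernel))
noncomputable def rhcee9bfd85c34df6d : CRef := CRef.mk (Pat.mk 0x7000000000000000800000008 0x3c0000001f000000380000001800000008 5 6) 0 0 (step_sound _ 99 [rh2df5afcfc4cfd1fc, rh6a78fa75f0f8d5b0, rhdad6fb8687a5e7f2] (by decide +kernel))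
noncomputable def rhd0869283ba518929 : CRef := CRef.mk (Pat.mk 0xe000000040000001000000010 0x2000000020000000f0000001e000000340000001400000014 5 6) 0 0 (step_sound _ 100 [rhd5889c99d29bf7d6, (rhdad6fb8687a5e7f2.shift 1 0)] (by decide +kernel))
noncomputable def rhffa3a2cae67230e7 : CRef := CRef.mk (Pat.mk 0xe000000040000001000000010 0x200000002000000770000003e000000640000003400000014 5 7) 0 0 (step_sound _ 100 [(rh2df5afcfc4cfd1fc.shift 1 0), rhd5889c99d29bf7d6] (by decide +kernel))
noncomputable def rhbc9b81ce56be4903 : CRef := CRef.mk (Pat.mk 0x60000000200000002000000080000000800000000 0x40000000600000002000000020000001b0000000f00000005 5 5) 0 0 (step_sound _ 65 [(rh2f68792b6b779e96.shift 1 2), rhf389780122f41e70] (by decide +kernel))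
noncomputable def rhc4f96704649988c2 : CRef := CRef.mk (Pat.mk 0x38000000100000000000000000 0x2000000020000000700000003e000000370000001000000010 5 7) 0 0 (step_sound _ 98 [(rhd039e5a02ea548e4.shift 2 0), (rhf60cdf71a14eca6b.shift 2 0), (rhfcb55d5dc3b78d1f.shift 0 2)] (by decide +kernel))
noncomputable def rhef5b717c3c78b399 : CRef := CRef.mk (Pat.mk 0x10000000100000001e00000010 0x280000003c0000001f0000001e00000010 5 6) 0 0 (step_sound _ 99 [(rh50fbb5868c909700.shift 3 0), rh6fdd17ee988c81a0] (by decide +kernel))
noncomputable def rhb34d56df7f1a8739 : CRef := CRef.mk (Pat.mk 0x380000000800000008 0x4000000770000003e0000000f00000008 5 7) 0 0 (step_sound _ 66 [(rh4c622fddc53a5f99.shift 0 2), (rh9e97bba44c1b13e4.shift 0 1), (rhe4f9133a81c1dbc5.shift 1 0)] (by decide +kernel))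
noncomputable def rh03901d6887da191b : CRef := CRef.mk (Pat.mk 0x1000000020000000200000002000000080000000800000000 0x10000000300000002000000020000001b0000000f00000005 5 5) 0 0 (step_sound _ 65 [rhf389780122f41e70, (rhffd04209dc8ea796.shift 0 2)] (by decide +kernel))
noncomputable def rh929182e999a000c0 : CRef := CRef.mk (Pat.mk 0x300000000000000018000000100000000000000000 0x1f0000007c0000001f00000018000000100000001000000010 5 7) 0 0 (step_sound _ 163 [(rh099d444677688b93.shift 0 2), (rh28afc5b167f84184.shift 3 0), rh40e2246689cf65bb, (rhf32297923889a514.shift 0 2)] (by decide +kernel))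
noncomputable def rh922ed1c4e0d2a3bb : CRef := CRef.mk (Pat.mk 0x8000000080000000e0000000c 0x160000001f0000003b0000000e0000000c 5 6) 0 0 (step_sound _ 98 [(rh50fbb5868c909700.shift 2 0), rhbc2b647dbc0ffc03] (by decide +kernel))
noncomputable def rhde5356d54ed23098 : CRef := CRef.mk (Pat.mk 0x20000000e0000001a0000000000000000 0x4000000040000000e0000000e0000001a0000000f0000000f 5 5) 0 0 (step_sound _ 130 [rh78a360d7c0e0d8d2, (rh84d1c02a8954c6a8.shift 1 1), (rha40d42a2e34c408d.shift 2 0)] (by decide +kernel))
noncomputable def rh6ac11f448542d050 : CRef := CRef.mk (Pat.mk 0xe000000040000001000000010 0x200000002000000770000007e000000fc0000003400000014 5 8) 0 0 (step_sound _ 100 [(rh2df5afcfc4cfd1fc.shift 1 0), (rh6a78fa75f0f8d5b0.shift 1 0), (rh8f6ac4756b9a6be8.shift 2 0), rhd5889c99d29bf7d6] (by decide +kernel))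
noncomputable def rh2fa53bdbc15a5acb : CRef := CRef.mk (Pat.mk 0x4000000040000001400000014000000000000000000000000 0x400000004000000340000001e0000000f0000000200000002 5 6) 0 0 (step_sound _ 99 [(rh55afc6a59410cf00.shift 2 2), rhe1a136e2584efaaa] (by decide +kernel))
noncomputable def rh5d10ff9e1b1f2a5e : CRef := CRef.mk (Pat.mk 0x4000000020000000200000002000000080000000800000000 0x40000000600000002000000020000001b0000000f00000005 5 5) 0 0 (step_sound _ 65 [(rhbaefcd01e0a8bca3.shift 1 2), rhf389780122f41e70] (by decide +kernel))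
noncomputable def rh6cd1461cb7dadbe4 : CRef := CRef.mk (Pat.mk 0xa0000000a0000000800000008 0x40000003e0000007f0000000800000008 5 7) 0 0 (step_sound _ 98 [(rh492208f1043c36f8.shift 0 2), (rh50fbb5868c909700.shift 2 0)] (by decide +kernel))
noncomputable def rh383d5ebc74711a0c : CRef := CRef.mk (Pat.mk 0x1800000002000000020000000300000000 0x50000000f0000001b00000002000000020000000300000001 5 5) 0 0 (step_sound _ 129 [(rh769c8bac0b178383.shift 0 1), rh932754581e0f4330] (by decide +kernel))
noncomputable def rh1868744840f45f38 : CRef := CRef.mk (Pat.mk 0x100000000a0000000b00000008 0x170000001e0000000b0000000b00000009 5 5) 0 0 (step_sound _ 99 [(rh2f68792b6b779e96.shift 3 0), rh85beefbe0a175746] (by decide +kernel))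
noncomputable def rhefadd466d496907b : CRef := CRef.mk (Pat.mk 0x400000016000000100000000000000000 0x400000004000000060000001e000000330000000200000002 5 6) 0 0 (step_sound _ 99 [(rhe25b0a99195a5d59.shift 1 2), rhee7dc6826bc99ade] (by decide +kernel))
noncomputable def rh4723afaf4d1af126 : CRef := CRef.mk (Pat.mk 0x180000000b0000000b00000008 0x50000000f0000001d0000000b0000000b0000000a 5 5) 0 0 (step_sound _ 130 [rhd8f1c770aaeb050a, (rhffd04209dc8ea796.shift 2 0)] (by decide +kernel))
noncomputable def rh9088861d4a508c53 : CRef := CRef.mk (Pat.mk 0x4000000080000000a0000000b000000090000000800000000 0x40000000c000000080000000a0000000f000000190000000f00000005 5 5) 0 0 (step_sound _ 195 [rh065f466862183727, (rh50fbb5868c909700.shift 2 3)] (by decide +kernel))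
noncomputable def rhd49a7ec3a1fc22b3 : CRef := CRef.mk (Pat.mk 0xa0000000b000000080000000900000000 0x10000000b0000000b0000001a0000000f00000007 5 5) 0 0 (step_sound _ 34 [(rh932754581e0f4330.shift 2 0), rhe53cd0b90f5329a4] (by decide +kernel))
noncomputable def rh5efb70d687a431f8 : CRef := CRef.mk (Pat.mk 0x400000006000000020000000600000000 0x300000003000000030000000600000006000000060000000600000004 5 3) 0 0 (step_sound _ 129 [(rh4b685788b9557979.shift 0 1), (rh55afc6a59410cf00.shift 1 0)] (by decide +kernel))
noncomputable def rh7a1b87a097c25c8d : CRef := CRef.mk (Pat.mk 0x1e00000014000000100000001800000000 0x20000001e0000001f000000340000001e00000004 5 6) 0 0 (step_sound _ 97 [(rh458ab99d1bfd8b30.shift 1 0), (rheb0810cc63b001d8.shift 0 3)] (by decide +kernel))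
noncomputable def rh075c000f61097791 : CRef := CRef.mk (Pat.mk 0x200000002000000020000000000000000 0x500000007000000070000000300000003000000030000000300000001 5 3) 0 0 (step_sound _ 161 [(rh20966da26a1c2ae8.shift 0 1), (rh771d065bdc85bf2d.shift 0 1), (rhc85cc95794737cf7.shift 0 2), rhfb48bea540f6436d] (by decide +kernel))
noncomputable def rh3d9e209d9d128a84 : CRef := CRef.mk (Pat.mk 0x8000000180000001e00000004 0x60000000f0000001b0000001e00000007 5 5) 0 0 (step_sound _ 1 [rh1ba597799b5c5efa, rheb0810cc63b001d8] (by decide +kernel))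
noncomputable def rh3b66d3b4b6a37611 : CRef := CRef.mk (Pat.mk 0x100000001c0000001400000010 0x10000000100000001c0000007f000000f7 5 8) 0 0 (step_sound _ 35 [(rh06632e5662f9eca8.shift 2 0), (rh8ee80cc30e93a344.shift 1 0), rh9ce3a16f91dcd4b0, rhf56e6bc5d2f7fe77] (by decide +kernel))
noncomputable def rh4048f5aed7cbf858 : CRef := CRef.mk (Pat.mk 0x2000000020000000200000003000000060000000200000000 0x100000003000000030000000200000003000000030000001e0000000300000001 5 5) 0 0 (step_sound _ 32 [rh932754581e0f4330, (rh97ca5a0d65ac2a87.shift 0 1)] (by decide +kernel))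
noncomputable def rh743560c7d9ebb960 : CRef := CRef.mk (Pat.mk 0xb0000000a000000080000000a0000000000000000 0x10000000b0000000a0000000a0000000f0000000700000005 5 4) 0 0 (step_sound _ 97 [(rh50fbb5868c909700.shift 0 2), rhf3decfc5437fae50] (by decide +kernel))
noncomputable def rhbda2c8ada58e8e5d : CRef := CRef.mk (Pat.mk 0x110000000b0000000a00000008 0x50000001f000000190000000b0000001e00000018 5 5) 0 0 (step_sound _ 99 [(rh2f68792b6b779e96.shift 3 0), rhe4c42cf86209de53] (by decide +kernel))
noncomputable def rh5f742f375f0a946b : CRef := CRef.mk (Pat.mk 0x28000000080000002000000020 0x1000000010000000100000007c000001ff0000002800000028 5 9) 0 0 (step_sound _ 100 [(rh2820ca9a6c4f41b4.shift 0 2), (rhce5d96c98ad5f8ff.shift 3 0), (rhd6ce1e450980fc2b.shift 2 0)] (by decide +kernel))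
noncomputable def rh3f5207fbbe366c95 : CRef := CRef.mk (Pat.mk 0x400000004000000140000001400000000 0xc0000000c00000004000000370000001e00000008 5 6) 0 0 (step_sound _ 131 [rh210928190827b327, (rh2f68792b6b779e96.shift 2 1)] (by decide +kernel))
noncomputable def rh9d018c92315c0fd0 : CRef := CRef.mk (Pat.mk 0x38000000180000000000000008 0xc6000000ff000000380000000800000008 5 8) 0 0 (step_sound _ 102 [(rh18965a982d73c794.shift 3 2), rh62f2cb24ccadc3b7] (by decide +kernel))
noncomputable def rh553bd5a9701a40ae : CRef := CRef.mk (Pat.mk 0x600000006000000120000000000000000 0x200000006000000060000001e0000000700000007 5 5) 0 0 (step_sound _ 33 [(rh71222050f2c63a3a.shift 1 0), rhb539eee60d29bf85] (by decide +kernel))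
noncomputable def rhf57e429b22973115 : CRef := CRef.mk (Pat.mk 0x20000000e00000008 0x730000007e0000000e 5 7) 0 0 (step_sound _ 36 [(rh3244c3cc8379b070.shift 0 1), (rhed57d1a6d4db2db6.shift 1 0)] (by decide +kernel))
noncomputable def rhf4f7005066521a98 : CRef := CRef.mk (Pat.mk 0x20000000f0000000c 0x2000000020000003a0000007f0000000e 5 7) 0 0 (step_sound _ 97 [(rh2145e1d24b96a57e.shift 1 0), rh70f75251a6f67951] (by decide +kernel))
noncomputable def rh7978888d4cf2503f : CRef := CRef.mk (Pat.mk 0x30000000f0000000c 0xe0000001e0000001b0000000f0000000c 5 5) 0 0 (step_sound _ 97 [(rh2145e1d24b96a57e.shift 1 0), rh50cfa82f61bf1f99] (by decide +kernel))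
noncomputable def rhb9516e665db18134 : CRef := CRef.mk (Pat.mk 0x1c00000018 0xf0000000ff0000001c 5 8) 0 0 (step_sound _ 33 [(rh87cd46f44fe7c0d6.shift 1 0), rhb739f4f82bb681b4] (by decide +kernel))
noncomputable def rh39ea70b712573834 : CRef := CRef.mk (Pat.mk 0x2000000020000000a0000000800000000 0x50000000700000007000000020000001e0000000f00000001 5 5) 0 0 (step_sound _ 33 [rhaf477bfe5ceac6e7, (rhc85cc95794737cf7.shift 0 1)] (by decide +kernel))
noncomputable def rh452791d275eb5af4 : CRef := CRef.mk (Pat.mk 0x800000008000000080000000c00000008 0x800000018000000780000001f0000000c00000008 5 7) 0 0 (step_sound _ 66 [(rh5c5e593799055d58.shift 2 1), rhc9613fc5bab58382] (by decide +kernel))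
noncomputable def rh2fc523ad27ad4fcb : CRef := CRef.mk (Pat.mk 0x2000000020000000a0000000c 0x200000002000000730000007e0000000c 5 7) 0 0 (step_sound _ 34 [(rh2145e1d24b96a57e.shift 1 0), rh546551bfa61a8651] (by decide +kernel))
noncomputable def rh3d74cb0875159354 : CRef := CRef.mk (Pat.mk 0x800000008000000280000000000000000 0x140000001c0000001c000000080000007c0000000f00000004 5 7) 0 0 (step_sound _ 35 [(rh1741680720c097b4.shift 2 1), (rh5d64a5765ea6b71b.shift 1 0), rhc8fd50c44a2112a0] (by decide +kernel))
noncomputable def rh905e10946450bea1 : CRef := CRef.mk (Pat.mk 0x800000008000000280000002800000000 0x8000000080000003f0000003e00000014 5 6) 0 0 (step_sound _ 36 [(rh55afc6a59410cf00.shift 3 0), rhfb34009a59c70ca1] (by decide +kernel))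
noncomputable def rh3b7adefdf5cd421a : CRef := CRef.mk (Pat.mk 0x8000000280000000800000000 0x140000001c0000001c000000080000007c0000000f00000004 5 7) 0 0 (step_sound _ 131 [(rh1741680720c097b4.shift 2 1), (rh5d64a5765ea6b71b.shift 1 0), rhc8fd50c44a2112a0] (by decide +kernel))
noncomputable def rha9cfee431e742090 : CRef := CRef.mk (Pat.mk 0x8000000280000002c000000000000000000000000 0x80000003f0000003e0000000e0000000400000004 5 6) 0 0 (step_sound _ 66 [(rh42548283029e2a39.shift 2 0), (rh9b260c977cab37ab.shift 0 2)] (by decide +kernel))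
noncomputable def rh20681cf92e735565 : CRef := CRef.mk (Pat.mk 0x1800000005000000160000000000000000 0x20000000780000003f000000160000001000000010 5 7) 0 0 (step_sound _ 99 [(rh24ae073cf30720c4.shift 0 3), (rh3d6f4c573b4653c6.shift 1 0)] (by decide +kernel))
noncomputable def rh480f832e5144f1ce : CRef := CRef.mk (Pat.mk 0x20000000a0000000a00000000 0x50000000700000007000000020000001a0000000f00000005 5 5) 0 0 (step_sound _ 129 [(rh1741680720c097b4.shift 0 1), rhe8768a83bdb59c61] (by decide +kernel))
noncomputable def rh0542e41926acc11d : CRef := CRef.mk (Pat.mk 0x400000004000000140000001c0000000000000000 0x400000006000000070000001f0000001c0000000400000004 5 5) 0 0 (step_sound _ 99 [(rh2145e1d24b96a57e.shift 2 2), rhcb1fef223c62f2ee] (by decide +kernel))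
noncomputable def rh547cec784bc51b1f : CRef := CRef.mk (Pat.mk 0x400000014000000140000000c0000000000000000 0x400000006000000370000001e0000000c0000000400000004 5 6) 0 0 (step_sound _ 99 [(rh2145e1d24b96a57e.shift 2 2), rh7f668c601417d6ef] (by decide +kernel))
noncomputable def rh9b7ecf44d0378a7a : CRef := CRef.mk (Pat.mk 0x80000000a0000000a0000000c 0x170000001e0000000b0000000e0000000c 5 5) 0 0 (step_sound _ 98 [(rh50fbb5868c909700.shift 2 0), rhd6fe83ff08837e5a] (by decide +kernel))
noncomputable def rh2adfa7d64de7d454 : CRef := CRef.mk (Pat.mk 0x280000002800000030 0x1ef000001fe00000030 5 9) 0 0 (step_sound _ 36 [(rh34517e326ddb5b25.shift 1 0), (rh546551bfa61a8651.shift 2 0), (rha11dfd15f08f96e3.shift 2 1), (rha9fbfd4bb8cf890b.shift 0 1)] (by decide +kernel))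
noncomputable def rh6754acae50f1b04b : CRef := CRef.mk (Pat.mk 0x180000000a0000000a0000000c 0x70000001f0000007a0000001f0000000c 5 7) 0 0 (step_sound _ 98 [(rh50fbb5868c909700.shift 2 0), rh78a2812fed4b90af] (by decide +kernel))
noncomputable def rh200df86862075f45 : CRef := CRef.mk (Pat.mk 0x8000000080000000a0000000800000000 0x800000008000000780000001f0000000c00000004 5 7) 0 0 (step_sound _ 34 [(rh1c598a83d71ae701.shift 0 1), (rh932754581e0f4330.shift 2 0)] (by decide +kernel))
noncomputable def rh80a1e2f8672ea264 : CRef := CRef.mk (Pat.mk 0x80000000a0000000a0000000c 0x8000000080000007b0000007e0000000c 5 7) 0 0 (step_sound _ 34 [rh546551bfa61a8651, (rh5c5e593799055d58.shift 2 0)] (by decide +kernel))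
noncomputable def rhb722ed1e6c374d20 : CRef := CRef.mk (Pat.mk 0x140000001c000000000000000000000000 0x400000004000000360000001e000000030000000200000002 5 6) 0 0 (step_sound _ 97 [(rh33e738c4ed385b9f.shift 1 3), rhee7dc6826bc99ade] (by decide +kernel))
noncomputable def rh36c0bbd879682cdd : CRef := CRef.mk (Pat.mk 0x4000000000000000f0000000400000000 0x4000000040000003c0000003f0000000600000002 5 6) 0 0 (step_sound _ 100 [(rh428265de8cd3cd2d.shift 0 2), (rh77556517df5b800d.shift 1 0)] (by decide +kernel))
noncomputable def rhb011648b02524118 : CRef := CRef.mk (Pat.mk 0x40000001c000000180000000000000000 0x400000004000000060000001f0000001b0000000200000002 5 5) 0 0 (step_sound _ 97 [(rhb739f4f82bb681b4.shift 0 2), rhee7dc6826bc99ade] (by decide +kernel))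
noncomputable def rhca99adcba0ac6e83 : CRef := CRef.mk (Pat.mk 0x18000000020000000800000008 0x140000001f0000003b0000000800000008 5 6) 0 0 (step_sound _ 67 [(rh2f68792b6b779e96.shift 3 0), rhe1987058c8485c44] (by decide +kernel))
noncomputable def rh776abe170e2140ff : CRef := CRef.mk (Pat.mk 0x80000000c00000000000000040000001400000000 0x8000000080000001f000000780000001c0000001400000010 5 7) 0 0 (step_sound _ 99 [rh69aca83be817a68c, (rheea67dfebd0f8008.shift 2 1)] (by decide +kernel))
noncomputable def rh2ca48826cd3969c7 : CRef := CRef.mk (Pat.mk 0x10000000d000000010000000500000004 0x20000001b0000001f000000190000000d00000004 5 5) 0 0 (step_sound _ 129 [(rh2f68792b6b779e96.shift 0 1), rhf4d867fa86ae1c14] (by decide +kernel))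
noncomputable def rh2c31585bcf1fa334 : CRef := CRef.mk (Pat.mk 0x1c000000060000000400000000 0xa0000000e0000000f0000001c000000060000000600000002 5 5) 0 0 (step_sound _ 130 [(rh039efe07c35de3d4.shift 0 1), (rh03dfdf12d5937476.shift 1 0), (rh1741680720c097b4.shift 1 1)] (by decide +kernel))
noncomputable def rh5dc21415ee553144 : CRef := CRef.mk (Pat.mk 0x12000000060000000600000002 0x3d0000003f000000060000000600000002 5 6) 0 0 (step_sound _ 98 [(rh5c5e593799055d58.shift 1 0), rhc033698fcd6a6122] (by decide +kernel))
noncomputable def rh15b595d8d47c4c81 : CRef := CRef.mk (Pat.mk 0x20000000e00000000 0x730000003e00000007 5 7) 0 0 (step_sound _ 36 [(rh3244c3cc8379b070.shift 0 1), rh3b00e9e9432b8f40] (by decide +kernel))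
noncomputable def rhcea00c89c1b94c73 : CRef := CRef.mk (Pat.mk 0x1c0000001000000010 0x2000000020000000770000003e0000001700000010 5 7) 0 0 (step_sound _ 69 [(rh49606a42a30c7ac4.shift 2 0), (rh775ca1963e850b80.shift 0 1)] (by decide +kernel))
noncomputable def rh842fd840c3363927 : CRef := CRef.mk (Pat.mk 0x600000016000000000000000000000000 0x400000004000000070000001e000000070000000200000002 5 5) 0 0 (step_sound _ 99 [(rh3244c3cc8379b070.shift 0 3), rhcfde16a7ff36af03] (by decide +kernel))
noncomputable def rh20a16ea490d845a0 : CRef := CRef.mk (Pat.mk 0x1c0000001800000008 0x400000004000000070000003f0000001c00000008 5 6) 0 0 (step_sound _ 65 [(rhb739f4f82bb681b4.shift 0 1), rhc3bb0f1b2af200a9] (by decide +kernel))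
noncomputable def rhfa84e23ffa1d661f : CRef := CRef.mk (Pat.mk 0x1c0000001800000008 0x4000000040000000f0000003f0000001800000008 5 6) 0 0 (step_sound _ 65 [rh3e34a007a92efc93, (rhb739f4f82bb681b4.shift 0 1)] (by decide +kernel))
noncomputable def rhe3c49a1585cb7bbc : CRef := CRef.mk (Pat.mk 0xc0000001c000000180000000800000000 0xc0000007c0000001e0000000f00000006 5 7) 0 0 (step_sound _ 101 [rh2e7bc60d2f4d5c8c, (rhf48373e13d2bc128.shift 2 3)] (by decide +kernel))
noncomputable def rh6d642e7da0705ca4 : CRef := CRef.mk (Pat.mk 0x1c0000001c0000000000000008 0x2000000070000001f0000001c0000000c0000000c 5 5) 0 0 (step_sound _ 130 [(rh9e07f76261b05888.shift 2 0), rhcb1fef223c62f2ee] (by decide +kernel))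
noncomputable def rhe09a1d865a4cb93c : CRef := CRef.mk (Pat.mk 0x80000001c00000018 0xc000000ff0000001f 5 8) 0 0 (step_sound _ 33 [rhb739f4f82bb681b4, rhc6956c01bebae6c8] (by decide +kernel))
noncomputable def rhc26225327d1162a4 : CRef := CRef.mk (Pat.mk 0x80000001e0000001a0000000800000000 0x40000000c0000007e0000001a0000000f00000006 5 7) 0 0 (step_sound _ 130 [(rh50fbb5868c909700.shift 2 1), rhde521b32de5760db] (by decide +kernel))
noncomputable def rh8e183e4aa0fe2131 : CRef := CRef.mk (Pat.mk 0x20000000600000016000000000000000000000000 0x400000006000000060000001e000000070000000700000003 5 5) 0 0 (step_sound _ 66 [rh17bd2cd2946d1280, (rh7b1f1fb55310c477.shift 1 1)] (by decide +kernel))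
noncomputable def rh8acac059f21cef1b : CRef := CRef.mk (Pat.mk 0xc0000000c000000100000001800000000 0x40000000c0000000c0000001c0000001f00000007 5 5) 0 0 (step_sound _ 67 [(rh50fbb5868c909700.shift 2 1), rhb1c06754cc0d7506] (by decide +kernel))
noncomputable def rh8e438c67e09d6bf9 : CRef := CRef.mk (Pat.mk 0xe00000014000000100000001800000000 0x200000002000000070000001e00000014000000140000001c00000008 5 5) 0 0 (step_sound _ 132 [(rh932754581e0f4330.shift 3 0), (rhd5889c99d29bf7d6.shift 0 1)] (by decide +kernel))
noncomputable def rhaeedfaac42d61cf0 : CRef := CRef.mk (Pat.mk 0xa000000080000000800000000 0x140000001c0000007c0000001f0000000c0000000c00000004 5 7) 0 0 (step_sound _ 131 [(rh0363d47a46978688.shift 0 1), (rh771d065bdc85bf2d.shift 2 0), (rhc85cc95794737cf7.shift 2 1)] (by decide +kernel))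
noncomputable def rhbcf64eb0eb8de728 : CRef := CRef.mk (Pat.mk 0x1000000038000000600000003000000000 0x10000000780000007f0000003c00000008 5 7) 0 0 (step_sound _ 35 [rh51ce417ab3822512, (rh53b3c253cb0c65f4.shift 2 1)] (by decide +kernel))
noncomputable def rh6c5881e4d980ef3f : CRef := CRef.mk (Pat.mk 0x800000009000000090000000b000000080000000800000000 0x800000009000000090000001b0000001b0000000f00000006 5 5) 0 0 (step_sound _ 34 [(rh932754581e0f4330.shift 2 0), rhd62f6518548eace3] (by decide +kernel))
noncomputable def rh1034981a9105a4d5 : CRef := CRef.mk (Pat.mk 0x80000003800000018000000000000000000000000 0x40000000f0000003c000000180000000c0000000c0000000c 5 6) 0 0 (step_sound _ 67 [(rh46530d756bdf8511.shift 2 0), (rh53509d91ff78ed56.shift 0 2), (rh8292e11cff743ce0.shift 0 1)] (by decide +kernel))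
noncomputable def rh5e21dc1349369cd1 : CRef := CRef.mk (Pat.mk 0x2c00000020 0x70000003e00000067 5 7) 0 0 (step_sound _ 36 [rh592c7139d2c44767, (rhe25b0a99195a5d59.shift 2 0)] (by decide +kernel))
noncomputable def rh278f3f3c65acfd2f : CRef := CRef.mk (Pat.mk 0x1e0000001a0000000800000000 0x4000000040000003c0000001e0000001e0000000f00000002 5 6) 0 0 (step_sound _ 132 [rh0095e2980a3fdaab, (rh33e738c4ed385b9f.shift 1 3)] (by decide +kernel))
noncomputable def rh3a99070759187e21 : CRef := CRef.mk (Pat.mk 0x1000000018000000180000001000000000 0x80000001800000018000000380000001f0000000c 5 6) 0 0 (step_sound _ 35 [(rh932754581e0f4330.shift 3 0), rhe2d7daae1577d340] (by decide +kernel))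
noncomputable def rhb1bbbb7f7c6b3e67 : CRef := CRef.mk (Pat.mk 0x30000000f00000006 0xe0000001e0000001b0000000f00000006 5 5) 0 0 (step_sound _ 97 [(rh2145e1d24b96a57e.shift 1 0), rh93efb160633cac86] (by decide +kernel))
noncomputable def rhab4211a9db6632d8 : CRef := CRef.mk (Pat.mk 0x140000005000000018 0x36000000ff0000001c 5 8) 0 0 (step_sound _ 37 [(rh18965a982d73c794.shift 3 0), rhe69649f511ed4b04] (by decide +kernel))
noncomputable def rhe163d6a73866c081 : CRef := CRef.mk (Pat.mk 0x20000000200000002000000000000000000000000 0x400000007000000070000000300000006000000070000000700000001 5 3) 0 0 (step_sound _ 65 [rhc4526fc8abf298b6, (rhced6d86d2069808b.shift 1 1)] (by decide +kernel))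
noncomputable def rha50298191b6883d3 : CRef := CRef.mk (Pat.mk 0x1800000018000000100000001800000000 0x40000001f000000380000001e0000007800000020 5 7) 0 0 (step_sound _ 37 [(rh55afc6a59410cf00.shift 4 0), (rh75b88764718332ac.shift 0 1)] (by decide +kernel))
noncomputable def rh38e1f6bd971c45d3 : CRef := CRef.mk (Pat.mk 0x200000002000000020000000000000000 0x400000007000000070000000300000003000000070000000700000005 5 3) 0 0 (step_sound _ 161 [(rh20966da26a1c2ae8.shift 0 1), rh8ff3dde5b1c639e0, rhc4526fc8abf298b6] (by decide +kernel))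
noncomputable def rh0fabbeb2cfd1512d : CRef := CRef.mk (Pat.mk 0x20000000200000002000000000000000000000000 0x400000006000000060000000200000007000000070000000700000005 5 3) 0 0 (step_sound _ 65 [(rh20966da26a1c2ae8.shift 0 1), rh8cdd36b03d57a2f6, (rhc9ac229b3c77cd55.shift 0 1), (rhced6d86d2069808b.shift 1 1)] (by decide +kernel))
noncomputable def rhd9ee1a92da06e1cf : CRef := CRef.mk (Pat.mk 0x1800000018000000100000001800000000 0x18000000180000003e000000ff00000024 5 8) 0 0 (step_sound _ 37 [(rh55afc6a59410cf00.shift 4 0), rhc83e9ec0799d0336] (by decide +kernel))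
noncomputable def rha5141adeb788e906 : CRef := CRef.mk (Pat.mk 0x20000000200000002000000000000000000000000 0x100000003000000030000000300000006000000070000000700000005 5 3) 0 0 (step_sound _ 65 [(rh7eb4a07d72ad7934.shift 0 1), rh8cdd36b03d57a2f6, rhc4526fc8abf298b6] (by decide +kernel))
noncomputable def rh7746dfa1e2da3663 : CRef := CRef.mk (Pat.mk 0x60000000200000002000000020000000000000000 0x200000002000000070000000700000003000000030000000200000002 5 3) 0 0 (step_sound _ 33 [rh0105b2139521f473, (rhbaefcd01e0a8bca3.shift 1 1)] (by decide +kernel))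
noncomputable def rhc577279713bfdb0a : CRef := CRef.mk (Pat.mk 0x60000000c00000004000000040000000400000000 0x400000004000000060000003c0000000f000000060000000400000004 5 6) 0 0 (step_sound _ 99 [(rh71222050f2c63a3a.shift 2 0), (rh9eee85ee015596a3.shift 0 2)] (by decide +kernel))
noncomputable def rh675b172a473bb1e9 : CRef := CRef.mk (Pat.mk 0x200000002000000020000000200000000 0x1000000030000000300000002000000030000000700000005 5 3) 0 0 (step_sound _ 32 [rh932754581e0f4330, rhedf200999b964984] (by decide +kernel))
noncomputable def rhff1c89e479683fce : CRef := CRef.mk (Pat.mk 0x1800000038000000280000001800000000 0x1e0000003c0000002f0000007800000020 5 7) 0 0 (step_sound _ 130 [(rhb739f4f82bb681b4.shift 1 3), rhc3147fe3ea6a289f] (by decide +kernel))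
noncomputable def rhfb8d6d010fff3768 : CRef := CRef.mk (Pat.mk 0x1c000000080000002000000000 0xe00000007f0000007f0000002000000020 5 8) 0 0 (step_sound _ 101 [(rh500a083f39e7580c.shift 2 0), (rhaf9f2efc81a8312b.shift 1 2), (rhed95296174ee961f.shift 0 2)] (by decide +kernel))
noncomputable def rh9f6e793a35d9cbd3 : CRef := CRef.mk (Pat.mk 0x1e00000000000000000000001c 0x30000001e00000003000000070000001f 5 5) 0 0 (step_sound _ 65 [rhcfae0ab48d560436, (rheb0810cc63b001d8.shift 0 2)] (by decide +kernel))
noncomputable def rhe632d5b9111c8a1f : CRef := CRef.mk (Pat.mk 0x2800000008000000100000001000000000 0x20000000200000002f0000007c000000300000001000000010 5 7) 0 0 (step_sound _ 100 [(rh1d16fbcfb0a27976.shift 0 1), (rh7b1f1fb55310c477.shift 3 0)] (by decide +kernel))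
noncomputable def rh88b0df90eb7f6196 : CRef := CRef.mk (Pat.mk 0x1c00000002000000000000001c 0x30000001e00000003000000070000001f 5 5) 0 0 (step_sound _ 97 [rhcfae0ab48d560436, (rheb0810cc63b001d8.shift 0 2)] (by decide +kernel))
noncomputable def rh27464db141f90703 : CRef := CRef.mk (Pat.mk 0x600000002000000080000000f00000000 0x100000001e0000001f000000080000000f00000018 5 5) 0 0 (step_sound _ 3 [rh7e4251f6a933aad7, rhe25b0a99195a5d59] (by decide +kernel))
noncomputable def rhb7339408cab94302 : CRef := CRef.mk (Pat.mk 0x600000002000000080000001800000010 0x700000003e0000000f000000080000001800000010 5 7) 0 0 (step_sound _ 131 [(rh6f1cbe15c631ee70.shift 3 0), (rhdc1641106d7e5aa2.shift 0 3)] (by decide +kernel))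
noncomputable def rh8c78e8168348e56f : CRef := CRef.mk (Pat.mk 0x200000002000000060000000200000000 0x400000006000000060000000200000006000000070000000300000001 5 3) 0 0 (step_sound _ 32 [(rh5d410e570082021e.shift 0 1), rh932754581e0f4330] (by decide +kernel))
noncomputable def rhdfe7000ec9dadd15 : CRef := CRef.mk (Pat.mk 0xe000000040000001400000000 0x8000000780000003f0000003f0000001400000010 5 7) 0 0 (step_sound _ 100 [(rh500a083f39e7580c.shift 1 0), rha2fd40363c1e66d6, (rhaf9f2efc81a8312b.shift 0 2)] (by decide +kernel))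
noncomputable def rh58f7607681416282 : CRef := CRef.mk (Pat.mk 0x40000001e00000000 0x3c0000007f00000070 5 7) 0 0 (step_sound _ 68 [(rh33e738c4ed385b9f.shift 1 1), rhfaedff4dd69392fa] (by decide +kernel))
noncomputable def rhea609c59296ddef5 : CRef := CRef.mk (Pat.mk 0x1c000000080000000c0000001c 0x30000001f0000007c0000000f0000001c 5 7) 0 0 (step_sound _ 33 [rh19d7976b44620358, rhb739f4f82bb681b4] (by decide +kernel))
noncomputable def rhe1c94bc136835872 : CRef := CRef.mk (Pat.mk 0x3800000020 0xf0000007e0000003f 5 7) 0 0 (step_sound _ 34 [rh0de499e0455c9c14, rh775ca1963e850b80, rhd1d05263fabc0227, (rhd52e3929053d9d5f.shift 1 0)] (by decide +kernel))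
noncomputable def rhd4a238285c9259d9 : CRef := CRef.mk (Pat.mk 0x8000000080000000a0000000800000000 0x100000003c0000001f0000000b0000000800000008 5 6) 0 0 (step_sound _ 132 [(rh2f68792b6b779e96.shift 3 1), rh88e5d8ffef9aeecb] (by decide +kernel))
noncomputable def rhfe85ef6f8dfaf75c : CRef := CRef.mk (Pat.mk 0xa0000000a0000000a0000000800000000 0xa0000000a0000000b0000001f00000017 5 5) 0 0 (step_sound _ 34 [(rh932754581e0f4330.shift 2 0), rh94ef155844fb36ae] (by decide +kernel))
noncomputable def rh5526a220ac54978b : CRef := CRef.mk (Pat.mk 0x7000000020000000080000000800000000 0xc000000f80000007c0000000f0000000c0000000c 5 8) 0 0 (step_sound _ 99 [(rh155fa7b85b00c3f4.shift 3 0), rh757a9d81fa2f759f, (rhd632969bf26569e4.shift 2 0), (rhdb11e2ee87c104a9.shift 2 2)] (by decide +kernel))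
noncomputable def rh352c008da27471f6 : CRef := CRef.mk (Pat.mk 0x800000008000000080000000c00000008 0x8000000180000007c0000000f0000000c00000008 5 7) 0 0 (step_sound _ 66 [rh0f88566f1a09c677, (rh5c5e593799055d58.shift 2 1)] (by decide +kernel))
noncomputable def rh15db54bc2689044c : CRef := CRef.mk (Pat.mk 0x40000001f00000004 0x8000000080000001c0000007f00000074 5 7) 0 0 (step_sound _ 67 [(rh33e738c4ed385b9f.shift 0 1), (rh78c9b3be5b3e8a50.shift 1 0)] (by decide +kernel))
noncomputable def rh414ed91891327210 : CRef := CRef.mk (Pat.mk 0x1000000010000000140000001400000000 0x8000000380000001f000000140000001400000014 5 6) 0 0 (step_sound _ 131 [(rh50fbb5868c909700.shift 3 1), rha784650af9a02bc8] (by decide +kernel))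
noncomputable def rha8c35d1fee16d66d : CRef := CRef.mk (Pat.mk 0x1000000020000000280000002800000000 0x100000007c0000002f0000002800000028 5 7) 0 0 (step_sound _ 100 [(rh7b1f1fb55310c477.shift 4 0), rh8ec5b4b95a3b1ed5] (by decide +kernel))
noncomputable def rhdee1cae16728eb1d : CRef := CRef.mk (Pat.mk 0x80000001e0000000400000004 0x40000000c0000000f0000001e0000000700000006 5 5) 0 0 (step_sound _ 98 [rh19ccc014c0420082, (rh2f68792b6b779e96.shift 2 0)] (by decide +kernel))
noncomputable def rhb840177570df9f91 : CRef := CRef.mk (Pat.mk 0x1000000038000000080000000000000000 0x100000001f0000007c000000080000000800000008 5 7) 0 0 (step_sound _ 35 [(rh034dc94632998acb.shift 0 1), (rh71222050f2c63a3a.shift 3 0)] (by decide +kernel))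
noncomputable def rhcf581ac93b19c3d8 : CRef := CRef.mk (Pat.mk 0x100000002000000020000000200000002800000008 0x10000000300000002000000020000000300000007c0000000f 5 7) 0 0 (step_sound _ 165 [rh1a8d3c4a274ccad8, (rh50fbb5868c909700.shift 4 2)] (by decide +kernel))
noncomputable def rh7bfb7073d4f49239 : CRef := CRef.mk (Pat.mk 0x20000000200000002000000000000000000000000 0x500000007000000070000000700000002000000060000000600000004 5 3) 0 0 (step_sound _ 65 [(rh6c59ce14113da07f.shift 1 0), rh8ff3dde5b1c639e0, (rhc85cc95794737cf7.shift 0 2)] (by decide +kernel))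
noncomputable def rh450121a3f4d9068b : CRef := CRef.mk (Pat.mk 0x80000000a0000000a0000000800000000 0x40000000e0000007e0000000b0000000800000008 5 7) 0 0 (step_sound _ 130 [(rh50fbb5868c909700.shift 2 1), rh7c9b66778db0afe8] (by decide +kernel))
noncomputable def rh402529d67626cf53 : CRef := CRef.mk (Pat.mk 0x4000000060000000700000005 0xa0000003e0000003e0000000700000005 5 6) 0 0 (step_sound _ 68 [rh32af4a381a110b23, (rh361cc68994bd8a63.shift 0 1)] (by decide +kernel))
noncomputable def rha90e4b52a00c05d4 : CRef := CRef.mk (Pat.mk 0x180000001c00000010 0x2000000020000000700000007f0000003c00000010 5 7) 0 0 (step_sound _ 69 [(rh18965a982d73c794.shift 2 1), rh44266d646d763f2b] (by decide +kernel))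
noncomputable def rhcaf505fa9ad5ce67 : CRef := CRef.mk (Pat.mk 0x380000001c000000140000000000000000 0x2000000020000000700000003f0000003c000000140000000400000004 5 7) 0 0 (step_sound _ 34 [(rh44266d646d763f2b.shift 0 2), (rh71222050f2c63a3a.shift 2 0)] (by decide +kernel))
noncomputable def rh468125cf94f4baa8 : CRef := CRef.mk (Pat.mk 0x3000000020000000380000002800000000 0x40000000f00000003f0000007c0000002800000008 5 8) 0 0 (step_sound _ 134 [(rh2f68792b6b779e96.shift 5 1), rhd14e3bc9eb0a8e4d] (by decide +kernel))
noncomputable def rh3ba16f9fa558cacb : CRef := CRef.mk (Pat.mk 0x1000000010000000100000001c 0x1000000010000000300000001f0000003f 5 6) 0 0 (step_sound _ 35 [(rh5c5e593799055d58.shift 3 0), rhaaa31fc581a8d47e] (by decide +kernel))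
noncomputable def rhec4b306e34797369 : CRef := CRef.mk (Pat.mk 0x800000008000000080000000a00000002 0x40000000c0000000c000000080000001c0000001e00000003 5 5) 0 0 (step_sound _ 162 [rh73944ebaffc31344, (rhffd04209dc8ea796.shift 2 1)] (by decide +kernel))
noncomputable def rhcbcee4cac050a0d6 : CRef := CRef.mk (Pat.mk 0x8000000080000000e0000000a 0xc0000000c0000000c000000380000001e0000000b 5 6) 0 0 (step_sound _ 36 [(rh4226d4ec3820d08f.shift 1 0), rheb0810cc63b001d8] (by decide +kernel))
noncomputable def rh3cbdc783c5e34997 : CRef := CRef.mk (Pat.mk 0x100000006000000020000000a0000000800000008 0x1000000130000001e0000001a0000001a0000001800000008 5 5) 0 0 (step_sound _ 161 [rh4d0fd3e3728b9a77, (rh50fbb5868c909700.shift 0 2)] (by decide +kernel))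
noncomputable def rhba01141a274d7327 : CRef := CRef.mk (Pat.mk 0x1e0000000200000000 0x400000004000000370000003e0000000200000002 5 6) 0 0 (step_sound _ 100 [(rh33e738c4ed385b9f.shift 1 2), rhaf661323c6e1d2ba] (by decide +kernel))
noncomputable def rhca1c8166938286b3 : CRef := CRef.mk (Pat.mk 0x80000000a00000008000000000000000000000000 0x10000000780000001f000000080000001c0000001c00000014 5 7) 0 0 (step_sound _ 67 [(rh0363d47a46978688.shift 0 2), (rh6c59ce14113da07f.shift 3 0), (rh8cdd36b03d57a2f6.shift 2 0), (rhcab3157f7bdcba3e.shift 2 0)] (by decide +kernel))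
noncomputable def rhda28a80288d8f77d : CRef := CRef.mk (Pat.mk 0x2800000028000000200000004000000000 0x100000007c0000002f000000200000006000000040 5 7) 0 0 (step_sound _ 37 [(rh55afc6a59410cf00.shift 5 0), (rha51f537e042fce54.shift 0 1)] (by decide +kernel))
noncomputable def rh35bd33d792fa23af : CRef := CRef.mk (Pat.mk 0x2800000028000000200000001000000000 0x100000007c0000002f000000200000003000000010 5 7) 0 0 (step_sound _ 37 [(rh932754581e0f4330.shift 4 0), (rha51f537e042fce54.shift 0 1)] (by decide +kernel))
noncomputable def rh627d17823611e302 : CRef := CRef.mk (Pat.mk 0x50000000100000001c0000001c0000000000000000 0x20000000780000003e0000001c0000001f0000000400000004 5 7) 0 0 (step_sound _ 165 [(rh2f68792b6b779e96.shift 4 2), rhe0a22e92b2d25ab1] (by decide +kernel))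
noncomputable def rhb767badef42bee6e : CRef := CRef.mk (Pat.mk 0x200000002000000020000000280000002800000020 0x200000002000000030000000300000007c0000002f00000020 5 7) 0 0 (step_sound _ 100 [(rh50fbb5868c909700.shift 4 0), (rh8c4d04d42036efdb.shift 0 1)] (by decide +kernel))
noncomputable def rhc9f53a4486069ec7 : CRef := CRef.mk (Pat.mk 0x80000000e0000000a00000000 0x4000000040000000c0000007c0000007e0000000b00000008 5 7) 0 0 (step_sound _ 68 [(rh87989b7190b1af07.shift 1 0), (rheb0810cc63b001d8.shift 0 1)] (by decide +kernel))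
noncomputable def rha2dd2a88f01a1e03 : CRef := CRef.mk (Pat.mk 0x280000000800000008000000000000000000000000 0x100000007c0000000f000000080000001c0000001c00000014 5 7) 0 0 (step_sound _ 67 [(rh57b469c1bf70b264.shift 0 2), (rh6eff4158bb400f47.shift 2 0)] (by decide +kernel))
noncomputable def rhc64f8cf05af10558 : CRef := CRef.mk (Pat.mk 0x300000007000000000000000400000000 0x8000000080000001b0000001f0000000c0000000400000004 5 5) 0 0 (step_sound _ 99 [rhceed0e29dfbc434b, (rhf48373e13d2bc128.shift 0 3)] (by decide +kernel))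
noncomputable def rhf5d22310555a63fd : CRef := CRef.mk (Pat.mk 0x2000000008000000280000000800000010 0x28000000280000002f0000007c00000010 5 7) 0 0 (step_sound _ 36 [rh0d55e9eacd53618e, (rh2145e1d24b96a57e.shift 3 0)] (by decide +kernel))
noncomputable def rh56be6e9364ec0a8a : CRef := CRef.mk (Pat.mk 0x80000000a00000008000000000000000400000000 0x10000000780000001f00000008000000180000001c00000014 5 7) 0 0 (step_sound _ 67 [(rh0363d47a46978688.shift 0 2), (rh6c59ce14113da07f.shift 3 0), (rhbd097c4034f102b6.shift 2 0)] (by decide +kernel))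
noncomputable def rhda41b958fb05cbda : CRef := CRef.mk (Pat.mk 0x80000000a0000000a0000000a0000000400000000 0x80000000a0000000a0000001b0000001f00000013 5 5) 0 0 (step_sound _ 36 [rh7df5364a3d204f54, (rhd3458b32566d63f7.shift 3 1)] (by decide +kernel))
noncomputable def rhaf5d24a4617fbb0a : CRef := CRef.mk (Pat.mk 0x300000006000000020000000a0000000a00000008 0x130000001e0000001a0000001b0000000f00000008 5 5) 0 0 (step_sound _ 132 [(rh2fe78cc5ca4405d8.shift 0 4), rhc3a068eea6cd7f76] (by decide +kernel))
noncomputable def rh4b37e72d8cc1386d : CRef := CRef.mk (Pat.mk 0x280000000800000008000000100000000000000000 0xc0000007c0000000e0000000f0000003c0000000c00000004 5 7) 0 0 (step_sound _ 67 [(rh01b78e5ef59799ae.shift 0 1), (rh2ca6829cf8c2858b.shift 1 1), (rhc4526fc8abf298b6.shift 2 0)] (by decide +kernel))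
noncomputable def rh97196c20c5ef9c43 : CRef := CRef.mk (Pat.mk 0x100000000000000010000000000000001c000000000000000000000000 0x100000001000000010000000770000003e000000700000002000000020 5 7) 0 0 (step_sound _ 101 [(rh03a6f79dca3226c9.shift 2 0), (rh0b03ff809acb63fc.shift 1 3), (rh24eecd8b5ef368d2.shift 1 2), (rh65b5ceb5fe90b1cc.shift 2 0), (rh9c548838e8725ba1.shift 0 2)] (by decide +kernel))
noncomputable def rhcdbd27adafa32905 : CRef := CRef.mk (Pat.mk 0x8000000000000000e000000000000000000000000 0x800000008000000780000003e000000770000001000000010 5 7) 0 0 (step_sound _ 100 [(rh06db8ceda6269a47.shift 0 2), (rh27ce058b59d72f64.shift 0 2), (rh65b5ceb5fe90b1cc.shift 1 0)] (by decide +kernel))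
noncomputable def rh461712fcc4c9a13b : CRef := CRef.mk (Pat.mk 0x20000000a000000000000000e000000000000000000000000 0x10000000b0000000b0000001b0000001e0000003b0000001000000010 5 6) 0 0 (step_sound _ 100 [(rh03a6f79dca3226c9.shift 1 0), (rh65b5ceb5fe90b1cc.shift 1 0), (rhe2f9df6c3da22a82.shift 0 2)] (by decide +kernel))
noncomputable def rhb8ca21b366a5c349 : CRef := CRef.mk (Pat.mk 0x400000004000000000000001c00000000 0x400000004000000740000003e00000073 5 7) 0 0 (step_sound _ 33 [rh316d0c7c5292e4bb, (rh3fc3a7fb6866dcd4.shift 1 0)] (by decide +kernel))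
noncomputable def rhcf5fb7a6a9341cf4 : CRef := CRef.mk (Pat.mk 0x800000008000000000000003800000000 0x8000000080000000c0000000c0000000f0000003e00000007 5 6) 0 0 (step_sound _ 34 [(rh316d0c7c5292e4bb.shift 1 0), rh775ca1963e850b80, (rh9365dadaedfa8cc2.shift 1 1), (rheb505ef94539da28.shift 1 0)] (by decide +kernel))
noncomputable def rh5eaf526b3de431bb : CRef := CRef.mk (Pat.mk 0x400000004000000000000001c00000000 0x400000006000000730000003e00000073 5 7) 0 0 (step_sound _ 33 [(rh3fc3a7fb6866dcd4.shift 1 0), rheb505ef94539da28] (by decide +kernel))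
noncomputable def rh255289a23d06b3ef : CRef := CRef.mk (Pat.mk 0x400000014000000000000001c000000000000000000000000 0x1400000016000000330000001e0000001b0000000800000008 5 6) 0 0 (step_sound _ 97 [(rh3927159016129638.shift 1 0), (rheb505ef94539da28.shift 0 2)] (by decide +kernel))
noncomputable def rh08507aaa15bb1ebe : CRef := CRef.mk (Pat.mk 0x8000000280000000000000038000000000000000000000000 0x280000002c000000670000003e000000770000001000000010 5 7) 0 0 (step_sound _ 98 [(rh185f35b8bd8ec37f.shift 0 2), (rh3927159016129638.shift 2 0), (rh775ca1963e850b80.shift 0 2), (rheb505ef94539da28.shift 1 2)] (by decide +kernel))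
noncomputable def rh24b8163f8e92971b : CRef := CRef.mk (Pat.mk 0x8000000000000000e000000000000000000000000 0x800000008000000780000003e0000003f0000001000000010 5 7) 0 0 (step_sound _ 100 [(rh03a6f79dca3226c9.shift 1 0), (rh27ce058b59d72f64.shift 0 2), (rh65b5ceb5fe90b1cc.shift 1 0)] (by decide +kernel))
noncomputable def rh9438b73543c8ddb2 : CRef := CRef.mk (Pat.mk 0xc00000008000000080000001800000000 0x80000000c0000000f0000007c0000001800000008 5 7) 0 0 (step_sound _ 98 [(rh7b1f1fb55310c477.shift 2 0), (rhc2b978e6dcd8bb51.shift 0 1)] (by decide +kernel))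
noncomputable def rh512b0bd2bd63fded : CRef := CRef.mk (Pat.mk 0x3800000000 0xef0000007e000000ef 5 8) 0 0 (step_sound _ 34 [(rh3b00e9e9432b8f40.shift 1 0), rh592c7139d2c44767, (rhe401600d466b97cd.shift 1 0)] (by decide +kernel))
noncomputable def rhd86066b9aba81e2d : CRef := CRef.mk (Pat.mk 0x400000004000000000000000e00000000 0x40000000600000006000000730000003e00000076 5 7) 0 0 (step_sound _ 36 [rh28b4d56deb3194fd, (rh3fc3a7fb6866dcd4.shift 1 0)] (by decide +kernel))
noncomputable def rhd4d93b7cc877a47b : CRef := CRef.mk (Pat.mk 0x800000008000000000000001e00000000 0x80000000c0000000c000000070000003e0000000c 5 6) 0 0 (step_sound _ 65 [(rh3244c3cc8379b070.shift 0 1), (rhca19ccd73b9f0e62.shift 1 0)] (by decide +kernel))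
noncomputable def rh6ef61bec27256daf : CRef := CRef.mk (Pat.mk 0x800000008000000000000001e0000000200000000 0x1f0000000f000000030000001e0000000600000004 5 5) 0 0 (step_sound _ 97 [(rh3244c3cc8379b070.shift 0 2), rhb716eb9d78c2f1a9] (by decide +kernel))
noncomputable def rhe9c851edfe0e55b1 : CRef := CRef.mk (Pat.mk 0x400000004000000000000000e00000000 0x40000000600000006000000730000003e00000077 5 7) 0 0 (step_sound _ 36 [rh28b4d56deb3194fd, (rh3fc3a7fb6866dcd4.shift 1 0), rheb505ef94539da28] (by decide +kernel))
noncomputable def rhbd222a7c26433daf : CRef := CRef.mk (Pat.mk 0x3800000000 0x70000007e000000ff 5 8) 0 0 (step_sound _ 34 [(rh06db8ceda6269a47.shift 1 0), rh0d378fd9e8917c5a, rh185f35b8bd8ec37f, rh592c7139d2c44767] (by decide +kernel))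
noncomputable def rhf5606019df7b5253 : CRef := CRef.mk (Pat.mk 0x2000000008000000080000000800000008 0x100000007c0000001f000000080000000800000008 5 7) 0 0 (step_sound _ 132 [(rh144b554482559a94.shift 0 1), (rhbaefcd01e0a8bca3.shift 3 0)] (by decide +kernel))
noncomputable def rh520aed8758f330c1 : CRef := CRef.mk (Pat.mk 0x8000000080000000200000006000000120000000000000000 0x80000000e00000006000000060000001e0000000700000007 5 5) 0 0 (step_sound _ 66 [(rh55a1f6c57a317ce6.shift 1 0), rh932cfd328bc80f1b] (by decide +kernel))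
noncomputable def rh8776f6af86de2cb0 : CRef := CRef.mk (Pat.mk 0x20000000000000002800000018000000100000000000000000 0x20000000200000002f0000007c000000100000001000000010 5 7) 0 0 (step_sound _ 101 [rh22ded93bb1171860, (rhee230b994cc8b773.shift 4 2)] (by decide +kernel))
noncomputable def rhd0d766e96107943c : CRef := CRef.mk (Pat.mk 0xa000000020000000200000002 0x740000003e000000070000000200000002 5 7) 0 0 (step_sound _ 98 [(rh2f68792b6b779e96.shift 1 0), (rhdc1641106d7e5aa2.shift 0 2)] (by decide +kernel))
noncomputable def rh5c7be1d0230fde9b : CRef := CRef.mk (Pat.mk 0x3000000028000000080000000800000010 0x3e0000007f000000080000001800000010 5 7) 0 0 (step_sound _ 131 [(rha0ae8adeb1dbcf8d.shift 0 3), (rhd3458b32566d63f7.shift 3 0)] (by decide +kernel))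
noncomputable def rh2ab430a705a452d5 : CRef := CRef.mk (Pat.mk 0x400000004000000000000000c00000000 0x40000000400000004000000070000003e0000000a 5 6) 0 0 (step_sound _ 66 [(rh55afc6a59410cf00.shift 2 0), rhc6caea4112c2545d] (by decide +kernel))
noncomputable def rh5b55c5b43dfec00c : CRef := CRef.mk (Pat.mk 0x20000000200000002000000000000000000000000 0x500000007000000070000000600000002000000070000000700000005 5 3) 0 0 (step_sound _ 65 [(rh6c59ce14113da07f.shift 1 0), rh8cdd36b03d57a2f6, (rhc85cc95794737cf7.shift 0 2)] (by decide +kernel))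
noncomputable def rhecb05418617e3639 : CRef := CRef.mk (Pat.mk 0x2000000028000000280000002000000000 0x10000000300000007c0000002f0000002000000020 5 7) 0 0 (step_sound _ 132 [(rh50fbb5868c909700.shift 4 1), rh5fb0fd9fb2a32eb5] (by decide +kernel))
noncomputable def rh54857c10ff9bad11 : CRef := CRef.mk (Pat.mk 0xc0000000a0000000a0000000800000000 0xc0000001e0000000b0000001e0000001a 5 5) 0 0 (step_sound _ 98 [(rh7b1f1fb55310c477.shift 2 0), rhd65720eb79fdb844] (by decide +kernel))
noncomputable def rh53d0f8ff7afbda32 : CRef := CRef.mk (Pat.mk 0x1000000008000000080000000a0000000a0000000800000000 0x18000000180000000c0000000c0000001e0000000b0000001e00000014 5 5) 0 0 (step_sound _ 64 [rh0c3873a75f5344d2, (rh82abf8c4a8761b47.shift 0 1)] (by decide +kernel))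
noncomputable def rh878b43a0db44d428 : CRef := CRef.mk (Pat.mk 0x80000000800000008000000080000000a0000000a0000000800000000 0x800000008000000080000000c0000001e0000000b0000001e00000014 5 5) 0 0 (step_sound _ 98 [(rh79877ebd3ef475dd.shift 2 3), rh7e024c044149193a] (by decide +kernel))
noncomputable def rh93f6ce9209129340 : CRef := CRef.mk (Pat.mk 0x80000000800000008000000080000000a0000000a0000000800000000 0x80000000800000008000000180000001e0000000b0000001e00000014 5 5) 0 0 (step_sound _ 100 [rh7bc5905cc768f168, (rhd3458b32566d63f7.shift 3 3)] (by decide +kernel))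
noncomputable def rh0e50f6030037c114 : CRef := CRef.mk (Pat.mk 0x28000000280000002800000020 0x40000000c0000001f000000780000002c0000002c00000024 5 7) 0 0 (step_sound _ 131 [(rh771d065bdc85bf2d.shift 2 0), (rhd5d193521cc593a5.shift 0 1), (rhfd38024b71f8de68.shift 2 0)] (by decide +kernel))
noncomputable def rh69e31f076ff3d529 : CRef := CRef.mk (Pat.mk 0x2000000020000000a00000018 0x1000000030000000300000002000000030000000f00000019 5 5) 0 0 (step_sound _ 32 [rh976a48eb1c80a12f, rhc10214bf3fe8094a] (by decide +kernel))
noncomputable def rh6ef020bad9500726 : CRef := CRef.mk (Pat.mk 0x1800000002000000020000000200000001 0x50000000f0000001b00000002000000020000000300000001 5 5) 0 0 (step_sound _ 129 [(rh769c8bac0b178383.shift 0 1), rh79877ebd3ef475dd] (by decide +kernel))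
noncomputable def rh48778d98e4513c80 : CRef := CRef.mk (Pat.mk 0x100000000c000000080000000a000000020000000200000000 0x10000000190000000f0000000b0000000b000000020000000200000002 5 5) 0 0 (step_sound _ 195 [(rh2f68792b6b779e96.shift 3 3), rh70013765feee3903] (by decide +kernel))
noncomputable def rh8617431b725a4363 : CRef := CRef.mk (Pat.mk 0x38000000040000003000000018 0x70000003e00000006000000340000001e 5 6) 0 0 (step_sound _ 98 [rh5ab4659ad6b2714b, (rheb0810cc63b001d8.shift 1 2)] (by decide +kernel))
noncomputable def rhb004f31ace285408 : CRef := CRef.mk (Pat.mk 0x3c00000000 0x670000003e00000007 5 7) 0 0 (step_sound _ 69 [(rh33e738c4ed385b9f.shift 2 1), rh592c7139d2c44767] (by decide +kernel))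
noncomputable def rh9ad50898512442c9 : CRef := CRef.mk (Pat.mk 0x2000000020000000a0000000a00000000 0x4000000070000003e0000000a0000000a0000000a 5 6) 0 0 (step_sound _ 130 [rh191c76fdc0c0a4dc, (rh2f68792b6b779e96.shift 1 1)] (by decide +kernel))
noncomputable def rh91a39d28c58a3b7c : CRef := CRef.mk (Pat.mk 0x100000000800000008000000280000000000000000 0x1000000018000000080000007c0000000f00000004 5 7) 0 0 (step_sound _ 35 [(rhbaefcd01e0a8bca3.shift 3 1), rhc8fd50c44a2112a0] (by decide +kernel))
noncomputable def rhc39dfeda05298619 : CRef := CRef.mk (Pat.mk 0x2000000020000000a0000000000000000 0x5000000070000000700000002000000020000001f0000000700000001 5 5) 0 0 (step_sound _ 161 [(rh1741680720c097b4.shift 0 2), rh83b79ea19c694d98] (by decide +kernel))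
noncomputable def rh894af4fb1b7acafc : CRef := CRef.mk (Pat.mk 0x20000000200000002000000020000000000000000 0x1000000030000000200000002000000070000000700000005 5 3) 0 0 (step_sound _ 160 [(rh50fbb5868c909700.shift 0 2), rh8cdd36b03d57a2f6] (by decide +kernel))
noncomputable def rh6f3acaee2877f0f7 : CRef := CRef.mk (Pat.mk 0x800000000000000040000000e00000000 0x8000000080000003f0000003f00000030 5 6) 0 0 (step_sound _ 36 [rhbcd52c91d552d530, (rhe3060b190bc0bc78.shift 0 1)] (by decide +kernel))
noncomputable def rha5310f58c1684c0e : CRef := CRef.mk (Pat.mk 0x60000000000000002000000020000000000000000 0x5000000070000000300000002000000030000000300000001 5 3) 0 0 (step_sound _ 129 [(rh2f68792b6b779e96.shift 1 2), rh6aa5625770489e83] (by decide +kernel))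
noncomputable def rhf4317fc85b709fa6 : CRef := CRef.mk (Pat.mk 0x1600000010 0x770000003e00000030 5 7) 0 0 (step_sound _ 35 [(rh56a24c72f1c55520.shift 0 1), (rhe25b0a99195a5d59.shift 1 0)] (by decide +kernel))
noncomputable def rh3ce4e5eccb50e64c : CRef := CRef.mk (Pat.mk 0x200000002000000020000000800000018 0x500000007000000070000000200000002000000030000000f00000019 5 5) 0 0 (step_sound _ 161 [rh03565085a1495a18, (rh1741680720c097b4.shift 0 2)] (by decide +kernel))
noncomputable def rh219dc98a1667201a : CRef := CRef.mk (Pat.mk 0x20000001a000000020000000800000008000000080000001000000000 0x10000000100000003000000030000001e000000020000000a00000008000000080000001800000010 5 5) 0 0 (step_sound _ 35 [(rh55afc6a59410cf00.shift 3 0), (rhe8a9e0e6037b7c6e.shift 0 4)] (by decide +kernel))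
noncomputable def rhda575d679ceba1ef : CRef := CRef.mk (Pat.mk 0x4000000040000000400000002000000000000003800000000 0x4000000040000000400000006000000070000003e00000007 5 6) 0 0 (step_sound _ 65 [rh876086c78aa9d0e6, (rheea67dfebd0f8008.shift 1 2)] (by decide +kernel))
noncomputable def rhfce4a538e8f0f025 : CRef := CRef.mk (Pat.mk 0x1a00000002000000020000000800000018 0x1000000030000001f00000002000000030000000f00000019 5 5) 0 0 (step_sound _ 33 [(rh20cc2cc701a11568.shift 0 1), rh771d065bdc85bf2d, rhf9a329cc68aa610c] (by decide +kernel))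
noncomputable def rh8a9bfb0eaa48994c : CRef := CRef.mk (Pat.mk 0x100000005000000050000000400000004 0x20000000f0000000f0000000d000000050000000400000004 5 4) 0 0 (step_sound _ 131 [(rh292f98a440d92d53.shift 0 1), (rhbaefcd01e0a8bca3.shift 2 0)] (by decide +kernel))
noncomputable def rhb1f7cf33eb316feb : CRef := CRef.mk (Pat.mk 0x200000002000000020000000000000000 0x500000007000000070000000700000002000000030000000300000001 5 3) 0 0 (step_sound _ 161 [(rh1741680720c097b4.shift 0 2), rha78b327dad5d6a04, rhc4526fc8abf298b6] (by decide +kernel))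
noncomputable def rhf2eeb9585c83f942 : CRef := CRef.mk (Pat.mk 0x400000014000000140000001000000010 0x280000003b0000003e00000034000000140000001400000010 5 6) 0 0 (step_sound _ 132 [(rh1741680720c097b4.shift 3 1), (rh44f453b84f013105.shift 4 0), (rh634c2f63f715f226.shift 0 1)] (by decide +kernel))
noncomputable def rhf151fd3e6880011e : CRef := CRef.mk (Pat.mk 0x400000002000000020000000a00000008000000080000000400000000 0x400000006000000020000000a0000000b0000000b0000000f00000004 5 4) 0 0 (step_sound _ 97 [rhab1e46f41215c745, (rhbaefcd01e0a8bca3.shift 1 3)] (by decide +kernel))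
noncomputable def rhb4c7c992adbc75d8 : CRef := CRef.mk (Pat.mk 0x2000000020000000a000000080000000c0000001000000000 0x2000000030000000b0000000b0000000f0000001900000010 5 5) 0 0 (step_sound _ 35 [(rh55afc6a59410cf00.shift 3 0), (rhb1d97d8e0e577eea.shift 0 1)] (by decide +kernel))
noncomputable def rh089787bbe8ceab32 : CRef := CRef.mk (Pat.mk 0x100000000a0000000a0000000a00000000 0x1000000110000001b0000000f0000000a0000000a00000002 5 5) 0 0 (step_sound _ 131 [(rh2f68792b6b779e96.shift 3 1), rh8904cf9c30458946] (by decide +kernel))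
noncomputable def rhd4da447d1d0bfc0a : CRef := CRef.mk (Pat.mk 0x100000000a0000000a0000000a 0x170000001f0000000b0000000a0000000a 5 5) 0 0 (step_sound _ 99 [(rh2f68792b6b779e96.shift 3 0), rh76f960073657fc09] (by decide +kernel))
noncomputable def rhf199a375668542ba : CRef := CRef.mk (Pat.mk 0x300000006000000000000000a0000000a00000008 0x130000001e000000380000001e0000000b00000008 5 6) 0 0 (step_sound _ 132 [(rh2fe78cc5ca4405d8.shift 0 4), rh7fb0735095db9f59] (by decide +kernel))
noncomputable def rh779ab7e47f6f4eaf : CRef := CRef.mk (Pat.mk 0x2000000030000000a0000000a00000008 0x140000001e0000001b0000001e0000000a00000008 5 5) 0 0 (step_sound _ 68 [rh375674a65c557bba, (rh5419adcd928dba20.shift 0 2)] (by decide +kernel))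
noncomputable def rh4ee5d370696ff6e4 : CRef := CRef.mk (Pat.mk 0x1000000020000000a0000000a0000000800000008 0x50000001f0000001a0000001a0000000a0000000800000008 5 5) 0 0 (step_sound _ 161 [(rh50fbb5868c909700.shift 0 2), rhd98f993cc48297b4] (by decide +kernel))
noncomputable def rhf9f0ae03fdf57981 : CRef := CRef.mk (Pat.mk 0x600000003000000000000000800000008000000080000000800000000 0x1e0000001b000000180000000800000008000000180000001800000010 5 5) 0 0 (step_sound _ 36 [(rh55afc6a59410cf00.shift 3 0), (rhe0ea504c6b991d52.shift 0 1)] (by decide +kernel))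
noncomputable def rhb0f7373017cbff8c : CRef := CRef.mk (Pat.mk 0x2000000020000000a0000000a00000008000000000000000000000000 0x20000000a0000000a0000000f00000019000000180000001000000010 5 5) 0 0 (step_sound _ 128 [(rh932754581e0f4330.shift 0 3), rh9765e413c7f50252] (by decide +kernel))
noncomputable def rhfa9ccb087666240d : CRef := CRef.mk (Pat.mk 0x20000000a0000000a0000000300000000 0xa0000000a0000001a0000001f0000003c 5 6) 0 0 (step_sound _ 34 [(rh55afc6a59410cf00.shift 1 0), rhb930b94183d881f3] (by decide +kernel))
noncomputable def rhfa8023826fe7b1bf : CRef := CRef.mk (Pat.mk 0x180000000800000008000000030000000000000000 0x100000001800000008000000080000001b0000001e00000014 5 5) 0 0 (step_sound _ 67 [(rh2f68792b6b779e96.shift 3 2), rhac5757e976034cc0] (by decide +kernel))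
noncomputable def rh5c947b54f4d0097d : CRef := CRef.mk (Pat.mk 0x300000008000000080000001800000000 0x140000001e0000001b00000008000000080000001800000010 5 5) 0 0 (step_sound _ 131 [(rh3c8f4260c625d1ca.shift 0 1), (rh55afc6a59410cf00.shift 3 0)] (by decide +kernel))
noncomputable def rh894bdf4266525d20 : CRef := CRef.mk (Pat.mk 0x400000004000000140000003400000020 0xa0000001f0000003c000000140000003400000020 5 6) 0 0 (step_sound _ 131 [(rh2f68792b6b779e96.shift 2 1), rh54b196cf4ecf5778] (by decide +kernel))
noncomputable def rhb82fcb3b2924a7af : CRef := CRef.mk (Pat.mk 0x600000002000000000000000800000008000000080000000000000000 0x1e0000003b0000001800000008000000180000001c0000001c00000014 5 6) 0 0 (step_sound _ 163 [(rh73f29fe7b81e564e.shift 0 2), (rh8cdd36b03d57a2f6.shift 2 0), (rhced6d86d2069808b.shift 3 1)] (by decide +kernel))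
noncomputable def rh332b18d7d85f7077 : CRef := CRef.mk (Pat.mk 0x20000000200000002000000000000000000000000 0x500000007000000070000000200000006000000070000000700000005 5 3) 0 0 (step_sound _ 65 [rh8cdd36b03d57a2f6, (rhc85cc95794737cf7.shift 0 2), (rhced6d86d2069808b.shift 1 1)] (by decide +kernel))
noncomputable def rh9a50ac099d0117da : CRef := CRef.mk (Pat.mk 0x8000000080000000a0000000000000000 0x140000001c0000001c000000080000001f0000007800000010 5 7) 0 0 (step_sound _ 35 [rhc486ae0fcc44be52, (rhc85cc95794737cf7.shift 2 1), (rhced6d86d2069808b.shift 3 0)] (by decide +kernel))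
noncomputable def rhd5bbd9bcabbd1fe8 : CRef := CRef.mk (Pat.mk 0x80000000800000028000000000000001000000010 0x8000000080000007c0000000f0000001c00000010 5 7) 0 0 (step_sound _ 67 [(rhbe0e43a3bc50a43f.shift 3 0), (rhc8fd50c44a2112a0.shift 0 1)] (by decide +kernel))
noncomputable def rhbbfcc591b762eafb : CRef := CRef.mk (Pat.mk 0x80000001c000000040000001400000000 0x2000000060000000f0000001c000000070000003e00000002 5 6) 0 0 (step_sound _ 130 [(rh277b01412deaec89.shift 0 1), rh64d324585ca865ad, (rh771d065bdc85bf2d.shift 1 0)] (by decide +kernel))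
noncomputable def rha574586d9d791c7f : CRef := CRef.mk (Pat.mk 0x80000001c0000001400000014 0x20000000320000007f0000007c0000001400000014 5 7) 0 0 (step_sound _ 98 [(rh07ccc6e4230bb59c.shift 2 0), rh277b01412deaec89, (rh475168db3ef08423.shift 1 0)] (by decide +kernel))
noncomputable def rh628a2f28ef3eef31 : CRef := CRef.mk (Pat.mk 0x4000000020000000a0000001a00000010 0x1000000070000001f0000000a0000000a0000001a00000010 5 5) 0 0 (step_sound _ 129 [(rh2f68792b6b779e96.shift 1 1), rha41236eefcfa9b57] (by decide +kernel))
noncomputable def rh6f14d93378a2f415 : CRef := CRef.mk (Pat.mk 0xa0000001a00000012000000010000000000000000 0xa0000001a00000012000000170000001f00000004 5 5) 0 0 (step_sound _ 65 [rh00e36127c32ceb4f, (rh932754581e0f4330.shift 0 1)] (by decide +kernel))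
noncomputable def rh8c7b3a3cb7ad1962 : CRef := CRef.mk (Pat.mk 0x400000004000000140000000000000000 0xa0000000e0000000e0000000c000000070000003e0000000600000002 5 6) 0 0 (step_sound _ 162 [(rh1741680720c097b4.shift 1 2), (rh64d324585ca865ad.shift 0 1), (rh771d065bdc85bf2d.shift 1 1), (rha78b327dad5d6a04.shift 1 0)] (by decide +kernel))
noncomputable def rh439ccc96f56dcc68 : CRef := CRef.mk (Pat.mk 0x8000000280000003800000018 0x30000000780000002f0000003c00000018 5 7) 0 0 (step_sound _ 101 [(rh5c5e593799055d58.shift 4 0), rha635f467eacf8643] (by decide +kernel))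
noncomputable def rh336e74a7680e3763 : CRef := CRef.mk (Pat.mk 0x8000000080000002800000000 0x140000001c0000001c000000080000000f0000007c00000010 5 7) 0 0 (step_sound _ 131 [(rh1741680720c097b4.shift 2 1), rhfb2f47ebeee1de4a] (by decide +kernel))
noncomputable def rh9df31e441a7e04d9 : CRef := CRef.mk (Pat.mk 0x20000000a000000080000000800000000 0x140000001c0000001e0000000b000000180000001800000010 5 5) 0 0 (step_sound _ 131 [(rh8065c10b3cae6218.shift 2 0), (rh9258736a7488cc35.shift 0 1), (rhced6d86d2069808b.shift 3 0)] (by decide +kernel))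
noncomputable def rhac13d16ea91712e4 : CRef := CRef.mk (Pat.mk 0x400000004000000040000000400000000 0x400000004000000040000003c0000000f0000000a 5 6) 0 0 (step_sound _ 33 [rh3038ab5f74634e6d, (rh932754581e0f4330.shift 1 0)] (by decide +kernel))
noncomputable def rhe917e21515f56543 : CRef := CRef.mk (Pat.mk 0xa0000000a0000000800000008 0x10000000100000003c0000001e0000000b0000000800000008 5 6) 0 0 (step_sound _ 98 [(rh0aefef67a4f5e36d.shift 0 1), (rh50fbb5868c909700.shift 2 0)] (by decide +kernel))
noncomputable def rh26ebbfb0cc6b103d : CRef := CRef.mk (Pat.mk 0x200000002000000020000000000000000 0x400000006000000060000000200000007000000070000000700000005 5 3) 0 0 (step_sound _ 161 [(rh20966da26a1c2ae8.shift 0 1), rh8cdd36b03d57a2f6, (rhced6d86d2069808b.shift 1 1)] (by decide +kernel))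
noncomputable def rh16a3d43e2bff3e8c : CRef := CRef.mk (Pat.mk 0x200000002000000020000000000000000 0x500000007000000070000000600000003000000030000000300000001 5 3) 0 0 (step_sound _ 161 [(rh1741680720c097b4.shift 0 2), rh367118e0bf0473e0, (rh3b734c5288922837.shift 0 1), (rh771d065bdc85bf2d.shift 0 1)] (by decide +kernel))
noncomputable def rh4471cbf1bd975995 : CRef := CRef.mk (Pat.mk 0x20000000200000002000000120000001000000000 0x200000002000000020000003b0000001f00000005 5 6) 0 0 (step_sound _ 32 [rh4c261014b05358ef, (rh79877ebd3ef475dd.shift 0 1)] (by decide +kernel))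
noncomputable def rhd3536adda881a931 : CRef := CRef.mk (Pat.mk 0x1a0000001e000000020000000600000000 0x1a0000001e0000003a0000001f00000019 5 6) 0 0 (step_sound _ 68 [rh0c5b5e98d743188f, (rhe25b0a99195a5d59.shift 1 2)] (by decide +kernel))
noncomputable def rh870ee18c5531e0c7 : CRef := CRef.mk (Pat.mk 0x600000006000000120000000000000000 0x6000000060000001e0000000f00000007 5 5) 0 0 (step_sound _ 33 [(rh71222050f2c63a3a.shift 1 0), rhdb57bcbe4a84bd4b] (by decide +kernel))
noncomputable def rh5a061bab3d3fcfa7 : CRef := CRef.mk (Pat.mk 0x80000000800000006000000030000001000000000 0x8000000080000001e0000001b0000001e00000014 5 5) 0 0 (step_sound _ 99 [(rh18965a982d73c794.shift 0 2), rh881531014c0789fb] (by decide +kernel))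
noncomputable def rh3da9c40ca9e6de97 : CRef := CRef.mk (Pat.mk 0x20000000a0000000a000000020000001000000010 0x20000000a0000001a0000001f0000001b00000011 5 5) 0 0 (step_sound _ 32 [rh33fc227eb92896a4, (rh79877ebd3ef475dd.shift 0 1)] (by decide +kernel))
noncomputable def rh51bfe298bc083c54 : CRef := CRef.mk (Pat.mk 0xe000000080000000000000000 0x10000000700000003e0000007f0000000800000008 5 7) 0 0 (step_sound _ 100 [(rh06db8ceda6269a47.shift 0 2), (rh0d41b5929f428e99.shift 1 0), (rh3b00e9e9432b8f40.shift 0 2), (rha93a5dd541ab8209.shift 1 2)] (by decide +kernel))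
noncomputable def rh3c9160ed20de1e36 : CRef := CRef.mk (Pat.mk 0x40000000200000002000000020000000a0000000a000000020000001000000010 0x4000000060000000200000002000000020000000a0000001a0000001f0000001c00000010 5 5) 0 0 (step_sound _ 257 [rh1189c60906519afd, (rh2f68792b6b779e96.shift 1 5)] (by decide +kernel))
noncomputable def rhde6b75ec467a7fd8 : CRef := CRef.mk (Pat.mk 0x20000000a0000000a000000000000000000000010 0x50000000700000007000000020000000b0000001e000000340000001000000010 5 6) 0 0 (step_sound _ 193 [(rh1741680720c097b4.shift 0 3), rh66079a9ea4188942] (by decide +kernel))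
noncomputable def rh7549e48f1b72cdee : CRef := CRef.mk (Pat.mk 0x20000000a0000000a000000000000001000000010 0x20000000b0000003e000000170000001400000010 5 6) 0 0 (step_sound _ 100 [(rh2613c889e411427e.shift 3 0), (rh540f437d7ed50685.shift 0 1)] (by decide +kernel))
noncomputable def rh5e9e4c8356b01a9d : CRef := CRef.mk (Pat.mk 0x400000004000000000000000c000000180000000000000000 0x400000016000000330000001f0000001b0000000800000008 5 6) 0 0 (step_sound _ 97 [rh9348db714d399ad7, (rhb739f4f82bb681b4.shift 0 2)] (by decide +kernel))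
noncomputable def rh50b0c7316c11de9c : CRef := CRef.mk (Pat.mk 0x400000004000000000000000e00000000 0x400000006000000730000003e00000077 5 7) 0 0 (step_sound _ 36 [rh06db8ceda6269a47, rh3b00e9e9432b8f40, (rha93a5dd541ab8209.shift 1 0), rheb505ef94539da28] (by decide +kernel))
noncomputable def rh911c64f8d4e4daed : CRef := CRef.mk (Pat.mk 0x200000007000000010000000400000004 0x1a0000001f0000001b0000000e00000004 5 5) 0 0 (step_sound _ 65 [rhaeb6e39a4f45dd68, (rhbe0e43a3bc50a43f.shift 1 0)] (by decide +kernel))
noncomputable def rh9a7487265ea70a1b : CRef := CRef.mk (Pat.mk 0x40000000400000004000000100000001800000000 0x4000000040000000400000006000000370000001e00000003 5 6) 0 0 (step_sound _ 33 [(rh18daa16230dec9b2.shift 1 0), rh4657d6bf491c09a2, rh5275446c61cecf1b, (rh852b7b86cbca7a66.shift 0 1)] (by decide +kernel))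
noncomputable def rha98a6168219b6d22 : CRef := CRef.mk (Pat.mk 0x14000000140000001c000000080000000000000000 0x14000000140000001f0000007f0000002200000002 5 7) 0 0 (step_sound _ 68 [(rh42afa1af9fffa0e1.shift 2 1), (rh6292bd8784ece55f.shift 1 2), rh72daaa274feb6686] (by decide +kernel))
noncomputable def rh6b11b2d2a18bfc09 : CRef := CRef.mk (Pat.mk 0x1000000000000000080000000a00000006000000000000000000000000 0x100000001000000018000000180000000b0000001e000000380000001000000010 5 6) 0 0 (step_sound _ 99 [(rh299a18a9bb09cab4.shift 0 2), rh2d71bfb3e5699952, (rh2d9fb7ccdcfc0559.shift 3 2)] (by decide +kernel))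
noncomputable def rh980b42d53e606c8c : CRef := CRef.mk (Pat.mk 0x800000008000000080000000800000000 0x800000008000000080000007c0000001f00000004 5 7) 0 0 (step_sound _ 34 [(rh932754581e0f4330.shift 2 0), (rha970c75d37f8ff40.shift 0 1)] (by decide +kernel))
noncomputable def rhf8d87058ddb1fee0 : CRef := CRef.mk (Pat.mk 0x4000000140000001e0000001c0000000000000000 0x300000003c000000170000001e0000001c0000000400000004 5 6) 0 0 (step_sound _ 129 [(rh3244c3cc8379b070.shift 0 3), (rh3ec4be2ba1ab21f4.shift 1 0)] (by decide +kernel))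
noncomputable def rh16490e0418fe8c8f : CRef := CRef.mk (Pat.mk 0x2c0000003e000000180000000800000000 0x20000000200000002c0000003e0000001b0000000f00000006 5 6) 0 0 (step_sound _ 165 [(rh5c5e593799055d58.shift 4 2), rhdd9aaa06458a6d73] (by decide +kernel))
noncomputable def rhdaf210947b47bcf0 : CRef := CRef.mk (Pat.mk 0x1c00000018 0x7000000ff0000001c 5 8) 0 0 (step_sound _ 33 [rh412d230494194d0a, rhb739f4f82bb681b4] (by decide +kernel))
noncomputable def rh885825ed8c4e1768 : CRef := CRef.mk (Pat.mk 0x38000000300000002000000000 0x80000000c000000f80000003e0000007700000010 5 8) 0 0 (step_sound _ 67 [(rh0c561658b8646091.shift 2 0), (rh3a2e0da897283d2e.shift 0 1), (rhcf86d050071af9b3.shift 2 1), (rhf56e6bc5d2f7fe77.shift 1 1)] (by decide +kernel))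
noncomputable def rhb0a52b65c733066e : CRef := CRef.mk (Pat.mk 0x8000000000000001e000000000000000000000000 0x800000008000000080000001e0000003b0000001000000010 5 6) 0 0 (step_sound _ 65 [(rh03a6f79dca3226c9.shift 1 0), (rheb0810cc63b001d8.shift 0 2)] (by decide +kernel))
noncomputable def rh990e24f2bdbde144 : CRef := CRef.mk (Pat.mk 0x80000002c0000001800000010 0x200000007c0000002f0000007800000010 5 7) 0 0 (step_sound _ 37 [rhe5a8a2bc75f52c7a, (rhf48373e13d2bc128.shift 2 1)] (by decide +kernel))
noncomputable def rh69b67487c0e38ef6 : CRef := CRef.mk (Pat.mk 0x40000001e0000000c0000000000000000 0x70000001e0000003f0000000300000002 5 6) 0 0 (step_sound _ 129 [(rh3244c3cc8379b070.shift 0 3), rha8d0bf7048b21769] (by decide +kernel))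
noncomputable def rha9a6de82616c6f35 : CRef := CRef.mk (Pat.mk 0x10000000180000001e000000000000000000000000 0x340000001f0000001e000000030000000200000002 5 6) 0 0 (step_sound _ 129 [rh1eb98654cd6fa330, (rh3244c3cc8379b070.shift 0 3)] (by decide +kernel))
noncomputable def rh85c5326329b0be3a : CRef := CRef.mk (Pat.mk 0xc0000001c0000000c000000000000000000000000 0x40000000f0000001e0000000f000000020000000200000002 5 5) 0 0 (step_sound _ 161 [rha0fc30dd808625c1, (rhb739f4f82bb681b4.shift 0 4)] (by decide +kernel))
noncomputable def rh719711b65900de9e : CRef := CRef.mk (Pat.mk 0x10000000140000001c0000000e0000000000000000 0x12000000170000001f0000003e0000003400000004 5 6) 0 0 (step_sound _ 68 [(rh2aa7c1d375387a4e.shift 1 1), rh36ba762ebee57178] (by decide +kernel))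
noncomputable def rhd7735cdefe2cab75 : CRef := CRef.mk (Pat.mk 0x800000010000000080000000c00000000 0x40000000f0000007c000000080000000c00000004 5 7) 0 0 (step_sound _ 99 [(rh215fef6ef21eb5a3.shift 0 1), (rh932754581e0f4330.shift 2 0)] (by decide +kernel))
noncomputable def rh963feb3689400c88 : CRef := CRef.mk (Pat.mk 0x10000000100000001c00000000 0x1000000010000000170000003e00000067 5 7) 0 0 (step_sound _ 37 [rh775ca1963e850b80, (rhba04d77b039f69d9.shift 2 0)] (by decide +kernel))
noncomputable def rh40896d209052dfa8 : CRef := CRef.mk (Pat.mk 0x20000000200000003c0000000000000000 0x8000000680000003c0000007e0000000700000004 5 7) 0 0 (step_sound _ 98 [(rh21d582c147e7e118.shift 0 1), (rh96b6c7895132d0ce.shift 1 2), (rha8148b9bb2ff3cb1.shift 1 0)] (by decide +kernel))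
noncomputable def rh13d508698937d260 : CRef := CRef.mk (Pat.mk 0x10000000180000001c0000000000000000 0x300000001f0000003f0000000800000008 5 6) 0 0 (step_sound _ 35 [(rh71222050f2c63a3a.shift 3 0), (rhaaa31fc581a8d47e.shift 0 2)] (by decide +kernel))
noncomputable def rhfa15404860802f7f : CRef := CRef.mk (Pat.mk 0x18000000180000001e0000000c 0x60000001f0000001b0000007e0000000c 5 7) 0 0 (step_sound _ 37 [(rh18965a982d73c794.shift 2 0), rh625e024e534c5ee6] (by decide +kernel))
noncomputable def rh41d5a93e35cc8528 : CRef := CRef.mk (Pat.mk 0x180000001e0000000000000000 0x2000000030000001f0000003e0000000400000004 5 6) 0 0 (step_sound _ 97 [(rh3244c3cc8379b070.shift 0 2), rh84c6ea69d5090d99] (by decide +kernel))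
noncomputable def rh6440edebbe24f467 : CRef := CRef.mk (Pat.mk 0x10000000180000001e000000000000000000000000 0x18000000180000003e0000000f0000000c00000004 5 6) 0 0 (step_sound _ 67 [(rh71222050f2c63a3a.shift 3 1), rh93e8fe2ae070d0cb] (by decide +kernel))
noncomputable def rhbe20df636d5ddf58 : CRef := CRef.mk (Pat.mk 0x10000000180000001e000000000000000000000000 0x180000001b0000007e0000000e0000000c00000004 5 7) 0 0 (step_sound _ 67 [rh07aca0bcb8448107, (rh71222050f2c63a3a.shift 3 1)] (by decide +kernel))
noncomputable def rh2d14051f7b72607c : CRef := CRef.mk (Pat.mk 0x80000000a0000001e000000000000000000000000 0xc0000000e0000003e000000070000000600000002 5 6) 0 0 (step_sound _ 130 [rha5ef98d9768becaf, (rhf48373e13d2bc128.shift 1 3)] (by decide +kernel))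
noncomputable def rh4726b755b8eb397c : CRef := CRef.mk (Pat.mk 0x200000002000000060000000200000000 0x3000000070000000700000006000000060000000200000002 5 3) 0 0 (step_sound _ 130 [(rh2f68792b6b779e96.shift 1 1), rhadfe5ab2c92776e3] (by decide +kernel))
noncomputable def rh4c607257c1c9d063 : CRef := CRef.mk (Pat.mk 0x8000000080000000e00000000 0x800000008000000080000003e00000077 5 7) 0 0 (step_sound _ 36 [rh06db8ceda6269a47, rh5963e6299adc36a3, (rhba04d77b039f69d9.shift 1 0), (rhde10baa3043a2b46.shift 2 0)] (by decide +kernel))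
noncomputable def rhcef3d925888649c4 : CRef := CRef.mk (Pat.mk 0x2000000038000000100000000000000000 0x8000000080000002f0000007c000000180000001000000010 5 7) 0 0 (step_sound _ 36 [(rh71222050f2c63a3a.shift 4 0), (rhb98e183a12ed98e4.shift 0 1)] (by decide +kernel))
noncomputable def rhde42a819192f6b8f : CRef := CRef.mk (Pat.mk 0x3e000000100000000000000000 0x4000000040000000e0000003f000000180000000800000008 5 6) 0 0 (step_sound _ 130 [(rh3244c3cc8379b070.shift 1 3), rhccac3f9c8caee45e] (by decide +kernel))
noncomputable def rh6922718344f6b9d7 : CRef := CRef.mk (Pat.mk 0x800000003000000060000000400000000 0x70000001f00000003000000060000000600000002 5 5) 0 0 (step_sound _ 129 [(rh2145e1d24b96a57e.shift 1 1), rhaa02d759ac0b5be0] (by decide +kernel))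
noncomputable def rh8d777e2844f54ae8 : CRef := CRef.mk (Pat.mk 0x2800000008000000180000000400000000 0x40000003c0000000f000000180000000c0000000c 5 6) 0 0 (step_sound _ 35 [rh6e750d361b5f2525, (rh932754581e0f4330.shift 2 0)] (by decide +kernel))
noncomputable def rh0ad370c36509e360 : CRef := CRef.mk (Pat.mk 0x4000000078000000240000000000000000 0x470000007e000000360000002000000020 5 7) 0 0 (step_sound _ 98 [rh26b0866c012c17a4, (rheb0810cc63b001d8.shift 1 2)] (by decide +kernel))
noncomputable def rh077c06cd11c82473 : CRef := CRef.mk (Pat.mk 0x3e000000100000000000000000 0x4000000040000000e0000003f000000180000000800000008 5 6) 0 0 (step_sound _ 67 [(rhb739f4f82bb681b4.shift 0 2), (rhd5889c99d29bf7d6.shift 1 0)] (by decide +kernel))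
noncomputable def rh7c6074bd7239ae5e : CRef := CRef.mk (Pat.mk 0x40000001e000000080000000000000000 0x400000004000000060000001e0000000b0000000a0000000a 5 5) 0 0 (step_sound _ 35 [rh50e736ca27d8bdbd, (rh7b1f1fb55310c477.shift 2 0)] (by decide +kernel))
noncomputable def rh46e3a0b5139d36a4 : CRef := CRef.mk (Pat.mk 0x1000000010000000100000001c00000000 0x1000000010000000170000003e00000027 5 6) 0 0 (step_sound _ 37 [(rh55afc6a59410cf00.shift 4 0), rh592c7139d2c44767] (by decide +kernel))
noncomputable def rh44740f30b68f7b40 : CRef := CRef.mk (Pat.mk 0x1800000010000000100000001800000000 0x100000001800000018000000380000001f00000014 5 6) 0 0 (step_sound _ 99 [rh3777a3542158374f, (rh7b1f1fb55310c477.shift 3 0)] (by decide +kernel))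
noncomputable def rh78d31f6353731921 : CRef := CRef.mk (Pat.mk 0x38000000080000000800000000 0x140000001c0000001f000000380000000c0000000c00000004 5 6) 0 0 (step_sound _ 131 [(rh0fd870c734e6c513.shift 2 0), (rh3b734c5288922837.shift 2 0), (rh79905f95cb2d899a.shift 0 1)] (by decide +kernel))
noncomputable def rh279ad5450f1bece9 : CRef := CRef.mk (Pat.mk 0x80000000c0000000a00000008 0xc0000000c0000000c0000003c0000000f00000008 5 6) 0 0 (step_sound _ 130 [(rh14f0bd2dbea76b43.shift 0 1), (rhffd04209dc8ea796.shift 2 0)] (by decide +kernel))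
noncomputable def rh77388b24933283ea : CRef := CRef.mk (Pat.mk 0xc0000000e0000000a0000000000000000 0xc0000000e0000000b0000001e0000001e 5 5) 0 0 (step_sound _ 35 [(rh7b1f1fb55310c477.shift 2 0), rhf5b2efd978155053] (by decide +kernel))
noncomputable def rhf4dcbaaad31e06e2 : CRef := CRef.mk (Pat.mk 0x180000001e000000140000000000000000 0x180000001e000000170000003c00000034 5 6) 0 0 (step_sound _ 65 [(rhc01662bd1036beb8.shift 1 0), (rheb0810cc63b001d8.shift 0 2)] (by decide +kernel))
noncomputable def rhc639dc7153afe576 : CRef := CRef.mk (Pat.mk 0x4000000060000000b0000000300000000 0x2000000060000000e0000000b0000001f0000001c 5 5) 0 0 (step_sound _ 129 [rh343d335c0d96ff4e, (rh5c5e593799055d58.shift 0 1)] (by decide +kernel))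
noncomputable def rh42e9f17f3e464759 : CRef := CRef.mk (Pat.mk 0x1e000000000000000800000000 0x10000000100000003b0000001e000000080000000800000008 5 6) 0 0 (step_sound _ 129 [(rh3244c3cc8379b070.shift 0 3), (rhb705031692dfe65f.shift 1 0)] (by decide +kernel))
noncomputable def rh83964308f5bd348e : CRef := CRef.mk (Pat.mk 0x1800000004000000140000000000000000 0x8000000080000007c0000001f000000140000001400000004 5 7) 0 0 (step_sound _ 99 [(rh0bb882ba86b2372d.shift 0 3), (rh40dfdc6f98d3f7a5.shift 1 1), (rh4821dcf828b9d7bf.shift 2 0), (rh574fdbf07bdd18b9.shift 0 3)] (by decide +kernel))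
noncomputable def rh0806e2f3769fbf31 : CRef := CRef.mk (Pat.mk 0x40000000c000000060000000a00000000 0x40000007c0000007e0000000b00000008 5 7) 0 0 (step_sound _ 67 [(rh3a58cf8460a1b69d.shift 0 1), (rh7b1f1fb55310c477.shift 2 0)] (by decide +kernel))
noncomputable def rhe9a35cdc95cd81c6 : CRef := CRef.mk (Pat.mk 0x100000003000000008000000280000000800000000 0x10000000300000007c0000002f0000002800000008 5 7) 0 0 (step_sound _ 100 [(rh71222050f2c63a3a.shift 3 0), (rhbc28e4fe7a5d86d6.shift 0 1)] (by decide +kernel))
noncomputable def rhfb5c2c8bb92800a5 : CRef := CRef.mk (Pat.mk 0x1000000030000000080000002800000000 0x1000000010000000300000007c0000002f00000020 5 7) 0 0 (step_sound _ 68 [(rh5c5e593799055d58.shift 3 1), rhbc28e4fe7a5d86d6] (by decide +kernel))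
noncomputable def rh229bd1055374460a : CRef := CRef.mk (Pat.mk 0x30000000180000002800000000 0x1000000010000000300000007c0000002f00000020 5 7) 0 0 (step_sound _ 132 [(rh5c5e593799055d58.shift 3 1), rhbc28e4fe7a5d86d6] (by decide +kernel))
noncomputable def rh23ccc1cad8eb0d41 : CRef := CRef.mk (Pat.mk 0xd0000000c000000080000000800000000 0x1800000018000000180000000f0000000c0000000c0000001800000010 5 5) 0 0 (step_sound _ 36 [(rh55afc6a59410cf00.shift 3 0), (rha5f24c89d51c7855.shift 0 2)] (by decide +kernel))
noncomputable def rh54138ccbdc55d5fe : CRef := CRef.mk (Pat.mk 0x1c000000020000000800000000 0x1000000010000000300000001e0000001b0000000800000008 5 6) 0 0 (step_sound _ 97 [(rhceed0e29dfbc434b.shift 1 0), (rheb0810cc63b001d8.shift 0 2)] (by decide +kernel))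
noncomputable def rh5abd33fb7e390499 : CRef := CRef.mk (Pat.mk 0x400000004000000020000000200000000 0x1000000070000000700000006000000030000000300000003 5 3) 0 0 (step_sound _ 97 [(rh71222050f2c63a3a.shift 1 0), rhb7f088ebf5701d6e] (by decide +kernel))
noncomputable def rha2f3f9a990095b85 : CRef := CRef.mk (Pat.mk 0x30000000200000002000000000000000000000000 0x5000000070000000600000002000000060000000600000004 5 3) 0 0 (step_sound _ 65 [(rh50fbb5868c909700.shift 0 2), (rhc9de03f9731897d4.shift 1 0)] (by decide +kernel))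
noncomputable def rh34b7a8bb1c09b7f8 : CRef := CRef.mk (Pat.mk 0x10000000f000000020000000400000000 0x100000009000000190000000f0000001e0000000400000004 5 5) 0 0 (step_sound _ 160 [(rh2145e1d24b96a57e.shift 0 2), rhc111b7216b72d2fb] (by decide +kernel))
noncomputable def rhd6db2877315f5352 : CRef := CRef.mk (Pat.mk 0xe000000060000000a0000000300000000 0x20000000e0000001e0000000b0000001f00000018 5 5) 0 0 (step_sound _ 64 [(rh5c5e593799055d58.shift 0 1), rhaf11573d62e172ac] (by decide +kernel))
noncomputable def rh98773c5047527181 : CRef := CRef.mk (Pat.mk 0x800000008000000080000000a00000002 0x100000001800000018000000080000001c0000001e00000003 5 5) 0 0 (step_sound _ 164 [rh9f12fa405e36b051, (rhbaefcd01e0a8bca3.shift 3 1)] (by decide +kernel))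
noncomputable def rh37b1d0aaf934e3c6 : CRef := CRef.mk (Pat.mk 0x400000004000000000000003800000002 0x400000006000000730000003e00000006 5 7) 0 0 (step_sound _ 34 [(rh80fcd6d0a18cb2dd.shift 1 0), rhe7f4f9551833c17b] (by decide +kernel))
noncomputable def rh53a4f32c163a9707 : CRef := CRef.mk (Pat.mk 0x1000000008000000080000000e00000002 0x1800000018000000080000000e0000007e00000003 5 7) 0 0 (step_sound _ 131 [(rh2f68792b6b779e96.shift 3 1), rh61b2e0e2428d5638] (by decide +kernel))
noncomputable def rh37e255e89a8e4f95 : CRef := CRef.mk (Pat.mk 0x1c00000006000000020000000000000000 0x70000001e00000006000000030000000300000003 5 5) 0 0 (step_sound _ 33 [(rh71222050f2c63a3a.shift 1 0), rhec56f430ca5e7051] (by decide +kernel))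
noncomputable def rh1d8c01cc4bee9202 : CRef := CRef.mk (Pat.mk 0x800000028000000080000000800000000 0x800000008000000780000001f0000000c00000004 5 7) 0 0 (step_sound _ 34 [(rh30f9fdac5a2aaf35.shift 0 1), (rh932754581e0f4330.shift 2 0)] (by decide +kernel))
noncomputable def rh38e7120abc17d6c6 : CRef := CRef.mk (Pat.mk 0x200000002000000020000000000000000 0x500000007000000070000000600000003000000030000000300000001 5 3) 0 0 (step_sound _ 161 [(rh0fd870c734e6c513.shift 0 1), (rh1741680720c097b4.shift 0 2), rha78b327dad5d6a04] (by decide +kernel))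
noncomputable def rhc8bd5a66cad88589 : CRef := CRef.mk (Pat.mk 0x400000001000000050000000100000001 0x200000002000000060000000700000007000000050000000500000001 5 3) 0 0 (step_sound _ 129 [(rh055331f574142fff.shift 0 1), rhbaefcd01e0a8bca3] (by decide +kernel))
noncomputable def rh789c9a411e1469bc : CRef := CRef.mk (Pat.mk 0x20000000200000002000000010000000000000000 0x1000000030000000300000002000000070000000700000004 5 3) 0 0 (step_sound _ 65 [rh46baee19951a66e7, (rh932754581e0f4330.shift 0 1)] (by decide +kernel))
noncomputable def rh3529c7a56f1336bf : CRef := CRef.mk (Pat.mk 0x30000000180000000c0000000800000004 0x20000003a0000001e0000000f0000000e00000004 5 6) 0 0 (step_sound _ 34 [rh26d3c8e348470fe9, (rh5c5e593799055d58.shift 2 0)] (by decide +kernel))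
noncomputable def rhf16290babf6fbb3f : CRef := CRef.mk (Pat.mk 0x1a0000001e0000000000000000 0x6000000070000001e0000001e0000000700000006 5 5) 0 0 (step_sound _ 33 [rh1e083b2718dab40e, (rheb0810cc63b001d8.shift 0 1)] (by decide +kernel))
noncomputable def rhcaeac74e46d2a375 : CRef := CRef.mk (Pat.mk 0x80000001c000000180000000000000000 0x80000003c0000007f0000000700000004 5 7) 0 0 (step_sound _ 69 [rh5ee4a2c5b412d957, (rhf48373e13d2bc128.shift 2 2)] (by decide +kernel))
noncomputable def rhdc7e0359e8810232 : CRef := CRef.mk (Pat.mk 0x20000000200000002000000000000000000000000 0x500000007000000070000000300000002000000070000000700000005 5 3) 0 0 (step_sound _ 65 [rh6eff4158bb400f47, rh8ff3dde5b1c639e0, rhc4526fc8abf298b6, (rhe1d7b89b539c0d0e.shift 0 2)] (by decide +kernel))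
noncomputable def rh221a3b6963e4af8e : CRef := CRef.mk (Pat.mk 0x20000000200000002000000000000000000000000 0x500000007000000070000000600000002000000070000000700000005 5 3) 0 0 (step_sound _ 65 [rh367118e0bf0473e0, rh6eff4158bb400f47, (rhc9de03f9731897d4.shift 1 0), (rhe1d7b89b539c0d0e.shift 0 2)] (by decide +kernel))
noncomputable def rhf7ab05468f5c87a6 : CRef := CRef.mk (Pat.mk 0x20000000200000002000000000000000100000000 0x4000000060000000600000002000000070000000700000004 5 3) 0 0 (step_sound _ 65 [(rh79877ebd3ef475dd.shift 0 1), (rhc9de03f9731897d4.shift 1 0)] (by decide +kernel))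
noncomputable def rhbaa925a569a63dce : CRef := CRef.mk (Pat.mk 0x8000000280000000800000000 0x140000001c0000001c000000080000007c0000000f00000004 5 7) 0 0 (step_sound _ 131 [(rh20966da26a1c2ae8.shift 2 0), (rh771d065bdc85bf2d.shift 2 0), (rhc85cc95794737cf7.shift 2 1), rhc8fd50c44a2112a0] (by decide +kernel))
noncomputable def rh348b23f78b157909 : CRef := CRef.mk (Pat.mk 0x80000003800000008000000000000000000000000 0x40000000f0000003c000000080000001c0000001c00000014 5 6) 0 0 (step_sound _ 67 [(rh53509d91ff78ed56.shift 0 2), (rh8cdd36b03d57a2f6.shift 2 0), (rh8ff3dde5b1c639e0.shift 2 0), (rhc4526fc8abf298b6.shift 2 0)] (by decide +kernel))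
noncomputable def rhbc0d8dfa38e316eb : CRef := CRef.mk (Pat.mk 0x40000001c000000200000000000000000 0x400000004000000040000001e000000370000000200000002 5 6) 0 0 (step_sound _ 97 [rh3423e5ac208fb65b, (rh96851dee118c1ba3.shift 1 2)] (by decide +kernel))
noncomputable def rhc03f4929ba5fd023 : CRef := CRef.mk (Pat.mk 0x20000000000000001c00000000 0x2000000020000000670000007e000000ef 5 8) 0 0 (step_sound _ 37 [(rh42d32bf970c9c157.shift 1 0), rh775ca1963e850b80, (rh95520c767fb5ad95.shift 2 0)] (by decide +kernel))
noncomputable def rh010ff502915d7db7 : CRef := CRef.mk (Pat.mk 0x20000000000000003800000000 0x2000000020000000670000007e000000ef 5 8) 0 0 (step_sound _ 34 [(rh42d32bf970c9c157.shift 1 0), rh775ca1963e850b80, (rh95520c767fb5ad95.shift 2 0)] (by decide +kernel))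
noncomputable def rhb92435d166f5fc74 : CRef := CRef.mk (Pat.mk 0x200000000000000038000000000000000000000000 0x2000000020000000670000003e000000770000001000000010 5 7) 0 0 (step_sound _ 98 [(rh0d378fd9e8917c5a.shift 0 2), (rh185f35b8bd8ec37f.shift 0 2), (rh3927159016129638.shift 2 0), (rh775ca1963e850b80.shift 0 2)] (by decide +kernel))
noncomputable def rh4b6ed8ae4c9bc178 : CRef := CRef.mk (Pat.mk 0x200000000000000038000000000000000000000000 0x2000000020000000e70000007e0000003f0000001000000010 5 8) 0 0 (step_sound _ 98 [(rh3927159016129638.shift 2 0), (rh3b00e9e9432b8f40.shift 1 2), (rh775ca1963e850b80.shift 0 2)] (by decide +kernel))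
noncomputable def rhe346f8ad04f50e47 : CRef := CRef.mk (Pat.mk 0x8000000000000001e000000000000000000000000 0x800000008000000080000003e0000000f0000000400000004 5 6) 0 0 (step_sound _ 65 [(rh384f358b9353a6bd.shift 1 0), (rheb0810cc63b001d8.shift 0 2)] (by decide +kernel))
noncomputable def rh0ca78fa50e8f84f7 : CRef := CRef.mk (Pat.mk 0x4000000000000000e000000000000000000000000 0x400000004000000740000003e000000770000000200000002 5 7) 0 0 (step_sound _ 100 [(rh06db8ceda6269a47.shift 0 2), (rh3b00e9e9432b8f40.shift 0 2), (rh3fc3a7fb6866dcd4.shift 1 2), rhad7f111fb10ea859] (by decide +kernel))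
noncomputable def rhd047222165077818 : CRef := CRef.mk (Pat.mk 0x10000000000000001e00000000 0x1000000010000000300000003e0000002f 5 6) 0 0 (step_sound _ 68 [(rh33e738c4ed385b9f.shift 1 1), rhe34c2a4bad6c590c] (by decide +kernel))
noncomputable def rh8cbf056d9aefcc9c : CRef := CRef.mk (Pat.mk 0x40000000c0000000c000000000000000000000000 0xa0000000f0000003e0000000c000000040000000400000004 5 6) 0 0 (step_sound _ 66 [(rh674dd4f5f6cca5c0.shift 1 0), (rh75737889aa2eafb8.shift 0 2), (rh84d1c02a8954c6a8.shift 2 1)] (by decide +kernel))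
noncomputable def rh5c94dc9b5c97753e : CRef := CRef.mk (Pat.mk 0x1e0000001e000000000000000000000000 0x30000001e0000001e000000070000000600000006 5 5) 0 0 (step_sound _ 65 [rh5b0dbee318df315e, (rheb0810cc63b001d8.shift 0 2)] (by decide +kernel))
noncomputable def rhd6172124d67dc146 : CRef := CRef.mk (Pat.mk 0x14000000040000000400000000 0xa0000000e0000000f0000003c000000060000000600000002 5 6) 0 0 (step_sound _ 130 [(rh1741680720c097b4.shift 1 1), (rh20966da26a1c2ae8.shift 1 0), (rh771d065bdc85bf2d.shift 1 0), (rhb1f11fdfc32eb594.shift 0 1)] (by decide +kernel))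
noncomputable def rhcde48410e07a2440 : CRef := CRef.mk (Pat.mk 0x60000000a000000020000000200000000 0x1f0000007e000000030000000300000001 5 7) 0 0 (step_sound _ 32 [(rh0886b62f7b9b89bc.shift 0 2), rh932754581e0f4330] (by decide +kernel))
noncomputable def rhe294f6ba4160fa12 : CRef := CRef.mk (Pat.mk 0x60000001a0000000a00000009 0x11000000130000001e0000001a0000001b00000009 5 5) 0 0 (step_sound _ 129 [rh31d1c76bc3cbcdc5, rh79877ebd3ef475dd] (by decide +kernel))
noncomputable def rhdf5957807fc5cfb7 : CRef := CRef.mk (Pat.mk 0x1f00000000 0x70000007f0000001e 5 7) 0 0 (step_sound _ 65 [rh2d8763047f9d51f6, (rh3244c3cc8379b070.shift 0 1)] (by decide +kernel))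
noncomputable def rh3fdfff57602df0d6 : CRef := CRef.mk (Pat.mk 0x1000000020000000200000002000000000000000000000000 0x5000000070000000600000002000000060000000600000004 5 3) 0 0 (step_sound _ 65 [(rhc9de03f9731897d4.shift 1 0), (rhffd04209dc8ea796.shift 0 2)] (by decide +kernel))
noncomputable def rhe2aff24b08d7ba4b : CRef := CRef.mk (Pat.mk 0x90000000c0000000800000000 0x140000001c0000001c0000000f0000000c0000000c0000000c 5 5) 0 0 (step_sound _ 131 [(rh03dfdf12d5937476.shift 2 0), rh36eea9b8df2ca677, (rhc85cc95794737cf7.shift 2 1)] (by decide +kernel))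
noncomputable def rhad2c2adf635d6f3b : CRef := CRef.mk (Pat.mk 0x400000004000000070000000200000000 0xa0000000e0000000e000000070000001e0000000c 5 5) 0 0 (step_sound _ 34 [(rh00c644645561e9be.shift 1 0), rh42afa1af9fffa0e1] (by decide +kernel))
noncomputable def rhb739122db6586aba : CRef := CRef.mk (Pat.mk 0x1c000000000000000400000004 0x7f0000003f000000040000000400000004 5 7) 0 0 (step_sound _ 97 [(rh56a24c72f1c55520.shift 0 3), rhea1977e228a6d74a, rhf13c54404e841c6a] (by decide +kernel))
noncomputable def rhc621281b43b226d3 : CRef := CRef.mk (Pat.mk 0x1c00000010 0x770000003e00000030 5 7) 0 0 (step_sound _ 33 [(rh56a24c72f1c55520.shift 0 1), (rhe25b0a99195a5d59.shift 1 0)] (by decide +kernel))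
noncomputable def rh1598332673d9bd40 : CRef := CRef.mk (Pat.mk 0xc00000008000000020000000a 0x40000001f0000007a0000000a0000000a 5 7) 0 0 (step_sound _ 130 [rh9b3fa22109589eb0, (rh9e07f76261b05888.shift 2 0)] (by decide +kernel))
noncomputable def rhd46bedfddf067f26 : CRef := CRef.mk (Pat.mk 0x20000000200000002000000000000000000000000 0x400000006000000060000000600000003000000070000000700000005 5 3) 0 0 (step_sound _ 65 [(rh20966da26a1c2ae8.shift 0 1), (rh6c59ce14113da07f.shift 1 0), rh6eff4158bb400f47, rhcab3157f7bdcba3e] (by decide +kernel))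
noncomputable def rh1ee964fdf0bdaa22 : CRef := CRef.mk (Pat.mk 0x2000000060000000200000000000000000000000000000000 0x1000000070000000700000006000000060000000600000003000000070000000700000004 5 3) 0 0 (step_sound _ 97 [rh218cd2e070c414fb, (rh9847b492d4cb1fe4.shift 0 3), (rha707fb719e87fe6e.shift 1 2)] (by decide +kernel))
noncomputable def rhf83cf15f19111834 : CRef := CRef.mk (Pat.mk 0x2000000060000000200000002 0x400000007000000070000000700000006000000060000000200000002 5 3) 0 0 (step_sound _ 129 [rh1d87b4e963406cc8, (rh1db71118bee297d0.shift 0 1), (rh44f453b84f013105.shift 1 0), (rhc85cc95794737cf7.shift 0 1)] (by decide +kernel))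
noncomputable def rha9439441fc578113 : CRef := CRef.mk (Pat.mk 0x140000001c000000100000000000000000 0x20000000200000006000000160000003c0000003f0000000f0000000a 5 6) 0 0 (step_sound _ 66 [rh9a9da32be8ed85a7, (rhb5ba847c57864cbc.shift 1 1), (rhd9106766b9ff53c0.shift 1 2)] (by decide +kernel))
noncomputable def rhbc63f51351b61326 : CRef := CRef.mk (Pat.mk 0x340000001c00000010000000000000000000000000 0x6000000060000003c0000003c0000003f0000000e0000000e00000004 5 6) 0 0 (step_sound _ 99 [rh98b477c1d1c885aa, (rhab292f7f30e6ad1f.shift 2 1), (rhade0f4c81793f68e.shift 2 1), (rhbe707112c53dab40.shift 2 1), (rhf222870040a7c7c5.shift 0 2)] (by decide +kernel))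
noncomputable def rhd98ec74f6eefb291 : CRef := CRef.mk (Pat.mk 0x1a0000000e000000080000000000000000 0x10000000700000007000000070000001f0000000e0000000e0000000400000004 5 5) 0 0 (step_sound _ 161 [(rh07b37f185ca779be.shift 0 2), (rh235edbdf3bbc6c03.shift 1 0), (rha768b229dc254047.shift 1 0), (rhdd17fd55617d70f9.shift 0 2)] (by decide +kernel))
noncomputable def rh61e3a6d5a5969a25 : CRef := CRef.mk (Pat.mk 0x8000000580000000800000000 0x400000004000000040000000f0000007c0000000800000008 5 7) 0 0 (step_sound _ 98 [(rh2fe78cc5ca4405d8.shift 2 2), rh3b3c5f0896cd3517] (by decide +kernel))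
noncomputable def rh5493ec200a1c795d : CRef := CRef.mk (Pat.mk 0xc000000180000000800000000 0x1c0000003c0000000f000000180000001800000010 5 6) 0 0 (step_sound _ 97 [(rh53e5c1cd464022b3.shift 1 0), (rhb739f4f82bb681b4.shift 0 2)] (by decide +kernel))
noncomputable def rh12461e137161f2e1 : CRef := CRef.mk (Pat.mk 0x200000002000000020000000200000000 0x4000000060000000600000002000000060000000700000005 5 3) 0 0 (step_sound _ 0 [rh79877ebd3ef475dd, (rhced6d86d2069808b.shift 1 0)] (by decide +kernel))
noncomputable def rh6d406e32c1bd7163 : CRef := CRef.mk (Pat.mk 0x2000000060000000200000000 0x70000000700000007000000060000000600000006 5 3) 0 0 (step_sound _ 129 [rhc4055b4872d6fb38, (rhd4b4beefcd67f51e.shift 1 0)] (by decide +kernel))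
noncomputable def rhd7cb8ed87e2022d8 : CRef := CRef.mk (Pat.mk 0x200000002000000020000000200000000 0x1000000030000000300000002000000060000000700000005 5 3) 0 0 (step_sound _ 0 [rh79877ebd3ef475dd, rh8065c10b3cae6218] (by decide +kernel))
noncomputable def rhc17b7d8fab3dfe57 : CRef := CRef.mk (Pat.mk 0x200000002000000020000000200000000 0x5000000070000000700000002000000020000000600000004 5 3) 0 0 (step_sound _ 2 [(rhc85cc95794737cf7.shift 0 1), (rhd3458b32566d63f7.shift 1 0)] (by decide +kernel))
noncomputable def rhf542f7e2121becc5 : CRef := CRef.mk (Pat.mk 0x40000000c000000040000000600000000 0x80000000c0000000c0000000f0000003e00000038 5 6) 0 0 (step_sound _ 35 [(rh55afc6a59410cf00.shift 2 0), rhc3acf276632c9051] (by decide +kernel))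
noncomputable def rh762a1aeaf83c662a : CRef := CRef.mk (Pat.mk 0x200000002000000020000000200000000 0x5000000070000000700000002000000020000000300000001 5 3) 0 0 (step_sound _ 0 [rh79877ebd3ef475dd, (rhc85cc95794737cf7.shift 0 1)] (by decide +kernel))
noncomputable def rha4326e66fbf32eaa : CRef := CRef.mk (Pat.mk 0x2000000020000001e00000002 0x50000000700000007000000320000001e00000002 5 6) 0 0 (step_sound _ 68 [(rh33e738c4ed385b9f.shift 1 1), rhc85cc95794737cf7] (by decide +kernel))
noncomputable def rh4b85549a7e035e7e : CRef := CRef.mk (Pat.mk 0x20000001e000000020000000000000000 0x6000000060000001e0000003e0000000700000007 5 6) 0 0 (step_sound _ 68 [rhceadcece2e06eb7f, (rhe25b0a99195a5d59.shift 1 2)] (by decide +kernel))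
noncomputable def rh10b8df1e8cc681c2 : CRef := CRef.mk (Pat.mk 0x200000002000000030000000200000000000000000000000000000000 0x200000002000000030000000300000007000000070000000700000001 5 3) 0 0 (step_sound _ 97 [(rh4d70d27262289c21.shift 0 1), rh5a26ed1c01b25f18, (rh7928877f9bf74a91.shift 0 2), (rh8cdd36b03d57a2f6.shift 0 1)] (by decide +kernel))
noncomputable def rh8859ac061aed93d9 : CRef := CRef.mk (Pat.mk 0x1e000000100000000000000000 0x10000000330000001f000000180000000800000008 5 6) 0 0 (step_sound _ 67 [rh4b961a3659b5c1c1, (rhb739f4f82bb681b4.shift 0 2)] (by decide +kernel))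
noncomputable def rha5438ee0a39b0a04 : CRef := CRef.mk (Pat.mk 0xe0000001200000002000000000000000000000000 0x20000000f0000001e00000003000000030000000100000001 5 5) 0 0 (step_sound _ 131 [rh5c8c873042790be0, (rhb739f4f82bb681b4.shift 0 4)] (by decide +kernel))
noncomputable def rh7ee010839f9a53c0 : CRef := CRef.mk (Pat.mk 0x20000001e000000020000000200000000 0x20000001f0000003e0000000700000005 5 6) 0 0 (step_sound _ 2 [rhbbbd93658923a9ea, (rhd3458b32566d63f7.shift 1 0)] (by decide +kernel))
noncomputable def rhb20dd801f506db0f : CRef := CRef.mk (Pat.mk 0x800000008000000080000000800000000 0x80000000800000008000000380000001f00000014 5 6) 0 0 (step_sound _ 34 [rh54968f8c0e71a67e, (rh932754581e0f4330.shift 2 0)] (by decide +kernel))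
noncomputable def rhb44fbf6bd2c6418e : CRef := CRef.mk (Pat.mk 0x60000000200000002000000000000000000000000 0x2000000060000000600000007000000070000000700000005 5 3) 0 0 (step_sound _ 65 [rh8aec56c4ee12918c, (rh8c3839f9b9075f23.shift 1 0), (rhc9ac229b3c77cd55.shift 0 1)] (by decide +kernel))
noncomputable def rhc3a1f24d2f0571cd : CRef := CRef.mk (Pat.mk 0x2000000060000000200000002 0x1000000070000000700000006000000060000000600000002 5 3) 0 0 (step_sound _ 130 [(rh4c2adb5bda817a45.shift 0 1), (rhbaefcd01e0a8bca3.shift 1 0)] (by decide +kernel))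
noncomputable def rh144b5a8063f73299 : CRef := CRef.mk (Pat.mk 0x1800000058000000080000001800000000 0x5800000058000001f8000000ff000001e4 5 9) 0 0 (step_sound _ 37 [(rh0cf87a452aebd5be.shift 2 0), (rh70342c075ca5d2a1.shift 3 0), rh904704d491079fa0, (rhb508637072eea9c2.shift 2 0), (rhc9f2430cd24d42d7.shift 2 0)] (by decide +kernel))
noncomputable def rhe97d82b9ae46fe32 : CRef := CRef.mk (Pat.mk 0x100000001e000000180000000000000000 0x30000000380000001f0000001e000000180000001000000010 5 6) 0 0 (step_sound _ 164 [rh1b27b9187a4eb1ec, (rh5c5e593799055d58.shift 3 2)] (by decide +kernel))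
noncomputable def rh2448df75ad4314f1 : CRef := CRef.mk (Pat.mk 0x1e0000001a0000000000000000 0x40000000f0000001e0000001e0000000b0000000b 5 5) 0 0 (step_sound _ 129 [(rh3244c3cc8379b070.shift 0 3), rha00d5fd66c277a7a] (by decide +kernel))
noncomputable def rhc0fc7017c0a08396 : CRef := CRef.mk (Pat.mk 0x1e000000180000000000000000 0x10000000330000001e0000001b0000000800000008 5 6) 0 0 (step_sound _ 64 [rh4b961a3659b5c1c1, (rh80fcd6d0a18cb2dd.shift 0 2)] (by decide +kernel))
noncomputable def rh74417eabe941dcf3 : CRef := CRef.mk (Pat.mk 0x1e0000001a000000000000000000000000 0xc0000001e0000001e000000330000001200000012 5 6) 0 0 (step_sound _ 68 [rh1440f6a1c37c6417, (rh3cb04db3dd2b6a55.shift 3 0)] (by decide +kernel))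
noncomputable def rhedf2c855198032d4 : CRef := CRef.mk (Pat.mk 0x1e0000001a000000000000000000000000 0x3b0000001e0000001e000000300000003000000010 5 6) 0 0 (step_sound _ 161 [(rh3244c3cc8379b070.shift 0 4), (rhf4ff9e08276e1750.shift 1 0)] (by decide +kernel))
noncomputable def rh3f0f89eee57caff3 : CRef := CRef.mk (Pat.mk 0x40000000c0000001800000008000000000000000000000000 0x80000000c0000000c0000001c0000001f000000370000001400000004 5 6) 0 0 (step_sound _ 98 [(rh15f2c4b4eb9acae9.shift 0 2), (rhaf7f6e8c35513447.shift 0 1), (rhfafeb437ceb8396d.shift 2 0)] (by decide +kernel))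
noncomputable def rhcef2e169e61d8e2d : CRef := CRef.mk (Pat.mk 0x160000000c000000040000000000000000 0x1400000014000000160000003c0000001f0000000a00000008 5 6) 0 0 (step_sound _ 100 [rhbc1d8a6d7ec99b28, (rhf48373e13d2bc128.shift 1 3)] (by decide +kernel))
noncomputable def rh2145de25d74fb5e2 : CRef := CRef.mk (Pat.mk 0x6000000020000000600000004000000000000000000000000 0x400000006000000060000000600000006000000030000000300000003 5 3) 0 0 (step_sound _ 97 [(rh2f68792b6b779e96.shift 1 3), rh9b0758b4b74a6645] (by decide +kernel))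
noncomputable def rhebd2fcccf9a55120 : CRef := CRef.mk (Pat.mk 0x3000000000000000b00000008000000000000000000000000 0x1c0000001f000000180000000f000000180000001c0000001c00000014 5 5) 0 0 (step_sound _ 163 [(rh8f45cf598832e136.shift 0 1), rh9765e413c7f50252, rha8ca8b4e49361e06, (rhabf575676fe0ef70.shift 0 3)] (by decide +kernel))
noncomputable def rh3e333d00765b42b7 : CRef := CRef.mk (Pat.mk 0x16000000160000000000000000 0x30000000300000001f0000001e0000003800000008 5 6) 0 0 (step_sound _ 67 [(rh3244c3cc8379b070.shift 0 2), (rhcfc1e46168ba8b3c.shift 1 0)] (by decide +kernel))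
noncomputable def rhdd239d5a9dc63633 : CRef := CRef.mk (Pat.mk 0x2000000020000001600000016000000000000000000000000 0x40000000600000016000000170000001e000000380000000800000008 5 6) 0 0 (step_sound _ 99 [(rh01ef892b7b4a6cf4.shift 1 0), (rh3244c3cc8379b070.shift 0 3)] (by decide +kernel))
noncomputable def rh5db541dd5138ce50 : CRef := CRef.mk (Pat.mk 0x2000000020000000600000006000000000000000000000000 0x400000006000000060000000600000006000000030000000300000003 5 3) 0 0 (step_sound _ 194 [(rh2f68792b6b779e96.shift 1 3), rh9b0758b4b74a6645] (by decide +kernel))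
noncomputable def rha4e48795de5c404c : CRef := CRef.mk (Pat.mk 0x2000000020000000600000006000000000000000000000000 0x100000003000000030000000600000006000000030000000300000003 5 3) 0 0 (step_sound _ 192 [(rh50fbb5868c909700.shift 0 3), rhc9986520d3323e56] (by decide +kernel))
noncomputable def rh929981d1a150078c : CRef := CRef.mk (Pat.mk 0x300000003000000020000000200000000 0x600000006000000060000000300000003000000030000000300000001 5 3) 0 0 (step_sound _ 32 [rh932754581e0f4330, (rhc2638b18262e5471.shift 0 1)] (by decide +kernel))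
noncomputable def rh1b289b628cdeb774 : CRef := CRef.mk (Pat.mk 0x18000000180000001000000018 0x140000001f0000001f000000780000001e 5 7) 0 0 (step_sound _ 35 [(rh2f68792b6b779e96.shift 3 0), rhe3465b3d36b3aa2f] (by decide +kernel))
noncomputable def rh4ec7f64548b13075 : CRef := CRef.mk (Pat.mk 0xc0000000c000000080000000c00000000 0xc0000000f0000007c0000001f00000013 5 7) 0 0 (step_sound _ 36 [(rh55afc6a59410cf00.shift 3 0), rhc88670001f015565] (by decide +kernel))
noncomputable def rhd45868133f938a97 : CRef := CRef.mk (Pat.mk 0x3800000010000000100000000000000000 0x80000001c000000f80000003e0000001f0000000c00000008 5 8) 0 0 (step_sound _ 99 [(rh0f936b2c74e7b815.shift 2 2), (rh4dc133ee0ba1420a.shift 1 3), rh5d4854bc4abcd7d3] (by decide +kernel))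
noncomputable def rh40c3209ac2338041 : CRef := CRef.mk (Pat.mk 0x8000000180000000e0000000400000000 0x160000001f0000001e0000000e0000000c00000008 5 5) 0 0 (step_sound _ 35 [(rh501207f89dcab93e.shift 0 1), (rha707fb719e87fe6e.shift 3 0)] (by decide +kernel))
noncomputable def rhc6ebdb02f2c2b584 : CRef := CRef.mk (Pat.mk 0x1e00000000 0x70000003e00000073 5 7) 0 0 (step_sound _ 0 [rh3947d1dfff0afc6c, rh80fcd6d0a18cb2dd] (by decide +kernel))
noncomputable def rhf04153631299154e : CRef := CRef.mk (Pat.mk 0xc0000000f000000010000000000000000 0xc0000001f0000001f0000001800000018 5 5) 0 0 (step_sound _ 65 [(rh18965a982d73c794.shift 0 2), rha4ea59bf6dd353dc] (by decide +kernel))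
noncomputable def rh93c987d47c2856ef : CRef := CRef.mk (Pat.mk 0x40000000c000000040000000c00000000 0x80000000c0000000c0000000f0000003e00000032 5 6) 0 0 (step_sound _ 33 [(rh932754581e0f4330.shift 1 0), rhc3acf276632c9051] (by decide +kernel))
noncomputable def rh2d81c31c55e8d97c : CRef := CRef.mk (Pat.mk 0x2000000060000000200000002 0x2000000030000000700000007000000060000000600000002 5 3) 0 0 (step_sound _ 98 [(rh2f68792b6b779e96.shift 1 0), rh933f3ac7d57d09d8] (by decide +kernel))
noncomputable def rh9d47ef67f175c917 : CRef := CRef.mk (Pat.mk 0x7800000010 0xe0000007e00000037 5 7) 0 0 (step_sound _ 66 [(rh3f8766e6ecb455ce.shift 2 1), rhfe5a22e59d96e86a] (by decide +kernel))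
noncomputable def rh540c51830ff2205d : CRef := CRef.mk (Pat.mk 0x5800000048000000080000001800000000 0x58000000580000007e0000007f00000064 5 7) 0 0 (step_sound _ 34 [(rh932754581e0f4330.shift 2 0), rhcae8a2fac9277962] (by decide +kernel))
noncomputable def rh12dd4d4aafc8095c : CRef := CRef.mk (Pat.mk 0x2000000080000000b0000000900000000 0x10000000120000001a0000001a0000000f0000000900000008 5 5) 0 0 (step_sound _ 97 [(rh5c5e593799055d58.shift 0 1), rh9548c07d1d1f2a1b] (by decide +kernel))
noncomputable def rhfd9ce5d439ef298d : CRef := CRef.mk (Pat.mk 0x2000000080000000b00000009000000000000000000000000 0x170000001f0000003a0000000b000000190000001c0000001c00000014 5 6) 0 0 (step_sound _ 196 [(rh174091987c79fdcd.shift 0 3), (rh51573b6314c3db61.shift 3 1), (rh78cee31f8d2cacac.shift 0 3), (rhc87f7657c377b457.shift 2 0)] (by decide +kernel))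
noncomputable def rh71c398ad724b656b : CRef := CRef.mk (Pat.mk 0xb000000080000000800000000 0x1000000018000000180000000f000000180000001800000010 5 5) 0 0 (step_sound _ 131 [rha3a36ad8dfeefa50, (rhabf575676fe0ef70.shift 0 2), (rhced6d86d2069808b.shift 3 0), (rhddcd04bb31546311.shift 0 1)] (by decide +kernel))
noncomputable def rhab54d7693715f4a7 : CRef := CRef.mk (Pat.mk 0xb0000000800000009000000000000000000000000 0x80000000f000000180000000f0000000c0000000400000004 5 5) 0 0 (step_sound _ 132 [rh9d174b0015e1ad19, (rhc10214bf3fe8094a.shift 0 4)] (by decide +kernel))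
noncomputable def rh14d820639f9764e1 : CRef := CRef.mk (Pat.mk 0xb000000080000000900000000 0x8000000080000000f000000180000001f00000014 5 5) 0 0 (step_sound _ 68 [rh8d3a297c774b7bae, (rhc10214bf3fe8094a.shift 0 2)] (by decide +kernel))
noncomputable def rh27b7d2676e8f485b : CRef := CRef.mk (Pat.mk 0xb000000090000000900000000000000000000000000000000 0xf0000001b0000001f0000001e0000001e0000001e00000014 5 5) 0 0 (step_sound _ 99 [(rh38e5c1466cbaf724.shift 0 1), (rh85c21c815b0eebe9.shift 0 1), (rh8cdd36b03d57a2f6.shift 2 1), rha13b9c0a2f2b60cd, rha301ac20cab67f14] (by decide +kernel))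
noncomputable def rhc8bc5b18e9090b3a : CRef := CRef.mk (Pat.mk 0xb00000008000000080000000000000000 0x10000000180000000f000000080000001c0000001c00000014 5 5) 0 0 (step_sound _ 163 [(rh8cdd36b03d57a2f6.shift 2 0), (rhddcd04bb31546311.shift 0 2)] (by decide +kernel))
noncomputable def rh214983f80040bfe3 : CRef := CRef.mk (Pat.mk 0x80000000800000009000000000000000000000000 0x800000008000000180000001f0000001e0000001400000010 5 5) 0 0 (step_sound _ 68 [(rh475253e964ed1313.shift 3 0), (rh47dece01c1595e79.shift 3 0), (rh49e63ed25cffb9b6.shift 0 1), (rhf7368754ecc653c9.shift 0 2)] (by decide +kernel))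
noncomputable def rhbede8c0349d303e3 : CRef := CRef.mk (Pat.mk 0x1e0000004a00000000000000000000000000000000 0x170000001e0000007a0000000f0000000f0000000700000005 5 7) 0 0 (step_sound _ 97 [(rh2eac2498fadf2c61.shift 0 1), (rh89a7bf8f08a4d3f0.shift 0 2), (rhd5c83ac304b29784.shift 0 1), rhfa40f754f1f7b88f] (by decide +kernel))
noncomputable def rh4464085f947ee3b7 : CRef := CRef.mk (Pat.mk 0x80000000800000008000000010000000000000000 0x140000001c0000001c00000008000000080000000c0000001f0000001c00000010 5 5) 0 0 (step_sound _ 66 [rh667145c8633d3ef4, (rhbf86953346e76381.shift 2 2)] (by decide +kernel))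
noncomputable def rhefd858cfdc5d2964 : CRef := CRef.mk (Pat.mk 0x1e000000000000000000000000 0x4000000070000003e000000030000000200000002 5 6) 0 0 (step_sound _ 65 [rhd1f95657bcbb399e, (rheb0810cc63b001d8.shift 0 2)] (by decide +kernel))
noncomputable def rhcefbdf9a88ffacc9 : CRef := CRef.mk (Pat.mk 0x600000006000000040000000400000000 0x40000000600000006000000070000003e0000000a 5 6) 0 0 (step_sound _ 33 [rh8a20ca1b5ac6e588, (rh932754581e0f4330.shift 1 0)] (by decide +kernel))
noncomputable def rh850e201bd523cd31 : CRef := CRef.mk (Pat.mk 0x1800000018000000100000001000000000 0x100000001800000018000000380000001f0000000c 5 6) 0 0 (step_sound _ 35 [rh4f45ae9129c0c822, (rh932754581e0f4330.shift 3 0)] (by decide +kernel))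
noncomputable def rh8e05ebcc7978e7fa : CRef := CRef.mk (Pat.mk 0xb0000000b000000020000000000000000 0xa0000000b0000000b0000001e0000000600000006 5 5) 0 0 (step_sound _ 33 [rh7b1f1fb55310c477, rhafd7e43aad9bac8b] (by decide +kernel))
noncomputable def rhfed5f9874f32b472 : CRef := CRef.mk (Pat.mk 0xa0000000b000000020000000200000000 0xa0000000a0000000b0000001e0000000700000005 5 5) 0 0 (step_sound _ 0 [rh79877ebd3ef475dd, rhafd7e43aad9bac8b] (by decide +kernel))
noncomputable def rh55a3d2c159efd38c : CRef := CRef.mk (Pat.mk 0xc0000000c000000040000000000000000 0x20000000f0000003c000000040000000c0000000c 5 6) 0 0 (step_sound _ 34 [rh5b42d230652d96f8, (rh71222050f2c63a3a.shift 2 0)] (by decide +kernel))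
noncomputable def rh587754def69877c5 : CRef := CRef.mk (Pat.mk 0x100000001800000038000000000000000000000000 0x100000001f0000003f000000700000002000000020 5 7) 0 0 (step_sound _ 129 [(rhab22b5b56e7b3243.shift 1 3), rhcd18ca68bbf0da6e] (by decide +kernel))
noncomputable def rhacce40025cbed492 : CRef := CRef.mk (Pat.mk 0x1e0000001a0000000000000000 0x400000004000000070000001e0000001e0000000b0000000b 5 5) 0 0 (step_sound _ 129 [(rh3244c3cc8379b070.shift 0 3), rh992b6aa0d62e15e3] (by decide +kernel))
noncomputable def rh161ea59de19ab76f : CRef := CRef.mk (Pat.mk 0x4000000060000000e000000000000000000000000 0x4000000060000000f0000003e0000000e00000006 5 6) 0 0 (step_sound _ 33 [rh589343d0e5aa03f1, (rh9e3edb185cc347de.shift 1 1)] (by decide +kernel))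
noncomputable def rhd4a8ecd7841d7788 : CRef := CRef.mk (Pat.mk 0x1e000000180000000800000000 0x4000000070000001e0000001f0000000f00000002 5 5) 0 0 (step_sound _ 65 [rh1a7f741d6c5a91ec, (rheb0810cc63b001d8.shift 0 2)] (by decide +kernel))
noncomputable def rh2cb17276bcd8a24a : CRef := CRef.mk (Pat.mk 0x1a0000001a000000000000000000000000 0x20000001a0000003f000000070000000400000004 5 6) 0 0 (step_sound _ 98 [rh5002fd5ca5291a69, (rh53b3c253cb0c65f4.shift 0 3)] (by decide +kernel))
noncomputable def rh6445d0e636881b95 : CRef := CRef.mk (Pat.mk 0x20000001a00000008000000000000000000000000 0x10000000100000003000000030000001e0000000f000000030000000100000001 5 5) 0 0 (step_sound _ 97 [(rhda02c4ce0b224328.shift 0 3), rhde5b474548b482d7, (rhe8a9e0e6037b7c6e.shift 0 2)] (by decide +kernel))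
noncomputable def rh2453aa0099afe4ee : CRef := CRef.mk (Pat.mk 0x20000001a00000008000000000000000000000000 0x100000003000000030000003b0000001f000000070000000700000005 5 6) 0 0 (step_sound _ 97 [(rh60a781551e50bc18.shift 0 3), rh9025223dca583e9f, rhba645c87a2f1b337, rhde5b474548b482d7, rhe4e4efb231e692a9] (by decide +kernel))
noncomputable def rh64b325a235d46f0c : CRef := CRef.mk (Pat.mk 0x180000003c000000000000000000000000 0x1f0000003f000000600000002000000020 5 7) 0 0 (step_sound _ 69 [rh6ad50b7aa9c37b6a, (rhe25b0a99195a5d59.shift 2 2)] (by decide +kernel))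
noncomputable def rh83231b3804ecceaa : CRef := CRef.mk (Pat.mk 0xc0000001e000000020000000000000000 0xa0000000f0000001e000000060000000600000006 5 5) 0 0 (step_sound _ 33 [rh4d4dbfb784103e7f, (rh71222050f2c63a3a.shift 1 0)] (by decide +kernel))
noncomputable def rh70c6b6c826784699 : CRef := CRef.mk (Pat.mk 0x160000000e000000000000000000000000 0x10000000160000003f000000380000000800000008 5 6) 0 0 (step_sound _ 100 [rh9483656c38360087, (rhf48373e13d2bc128.shift 1 3)] (by decide +kernel))
noncomputable def rh93a2dd5542dcaa66 : CRef := CRef.mk (Pat.mk 0x5800000018000000000000001800000000 0x5c000000f8000001e7000000fe000001ff 5 9) 0 0 (step_sound _ 37 [rh07fbf0f6557fba82, (rh0b00437bea36af96.shift 2 0), rh1cadd69c0a759449, rh3097e1ab2069af80, rh4f9790ca635104b3, rh63c1829c38829c44, (rhd6531bef82e24fd2.shift 2 0), (rhe773f5a8d58253f2.shift 1 0)] (by decide +kernel))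
noncomputable def rh949a7e17d676d35b : CRef := CRef.mk (Pat.mk 0x60000001e000000000000000000000000 0x30000000300000003000000060000001e000000070000000600000006 5 5) 0 0 (step_sound _ 65 [rh208c73c66d2a62cd, (rheb0810cc63b001d8.shift 0 2)] (by decide +kernel))
noncomputable def rh37c6ba3aff7a6041 : CRef := CRef.mk (Pat.mk 0x1800000018000000080000001800000000 0x180000003c0000001f0000007c00000064 5 7) 0 0 (step_sound _ 34 [rh10a02da165ab67e1, (rh932754581e0f4330.shift 2 0)] (by decide +kernel))
noncomputable def rh71f16056f22f7a01 : CRef := CRef.mk (Pat.mk 0x80000001800000028000000000000000000000000 0x8000000ff000000ff000000070000000400000004 5 8) 0 0 (step_sound _ 100 [(rh23070a1f15e38fa9.shift 0 2), rh2c94cac119825510, (rh79b3c29022acbdf3.shift 2 3)] (by decide +kernel))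
noncomputable def rh84d54765cfa4c621 : CRef := CRef.mk (Pat.mk 0x6000000060000000a0000000000000000 0x6000000070000003f0000003c0000000c 5 6) 0 0 (step_sound _ 66 [rh30a4868b309e476b, (rh79b3c29022acbdf3.shift 0 2)] (by decide +kernel))
noncomputable def rhd2fa225b16cdb3f7 : CRef := CRef.mk (Pat.mk 0x14000000060000000a000000000000000000000000 0x10000000140000003f0000007e000000080000000800000008 5 7) 0 0 (step_sound _ 100 [(rh43cbe8b40a1a7398.shift 0 3), (rh5db08fca7648325c.shift 0 3), (rh83ec37ff6e78b01f.shift 0 3), (rh88f33f0d9b55649e.shift 1 0)] (by decide +kernel))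
noncomputable def rh0194c58051fc8def : CRef := CRef.mk (Pat.mk 0x180000001800000028000000000000000000000000 0x180000007f0000003f000000670000002400000024 5 7) 0 0 (step_sound _ 98 [(rh557b120f072744ca.shift 0 3), (rh69012675dfdb1a5b.shift 0 3), (rh7b587c2c8034e3e1.shift 1 0), rh7d6ffcd81296fb9c, (rhd69c262cd33b94b3.shift 0 3)] (by decide +kernel))
noncomputable def rhd73276c8f8b799ca : CRef := CRef.mk (Pat.mk 0x580000001800000028000000000000000000000000 0x4000000058000000f8000000ff000000f70000003000000020 5 8) 0 0 (step_sound _ 100 [(rh23070a1f15e38fa9.shift 0 2), (rh30a4868b309e476b.shift 2 1), (rh439bf0635d7fe455.shift 2 2), (rh4cbff558d965cd2c.shift 3 0)] (by decide +kernel))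
noncomputable def rh92d6a0d0ebe016be : CRef := CRef.mk (Pat.mk 0x1800000018000000280000000000000000 0x18000000ff000001ef0000002000000020 5 9) 0 0 (step_sound _ 101 [(rh101a15b0de2c271e.shift 2 0), (rh73b2bd5cd3a6f807.shift 0 2), (rha9e1a5d55b907abf.shift 2 2)] (by decide +kernel))
noncomputable def rh2f4dd891ca29b508 : CRef := CRef.mk (Pat.mk 0x480000001800000028000000000000000000000000 0x4000000048000000df000000ff000000e70000000400000004 5 8) 0 0 (step_sound _ 100 [rh2c94cac119825510, (rh439bf0635d7fe455.shift 2 2), (rh79b3c29022acbdf3.shift 2 3)] (by decide +kernel))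
noncomputable def rhf2278debbcfe84a8 : CRef := CRef.mk (Pat.mk 0xc0000000c000000040000000c00000000 0x20000000e0000000c0000000f0000003e00000032 5 6) 0 0 (step_sound _ 33 [rh631daf01e256bd58, (rh932754581e0f4330.shift 1 0)] (by decide +kernel))
noncomputable def rh4be0604a6732ae30 : CRef := CRef.mk (Pat.mk 0x800000008000000000000000c00000000 0x80000000800000008000000380000001f00000014 5 6) 0 0 (step_sound _ 67 [rh54968f8c0e71a67e, (rh932754581e0f4330.shift 2 0)] (by decide +kernel))
noncomputable def rhcecb4141388722bc : CRef := CRef.mk (Pat.mk 0xc0000000c000000000000000c00000000 0x80000000c0000000c000000380000001f00000018 5 6) 0 0 (step_sound _ 67 [rh54968f8c0e71a67e, (rh7b1f1fb55310c477.shift 2 0)] (by decide +kernel))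
noncomputable def rh92f59d3fbfedeb32 : CRef := CRef.mk (Pat.mk 0x1000000038000000000000003000000000 0x40000001e00000038000001cf000000fe000001ff 5 9) 0 0 (step_sound _ 35 [(rh0789fb5060e9c65e.shift 1 0), (rhd64445e5e724fed5.shift 1 0), rhd8970f20df7aae31, rhee2ff9d90efa8c59] (by decide +kernel))
noncomputable def rh17138c9775c4b3bb : CRef := CRef.mk (Pat.mk 0x180000001c000000000000000800000000 0x180000001f000000330000001800000018 5 6) 0 0 (step_sound _ 97 [(rh53b3c253cb0c65f4.shift 0 3), rh7f22250bd2200f62] (by decide +kernel))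
noncomputable def rh8e02147a0e3a306e : CRef := CRef.mk (Pat.mk 0x80000001e000000000000000000000000 0x800000008000000080000001e0000003b0000001000000010 5 6) 0 0 (step_sound _ 64 [(rh65dcfd18fd55cba0.shift 1 0), (rh80fcd6d0a18cb2dd.shift 0 2)] (by decide +kernel))
noncomputable def rhcd1b121f5a8f5b16 : CRef := CRef.mk (Pat.mk 0x80000003800000008000000000000000000000000 0x140000001f00000038000000080000001c0000001c00000014 5 6) 0 0 (step_sound _ 67 [(rh6789f6f2074baf8a.shift 0 1), (rh8cdd36b03d57a2f6.shift 2 0), (rha707fb719e87fe6e.shift 3 1)] (by decide +kernel))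
noncomputable def rhd0d01d2b9e5cc624 : CRef := CRef.mk (Pat.mk 0x200000002000000020000000600000000 0x4000000070000000700000002000000060000000700000001 5 3) 0 0 (step_sound _ 0 [rh79877ebd3ef475dd, (rhdbc400e79194dff9.shift 0 1)] (by decide +kernel))
noncomputable def rh24c9ad7c5863ef66 : CRef := CRef.mk (Pat.mk 0x16000000100000000000000000 0x10000000300000001f000000380000000800000008 5 6) 0 0 (step_sound _ 99 [rhba50fd7aca570c30, (rhe25b0a99195a5d59.shift 1 2)] (by decide +kernel))
noncomputable def rh685f0a4a3f72dbad : CRef := CRef.mk (Pat.mk 0xb000000080000000a000000000000000000000000 0x80000000f000000180000000f0000000c0000000400000004 5 5) 0 0 (step_sound _ 132 [rh3851deeccfe01e45, (rhc10214bf3fe8094a.shift 0 4)] (by decide +kernel))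
noncomputable def rhd872a5f23f7fe890 : CRef := CRef.mk (Pat.mk 0x100000001000000014000000000000000000000000 0x1000000010000000f00000003f000000780000000800000008 5 8) 0 0 (step_sound _ 99 [(rh281c6819542c66e6.shift 3 0), (rh523f9e75314c8231.shift 1 2), (rh5b34634c0415f4c9.shift 1 2), (rh6cf4c37417009e6c.shift 0 1)] (by decide +kernel))
noncomputable def rh579a00e893aa4b82 : CRef := CRef.mk (Pat.mk 0x24000000240000002c000000200000000000000000 0x240000002c0000003f000000380000001800000008 5 6) 0 0 (step_sound _ 68 [rh3df8ed82c9c6fdfc, (rh932754581e0f4330.shift 4 1)] (by decide +kernel))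
noncomputable def rh503f15990ff61102 : CRef := CRef.mk (Pat.mk 0x900000008000000080000000800000000 0x100000001c0000001f00000008000000080000000c00000004 5 5) 0 0 (step_sound _ 2 [(rh23891cd3704c2248.shift 0 1), (rh79877ebd3ef475dd.shift 2 0)] (by decide +kernel))
noncomputable def rhe4c75d1475f5bdf6 : CRef := CRef.mk (Pat.mk 0x1000000090000000b00000008000000040000000000000000 0x10000000b0000000b0000000a0000001f0000001e00000010 5 5) 0 0 (step_sound _ 67 [(rh932754581e0f4330.shift 2 1), rhee5195e1d3b9776d] (by decide +kernel))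
noncomputable def rhe66e3ffc83ba6b92 : CRef := CRef.mk (Pat.mk 0x100000009000000080000000800000004 0x140000001f0000001b000000080000000c00000004 5 5) 0 0 (step_sound _ 131 [(rh607b2fb0b48170ae.shift 0 1), (rh79877ebd3ef475dd.shift 2 0)] (by decide +kernel))
noncomputable def rh54cac8ead568c377 : CRef := CRef.mk (Pat.mk 0x1000000010000000b00000008000000080000000800000000 0x1000000030000000b0000000a0000001f0000007a00000010 5 7) 0 0 (step_sound _ 36 [(rh55afc6a59410cf00.shift 3 0), (rh5db3055cb1477846.shift 0 1)] (by decide +kernel))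
noncomputable def rhe4be5f1af82d453f : CRef := CRef.mk (Pat.mk 0x2000000020000001600000010000000100000001000000000 0x20000001600000016000000340000001f0000001c00000008 5 6) 0 0 (step_sound _ 35 [(rh808be1e307eb79cb.shift 0 1), (rh932754581e0f4330.shift 3 0)] (by decide +kernel))
noncomputable def rh3078dcb1ae78659a : CRef := CRef.mk (Pat.mk 0x10000000b00000008000000080000000400000000 0x90000000b0000000a0000003f0000007f00000010 5 7) 0 0 (step_sound _ 36 [rh1304afa51da96399, (rh2f6cd3183cec8379.shift 2 1), (rhe322c2de940e0a96.shift 1 0)] (by decide +kernel))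
noncomputable def rhfc12baaa10e8a2be : CRef := CRef.mk (Pat.mk 0x1000000010000000b00000008000000080000000800000000 0x10000000b0000000b0000000a0000000f0000003e00000004 5 6) 0 0 (step_sound _ 34 [(rh932754581e0f4330.shift 2 0), (rhb0745e8fa5190a71.shift 0 1)] (by decide +kernel))
noncomputable def rhfcb054872419dc65 : CRef := CRef.mk (Pat.mk 0x1000000010000000b0000000800000008000000080000000000000000 0x90000000b0000000b0000001e0000000e0000001e0000001800000018 5 5) 0 0 (step_sound _ 36 [rh24179d2c84f9dca0, (rhd3458b32566d63f7.shift 3 1)] (by decide +kernel))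
noncomputable def rhdbf7c67174e7e538 : CRef := CRef.mk (Pat.mk 0x1000000010000000b000000080000000800000008000000000000000000000000 0x1000000030000000b0000001e0000000e0000001a0000001c0000001c00000004 5 5) 0 0 (step_sound _ 161 [(rh08edf065357d68e5.shift 0 3), rhd926ca940cd31527] (by decide +kernel))
noncomputable def rh5b65229484f94404 : CRef := CRef.mk (Pat.mk 0x1000000090000000b000000080000000800000000 0x10000000190000001b0000000b0000001a0000001f00000006 5 5) 0 0 (step_sound _ 164 [rha2bafc7b816d841b, (rhbaefcd01e0a8bca3.shift 3 1)] (by decide +kernel))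
noncomputable def rhf3383b322ac20d5a : CRef := CRef.mk (Pat.mk 0x1000000090000000b000000080000000800000000 0x10000000b0000000b0000003e0000001f00000006 5 6) 0 0 (step_sound _ 34 [(rh932754581e0f4330.shift 2 0), rha9ee0978a1ca3201] (by decide +kernel))
noncomputable def rh75520277f0252f5f : CRef := CRef.mk (Pat.mk 0x1000000090000000b000000080000000800000000 0x10000000190000001b0000000b0000001e0000001a00000002 5 5) 0 0 (step_sound _ 164 [(rhbaefcd01e0a8bca3.shift 3 1), rhe1ddf13712368261] (by decide +kernel))
noncomputable def rhfd93a82337eaafc8 : CRef := CRef.mk (Pat.mk 0x10000000800000008000000080000000800000000 0x40000001f00000018000000080000000c0000000c00000004 5 5) 0 0 (step_sound _ 34 [(rh932754581e0f4330.shift 2 0), (rha5b8a25f920fca0e.shift 0 1)] (by decide +kernel))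
noncomputable def rh3bcd2f17d79dc1fe : CRef := CRef.mk (Pat.mk 0xb0000000a00000008000000000000000000000000 0x80000000b0000001e0000007c000000180000001000000010 5 7) 0 0 (step_sound _ 130 [(rh3f069944e50c0cbf.shift 1 0), (rhf48373e13d2bc128.shift 0 4)] (by decide +kernel))
noncomputable def rh25f77205fe61837a : CRef := CRef.mk (Pat.mk 0x1000000010000000b000000080000000800000008000000000000000000000000 0x90000000b0000000b0000001e0000001a0000001a000000180000001800000010 5 5) 0 0 (step_sound _ 164 [(rh30559b490f5d9b7a.shift 0 3), (rh7c836f2e0ccdad14.shift 3 0)] (by decide +kernel))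
noncomputable def rh40f5d94dcc483e45 : CRef := CRef.mk (Pat.mk 0x1000000010000000b0000000800000008000000080000000000000000 0x90000000b0000000b0000001e0000001a0000001e0000000c0000000c 5 5) 0 0 (step_sound _ 34 [rh3ae891c991e0756d, (rh79877ebd3ef475dd.shift 2 1)] (by decide +kernel))
noncomputable def rha86c014d0f248484 : CRef := CRef.mk (Pat.mk 0x1000000010000000b000000080000000800000008000000000000000000000000 0x1000000030000000b0000001e0000001a0000000e0000001c0000001c00000010 5 5) 0 0 (step_sound _ 161 [(rh08edf065357d68e5.shift 0 3), rhfa7a3865ca0aff2f] (by decide +kernel))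
noncomputable def rhfff035b10f7889d6 : CRef := CRef.mk (Pat.mk 0x10000000800000008000000080000000800000000 0x40000001f0000001800000008000000180000001800000010 5 5) 0 0 (step_sound _ 36 [(rh217391f8b8e9b1b1.shift 0 1), (rh55afc6a59410cf00.shift 3 0)] (by decide +kernel))
noncomputable def rh85ad93d1f902b0de : CRef := CRef.mk (Pat.mk 0x1000000090000000b000000080000000800000000 0x90000000b0000000b0000001e0000001a00000012 5 5) 0 0 (step_sound _ 36 [(rh55afc6a59410cf00.shift 3 0), rhcbb1d16a4a87cf8a] (by decide +kernel))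
noncomputable def rh6be0a3daf9aa0c59 : CRef := CRef.mk (Pat.mk 0x1000000010000000b000000080000000800000008000000000000000000000000 0x1000000030000000b0000001e0000000e0000000e0000001c0000001c00000010 5 5) 0 0 (step_sound _ 161 [(rh08edf065357d68e5.shift 0 3), rh7befe82df5285beb] (by decide +kernel))
noncomputable def rh9bcfdb3c2e34957d : CRef := CRef.mk (Pat.mk 0xb00000008000000080000000800000000000000000000000000000000 0xb0000001e0000001c0000001c0000000c0000001c0000001c00000014 5 5) 0 0 (step_sound _ 99 [(rh7928877f9bf74a91.shift 2 2), rh93304cda6bfb2d93, rhfe26a6cd9ed02b5b] (by decide +kernel))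
noncomputable def rh438032f53814e5e0 : CRef := CRef.mk (Pat.mk 0x1000000090000000b000000080000000800000000 0x90000000b0000000b0000001e0000000e00000006 5 5) 0 0 (step_sound _ 34 [rh2bccbf0fa098d91a, (rh932754581e0f4330.shift 2 0)] (by decide +kernel))
noncomputable def rh8d14e2ae3be6c2bd : CRef := CRef.mk (Pat.mk 0xa0000001a000000000000000000000000 0x8000000080000001b0000001e000000300000001000000010 5 6) 0 0 (step_sound _ 98 [(rh0af46ddd73526378.shift 1 0), (rh3244c3cc8379b070.shift 0 3)] (by decide +kernel))
noncomputable def rh24e5068e31ff08b5 : CRef := CRef.mk (Pat.mk 0xf0000000c000000000000000000000000 0xc0000000c0000001c0000000f0000000c000000180000001800000018 5 5) 0 0 (step_sound _ 163 [(rh33e738c4ed385b9f.shift 0 4), (rhe63ff2e3b86cb17e.shift 2 0)] (by decide +kernel))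
noncomputable def rhd40dcb56c55f03d0 : CRef := CRef.mk (Pat.mk 0x8000000000000000a0000001800000000 0x100000001800000018000000080000001f0000001800000010 5 5) 0 0 (step_sound _ 64 [(rh04444455d6a3ea76.shift 3 0), (rhc10214bf3fe8094a.shift 0 1)] (by decide +kernel))
noncomputable def rh7fee6b6a9101034e : CRef := CRef.mk (Pat.mk 0x8000000000000000a0000001800000000 0x40000000c0000000c000000080000001f0000001800000010 5 5) 0 0 (step_sound _ 64 [(rha68cb1e01b1f0d4d.shift 2 0), (rhc10214bf3fe8094a.shift 0 1)] (by decide +kernel))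
noncomputable def rh411c4efb1591d0f3 : CRef := CRef.mk (Pat.mk 0x20000000200000002c000000200000000000000000 0x58000000f80000007c0000002f0000002c0000000400000004 5 8) 0 0 (step_sound _ 131 [(rhbedbebafb838237e.shift 2 2), (rhe33d9496e10d8eb0.shift 0 3), (rhedc4acb9011023a1.shift 2 0)] (by decide +kernel))
noncomputable def rhfc47edda64480bc1 : CRef := CRef.mk (Pat.mk 0x200000000000000020000000600000000 0x4000000070000000700000002000000060000000600000004 5 3) 0 0 (step_sound _ 97 [(rh55afc6a59410cf00.shift 1 0), (rhdbc400e79194dff9.shift 0 1)] (by decide +kernel))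
noncomputable def rh8cd4fc32f07f3297 : CRef := CRef.mk (Pat.mk 0x30000000000000003800000020 0x1000000010000000ff000000fe000001df0000003800000028 5 9) 0 0 (step_sound _ 99 [rh0e6049b7d58d80d7, (rh2a7290f520cbd832.shift 3 0), (rh42a67b4064628394.shift 0 2), (rh9e01b63668d56f8a.shift 1 2)] (by decide +kernel))
noncomputable def rhb3f8dba7964b5551 : CRef := CRef.mk (Pat.mk 0x1c000000000000000a00000018 0x180000003e000000f00000001f00000018 5 8) 0 0 (step_sound _ 34 [(rh7f2d4fb1201451cc.shift 1 0), rhb739f4f82bb681b4] (by decide +kernel))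
noncomputable def rh3a2323034bc2f1d5 : CRef := CRef.mk (Pat.mk 0x38000000000000001400000030 0x1f00000078000000080000001e00000030 5 7) 0 0 (step_sound _ 35 [rha7e001a1a361e023, (rhb739f4f82bb681b4.shift 1 0)] (by decide +kernel))
noncomputable def rhb4636f5a42ca1c70 : CRef := CRef.mk (Pat.mk 0x38000000000000001400000030 0x770000003e000000600000003e00000030 5 7) 0 0 (step_sound _ 69 [(rh2488556ec5e0b74d.shift 1 0), (rh3a0beb41d09f0827.shift 1 0), (rhda9c0827c24abf7d.shift 4 0), (rhe53d37d182896806.shift 0 2)] (by decide +kernel))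
noncomputable def rh399759fca26c53b2 : CRef := CRef.mk (Pat.mk 0x1c000000000000000000000040 0x7f0000007e000000e00000004000000040 5 8) 0 0 (step_sound _ 101 [(rh282dcf2abcd74723.shift 2 0), (rh3947d1dfff0afc6c.shift 1 2), (rh61325f73ebf98108.shift 0 3)] (by decide +kernel))
noncomputable def rh9345c5be6e556df3 : CRef := CRef.mk (Pat.mk 0x30000000000000002c000000600000000000000000 0x1ff000000fe000001cf0000006c0000006c0000000400000004 5 9) 0 0 (step_sound _ 163 [(rh4d5cd5f8129947c3.shift 2 2), rh9d046a20edcb2617, (rhc09e2a1c8d9a31fb.shift 2 2), (rhc3d03b61e91ba236.shift 0 2)] (by decide +kernel))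
noncomputable def rh9da2a786c218fa98 : CRef := CRef.mk (Pat.mk 0xc000000000000000e000000180000000000000000 0x1c0000001c000000360000001e0000001b0000000200000002 5 6) 0 0 (step_sound _ 130 [(rh2145e1d24b96a57e.shift 2 2), rhf5982d504aa8acb7] (by decide +kernel))
noncomputable def rh3a9c84b23f04b4f0 : CRef := CRef.mk (Pat.mk 0x30000000000000003800000020 0x1000000010000000180000003c0000001f0000007800000028 5 7) 0 0 (step_sound _ 67 [rh4765374b72d4e9b7, (rh589afc2769e205dd.shift 0 1), (rh6170761c038352c1.shift 3 0)] (by decide +kernel))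
noncomputable def rh2870786bbecb2858 : CRef := CRef.mk (Pat.mk 0x18000000000000001c00000030 0x1f7000000fe000001ef0000003c00000030 5 9) 0 0 (step_sound _ 101 [rh5102f8a121f54c5c, (rh5159673be6d944c3.shift 0 2), (rh5def6e493bd88cad.shift 1 0), (rh7f2d4fb1201451cc.shift 2 0), (rh7fb14ebfe418da3c.shift 0 2), (rh836b4df7f8d2289a.shift 1 0), rhdd710599d85d7ce4] (by decide +kernel))
noncomputable def rha66e331763703726 : CRef := CRef.mk (Pat.mk 0x38000000000000000400000000 0x80000007f0000003e000000070000000400000004 5 7) 0 0 (step_sound _ 98 [(rh61325f73ebf98108.shift 0 3), (rh75b63e46072e6b6d.shift 1 0), (rh7654d7b92c96fe12.shift 0 2), (rh775ca1963e850b80.shift 0 2)] (by decide +kernel))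
end Crest.Agent.S0047.Helper85.Cert
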