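import Crest.Agent.Lib.S0047.Helper85CertPL4F0
import Crest.Agent.Lib.S0047.Helper85CertPL4F1
import Crest.Agent.Lib.S0047.Helper85CertPL4F2
import Crest.Agent.Lib.S0047.Helper85CertPL4F3
import Crest.Agent.Lib.S0047.Helper85CertPL4F4
import Crest.Agent.Lib.S0047.Helper85CertPL4F5
import Crest.Agent.Lib.S0047.Helper85CertPL4F6
import Crest.Agent.Lib.S0047.Helper85CertPL4F7
import Crest.Agent.Lib.S0047.Helper85CertPL4F8
import Crest.Agent.Lib.S0047.Helper85CertPL4F9
set_option autoImplicit false
set_option linter.all false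
set_option Elab.async false
namespace Crest.Agent.S0047.Helper85.Cert
open Crest.Agent.S0047.Helper85

noncomputable def rh12524785b30b1657 : CRef := CRef.mk (Pat.mk 0x1c000000000000000000000040 0x700000007e000000f70000004000000040 5 8) 0 0 (step_sound _ 101 [(rh008b05f4778dc30d.shift 0 2), (rh282dcf2abcd74723.shift 2 0), (rh7654d7b92c96fe12.shift 0 2)] (by decide +kernel))
noncomputable def rh13ac0e7c7f31df36 : CRef := CRef.mk (Pat.mk 0x38000000000000001000000010 0x670000003e000000670000003000000010 5 7) 0 0 (step_sound _ 98 [(rh775ca1963e850b80.shift 0 2), (rh9c9de8a82d5e4ca8.shift 2 0)] (by decide +kernel))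
noncomputable def rha014aa500fe50780 : CRef := CRef.mk (Pat.mk 0xe000000000000000400000004 0x770000003e000000730000000600000004 5 7) 0 0 (step_sound _ 100 [(rh3947d1dfff0afc6c.shift 0 2), rh483fbfd538e8380f, (rhcae8a8f2988c5d75.shift 0 2)] (by decide +kernel))
noncomputable def rh424ce6916ae9e2a4 : CRef := CRef.mk (Pat.mk 0x38000000000000001000000030 0x370000003e000000670000003000000030 5 7) 0 0 (step_sound _ 98 [(rh4dfe14e1416680c8.shift 2 0), (rh775ca1963e850b80.shift 0 2), (rhcfe1f9bacb7353a6.shift 1 0)] (by decide +kernel))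
noncomputable def rha530269137d2ade8 : CRef := CRef.mk (Pat.mk 0x380000000000000008000000000000000000000000 0x100000007c0000001f000000080000000c0000000c00000004 5 7) 0 0 (step_sound _ 131 [(rh15590a39afd9a120.shift 2 0), (rhc8f0662c663e4f49.shift 0 2), (rhf0f55c4504412200.shift 0 4), (rhf7c73d30bab1d669.shift 0 2)] (by decide +kernel))
noncomputable def rhe5a184dd5d8db946 : CRef := CRef.mk (Pat.mk 0xe000000000000000a0000001800000000 0x1c0000003e000000370000001a0000001a00000002 5 6) 0 0 (step_sound _ 132 [rh294f5f83edc0bdd3, (rh4dfe14e1416680c8.shift 1 1), (rhcfe1f9bacb7353a6.shift 0 1)] (by decide +kernel))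
noncomputable def rh423a8879f6f528ba : CRef := CRef.mk (Pat.mk 0xe000000000000000a00000018 0x40000001f0000001e000000330000001a0000001a 5 6) 0 0 (step_sound _ 100 [(rh4dfe14e1416680c8.shift 1 0), rh75b63e46072e6b6d, rhcfe1f9bacb7353a6] (by decide +kernel))
noncomputable def rh0fd20643e3ec60d9 : CRef := CRef.mk (Pat.mk 0x1c000000000000001000000030 0x7f0000007e000000e00000003000000030 5 8) 0 0 (step_sound _ 101 [(rh3947d1dfff0afc6c.shift 1 2), (rh4dfe14e1416680c8.shift 2 0), (rh61325f73ebf98108.shift 0 3)] (by decide +kernel))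
noncomputable def rh4cd8f4c78eeb160a : CRef := CRef.mk (Pat.mk 0x38000000000000000800000000 0x770000003e0000000f0000000c00000008 5 7) 0 0 (step_sound _ 98 [(rh61325f73ebf98108.shift 0 3), (rh7654d7b92c96fe12.shift 0 2), (rh775ca1963e850b80.shift 0 2), (rh7fcca4453be139e0.shift 1 0)] (by decide +kernel))
noncomputable def rh727ea29793012239 : CRef := CRef.mk (Pat.mk 0x1c000000000000001000000030 0x370000003e000000670000003000000030 5 7) 0 0 (step_sound _ 101 [(rh4dfe14e1416680c8.shift 2 0), (rh775ca1963e850b80.shift 0 2), (rhcfe1f9bacb7353a6.shift 1 0)] (by decide +kernel))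
noncomputable def rhadff88a3dc6e8566 : CRef := CRef.mk (Pat.mk 0xc000000000000000e00000018 0x1c0000001e000000370000001e0000001b 5 6) 0 0 (step_sound _ 130 [rh2b71281928d807e6, (rhff0f29cb645b05f7.shift 2 0)] (by decide +kernel))
noncomputable def rhc3398408e0481e70 : CRef := CRef.mk (Pat.mk 0x800000002000000080000001800000000 0x140000001e0000000f000000080000001800000010 5 5) 0 0 (step_sound _ 99 [(rh55afc6a59410cf00.shift 3 0), (rh7e90affc6ee08a22.shift 0 1)] (by decide +kernel))
noncomputable def rhd1bd6ca92b8c9f64 : CRef := CRef.mk (Pat.mk 0x200000000800000038000000200000000000000000 0x140000001c0000003c0000007c0000001f00000038000000300000001000000010 5 7) 0 0 (step_sound _ 163 [(rh046c5eb18e55a239.shift 3 0), (rh662fbc5c774bd894.shift 0 1), (rhc0f6fe06378683f4.shift 2 2), (rhdce38a407e35177f.shift 2 2)] (by decide +kernel))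
noncomputable def rh709c50146feb745a : CRef := CRef.mk (Pat.mk 0xa0000000e0000000800000000 0x1000000012000000330000007e0000001e0000000c00000004 5 7) 0 0 (step_sound _ 100 [(rh572132728df34c43.shift 1 2), (rh80f90a60d87caa0d.shift 1 2), (rhafdf94f2acdc0ed4.shift 1 2), rhc38a75233fd47e49] (by decide +kernel))
noncomputable def rh9b68a071bbd4e433 : CRef := CRef.mk (Pat.mk 0xc000000080000000800000000 0x40000001c0000001c0000003c0000000f0000000c0000000c00000004 5 6) 0 0 (step_sound _ 131 [(rh19762886095df8b6.shift 2 1), (rh20966da26a1c2ae8.shift 2 0), (rh20ee5c2c4c3a9878.shift 0 1), (rh565a0c22519f57e9.shift 2 0)] (by decide +kernel))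
noncomputable def rhcdfce487f0c0b445 : CRef := CRef.mk (Pat.mk 0x300000002000000020000000000000000 0x10000000700000007000000060000000300000003000000070000000700000005 5 3) 0 0 (step_sound _ 161 [(rh19762886095df8b6.shift 0 2), rh8cdd36b03d57a2f6] (by decide +kernel))
noncomputable def rh555e2cce0553c0ff : CRef := CRef.mk (Pat.mk 0x2800000008000000080000000000000000 0x140000001c0000001f000000780000000c0000000c0000000c00000004 5 7) 0 0 (step_sound _ 163 [(rh2f7ea2d2c6b43cfc.shift 2 1), (rh367118e0bf0473e0.shift 2 0), (rh565a0c22519f57e9.shift 2 1), (rhd5d193521cc593a5.shift 0 2)] (by decide +kernel))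
noncomputable def rh62a5264c40f98dc4 : CRef := CRef.mk (Pat.mk 0x20000000200000002000000000000000000000000 0x100000003000000030000000300000003000000070000000700000005 5 3) 0 0 (step_sound _ 65 [rh46baee19951a66e7, (rh565a0c22519f57e9.shift 0 1), rh8cdd36b03d57a2f6] (by decide +kernel))
noncomputable def rhdf09ea05f3c28a98 : CRef := CRef.mk (Pat.mk 0x28000000080000000800000000 0x100000001c0000001f0000007c0000000c0000000c00000004 5 7) 0 0 (step_sound _ 131 [(rh20966da26a1c2ae8.shift 2 0), (rh7430a052bcb4bacd.shift 0 1)] (by decide +kernel))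
noncomputable def rh6f909042bbcc6aa2 : CRef := CRef.mk (Pat.mk 0xa0000000a00000002000000000000000000000000 0x50000000f0000001a00000002000000070000000700000005 5 5) 0 0 (step_sound _ 65 [rh8cdd36b03d57a2f6, (rhe3ca3d7b4fee55d8.shift 0 2)] (by decide +kernel))
noncomputable def rhf1a6d15e9f61098a : CRef := CRef.mk (Pat.mk 0x50000000d00000009000000000000000000000000 0x1000000050000000f0000001b0000001f0000000a00000002 5 5) 0 0 (step_sound _ 67 [(rh7b1f1fb55310c477.shift 2 1), rhe237c81e29a50bee] (by decide +kernel))
noncomputable def rh9cdfc3b899cc501f : CRef := CRef.mk (Pat.mk 0x140000003c000000200000000000000000 0x40000000c0000001c0000003e0000002f0000002c0000002c 5 6) 0 0 (step_sound _ 162 [(rh727e844f3a16c7de.shift 2 0), rhdafe66deb977d175, (rhed21e45804eeb376.shift 1 0)] (by decide +kernel))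
noncomputable def rh17c7c2eb5b27d0b6 : CRef := CRef.mk (Pat.mk 0x400000007000000000 0xe70000007e00000007 5 8) 0 0 (step_sound _ 35 [rh30473dc56de15b6b, (rh33e738c4ed385b9f.shift 3 1)] (by decide +kernel))
noncomputable def rh31b99b2da73d5d96 : CRef := CRef.mk (Pat.mk 0xa0000001e000000020000000000000000 0x3000000070000001e0000001e000000360000000600000002 5 6) 0 0 (step_sound _ 68 [rhabc9f29a1080dfa0, (rhe25b0a99195a5d59.shift 1 2)] (by decide +kernel))
noncomputable def rh00b1ceac624c7325 : CRef := CRef.mk (Pat.mk 0xa0000001e000000100000000000000000 0x80000000e0000000e0000001e000000170000000600000006 5 5) 0 0 (step_sound _ 65 [(rh3a931f413557dd3e.shift 1 0), (rheb0810cc63b001d8.shift 0 2)] (by decide +kernel))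
noncomputable def rh267f714fcd1ba847 : CRef := CRef.mk (Pat.mk 0xa0000001e000000000000000000000000 0x3000000070000001e0000001e000000070000000600000002 5 5) 0 0 (step_sound _ 65 [rhabc9f29a1080dfa0, (rheb0810cc63b001d8.shift 0 2)] (by decide +kernel))
noncomputable def rh76ec5b3fd9f357de : CRef := CRef.mk (Pat.mk 0xa0000001e00000002000000000000000000000000 0x80000000c0000000e0000001e00000036000000070000000700000005 5 6) 0 0 (step_sound _ 65 [rh8cdd36b03d57a2f6, (rha707fb719e87fe6e.shift 1 1), (rhc887fee19ea332ac.shift 1 1)] (by decide +kernel))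
noncomputable def rh8570a33ad083cab6 : CRef := CRef.mk (Pat.mk 0x1400000004000000040000000000000000 0x20000000e0000000f0000001c0000000c0000000c0000000c00000008 5 5) 0 0 (step_sound _ 162 [(rh43d708b5987f5c5a.shift 0 1), (rh8065c10b3cae6218.shift 1 1), (rhc9de03f9731897d4.shift 2 0)] (by decide +kernel))
noncomputable def rh4302daa16ca6f7fa : CRef := CRef.mk (Pat.mk 0xa0000000e00000002000000000000000000000000 0xe0000000e0000000e0000000e00000006000000070000000700000003 5 4) 0 0 (step_sound _ 98 [rh2d8abb7cdac0a219, (rh3ebc98c19791ad58.shift 1 1), (rhf9366b6a121593ef.shift 2 1)] (by decide +kernel))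
noncomputable def rh3ee89685af341f9e : CRef := CRef.mk (Pat.mk 0xa0000000e000000020000000000000000 0xb0000000f0000001e0000000e000000060000000600000006 5 5) 0 0 (step_sound _ 66 [rh3b328ebfc5b9f1de, (rh3ebc98c19791ad58.shift 1 0), (rhf9366b6a121593ef.shift 2 0)] (by decide +kernel))
noncomputable def rh44d5e83f543a0c94 : CRef := CRef.mk (Pat.mk 0x20000000e0000001a000000000000000000000000 0x400000007000000070000000f0000003e0000001e0000001b000000120000001200000010 5 6) 0 0 (step_sound _ 193 [(rh1db71118bee297d0.shift 0 3), (rh4d4087477a9b70ee.shift 0 1), rha81d3ff40d2376f1, (rhe53958ffbb9ed408.shift 1 1), (rhe615d7cdadf5ff3f.shift 0 3)] (by decide +kernel))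
noncomputable def rh6b2056358919a283 : CRef := CRef.mk (Pat.mk 0x40000001c000000340000000000000000 0x200000007f0000007f0000001c000000340000002400000004 5 7) 0 0 (step_sound _ 131 [(rh0a9ce388a01e6043.shift 0 1), rhda49d08e88765cc3, (rhea7a1800d6f053bd.shift 2 0)] (by decide +kernel))
noncomputable def rh3525a029a4aa95b6 : CRef := CRef.mk (Pat.mk 0x2000000020000000a0000001a00000000 0x1c0000001e0000001b0000001e0000001b00000011 5 5) 0 0 (step_sound _ 68 [rh0826da00a5e6925c, rh5710f30ba40ee3ec] (by decide +kernel))
noncomputable def rh55a026e6f690bbaf : CRef := CRef.mk (Pat.mk 0x200000002000000020000000200000000 0x4000000060000000600000002000000030000000700000005 5 3) 0 0 (step_sound _ 2 [rh20966da26a1c2ae8, (rhd3458b32566d63f7.shift 1 0)] (by decide +kernel))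
noncomputable def rha65ae0be40b35f74 : CRef := CRef.mk (Pat.mk 0x800000028000000080000000800000000 0x40000001f00000078000000080000000c00000004 5 7) 0 0 (step_sound _ 2 [(rh79877ebd3ef475dd.shift 2 0), (rhd5d193521cc593a5.shift 0 1)] (by decide +kernel))
noncomputable def rhd43bc1c0d9c1d29b : CRef := CRef.mk (Pat.mk 0x20000000a00000002000000020000000000000000 0x70000001e00000003000000060000000600000004 5 5) 0 0 (step_sound _ 34 [rh96f504339671f375, (rhd3458b32566d63f7.shift 1 1)] (by decide +kernel))
noncomputable def rh2a2ea9f7b3504ddc : CRef := CRef.mk (Pat.mk 0x800000008000000280000006800000000 0x30000000780000003f000000780000006c00000044 5 7) 0 0 (step_sound _ 132 [(rh2f68792b6b779e96.shift 3 1), rh9cfb411dd8334f80] (by decide +kernel))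
noncomputable def rh3430679422da95f1 : CRef := CRef.mk (Pat.mk 0x8000000080000002800000068000000000000000000000000 0x40000002f0000007c0000006800000068000000400000004000000040 5 7) 0 0 (step_sound _ 194 [(rh50fbb5868c909700.shift 2 3), rhd93b72d5352bf3d4] (by decide +kernel))
noncomputable def rhe0b31598095804a5 : CRef := CRef.mk (Pat.mk 0x80000001e000000000000000000000000 0x800000008000000180000001e000000330000001000000010 5 6) 0 0 (step_sound _ 64 [(rh0af46ddd73526378.shift 1 0), (rh80fcd6d0a18cb2dd.shift 0 2)] (by decide +kernel))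
noncomputable def rh78aae0a423eb3410 : CRef := CRef.mk (Pat.mk 0x8000000180000001800000018 0x140000001f0000001f000000780000001e 5 7) 0 0 (step_sound _ 100 [(rh5c5e593799055d58.shift 3 0), rhe3465b3d36b3aa2f] (by decide +kernel))
noncomputable def rh3f557c91aa6d495c : CRef := CRef.mk (Pat.mk 0x20000000600000006000000040000000000000000 0x50000000700000007000000070000003e0000000a00000002 5 6) 0 0 (step_sound _ 65 [rhdf997f77704b6375, (rhea7a1800d6f053bd.shift 1 0), (rhfa2e681ef328425e.shift 0 1)] (by decide +kernel))
noncomputable def rhac43f9d0116938b1 : CRef := CRef.mk (Pat.mk 0x400000006000000060000000600000000 0x4000000070000003e0000003f00000008 5 6) 0 0 (step_sound _ 35 [(rh2da36fefa6f60f2b.shift 0 1), (rh55afc6a59410cf00.shift 2 0)] (by decide +kernel))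
noncomputable def rhb03095447baca671 : CRef := CRef.mk (Pat.mk 0xc0000000c000000080000000c00000000 0x20000000f0000003c0000000e0000007c00000010 5 7) 0 0 (step_sound _ 36 [(rh55afc6a59410cf00.shift 3 0), (rhea49dfc76365a620.shift 0 1)] (by decide +kernel))
noncomputable def rh6e18dbbfa959deb2 : CRef := CRef.mk (Pat.mk 0xc0000001c00000000 0xc0000007e00000077 5 7) 0 0 (step_sound _ 37 [rh008b05f4778dc30d, (rhf48373e13d2bc128.shift 2 1)] (by decide +kernel))
noncomputable def rhc307d54b589df09b : CRef := CRef.mk (Pat.mk 0xc0000001c000000080000000000000000 0x20000000f0000001e0000007f0000003400000014 5 7) 0 0 (step_sound _ 68 [rh224e94a65592e6b0, (rh6292bd8784ece55f.shift 1 2)] (by decide +kernel))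
noncomputable def rha95b171f77e3178a : CRef := CRef.mk (Pat.mk 0xa0000000300000006000000000000000000000000 0xa0000000a0000000b0000001e0000000c0000000400000004 5 5) 0 0 (step_sound _ 66 [(rh2145e1d24b96a57e.shift 1 2), rh9768c1ba0652f8cc] (by decide +kernel))
noncomputable def rh705aa4457925a0e4 : CRef := CRef.mk (Pat.mk 0x1800000000000000180000001800000000 0xc0000003c0000000f000000180000001800000008 5 6) 0 0 (step_sound _ 99 [(rh2145e1d24b96a57e.shift 3 1), rh9aab2e37f490e5ca] (by decide +kernel))
noncomputable def rh6c65a162245a0214 : CRef := CRef.mk (Pat.mk 0x3000000000000000380000001000000000 0xff0000007e0000000f000000380000001e00000004 5 8) 0 0 (step_sound _ 131 [(rh099d444677688b93.shift 0 1), (rh593c461c37a56aa7.shift 0 1), (rh94eecf20a5b238dd.shift 1 0), (rh9def86bbd50a3389.shift 0 3)] (by decide +kernel))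
noncomputable def rh9282155052eec39d : CRef := CRef.mk (Pat.mk 0x800000018000000080000000800000000 0x8000000080000003c0000001f0000000c00000004 5 6) 0 0 (step_sound _ 34 [(rh932754581e0f4330.shift 2 0), (rhb523094c70e912c8.shift 0 1)] (by decide +kernel))
noncomputable def rh41f2c6fd1ed0512a : CRef := CRef.mk (Pat.mk 0x18000000180000000800000000 0x18000000180000001800000018000000380000001f00000014 5 6) 0 0 (step_sound _ 131 [rh51f5a245ef7eb6cb, (rh55a1f6c57a317ce6.shift 3 0), (rhaf97d21e7fb8f8b8.shift 2 0)] (by decide +kernel))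
noncomputable def rh9e2ba21e438793f4 : CRef := CRef.mk (Pat.mk 0x80000001800000018000000100000000000000000 0x1000000018000000180000003c000000ff0000002c00000008 5 8) 0 0 (step_sound _ 67 [rh1e0e98aae06e11bf, (rhea7a1800d6f053bd.shift 3 0), (rhfa2e681ef328425e.shift 2 1)] (by decide +kernel))
noncomputable def rh65a3a4cf67baf828 : CRef := CRef.mk (Pat.mk 0x600000006000000020000000200000000 0x20000000600000006000000070000003e0000000c 5 6) 0 0 (step_sound _ 34 [(rh55afc6a59410cf00.shift 1 0), rhe332155115ae088b] (by decide +kernel))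
noncomputable def rh93c9b17a318f9035 : CRef := CRef.mk (Pat.mk 0x4000000000000001c00000008 0x400000006000000070000001f0000003b 5 6) 0 0 (step_sound _ 130 [rh344b2a22d3a9f67b, (rhff0f29cb645b05f7.shift 2 0)] (by decide +kernel))
noncomputable def rha3fdb91a72ff80e1 : CRef := CRef.mk (Pat.mk 0x280000000000000010000000100000001000000000 0xff0000007e0000001700000010000000300000003000000020 5 8) 0 0 (step_sound _ 164 [(rh5a4df29f20c07a62.shift 3 2), (rh5e3a098106d286e9.shift 3 0), (rh8af01850008ce7c3.shift 4 0), (rh9def86bbd50a3389.shift 0 4)] (by decide +kernel))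
noncomputable def rh07a661e9f0498fb1 : CRef := CRef.mk (Pat.mk 0x18000000380000001000000010 0x400000004000000260000003e0000003f0000001f00000010 5 6) 0 0 (step_sound _ 98 [rh8e6d340472c520ef, (rhb739f4f82bb681b4.shift 1 2)] (by decide +kernel))
noncomputable def rhaab5ceba66f0fc15 : CRef := CRef.mk (Pat.mk 0x1000000020000000700000002 0x4000000060000000700000003000000060000000700000003 5 3) 0 0 (step_sound _ 97 [rh50fbb5868c909700, rhddef047dca96f678] (by decide +kernel))
noncomputable def rhb60f7b5f106dc778 : CRef := CRef.mk (Pat.mk 0x4000000020000000300000002 0x1000000030000000700000006000000030000000300000003 5 3) 0 0 (step_sound _ 97 [(rh2f68792b6b779e96.shift 1 0), rhc9b7a010d6829066] (by decide +kernel))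
noncomputable def rh65e8eebd79bda951 : CRef := CRef.mk (Pat.mk 0x2000000030000000200000002 0x1000000070000000700000006000000030000000300000002 5 3) 0 0 (step_sound _ 130 [(rhbaefcd01e0a8bca3.shift 1 0), (rhc3d226678c927710.shift 0 1)] (by decide +kernel))
noncomputable def rhb5031467c3cb5c4f : CRef := CRef.mk (Pat.mk 0x2000000030000000200000002 0x2000000060000000700000007000000030000000300000002 5 3) 0 0 (step_sound _ 96 [rh028809442a7beef4, rh50fbb5868c909700] (by decide +kernel))
noncomputable def rh96d738d39e190647 : CRef := CRef.mk (Pat.mk 0x600000006000000020000000000000000 0x40000000600000006000000070000003e0000000c0000000c 5 6) 0 0 (step_sound _ 162 [rh124052dc1b3819ff, (rh5c5e593799055d58.shift 1 2)] (by decide +kernel))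
noncomputable def rhc611a624598d8969 : CRef := CRef.mk (Pat.mk 0x40000000700000006000000020000000000000000 0x6000000070000003e0000003e0000000c0000000c 5 6) 0 0 (step_sound _ 66 [(rh3cb04db3dd2b6a55.shift 1 0), (rh3f4be0b61c73837e.shift 0 1), (rh820d4e04d5dcd02e.shift 1 0)] (by decide +kernel))
noncomputable def rhb8c18aeece372d98 : CRef := CRef.mk (Pat.mk 0x60000000200000002000000000000000000000000 0x5000000070000000300000002000000030000000300000001 5 3) 0 0 (step_sound _ 65 [(rh2f68792b6b779e96.shift 1 2), rh6aa5625770489e83] (by decide +kernel))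
noncomputable def rhe726175a5b7384ef : CRef := CRef.mk (Pat.mk 0x60000000200000002000000000000000000000000 0x100000003000000070000000700000003000000030000000300000001 5 3) 0 0 (step_sound _ 65 [(rh565a0c22519f57e9.shift 0 1), rh8aec56c4ee12918c, (rhffd0ff6f60fa3c9a.shift 0 1)] (by decide +kernel))
noncomputable def rhecbdadbfef2034a9 : CRef := CRef.mk (Pat.mk 0x200000006000000020000000200000000 0x6000000060000000600000006000000060000000700000001 5 3) 0 0 (step_sound _ 0 [rh79877ebd3ef475dd, (rh7ab09f375cd5d482.shift 1 1)] (by decide +kernel))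
noncomputable def rhbb8a0041df42662e : CRef := CRef.mk (Pat.mk 0xc00000018000000080000000c 0x130000001f0000001e0000000f0000000c 5 5) 0 0 (step_sound _ 97 [rh99159522e87bb798, (rhb739f4f82bb681b4.shift 0 2)] (by decide +kernel))
noncomputable def rhf8e4a04a5e3060b7 : CRef := CRef.mk (Pat.mk 0x3000000060000000200000002 0x2000000060000000600000007000000070000000700000002 5 3) 0 0 (step_sound _ 130 [(rh866dd02c2b7e3e6b.shift 0 1), (rhbaefcd01e0a8bca3.shift 1 0)] (by decide +kernel))
noncomputable def rhaba26d7b21102469 : CRef := CRef.mk (Pat.mk 0x200000002000000020000000200000000 0x1000000030000000300000002000000030000000700000005 5 3) 0 0 (step_sound _ 2 [rh565a0c22519f57e9, (rhd3458b32566d63f7.shift 1 0)] (by decide +kernel))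
noncomputable def rh5a3b80cf9d16256e : CRef := CRef.mk (Pat.mk 0xe00000018000000080000000800000000 0x130000001e0000001e0000000f0000000c00000004 5 5) 0 0 (step_sound _ 34 [(rh932754581e0f4330.shift 2 0), (rh99159522e87bb798.shift 0 1)] (by decide +kernel))
noncomputable def rh8c5d8550c48c21f3 : CRef := CRef.mk (Pat.mk 0x200000006000000020000000200000000 0x200000002000000060000000600000006000000070000000300000001 5 3) 0 0 (step_sound _ 32 [rh932754581e0f4330, (rhcb5a8713d0f9ccab.shift 0 1)] (by decide +kernel))
noncomputable def rhb0a86dd39b2e7e82 : CRef := CRef.mk (Pat.mk 0x200000006000000020000000000000000 0x6000000060000000600000006000000070000000700000001 5 3) 0 0 (step_sound _ 161 [rh367118e0bf0473e0, (rhd4b4beefcd67f51e.shift 1 1)] (by decide +kernel))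
noncomputable def rhca55a751ad914d51 : CRef := CRef.mk (Pat.mk 0x200000006000000020000000000000000 0x3000000030000000300000006000000070000000700000001 5 3) 0 0 (step_sound _ 161 [rh6aa5625770489e83, (rhd4b4beefcd67f51e.shift 1 1)] (by decide +kernel))
noncomputable def rh0ce3bf25da4d5c0a : CRef := CRef.mk (Pat.mk 0x3000000020000000600000002 0x2000000060000000600000007000000070000000700000002 5 3) 0 0 (step_sound _ 130 [(rhbaefcd01e0a8bca3.shift 1 0), (rhf16db0eb618c30d7.shift 0 1)] (by decide +kernel))
noncomputable def rh842017b23bb03699 : CRef := CRef.mk (Pat.mk 0x1800000010000000100000001800000000 0x18000000180000003c000000ff00000026 5 8) 0 0 (step_sound _ 37 [rh46c394614903929b, (rh55afc6a59410cf00.shift 4 0)] (by decide +kernel))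
noncomputable def rh20ee7b632330955c : CRef := CRef.mk (Pat.mk 0x1e00000018000000080000000000000000 0x30000001e0000001f0000000f0000000f00000004 5 5) 0 0 (step_sound _ 97 [rh49b34f9698d3d62b, (rheb0810cc63b001d8.shift 0 3)] (by decide +kernel))
noncomputable def rhec871e9bfd489625 : CRef := CRef.mk (Pat.mk 0xe00000008000000080000000800000000 0x130000001e0000000c0000000e0000007c00000014 5 7) 0 0 (step_sound _ 34 [rh786c105b04fc44c2, (rh932754581e0f4330.shift 2 0)] (by decide +kernel))
noncomputable def rhedd6f04555dbc405 : CRef := CRef.mk (Pat.mk 0xc0000000c000000000000000400000000 0x20000000f0000003c000000040000000600000006 5 6) 0 0 (step_sound _ 66 [(rh71222050f2c63a3a.shift 2 0), rhd24778b085d8f6e1] (by decide +kernel))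
noncomputable def rha2d33111dc954f8b : CRef := CRef.mk (Pat.mk 0xc0000000c000000000000000c00000000 0x20000000f0000003c000000040000000e0000000a 5 6) 0 0 (step_sound _ 66 [(rh55afc6a59410cf00.shift 2 0), rhd24778b085d8f6e1] (by decide +kernel))
noncomputable def rh9541b3c1842526a9 : CRef := CRef.mk (Pat.mk 0xe00000000 0x780000003f0000007f 5 7) 0 0 (step_sound _ 36 [rh0edd3afef6b5d7e0, rh3b00e9e9432b8f40, rh3e1b7b343686dca1] (by decide +kernel))
noncomputable def rh5536604e9c50a79c : CRef := CRef.mk (Pat.mk 0x600000006000000000000000e00000000 0x70000003f000000780000001e00000008 5 7) 0 0 (step_sound _ 99 [(rh79b3c29022acbdf3.shift 0 3), rhc6f96d0082a29cc4] (by decide +kernel))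
noncomputable def rha01174d4cecfbc58 : CRef := CRef.mk (Pat.mk 0x2000000000000000000000001c00000000 0x2000000020000000f00000007e000000ef 5 8) 0 0 (step_sound _ 37 [(rh0edd3afef6b5d7e0.shift 1 0), (rh3b00e9e9432b8f40.shift 1 0), rh7654d7b92c96fe12, (rhb81886e6487fe765.shift 2 0)] (by decide +kernel))
noncomputable def rh7ce203c1e71b4ea1 : CRef := CRef.mk (Pat.mk 0x2000000000000000000000001c00000000 0x2000000020000000e00000007e000000ff 5 8) 0 0 (step_sound _ 37 [rh008b05f4778dc30d, (rh0edd3afef6b5d7e0.shift 1 0), (rh3b00e9e9432b8f40.shift 1 0), (rhb81886e6487fe765.shift 2 0)] (by decide +kernel))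
noncomputable def rh2c6e93c037a514db : CRef := CRef.mk (Pat.mk 0x600000006000000000000000e00000000 0x70000003e000000080000000f0000007c 5 7) 0 0 (step_sound _ 99 [rh6750075f6e760f16, (rh79b3c29022acbdf3.shift 0 3)] (by decide +kernel))
noncomputable def rhdf196a46f536507f : CRef := CRef.mk (Pat.mk 0x80000001800000018000000100000000000000000 0x40000000c0000001c000000380000001f0000000c00000008 5 6) 0 0 (step_sound _ 67 [rh1e0e98aae06e11bf, (rh6fae963f33cfdfd7.shift 0 1), (rhdf997f77704b6375.shift 2 0)] (by decide +kernel))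
noncomputable def rh1ca57632399d2034 : CRef := CRef.mk (Pat.mk 0x200000006000000060000000000000000 0x3000000030000000300000006000000070000000300000001 5 3) 0 0 (step_sound _ 161 [(rh2145e1d24b96a57e.shift 1 2), rh6aa5625770489e83] (by decide +kernel))
noncomputable def rhcac45fba302e8108 : CRef := CRef.mk (Pat.mk 0x800000008000000180000001800000000 0x8000000080000001f000000ff000000e4 5 8) 0 0 (step_sound _ 34 [rh41af8696f4579ab3, (rh932754581e0f4330.shift 2 0)] (by decide +kernel))
noncomputable def rh258665fe1049a1a5 : CRef := CRef.mk (Pat.mk 0x8000000180000001c000000000000000000000000 0x8000000180000003f0000000f0000000400000004 5 6) 0 0 (step_sound _ 97 [rh375f643453e42b7a, (rh53b3c253cb0c65f4.shift 0 3)] (by decide +kernel))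
noncomputable def rheb789f57fbd90551 : CRef := CRef.mk (Pat.mk 0x40000000c0000000e000000000000000000000000 0x40000000c0000007e000000770000000200000002 5 7) 0 0 (step_sound _ 65 [(rh42548283029e2a39.shift 1 0), (rhcdfb68dad19a8b95.shift 0 2)] (by decide +kernel))
noncomputable def rh045a5418e2d5f1d8 : CRef := CRef.mk (Pat.mk 0x800000008000000180000001c00000000 0x40000000c0000000c0000001f0000003f00000003 5 6) 0 0 (step_sound _ 33 [rh03de97f287044cf6, (rh53b3c253cb0c65f4.shift 0 1)] (by decide +kernel))
noncomputable def rh7beb69f9f9f1fe21 : CRef := CRef.mk (Pat.mk 0x8000000180000001c0000000000000000 0x2000000020000000f0000001f0000003c0000000600000006 5 6) 0 0 (step_sound _ 98 [rh4af7b6c08b1d2dc8, rhbefd0a664f0bf60a, (rhe2b63c00a3d7bb73.shift 0 2)] (by decide +kernel))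
noncomputable def rha8fd5cfc43aa7576 : CRef := CRef.mk (Pat.mk 0xc0000000c000000040000000400000000 0x20000000f0000003c000000040000000e0000000a 5 6) 0 0 (step_sound _ 1 [rh5b42d230652d96f8, (rh79877ebd3ef475dd.shift 1 0)] (by decide +kernel))
noncomputable def rh11c33b0a4bfc4293 : CRef := CRef.mk (Pat.mk 0x2000000060000000200000003 0x3000000030000000700000006000000060000000300000003 5 3) 0 0 (step_sound _ 98 [(rh2f68792b6b779e96.shift 1 0), rh2f6aab5bda7497b7] (by decide +kernel))
noncomputable def rh56e90c12f0808c38 : CRef := CRef.mk (Pat.mk 0xa0000001a000000000000000000000000 0x20000000b0000003e000000070000000400000004 5 6) 0 0 (step_sound _ 98 [(rh3244c3cc8379b070.shift 0 3), rh5002fd5ca5291a69] (by decide +kernel))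
noncomputable def rh1319ede34a3dc0f5 : CRef := CRef.mk (Pat.mk 0x80000001a0000000a000000000000000000000000 0x500000015000000370000001f0000001b0000000b000000070000000700000005 5 6) 0 0 (step_sound _ 161 [(rh3068e443d36f23f5.shift 0 3), (rh46990448042cc692.shift 0 2), (rh58ffa0133807a088.shift 0 2), (rh6380ca6fab66e38a.shift 0 2), rh9025223dca583e9f] (by decide +kernel))
noncomputable def rh1f4e743b7f07a4a4 : CRef := CRef.mk (Pat.mk 0x1c000000000000002400000004 0xe70000007e000000630000002600000024 5 8) 0 0 (step_sound _ 101 [rhcbce130df63aa989, (rhfcffa0a9e99c8fd4.shift 2 0)] (by decide +kernel))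
noncomputable def rh7dae0897ea8d3610 : CRef := CRef.mk (Pat.mk 0xe000000000000001600000006 0x80000007e0000007f000000f0000000170000003e 5 8) 0 0 (step_sound _ 100 [rh22de5993038d04b0, rh2b760c800e41f981, (rhd22efb4d25a74e1a.shift 1 2), (rhfcffa0a9e99c8fd4.shift 1 0)] (by decide +kernel))
noncomputable def rh060926ecec842035 : CRef := CRef.mk (Pat.mk 0xe00000000000000160000000400000000 0x7f0000003e00000030000000160000003c00000008 5 7) 0 0 (step_sound _ 132 [(rhb18e6c78a554867d.shift 0 4), (rheada948350da0ce1.shift 1 0)] (by decide +kernel))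
noncomputable def rhdbc7f04602ef2d62 : CRef := CRef.mk (Pat.mk 0xe000000000000001600000006 0x7f0000003e00000030000000170000003e 5 7) 0 0 (step_sound _ 100 [rh2b760c800e41f981, (rhb18e6c78a554867d.shift 0 3)] (by decide +kernel))
noncomputable def rh0c51f2671b23acf3 : CRef := CRef.mk (Pat.mk 0x38000000000000000800000008 0x770000003e000000070000000c00000008 5 7) 0 0 (step_sound _ 98 [(rh483fbfd538e8380f.shift 1 0), (rh61325f73ebf98108.shift 0 3), (rh7654d7b92c96fe12.shift 0 2)] (by decide +kernel))
noncomputable def rh4e20d05abc66f09b : CRef := CRef.mk (Pat.mk 0x1c000000000000002c0000000c00000000 0x170000003e000000630000002e0000007c00000010 5 7) 0 0 (step_sound _ 133 [(rh2b760c800e41f981.shift 1 1), (rhcbce130df63aa989.shift 0 1), (rheada948350da0ce1.shift 2 0)] (by decide +kernel))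
noncomputable def rh76075b560bca37bd : CRef := CRef.mk (Pat.mk 0x80000001a0000001a00000000 0x400000014000000360000001f0000001f0000001a00000002 5 6) 0 0 (step_sound _ 97 [rh6380ca6fab66e38a, (rhb7674d85f64945d6.shift 0 1), (rhd8be3b7ca6adb62f.shift 0 2)] (by decide +kernel))
noncomputable def rh98b6c5c3bad437de : CRef := CRef.mk (Pat.mk 0x1a00000002000000000000000000000000 0x50000000700000007000000070000001e00000003000000030000000100000001 5 5) 0 0 (step_sound _ 161 [(rh01e48cd9f335aa73.shift 0 3), rh5c8c873042790be0, (rhbada6463504b2331.shift 0 1), (rhe8a9e0e6037b7c6e.shift 0 2)] (by decide +kernel))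
noncomputable def rh95efdbea5db7765e : CRef := CRef.mk (Pat.mk 0x20000001a0000001a0000000000000000 0x1000000010000000b0000000f0000001a0000001a0000001200000010 5 5) 0 0 (step_sound _ 131 [(rh46990448042cc692.shift 0 1), (rh55a1f6c57a317ce6.shift 3 0)] (by decide +kernel))
noncomputable def rh94cc00a2780e308c : CRef := CRef.mk (Pat.mk 0x20000001a0000001a0000000000000000 0x4000000140000003e0000001e0000001b0000001a0000001200000010 5 6) 0 0 (step_sound _ 131 [(rh55a1f6c57a317ce6.shift 3 0), (rh6380ca6fab66e38a.shift 0 1)] (by decide +kernel))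
noncomputable def rh0e69f10a19d6b0e6 : CRef := CRef.mk (Pat.mk 0x20000001a000000180000000000000000 0x10000000380000001f0000001b000000180000001000000010 5 6) 0 0 (step_sound _ 131 [(rh3068e443d36f23f5.shift 0 2), (rh55a1f6c57a317ce6.shift 3 0)] (by decide +kernel))
noncomputable def rh5a31c14f96fd41e0 : CRef := CRef.mk (Pat.mk 0x20000000200000002000000000000000000000000 0x100000003000000030000000300000003000000070000000700000005 5 3) 0 0 (step_sound _ 65 [rh46baee19951a66e7, (rh565a0c22519f57e9.shift 0 1), rh6aa5625770489e83, rh8cdd36b03d57a2f6] (by decide +kernel))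
noncomputable def rh0198bbeb35668834 : CRef := CRef.mk (Pat.mk 0x20000001a0000001a0000000000000000 0x10000000b0000000f0000001b0000001a0000001200000010 5 5) 0 0 (step_sound _ 131 [(rh55a1f6c57a317ce6.shift 3 0), (rh58ffa0133807a088.shift 0 1)] (by decide +kernel))
noncomputable def rh275818b0b64b9ee8 : CRef := CRef.mk (Pat.mk 0x180000001a000000000000000000000000 0x8000000180000001f000000330000001000000010 5 6) 0 0 (step_sound _ 98 [rh2fb7851f2066c386, (rh53b3c253cb0c65f4.shift 0 3)] (by decide +kernel))
noncomputable def rhcb123f2d6e948dd6 : CRef := CRef.mk (Pat.mk 0x800000008000000180000001c00000000 0x1000000018000000180000001c000000ff00000060 5 8) 0 0 (step_sound _ 33 [(rh53b3c253cb0c65f4.shift 0 1), (rhed03980a48e70db0.shift 2 0)] (by decide +kernel))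
noncomputable def rh6a5e957f480db0a7 : CRef := CRef.mk (Pat.mk 0x80000001c000000180000001000000000 0x2000000020000000f0000001f0000001f0000003400000004 5 6) 0 0 (step_sound _ 66 [rhbefd0a664f0bf60a, (rhf56e6bc5d2f7fe77.shift 0 1)] (by decide +kernel))
noncomputable def rh8d034e937ee609e9 : CRef := CRef.mk (Pat.mk 0x2000000020000001e00000002 0x50000000700000007000000020000001e00000032 5 6) 0 0 (step_sound _ 4 [rhc85cc95794737cf7, (rhe25b0a99195a5d59.shift 1 0)] (by decide +kernel))
noncomputable def rh676bc3459355ec3c : CRef := CRef.mk (Pat.mk 0x200000006000000020000000200000000 0x40000000700000007000000070000000600000006000000020000000600000004 5 3) 0 0 (step_sound _ 161 [(rh1d87b4e963406cc8.shift 0 1), (rh1db71118bee297d0.shift 0 2), (rh44f453b84f013105.shift 1 1), rhb9c6296f38ebc9a3] (by decide +kernel))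
noncomputable def rhdf67e59260b106ea : CRef := CRef.mk (Pat.mk 0x180000001e000000100000000000000000 0x10000000180000001e0000001f0000003800000038 5 6) 0 0 (step_sound _ 36 [rh58658ea5ab4d59f8, (rh7b1f1fb55310c477.shift 3 0)] (by decide +kernel))
noncomputable def rh7fb78e11efdf8624 : CRef := CRef.mk (Pat.mk 0x1a0000001e000000000000000000000000 0x30000000b0000001e0000001e0000000f0000000400000004 5 5) 0 0 (step_sound _ 65 [rh8df1faa89e760cc6, (rheb0810cc63b001d8.shift 0 2)] (by decide +kernel))
noncomputable def rh7316ea91192e5cd6 : CRef := CRef.mk (Pat.mk 0x8000000380000000800000000 0x4000000040000000c0000000f000000780000000800000008 5 7) 0 0 (step_sound _ 98 [rha45b9a4d75ac9a9b, (rhf48373e13d2bc128.shift 2 2)] (by decide +kernel))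
noncomputable def rhfd0e11092a1ca0cb : CRef := CRef.mk (Pat.mk 0x20000001a00000002000000000000000000000000 0x1000000030000001f00000002000000030000000300000001 5 5) 0 0 (step_sound _ 160 [rh43d8dfd721575dfb, (rh5419adcd928dba20.shift 0 4)] (by decide +kernel))
noncomputable def rh2df6e0c6035c44f3 : CRef := CRef.mk (Pat.mk 0x1a0000000e000000000000000000000000 0x3000000030000001e0000001e000000070000000500000004 5 5) 0 0 (step_sound _ 161 [(rh16bf9e2d725c658d.shift 0 1), (rh235edbdf3bbc6c03.shift 1 0), (rha768b229dc254047.shift 1 0)] (by decide +kernel))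
noncomputable def rh1ac601acf5196957 : CRef := CRef.mk (Pat.mk 0x1a0000001e000000000000000000000000 0x2000000070000001e0000001e000000070000000600000002 5 5) 0 0 (step_sound _ 65 [rh2b453b0a235b0bb8, (rheb0810cc63b001d8.shift 0 2)] (by decide +kernel))
noncomputable def rhb506524ff5b0c9bd : CRef := CRef.mk (Pat.mk 0x10000000f000000010000000100000000 0x200000003000000030000000f0000001b0000000300000002 5 5) 0 0 (step_sound _ 33 [rh55afc6a59410cf00, (rh90773902682b32a8.shift 0 1)] (by decide +kernel))
noncomputable def rhbcd04d4e71cbf5ce : CRef := CRef.mk (Pat.mk 0x20000000200000002000000020000000100000000 0x100000003000000030000000200000006000000060000000700000001 5 3) 0 0 (step_sound _ 0 [(rh8065c10b3cae6218.shift 0 1), rheea67dfebd0f8008] (by decide +kernel))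
noncomputable def rhd6e3221d42ba1ef3 : CRef := CRef.mk (Pat.mk 0x1000000000000000080000001c00000000 0x10000000100000003e0000007f00000060 5 7) 0 0 (step_sound _ 37 [(rhe3060b190bc0bc78.shift 1 1), rhf3731febd9c20499] (by decide +kernel))
noncomputable def rh6053027cb5016fff : CRef := CRef.mk (Pat.mk 0x20000001e000000020000000000000000 0x3000000070000003e0000001e000000060000000600000002 5 6) 0 0 (step_sound _ 132 [(rh33e738c4ed385b9f.shift 1 3), rhf7c9ddb911c4a3ce] (by decide +kernel))
noncomputable def rh27d70429fd5018e0 : CRef := CRef.mk (Pat.mk 0x2000000030000000200000002 0x100000007000000070000000700000003000000030000000200000002 5 3) 0 0 (step_sound _ 129 [rh3ca48e2a6d60153d, (rhc85cc95794737cf7.shift 0 1), (rhe8915d9db8b9f3f2.shift 0 1), rhf06a227ba195dbc0] (by decide +kernel))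
noncomputable def rhc37ac25399000c0e : CRef := CRef.mk (Pat.mk 0x3c00000000 0x700000003e00000067 5 7) 0 0 (step_sound _ 1 [(rh80fcd6d0a18cb2dd.shift 1 0), rh9d1baf208daab0d1] (by decide +kernel))
noncomputable def rhd75855c0840bf9dc : CRef := CRef.mk (Pat.mk 0x3c00000000 0x770000003e00000060 5 7) 0 0 (step_sound _ 5 [(rh61325f73ebf98108.shift 0 1), (rhe25b0a99195a5d59.shift 2 0)] (by decide +kernel))
noncomputable def rha5346060b12b3a35 : CRef := CRef.mk (Pat.mk 0x3c00000000 0x70000003e00000067 5 7) 0 0 (step_sound _ 1 [(rh80fcd6d0a18cb2dd.shift 1 0), rhd5aa0b9d8e48871e] (by decide +kernel))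
noncomputable def rhe08e8dcf58cbb11c : CRef := CRef.mk (Pat.mk 0x2000000120000000e00000000 0x10000000100000003000000030000001e0000000f00000002 5 5) 0 0 (step_sound _ 67 [(rh53b3c253cb0c65f4.shift 0 1), rhe8a9e0e6037b7c6e] (by decide +kernel))
noncomputable def rh60e0e47507e03bc9 : CRef := CRef.mk (Pat.mk 0x2000000020000001e0000000200000000 0x1000000030000003e0000001f0000000600000004 5 6) 0 0 (step_sound _ 2 [(rh02ca81931d2dc5f6.shift 0 1), (rhd3458b32566d63f7.shift 1 0)] (by decide +kernel))
noncomputable def rhe501f2514eb92025 : CRef := CRef.mk (Pat.mk 0x200000002000000060000000200000000000000000000000000000000 0x200000002000000060000000600000007000000070000000700000004 5 3) 0 0 (step_sound _ 97 [(rh10452bc14d0b4b6a.shift 0 1), rh218cd2e070c414fb, (rh8cdd36b03d57a2f6.shift 0 1), (rhd29a1fb688eae70f.shift 1 2)] (by decide +kernel))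
noncomputable def rhb569fc3d362b7913 : CRef := CRef.mk (Pat.mk 0x800000008000000080000000800000000 0x140000001f00000038000000080000000800000008 5 6) 0 0 (step_sound _ 130 [(rh50fbb5868c909700.shift 2 1), rhc3aca83855756cc0] (by decide +kernel))
noncomputable def rhd3c0f549cae29c91 : CRef := CRef.mk (Pat.mk 0x90000000c000000080000000800000000 0x40000001c0000001c0000001c0000000f0000000c000000080000000c00000004 5 5) 0 0 (step_sound _ 163 [(rh3ca48e2a6d60153d.shift 2 1), rh92438d8f3801022c, (rhc85cc95794737cf7.shift 2 2), (rhe8915d9db8b9f3f2.shift 2 2)] (by decide +kernel))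
noncomputable def rh38944da09e6b0442 : CRef := CRef.mk (Pat.mk 0x1e00000018000000000000000000000000 0x40000003e0000001f000000030000000200000002 5 6) 0 0 (step_sound _ 97 [rh290f8cd721815869, (rheb0810cc63b001d8.shift 0 3)] (by decide +kernel))
noncomputable def rh044527a986b46360 : CRef := CRef.mk (Pat.mk 0x8000000380000001800000000 0x4000000040000000e0000003f0000001f00000008 5 6) 0 0 (step_sound _ 33 [(rh24ae073cf30720c4.shift 1 1), rh36e79de7ab0f1030] (by decide +kernel))
noncomputable def rhf762cbba6fa7cf86 : CRef := CRef.mk (Pat.mk 0x80000000c0000000c000000000000000000000000 0x10000000780000001f0000000c0000000c0000000c0000000c 5 7) 0 0 (step_sound _ 34 [(rh9e3edb185cc347de.shift 2 1), rhe3f7cef3f94c4de3] (by decide +kernel))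
noncomputable def rh1bd0c14c4de1ef4d : CRef := CRef.mk (Pat.mk 0x400000004000000040000000400000000 0xa0000000f0000003c000000040000000400000004 5 6) 0 0 (step_sound _ 129 [(rh50fbb5868c909700.shift 1 1), rh5eb116785a745a33] (by decide +kernel))
noncomputable def rhf2e67599fbee60ee : CRef := CRef.mk (Pat.mk 0x6000000030000000a00000000 0x4000000040000000c0000001e0000000b0000000a0000000a 5 5) 0 0 (step_sound _ 99 [(rh18965a982d73c794.shift 0 2), (rha2eb5bc710929d51.shift 1 0)] (by decide +kernel))
noncomputable def rhc76e5e57485f4c6b : CRef := CRef.mk (Pat.mk 0x1e000000080000000000000000 0x10000000100000003b0000001e000000080000000800000008 5 6) 0 0 (step_sound _ 128 [(rh3f8766e6ecb455ce.shift 0 3), (rh6eb76252a9026692.shift 1 0)] (by decide +kernel))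
noncomputable def rh6f1063697b70fc38 : CRef := CRef.mk (Pat.mk 0xc00000008000000180000000800000000 0x100000003c0000000f000000780000000800000008 5 7) 0 0 (step_sound _ 98 [(rh7b1f1fb55310c477.shift 2 0), (rhb5dfa3026e34583e.shift 0 1)] (by decide +kernel))
noncomputable def rhd65b950e17d04dd6 : CRef := CRef.mk (Pat.mk 0x4000000040000000c0000000c00000000 0x180000003c0000000f0000000c0000000c00000004 5 6) 0 0 (step_sound _ 131 [(rh2f68792b6b779e96.shift 2 1), rh8600bdee62c8ef94] (by decide +kernel))
noncomputable def rhdfd10cc9da38ede8 : CRef := CRef.mk (Pat.mk 0x2000000020000000200000006000000000000000000000000 0x300000003000000070000000600000006000000020000000200000002 5 3) 0 0 (step_sound _ 130 [(rh2145e1d24b96a57e.shift 1 3), rh544fd3f279a4d968] (by decide +kernel))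
noncomputable def rh241c297a462ebedb : CRef := CRef.mk (Pat.mk 0x6000000020000001600000006 0x190000001f0000003e0000001f00000006 5 6) 0 0 (step_sound _ 96 [rh2c1577f3d651e872, rh50fbb5868c909700] (by decide +kernel))
noncomputable def rh62065880ba4433e2 : CRef := CRef.mk (Pat.mk 0x2000000020000000600000002000000000000000000000000 0x2000000060000000600000006000000070000000700000001 5 3) 0 0 (step_sound _ 66 [rh78aec13dcd8fd007, (rhd3458b32566d63f7.shift 1 2)] (by decide +kernel))
noncomputable def rh6887ef21f67dd26a : CRef := CRef.mk (Pat.mk 0x1e000000000000000000000000 0x8000000380000001f000000300000001000000010 5 6) 0 0 (step_sound _ 68 [rh65d03e622566ecd5, (rhe25b0a99195a5d59.shift 1 2)] (by decide +kernel))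
noncomputable def rhb86d69afdb8af463 : CRef := CRef.mk (Pat.mk 0x1a0000001e0000000000000000 0x12000000330000001e0000001e0000000c0000000c 5 6) 0 0 (step_sound _ 132 [(rh1e309b005ffa1b36.shift 3 0), rh9458e878ee940312] (by decide +kernel))
noncomputable def rhe0b504e410382307 : CRef := CRef.mk (Pat.mk 0x1a0000001e0000000000000000 0x30000000300000001e0000001e0000003b00000008 5 6) 0 0 (step_sound _ 33 [(rhb130a20996b46871.shift 1 0), (rheb0810cc63b001d8.shift 0 1)] (by decide +kernel))
noncomputable def rh665a1177b3fbf9b1 : CRef := CRef.mk (Pat.mk 0xc000000080000000c0000000c 0x130000001f0000007c0000000f0000000c 5 7) 0 0 (step_sound _ 100 [(rh2f68792b6b779e96.shift 3 0), rhcc1ade6255d3ea8f] (by decide +kernel))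
noncomputable def rh86f295e06796dd35 : CRef := CRef.mk (Pat.mk 0x80000000b00000000000000030000000000000000 0x100000001000000018000000180000000f000000180000001f0000001c00000010 5 5) 0 0 (step_sound _ 99 [rh719897680cafda13, (rh9548c07d1d1f2a1b.shift 0 2), (rha51923682849ffc5.shift 0 1), (rhabf575676fe0ef70.shift 0 3)] (by decide +kernel))
noncomputable def rh5e3088e1089ccf0d : CRef := CRef.mk (Pat.mk 0x16000000160000000000000000 0x8000000380000001e0000001f0000003000000030 5 6) 0 0 (step_sound _ 99 [(rh9dcda93cb40518c6.shift 1 0), (rheb0810cc63b001d8.shift 0 2)] (by decide +kernel))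
noncomputable def rha515645b871f569d : CRef := CRef.mk (Pat.mk 0x1600000016000000020000000200000000 0x8000000380000001e00000017000000160000001600000004 5 6) 0 0 (step_sound _ 131 [(rhb1535db44b778aa6.shift 1 0), (rheb0810cc63b001d8.shift 0 3)] (by decide +kernel))
noncomputable def rhd092206b36911859 : CRef := CRef.mk (Pat.mk 0x1600000006000000020000000200000000 0x200000002000000030000001e00000007000000060000000300000001 5 5) 0 0 (step_sound _ 0 [rh79877ebd3ef475dd, (rha6fc0d3d47b3b66d.shift 0 2)] (by decide +kernel))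
noncomputable def rh5c46ef0f4f914245 : CRef := CRef.mk (Pat.mk 0x600000006000000020000000200000000 0x300000003000000030000000600000006000000060000000600000004 5 3) 0 0 (step_sound _ 34 [(rh55afc6a59410cf00.shift 1 0), (rha4d655741e78f7b9.shift 0 1)] (by decide +kernel))
noncomputable def rhe056292ef7f1dc7c : CRef := CRef.mk (Pat.mk 0x1600000006000000020000000200000000 0xa0000001e00000007000000060000000700000005 5 5) 0 0 (step_sound _ 0 [rh3edb27f69f04d7c4, rh79877ebd3ef475dd] (by decide +kernel))
noncomputable def rh07dae989fc205014 : CRef := CRef.mk (Pat.mk 0xc0000000c000000000000000800000000 0x140000003c0000000f000000080000001800000010 5 6) 0 0 (step_sound _ 67 [(rh50fbb5868c909700.shift 2 1), rh80d10083eb6a67cd] (by decide +kernel))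
noncomputable def rh030c4742f34cb5b5 : CRef := CRef.mk (Pat.mk 0x600000006000000020000000200000000 0x300000003000000030000000600000006000000030000000300000001 5 3) 0 0 (step_sound _ 32 [(rh2f6aab5bda7497b7.shift 0 1), rh932754581e0f4330] (by decide +kernel))
noncomputable def rhdd74802d7c55916c : CRef := CRef.mk (Pat.mk 0x200000006000000020000000200000000 0x40000000700000007000000030000000600000006000000060000000700000005 5 3) 0 0 (step_sound _ 161 [(rh1db71118bee297d0.shift 0 2), rh858d3565f635b249, (rhd29a1fb688eae70f.shift 1 0)] (by decide +kernel))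
noncomputable def rhf0cb8f078e674223 : CRef := CRef.mk (Pat.mk 0x20000001e0000000200000004 0x50000000700000007000000020000001e0000003600000004 5 6) 0 0 (step_sound _ 36 [rhde061a0c3cca9b80, (rhe25b0a99195a5d59.shift 1 1)] (by decide +kernel))
noncomputable def rhafadb018ec21fcf6 : CRef := CRef.mk (Pat.mk 0x8000000080000001800000010000000000000000000000000 0x40000000c0000001c000000380000001f0000000c0000000c00000008 5 6) 0 0 (step_sound _ 99 [(rh544fd3f279a4d968.shift 2 0), (rh6fae963f33cfdfd7.shift 0 2), (rh7b18f3f209f14cd6.shift 2 0)] (by decide +kernel))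
noncomputable def rh2481afafbbadd3f7 : CRef := CRef.mk (Pat.mk 0x40000000e000000180000000800000000 0x80000000c0000000e0000001e0000001f00000016 5 5) 0 0 (step_sound _ 131 [rh3123287b48aef0cd, (rhd4b4beefcd67f51e.shift 3 0)] (by decide +kernel))
noncomputable def rhc0e04fdc028e9630 : CRef := CRef.mk (Pat.mk 0x1e0000001a0000000000000000 0x2000000030000003e0000001e0000000700000004 5 6) 0 0 (step_sound _ 66 [rh2307074d56e2a9fc, (rh33e738c4ed385b9f.shift 1 2)] (by decide +kernel))
noncomputable def rhef62ddac988aa3fb : CRef := CRef.mk (Pat.mk 0x800000008000000180000000c00000000 0x1800000018000000380000001f0000000c00000008 5 6) 0 0 (step_sound _ 66 [(rh5c5e593799055d58.shift 2 1), rh6dc2d17b5ce1ca6f] (by decide +kernel))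
noncomputable def rh77073e867a5829ab : CRef := CRef.mk (Pat.mk 0x40000000400000007000000040000000000000000 0x4000000040000000f0000003e0000000e00000002 5 6) 0 0 (step_sound _ 33 [rh30bb9d2f8b796b13, (rh79877ebd3ef475dd.shift 1 1)] (by decide +kernel))
noncomputable def rh09dad20d86921cc4 : CRef := CRef.mk (Pat.mk 0x200000006000000020000000600000000 0x60000000600000006000000070000003e00000008 5 6) 0 0 (step_sound _ 66 [(rh2145e1d24b96a57e.shift 1 1), rhfa2e681ef328425e] (by decide +kernel))
noncomputable def rh8eb288e2ea66037a : CRef := CRef.mk (Pat.mk 0x20000000200000002000000060000000000000000 0x400000006000000060000000200000006000000070000000300000001 5 3) 0 0 (step_sound _ 32 [(rh79877ebd3ef475dd.shift 0 1), rhb18b4f8c9a8f37bc] (by decide +kernel))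
noncomputable def rh39a8414770f6bcd8 : CRef := CRef.mk (Pat.mk 0x20000000200000002000000060000000100000000 0x400000007000000070000000200000006000000060000000300000001 5 3) 0 0 (step_sound _ 0 [(rhdbc400e79194dff9.shift 0 2), rheea67dfebd0f8008] (by decide +kernel))
noncomputable def rh7978d5716d83e85d : CRef := CRef.mk (Pat.mk 0xc000000040000000c0000000400000000 0x320000003e0000000f0000000c0000000c00000008 5 6) 0 0 (step_sound _ 129 [rh31908ea6c46a950c, (rh50fbb5868c909700.shift 1 1)] (by decide +kernel))
noncomputable def rh037b047add8f6e37 : CRef := CRef.mk (Pat.mk 0x100000001c00000004000000000000000000000000 0xf0000007f0000003c00000006000000060000000600000002 5 7) 0 0 (step_sound _ 162 [(rh141b3859064a7cc2.shift 0 1), (rh19b19bf0872cfe73.shift 1 0), (rhd9106766b9ff53c0.shift 1 3)] (by decide +kernel))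
noncomputable def rh03f76bc4015e94e6 : CRef := CRef.mk (Pat.mk 0x100000001c000000340000000000000000 0xc0000000e0000007f0000003c0000003c0000000e00000006 5 7) 0 0 (step_sound _ 131 [(rh32f6277f14b47a8f.shift 2 0), rh8575980c6a163be1, (rh9c230147b0521339.shift 0 1), (rhdc9c04356d8c439c.shift 1 0)] (by decide +kernel))
noncomputable def rh968e200210144407 : CRef := CRef.mk (Pat.mk 0xe0000001a00000000000000000000000000000000 0x400000004000000060000000e0000001f00000003000000030000000300000001 5 5) 0 0 (step_sound _ 97 [rh712b6e7d90bff97a, (rh7f36f639160ea2c8.shift 1 2), (rhf3b0450cbffe4da9.shift 0 1)] (by decide +kernel))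
noncomputable def rhdf5dc8d25bb14dae : CRef := CRef.mk (Pat.mk 0x1000000016000000000000000000000000 0x8000000380000001f000000300000001000000010 5 6) 0 0 (step_sound _ 99 [(rh33e738c4ed385b9f.shift 1 3), rhc16287f285781cd8] (by decide +kernel))
noncomputable def rhebccaad30396f3e6 : CRef := CRef.mk (Pat.mk 0x2000000020000001200000016 0x5000000070000000700000002000000320000001e 5 6) 0 0 (step_sound _ 3 [(rh33e738c4ed385b9f.shift 1 0), rhc85cc95794737cf7] (by decide +kernel))
noncomputable def rh5de63b8c7724a744 : CRef := CRef.mk (Pat.mk 0x100000001000000090000000b00000000 0x20000000300000003000000010000001b0000000f00000018 5 5) 0 0 (step_sound _ 34 [(rh33e738c4ed385b9f.shift 0 1), rh3a87e075e1c8fc12] (by decide +kernel))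
noncomputable def rh9a90d2b1ba862de9 : CRef := CRef.mk (Pat.mk 0xc00000004000000240000002c 0x320000003f0000007f0000002c0000002c 5 7) 0 0 (step_sound _ 97 [rh45d4a843c8feda1b, (rh50fbb5868c909700.shift 1 0)] (by decide +kernel))
noncomputable def rhedb40a12501d6daa : CRef := CRef.mk (Pat.mk 0x200000002000000120000001600000000 0x1000000030000000300000002000000360000001e00000030 5 6) 0 0 (step_sound _ 35 [(rh33e738c4ed385b9f.shift 1 1), rh73764d626becc087] (by decide +kernel))
noncomputable def rhe4ef8610c997b0c6 : CRef := CRef.mk (Pat.mk 0x90000000b000000080000000200000000 0x100000001000000018000000190000000f0000000a0000000a00000002 5 5) 0 0 (step_sound _ 1 [rh2613c889e411427e, (rh9548c07d1d1f2a1b.shift 0 1)] (by decide +kernel))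
noncomputable def rhb850a36145626bbb : CRef := CRef.mk (Pat.mk 0x90000000b000000080000000200000000 0x140000001c0000001c000000090000000b0000003a0000001f00000017 5 6) 0 0 (step_sound _ 36 [rh9acd28e27504db9d, rhae412c11e8a32e50, (rhde061a0c3cca9b80.shift 2 1)] (by decide +kernel))
noncomputable def rh3f1a57e395db3dc0 : CRef := CRef.mk (Pat.mk 0x9000000080000000b00000000 0x4000000040000000c0000000f000000180000000f00000008 5 5) 0 0 (step_sound _ 68 [(rh1c62b6193297d9e3.shift 0 1), rhd3d54a871825ad17] (by decide +kernel))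
noncomputable def rh00e3ec32f621d1eb : CRef := CRef.mk (Pat.mk 0x8000000080000000b000000000000000000000000 0x1000000018000000180000000f000000180000001800000010 5 5) 0 0 (step_sound _ 67 [(rh0a88cd63e34485c5.shift 0 1), (rh5f11ee373cbffcaa.shift 0 1), (rhc9de03f9731897d4.shift 3 0)] (by decide +kernel))
noncomputable def rh5a5f24d107771550 : CRef := CRef.mk (Pat.mk 0x9000000080000000b0000000000000000 0x140000001f000000180000000f0000000800000008 5 5) 0 0 (step_sound _ 100 [rh1c5f24c0745fd8a8, (rh1c62b6193297d9e3.shift 0 2)] (by decide +kernel))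
noncomputable def rh4a1b6efc1cdcd820 : CRef := CRef.mk (Pat.mk 0x9000000090000000b 0x140000001e0000001e0000001e0000001f0000001b0000000f 5 5) 0 0 (step_sound _ 99 [rh00791f29c690d9b1, rh04f114aaecefdbd4, rh21c15f9070403438, rh51f3cb18376f31fa, (rhc85cc95794737cf7.shift 2 0)] (by decide +kernel))
noncomputable def rh351e1775897306ef : CRef := CRef.mk (Pat.mk 0x9000000080000000b0000000000000000 0x100000001c0000001f000000080000000f0000001800000010 5 5) 0 0 (step_sound _ 35 [(rh23891cd3704c2248.shift 0 1), rh5f11ee373cbffcaa] (by decide +kernel))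
noncomputable def rhfd6ec4c8579a04e7 : CRef := CRef.mk (Pat.mk 0x900000009000000080000000000000000 0x4000000040000003c0000001f0000001b000000080000000800000008 5 6) 0 0 (step_sound _ 130 [rh35f73fa4676bfd5f, (rh9846b30ca65be1e9.shift 0 1), (rhb1a251d9bff81766.shift 2 1), (rhd78cfb539bf34ebf.shift 0 3)] (by decide +kernel))
noncomputable def rh7e1a74a5227c2cdc : CRef := CRef.mk (Pat.mk 0x40000000d0000000b0000000000000000 0x100000001c0000000f0000000f0000001800000018 5 5) 0 0 (step_sound _ 35 [(rh7b1f1fb55310c477.shift 2 0), rhd4544548cec165bc] (by decide +kernel))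
noncomputable def rh8f10bb8289885fc6 : CRef := CRef.mk (Pat.mk 0x40000000d0000000b000000000000000000000000 0x400000004000000040000000f0000000f0000000a0000000a00000002 5 4) 0 0 (step_sound _ 35 [rh3110541e74b7acc2, (rh9e07f76261b05888.shift 2 1)] (by decide +kernel))
noncomputable def rhafa7fde1e959f301 : CRef := CRef.mk (Pat.mk 0x2000000030000000300000000 0x70000000700000007000000030000000300000002 5 3) 0 0 (step_sound _ 129 [(rh5c5e593799055d58.shift 0 1), rhc4055b4872d6fb38] (by decide +kernel))
noncomputable def rhdb54ba94a80dc88f : CRef := CRef.mk (Pat.mk 0x1c0000000c00000008 0xc0000001c0000003c0000001f0000000c00000008 5 6) 0 0 (step_sound _ 130 [rh6ecdd18e5ed65c1a, (rh6f1cbe15c631ee70.shift 2 0)] (by decide +kernel))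
noncomputable def rhb677462e6b309c2e : CRef := CRef.mk (Pat.mk 0x1a0000001a0000000000000000 0x4000000070000003f0000001a0000000200000002 5 6) 0 0 (step_sound _ 98 [(rhb739f4f82bb681b4.shift 0 2), rhd1f95657bcbb399e] (by decide +kernel))
noncomputable def rha3c23f12701b0ffc : CRef := CRef.mk (Pat.mk 0x80000001a00000002000000000000000000000000 0x100000001000000030000000f0000001e00000003000000030000000100000001 5 5) 0 0 (step_sound _ 161 [(rh01e48cd9f335aa73.shift 0 3), (rh46990448042cc692.shift 0 2), rh5c8c873042790be0] (by decide +kernel))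
noncomputable def rhbde66912cb91526b : CRef := CRef.mk (Pat.mk 0x80000001a0000001a000000000000000000000000 0x400000015000000370000001f0000007b0000001b000000170000001700000005 5 7) 0 0 (step_sound _ 161 [(rh4f1df453014b0993.shift 0 1), (rh58ffa0133807a088.shift 0 2), (rh6380ca6fab66e38a.shift 0 2), rh9025223dca583e9f] (by decide +kernel))
noncomputable def rh9106cea440f48aab : CRef := CRef.mk (Pat.mk 0x1e00000006000000000000000000000000 0x600000006000000070000001e00000006000000030000000300000003 5 5) 0 0 (step_sound _ 161 [rh2d8abb7cdac0a219, (rh3244c3cc8379b070.shift 0 4)] (by decide +kernel))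
noncomputable def rhf843410b9106fcb3 : CRef := CRef.mk (Pat.mk 0xc0000000c000000080000000800000000 0x100000003c0000000f000000080000001c00000014 5 6) 0 0 (step_sound _ 2 [(rh79877ebd3ef475dd.shift 2 0), rh80d10083eb6a67cd] (by decide +kernel))
noncomputable def rh85fdf627cabc37cf : CRef := CRef.mk (Pat.mk 0x18000000000000001800000058 0x1ff000000fe000001e7000000f80000005e 5 9) 0 0 (step_sound _ 101 [rh599593534120762a, rh61eab3dfe16d8626, rh72858623438d879e, (rh839694f7087737eb.shift 1 2), (rh9b373150cdf4efef.shift 1 0), (rhc4ab2840dc579186.shift 2 0), (rhc886af0c19e5a3a5.shift 0 2), rhd3527382b170398a] (by decide +kernel))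
noncomputable def rh385d72c5ef37be10 : CRef := CRef.mk (Pat.mk 0x18000000080000001800000018 0x640000007c0000001f0000007c00000018 5 7) 0 0 (step_sound _ 98 [(rh50fbb5868c909700.shift 2 0), rhd6bddf675aae9b87] (by decide +kernel))
noncomputable def rhfa1081766c226f16 : CRef := CRef.mk (Pat.mk 0x140000000c0000000c 0x18000000380000003f0000000f0000000c 5 6) 0 0 (step_sound _ 67 [(rh4dc133ee0ba1420a.shift 0 1), rhfb59f5994f5eeb4d] (by decide +kernel))
noncomputable def rh2f0aa03ccf0e6806 : CRef := CRef.mk (Pat.mk 0xa000000060000001600000000 0xc0000000c0000003e0000003f0000001600000010 5 6) 0 0 (step_sound _ 100 [(rh181d5ab87aff9399.shift 1 0), (rh3ec8ec076f6e0db2.shift 0 2), (rhb3e2fd80fdf1f29c.shift 0 1)] (by decide +kernel))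
noncomputable def rh659c529936a77dd0 : CRef := CRef.mk (Pat.mk 0x280000001800000018 0x24000000670000003f0000007f00000018 5 7) 0 0 (step_sound _ 66 [(rh4ca5dae25f5c14ff.shift 0 1), (rhbb20792b3fb400d5.shift 1 0), rhd166a190eea08e30, (rhdeca8db941583de2.shift 0 1)] (by decide +kernel))
noncomputable def rh6ad5d74f467e265c : CRef := CRef.mk (Pat.mk 0x28000000180000005800000000 0x30000000f7000000ff000000f80000005800000040 5 8) 0 0 (step_sound _ 100 [(rh1f0767c7fefae130.shift 2 0), (rha3eb0745c7730869.shift 0 2), (rhb8f5a25926f148d6.shift 3 0), (rhfb59f5994f5eeb4d.shift 1 1)] (by decide +kernel))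
noncomputable def rh8fe7170401fd2add : CRef := CRef.mk (Pat.mk 0x280000001800000018 0xef000000ff00000018 5 8) 0 0 (step_sound _ 37 [(rh2385381938a01cf3.shift 2 0), rh370625f794a30c38, (rhb762f327c85d41a0.shift 2 0)] (by decide +kernel))
noncomputable def rh50a900181204f7e7 : CRef := CRef.mk (Pat.mk 0x28000000180000004800000000 0x4000000e7000000ff000000df0000004800000040 5 8) 0 0 (step_sound _ 100 [(rh1f0767c7fefae130.shift 2 0), (rh4dc133ee0ba1420a.shift 1 2), (rha3774eaddfa491d5.shift 0 1)] (by decide +kernel))
noncomputable def rhe703c8505854daa7 : CRef := CRef.mk (Pat.mk 0xc000000040000000c0000000c00000000 0x320000003e0000000f0000000c0000000e00000002 5 6) 0 0 (step_sound _ 129 [rh0483ac4b5864783c, (rh50fbb5868c909700.shift 1 1)] (by decide +kernel))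
noncomputable def rh8fc8102a12cae270 : CRef := CRef.mk (Pat.mk 0x8000000000000001c00000018 0x1800000018000000300000001f0000001b 5 6) 0 0 (step_sound _ 33 [rhb739f4f82bb681b4, rhdeb5ac9ca57fe4a7] (by decide +kernel))
noncomputable def rhb458910feb3ee319 : CRef := CRef.mk (Pat.mk 0x8000000000000001c00000018 0x1800000018000000330000001f00000018 5 6) 0 0 (step_sound _ 33 [rhb739f4f82bb681b4, rhc44238f1c20af7fd] (by decide +kernel))
noncomputable def rh31e6ad3683c68b2e : CRef := CRef.mk (Pat.mk 0x600000000000000040000000400000000 0xa0000000f0000003c000000040000000400000004 5 6) 0 0 (step_sound _ 98 [(rh50fbb5868c909700.shift 1 1), rh5eb116785a745a33] (by decide +kernel))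
noncomputable def rhfc714aa8878fdb73 : CRef := CRef.mk (Pat.mk 0x600000000000000060000000600000000 0xc0000000f0000003c000000060000000600000004 5 6) 0 0 (step_sound _ 98 [(rh5c5e593799055d58.shift 1 1), rh5eb116785a745a33] (by decide +kernel))
noncomputable def rh8cf0b8cbd1c9c6c0 : CRef := CRef.mk (Pat.mk 0x3000000000000000380000001000000000 0x1ff000000fe000001cf000000380000001e00000004 5 9) 0 0 (step_sound _ 131 [(rh04b80be1dd2c7952.shift 1 3), (rh099d444677688b93.shift 0 1), (rh593c461c37a56aa7.shift 0 1), (rh94eecf20a5b238dd.shift 1 0)] (by decide +kernel))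
noncomputable def rhee83cf6805d08263 : CRef := CRef.mk (Pat.mk 0x8000000000000001e00000018 0x1800000018000000330000001e0000001b 5 6) 0 0 (step_sound _ 0 [rh80fcd6d0a18cb2dd, rhc44238f1c20af7fd] (by decide +kernel))
noncomputable def rh1c44f819ea18af04 : CRef := CRef.mk (Pat.mk 0x380000001800000010 0x2000000020000000700000003f0000001f00000010 5 7) 0 0 (step_sound _ 33 [(rh24ae073cf30720c4.shift 1 1), rh343d1fd3368a933d] (by decide +kernel))
noncomputable def rheed30e75f61270a8 : CRef := CRef.mk (Pat.mk 0x180000001e000000100000000000000000 0x20000000300000001f0000001e000000180000001800000018 5 6) 0 0 (step_sound _ 36 [rh12e953d774aafc9e, (rh7b1f1fb55310c477.shift 3 0)] (by decide +kernel))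
noncomputable def rh81ffcb7ffeb30006 : CRef := CRef.mk (Pat.mk 0xa000000080000000b00000000 0x4000000040000000c0000000f000000180000000f00000008 5 5) 0 0 (step_sound _ 68 [(rh1c62b6193297d9e3.shift 0 1), rhb6022c8b4e3bf0ea] (by decide +kernel))
noncomputable def rh8d6d39585aa62640 : CRef := CRef.mk (Pat.mk 0xa00000008000000080000000000000000 0x4000000140000001c0000001f00000078000000080000000800000008 5 7) 0 0 (step_sound _ 130 [(rh34d6385eab491db0.shift 0 1), (rh4a18dd0a1b89a7b5.shift 0 1), (rh5325751301e7c463.shift 0 1), (rh8ee80cc30e93a344.shift 0 3), (rhebb306d4866abd5e.shift 1 0)] (by decide +kernel))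
noncomputable def rhe83083a0b9ea5815 : CRef := CRef.mk (Pat.mk 0xa000000080000000b0000000000000000 0x100000001c0000001f000000080000000f0000001800000010 5 5) 0 0 (step_sound _ 35 [rh5f11ee373cbffcaa, (rh7182140bdec2c358.shift 0 1)] (by decide +kernel))
noncomputable def rh7f15fa011d28c2cf : CRef := CRef.mk (Pat.mk 0x8000000080000000b00000000 0x140000001c0000001c000000180000000f00000018 5 5) 0 0 (step_sound _ 34 [(rh33e738c4ed385b9f.shift 0 1), rh507b9d90c088b3f0] (by decide +kernel))
noncomputable def rh16cef82952087e3f : CRef := CRef.mk (Pat.mk 0x4000000080000000b0000000900000001 0x100000001e0000001f0000000a0000000b0000000b00000001 5 5) 0 0 (step_sound _ 131 [rh11fd272cb5992d12, (rh50fbb5868c909700.shift 2 1)] (by decide +kernel))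
noncomputable def rhd06ce55d14e03f0f : CRef := CRef.mk (Pat.mk 0x800000008000000080000000b0000000100000001 0x100000007a0000001f0000000a0000000b0000000300000001 5 7) 0 0 (step_sound _ 164 [(rh2f68792b6b779e96.shift 3 2), rh6167c9816cf4762b] (by decide +kernel))
noncomputable def rh0b063257b0af5352 : CRef := CRef.mk (Pat.mk 0x1000000010000000100000001600000002 0x80000001c0000001f000000340000001600000016 5 6) 0 0 (step_sound _ 131 [rh2abc9afeb59f252d, (rh50fbb5868c909700.shift 3 1)] (by decide +kernel))
noncomputable def rh663264680379580a : CRef := CRef.mk (Pat.mk 0x400000008000000080000000b00000001 0x100000003f0000003f0000000a0000000b00000009 5 6) 0 0 (step_sound _ 132 [(rh2e02ae96d64880aa.shift 2 0), rhd59063e0c67b40c1, rhe76333e819872155] (by decide +kernel))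
noncomputable def rhc929e02a5b6e9526 : CRef := CRef.mk (Pat.mk 0x1000000010000000100000001600000002 0x80000003c0000001f000000140000001600000016 5 6) 0 0 (step_sound _ 131 [(rh50fbb5868c909700.shift 3 1), rhaaff34b08612206f] (by decide +kernel))
noncomputable def rh196fb5a7fa564d15 : CRef := CRef.mk (Pat.mk 0x800000008000000080000000b0000000100000001 0x18000000180000001e0000000e0000001e0000000b0000000b00000009 5 5) 0 0 (step_sound _ 196 [(rhbaefcd01e0a8bca3.shift 3 2), rheb37ac6a0daaaba3] (by decide +kernel))
noncomputable def rhd29ab6c03998dfa3 : CRef := CRef.mk (Pat.mk 0x800000008000000080000000b0000000100000001 0x40000001c0000001c0000001a0000000e0000001e0000000b0000000300000001 5 5) 0 0 (step_sound _ 97 [rh69755ef358ebfd54, (rh8912f19c16d7f53e.shift 0 2)] (by decide +kernel))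
noncomputable def rh5e9756a408d0dd9b : CRef := CRef.mk (Pat.mk 0x8000000080000000b000000090000000100000000 0x20000001a0000001e0000000b0000001b0000001900000010 5 5) 0 0 (step_sound _ 36 [rh85eb91a220f5070a, (rhd3458b32566d63f7.shift 3 1)] (by decide +kernel))
noncomputable def rhe628ebbbd21aa988 : CRef := CRef.mk (Pat.mk 0x8000000080000000b0000000900000001 0x60000001f0000007a0000000b0000000b00000001 5 7) 0 0 (step_sound _ 130 [rh1954ed0d9ea4c7c3, (rh50fbb5868c909700.shift 2 1)] (by decide +kernel))
noncomputable def rh63cdba9bf27276ad : CRef := CRef.mk (Pat.mk 0x80000000a0000000b00000000 0x1000000010000000180000007c0000001e0000000b00000008 5 7) 0 0 (step_sound _ 66 [(rh18965a982d73c794.shift 0 1), (rh64210d62cede1278.shift 1 0)] (by decide +kernel))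
noncomputable def rhbc5d78a8148e8419 : CRef := CRef.mk (Pat.mk 0x800000008000000080000000b0000000100000001 0x1000000018000000180000001a0000001a0000001e0000000b0000000b00000009 5 5) 0 0 (step_sound _ 100 [rh7e46dfea8e293018, (rhe53958ffbb9ed408.shift 3 0)] (by decide +kernel))
noncomputable def rhd5095feff1af5e55 : CRef := CRef.mk (Pat.mk 0x800000008000000080000000b0000000100000001 0xc0000000c0000001e0000001a0000001e0000000b0000000b00000009 5 5) 0 0 (step_sound _ 194 [rh3ad9965346963acf, (rhffd04209dc8ea796.shift 2 2)] (by decide +kernel))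
noncomputable def rhfded4d983eb5f62a : CRef := CRef.mk (Pat.mk 0x800000008000000080000000b0000000100000001 0x100000001c0000001c0000000e0000001a0000001e0000000b0000000300000001 5 5) 0 0 (step_sound _ 97 [rh69755ef358ebfd54, (rh8f2d710dd4ae4542.shift 0 2)] (by decide +kernel))
noncomputable def rhf18bb985e040fc9e : CRef := CRef.mk (Pat.mk 0x8000000080000000b0000000900000001 0x120000007e0000001e0000000b0000000b00000001 5 7) 0 0 (step_sound _ 132 [rh0f2ccc0dd23053dc, (rh2f68792b6b779e96.shift 3 1)] (by decide +kernel))
noncomputable def rh60ba89758ecc1ca1 : CRef := CRef.mk (Pat.mk 0x800000008000000080000000b0000000100000001 0x100000001c0000001c0000000e0000000e0000001e0000000b0000000300000001 5 5) 0 0 (step_sound _ 97 [(rh49db67ea0c0f33ac.shift 0 2), rh69755ef358ebfd54] (by decide +kernel))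
noncomputable def rhcb3f1f25da09c743 : CRef := CRef.mk (Pat.mk 0x800000008000000080000000b 0x140000001c0000001c0000000c0000001c0000001c0000001e0000000b 5 5) 0 0 (step_sound _ 131 [rh0473af495c1e2600, rh32b120fe634ad3db, (rh3ca48e2a6d60153d.shift 2 0), rhb4273c35f1cde739] (by decide +kernel))
noncomputable def rh5a6ec0cd30a4a862 : CRef := CRef.mk (Pat.mk 0x1a0000000a0000000000000000 0x1000000010000000300000001e0000001b0000000800000008 5 6) 0 0 (step_sound _ 98 [(rhe5ad44e27e846693.shift 1 0), (rheb0810cc63b001d8.shift 0 2)] (by decide +kernel))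
noncomputable def rh16ffcf79af18348f : CRef := CRef.mk (Pat.mk 0xc0000000f000000000000000000000000 0x1800000018000000180000000c0000000f0000001c0000000c0000000c 5 5) 0 0 (step_sound _ 67 [(rh31387895e755a011.shift 2 0), (rhe25b0a99195a5d59.shift 0 2)] (by decide +kernel))
noncomputable def rh852eadb4da3f1beb : CRef := CRef.mk (Pat.mk 0x2000000020000000300000000 0x50000000700000007000000020000000300000003 5 3) 0 0 (step_sound _ 129 [rh932754581e0f4330, rhc4055b4872d6fb38] (by decide +kernel))
noncomputable def rhe1a2cced5a4a5e54 : CRef := CRef.mk (Pat.mk 0x4000000040000000600000000000000000000000000000000 0x600000006000000070000003e0000000e0000000e00000002 5 6) 0 0 (step_sound _ 98 [(rh1861173042f24e9a.shift 0 2), (rh5d80382ac3a74c83.shift 1 0), (rh8cdd36b03d57a2f6.shift 1 1), (rhbd78a571ffa91fb9.shift 1 1), (rhd1fa8140a3eb151f.shift 1 1)] (by decide +kernel))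
noncomputable def rhe8ec433c232d8867 : CRef := CRef.mk (Pat.mk 0x2000000020000000300000000000000000000000000000000 0x50000000700000007000000030000000300000006000000070000000700000001 5 3) 0 0 (step_sound _ 97 [rh5d80382ac3a74c83, (rhbd78a571ffa91fb9.shift 0 1), (rhc85cc95794737cf7.shift 0 3)] (by decide +kernel))
noncomputable def rh4f096db12cc0d3e0 : CRef := CRef.mk (Pat.mk 0x100000001600000010000000100000000000000000 0x200000016000000370000003e0000007c0000002c00000008 5 7) 0 0 (step_sound _ 98 [(rh174f5121708c891e.shift 1 1), (rh46e27c7e279c1ec2.shift 0 1), (rh6a02af414051caec.shift 1 1), (rhbfc2752e88253928.shift 1 0), (rhd6251b13e4ace983.shift 0 1)] (by decide +kernel))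
noncomputable def rhb6f6cd8dc083632c : CRef := CRef.mk (Pat.mk 0x60000000200000000000000020000000000000000 0x4000000060000000200000002000000070000000700000005 5 3) 0 0 (step_sound _ 97 [(rh2f68792b6b779e96.shift 1 2), rh8cdd36b03d57a2f6] (by decide +kernel))
noncomputable def rhce0b7bc5682e74c8 : CRef := CRef.mk (Pat.mk 0x20000000380000000000000030000000000000000000000000 0x2800000038000001df000000fe000000ff0000001000000010 5 9) 0 0 (step_sound _ 99 [(rh16917461a2af9020.shift 1 2), (rhb54390edcf8a95c3.shift 0 2), (rhb6cae17d472dd660.shift 0 2), (rhf22063b6e12572dd.shift 3 0)] (by decide +kernel))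
noncomputable def rh2ed1aaebcaddbf85 : CRef := CRef.mk (Pat.mk 0x180000000a000000000000001c00000000 0x180000001f000000f00000003e00000018 5 8) 0 0 (step_sound _ 98 [(rh0c6bdea858fdba6a.shift 1 0), (rh53b3c253cb0c65f4.shift 0 3)] (by decide +kernel))
noncomputable def rhd63d7a9459e9dc55 : CRef := CRef.mk (Pat.mk 0x3000000014000000000000003800000000 0x300000001e000000080000007c0000000f 5 7) 0 0 (step_sound _ 99 [(rh53b3c253cb0c65f4.shift 1 3), rhd8970f20df7aae31] (by decide +kernel))
noncomputable def rh53994c51e2dce3fa : CRef := CRef.mk (Pat.mk 0x3000000014000000000000003800000000 0x300000001e00000008000000780000001f 5 7) 0 0 (step_sound _ 99 [(rh53b3c253cb0c65f4.shift 1 3), rhb31ed74e4c4d2f19] (by decide +kernel))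
noncomputable def rh12ab84cc799fd787 : CRef := CRef.mk (Pat.mk 0x3000000014000000000000003800000000 0x300000003e000000600000003e00000077 5 7) 0 0 (step_sound _ 69 [rh74109dc06a003107, (rhdc23d12011095348.shift 4 0), (rhf297bf1de2732294.shift 1 1)] (by decide +kernel))
noncomputable def rh344e262adf822b5a : CRef := CRef.mk (Pat.mk 0x4000000000000000000000001c00000000 0x4000000040000000e00000007e0000007f 5 8) 0 0 (step_sound _ 37 [rh008b05f4778dc30d, (rh3b00e9e9432b8f40.shift 1 0), (rh90111ab63c1cb216.shift 2 0)] (by decide +kernel))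
noncomputable def rh06c267ef35e51e85 : CRef := CRef.mk (Pat.mk 0x200000002c00000000000000300000000000000000 0x2c0000006c000001cf000000fe000001ff00000010 5 9) 0 0 (step_sound _ 67 [(rh83cc5b56a0fe54bf.shift 0 1), rha4576749d8ce5073, (rhdfcb0bd691cb0040.shift 2 1), (rhfc91f7ac1b4d8bb8.shift 2 1)] (by decide +kernel))
noncomputable def rhef1b4acf7bbfd4ed : CRef := CRef.mk (Pat.mk 0x180000000e000000000000000c00000000 0x20000001b0000001e000000370000001c0000001c 5 6) 0 0 (step_sound _ 66 [(rh71222050f2c63a3a.shift 2 0), rhdfb0db7019a6fa1a] (by decide +kernel))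
noncomputable def rh16c56d9010d6e661 : CRef := CRef.mk (Pat.mk 0x20000000380000000000000030000000000000000000000000 0x28000000780000001f0000003c000000180000001000000010 5 7) 0 0 (step_sound _ 131 [(rh198f6e45d5dea666.shift 3 0), rhaace04c8f30afe3d, (rhf0f55c4504412200.shift 0 4)] (by decide +kernel))
noncomputable def rhf9726e4489c7bdd9 : CRef := CRef.mk (Pat.mk 0x6000000038000000000000003000000000 0x6000000078000003df000001fc000003ee 5 10) 0 0 (step_sound _ 38 [(rh0c6bdea858fdba6a.shift 3 0), (rh4f68b5a7ce794fa7.shift 0 1), (rh9243bb8874ce0207.shift 2 0), (rha70022fdee1445c8.shift 1 0), (rhabb630fbfb9348e3.shift 1 0), (rheafa19b129158648.shift 1 0), (rhed3511690575b210.shift 1 0)] (by decide +kernel))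
noncomputable def rh02026f7327161663 : CRef := CRef.mk (Pat.mk 0x4000000000000001c000000000000000000000000 0x4000000040000000e0000007e0000000f0000000800000008 5 7) 0 0 (step_sound _ 130 [(rh046c5eb18e55a239.shift 2 0), (rhdd788b0787760312.shift 0 2), (rhe8ea5f2a637fddf3.shift 1 1)] (by decide +kernel))
noncomputable def rh41aa95197e245b8e : CRef := CRef.mk (Pat.mk 0x80000000a000000000000000e000000000000000000000000 0xa0000001a000000370000001e000000340000000400000004 5 6) 0 0 (step_sound _ 100 [(rh6797c410c820e91e.shift 1 2), rh85a0d1c6f8209481] (by decide +kernel))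
noncomputable def rh6fda775fe6b56251 : CRef := CRef.mk (Pat.mk 0x80000000a000000000000000e0000000000000000 0xa0000001a000000330000001e0000003700000004 5 6) 0 0 (step_sound _ 68 [(rh6797c410c820e91e.shift 1 1), rhdc42aff5a1888dc1] (by decide +kernel))
noncomputable def rh7ef906ef8614ae01 : CRef := CRef.mk (Pat.mk 0x1000000010000000000000001c00000000 0x1000000030000000e00000007e0000007f 5 8) 0 0 (step_sound _ 37 [rh008b05f4778dc30d, (rh3b00e9e9432b8f40.shift 1 0), (rh6797c410c820e91e.shift 2 0)] (by decide +kernel))
noncomputable def rhdb2077881d7b7bf4 : CRef := CRef.mk (Pat.mk 0x800000000000000380000000000000000 0x8000000080000000f0000003e0000007700000004 5 7) 0 0 (step_sound _ 66 [(rh008b05f4778dc30d.shift 0 1), (rh0d378fd9e8917c5a.shift 0 1), (rh775ca1963e850b80.shift 0 1), (rhcfa1331ee75eea2b.shift 1 0)] (by decide +kernel))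
noncomputable def rh5a9b633495f36ee3 : CRef := CRef.mk (Pat.mk 0x1000000010000000000000001c00000000 0x1000000030000000670000003e00000077 5 7) 0 0 (step_sound _ 37 [rh008b05f4778dc30d, (rh6797c410c820e91e.shift 2 0), rh775ca1963e850b80] (by decide +kernel))
noncomputable def rhcc3f17434fb9b3cf : CRef := CRef.mk (Pat.mk 0x180000000e000000000000000c00000000 0x1b0000001e000000370000001e0000001c 5 6) 0 0 (step_sound _ 2 [(rh04253f50b6dd0619.shift 2 0), rh266e53b94f915c3d] (by decide +kernel))
noncomputable def rhaf2c70f7ec9f2a7d : CRef := CRef.mk (Pat.mk 0x1800000008000000020000000800000000 0x1000000018000000080000000f0000001e00000014 5 5) 0 0 (step_sound _ 67 [(rh2f68792b6b779e96.shift 3 1), rhc32899ca69d8b859] (by decide +kernel))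
noncomputable def rh8690857bca43a8d3 : CRef := CRef.mk (Pat.mk 0x20000000380000000800000020000000000000000000000000 0x1000000030000000380000001f0000007c0000003c0000001c00000014 5 7) 0 0 (step_sound _ 99 [(rh04b9c9d4cca65bce.shift 2 0), (rh15590a39afd9a120.shift 2 0), (rhb3cb9bd695510282.shift 0 2), (rhfa40f754f1f7b88f.shift 2 0)] (by decide +kernel))
noncomputable def rhe436d0bcd01a172d : CRef := CRef.mk (Pat.mk 0x80000000e0000000a000000000000000000000000 0xc0000001e0000007e000000330000001200000012 5 7) 0 0 (step_sound _ 100 [(rh4a0b10776449c3e9.shift 1 3), (rh89ade209b3e28f13.shift 1 3), rhd23c45b6a91bed6f] (by decide +kernel))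
noncomputable def rhb2ccde93dbf90856 : CRef := CRef.mk (Pat.mk 0x400000014000000140000000000000000 0xa0000000e0000000e00000006000000370000003e0000000600000002 5 6) 0 0 (step_sound _ 162 [(rh68eb33a74fda9aa8.shift 0 1), (rh6aa5625770489e83.shift 1 0), (rhc85cc95794737cf7.shift 1 2)] (by decide +kernel))
noncomputable def rhf16850b0428fad7c : CRef := CRef.mk (Pat.mk 0x20000000a0000000a00000000 0x50000000700000007000000020000001a0000000f00000005 5 5) 0 0 (step_sound _ 129 [(rhc85cc95794737cf7.shift 0 1), rhe8768a83bdb59c61] (by decide +kernel))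
noncomputable def rhfbcf3eec14d270a5 : CRef := CRef.mk (Pat.mk 0x40000000400000014000000000000000000000000 0x200000006000000060000003c0000000f0000000e0000000a 5 6) 0 0 (step_sound _ 66 [(rh46baee19951a66e7.shift 1 0), (rh6aa5625770489e83.shift 1 0), (rh8cdd36b03d57a2f6.shift 1 0), (rh9235486165d5c3a8.shift 0 1)] (by decide +kernel))
noncomputable def rh5e9a10d60d9e84e3 : CRef := CRef.mk (Pat.mk 0x20000000a0000000a0000000000000000 0x100000003000000030000001a0000000f0000000700000005 5 5) 0 0 (step_sound _ 161 [rh46baee19951a66e7, rh6aa5625770489e83, rh8cdd36b03d57a2f6, (rhe8768a83bdb59c61.shift 0 1)] (by decide +kernel))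
noncomputable def rh84fb934de447321f : CRef := CRef.mk (Pat.mk 0x90000000d0000000500000000 0x20000000a0000001f0000001b0000000f0000000500000001 5 5) 0 0 (step_sound _ 131 [(rh5c5e593799055d58.shift 2 1), rhf390196cc2b77191] (by decide +kernel))
noncomputable def rh4668f7b1f0342830 : CRef := CRef.mk (Pat.mk 0x120000001a0000000a000000000000000000000000 0x500000007000000170000001a0000000a0000000f0000000f00000005 5 5) 0 0 (step_sound _ 35 [rh34f01bbeada41651, (rh9e3edb185cc347de.shift 3 1)] (by decide +kernel))
noncomputable def rh0332afaeb918a29c : CRef := CRef.mk (Pat.mk 0x40000000c00000014000000000000000000000000 0xc0000000c0000000c0000000c0000001c0000000f0000000e00000006 5 5) 0 0 (step_sound _ 99 [rh12008a569febfbdd, (rh2d8abb7cdac0a219.shift 1 0), (rh55a1f6c57a317ce6.shift 2 1)] (by decide +kernel))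
noncomputable def rhd4a0b197dd825127 : CRef := CRef.mk (Pat.mk 0x20000001e0000000a0000000000000000 0x6000000360000001e0000001e0000000700000007 5 6) 0 0 (step_sound _ 132 [(rh33e738c4ed385b9f.shift 1 3), rhf57d39be65f1710c] (by decide +kernel))
noncomputable def rh6c102e47c7c1db51 : CRef := CRef.mk (Pat.mk 0x100000001e0000000a0000000000000000 0x600000006000000170000001e0000000e0000000e00000008 5 5) 0 0 (step_sound _ 129 [(rh3244c3cc8379b070.shift 0 3), (rhde96ca082bae2d88.shift 1 0)] (by decide +kernel))
noncomputable def rh25d7f9f6acba8cab : CRef := CRef.mk (Pat.mk 0x1e0000000a0000000000000000 0x6000000070000001e0000001e0000000700000007 5 5) 0 0 (step_sound _ 129 [(rh3244c3cc8379b070.shift 0 3), rhf57d39be65f1710c] (by decide +kernel))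
noncomputable def rhbef3c6defa7e81af : CRef := CRef.mk (Pat.mk 0x20000001e0000000a000000000000000000000000 0x50000000700000007000000160000001e0000000e0000000c0000000800000008 5 5) 0 0 (step_sound _ 193 [(rhbff386e5c565a487.shift 1 0), (rhc85cc95794737cf7.shift 0 3), (rhd4b4beefcd67f51e.shift 1 2)] (by decide +kernel))
noncomputable def rh8b37cb65627f8d57 : CRef := CRef.mk (Pat.mk 0x20000000200000002000000000000000000000000 0x500000007000000070000000300000002000000070000000700000005 5 3) 0 0 (step_sound _ 65 [rh46baee19951a66e7, rh6aa5625770489e83, rh8cdd36b03d57a2f6, (rhc85cc95794737cf7.shift 0 2)] (by decide +kernel))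
noncomputable def rh76ed575b1d8b1ecb : CRef := CRef.mk (Pat.mk 0x20000000e0000000a0000000000000000 0x30000000700000007000000060000000e0000000e0000000e0000000e 5 4) 0 0 (step_sound _ 130 [rh208c73c66d2a62cd, (rh5d54cb79a67f97ab.shift 2 0), (rhea7a1800d6f053bd.shift 1 0)] (by decide +kernel))
noncomputable def rhf09609036bc2fea4 : CRef := CRef.mk (Pat.mk 0x20000000e0000000a0000000000000000 0x400000006000000060000000e0000001e0000000f0000000f 5 5) 0 0 (step_sound _ 130 [(rh5d54cb79a67f97ab.shift 2 0), rh626d66e11a785aae, (rhea7a1800d6f053bd.shift 1 0)] (by decide +kernel))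
noncomputable def rhe90bd37150c599ac : CRef := CRef.mk (Pat.mk 0x1a0000000e0000000200000000000000000000000000000000 0x2000000120000001b0000001e0000003e0000000f0000000f0000000700000005 5 6) 0 0 (step_sound _ 97 [rh218cd2e070c414fb, (rh4b97adfc09ba9c0a.shift 0 2), (rh80a078ff2631050c.shift 0 1), (rh8cdd36b03d57a2f6.shift 0 1), rhf72e9f6382081269] (by decide +kernel))
noncomputable def rh839031215f33689d : CRef := CRef.mk (Pat.mk 0x340000001c000000040000000000000000 0x400000024000000340000001c0000007f0000007f0000002a 5 7) 0 0 (step_sound _ 67 [(rh3af54b5f78790764.shift 0 1), (rh3ebc98c19791ad58.shift 2 0), rh99a909c62208922e] (by decide +kernel))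
noncomputable def rhbcb84ffbabf39323 : CRef := CRef.mk (Pat.mk 0x1a0000000a000000020000000200000000 0x110000001b0000001e0000001b0000001e0000001c 5 5) 0 0 (step_sound _ 100 [(rh01e48cd9f335aa73.shift 0 2), (rh5e05da03898e7023.shift 0 1), rh9bc060a7598ec347] (by decide +kernel))
noncomputable def rh6ddadbbf205209c9 : CRef := CRef.mk (Pat.mk 0x200000002000000020000000000000000 0x500000007000000070000000300000006000000060000000600000004 5 3) 0 0 (step_sound _ 161 [rh46baee19951a66e7, (rhc85cc95794737cf7.shift 0 2), (rhced6d86d2069808b.shift 1 1)] (by decide +kernel))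
noncomputable def rh8ea24082e2eb6e0b : CRef := CRef.mk (Pat.mk 0x800000028000000080000000000000000 0x140000001c0000001c0000000c000000780000001f0000000c00000004 5 7) 0 0 (step_sound _ 163 [(rh50d4d0fd838213a3.shift 0 1), (rh6aa5625770489e83.shift 2 0), (rhc85cc95794737cf7.shift 2 2)] (by decide +kernel))
noncomputable def rh10343b5299c79027 : CRef := CRef.mk (Pat.mk 0x6800000028000000080000000800000000 0x440000006c000000780000003f00000078000000f0 5 8) 0 0 (step_sound _ 36 [rh3d5133f2492a1115, (rh55afc6a59410cf00.shift 3 0)] (by decide +kernel))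
noncomputable def rh3c3f8d0d524b5925 : CRef := CRef.mk (Pat.mk 0x6800000028000000080000000800000000 0x440000006c000000780000002f0000007c000000f0 5 8) 0 0 (step_sound _ 36 [(rh55afc6a59410cf00.shift 3 0), rh75473f57dd7188f8] (by decide +kernel))
noncomputable def rh14dcbc8835b858fa : CRef := CRef.mk (Pat.mk 0x6800000028000000080000000800000000 0x40000000400000004000000068000000680000007c0000002f00000004 5 7) 0 0 (step_sound _ 34 [(rh87c928345dac61e4.shift 0 1), (rh932754581e0f4330.shift 2 0)] (by decide +kernel))
noncomputable def rha7e3fae51f690a4d : CRef := CRef.mk (Pat.mk 0x6800000028000000080000000800000000 0x4000000040000000400000006800000068000000780000003f00000004 5 7) 0 0 (step_sound _ 34 [(rh1c91efc42f47d779.shift 0 1), (rh932754581e0f4330.shift 2 0)] (by decide +kernel))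
noncomputable def rh92024f138ce01414 : CRef := CRef.mk (Pat.mk 0x3c0000000400000000000000000000000000000000 0x80000000c0000000f0000003e0000000c0000000c0000000e0000000600000002 5 6) 0 0 (step_sound _ 98 [(rh15590a39afd9a120.shift 1 0), (rh3998ad7415607566.shift 0 2), (rh3bdda7c820813247.shift 1 2), (rhd8589df49ad97764.shift 1 2)] (by decide +kernel))
noncomputable def rh88ab48d76511735c : CRef := CRef.mk (Pat.mk 0x1e000000080000000000000000 0x1000000010000000330000001e000000180000000800000008 5 6) 0 0 (step_sound _ 128 [(rh3f8766e6ecb455ce.shift 0 3), (rhe5ad44e27e846693.shift 1 0)] (by decide +kernel))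
noncomputable def rh40298740c3651092 : CRef := CRef.mk (Pat.mk 0x1e0000001a0000000000000000 0x4000000370000001e0000001e0000000300000003 5 6) 0 0 (step_sound _ 129 [(rh3244c3cc8379b070.shift 0 3), rh92f835c4c997855c] (by decide +kernel))
noncomputable def rh26f99b722e27bd97 : CRef := CRef.mk (Pat.mk 0x4000000040000001600000000000000000000000000000000 0x600000006000000370000001e0000000e0000000e00000002 5 6) 0 0 (step_sound _ 98 [(rh48cde597676806b0.shift 0 2), (rh5d80382ac3a74c83.shift 1 0), (rh8cdd36b03d57a2f6.shift 1 1), (rhbd78a571ffa91fb9.shift 1 1), (rhd1fa8140a3eb151f.shift 1 1)] (by decide +kernel))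
noncomputable def rha7451a8ecb577f80 : CRef := CRef.mk (Pat.mk 0x800000018000000180000001800000000 0x100000001c000000f80000001f0000001f00000004 5 8) 0 0 (step_sound _ 164 [rha7670e59654a6d36, (rhbaefcd01e0a8bca3.shift 3 1)] (by decide +kernel))
noncomputable def rha13a6da1e2f8085f : CRef := CRef.mk (Pat.mk 0x1800000010000000180000001800000000 0x20000000780000001e000000380000001f00000004 5 7) 0 0 (step_sound _ 133 [rh0932b2cd875b271e, (rh2f68792b6b779e96.shift 4 1)] (by decide +kernel))
noncomputable def rh69602a44db1e010c : CRef := CRef.mk (Pat.mk 0x100000003800000018 0x3e000000ff00000018 5 8) 0 0 (step_sound _ 38 [(rh18965a982d73c794.shift 3 0), rh719a4defb16e1b89] (by decide +kernel))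
noncomputable def rh289ecae4755589bd : CRef := CRef.mk (Pat.mk 0x80000001c0000000c0000000400000000 0x10000000340000003f0000001f0000000f0000000600000002 5 6) 0 0 (step_sound _ 132 [(rhab2ad169e49f9c5e.shift 0 3), rhbaa1833de38f2430] (by decide +kernel))
noncomputable def rh3b662b2ea330721d : CRef := CRef.mk (Pat.mk 0x180000001c000000080000000800000000 0x70000001f0000001c0000000c0000000c00000004 5 5) 0 0 (step_sound _ 34 [(rh932754581e0f4330.shift 2 0), (rheece3a6582754a6e.shift 0 1)] (by decide +kernel))
noncomputable def rh1d5026a339399fcd : CRef := CRef.mk (Pat.mk 0x380000001c000000000000000800000000 0x670000003f0000001c0000001c0000001c00000014 5 7) 0 0 (step_sound _ 130 [(rh0da3f8d18d3a0dfd.shift 1 1), rh9c894faa9536d93e, (rhba89ab7cb81bcc90.shift 0 3), (rhe4843177ab222a54.shift 2 0)] (by decide +kernel))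
noncomputable def rhf30f215daa914238 : CRef := CRef.mk (Pat.mk 0x3000000038000000000000003000000000 0x40000003e000000380000002c000000f8000001df 5 9) 0 0 (step_sound _ 35 [(rhaae13352adda1013.shift 2 0), rhb31ed74e4c4d2f19, (rhb951f025be5c276e.shift 2 0), (rhd64445e5e724fed5.shift 1 0), (rhec8dcf80a94f4250.shift 1 0)] (by decide +kernel))
noncomputable def rhad070f151b7e7a58 : CRef := CRef.mk (Pat.mk 0x3000000038000000000000003000000000 0x3800000038000000280000007c000001ef 5 9) 0 0 (step_sound _ 35 [(rh82b45f9bc7ec6902.shift 2 0), (rh94629b4e21199a0d.shift 1 0), (rhb951f025be5c276e.shift 2 0), rhd8970f20df7aae31] (by decide +kernel))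
noncomputable def rhaff668af9c8a6ce9 : CRef := CRef.mk (Pat.mk 0x1000000038000000000000003000000000 0x40000001e000000380000000f0000007e000000ff 5 8) 0 0 (step_sound _ 35 [rhb31ed74e4c4d2f19, rhb54390edcf8a95c3, (rhd64445e5e724fed5.shift 1 0), rhd8970f20df7aae31, rhee2ff9d90efa8c59] (by decide +kernel))
noncomputable def rhb78fb23ed87922d5 : CRef := CRef.mk (Pat.mk 0x20000000200000002000000060000000000000000 0x100000003000000030000000200000006000000070000000300000001 5 3) 0 0 (step_sound _ 32 [(rh79877ebd3ef475dd.shift 0 1), rh978a56e9da7ed62c] (by decide +kernel))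
noncomputable def rha403a4e563d891f5 : CRef := CRef.mk (Pat.mk 0x80000001c000000000000000400000000 0x3b0000001f000000070000000600000004 5 6) 0 0 (step_sound _ 2 [(rh04253f50b6dd0619.shift 2 0), rhd6abfd4082649c62] (by decide +kernel))
noncomputable def rh199808e307c02453 : CRef := CRef.mk (Pat.mk 0x1000000010000000000000002800000000 0x1000000010000000170000007e000001ff 5 9) 0 0 (step_sound _ 36 [rh0d9382e6088855bc, rhb54390edcf8a95c3, (rhbf726fa7097229f2.shift 3 0), (rhe9937ce8bcea713a.shift 2 0)] (by decide +kernel))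
noncomputable def rha8377cca6b5dc795 : CRef := CRef.mk (Pat.mk 0x10000000100000003800000018000000000000000000000000 0x100000001f0000003f0000003e000000260000000400000004 5 6) 0 0 (step_sound _ 98 [(rh53b3c253cb0c65f4.shift 1 3), rh85e5f3dad717c2fe] (by decide +kernel))
noncomputable def rh6d59a1bde1e1183a : CRef := CRef.mk (Pat.mk 0x2000000070000000200000001000000000000000000000000 0x3000000070000000600000003000000070000000600000004 5 3) 0 0 (step_sound _ 97 [rh338385865bbd87ac, (rh932754581e0f4330.shift 0 2)] (by decide +kernel))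
noncomputable def rh7c2dc7bafddb5695 : CRef := CRef.mk (Pat.mk 0x2000000030000000200000004000000000000000000000000 0x3000000030000000300000006000000070000000300000001 5 3) 0 0 (step_sound _ 97 [rh43d8dfd721575dfb, (rh55afc6a59410cf00.shift 1 2)] (by decide +kernel))
noncomputable def rh839bc275b7f0d03f : CRef := CRef.mk (Pat.mk 0x2000000020000000300000002000000000000000000000000 0x2000000030000000300000006000000070000000700000001 5 3) 0 0 (step_sound _ 66 [rh7f8e2dc642e0c1d7, (rhd3458b32566d63f7.shift 1 2)] (by decide +kernel))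
noncomputable def rha2519db0d4b124fa : CRef := CRef.mk (Pat.mk 0x40000000c0000000c0000000000000000 0x180000003c0000000f0000000c0000000c0000000c 5 6) 0 0 (step_sound _ 35 [(rh7b1f1fb55310c477.shift 2 0), rhad08522259e87e33] (by decide +kernel))
noncomputable def rhac469ad3f802a454 : CRef := CRef.mk (Pat.mk 0x200000002000000060000000000000000 0x1000000030000000300000002000000070000000700000001 5 3) 0 0 (step_sound _ 161 [(rh55afc6a59410cf00.shift 1 1), rh6aa5625770489e83] (by decide +kernel))
noncomputable def rhaf5d76e4debe5402 : CRef := CRef.mk (Pat.mk 0x3000000020000000200000004 0x6000000060000000600000003000000030000000700000004 5 3) 0 0 (step_sound _ 129 [(rh1728b446c037fdbd.shift 0 1), (rhd3458b32566d63f7.shift 1 0)] (by decide +kernel))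
noncomputable def rh359d600c8c0a658c : CRef := CRef.mk (Pat.mk 0x8000000080000000800000018000000040000000000000000 0x8000000080000001800000018000000180000000f0000000c00000008 5 5) 0 0 (step_sound _ 67 [(rh932754581e0f4330.shift 2 1), rhf5b9771386dae5ad] (by decide +kernel))
noncomputable def rhd31ddecccbf31bec : CRef := CRef.mk (Pat.mk 0x800000008000000180000000e00000000 0x40000000c0000000f0000001e0000001e00000013 5 5) 0 0 (step_sound _ 130 [(rh50fbb5868c909700.shift 2 1), rhe1bc0107055531ad] (by decide +kernel))
noncomputable def rh74e2f7e19e462725 : CRef := CRef.mk (Pat.mk 0x800000008000000180000000800000000 0x40000000c0000000f0000007c0000000800000008 5 7) 0 0 (step_sound _ 130 [(rh50fbb5868c909700.shift 2 1), rh6edcaa92401bc585] (by decide +kernel))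
noncomputable def rhbffe6d86810c2f26 : CRef := CRef.mk (Pat.mk 0x40000000c0000000c0000000000000000 0x8000000180000003c0000000f0000000c0000000c00000008 5 6) 0 0 (step_sound _ 35 [(rh28f495a60bbf0485.shift 0 1), (rh7b1f1fb55310c477.shift 2 0)] (by decide +kernel))
noncomputable def rhb8965bb9fd4dadbc : CRef := CRef.mk (Pat.mk 0x8000000380000001c0000000000000000 0x4000000040000007f0000003f0000001c0000000c00000004 5 7) 0 0 (step_sound _ 98 [rh6e26d416aa3e0ff0, (rh846e86aba5476f31.shift 1 0), (rh8fbd842454c2a343.shift 0 1), rhcc01d2023db431ae] (by decide +kernel))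
noncomputable def rhd448f29221d838ce : CRef := CRef.mk (Pat.mk 0x800000038000000180000000000000000 0x20000000200000007f0000003f000000180000001000000010 5 7) 0 0 (step_sound _ 36 [(rh0776fb12a04abd29.shift 0 1), (rh7b1f1fb55310c477.shift 3 0)] (by decide +kernel))
noncomputable def rh6d45fcc122d4e332 : CRef := CRef.mk (Pat.mk 0x2000000020000000600000000 0x50000000700000007000000020000000600000006 5 3) 0 0 (step_sound _ 129 [(rh55afc6a59410cf00.shift 1 0), rhc4055b4872d6fb38] (by decide +kernel))
noncomputable def rh801aed72d6bb142d : CRef := CRef.mk (Pat.mk 0xc00000008000000080000000c 0x130000003f0000003f0000000c0000000c 5 6) 0 0 (step_sound _ 100 [(rh2f68792b6b779e96.shift 3 0), rh8c616eee48d946df] (by decide +kernel))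
noncomputable def rhba85218b18b64260 : CRef := CRef.mk (Pat.mk 0xc000000180000000800000018 0x70000000ff0000001f0000001800000018 5 8) 0 0 (step_sound _ 97 [rh728e423be2ca0478, (rhb739f4f82bb681b4.shift 0 2)] (by decide +kernel))
noncomputable def rheaf00f0e081d45c0 : CRef := CRef.mk (Pat.mk 0x8000000180000001e00000000 0x40000000f0000000f0000001f0000001e00000003 5 5) 0 0 (step_sound _ 65 [(rh3244c3cc8379b070.shift 0 1), rha51b5b82969cadee] (by decide +kernel))
noncomputable def rha2fbbc6fb37049c7 : CRef := CRef.mk (Pat.mk 0x8000000180000001e0000000000000000 0x20000000f0000001f0000001e0000000700000004 5 5) 0 0 (step_sound _ 97 [rh2499c14181a1a6e7, (rh3244c3cc8379b070.shift 0 2)] (by decide +kernel))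
noncomputable def rh47457fbda21366bc : CRef := CRef.mk (Pat.mk 0xc000000040000002c0000000c00000000 0xf20000007f000000fc0000002c0000002e00000002 5 8) 0 0 (step_sound _ 132 [(rh390c9be5a0cda388.shift 0 1), (rh498101ec27235a97.shift 2 1), (rh786570fbfde18451.shift 1 0), (rha0decd859dcaa5d8.shift 1 1), (rheacddab827c09d5e.shift 1 1)] (by decide +kernel))
noncomputable def rhc0262270108109a4 : CRef := CRef.mk (Pat.mk 0xc0000000c0000000c00000004 0x10000000320000003e0000003f0000000c00000004 5 6) 0 0 (step_sound _ 97 [(rh2f270258cc317492.shift 0 1), (rh50fbb5868c909700.shift 1 0)] (by decide +kernel))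
noncomputable def rh7cfdedf9ac90c120 : CRef := CRef.mk (Pat.mk 0xc000000000000000c0000002e 0xff0000007e000000f00000003e0000002e 5 8) 0 0 (step_sound _ 100 [(rh43e209586d371ca9.shift 1 0), (rh839694f7087737eb.shift 0 2), (rhab598014f2475697.shift 1 0), (rhf301274585ae89ae.shift 1 0)] (by decide +kernel))
noncomputable def rhab277cac14a482ea : CRef := CRef.mk (Pat.mk 0x380000001c0000000000000000 0x4000000760000003f0000001c0000000800000008 5 7) 0 0 (step_sound _ 98 [rh2e265f303379d08c, (rh38a0850c9fea941e.shift 1 0), (rhe25191970535449e.shift 0 2)] (by decide +kernel))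
noncomputable def rhb554e3cc3c2faa7f : CRef := CRef.mk (Pat.mk 0x80000000c0000000c0000000400000000 0x4000000060000000f0000003c0000000e0000000600000002 5 6) 0 0 (step_sound _ 130 [(rhbd1553ade3ecbf42.shift 1 0), (rhcf85c92937975d4d.shift 0 1), rhd24778b085d8f6e1] (by decide +kernel))
noncomputable def rh28c8c9661f6daf2b : CRef := CRef.mk (Pat.mk 0x18000000180000000800000008 0xe4000000ff0000001f0000000800000008 5 8) 0 0 (step_sound _ 98 [(rh50fbb5868c909700.shift 2 0), (rhf2c3983630ce55c5.shift 0 2)] (by decide +kernel))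
noncomputable def rh674e4845ec93594d : CRef := CRef.mk (Pat.mk 0xc000000080000000c0000000c 0x130000001f0000007c0000001f0000000c 5 7) 0 0 (step_sound _ 100 [(rh2f68792b6b779e96.shift 3 0), rh495bb6f556213da9] (by decide +kernel))
noncomputable def rh02d73a9c4c979b97 : CRef := CRef.mk (Pat.mk 0xe0000000c00000004 0x200000002000000770000007e0000000c00000004 5 7) 0 0 (step_sound _ 97 [(rh546551bfa61a8651.shift 0 1), (rhc89253ff58c66167.shift 1 0)] (by decide +kernel))
noncomputable def rh78ba73d213f63d2b : CRef := CRef.mk (Pat.mk 0x800000008000000180000000e00000000 0x140000003c0000000f0000001e0000001e00000013 5 6) 0 0 (step_sound _ 130 [(rh50fbb5868c909700.shift 2 1), rh72084b7e32357294] (by decide +kernel))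
noncomputable def rhd5899e89efce0709 : CRef := CRef.mk (Pat.mk 0x1a000000020000000000000000 0x4000000070000003e000000030000000200000002 5 6) 0 0 (step_sound _ 98 [rhd1f95657bcbb399e, (rheb0810cc63b001d8.shift 0 2)] (by decide +kernel))
noncomputable def rhbe8811a1b425e9ec : CRef := CRef.mk (Pat.mk 0xa0000001a00000008000000000000000000000000 0x1000000030000000b0000001b0000001f000000370000001700000005 5 6) 0 0 (step_sound _ 97 [rh06d79b177cf9f49c, (rh70c88061d19295ac.shift 0 1), rh9025223dca583e9f, rhde5b474548b482d7, rhe4e4efb231e692a9] (by decide +kernel))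
noncomputable def rhae8119b957cc0711 : CRef := CRef.mk (Pat.mk 0xc0000000c000000000000000800000000 0x100000003c0000000f000000080000001800000018 5 6) 0 0 (step_sound _ 67 [(rh7b1f1fb55310c477.shift 2 0), rh80d10083eb6a67cd] (by decide +kernel))
noncomputable def rhd623c6c3488460e1 : CRef := CRef.mk (Pat.mk 0xc0000000c000000000000000c00000000 0x100000003c0000000f000000080000001c00000014 5 6) 0 0 (step_sound _ 67 [rh80d10083eb6a67cd, (rh932754581e0f4330.shift 2 0)] (by decide +kernel))
noncomputable def rhb40177a4de76b5c2 : CRef := CRef.mk (Pat.mk 0x400000024000000000000001c00000000 0x2400000026000000630000007e000000e7 5 8) 0 0 (step_sound _ 37 [rh2c56be22e7e0e355, (rh7618364b9b53dd13.shift 2 0)] (by decide +kernel))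
noncomputable def rhbbdf1a8d73728313 : CRef := CRef.mk (Pat.mk 0x3000000030000000000000007000000000 0x700000003e0000000f0000007e0000007f 5 7) 0 0 (step_sound _ 35 [(rh06331c10b54d3536.shift 1 0), rh079ecb7be5cb60ab, rh498fe5fb759cf945, (rh61f73186b2b2a38b.shift 1 0), (rheb505ef94539da28.shift 2 0)] (by decide +kernel))
noncomputable def rh282f2b17b4049d00 : CRef := CRef.mk (Pat.mk 0x600000016000000000000000e0000000000000000 0x3e00000017000000f00000007f0000007e00000008 5 8) 0 0 (step_sound _ 68 [rh15bb890f8606eef4, (rh225da09fa9a83b25.shift 1 1), (rh7618364b9b53dd13.shift 1 1), rhb78fc817e5a8ce9a, (rhb79d15cd82de7f04.shift 0 1)] (by decide +kernel))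
noncomputable def rh90f2e854ac43aacc : CRef := CRef.mk (Pat.mk 0x10000000000000000e0000000000000000 0x1000000010000000700000003e0000007f00000008 5 7) 0 0 (step_sound _ 68 [(rh0edd3afef6b5d7e0.shift 0 1), (rh125bacfa1843677c.shift 1 0), (rh3b00e9e9432b8f40.shift 0 1)] (by decide +kernel))
noncomputable def rhbeb790e6600f9fb5 : CRef := CRef.mk (Pat.mk 0x800000008000000000000003800000000 0x80000000c000000070000003e00000077 5 7) 0 0 (step_sound _ 34 [rh008b05f4778dc30d, rh0d378fd9e8917c5a, (rheb505ef94539da28.shift 1 0)] (by decide +kernel))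
noncomputable def rh81cdc8ec0ad9b917 : CRef := CRef.mk (Pat.mk 0x400000024000000000000001c0000000000000000 0x400000026000000630000007e000000ff00000010 5 8) 0 0 (step_sound _ 69 [(rh008b05f4778dc30d.shift 0 1), (rh0edd3afef6b5d7e0.shift 1 1), (rh2c56be22e7e0e355.shift 0 1), (rhb78fc817e5a8ce9a.shift 1 0)] (by decide +kernel))
noncomputable def rha777b0f7cf5730cf : CRef := CRef.mk (Pat.mk 0x80000000d0000000c000000000000000000000000 0x10000000180000000f0000000c0000000c0000000c0000000c 5 5) 0 0 (step_sound _ 34 [rh4e3b7a7e3b11280d, (rh9e3edb185cc347de.shift 2 1)] (by decide +kernel))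
noncomputable def rha671bdfe65e63a7a : CRef := CRef.mk (Pat.mk 0x1a0000001a00000008000000000000000000000000 0x20000001a0000001f0000001f000000360000001400000004 5 6) 0 0 (step_sound _ 97 [rh06d79b177cf9f49c, (rhb3425fba9db279e9.shift 0 3), (rhda02c4ce0b224328.shift 0 3)] (by decide +kernel))
noncomputable def rhd4676f382faeb335 : CRef := CRef.mk (Pat.mk 0x20000001a00000000000000000000000000000000 0x10000000100000003000000030000001e00000007000000070000000700000005 5 5) 0 0 (step_sound _ 97 [(rh01e48cd9f335aa73.shift 0 3), rh5c8c873042790be0, (rhe8a9e0e6037b7c6e.shift 0 2), rhfa3fe75667f8f384] (by decide +kernel))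
noncomputable def rhfd6d0f89e87eacc4 : CRef := CRef.mk (Pat.mk 0x1a0000001a00000002000000000000000000000000 0x120000001a0000001a0000000f0000000b0000000900000001 5 5) 0 0 (step_sound _ 99 [rhde5b474548b482d7, (rhea7a1800d6f053bd.shift 3 1)] (by decide +kernel))
noncomputable def rhab9ac4d3ef67f316 : CRef := CRef.mk (Pat.mk 0x1a0000001a00000002000000000000000000000000 0x120000001a0000001b0000001e0000003e0000001c00000004 5 6) 0 0 (step_sound _ 99 [rh06d79b177cf9f49c, (rhea7a1800d6f053bd.shift 3 1)] (by decide +kernel))
noncomputable def rh589e42ae1fd0e887 : CRef := CRef.mk (Pat.mk 0x180000001a000000020000000000000000 0x10000000180000001b0000001f0000003800000018 5 6) 0 0 (step_sound _ 67 [rh70c88061d19295ac, (rhea7a1800d6f053bd.shift 3 0)] (by decide +kernel))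
noncomputable def rh37c05aa62684ff00 : CRef := CRef.mk (Pat.mk 0x200000002000000020000000000000000 0x100000003000000030000000300000003000000070000000700000005 5 3) 0 0 (step_sound _ 161 [rh46baee19951a66e7, (rh565a0c22519f57e9.shift 0 1), rh6aa5625770489e83, rh8cdd36b03d57a2f6] (by decide +kernel))
noncomputable def rh7711e065098a197f : CRef := CRef.mk (Pat.mk 0x1a0000001a00000002000000000000000000000000 0x120000001a0000001b0000000f000000090000000900000001 5 5) 0 0 (step_sound _ 99 [rhe4e4efb231e692a9, (rhea7a1800d6f053bd.shift 3 1)] (by decide +kernel))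
noncomputable def rh79755ed5ace25782 : CRef := CRef.mk (Pat.mk 0x1c00000018000000080000000800000000 0x60000000ff0000001f000000180000001800000010 5 8) 0 0 (step_sound _ 129 [rh794ba2cfb6e850e2, (rhb739f4f82bb681b4.shift 0 3)] (by decide +kernel))
noncomputable def rh364d4be8345879b5 : CRef := CRef.mk (Pat.mk 0x10000000180000001c000000080000000000000000 0x4000000340000001f0000001f0000000f0000000200000002 5 6) 0 0 (step_sound _ 130 [(rh34517e326ddb5b25.shift 0 3), rhe743265c8df4f80e] (by decide +kernel))
noncomputable def rhc60193633cb79fe1 : CRef := CRef.mk (Pat.mk 0x200000003000000020000000000000000 0x500000007000000070000000300000003000000030000000300000001 5 3) 0 0 (step_sound _ 161 [(rh03dfdf12d5937476.shift 0 1), rh6aa5625770489e83, (rhc85cc95794737cf7.shift 0 2)] (by decide +kernel))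
noncomputable def rh2f876e4fc3367f92 : CRef := CRef.mk (Pat.mk 0x800000009000000080000000800000000 0x140000001e0000000f000000080000000c00000004 5 5) 0 0 (step_sound _ 2 [(rh33e2e68d6dfbb63c.shift 0 1), (rh79877ebd3ef475dd.shift 2 0)] (by decide +kernel))
noncomputable def rh5f98c730fe6e8cd8 : CRef := CRef.mk (Pat.mk 0x1e00000002000000000000000000000000 0x400000006000000070000001e00000006000000070000000700000005 5 5) 0 0 (step_sound _ 161 [rh210813553596681c, (rh3244c3cc8379b070.shift 0 4)] (by decide +kernel))
noncomputable def rhe464da70454d0625 : CRef := CRef.mk (Pat.mk 0x100000001e000000100000000000000000 0x18000000180000001e0000001f0000003800000038 5 6) 0 0 (step_sound _ 65 [(rheb0810cc63b001d8.shift 0 2), (rhf2c9e98e20c57a0a.shift 1 0)] (by decide +kernel))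
noncomputable def rhe672270fa40df460 : CRef := CRef.mk (Pat.mk 0x20000000600000012000000000000000000000000 0x20000000200000006000000060000001e000000070000000700000002 5 5) 0 0 (step_sound _ 98 [rh0ae0522179bd31b9, rh296bb5e2f0a5b11e, (rh55a1f6c57a317ce6.shift 1 1)] (by decide +kernel))
noncomputable def rh6c80195fef350824 : CRef := CRef.mk (Pat.mk 0x100000001e000000100000000000000000 0x30000000380000001f0000001e000000180000001800000010 5 6) 0 0 (step_sound _ 129 [(rh1dc98d0196bf4a4f.shift 1 0), (rh3244c3cc8379b070.shift 0 3)] (by decide +kernel))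
noncomputable def rhb4a20ca15a0eed30 : CRef := CRef.mk (Pat.mk 0x1200000006000000020000000000000000 0x200000007000000070000001e00000006000000060000000200000002 5 5) 0 0 (step_sound _ 130 [rh3b44e29800a3160c, (rhd3dc70699c0e4a3f.shift 0 2), (rhea7a1800d6f053bd.shift 1 0)] (by decide +kernel))
noncomputable def rh113f5a71904a5f1d : CRef := CRef.mk (Pat.mk 0x3800000048000000080000000800000000 0x2000000038000000780000003e0000007f00000014 5 7) 0 0 (step_sound _ 36 [rh3f1941ac6bab30b4, (rh55afc6a59410cf00.shift 3 0)] (by decide +kernel))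
noncomputable def rh68955bc0e47a6cbe : CRef := CRef.mk (Pat.mk 0x1e0000001a00000002 0x1c0000001c0000003c0000001e0000001e00000007 5 6) 0 0 (step_sound _ 34 [(rh3b774877ccc192f0.shift 1 0), rheb0810cc63b001d8] (by decide +kernel))
noncomputable def rh631f4906f01fb4fd : CRef := CRef.mk (Pat.mk 0x2000000060000000200000004 0x400000007000000070000000300000006000000060000000600000004 5 3) 0 0 (step_sound _ 129 [(rh1db71118bee297d0.shift 0 1), (rhd3458b32566d63f7.shift 1 0)] (by decide +kernel))
noncomputable def rh115342055bfc8090 : CRef := CRef.mk (Pat.mk 0x400000002000000060000000200000000000000000000000000000000 0x400000006000000060000000600000003000000070000000700000004 5 3) 0 0 (step_sound _ 97 [rh218cd2e070c414fb, (rhbaefcd01e0a8bca3.shift 1 3)] (by decide +kernel))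
noncomputable def rh06be213cee4d6033 : CRef := CRef.mk (Pat.mk 0x80000000c00000009000000000000000000000000 0x140000001c0000001c0000000c0000000c0000000f0000001c0000001800000008 5 5) 0 0 (step_sound _ 195 [(rh03dfdf12d5937476.shift 2 2), rhc5be69ae9d3be62d, (rhc85cc95794737cf7.shift 2 3)] (by decide +kernel))
noncomputable def rhf2f5837f8a023c75 : CRef := CRef.mk (Pat.mk 0x80000000c00000009000000000000000000000000 0x8000000080000000c0000000c0000000f0000001c0000001c00000008 5 5) 0 0 (step_sound _ 98 [(rh1e309b005ffa1b36.shift 2 1), rhbfb012736252aba9, rhdb915bcfa2726be9] (by decide +kernel))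
noncomputable def rh66bf57636bbc5c37 : CRef := CRef.mk (Pat.mk 0x2000000030000000200000001 0x100000007000000070000000600000003000000030000000300000001 5 3) 0 0 (step_sound _ 129 [rh79877ebd3ef475dd, (rhe8915d9db8b9f3f2.shift 0 1)] (by decide +kernel))
noncomputable def rhe01b6ee543e82e29 : CRef := CRef.mk (Pat.mk 0x90000000c000000080000000000000000 0x80000001c0000001c0000000f0000000c0000000c0000000800000008 5 5) 0 0 (step_sound _ 130 [rh21c98b16948174e1, (rh3cb04db3dd2b6a55.shift 2 0), (rh6468899bc58a05a7.shift 0 2)] (by decide +kernel))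
noncomputable def rha7be07c68086ab00 : CRef := CRef.mk (Pat.mk 0x100000002000000030000000200000000000000000000000000000000 0x100000003000000030000000300000006000000070000000700000001 5 3) 0 0 (step_sound _ 97 [rh5a26ed1c01b25f18, (rhffd04209dc8ea796.shift 0 3)] (by decide +kernel))
noncomputable def rha0b07cf10a24615f : CRef := CRef.mk (Pat.mk 0x8000000080000001c0000001800000000 0x40000000c0000000c0000001c0000001f00000007 5 5) 0 0 (step_sound _ 34 [(rh932754581e0f4330.shift 2 0), rhc973da068051d287] (by decide +kernel))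
noncomputable def rh64d618d94720dd56 : CRef := CRef.mk (Pat.mk 0x8000000080000001c0000000e00000000 0x140000003c0000000f0000001c0000000e00000002 5 6) 0 0 (step_sound _ 130 [(rh50fbb5868c909700.shift 2 1), rh8365b2ccf6b6e1b6] (by decide +kernel))
noncomputable def rhd781f8ab1742369d : CRef := CRef.mk (Pat.mk 0x80000003800000018000000080000000000000000 0x40000000f0000003c000000180000000c0000000c00000008 5 6) 0 0 (step_sound _ 3 [(rh9e3edb185cc347de.shift 3 0), (rhf0eae3109e9a967c.shift 0 1)] (by decide +kernel))
noncomputable def rh3e145dbdeb24b3b3 : CRef := CRef.mk (Pat.mk 0x3c000000180000000000000000 0x2000000020000000700000003f000000180000001000000010 5 7) 0 0 (step_sound _ 96 [(rh6eb76252a9026692.shift 2 0), (rhab22b5b56e7b3243.shift 0 2)] (by decide +kernel))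
noncomputable def rh253ed3b83993f691 : CRef := CRef.mk (Pat.mk 0x40000000c0000000c0000000400000000 0x180000003c0000000f0000000c0000000c00000008 5 6) 0 0 (step_sound _ 35 [(rh51eaacb6a9bbb57b.shift 0 1), (rh7b1f1fb55310c477.shift 2 0)] (by decide +kernel))
noncomputable def rh90dddd288e248eba : CRef := CRef.mk (Pat.mk 0xe00000006000000020000000200000000 0x190000000f00000006000000060000000700000005 5 5) 0 0 (step_sound _ 0 [rh654a5d57fd8b9734, rh79877ebd3ef475dd] (by decide +kernel))
noncomputable def rhf768b09893299f3c : CRef := CRef.mk (Pat.mk 0x40000000c0000000c0000000c00000000 0x180000003c0000000f0000000c0000000e00000002 5 6) 0 0 (step_sound _ 1 [(rh51eaacb6a9bbb57b.shift 0 1), (rh79877ebd3ef475dd.shift 1 0)] (by decide +kernel))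
noncomputable def rha508198170d670f6 : CRef := CRef.mk (Pat.mk 0x1200000006000000020000000200000000 0x40000000700000007000000070000001e00000006000000020000000300000001 5 5) 0 0 (step_sound _ 161 [(rh1db71118bee297d0.shift 0 2), (rh44f453b84f013105.shift 1 1), rhb93d72fc074b8c15, (rhc85cc95794737cf7.shift 0 2)] (by decide +kernel))
noncomputable def rhcc60cd38215e891b : CRef := CRef.mk (Pat.mk 0x1c0000001c000000040000000000000000 0xe0000000f0000001c0000001c0000001c0000001800000018 5 5) 0 0 (step_sound _ 163 [(rh5c5e593799055d58.shift 2 2), rh72d3f1f08ab4836e] (by decide +kernel))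
noncomputable def rh0aec459be4e44b95 : CRef := CRef.mk (Pat.mk 0x1c00000018000000100000001000000000 0x40000001c00000018000000380000001f0000000c 5 6) 0 0 (step_sound _ 35 [(rh932754581e0f4330.shift 3 0), rhff9c0a7688d5638d] (by decide +kernel))
noncomputable def rhd16b9781aa9a0a16 : CRef := CRef.mk (Pat.mk 0x80000001c000000000000000c00000000 0x80000001e000000f00000007e000000ff 5 8) 0 0 (step_sound _ 36 [rh0789fb5060e9c65e, rh325b0ecb3609134c, (rh6750075f6e760f16.shift 1 0), (rhc6f96d0082a29cc4.shift 1 0)] (by decide +kernel))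
noncomputable def rhc9940826c464062e : CRef := CRef.mk (Pat.mk 0x700000006000000040000000400000000 0x10000000700000006000000070000003e0000000a 5 6) 0 0 (step_sound _ 33 [(rh932754581e0f4330.shift 1 0), rh971b179dae9f8386] (by decide +kernel))
noncomputable def rhb9c4a59b6c5ec2b4 : CRef := CRef.mk (Pat.mk 0x800000038000000080000000800000000 0x8000000080000003c0000000f0000001c00000014 5 6) 0 0 (step_sound _ 4 [rhc59a2df7a9768206, (rhd3458b32566d63f7.shift 3 0)] (by decide +kernel))
noncomputable def rhfa0908562b32562c : CRef := CRef.mk (Pat.mk 0x18000000380000000800000000 0xc0000000c0000000c000000180000003c0000000f00000004 5 6) 0 0 (step_sound _ 131 [rh322e79f034282812, (rh90b823c913a425e8.shift 2 1), (rhcaa080098f0e9e4a.shift 2 0)] (by decide +kernel))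
noncomputable def rh59259e1d46f1b35b : CRef := CRef.mk (Pat.mk 0xe0000001e000000020000000000000000 0x20000000e0000001e0000003e0000000700000007 5 6) 0 0 (step_sound _ 33 [(rh71222050f2c63a3a.shift 1 0), rhcf8df7483fed4f0a] (by decide +kernel))
noncomputable def rh16eec8cad0f85bb2 : CRef := CRef.mk (Pat.mk 0x20000000700000006000000000000000000000000 0x200000002000000030000000700000007000000030000000300000002 5 3) 0 0 (step_sound _ 193 [(rh2145e1d24b96a57e.shift 1 3), rh277593e967ce41e6] (by decide +kernel))
noncomputable def rh73d2ea13284eaf15 : CRef := CRef.mk (Pat.mk 0x80000000c000000180000001800000000 0x40000000c0000000c0000001c0000001f00000007 5 5) 0 0 (step_sound _ 34 [rh03d7b74730dc6ef6, (rh932754581e0f4330.shift 2 0)] (by decide +kernel))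
noncomputable def rh4f5df7961f37c748 : CRef := CRef.mk (Pat.mk 0x1c00000018000000000000000000000000 0x80000001c0000007f000000770000000400000004 5 7) 0 0 (step_sound _ 101 [rh9db2ffb490ffba6c, (rhf48373e13d2bc128.shift 2 3)] (by decide +kernel))
noncomputable def rh6ee037cf87d85b0c : CRef := CRef.mk (Pat.mk 0xc00000000000000100000003800000000 0x40000000c000000080000003c000000ff00000004 5 8) 0 0 (step_sound _ 67 [(rh79b3c29022acbdf3.shift 2 1), rh89de19f2d001b1ec] (by decide +kernel))
noncomputable def rhaf437ea1f7c5e5c5 : CRef := CRef.mk (Pat.mk 0x20000000600000002000000000000000000000000 0x4000000070000000700000007000000060000000600000002000000070000000700000005 5 3) 0 0 (step_sound _ 193 [rh0317dc778457b218, (rh1db71118bee297d0.shift 0 3), (rh4d4087477a9b70ee.shift 0 1), (rhc85cc95794737cf7.shift 0 3)] (by decide +kernel))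
noncomputable def rh4b4a2336dfb4aa01 : CRef := CRef.mk (Pat.mk 0x1c000000160000001000000000 0x80000000e0000000f0000001c0000001e0000001600000006 5 5) 0 0 (step_sound _ 131 [rhbe253d1426d5780c, (rhe072fffdd2fccf38.shift 3 1)] (by decide +kernel))
noncomputable def rh0d04efe78add800a : CRef := CRef.mk (Pat.mk 0xe0000000b00000008000000000000000000000000 0x400000006000000060000000e0000000b0000001f000000070000000700000005 5 5) 0 0 (step_sound _ 97 [(rh7f36f639160ea2c8.shift 1 2), (rh873152f5c63c9e04.shift 0 2), (rhead39abee82512be.shift 0 1), rhfa40f754f1f7b88f] (by decide +kernel))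
noncomputable def rhd655e2196287538d : CRef := CRef.mk (Pat.mk 0x600000003000000080000000000000000 0x20000000700000007000000030000001f0000000700000002 5 5) 0 0 (step_sound _ 65 [rh000637b5a81e86aa, (rh873152f5c63c9e04.shift 0 1)] (by decide +kernel))
noncomputable def rh7139650279fa5463 : CRef := CRef.mk (Pat.mk 0x60000000b000000080000000000000000 0x5000000070000000f0000001e0000000200000002 5 5) 0 0 (step_sound _ 68 [(rhc10214bf3fe8094a.shift 0 2), rhdd26ee9b6b0f1580] (by decide +kernel))
noncomputable def rhfa863233f97c04cc : CRef := CRef.mk (Pat.mk 0x40000001c0000001c0000000000000000 0x18000000180000001c0000001c0000001c0000000f0000000e 5 5) 0 0 (step_sound _ 35 [(rh7b1f1fb55310c477.shift 2 0), rh8b1c2af1f4d43d0f] (by decide +kernel))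
noncomputable def rh0460644cd2e699ff : CRef := CRef.mk (Pat.mk 0xc000000000000001c00000008 0xff0000007e000000f00000001e00000008 5 8) 0 0 (step_sound _ 100 [(rh015c28ef3e281b41.shift 1 0), (rh676ad4546ffc5d28.shift 1 0), (rh839694f7087737eb.shift 0 2), (rhc6b796e8914de8cc.shift 0 2), (rhd39a9343b15da591.shift 1 0), (rhfbf32aaaa4505e73.shift 1 0)] (by decide +kernel))
noncomputable def rh1aaa7ece9c7c2064 : CRef := CRef.mk (Pat.mk 0x180000001c0000000000000000 0x4000000770000007f0000001c0000000800000008 5 7) 0 0 (step_sound _ 101 [(rh18965a982d73c794.shift 2 2), rh67e7a1b48b08f3dd] (by decide +kernel))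
noncomputable def rhf300a53e5a3ab46f : CRef := CRef.mk (Pat.mk 0x600000007000000020000000200000000 0x200000003000000030000000700000007000000030000000600000004 5 3) 0 0 (step_sound _ 2 [(rhd3458b32566d63f7.shift 1 0), (rhe897af202bc68eb8.shift 0 1)] (by decide +kernel))
noncomputable def rh96a8e3aa7cb4a75e : CRef := CRef.mk (Pat.mk 0x20000001e000000060000000000000000 0x3000000070000003e0000001e000000060000000200000002 5 6) 0 0 (step_sound _ 161 [(rh2145e1d24b96a57e.shift 1 2), rh46d2bdd3f03cd5a5] (by decide +kernel))
noncomputable def rh641e2b15d506f91f : CRef := CRef.mk (Pat.mk 0x1c00000008000000000000000600000000 0x20000003f0000003f000000040000000600000002 5 6) 0 0 (step_sound _ 98 [(rh4dc133ee0ba1420a.shift 0 3), rhde73d0b91a24a8a5] (by decide +kernel))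
noncomputable def rh0f4621604a17ae35 : CRef := CRef.mk (Pat.mk 0x2000000060000000200000000000000000000000000000000 0x5000000070000000700000002000000060000000600000007000000070000000700000004 5 3) 0 0 (step_sound _ 97 [rh218cd2e070c414fb, (rh80a078ff2631050c.shift 0 1), (rh8cdd36b03d57a2f6.shift 0 1), (rhc2ec0d612c2e04db.shift 0 2)] (by decide +kernel))
noncomputable def rh2b583106c288bf2c : CRef := CRef.mk (Pat.mk 0x10000000160000001c000000000000000000000000 0x6000000160000001e0000001c0000000f0000000e00000008 5 5) 0 0 (step_sound _ 67 [(rhc04acbc801fe9a40.shift 0 1), (rhf9af042da61fc652.shift 3 0)] (by decide +kernel))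
noncomputable def rh5676fbbac1e212fc : CRef := CRef.mk (Pat.mk 0x80000000b0000000e000000000000000000000000 0x500000007000000070000001f0000000b0000000e000000060000000600000004 5 5) 0 0 (step_sound _ 161 [(rha768b229dc254047.shift 1 0), (rhaa02d759ac0b5be0.shift 0 1), (rhc0f6fe06378683f4.shift 0 2)] (by decide +kernel))
noncomputable def rh5a251e149421c1f5 : CRef := CRef.mk (Pat.mk 0x80000000b0000000600000000 0x2000000020000001e0000000f0000000700000005 5 5) 0 0 (step_sound _ 100 [(rh1c62b6193297d9e3.shift 0 2), rhbd8f4f101439cb64] (by decide +kernel))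
noncomputable def rhc66e933371c9d2bf : CRef := CRef.mk (Pat.mk 0x100000001e0000000c0000000000000000 0x200000002000000130000001e0000000e0000000c0000000c 5 5) 0 0 (step_sound _ 3 [rh6cc58692ec716844, (rh9e3edb185cc347de.shift 3 0)] (by decide +kernel))
noncomputable def rh597ecaf5c4490700 : CRef := CRef.mk (Pat.mk 0x80000000b0000000e000000000000000000000000 0x2000000070000001f0000000b0000000f000000070000000600000004 5 5) 0 0 (step_sound _ 161 [(rh73809aa94a4f5e64.shift 0 2), (rha768b229dc254047.shift 1 0), (rhaa02d759ac0b5be0.shift 0 1)] (by decide +kernel))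
noncomputable def rh996ffea2ee0b5f1a : CRef := CRef.mk (Pat.mk 0x1000000016000000040000000000000000 0x2000000370000001e000000060000000400000004 5 6) 0 0 (step_sound _ 99 [(rh33e738c4ed385b9f.shift 1 3), rh44b50b6b69065810] (by decide +kernel))
noncomputable def rh386b429084a6382d : CRef := CRef.mk (Pat.mk 0x2000000070000000600000006 0xd0000001f000000070000001e00000006 5 5) 0 0 (step_sound _ 35 [rhed3630b57b16b048, (rhf48373e13d2bc128.shift 0 1)] (by decide +kernel))
noncomputable def rha3395121a238dad0 : CRef := CRef.mk (Pat.mk 0x60000000e000000000000000000000000 0x60000000600000006000000060000000f0000003e0000000c00000008 5 6) 0 0 (step_sound _ 161 [(rh1dc900ed663fe718.shift 1 2), (rh55a1f6c57a317ce6.shift 1 1), rh59ea434ed71c4dba] (by decide +kernel))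
noncomputable def rhe2e0721fd429a583 : CRef := CRef.mk (Pat.mk 0x300000000000000018000000100000000000000000 0x1ff000000fe000001cf00000018000000180000001000000010 5 9) 0 0 (step_sound _ 163 [(rh04b80be1dd2c7952.shift 1 4), (rh0588d2c7f2cab5e9.shift 3 0), (rh7fb14ebfe418da3c.shift 0 4), (rha7e001a1a361e023.shift 0 2)] (by decide +kernel))
noncomputable def rha9a97750e5fc6c7d : CRef := CRef.mk (Pat.mk 0x600000006000000020000000000000000 0x40000000600000006000000070000003e0000000c00000004 5 6) 0 0 (step_sound _ 162 [(rh5c5e593799055d58.shift 1 2), rh71a88667e709f03b] (by decide +kernel))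
noncomputable def rhb7daa8e6a81d78c1 : CRef := CRef.mk (Pat.mk 0x1000000000000000180000003800000008000000000000000000000000 0x180000001800000008000000180000003c0000000f000000040000000400000004 5 6) 0 0 (step_sound _ 98 [(rh1ed7a3503fa50fc8.shift 0 3), (rh6f528457195a32b1.shift 0 2), (rhfafeb437ceb8396d.shift 2 0)] (by decide +kernel))
noncomputable def rh2149af5e97ee4028 : CRef := CRef.mk (Pat.mk 0x7000000060000000400000000 0xe0000001e00000007000000060000000e0000000a 5 5) 0 0 (step_sound _ 130 [(rh1e309b005ffa1b36.shift 1 0), rh63dbcfae63aa4130] (by decide +kernel))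
noncomputable def rh1e178c901be7c8bc : CRef := CRef.mk (Pat.mk 0x2000000060000000e00000000 0x60000000600000006000000060000000f00000019 5 5) 0 0 (step_sound _ 129 [(rh2145e1d24b96a57e.shift 1 1), rh6503f139e7e502e6] (by decide +kernel))
noncomputable def rh32f7e4ccc3a38f2a : CRef := CRef.mk (Pat.mk 0x4000000040000000c0000001c00000000 0xa0000000f0000003c0000000c0000001c00000010 5 6) 0 0 (step_sound _ 129 [rh47ddfe18b3a75d0f, (rh50fbb5868c909700.shift 1 1)] (by decide +kernel))
noncomputable def rhc0386b341e90eb68 : CRef := CRef.mk (Pat.mk 0x2000000020000000700000006000000000000000000000000 0x10000000300000007000000070000001e000000020000000200000002 5 5) 0 0 (step_sound _ 99 [rh544fd3f279a4d968, (rhf48373e13d2bc128.shift 0 3)] (by decide +kernel))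
noncomputable def rh45a632aef0aafcc1 : CRef := CRef.mk (Pat.mk 0x8000000080000001c0000001c00000000 0x1000000018000000180000001c0000007f00000060 5 7) 0 0 (step_sound _ 32 [(rh24ae073cf30720c4.shift 0 1), (rhb0857dede1614316.shift 2 0)] (by decide +kernel))
noncomputable def rh30b07c451fbc56c5 : CRef := CRef.mk (Pat.mk 0x200000007000000040000000400000000 0xc0000001e000000070000003e0000000c00000008 5 6) 0 0 (step_sound _ 130 [rh6f235c76ee6d9186, (rh712526e472efe489.shift 0 1)] (by decide +kernel))
noncomputable def rhe448aa5a21b08262 : CRef := CRef.mk (Pat.mk 0x4000000100000001800000018 0x400000004000000360000007f0000001e 5 7) 0 0 (step_sound _ 34 [rh34517e326ddb5b25, (rh63ff2d56bf77ff36.shift 1 0)] (by decide +kernel))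
noncomputable def rh6a4c6f03f15f9cc5 : CRef := CRef.mk (Pat.mk 0x400000007000000040000000400000000 0x80000003e00000007000000040000000e0000000a 5 6) 0 0 (step_sound _ 1 [(rh79877ebd3ef475dd.shift 1 0), rhc14e05cbbaaf54c9] (by decide +kernel))
noncomputable def rhe930f9bd1231db69 : CRef := CRef.mk (Pat.mk 0x400000007000000040000000400000000 0x400000004000000070000003e0000000e0000000a 5 6) 0 0 (step_sound _ 1 [rh6f235c76ee6d9186, (rh79877ebd3ef475dd.shift 1 0)] (by decide +kernel))
noncomputable def rh47ab38d0c678eec1 : CRef := CRef.mk (Pat.mk 0x4000000070000001c000000000000000000000000 0x140000003e000000170000001c000000180000000800000008 5 6) 0 0 (step_sound _ 67 [(rh2145e1d24b96a57e.shift 2 2), rhe139380d68eae545] (by decide +kernel))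
noncomputable def rha9341be56f59e852 : CRef := CRef.mk (Pat.mk 0x140000000300000030000000000000000000000000 0x800000008000000180000001e0000003300000030000000380000003800000028 5 6) 0 0 (step_sound _ 132 [(rh046c5eb18e55a239.shift 4 0), rh8ad0a1141242d503, (rh9f6c9c0d9945753c.shift 0 2)] (by decide +kernel))
noncomputable def rh3c3f298f7c7bf5e0 : CRef := CRef.mk (Pat.mk 0x80000000b0000000a00000000 0x140000001c0000001c000000080000000b0000001e00000004 5 5) 0 0 (step_sound _ 34 [(rh6c03a9ef5fb89cef.shift 2 0), (rhf48373e13d2bc128.shift 0 1)] (by decide +kernel))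
noncomputable def rhf6c8321d25f29619 : CRef := CRef.mk (Pat.mk 0x80000000b0000000a000000000000000000000000 0x10000000180000001b0000001e0000003c0000001c00000014 5 6) 0 0 (step_sound _ 98 [(rhd4e5ad3e38a471bb.shift 1 0), (rhf48373e13d2bc128.shift 0 3)] (by decide +kernel))
noncomputable def rhf35367dac2e963a8 : CRef := CRef.mk (Pat.mk 0x40000000400000005000000000000000000000000 0xc0000000c0000000c000000070000001e0000000e0000000a 5 5) 0 0 (step_sound _ 66 [(rh367118e0bf0473e0.shift 1 0), (rh8cdd36b03d57a2f6.shift 1 0), (rhac3d6389f960a17c.shift 0 1), (rhc9de03f9731897d4.shift 2 0)] (by decide +kernel))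
noncomputable def rh97c32cd2dcfac0dc : CRef := CRef.mk (Pat.mk 0x20000000200000002000000000000000000000000 0x400000006000000060000000600000006000000070000000700000005 5 3) 0 0 (step_sound _ 65 [rh367118e0bf0473e0, rh8cdd36b03d57a2f6, (rhc9de03f9731897d4.shift 1 0), (rhced6d86d2069808b.shift 1 1)] (by decide +kernel))
noncomputable def rh08b1131eaeee9b79 : CRef := CRef.mk (Pat.mk 0x2000000060000000300000002 0x500000007000000070000000300000007000000070000000300000002 5 3) 0 0 (step_sound _ 129 [rh3ca48e2a6d60153d, (rh5d410e570082021e.shift 0 1), (rh7f5ee5bbfdef1c38.shift 0 1)] (by decide +kernel))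
noncomputable def rhd57990d61f0ee15f : CRef := CRef.mk (Pat.mk 0x800000008000000080000000e00000008 0x800000018000000380000003f0000000e00000008 5 6) 0 0 (step_sound _ 66 [(rh5c5e593799055d58.shift 2 1), rhce8c51cdc0a964a5] (by decide +kernel))
noncomputable def rh92d2c9b6274fb015 : CRef := CRef.mk (Pat.mk 0x6000000040000000700000004 0x780000003e0000007f0000000700000004 5 7) 0 0 (step_sound _ 99 [(rh2f68792b6b779e96.shift 2 0), (rh982b63b1a3105b40.shift 0 1)] (by decide +kernel))
noncomputable def rhe28967695f128dc4 : CRef := CRef.mk (Pat.mk 0x6000000020000000700000004000000000000000000000000 0x400000006000000030000000700000007000000030000000300000002 5 3) 0 0 (step_sound _ 97 [rh277593e967ce41e6, (rh2f68792b6b779e96.shift 1 3)] (by decide +kernel))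
noncomputable def rh9cffb0e013efb94e : CRef := CRef.mk (Pat.mk 0x6000000000000000700000006000000000000000000000000 0x400000006000000030000000700000007000000030000000300000002 5 3) 0 0 (step_sound _ 161 [rh277593e967ce41e6, (rh2f68792b6b779e96.shift 1 3)] (by decide +kernel))
noncomputable def rh8c8de597d5332263 : CRef := CRef.mk (Pat.mk 0x38000000000000003000000020 0x1f0000007c000000100000003000000030 5 7) 0 0 (step_sound _ 68 [(rh2145e1d24b96a57e.shift 4 0), rh3c854e66629c2f4d] (by decide +kernel))
noncomputable def rh1d935cc3168d8435 : CRef := CRef.mk (Pat.mk 0x38000000000000000000000080 0xef000000fe000001c70000008000000080 5 9) 0 0 (step_sound _ 134 [(rh08920e1658b4280d.shift 3 0), (rh30473dc56de15b6b.shift 0 2), (rhc0bb46660c04d705.shift 1 3)] (by decide +kernel))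
noncomputable def rh44854c611e41413d : CRef := CRef.mk (Pat.mk 0x6000000040000000700000004 0x780000003f0000007e0000000700000004 5 7) 0 0 (step_sound _ 99 [(rh2f68792b6b779e96.shift 2 0), (rhfb6eb4c11fbcd31e.shift 0 1)] (by decide +kernel))
noncomputable def rh4725a1bdc8f56e14 : CRef := CRef.mk (Pat.mk 0x8000000180000000000000004 0x8000001ff000000ff000001e700000004 5 9) 0 0 (step_sound _ 69 [(rh0dd414d1a72dbe92.shift 2 1), (rh1aae126fdb0efa1d.shift 2 1), rh364e82d9d07dbeab, (rh38997752f3734f72.shift 2 1)] (by decide +kernel))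
noncomputable def rh368294304359af37 : CRef := CRef.mk (Pat.mk 0x1800000010000000380000000000000000 0x240000007f0000001f000000380000001f0000001c 5 7) 0 0 (step_sound _ 99 [rh0d728b4996fe6371, (rh9a3bfb7fb0179462.shift 1 0), rhe9f6f0aede50e55e] (by decide +kernel))
noncomputable def rh7d104da50b66fe53 : CRef := CRef.mk (Pat.mk 0x300000001000000070000000000000000000000000 0xf0000007e0000003f00000070000000180000001800000008 5 7) 0 0 (step_sound _ 163 [(rh091d9d8e8cc09897.shift 3 1), (rh43d8dfd721575dfb.shift 3 0), (rh8f2ec7d8df44323f.shift 3 0), (rhcd1deb4e4ba974f7.shift 0 3)] (by decide +kernel))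
noncomputable def rh3633eb8b8a93c2d7 : CRef := CRef.mk (Pat.mk 0x3000000020000000600000004000000000000000000000000 0x100000003000000030000000600000006000000030000000300000003 5 3) 0 0 (step_sound _ 97 [(rh50fbb5868c909700.shift 0 3), rhc9986520d3323e56] (by decide +kernel))
noncomputable def rhc4a2110ed7df5cb7 : CRef := CRef.mk (Pat.mk 0xc000000080000000c0000000800000000 0x130000001f0000003c0000000c0000000c00000004 5 6) 0 0 (step_sound _ 34 [(rh3d9fc58b50ff3185.shift 0 1), (rh932754581e0f4330.shift 2 0)] (by decide +kernel))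
noncomputable def rh1158de7400dea4a7 : CRef := CRef.mk (Pat.mk 0x3000000020000000380000002000000000 0x4f0000007e0000003f000000380000003000000010 5 7) 0 0 (step_sound _ 131 [(rh3be4140aed8b8732.shift 2 0), (rhb395f5d840ae4d8d.shift 3 0), (rhdce36306e73f2622.shift 0 1), (rhfa73d75afc395988.shift 1 1)] (by decide +kernel))
noncomputable def rh450a0c5e414c4eff : CRef := CRef.mk (Pat.mk 0x3000000020000000380000002000000000 0xf0000003e0000007f000000380000003000000010 5 7) 0 0 (step_sound _ 131 [(rh6c6cc8f59caab3aa.shift 0 3), (rhb395f5d840ae4d8d.shift 3 0)] (by decide +kernel))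
noncomputable def rha473a7a7061f2b4c : CRef := CRef.mk (Pat.mk 0xc000000080000000e0000000800000000 0x120000001f0000003b0000000e0000000c00000004 5 6) 0 0 (step_sound _ 34 [(rh932754581e0f4330.shift 2 0), (rhbc2b647dbc0ffc03.shift 0 1)] (by decide +kernel))
noncomputable def rhec7a24dc1a6ec7fb : CRef := CRef.mk (Pat.mk 0x1c00000000000000080000004000000000 0x700000007e000000ef000000480000004800000008 5 8) 0 0 (step_sound _ 133 [(rh282dcf2abcd74723.shift 2 1), (rh7654d7b92c96fe12.shift 0 3), (rh9eca49714bbbfc0a.shift 1 0)] (by decide +kernel))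
noncomputable def rh51b4cbeb971739fc : CRef := CRef.mk (Pat.mk 0x70000000000000003000000000000000000000000 0x5000000070000000300000003000000030000000300000003 5 3) 0 0 (step_sound _ 65 [rh0588d2c7f2cab5e9, (rh5a4df29f20c07a62.shift 0 2), rh691a31cf2ab123f8] (by decide +kernel))
noncomputable def rh720d63dff00d31f5 : CRef := CRef.mk (Pat.mk 0xe000000000000000600000020 0x330000003e000000730000002600000024 5 7) 0 0 (step_sound _ 100 [(rh282dcf2abcd74723.shift 1 0), rh71bbb00ef1ecd8fb] (by decide +kernel))
noncomputable def rh4f925707db002786 : CRef := CRef.mk (Pat.mk 0xe000000000000000400000014 0x180000001f0000003c0000001400000014 5 6) 0 0 (step_sound _ 131 [(rh04253f50b6dd0619.shift 2 0), rhcd09009c9a2b0532] (by decide +kernel))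
noncomputable def rhb520e1b2b9f1389b : CRef := CRef.mk (Pat.mk 0xe000000000000000700000004 0x780000003e0000007f0000000700000004 5 7) 0 0 (step_sound _ 66 [(rh2f68792b6b779e96.shift 2 0), (rh982b63b1a3105b40.shift 0 1)] (by decide +kernel))
noncomputable def rh67fdeea0bed00be5 : CRef := CRef.mk (Pat.mk 0x38000000000000000000000040 0x670000007e000000e70000004000000040 5 8) 0 0 (step_sound _ 98 [(rh282dcf2abcd74723.shift 2 0), (rh775ca1963e850b80.shift 0 2)] (by decide +kernel))
noncomputable def rh831bf7125f17e581 : CRef := CRef.mk (Pat.mk 0x380000000000000008 0x4000000070000007e0000007f00000008 5 7) 0 0 (step_sound _ 66 [(rh008b05f4778dc30d.shift 0 1), (rh0d378fd9e8917c5a.shift 0 1), (rh775ca1963e850b80.shift 0 1), (rh9aa138e5ed752369.shift 1 0)] (by decide +kernel))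
noncomputable def rh189dac5cd8bb6a8f : CRef := CRef.mk (Pat.mk 0x38000000000000001000000010 0x700000003e000000170000001000000010 5 7) 0 0 (step_sound _ 133 [(rh04253f50b6dd0619.shift 4 0), (rh7f0f728c796044ac.shift 0 2)] (by decide +kernel))
noncomputable def rh5c57c690b329638d : CRef := CRef.mk (Pat.mk 0x38000000000000001c0000001000000000 0x160000003e000000770000001c0000001800000008 5 7) 0 0 (step_sound _ 130 [(rh008b05f4778dc30d.shift 0 3), (rh71bbb00ef1ecd8fb.shift 1 1), (rhef8b10f41b6c2c53.shift 1 0)] (by decide +kernel))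
noncomputable def rh14360537f9290c54 : CRef := CRef.mk (Pat.mk 0x1c000000000000000600000020 0x330000003e000000730000002600000024 5 7) 0 0 (step_sound _ 97 [(rh282dcf2abcd74723.shift 1 0), rh71bbb00ef1ecd8fb] (by decide +kernel))
noncomputable def rhc50ad2998920b0b0 : CRef := CRef.mk (Pat.mk 0x1000000030000000000000000800000000 0x1000000010000001fe000000fe000001cf0000000800000008 5 9) 0 0 (step_sound _ 99 [(rh00d6a6e3c7e3bb40.shift 3 0), (rh3a463f8d3d15292d.shift 1 2), rh98f49802b3144551] (by decide +kernel))
noncomputable def rha123979ab022622e : CRef := CRef.mk (Pat.mk 0x3800000000000000180000000000000000 0x180000007c0000000f000000180000001800000010 5 7) 0 0 (step_sound _ 99 [(rh2820ca9a6c4f41b4.shift 0 3), (rhe8f9550119ab603c.shift 3 0), (rhf7c73d30bab1d669.shift 0 1)] (by decide +kernel))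
noncomputable def rhd18700aee66f7fa3 : CRef := CRef.mk (Pat.mk 0xe000000000000000600000020 0x370000003e000000730000002600000024 5 7) 0 0 (step_sound _ 100 [(rh282dcf2abcd74723.shift 1 0), (rh3947d1dfff0afc6c.shift 0 2), rh71bbb00ef1ecd8fb] (by decide +kernel))
noncomputable def rhb4b78effd13985fe : CRef := CRef.mk (Pat.mk 0x38000000000000000800000000 0x4000000770000003e0000000f0000000800000008 5 7) 0 0 (step_sound _ 98 [(rh61325f73ebf98108.shift 0 3), (rh7654d7b92c96fe12.shift 0 2), (rh775ca1963e850b80.shift 0 2), (rhfcd0957979bf6d9d.shift 1 0)] (by decide +kernel))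
noncomputable def rhe134d12ce6b641a1 : CRef := CRef.mk (Pat.mk 0x3800000000000000080000000000000000 0x10000000140000001c0000007c0000000f000000080000000800000008 5 7) 0 0 (step_sound _ 99 [(rh1fe32ecf9115bef1.shift 1 0), (rh2820ca9a6c4f41b4.shift 0 3), (rh85178f6b26a9361b.shift 2 1), (rh93cace0b8de74af5.shift 2 1), (rhf7c73d30bab1d669.shift 0 1)] (by decide +kernel))
noncomputable def rh33e086b63a29e45b : CRef := CRef.mk (Pat.mk 0x80000005800000018000000000000000000000000 0x8000000df000000ff000000070000000400000004 5 8) 0 0 (step_sound _ 101 [rh2c94cac119825510, (rh5ec015d369888aae.shift 2 3), (rheff610e725081997.shift 3 3)] (by decide +kernel))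
noncomputable def rh7302035b23d3a375 : CRef := CRef.mk (Pat.mk 0x1800000038000000100000001000000000 0x180000003f000000770000001e0000000c 5 7) 0 0 (step_sound _ 98 [(rh7f0aebd6a74d269a.shift 1 0), (rha03f6e28ea70fc7d.shift 1 2), rhffa9dce49202a604] (by decide +kernel))
noncomputable def rhda6d489f414960da : CRef := CRef.mk (Pat.mk 0x60000001e000000080000000000000000 0x60000001e0000003f0000000300000003 5 6) 0 0 (step_sound _ 65 [rhbac57ba73c4fb941, (rheb0810cc63b001d8.shift 0 2)] (by decide +kernel))
noncomputable def rhd753d0ecdc56c4ad : CRef := CRef.mk (Pat.mk 0x1c000000100000001000000018 0x140000001c0000003c0000001f00000018 5 6) 0 0 (step_sound _ 35 [(rh5c5e593799055d58.shift 3 0), rhf37039dc6cc1e75a] (by decide +kernel))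
noncomputable def rh7bad8ed7fb4739ae : CRef := CRef.mk (Pat.mk 0x200000003000000020000000200000000000000000000000000000000 0x200000003000000070000000600000006000000070000000700000005 5 3) 0 0 (step_sound _ 97 [rh641084bb64cf8acf, rh7f92eae285641ce5, (rhd29a1fb688eae70f.shift 1 2)] (by decide +kernel))
noncomputable def rhcc98a93f80e0f8e0 : CRef := CRef.mk (Pat.mk 0xe000000080000001c00000000 0xe0000007f000000ff000000e0 5 8) 0 0 (step_sound _ 68 [rh41af8696f4579ab3, (rh89ade209b3e28f13.shift 1 2), (rhab2ad169e49f9c5e.shift 0 1)] (by decide +kernel))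
noncomputable def rh01797f8244ce6d9f : CRef := CRef.mk (Pat.mk 0x6000000040000000c0000000c000000000000000000000000 0x60000007c0000007e0000007f000000300000001000000010 5 7) 0 0 (step_sound _ 132 [rh4c3f48492504c0f6, (rh4dc133ee0ba1420a.shift 0 3), (rh571054b9674ed498.shift 1 3)] (by decide +kernel))
noncomputable def rh9deb5ea359911d73 : CRef := CRef.mk (Pat.mk 0x2000000030000000200000006 0x6000000060000000700000003000000030000000600000006 5 3) 0 0 (step_sound _ 96 [rh50fbb5868c909700, rhdc29ce31a7530d3c] (by decide +kernel))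
noncomputable def rh7e08579078404617 : CRef := CRef.mk (Pat.mk 0x400000007000000040000000400000000 0xa0000001e00000007000000040000000e0000000a 5 5) 0 0 (step_sound _ 1 [rh63dbcfae63aa4130, (rh79877ebd3ef475dd.shift 1 0)] (by decide +kernel))
noncomputable def rh80b30311976dcd5f : CRef := CRef.mk (Pat.mk 0x40000000600000006000000000000000000000000 0x600000006000000070000003e0000000e0000000c 5 6) 0 0 (step_sound _ 65 [rh124052dc1b3819ff, (rh71222050f2c63a3a.shift 1 1)] (by decide +kernel))
noncomputable def rh4fd420858ccab8d0 : CRef := CRef.mk (Pat.mk 0x18000000380000000800000000 0xc0000001c0000001c000000180000003c0000000f00000004 5 6) 0 0 (step_sound _ 132 [(rh5c5e593799055d58.shift 3 1), rh702f3f1d58e81308] (by decide +kernel))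
noncomputable def rh7250cfd3db0ef070 : CRef := CRef.mk (Pat.mk 0x200000007000000060000000200000000 0xc0000001e00000007000000060000000700000005 5 5) 0 0 (step_sound _ 0 [rh6af4d1e77dd150b6, rh79877ebd3ef475dd] (by decide +kernel))
noncomputable def rh888d8d7ab43e8c54 : CRef := CRef.mk (Pat.mk 0x200000006000000060000000200000000 0x6000000070000000700000006000000060000000300000001 5 3) 0 0 (step_sound _ 0 [(rh125f8901361ab076.shift 0 1), rh79877ebd3ef475dd] (by decide +kernel))
noncomputable def rh4402653d75ffe56a : CRef := CRef.mk (Pat.mk 0x20000001e000000000000000000000000 0x1000000070000000700000007000000060000001e000000070000000600000006 5 5) 0 0 (step_sound _ 161 [(rh046c5eb18e55a239.shift 1 0), rh1b880c036631c575, (rhb313d89573cddecd.shift 0 2), (rhc65f5dc89ddae11a.shift 0 1), rhed21e45804eeb376] (by decide +kernel))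
noncomputable def rh8be92a317b3a5c88 : CRef := CRef.mk (Pat.mk 0x20000000200000007000000040000000000000000 0x50000000700000007000000070000001f0000001b00000001 5 5) 0 0 (step_sound _ 65 [rh6aa5625770489e83, (rh6bdb929a1a73e24b.shift 0 1), (rh7176a54275fd3e59.shift 0 1)] (by decide +kernel))
noncomputable def rh36c1eac2acc7c645 : CRef := CRef.mk (Pat.mk 0x200000007000000040000000400000000 0xc0000000c0000000c0000001e000000070000003e0000000c00000008 5 6) 0 0 (step_sound _ 130 [rh6f235c76ee6d9186, (rh712526e472efe489.shift 0 1), (rha43eb3efb4cca69e.shift 1 0)] (by decide +kernel))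
noncomputable def rhb7bc43de8b306739 : CRef := CRef.mk (Pat.mk 0x20000001e000000100000000000000000 0x6000000060000001e0000001f0000000700000007 5 5) 0 0 (step_sound _ 65 [rhceadcece2e06eb7f, (rheb0810cc63b001d8.shift 0 2)] (by decide +kernel))
noncomputable def rhb34a67f8847d128f : CRef := CRef.mk (Pat.mk 0x2c00000020 0x70000003e00000067 5 7) 0 0 (step_sound _ 36 [rh775ca1963e850b80, (rhe25b0a99195a5d59.shift 2 0)] (by decide +kernel))
noncomputable def rh3648c04e4793fbd2 : CRef := CRef.mk (Pat.mk 0x160000001c000000000000000000000000 0x1600000016000000160000001c0000001f0000000e00000008 5 5) 0 0 (step_sound _ 67 [(rhade0f4c81793f68e.shift 2 0), (rhc04acbc801fe9a40.shift 0 1), (rhcf80391c5046a495.shift 3 0)] (by decide +kernel))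
noncomputable def rh048d0bc650a6bbc1 : CRef := CRef.mk (Pat.mk 0x1200000016000000000000000000000000 0x10000000130000001f000000380000000800000008 5 6) 0 0 (step_sound _ 99 [(rh3244c3cc8379b070.shift 0 3), rh9483656c38360087] (by decide +kernel))
noncomputable def rh5dc5071a19a64e2e : CRef := CRef.mk (Pat.mk 0x600000006000000000000000000000000 0x40000000600000006000000070000003f0000000f00000007 5 6) 0 0 (step_sound _ 65 [rh0b5523572e849cbc, rh7f8bb07996f68c30, (rhea7a1800d6f053bd.shift 1 0)] (by decide +kernel))
noncomputable def rhc5701ad72fdbcf81 : CRef := CRef.mk (Pat.mk 0x140000001400000004000000000000000000000000 0x2000000060000001600000014000000370000003e0000001b0000000a0000000a 5 6) 0 0 (step_sound _ 99 [rh198336ceab80f814, (rh96fbad571715fd8b.shift 1 2), rh9ccba12e5ed12512, (rhf888686ded5effa4.shift 2 0)] (by decide +kernel))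
noncomputable def rh7f4585616ba89c60 : CRef := CRef.mk (Pat.mk 0x7000000040000000400000000 0x80000000e0000001e000000070000003e0000000c00000008 5 6) 0 0 (step_sound _ 130 [(rh4017de503635a93b.shift 0 1), (rh426f403fa814630c.shift 2 0), rh6f235c76ee6d9186] (by decide +kernel))
noncomputable def rh1dc8cc9ca9c9e629 : CRef := CRef.mk (Pat.mk 0x80000000800000008000000100000000000000000 0x800000008000000380000001f000000fc0000000400000004 5 8) 0 0 (step_sound _ 98 [(rh281c6819542c66e6.shift 2 0), (rh4376b188bbdfbbf8.shift 1 2), (rh77f4fa36e85995bb.shift 0 2), (rh85a605aac6183f28.shift 2 2)] (by decide +kernel))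
noncomputable def rh50b6a74b66019ea1 : CRef := CRef.mk (Pat.mk 0xc0000003800000000000000000000000000000000 0x40000000c0000000c0000000c0000003c0000001f0000001c0000000c00000004 5 6) 0 0 (step_sound _ 99 [(rh3eb188fb253f07ac.shift 0 2), (rh43d8dfd721575dfb.shift 2 0), (rh7b24c4ccc068b0b2.shift 2 2), (rhb1a251d9bff81766.shift 2 2)] (by decide +kernel))
noncomputable def rh8a188d2dc4ab869e : CRef := CRef.mk (Pat.mk 0x2c00000038000000000000000000000000 0x140000001c0000001c0000007c0000002f000000380000001f0000001c00000010 5 7) 0 0 (step_sound _ 163 [(rh4bcb18fc14cd73eb.shift 0 1), (rha768b229dc254047.shift 3 0), (rhc0f6fe06378683f4.shift 2 2), (rhe7b3cb943067fd4d.shift 0 1)] (by decide +kernel))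
noncomputable def rh50381b1ee12ee04f : CRef := CRef.mk (Pat.mk 0x80000000a000000080000000800000000 0x140000001e0000000f000000080000001800000010 5 5) 0 0 (step_sound _ 4 [(rh7e90affc6ee08a22.shift 0 1), (rhd3458b32566d63f7.shift 3 0)] (by decide +kernel))
noncomputable def rh28c8f707ed5ca26c : CRef := CRef.mk (Pat.mk 0x20000000200000002000000020000000400000000 0x500000007000000070000000200000002000000020000000600000004 5 3) 0 0 (step_sound _ 2 [(rhbe0e43a3bc50a43f.shift 1 0), (rhc85cc95794737cf7.shift 0 2)] (by decide +kernel))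
noncomputable def rh5738f4b9ccd4f1f9 : CRef := CRef.mk (Pat.mk 0x180000000a0000000800000008000000000000000000000000 0x180000000f0000000c000000180000001c0000001c00000004 5 5) 0 0 (step_sound _ 162 [(rh53b3c253cb0c65f4.shift 0 5), (rh5a26ed1c01b25f18.shift 2 0)] (by decide +kernel))
noncomputable def rh30932638aee112e0 : CRef := CRef.mk (Pat.mk 0x80000000a00000008000000080000001000000000 0x140000001e0000000f00000008000000080000001800000010 5 5) 0 0 (step_sound _ 4 [(rh7e90affc6ee08a22.shift 0 2), (rhbe0e43a3bc50a43f.shift 3 0)] (by decide +kernel))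
noncomputable def rh430794f3738601d0 : CRef := CRef.mk (Pat.mk 0x80000000a000000080000000800000000 0x100000007c0000000f000000080000001800000010 5 7) 0 0 (step_sound _ 4 [(rhb034511df68c2fcf.shift 0 1), (rhd3458b32566d63f7.shift 3 0)] (by decide +kernel))
noncomputable def rhf884ace1e129bdf1 : CRef := CRef.mk (Pat.mk 0x80000000a00000008000000080000000400000000 0x100000007c0000000f00000008000000080000000c00000004 5 7) 0 0 (step_sound _ 2 [(rhb034511df68c2fcf.shift 0 2), (rheea67dfebd0f8008.shift 2 0)] (by decide +kernel))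
noncomputable def rh52953df648ff3398 : CRef := CRef.mk (Pat.mk 0x80000000a00000008000000080000001000000000 0x100000007c0000000f00000008000000080000001800000010 5 7) 0 0 (step_sound _ 4 [(rhb034511df68c2fcf.shift 0 2), (rhbe0e43a3bc50a43f.shift 3 0)] (by decide +kernel))
noncomputable def rhff363d8c8c4d7478 : CRef := CRef.mk (Pat.mk 0x20000000200000002000000000000000000000000 0x100000003000000030000000300000003000000070000000700000005 5 3) 0 0 (step_sound _ 65 [(rh0fd870c734e6c513.shift 0 1), rh46baee19951a66e7, rh8cdd36b03d57a2f6] (by decide +kernel))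
noncomputable def rhf3464aed381aaf11 : CRef := CRef.mk (Pat.mk 0x1000000014000000100000000000000000 0x280000003800000038000000300000001f000000180000001800000008 5 6) 0 0 (step_sound _ 164 [(rh367118e0bf0473e0.shift 3 0), (rha94490687c60c4d4.shift 0 1), (rhc85cc95794737cf7.shift 3 2)] (by decide +kernel))
noncomputable def rh0d873266c2eb5bec : CRef := CRef.mk (Pat.mk 0x80000000a00000008000000080000000400000000 0x140000001e0000000f00000008000000080000000c00000004 5 5) 0 0 (step_sound _ 2 [(rh7e90affc6ee08a22.shift 0 2), (rheea67dfebd0f8008.shift 2 0)] (by decide +kernel))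
noncomputable def rh7e1c982f8a27525e : CRef := CRef.mk (Pat.mk 0xc000000080000000a00000008 0x100000003f0000007f0000000b00000008 5 7) 0 0 (step_sound _ 100 [(rh2eddee460ee53bc0.shift 0 1), (rh2f68792b6b779e96.shift 3 0)] (by decide +kernel))
noncomputable def rh32f6ebe012bbda71 : CRef := CRef.mk (Pat.mk 0x2c000000280000000000000000 0x4000000040000000f0000003e0000003f0000000800000008 5 6) 0 0 (step_sound _ 100 [(rh2cc7d62e70c02209.shift 0 2), (rhd1d05263fabc0227.shift 0 2), (rhd5889c99d29bf7d6.shift 1 0), (rhdceeca65bdd8095a.shift 0 2)] (by decide +kernel))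
noncomputable def rh43715a9a1b5d459f : CRef := CRef.mk (Pat.mk 0x140000001e0000000000000000 0x3000000030000001f0000001e0000000700000004 5 5) 0 0 (step_sound _ 97 [(rh3244c3cc8379b070.shift 0 2), rhd27908c03515d08d] (by decide +kernel))
noncomputable def rh86c002bec37c9c8c : CRef := CRef.mk (Pat.mk 0x2000000060000000200000000000000000000000000000000 0x5000000070000000700000002000000060000000600000007000000070000000700000004 5 3) 0 0 (step_sound _ 97 [rh218cd2e070c414fb, (rh3181373a30ceb9e3.shift 0 1), (rh80a078ff2631050c.shift 0 1), (rhc2ec0d612c2e04db.shift 0 2)] (by decide +kernel))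
noncomputable def rhb8a5325c9f5d88c8 : CRef := CRef.mk (Pat.mk 0x80000000800000038000000000000000000000000 0x40000001c0000001c000000380000001f0000001c0000001c 5 6) 0 0 (step_sound _ 67 [(rh6aa5625770489e83.shift 2 0), (rh852e818bc8629e77.shift 0 1), (rhca18712e5e5c7b8f.shift 3 0)] (by decide +kernel))
noncomputable def rh5bbc0f892859fdc5 : CRef := CRef.mk (Pat.mk 0x20000000200000006000000000000000000000000 0x500000007000000070000000700000006000000030000000300000003 5 3) 0 0 (step_sound _ 65 [rh6aa5625770489e83, (rh7ef5fa5c39f1c762.shift 0 2), rheacedd262407fad2] (by decide +kernel))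
noncomputable def rh24e72371d7873615 : CRef := CRef.mk (Pat.mk 0xa0000000e000000000000000000000000 0x20000000b0000003e000000070000000400000004 5 6) 0 0 (step_sound _ 100 [(rh3244c3cc8379b070.shift 0 3), rh5002fd5ca5291a69] (by decide +kernel))
noncomputable def rh26e1017678d9da1f : CRef := CRef.mk (Pat.mk 0x800000038000000000000000000000000 0x80000000f0000003e000000770000000400000004 5 7) 0 0 (step_sound _ 98 [(rh2ba551de881ca4cd.shift 0 2), (rh2cc7d62e70c02209.shift 0 2), (rh4f129d8f37c2c70a.shift 1 0), (rh8195a2d7794c7cd2.shift 0 2)] (by decide +kernel))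
noncomputable def rha2db8c1c9bcadc52 : CRef := CRef.mk (Pat.mk 0x2800000038000000000000001000000000 0x800000018000000380000003e000000770000003000000020 5 7) 0 0 (step_sound _ 98 [(rh008b05f4778dc30d.shift 0 2), (rh2591032a0e7f4182.shift 0 2), (rh2ebbcfe90e0f250d.shift 1 2), (rhf1be397b60ad9686.shift 1 0)] (by decide +kernel))
noncomputable def rh39e87aa729298fee : CRef := CRef.mk (Pat.mk 0x80000000e000000000000000400000000 0x80000001f0000007c0000000c00000004 5 7) 0 0 (step_sound _ 2 [(rh04253f50b6dd0619.shift 2 0), rh5438cee5f4aea154] (by decide +kernel))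
noncomputable def rh897d573130d49112 : CRef := CRef.mk (Pat.mk 0x5800000018000000000000000000000000 0x8000000780000001f000000300000001000000010 5 7) 0 0 (step_sound _ 98 [(rh361cc68994bd8a63.shift 2 3), rh7fe3849afaeeddfd] (by decide +kernel))
noncomputable def rhfd0d5dfa741eea06 : CRef := CRef.mk (Pat.mk 0x140000001e000000000000000000000000 0x20000000b0000001f0000001e000000340000001400000010 5 6) 0 0 (step_sound _ 129 [(rh3244c3cc8379b070.shift 0 3), rh5c42f8da43409903] (by decide +kernel))
noncomputable def rha7dfeceabd3f28a3 : CRef := CRef.mk (Pat.mk 0x2c00000004 0x70000003e00000076 5 7) 0 0 (step_sound _ 36 [rh0d378fd9e8917c5a, (rheb0810cc63b001d8.shift 1 0)] (by decide +kernel))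
noncomputable def rh9483e1c452b29f0f : CRef := CRef.mk (Pat.mk 0x1400000016000000000000000000000000 0x4000000040000001c0000001f0000003f0000000200000002 5 6) 0 0 (step_sound _ 99 [(rh2ebbcfe90e0f250d.shift 0 2), rh3423e5ac208fb65b] (by decide +kernel))
noncomputable def rh26fad6f28aba9fb5 : CRef := CRef.mk (Pat.mk 0x58000000180000000000000000 0x100000003e0000007f0000001c0000000800000008 5 7) 0 0 (step_sound _ 101 [rh6991441ea091e864, (rheb0810cc63b001d8.shift 2 2)] (by decide +kernel))
noncomputable def rhdf5876b222a4c700 : CRef := CRef.mk (Pat.mk 0x2c0000000c000000000000000000000000 0x1800000018000000180000003c0000000f0000001c0000001c0000001c 5 6) 0 0 (step_sound _ 163 [rh052e39142d95d5e8, (rh1e309b005ffa1b36.shift 2 1), (rh743e19cd6045f524.shift 2 0)] (by decide +kernel))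
noncomputable def rh2da7bb8ee8429194 : CRef := CRef.mk (Pat.mk 0x1600000006000000000000000000000000 0x3000000070000001e00000006000000060000000600000002 5 5) 0 0 (step_sound _ 161 [(rh55a1f6c57a317ce6.shift 1 1), rh688d87e93e3219a5] (by decide +kernel))
noncomputable def rh7d95800e7735246b : CRef := CRef.mk (Pat.mk 0x1400000016000000000000000000000000 0x40000001f0000001f0000003b0000000200000002 5 6) 0 0 (step_sound _ 99 [(rh2ebbcfe90e0f250d.shift 0 2), rh4f129d8f37c2c70a] (by decide +kernel))
noncomputable def rh1085b9e5159d0f8c : CRef := CRef.mk (Pat.mk 0x3800000018000000000000000000000000 0xc0000000c0000001f0000003800000018000000180000001800000018 5 6) 0 0 (step_sound _ 163 [(rh55a1f6c57a317ce6.shift 3 1), rhe36aedd5d85a136a, (rhfe7da3c073d75bd5.shift 2 0)] (by decide +kernel))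
noncomputable def rhc7748ec1e18e652f : CRef := CRef.mk (Pat.mk 0x1c0000001c0000000000000000 0xe0000000f0000001c0000001c0000001c0000001c 5 5) 0 0 (step_sound _ 131 [rh05737698542ad308, (rh1e309b005ffa1b36.shift 2 0), (rh55a1f6c57a317ce6.shift 3 0)] (by decide +kernel))
noncomputable def rha2cb1977398e6365 : CRef := CRef.mk (Pat.mk 0x2800000038000000000000000000000000 0x800000008000000380000003e0000007f0000000400000004 5 7) 0 0 (step_sound _ 98 [(rh2ebbcfe90e0f250d.shift 1 2), (rh3423e5ac208fb65b.shift 1 0), (rh8195a2d7794c7cd2.shift 0 2)] (by decide +kernel))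
noncomputable def rhc5c5b88722b9bb4a : CRef := CRef.mk (Pat.mk 0x200000002000000020000000000000000 0x500000007000000070000000200000002000000070000000700000005 5 3) 0 0 (step_sound _ 161 [rh3181373a30ceb9e3, (rhc85cc95794737cf7.shift 0 2)] (by decide +kernel))
noncomputable def rhe19deee2c270a386 : CRef := CRef.mk (Pat.mk 0x200000002000000020000000000000000 0x500000007000000070000000300000003000000030000000300000001 5 3) 0 0 (step_sound _ 161 [(rh0fd870c734e6c513.shift 0 1), (rh20966da26a1c2ae8.shift 0 1), rh6aa5625770489e83, (rhc85cc95794737cf7.shift 0 2)] (by decide +kernel))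
noncomputable def rhae22d6cdf819408b : CRef := CRef.mk (Pat.mk 0x20000000200000002000000020000000000000000 0x600000006000000070000000300000003000000070000000600000004 5 3) 0 0 (step_sound _ 34 [(rhd3458b32566d63f7.shift 1 1), rhf33a0594b60184d8] (by decide +kernel))
noncomputable def rh1d02867ed80f91bc : CRef := CRef.mk (Pat.mk 0x200000002000000020000000200000000 0x100000007000000070000000600000003000000030000000700000004 5 3) 0 0 (step_sound _ 2 [(rh63ec579283f3d560.shift 0 1), (rhd3458b32566d63f7.shift 1 0)] (by decide +kernel))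
noncomputable def rha453be73bb897994 : CRef := CRef.mk (Pat.mk 0xa0000000a00000002000000020000000000000000 0x40000000f0000001b00000002000000030000000300000001 5 5) 0 0 (step_sound _ 32 [(rh79877ebd3ef475dd.shift 0 1), rh92c0f357a6062ed6] (by decide +kernel))
noncomputable def rh686dda116d7c0588 : CRef := CRef.mk (Pat.mk 0xa0000000a00000002000000020000000000000000 0x40000000f0000001b00000002000000060000000600000004 5 5) 0 0 (step_sound _ 34 [rhac69fad8e5cbaee9, (rhd3458b32566d63f7.shift 1 1)] (by decide +kernel))
noncomputable def rhf418d59029d720e2 : CRef := CRef.mk (Pat.mk 0x5000000040000000400000000 0xa0000000e0000001e00000007000000060000000600000006 5 5) 0 0 (step_sound _ 130 [(rh0fd870c734e6c513.shift 1 0), (rh20966da26a1c2ae8.shift 1 0), rh516963541d5f8797] (by decide +kernel))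
noncomputable def rhb5af6b450c9c531c : CRef := CRef.mk (Pat.mk 0x200000002000000020000000000000000 0x400000006000000060000000200000007000000070000000700000005 5 3) 0 0 (step_sound _ 161 [(rh20966da26a1c2ae8.shift 0 1), rh8cdd36b03d57a2f6, (rhabedd109a9a37101.shift 0 1), (rhced6d86d2069808b.shift 1 1)] (by decide +kernel))
noncomputable def rh937d595a607cbdda : CRef := CRef.mk (Pat.mk 0x5000000040000000400000000 0xa0000000e0000001e000000070000000c0000000c0000000c 5 5) 0 0 (step_sound _ 130 [(rh29dd5384d80ecb1e.shift 1 0), rh516963541d5f8797, (rhced6d86d2069808b.shift 2 0)] (by decide +kernel))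
noncomputable def rhff4e40cbaaa9bd20 : CRef := CRef.mk (Pat.mk 0x80000000a000000080000000c00000000 0x140000003c0000000e0000007e0000001f00000012 5 7) 0 0 (step_sound _ 130 [(rh50fbb5868c909700.shift 2 1), rhe742449d3a23b976] (by decide +kernel))
noncomputable def rh3af75113d91dca31 : CRef := CRef.mk (Pat.mk 0x1000000010000000100000001800000000 0x1000000010000000ff0000007e00000027 5 8) 0 0 (step_sound _ 37 [(rh55afc6a59410cf00.shift 4 0), rh6119e99be32c3c3a] (by decide +kernel))
noncomputable def rh00f4d712d88729c0 : CRef := CRef.mk (Pat.mk 0x200000002000000020000000000000000 0x100000003000000030000000200000007000000070000000700000005 5 3) 0 0 (step_sound _ 161 [(rh0fd870c734e6c513.shift 0 1), (rh29dd5384d80ecb1e.shift 0 1), rh8cdd36b03d57a2f6, (rhabedd109a9a37101.shift 0 1)] (by decide +kernel))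
noncomputable def rhecf880a541f44578 : CRef := CRef.mk (Pat.mk 0x8000000380000001000000000 0xc0000000c0000000f0000003c0000001e0000000c 5 6) 0 0 (step_sound _ 131 [rh02a92d1802aaacf6, (rh2145e1d24b96a57e.shift 3 1)] (by decide +kernel))
noncomputable def rh58a25cf2c9a98a75 : CRef := CRef.mk (Pat.mk 0x1000000070000000200000000000000000 0x1000000010000001fe0000007f0000000800000008 5 9) 0 0 (step_sound _ 99 [(rh8a7e2ad037db1a90.shift 1 2), (rha87bd76817e3db94.shift 0 2), (rhb2432c16363a7e8d.shift 1 2), (rhce12f85975fbaead.shift 2 0)] (by decide +kernel))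
noncomputable def rh35a02af777b98683 : CRef := CRef.mk (Pat.mk 0xa0000000e000000000000000000000000 0x8000000080000000b0000001e000000380000001000000010 5 6) 0 0 (step_sound _ 100 [(rh3244c3cc8379b070.shift 0 3), (rh65dcfd18fd55cba0.shift 1 0)] (by decide +kernel))
noncomputable def rhb67cee603ec67fa4 : CRef := CRef.mk (Pat.mk 0x28000000380000001000000000 0x38000000780000002f0000003c000000f000000040 5 8) 0 0 (step_sound _ 133 [rh22efc2a422dde30e, (rh5c5e593799055d58.shift 4 1)] (by decide +kernel))
noncomputable def rhcf613377bd5ecfc2 : CRef := CRef.mk (Pat.mk 0x100000001c000000080000000000000000 0x1000000010000000ff000001fc0000002000000020 5 9) 0 0 (step_sound _ 101 [(rh0ae232cce48795b7.shift 2 2), (rh269ec8aea54f7124.shift 0 2), (rh492208f1043c36f8.shift 2 2), (rh9bf0be42223291ee.shift 1 0)] (by decide +kernel))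
noncomputable def rheb35796aefd5d255 : CRef := CRef.mk (Pat.mk 0xa0000001a000000000000000000000000 0x8000000080000000b0000001e000000380000001000000010 5 6) 0 0 (step_sound _ 98 [(rh3244c3cc8379b070.shift 0 3), (rh65dcfd18fd55cba0.shift 1 0)] (by decide +kernel))
noncomputable def rh1cdc1db8736d27d8 : CRef := CRef.mk (Pat.mk 0xa0000001a000000100000000000000000 0x20000000a0000003e000000370000000400000004 5 6) 0 0 (step_sound _ 98 [rh5002fd5ca5291a69, (rhe25b0a99195a5d59.shift 1 2)] (by decide +kernel))
noncomputable def rh32e81ba04a706b5a : CRef := CRef.mk (Pat.mk 0x200000002800000068000000000000000000000000 0x100000003c0000007c0000002f000000680000003c0000001c00000014 5 7) 0 0 (step_sound _ 163 [(rh24e797fe2d505814.shift 2 0), (rh349d1013248e817b.shift 0 2), (rh5d8b3f773a050a7a.shift 0 2), (rha2ead9223fc6d248.shift 2 0), (rhe27f3a99d34d0525.shift 3 2)] (by decide +kernel))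
noncomputable def rh7ffc77cf4c1fd48e : CRef := CRef.mk (Pat.mk 0x200000002800000068000000000000000000000000 0x140000005c0000007c0000002f000000680000007c0000007c00000054 5 7) 0 0 (step_sound _ 163 [(rh08ff1a9078a560c4.shift 2 0), (rh349d1013248e817b.shift 0 2), (rh8e9bcea9f50c2144.shift 2 0), (rha2ead9223fc6d248.shift 2 0), (rhcc7c28e4c9a2f586.shift 2 1)] (by decide +kernel))
noncomputable def rh1359922a99d3d421 : CRef := CRef.mk (Pat.mk 0x200000002000000020000000000000000 0x500000007000000070000000300000003000000030000000300000001 5 3) 0 0 (step_sound _ 161 [(rh0fd870c734e6c513.shift 0 1), (rh402d223d12d7377d.shift 0 1), rh6aa5625770489e83, (rh7ef5fa5c39f1c762.shift 0 2)] (by decide +kernel))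
noncomputable def rh7863e25d1d742d32 : CRef := CRef.mk (Pat.mk 0x200000002000000020000000000000000 0x500000007000000070000000600000003000000030000000300000001 5 3) 0 0 (step_sound _ 161 [(rh0fd870c734e6c513.shift 0 1), rh367118e0bf0473e0, (rh402d223d12d7377d.shift 0 1), (rh7ef5fa5c39f1c762.shift 0 2)] (by decide +kernel))
noncomputable def rh328f7f103cdcc067 : CRef := CRef.mk (Pat.mk 0x20000000b0000000a000000000000000000000000 0x40000000c0000001e0000000b0000001e0000001a0000001000000010 5 5) 0 0 (step_sound _ 100 [(rh5419adcd928dba20.shift 0 3), rhdda2af28db18e8cb] (by decide +kernel))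
noncomputable def rh6d9be37e846df60d : CRef := CRef.mk (Pat.mk 0x80000002c00000028000000000000000000000000 0x200000007c0000002f00000078000000600000004000000040 5 7) 0 0 (step_sound _ 102 [rh50ea52579ffb6e6e, (rh5419adcd928dba20.shift 2 3)] (by decide +kernel))
noncomputable def rheb66a64178367915 : CRef := CRef.mk (Pat.mk 0x80000002c00000028000000000000000000000000 0x18000000180000007c0000002f0000002c0000002c0000000c00000008 5 7) 0 0 (step_sound _ 98 [(rh1e309b005ffa1b36.shift 2 1), (rh97e16619180d8576.shift 2 2), rhc81f2a94a3368baf] (by decide +kernel))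
noncomputable def rh1a77efeddae3962a : CRef := CRef.mk (Pat.mk 0x4000000020000000200000002000000000000000000000000 0x5000000070000000300000002000000030000000300000001 5 3) 0 0 (step_sound _ 65 [rh6aa5625770489e83, (rhbaefcd01e0a8bca3.shift 1 2)] (by decide +kernel))
noncomputable def rh8d0044aeb7947d10 : CRef := CRef.mk (Pat.mk 0x200000003000000020000000000000000 0x10000000300000003000000030000000300000003000000030000000300000003 5 2) 0 0 (step_sound _ 161 [(rh03dfdf12d5937476.shift 0 1), rh51243668a0d18e2e, rhd1fa8140a3eb151f] (by decide +kernel))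
noncomputable def rhc8e5a5606908e7d0 : CRef := CRef.mk (Pat.mk 0x800000008000000080000000800000000 0x40000001f0000007c000000080000000800000008 5 7) 0 0 (step_sound _ 130 [(rh50fbb5868c909700.shift 2 1), rha593eb9b98e91083] (by decide +kernel))
noncomputable def rh7086929b0e17680e : CRef := CRef.mk (Pat.mk 0x2000000020000000a0000000a00000000 0x4000000060000003e0000000b0000000a0000000a 5 6) 0 0 (step_sound _ 130 [rh0e20652d24f0c98a, (rh2f68792b6b779e96.shift 1 1)] (by decide +kernel))
noncomputable def rhfeb565e3642a0443 : CRef := CRef.mk (Pat.mk 0x2000000020000000200000002 0x4000000070000000700000003000000030000000300000003 5 3) 0 0 (step_sound _ 128 [rh15d755e7f91f812b, rhffd04209dc8ea796] (by decide +kernel))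
noncomputable def rh195e2e6861faf39a : CRef := CRef.mk (Pat.mk 0x200000002000000020000000000000000 0x500000007000000070000000700000002000000030000000300000001 5 3) 0 0 (step_sound _ 161 [rh367118e0bf0473e0, rh6aa5625770489e83, (rh7ef5fa5c39f1c762.shift 0 2)] (by decide +kernel))
noncomputable def rh8830d6e5bb9cc2ee : CRef := CRef.mk (Pat.mk 0x400000004000000140000001400000000 0x2a0000003f0000007e000000160000001400000010 5 7) 0 0 (step_sound _ 131 [(rh2f68792b6b779e96.shift 2 1), rhb1fe3b4617adc8ef] (by decide +kernel))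
noncomputable def rh22e3873261c6c95d : CRef := CRef.mk (Pat.mk 0x2000000020000000200000000 0x5000000070000000700000007000000030000000300000003 5 3) 0 0 (step_sound _ 129 [rh0fd870c734e6c513, rh402d223d12d7377d, (rh7ef5fa5c39f1c762.shift 0 1), rhc095807b70b89e70] (by decide +kernel))
noncomputable def rh25271c74be886731 : CRef := CRef.mk (Pat.mk 0x20000000200000002000000000000000000000000 0x400000006000000060000000200000007000000070000000700000005 5 3) 0 0 (step_sound _ 65 [(rh20966da26a1c2ae8.shift 0 1), rh3181373a30ceb9e3, (rhced6d86d2069808b.shift 1 1)] (by decide +kernel))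
noncomputable def rh7f2f2b6d79618b4d : CRef := CRef.mk (Pat.mk 0x2000000020000000300000000 0x5000000070000000700000002000000020000000700000005 5 3) 0 0 (step_sound _ 129 [rh932754581e0f4330, rhbf195e7afaf21bd1] (by decide +kernel))
noncomputable def rhe2f3f827d59cc8c1 : CRef := CRef.mk (Pat.mk 0x4000000140000001600000000000000000000000000000000 0x20000000e0000002e0000003c000000160000001f00000038000000380000002800000020 5 6) 0 0 (step_sound _ 100 [(rh382f8963f0a378e5.shift 0 3), (rh9765e413c7f50252.shift 1 0), (rh987c0ee189b8c805.shift 1 1), (rhe3ce308f70071d98.shift 1 2)] (by decide +kernel))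
noncomputable def rhaf5b8d1057d4a0f3 : CRef := CRef.mk (Pat.mk 0x8000000280000002c000000000000000000000000 0x280000002f0000003e000000770000001400000014 5 7) 0 0 (step_sound _ 100 [(rh775ca1963e850b80.shift 0 2), (rh8195a2d7794c7cd2.shift 0 2), (rh9483656c38360087.shift 1 0), (rhd1474a84c69f0140.shift 1 0)] (by decide +kernel))
noncomputable def rh45fda7233c8d0aaa : CRef := CRef.mk (Pat.mk 0x800000028000000280000000800000000 0xf40000007c0000002f000000380000003800000010 5 8) 0 0 (step_sound _ 132 [(rh2f68792b6b779e96.shift 3 1), rha5fd98e4f23f42fe] (by decide +kernel))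
noncomputable def rh85810b7a5dd036d6 : CRef := CRef.mk (Pat.mk 0x280000003c00000000000000000000000000000000 0xc0000002f0000003f0000001c0000001c0000001c0000001c 5 6) 0 0 (step_sound _ 99 [(rh79abcfe46f0b65ba.shift 2 0), (rha83956d09585cdd6.shift 0 1), (rhe8ba5e25e7c74702.shift 1 1)] (by decide +kernel))
noncomputable def rh0164c9b7a48fd11e : CRef := CRef.mk (Pat.mk 0x20000000f000000000 0x3f000000fe0000000e 5 8) 0 0 (step_sound _ 35 [(rh0a74f7641db5049f.shift 1 0), (rh2cc7d62e70c02209.shift 1 0), rhc0d3e82dfe617fcf, (rhd5eb272e07a4e288.shift 2 1)] (by decide +kernel))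
noncomputable def rhcfcb4c4d97355708 : CRef := CRef.mk (Pat.mk 0x2000000030000000200000000000000000000000000000000 0x5000000070000000700000002000000030000000300000007000000070000000700000001 5 3) 0 0 (step_sound _ 97 [(rh3181373a30ceb9e3.shift 0 1), rh5a26ed1c01b25f18, (rhcc935990d76b4797.shift 0 1), (rhecbd96f9e94bfd4d.shift 0 2)] (by decide +kernel))
noncomputable def rh60f6231d213c6ef9 : CRef := CRef.mk (Pat.mk 0x200000002000000020000000000000000 0x500000007000000070000000200000003000000070000000700000005 5 3) 0 0 (step_sound _ 161 [(rh0fd870c734e6c513.shift 0 1), rh3181373a30ceb9e3, (rhc85cc95794737cf7.shift 0 2)] (by decide +kernel))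
noncomputable def rhba111a450e2cdcf3 : CRef := CRef.mk (Pat.mk 0xa0000000a0000000a000000000000000000000000 0x20000000a0000001b0000001e000000360000001400000014 5 6) 0 0 (step_sound _ 98 [rh5313d5bb1e61521b, (rha768b229dc254047.shift 1 0)] (by decide +kernel))
noncomputable def rh17784775315af99f : CRef := CRef.mk (Pat.mk 0x80000000a0000000800000000 0x140000001c0000001c000000080000001f0000007800000010 5 7) 0 0 (step_sound _ 131 [(rh29dd5384d80ecb1e.shift 2 0), (rh426f403fa814630c.shift 3 0), (rh7ef5fa5c39f1c762.shift 2 1), rhc486ae0fcc44be52] (by decide +kernel))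
noncomputable def rhe323009b509138a7 : CRef := CRef.mk (Pat.mk 0x8000000280000000800000000 0x140000001c0000001c000000080000007c0000000f00000004 5 7) 0 0 (step_sound _ 131 [(rh0fd870c734e6c513.shift 2 0), (rh20966da26a1c2ae8.shift 2 0), (rhc85cc95794737cf7.shift 2 1), rhc8fd50c44a2112a0] (by decide +kernel))
noncomputable def rh155bfc9769007f58 : CRef := CRef.mk (Pat.mk 0xa0000000e00000002000000000000000000000000 0x140000001c0000001c0000000a0000000f0000007e0000001e0000001400000010 5 7) 0 0 (step_sound _ 99 [rh5a8abb721f11b584, (rha60d91ce4063f31c.shift 1 1), (rhc21a95c499b3efdb.shift 0 3)] (by decide +kernel))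
noncomputable def rh1613b331b579ff71 : CRef := CRef.mk (Pat.mk 0xa0000000e000000020000000000000000 0x140000001c0000001c0000000a0000001f0000007e0000000e00000004 5 7) 0 0 (step_sound _ 67 [(rh8ee80cc30e93a344.shift 0 2), (rha60d91ce4063f31c.shift 1 0), (rhc21a95c499b3efdb.shift 0 2)] (by decide +kernel))
noncomputable def rh31af36bbc0ef7d14 : CRef := CRef.mk (Pat.mk 0x20000000a0000000a000000020000000000000000 0x140000003e0000001e0000000b0000001a0000001e0000001e00000004 5 6) 0 0 (step_sound _ 163 [(rh1d991cfd4e134774.shift 0 2), (rh28f7c203f178e979.shift 1 2), (rh79f3cd96a7fdfe31.shift 1 0)] (by decide +kernel))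
noncomputable def rhd58cef73aa1047b3 : CRef := CRef.mk (Pat.mk 0x1400000014000000040000000400000000 0x1000000014000000160000007e0000003f0000002a 5 7) 0 0 (step_sound _ 35 [(rh55afc6a59410cf00.shift 2 0), rh92e2f8b4cfd19cc9] (by decide +kernel))
noncomputable def rh4dfabd725d1e89ab : CRef := CRef.mk (Pat.mk 0x140000001c000000000000000000000000 0x1400000014000000140000003f0000003f0000000a00000008 5 6) 0 0 (step_sound _ 67 [(rh136022f8d3357dc3.shift 0 1), (rhade0f4c81793f68e.shift 2 0), (rhcf80391c5046a495.shift 3 0)] (by decide +kernel))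
noncomputable def rh10b07ed0c820d236 : CRef := CRef.mk (Pat.mk 0x3800000020000000000000000000000000 0x5000000070000000700000003e00000037000000700000007000000050 5 7) 0 0 (step_sound _ 165 [(rh055db6938db19010.shift 1 3), (rh2140e04d90a4f0d4.shift 4 0), (rh7f0f728c796044ac.shift 0 3), (rhb8470ec026c25e22.shift 0 3), (rhe75dc8626c525ad9.shift 4 1)] (by decide +kernel))
noncomputable def rhb018a7c71ce35183 : CRef := CRef.mk (Pat.mk 0x700000004000000000000000000000000 0xa0000000e0000001e000000070000000e0000000e0000000e0000000a 5 5) 0 0 (step_sound _ 66 [(rh1b0e16c6885fbc54.shift 0 1), (rh7b24c4ccc068b0b2.shift 1 1), (rhb1a251d9bff81766.shift 1 1), (rhd50b0766e685eb90.shift 1 0), (rhf9a6286f1d5377a2.shift 1 1)] (by decide +kernel))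
noncomputable def rhdfa77469688d663b : CRef := CRef.mk (Pat.mk 0x2c00000020 0x770000003e00000060 5 7) 0 0 (step_sound _ 36 [(rh61325f73ebf98108.shift 0 1), (rhe25b0a99195a5d59.shift 2 0)] (by decide +kernel))
noncomputable def rhf237fec569adc1e2 : CRef := CRef.mk (Pat.mk 0x200000002000000020000000000000000 0x500000007000000070000000300000003000000030000000300000001 5 3) 0 0 (step_sound _ 161 [rh0c1c1b53bc5a1510, (rh20966da26a1c2ae8.shift 0 1), (rhc85cc95794737cf7.shift 0 2)] (by decide +kernel))
noncomputable def rhaef13a1c72d4db39 : CRef := CRef.mk (Pat.mk 0x200000002000000020000000000000000 0x500000007000000070000000700000002000000030000000300000001 5 3) 0 0 (step_sound _ 161 [rh0c1c1b53bc5a1510, rh367118e0bf0473e0, (rhc85cc95794737cf7.shift 0 2)] (by decide +kernel))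
noncomputable def rh4a081f9eee6e8eac : CRef := CRef.mk (Pat.mk 0xc000000080000000a00000008 0x100000001f0000007f0000000f00000008 5 7) 0 0 (step_sound _ 100 [(rh2f68792b6b779e96.shift 3 0), (rh8fab68ed1f68f810.shift 0 1)] (by decide +kernel))
noncomputable def rh7fb85e918b0a04ef : CRef := CRef.mk (Pat.mk 0x20000000200000002000000000000000000000000 0x100000003000000030000000200000007000000070000000700000005 5 3) 0 0 (step_sound _ 65 [(rh0fd870c734e6c513.shift 0 1), (rh29dd5384d80ecb1e.shift 0 1), rh8cdd36b03d57a2f6, (rhabedd109a9a37101.shift 0 1)] (by decide +kernel))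
noncomputable def rh49c6724c8f708504 : CRef := CRef.mk (Pat.mk 0x20000000200000002000000020000000100000000 0x600000006000000070000000300000003000000020000000300000003 5 3) 0 0 (step_sound _ 33 [rh1cb572e2d40704ad, rh932754581e0f4330] (by decide +kernel))
noncomputable def rhd091826498b1b626 : CRef := CRef.mk (Pat.mk 0x200000002000000020000000000000000 0x500000007000000070000000700000002000000060000000600000004 5 3) 0 0 (step_sound _ 161 [(rhc85cc95794737cf7.shift 0 2), (rhc9de03f9731897d4.shift 1 0), rhcae87bda2c3c01d2] (by decide +kernel))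
noncomputable def rh7f9dcf5deeab39bd : CRef := CRef.mk (Pat.mk 0xc000000080000000a0000000800000000 0x20000001f0000007e0000000e0000003c00000014 5 7) 0 0 (step_sound _ 34 [rh62becfab7e3beb2a, (rh932754581e0f4330.shift 2 0)] (by decide +kernel))
noncomputable def rheac7100a97901a45 : CRef := CRef.mk (Pat.mk 0x200000002000000020000000000000000 0x500000007000000070000000300000002000000070000000700000005 5 3) 0 0 (step_sound _ 161 [rh0c1c1b53bc5a1510, rh3181373a30ceb9e3, (rhc85cc95794737cf7.shift 0 2), rhcae87bda2c3c01d2] (by decide +kernel))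
noncomputable def rh8838f10d399c2b5a : CRef := CRef.mk (Pat.mk 0x2000000020000001a0000000000000000 0x50000000700000007000000020000001a0000000f00000005 5 5) 0 0 (step_sound _ 33 [rh36e6bb6cca6188da, (rhc85cc95794737cf7.shift 0 1)] (by decide +kernel))
noncomputable def rhabf31ee2c115f09b : CRef := CRef.mk (Pat.mk 0x20000000200000002000000000000000000000000 0x500000007000000070000000300000002000000070000000700000005 5 3) 0 0 (step_sound _ 65 [rh6aa5625770489e83, rh8cdd36b03d57a2f6, (rhc85cc95794737cf7.shift 0 2), rhcae87bda2c3c01d2] (by decide +kernel))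
noncomputable def rh33d7f1bee8f3d95a : CRef := CRef.mk (Pat.mk 0x20000000a0000001a000000000000000000000000 0x140000001c0000001e0000001e0000000b0000001a0000001e0000001c00000014 5 5) 0 0 (step_sound _ 163 [rh08ff1a9078a560c4, (rh70e33bfdf511e144.shift 3 0), (rhc0f6fe06378683f4.shift 2 2), (rhe27f3a99d34d0525.shift 1 2)] (by decide +kernel))
noncomputable def rh86ce21cd54c503f9 : CRef := CRef.mk (Pat.mk 0x2000000020000001a000000000000000000000000 0x100000003000000030000001a0000000f0000000700000005 5 5) 0 0 (step_sound _ 65 [(rh36e6bb6cca6188da.shift 0 1), rh6aa5625770489e83, rhcae87bda2c3c01d2] (by decide +kernel))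
noncomputable def rh3308f7430b387c3e : CRef := CRef.mk (Pat.mk 0x80000002800000068000000000000000000000000 0x5000000070000000780000007c0000002f00000068000000700000007000000050 5 7) 0 0 (step_sound _ 165 [(rh08ff1a9078a560c4.shift 2 0), (rh5d8b3f773a050a7a.shift 0 2), (rh70e33bfdf511e144.shift 5 0), (rhc0f6fe06378683f4.shift 4 2)] (by decide +kernel))
noncomputable def rh65b04519e93422b5 : CRef := CRef.mk (Pat.mk 0x80000002800000068000000000000000000000000 0x50000000700000007c0000002f00000068000000680000004000000040 5 7) 0 0 (step_sound _ 165 [(rh349d1013248e817b.shift 0 2), (rh70e33bfdf511e144.shift 5 0), (rhd5aa4d55fe61ae5f.shift 2 2)] (by decide +kernel))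
noncomputable def rh31daeb9c98e8a40c : CRef := CRef.mk (Pat.mk 0x38000000200000000000000000 0x500000007000000070000000700000003e000000370000003000000030 5 7) 0 0 (step_sound _ 133 [(rh055db6938db19010.shift 1 2), (rh7f0f728c796044ac.shift 0 2), (rh87a3a8a8a3fd85be.shift 4 0), (rhb8470ec026c25e22.shift 0 2), (rhe75dc8626c525ad9.shift 4 0)] (by decide +kernel))
noncomputable def rh6fe45633282bb629 : CRef := CRef.mk (Pat.mk 0x700000004000000000000000000000000 0xa0000000e0000001e000000070000000e0000000e0000000e0000000a 5 5) 0 0 (step_sound _ 66 [(rh7b24c4ccc068b0b2.shift 1 1), (rhb1a251d9bff81766.shift 1 1), (rhc96bac694659f707.shift 0 1), (rhd50b0766e685eb90.shift 1 0), (rhf9a6286f1d5377a2.shift 1 1)] (by decide +kernel))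
noncomputable def rh46f4e32c661b103a : CRef := CRef.mk (Pat.mk 0x200000003800000000 0x600000003e00000077 5 7) 0 0 (step_sound _ 34 [rh008b05f4778dc30d, (rh33e738c4ed385b9f.shift 2 1)] (by decide +kernel))
noncomputable def rh65acf64cde1abad0 : CRef := CRef.mk (Pat.mk 0x1e0000000200000000000000000000000000000000 0x400000006000000070000001e0000000600000007000000070000000700000005 5 5) 0 0 (step_sound _ 97 [rh0681fa8d2c5db297, rh15590a39afd9a120, (rhd5c83ac304b29784.shift 0 1), (rhd8589df49ad97764.shift 0 2)] (by decide +kernel))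
noncomputable def rh0baae917dbe7d89c : CRef := CRef.mk (Pat.mk 0x400000007000000020000000200000000 0x10000001b0000001f00000007000000070000000700000005 5 5) 0 0 (step_sound _ 129 [rh08b88d1e4376d1d4, rh0fd870c734e6c513, rh2cfc8c34bad4c294] (by decide +kernel))
noncomputable def rh86f95f28e5a6006e : CRef := CRef.mk (Pat.mk 0x40000000700000002000000000000000000000000 0xc0000000c0000000e000000070000001e0000000c0000000400000004 5 5) 0 0 (step_sound _ 194 [rh09cfd2320161a382, (rh5c5e593799055d58.shift 1 3)] (by decide +kernel))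
noncomputable def rh03573b59c4586240 : CRef := CRef.mk (Pat.mk 0x80000000b00000000000000000000000000000000 0x140000001c0000001e0000000f00000018000000180000001000000010 5 5) 0 0 (step_sound _ 99 [(rh0aa9e6fdda88fcbb.shift 0 1), (rh85fa5d4252c97823.shift 0 2), rh9765e413c7f50252, (rhabf575676fe0ef70.shift 0 3)] (by decide +kernel))
noncomputable def rhf64932fa6159614b : CRef := CRef.mk (Pat.mk 0x1c000000160000000000000000 0x80000000e0000001f0000001c000000160000001600000016 5 5) 0 0 (step_sound _ 131 [(rh32f6277f14b47a8f.shift 2 0), (rha40d42a2e34c408d.shift 3 0), rhbe253d1426d5780c] (by decide +kernel))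
noncomputable def rh131b734881692307 : CRef := CRef.mk (Pat.mk 0x16000000120000000000000000 0x8000000380000001f000000130000001000000010 5 6) 0 0 (step_sound _ 99 [rh65d03e622566ecd5, (rheb0810cc63b001d8.shift 0 2)] (by decide +kernel))
noncomputable def rh9d5f2c7f40783907 : CRef := CRef.mk (Pat.mk 0x2c0000000c000000000000000000000000 0x1e0000003e0000003f0000000c0000000c0000000c00000004 5 6) 0 0 (step_sound _ 162 [(rh35e7f72034095f2a.shift 0 1), (rh55a1f6c57a317ce6.shift 2 1), (rhea5721b8cb81d352.shift 1 0)] (by decide +kernel))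
noncomputable def rh2dc0d1bb6a473626 : CRef := CRef.mk (Pat.mk 0xc0000000c000000000000000000000000 0x40000001c0000003c0000000f0000000e0000000e0000000e00000004 5 6) 0 0 (step_sound _ 162 [(rh35e7f72034095f2a.shift 0 1), (rh55a1f6c57a317ce6.shift 2 1), (rhb83c12541a772d12.shift 1 0)] (by decide +kernel))
noncomputable def rh0b7efbb8957237ea : CRef := CRef.mk (Pat.mk 0x8000000280000002c000000000000000000000000 0x1400000014000000760000007c0000006f0000002c0000002c0000000c0000000c 5 7) 0 0 (step_sound _ 164 [(rh7455bb6f93900b28.shift 1 2), (rh7a79318099681926.shift 2 0), (rheb18720e2c78d829.shift 0 2), (rhf8346b0c2a63de92.shift 3 2)] (by decide +kernel))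
noncomputable def rh9fdb16403d67a3eb : CRef := CRef.mk (Pat.mk 0x40000000400000007000000000000000000000000 0x80000000c0000000c000000070000001e0000000e0000000a 5 5) 0 0 (step_sound _ 66 [(rh367118e0bf0473e0.shift 1 0), (rhb379f99078aafa2d.shift 0 1), (rhec588a0d7783acc6.shift 2 0)] (by decide +kernel))
noncomputable def rhd19bdf9ae8463a32 : CRef := CRef.mk (Pat.mk 0x200000002c00000000 0x600000003e00000077 5 7) 0 0 (step_sound _ 36 [rh008b05f4778dc30d, (rh33e738c4ed385b9f.shift 2 1)] (by decide +kernel))
noncomputable def rh97ffe42461bbb2bf : CRef := CRef.mk (Pat.mk 0x380000000c000000000000000000000000 0x1c0000001f0000003c0000000c0000000c0000000c00000004 5 6) 0 0 (step_sound _ 163 [(rh281c6819542c66e6.shift 2 0), (rhf0ef40909356f8b0.shift 0 1), (rhfafeb437ceb8396d.shift 2 0)] (by decide +kernel))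
noncomputable def rhffca781e4180dbbd : CRef := CRef.mk (Pat.mk 0x380000000c00000000000000000000000000000000 0xc0000001f000000380000000f0000007c0000001c0000001c00000014 5 7) 0 0 (step_sound _ 99 [rh2435341cfb2f3a3e, (rh541160d578a25bcf.shift 0 2), (rhfa40f754f1f7b88f.shift 2 0)] (by decide +kernel))
noncomputable def rh42f24e810e046db0 : CRef := CRef.mk (Pat.mk 0x40000000400000006000000000000000000000000 0x600000006000000070000003e0000000e0000000e 5 6) 0 0 (step_sound _ 66 [(rh1861173042f24e9a.shift 0 1), (rh2c9da192bea44cf6.shift 1 0), (rh3181373a30ceb9e3.shift 1 0), (rh9ee82b97cdeec3bd.shift 1 0)] (by decide +kernel))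
noncomputable def rhba347e0d6180832a : CRef := CRef.mk (Pat.mk 0x1000000008000000080000000800000000 0x4000000040000007c0000001f000000780000000800000008 5 7) 0 0 (step_sound _ 98 [(rh2d5442cbf338480d.shift 2 0), rha8cf5de1ad3c4800, (rhb1a251d9bff81766.shift 2 0), (rhbaa0df2fa75ff0e5.shift 0 2)] (by decide +kernel))
noncomputable def rh6984ff30f2891baa : CRef := CRef.mk (Pat.mk 0x1000000008000000080000000a0000000800000000 0x40000001c0000001c000000080000000c0000000f0000001800000010 5 5) 0 0 (step_sound _ 163 [(rh2f68792b6b779e96.shift 3 2), rh972c26a3ced8aa05] (by decide +kernel))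
noncomputable def rhdc70b51116888437 : CRef := CRef.mk (Pat.mk 0x80000000a000000080000000000000000 0x140000001c0000001c0000000c0000000f0000003c0000001800000010 5 6) 0 0 (step_sound _ 163 [(rh6a482b3a3ff1648e.shift 0 1), (rhc85cc95794737cf7.shift 2 2), (rhcae87bda2c3c01d2.shift 2 0)] (by decide +kernel))
noncomputable def rhff3384473648fcb0 : CRef := CRef.mk (Pat.mk 0x20000000200000002000000000000000000000000 0x100000003000000030000000300000006000000070000000700000005 5 3) 0 0 (step_sound _ 65 [(rh29dd5384d80ecb1e.shift 0 1), rh6aa5625770489e83, rh8cdd36b03d57a2f6] (by decide +kernel))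
noncomputable def rh7cde007d2907bcbe : CRef := CRef.mk (Pat.mk 0x80000000a0000000800000000 0x140000001c0000001c000000080000000f0000001e00000014 5 5) 0 0 (step_sound _ 131 [rhc32899ca69d8b859, rhc37884b8bcc4b237, (rhc85cc95794737cf7.shift 2 1)] (by decide +kernel))
noncomputable def rh266acc31b27627f0 : CRef := CRef.mk (Pat.mk 0x80000000a000000080000000c00000000 0x80000000f0000007f0000007f00000010 5 7) 0 0 (step_sound _ 36 [(rh42b378d898b13c4e.shift 0 1), (rh55afc6a59410cf00.shift 3 0)] (by decide +kernel))
noncomputable def rhb5435f2d0b8e10aa : CRef := CRef.mk (Pat.mk 0x280000002c000000000000000000000000 0x80000003f0000003e000000070000000400000004 5 6) 0 0 (step_sound _ 100 [(rh2591032a0e7f4182.shift 0 2), (rh4f129d8f37c2c70a.shift 1 0), (rh775ca1963e850b80.shift 0 2), (rh7fb660bc21ce4329.shift 0 3)] (by decide +kernel))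
noncomputable def rh2c273f8387611dfa : CRef := CRef.mk (Pat.mk 0x1e00000014000000000000000000000000 0x70000001e0000001f000000030000000300000002 5 5) 0 0 (step_sound _ 97 [rh068160dc2cd1b1ad, (rheb0810cc63b001d8.shift 0 3)] (by decide +kernel))
noncomputable def rh341c1a47eff525d3 : CRef := CRef.mk (Pat.mk 0x1e000000020000000000000000 0x50000000700000007000000070000001e000000060000000600000006 5 5) 0 0 (step_sound _ 129 [rh2b1c276a6b56355c, (rh3244c3cc8379b070.shift 0 3)] (by decide +kernel))
noncomputable def rh020a5117575b5020 : CRef := CRef.mk (Pat.mk 0x38000000280000000800000000 0x40000000c0000001f000000380000003c0000001e00000014 5 6) 0 0 (step_sound _ 131 [(rh565a0c22519f57e9.shift 2 0), rh6789f6f2074baf8a, (rh8065c10b3cae6218.shift 2 0), (rhf42e780814dbdbac.shift 1 0)] (by decide +kernel))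
noncomputable def rhc03cff2a3b597cd9 : CRef := CRef.mk (Pat.mk 0x200000002000000020000000000000000 0x100000003000000030000000200000007000000070000000700000005 5 3) 0 0 (step_sound _ 161 [rh3181373a30ceb9e3, (rh565a0c22519f57e9.shift 0 1), (rh8065c10b3cae6218.shift 0 1)] (by decide +kernel))
noncomputable def rh272396c8ee8fefa8 : CRef := CRef.mk (Pat.mk 0xe000000020000000000000000 0x4000000070000003e000000030000000200000002 5 6) 0 0 (step_sound _ 100 [rhd1f95657bcbb399e, (rheb0810cc63b001d8.shift 0 2)] (by decide +kernel))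
noncomputable def rhb55ee1177cf584c3 : CRef := CRef.mk (Pat.mk 0x38000000080000000000000000 0x4000000770000003e0000000f0000000800000008 5 7) 0 0 (step_sound _ 98 [(rh00f1bb10334541e3.shift 0 3), (rh2c1baeadcd4b32f5.shift 0 2), (rh2cc7d62e70c02209.shift 0 2), (rhb9dd680bb9375a9f.shift 1 0)] (by decide +kernel))
noncomputable def rh97c673cedfbd3c23 : CRef := CRef.mk (Pat.mk 0x3c000000140000000000000000 0x10000000300000007f0000001c0000000800000008 5 7) 0 0 (step_sound _ 67 [(rh18965a982d73c794.shift 2 2), rh8d364617c03d6975] (by decide +kernel))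
noncomputable def rh3e2feece716c384b : CRef := CRef.mk (Pat.mk 0x1e00000000 0xfc000000ff000000e0 5 8) 0 0 (step_sound _ 37 [(rh35e918dd76851f8c.shift 2 0), rh5290e990b58c20e2, (rh9890f9d77740bbed.shift 1 1)] (by decide +kernel))
noncomputable def rhb69a7bebdb940bff : CRef := CRef.mk (Pat.mk 0x1600000014000000000000000000000000 0x2000000070000001f0000001f000000070000000600000002 5 5) 0 0 (step_sound _ 97 [(rh49fa14cb88fd0e82.shift 0 1), rh9bb455da33111465] (by decide +kernel))
noncomputable def rhe1f5cc6b756e4e3e : CRef := CRef.mk (Pat.mk 0x1e00000014000000000000000000000000 0x10000000340000001e0000001f0000000b0000000a00000002 5 6) 0 0 (step_sound _ 97 [rh9ba416347aeaaec1, (rheb0810cc63b001d8.shift 0 3)] (by decide +kernel))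
noncomputable def rhbe3726e66c56311c : CRef := CRef.mk (Pat.mk 0x40000002c00000000 0x760000003e00000007 5 7) 0 0 (step_sound _ 36 [(rh3244c3cc8379b070.shift 1 1), rh7654d7b92c96fe12] (by decide +kernel))
noncomputable def rhff77145a6a80795b : CRef := CRef.mk (Pat.mk 0x2c000000280000000000000000 0x4000000240000007f0000003e000000380000001800000018 5 7) 0 0 (step_sound _ 100 [(rh00f1bb10334541e3.shift 0 3), (rhba50fd7aca570c30.shift 1 0), (rhd5889c99d29bf7d6.shift 1 0)] (by decide +kernel))
noncomputable def rh81509ac7bb69ba5a : CRef := CRef.mk (Pat.mk 0x1800000058000000000000000000000000 0x80000001c0000007f0000003e0000001000000010 5 7) 0 0 (step_sound _ 101 [(rh3244c3cc8379b070.shift 2 3), rhff639e83b81c1040] (by decide +kernel))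
noncomputable def rh73469f26b4405fc6 : CRef := CRef.mk (Pat.mk 0x1800000058000000000000000000000000 0x3800000038000000380000001f00000078000000300000003000000030 5 7) 0 0 (step_sound _ 68 [(rh3714570065478976.shift 0 2), (rh3cb04db3dd2b6a55.shift 3 0), (rh4dc6bbc83d5aeafb.shift 3 0)] (by decide +kernel))
noncomputable def rh0411a296d05ffda8 : CRef := CRef.mk (Pat.mk 0x60000001600000000000000000000000000000000 0x6000000060000001f00000007000000070000000700000001 5 5) 0 0 (step_sound _ 97 [rh58aa26c47e50de25, (rh7f8bb07996f68c30.shift 0 1), (rhea7a1800d6f053bd.shift 1 1)] (by decide +kernel))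
noncomputable def rh9d9f9d954f3be3f9 : CRef := CRef.mk (Pat.mk 0x2c000000280000000000000000 0x4000000770000003e0000003f0000000800000008 5 7) 0 0 (step_sound _ 100 [(rh00f1bb10334541e3.shift 0 3), (rhb9dd680bb9375a9f.shift 1 0), (rhdceeca65bdd8095a.shift 0 2)] (by decide +kernel))
noncomputable def rh8d2de5fb85abf742 : CRef := CRef.mk (Pat.mk 0x20000000600000002000000000000000000000000 0x4000000070000000700000007000000060000000600000002000000070000000700000005 5 3) 0 0 (step_sound _ 193 [rh0317dc778457b218, (rh1db71118bee297d0.shift 0 3), (rh4d4087477a9b70ee.shift 0 1), (rh7ef5fa5c39f1c762.shift 0 3)] (by decide +kernel))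
noncomputable def rh9e5aed21cb094c64 : CRef := CRef.mk (Pat.mk 0x80000001c00000014 0x1f000000ff000001dc 5 9) 0 0 (step_sound _ 37 [(rh1207e140cca14bac.shift 2 0), (rh7b030ba967bf927e.shift 2 0), rhe0f805967f3463ab, (rhe3060b190bc0bc78.shift 1 1)] (by decide +kernel))
noncomputable def rh6d3f72594fd02f06 : CRef := CRef.mk (Pat.mk 0x80000001c000000140000000000000000 0x2000000020000001f0000001f0000001c0000000400000004 5 5) 0 0 (step_sound _ 34 [(rh0c81615e7fb0eb8e.shift 0 1), (rh71222050f2c63a3a.shift 2 0)] (by decide +kernel))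
noncomputable def rh92679c2c5050e8ed : CRef := CRef.mk (Pat.mk 0x1800000038000000000000000000000000 0x18000000180000001800000018000000380000001f0000001c0000001c 5 6) 0 0 (step_sound _ 67 [(rh7f8bb07996f68c30.shift 2 0), (rhad7b0257cb10a0bd.shift 0 1), (rhea7a1800d6f053bd.shift 3 0)] (by decide +kernel))
noncomputable def rhf41f91314d5f8034 : CRef := CRef.mk (Pat.mk 0x1c0000001c000000000000000000000000 0x40000001c0000001c0000001c0000000f0000000e0000000c 5 5) 0 0 (step_sound _ 67 [rh5fb31cced3e2e440, (rhea7a1800d6f053bd.shift 3 0)] (by decide +kernel))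
noncomputable def rh7bca6bf61ec65d1e : CRef := CRef.mk (Pat.mk 0x38000000280000000000000000 0x4000000240000007f0000003e000000380000001800000018 5 7) 0 0 (step_sound _ 98 [(rh00f1bb10334541e3.shift 0 3), (rhba50fd7aca570c30.shift 1 0), (rhd5889c99d29bf7d6.shift 1 0)] (by decide +kernel))
noncomputable def rh85955cfc01e7031b : CRef := CRef.mk (Pat.mk 0x100000003800000028 0x1000000010000000ff000000fe00000038 5 8) 0 0 (step_sound _ 100 [(rh2145e1d24b96a57e.shift 4 0), rh65d9579421890e6c] (by decide +kernel))
noncomputable def rhd33666284aa5c7c2 : CRef := CRef.mk (Pat.mk 0x20000000200000002000000000000000000000000 0x100000003000000030000000300000003000000070000000700000005 5 3) 0 0 (step_sound _ 65 [(rh0fd870c734e6c513.shift 0 1), rh3181373a30ceb9e3, rh46baee19951a66e7] (by decide +kernel))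
noncomputable def rh437d454e808ff910 : CRef := CRef.mk (Pat.mk 0x200000002000000020000000000000000 0x500000007000000070000000700000002000000060000000600000004 5 3) 0 0 (step_sound _ 161 [rh46baee19951a66e7, (rh7ef5fa5c39f1c762.shift 0 2), (rhc9de03f9731897d4.shift 1 0)] (by decide +kernel))
noncomputable def rha499c577ca6dfa75 : CRef := CRef.mk (Pat.mk 0x20000000200000002000000000000000000000000 0x500000007000000070000000700000002000000060000000600000004 5 3) 0 0 (step_sound _ 65 [(rhc85cc95794737cf7.shift 0 2), (rhc9de03f9731897d4.shift 1 0), rhcae87bda2c3c01d2] (by decide +kernel))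
noncomputable def rha4d03d47fef3bcc4 : CRef := CRef.mk (Pat.mk 0x18000000100000001000000010 0x270000007e000000ff0000001000000010 5 8) 0 0 (step_sound _ 101 [(rh2f68792b6b779e96.shift 4 0), (rhc2e8c4735a3891ff.shift 0 2)] (by decide +kernel))
noncomputable def rh60e1ba3013200bc1 : CRef := CRef.mk (Pat.mk 0x20000000200000002000000000000000000000000 0x500000007000000070000000300000002000000070000000700000005 5 3) 0 0 (step_sound _ 65 [rh0c1c1b53bc5a1510, rh3181373a30ceb9e3, (rhc85cc95794737cf7.shift 0 2), rhcae87bda2c3c01d2] (by decide +kernel))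
noncomputable def rhbe4eed7268c588df : CRef := CRef.mk (Pat.mk 0x1000000038000000080000000000000000 0xc0000001e0000003c0000000f0000000c0000000c 5 6) 0 0 (step_sound _ 35 [rh0e32f96b4c3f9c68, (rh71222050f2c63a3a.shift 3 0)] (by decide +kernel))
noncomputable def rhe97c1db7e6c13c5b : CRef := CRef.mk (Pat.mk 0x2000000070000000100000000000000000 0x80000007f000000fe000000170000001000000010 5 8) 0 0 (step_sound _ 99 [(rh3e0b38310ac09007.shift 0 3), (rh7f0f728c796044ac.shift 0 2), (rh89a146b7668a3aca.shift 1 0), (rhdcce0c85f0324b5d.shift 2 0)] (by decide +kernel))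
noncomputable def rh4d89eb2216983038 : CRef := CRef.mk (Pat.mk 0x1000000038000000280000000000000000 0x40000000f80000003c0000002f0000007800000038 5 8) 0 0 (step_sound _ 37 [rh024ba64e1071b56a, (rh7b1f1fb55310c477.shift 4 0)] (by decide +kernel))
noncomputable def rhc43122d9acfd94c3 : CRef := CRef.mk (Pat.mk 0x40000000e0000000a0000000000000000 0x100000007e0000007f000000ea0000000a0000000a 5 8) 0 0 (step_sound _ 100 [(rh1aae126fdb0efa1d.shift 1 2), rh32692bd2ae87a9f8, (rhd396a17a5afda9de.shift 1 0)] (by decide +kernel))
noncomputable def rh0f5c947082bcb631 : CRef := CRef.mk (Pat.mk 0x20000000200000002000000000000000000000000 0x100000003000000030000000300000003000000070000000700000005 5 3) 0 0 (step_sound _ 65 [rh0c1c1b53bc5a1510, rh3181373a30ceb9e3, (rh565a0c22519f57e9.shift 0 1), rhcae87bda2c3c01d2] (by decide +kernel))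
noncomputable def rhda5817032ce38b35 : CRef := CRef.mk (Pat.mk 0xa0000000b000000020000000000000000 0x10000000100000001a0000001e0000000b0000001e0000000e00000004 5 5) 0 0 (step_sound _ 132 [rh94c0e9449de701f9, (rhb2a0b9ccfb5cecd5.shift 0 3)] (by decide +kernel))
noncomputable def rh9eaf497289a6ff86 : CRef := CRef.mk (Pat.mk 0x280000002c0000000800000000 0x400000004000000060000000780000002f0000007c00000020 5 7) 0 0 (step_sound _ 102 [rh61a556e2f692585f, (rhb2a0b9ccfb5cecd5.shift 2 2)] (by decide +kernel))
noncomputable def rhd3d30d4418744b61 : CRef := CRef.mk (Pat.mk 0x2000000030000000200000000000000000000000000000000 0x10000000300000003000000030000000300000003000000070000000700000004 5 3) 0 0 (step_sound _ 97 [(rh565a0c22519f57e9.shift 0 2), (rhe286c75f2739cce2.shift 0 2), rhfaa2ea8d3894ed71] (by decide +kernel))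
noncomputable def rhde5e2dbef132bb26 : CRef := CRef.mk (Pat.mk 0x800000008000000080000000800000000 0x800000008000000080000003c0000001f00000004 5 6) 0 0 (step_sound _ 34 [(rh5547166cf2eef4d8.shift 0 1), (rh932754581e0f4330.shift 2 0)] (by decide +kernel))
noncomputable def rh7b6911d49691f535 : CRef := CRef.mk (Pat.mk 0xa0000000a000000020000000200000000 0xa0000000a0000000b0000003e0000000600000004 5 6) 0 0 (step_sound _ 34 [(rh2ddb109e0a64b9c4.shift 0 1), (rh55afc6a59410cf00.shift 1 0)] (by decide +kernel))
noncomputable def rhc324b959c2cd5e2b : CRef := CRef.mk (Pat.mk 0x2000000020000000200000002000000000000000000000000 0x3000000030000000300000003000000070000000700000004 5 3) 0 0 (step_sound _ 64 [(rh79877ebd3ef475dd.shift 0 2), rhfc626445786b5066] (by decide +kernel))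
noncomputable def rhfe829c42ed752e6d : CRef := CRef.mk (Pat.mk 0x20000000200000002000000000000000000000000 0x100000003000000030000000200000007000000070000000700000005 5 3) 0 0 (step_sound _ 65 [rh3181373a30ceb9e3, (rh565a0c22519f57e9.shift 0 1), (rh8065c10b3cae6218.shift 0 1)] (by decide +kernel))
noncomputable def rh7450607f508aa28c : CRef := CRef.mk (Pat.mk 0x1400000014000000040000000400000000 0x1000000014000000160000007e0000003f0000002a 5 7) 0 0 (step_sound _ 35 [(rh55afc6a59410cf00.shift 2 0), rhb8e7bc1c35558329] (by decide +kernel))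
noncomputable def rh2059d5709eedf008 : CRef := CRef.mk (Pat.mk 0x800000028000000080000000800000000 0x40000000f0000007c000000080000001800000010 5 7) 0 0 (step_sound _ 4 [(rh7430a052bcb4bacd.shift 0 1), (rhd3458b32566d63f7.shift 3 0)] (by decide +kernel))
noncomputable def rhd8745d3afce428ba : CRef := CRef.mk (Pat.mk 0x200000002000000020000000000000000 0x100000003000000030000000300000003000000070000000700000005 5 3) 0 0 (step_sound _ 161 [(rh0fd870c734e6c513.shift 0 1), rh3181373a30ceb9e3, rh46baee19951a66e7] (by decide +kernel))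
noncomputable def rh562c905737e2bff1 : CRef := CRef.mk (Pat.mk 0x1a0000000a0000000000000000 0x1000000010000000380000001e0000000b0000000800000008 5 6) 0 0 (step_sound _ 98 [(rh6eb76252a9026692.shift 1 0), (rheb0810cc63b001d8.shift 0 2)] (by decide +kernel))
noncomputable def rh85e2ed48ed1d6443 : CRef := CRef.mk (Pat.mk 0x100000001a000000020000000000000000 0x4000000370000003e000000020000000200000002 5 6) 0 0 (step_sound _ 98 [(rh33e738c4ed385b9f.shift 1 3), rhd1f95657bcbb399e] (by decide +kernel))
noncomputable def rh37d3858b80d3f6eb : CRef := CRef.mk (Pat.mk 0x680000002800000020000000000000000000000000 0x140000001c0000003c000000680000002f0000007c0000003c0000001000000010 5 7) 0 0 (step_sound _ 99 [(rh1c365c76821ab000.shift 3 1), rh5ea34e0a5987e837, (rh80a5a644583a2421.shift 2 2), rhf64ae35667378b04] (by decide +kernel))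
noncomputable def rh0830676886a15456 : CRef := CRef.mk (Pat.mk 0x680000002800000020000000000000000000000000 0x540000007c0000007c000000680000002f0000007c0000005c0000001400000010 5 7) 0 0 (step_sound _ 99 [(rh31c08fc223b4ad72.shift 2 1), (rh6d22e4af4868beec.shift 2 2), (rh80a5a644583a2421.shift 2 2), rhf64ae35667378b04] (by decide +kernel))
noncomputable def rh2e83dc040c94abfe : CRef := CRef.mk (Pat.mk 0x2000000020000000200000000 0x5000000070000000700000007000000030000000300000003 5 3) 0 0 (step_sound _ 129 [rh0fd870c734e6c513, rh20966da26a1c2ae8, rhc4055b4872d6fb38] (by decide +kernel))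
noncomputable def rh946643a1609713ab : CRef := CRef.mk (Pat.mk 0xa0000000a0000000a000000000000000000000000 0x40000000d0000000f0000000b0000000e000000070000000700000005 5 4) 0 0 (step_sound _ 65 [rh0c1c1b53bc5a1510, (rh0cec621464cd72f0.shift 0 1), rh3181373a30ceb9e3, rhcae87bda2c3c01d2] (by decide +kernel))
noncomputable def rh1dc2c8063d155c48 : CRef := CRef.mk (Pat.mk 0x280000002800000028000000000000000000000000 0x100000003000000038000000280000007c0000001f0000001c00000014 5 7) 0 0 (step_sound _ 67 [(rh3181373a30ceb9e3.shift 2 0), (rh70c5d9b9abbf8327.shift 3 1), (rhc8fd50c44a2112a0.shift 0 1), (rhd27cbd481e65015c.shift 2 1)] (by decide +kernel))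
noncomputable def rh8823574dbfdce1d9 : CRef := CRef.mk (Pat.mk 0x280000000800000028000000000000000000000000 0x140000003c0000000e0000007c0000000f0000000c00000004 5 7) 0 0 (step_sound _ 67 [(rh0c1c1b53bc5a1510.shift 2 0), (rh216281f58bc5c0de.shift 1 1), (rhc8fd50c44a2112a0.shift 0 1)] (by decide +kernel))
noncomputable def rhc8ca1e2272b2483b : CRef := CRef.mk (Pat.mk 0xa0000000a0000000a000000000000000000000000 0x10000000b0000000b0000001b0000001f0000001700000005 5 5) 0 0 (step_sound _ 65 [rh0c1c1b53bc5a1510, rh3181373a30ceb9e3, (rh6228443e62b344a2.shift 0 1), rhcae87bda2c3c01d2] (by decide +kernel))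
noncomputable def rh60b6109efe8d290f : CRef := CRef.mk (Pat.mk 0x40000000400000014000000000000000000000000 0x200000006000000060000003c0000000f0000000e0000000a 5 6) 0 0 (step_sound _ 66 [(rh0c1c1b53bc5a1510.shift 1 0), (rh3181373a30ceb9e3.shift 1 0), (rh9235486165d5c3a8.shift 0 1), (rhcae87bda2c3c01d2.shift 1 0)] (by decide +kernel))
noncomputable def rhbde866a46bb4dda2 : CRef := CRef.mk (Pat.mk 0x40000001400000014000000040000000000000000 0x80000001c0000001c000000170000003e0000007a00000020 5 7) 0 0 (step_sound _ 67 [(rh55afc6a59410cf00.shift 2 1), rha0aeeb8d11372fc7] (by decide +kernel))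
noncomputable def rh6afae9917edde40f : CRef := CRef.mk (Pat.mk 0x3c000000080000000000000000 0x1c0000001c0000001c0000001c0000003f0000000f0000000c0000000c 5 6) 0 0 (step_sound _ 131 [(rh974ec0839e421a5f.shift 2 0), (rha1a532725e6ae333.shift 1 0), rhbfe0975c5a194269] (by decide +kernel))
noncomputable def rh1419d6e22745bfdb : CRef := CRef.mk (Pat.mk 0xf000000020 0xe000000fe0000003f 5 8) 0 0 (step_sound _ 35 [(rh2cc7d62e70c02209.shift 1 0), rh522ed139a2d80d2d, (rh70543c5e7e75eabe.shift 1 0), (rheae1728ff4a56756.shift 2 0)] (by decide +kernel))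
noncomputable def rh0cbba39200b2b22d : CRef := CRef.mk (Pat.mk 0x40000000700000004000000000000000000000000 0xa0000001e00000007000000040000000e0000000e0000000a 5 5) 0 0 (step_sound _ 66 [(rh3181373a30ceb9e3.shift 1 0), (rhb444e71ef922ad5e.shift 0 1), (rhe286c75f2739cce2.shift 1 1)] (by decide +kernel))
noncomputable def rh2718c7c17af2d85a : CRef := CRef.mk (Pat.mk 0x100000001c000000140000000000000000 0x20000000b0000001f0000003f000000140000001000000010 5 6) 0 0 (step_sound _ 131 [(rh3cb04db3dd2b6a55.shift 3 0), (rhfa2e65bbb3da669e.shift 0 2)] (by decide +kernel))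
noncomputable def rh5fae5c1f330fb984 : CRef := CRef.mk (Pat.mk 0x20000000300000002000000000000000000000000 0x1000000070000000700000007000000030000000300000002000000070000000700000005 5 3) 0 0 (step_sound _ 193 [rh335ac039d3ee5275, (rh65348d474ffcdcda.shift 0 1), (rh7ef5fa5c39f1c762.shift 0 3), (rhe8915d9db8b9f3f2.shift 0 3)] (by decide +kernel))
noncomputable def rh6c4ee2841c58aba2 : CRef := CRef.mk (Pat.mk 0x80000000a00000008000000000000000000000000 0x10000000780000001f000000080000001c0000001c00000014 5 7) 0 0 (step_sound _ 67 [(rh0363d47a46978688.shift 0 2), (rh3181373a30ceb9e3.shift 2 0), (rh32c2123a4016d1a7.shift 2 0), (rhec588a0d7783acc6.shift 3 0)] (by decide +kernel))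
noncomputable def rh3190167e459b66bb : CRef := CRef.mk (Pat.mk 0x800000028000000080000000800000000 0x40000000f0000007c000000080000000c00000004 5 7) 0 0 (step_sound _ 2 [(rh7430a052bcb4bacd.shift 0 1), (rh79877ebd3ef475dd.shift 2 0)] (by decide +kernel))
noncomputable def rh975bec0bf4b14e1c : CRef := CRef.mk (Pat.mk 0x80000003800000028000000000000000000000000 0x4000000050000000780000007f0000003e00000028000000700000007000000050 5 7) 0 0 (step_sound _ 165 [(rh3e0b38310ac09007.shift 0 4), (rh7732c4d7e7206c1d.shift 3 0), (rh878c03cc42e824bf.shift 2 2)] (by decide +kernel))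
noncomputable def rh971ea4bfd67f71c1 : CRef := CRef.mk (Pat.mk 0x20000000e0000000a000000000000000000000000 0x40000000e0000007e0000001f0000000a0000001c0000001c00000014 5 7) 0 0 (step_sound _ 163 [(rh7732c4d7e7206c1d.shift 1 0), (rha0198dc55831a65f.shift 0 4), (rha11dfd15f08f96e3.shift 0 4)] (by decide +kernel))
noncomputable def rhb9c51c07b8a16895 : CRef := CRef.mk (Pat.mk 0x20000000a0000000a000000020000000000000000 0x40000001e0000001e0000001b0000000b0000001e0000003e00000014 5 6) 0 0 (step_sound _ 67 [rh4320bd0bbc7f2f19, (rh96542b57e9ab27d3.shift 1 0), (rh9811135352b05f37.shift 0 1)] (by decide +kernel))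
noncomputable def rh639d3f65570d8682 : CRef := CRef.mk (Pat.mk 0x2000000020000000200000002000000000000000000000000 0x400000007000000030000000300000006000000070000000700000001 5 3) 0 0 (step_sound _ 226 [(rhbaefcd01e0a8bca3.shift 1 3), rhc89ee3608750cd83] (by decide +kernel))
noncomputable def rh4bfdf6bbb76c5f5b : CRef := CRef.mk (Pat.mk 0x400000004000000140000001400000000 0x2a0000003f0000007e000000160000001400000010 5 7) 0 0 (step_sound _ 131 [(rh2f68792b6b779e96.shift 2 1), rhd3dd3144bb653b20] (by decide +kernel))
noncomputable def rha35439c92b7394e0 : CRef := CRef.mk (Pat.mk 0x1c000000140000000000000000 0x80000000a0000003f0000003f000000140000001400000014 5 6) 0 0 (step_sound _ 131 [(rh32f6277f14b47a8f.shift 2 0), (rh7d0322e2c55dccc0.shift 2 0), rha2fcba06d0b3e0b0, (rha40d42a2e34c408d.shift 3 0)] (by decide +kernel))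
noncomputable def rh5dea461492720ed7 : CRef := CRef.mk (Pat.mk 0x80000000e00000000000000000000000000000000 0xc0000000c0000000c0000000f0000007c0000001c0000001c00000014 5 7) 0 0 (step_sound _ 99 [(rh2140e04d90a4f0d4.shift 2 0), (rh498dffc738f2231f.shift 2 1), rh5a8abb721f11b584, (rhc21a95c499b3efdb.shift 0 3)] (by decide +kernel))
noncomputable def rh25e7d7f9c8fca227 : CRef := CRef.mk (Pat.mk 0x400000007000000000000000000000000 0xa0000000e0000000e0000000e000000070000001e0000000e0000000e 5 5) 0 0 (step_sound _ 162 [(rh281c6819542c66e6.shift 1 0), rh444784e422ce030e, (rh5142cf6cc3d2b1bc.shift 1 0), (rhfafeb437ceb8396d.shift 1 0)] (by decide +kernel))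
noncomputable def rh3383004461349baf : CRef := CRef.mk (Pat.mk 0x80000000800000008000000100000000000000000 0x800000008000000380000003f0000007c0000000400000004 5 7) 0 0 (step_sound _ 98 [(rh281c6819542c66e6.shift 2 0), (rh77f4fa36e85995bb.shift 0 2), (rh85a605aac6183f28.shift 2 2), (rh8704327f51d000d7.shift 1 2)] (by decide +kernel))
noncomputable def rh76ed7ba3604996d3 : CRef := CRef.mk (Pat.mk 0x20000001e00000000000000000000000000000000 0x400000006000000060000001e00000007000000070000000700000005 5 5) 0 0 (step_sound _ 97 [rh210813553596681c, (rheb0810cc63b001d8.shift 0 3)] (by decide +kernel))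
noncomputable def rha68ac53db4c136d7 : CRef := CRef.mk (Pat.mk 0x20000001e00000000 0xe6000000ff0000001c 5 8) 0 0 (step_sound _ 37 [(rh3f8766e6ecb455ce.shift 1 1), rh4df2b5b5453abb7b] (by decide +kernel))
noncomputable def rh12d819e6fd96fe24 : CRef := CRef.mk (Pat.mk 0x1e00000000 0xe0000000ff000000fc 5 8) 0 0 (step_sound _ 37 [(rh35e918dd76851f8c.shift 2 0), (rh4ad5fc38f1b69f65.shift 1 0), rh4df2b5b5453abb7b] (by decide +kernel))
noncomputable def rh876d00253a2d8335 : CRef := CRef.mk (Pat.mk 0x200000007800000000 0x300000007e000000e7 5 8) 0 0 (step_sound _ 6 [rha1e5862de6645f69, (rhe25b0a99195a5d59.shift 3 0)] (by decide +kernel))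
noncomputable def rh760d321a7e1d34d3 : CRef := CRef.mk (Pat.mk 0x80000000a0000000800000008000000100000000000000000 0x10000000180000000f0000000c000000080000001c0000001c00000004 5 5) 0 0 (step_sound _ 67 [(rh55afc6a59410cf00.shift 3 1), rh9c566f8b4c659c7b] (by decide +kernel))
noncomputable def rh7d9fafa549fb17e8 : CRef := CRef.mk (Pat.mk 0x80000000a00000008000000080000000000000000 0x100000001c0000000f000000080000000c0000000c00000004 5 5) 0 0 (step_sound _ 34 [(rh79877ebd3ef475dd.shift 2 1), rha662aad92baac064] (by decide +kernel))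
noncomputable def rhac06709234765f60 : CRef := CRef.mk (Pat.mk 0x80000000a00000008000000080000000000000000 0x100000001c0000000f00000008000000180000001800000010 5 5) 0 0 (step_sound _ 36 [rhb0e0115751768830, (rhd3458b32566d63f7.shift 3 1)] (by decide +kernel))
noncomputable def rh2c14799b1a47e112 : CRef := CRef.mk (Pat.mk 0xc000000080000000a00000008 0x100000003f0000003f0000000b00000008 5 6) 0 0 (step_sound _ 100 [(rh2f68792b6b779e96.shift 3 0), (rhe9a6c9a2648933b8.shift 0 1)] (by decide +kernel))
noncomputable def rh7e5d733a74497077 : CRef := CRef.mk (Pat.mk 0x200000002800000068000000000000000000000000 0x10000000140000005c0000007c0000002f000000680000007c0000007c00000054 5 7) 0 0 (step_sound _ 163 [(rh08ff1a9078a560c4.shift 2 0), (rh349d1013248e817b.shift 0 2), (rha2ead9223fc6d248.shift 2 0), (rhcc7c28e4c9a2f586.shift 2 1), (rhe71984e1e06c53b9.shift 0 2)] (by decide +kernel))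
noncomputable def rhc133ade3dd5796c3 : CRef := CRef.mk (Pat.mk 0x800000008000000080000000800000000 0x40000001f0000007c000000080000000800000008 5 7) 0 0 (step_sound _ 130 [(rh50fbb5868c909700.shift 2 1), rhfbde202fb584c928] (by decide +kernel))
noncomputable def rha4d952a9d575d83d : CRef := CRef.mk (Pat.mk 0x40000000400000014000000140000000000000000 0x2a0000003f0000003e000000140000001c0000001800000008 5 6) 0 0 (step_sound _ 163 [(rh2f68792b6b779e96.shift 2 2), rh3fac2a6697ad6a8c] (by decide +kernel))
noncomputable def rheb73575cb4cd42e3 : CRef := CRef.mk (Pat.mk 0x2800000038000000000000000000000000 0x80000003f0000003e000000670000000400000004 5 7) 0 0 (step_sound _ 98 [(rh2591032a0e7f4182.shift 0 2), (rh4f129d8f37c2c70a.shift 1 0), (rh775ca1963e850b80.shift 0 2), (rhc570c09f7c0268b1.shift 0 2)] (by decide +kernel))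
noncomputable def rh2eed2c61e5cda634 : CRef := CRef.mk (Pat.mk 0x140000001e000000000000000000000000 0x400000004000000140000001f0000003c0000000800000008 5 6) 0 0 (step_sound _ 68 [rh1a51c59e70cece8e, (rhe25b0a99195a5d59.shift 1 2)] (by decide +kernel))
noncomputable def rhec02ae23b557d978 : CRef := CRef.mk (Pat.mk 0x80000000a0000000a0000000800000000 0x8000000080000000b0000003e0000000f00000004 5 6) 0 0 (step_sound _ 34 [(rh36828a462ed988a0.shift 0 1), (rh932754581e0f4330.shift 2 0)] (by decide +kernel))
noncomputable def rh337c3c81a319a681 : CRef := CRef.mk (Pat.mk 0x200000002000000020000000000000000 0x500000007000000070000000700000002000000060000000600000004 5 3) 0 0 (step_sound _ 161 [(rh7ef5fa5c39f1c762.shift 0 2), (rhc9de03f9731897d4.shift 1 0), rhcae87bda2c3c01d2] (by decide +kernel))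
noncomputable def rh23d7ba318d89735b : CRef := CRef.mk (Pat.mk 0x20000000200000002000000000000000000000000 0x500000007000000070000000200000002000000070000000700000005 5 3) 0 0 (step_sound _ 65 [rh3181373a30ceb9e3, (rhc85cc95794737cf7.shift 0 2)] (by decide +kernel))
noncomputable def rh61fb4e95a41a6d28 : CRef := CRef.mk (Pat.mk 0x80000000a0000000e000000000000000000000000 0x80000000b0000001e0000003b0000001000000010 5 6) 0 0 (step_sound _ 100 [(rh3244c3cc8379b070.shift 0 3), rhf257bb9a69beadc9] (by decide +kernel))
noncomputable def rh97f6e1d6b763a53e : CRef := CRef.mk (Pat.mk 0x80000000a0000000e000000000000000000000000 0x20000000a0000000a0000003e0000003f0000001400000014 5 6) 0 0 (step_sound _ 66 [(rh42548283029e2a39.shift 2 0), rha475531719705764, (rhade0f4c81793f68e.shift 1 0)] (by decide +kernel))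
noncomputable def rh4aef1cebdb447306 : CRef := CRef.mk (Pat.mk 0x200000002800000038000000000000000000000000 0x180000007c0000002f00000038000000380000001000000010 5 7) 0 0 (step_sound _ 163 [(rh349d1013248e817b.shift 0 2), (rh4893cff807d9b440.shift 3 0), (rha768b229dc254047.shift 3 0)] (by decide +kernel))
noncomputable def rha709a225f5cf9b55 : CRef := CRef.mk (Pat.mk 0x2800000038000000000000000000000000 0x280000002f0000003e000000770000001400000014 5 7) 0 0 (step_sound _ 98 [(rh4f129d8f37c2c70a.shift 1 0), (rh775ca1963e850b80.shift 0 2), (rh8195a2d7794c7cd2.shift 0 2), (rh9483656c38360087.shift 1 0)] (by decide +kernel))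
noncomputable def rh4acbe7133cd1d231 : CRef := CRef.mk (Pat.mk 0x200000002c00000000 0x770000003e00000060 5 7) 0 0 (step_sound _ 36 [(rh33e738c4ed385b9f.shift 2 1), rhc570c09f7c0268b1] (by decide +kernel))
noncomputable def rh3fcc4eac7e2ca31f : CRef := CRef.mk (Pat.mk 0x80000000a000000080000000c00000000 0x80000000b0000003f0000003f00000010 5 6) 0 0 (step_sound _ 36 [(rh55afc6a59410cf00.shift 3 0), (rha241df300d9d679e.shift 0 1)] (by decide +kernel))
noncomputable def rhe2b9b03911fbddc8 : CRef := CRef.mk (Pat.mk 0x680000002800000020000000000000000000000000 0x140000001c0000003c000000680000002f0000007c0000003c0000001400000010 5 7) 0 0 (step_sound _ 99 [(rh1c365c76821ab000.shift 3 1), (rh26fe2cca2b347534.shift 2 1), rh5ea34e0a5987e837, (rh80a5a644583a2421.shift 2 2)] (by decide +kernel))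
noncomputable def rhd679a937e73684e3 : CRef := CRef.mk (Pat.mk 0x6800000028000000200000000000000000 0x540000007c0000007c000000680000002f0000007c0000005c00000014 5 7) 0 0 (step_sound _ 67 [(rh164510e3b7baa136.shift 0 1), (rh31c08fc223b4ad72.shift 2 0), (rh6d22e4af4868beec.shift 2 1), (rh73e0ebf8a9646397.shift 2 0), (rh80a5a644583a2421.shift 2 1)] (by decide +kernel))
noncomputable def rh6e45e27f08a88cc3 : CRef := CRef.mk (Pat.mk 0x20000000200000002000000020000000000000000 0x400000006000000070000000300000003000000070000000600000006 5 3) 0 0 (step_sound _ 194 [rh30dbc5e77bdc2087, (rhbaefcd01e0a8bca3.shift 1 2)] (by decide +kernel))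
noncomputable def rhf9162ccae55470ab : CRef := CRef.mk (Pat.mk 0x100000001c00000000000000000000000000000000 0x280000003800000038000000180000001f00000038000000380000003800000020 5 6) 0 0 (step_sound _ 100 [(rh45bfa9e7c421a397.shift 0 3), (rh498dffc738f2231f.shift 3 1), (rh5a8abb721f11b584.shift 1 0), (rh87a3a8a8a3fd85be.shift 3 1)] (by decide +kernel))
noncomputable def rh9a36fd13628cdbd4 : CRef := CRef.mk (Pat.mk 0x1e0000000200000000000000000000000000000000 0x400000006000000070000001e0000000600000007000000070000000700000005 5 5) 0 0 (step_sound _ 97 [rh0681fa8d2c5db297, (rh11acd801a78010b3.shift 0 2), (rhb730ba14aa32bdb3.shift 1 2), (rhd8589df49ad97764.shift 0 2)] (by decide +kernel))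
noncomputable def rhc09d31e553d886f2 : CRef := CRef.mk (Pat.mk 0x8000000080000000a00000018 0x40000001c0000001c000000180000000c0000000f00000018 5 5) 0 0 (step_sound _ 34 [rhb739f4f82bb681b4, (rhe8915d9db8b9f3f2.shift 2 0)] (by decide +kernel))
noncomputable def rhd251017f7460bb22 : CRef := CRef.mk (Pat.mk 0x2c0000002800000008000000000000000000000000 0x400000005000000070000000700000003e0000002f000000380000003c0000001c00000004 5 7) 0 0 (step_sound _ 197 [(rh9548c07d1d1f2a1b.shift 2 3), (rhceccb363515cb277.shift 3 1), (rhe7a687206514a34a.shift 0 4), (rhfbe1c19d5e6ac344.shift 1 2), (rhfd63d445a1d800d1.shift 2 0)] (by decide +kernel))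
noncomputable def rhc29588fd6f7d4f24 : CRef := CRef.mk (Pat.mk 0x2c0000000800000008 0x4000000770000003e0000000f00000008 5 7) 0 0 (step_sound _ 68 [(rh00f1bb10334541e3.shift 0 2), (rh7654d7b92c96fe12.shift 0 1), (rh775ca1963e850b80.shift 0 1), (rhe4f9133a81c1dbc5.shift 1 0)] (by decide +kernel))
noncomputable def rha59926334038a75d : CRef := CRef.mk (Pat.mk 0x80000000e00000000000000000000000000000000 0x140000001c0000001c0000000c0000000f0000007c0000001c0000001c00000010 5 7) 0 0 (step_sound _ 99 [(rh498dffc738f2231f.shift 2 1), rh5a8abb721f11b584, (rh87a3a8a8a3fd85be.shift 2 1), (rhc21a95c499b3efdb.shift 0 3)] (by decide +kernel))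
noncomputable def rh3f78654b8fbb4546 : CRef := CRef.mk (Pat.mk 0xe0000001800000000000000000000000000000000 0x40000001c0000003c0000000e000000780000001f0000001c0000001c00000014 5 7) 0 0 (step_sound _ 99 [rh3d33fc40c2b99a62, (rh53e5c1cd464022b3.shift 1 2), (rhb1a251d9bff81766.shift 2 2), (rhe181d564227a886f.shift 2 0)] (by decide +kernel))
noncomputable def rha05d440814eaa5d0 : CRef := CRef.mk (Pat.mk 0x1c0000001000000010000000080000000000000000 0x40000001c000000f60000007f0000003e0000000800000008 5 8) 0 0 (step_sound _ 99 [(rh42548283029e2a39.shift 3 0), (rh436ac7da9146a88d.shift 1 0), (rh46685aadd858aed8.shift 0 2)] (by decide +kernel))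
noncomputable def rh8cfb0b4e21dbd60c : CRef := CRef.mk (Pat.mk 0x400000005000000040000000600000000 0x4000000070000003f0000003f00000008 5 6) 0 0 (step_sound _ 35 [(rh55afc6a59410cf00.shift 2 0), (rhe4af16219ab19a40.shift 0 1)] (by decide +kernel))
noncomputable def rhd54f54c67c34be5f : CRef := CRef.mk (Pat.mk 0x2000000020000001a0000000000000000 0x50000000700000007000000020000001a0000000f00000005 5 5) 0 0 (step_sound _ 33 [rh2f7ea2d2c6b43cfc, rh36e6bb6cca6188da, rhbf195e7afaf21bd1] (by decide +kernel))
noncomputable def rh45bf0f944f9b93a3 : CRef := CRef.mk (Pat.mk 0x80000002800000068000000000000000000000000 0x5000000070000000780000007c0000002f00000068000000680000004000000040 5 7) 0 0 (step_sound _ 165 [(rh349d1013248e817b.shift 0 2), (rh70e33bfdf511e144.shift 5 0), (rhc0f6fe06378683f4.shift 4 2), (rhe27f3a99d34d0525.shift 3 2)] (by decide +kernel))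
noncomputable def rhec3d587ac0c763c5 : CRef := CRef.mk (Pat.mk 0x20000000200000002000000000000000000000000 0x500000007000000070000000300000002000000070000000700000005 5 3) 0 0 (step_sound _ 65 [(rh2f7ea2d2c6b43cfc.shift 0 1), rh6aa5625770489e83, rh8cdd36b03d57a2f6, rhcae87bda2c3c01d2] (by decide +kernel))
noncomputable def rh882d3ed95d304c0b : CRef := CRef.mk (Pat.mk 0xa0000000a0000000a0000000000000000 0x500000007000000070000000e0000000b0000000f0000000d00000004 5 4) 0 0 (step_sound _ 161 [(rh0fd870c734e6c513.shift 0 1), (rh402d223d12d7377d.shift 0 1), (rh7ef5fa5c39f1c762.shift 0 2), (rh98b5e869a127ef67.shift 1 0)] (by decide +kernel))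
noncomputable def rhaa04cb697e71a31b : CRef := CRef.mk (Pat.mk 0x2800000028000000280000000000000000 0x140000001c0000001f0000007c00000028000000380000003000000010 5 7) 0 0 (step_sound _ 163 [(rh7430a052bcb4bacd.shift 0 2), (rh7ef5fa5c39f1c762.shift 2 2), (rh98b5e869a127ef67.shift 3 0)] (by decide +kernel))
noncomputable def rh9662bf6098426902 : CRef := CRef.mk (Pat.mk 0x28000000080000002800000000 0x40000000c0000000f0000007c0000000e0000003c00000014 5 7) 0 0 (step_sound _ 131 [(rh0fd870c734e6c513.shift 2 0), (rh73ba6c579e4b229a.shift 1 0), (rh7430a052bcb4bacd.shift 0 1)] (by decide +kernel))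
noncomputable def rh544e2c0a0031f388 : CRef := CRef.mk (Pat.mk 0xa0000000a0000000a00000000 0x5000000170000001f0000001b0000000b0000000b00000001 5 5) 0 0 (step_sound _ 129 [rh0fd870c734e6c513, rh402d223d12d7377d, (rh7ef5fa5c39f1c762.shift 0 1), (rhf88ae983e463ce96.shift 0 1)] (by decide +kernel))
noncomputable def rh88d585697eacf27f : CRef := CRef.mk (Pat.mk 0x28000000080000000800000000 0x140000001c0000001f0000007c0000000c0000000c00000004 5 7) 0 0 (step_sound _ 131 [(rh0fd870c734e6c513.shift 2 0), (rh402d223d12d7377d.shift 2 0), (rh7430a052bcb4bacd.shift 0 1), (rh7ef5fa5c39f1c762.shift 2 1)] (by decide +kernel))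
noncomputable def rhacc41bd028ea8b1f : CRef := CRef.mk (Pat.mk 0x2c00000038000000000000000000000000 0x140000001c0000001c0000007c0000002f000000380000001f0000001c00000010 5 7) 0 0 (step_sound _ 163 [(rh3c41c563fd95de1d.shift 0 2), (rh4bcb18fc14cd73eb.shift 0 1), (rha768b229dc254047.shift 3 0), (rhc0f6fe06378683f4.shift 2 2)] (by decide +kernel))
noncomputable def rhe80e002c72bee859 : CRef := CRef.mk (Pat.mk 0x2800000038000000000000000000000000 0x80000003f0000003e000000670000000400000004 5 7) 0 0 (step_sound _ 98 [(rh2591032a0e7f4182.shift 0 2), (rh2cc7d62e70c02209.shift 0 2), (rh4f129d8f37c2c70a.shift 1 0), (rhc570c09f7c0268b1.shift 0 2)] (by decide +kernel))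
noncomputable def rh933d752ab09d6fc8 : CRef := CRef.mk (Pat.mk 0x280000002c000000000000000000000000 0x800000008000000380000003e0000007f0000000400000004 5 7) 0 0 (step_sound _ 100 [(rh2591032a0e7f4182.shift 0 2), (rh2ebbcfe90e0f250d.shift 1 2), (rh3423e5ac208fb65b.shift 1 0)] (by decide +kernel))
noncomputable def rh1f7d86723a9e3d25 : CRef := CRef.mk (Pat.mk 0x280000002c000000000000000000000000 0x80000003f0000003e000000770000000400000004 5 7) 0 0 (step_sound _ 100 [(rh2591032a0e7f4182.shift 0 2), (rh2ba551de881ca4cd.shift 0 2), (rh4f129d8f37c2c70a.shift 1 0)] (by decide +kernel))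
noncomputable def rh0e3012db365425d2 : CRef := CRef.mk (Pat.mk 0x2800000038000000000000000000000000 0x800000008000000380000003e0000007f0000000400000004 5 7) 0 0 (step_sound _ 98 [(rh2591032a0e7f4182.shift 0 2), (rh2ebbcfe90e0f250d.shift 1 2), (rh3423e5ac208fb65b.shift 1 0)] (by decide +kernel))
noncomputable def rhca881b8854706db1 : CRef := CRef.mk (Pat.mk 0x2000000038000000100000000000000000 0x300000007e000000ff0000001000000010 5 8) 0 0 (step_sound _ 36 [(rh2734157314de9e95.shift 0 2), (rh71222050f2c63a3a.shift 4 0)] (by decide +kernel))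
noncomputable def rhd8e66b35e5f82302 : CRef := CRef.mk (Pat.mk 0x40000001c000000080000000000000000 0x400000004000000040000001f0000003f0000000200000002 5 6) 0 0 (step_sound _ 162 [(rh2145e1d24b96a57e.shift 2 2), rh7e83efc0c0d75a40] (by decide +kernel))
noncomputable def rh8a3ff239fd7555ea : CRef := CRef.mk (Pat.mk 0x28000000380000002000000000 0x5000000070000000780000002f0000003c0000003000000010 5 7) 0 0 (step_sound _ 133 [(rh03dfdf12d5937476.shift 4 0), (rh29a7dbd7acded370.shift 0 1), (rh7ef5fa5c39f1c762.shift 4 1)] (by decide +kernel))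
noncomputable def rh3bbc8911e77ee223 : CRef := CRef.mk (Pat.mk 0x200000002800000068000000000000000000000000 0x100000003c0000007c0000002f000000680000003c0000001c00000014 5 7) 0 0 (step_sound _ 163 [(rh24e797fe2d505814.shift 2 0), (rh5d8b3f773a050a7a.shift 0 2), (rha2ead9223fc6d248.shift 2 0), (rhe27f3a99d34d0525.shift 3 2)] (by decide +kernel))
noncomputable def rh0c38b268f4d2f149 : CRef := CRef.mk (Pat.mk 0x200000002800000068000000000000000000000000 0x10000000140000005e0000007c0000002f000000680000007c0000007c00000054 5 7) 0 0 (step_sound _ 163 [(rh08ff1a9078a560c4.shift 2 0), (rh349d1013248e817b.shift 0 2), (rh86023375cda3ec19.shift 0 2), (rha2ead9223fc6d248.shift 2 0), (rhcc7c28e4c9a2f586.shift 2 1)] (by decide +kernel))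
noncomputable def rh41c8493a2b321634 : CRef := CRef.mk (Pat.mk 0x20000000b0000000a00000000 0x6000000060000001e0000000b0000001f0000000b 5 5) 0 0 (step_sound _ 36 [(rh5419adcd928dba20.shift 0 1), rhb5b13aa9d0936b45] (by decide +kernel))
noncomputable def rh051ce29bab37842a : CRef := CRef.mk (Pat.mk 0x80000002c0000002800000000 0x1000000010000000180000007c0000002f0000007800000028 5 7) 0 0 (step_sound _ 36 [rh776b8354b93632dc, (rhf48373e13d2bc128.shift 2 1)] (by decide +kernel))
noncomputable def rh5e727940cea29a80 : CRef := CRef.mk (Pat.mk 0x200000002000000020000000200000000 0x700000007000000070000000300000003000000030000000200000002 5 3) 0 0 (step_sound _ 161 [(rh3ca48e2a6d60153d.shift 0 1), rh73cc2f8d08e13824, (rhc85cc95794737cf7.shift 0 2)] (by decide +kernel))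
noncomputable def rh962ff5e91946d9a6 : CRef := CRef.mk (Pat.mk 0x20000000200000002000000000000000000000000 0x500000007000000070000000300000002000000070000000700000005 5 3) 0 0 (step_sound _ 65 [rh3181373a30ceb9e3, rh6aa5625770489e83, (rhc85cc95794737cf7.shift 0 2), rhcae87bda2c3c01d2] (by decide +kernel))
noncomputable def rh4a9fefd04bcda26a : CRef := CRef.mk (Pat.mk 0x800000028000000280000001000000000 0x5400000074000000740000007c0000002f0000003c0000007800000040 5 7) 0 0 (step_sound _ 133 [(rh349d1013248e817b.shift 0 1), (rh72c5a87cf41a6352.shift 2 1), (rhbf86953346e76381.shift 4 1), (rhd0637df081da5ef4.shift 2 0)] (by decide +kernel))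
noncomputable def rhabdb6d910d016b71 : CRef := CRef.mk (Pat.mk 0x20000000a00000008000000040000000000000000 0x140000001c0000001c0000001e0000000b0000000c0000000c0000000400000004 5 5) 0 0 (step_sound _ 163 [(rh0d0aa2c2b8dc1257.shift 0 1), (rhb01ac4982a11ea27.shift 2 0), (rhbf86953346e76381.shift 2 2)] (by decide +kernel))
noncomputable def rh8c1a34bbbb07568e : CRef := CRef.mk (Pat.mk 0x20000000a0000000a000000020000000000000000 0x140000001e0000001e0000000b0000001a0000001e0000001e00000004 5 5) 0 0 (step_sound _ 67 [(rh5c6919873fc4b56c.shift 0 1), (rh96542b57e9ab27d3.shift 1 0)] (by decide +kernel))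
noncomputable def rhab1282e188a12349 : CRef := CRef.mk (Pat.mk 0x60000000e000000000000000000000000 0x400000006000000060000000f0000003e0000000e0000000c 5 6) 0 0 (step_sound _ 162 [(rh1e309b005ffa1b36.shift 1 1), rh69cd88111a9b413a] (by decide +kernel))
noncomputable def rha0ccee1f8d5d0621 : CRef := CRef.mk (Pat.mk 0x1c00000038000000000000000000000000 0xc0000001c0000001c0000001c000000380000001f0000001c00000014 5 6) 0 0 (step_sound _ 67 [(rh261f868a429ae0e3.shift 2 1), (rh84d1c02a8954c6a8.shift 3 1), (rha31874b0016a57c8.shift 2 0), (rhbe6d38c19b5f5f20.shift 0 1)] (by decide +kernel))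
noncomputable def rh9774045784feb0eb : CRef := CRef.mk (Pat.mk 0x1c000000380000000000000000 0xc0000001c0000001c0000001c0000003c0000000f0000000c 5 6) 0 0 (step_sound _ 35 [(rh261f868a429ae0e3.shift 2 0), rh702f3f1d58e81308, (rh84d1c02a8954c6a8.shift 3 0)] (by decide +kernel))
noncomputable def rh1504310e6f8cf9b4 : CRef := CRef.mk (Pat.mk 0x1800000038000000000000000000000000 0x1000000010000000180000003f000000770000002000000020 5 7) 0 0 (step_sound _ 98 [(rh0e1512cbacfbd48b.shift 0 2), (rh65dcfd18fd55cba0.shift 2 0)] (by decide +kernel))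
noncomputable def rh2f62287b5dff1f41 : CRef := CRef.mk (Pat.mk 0x200000007000000060000000000000000 0x50000000700000007000000070000003e0000000e 5 6) 0 0 (step_sound _ 33 [rh261f868a429ae0e3, rh333bba90a4f5e365, (rha707fb719e87fe6e.shift 1 0), rhe286c75f2739cce2] (by decide +kernel))
noncomputable def rhd314563542fc18aa : CRef := CRef.mk (Pat.mk 0x3000000020000000600000000 0x3000000030000000300000003000000030000000700000004 5 3) 0 0 (step_sound _ 129 [(rh55afc6a59410cf00.shift 1 0), (rh79bf920132cab629.shift 0 1)] (by decide +kernel))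
noncomputable def rh0cb0ce5aaafea7db : CRef := CRef.mk (Pat.mk 0xe00000008000000180000000000000000 0x400000004000000060000000e0000003f0000007f0000000200000002 5 7) 0 0 (step_sound _ 97 [(rh174a767562f03570.shift 0 2), (rh6409a73f86fd55c6.shift 0 1), (rh9ebd639649ea671c.shift 0 2), rhe176932f9df76e0d] (by decide +kernel))
noncomputable def rh78870ebe8fae8ff5 : CRef := CRef.mk (Pat.mk 0xc0000000c00000008 0x80000001c0000003c0000000f0000000c0000000c 5 6) 0 0 (step_sound _ 98 [(rh2145e1d24b96a57e.shift 2 0), rh28f495a60bbf0485] (by decide +kernel))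
noncomputable def rhb28dff842a7744c7 : CRef := CRef.mk (Pat.mk 0x300000003000000020000000000000000 0x200000006000000060000000700000003000000030000000200000002 5 3) 0 0 (step_sound _ 33 [(rh028809442a7beef4.shift 0 1), rh7b1f1fb55310c477] (by decide +kernel))
noncomputable def rh54ffa536b1c19b81 : CRef := CRef.mk (Pat.mk 0x300000002000000020000000200000000 0x200000006000000060000000700000003000000030000000200000002 5 3) 0 0 (step_sound _ 96 [(rh028809442a7beef4.shift 0 1), rh7b1f1fb55310c477] (by decide +kernel))
noncomputable def rhe567c03fd4c9db57 : CRef := CRef.mk (Pat.mk 0x80000000b0000001800000000 0x140000001c0000001c000000080000000b0000001e00000010 5 5) 0 0 (step_sound _ 33 [(rh5419adcd928dba20.shift 0 1), (rhc0f6fe06378683f4.shift 2 0)] (by decide +kernel))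
noncomputable def rh715b8de3cdd9ada7 : CRef := CRef.mk (Pat.mk 0x80000000b0000000a00000000 0x140000001c0000001c000000080000000b0000001e00000010 5 5) 0 0 (step_sound _ 36 [(rh5419adcd928dba20.shift 0 1), (rhc0f6fe06378683f4.shift 2 0)] (by decide +kernel))
noncomputable def rhb9bfd9844c0245bf : CRef := CRef.mk (Pat.mk 0x200000002c000000280000000000000000 0x140000001c0000003c0000007c0000002f0000002c0000000c0000000c 5 7) 0 0 (step_sound _ 131 [(rh87a15eec1d4bbc28.shift 2 1), (rh87a3a8a8a3fd85be.shift 2 0), (rhe33d9496e10d8eb0.shift 0 3)] (by decide +kernel))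
noncomputable def rh98f323ae0446cabd : CRef := CRef.mk (Pat.mk 0x1000000030000000280000000000000000 0x1000000010000000180000007c0000002f0000000800000008 5 7) 0 0 (step_sound _ 164 [(rh2145e1d24b96a57e.shift 4 2), rh6afd1e5cb0d197a2] (by decide +kernel))
noncomputable def rh08af29ed3eb2fc37 : CRef := CRef.mk (Pat.mk 0x80000000800000008000000100000000000000000 0x800000008000000380000003f000000fc0000000400000004 5 8) 0 0 (step_sound _ 98 [(rh281c6819542c66e6.shift 2 0), (rh77f4fa36e85995bb.shift 0 2), (rh85a605aac6183f28.shift 2 2), (rhbec0a5329cfc9f4f.shift 1 2)] (by decide +kernel))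
noncomputable def rhea7affbf1185219a : CRef := CRef.mk (Pat.mk 0xe000000080000000c000000000000000000000000 0xc0000000e0000003b0000003f000000f30000001000000010 5 8) 0 0 (step_sound _ 100 [(rh046c5eb18e55a239.shift 3 0), (rh3af8616525509f3c.shift 0 2), (rhd5979d9ced4acd89.shift 1 2)] (by decide +kernel))
noncomputable def rh6a990e8028be488d : CRef := CRef.mk (Pat.mk 0x380000002000000030000000000000000000000000 0x1800000038000001ef0000007e000000df0000005400000040 5 9) 0 0 (step_sound _ 99 [(rh150cb69972e36607.shift 2 0), (rh6e6c54f3dc1923ed.shift 0 1), (rhb37e485dff1e07aa.shift 2 3), (rhf2cc7d47ec58b7ff.shift 0 2)] (by decide +kernel))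
noncomputable def rh820ef164ecc161a3 : CRef := CRef.mk (Pat.mk 0x3000000020000000280000002000000000 0x4c0000007e0000007f0000003e0000003000000010 5 7) 0 0 (step_sound _ 131 [(rh1708f61860215cbe.shift 1 0), (rh463075d27e519a4f.shift 2 0), (rha87bd76817e3db94.shift 0 3), (rhe3a5dbda587956eb.shift 1 0)] (by decide +kernel))
noncomputable def rhe3fd27eeaee630c5 : CRef := CRef.mk (Pat.mk 0x200000002000000020000000000000000 0x500000007000000070000000200000006000000070000000700000005 5 3) 0 0 (step_sound _ 161 [(rh2f7ea2d2c6b43cfc.shift 0 1), (rh8065c10b3cae6218.shift 0 1), rh8cdd36b03d57a2f6] (by decide +kernel))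
noncomputable def rhfc458d5f7de4fdc7 : CRef := CRef.mk (Pat.mk 0x300000002000000020000000200000000 0x6000000060000000700000003000000030000000300000002 5 3) 0 0 (step_sound _ 96 [(rh6ce4e20cab3d27ba.shift 0 1), rh7b1f1fb55310c477] (by decide +kernel))
noncomputable def rh899ccf8276af9d97 : CRef := CRef.mk (Pat.mk 0x200000002000000020000000000000000 0x100000003000000030000000200000007000000070000000700000005 5 3) 0 0 (step_sound _ 161 [(rh565a0c22519f57e9.shift 0 1), (rh8065c10b3cae6218.shift 0 1), rh8cdd36b03d57a2f6] (by decide +kernel))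
noncomputable def rhc2cba4bd083dd63c : CRef := CRef.mk (Pat.mk 0x800000008000000280000002800000000 0x1800000018000000780000002f0000007c00000028 5 7) 0 0 (step_sound _ 132 [(rh2f68792b6b779e96.shift 3 1), rh8b0e308a0d323c6c] (by decide +kernel))
noncomputable def rhe8a9da99cb351580 : CRef := CRef.mk (Pat.mk 0x400000004000000140000001400000000 0x2a0000003f0000003e000000140000001400000010 5 6) 0 0 (step_sound _ 131 [(rh2f68792b6b779e96.shift 2 1), rh78c0988ea62fb244] (by decide +kernel))
noncomputable def rh4a61241014f169a4 : CRef := CRef.mk (Pat.mk 0xb00000008000000000000000000000000 0x40000001c0000001e0000000f0000001e0000001c0000001c00000014 5 5) 0 0 (step_sound _ 163 [(rhabf575676fe0ef70.shift 0 3), (rhaf5075ff20fb9919.shift 0 1), rhbb71a2bdefaefdd9] (by decide +kernel))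
noncomputable def rh889773dbc2d2b171 : CRef := CRef.mk (Pat.mk 0x2c00000020000000000000000000000000 0x500000007000000070000000780000003e00000037000000700000007000000050 5 7) 0 0 (step_sound _ 165 [(rh0cf047ac59f5fe28.shift 0 3), (rh22e203964f906d4b.shift 1 3), (rhbb71a2bdefaefdd9.shift 2 0), (rheea89be93e4ede89.shift 1 1)] (by decide +kernel))
noncomputable def rh1905f57c8c5bda76 : CRef := CRef.mk (Pat.mk 0x2c00000020000000000000000000000000 0x5000000070000000700000007c0000002f00000078000000700000007000000050 5 7) 0 0 (step_sound _ 165 [(rh42aaf58786ba7cf1.shift 2 1), (rh42aecd61070a011b.shift 2 1), (rh865de6395c50e5f4.shift 2 2), (rh90759a9a80e5ab81.shift 0 2), (rhaf5075ff20fb9919.shift 2 1), (rhbb71a2bdefaefdd9.shift 2 0)] (by decide +kernel))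
noncomputable def rh20049749834de6c1 : CRef := CRef.mk (Pat.mk 0x10000000100000001c0000000800000000 0x2c0000007e0000007f0000001c0000001c00000014 5 7) 0 0 (step_sound _ 99 [(rh371e9c582b755347.shift 0 1), (rh52e7c88313c6f830.shift 1 0), (rh5a0d7aafdb6b71a6.shift 1 0)] (by decide +kernel))
noncomputable def rhab67d5979711d49b : CRef := CRef.mk (Pat.mk 0x18000000080000000e000000000000000000000000 0x20000007f0000003f0000000e000000060000000400000004 5 7) 0 0 (step_sound _ 129 [(rh37b3c0214c205de8.shift 0 3), (rh7b8e523e0c581b56.shift 0 1), rh8b9018bcdef783d1, (rhedf3a755fe019897.shift 0 4)] (by decide +kernel))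
noncomputable def rh3d157ffef0299bc3 : CRef := CRef.mk (Pat.mk 0x2000000020000000300000002 0x500000007000000070000000600000006000000070000000300000002 5 3) 0 0 (step_sound _ 129 [rh358e1c2d69865b61, (rh44f453b84f013105.shift 1 0), (rhbf86953346e76381.shift 0 1)] (by decide +kernel))
noncomputable def rhe38180d86604e375 : CRef := CRef.mk (Pat.mk 0xa0000000b00000008000000000000000000000000 0x100000001e0000000b000000080000001c0000001c00000014 5 5) 0 0 (step_sound _ 164 [(rhb2a0b9ccfb5cecd5.shift 0 4), (rhfa40f754f1f7b88f.shift 2 0)] (by decide +kernel))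
noncomputable def rh52b086d6744b905e : CRef := CRef.mk (Pat.mk 0x280000002c00000020000000000000000000000000 0x40000000c0000002c0000002f0000007c0000003c0000001c00000014 5 7) 0 0 (step_sound _ 99 [(rh2140e04d90a4f0d4.shift 2 0), (rh35f6e365521131e7.shift 2 1), (rh8c25cb665ab79ec0.shift 0 3)] (by decide +kernel))
noncomputable def rhc4ded0c484487ad9 : CRef := CRef.mk (Pat.mk 0x2800000030000000100000000000000000 0x8000000080000002f0000007c000000180000001000000010 5 7) 0 0 (step_sound _ 36 [(rh6b22a9ecbe5baeca.shift 0 1), (rh71222050f2c63a3a.shift 4 0)] (by decide +kernel))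
noncomputable def rh6647737950e70d20 : CRef := CRef.mk (Pat.mk 0x20000000200000002000000000000000000000000 0x400000006000000060000000200000007000000070000000700000005 5 3) 0 0 (step_sound _ 65 [(rh20966da26a1c2ae8.shift 0 1), rh8cdd36b03d57a2f6, (rhabedd109a9a37101.shift 0 1), (rhced6d86d2069808b.shift 1 1)] (by decide +kernel))
noncomputable def rh5781dcb8517fa76d : CRef := CRef.mk (Pat.mk 0x40000000200000002000000020000000000000000 0x5000000070000000700000002000000020000000600000004 5 3) 0 0 (step_sound _ 33 [(rhbaefcd01e0a8bca3.shift 1 1), rhedeacfdd5dd9b35b] (by decide +kernel))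
noncomputable def rh128f16072158e86e : CRef := CRef.mk (Pat.mk 0xc000000080000000e000000000000000000000000 0xf30000003f0000003b0000000e0000000c0000000c00000004 5 8) 0 0 (step_sound _ 164 [(rh15590a39afd9a120.shift 2 0), (rh1cade5f7702f04e7.shift 0 2), (rh6ae1d99a9b0058f4.shift 1 2)] (by decide +kernel))
noncomputable def rh2374e63bf3225ade : CRef := CRef.mk (Pat.mk 0x3000000020000000380000000000000000 0x40000000df0000007e000001ef000000380000001800000010 5 9) 0 0 (step_sound _ 131 [(rh36d2c89188238b29.shift 2 1), rh543662e29fd8164d, (rh6c6cc8f59caab3aa.shift 0 3), (rh8ee80cc30e93a344.shift 2 3)] (by decide +kernel))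
noncomputable def rh4b32f70f066e2c2c : CRef := CRef.mk (Pat.mk 0x200000002000000020000000000000000 0x500000007000000070000000300000003000000030000000300000001 5 3) 0 0 (step_sound _ 161 [(rh20966da26a1c2ae8.shift 0 1), rh6aa5625770489e83, (rhc85cc95794737cf7.shift 0 2)] (by decide +kernel))
noncomputable def rhfe0f7a41f89f765a : CRef := CRef.mk (Pat.mk 0x1000000014000000100000000000000000 0x280000003800000038000000180000001f000000380000001800000008 5 6) 0 0 (step_sound _ 164 [(rh6aa5625770489e83.shift 3 0), (rhc85cc95794737cf7.shift 3 2), (rhe8eb80f1344c3d24.shift 0 1)] (by decide +kernel))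
noncomputable def rhaa416cf737c33e91 : CRef := CRef.mk (Pat.mk 0x8000000080000000a0000000800000000 0x100000001800000018000000080000000f0000001c00000010 5 5) 0 0 (step_sound _ 36 [(rh55afc6a59410cf00.shift 3 0), (rhc2ba441c4f7d47bc.shift 0 1)] (by decide +kernel))
noncomputable def rh3c4c314c6e13bd78 : CRef := CRef.mk (Pat.mk 0x20000000200000002000000000000000000000000 0x100000003000000030000000300000006000000070000000700000005 5 3) 0 0 (step_sound _ 65 [rh6aa5625770489e83, (rh8065c10b3cae6218.shift 0 1), rh8cdd36b03d57a2f6] (by decide +kernel))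
noncomputable def rh37b3d91fe7703d38 : CRef := CRef.mk (Pat.mk 0x2000000028000000200000003000000000 0x10000000300000003e000000780000007e0000004f 5 7) 0 0 (step_sound _ 35 [(rh14c17a1071bb5129.shift 1 0), (rh618a89ae50f6698f.shift 1 0), rh7f0f728c796044ac, (rh80cb0b9e692a15bc.shift 2 0)] (by decide +kernel))
noncomputable def rh10c7cc436d962ab8 : CRef := CRef.mk (Pat.mk 0x200000002000000020000000000000000 0x500000007000000070000000300000002000000070000000700000005 5 3) 0 0 (step_sound _ 161 [rh46baee19951a66e7, rh6aa5625770489e83, rh8cdd36b03d57a2f6, (rhc85cc95794737cf7.shift 0 2)] (by decide +kernel))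
noncomputable def rh38b09ef385272d31 : CRef := CRef.mk (Pat.mk 0x20000000200000002000000000000000000000000 0x500000007000000070000000700000002000000060000000600000004 5 3) 0 0 (step_sound _ 65 [rh46baee19951a66e7, (rhc85cc95794737cf7.shift 0 2), (rhc9de03f9731897d4.shift 1 0)] (by decide +kernel))
noncomputable def rh7b4715d650f74bd7 : CRef := CRef.mk (Pat.mk 0xc000000080000000a00000008 0x100000007e0000007f0000000e00000008 5 7) 0 0 (step_sound _ 100 [(rh2f68792b6b779e96.shift 3 0), (rh9a6139bcf03e1a79.shift 0 1)] (by decide +kernel))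
noncomputable def rh1d97c1fcc757f1f7 : CRef := CRef.mk (Pat.mk 0x200000003800000028000000000000000000000000 0x10000000300000003c0000002f000000780000007000000050 5 7) 0 0 (step_sound _ 69 [(rh2f0429c80284f638.shift 0 1), (rh3181373a30ceb9e3.shift 4 0), (rhe286c75f2739cce2.shift 4 1)] (by decide +kernel))
noncomputable def rhc851bb61617a701b : CRef := CRef.mk (Pat.mk 0xa0000000b00000002000000000000000000000000 0xb0000001f0000000b0000001e000000060000000600000004 5 5) 0 0 (step_sound _ 164 [rh7170e6ecf107531a, (rhb2a0b9ccfb5cecd5.shift 0 4)] (by decide +kernel))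
noncomputable def rha74b5e0d2a214331 : CRef := CRef.mk (Pat.mk 0x1400000014000000040000000400000000 0x140000003e000000170000003c0000000c0000000c 5 6) 0 0 (step_sound _ 35 [rh41b43696a8919fe3, (rh55afc6a59410cf00.shift 2 0)] (by decide +kernel))
noncomputable def rh414d961cb701a913 : CRef := CRef.mk (Pat.mk 0x1400000014000000040000000400000000 0x1000000014000000140000003e0000003f0000002a 5 6) 0 0 (step_sound _ 35 [(rh55afc6a59410cf00.shift 2 0), rhc8c80e872382daad] (by decide +kernel))
noncomputable def rh079ffb1985424a66 : CRef := CRef.mk (Pat.mk 0x800000008000000280000000800000000 0x40000001f0000007c000000680000000800000008 5 7) 0 0 (step_sound _ 130 [rh3910c77a3553bfa3, (rh50fbb5868c909700.shift 2 1)] (by decide +kernel))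
noncomputable def rhf6ba8bfc46afa9f4 : CRef := CRef.mk (Pat.mk 0x80000000b00000000000000000000000000000000 0x40000001c0000001e0000000f0000001e0000001c0000001c00000014 5 5) 0 0 (step_sound _ 99 [(rhabf575676fe0ef70.shift 0 3), (rhaf5075ff20fb9919.shift 0 1), rhbb71a2bdefaefdd9] (by decide +kernel))
noncomputable def rh9c8051de5501896f : CRef := CRef.mk (Pat.mk 0x100000001600000000000000000000000000000000 0x280000003800000038000000180000001f0000003c000000380000002800000020 5 6) 0 0 (step_sound _ 100 [(rh2e8efbc4684aef7b.shift 0 3), (rh9765e413c7f50252.shift 1 0), (rhaf5075ff20fb9919.shift 1 1), (rheea89be93e4ede89.shift 0 1)] (by decide +kernel))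
noncomputable def rh947d04826da878ce : CRef := CRef.mk (Pat.mk 0x200000002c00000000000000000000000000000000 0x500000007000000070000000780000002f0000007c000000700000007000000050 5 7) 0 0 (step_sound _ 101 [(rh07c019240d9e9aaa.shift 4 1), rh516bbb2dd0416ae7, (rh865de6395c50e5f4.shift 2 2), (rhaf5075ff20fb9919.shift 2 1), (rhbb71a2bdefaefdd9.shift 2 0)] (by decide +kernel))
noncomputable def rh01703e7bf430506e : CRef := CRef.mk (Pat.mk 0x80000000a000000080000000c00000000 0x80000000f0000007f0000001f00000010 5 7) 0 0 (step_sound _ 36 [(rh21c5f0dd63e59670.shift 0 1), (rh55afc6a59410cf00.shift 3 0)] (by decide +kernel))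
noncomputable def rh74c844ac8d17dfcb : CRef := CRef.mk (Pat.mk 0x2000000020000000200000002000000000000000000000000 0x200000002000000030000000300000003000000070000000700000007 5 3) 0 0 (step_sound _ 65 [rh019ff7e35dd8c55e, (rh7928877f9bf74a91.shift 0 1), rh8cdd36b03d57a2f6] (by decide +kernel))
noncomputable def rh02c1c16a5398de61 : CRef := CRef.mk (Pat.mk 0x10000000280000002800000008000000000000000000000000 0x40000000780000003c0000002f0000007c000000740000007400000054 5 7) 0 0 (step_sound _ 101 [(rh13e194725e09c75f.shift 2 0), (rh164510e3b7baa136.shift 0 2), (rh641084bb64cf8acf.shift 4 0), (rh94a686022a09d363.shift 2 2)] (by decide +kernel))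
noncomputable def rh818f152a9176359c : CRef := CRef.mk (Pat.mk 0x4000000080000000a00000002000000000000000000000000 0x4000000040000000c0000000c0000000b0000001e0000001c0000001c00000014 5 5) 0 0 (step_sound _ 99 [(rh114f4abf4ea101c9.shift 2 2), (rh641084bb64cf8acf.shift 2 0), (rh843696907668fbcf.shift 0 2)] (by decide +kernel))
noncomputable def rh1a83e0c648dae7ce : CRef := CRef.mk (Pat.mk 0x400000002000000020000000200000000 0x1000000070000000700000002000000030000000300000001 5 3) 0 0 (step_sound _ 129 [(rh2f68792b6b779e96.shift 1 1), rh565a0c22519f57e9] (by decide +kernel))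
noncomputable def rh56d58d1a7a5daae0 : CRef := CRef.mk (Pat.mk 0x20000000e0000000a000000000000000000000000 0x40000000e0000007e0000001f0000000a0000001c0000001c00000014 5 7) 0 0 (step_sound _ 163 [(rh7732c4d7e7206c1d.shift 1 0), (rha11dfd15f08f96e3.shift 0 4)] (by decide +kernel))
noncomputable def rh7077269e4a84c22a : CRef := CRef.mk (Pat.mk 0x20000000a0000000a000000020000000000000000 0x40000003e0000001e0000001b0000000b0000001e0000001e00000014 5 6) 0 0 (step_sound _ 163 [(rh1d991cfd4e134774.shift 0 2), (rh5f9368802ad142aa.shift 1 1), rhd6e5a9ce6b93fae8] (by decide +kernel))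
noncomputable def rhb54b82c12f7629a6 : CRef := CRef.mk (Pat.mk 0x2000000020000000200000002000000000000000000000000 0x200000002000000060000000600000006000000070000000700000007 5 3) 0 0 (step_sound _ 65 [rh066599b5fd8ad27d, rh8cdd36b03d57a2f6, (rhd29a1fb688eae70f.shift 1 1)] (by decide +kernel))
noncomputable def rhc8576895ac2c4303 : CRef := CRef.mk (Pat.mk 0x140000001c00000008000000000000000000000000 0x1c0000007c0000007f000000370000003600000016 5 7) 0 0 (step_sound _ 98 [rh1e97d2214162b404, (rh4dc133ee0ba1420a.shift 0 3), (rh84b6691cd8651792.shift 1 0)] (by decide +kernel))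
noncomputable def rh064294976d75ab1c : CRef := CRef.mk (Pat.mk 0x40000001c00000008000000000000000000000000 0x4000000040000000c0000007c0000007f000000060000000600000006 5 7) 0 0 (step_sound _ 98 [(rh3af54b5f78790764.shift 0 2), (rh4dc133ee0ba1420a.shift 0 3), (rh84b6691cd8651792.shift 1 0)] (by decide +kernel))
noncomputable def rh30624223b17d0632 : CRef := CRef.mk (Pat.mk 0x200000002800000068000000000000000000000000 0x140000003c0000007c0000002f000000680000003c0000001c00000014 5 7) 0 0 (step_sound _ 163 [(rh5d8b3f773a050a7a.shift 0 2), (rh6f4bfd08ec0e6e10.shift 2 0), (rha2ead9223fc6d248.shift 2 0), (rhe27f3a99d34d0525.shift 3 2)] (by decide +kernel))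
noncomputable def rh19f09df0e806ca66 : CRef := CRef.mk (Pat.mk 0x200000002800000068000000000000000000000000 0x140000005c0000007c0000002f000000680000007c0000007c00000054 5 7) 0 0 (step_sound _ 163 [(rh08ff1a9078a560c4.shift 2 0), (rh349d1013248e817b.shift 0 2), (rh6f4bfd08ec0e6e10.shift 2 0), (rha2ead9223fc6d248.shift 2 0), (rhcc7c28e4c9a2f586.shift 2 1)] (by decide +kernel))
noncomputable def rh54a3cb6d4bbcf7e3 : CRef := CRef.mk (Pat.mk 0xc000000080000000800000000 0x140000001c0000003c0000000f0000000c0000000c00000004 5 6) 0 0 (step_sound _ 131 [(rh20966da26a1c2ae8.shift 2 0), (rh20ee5c2c4c3a9878.shift 0 1), (rh565a0c22519f57e9.shift 2 0)] (by decide +kernel))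
noncomputable def rhf9494122540ecc82 : CRef := CRef.mk (Pat.mk 0x200000002000000020000000200000000 0x1000000070000000700000002000000030000000300000001 5 3) 0 0 (step_sound _ 32 [rh932754581e0f4330, (rhd544065fa370d9f2.shift 0 1)] (by decide +kernel))
noncomputable def rh3abcd135061e8f33 : CRef := CRef.mk (Pat.mk 0x40000000400000014000000000000000000000000 0x200000006000000060000003c0000000f0000000e0000000a 5 6) 0 0 (step_sound _ 66 [(rh3181373a30ceb9e3.shift 1 0), (rh6aa5625770489e83.shift 1 0), (rh9235486165d5c3a8.shift 0 1), (rhcae87bda2c3c01d2.shift 1 0)] (by decide +kernel))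
noncomputable def rh5df63ea7800b1e33 : CRef := CRef.mk (Pat.mk 0x80000000800000028000000280000000000000000 0x40000006f0000007c0000002c00000078000000f000000010 5 8) 0 0 (step_sound _ 133 [(rh7430a052bcb4bacd.shift 0 2), (rh9811135352b05f37.shift 2 1), (rhcb7e86a5e81c54a5.shift 2 0)] (by decide +kernel))
noncomputable def rh47abcd311ee680a4 : CRef := CRef.mk (Pat.mk 0x2000000020000000a0000000a0000000000000000 0x40000001f0000003e0000000b0000001e0000003c00000004 5 6) 0 0 (step_sound _ 131 [(rh9247ff4e03de9d0a.shift 0 1), (rh9811135352b05f37.shift 0 1), (rh98b5e869a127ef67.shift 1 0), rhcb7e86a5e81c54a5] (by decide +kernel))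
noncomputable def rhdc10509d6bd8db87 : CRef := CRef.mk (Pat.mk 0x200000002000000020000000a00000000 0x100000007000000070000000600000003000000030000001e00000004 5 5) 0 0 (step_sound _ 34 [(rh28f824af16ab12c7.shift 0 1), (rh55afc6a59410cf00.shift 1 0)] (by decide +kernel))
noncomputable def rh3eb865f5bd2ec544 : CRef := CRef.mk (Pat.mk 0x200000002000000020000000a00000000 0x400000007000000070000000300000003000000030000001e00000004 5 5) 0 0 (step_sound _ 34 [(rh557279e14160d975.shift 0 1), (rh55afc6a59410cf00.shift 1 0)] (by decide +kernel))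
noncomputable def rh968da411be743cad : CRef := CRef.mk (Pat.mk 0x80000000a0000000800000000 0x140000001c0000001c000000080000001f0000007800000010 5 7) 0 0 (step_sound _ 131 [(rh29dd5384d80ecb1e.shift 2 0), (rh7ef5fa5c39f1c762.shift 2 1), rhc486ae0fcc44be52] (by decide +kernel))
noncomputable def rh88da100a432618b3 : CRef := CRef.mk (Pat.mk 0x20000000300000002000000000000000000000000 0x100000003000000030000000300000003000000070000000700000005 5 3) 0 0 (step_sound _ 65 [(rh565a0c22519f57e9.shift 0 1), rh8cdd36b03d57a2f6, (rhe286c75f2739cce2.shift 0 1)] (by decide +kernel))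
noncomputable def rhb51a3de674c9d31e : CRef := CRef.mk (Pat.mk 0x80000000c00000009000000000000000000000000 0x40000000c0000000c0000000f0000001e0000001c00000014 5 5) 0 0 (step_sound _ 67 [(rh8cdd36b03d57a2f6.shift 2 0), (rhe286c75f2739cce2.shift 2 1), (rhfcde4125e83054cb.shift 0 1)] (by decide +kernel))
noncomputable def rhab752694ba6afb92 : CRef := CRef.mk (Pat.mk 0x120000001e000000100000000000000000 0x120000003b0000001e0000001e0000001c0000001c00000010 5 6) 0 0 (step_sound _ 131 [(rh3cb04db3dd2b6a55.shift 3 0), (rh6db88f78dfee7e03.shift 0 1)] (by decide +kernel))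
noncomputable def rh2b67c1a1a0e1efba : CRef := CRef.mk (Pat.mk 0x40000000600000002000000000000000000000000 0xc0000000c0000000e000000070000003e0000000c0000000400000004 5 6) 0 0 (step_sound _ 194 [rh4d749f6df2bdc6ad, (rh5c5e593799055d58.shift 1 3)] (by decide +kernel))
noncomputable def rhd72a5b150c8b03c9 : CRef := CRef.mk (Pat.mk 0x600000006000000020000000200000000 0x200000003000000030000000700000006000000060000000600000004 5 3) 0 0 (step_sound _ 2 [(rh933f3ac7d57d09d8.shift 0 1), (rhd3458b32566d63f7.shift 1 0)] (by decide +kernel))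
noncomputable def rhc9a8c524b5efcba1 : CRef := CRef.mk (Pat.mk 0x1800000018000000080000000800000000 0x80000001800000018000000380000001f00000014 5 6) 0 0 (step_sound _ 34 [(rh932754581e0f4330.shift 2 0), rhe418daf8de52e604] (by decide +kernel))
noncomputable def rha28b1ce8ec9cd72a : CRef := CRef.mk (Pat.mk 0xc000000180000000800000008 0xf0000000ff0000001f0000000800000008 5 8) 0 0 (step_sound _ 100 [(rh2f68792b6b779e96.shift 3 0), (rhf2c3983630ce55c5.shift 0 2)] (by decide +kernel))
noncomputable def rh2da17dbb088e7746 : CRef := CRef.mk (Pat.mk 0x800000058000000080000001800000000 0x4800000058000001ff000000ff000001e4 5 9) 0 0 (step_sound _ 37 [rh0956114827151fc1, (rh1aae126fdb0efa1d.shift 2 0), rh7ce307151020a294, (rhf094991f52b781e5.shift 2 0), (rhfa8c7f01b0685da6.shift 1 0)] (by decide +kernel))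
noncomputable def rh9b45786b9da7cdb6 : CRef := CRef.mk (Pat.mk 0x800000018000000080000000800000000 0x1000000018000000180000003c000000ff00000034 5 8) 0 0 (step_sound _ 36 [(rh55afc6a59410cf00.shift 3 0), rhf7a8a7928680e5ad] (by decide +kernel))
noncomputable def rh270456d76d3aaf8f : CRef := CRef.mk (Pat.mk 0x400000006000000060000000400000000 0x4000000070000003e0000003f0000000a 5 6) 0 0 (step_sound _ 33 [(rh71222050f2c63a3a.shift 1 0), rh96d177a9882c6787] (by decide +kernel))
noncomputable def rhe1cd74cc13b9d3fa : CRef := CRef.mk (Pat.mk 0xc0000001e000000000000000000000000 0xa0000000f0000001e000000070000000600000006 5 5) 0 0 (step_sound _ 65 [(rheb0810cc63b001d8.shift 0 2), rhef48121b77c6528b] (by decide +kernel))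
noncomputable def rhd8f429786e6ff0e8 : CRef := CRef.mk (Pat.mk 0x40000000600000006000000000000000000000000 0x400000006000000070000003e0000000e0000000e 5 6) 0 0 (step_sound _ 66 [(rh820d4e04d5dcd02e.shift 1 0), (rhbdf73b26f73f8159.shift 1 0), (rhcd4e30cc39602f0f.shift 0 1)] (by decide +kernel))
noncomputable def rhd77a2562cd16a2fc : CRef := CRef.mk (Pat.mk 0x60000000e000000000000000000000000 0x30000000300000003000000060000003e000000070000000700000006 5 6) 0 0 (step_sound _ 161 [rh2cf28d5ae7153859, (rh55a1f6c57a317ce6.shift 1 1), (rh7fea1cd4dd592f36.shift 0 2)] (by decide +kernel))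
noncomputable def rh30b12604329aefc7 : CRef := CRef.mk (Pat.mk 0x1800000038000000000000000000000000 0x10000000100000001f0000003f000001f00000002000000020 5 9) 0 0 (step_sound _ 129 [rh6765b4e0435a0cf6, (rhab22b5b56e7b3243.shift 1 3)] (by decide +kernel))
noncomputable def rh4f74172d2dc96fd8 : CRef := CRef.mk (Pat.mk 0x100000001800000018000000000000000000000000 0x100000001c000000ff000000770000002000000020 5 8) 0 0 (step_sound _ 101 [rh1035255a6236d9b8, (rh79b3c29022acbdf3.shift 2 3)] (by decide +kernel))
noncomputable def rhc62fc4a345b42249 : CRef := CRef.mk (Pat.mk 0x800000018000000180000001000000000 0x80000001e000000ff000000f700000004 5 8) 0 0 (step_sound _ 69 [(rh1667afd8536871df.shift 0 1), (rh79b3c29022acbdf3.shift 2 2), (rha56575060dea98c8.shift 1 0)] (by decide +kernel))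
noncomputable def rh75400330e1ad6077 : CRef := CRef.mk (Pat.mk 0x20000000200000006000000020000000000000000 0x400000006000000060000000200000006000000070000000300000001 5 3) 0 0 (step_sound _ 32 [(rh79877ebd3ef475dd.shift 0 1), rhba6453b9bae976ec] (by decide +kernel))
noncomputable def rhf31452fd6f840697 : CRef := CRef.mk (Pat.mk 0x180000001c000000000000000000000000 0x1800000018000000380000001f0000007c000000160000000400000004 5 7) 0 0 (step_sound _ 130 [(rh79b3c29022acbdf3.shift 1 3), (rh80cd780d41226bcb.shift 0 2), (rh92e8f86a47ca4f2b.shift 1 0)] (by decide +kernel))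
noncomputable def rh375e854711fbb968 : CRef := CRef.mk (Pat.mk 0xc0000000c0000000800000000 0x1c0000001c0000003c0000000f0000000c0000001800000010 5 6) 0 0 (step_sound _ 131 [(rh20ee5c2c4c3a9878.shift 0 1), (rh3e03b24069e6320e.shift 2 0), (rhe97098a026a3bff4.shift 2 0)] (by decide +kernel))
noncomputable def rhafe37d5adc3b334b : CRef := CRef.mk (Pat.mk 0x300000003000000020000000000000000 0x600000006000000060000000300000003000000060000000600000006 5 3) 0 0 (step_sound _ 33 [rh7b1f1fb55310c477, rha43eb3efb4cca69e] (by decide +kernel))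
noncomputable def rhff00a37c088eb8b8 : CRef := CRef.mk (Pat.mk 0x1800000038000000000000000000000000 0x80000001f0000003f000000070000000400000004 5 6) 0 0 (step_sound _ 98 [(rh0e1512cbacfbd48b.shift 0 2), (rh4f129d8f37c2c70a.shift 1 0), (rhcda410b351c20b9b.shift 0 3)] (by decide +kernel))
noncomputable def rh76ada1f435681e68 : CRef := CRef.mk (Pat.mk 0xc0000000c00000008000000000000000000000000 0xc0000000c0000000c0000000c0000001f00000078000000100000001000000010 5 7) 0 0 (step_sound _ 226 [(rh6f1cbe15c631ee70.shift 2 3), rhe7b9e29060a626da] (by decide +kernel))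
noncomputable def rhd2a574e1de43a9dd : CRef := CRef.mk (Pat.mk 0xc0000000c000000080000000000000000 0x80000000c0000001f000000780000001800000018 5 7) 0 0 (step_sound _ 35 [rh0a663cc7e49c4be9, (rh7b1f1fb55310c477.shift 2 0)] (by decide +kernel))
noncomputable def rha41d429ce4a0acfc : CRef := CRef.mk (Pat.mk 0x600000006000000000000000000000000 0x6000000070000003f0000003c0000000c0000000c 5 6) 0 0 (step_sound _ 66 [(rh3cb04db3dd2b6a55.shift 1 0), rhb99a491b9a372cca] (by decide +kernel))
noncomputable def rhb8e884e4f9e6ab04 : CRef := CRef.mk (Pat.mk 0x40000000c000000040000000c 0x3a0000003e0000000f0000000c0000000c 5 6) 0 0 (step_sound _ 97 [rh007120adcd852062, (rh50fbb5868c909700.shift 1 0)] (by decide +kernel))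
noncomputable def rhf9b7d1c72024a10a : CRef := CRef.mk (Pat.mk 0x18000000180000000800000008 0x80000000c0000000c0000003c0000001f0000000c00000008 5 6) 0 0 (step_sound _ 130 [(rh2e18376c5973c8ab.shift 0 1), (rhffd04209dc8ea796.shift 2 0)] (by decide +kernel))
noncomputable def rhf64b95b851ba719b : CRef := CRef.mk (Pat.mk 0xc0000000c000000040000000400000000 0x320000003e0000000f0000000c0000000c00000008 5 6) 0 0 (step_sound _ 35 [(rh55afc6a59410cf00.shift 2 0), (rha0ae7fdea48043dc.shift 0 1)] (by decide +kernel))
noncomputable def rh46ba074702fe2b03 : CRef := CRef.mk (Pat.mk 0x80000000800000018000000000000000000000000 0x8000000080000000e0000007e000000f70000000400000004 5 8) 0 0 (step_sound _ 98 [(rh9bbeab39414f51f0.shift 0 2), (rhd5979d9ced4acd89.shift 1 2), (rhde10baa3043a2b46.shift 2 2), (rhfafeb437ceb8396d.shift 2 0)] (by decide +kernel))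
noncomputable def rh05f2b8e5ed672507 : CRef := CRef.mk (Pat.mk 0x1000000058000000080000001800000000 0x5000000058000000df0000007c000001f0 5 9) 0 0 (step_sound _ 37 [(rh84d6414620c8cc4f.shift 2 0), (rhe9937ce8bcea713a.shift 2 0), (rhfd99604093c09fe0.shift 0 1)] (by decide +kernel))
noncomputable def rhe470cb632b6fd33f : CRef := CRef.mk (Pat.mk 0x80000000c000000040000000c00000000 0x100000007c0000000f0000000e0000007c00000010 5 7) 0 0 (step_sound _ 67 [(rh0f88566f1a09c677.shift 0 1), (rh36d4d92ef3dad5f8.shift 1 0)] (by decide +kernel))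
noncomputable def rhcbc656813b97618d : CRef := CRef.mk (Pat.mk 0x1e00000008000000000000000000000000 0x2000000070000001e0000003f000000070000000600000002 5 6) 0 0 (step_sound _ 97 [rh5aed140c492706dd, (rheb0810cc63b001d8.shift 0 3)] (by decide +kernel))
noncomputable def rh830e25469542e51a : CRef := CRef.mk (Pat.mk 0x600000006000000020000000000000000 0x200000003000000030000000700000006000000060000000200000002 5 3) 0 0 (step_sound _ 33 [(rh71222050f2c63a3a.shift 1 0), (rh933f3ac7d57d09d8.shift 0 1)] (by decide +kernel))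
noncomputable def rhe091fe2805d11b7c : CRef := CRef.mk (Pat.mk 0x180000001c000000080000000000000000 0x4000000070000007f0000001c0000000c0000000c0000000c 5 7) 0 0 (step_sound _ 130 [(rh0f936b2c74e7b815.shift 1 2), (rh40241bd608e5be1a.shift 2 0), rhbcfeb8c1664fe113] (by decide +kernel))
noncomputable def rh42318ac00affc0c4 : CRef := CRef.mk (Pat.mk 0x180000000c0000000800000000 0xc0000000f0000007c0000000c0000000c00000004 5 7) 0 0 (step_sound _ 131 [(rh03dfdf12d5937476.shift 2 0), (rh15c5b67713fe7920.shift 0 1)] (by decide +kernel))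
noncomputable def rha686ff21d9572f9e : CRef := CRef.mk (Pat.mk 0xc0000000c000000040000000400000000 0x320000003e0000000f0000000c0000000c00000008 5 6) 0 0 (step_sound _ 129 [rh492f9b65681ee3d3, (rh50fbb5868c909700.shift 1 1)] (by decide +kernel))
noncomputable def rh7616a56158d144bf : CRef := CRef.mk (Pat.mk 0x18000000180000000800000008 0xc000000ff0000001f0000000800000008 5 8) 0 0 (step_sound _ 101 [rh27969391d059ac76, (rh4bb890e0ba8c5a6b.shift 2 0), (rh4dc133ee0ba1420a.shift 1 2)] (by decide +kernel))
noncomputable def rhcb5b9f48a2219b5b : CRef := CRef.mk (Pat.mk 0x600000006000000020000000200000000 0x200000003000000030000000700000006000000060000000300000001 5 3) 0 0 (step_sound _ 0 [rh79877ebd3ef475dd, (rh933f3ac7d57d09d8.shift 0 1)] (by decide +kernel))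
noncomputable def rh47d11d87cdd3fa9f : CRef := CRef.mk (Pat.mk 0x600000006000000020000000200000000 0x1000000030000000700000006000000060000000700000005 5 3) 0 0 (step_sound _ 0 [rh79877ebd3ef475dd, rhbde193c2d1f6a1f9] (by decide +kernel))
noncomputable def rh45827a7148f70086 : CRef := CRef.mk (Pat.mk 0x800000018000000080000000c00000000 0x160000003f0000001f0000000e0000007c00000010 5 7) 0 0 (step_sound _ 66 [(rh160f31942be1aa6d.shift 0 1), (rh36d4d92ef3dad5f8.shift 1 0)] (by decide +kernel))
noncomputable def rh0119243fb9485312 : CRef := CRef.mk (Pat.mk 0x1e00000018000000080000000000000000 0x100000001b0000001e0000001c000000f80000003000000010 5 8) 0 0 (step_sound _ 160 [(rh0b5523572e849cbc.shift 2 0), (rh3f8766e6ecb455ce.shift 0 4)] (by decide +kernel))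
noncomputable def rh81a41ea69e635b09 : CRef := CRef.mk (Pat.mk 0x1e000000000000000000000000 0x10000000380000001f000000180000000800000008 5 6) 0 0 (step_sound _ 132 [rh26867cd58eaba758, (rh33e738c4ed385b9f.shift 1 3)] (by decide +kernel))
noncomputable def rh1971f672aa6c5663 : CRef := CRef.mk (Pat.mk 0x1e000000000000000000000000 0x8000000180000001f000000380000001000000010 5 6) 0 0 (step_sound _ 68 [rhd2ce3c0b56044e7f, (rhe25b0a99195a5d59.shift 1 2)] (by decide +kernel))
noncomputable def rh31c9b5d27f8466b9 : CRef := CRef.mk (Pat.mk 0x3800000040 0x770000003e00000060 5 7) 0 0 (step_sound _ 34 [(rh61325f73ebf98108.shift 0 1), (rh96851dee118c1ba3.shift 2 0)] (by decide +kernel))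
noncomputable def rh6659910ff6ab1d98 : CRef := CRef.mk (Pat.mk 0x80000001e000000140000000000000000 0x2000000020000000b0000001e000000160000001400000014 5 5) 0 0 (step_sound _ 4 [rh47a3fd1a15766578, (rh9e07f76261b05888.shift 3 0)] (by decide +kernel))
noncomputable def rhfb96b64500851c99 : CRef := CRef.mk (Pat.mk 0x40000000f000000020 0x7c000000fe00000037 5 8) 0 0 (step_sound _ 35 [rh125d4eaf14c79638, (rhd5eb272e07a4e288.shift 2 1)] (by decide +kernel))
noncomputable def rhe60ae3abb9a3467b : CRef := CRef.mk (Pat.mk 0x80000001e000000140000000000000000 0x2000000020000000f0000001e000000140000001400000014 5 5) 0 0 (step_sound _ 4 [(rh9e07f76261b05888.shift 3 0), rhbfbe9dd950c1b510] (by decide +kernel))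
noncomputable def rhf322e3481c01842e : CRef := CRef.mk (Pat.mk 0x2000000078000000400000000000000000 0x770000007e000000400000004000000040 5 7) 0 0 (step_sound _ 6 [(rh3e0b38310ac09007.shift 0 3), (rh9e07f76261b05888.shift 5 0)] (by decide +kernel))
noncomputable def rh0d4e08d404fac75a : CRef := CRef.mk (Pat.mk 0x40000000f000000000 0x67000000fe0000003f 5 8) 0 0 (step_sound _ 35 [rh30473dc56de15b6b, rhc57657ad4f4a31a6, (rheae1728ff4a56756.shift 2 0)] (by decide +kernel))
noncomputable def rh9187755d978ec37b : CRef := CRef.mk (Pat.mk 0x2000000060000001200000000000000000000000000000000 0x5000000070000000700000002000000060000001e00000007000000070000000700000004 5 5) 0 0 (step_sound _ 97 [rh218cd2e070c414fb, (rh3d02c07d3f35972b.shift 0 2), (rh8cdd36b03d57a2f6.shift 0 1), (rhc2ec0d612c2e04db.shift 0 2)] (by decide +kernel))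
noncomputable def rh04e56cd0f82e58e9 : CRef := CRef.mk (Pat.mk 0x1800000012000000020000000000000000 0x1800000018000000180000001e0000003f0000003c00000018 5 6) 0 0 (step_sound _ 99 [rh070e4356f7cc8a1a, rha4d87ea3a5548f50, rhbdd2b72cf64f00f5, (rhe39d0df8eefd0083.shift 1 0)] (by decide +kernel))
noncomputable def rh02cfe0eb8b6cb52e : CRef := CRef.mk (Pat.mk 0x1c00000012000000020000000000000000 0x180000001c0000001c0000001e0000003f0000003c00000018 5 6) 0 0 (step_sound _ 99 [rh070e4356f7cc8a1a, (rha14065e084a0308e.shift 1 0), rha4d87ea3a5548f50, rhbdd2b72cf64f00f5] (by decide +kernel))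
noncomputable def rh3c88a1ca6cb21e54 : CRef := CRef.mk (Pat.mk 0x1e0000001000000018000000000000000000000000 0x200000002000000170000001e000000160000007c000000ee0000000800000008 5 8) 0 0 (step_sound _ 98 [(rh55d33d94a16d4872.shift 1 2), (rh59377470057f4368.shift 0 2), (rhc565705de530abef.shift 0 2), (rhcb3702bd3ab6deea.shift 2 0)] (by decide +kernel))
noncomputable def rhbccf8045da50f23d : CRef := CRef.mk (Pat.mk 0x1e00000010000000180000000000000000 0x200000002000000070000001e0000001e0000007c0000000c00000008 5 7) 0 0 (step_sound _ 161 [(rh3244c3cc8379b070.shift 0 4), (rhd8b58c4237ac84a8.shift 1 0)] (by decide +kernel))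
noncomputable def rh50be0e7efbc698e2 : CRef := CRef.mk (Pat.mk 0x1e000000100000001800000000 0xa0000000a0000001f0000001e0000001e000000fc00000066 5 8) 0 0 (step_sound _ 34 [rh59377470057f4368, (rh6a32123fc974cd4f.shift 1 0), rhc565705de530abef, (rhf6d6166b63dad2f7.shift 2 0)] (by decide +kernel))
noncomputable def rhf770a1ddfcf5c7ee : CRef := CRef.mk (Pat.mk 0x30000000200000002000000000000000000000000 0x2000000030000000300000007000000070000000700000005 5 3) 0 0 (step_sound _ 65 [rh1f3a6ba70a310ab1, rha613ffd40b6c9d24, (rhc9ac229b3c77cd55.shift 0 1)] (by decide +kernel))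
noncomputable def rh3e5f8e21a521f7e9 : CRef := CRef.mk (Pat.mk 0x400000003800000000 0x600000003e00000077 5 7) 0 0 (step_sound _ 34 [rh008b05f4778dc30d, (rh428265de8cd3cd2d.shift 2 1)] (by decide +kernel))
noncomputable def rh55a94fde4830e12e : CRef := CRef.mk (Pat.mk 0x20000001e000000120000000000000000 0x20000000b0000000f0000001e0000001e0000001e0000001200000012 5 5) 0 0 (step_sound _ 130 [rh0f30d45dabfb2bc0, (rhea7a1800d6f053bd.shift 1 0)] (by decide +kernel))
noncomputable def rh9573539cdeea4765 : CRef := CRef.mk (Pat.mk 0x20000001e00000012000000000000000000000000 0xa0000000a0000001e0000001e0000001e0000003f0000001700000012 5 6) 0 0 (step_sound _ 98 [rh296bb5e2f0a5b11e, (rh55a1f6c57a317ce6.shift 1 1), (rh61de1d04c1f3e086.shift 1 0)] (by decide +kernel))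
noncomputable def rhb843f35fc6e51d22 : CRef := CRef.mk (Pat.mk 0x10000000f00000003000000000000000000000000 0x4000000040000000d0000000f0000001f0000001e0000000a00000008 5 5) 0 0 (step_sound _ 99 [rh61de1d04c1f3e086, (rhe25b0a99195a5d59.shift 0 3)] (by decide +kernel))
noncomputable def rh4ed43ab66a32d86b : CRef := CRef.mk (Pat.mk 0x10000000f00000003000000000000000000000000 0x3000000030000000f0000000f0000001f0000001c0000000c0000000c 5 5) 0 0 (step_sound _ 98 [rhaf75a02a061d2a76, rhcada65aa1761b6fb] (by decide +kernel))
noncomputable def rh55d726e3c1c0ab46 : CRef := CRef.mk (Pat.mk 0x80000000c000000180000000800000000 0x140000003c0000000f000000180000001800000010 5 6) 0 0 (step_sound _ 4 [(rh66aaae7f6c35085c.shift 0 1), (rhd3458b32566d63f7.shift 3 0)] (by decide +kernel))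
noncomputable def rh9125e60af3c3566b : CRef := CRef.mk (Pat.mk 0x80000000c0000001800000008 0x140000001c0000001c0000000f0000001800000008 5 5) 0 0 (step_sound _ 64 [(rhab22b5b56e7b3243.shift 0 1), (rhc85cc95794737cf7.shift 2 0)] (by decide +kernel))
noncomputable def rh0128f12cac02c611 : CRef := CRef.mk (Pat.mk 0x5c00000000 0x7e0000007e00000007 5 7) 0 0 (step_sound _ 37 [rh7654d7b92c96fe12, (rhd5eb272e07a4e288.shift 1 1)] (by decide +kernel))
noncomputable def rh0b1be9f149f46cdc : CRef := CRef.mk (Pat.mk 0x5c00000000 0x700000007e000000e7 5 8) 0 0 (step_sound _ 37 [(rh4ad5fc38f1b69f65.shift 2 0), rh7654d7b92c96fe12] (by decide +kernel))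
noncomputable def rhdf9c8fa0b4790c43 : CRef := CRef.mk (Pat.mk 0x5c00000000 0x70000007e000000e7 5 8) 0 0 (step_sound _ 37 [(rh4ad5fc38f1b69f65.shift 2 0), rh775ca1963e850b80] (by decide +kernel))
noncomputable def rh07fc106a6edf0c0a : CRef := CRef.mk (Pat.mk 0x1e00000000 0x700000003e00000073 5 7) 0 0 (step_sound _ 0 [(rh3fc3a7fb6866dcd4.shift 1 0), rh80fcd6d0a18cb2dd] (by decide +kernel))
noncomputable def rh7c1bdb80a3fb96e2 : CRef := CRef.mk (Pat.mk 0x80000000c0000000c000000000000000000000000 0x140000003c0000000f0000000c0000000c0000000c0000000c 5 6) 0 0 (step_sound _ 67 [(rh20ee5c2c4c3a9878.shift 0 2), (rh3cb04db3dd2b6a55.shift 2 0), (rhbdf73b26f73f8159.shift 2 0)] (by decide +kernel))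
noncomputable def rhc703a6c0e139af3e : CRef := CRef.mk (Pat.mk 0x6000000060000000400000000 0x6000000060000000600000006000000070000003e0000000a 5 6) 0 0 (step_sound _ 130 [(rh1e309b005ffa1b36.shift 1 0), rhcd4e30cc39602f0f, (rhe97098a026a3bff4.shift 1 0)] (by decide +kernel))
noncomputable def rha36710fe0a7398ca : CRef := CRef.mk (Pat.mk 0x1a00000038000000000000000000000000 0x8000000080000001b0000003f0000000e0000000400000004 5 6) 0 0 (step_sound _ 98 [(rh3423e5ac208fb65b.shift 1 0), (rh5c36e97be8af272f.shift 0 3)] (by decide +kernel))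
noncomputable def rh9d1c3304f402138e : CRef := CRef.mk (Pat.mk 0x10000000180000001800000008 0x80000000c0000003f0000001f0000003800000018 5 6) 0 0 (step_sound _ 99 [rh6687bfcaaf8111f3, (rhfc7c29d8e65d775f.shift 3 0)] (by decide +kernel))
noncomputable def rh441b81ce688f6450 : CRef := CRef.mk (Pat.mk 0x80000000c0000000c0000000400000000 0x140000003c0000000f0000003e0000007c00000010 5 7) 0 0 (step_sound _ 97 [(rh6292bd8784ece55f.shift 0 2), (rh7a9666c0375a5d9b.shift 1 0)] (by decide +kernel))
noncomputable def rhf2d75c0e8e62038c : CRef := CRef.mk (Pat.mk 0x18000000180000000800000000 0xc0000000c0000000c0000001c000000fc0000000f00000004 5 8) 0 0 (step_sound _ 69 [rh702f3f1d58e81308, (rh79b3c29022acbdf3.shift 2 2)] (by decide +kernel))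
noncomputable def rhca9febac227b7e92 : CRef := CRef.mk (Pat.mk 0x80000000c0000000c0000000400000000 0x4000000360000003e0000000f0000000e0000000e00000002 5 6) 0 0 (step_sound _ 130 [(rh3fe0ee7c7bc71c57.shift 0 1), (rhbd1553ade3ecbf42.shift 1 0), (rhfc7c29d8e65d775f.shift 2 1)] (by decide +kernel))
noncomputable def rh19f2f681cd245645 : CRef := CRef.mk (Pat.mk 0x100000005800000018000000080000000000000000 0x1000000058000000ff000000ff0000002000000020 5 8) 0 0 (step_sound _ 101 [rh1035255a6236d9b8, (rh78a1e5dbf4d41d6e.shift 2 0), (rha9e1a5d55b907abf.shift 2 2)] (by decide +kernel))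
noncomputable def rh196f385e5341ff1b : CRef := CRef.mk (Pat.mk 0x3c0000001000000010 0x2000000020000000700000003e0000001700000010 5 7) 0 0 (step_sound _ 33 [rh78bfe224667cade6, (rh80fcd6d0a18cb2dd.shift 1 1)] (by decide +kernel))
noncomputable def rhe923cdd51c3dccd8 : CRef := CRef.mk (Pat.mk 0x80000001c000000080000000800000000 0xe0000000f0000001c0000000c0000000c00000004 5 5) 0 0 (step_sound _ 34 [(rh932754581e0f4330.shift 2 0), (rhd146bcd74edbf400.shift 0 1)] (by decide +kernel))
noncomputable def rh3ef0442e17deb1ad : CRef := CRef.mk (Pat.mk 0x80000001c000000080000000800000000 0x170000001f0000001c0000000c0000000c00000004 5 5) 0 0 (step_sound _ 130 [(rh50fbb5868c909700.shift 2 1), rheeb7d772e3f539a4] (by decide +kernel))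
noncomputable def rh9d8f1a558a05bf73 : CRef := CRef.mk (Pat.mk 0x2000000070000000200000002 0x60000000700000007000000070000000700000002 5 3) 0 0 (step_sound _ 96 [rh39e6d1b68049e362, rh50fbb5868c909700] (by decide +kernel))
noncomputable def rh2fa564b32b3c078f : CRef := CRef.mk (Pat.mk 0x200000007000000020000000200000000 0x3000000030000000300000007000000070000000300000001 5 3) 0 0 (step_sound _ 0 [(rh1b49a77e883412ed.shift 0 1), rh79877ebd3ef475dd] (by decide +kernel))
noncomputable def rh2f767d906d07892b : CRef := CRef.mk (Pat.mk 0x200000007000000020000000200000000 0x6000000060000000600000007000000070000000300000001 5 3) 0 0 (step_sound _ 0 [(rh39e6d1b68049e362.shift 0 1), rh79877ebd3ef475dd] (by decide +kernel))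
noncomputable def rh56928d1b8674ed26 : CRef := CRef.mk (Pat.mk 0x20000000300000003000000000000000000000000 0x600000006000000060000000300000003000000060000000600000006 5 3) 0 0 (step_sound _ 193 [(rh5c5e593799055d58.shift 0 3), rh87289cd8b0c00f9e] (by decide +kernel))
noncomputable def rh41167a0af4298ccc : CRef := CRef.mk (Pat.mk 0x400000007c000000000000000000000000 0x470000007e000000700000002000000020 5 7) 0 0 (step_sound _ 69 [rh53b1449e32f872d4, (rhe25b0a99195a5d59.shift 2 2)] (by decide +kernel))
noncomputable def rhe5e0e80426b689b9 : CRef := CRef.mk (Pat.mk 0x3800000004 0x70000003e00000076 5 7) 0 0 (step_sound _ 34 [rh0d378fd9e8917c5a, (rheb0810cc63b001d8.shift 1 0)] (by decide +kernel))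
noncomputable def rh5699e2261b666753 : CRef := CRef.mk (Pat.mk 0x20000000f000000040 0x37000000fe0000007f 5 8) 0 0 (step_sound _ 35 [rh3b2b05f77630fe70, rha1e5862de6645f69, (rheae1728ff4a56756.shift 2 0)] (by decide +kernel))
noncomputable def rhbdb7f022733e1f8d : CRef := CRef.mk (Pat.mk 0x140000001e000000080000000000000000 0x400000004000000160000001e0000000b0000000a0000000a 5 5) 0 0 (step_sound _ 3 [rh50db0e2fb5908894, (rh9e3edb185cc347de.shift 3 0)] (by decide +kernel))
noncomputable def rh07cd6e35c8558e6a : CRef := CRef.mk (Pat.mk 0xf000000040 0x3f000000fe00000067 5 8) 0 0 (step_sound _ 35 [rh3f8463b1b243085b, rh7c385ddcf2f16619, (rhd5eb272e07a4e288.shift 2 1)] (by decide +kernel))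
noncomputable def rhbc11a3baf4586684 : CRef := CRef.mk (Pat.mk 0x40000003800000000 0x60000003e00000077 5 7) 0 0 (step_sound _ 34 [rh008b05f4778dc30d, (rh3244c3cc8379b070.shift 1 1)] (by decide +kernel))
noncomputable def rh9044cbc003153871 : CRef := CRef.mk (Pat.mk 0x120000000600000002000000000000000000000000 0x40000000700000007000000070000001e0000000600000002000000070000000700000005 5 5) 0 0 (step_sound _ 193 [rh0317dc778457b218, (rh1db71118bee297d0.shift 0 3), (rh439d04a0aade1de0.shift 0 1), (rhc85cc95794737cf7.shift 0 3)] (by decide +kernel))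
noncomputable def rh3d592dd16c5ad541 : CRef := CRef.mk (Pat.mk 0x780000000800000018000000000000000000000000 0x4000000040000000e800000078000000680000003e000000770000001000000010 5 8) 0 0 (step_sound _ 101 [(rh3c22d4328262c4b1.shift 2 2), (rh49169c227bd3b85b.shift 1 2), (rh73770d9950ef0c9f.shift 3 0), (rhf2dc415bde563b36.shift 0 2)] (by decide +kernel))
noncomputable def rh99500c2866f1c8d6 : CRef := CRef.mk (Pat.mk 0x3c000000040000000c0000000000000000 0x20000000700000003c0000003c0000001f0000001800000008 5 7) 0 0 (step_sound _ 165 [(rh33e738c4ed385b9f.shift 2 4), rh9e01df2f97002581] (by decide +kernel))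
noncomputable def rh45ea06df3a5c4087 : CRef := CRef.mk (Pat.mk 0x78000000080000001800000000 0x5000000050000000f800000078000000780000003f00000066 5 8) 0 0 (step_sound _ 37 [rh2ef7cde364c47e57, (rh373ef7ad455a3268.shift 3 0), (rh3c22d4328262c4b1.shift 2 0), (rh49169c227bd3b85b.shift 1 0), (rh84c0d86f81821536.shift 1 0)] (by decide +kernel))
noncomputable def rh19e8e224ad8f65bc : CRef := CRef.mk (Pat.mk 0x20000001200000018000000000000000000000000 0x3c0000003f0000001e00000018000000180000001800000018 5 6) 0 0 (step_sound _ 131 [(rh80377887b27585f8.shift 0 1), rha421730389e7a745, (rhacff866e75f47049.shift 1 0), (rhb126857f9a8e0fb6.shift 0 1)] (by decide +kernel))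
noncomputable def rh05f4deae9793c14e : CRef := CRef.mk (Pat.mk 0x2000000120000001c000000000000000000000000 0x180000003c0000003f0000001e0000001c0000001c0000001800000018 5 6) 0 0 (step_sound _ 131 [(rh80377887b27585f8.shift 0 1), (rh920ef05c1996cc46.shift 1 0), rha421730389e7a745, (rhb126857f9a8e0fb6.shift 0 1)] (by decide +kernel))
noncomputable def rh63d9ad613ec162da : CRef := CRef.mk (Pat.mk 0x120000001e00000002000000000000000000000000 0x10000000120000001e0000001e0000001e0000000f0000000f00000002 5 5) 0 0 (step_sound _ 98 [(rh55a1f6c57a317ce6.shift 1 1), rhe56c26b91606c0b7] (by decide +kernel))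
noncomputable def rh00bada3c4eecf833 : CRef := CRef.mk (Pat.mk 0x12000000060000000200000000 0x5000000070000000f0000001e000000060000000600000004 5 5) 0 0 (step_sound _ 129 [(rh61043f70763267c4.shift 0 1), (rhc85cc95794737cf7.shift 0 1), (rhd4b4beefcd67f51e.shift 1 0)] (by decide +kernel))
noncomputable def rhee37466eb1fe89bb : CRef := CRef.mk (Pat.mk 0x20000001600000002000000000000000000000000 0x400000006000000070000001e00000006000000070000000700000005 5 5) 0 0 (step_sound _ 131 [rh210813553596681c, (rh3244c3cc8379b070.shift 0 4)] (by decide +kernel))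
noncomputable def rh51b07f96c4d4c204 : CRef := CRef.mk (Pat.mk 0x20000001600000002000000000000000000000000 0x1000000070000001e00000002000000030000000300000001 5 5) 0 0 (step_sound _ 160 [(rh2fe78cc5ca4405d8.shift 0 4), rh6e809d429c52317f] (by decide +kernel))
noncomputable def rha6bdadbcb806d604 : CRef := CRef.mk (Pat.mk 0x7c00000000 0x70000007e0000007c 5 7) 0 0 (step_sound _ 2 [rh0d378fd9e8917c5a, (rh80fcd6d0a18cb2dd.shift 2 0)] (by decide +kernel))
noncomputable def rhee26079a742ab99d : CRef := CRef.mk (Pat.mk 0x5c00000000 0xe00000007e00000077 5 8) 0 0 (step_sound _ 37 [rh008b05f4778dc30d, (rh9890f9d77740bbed.shift 2 1)] (by decide +kernel))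
noncomputable def rhb9b9ce08a9b9cf77 : CRef := CRef.mk (Pat.mk 0x1e00000000 0x770000003e00000030 5 7) 0 0 (step_sound _ 4 [(rhb18e6c78a554867d.shift 0 1), (rhe25b0a99195a5d59.shift 1 0)] (by decide +kernel))
noncomputable def rh6b6742b0b99cf85c : CRef := CRef.mk (Pat.mk 0x20000000600000002000000000000000000000000 0x400000006000000060000000600000006000000070000000700000005 5 3) 0 0 (step_sound _ 65 [rh8cdd36b03d57a2f6, (rha707fb719e87fe6e.shift 1 1), (rhced6d86d2069808b.shift 1 1)] (by decide +kernel))
noncomputable def rha09a4bdf51bd196d : CRef := CRef.mk (Pat.mk 0x40000000c000000080000000000000000 0x180000003c0000000f0000001c0000001c0000001c 5 6) 0 0 (step_sound _ 35 [rh59485bb996540d89, (rh7b1f1fb55310c477.shift 2 0)] (by decide +kernel))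
noncomputable def rh8632f4c87bc35ed4 : CRef := CRef.mk (Pat.mk 0x4000000040000000c0000000c000000000000000000000000 0x4000000060000000f0000003e000000060000000600000004 5 6) 0 0 (step_sound _ 65 [rh2e766644aa6156f6, (rh79877ebd3ef475dd.shift 1 2)] (by decide +kernel))
noncomputable def rhea45a8c4a0b14621 : CRef := CRef.mk (Pat.mk 0x4000000040000000c0000000c00000000 0x80000000c0000000c0000000f0000003e00000032 5 6) 0 0 (step_sound _ 33 [rh6f9e9ef275383a5c, (rh932754581e0f4330.shift 1 0)] (by decide +kernel))
noncomputable def rh32783a770c97e15b : CRef := CRef.mk (Pat.mk 0x80000000c0000000c00000000 0x1800000018000000780000001f0000000c00000008 5 7) 0 0 (step_sound _ 131 [(rh5c5e593799055d58.shift 2 1), rhd8767e2e2d81c26b] (by decide +kernel))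
noncomputable def rh6d680d8523a6ef9a : CRef := CRef.mk (Pat.mk 0x80000000c0000000c000000000000000000000000 0x10000000780000001f0000000c0000000c0000000c0000000c 5 7) 0 0 (step_sound _ 34 [rh289b5452442d1bb6, (rh9e3edb185cc347de.shift 2 1)] (by decide +kernel))
noncomputable def rh68a367426c9cdf58 : CRef := CRef.mk (Pat.mk 0x80000000c0000000c000000000000000000000000 0x80000000c0000000f0000003c0000001c0000001c 5 6) 0 0 (step_sound _ 67 [(rh3701152bc77ed296.shift 0 1), (rh820d4e04d5dcd02e.shift 2 0), (rhbdf73b26f73f8159.shift 2 0)] (by decide +kernel))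
noncomputable def rh7d6a3df37e3824be : CRef := CRef.mk (Pat.mk 0x38000000180000000000000000 0x2000000020000000700000003f0000001f0000001000000010 5 7) 0 0 (step_sound _ 65 [(rh24ae073cf30720c4.shift 1 2), rhd68debcabac8dad3] (by decide +kernel))
noncomputable def rh537260fbff338b7d : CRef := CRef.mk (Pat.mk 0x10000000180000001800000008 0x4000000f7000000ff0000001e00000008 5 8) 0 0 (step_sound _ 69 [(rh4dc133ee0ba1420a.shift 1 1), (rha4f89db2d82eac15.shift 0 1), rhaeedb1293e26287c] (by decide +kernel))
noncomputable def rh03f852291cd24f8c : CRef := CRef.mk (Pat.mk 0xc0000000c0000000000000000 0x18000000380000003f0000000f0000000c0000000c 5 6) 0 0 (step_sound _ 131 [(rh1e309b005ffa1b36.shift 2 0), rhbe172af05515d347] (by decide +kernel))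
noncomputable def rh617da9caf6645066 : CRef := CRef.mk (Pat.mk 0x80000001e000000000000000000000000 0x2000000070000003f0000001e000000070000000600000002 5 6) 0 0 (step_sound _ 129 [(rh3244c3cc8379b070.shift 0 3), rh41aa79ea02151d40] (by decide +kernel))
noncomputable def rhae95f6c6d8667a95 : CRef := CRef.mk (Pat.mk 0x80000001c000000180000000000000000 0xc0000000c0000000c0000001c0000007f0000000700000004 5 7) 0 0 (step_sound _ 66 [(rh1e309b005ffa1b36.shift 2 0), (rh7478433a598f2371.shift 1 0), (rhbd422d7511699c3a.shift 0 1)] (by decide +kernel))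
noncomputable def rhaff6a19889f90fa8 : CRef := CRef.mk (Pat.mk 0x80000001c00000018000000000000000000000000 0x180000001c0000007c0000000f0000000c00000008 5 7) 0 0 (step_sound _ 67 [(rhce6d1b7e5a1e8958.shift 0 1), (rhea7a1800d6f053bd.shift 3 0)] (by decide +kernel))
noncomputable def rh417dc6e4101dd16a : CRef := CRef.mk (Pat.mk 0x1800000008000000480000000800000000 0x640000007f000001ff000000480000004c00000004 5 9) 0 0 (step_sound _ 133 [(rh9099e5624e826e01.shift 0 1), (rh93a085db8b03a068.shift 2 1), rhaabc6f8103fee775, rhc8b6bc0be9b994f6] (by decide +kernel))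
noncomputable def rh20d817f00f392cc7 : CRef := CRef.mk (Pat.mk 0x4000000040000000c0000000400000000 0x1a0000003f0000003f0000000c0000000c00000008 5 6) 0 0 (step_sound _ 131 [(rh2f68792b6b779e96.shift 2 1), rh34199e0dafc05e04] (by decide +kernel))
noncomputable def rh2fc34ac75dd5edad : CRef := CRef.mk (Pat.mk 0x1e0000000c00000000 0x600000006000000070000001e0000000f0000000a 5 5) 0 0 (step_sound _ 33 [(rh53b3c253cb0c65f4.shift 0 1), rh62541da2aba74983] (by decide +kernel))
noncomputable def rh34cad8b38627e761 : CRef := CRef.mk (Pat.mk 0x4000000060000000600000004 0xa0000003f0000003e0000000700000004 5 6) 0 0 (step_sound _ 97 [rh184544a20610c98e, (rh50fbb5868c909700.shift 1 0)] (by decide +kernel))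
noncomputable def rhe83c758efd62460e : CRef := CRef.mk (Pat.mk 0xe00000006000000000000000000000000 0x600000006000000070000003e00000006000000030000000300000003 5 6) 0 0 (step_sound _ 65 [(rh2f7f929276407391.shift 0 2), rh5f3c8044188c4a66, (rhea7a1800d6f053bd.shift 1 0)] (by decide +kernel))
noncomputable def rhde037d886ade9647 : CRef := CRef.mk (Pat.mk 0xc0000000c00000008 0x1c0000001c0000003c0000000f0000000c00000008 5 6) 0 0 (step_sound _ 99 [rh20ee5c2c4c3a9878, (rh5fa50b509d4ce753.shift 2 0), (rh7f9f3607ee25a93b.shift 2 0)] (by decide +kernel))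
noncomputable def rhbc44751b7121178e : CRef := CRef.mk (Pat.mk 0xe000000160000000000000000 0x8000000380000003f000000160000001000000010 5 6) 0 0 (step_sound _ 100 [(rh18965a982d73c794.shift 1 2), rh65d03e622566ecd5] (by decide +kernel))
noncomputable def rh9cae21c2333af47f : CRef := CRef.mk (Pat.mk 0x8000000180000001800000010 0x20000000200000007f000000ff0000001f00000010 5 8) 0 0 (step_sound _ 69 [rh278d04e89480acf0, (rh4dc133ee0ba1420a.shift 1 1), (rhb762f327c85d41a0.shift 2 1)] (by decide +kernel))
noncomputable def rhca70629a2fd9457a : CRef := CRef.mk (Pat.mk 0xc00000008000000180000000800000000 0x100000003c0000000f0000001e0000007f00000016 5 7) 0 0 (step_sound _ 98 [(rhd88e1e5c6d7f696b.shift 0 1), rhf1e1851a90b9a6d0] (by decide +kernel))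
noncomputable def rh580c6d6212ed1b86 : CRef := CRef.mk (Pat.mk 0x800000008000000180000000800000000 0x100000001800000018000000080000001c0000000f00000004 5 5) 0 0 (step_sound _ 34 [(rh932754581e0f4330.shift 2 0), (rhd39cc1d53f443718.shift 0 1)] (by decide +kernel))
noncomputable def rh8f9e11a256dd5b82 : CRef := CRef.mk (Pat.mk 0x800000008000000180000000800000000 0x40000000c0000000c000000080000001c0000000f00000004 5 5) 0 0 (step_sound _ 34 [(rh5cca0af71485fe89.shift 0 1), (rh932754581e0f4330.shift 2 0)] (by decide +kernel))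
noncomputable def rh32af6e600e16eab8 : CRef := CRef.mk (Pat.mk 0x1e000000180000000000000000 0x2000000030000003e0000001f0000000400000004 5 6) 0 0 (step_sound _ 65 [(rheb0810cc63b001d8.shift 0 2), rhf8122e575c46b027] (by decide +kernel))
noncomputable def rh6b39c6896ce2ef69 : CRef := CRef.mk (Pat.mk 0x1c00000018000000000000000000000000 0x4000000160000007c0000001f000000380000001800000018 5 7) 0 0 (step_sound _ 98 [(rh073589708c2d81a3.shift 1 1), rh6a264a410cc9c051, (rhab2ad169e49f9c5e.shift 0 3)] (by decide +kernel))
noncomputable def rh5b7bf26d9fd76ab6 : CRef := CRef.mk (Pat.mk 0x38000000180000000000000000 0x4000000070000003f0000001f0000000800000008 5 6) 0 0 (step_sound _ 98 [(rh583cd2949503eb8f.shift 0 2), (rhba89ab7cb81bcc90.shift 0 2), (rhf16166e16dbfa564.shift 1 0)] (by decide +kernel))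
noncomputable def rh33930b07695aec11 : CRef := CRef.mk (Pat.mk 0x20000001e000000000000000000000000 0x1000000070000000700000007000000060000001e000000070000000600000006 5 5) 0 0 (step_sound _ 161 [(rh046c5eb18e55a239.shift 1 0), (rhb313d89573cddecd.shift 0 2), (rhc65f5dc89ddae11a.shift 0 1), rhed21e45804eeb376] (by decide +kernel))
noncomputable def rhd00842dd145db022 : CRef := CRef.mk (Pat.mk 0x200000002000000060000000600000000 0x40000000600000006000000070000003f00000019 5 6) 0 0 (step_sound _ 32 [rh932754581e0f4330, rhed03980a48e70db0] (by decide +kernel))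
noncomputable def rh22fa1117f605cb3f : CRef := CRef.mk (Pat.mk 0x200000002000000060000000600000000 0x40000000600000006000000070000003e0000000a 5 6) 0 0 (step_sound _ 130 [(rh2f68792b6b779e96.shift 1 1), rh856688073845c308] (by decide +kernel))
noncomputable def rhe5279eb8d40f52fb : CRef := CRef.mk (Pat.mk 0x18000000080000000800000000 0x400000004000000f70000007e0000000e0000000800000008 5 8) 0 0 (step_sound _ 98 [(rh261f868a429ae0e3.shift 2 0), (rh6ae1d99a9b0058f4.shift 1 0), (rh9eea4556e9e2a897.shift 0 2), (rhf9a6286f1d5377a2.shift 2 0)] (by decide +kernel))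
noncomputable def rh5d2b57813791eada : CRef := CRef.mk (Pat.mk 0x18000000080000001000000010 0x1f00000007c0000001f0000001000000010 5 9) 0 0 (step_sound _ 101 [(rh2820ca9a6c4f41b4.shift 0 2), (rh95e8db7891d71e5b.shift 2 0), (rhb610a44bb7d47cab.shift 2 0), (rhf0f55c4504412200.shift 0 2)] (by decide +kernel))
noncomputable def rh423d2fc50cedcfc3 : CRef := CRef.mk (Pat.mk 0xc000000040000000c0000000800000000 0x100000003c0000000f0000000f0000007c00000010 5 7) 0 0 (step_sound _ 99 [rhaa4d9de99c4ea825, (rhc0ddb33d3a52722b.shift 0 1)] (by decide +kernel))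
noncomputable def rh361a2c760188f4e3 : CRef := CRef.mk (Pat.mk 0x20000000700000006000000000000000000000000 0x30000000300000007000000070000001e000000020000000200000002 5 5) 0 0 (step_sound _ 99 [(rhf48373e13d2bc128.shift 0 3), rhfe7da3c073d75bd5] (by decide +kernel))
noncomputable def rh69e20f42df147d70 : CRef := CRef.mk (Pat.mk 0x80000000800000018000000180000000000000000 0x8000000080000001f000000ff0000000c00000004 5 8) 0 0 (step_sound _ 69 [(rh13104bf9491e5713.shift 2 0), (rh1be3352c84aca6a9.shift 0 1), (rh79b3c29022acbdf3.shift 2 2)] (by decide +kernel))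
noncomputable def rh484d81bfaf6acc0d : CRef := CRef.mk (Pat.mk 0xe00000006000000000000000000000000 0x600000006000000070000003e00000006000000030000000300000003 5 6) 0 0 (step_sound _ 65 [(rh2f7f929276407391.shift 0 2), rha63ee835bef81994, (rhea7a1800d6f053bd.shift 1 0)] (by decide +kernel))
noncomputable def rhc64f717e76c41463 : CRef := CRef.mk (Pat.mk 0xc00000008000000180000000800000000 0x100000003c0000000f0000001e0000007f00000016 5 7) 0 0 (step_sound _ 98 [rh140c38ccbbf6a2a2, rhe62a67d1fb42663c, rhf1e1851a90b9a6d0] (by decide +kernel))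
noncomputable def rh75af7e66cfc8f4d2 : CRef := CRef.mk (Pat.mk 0x100000001e000000100000000000000000 0x2800000038000000380000001b0000001e000000180000001800000018 5 6) 0 0 (step_sound _ 164 [(rh03dfdf12d5937476.shift 3 1), (rhb808fcc9ebf74c61.shift 0 2), (rhd1fa8140a3eb151f.shift 3 0)] (by decide +kernel))
noncomputable def rh3dfac724f512a741 : CRef := CRef.mk (Pat.mk 0x100000001e00000012000000000000000000000000 0x100000001c0000001e0000001e0000003b0000001a00000012 5 6) 0 0 (step_sound _ 99 [(rh1e309b005ffa1b36.shift 3 1), rhc733e4350e53d24f] (by decide +kernel))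
noncomputable def rh1f71cf4fded4d8ad : CRef := CRef.mk (Pat.mk 0x800000058000000080000001800000000 0x4800000058000001ff000000ff00000064 5 9) 0 0 (step_sound _ 37 [rh0956114827151fc1, (rh38791ac5737ed75e.shift 2 1), rh7ce307151020a294, (rhf094991f52b781e5.shift 2 0), (rhfa8c7f01b0685da6.shift 1 0)] (by decide +kernel))
noncomputable def rhbc079f735272f75f : CRef := CRef.mk (Pat.mk 0x20000000200000006000000020000000000000000 0x100000003000000030000000200000006000000070000000300000001 5 3) 0 0 (step_sound _ 32 [(rh79877ebd3ef475dd.shift 0 1), rha0be9a2cc03511e6] (by decide +kernel))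
noncomputable def rh820afe06dccaee47 : CRef := CRef.mk (Pat.mk 0x1800000000000000580000001800000000 0x1ff000000fe000001e70000005c000000f800000040 5 9) 0 0 (step_sound _ 133 [(rh4bd42e0bc41d815d.shift 0 1), (rh56e781b88ef6f6f5.shift 2 1), (rh839694f7087737eb.shift 1 3), (rhb0475da6d985088e.shift 2 0), (rhc886af0c19e5a3a5.shift 0 3), (rhcb9e9144c122bccf.shift 0 1)] (by decide +kernel))
noncomputable def rh84c401376b05ef58 : CRef := CRef.mk (Pat.mk 0x1800000038000000000000000000000000 0x80000001f0000003f000000670000000400000004 5 7) 0 0 (step_sound _ 98 [(rh0e1512cbacfbd48b.shift 0 2), (rh4f129d8f37c2c70a.shift 1 0), (rhdd8b04b529655521.shift 0 2)] (by decide +kernel))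
noncomputable def rh9a04949f810a780b : CRef := CRef.mk (Pat.mk 0x1c000000160000000000000000 0x80000000e0000001f0000001c000000160000001600000016 5 5) 0 0 (step_sound _ 131 [(rh82ef742646ff04c8.shift 2 0), (rha40d42a2e34c408d.shift 3 0), rhbe253d1426d5780c] (by decide +kernel))
noncomputable def rh866e9d25f6689c5a : CRef := CRef.mk (Pat.mk 0x1000000014000000100000001000000000 0x8000000180000001f000000300000003000000030 5 6) 0 0 (step_sound _ 5 [rhb484b2f7f9771e1a, (rhd3458b32566d63f7.shift 4 0)] (by decide +kernel))
noncomputable def rh650c6275623c53a2 : CRef := CRef.mk (Pat.mk 0x38000000280000000800000000 0x100000001000000030000000780000002f0000007c00000020 5 7) 0 0 (step_sound _ 66 [(rh18965a982d73c794.shift 2 2), rh2f1986f271a0b8cb] (by decide +kernel))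
noncomputable def rh7715f90e66992d24 : CRef := CRef.mk (Pat.mk 0xe000000020000000200000000000000000000000000000000 0x40000001e000000030000000300000006000000070000000700000001 5 5) 0 0 (step_sound _ 97 [(rh2f68792b6b779e96.shift 1 3), rh86bb4a1a30deb6a3] (by decide +kernel))
noncomputable def rh24a238e52b1653ef : CRef := CRef.mk (Pat.mk 0x380000002800000008000000000000000000000000 0x28000000780000002f0000007c000000180000001000000010 5 7) 0 0 (step_sound _ 130 [(rh18965a982d73c794.shift 2 4), rhdb4acdce9896e0d3] (by decide +kernel))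
noncomputable def rh712c804d50c21d5f : CRef := CRef.mk (Pat.mk 0x28000000080000000800000000 0x140000001c0000001f000000780000000c0000000c00000004 5 7) 0 0 (step_sound _ 131 [(rh0fd870c734e6c513.shift 2 0), (rh20966da26a1c2ae8.shift 2 0), (rhd5d193521cc593a5.shift 0 1)] (by decide +kernel))
noncomputable def rh84c107ea68d9937f : CRef := CRef.mk (Pat.mk 0xa000000020000000200000002000000000000000000000000 0x40000001e000000030000000300000006000000070000000700000001 5 5) 0 0 (step_sound _ 194 [(rh2f68792b6b779e96.shift 1 3), rh86bb4a1a30deb6a3] (by decide +kernel))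
noncomputable def rhd103b87f194103df : CRef := CRef.mk (Pat.mk 0x2800000028000000080000000800000000 0xd0000000780000002c0000007c0000002f00000004 5 8) 0 0 (step_sound _ 69 [(rh1d991cfd4e134774.shift 2 1), rhc8fd50c44a2112a0] (by decide +kernel))
noncomputable def rh52c9f88d585671c8 : CRef := CRef.mk (Pat.mk 0x1400000014000000040000000400000000 0x780000003c000000160000003c0000001f00000008 5 7) 0 0 (step_sound _ 68 [(rh1d991cfd4e134774.shift 1 1), rhd27c8fcc2b2e465e] (by decide +kernel))
noncomputable def rh3d5044ad238b530a : CRef := CRef.mk (Pat.mk 0xa000000020000000200000002000000000000000000000000 0x40000001e000000030000000300000003000000070000000700000004 5 5) 0 0 (step_sound _ 194 [rh2f5bc0b1b50835b8, (rh2f68792b6b779e96.shift 1 3)] (by decide +kernel))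
noncomputable def rhddaeab9e95c0e056 : CRef := CRef.mk (Pat.mk 0x80000000a00000008000000000000000000000000 0x10000000780000001f000000080000001c0000001c00000014 5 7) 0 0 (step_sound _ 67 [(rh0363d47a46978688.shift 0 2), (rh3181373a30ceb9e3.shift 2 0), (rh367118e0bf0473e0.shift 2 0), (rhc9de03f9731897d4.shift 3 0)] (by decide +kernel))
noncomputable def rhc4ad62d87f2db4ec : CRef := CRef.mk (Pat.mk 0x2000000038000000000000000000000000 0x500000007000000070000000300000003e000001f70000007000000070 5 9) 0 0 (step_sound _ 69 [(rh498dffc738f2231f.shift 4 0), (rh87a3a8a8a3fd85be.shift 4 0), (rhc21a95c499b3efdb.shift 2 2), (rhd62c73b158a418d7.shift 0 2)] (by decide +kernel))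
noncomputable def rh53d70c8544cf9153 : CRef := CRef.mk (Pat.mk 0x80000000a00000008000000000000000000000000 0x140000001e0000000f000000080000001c0000001c00000014 5 5) 0 0 (step_sound _ 67 [(rh7e90affc6ee08a22.shift 0 2), (rh8cdd36b03d57a2f6.shift 2 0)] (by decide +kernel))
noncomputable def rh4d8c043749cf697f : CRef := CRef.mk (Pat.mk 0x80000000a00000008000000000000000000000000 0x40000001c0000001e0000000f0000000c0000001c0000001c00000014 5 5) 0 0 (step_sound _ 67 [(rh0fd870c734e6c513.shift 2 1), (rh7e90affc6ee08a22.shift 0 2), (rh8cdd36b03d57a2f6.shift 2 0)] (by decide +kernel))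
noncomputable def rh6c9c5caca09abb75 : CRef := CRef.mk (Pat.mk 0x80000002800000028000000040000000000000000 0x10000000780000007c0000002f000000780000006c0000004400000040 5 7) 0 0 (step_sound _ 165 [(rh066a40d8deeec79e.shift 0 1), (rh4338a685e0064fea.shift 0 2), (rh822c60d64322cb98.shift 2 0), (rha952ef69c1428d13.shift 2 1)] (by decide +kernel))
noncomputable def rhf081c889b5d166e5 : CRef := CRef.mk (Pat.mk 0x800000028000000280000000800000000 0xf40000007c0000002f000000380000003800000010 5 8) 0 0 (step_sound _ 132 [(rh2f68792b6b779e96.shift 3 1), rhdff8f78dd27f0860] (by decide +kernel))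
noncomputable def rhc8872ca7771a3f30 : CRef := CRef.mk (Pat.mk 0x200000002c000000300000000000000000 0x40000000680000007c0000002f0000003c0000007000000040 5 7) 0 0 (step_sound _ 67 [(rh5d799d0cb78e61a1.shift 2 0), (rh68c9779632d871b4.shift 0 1), (rhdbcea10a0fbe5ba6.shift 0 2)] (by decide +kernel))
noncomputable def rh25664aeb9b03f551 : CRef := CRef.mk (Pat.mk 0x200000002000000030000000000000000 0x4000000060000000600000002000000070000000700000004 5 3) 0 0 (step_sound _ 161 [(rh932754581e0f4330.shift 0 1), (rhc9de03f9731897d4.shift 1 0)] (by decide +kernel))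
noncomputable def rh4ff3018690521298 : CRef := CRef.mk (Pat.mk 0x80000000b000000080000000000000000 0x140000001c0000001e0000000b000000180000001800000010 5 5) 0 0 (step_sound _ 35 [(rh8065c10b3cae6218.shift 2 0), (rha78afc937ca94db4.shift 0 1), (rhced6d86d2069808b.shift 3 0)] (by decide +kernel))
noncomputable def rhe68edff6e0bfa98b : CRef := CRef.mk (Pat.mk 0x14000000160000001000000000 0xa0000003b0000003f000000160000001400000004 5 6) 0 0 (step_sound _ 99 [(rh18965a982d73c794.shift 1 2), rh4f55370d8d5413fd] (by decide +kernel))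
noncomputable def rh62cc4d83ca6b225e : CRef := CRef.mk (Pat.mk 0x280000002c000000200000000000000000 0x100000001000000038000000780000002f0000003c0000000c00000004 5 7) 0 0 (step_sound _ 132 [(rh18965a982d73c794.shift 2 3), rh84b5149100f92e96] (by decide +kernel))
noncomputable def rh132c6ae45e16fcd1 : CRef := CRef.mk (Pat.mk 0x280000002c000000200000000000000000 0x140000001c0000003c0000002c0000002f0000007c0000001c0000000c 5 7) 0 0 (step_sound _ 67 [(rh87a3a8a8a3fd85be.shift 2 0), (rh8c25cb665ab79ec0.shift 0 2), (rhcb70e1b2667f61ac.shift 2 1)] (by decide +kernel))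
noncomputable def rhe293b4d282278a88 : CRef := CRef.mk (Pat.mk 0xa0000000b0000000800000000 0x400000004000000060000001e0000000b0000000a0000000a 5 5) 0 0 (step_sound _ 98 [(rh18965a982d73c794.shift 0 2), (rh64d21086688febc5.shift 1 0)] (by decide +kernel))
noncomputable def rhce92d5aa8f92d0a9 : CRef := CRef.mk (Pat.mk 0x80000000c000000200000000000000000 0x140000001c0000001c0000000c0000000f0000007c0000001c0000000c 5 7) 0 0 (step_sound _ 67 [(rh135d9bded605e7ab.shift 2 1), (rh87a3a8a8a3fd85be.shift 2 0), (rh8c25cb665ab79ec0.shift 0 2)] (by decide +kernel))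
noncomputable def rh0c7493ab8ae24602 : CRef := CRef.mk (Pat.mk 0x20000000200000002000000020000000000000000 0x1000000030000000300000002000000070000000700000004 5 3) 0 0 (step_sound _ 32 [rh46baee19951a66e7, (rh79877ebd3ef475dd.shift 0 1)] (by decide +kernel))
noncomputable def rhe735bd5f2b178775 : CRef := CRef.mk (Pat.mk 0xc0000003800000000000000000000000000000000 0x40000000c0000000c0000000c0000003c0000001f0000001c0000000c00000004 5 6) 0 0 (step_sound _ 99 [(rh3eb188fb253f07ac.shift 0 2), (rh43d8dfd721575dfb.shift 2 0), (rhb1a251d9bff81766.shift 2 2)] (by decide +kernel))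
noncomputable def rhea71692cb648c96d : CRef := CRef.mk (Pat.mk 0xc000000080000000800000000 0x140000001c0000003c0000000f0000000c0000000c00000004 5 6) 0 0 (step_sound _ 131 [(rh0fd870c734e6c513.shift 2 0), (rh20ee5c2c4c3a9878.shift 0 1), (rh402d223d12d7377d.shift 2 0), (rh7ef5fa5c39f1c762.shift 2 1)] (by decide +kernel))
noncomputable def rh80cf23db140f7233 : CRef := CRef.mk (Pat.mk 0xa0000000f000000000000000000000000 0x4000000ee0000007f000000f80000000800000008 5 8) 0 0 (step_sound _ 100 [(rh1136b81d2c6924ee.shift 1 2), rh1e6b922be6950b72, (rh4ad5fc38f1b69f65.shift 0 2)] (by decide +kernel))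
noncomputable def rh13f9b72aece741c1 : CRef := CRef.mk (Pat.mk 0x10000000140000001000000010000000200000000000000000 0x2000000030000000300000001f0000001800000018000000300000003000000010 5 6) 0 0 (step_sound _ 68 [rh5552dde8c1f3348e, (rh55afc6a59410cf00.shift 4 1)] (by decide +kernel))
noncomputable def rh9260db7e09bbd26d : CRef := CRef.mk (Pat.mk 0x180000000b00000008 0x400000004000000ee0000007e000000eb00000008 5 8) 0 0 (step_sound _ 66 [(rh6a8535796e72c599.shift 1 0), (rhca9569cc80abfe76.shift 0 1)] (by decide +kernel))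
noncomputable def rh826c1b7135bba048 : CRef := CRef.mk (Pat.mk 0x200000002c00000030000000000000000000000000 0x28000000280000002f0000003c000000180000001000000010 5 6) 0 0 (step_sound _ 68 [rh047316c6d5431acc, (rh5c5e593799055d58.shift 4 2)] (by decide +kernel))
noncomputable def rh7cc25e2e5a8ec8b8 : CRef := CRef.mk (Pat.mk 0x1400000016000000100000000000000000 0x20000000e0000000e0000001e00000016000000170000001e0000000e0000000e 5 5) 0 0 (step_sound _ 162 [(rh281c6819542c66e6.shift 1 0), (rh758ac51bff9b188d.shift 1 2), rh9e64eca2d4f0c1b3, (rhfafeb437ceb8396d.shift 1 0)] (by decide +kernel))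
noncomputable def rh69431d8b438d8b66 : CRef := CRef.mk (Pat.mk 0x5000000040000000400000000 0xa0000000e0000001e00000007000000060000000600000006 5 5) 0 0 (step_sound _ 130 [(rh20966da26a1c2ae8.shift 1 0), rh516963541d5f8797, (rh565a0c22519f57e9.shift 1 0)] (by decide +kernel))
noncomputable def rh39939ea8d5227802 : CRef := CRef.mk (Pat.mk 0x5000000040000000400000000 0xa0000000e0000001e000000070000000c0000000c0000000c 5 5) 0 0 (step_sound _ 130 [rh516963541d5f8797, (rh8065c10b3cae6218.shift 1 0), (rhced6d86d2069808b.shift 2 0)] (by decide +kernel))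
noncomputable def rhc6ee2247187d751e : CRef := CRef.mk (Pat.mk 0x20000000a0000001a000000000000000000000000 0x40000001e0000001e0000000b0000001a0000001f0000001f00000015 5 5) 0 0 (step_sound _ 163 [rh08ff1a9078a560c4, (rh70e33bfdf511e144.shift 3 0), rhe2515e7b46350f1f, (rhe27f3a99d34d0525.shift 1 2)] (by decide +kernel))
noncomputable def rhbb8e8d454f508234 : CRef := CRef.mk (Pat.mk 0x80000002800000068000000000000000000000000 0x50000000f80000007c0000002f00000068000000700000007000000050 5 8) 0 0 (step_sound _ 165 [(rh08ff1a9078a560c4.shift 2 0), (rh453ecec85772d86c.shift 0 2), (rh5d8b3f773a050a7a.shift 0 2), (rh70e33bfdf511e144.shift 5 0)] (by decide +kernel))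
noncomputable def rh09566e159f43446d : CRef := CRef.mk (Pat.mk 0x80000002800000028000000100000000000000000 0x10000000700000007c0000002f0000003c000000fe0000004400000004 5 8) 0 0 (step_sound _ 165 [(rh349d1013248e817b.shift 0 2), (rh5137f13256cae3f2.shift 1 0), (rh5ea62a2b1664fc65.shift 2 1), (rhf173ba0b287474a8.shift 3 2)] (by decide +kernel))
noncomputable def rhb0f7befb62167a67 : CRef := CRef.mk (Pat.mk 0x80000002800000020000000100000000000000000 0x40000000f00000007c0000002f00000030000000300000001000000010 5 8) 0 0 (step_sound _ 165 [(rh0d0aa2c2b8dc1257.shift 2 1), (rhb01ac4982a11ea27.shift 4 0), (rhc800a3c3ac49c1c6.shift 0 2)] (by decide +kernel))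
noncomputable def rhb7fb3f7cd67b2e78 : CRef := CRef.mk (Pat.mk 0x80000000a0000000800000000 0x140000001c0000001c000000080000001f0000007800000010 5 7) 0 0 (step_sound _ 131 [(rh29dd5384d80ecb1e.shift 2 0), rhc486ae0fcc44be52, (rhc85cc95794737cf7.shift 2 1)] (by decide +kernel))
noncomputable def rh4f3b8999dac24633 : CRef := CRef.mk (Pat.mk 0xa00000008000000080000000000000000 0x140000001e0000000f000000080000001c0000001c00000014 5 5) 0 0 (step_sound _ 163 [(rh7e90affc6ee08a22.shift 0 2), (rh8cdd36b03d57a2f6.shift 2 0)] (by decide +kernel))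
noncomputable def rhf78d8c948dcae228 : CRef := CRef.mk (Pat.mk 0xa000000080000000800000000 0x40000001c0000001e0000000f0000001c0000001c00000014 5 5) 0 0 (step_sound _ 131 [(rh565a0c22519f57e9.shift 2 0), (rh7e90affc6ee08a22.shift 0 1), (rh8065c10b3cae6218.shift 2 0), (rhc9ac229b3c77cd55.shift 2 0)] (by decide +kernel))
noncomputable def rh91d622b8478fd277 : CRef := CRef.mk (Pat.mk 0xa0000000800000008000000000000000000000000 0x40000000f0000007c000000080000001c0000001c00000014 5 7) 0 0 (step_sound _ 67 [(rh0c1c1b53bc5a1510.shift 2 0), (rh3181373a30ceb9e3.shift 2 0), (rh39bac26a3afdee51.shift 0 2), (rhcae87bda2c3c01d2.shift 2 0)] (by decide +kernel))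
noncomputable def rh3ceff2ceccc00bc3 : CRef := CRef.mk (Pat.mk 0x1a0000001e000000000000000000000000 0x6000000070000001e0000001e0000003e0000001e00000018 5 6) 0 0 (step_sound _ 130 [(rh38a0850c9fea941e.shift 0 1), (rh5a3f21d3024952d1.shift 0 1), (rh7a6818fc9a9bd989.shift 1 0)] (by decide +kernel))
noncomputable def rhd474fa2932cf629a : CRef := CRef.mk (Pat.mk 0x1a0000000e000000000000000000000000 0xa0000000f0000001e0000000e0000000c0000000400000004 5 5) 0 0 (step_sound _ 66 [(rh4910557f52b068ce.shift 0 2), (rhbe707112c53dab40.shift 1 0), (rhcf80391c5046a495.shift 2 0), (rhf91b1398c815afd2.shift 2 0)] (by decide +kernel))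
noncomputable def rh3c353db79eaac149 : CRef := CRef.mk (Pat.mk 0x120000001e000000020000000000000000 0x500000007000000070000000f0000001e0000001e000000320000001200000012 5 6) 0 0 (step_sound _ 161 [rh39eb400d9739dcc8, rh86ca330250f07f68, (rhc85cc95794737cf7.shift 0 2), (rhe53958ffbb9ed408.shift 1 0), rhfd82a586dbb552cd] (by decide +kernel))
noncomputable def rh1fb9f0ab631b0755 : CRef := CRef.mk (Pat.mk 0x10000000f000000090000000000000000 0x50000001d0000000f0000000f0000001a0000001a 5 5) 0 0 (step_sound _ 131 [(rh33e738c4ed385b9f.shift 0 3), rha936b34c98bdaa88] (by decide +kernel))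
noncomputable def rh4becb9f10cf985aa : CRef := CRef.mk (Pat.mk 0x800000018000000080000001800000000 0x30000000780000001e000000380000001f00000004 5 7) 0 0 (step_sound _ 132 [(rh2f68792b6b779e96.shift 3 1), rh74e26e816cb211fd] (by decide +kernel))
noncomputable def rhb0c5c68d16db8c51 : CRef := CRef.mk (Pat.mk 0xc0000000c000000040000000400000000 0x100000003c0000000f0000000e0000007c00000018 5 7) 0 0 (step_sound _ 35 [(rh55afc6a59410cf00.shift 2 0), rhdf46b40eb1674b4a] (by decide +kernel))
noncomputable def rh60f7890073fd1121 : CRef := CRef.mk (Pat.mk 0xc0000000c000000040000000400000000 0x140000003c0000000f0000000c0000000c00000008 5 6) 0 0 (step_sound _ 35 [(rh55afc6a59410cf00.shift 2 0), (rh86450771c0b856e0.shift 0 1)] (by decide +kernel))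
noncomputable def rh4ed6ce102d24e7ba : CRef := CRef.mk (Pat.mk 0x2000000038000000100000000000000000 0x700000003e000000170000001000000010 5 7) 0 0 (step_sound _ 4 [(rh7f0f728c796044ac.shift 0 2), (rh9e3edb185cc347de.shift 4 0)] (by decide +kernel))
noncomputable def rh5e90906c2624423f : CRef := CRef.mk (Pat.mk 0x800000018000000080000001800000000 0x800000018000000ff000000ff000001e4 5 9) 0 0 (step_sound _ 37 [rh0956114827151fc1, (rh1aae126fdb0efa1d.shift 2 0), rh7ce307151020a294, (rhf7746864c2897465.shift 2 0), (rhfa8c7f01b0685da6.shift 1 0)] (by decide +kernel))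
noncomputable def rh507db46e9434e319 : CRef := CRef.mk (Pat.mk 0x1800000018000000080000000800000000 0x20000000780000001e000000380000001f00000014 5 7) 0 0 (step_sound _ 36 [(rh55afc6a59410cf00.shift 3 0), rh74e26e816cb211fd] (by decide +kernel))
noncomputable def rhe5626b02dfb177b9 : CRef := CRef.mk (Pat.mk 0x1800000018000000080000000800000000 0xc000000ff0000001f000000080000000c00000004 5 8) 0 0 (step_sound _ 133 [(rh27969391d059ac76.shift 0 1), (rh4dc133ee0ba1420a.shift 1 3), (rh58bb16c40a51c4f7.shift 2 0)] (by decide +kernel))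
noncomputable def rhfaed4418c4d78e8f : CRef := CRef.mk (Pat.mk 0x600000006000000020000000000000000 0x20000000600000006000000070000000700000007 5 3) 0 0 (step_sound _ 33 [(rh71222050f2c63a3a.shift 1 0), rhfaeb45e0b84ef968] (by decide +kernel))
noncomputable def rh7ae1f9353a07d282 : CRef := CRef.mk (Pat.mk 0x1e0000001800000008000000000000000000000000 0x40000000e0000000f0000001e0000001c0000001f000000160000000400000004 5 5) 0 0 (step_sound _ 194 [rh818524f0c7aed6e0, (rha3df16ea9c8576c8.shift 2 3), (rhc89253ff58c66167.shift 2 3), (rhe072fffdd2fccf38.shift 2 3)] (by decide +kernel))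
noncomputable def rh182addaf81ba7b3f : CRef := CRef.mk (Pat.mk 0x1e0000001800000008000000000000000000000000 0x40000000c0000000c0000001e0000001e0000001f000000160000000400000004 5 5) 0 0 (step_sound _ 194 [(rha3df16ea9c8576c8.shift 2 3), (rhc89253ff58c66167.shift 2 3), rhdfe1a8eb5c2b549e, (rhe072fffdd2fccf38.shift 2 3)] (by decide +kernel))
noncomputable def rhf80faa1cb13ec8f9 : CRef := CRef.mk (Pat.mk 0x1000000038000000600000000000000000 0x40000001e000000f80000007f0000002c0000002c 5 8) 0 0 (step_sound _ 67 [(rh128a9e9d4f95ff41.shift 2 0), (rh8575980c6a163be1.shift 1 0), rhff137734614369fa] (by decide +kernel))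
noncomputable def rhba0434bb1647dc1b : CRef := CRef.mk (Pat.mk 0x2000000030000000600000000 0x4000000070000000700000002000000030000000700000004 5 3) 0 0 (step_sound _ 129 [(rh55afc6a59410cf00.shift 1 0), (rhd45cd9e98ba3f25a.shift 0 1)] (by decide +kernel))
noncomputable def rh3b4b705d6ba065ca : CRef := CRef.mk (Pat.mk 0x4000000070000000400000000 0x80000000e0000000e0000003e000000070000000600000004 5 6) 0 0 (step_sound _ 129 [rh3b86b71807c2e412, (rh41b8be278618af7d.shift 1 1), (rhc17a6a02773cc5f6.shift 1 0)] (by decide +kernel))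
noncomputable def rh9ee6018d0d2e705d : CRef := CRef.mk (Pat.mk 0x4000000070000000400000000000000000000000000000000 0xa0000001e00000007000000060000000c0000000e0000000e00000002 5 5) 0 0 (step_sound _ 98 [(rh5a26ed1c01b25f18.shift 1 0), (rh63dbcfae63aa4130.shift 0 2), (rhe286c75f2739cce2.shift 1 2)] (by decide +kernel))
noncomputable def rhfc567835fa4f6359 : CRef := CRef.mk (Pat.mk 0x20000000200000006000000000000000000000000 0x300000003000000070000000700000007000000030000000300000002 5 3) 0 0 (step_sound _ 193 [(rh6aa5625770489e83.shift 0 1), (rh7b60db5db6f7d331.shift 0 2), rhd22b66c0f3e8b39b] (by decide +kernel))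
noncomputable def rh120fc0761fc81873 : CRef := CRef.mk (Pat.mk 0x180000000800000018000000000000000000000000 0x240000007f0000003e00000018000000180000001800000010 5 7) 0 0 (step_sound _ 68 [(rh08edf065357d68e5.shift 3 0), (rh79ad7b82ec8c35e2.shift 3 0), (rhdd7c0a24bee13535.shift 0 1)] (by decide +kernel))
noncomputable def rhb559255abd77a7a5 : CRef := CRef.mk (Pat.mk 0x1800000008000000180000000000000000 0x2000000034000000f60000007f0000003f000000180000001000000010 5 8) 0 0 (step_sound _ 133 [(rh2820ca9a6c4f41b4.shift 0 3), (rh31f1a1d2920ebf5f.shift 2 1), rh5a6a973ba2190e82, (rhf0f55c4504412200.shift 0 3)] (by decide +kernel))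
noncomputable def rhda9f60062a89665d : CRef := CRef.mk (Pat.mk 0x8000000180000000c0000000000000000 0x1000000018000000180000000f0000003c0000001c 5 6) 0 0 (step_sound _ 65 [(rh53b3c253cb0c65f4.shift 0 2), (rhc1b5d17a350cbb83.shift 1 0)] (by decide +kernel))
end Crest.Agent.S0047.Helper85.Cert
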