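import Crest.Agent.Lib.S0047.Helper85CertPL4F0
import Crest.Agent.Lib.S0047.Helper85CertPL4F1
import Crest.Agent.Lib.S0047.Helper85CertPL4F2
import Crest.Agent.Lib.S0047.Helper85CertPL4F3
import Crest.Agent.Lib.S0047.Helper85CertPL4F4
import Crest.Agent.Lib.S0047.Helper85CertPL4F5
import Crest.Agent.Lib.S0047.Helper85CertPL4F6
import Crest.Agent.Lib.S0047.Helper85CertPL4F7
import Crest.Agent.Lib.S0047.Helper85CertPL4F8
import Crest.Agent.Lib.S0047.Helper85CertPL4F9
set_option autoImplicit false
set_option linter.all false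
set_option Elab.async false
namespace Crest.Agent.S0047.Helper85.Cert
open Crest.Agent.S0047.Helper85

noncomputable def rhb2bf094424323841 : CRef := CRef.mk (Pat.mk 0xc000000180000000000000000 0x10000000370000003f0000001f0000000800000008 5 6) 0 0 (step_sound _ 97 [(rhb739f4f82bb681b4.shift 0 2), rhf3744f46e4c6cd92] (by decide +kernel))
noncomputable def rhd0feeeb39fe22936 : CRef := CRef.mk (Pat.mk 0x180000000e000000000000000000000000 0x10000000380000001f0000003e000000380000001800000010 5 6) 0 0 (step_sound _ 100 [(rhbbe16ff26f7822db.shift 1 0), (rhc978c825f9f262c3.shift 0 1)] (by decide +kernel))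
noncomputable def rha1a6059e5313f78c : CRef := CRef.mk (Pat.mk 0x180000000e00000004 0xa0000000f0000001f0000003e00000007 5 6) 0 0 (step_sound _ 99 [(rh5c5e593799055d58.shift 2 0), rhe68a42dfe442c636] (by decide +kernel))
noncomputable def rh858a69db64b38bff : CRef := CRef.mk (Pat.mk 0xc00000007000000000000000000000000 0xa0000000e0000000e0000000e000000070000001e0000000e0000000e 5 5) 0 0 (step_sound _ 66 [(rh000637b5a81e86aa.shift 1 0), (rh0368f485681c63ab.shift 0 1), (rh483977ec4c7a5d44.shift 1 0), (rh717e0b4c10cdb5db.shift 1 0)] (by decide +kernel))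
noncomputable def rh1c4b79caee7ffced : CRef := CRef.mk (Pat.mk 0x180000001e0000000000000000 0x3000000030000001f0000001e0000000700000004 5 5) 0 0 (step_sound _ 33 [rh31f2d44cd8372de6, (rheb0810cc63b001d8.shift 0 1)] (by decide +kernel))
noncomputable def rh7a9774d1ea87f620 : CRef := CRef.mk (Pat.mk 0xc0000001800000008 0x10000000370000003f0000001f00000008 5 6) 0 0 (step_sound _ 65 [rhb3f6887c6db1d53e, (rhb739f4f82bb681b4.shift 0 1)] (by decide +kernel))
noncomputable def rh3a9effb0bebe0c1f : CRef := CRef.mk (Pat.mk 0x78000000080000000000000000 0x1000000010000000380000007f000000f80000000800000008 5 8) 0 0 (step_sound _ 132 [(rh7b6a49b501baf4d8.shift 0 2), (rhcf80391c5046a495.shift 3 0), (rhf9366b6a121593ef.shift 3 0)] (by decide +kernel))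
noncomputable def rh44f1b19374335971 : CRef := CRef.mk (Pat.mk 0x40000000700000004000000000000000000000000 0x400000006000000070000003e0000000e0000000e00000008 5 6) 0 0 (step_sound _ 65 [(rh0db119afefb5ebc7.shift 1 1), (rh24475f7678211b71.shift 1 0), rh5ae6de4c9bd76265, (rh5ddbeed5d869bf16.shift 1 1)] (by decide +kernel))
noncomputable def rh829b371331e614be : CRef := CRef.mk (Pat.mk 0x4000000070000000400000000 0x20000000e0000000e0000000c00000006000000070000001e0000000a 5 5) 0 0 (step_sound _ 130 [(rh03dfdf12d5937476.shift 1 0), rhb379f99078aafa2d, (rhe8915d9db8b9f3f2.shift 1 1)] (by decide +kernel))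
noncomputable def rh0e389d2c03d1e0b4 : CRef := CRef.mk (Pat.mk 0x6000000060000000400000000 0xc0000000c0000000c00000006000000070000003e0000000a 5 6) 0 0 (step_sound _ 130 [(rh1e309b005ffa1b36.shift 1 0), (rh5fa50b509d4ce753.shift 1 1), rhcd4e30cc39602f0f] (by decide +kernel))
noncomputable def rh2b1cd7a189b9f4a9 : CRef := CRef.mk (Pat.mk 0x160000000e000000000000000000000000 0x400000004000000160000003f0000003c0000000800000008 5 6) 0 0 (step_sound _ 100 [rh0682f3909eac0657, (rhf48373e13d2bc128.shift 1 3)] (by decide +kernel))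
noncomputable def rh407fb390d8316269 : CRef := CRef.mk (Pat.mk 0x1800000018000000000000000000000000 0x80000001800000018000000380000003f0000003c00000038 5 6) 0 0 (step_sound _ 68 [(rh3cb04db3dd2b6a55.shift 3 0), rh5d4854bc4abcd7d3, (rh6852947d3e67d303.shift 3 0)] (by decide +kernel))
noncomputable def rhb5bd433ae6cabafe : CRef := CRef.mk (Pat.mk 0x80000002c000000040000000c0000000000000000 0xc0000003e000000fc0000007e0000003300000010 5 8) 0 0 (step_sound _ 101 [(rh71680c987f46b870.shift 0 1), (rh9bc5f2d3a8fa62f2.shift 1 1), (rhc2e3c99efce61506.shift 1 0), (rheb3045a8dc0b60d5.shift 1 2), (rhee3013890ee4ed34.shift 2 1), (rhff1605ac7aa38988.shift 1 2)] (by decide +kernel))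
noncomputable def rhb7183240a10da5f3 : CRef := CRef.mk (Pat.mk 0x40000000600000002000000060000000000000000 0x80000000c0000000f0000003e0000003f0000000c0000000c 5 6) 0 0 (step_sound _ 98 [(rh15a1b6b82d9fd81f.shift 1 0), (rh820d4e04d5dcd02e.shift 1 0), (rh96d177a9882c6787.shift 0 1)] (by decide +kernel))
noncomputable def rh05736d6acff2422e : CRef := CRef.mk (Pat.mk 0xb0000000100000003000000000 0x10000000f0000001d0000000fc000001ef 5 9) 0 0 (step_sound _ 35 [(rh2e4411665b33ac0e.shift 1 0), rh3d164a09ad92dabc, (rhd5979d9ced4acd89.shift 2 0), (rhde10baa3043a2b46.shift 3 0)] (by decide +kernel))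
noncomputable def rha605764772ef473a : CRef := CRef.mk (Pat.mk 0x20000001e00000018000000000000000000000000 0x600000006000000060000001e0000001e0000000f0000000f00000008 5 5) 0 0 (step_sound _ 66 [(rh054b4055d420681e.shift 1 1), (rh4ebb7785c1ae9019.shift 0 1), rh8ec1d73f32a345b3, (rh95a80f84f48ac358.shift 1 1), (rhb11d41c808e1ab4d.shift 1 1)] (by decide +kernel))
noncomputable def rh9c72649774b912d5 : CRef := CRef.mk (Pat.mk 0x1e00000018000000000000000000000000 0x380000001e0000001f000000300000003000000010 5 6) 0 0 (step_sound _ 164 [(rh33e738c4ed385b9f.shift 1 4), rhcf7947f2b9d25bf5] (by decide +kernel))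
noncomputable def rh12ee68f5352939dd : CRef := CRef.mk (Pat.mk 0x800000008000000180000001800000000 0x140000001f000000380000001c000000f800000020 5 8) 0 0 (step_sound _ 132 [rh18572505c2536e63, (rh2f68792b6b779e96.shift 3 1)] (by decide +kernel))
noncomputable def rhf52ee8312a34cd21 : CRef := CRef.mk (Pat.mk 0x20000000600000012000000000000000000000000 0x5000000070000000700000006000000060000001e000000070000000300000002 5 5) 0 0 (step_sound _ 193 [rh5d142d6bb7be033f, (rhc85cc95794737cf7.shift 0 3), (rhd4b4beefcd67f51e.shift 1 2)] (by decide +kernel))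
noncomputable def rh41fb069a9b145d52 : CRef := CRef.mk (Pat.mk 0x2000000060000001200000000000000000000000000000000 0x60000000600000006000000060000001e00000003000000070000000700000004 5 5) 0 0 (step_sound _ 97 [(rh0831436ee42a9467.shift 0 2), rh218cd2e070c414fb, (rha707fb719e87fe6e.shift 1 2)] (by decide +kernel))
noncomputable def rh19f54e657f055cd8 : CRef := CRef.mk (Pat.mk 0xbc00000000 0x7000000ff00000038 5 8) 0 0 (step_sound _ 65 [(rh3f8766e6ecb455ce.shift 1 1), rh8cd0d3e12fc7abe8] (by decide +kernel))
noncomputable def rh71587219d01155f6 : CRef := CRef.mk (Pat.mk 0xbc00000000 0xff0000003f 5 8) 0 0 (step_sound _ 1 [(rh80fcd6d0a18cb2dd.shift 1 0), rheeef459075011f45] (by decide +kernel))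
noncomputable def rh03c35bfefac618e4 : CRef := CRef.mk (Pat.mk 0x2000000bc00000000 0x3000000ff0000003b 5 8) 0 0 (step_sound _ 33 [(rh3244c3cc8379b070.shift 0 1), rh8f17fc2010aa48d0] (by decide +kernel))
noncomputable def rh9d523999c859b635 : CRef := CRef.mk (Pat.mk 0x20000001c000000080000000000000000 0x10000000330000001f000000180000000800000008 5 6) 0 0 (step_sound _ 97 [(rh3244c3cc8379b070.shift 0 3), rha95d08f4398e77ca] (by decide +kernel))
noncomputable def rhab0e37b52f061b7c : CRef := CRef.mk (Pat.mk 0x7c00000000 0x70000007f0000003c 5 7) 0 0 (step_sound _ 3 [rh55daa26adcd643af, (rheb0810cc63b001d8.shift 2 0)] (by decide +kernel))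
noncomputable def rh9afc1294c237a43d : CRef := CRef.mk (Pat.mk 0x3800000000 0xf0000007e000000ef 5 8) 0 0 (step_sound _ 34 [(rh0edd3afef6b5d7e0.shift 1 0), rh2cc7d62e70c02209, (rh3947d1dfff0afc6c.shift 1 0)] (by decide +kernel))
noncomputable def rhf0e49f0f068301ae : CRef := CRef.mk (Pat.mk 0x3800000000 0xf0000007e000000f7 5 8) 0 0 (step_sound _ 34 [rh2ba551de881ca4cd, rh2cc7d62e70c02209, (rh3947d1dfff0afc6c.shift 1 0), rh8195a2d7794c7cd2] (by decide +kernel))
noncomputable def rhb4c64d65c9e208f3 : CRef := CRef.mk (Pat.mk 0x20000001e00000002000000000000000000000000 0x400000006000000060000001e00000036000000070000000700000005 5 6) 0 0 (step_sound _ 100 [rh210813553596681c, (rhe25b0a99195a5d59.shift 1 3)] (by decide +kernel))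
noncomputable def rhc78293a107d406a3 : CRef := CRef.mk (Pat.mk 0x7c00000002 0x3c0000007f000000c3 5 8) 0 0 (step_sound _ 6 [(rhe25b0a99195a5d59.shift 3 0), rheba4198a8fb876bd] (by decide +kernel))
noncomputable def rhde6e174d8d21da38 : CRef := CRef.mk (Pat.mk 0x7c00000002 0x3c0000007f00000033 5 7) 0 0 (step_sound _ 33 [rh69b0642f384125a8, rheb0810cc63b001d8] (by decide +kernel))
noncomputable def rh2bd5622fc710d2dc : CRef := CRef.mk (Pat.mk 0x1800000018000000080000000800000000 0x640000003f0000001f000000180000001800000010 5 7) 0 0 (step_sound _ 97 [(rh1664e4b7c75eeaa3.shift 1 0), (rh6d571b54e8dd9e33.shift 0 3), (rh9cac931137f1cfa0.shift 0 1)] (by decide +kernel))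
noncomputable def rh303357b632e3846f : CRef := CRef.mk (Pat.mk 0x1800000018000000080000000000000000 0x8000000180000007c0000000f0000000c0000000c 5 7) 0 0 (step_sound _ 35 [(rh71222050f2c63a3a.shift 3 0), rh777b1608eac7f27b] (by decide +kernel))
noncomputable def rh727ca9a0fb85b171 : CRef := CRef.mk (Pat.mk 0x1000000018000000180000000800000000 0x80000000800000018000000180000007c0000001f00000004 5 7) 0 0 (step_sound _ 131 [rhb0de455c382c5b1c, (rhfc7c29d8e65d775f.shift 3 1)] (by decide +kernel))
noncomputable def rha8960136e287c8e2 : CRef := CRef.mk (Pat.mk 0x180000003800000000 0x18000000ff000000e7 5 8) 0 0 (step_sound _ 38 [rh058285cbe4247c2a, (rhf48373e13d2bc128.shift 3 1)] (by decide +kernel))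
noncomputable def rhbc6768bf1ed3529b : CRef := CRef.mk (Pat.mk 0x400000004000000060000000200000000 0xa0000000e0000000e000000070000003e0000000c 5 6) 0 0 (step_sound _ 34 [rh36d4d92ef3dad5f8, (rhc4055b4872d6fb38.shift 1 0)] (by decide +kernel))
noncomputable def rh0b0a3553a4c4768f : CRef := CRef.mk (Pat.mk 0x1000000018000000180000000800000000 0x80000002c0000003f0000001f0000001c000000fc00000024 5 8) 0 0 (step_sound _ 97 [rh06684c8288200ce9, (rh718933e317476327.shift 1 0), (rh7dcc577706dd2abd.shift 0 2)] (by decide +kernel))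
noncomputable def rh58bd7dc9a1c45763 : CRef := CRef.mk (Pat.mk 0x200000006000000020000000200000000 0x200000003000000070000000700000006000000060000000300000001 5 3) 0 0 (step_sound _ 0 [(rh3439abf423ee2a2a.shift 0 1), rh79877ebd3ef475dd] (by decide +kernel))
noncomputable def rh6007db7baa6ad637 : CRef := CRef.mk (Pat.mk 0x1800000018000000180000000000000000 0x4000000270000003f0000001f000000180000001000000010 5 6) 0 0 (step_sound _ 133 [(rha3774eaddfa491d5.shift 0 2), (rhb0c1e7919d9be92d.shift 3 0)] (by decide +kernel))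
noncomputable def rh1b0aa4285b0c792f : CRef := CRef.mk (Pat.mk 0x1c00000018000000000000000000000000 0x1800000018000000380000001f00000018000000300000003000000030 5 6) 0 0 (step_sound _ 68 [(rh3cb04db3dd2b6a55.shift 3 0), rh3eca660905602a30, (rhae1bcba6ae280830.shift 0 2)] (by decide +kernel))
noncomputable def rh8fbf6d3b4c127e0b : CRef := CRef.mk (Pat.mk 0x3800000018000000000000000000000000 0x1c0000001c0000001f00000038000000180000000c0000000c0000000c 5 6) 0 0 (step_sound _ 67 [(rh070eafe5b822ddc7.shift 0 2), (rhe5e848c436e5b70f.shift 2 0), (rhea7a1800d6f053bd.shift 3 0)] (by decide +kernel))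
noncomputable def rhdc3767e53610907b : CRef := CRef.mk (Pat.mk 0x8000000180000001e000000000000000000000000 0x60000001f0000001e0000001e0000000c0000000c0000000c 5 5) 0 0 (step_sound _ 66 [(rh42548283029e2a39.shift 2 0), rheb7a135e564f674e, (rhf9af042da61fc652.shift 2 0)] (by decide +kernel))
noncomputable def rh1240db73173a1a78 : CRef := CRef.mk (Pat.mk 0x7800000008 0xe70000007f00000038 5 8) 0 0 (step_sound _ 70 [(rh33e738c4ed385b9f.shift 3 1), rh9af14f7c56ee08f3] (by decide +kernel))
noncomputable def rh70bea581c679e3ad : CRef := CRef.mk (Pat.mk 0x200000006000000020000000000000000 0x500000007000000070000000600000006000000060000000600000006 5 3) 0 0 (step_sound _ 161 [(rh17ebc3e771625541.shift 1 0), (rhc85cc95794737cf7.shift 0 2), (rhd4b4beefcd67f51e.shift 1 1)] (by decide +kernel))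
noncomputable def rhb1a3ecf5ced5d620 : CRef := CRef.mk (Pat.mk 0x300000001c0000000800000000 0x6000000060000003e0000007c0000000f00000002 5 7) 0 0 (step_sound _ 98 [(rh0fe9ffd52e1cd12f.shift 1 1), (rh9f93e2b24091a43d.shift 1 1), rhf222870040a7c7c5] (by decide +kernel))
noncomputable def rh89c85f8a96a31d63 : CRef := CRef.mk (Pat.mk 0x180000000e000000000000000000000000 0x800000008000000180000003e0000007f0000001400000014 5 7) 0 0 (step_sound _ 100 [rh024032792f4e6cd0, (rh0edd3afef6b5d7e0.shift 0 2), (rhbbe16ff26f7822db.shift 1 0)] (by decide +kernel))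
noncomputable def rhe1a3e820b9828b5e : CRef := CRef.mk (Pat.mk 0x600000002000000020000000000000000 0x60000000600000002000000070000000700000005 5 3) 0 0 (step_sound _ 33 [(rh2f68792b6b779e96.shift 1 1), rhc9ac229b3c77cd55] (by decide +kernel))
noncomputable def rhbc6b0db242cc80f1 : CRef := CRef.mk (Pat.mk 0x180000000c000000000000000000000000 0x80000001f0000003f000000370000001000000010 5 6) 0 0 (step_sound _ 97 [(rh53b3c253cb0c65f4.shift 0 3), rhd653b0a23862ec68] (by decide +kernel))
noncomputable def rh6a6364a412ca78f1 : CRef := CRef.mk (Pat.mk 0x20000001600000002000000000000000000000000 0x1000000030000001f00000002000000030000000300000001 5 5) 0 0 (step_sound _ 160 [(rh2fe78cc5ca4405d8.shift 0 4), rh43d8dfd721575dfb] (by decide +kernel))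
noncomputable def rh3305cfcf3cde5cd2 : CRef := CRef.mk (Pat.mk 0x180000001e0000000000000000 0x30000000300000001f0000001e0000003800000008 5 6) 0 0 (step_sound _ 36 [rha7cb36a6213edff3, (rhe25b0a99195a5d59.shift 1 1)] (by decide +kernel))
noncomputable def rh7c03c6ac32870275 : CRef := CRef.mk (Pat.mk 0x800000078000000000000000000000000 0x800000008000000f80000007f000000380000001000000010 5 8) 0 0 (step_sound _ 68 [(rh41e5267f1849c6d4.shift 0 2), (rh5d54cb79a67f97ab.shift 3 0), (rha40d42a2e34c408d.shift 3 0)] (by decide +kernel))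
noncomputable def rhe499d382a3a4d134 : CRef := CRef.mk (Pat.mk 0x80000000c0000000c0000000800000000 0x140000003c0000000f0000000c0000000c00000004 5 6) 0 0 (step_sound _ 2 [(rh20ee5c2c4c3a9878.shift 0 1), (rh9e3edb185cc347de.shift 2 0)] (by decide +kernel))
noncomputable def rh49d174405348244d : CRef := CRef.mk (Pat.mk 0xe000000160000000000000000 0x8000000080000003c0000003f000000160000000400000004 5 6) 0 0 (step_sound _ 100 [(rh18965a982d73c794.shift 1 2), rh32d7223c72ad6738] (by decide +kernel))
noncomputable def rhf887170c3e2c5651 : CRef := CRef.mk (Pat.mk 0x8000000180000001800000000 0xc0000000c0000000f0000007c0000001800000008 5 7) 0 0 (step_sound _ 131 [(rh2145e1d24b96a57e.shift 3 1), rh692b2a08eaddb505] (by decide +kernel))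
noncomputable def rhc1934da05fab57f4 : CRef := CRef.mk (Pat.mk 0x80000001800000018000000000000000000000000 0x40000000f0000007c00000018000000180000001800000018 5 7) 0 0 (step_sound _ 36 [rh8dc67c40af20bac6, (rh9e07f76261b05888.shift 3 1)] (by decide +kernel))
noncomputable def rha9b2f8f9ac1d6b9e : CRef := CRef.mk (Pat.mk 0xc000000040000002c00000008 0x330000007e0000007c0000003e0000000c 5 7) 0 0 (step_sound _ 69 [(rh0946f2cb9a4f6fe4.shift 1 0), rh44342267c74ce3da, (rh9fa24003d8b4146c.shift 1 1), (rha3ca4086e697a698.shift 2 0), (rha8ad8d8976a37e2c.shift 1 0), (rhb9a51cd4ed6b104f.shift 1 0)] (by decide +kernel))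
noncomputable def rhf5118be9d3e38b2f : CRef := CRef.mk (Pat.mk 0x600000002000000060000000400000000 0xc0000000c0000003f0000003e0000000f0000000c00000008 5 6) 0 0 (step_sound _ 98 [(rh0ff7ca71cb891e23.shift 1 0), (rh184544a20610c98e.shift 0 1), (rh3e03b24069e6320e.shift 1 0)] (by decide +kernel))
noncomputable def rh0a570523157a4710 : CRef := CRef.mk (Pat.mk 0x3000000010000000b000000000 0x1ef000000fc000001d0000000f000000010 5 9) 0 0 (step_sound _ 99 [(rh261f868a429ae0e3.shift 3 0), rh3c854e66629c2f4d, (rh6ae1d99a9b0058f4.shift 2 0), (rhfe60bf5898282303.shift 1 1)] (by decide +kernel))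
noncomputable def rh26e467c6094a77d6 : CRef := CRef.mk (Pat.mk 0x120000000600000002000000000000000000000000 0x1000000070000001e0000000600000006000000070000000700000005 5 5) 0 0 (step_sound _ 65 [(rh02cdfe1ba2278b7c.shift 0 1), rh8cdd36b03d57a2f6, (rha707fb719e87fe6e.shift 1 1)] (by decide +kernel))
noncomputable def rh3e91f777b3c5c59c : CRef := CRef.mk (Pat.mk 0x1200000006000000020000000000000000 0x40000000700000007000000030000001e00000006000000060000000600000006 5 5) 0 0 (step_sound _ 161 [(rh1db71118bee297d0.shift 0 2), rhc343ab2d747dbce2, (rhd4b4beefcd67f51e.shift 1 1)] (by decide +kernel))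
noncomputable def rh01533231c0db6873 : CRef := CRef.mk (Pat.mk 0x8000000580000000800000000 0x80000000800000008000000780000001f00000014 5 7) 0 0 (step_sound _ 34 [rh15f2c4b4eb9acae9, (rh361cc68994bd8a63.shift 2 1)] (by decide +kernel))
noncomputable def rheab2d2e2cb553993 : CRef := CRef.mk (Pat.mk 0x8000000180000000c0000000800000000 0x8000000180000001f0000007c00000014 5 7) 0 0 (step_sound _ 2 [rh40d5f0580e634f07, (rh79877ebd3ef475dd.shift 2 0)] (by decide +kernel))
noncomputable def rh5b3c5ef7bbfbaadf : CRef := CRef.mk (Pat.mk 0xbc 0x3f000000ff 5 8) 0 0 (step_sound _ 33 [(rh3f8766e6ecb455ce.shift 1 0), rha49d7d8e130a2d39] (by decide +kernel))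
noncomputable def rh22d0a184a5809a60 : CRef := CRef.mk (Pat.mk 0xbc00000002 0x38000000ff00000063 5 8) 0 0 (step_sound _ 5 [(rhe25b0a99195a5d59.shift 2 0), rhe77d296d59445be7] (by decide +kernel))
noncomputable def rh2bd12bd0a937d1af : CRef := CRef.mk (Pat.mk 0x7e000000000000000000000000 0x80000001c0000007f000000300000001000000010 5 7) 0 0 (step_sound _ 68 [(rhe25b0a99195a5d59.shift 1 2), rhe43ed89caea3d56d] (by decide +kernel))
noncomputable def rha29d7998c3ed7ea4 : CRef := CRef.mk (Pat.mk 0x1e00000000 0x700000003e00000037 5 7) 0 0 (step_sound _ 1 [(rh47386f791a2c91d7.shift 1 0), rheb0810cc63b001d8] (by decide +kernel))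
noncomputable def rh9daa884125d639e8 : CRef := CRef.mk (Pat.mk 0x20000001e000000020000000000000000 0x50000000700000007000000360000001e000000060000000600000006 5 6) 0 0 (step_sound _ 132 [rh2b1c276a6b56355c, (rh33e738c4ed385b9f.shift 1 3)] (by decide +kernel))
noncomputable def rhb91ee4edcc676136 : CRef := CRef.mk (Pat.mk 0x800000008000000180000001800000000 0x1000000018000000180000001f0000003f00000064 5 7) 0 0 (step_sound _ 34 [(rh932754581e0f4330.shift 2 0), rhc57e375175472ace] (by decide +kernel))
noncomputable def rhfb3ed2f7dfde7274 : CRef := CRef.mk (Pat.mk 0x8000000080000001800000018000000000000000000000000 0x80000000c0000001f0000003c0000000c0000000c00000008 5 6) 0 0 (step_sound _ 66 [(rh79877ebd3ef475dd.shift 2 2), rh833e21fd28e210a9] (by decide +kernel))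
noncomputable def rh6cfc4bad07afb8e9 : CRef := CRef.mk (Pat.mk 0x800000008000000080000001800000000 0xc0000000c0000000f0000007c0000001800000008 5 7) 0 0 (step_sound _ 68 [(rh2145e1d24b96a57e.shift 3 1), rh692b2a08eaddb505] (by decide +kernel))
noncomputable def rhed148ebc08553f6a : CRef := CRef.mk (Pat.mk 0x8000000080000001e000000000000000000000000 0x20000000f0000003f0000001e000000070000000600000002 5 6) 0 0 (step_sound _ 129 [(rh3244c3cc8379b070.shift 0 3), rh5027d1cffcd04893] (by decide +kernel))
noncomputable def rh314fae144e0cf2a4 : CRef := CRef.mk (Pat.mk 0x8000000080000001c000000000000000000000000 0xc0000000c0000001f0000003c0000001c0000000c 5 6) 0 0 (step_sound _ 67 [(rhd1fa8140a3eb151f.shift 2 0), (rhdd954a6f2f77cc64.shift 0 1)] (by decide +kernel))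
noncomputable def rh3dbfc0f10ead0729 : CRef := CRef.mk (Pat.mk 0x8000000080000001c0000000800000000 0x40000000c0000000c0000001c0000001f00000017 5 5) 0 0 (step_sound _ 34 [(rh932754581e0f4330.shift 2 0), rhc6d4b397af50472c] (by decide +kernel))
noncomputable def rhfcfe407d15f4d8bc : CRef := CRef.mk (Pat.mk 0x1800000008000000080000000800000000 0xe4000000ff000001ff000000080000000c00000004 5 9) 0 0 (step_sound _ 133 [(rh18e155a35aa8a1a4.shift 2 1), (rh9099e5624e826e01.shift 0 1), rhaabc6f8103fee775, rhc8b6bc0be9b994f6] (by decide +kernel))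
noncomputable def rhcecc2531c7e0d7c1 : CRef := CRef.mk (Pat.mk 0x800000008000000180000001800000000 0x1000000018000000180000001f0000003f00000064 5 7) 0 0 (step_sound _ 65 [rh114380420d2c6317, (rhb32e821411fee84d.shift 1 0), (rhcd6baf37b3e5de21.shift 0 1)] (by decide +kernel))
noncomputable def rh72f6d536a45d5f74 : CRef := CRef.mk (Pat.mk 0xc0000000c0000000800000000 0x1c0000001c0000003c0000000f0000000c0000001800000010 5 6) 0 0 (step_sound _ 131 [(rh20ee5c2c4c3a9878.shift 0 1), (rh3e03b24069e6320e.shift 2 0), (rh7f9f3607ee25a93b.shift 2 1)] (by decide +kernel))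
noncomputable def rhf94c26c4747f4dc5 : CRef := CRef.mk (Pat.mk 0x8000000180000005800000010 0x2000000020000000ff000000ff0000005800000010 5 8) 0 0 (step_sound _ 69 [rh0776fb12a04abd29, (rhb762f327c85d41a0.shift 2 1), (rhce3c4e918b2b9681.shift 2 0)] (by decide +kernel))
noncomputable def rh7b808c690f0c0a21 : CRef := CRef.mk (Pat.mk 0xc00000008000000180000000800000000 0x100000003c0000000f0000001f0000003f00000016 5 6) 0 0 (step_sound _ 98 [rh140c38ccbbf6a2a2, rhe62a67d1fb42663c, rhfc588645a054f795] (by decide +kernel))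
noncomputable def rh56dd07b585470416 : CRef := CRef.mk (Pat.mk 0x180000001800000018000000000000000000000000 0x1000000010000000180000001f0000003f000000270000000400000004 5 6) 0 0 (step_sound _ 101 [rh2c94cac119825510, (rh571950d89739e871.shift 3 2)] (by decide +kernel))
noncomputable def rhd76d8903aff295b4 : CRef := CRef.mk (Pat.mk 0x180000001c000000000000000000000000 0x300000003000000030000000180000001f000000380000003800000018 5 6) 0 0 (step_sound _ 164 [(rh1e309b005ffa1b36.shift 3 1), (rh83b31e17e2bdf45f.shift 0 2), (rhc56f823419c7a996.shift 1 0)] (by decide +kernel))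
noncomputable def rh5d9170a57ecde6c9 : CRef := CRef.mk (Pat.mk 0x1800000038000000000000000000000000 0xc0000000c0000000c00000018000000380000001f0000001c0000001c 5 6) 0 0 (step_sound _ 163 [rh289b3ddd1d209975, (rh40f30c696fac1423.shift 2 0), (rh55a1f6c57a317ce6.shift 3 1)] (by decide +kernel))
noncomputable def rhba06ed6fca6de712 : CRef := CRef.mk (Pat.mk 0x1e0000001a000000000000000000000000 0x18000000180000003e0000001e0000001e000000070000000600000006 5 6) 0 0 (step_sound _ 98 [(rh543bd638c2d5bc08.shift 1 0), rh9a011a4d0ec8f646] (by decide +kernel))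
noncomputable def rhc351de4b4b7aea8e : CRef := CRef.mk (Pat.mk 0xe0000001a0000000000000000 0x4000000040000000c0000000e0000001e0000000f0000000a 5 5) 0 0 (step_sound _ 130 [rh6e90a8ee29ce3f22, (rh7d0322e2c55dccc0.shift 1 0), (rh7e1098702e50f2b0.shift 2 0), rhdc9c04356d8c439c] (by decide +kernel))
noncomputable def rh4f47baca4dbec3e3 : CRef := CRef.mk (Pat.mk 0x20000001e0000001200000000000000000000000000000000 0x200000012000000320000001e0000001e0000000f0000000f0000000700000005 5 6) 0 0 (step_sound _ 97 [(rh1fb98e13390916bd.shift 0 2), (rh7c836f2e0ccdad14.shift 1 0), (rh8cdd36b03d57a2f6.shift 0 1), rhf72e9f6382081269] (by decide +kernel))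
noncomputable def rhea7c18ace0512dd1 : CRef := CRef.mk (Pat.mk 0x90000000c0000000800000000 0x1c0000001e0000000f0000000c0000000c00000004 5 5) 0 0 (step_sound _ 131 [(rh03dfdf12d5937476.shift 2 0), (rh33e2e68d6dfbb63c.shift 0 1)] (by decide +kernel))
noncomputable def rhaa62ff1779c61f6f : CRef := CRef.mk (Pat.mk 0x120000001e000000020000000000000000 0x14000000160000001e0000003e0000000b0000000b 5 6) 0 0 (step_sound _ 68 [rha8785c78927ee064, (rhe25b0a99195a5d59.shift 1 2)] (by decide +kernel))
noncomputable def rhdf55791ced91357f : CRef := CRef.mk (Pat.mk 0x4000000040000000c0000000c00000000 0xa0000000f0000003c0000000e0000007c00000010 5 7) 0 0 (step_sound _ 131 [rh1f31bf584e9d3dcb, (rh2f68792b6b779e96.shift 2 1)] (by decide +kernel))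
noncomputable def rh2597a5b721912a63 : CRef := CRef.mk (Pat.mk 0x4000000040000000c0000000c00000000 0x180000003c0000000f0000000e0000007c00000010 5 7) 0 0 (step_sound _ 131 [(rh2f68792b6b779e96.shift 2 1), rh774af61f58f47c45] (by decide +kernel))
noncomputable def rhb7abec131b6f5b7f : CRef := CRef.mk (Pat.mk 0x18000000080000001800000010 0x1f0000000fc000000ff0000001c00000010 5 9) 0 0 (step_sound _ 101 [(rh135d882044ccd500.shift 2 0), (rh2820ca9a6c4f41b4.shift 0 2), (rhb610a44bb7d47cab.shift 2 0), (rhf0f55c4504412200.shift 0 2)] (by decide +kernel))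
noncomputable def rh7baecf5dc59b5e65 : CRef := CRef.mk (Pat.mk 0x20000000200000006000000000000000000000000 0x300000003000000070000000600000006000000060000000200000002 5 3) 0 0 (step_sound _ 193 [(rh55afc6a59410cf00.shift 1 2), rhd22b66c0f3e8b39b] (by decide +kernel))
noncomputable def rh1d18fc6dfa02cc53 : CRef := CRef.mk (Pat.mk 0x38000000180000000000000000 0x2000000020000000770000003f000000180000001000000010 5 7) 0 0 (step_sound _ 98 [(rh6eb76252a9026692.shift 2 0), (rhba89ab7cb81bcc90.shift 0 2)] (by decide +kernel))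
noncomputable def rh60e793e539983c24 : CRef := CRef.mk (Pat.mk 0xe0000001600000000 0x800000008000000380000003f0000001600000010 5 6) 0 0 (step_sound _ 68 [(rh18965a982d73c794.shift 1 1), rh6206d00fae46d42a] (by decide +kernel))
noncomputable def rh9c3e2adb59507ec9 : CRef := CRef.mk (Pat.mk 0x100000001e000000020000000000000000 0x3000000070000001f0000001e000000060000000600000002 5 5) 0 0 (step_sound _ 129 [(rh3244c3cc8379b070.shift 0 3), rhf7c9ddb911c4a3ce] (by decide +kernel))
noncomputable def rhe39c53d5658d2c68 : CRef := CRef.mk (Pat.mk 0x300000002c000000200000000000000000 0x40000000700000003c0000002f0000007c0000006800000040 5 7) 0 0 (step_sound _ 131 [(rh1ed7a3503fa50fc8.shift 0 3), (rh26c15e3faa95dd92.shift 0 1), (rh6e7e3cba669c167e.shift 2 0)] (by decide +kernel))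
noncomputable def rh5417bbcf6dc2c3fa : CRef := CRef.mk (Pat.mk 0x300000002000000020000000000000000 0x4000000070000000700000002000000060000000600000004 5 3) 0 0 (step_sound _ 33 [(rh50fbb5868c909700.shift 0 1), (rhced6d86d2069808b.shift 1 0)] (by decide +kernel))
noncomputable def rhf4208e92c6ad1776 : CRef := CRef.mk (Pat.mk 0x80000000b000000080000000000000000 0x1000000018000000180000000b0000001e0000001c00000014 5 5) 0 0 (step_sound _ 163 [(rh0c3873a75f5344d2.shift 0 1), (rh367118e0bf0473e0.shift 2 0), (rhc9de03f9731897d4.shift 3 0)] (by decide +kernel))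
noncomputable def rh1e92fa1688a0fa2d : CRef := CRef.mk (Pat.mk 0x100000001600000014000000000000000000000000 0x14000000160000003f0000003b0000000a00000002 5 6) 0 0 (step_sound _ 99 [rh9de5058cdf97d043, (rhf48373e13d2bc128.shift 1 3)] (by decide +kernel))
noncomputable def rhbacc8ceb5105d6bd : CRef := CRef.mk (Pat.mk 0x200000002c00000028000000000000000000000000 0xc0000003c0000002f00000078000000380000001800000010 5 7) 0 0 (step_sound _ 100 [rhad45f14da56c6966, (rhf48373e13d2bc128.shift 2 3)] (by decide +kernel))
noncomputable def rhfaa36835fe5bf956 : CRef := CRef.mk (Pat.mk 0x200000002c00000028000000000000000000000000 0x40000001c0000007c0000002f0000002c0000003c0000001c00000014 5 7) 0 0 (step_sound _ 163 [(rh2140e04d90a4f0d4.shift 2 0), (rh73f90196e9cc56f0.shift 2 2), (rhe33d9496e10d8eb0.shift 0 4)] (by decide +kernel))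
noncomputable def rh1be1a998e9fc0473 : CRef := CRef.mk (Pat.mk 0x80000000b0000000a000000000000000000000000 0xa0000000a0000000b0000001e000000060000000400000004 5 5) 0 0 (step_sound _ 98 [(rh4acb5ed9a4e192df.shift 1 0), (rhf48373e13d2bc128.shift 0 3)] (by decide +kernel))
noncomputable def rhb5e3b77d88ebb18d : CRef := CRef.mk (Pat.mk 0x200000000c00000008000000000000000000000000 0x40000001c0000007c0000000f0000000c0000001c0000001c00000014 5 7) 0 0 (step_sound _ 163 [(rh2140e04d90a4f0d4.shift 2 0), (rh6fce4132410535d0.shift 2 0), (rhe33d9496e10d8eb0.shift 0 4)] (by decide +kernel))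
noncomputable def rh5ae08a89ad16d113 : CRef := CRef.mk (Pat.mk 0x200000002c00000020000000200000000000000000 0x40000002c0000002f0000007c000000f80000005800000010 5 8) 0 0 (step_sound _ 99 [(rh174f5121708c891e.shift 2 1), (rh8c25cb665ab79ec0.shift 0 3), (rhbfc2752e88253928.shift 2 0)] (by decide +kernel))
noncomputable def rhb07459d32fcd03f0 : CRef := CRef.mk (Pat.mk 0x40000000400000007000000000000000000000000 0x80000000c0000000c000000070000001e0000000e0000000a 5 5) 0 0 (step_sound _ 66 [(rh367118e0bf0473e0.shift 1 0), (rhb379f99078aafa2d.shift 0 1), (rhc9de03f9731897d4.shift 2 0)] (by decide +kernel))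
noncomputable def rh85645a096b15ac73 : CRef := CRef.mk (Pat.mk 0x2c000000080000000000000000 0x4000000770000003e0000000f0000000800000008 5 7) 0 0 (step_sound _ 100 [(rh00f1bb10334541e3.shift 0 3), (rh2c1baeadcd4b32f5.shift 0 2), (rh2cc7d62e70c02209.shift 0 2), (rhb9dd680bb9375a9f.shift 1 0)] (by decide +kernel))
noncomputable def rh0267a59131e5b0ff : CRef := CRef.mk (Pat.mk 0x1000000008000000080000000a000000080000000000000000 0x800000018000000180000000c0000000c0000000f000000180000001800000010 5 5) 0 0 (step_sound _ 195 [rh0a7752e39cd85550, (rh2f68792b6b779e96.shift 3 3)] (by decide +kernel))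
noncomputable def rh6446c0b4359eb53c : CRef := CRef.mk (Pat.mk 0x80000000a0000000800000000 0x140000001c0000001c000000080000000f0000001e00000014 5 5) 0 0 (step_sound _ 131 [rhc32899ca69d8b859, (rhc85cc95794737cf7.shift 2 1)] (by decide +kernel))
noncomputable def rh42b4b1f70a40af50 : CRef := CRef.mk (Pat.mk 0x80000000b00000018000000000000000000000000 0x8000000eb0000007e000000ee0000000400000004 5 8) 0 0 (step_sound _ 98 [(rh09d4dfe75d4407d6.shift 0 3), (rh3a6b817682f21fb4.shift 1 0)] (by decide +kernel))
noncomputable def rhb031eb9cafb4b897 : CRef := CRef.mk (Pat.mk 0x300000002c0000002000000000 0x1000000010000000180000003c0000002f0000002800000028 5 6) 0 0 (step_sound _ 132 [(rh7b1f1fb55310c477.shift 4 0), rh9a366e202e4c713d] (by decide +kernel))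
noncomputable def rh0b045608cfe425df : CRef := CRef.mk (Pat.mk 0x300000002c000000200000000000000000 0x100000003c0000003f000000200000003000000010 5 6) 0 0 (step_sound _ 37 [(rh50fbb5868c909700.shift 4 1), rh650ed19754d54b54] (by decide +kernel))
noncomputable def rh5e2baed208bfe225 : CRef := CRef.mk (Pat.mk 0x10000000160000001400000000000000000000000000000000 0xa0000000e0000001e00000017000000160000001e0000000e0000000e0000000a 5 5) 0 0 (step_sound _ 98 [(rh12b4a26f370c6b53.shift 1 1), (rh55122b896fc1631c.shift 0 2), (rh7b24c4ccc068b0b2.shift 1 2), (rh8fb682efa3b47682.shift 1 0), (rhf9a6286f1d5377a2.shift 1 2)] (by decide +kernel))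
noncomputable def rh23198d40b0d0e9f8 : CRef := CRef.mk (Pat.mk 0x4000000280000002800000008000000000000000000000000 0x40000000440000006c000000780000002f0000007c000000f80000001000000010 5 8) 0 0 (step_sound _ 101 [(rh0f06ac4ba7e90f34.shift 2 1), rh1bf146767542bce1, (rh2322ab45583e9f4c.shift 2 2)] (by decide +kernel))
noncomputable def rh38d376a4a12b7bee : CRef := CRef.mk (Pat.mk 0x200000002000000020000000000000000 0x100000003000000030000000300000003000000070000000700000005 5 3) 0 0 (step_sound _ 161 [rh0c1c1b53bc5a1510, rh3181373a30ceb9e3, (rh565a0c22519f57e9.shift 0 1), rhcae87bda2c3c01d2] (by decide +kernel))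
noncomputable def rhcc2d5de9fe49a7fc : CRef := CRef.mk (Pat.mk 0x200000002000000020000000000000000 0x500000007000000070000000200000003000000070000000700000005 5 3) 0 0 (step_sound _ 161 [rh3181373a30ceb9e3, (rh402d223d12d7377d.shift 0 1), (rhc85cc95794737cf7.shift 0 2)] (by decide +kernel))
noncomputable def rhd903efb2e95aaa1e : CRef := CRef.mk (Pat.mk 0x1a0000000a000000020000000000000000 0x150000001f0000001f0000001a0000000b0000001e0000001e00000004 5 5) 0 0 (step_sound _ 67 [(rh1c365c76821ab000.shift 1 0), (rh215e11e099257d75.shift 3 1), rh69c25857e678d93e, (rh6d22e4af4868beec.shift 0 1)] (by decide +kernel))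
noncomputable def rh935652b7f34bc50f : CRef := CRef.mk (Pat.mk 0x1a000000020000000200000000 0x5000000070000000f0000001a000000030000000300000001 5 5) 0 0 (step_sound _ 129 [(rh330a005829cdd297.shift 0 1), rh402d223d12d7377d, rh565a0c22519f57e9] (by decide +kernel))
noncomputable def rh1f9030f13ae76ff9 : CRef := CRef.mk (Pat.mk 0x680000002800000008000000000000000000000000 0x400000004000000060000000680000002f0000007c000000f80000005000000010 5 8) 0 0 (step_sound _ 101 [(rh13a00653c6536dcd.shift 0 1), (rh215e11e099257d75.shift 5 2), rh5ea34e0a5987e837] (by decide +kernel))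
noncomputable def rhd604a45946391b98 : CRef := CRef.mk (Pat.mk 0x200000002000000020000000000000000 0x500000007000000070000000700000002000000060000000600000004 5 3) 0 0 (step_sound _ 161 [(rh3d0ad82b26bacea7.shift 0 1), (rhc4055b4872d6fb38.shift 0 1), (rhc9de03f9731897d4.shift 1 0), rhcae87bda2c3c01d2] (by decide +kernel))
noncomputable def rhdb5c904fa65ed71b : CRef := CRef.mk (Pat.mk 0x200000002000000020000000000000000 0x400000007000000070000000700000003000000030000000300000001 5 3) 0 0 (step_sound _ 161 [rh0c1c1b53bc5a1510, (rh20966da26a1c2ae8.shift 0 1), (rhc4055b4872d6fb38.shift 0 1)] (by decide +kernel))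
noncomputable def rh6e9279a976209a1d : CRef := CRef.mk (Pat.mk 0x200000002000000020000000000000000 0x500000007000000070000000200000003000000070000000700000005 5 3) 0 0 (step_sound _ 161 [rh3181373a30ceb9e3, (rh3d0ad82b26bacea7.shift 0 1), (rh565a0c22519f57e9.shift 0 1)] (by decide +kernel))
noncomputable def rh305e2adac1dc1b8b : CRef := CRef.mk (Pat.mk 0x100000002800000028000000080000000000000000 0x4000000440000007e0000003c0000002f0000007c0000007000000050 5 7) 0 0 (step_sound _ 69 [(rh164510e3b7baa136.shift 0 1), (rh642a7b2d193ef6bc.shift 3 0), (rh6671f38654124b28.shift 2 0), (rh88e77392c1128ef6.shift 1 1), (rh94a686022a09d363.shift 2 1)] (by decide +kernel))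
noncomputable def rh7801260c3fcc52c9 : CRef := CRef.mk (Pat.mk 0x100000002000000028000000080000000000000000 0x100000001000000030000000300000002f0000007c000000f000000040 5 8) 0 0 (step_sound _ 69 [(rh114f4abf4ea101c9.shift 4 1), rh36ab2ba4b2cbb68e, (rh843696907668fbcf.shift 2 1)] (by decide +kernel))
noncomputable def rh96384c67a424db5a : CRef := CRef.mk (Pat.mk 0x20000000200000002000000000000000000000000 0x500000007000000070000000600000002000000070000000700000005 5 3) 0 0 (step_sound _ 65 [rh3181373a30ceb9e3, rh367118e0bf0473e0, (rh3d0ad82b26bacea7.shift 0 1)] (by decide +kernel))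
noncomputable def rh279e1e37f8c97eba : CRef := CRef.mk (Pat.mk 0x20000000200000002000000000000000000000000 0x500000007000000070000000200000003000000070000000700000005 5 3) 0 0 (step_sound _ 65 [rh3181373a30ceb9e3, (rh3d0ad82b26bacea7.shift 0 1), (rh565a0c22519f57e9.shift 0 1)] (by decide +kernel))
noncomputable def rh8d8a44daa1ec6018 : CRef := CRef.mk (Pat.mk 0x8000000080000000a000000000000000000000000 0x40000000c0000000c0000000f0000001e0000001c00000014 5 5) 0 0 (step_sound _ 67 [(rh46baee19951a66e7.shift 2 0), (rh6aa5625770489e83.shift 2 0), (rh8cdd36b03d57a2f6.shift 2 0), (rhc32899ca69d8b859.shift 0 1)] (by decide +kernel))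
noncomputable def rhae2e2e50f5e6b353 : CRef := CRef.mk (Pat.mk 0x8000000080000000a00000000 0x140000001c0000001c000000080000007c0000000f00000004 5 7) 0 0 (step_sound _ 131 [(rh0fd870c734e6c513.shift 2 0), rh3689db93d6d3021f, (rh402d223d12d7377d.shift 2 0), (rh7ef5fa5c39f1c762.shift 2 1)] (by decide +kernel))
noncomputable def rhcf9a09b5cc7e90f7 : CRef := CRef.mk (Pat.mk 0x400000007000000020000000000000000 0xc0000000e0000000e000000070000001e0000000c00000004 5 5) 0 0 (step_sound _ 162 [rh144a868e56c42483, (rh5c5e593799055d58.shift 1 2)] (by decide +kernel))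
noncomputable def rhcb6ed17c1c9c9af5 : CRef := CRef.mk (Pat.mk 0x40000001400000014000000040000000000000000 0x80000001c0000001c000000170000003e0000007a00000020 5 7) 0 0 (step_sound _ 67 [(rh55afc6a59410cf00.shift 2 1), rhd69392d0442b2f37] (by decide +kernel))
noncomputable def rh88ae5303e8c6a7ec : CRef := CRef.mk (Pat.mk 0x160000001c000000000000000000000000 0x1600000016000000160000001c0000001f0000000e00000008 5 5) 0 0 (step_sound _ 67 [(rhc04acbc801fe9a40.shift 0 1), (rhcf80391c5046a495.shift 3 0)] (by decide +kernel))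
noncomputable def rh312d8ad87b97ae17 : CRef := CRef.mk (Pat.mk 0x8000000080000000a0000000800000000 0x100000001800000018000000080000001f0000001800000010 5 5) 0 0 (step_sound _ 36 [(rh50973ba4f36cba7d.shift 0 1), (rh55afc6a59410cf00.shift 3 0)] (by decide +kernel))
noncomputable def rh9cfa3da173bf06e5 : CRef := CRef.mk (Pat.mk 0x280000002800000028000000000000000000000000 0x20000000280000007f0000003e000000180000001000000010 5 7) 0 0 (step_sound _ 100 [(rh3e0b38310ac09007.shift 0 3), (rha56f4c4626a53b18.shift 3 0)] (by decide +kernel))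
noncomputable def rh7b78c6d1e2477a34 : CRef := CRef.mk (Pat.mk 0x140000001400000014000000000000000000000000 0x10000000140000003c0000001e0000000f0000000a0000000a 5 6) 0 0 (step_sound _ 99 [(rha56f4c4626a53b18.shift 2 0), rhe1a136e2584efaaa, (rhfafeb437ceb8396d.shift 3 0)] (by decide +kernel))
noncomputable def rh7d9c87addcb89777 : CRef := CRef.mk (Pat.mk 0x140000001400000014000000000000000000000000 0x1200000016000000160000001c0000000f0000000e0000000a 5 5) 0 0 (step_sound _ 66 [(rh0c1c1b53bc5a1510.shift 1 0), (rh3181373a30ceb9e3.shift 1 0), (rh7a45d140ef8bd2ef.shift 0 1), (rhcae87bda2c3c01d2.shift 1 0)] (by decide +kernel))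
noncomputable def rh4ffd1be13f1f8a3b : CRef := CRef.mk (Pat.mk 0x80000002800000028000000000000000000000000 0x40000000e0000007e0000003f0000000e0000000c00000004 5 7) 0 0 (step_sound _ 98 [(rh14b92085b87f2eff.shift 1 1), (rh629275bdc452af79.shift 1 0), (rh9f2591205204f08d.shift 2 3), (rhe33d9496e10d8eb0.shift 0 3)] (by decide +kernel))
noncomputable def rhf8fe0e537258690c : CRef := CRef.mk (Pat.mk 0x140000001400000014000000000000000000000000 0x10000000140000003e0000001e0000000b0000000a0000000a 5 6) 0 0 (step_sound _ 99 [rhe42899a825168d95, (rhfafeb437ceb8396d.shift 3 0)] (by decide +kernel))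
noncomputable def rhc8c04a3eb62a6e73 : CRef := CRef.mk (Pat.mk 0x80000002800000008000000000000000000000000 0x40000000f0000007c000000080000001c0000001c00000014 5 7) 0 0 (step_sound _ 67 [(rh0c1c1b53bc5a1510.shift 2 0), (rh3181373a30ceb9e3.shift 2 0), (rh7430a052bcb4bacd.shift 0 2), (rhcae87bda2c3c01d2.shift 2 0)] (by decide +kernel))
noncomputable def rhbdfba23297321f80 : CRef := CRef.mk (Pat.mk 0x140000001400000014000000000000000000000000 0x1000000014000000360000001e0000000f0000000a0000000a 5 6) 0 0 (step_sound _ 99 [(rha56f4c4626a53b18.shift 2 0), rhe42899a825168d95] (by decide +kernel))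
noncomputable def rha895b73c7bd9f964 : CRef := CRef.mk (Pat.mk 0x80000002800000020 0xf000000fc000001fc 5 9) 0 0 (step_sound _ 36 [(rh1561ff1fafeb7917.shift 2 0), (rha9fbfd4bb8cf890b.shift 0 1), (rhc21a95c499b3efdb.shift 2 0)] (by decide +kernel))
noncomputable def rh86e0e1c05d62c696 : CRef := CRef.mk (Pat.mk 0x1000000014000000140000001000000000 0x1000000010000000170000003f0000001800000008 5 6) 0 0 (step_sound _ 35 [(rh728be417877c0b2d.shift 0 1), (rh932754581e0f4330.shift 3 0)] (by decide +kernel))
noncomputable def rhc55c1d37f08df68a : CRef := CRef.mk (Pat.mk 0x200000002000000020000000000000000 0x500000007000000070000000700000002000000030000000300000001 5 3) 0 0 (step_sound _ 161 [rh0c1c1b53bc5a1510, rh367118e0bf0473e0, (rh7ef5fa5c39f1c762.shift 0 2)] (by decide +kernel))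
noncomputable def rh6c51d2eb64320f5b : CRef := CRef.mk (Pat.mk 0x200000002800000028000000000000000000000000 0x50000000780000002f0000007c000000700000007000000050 5 7) 0 0 (step_sound _ 69 [(rh3181373a30ceb9e3.shift 4 0), (rh5da74c997181eb33.shift 0 2)] (by decide +kernel))
noncomputable def rhd74849b00ff1cee4 : CRef := CRef.mk (Pat.mk 0x2000000030000000a0000000000000000 0x5000000070000000700000007000000030000001f0000000200000002 5 5) 0 0 (step_sound _ 68 [rh107c33abc44dc2a8, (rh5419adcd928dba20.shift 0 2)] (by decide +kernel))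
noncomputable def rh50f19319f6479173 : CRef := CRef.mk (Pat.mk 0x7000000040000000400000000 0xa0000000e0000001e000000070000000c0000000e0000000a 5 5) 0 0 (step_sound _ 130 [(rh4017de503635a93b.shift 0 1), (rh426f403fa814630c.shift 2 0), (rha06c4909f1a0e49c.shift 1 0)] (by decide +kernel))
noncomputable def rh2b6bee775441e2ac : CRef := CRef.mk (Pat.mk 0x100000001e000000100000000000000000 0x30000000340000001f0000001e0000001b0000000a00000002 5 6) 0 0 (step_sound _ 129 [(rh3244c3cc8379b070.shift 0 3), rh89834aef0d875a8b] (by decide +kernel))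
noncomputable def rhe417840bc2acfc23 : CRef := CRef.mk (Pat.mk 0x30000000a0000000200000000000000000000000000000000 0x1000000030000001e0000000600000003000000070000000700000004 5 5) 0 0 (step_sound _ 97 [(rh50fbb5868c909700.shift 0 3), rhf2134d14b7b2a553] (by decide +kernel))
noncomputable def rh0ffd795144266a6c : CRef := CRef.mk (Pat.mk 0xc0000002800000008000000000000000000000000 0x80000000c000000780000001f0000000c0000000400000004 5 7) 0 0 (step_sound _ 132 [rh528921958bcedb00, (rhf48373e13d2bc128.shift 2 4)] (by decide +kernel))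
noncomputable def rhc16ff4a493cc8cf5 : CRef := CRef.mk (Pat.mk 0xc000000280000000800000000 0x140000001c0000003c0000000f000000780000001c00000014 5 7) 0 0 (step_sound _ 131 [(rh20ee5c2c4c3a9878.shift 0 1), (rh7ef5fa5c39f1c762.shift 2 1), (rha69f04554756c3b5.shift 2 0)] (by decide +kernel))
noncomputable def rh5cfd0624f409392c : CRef := CRef.mk (Pat.mk 0x140000001c000000040000000000000000 0xc0000000c0000001c0000001c0000001f0000001e0000001e 5 5) 0 0 (step_sound _ 131 [rh13e54efef84ebbc5, (rh7f8bb07996f68c30.shift 1 0), (rhea7a1800d6f053bd.shift 2 0)] (by decide +kernel))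
noncomputable def rh69dfafc8162c56c8 : CRef := CRef.mk (Pat.mk 0x280000003800000008000000000000000000000000 0x80000000c0000003f000000380000001e0000001c0000001c0000000c 5 6) 0 0 (step_sound _ 100 [(rh3af54b5f78790764.shift 1 2), (rh3ebc98c19791ad58.shift 3 1), rh4afc61ff5e37b62a] (by decide +kernel))
noncomputable def rh3c4ab2804f1f5ce1 : CRef := CRef.mk (Pat.mk 0x80000003800000008000000000000000000000000 0x140000001f00000038000000080000001c0000001c00000014 5 6) 0 0 (step_sound _ 67 [(rh3181373a30ceb9e3.shift 2 0), (rh6789f6f2074baf8a.shift 0 1), (rha707fb719e87fe6e.shift 3 1)] (by decide +kernel))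
noncomputable def rhd11b5cc53827411c : CRef := CRef.mk (Pat.mk 0x140000001c000000040000000000000000 0x2000000020000000f0000001f0000001c000000040000000400000004 5 5) 0 0 (step_sound _ 131 [(rh5e8e503cdbced5c1.shift 0 2), rhda49d08e88765cc3, (rhea7a1800d6f053bd.shift 2 0)] (by decide +kernel))
noncomputable def rhaa42030ec58c6ff4 : CRef := CRef.mk (Pat.mk 0x2800000038000000000000000000000000 0x80000003f0000003e000000070000000400000004 5 6) 0 0 (step_sound _ 98 [(rh2591032a0e7f4182.shift 0 2), (rh4f129d8f37c2c70a.shift 1 0), (rh7fb660bc21ce4329.shift 0 3)] (by decide +kernel))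
noncomputable def rh9241cc058486cc88 : CRef := CRef.mk (Pat.mk 0x7800000000 0x70000007e000000e7 5 8) 0 0 (step_sound _ 6 [rh3f8463b1b243085b, (rhe25b0a99195a5d59.shift 3 0)] (by decide +kernel))
noncomputable def rh726c931d6c323733 : CRef := CRef.mk (Pat.mk 0x140000001c000000080000000000000000 0x1c000000ff000001df0000000800000008 5 9) 0 0 (step_sound _ 101 [rh642752d4da841eec, (rhaf9f2efc81a8312b.shift 1 2), (rhb4564b24112592e6.shift 2 2)] (by decide +kernel))
noncomputable def rh208e23c45702650b : CRef := CRef.mk (Pat.mk 0x40000001c00000008000000000000000000000000 0xc0000000c0000000c0000003c0000000f000000060000000600000006 5 6) 0 0 (step_sound _ 98 [(rh2d8abb7cdac0a219.shift 1 0), (rh4dc133ee0ba1420a.shift 0 3)] (by decide +kernel))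
noncomputable def rhe68c43c2407ca6f0 : CRef := CRef.mk (Pat.mk 0xa0000000e000000020000000000000000 0x20000000a0000003f0000003e0000003400000014 5 6) 0 0 (step_sound _ 66 [rh3464eab5c90daa28, (rh3ebc98c19791ad58.shift 1 0)] (by decide +kernel))
noncomputable def rh7f25d458aa6324fe : CRef := CRef.mk (Pat.mk 0x140000001c000000000000000000000000 0x4000000040000001c0000001f0000003f0000000200000002 5 6) 0 0 (step_sound _ 97 [(rh2ebbcfe90e0f250d.shift 0 2), rh3423e5ac208fb65b] (by decide +kernel))
noncomputable def rh7c4bbb87c968a67c : CRef := CRef.mk (Pat.mk 0x3c00000000 0xff000001fc 5 9) 0 0 (step_sound _ 38 [(rh0edd3afef6b5d7e0.shift 2 0), (rh4ad5fc38f1b69f65.shift 2 0), rh94c710ab1ea57720] (by decide +kernel))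
noncomputable def rh2df71e899982e6aa : CRef := CRef.mk (Pat.mk 0x180000000a00000008000000080000000000000000 0x800000008000000180000000f0000000c0000001c0000001800000018 5 5) 0 0 (step_sound _ 130 [(rh53b3c253cb0c65f4.shift 0 4), (rhcc935990d76b4797.shift 2 0)] (by decide +kernel))
noncomputable def rh14b2a9aeb9e37c73 : CRef := CRef.mk (Pat.mk 0x80000000a000000080000000800000000 0x140000001e0000000f000000080000000c00000004 5 5) 0 0 (step_sound _ 2 [(rh79877ebd3ef475dd.shift 2 0), (rh7e90affc6ee08a22.shift 0 1)] (by decide +kernel))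
noncomputable def rh5403d956def82fda : CRef := CRef.mk (Pat.mk 0x200000002000000020000000200000000 0x4000000070000000700000002000000030000000300000001 5 3) 0 0 (step_sound _ 32 [(rh7adda3dfe9451016.shift 0 1), rh932754581e0f4330] (by decide +kernel))
noncomputable def rh31e63ec8f15b2dba : CRef := CRef.mk (Pat.mk 0x18000000080000000a00000008 0x40000003f0000007f0000000b00000008 5 7) 0 0 (step_sound _ 98 [(rh2eddee460ee53bc0.shift 0 1), (rh50fbb5868c909700.shift 2 0)] (by decide +kernel))
noncomputable def rh79dc35826e629e92 : CRef := CRef.mk (Pat.mk 0x28000000380000002000000000 0x5000000070000000780000002f0000003c0000003000000010 5 7) 0 0 (step_sound _ 133 [(rh03dfdf12d5937476.shift 4 0), (rh7ef5fa5c39f1c762.shift 4 1), (rh8d0e031673c01724.shift 0 1)] (by decide +kernel))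
noncomputable def rh30585081fb74c5a8 : CRef := CRef.mk (Pat.mk 0x20000000200000002000000000000000000000000 0x500000007000000070000000300000002000000070000000700000005 5 3) 0 0 (step_sound _ 65 [rh0c1c1b53bc5a1510, rh8cdd36b03d57a2f6, (rhc85cc95794737cf7.shift 0 2), rhcae87bda2c3c01d2] (by decide +kernel))
noncomputable def rh495df8d261ec72c8 : CRef := CRef.mk (Pat.mk 0x2000000030000000200000000000000000000000000000000 0x10000000300000003000000030000000300000003000000070000000700000004 5 3) 0 0 (step_sound _ 97 [(rh0fd870c734e6c513.shift 0 2), (rhe286c75f2739cce2.shift 0 2), rhfaa2ea8d3894ed71] (by decide +kernel))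
noncomputable def rhba002723c790042e : CRef := CRef.mk (Pat.mk 0x80000002800000028000000040000000000000000 0x50000000780000007c0000002f000000780000006c0000004400000040 5 7) 0 0 (step_sound _ 165 [(rh6a53f30f9ea1efed.shift 2 1), (rh76f5053606c02db0.shift 0 1), (rh822c60d64322cb98.shift 2 0), (rha952ef69c1428d13.shift 2 1)] (by decide +kernel))
noncomputable def rh8d2cd766aba2c838 : CRef := CRef.mk (Pat.mk 0x400000008000000280000002800000000 0x500000007c0000007f0000002c0000002800000028 5 7) 0 0 (step_sound _ 132 [(rh2e02ae96d64880aa.shift 2 0), (rh88e9726e1d2c2c8d.shift 2 0), rhe76333e819872155] (by decide +kernel))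
noncomputable def rhc7dab9daa0b080bc : CRef := CRef.mk (Pat.mk 0x20000000b0000000a000000000000000000000000 0xd0000001f0000000b0000001e0000001a0000001200000010 5 5) 0 0 (step_sound _ 100 [(rh5419adcd928dba20.shift 0 3), rhc3b23dc7990b5783] (by decide +kernel))
noncomputable def rheeaae5fe538c6f4e : CRef := CRef.mk (Pat.mk 0x80000002c0000002800000000 0x140000001c0000007c0000002f0000002800000028 5 7) 0 0 (step_sound _ 130 [(rh616c75d1b5542aee.shift 2 1), rh956d5aec1a1e4135, (rhc17a6a02773cc5f6.shift 2 0), (rhf789f85c97b30c5e.shift 2 0)] (by decide +kernel))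
noncomputable def rhb5120a730dcb50d8 : CRef := CRef.mk (Pat.mk 0x800000008000000280000000000000000 0x140000001c0000001c000000080000007c0000000f00000004 5 7) 0 0 (step_sound _ 35 [(rh0fd870c734e6c513.shift 2 0), (rh20966da26a1c2ae8.shift 2 0), (rhc85cc95794737cf7.shift 2 1), rhc8fd50c44a2112a0] (by decide +kernel))
noncomputable def rh4cf1d5f47180b988 : CRef := CRef.mk (Pat.mk 0x20000000200000002000000000000000000000000 0x500000007000000070000000300000003000000030000000300000001 5 3) 0 0 (step_sound _ 65 [(rh0fd870c734e6c513.shift 0 1), (rh20966da26a1c2ae8.shift 0 1), rh6aa5625770489e83, (rhc85cc95794737cf7.shift 0 2)] (by decide +kernel))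
noncomputable def rh4fc3a67c575b1152 : CRef := CRef.mk (Pat.mk 0x200000002000000020000000000000000 0x500000007000000070000000300000002000000070000000700000005 5 3) 0 0 (step_sound _ 161 [rh3181373a30ceb9e3, rh6aa5625770489e83, (rhc85cc95794737cf7.shift 0 2), rhcae87bda2c3c01d2] (by decide +kernel))
noncomputable def rhe79f6f2decb02631 : CRef := CRef.mk (Pat.mk 0x80000000a00000006000000000000000000000000 0x8000000080000000f0000001e0000003c0000001400000014 5 6) 0 0 (step_sound _ 99 [(rh299a18a9bb09cab4.shift 0 2), rh2d71bfb3e5699952, (rhfafeb437ceb8396d.shift 2 0)] (by decide +kernel))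
noncomputable def rhd0097fc41668edf9 : CRef := CRef.mk (Pat.mk 0x100000005000000030000000000000000000000000 0x10000000100000007f0000007e0000000f0000000800000008 5 7) 0 0 (step_sound _ 99 [(rh30473dc56de15b6b.shift 0 2), (rh3d164a09ad92dabc.shift 0 2), (rha74cda93f6987eec.shift 1 2), (rhfafeb437ceb8396d.shift 3 0)] (by decide +kernel))
noncomputable def rhe5171f5ec52f9e89 : CRef := CRef.mk (Pat.mk 0x90000000c00000008000000000000000000000000 0x100000001c0000000f0000000c0000000c0000001c0000001c00000014 5 5) 0 0 (step_sound _ 67 [(rh8cdd36b03d57a2f6.shift 2 0), (rh9ed0193af4147ace.shift 0 1), (rhe286c75f2739cce2.shift 2 1)] (by decide +kernel))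
noncomputable def rhe786c96212407073 : CRef := CRef.mk (Pat.mk 0x200000006000000020000000200000000 0x60000000600000006000000070000003e0000000c 5 6) 0 0 (step_sound _ 34 [(rh55afc6a59410cf00.shift 1 0), rhca89228d51456c25] (by decide +kernel))
noncomputable def rh6ffcb84429904f53 : CRef := CRef.mk (Pat.mk 0xc000000080000000c00000004 0x20000001f0000007e0000000f00000004 5 7) 0 0 (step_sound _ 68 [rh13d54427c4631d50, (rh3e11480408ba39c3.shift 0 1), (rh4ca5dae25f5c14ff.shift 0 2)] (by decide +kernel))
noncomputable def rh1f1e653349ed4a10 : CRef := CRef.mk (Pat.mk 0x8000000080000000c000000040000000000000000 0x4000000060000001f0000003c0000000f0000007e0000001a00000018 5 7) 0 0 (step_sound _ 130 [(rh124052dc1b3819ff.shift 1 0), (rhad9e8d2ebfdbf25d.shift 0 1), rhe52b813a96e8d504, (rhf55e960decbfe488.shift 0 1)] (by decide +kernel))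
noncomputable def rhe835ed81138fa0e0 : CRef := CRef.mk (Pat.mk 0x800000008000000180000000c00000000 0x8000000080000001f000000ff000000f0 5 8) 0 0 (step_sound _ 36 [rh41af8696f4579ab3, (rh55afc6a59410cf00.shift 3 0)] (by decide +kernel))
noncomputable def rhf9113b572c78fba9 : CRef := CRef.mk (Pat.mk 0x80000001800000018000000100000000000000000 0x800000018000000ff000000ff0000000400000004 5 8) 0 0 (step_sound _ 98 [(rh08431d7c12d28f34.shift 1 0), (rhf56e6bc5d2f7fe77.shift 0 2), rhfefdd13a953a891c] (by decide +kernel))
noncomputable def rh56c8540ace51b267 : CRef := CRef.mk (Pat.mk 0xc0000000c0000000800000000 0x80000001c0000003c0000000f0000001c0000001800000010 5 6) 0 0 (step_sound _ 130 [(rh2145e1d24b96a57e.shift 2 1), rh77e68f229e542bff] (by decide +kernel))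
noncomputable def rh989ea5dc34865354 : CRef := CRef.mk (Pat.mk 0x1c00000018000000000000000000000000 0x1800000018000000380000001f00000018000000300000003000000030 5 6) 0 0 (step_sound _ 68 [(rh3cb04db3dd2b6a55.shift 3 0), (rhae1bcba6ae280830.shift 0 2), rhc665bdf6ab87ec80] (by decide +kernel))
noncomputable def rh2500a90cc8ef7ac5 : CRef := CRef.mk (Pat.mk 0x90000000c000000080000000000000000 0x40000001c0000001c000000180000000f0000000c0000000c0000000c0000000c 5 5) 0 0 (step_sound _ 163 [(rh03dfdf12d5937476.shift 2 1), rhc76c27cdb4043c57, (rhe8915d9db8b9f3f2.shift 2 2)] (by decide +kernel))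
noncomputable def rh6e3180f748a73e16 : CRef := CRef.mk (Pat.mk 0xf000000090000000000000000 0xc0000001c0000000f0000000f0000001c0000001c 5 5) 0 0 (step_sound _ 131 [(rh33e738c4ed385b9f.shift 0 3), rhf2c9e98e20c57a0a] (by decide +kernel))
noncomputable def rh8a2913b87a48309c : CRef := CRef.mk (Pat.mk 0x80000000f000000000000000000000000 0x100000001c0000001c0000000c0000000c0000000f0000001c0000000c0000000c 5 5) 0 0 (step_sound _ 163 [(rh156fc6e5108dea8d.shift 0 2), (rh281c6819542c66e6.shift 2 0), rh37aabad5c6ff43b9, (rhfafeb437ceb8396d.shift 2 0)] (by decide +kernel))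
noncomputable def rhedd5fbd699158c2a : CRef := CRef.mk (Pat.mk 0x1c0000000c0000000800000000 0xc0000000c0000000c0000001c0000000f0000007c00000010 5 7) 0 0 (step_sound _ 65 [(rh00ce1533870109ed.shift 1 0), (rh53b3c253cb0c65f4.shift 0 2)] (by decide +kernel))
noncomputable def rh6542b084897c4505 : CRef := CRef.mk (Pat.mk 0x1c0000000c000000000000000000000000 0x80000001c0000007f000000370000001000000010 5 7) 0 0 (step_sound _ 97 [(rh53b3c253cb0c65f4.shift 0 3), rhb7995f00ab02a5de] (by decide +kernel))
noncomputable def rh6f709f4357914b6d : CRef := CRef.mk (Pat.mk 0x38000000180000001000000000 0xc0000001f00000038000000380000001f00000004 5 6) 0 0 (step_sound _ 131 [(rh2145e1d24b96a57e.shift 3 1), rhae19bf54c38378fd] (by decide +kernel))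
noncomputable def rhd7f0ef4a91c0f8b4 : CRef := CRef.mk (Pat.mk 0x380000000800000010000000100000000000000000 0x28000000380000002f0000007c000000300000001000000010 5 7) 0 0 (step_sound _ 99 [(rh2145e1d24b96a57e.shift 3 2), rh7571ce46bcb9b97c] (by decide +kernel))
noncomputable def rh09f3b3513bb987a1 : CRef := CRef.mk (Pat.mk 0x1c0000000400000018000000000000000000000000 0xc0000000c0000000c0000001c0000001f00000078000000100000001000000010 5 7) 0 0 (step_sound _ 131 [(rh046c5eb18e55a239.shift 3 0), (rhc9428ff8564c0dea.shift 2 2), (rhfdaba9284cdfee4b.shift 0 3)] (by decide +kernel))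
noncomputable def rhca0cee37b802acd7 : CRef := CRef.mk (Pat.mk 0x1c000000040000001800000000 0xc0000000c0000000c0000001c0000000f0000007c00000010 5 7) 0 0 (step_sound _ 67 [(rh7fac0ba50ebd42b6.shift 2 0), (rha355876672dc863a.shift 0 1), (rhc9428ff8564c0dea.shift 2 0), rhfc2fa7d2f788329b] (by decide +kernel))
noncomputable def rh71b76e86293eaaff : CRef := CRef.mk (Pat.mk 0x38000000080000003000000000 0x1800000038000001ef000000fc000001e6 5 9) 0 0 (step_sound _ 35 [(rh00a187acd9599501.shift 2 0), (rhe550fa1cacc360f4.shift 1 0), (rhe75edc6582963f18.shift 1 0), (rhfd99604093c09fe0.shift 0 1)] (by decide +kernel))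
noncomputable def rha17dd1eeece49e7b : CRef := CRef.mk (Pat.mk 0x380000000800000018000000000000000000000000 0x28000000380000002f0000007c000000300000001000000010 5 7) 0 0 (step_sound _ 68 [(rh2145e1d24b96a57e.shift 3 2), rh7571ce46bcb9b97c] (by decide +kernel))
noncomputable def rhbdb6285aa78658b4 : CRef := CRef.mk (Pat.mk 0x38000000080000001800000000 0x40000000c0000001f000000380000000e0000007c00000004 5 7) 0 0 (step_sound _ 131 [(rh0fd870c734e6c513.shift 2 0), (rh79905f95cb2d899a.shift 0 1), (rhc6caea4112c2545d.shift 1 0)] (by decide +kernel))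
noncomputable def rh8bd5e2d88f2bcb88 : CRef := CRef.mk (Pat.mk 0x380000000800000018000000000000000000000000 0x3000000038000001ef000000fc000001f60000001400000014 5 9) 0 0 (step_sound _ 101 [(rh00a187acd9599501.shift 2 2), (rh510c42660c1ea792.shift 2 0), (rhb39d7c26da27ccad.shift 1 0), (rhfd99604093c09fe0.shift 0 3)] (by decide +kernel))
noncomputable def rhf94a2767e82b8339 : CRef := CRef.mk (Pat.mk 0x1c0000000c0000000800000000 0xc0000000c0000000c0000001c0000001f0000007800000010 5 7) 0 0 (step_sound _ 65 [(rh24a97d9f305cf032.shift 1 0), (rh53b3c253cb0c65f4.shift 0 2)] (by decide +kernel))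
noncomputable def rh5e0b07d5cb7e6d74 : CRef := CRef.mk (Pat.mk 0x70000000000000006000000000000000000000000 0x3000000070000000600000006000000070000000700000005 5 3) 0 0 (step_sound _ 129 [(rh046c5eb18e55a239.shift 1 0), rh8f2ec7d8df44323f, (rhab92366f0179162d.shift 0 1)] (by decide +kernel))
noncomputable def rhfa0408ebb8844a32 : CRef := CRef.mk (Pat.mk 0x200000002000000000000000300000000 0x1000000030000000300000002000000060000000700000005 5 3) 0 0 (step_sound _ 65 [rh8065c10b3cae6218, rh932754581e0f4330] (by decide +kernel))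
noncomputable def rhdc7484f27f14dc87 : CRef := CRef.mk (Pat.mk 0x2000000020000000300000000 0x1000000030000000300000002000000060000000700000005 5 3) 0 0 (step_sound _ 129 [rh8065c10b3cae6218, rh932754581e0f4330] (by decide +kernel))
noncomputable def rh19a2c768cce66d65 : CRef := CRef.mk (Pat.mk 0x70000000000000006000000000000000000000000 0x5000000070000000600000006000000070000000300000003 5 3) 0 0 (step_sound _ 65 [(rh02ef15e22aa7db92.shift 1 0), rh1175891b13b4515d, (rh5a4df29f20c07a62.shift 0 2)] (by decide +kernel))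
noncomputable def rhe677fc5d1092bc1c : CRef := CRef.mk (Pat.mk 0x80000001c000000080000000800000000 0x60000000f0000001c0000000e0000007c00000014 5 7) 0 0 (step_sound _ 34 [(rh932754581e0f4330.shift 2 0), rhe1f523da4fff994f] (by decide +kernel))
noncomputable def rh477ba152a6fca060 : CRef := CRef.mk (Pat.mk 0x100000001c000000000000001800000000 0x800000018000000180000001c000000f80000003f00000026 5 8) 0 0 (step_sound _ 68 [rh213f367a66b10f54, (rh51d88c43a6072807.shift 1 0), (rh54968f8c0e71a67e.shift 1 0), (rh8ddddf9cef9155e6.shift 3 0)] (by decide +kernel))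
noncomputable def rhfd3fb47e3e6e201a : CRef := CRef.mk (Pat.mk 0x200000002000000000000000600000000 0x5000000070000000700000002000000020000000700000005 5 3) 0 0 (step_sound _ 65 [rh3905ea413cf31557, (rh55afc6a59410cf00.shift 1 0)] (by decide +kernel))
noncomputable def rhae1e5503cccffac9 : CRef := CRef.mk (Pat.mk 0x2000000020000000600000000 0x5000000070000000700000002000000020000000700000005 5 3) 0 0 (step_sound _ 129 [rh3905ea413cf31557, (rh55afc6a59410cf00.shift 1 0)] (by decide +kernel))
noncomputable def rh74f054841498f34f : CRef := CRef.mk (Pat.mk 0xc000000080000000c0000000000000000 0x40000000c000000080000001f0000007800000010 5 7) 0 0 (step_sound _ 35 [(rh50fbb5868c909700.shift 2 1), rhcc2a2baa9246395a] (by decide +kernel))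
noncomputable def rh9b3949a83a0523a7 : CRef := CRef.mk (Pat.mk 0x8000000080000000c00000000 0x80000000800000008000000380000001f00000014 5 6) 0 0 (step_sound _ 131 [rh54968f8c0e71a67e, (rh932754581e0f4330.shift 2 0)] (by decide +kernel))
noncomputable def rhd2ff10260edff31e : CRef := CRef.mk (Pat.mk 0x700000002000000020000000000000000 0x20000000700000007000000070000000700000007 5 3) 0 0 (step_sound _ 33 [rh2e02ae96d64880aa, rhc9ac229b3c77cd55] (by decide +kernel))
noncomputable def rhbc7530b195d1e3dc : CRef := CRef.mk (Pat.mk 0x200000007000000020000000200000000 0x6000000060000000600000007000000070000000600000004 5 3) 0 0 (step_sound _ 2 [(rh39e6d1b68049e362.shift 0 1), (rhd3458b32566d63f7.shift 1 0)] (by decide +kernel))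
noncomputable def rhaa4c0f9cdfc30c2a : CRef := CRef.mk (Pat.mk 0x38000000000000001800000010 0x28000000380000006f000000fe0000007c 5 8) 0 0 (step_sound _ 67 [(rh2145e1d24b96a57e.shift 3 0), rh85aebd8c617736f7] (by decide +kernel))
noncomputable def rh003c50026a733951 : CRef := CRef.mk (Pat.mk 0x380000000000000018000000100000000000000000 0x28000000380000002f0000007c000000300000001000000010 5 7) 0 0 (step_sound _ 131 [(rh2145e1d24b96a57e.shift 3 2), rh7571ce46bcb9b97c] (by decide +kernel))
noncomputable def rh492c6ef99f369941 : CRef := CRef.mk (Pat.mk 0x18000000000000000c000000080000000000000000 0x1000000018000000f00000007f000000ff0000000800000008 5 8) 0 0 (step_sound _ 100 [(rh02ef15e22aa7db92.shift 3 0), (rh6b9df646b7babe1b.shift 0 2), (rhe78b37986e143ce6.shift 1 2)] (by decide +kernel))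
noncomputable def rha1927b25b3b75ca5 : CRef := CRef.mk (Pat.mk 0x1c000000080000000c0000000000000000 0x180000001c0000007c000000ff0000007000000030 5 8) 0 0 (step_sound _ 100 [(rh3e11480408ba39c3.shift 0 2), (rh645e136e7f4e2ccd.shift 2 0), (rhb6fc2c2dcd594eaf.shift 1 0), (rhea5ad313ff444aaf.shift 0 2)] (by decide +kernel))
noncomputable def rh110670f0a79398f0 : CRef := CRef.mk (Pat.mk 0x300000002000000030000000000000000000000000 0x30000001fe000000fe000001df0000004000000040 5 9) 0 0 (step_sound _ 99 [(rh11203abb954732bf.shift 2 0), (rh7f0f728c796044ac.shift 0 2), (rhb37e485dff1e07aa.shift 2 3), (rhb9216f5f29d394d8.shift 1 2)] (by decide +kernel))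
noncomputable def rh11f24f8f3ea594e5 : CRef := CRef.mk (Pat.mk 0x700000001000000030000000000000000000000000 0x10000000700000003f0000007e0000000f0000000800000008 5 7) 0 0 (step_sound _ 99 [(rh3d164a09ad92dabc.shift 0 2), (rhf18ef4a8fbb6690e.shift 0 2), (rhfafeb437ceb8396d.shift 3 0)] (by decide +kernel))
noncomputable def rh934dbe898941613b : CRef := CRef.mk (Pat.mk 0x80000001c000000000000000c00000000 0x140000001e0000001f0000001c0000000e0000007c00000010 5 7) 0 0 (step_sound _ 67 [(rh4a3d7c69087edf6b.shift 2 0), (rhc85cc95794737cf7.shift 2 1), rhe1f523da4fff994f] (by decide +kernel))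
noncomputable def rh6935910df20e9e36 : CRef := CRef.mk (Pat.mk 0x40000000c000000000000000600000000 0x4000000040000000c0000000c0000007c0000001f00000078 5 7) 0 0 (step_sound _ 35 [(rh85605263a07226a5.shift 0 1), (rh935da622f8ebc962.shift 2 0), (rh95a80f84f48ac358.shift 2 0), rhfc7222e14a194fa6] (by decide +kernel))
noncomputable def rhe58da03d70af26b1 : CRef := CRef.mk (Pat.mk 0x1000000038000000000000001800000000 0x1800000038000001fe0000007e000001e7 5 9) 0 0 (step_sound _ 37 [(rh5b603ec830095063.shift 2 0), (rh935da622f8ebc962.shift 4 0), rhac9ee2aeb2fe9ce0, (rhfc7222e14a194fa6.shift 2 0)] (by decide +kernel))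
noncomputable def rhd8822f443cb4eae8 : CRef := CRef.mk (Pat.mk 0x10000000380000000000000018000000000000000000000000 0x10000000140000003e000000380000002f0000007c000000640000000400000004 5 7) 0 0 (step_sound _ 131 [(rh263028e65b1ac528.shift 1 0), (rh9bc6128627c29644.shift 0 2), (rhbfb5770941270498.shift 3 3)] (by decide +kernel))
noncomputable def rhe1ab9087383ec344 : CRef := CRef.mk (Pat.mk 0x3800000000 0xf70000007e0000000f 5 8) 0 0 (step_sound _ 34 [rh2cc7d62e70c02209, (rh61325f73ebf98108.shift 0 1), (rhdd4fe9fd28ed4c0f.shift 1 0)] (by decide +kernel))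
noncomputable def rh3e8ec510d2e3b96c : CRef := CRef.mk (Pat.mk 0x6000000000000000700000000 0x3000000030000000700000006000000060000000700000005 5 3) 0 0 (step_sound _ 129 [(rh935da622f8ebc962.shift 1 0), (rh95a80f84f48ac358.shift 1 0), rh9632a0afe4554a72, rhbf726fa7097229f2] (by decide +kernel))
noncomputable def rha29d5822d7b96c87 : CRef := CRef.mk (Pat.mk 0x80000000000000003800000000 0x8000000080000001c7000000fe000001e7 5 9) 0 0 (step_sound _ 6 [(rh0c8c6ce6f623e21f.shift 3 0), rh3f8463b1b243085b, (rh71efda916732b25a.shift 2 0)] (by decide +kernel))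
noncomputable def rh6616dea3d4e50958 : CRef := CRef.mk (Pat.mk 0x1c00000000 0xf00000007e000000f7 5 8) 0 0 (step_sound _ 37 [(rh35e918dd76851f8c.shift 2 0), rh7654d7b92c96fe12, rh8195a2d7794c7cd2] (by decide +kernel))
noncomputable def rh3ac8e5a358239698 : CRef := CRef.mk (Pat.mk 0x8000000000000003800000000 0x8000000080000000f0000007e000000ef 5 8) 0 0 (step_sound _ 34 [(rh0edd3afef6b5d7e0.shift 1 0), rh2cc7d62e70c02209, (rh3947d1dfff0afc6c.shift 1 0), (rhab8fac7c98d4cbba.shift 1 0)] (by decide +kernel))
noncomputable def rh2e55b16067f66e42 : CRef := CRef.mk (Pat.mk 0x18000000000000001c0000000000000000 0x800000018000000f70000007e000000f000000020 5 8) 0 0 (step_sound _ 69 [(rh35e918dd76851f8c.shift 2 1), (rh5eadc9d00e5b3196.shift 1 0), (rh61325f73ebf98108.shift 0 2)] (by decide +kernel))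
noncomputable def rh5d106caabc08bd9b : CRef := CRef.mk (Pat.mk 0x8000000000000003800000000 0x800000008000000ef0000007e0000000f 5 8) 0 0 (step_sound _ 34 [rh2cc7d62e70c02209, (rhab8fac7c98d4cbba.shift 1 0), (rhb18e6c78a554867d.shift 1 1), (rhdd4fe9fd28ed4c0f.shift 1 0)] (by decide +kernel))
noncomputable def rh8180c371af7b3107 : CRef := CRef.mk (Pat.mk 0x1c00000000 0xe70000007e000000e7 5 8) 0 0 (step_sound _ 37 [(rh35e918dd76851f8c.shift 2 0), rh775ca1963e850b80] (by decide +kernel))
noncomputable def rh297ba229ff1b35d5 : CRef := CRef.mk (Pat.mk 0x8000000000000000e0000000000000000 0x8000000780000003f0000007700000010 5 7) 0 0 (step_sound _ 68 [rh0534d8a281156e73, (rh0edd3afef6b5d7e0.shift 0 1), (rhdd4fe9fd28ed4c0f.shift 0 1)] (by decide +kernel))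
noncomputable def rh60c3ee37c3885d14 : CRef := CRef.mk (Pat.mk 0x8000000000000001c00000000 0x8000000080000000f0000007e000000ef 5 8) 0 0 (step_sound _ 37 [(rh0edd3afef6b5d7e0.shift 1 0), rh2cc7d62e70c02209, (rh3947d1dfff0afc6c.shift 1 0), (rhab8fac7c98d4cbba.shift 1 0)] (by decide +kernel))
noncomputable def rh366d89bb85a37258 : CRef := CRef.mk (Pat.mk 0x10000000000000001c0000000000000000 0x100000007f0000007e000000e000000020 5 8) 0 0 (step_sound _ 69 [(rh0534d8a281156e73.shift 1 0), (rh3947d1dfff0afc6c.shift 1 1), (rh61325f73ebf98108.shift 0 2)] (by decide +kernel))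
noncomputable def rh386d9c139f00efd9 : CRef := CRef.mk (Pat.mk 0x4000000000000000e0000000000000000 0x400000004000000770000003e0000007700000002 5 7) 0 0 (step_sound _ 68 [(rh3947d1dfff0afc6c.shift 0 1), rhcfa1331ee75eea2b, (rhdd4fe9fd28ed4c0f.shift 0 1)] (by decide +kernel))
noncomputable def rh90f84fa48e1ba88e : CRef := CRef.mk (Pat.mk 0x10000000000000001c0000000000000000 0x10000000f70000007e0000006f00000020 5 8) 0 0 (step_sound _ 69 [(rh0534d8a281156e73.shift 1 0), (rh2cc7d62e70c02209.shift 0 1), (rhdd4fe9fd28ed4c0f.shift 1 1)] (by decide +kernel))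
noncomputable def rh518315ac19020dc3 : CRef := CRef.mk (Pat.mk 0x70000000000000003800000000 0x1000000010000000700000007f0000003e0000000f 5 7) 0 0 (step_sound _ 34 [rh2cc7d62e70c02209, (rh302b1df20b75da19.shift 1 0), (rh61325f73ebf98108.shift 0 1), rh7654d7b92c96fe12] (by decide +kernel))
noncomputable def rh0bed38e19bc6a190 : CRef := CRef.mk (Pat.mk 0xc000000000000000e0000000000000000 0x40000000c0000007f0000003f0000003700000010 5 7) 0 0 (step_sound _ 68 [rh0534d8a281156e73, (rhab8fac7c98d4cbba.shift 0 1), (rhdd4fe9fd28ed4c0f.shift 0 1)] (by decide +kernel))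
noncomputable def rh077b493769425a1e : CRef := CRef.mk (Pat.mk 0x7000000000000000300000000 0x3000000030000000700000007000000070000000700000005 5 3) 0 0 (step_sound _ 129 [rh00d6a6e3c7e3bb40, rh3a22e68ed53b502d, rhd2a5556f8f889ba0, rhecb97fed8c7f1286] (by decide +kernel))
noncomputable def rhfc4ab0aa94b716ab : CRef := CRef.mk (Pat.mk 0x38000000080000001800000000 0x1000000030000000380000002f0000007c00000038 5 7) 0 0 (step_sound _ 132 [rh69cbdfbecafaa00d, (rh71222050f2c63a3a.shift 3 0)] (by decide +kernel))
noncomputable def rhc0e65b1d83c4b720 : CRef := CRef.mk (Pat.mk 0x380000000000000018000000000000000000000000 0x10000000140000001f0000003800000008000000180000001c0000001c00000014 5 6) 0 0 (step_sound _ 131 [(rh215e11e099257d75.shift 3 2), (rh70e33bfdf511e144.shift 3 0), (rhb232fadadcf6cde8.shift 0 2), (rhe8f9550119ab603c.shift 3 1), (rhfa40f754f1f7b88f.shift 2 0)] (by decide +kernel))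
noncomputable def rh061431e2caa178d7 : CRef := CRef.mk (Pat.mk 0x3800000000 0x70000007e000000ff 5 8) 0 0 (step_sound _ 34 [(rh0edd3afef6b5d7e0.shift 1 0), rh2ba551de881ca4cd, rh2cc7d62e70c02209, rh8195a2d7794c7cd2] (by decide +kernel))
noncomputable def rh2c3b81b1e287dd2c : CRef := CRef.mk (Pat.mk 0x8000000000000000e000000000000000000000000 0x800000008000000780000003e000000770000001000000010 5 7) 0 0 (step_sound _ 100 [(rh35e918dd76851f8c.shift 1 2), (rh65b5ceb5fe90b1cc.shift 1 0), (rh8db7f7558b75b2b1.shift 0 2), (rhdd4fe9fd28ed4c0f.shift 0 2)] (by decide +kernel))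
noncomputable def rh9faaad443b3537a6 : CRef := CRef.mk (Pat.mk 0x60000000000000006000000000000000000000000 0x50000000700000007000000060000000300000007000000070000000700000005 5 3) 0 0 (step_sound _ 129 [(rh215e11e099257d75.shift 1 2), (rh96fbad571715fd8b.shift 0 2), (rhe8f9550119ab603c.shift 1 1), rhfa40f754f1f7b88f] (by decide +kernel))
noncomputable def rh3df77131b2c4d08a : CRef := CRef.mk (Pat.mk 0x3800000000000000180000000000000000 0x1800000038000000380000003c000000ff0000003400000010 5 8) 0 0 (step_sound _ 100 [(rh261f868a429ae0e3.shift 3 1), (rh435fb3ef4ac648b4.shift 3 0), (rh60ee202e31ad7bce.shift 0 1)] (by decide +kernel))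
noncomputable def rha8f4c0c7bec1fe1f : CRef := CRef.mk (Pat.mk 0x70000000000000003000000000000000000000000 0x10000000300000007000000070000000600000007000000070000000100000001 5 3) 0 0 (step_sound _ 129 [(rh261f868a429ae0e3.shift 0 2), rh281c6819542c66e6, (rh54a11c8c6848d893.shift 0 2)] (by decide +kernel))
noncomputable def rh04c36804ef651bcd : CRef := CRef.mk (Pat.mk 0x80000000c0000000900000000000000000000000000000000 0xc0000000c0000000c0000000c0000000f000000180000001c0000001c00000004 5 5) 0 0 (step_sound _ 99 [(rh5a26ed1c01b25f18.shift 2 0), (rhbe29b54a853e8f08.shift 0 2), (rhe286c75f2739cce2.shift 2 2)] (by decide +kernel))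
noncomputable def rhc995cbba2888a951 : CRef := CRef.mk (Pat.mk 0xf0000000800000000000000000000000000000000 0x40000000c0000001c0000000f0000000c0000000c0000001c0000001c00000014 5 5) 0 0 (step_sound _ 99 [(rh43d8dfd721575dfb.shift 2 0), rh5aedf4360cdad7f4, (rh6c7c0e518e45e0f5.shift 0 2), (rhd1779d7de7f8215b.shift 2 0), (rhfb21238adaac4bf0.shift 0 1)] (by decide +kernel))
noncomputable def rhafd2c574e64ff840 : CRef := CRef.mk (Pat.mk 0x90000000f000000000000000000000000 0x180000001c0000000f0000000f0000001c0000000c00000008 5 5) 0 0 (step_sound _ 67 [rh1dc98d0196bf4a4f, (rhe25b0a99195a5d59.shift 0 2)] (by decide +kernel))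
noncomputable def rhbed1c7fe9a6f0353 : CRef := CRef.mk (Pat.mk 0x6000000020000000300000000000000000000000000000000 0x400000006000000070000000300000002000000030000000300000001 5 3) 0 0 (step_sound _ 97 [(rh2f68792b6b779e96.shift 1 3), rh8fe6a7b93cc0af88] (by decide +kernel))
noncomputable def rhd24e2a27b0983afa : CRef := CRef.mk (Pat.mk 0x30000000000000002000000020000000000000000 0x5000000070000000600000002000000030000000300000001 5 3) 0 0 (step_sound _ 129 [rh367118e0bf0473e0, (rh50fbb5868c909700.shift 0 2)] (by decide +kernel))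
noncomputable def rh762cb33795dbd831 : CRef := CRef.mk (Pat.mk 0x60000000000000007000000000000000000000000 0x6000000060000000600000007000000070000000700000001 5 3) 0 0 (step_sound _ 129 [rh15590a39afd9a120, (rhde10baa3043a2b46.shift 0 2), (rhe8f9550119ab603c.shift 1 1)] (by decide +kernel))
noncomputable def rhd2ed914ab75787e4 : CRef := CRef.mk (Pat.mk 0x8000000080000001c0000000800000000 0x140000003c0000000f0000001c0000000f00000006 5 6) 0 0 (step_sound _ 130 [(rh50fbb5868c909700.shift 2 1), rh973167d6786c7b24] (by decide +kernel))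
noncomputable def rhacc85467945b1e05 : CRef := CRef.mk (Pat.mk 0xc00000004000000060000000000000000 0xa0000000f0000003c000000060000000400000004 5 6) 0 0 (step_sound _ 34 [(rh2f68792b6b779e96.shift 2 1), rhf177511f2b266add] (by decide +kernel))
noncomputable def rh26e6e0c91cf66a7c : CRef := CRef.mk (Pat.mk 0x18000000080000000c00000000 0x40000000f0000007c000000080000000c00000004 5 7) 0 0 (step_sound _ 131 [(rh932754581e0f4330.shift 2 0), (rhca405e350c462817.shift 0 1)] (by decide +kernel))
noncomputable def rh658731fa9e5ae3e9 : CRef := CRef.mk (Pat.mk 0xc000000000000000c000000080000000000000000 0x130000001f0000007c0000000c0000000c0000000c00000004 5 7) 0 0 (step_sound _ 131 [(rh1f3a6ba70a310ab1.shift 2 0), (rh4db5081f3e83463a.shift 0 1), (rh5eb116785a745a33.shift 1 1)] (by decide +kernel))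
noncomputable def rh3c039f69bca598a0 : CRef := CRef.mk (Pat.mk 0x2000000020000000700000000 0x70000000700000007000000070000000700000002 5 3) 0 0 (step_sound _ 129 [(rh2f6cd3183cec8379.shift 0 1), rhc4055b4872d6fb38] (by decide +kernel))
noncomputable def rh983bc432587f7996 : CRef := CRef.mk (Pat.mk 0x4000000040000000e0000000400000000 0x1a0000003f0000003f0000000e0000000c00000008 5 6) 0 0 (step_sound _ 131 [(rh2f68792b6b779e96.shift 2 1), rh7e93cab1fff43488] (by decide +kernel))
noncomputable def rhc6d67bcc8a73e5e1 : CRef := CRef.mk (Pat.mk 0x1000000018000000000000002800000000 0x7c000000fe0000006f0000002800000028 5 8) 0 0 (step_sound _ 67 [(rh71222050f2c63a3a.shift 3 0), rh98eeda96fd8e3365] (by decide +kernel))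
noncomputable def rhd92900e8344a2183 : CRef := CRef.mk (Pat.mk 0x1000000018000000000000002800000000 0x1000000010000000300000007c0000002f0000002800000028 5 7) 0 0 (step_sound _ 67 [rh69a090d1484f48a7, (rh71222050f2c63a3a.shift 3 0)] (by decide +kernel))
noncomputable def rha9a8c758b0abf1c2 : CRef := CRef.mk (Pat.mk 0x80000000c000000000000001000000000 0x800000008000000ff0000007f000000f00000001000000010 5 8) 0 0 (step_sound _ 100 [(rh3a463f8d3d15292d.shift 0 2), (rh588882c60a173ffc.shift 1 0), (rh95a80f84f48ac358.shift 3 0)] (by decide +kernel))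
noncomputable def rh0cf7c3f9079820de : CRef := CRef.mk (Pat.mk 0xc000000000000001c000000080000000000000000 0x100000003c0000000f0000001c0000001f0000001e00000014 5 6) 0 0 (step_sound _ 131 [(rh3181373a30ceb9e3.shift 2 0), (rh973167d6786c7b24.shift 0 1), (rha613ffd40b6c9d24.shift 2 0)] (by decide +kernel))
noncomputable def rhee6315aeb97d71d6 : CRef := CRef.mk (Pat.mk 0x6000000000000000c000000040000000000000000 0x80000001f0000007c0000000c0000000e0000000e0000000e 5 7) 0 0 (step_sound _ 163 [(rh02ef15e22aa7db92.shift 2 0), (rh7d7eaefe27cdd7b0.shift 2 2), rha34d670511270f6b, (rhf96ebf920e2b41e8.shift 1 0)] (by decide +kernel))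
noncomputable def rh7d9134d08a76b66e : CRef := CRef.mk (Pat.mk 0x300000000000000070000000200000000000000000000000000000000 0x300000007000000070000000600000006000000070000000300000001 5 3) 0 0 (step_sound _ 97 [rh15590a39afd9a120, (rh261f868a429ae0e3.shift 0 2), (rh582f02b62cc2c066.shift 0 2)] (by decide +kernel))
noncomputable def rhfa19e2c8322c0981 : CRef := CRef.mk (Pat.mk 0x18000000000000003800000010 0x1e70000007e000001fe0000003800000018 5 9) 0 0 (step_sound _ 101 [(rh7d7eaefe27cdd7b0.shift 4 0), (rhd39a9343b15da591.shift 2 0), rhf6a940288d7d08ea, (rhfb2dc840317dabeb.shift 2 0)] (by decide +kernel))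
noncomputable def rhbe09357e6e7404ff : CRef := CRef.mk (Pat.mk 0x180000000000000038000000100000000000000000 0x240000007c0000006f000000380000003e0000001400000010 5 7) 0 0 (step_sound _ 131 [rh1d114e90e09a2157, (rh79ad7b82ec8c35e2.shift 3 0), (rhb8b64e15c55b6665.shift 1 1)] (by decide +kernel))
noncomputable def rh665b7d72116ff4b2 : CRef := CRef.mk (Pat.mk 0x3800000000 0xf0000007e000000f7 5 8) 0 0 (step_sound _ 34 [rh008b05f4778dc30d, rh0d378fd9e8917c5a, rh2cc7d62e70c02209, (rh3947d1dfff0afc6c.shift 1 0)] (by decide +kernel))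
noncomputable def rh634280e6a4745af8 : CRef := CRef.mk (Pat.mk 0x38000000000000008000000000 0xef000000fe000001c70000008000000080 5 9) 0 0 (step_sound _ 134 [(rh30473dc56de15b6b.shift 0 2), (rh5d664ca4448c70a6.shift 3 0), (rhc0bb46660c04d705.shift 1 3)] (by decide +kernel))
noncomputable def rhaf82e51064254399 : CRef := CRef.mk (Pat.mk 0x3800000000 0xef0000007e0000000f 5 8) 0 0 (step_sound _ 34 [rh2cc7d62e70c02209, (rh3b00e9e9432b8f40.shift 1 0), (rhb18e6c78a554867d.shift 1 1)] (by decide +kernel))
noncomputable def rhdda0a731eaa343a8 : CRef := CRef.mk (Pat.mk 0x1c000000000000001000000000 0xe70000007e000000f70000001000000010 5 8) 0 0 (step_sound _ 101 [(rh008b05f4778dc30d.shift 0 2), (rh35e918dd76851f8c.shift 2 2), (rh4c496af6e2e9f8b2.shift 1 0), (rh775ca1963e850b80.shift 0 2)] (by decide +kernel))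
noncomputable def rhd5fdfece70121d4e : CRef := CRef.mk (Pat.mk 0x1c0000000000000010 0x20000000ef0000007e0000007000000010 5 8) 0 0 (step_sound _ 69 [(rh0d378fd9e8917c5a.shift 0 1), (rhb18e6c78a554867d.shift 1 2), (rhfab75c4621a59c2e.shift 1 0)] (by decide +kernel))
noncomputable def rh4e7fb0a7a1ddd126 : CRef := CRef.mk (Pat.mk 0x1c0000000000000010 0x20000000e00000007e0000007f00000010 5 8) 0 0 (step_sound _ 69 [(rh008b05f4778dc30d.shift 0 1), (rh3b00e9e9432b8f40.shift 1 1), (rhfab75c4621a59c2e.shift 1 0)] (by decide +kernel))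
noncomputable def rha9fd14151fe8bad8 : CRef := CRef.mk (Pat.mk 0xe00000000000000040000000000000000 0x2000000770000003e00000007000000040000000400000004 5 7) 0 0 (step_sound _ 132 [(rh3b00e9e9432b8f40.shift 0 3), rh84e2c0325879ff31, (rhb18e6c78a554867d.shift 0 4), (rhfcd0957979bf6d9d.shift 0 1)] (by decide +kernel))
noncomputable def rh3503f9a3f192de2b : CRef := CRef.mk (Pat.mk 0x1c00000000 0xef0000007e00000077 5 8) 0 0 (step_sound _ 37 [rh008b05f4778dc30d, rh2cc7d62e70c02209, (rhb18e6c78a554867d.shift 1 1)] (by decide +kernel))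
noncomputable def rh5e429b04a9d08485 : CRef := CRef.mk (Pat.mk 0x3800000000000000700000000000000000 0xf0000003e0000007f000000700000001000000010 5 7) 0 0 (step_sound _ 130 [(rh2cc7d62e70c02209.shift 0 3), (rh9be32beaf5c2fa0a.shift 1 0), (rhbf514b0117492d60.shift 1 0)] (by decide +kernel))
noncomputable def rh08c1feeebbd5fc90 : CRef := CRef.mk (Pat.mk 0x1c00000000 0xef0000007e0000000f 5 8) 0 0 (step_sound _ 37 [rh2cc7d62e70c02209, (rh3b00e9e9432b8f40.shift 1 0), (rhb18e6c78a554867d.shift 1 1)] (by decide +kernel))
noncomputable def rh1bd1a7afeb9051c0 : CRef := CRef.mk (Pat.mk 0x3000000000000000700000000000000000000000000000000 0x100000003000000070000000700000007000000070000000700000002 5 3) 0 0 (step_sound _ 97 [(rh0588d2c7f2cab5e9.shift 0 1), (rhab7bf266c6608c6c.shift 0 1), rhda87c0beeb733ee8, (rhdb2909ac5c854515.shift 0 3)] (by decide +kernel))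
noncomputable def rh53c1fc51923a8823 : CRef := CRef.mk (Pat.mk 0x180000000800000038000000000000000000000000 0x280000007c0000002f00000038000000300000001000000010 5 7) 0 0 (step_sound _ 68 [rh1d114e90e09a2157, (rh2145e1d24b96a57e.shift 3 2)] (by decide +kernel))
noncomputable def rhd201c38879a29b06 : CRef := CRef.mk (Pat.mk 0x180000000800000038000000000000000000000000 0x4000001e6000000fc000001ef00000038000000300000001000000010 5 9) 0 0 (step_sound _ 165 [(rh2820ca9a6c4f41b4.shift 0 4), (rh4e9d2d98dbed1e71.shift 1 2), (rh9c811058092aeaa2.shift 2 0), (rhdfe67b24fcc3b045.shift 2 4)] (by decide +kernel))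
noncomputable def rh3a824f5bfbbc8494 : CRef := CRef.mk (Pat.mk 0x3800000000 0xff0000007e00000007 5 8) 0 0 (step_sound _ 34 [(rh00f1bb10334541e3.shift 0 1), rh2c1baeadcd4b32f5, rh2cc7d62e70c02209, (rhb18e6c78a554867d.shift 1 1)] (by decide +kernel))
noncomputable def rh1825b12349a8faad : CRef := CRef.mk (Pat.mk 0xe000000000000000800000000 0x10000000770000003e000000780000000800000008 5 7) 0 0 (step_sound _ 100 [(rh2eb6cac0fecf3e9c.shift 0 2), (rh35e918dd76851f8c.shift 1 2), (rhc111b7216b72d2fb.shift 1 0), (rhf94411b389c3e54c.shift 0 3)] (by decide +kernel))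
noncomputable def rh04b88c995af2c8a3 : CRef := CRef.mk (Pat.mk 0x60000000000000006000000000000000000000000 0x50000000700000007000000070000000300000006000000070000000700000005 5 3) 0 0 (step_sound _ 129 [(rh70e33bfdf511e144.shift 1 0), (rhc0f6fe06378683f4.shift 0 2), rhd63e5c19147ed538, (rhe8f9550119ab603c.shift 1 1)] (by decide +kernel))
noncomputable def rh9b75cb68b42778c8 : CRef := CRef.mk (Pat.mk 0xc000000000000001c000000000000000000000000 0x1a0000003f0000003f0000001c0000001c0000001c00000010 5 6) 0 0 (step_sound _ 131 [(rh046c5eb18e55a239.shift 3 0), (rhba61acd9a87b90f0.shift 0 1), (rhde10baa3043a2b46.shift 2 2)] (by decide +kernel))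
noncomputable def rh0b5c45cefc1be50c : CRef := CRef.mk (Pat.mk 0x30000000000000007000000000000000000000000 0x3000000030000000200000007000000070000000700000005 5 3) 0 0 (step_sound _ 129 [rh281c6819542c66e6, (rhab92366f0179162d.shift 0 1), (rhde10baa3043a2b46.shift 0 2), rhe181d564227a886f] (by decide +kernel))
noncomputable def rh88cfda4d56a335b9 : CRef := CRef.mk (Pat.mk 0x2000000020000000600000000 0x70000000700000007000000070000000700000003 5 3) 0 0 (step_sound _ 129 [rh7b60db5db6f7d331, rhc4055b4872d6fb38] (by decide +kernel))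
noncomputable def rhbe6b72a3e5068dae : CRef := CRef.mk (Pat.mk 0x40000000c000000080000000c00000000 0x40000000f0000007e0000001f00000002 5 7) 0 0 (step_sound _ 68 [rh64f35c226fe67a4e, rha03bfacd308df03b, (rhdeca8db941583de2.shift 0 2), (rhea5ad313ff444aaf.shift 0 1)] (by decide +kernel))
noncomputable def rhbab545908239f779 : CRef := CRef.mk (Pat.mk 0x80000001800000010000000100000000000000000 0x30000000340000007c0000001e000000f80000003f0000000c00000008 5 8) 0 0 (step_sound _ 99 [rh07fdade4340cae78, (rh74e90413bd5343f9.shift 1 1), rhd9eed210d492b25a, (rhda30ab8c50a03cc1.shift 1 2)] (by decide +kernel))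
noncomputable def rhfc410cbb1aef1581 : CRef := CRef.mk (Pat.mk 0x80000001800000018000000000000000000000000 0x18000000180000007c0000000f0000000c0000000c 5 7) 0 0 (step_sound _ 67 [(rhb0de455c382c5b1c.shift 0 1), (rhbb83b53687587fb2.shift 2 0), (rhea7a1800d6f053bd.shift 3 0)] (by decide +kernel))
noncomputable def rh7a26b84408f5fe75 : CRef := CRef.mk (Pat.mk 0x80000001800000018000000000000000000000000 0x80000001f000000ff000000e70000000400000004 5 8) 0 0 (step_sound _ 101 [rh2c94cac119825510, (rh79b3c29022acbdf3.shift 2 3), (rh9a3074a8bfba6b6f.shift 0 2)] (by decide +kernel))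
noncomputable def rh53b41ce7e5e20f7e : CRef := CRef.mk (Pat.mk 0x8000000180000001800000000 0x800000008000000080000001f000000ff000000e7 5 8) 0 0 (step_sound _ 34 [(rh37d9ceebb86d75d1.shift 2 0), rh3b50022fa73ccc4f, rh41af8696f4579ab3] (by decide +kernel))
noncomputable def rh872c1b239a778866 : CRef := CRef.mk (Pat.mk 0x800000018000000080000001800000000 0x800000018000000ff000000ff000001c4 5 9) 0 0 (step_sound _ 37 [rh0956114827151fc1, (rh1aae126fdb0efa1d.shift 2 0), rh7ce307151020a294, (rhae7e98e196d5d6c2.shift 2 0), (rhfa8c7f01b0685da6.shift 1 0)] (by decide +kernel))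
noncomputable def rh1b42eec83454d699 : CRef := CRef.mk (Pat.mk 0x10000000180000001800000008 0x400000004000000ff000000ff0000001800000008 5 8) 0 0 (step_sound _ 66 [(rh34517e326ddb5b25.shift 0 1), (rhe1323e51c7b14ae8.shift 1 0), rheac93968ba841aec] (by decide +kernel))
noncomputable def rh80dd4b14aa606b5a : CRef := CRef.mk (Pat.mk 0x40000000600000006000000000000000000000000 0x80000000c0000000e000000070000003e0000000e00000004 5 6) 0 0 (step_sound _ 65 [(rh71222050f2c63a3a.shift 1 1), rhb6b14370d559cc09] (by decide +kernel))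
noncomputable def rhac03e173880b16fc : CRef := CRef.mk (Pat.mk 0xc0000000e000000000000000000000000 0x1800000018000000180000000c0000000f0000001c0000001c0000000c 5 5) 0 0 (step_sound _ 163 [(rh1e309b005ffa1b36.shift 2 1), (rh2393fd08fc2a6a29.shift 0 1), rhc56f823419c7a996] (by decide +kernel))
noncomputable def rh5698c57c28b4a78c : CRef := CRef.mk (Pat.mk 0x380000000c000000000000000000000000 0x1c0000001f0000003c0000000c0000000c0000000c00000004 5 6) 0 0 (step_sound _ 163 [(rh281c6819542c66e6.shift 2 0), (rh4026222baf5f003b.shift 0 1), (rhfafeb437ceb8396d.shift 2 0)] (by decide +kernel))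
noncomputable def rh232bf2ebf9889915 : CRef := CRef.mk (Pat.mk 0x20000000a0000000300000000 0x4000000070000000700000003000000060000001e0000000300000001 5 5) 0 0 (step_sound _ 129 [(rh7698605c01c21143.shift 0 1), rh932754581e0f4330] (by decide +kernel))
noncomputable def rhe2aeb87fac966524 : CRef := CRef.mk (Pat.mk 0x8000000280000000c00000000 0x4000000040000000c0000001f000000780000000c00000008 5 7) 0 0 (step_sound _ 68 [(rh18965a982d73c794.shift 2 1), rh5840dbfc019b4d17] (by decide +kernel))
noncomputable def rhecdd143104888d65 : CRef := CRef.mk (Pat.mk 0x40000001400000006000000000000000000000000 0xc0000003c000000070000003e0000000e0000000a 5 6) 0 0 (step_sound _ 66 [(rh00f02f6d7291dc0e.shift 1 0), (rh1861173042f24e9a.shift 0 1), (rh3181373a30ceb9e3.shift 1 0), (rh8027a5bd520e3737.shift 1 0)] (by decide +kernel))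
noncomputable def rh72f3f8c71dcad90d : CRef := CRef.mk (Pat.mk 0x40000001c00000014000000000000000000000000 0x1e0000001e0000001f0000001c0000001c0000000c0000000c00000004 5 5) 0 0 (step_sound _ 99 [(rh319540ef991e663b.shift 0 1), (rh55a1f6c57a317ce6.shift 2 1), (rhfe7da3c073d75bd5.shift 1 0)] (by decide +kernel))
noncomputable def rh0255e259d8391dd6 : CRef := CRef.mk (Pat.mk 0x800000038000000080000000000000000 0xc0000000c0000001c0000001e000000380000001f0000000c00000008 5 6) 0 0 (step_sound _ 132 [(rh5a9dd23916780b87.shift 0 1), (rhda49d08e88765cc3.shift 1 0), (rhea7a1800d6f053bd.shift 3 0)] (by decide +kernel))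
noncomputable def rhc9d9fb94d7ac68c4 : CRef := CRef.mk (Pat.mk 0x40000001c00000014000000000000000000000000 0x40000000c0000001c0000001f0000000f0000000e00000004 5 5) 0 0 (step_sound _ 99 [rh12008a569febfbdd, (rh55a1f6c57a317ce6.shift 2 1), (rhcd81cb1eedf15ca5.shift 0 2)] (by decide +kernel))
noncomputable def rh3402276e8137f1f9 : CRef := CRef.mk (Pat.mk 0xf0000000a0000000000000000 0x8000000f80000007f000000ee0000000400000004 5 8) 0 0 (step_sound _ 100 [(rh9890f9d77740bbed.shift 0 3), rha3866330d05cd2df, (rhca1e4df97f377a88.shift 1 2)] (by decide +kernel))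
noncomputable def rh4ed5cd493b308b21 : CRef := CRef.mk (Pat.mk 0x2c000000280000000000000000 0x4000000240000006f0000003e000000380000001800000018 5 7) 0 0 (step_sound _ 100 [(rhba50fd7aca570c30.shift 1 0), (rhd1d05263fabc0227.shift 0 2), (rhd5889c99d29bf7d6.shift 1 0)] (by decide +kernel))
noncomputable def rh0855e2a52f99b5f6 : CRef := CRef.mk (Pat.mk 0x2c000000280000000000000000 0x4000000070000003e0000003f0000000800000008 5 6) 0 0 (step_sound _ 100 [(rhb9dd680bb9375a9f.shift 1 0), (rhd1d05263fabc0227.shift 0 2), (rhdceeca65bdd8095a.shift 0 2)] (by decide +kernel))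
noncomputable def rh4caa02240afc8351 : CRef := CRef.mk (Pat.mk 0x20000000e0000000a0000000000000000 0x10000000340000003e0000003f0000000a0000000200000002 5 6) 0 0 (step_sound _ 130 [(rhea7a1800d6f053bd.shift 1 0), (rhf4ff21b4046eeb56.shift 0 2)] (by decide +kernel))
noncomputable def rh846fe2a2e37de5d5 : CRef := CRef.mk (Pat.mk 0x38000000280000000000000000 0x4000000240000006f0000003e000000380000001800000018 5 7) 0 0 (step_sound _ 98 [(rhba50fd7aca570c30.shift 1 0), (rhd1d05263fabc0227.shift 0 2), (rhd5889c99d29bf7d6.shift 1 0)] (by decide +kernel))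
noncomputable def rhb1e38f75b0ccde17 : CRef := CRef.mk (Pat.mk 0x8000000080000000a000000180000000000000000 0x18000000180000001c0000000c0000000f000000180000000800000008 5 5) 0 0 (step_sound _ 98 [(rh65348d474ffcdcda.shift 2 0), (rhb739f4f82bb681b4.shift 0 2)] (by decide +kernel))
noncomputable def rhab11cf463cf0b932 : CRef := CRef.mk (Pat.mk 0x1000000014000000100000001000000000 0x8000000180000001f000000300000001800000018 5 6) 0 0 (step_sound _ 3 [(rh79877ebd3ef475dd.shift 3 0), rhb484b2f7f9771e1a] (by decide +kernel))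
noncomputable def rh84c89e9021bb6aab : CRef := CRef.mk (Pat.mk 0x200000003800000028000000000000000000000000 0x10000000300000003c0000002f000000780000007000000050 5 7) 0 0 (step_sound _ 69 [(rh3181373a30ceb9e3.shift 4 0), (rhc42981b223c36d37.shift 0 1), (rhe286c75f2739cce2.shift 4 1)] (by decide +kernel))
noncomputable def rh242ee4615f20754e : CRef := CRef.mk (Pat.mk 0x1400000004000000040000000400000000 0x20000003e00000007000000040000000c0000000c 5 6) 0 0 (step_sound _ 3 [rh2ca6829cf8c2858b, (rhd3458b32566d63f7.shift 2 0)] (by decide +kernel))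
noncomputable def rh8b7c8fe1bd67b73a : CRef := CRef.mk (Pat.mk 0x200000003000000020000000000000000 0x10000000300000003000000030000000300000003000000030000000300000003 5 2) 0 0 (step_sound _ 161 [(rh03dfdf12d5937476.shift 0 1), rh51243668a0d18e2e, rh9ee82b97cdeec3bd] (by decide +kernel))
noncomputable def rhdcc2a343c3b5b8c5 : CRef := CRef.mk (Pat.mk 0x1400000014000000040000000200000000 0x1400000014000000140000003f0000003f00000028 5 6) 0 0 (step_sound _ 35 [(rh2f6cd3183cec8379.shift 1 1), rh646420a554b33481, (rhdc00b03058d32899.shift 2 0), rhe322c2de940e0a96] (by decide +kernel))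
noncomputable def rh469b4c58d61b7eca : CRef := CRef.mk (Pat.mk 0x400000028000000080000000800000000 0x40000000f0000007c000000080000001800000010 5 7) 0 0 (step_sound _ 131 [rh05f1ca4498dcb1f9, (rh50fbb5868c909700.shift 2 1)] (by decide +kernel))
noncomputable def rhe10583ed9e43bb4d : CRef := CRef.mk (Pat.mk 0x10000000a0000000a000000020000000000000000 0x10000000110000001b0000001e0000000b0000001e0000003e00000014 5 6) 0 0 (step_sound _ 67 [rh0f06ac4ba7e90f34, (rh2322ab45583e9f4c.shift 0 1), (rh2416aa61ab8e10c1.shift 0 1), rh749b9667ede37e67] (by decide +kernel))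
noncomputable def rhaae7382884d27345 : CRef := CRef.mk (Pat.mk 0xa0000000b0000000200000000 0x10000000120000001a0000001e0000000b0000001f0000000d 5 5) 0 0 (step_sound _ 100 [(rhb2a0b9ccfb5cecd5.shift 0 2), rhddb4a0ef75b6f42a] (by decide +kernel))
noncomputable def rhdf6496f5243b695d : CRef := CRef.mk (Pat.mk 0x1400000016000000040000000000000000 0x1400000014000000170000003e0000000f0000000a 5 6) 0 0 (step_sound _ 33 [(rh5ddbeed5d869bf16.shift 1 0), (rhbdfb121dfc6094f5.shift 1 0), (rhfe2da682bd6eedad.shift 0 1)] (by decide +kernel))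
noncomputable def rhe29e05a5feb87e56 : CRef := CRef.mk (Pat.mk 0x1a00000002000000020000000000000000 0x50000000f0000001a00000002000000070000000700000005 5 5) 0 0 (step_sound _ 161 [(rh330a005829cdd297.shift 0 2), rh8cdd36b03d57a2f6] (by decide +kernel))
noncomputable def rh8187d23f32e3fcc1 : CRef := CRef.mk (Pat.mk 0x6800000028000000080000000000000000 0x400000004000000068000000680000002f0000007c000000f800000050 5 8) 0 0 (step_sound _ 69 [rh13a00653c6536dcd, (rh164510e3b7baa136.shift 0 1), (rh1c365c76821ab000.shift 3 0), (rh215e11e099257d75.shift 5 1)] (by decide +kernel))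
noncomputable def rhf33b4d1956790f14 : CRef := CRef.mk (Pat.mk 0x200000002000000020000000000000000 0x500000007000000070000000200000003000000070000000700000005 5 3) 0 0 (step_sound _ 161 [(rh0fd870c734e6c513.shift 0 1), (rh402d223d12d7377d.shift 0 1), rh8cdd36b03d57a2f6, (rhc85cc95794737cf7.shift 0 2)] (by decide +kernel))
noncomputable def rhb18e4690f4c4cfff : CRef := CRef.mk (Pat.mk 0x6800000028000000080000000000000000 0x500000007000000070000000680000002f0000007c000000f800000050 5 8) 0 0 (step_sound _ 69 [rh13a00653c6536dcd, (rh215e11e099257d75.shift 5 1), (rh6d22e4af4868beec.shift 2 1), rhc16b154d96117f13] (by decide +kernel))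
noncomputable def rh8ae6eb1eb9da57a7 : CRef := CRef.mk (Pat.mk 0x20000000200000002000000000000000000000000 0x400000006000000060000000600000003000000070000000700000005 5 3) 0 0 (step_sound _ 65 [(rh20966da26a1c2ae8.shift 0 1), rh3181373a30ceb9e3, (rhc9de03f9731897d4.shift 1 0)] (by decide +kernel))
noncomputable def rh68b3f789a206c61d : CRef := CRef.mk (Pat.mk 0x180000002800000020000000000000000000000000 0x100000007c0000003f00000020000000300000003000000010 5 7) 0 0 (step_sound _ 165 [(rh2820ca9a6c4f41b4.shift 0 4), (rh43d8dfd721575dfb.shift 4 0)] (by decide +kernel))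
noncomputable def rh07f1275c1c8a4029 : CRef := CRef.mk (Pat.mk 0x300000005000000010000000000000000000000000 0xf0000007e0000007f00000010000000180000001800000008 5 7) 0 0 (step_sound _ 163 [(rh091d9d8e8cc09897.shift 3 1), (rh3f8463b1b243085b.shift 0 4), (rh43d8dfd721575dfb.shift 3 0), (rh55c5eddb525c81a1.shift 2 1), (rhc6be2ee08ede4beb.shift 1 4)] (by decide +kernel))
noncomputable def rh07fa505cdd9ea00a : CRef := CRef.mk (Pat.mk 0x20000000a0000000a000000020000000000000000 0x40000001e0000001e0000001a0000000b0000001e0000001e00000014 5 5) 0 0 (step_sound _ 163 [(rh28f7c203f178e979.shift 1 2), rhd6e5a9ce6b93fae8] (by decide +kernel))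
noncomputable def rhc96d8810fb47d1df : CRef := CRef.mk (Pat.mk 0x2000000030000000200000000000000000000000000000000 0x30000000300000003000000030000000300000003000000030000000300000001 5 2) 0 0 (step_sound _ 97 [(rh565a0c22519f57e9.shift 0 2), rh9d31e15352f55df1, (rhe286c75f2739cce2.shift 0 2)] (by decide +kernel))
noncomputable def rh1b118cbe0ebea9b9 : CRef := CRef.mk (Pat.mk 0xa0000000300000002000000000000000000000000 0x20000001f0000000300000007000000070000000700000005 5 5) 0 0 (step_sound _ 164 [rh0b06a33457de4f66, (rhb2a0b9ccfb5cecd5.shift 0 4)] (by decide +kernel))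
noncomputable def rh0b7b00169876e0a9 : CRef := CRef.mk (Pat.mk 0x20000001e000000000000000000000000 0x50000000700000007000000060000001e000000070000000600000006 5 5) 0 0 (step_sound _ 65 [rh2b1c276a6b56355c, (rheb0810cc63b001d8.shift 0 2)] (by decide +kernel))
noncomputable def rhcb23f9122b619e07 : CRef := CRef.mk (Pat.mk 0x80000000800000038000000000000000000000000 0x40000001c0000001c000000380000001f0000001c0000001c 5 6) 0 0 (step_sound _ 67 [(rh6aa5625770489e83.shift 2 0), (rh852e818bc8629e77.shift 0 1), (rh8cdd36b03d57a2f6.shift 2 0), (rhca18712e5e5c7b8f.shift 3 0)] (by decide +kernel))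
noncomputable def rh1aced7cf8335e708 : CRef := CRef.mk (Pat.mk 0x1c0000000c000000000000000000000000 0x60000000e0000000f0000001c0000000c0000000c0000000c0000000c 5 5) 0 0 (step_sound _ 66 [(rh208c73c66d2a62cd.shift 1 0), (rhdcaf1ec7c116ff42.shift 0 1), (rhea7a1800d6f053bd.shift 2 0)] (by decide +kernel))
noncomputable def rhac923301fd756f4a : CRef := CRef.mk (Pat.mk 0x200000006000000020000000000000000 0x500000007000000070000000200000006000000070000000700000005 5 3) 0 0 (step_sound _ 161 [(rh7ef5fa5c39f1c762.shift 0 2), rh8cdd36b03d57a2f6, (rhd4b4beefcd67f51e.shift 1 1)] (by decide +kernel))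
noncomputable def rhaf6c65f4605d8c8b : CRef := CRef.mk (Pat.mk 0x2800000028000000280000000000000000 0x40000000c0000004f0000007c0000002e0000003c0000003400000010 5 7) 0 0 (step_sound _ 163 [(rh0fd870c734e6c513.shift 2 1), (rh73ba6c579e4b229a.shift 1 1), (rh7430a052bcb4bacd.shift 0 2), (rhcb7e86a5e81c54a5.shift 2 0)] (by decide +kernel))
noncomputable def rh6d3d14eb9ae66914 : CRef := CRef.mk (Pat.mk 0x500000005000000050000000000000000 0xa0000000e0000000e0000000500000005000000070000000700000002 5 4) 0 0 (step_sound _ 33 [(rhbf86953346e76381.shift 1 1), rhe38ad39d05c44887] (by decide +kernel))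
noncomputable def rhd3d87e75558d45a5 : CRef := CRef.mk (Pat.mk 0x20000000a0000000a00000002000000000000000000000000 0xa0000000a0000001f0000007e0000003e0000001400000010 5 7) 0 0 (step_sound _ 99 [rh289a9faa53cb18d7, (rh96542b57e9ab27d3.shift 1 1), (rh9811135352b05f37.shift 0 2)] (by decide +kernel))
noncomputable def rh3055bcda618dd4ec : CRef := CRef.mk (Pat.mk 0x2000000028000000280000002000000000 0x50000000780000002f0000007c0000003000000010 5 7) 0 0 (step_sound _ 4 [(rh5da74c997181eb33.shift 0 1), (rh79877ebd3ef475dd.shift 4 0)] (by decide +kernel))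
noncomputable def rh7ed23c4e1cfbef80 : CRef := CRef.mk (Pat.mk 0x1e000000120000000000000000 0x6000000070000001e0000001e0000000700000007 5 5) 0 0 (step_sound _ 129 [(rh3244c3cc8379b070.shift 0 3), rhceadcece2e06eb7f] (by decide +kernel))
noncomputable def rh63018ab6247487c8 : CRef := CRef.mk (Pat.mk 0x2c00000038000000000000000000000000 0x10000000100000003c0000007c0000002f000000380000001f0000001c00000010 5 7) 0 0 (step_sound _ 163 [(rh4bcb18fc14cd73eb.shift 0 1), (rha768b229dc254047.shift 3 0), (rhc47f609b2fd0067e.shift 0 2), (rhe7b3cb943067fd4d.shift 0 1)] (by decide +kernel))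
noncomputable def rh3977edee8dda9b54 : CRef := CRef.mk (Pat.mk 0x30000000200000002000000000000000000000000 0x1000000070000000700000006000000030000000300000007000000070000000700000004 5 3) 0 0 (step_sound _ 193 [(rh19762886095df8b6.shift 0 3), (rh20966da26a1c2ae8.shift 0 2), (rh8cdd36b03d57a2f6.shift 0 1), rhfaa2ea8d3894ed71] (by decide +kernel))
noncomputable def rh518546a6809ccf8f : CRef := CRef.mk (Pat.mk 0xc000000080000000800000000 0x40000001c0000001c0000003c0000000f0000000c0000000c00000004 5 6) 0 0 (step_sound _ 131 [(rh19762886095df8b6.shift 2 1), (rh20966da26a1c2ae8.shift 2 0), (rh20ee5c2c4c3a9878.shift 0 1), (rh565a0c22519f57e9.shift 2 0), (rhc85cc95794737cf7.shift 2 1)] (by decide +kernel))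
noncomputable def rh7b6ccf80631e697d : CRef := CRef.mk (Pat.mk 0x1000000008000000280000002800000000 0x100000007c0000002f0000002800000028 5 7) 0 0 (step_sound _ 100 [rh04c5071cb5100cfe, (rh71222050f2c63a3a.shift 3 0)] (by decide +kernel))
noncomputable def rh8ffa8f5969d44369 : CRef := CRef.mk (Pat.mk 0x3800000020 0x700000003e00000067 5 7) 0 0 (step_sound _ 34 [rh7654d7b92c96fe12, (rhe25b0a99195a5d59.shift 2 0)] (by decide +kernel))
noncomputable def rh6087a4b086c68a12 : CRef := CRef.mk (Pat.mk 0x20000000200000007000000040000000000000000 0x40000000700000007000000070000001f0000001b00000003 5 5) 0 0 (step_sound _ 65 [(rh6bdb929a1a73e24b.shift 0 1), (rh7176a54275fd3e59.shift 0 1), rh8f3ff1f06441ae19, rhd1fa8140a3eb151f] (by decide +kernel))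
noncomputable def rh2819595a19b5fa31 : CRef := CRef.mk (Pat.mk 0x200000007000000040000000000000000 0xc0000001e000000070000000e0000000e0000000e 5 5) 0 0 (step_sound _ 34 [(rh7b1f1fb55310c477.shift 1 0), rhfdb1dff4519802f9] (by decide +kernel))
noncomputable def rh7ef4515e4cf2e66a : CRef := CRef.mk (Pat.mk 0x200000003000000020000000200000000 0x3000000030000000300000003000000030000000700000004 5 3) 0 0 (step_sound _ 2 [(rh79bf920132cab629.shift 0 1), (rhd3458b32566d63f7.shift 1 0)] (by decide +kernel))
noncomputable def rheb28a8ac830d3224 : CRef := CRef.mk (Pat.mk 0x140000001400000004000000000000000000000000 0x2000000060000001600000014000000370000003e0000001b0000000a0000000a 5 6) 0 0 (step_sound _ 99 [(rh191f0b20fb59d354.shift 0 2), rh198336ceab80f814, (rh96fbad571715fd8b.shift 1 2), rh9ccba12e5ed12512, (rhf888686ded5effa4.shift 2 0)] (by decide +kernel))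
noncomputable def rh68d48541bd3f106c : CRef := CRef.mk (Pat.mk 0x180000001c00000010 0x2000000020000000770000007f0000001c00000010 5 7) 0 0 (step_sound _ 69 [rh0776fb12a04abd29, (rh18965a982d73c794.shift 2 1)] (by decide +kernel))
noncomputable def rh9502a73726500a31 : CRef := CRef.mk (Pat.mk 0x30000000200000002000000000000000000000000 0x40000000600000006000000030000000300000007000000070000000700000001 5 3) 0 0 (step_sound _ 193 [(rh20966da26a1c2ae8.shift 0 2), (rh4dc330df97fccfba.shift 0 1), rh5a26ed1c01b25f18, (rh8cdd36b03d57a2f6.shift 0 1)] (by decide +kernel))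
noncomputable def rh50033f5bc8d7e23c : CRef := CRef.mk (Pat.mk 0x380000006800000000000000000000000000000000 0x10000000140000001f00000038000001e80000007c0000001c0000001c00000014 5 9) 0 0 (step_sound _ 99 [(rh7f36f639160ea2c8.shift 3 2), (rh998f9f61c36f0fe1.shift 2 0), (rhf917bbeedb4756d9.shift 0 2), (rhfa40f754f1f7b88f.shift 2 0)] (by decide +kernel))
noncomputable def rh6f44140e788283af : CRef := CRef.mk (Pat.mk 0x5800000018000000000000000000000000 0x30000000780000001f000000380000003800000038 5 7) 0 0 (step_sound _ 35 [rh10863a750668a450, (rh2c7fc7a7cc8a47be.shift 3 0), rhe82f3fda10522c6e] (by decide +kernel))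
noncomputable def rh2759b77842137355 : CRef := CRef.mk (Pat.mk 0x280000002c000000000000000000000000 0x80000003e0000003e000000770000000400000004 5 7) 0 0 (step_sound _ 100 [(rh2591032a0e7f4182.shift 0 2), (rh2ebbcfe90e0f250d.shift 1 2), (rh4f129d8f37c2c70a.shift 1 0)] (by decide +kernel))
noncomputable def rhf82f0dda0d15dbb5 : CRef := CRef.mk (Pat.mk 0x500000007000000020 0x70000001fe000001f7 5 9) 0 0 (step_sound _ 35 [rh125d4eaf14c79638, (rh3bd77ad381b0c7ec.shift 3 0), (rha03f6e28ea70fc7d.shift 2 0)] (by decide +kernel))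
noncomputable def rhcea7893e5c2331ef : CRef := CRef.mk (Pat.mk 0xa0000000a00000002000000000000000000000000 0x4000000070000000f0000001b00000006000000060000000600000004 5 5) 0 0 (step_sound _ 65 [rhcae87bda2c3c01d2, (rhced6d86d2069808b.shift 1 1), (rhe3ca3d7b4fee55d8.shift 0 2)] (by decide +kernel))
noncomputable def rh53184c363e9373c6 : CRef := CRef.mk (Pat.mk 0x80000000a0000001a00000000000000000000000000000000 0x140000001f0000001f0000000b0000001a0000000f000000070000000700000005 5 5) 0 0 (step_sound _ 97 [(rh432fa23f6add3573.shift 0 1), (rh84122a39d6427990.shift 0 2), (rha6a311f8ea7d5aec.shift 0 1), rhfa3fe75667f8f384] (by decide +kernel))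
noncomputable def rh74c0f4a8791a0c96 : CRef := CRef.mk (Pat.mk 0x200000002800000068000000000000000000000000 0x10000000140000005e0000007c0000002f000000680000007c0000007c00000054 5 7) 0 0 (step_sound _ 163 [(rh08ff1a9078a560c4.shift 2 0), (rh2ff636bca25f9b29.shift 2 0), (rh5500df95bcd0a978.shift 0 2), (rhbccd62fc0b48f4f2.shift 1 2), (rhe71984e1e06c53b9.shift 0 2)] (by decide +kernel))
noncomputable def rh6ff6372e0b739494 : CRef := CRef.mk (Pat.mk 0x20000000a0000000a000000010000000000000000 0x140000003e0000001e0000000b0000001e0000001b0000001100000010 5 6) 0 0 (step_sound _ 163 [(rh6a53f30f9ea1efed.shift 0 1), rh822c60d64322cb98, (rha952ef69c1428d13.shift 0 1), (rhce75c71b10208671.shift 0 1)] (by decide +kernel))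
noncomputable def rh435ed05552cf177d : CRef := CRef.mk (Pat.mk 0xa0000000a0000000a000000000000000000000000 0x140000001c0000001e0000000a0000000b0000001f000000190000001100000001 5 5) 0 0 (step_sound _ 195 [rh0a93c3a226ab5515, (rh7ef5fa5c39f1c762.shift 2 3)] (by decide +kernel))
noncomputable def rh78a3247f8a109a20 : CRef := CRef.mk (Pat.mk 0x28000000280000002800000000 0x5000000070000000f00000007c0000002f0000007800000040 5 8) 0 0 (step_sound _ 133 [(rh7ef5fa5c39f1c762.shift 4 1), rhebb08da54ae1dbff, (rhf1422681c6b900c2.shift 2 1)] (by decide +kernel))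
noncomputable def rh6d0963c6d7876be9 : CRef := CRef.mk (Pat.mk 0x200000002000000020000000000000000 0x500000007000000070000000700000002000000060000000600000004 5 3) 0 0 (step_sound _ 161 [rh46baee19951a66e7, (rh7ef5fa5c39f1c762.shift 0 2), (rhec588a0d7783acc6.shift 1 0)] (by decide +kernel))
noncomputable def rhac635d089a3d5e84 : CRef := CRef.mk (Pat.mk 0x280000002800000028000000000000000000000000 0x200000007c0000002f0000007c000000600000004000000040 5 7) 0 0 (step_sound _ 130 [(rh8c25cb665ab79ec0.shift 0 3), (rha66e4e5ada000089.shift 2 0), (rhe33d9496e10d8eb0.shift 0 4)] (by decide +kernel))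
noncomputable def rh6c1ccd5b9aa460c6 : CRef := CRef.mk (Pat.mk 0xa0000000a0000000a000000000000000000000000 0x140000001c0000001e0000001a0000000b0000001f000000190000001100000001 5 5) 0 0 (step_sound _ 195 [rh0a93c3a226ab5515, (rh7ef5fa5c39f1c762.shift 2 3), (rhec588a0d7783acc6.shift 3 1)] (by decide +kernel))
noncomputable def rha6d7fb6a4527ba30 : CRef := CRef.mk (Pat.mk 0x200000002000000020000000000000000 0x400000006000000060000000200000007000000070000000700000005 5 3) 0 0 (step_sound _ 161 [(rh20966da26a1c2ae8.shift 0 1), rh3181373a30ceb9e3, (rhced6d86d2069808b.shift 1 1)] (by decide +kernel))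
noncomputable def rh73a53390ced106f7 : CRef := CRef.mk (Pat.mk 0x200000002000000020000000000000000 0x500000007000000070000000300000006000000060000000600000004 5 3) 0 0 (step_sound _ 161 [(rhc85cc95794737cf7.shift 0 2), rhcae87bda2c3c01d2, (rhced6d86d2069808b.shift 1 1)] (by decide +kernel))
noncomputable def rh91d90f732136636c : CRef := CRef.mk (Pat.mk 0x400000014000000140000000400000000 0x40000001400000014000000f70000003e00000068 5 8) 0 0 (step_sound _ 35 [(rh55afc6a59410cf00.shift 2 0), rhb0253a3e7d0d0b81] (by decide +kernel))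
noncomputable def rh4aa40160b2df696f : CRef := CRef.mk (Pat.mk 0x2c000000080000000000000000 0x4000000770000003e0000000f0000000800000008 5 7) 0 0 (step_sound _ 100 [(rh61325f73ebf98108.shift 0 3), (rh7654d7b92c96fe12.shift 0 2), (rh775ca1963e850b80.shift 0 2), (rhb9dd680bb9375a9f.shift 1 0)] (by decide +kernel))
noncomputable def rh43a14fbdc7513b69 : CRef := CRef.mk (Pat.mk 0x1e00000016000000000000000000000000 0x10000000340000001e0000001e0000000b0000000a00000002 5 6) 0 0 (step_sound _ 164 [rh33739ad108f4ab8a, (rh33e738c4ed385b9f.shift 1 4)] (by decide +kernel))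
noncomputable def rh44cb360f95bc185f : CRef := CRef.mk (Pat.mk 0x1e000000040000000000000000 0x200000002000000070000001e000000340000000400000004 5 6) 0 0 (step_sound _ 68 [rhd5889c99d29bf7d6, (rhe25b0a99195a5d59.shift 1 2)] (by decide +kernel))
noncomputable def rhab885a1d9e7b2f11 : CRef := CRef.mk (Pat.mk 0xf0000000e00000000 0xc0000000c0000001c0000000f0000000e0000000a 5 5) 0 0 (step_sound _ 99 [(rh33e738c4ed385b9f.shift 0 2), (rh892ab8a2b117741d.shift 1 0)] (by decide +kernel))
noncomputable def rhcca3464bebcc772d : CRef := CRef.mk (Pat.mk 0x80000000c000000080000000c00000000 0x40000000c0000000c0000003c0000001f00000013 5 6) 0 0 (step_sound _ 130 [rh04c8e9e087c1fa01, (rh50fbb5868c909700.shift 2 1)] (by decide +kernel))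
noncomputable def rh7dc778365b5b14f7 : CRef := CRef.mk (Pat.mk 0x80000000c000000080000000c00000000 0x80000000f0000007e0000007e00000010 5 7) 0 0 (step_sound _ 36 [(rh22c629e4a6e420ad.shift 0 1), (rh55afc6a59410cf00.shift 3 0)] (by decide +kernel))
noncomputable def rh24d05497b5462530 : CRef := CRef.mk (Pat.mk 0x8000000180000001000000010000000000000000000000000 0x240000007c0000001e000000f80000003f0000006e0000000c00000008 5 8) 0 0 (step_sound _ 99 [(rh3510ab7567d2e047.shift 0 1), (rh7288738e7e470e0c.shift 0 2), (rhde0ae81b70105bed.shift 1 2), (rhfafeb437ceb8396d.shift 3 0)] (by decide +kernel))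
noncomputable def rhdddd600131b6e356 : CRef := CRef.mk (Pat.mk 0x20000000200000002000000000000000000000000 0x6000000060000000600000007000000070000000700000005 5 3) 0 0 (step_sound _ 65 [rh367118e0bf0473e0, rh8cdd36b03d57a2f6, (rhc9ac229b3c77cd55.shift 0 1), (rhc9de03f9731897d4.shift 1 0)] (by decide +kernel))
noncomputable def rh7f273392fbb88e77 : CRef := CRef.mk (Pat.mk 0x1000000010000000100000003800000000 0x200000003000000010000000ff0000007e00000007 5 8) 0 0 (step_sound _ 133 [(rh2f68792b6b779e96.shift 4 1), rh6119e99be32c3c3a] (by decide +kernel))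
noncomputable def rhbf7e826dc9370dfc : CRef := CRef.mk (Pat.mk 0x400000014000000040000000e00000000 0x80000000c0000001c000000770000003e00000070 5 7) 0 0 (step_sound _ 131 [(rh2f68792b6b779e96.shift 2 1), rh6293d88f3ea86f49] (by decide +kernel))
noncomputable def rh5b96553652227aff : CRef := CRef.mk (Pat.mk 0x800000008000000080000001c00000000 0x40000000c0000000c0000003e0000007f00000003 5 7) 0 0 (step_sound _ 130 [(rh50fbb5868c909700.shift 2 1), rhbef07ed30a8da009] (by decide +kernel))
noncomputable def rh0dbec2100d336153 : CRef := CRef.mk (Pat.mk 0x18000000500000001000000010 0x270000003e000000770000001000000010 5 7) 0 0 (step_sound _ 101 [(rh2f68792b6b779e96.shift 4 0), (rh3f8463b1b243085b.shift 0 2)] (by decide +kernel))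
noncomputable def rh4357bc4c604fe815 : CRef := CRef.mk (Pat.mk 0x20000000200000002000000000000000000000000 0x3000000030000000300000007000000070000000700000005 5 3) 0 0 (step_sound _ 65 [rh46baee19951a66e7, rh6aa5625770489e83, rh8cdd36b03d57a2f6, (rhc9ac229b3c77cd55.shift 0 1)] (by decide +kernel))
noncomputable def rh6065935af838fed8 : CRef := CRef.mk (Pat.mk 0x1e00000004000000000000000000000000 0x10000000380000001e0000003f000000380000001800000010 5 6) 0 0 (step_sound _ 100 [rh0322be6950086bf2, (rhe25b0a99195a5d59.shift 1 3)] (by decide +kernel))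
noncomputable def rh683f71ba10e07e25 : CRef := CRef.mk (Pat.mk 0x38000000080000000000000000 0x4000000770000003e0000000f0000000800000008 5 7) 0 0 (step_sound _ 98 [(rh61325f73ebf98108.shift 0 3), (rh7654d7b92c96fe12.shift 0 2), (rh775ca1963e850b80.shift 0 2), (rhb9dd680bb9375a9f.shift 1 0)] (by decide +kernel))
noncomputable def rhd05f0b12344e7002 : CRef := CRef.mk (Pat.mk 0x80000001c0000000c000000000000000000000000 0x8000000080000000c0000001c0000001f000000180000001800000008 5 5) 0 0 (step_sound _ 96 [(rh24ae073cf30720c4.shift 0 3), (rhccd9e2db9de096f0.shift 2 0)] (by decide +kernel))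
noncomputable def rh0852bf3bd0190474 : CRef := CRef.mk (Pat.mk 0x80000001c0000000c000000000000000000000000 0x18000000180000001c0000001c0000000f000000080000000800000008 5 5) 0 0 (step_sound _ 96 [(rh169a10e15cf40b85.shift 2 0), (rh24ae073cf30720c4.shift 0 3)] (by decide +kernel))
noncomputable def rhb7df97844926543e : CRef := CRef.mk (Pat.mk 0x80000001c0000000c0000000000000000 0x1800000018000000180000001c0000007f0000007000000010 5 7) 0 0 (step_sound _ 68 [rh1357d49ef66cf2d8, (rh55a1f6c57a317ce6.shift 3 0), (rhf965a04dd07383ce.shift 2 1)] (by decide +kernel))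
noncomputable def rh6c40585f68680b84 : CRef := CRef.mk (Pat.mk 0x80000001c0000000c000000000000000000000000 0x180000001c0000001f000000780000001800000008 5 7) 0 0 (step_sound _ 67 [(rh40d5f0580e634f07.shift 0 1), (rhb0c1e7919d9be92d.shift 2 0)] (by decide +kernel))
noncomputable def rh22ac53e49955bd2e : CRef := CRef.mk (Pat.mk 0x1000000038000000080000001800000000 0x30000000380000003f00000078000000e0 5 8) 0 0 (step_sound _ 37 [(rh935da622f8ebc962.shift 4 0), (rhbd3d56d68aaa590e.shift 0 1), (rhc7b77bdee57ef422.shift 2 0)] (by decide +kernel))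
noncomputable def rh4c34a26b98f01443 : CRef := CRef.mk (Pat.mk 0x38000000080000000000000000 0x4000000070000003e0000007f0000000800000008 5 7) 0 0 (step_sound _ 98 [(rh008b05f4778dc30d.shift 0 2), (rh0d378fd9e8917c5a.shift 0 2), (rh775ca1963e850b80.shift 0 2), (rhb9dd680bb9375a9f.shift 1 0)] (by decide +kernel))
noncomputable def rh97568930f8a11bd2 : CRef := CRef.mk (Pat.mk 0x10000000380000000800000008000000000000000000000000 0x40000001e000000380000003f0000007c000000300000001000000010 5 7) 0 0 (step_sound _ 100 [(rh046c5eb18e55a239.shift 3 0), (rh99b591344dbb0eed.shift 0 2), (rhc2f06c7a97a2ad79.shift 1 2)] (by decide +kernel))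
noncomputable def rhd1a4e8157d0a435e : CRef := CRef.mk (Pat.mk 0x1e00000004000000000000000000000000 0x70000001e0000003f000000030000000300000002 5 6) 0 0 (step_sound _ 97 [rh1aaa189d4f02b3a2, (rheb0810cc63b001d8.shift 0 3)] (by decide +kernel))
noncomputable def rh961709b306ffc224 : CRef := CRef.mk (Pat.mk 0xf0000000b0000000000000000 0x4000000040000001e0000000f0000000f0000001a0000001a 5 5) 0 0 (step_sound _ 131 [(rh33e738c4ed385b9f.shift 0 3), rh38ba892b2edb6461] (by decide +kernel))
noncomputable def rhc7ecaff2750491ff : CRef := CRef.mk (Pat.mk 0xc00000018000000100000001000000000 0x240000007c0000001e000000380000001f0000000c 5 7) 0 0 (step_sound _ 35 [(rhde0ae81b70105bed.shift 1 0), rhff9c0a7688d5638d] (by decide +kernel))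
noncomputable def rh009b9e9303d40e8b : CRef := CRef.mk (Pat.mk 0x3800000060000000400000000000000000 0x80000009c000000f80000007f0000007c0000005800000048 5 8) 0 0 (step_sound _ 99 [(rh70f299eb0feb11ea.shift 2 0), (rh87ab934dccf3be80.shift 2 0), (rhf0f55c4504412200.shift 0 3), (rhf2df2d8ed1ee06ea.shift 1 0)] (by decide +kernel))
noncomputable def rh9721e4ad2c83ac7e : CRef := CRef.mk (Pat.mk 0x1800000038000000200000000000000000 0x80000001e0000003f000000360000000400000004 5 6) 0 0 (step_sound _ 130 [rh9bc836a8979923b7, (rhb739f4f82bb681b4.shift 1 3)] (by decide +kernel))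
noncomputable def rhe22cb6204347b0c7 : CRef := CRef.mk (Pat.mk 0xc0000001c000000100000000000000000 0x60000000f0000001c0000003f0000000f0000000e 5 6) 0 0 (step_sound _ 67 [(rh3cb04db3dd2b6a55.shift 2 0), rh8efb1167143e9d1b, rh93ef6bf81f530cf5] (by decide +kernel))
noncomputable def rhe495a2971047fc4a : CRef := CRef.mk (Pat.mk 0x18000000380000002000000000 0x4000000060000007e0000003f0000003800000008 5 7) 0 0 (step_sound _ 66 [(rh19851a06bb997c71.shift 1 0), (rh8d917b916e5f3510.shift 0 1), (rhab2ad169e49f9c5e.shift 0 2)] (by decide +kernel))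
noncomputable def rh78fc03374949ac50 : CRef := CRef.mk (Pat.mk 0xc0000001c000000100000000000000000 0x220000007f0000001c000000fc0000001e0000001c 5 8) 0 0 (step_sound _ 35 [(rh1ea67c0a1ed603cb.shift 2 0), rh3f43f7848c6f36b2, rh659f7d67a4f94d02] (by decide +kernel))
noncomputable def rh1ae15448df673563 : CRef := CRef.mk (Pat.mk 0x3800000060000000400000000000000000 0x9c000000f80000007f000000cc0000004800000048 5 8) 0 0 (step_sound _ 99 [(rh1440f6a1c37c6417.shift 2 0), (rh87ab934dccf3be80.shift 2 0), (rhf0f55c4504412200.shift 0 3)] (by decide +kernel))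
noncomputable def rh443eba8ca20cd2ae : CRef := CRef.mk (Pat.mk 0xc000000180000001000000010000000000000000000000000 0x270000003f00000018000000380000001f0000000c0000000800000008 5 6) 0 0 (step_sound _ 99 [(rhfafeb437ceb8396d.shift 3 0), (rhfbccdf9a1a6e967b.shift 0 2), (rhff9c0a7688d5638d.shift 0 2)] (by decide +kernel))
noncomputable def rhd719f5eb9e288533 : CRef := CRef.mk (Pat.mk 0x1c000000300000002000000000 0xc0000000e0000007c0000003f000001f800000018 5 9) 0 0 (step_sound _ 67 [(rh26f820cb19a930a5.shift 1 0), (rhb49dd4c1c654d6df.shift 0 1), (rhc21a95c499b3efdb.shift 2 1)] (by decide +kernel))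
noncomputable def rh6494b3414d702e32 : CRef := CRef.mk (Pat.mk 0x160000000c0000000000000000 0x200000012000000330000001e0000003f0000000c00000008 5 6) 0 0 (step_sound _ 99 [(rh2ae694e25f74369c.shift 1 0), (rhee24d2c19eefd14b.shift 0 1)] (by decide +kernel))
noncomputable def rh60100dfffa99e1c2 : CRef := CRef.mk (Pat.mk 0x160000000c000000000000000000000000 0x10000000380000001e0000003f000000380000001800000010 5 6) 0 0 (step_sound _ 100 [rhb8d2417141105456, (rhf48373e13d2bc128.shift 1 3)] (by decide +kernel))
noncomputable def rh198b74f52ad8d71c : CRef := CRef.mk (Pat.mk 0x1e0000001c00000000 0x200000002000000030000001e0000001f00000007 5 5) 0 0 (step_sound _ 33 [(rh53b3c253cb0c65f4.shift 0 1), rhe4b795096bf5c3ed] (by decide +kernel))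
noncomputable def rh3a606291939d1fb9 : CRef := CRef.mk (Pat.mk 0x20000001e00000000 0xe60000007e000000e3 5 8) 0 0 (step_sound _ 0 [(rh1136b81d2c6924ee.shift 1 0), rh80fcd6d0a18cb2dd] (by decide +kernel))
noncomputable def rh05ef6f9a70b02425 : CRef := CRef.mk (Pat.mk 0x80000003800000010000000100000000000000000 0x18000000780000003e0000001f0000000c0000000c 5 7) 0 0 (step_sound _ 99 [(rh4dc133ee0ba1420a.shift 1 3), rh6855fc9e85954cf1] (by decide +kernel))
noncomputable def rh630c1dee165e2414 : CRef := CRef.mk (Pat.mk 0x400000005000000070000000200000000 0xa0000001e00000007000000070000001e0000000c 5 5) 0 0 (step_sound _ 34 [rh42afa1af9fffa0e1, rh516963541d5f8797] (by decide +kernel))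
noncomputable def rh927144a99fee2725 : CRef := CRef.mk (Pat.mk 0x80000000a000000080000000800000000 0x140000003c0000000f000000080000000c00000004 5 6) 0 0 (step_sound _ 2 [(rh53141e54dc480be0.shift 0 1), (rh79877ebd3ef475dd.shift 2 0)] (by decide +kernel))
noncomputable def rhfb4cef72887fe1a1 : CRef := CRef.mk (Pat.mk 0x200000002000000030000000200000000000000000000000000000000 0x200000002000000030000000300000007000000070000000700000001 5 3) 0 0 (step_sound _ 97 [(rh3181373a30ceb9e3.shift 0 1), (rh4d70d27262289c21.shift 0 1), rh5a26ed1c01b25f18, (rh7928877f9bf74a91.shift 0 2)] (by decide +kernel))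
noncomputable def rh6debbd67fcc4bc13 : CRef := CRef.mk (Pat.mk 0x380000001800000000 0x400000004000000070000003f0000001f00000008 5 6) 0 0 (step_sound _ 66 [(rh583cd2949503eb8f.shift 0 1), (rhba89ab7cb81bcc90.shift 0 1), (rhee24d2c19eefd14b.shift 1 0)] (by decide +kernel))
noncomputable def rh078cc55fbb23ddef : CRef := CRef.mk (Pat.mk 0x380000001c000000080000000000000000 0x20000000380000001c0000007c0000001f0000001c 5 7) 0 0 (step_sound _ 68 [rh74b24ff451159608, (rhb0c1e7919d9be92d.shift 3 0)] (by decide +kernel))
noncomputable def rh016c66bfcb5f9060 : CRef := CRef.mk (Pat.mk 0x380000001800000000 0x400000004000000770000003f0000001e00000008 5 7) 0 0 (step_sound _ 34 [(rh53b3c253cb0c65f4.shift 1 1), rh73664858c405e7d4] (by decide +kernel))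
noncomputable def rh2524ec0c59b15eca : CRef := CRef.mk (Pat.mk 0x180000000c000000080000000800000000 0x8000000180000000f0000007c0000001800000010 5 7) 0 0 (step_sound _ 36 [(rh55afc6a59410cf00.shift 3 0), (rhc7d2ebc749000ff9.shift 0 1)] (by decide +kernel))
noncomputable def rhd51f00cf7cc3aa41 : CRef := CRef.mk (Pat.mk 0x40000000300000006000000000000000000000000 0x4000000040000000f0000001f0000007c0000000800000008 5 7) 0 0 (step_sound _ 99 [rh7b3b5f331ea7dfb9, (rhf48373e13d2bc128.shift 0 3)] (by decide +kernel))
noncomputable def rh83cc5d502d865c4d : CRef := CRef.mk (Pat.mk 0x140000000c000000180000000800000000 0x10000000140000003f0000001f0000000f00000002 5 6) 0 0 (step_sound _ 100 [rh24cf49d24ddf9638, (rh5c5e593799055d58.shift 3 1)] (by decide +kernel))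
noncomputable def rh25c2506cea9bb639 : CRef := CRef.mk (Pat.mk 0x80000000f00000004000000000000000000000000 0xc0000000c0000000c0000000f0000001c000000180000001800000018 5 5) 0 0 (step_sound _ 99 [(rhe25b0a99195a5d59.shift 0 3), (rhe63ff2e3b86cb17e.shift 2 0)] (by decide +kernel))
noncomputable def rh3cf80e0a5ff3a0a7 : CRef := CRef.mk (Pat.mk 0x40000001e00000008 0xc000000fe000001df 5 9) 0 0 (step_sound _ 37 [(rhb4564b24112592e6.shift 2 0), rheae1728ff4a56756] (by decide +kernel))
noncomputable def rh644be035a6e63ce2 : CRef := CRef.mk (Pat.mk 0x40000001e00000000 0xc0000007e000000e7 5 8) 0 0 (step_sound _ 1 [(rh1207e140cca14bac.shift 1 0), rheb0810cc63b001d8] (by decide +kernel))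
noncomputable def rh0f9083c829337e7d : CRef := CRef.mk (Pat.mk 0x140000001c00000018000000000000000000000000 0x140000003c0000003f0000000e0000000e0000000c 5 6) 0 0 (step_sound _ 35 [(rh9e3edb185cc347de.shift 3 1), rhfe6a98f104f907c3] (by decide +kernel))
noncomputable def rh2d59cdcade56bc65 : CRef := CRef.mk (Pat.mk 0x40000001c000000180000000000000000 0x40000003f0000001f0000000300000002 5 6) 0 0 (step_sound _ 97 [(rhb739f4f82bb681b4.shift 0 2), rhf45095608ef5c016] (by decide +kernel))
noncomputable def rh4ddf85b4f6108e96 : CRef := CRef.mk (Pat.mk 0x38000000180000000000000000 0x20000000670000003f000000780000001000000010 5 7) 0 0 (step_sound _ 98 [(rh2ae694e25f74369c.shift 2 0), (rh6292bd8784ece55f.shift 1 2), (rhba89ab7cb81bcc90.shift 0 2)] (by decide +kernel))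
noncomputable def rhf80aeac69cba8b8d : CRef := CRef.mk (Pat.mk 0x100000001800000018000000000000000000000000 0x18000000380000003f0000000f0000000c00000004 5 6) 0 0 (step_sound _ 67 [(rh71222050f2c63a3a.shift 3 1), rhc923cbcd1abfbca7] (by decide +kernel))
noncomputable def rhe74f7c03134b603b : CRef := CRef.mk (Pat.mk 0x180000000c0000000c0000000000000000 0x1000000018000000180000003c0000007f0000003000000010 5 7) 0 0 (step_sound _ 100 [(rh4dc133ee0ba1420a.shift 0 2), (rhaeb7261ea18cb548.shift 2 0)] (by decide +kernel))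
noncomputable def rhe7b3cb0684dbca32 : CRef := CRef.mk (Pat.mk 0x1c0000000600000006000000000000000000000000 0x8000000080000001c0000001c0000000e0000003f000000780000000800000008 5 7) 0 0 (step_sound _ 99 [(rh046c5eb18e55a239.shift 2 0), (rhbcded4d272e80638.shift 1 2), (rhd5979d9ced4acd89.shift 0 2), (rhf61b2a9c4e4dd1e5.shift 1 1)] (by decide +kernel))
noncomputable def rh974cc5463aa80a9c : CRef := CRef.mk (Pat.mk 0xf000000020 0xe000000fe0000003f 5 8) 0 0 (step_sound _ 35 [rh522ed139a2d80d2d, (rh70543c5e7e75eabe.shift 1 0), (rh775ca1963e850b80.shift 1 0), (rheae1728ff4a56756.shift 2 0)] (by decide +kernel))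
noncomputable def rhe0c99c2c46f7ce32 : CRef := CRef.mk (Pat.mk 0x200000002000000070000000300000000 0x40000000600000006000000070000001f0000001c 5 5) 0 0 (step_sound _ 34 [(rh55afc6a59410cf00.shift 1 0), rhb0857dede1614316] (by decide +kernel))
noncomputable def rhb224a0d3cd5546e3 : CRef := CRef.mk (Pat.mk 0x180000001c000000040000000400000000 0x100000001c0000001f0000003c0000007e0000007b 5 7) 0 0 (step_sound _ 35 [rh0f16fe210de3bc96, (rh2c7fc7a7cc8a47be.shift 3 0), rhad37429f4253e8b2, (rhd6e64bb7d1c8c62d.shift 2 0)] (by decide +kernel))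
noncomputable def rhe010c6a2ae0c0f62 : CRef := CRef.mk (Pat.mk 0xc0000000e000000020000000200000000 0x180000003c0000000e0000003e0000000f0000000c 5 6) 0 0 (step_sound _ 132 [(rh18965a982d73c794.shift 1 3), rhb4987446127374ab] (by decide +kernel))
noncomputable def rh9e7b9fb55f66190e : CRef := CRef.mk (Pat.mk 0x80000000f00000003000000000000000000000000 0x40000000c0000000f0000001b0000001e0000001c00000014 5 5) 0 0 (step_sound _ 99 [rh7a86ad86af8a0783, (rhe25b0a99195a5d59.shift 0 3)] (by decide +kernel))
noncomputable def rhde5809a64757fa39 : CRef := CRef.mk (Pat.mk 0x800000007000000020 0xce0000007e00000037 5 8) 0 0 (step_sound _ 35 [(rh428265de8cd3cd2d.shift 3 1), rh522ed139a2d80d2d] (by decide +kernel))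
noncomputable def rh32e0c5013174dfc2 : CRef := CRef.mk (Pat.mk 0x3800000018000000000000000000000000 0x18000000380000003e0000000f0000000c0000000c 5 6) 0 0 (step_sound _ 98 [(rh53b3c253cb0c65f4.shift 1 3), rh6963969a66bf111c] (by decide +kernel))
noncomputable def rh8777f59d922a401e : CRef := CRef.mk (Pat.mk 0xe00000007000000000000000000000000 0xc0000000c0000000e0000000e000000070000003e0000000c00000004 5 6) 0 0 (step_sound _ 66 [(rh0a10c1165f7d9eb5.shift 0 1), (rh3cb04db3dd2b6a55.shift 1 0), (rhb0c1e7919d9be92d.shift 1 0)] (by decide +kernel))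
noncomputable def rh3ffc4e615e0cfffa : CRef := CRef.mk (Pat.mk 0x1c0000000e000000000000000000000000 0x140000001c0000007e0000003f0000001800000018 5 7) 0 0 (step_sound _ 100 [(rh45ac7a71bc55c807.shift 1 0), (rhf10fa853c2693a25.shift 0 2)] (by decide +kernel))
noncomputable def rh347577ccab34c4c3 : CRef := CRef.mk (Pat.mk 0x200000007000000030000000200000000 0xc0000001e00000007000000070000001e0000000c 5 5) 0 0 (step_sound _ 130 [(rh2f68792b6b779e96.shift 1 1), rhb0ae5990e5407e69] (by decide +kernel))
noncomputable def rh9ef6e09d1f1f5ad4 : CRef := CRef.mk (Pat.mk 0x580000001800000000 0x7c000000ff00000007 5 8) 0 0 (step_sound _ 34 [(rh361cc68994bd8a63.shift 2 1), rh3b50022fa73ccc4f] (by decide +kernel))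
noncomputable def rh1d77031ef47780a4 : CRef := CRef.mk (Pat.mk 0x20000000600000006000000040000000000000000 0x600000006000000070000003f0000001b00000003 5 6) 0 0 (step_sound _ 65 [(rh570047c78bcf3616.shift 0 1), rhbb83b53687587fb2, (rhea7a1800d6f053bd.shift 1 0)] (by decide +kernel))
noncomputable def rh3b11f0d6fd3546ec : CRef := CRef.mk (Pat.mk 0x38000000600000004000000000 0x10000000380000003e000000780000007f0000007c00000038 5 7) 0 0 (step_sound _ 132 [(rh5d54cb79a67f97ab.shift 4 0), (rh84a7de48e5dac9d5.shift 1 0), rhd7ef4fc43245eaf8, (rhde0a10e295a0d0d9.shift 4 0)] (by decide +kernel))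
noncomputable def rh3cba44db651c4def : CRef := CRef.mk (Pat.mk 0x40000000c000000080000000c00000000 0xc0000000e0000003b0000001f00000017 5 6) 0 0 (step_sound _ 36 [(rhde10baa3043a2b46.shift 2 0), rhf0a8b5cd57c6406f] (by decide +kernel))
noncomputable def rhb0bb4460d9acce58 : CRef := CRef.mk (Pat.mk 0x200000007000000000 0x1f7000001fe0000038e 5 10) 0 0 (step_sound _ 35 [rhc0d3e82dfe617fcf, (rhc831fe49610ef7bf.shift 3 0), (rhec46bd5500c722c9.shift 2 1)] (by decide +kernel))
noncomputable def rh9d9114d4061ac1da : CRef := CRef.mk (Pat.mk 0x160000000c000000000000000000000000 0x200000012000000370000001e0000003f0000000f0000000a00000002 5 6) 0 0 (step_sound _ 131 [(rh2ae694e25f74369c.shift 1 1), rha80f7301cddb7f2d, (rhee24d2c19eefd14b.shift 0 2)] (by decide +kernel))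
noncomputable def rh6aa5e69334c0cc83 : CRef := CRef.mk (Pat.mk 0x2c00000038000000000000000000000000 0x80000003c0000003e000000770000000400000004 5 7) 0 0 (step_sound _ 98 [(rh008b05f4778dc30d.shift 0 2), (rh2ebbcfe90e0f250d.shift 1 2), (rh9a011a4d0ec8f646.shift 1 0)] (by decide +kernel))
noncomputable def rh77afc688f1885857 : CRef := CRef.mk (Pat.mk 0xe00000007000000000000000000000000 0xc0000000c0000000e0000000e0000000f0000003c0000000c00000004 5 6) 0 0 (step_sound _ 66 [(rh1bbf43d2fba949ae.shift 0 1), (rh3cb04db3dd2b6a55.shift 1 0), (rhb0c1e7919d9be92d.shift 1 0)] (by decide +kernel))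
noncomputable def rhd7560456dfee123f : CRef := CRef.mk (Pat.mk 0x3800000018000000000000000000000000 0x80000003f0000007f000000060000000400000004 5 7) 0 0 (step_sound _ 130 [(rh583cd2949503eb8f.shift 0 3), (rh6292bd8784ece55f.shift 1 3), (rha80f7301cddb7f2d.shift 1 0)] (by decide +kernel))
noncomputable def rh2710cddd0fa8457d : CRef := CRef.mk (Pat.mk 0x140000000c000000080000000000000000 0x1000000014000000140000003c0000001f0000000800000008 5 6) 0 0 (step_sound _ 35 [(rh7383218e7da8c507.shift 0 1), (rh7b1f1fb55310c477.shift 2 0)] (by decide +kernel))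
noncomputable def rhb23b2cd6650afe14 : CRef := CRef.mk (Pat.mk 0x40000001e000000080000000000000000 0x4000000040000001e0000003f0000000300000002 5 6) 0 0 (step_sound _ 65 [rh7dd8d18bbd8574be, (rheb0810cc63b001d8.shift 0 2)] (by decide +kernel))
noncomputable def rh8ea3319c7732244f : CRef := CRef.mk (Pat.mk 0x1c0000000c0000000800000000 0x800000018000000380000001f0000000c0000001c00000010 5 6) 0 0 (step_sound _ 131 [(rh503dd4575245365b.shift 2 1), rh57b22e353490010b] (by decide +kernel))
noncomputable def rh287276f7cf762f7e : CRef := CRef.mk (Pat.mk 0x140000001c000000000000000000000000 0x1000000014000000140000007e0000007f0000002800000008 5 7) 0 0 (step_sound _ 67 [(rh870e4bc87f2465fd.shift 1 1), rh97d322bc8dd71ea1, (rhcf80391c5046a495.shift 3 0)] (by decide +kernel))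
noncomputable def rh4205466a55352412 : CRef := CRef.mk (Pat.mk 0x2000000020000000200000007000000000 0x1000000030000000300000003f000001fe0000000e 5 9) 0 0 (step_sound _ 35 [(rh2cc7d62e70c02209.shift 1 0), (rh565c45dadea7da64.shift 2 0), (rhbc6c1ead0c708fe0.shift 0 1), rhc0d3e82dfe617fcf] (by decide +kernel))
noncomputable def rh93d6819666020882 : CRef := CRef.mk (Pat.mk 0x50000000100000003800000000 0x780000003e0000007e00000007 5 7) 0 0 (step_sound _ 66 [(rh54c49bb299227e8d.shift 1 1), rha923c86b183b0f97, (rhb6adaf4bc79f34c4.shift 2 1)] (by decide +kernel))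
noncomputable def rh0aca310f521f2383 : CRef := CRef.mk (Pat.mk 0x20000000200000002000000000000000000000000 0x100000003000000030000000200000007000000070000000700000005 5 3) 0 0 (step_sound _ 65 [(rh565a0c22519f57e9.shift 0 1), (rh8065c10b3cae6218.shift 0 1), rh8cdd36b03d57a2f6] (by decide +kernel))
noncomputable def rh829172f8aec2bb07 : CRef := CRef.mk (Pat.mk 0x40000000100000003800000000 0x4000000040000000f7000000fe000001c7 5 9) 0 0 (step_sound _ 70 [rh30473dc56de15b6b, (rh7dcd5319f4f71bec.shift 2 1), (rhb930b94183d881f3.shift 3 0)] (by decide +kernel))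
noncomputable def rhab627cab21ca8a65 : CRef := CRef.mk (Pat.mk 0x170000001c000000000000000000000000 0x2800000038000000380000003e000000170000001c000000780000002800000008 5 7) 0 0 (step_sound _ 164 [(rh022736ff23a8c9c4.shift 0 2), (rh281c6819542c66e6.shift 3 0), (rh6c03a9ef5fb89cef.shift 3 2), (rhe46ba3eccf25a5b3.shift 0 1)] (by decide +kernel))
noncomputable def rh5b7e532109285374 : CRef := CRef.mk (Pat.mk 0x100000001e000000100000000000000000 0x30000000380000001f0000001e000000180000001800000010 5 6) 0 0 (step_sound _ 129 [(rh3244c3cc8379b070.shift 0 3), (rhaa6f1c8eebaad6c7.shift 1 0)] (by decide +kernel))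
noncomputable def rh79b2084a69edf9f4 : CRef := CRef.mk (Pat.mk 0x1e000000160000000000000000 0x80000003b0000001e0000001e0000003000000030 5 6) 0 0 (step_sound _ 129 [(rh3244c3cc8379b070.shift 0 3), (rh9dcda93cb40518c6.shift 1 0)] (by decide +kernel))
noncomputable def rh73c05796bd0b7655 : CRef := CRef.mk (Pat.mk 0x8000000080000001c0000001000000000 0x30000000780000003e0000001f0000001800000008 5 7) 0 0 (step_sound _ 100 [(rhab2ad169e49f9c5e.shift 0 2), (rhad08522259e87e33.shift 1 0)] (by decide +kernel))
noncomputable def rhdca12aabe2b3e657 : CRef := CRef.mk (Pat.mk 0x600000006000000050000000000000000 0x40000000600000006000000070000001e0000000e 5 5) 0 0 (step_sound _ 34 [rh0fbcd98aa74dd48d, (rh7b1f1fb55310c477.shift 1 0)] (by decide +kernel))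
noncomputable def rh6df801ae18e203bf : CRef := CRef.mk (Pat.mk 0xc0000000e00000008 0xc0000001c0000003c0000003f0000000e00000008 5 6) 0 0 (step_sound _ 68 [rh04e39dbf333c49ae, (rh18965a982d73c794.shift 1 1)] (by decide +kernel))
noncomputable def rhb9a9f864f301596c : CRef := CRef.mk (Pat.mk 0x1c0000001400000010 0x3800000038000000780000001c0000001f00000030 5 7) 0 0 (step_sound _ 35 [(rh6876f05cc9661702.shift 2 0), rhf56e6bc5d2f7fe77] (by decide +kernel))
noncomputable def rhb000990208e68ab7 : CRef := CRef.mk (Pat.mk 0x200000002000000020000000000000000 0x500000007000000070000000300000002000000070000000700000005 5 3) 0 0 (step_sound _ 161 [rh46baee19951a66e7, rh8cdd36b03d57a2f6, (rhc85cc95794737cf7.shift 0 2)] (by decide +kernel))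
noncomputable def rh5a57cb5a3dc070ff : CRef := CRef.mk (Pat.mk 0x800000008000000080000000c000000000000000000000000 0x8000000180000007c0000001f000000180000001800000018 5 7) 0 0 (step_sound _ 132 [(rh2a7c8dc00d244190.shift 2 0), (rh2fed619e183bde17.shift 0 2), (rhd69c262cd33b94b3.shift 0 3)] (by decide +kernel))
noncomputable def rhb8cbf63831685423 : CRef := CRef.mk (Pat.mk 0x20000000200000002000000020000000000000000 0x400000006000000060000000200000006000000070000000700000001 5 3) 0 0 (step_sound _ 32 [rh2def65a6f38ba8fc, (rh79877ebd3ef475dd.shift 0 1)] (by decide +kernel))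
noncomputable def rhda3e9aa795c8beb0 : CRef := CRef.mk (Pat.mk 0x20000000200000002000000020000000000000000 0x500000007000000070000000200000002000000030000000300000001 5 3) 0 0 (step_sound _ 32 [rh763127cc61951072, (rh79877ebd3ef475dd.shift 0 1)] (by decide +kernel))
noncomputable def rh6d4ce7fcb84711d8 : CRef := CRef.mk (Pat.mk 0x200000002000000020000000000000000 0x500000007000000070000000300000006000000060000000600000004 5 3) 0 0 (step_sound _ 161 [rh46baee19951a66e7, (rh8065c10b3cae6218.shift 0 1), (rhc85cc95794737cf7.shift 0 2), (rhced6d86d2069808b.shift 1 1)] (by decide +kernel))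
noncomputable def rhc79057985f2d86aa : CRef := CRef.mk (Pat.mk 0x8000000080000000a0000000800000000 0x8000000080000001f0000007c00000014 5 7) 0 0 (step_sound _ 2 [(rh79877ebd3ef475dd.shift 2 0), rhc486ae0fcc44be52] (by decide +kernel))
noncomputable def rhfd674f2e1e6d2639 : CRef := CRef.mk (Pat.mk 0x2800000028000000200000003000000000 0x18000000380000003e000001f70000007e0000004f 5 9) 0 0 (step_sound _ 35 [(rh618a89ae50f6698f.shift 1 0), (rh6319ffa2535c862f.shift 2 0), rh7f0f728c796044ac, (rhc89ffd5b2dcbf2f4.shift 1 0), rhfff8f65783bd8bc5] (by decide +kernel))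
noncomputable def rhed85be7e1123c252 : CRef := CRef.mk (Pat.mk 0x2c00000028000000000000000000000000 0x20000000770000003e0000003f000000700000003000000020 5 7) 0 0 (step_sound _ 132 [(rh0322be6950086bf2.shift 1 0), (rh2cc7d62e70c02209.shift 0 3), (rhd1d05263fabc0227.shift 0 3)] (by decide +kernel))
noncomputable def rh6fcf5e31421c9d6b : CRef := CRef.mk (Pat.mk 0x800000008000000080000000c00000000 0x800000008000000ff0000007f000000f0 5 8) 0 0 (step_sound _ 36 [rh3a463f8d3d15292d, (rh55afc6a59410cf00.shift 3 0)] (by decide +kernel))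
noncomputable def rh926247ad34d020a9 : CRef := CRef.mk (Pat.mk 0x2000000020000000200000002000000020000000000000000 0x200000002000000060000000600000006000000030000000300000003 5 3) 0 0 (step_sound _ 32 [rh007a0d5dfc22ca81, (rh79877ebd3ef475dd.shift 0 1)] (by decide +kernel))
noncomputable def rhcc42de294bf2dcab : CRef := CRef.mk (Pat.mk 0x1400000004000000040000000c 0x1400000014000000360000007f0000003c 5 7) 0 0 (step_sound _ 35 [(rh2145e1d24b96a57e.shift 2 0), rhd657801d1470cfeb] (by decide +kernel))
noncomputable def rh22ab69c525d892c9 : CRef := CRef.mk (Pat.mk 0x8000000080000001800000008 0x8000000080000003f0000007f0000000f 5 7) 0 0 (step_sound _ 37 [rh2820ca9a6c4f41b4, (rha9fbfd4bb8cf890b.shift 0 1), (rhd9106766b9ff53c0.shift 2 0), rhdd28939de5d7ab1c] (by decide +kernel))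
noncomputable def rh0db14b5bd43248bb : CRef := CRef.mk (Pat.mk 0x800000008000000080000001800000000 0x800000008000000ff000000ff000001e4 5 9) 0 0 (step_sound _ 37 [rh7ce307151020a294, (rhf60aa8aede119d3b.shift 0 1), (rhf7746864c2897465.shift 2 0), (rhfa8c7f01b0685da6.shift 1 0)] (by decide +kernel))
noncomputable def rha32de4419b47bdd9 : CRef := CRef.mk (Pat.mk 0x280000000800000018000000000000000000000000 0x28000000280000002f0000007c000000300000001000000010 5 7) 0 0 (step_sound _ 68 [(rh2145e1d24b96a57e.shift 3 2), rh7ccb5621b97e1901] (by decide +kernel))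
noncomputable def rh4b70967dac522985 : CRef := CRef.mk (Pat.mk 0x280000000800000018000000000000000000000000 0x2000000028000000ff000000ff000001f70000001400000014 5 9) 0 0 (step_sound _ 101 [(rh1aae126fdb0efa1d.shift 2 2), (rh8a8f0f2fc84d8981.shift 2 0), (rha9fbfd4bb8cf890b.shift 0 3), rhaa98548fb5ca7c8d] (by decide +kernel))
noncomputable def rh71e3d3491fd500fc : CRef := CRef.mk (Pat.mk 0x100000001000000030000000000000000000000000 0x1000000010000001fe000000fe000001cf0000000800000008 5 9) 0 0 (step_sound _ 99 [(rh3a463f8d3d15292d.shift 1 2), (rh3d164a09ad92dabc.shift 0 2), (rhfafeb437ceb8396d.shift 3 0)] (by decide +kernel))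
noncomputable def rh1a258e40576feff3 : CRef := CRef.mk (Pat.mk 0x400000014000000040000000400000000 0xa0000000f0000001c000000040000000c0000000c 5 5) 0 0 (step_sound _ 3 [rh43d708b5987f5c5a, (rhd3458b32566d63f7.shift 2 0)] (by decide +kernel))
noncomputable def rh184d9b89d7688cca : CRef := CRef.mk (Pat.mk 0x20000000600000006000000000000000000000000 0x6000000070000003f0000003c0000000c00000008 5 6) 0 0 (step_sound _ 66 [(rh7b1f1fb55310c477.shift 1 1), rhb99a491b9a372cca] (by decide +kernel))
noncomputable def rh78577c36d655c1bc : CRef := CRef.mk (Pat.mk 0x140000000c0000000c00000000 0x18000000180000001c0000003e0000007f00000074 5 7) 0 0 (step_sound _ 68 [(rh34178d770e66e00f.shift 1 0), (rh4dc133ee0ba1420a.shift 0 1)] (by decide +kernel))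
noncomputable def rh440a372cecb3299e : CRef := CRef.mk (Pat.mk 0x50000000100000007000000000 0x200000007000000070000000fe0000007e000000c7 5 8) 0 0 (step_sound _ 35 [rh00ad149be37e1c09, (rh8bc0c71ac2706319.shift 3 0), (rhc554838dd23febb3.shift 1 1)] (by decide +kernel))
noncomputable def rh2ab43325e74c765a : CRef := CRef.mk (Pat.mk 0x6000000020000000200000002000000000000000000000000 0x200000006000000070000000300000003000000060000000600000006 5 3) 0 0 (step_sound _ 65 [rh019ff7e35dd8c55e, (rhbaefcd01e0a8bca3.shift 1 2)] (by decide +kernel))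
noncomputable def rh5d1c7673b984350f : CRef := CRef.mk (Pat.mk 0x2800000008000000080000001800000000 0x3000000038000000180000003c000000ff00000024 5 8) 0 0 (step_sound _ 132 [(rh2f68792b6b779e96.shift 3 1), rhf3d9f3d3fbf8f15b] (by decide +kernel))
noncomputable def rh5ea9e6ad844c42a5 : CRef := CRef.mk (Pat.mk 0x380000000800000008000000000000000000000000 0x10000000140000003f000000380000003f000000fc000000300000001000000010 5 8) 0 0 (step_sound _ 100 [(rh046c5eb18e55a239.shift 3 0), (rh1063dcda242971d4.shift 2 1), (rh4475616035c9de98.shift 0 2), (rhb232fadadcf6cde8.shift 0 2)] (by decide +kernel))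
noncomputable def rh7f97768d7a8b72b2 : CRef := CRef.mk (Pat.mk 0x160000001e000000000000000000000000 0x2000000020000000b0000001e0000001e000000340000001000000010 5 6) 0 0 (step_sound _ 68 [rh959f8f7299654b2b, (rhe25b0a99195a5d59.shift 1 2)] (by decide +kernel))
noncomputable def rhb33d8488d8d828f5 : CRef := CRef.mk (Pat.mk 0x80000002c000000000000000000000000 0x80000003f0000003f000000070000000400000004 5 6) 0 0 (step_sound _ 100 [(rh1efbca428b37b99e.shift 0 2), (rh4f129d8f37c2c70a.shift 1 0), (rh775ca1963e850b80.shift 0 2), (rh915c3ff3d4fe3a39.shift 0 3)] (by decide +kernel))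
noncomputable def rh42b45e953326a8fe : CRef := CRef.mk (Pat.mk 0x80000002c000000000000000000000000 0x80000000f0000003e000000770000000400000004 5 7) 0 0 (step_sound _ 100 [(rh008b05f4778dc30d.shift 0 2), (rh0d378fd9e8917c5a.shift 0 2), (rh4f129d8f37c2c70a.shift 1 0), (rh775ca1963e850b80.shift 0 2)] (by decide +kernel))
noncomputable def rh4086019f705d2e4f : CRef := CRef.mk (Pat.mk 0x8000000080000000c0000000400000000 0x400000004000000370000001f0000007c0000000e0000007e00000012 5 7) 0 0 (step_sound _ 130 [(rh714572a5906b5477.shift 0 1), rh96168f1699a8b051, (rhab1d70f87bdc4aa6.shift 1 0), (rhf9a6286f1d5377a2.shift 2 1)] (by decide +kernel))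
noncomputable def rha11b24c61a9ef807 : CRef := CRef.mk (Pat.mk 0x200000002000000020000000000000000 0x400000006000000060000000600000003000000070000000700000005 5 3) 0 0 (step_sound _ 161 [rh367118e0bf0473e0, (rh4b37fbd05f0588b2.shift 0 1), rh8cdd36b03d57a2f6, (rhc9de03f9731897d4.shift 1 0)] (by decide +kernel))
noncomputable def rhcb0c5f23fc42acee : CRef := CRef.mk (Pat.mk 0x200000002000000020000000000000000 0x500000007000000070000000700000002000000030000000300000001 5 3) 0 0 (step_sound _ 161 [(rh2f7ea2d2c6b43cfc.shift 0 1), rh367118e0bf0473e0, rh6aa5625770489e83, (rhc4055b4872d6fb38.shift 0 1)] (by decide +kernel))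
noncomputable def rh8ab806722c24385b : CRef := CRef.mk (Pat.mk 0x200000002000000020000000000000000 0x500000007000000070000000700000002000000060000000600000004 5 3) 0 0 (step_sound _ 161 [(rh3d0ad82b26bacea7.shift 0 1), rh46baee19951a66e7, (rhc4055b4872d6fb38.shift 0 1), (rhc9de03f9731897d4.shift 1 0)] (by decide +kernel))
noncomputable def rh675171810d2c5abf : CRef := CRef.mk (Pat.mk 0xe00000004000000140000000400000000 0x700000003e000000770000001c0000000c00000008 5 7) 0 0 (step_sound _ 35 [(rh55afc6a59410cf00.shift 2 0), (rh77ab13309fc3251e.shift 0 1)] (by decide +kernel))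
noncomputable def rhd8790672a1ed5369 : CRef := CRef.mk (Pat.mk 0x1c00000008000000080000000800000000 0x30000007f0000003e0000000c0000000c00000004 5 7) 0 0 (step_sound _ 34 [(rh394d1257dac6932f.shift 0 1), (rh932754581e0f4330.shift 2 0)] (by decide +kernel))
noncomputable def rhd64b747b154b9b5a : CRef := CRef.mk (Pat.mk 0x1000000010000000500000001800000000 0x1000000010000000770000003e00000027 5 7) 0 0 (step_sound _ 37 [rh30473dc56de15b6b, (rh55afc6a59410cf00.shift 4 0)] (by decide +kernel))
noncomputable def rhb7de6afa18ba6179 : CRef := CRef.mk (Pat.mk 0x800000038000000000000000000000000 0x80000003f0000003f000000070000000400000004 5 6) 0 0 (step_sound _ 98 [(rh1efbca428b37b99e.shift 0 2), (rh4f129d8f37c2c70a.shift 1 0), (rh775ca1963e850b80.shift 0 2), (rh915c3ff3d4fe3a39.shift 0 3)] (by decide +kernel))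
noncomputable def rhb5e5658b4fcb7496 : CRef := CRef.mk (Pat.mk 0x40000001e000000000000000000000000 0x10000000380000003f0000001e000000380000001800000010 5 6) 0 0 (step_sound _ 132 [rh06b78c0ccfdc60ed, (rh33e738c4ed385b9f.shift 1 3)] (by decide +kernel))
noncomputable def rh7930b6a6b862f234 : CRef := CRef.mk (Pat.mk 0x80000003c00000000 0x3f0000003f00000060 5 7) 0 0 (step_sound _ 5 [(rh915c3ff3d4fe3a39.shift 0 1), (rhe25b0a99195a5d59.shift 2 0)] (by decide +kernel))
noncomputable def rhb51eb86ef0926897 : CRef := CRef.mk (Pat.mk 0x80000003c00000000 0x380000003f00000067 5 7) 0 0 (step_sound _ 1 [rh4a0bce5dad720899, (rh80fcd6d0a18cb2dd.shift 1 0)] (by decide +kernel))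
noncomputable def rh9d686d07e48c9832 : CRef := CRef.mk (Pat.mk 0xc0000001c000000080000000000000000 0x800000018000000180000001f0000001c0000000c0000000800000008 5 5) 0 0 (step_sound _ 35 [(rh7b1f1fb55310c477.shift 2 0), (rhbd5740d5ae4db66b.shift 0 1)] (by decide +kernel))
noncomputable def rh6afa81102861df23 : CRef := CRef.mk (Pat.mk 0xc0000001c000000080000000000000000 0x10000000700000007f0000001c000000180000001800000018 5 7) 0 0 (step_sound _ 132 [(rh3a37d432defd6c53.shift 2 0), (rhea7a1800d6f053bd.shift 3 0), (rhee92c360535a626f.shift 0 2)] (by decide +kernel))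
noncomputable def rh946ad1c5029f6282 : CRef := CRef.mk (Pat.mk 0xc000000180000000800000000 0x18000000780000001f000000180000001800000010 5 7) 0 0 (step_sound _ 131 [(rh61a5ffb12f5aea93.shift 0 1), (rhd4b4beefcd67f51e.shift 3 0)] (by decide +kernel))
noncomputable def rh25125a38b0fff42f : CRef := CRef.mk (Pat.mk 0x18000000080000003000000010 0xe0000000780000003f0000003000000030 5 8) 0 0 (step_sound _ 101 [(rh745da51e01c722fb.shift 2 0), (rh7d7eaefe27cdd7b0.shift 4 0), (rhf0f55c4504412200.shift 0 2)] (by decide +kernel))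
noncomputable def rh96c9605bfd1cf4ad : CRef := CRef.mk (Pat.mk 0x800000038000000000000000000000000 0x80000000f0000003e000000770000000400000004 5 7) 0 0 (step_sound _ 98 [(rh008b05f4778dc30d.shift 0 2), (rh0d378fd9e8917c5a.shift 0 2), (rh4f129d8f37c2c70a.shift 1 0), (rh775ca1963e850b80.shift 0 2)] (by decide +kernel))
noncomputable def rh96d494a9008bcdf2 : CRef := CRef.mk (Pat.mk 0x800000008000000380000001000000000 0x300000007c0000003f000000380000001e00000004 5 7) 0 0 (step_sound _ 132 [(rh0e80edb1d88da892.shift 0 1), (rh675ab9d4ddf88e9c.shift 1 0)] (by decide +kernel))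
noncomputable def rh40e309458db74006 : CRef := CRef.mk (Pat.mk 0xb0000000f000000000000000000000000 0x180000001a0000000f0000000f0000001e0000000400000004 5 5) 0 0 (step_sound _ 67 [rh8b883a5f6e0a3205, (rhe25b0a99195a5d59.shift 0 2)] (by decide +kernel))
noncomputable def rhc1eb44e1fc7c1138 : CRef := CRef.mk (Pat.mk 0x1000000010000000180000000c00000000 0x80000000c0000001e000000780000001c000000ff00000024 5 8) 0 0 (step_sound _ 131 [rh1f8d53fb2fd8edd0, (rhab1d70f87bdc4aa6.shift 2 0), (rhc3a9559c72b00d0b.shift 1 0)] (by decide +kernel))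
noncomputable def rhb21e21dc9ce67282 : CRef := CRef.mk (Pat.mk 0x400000006000000038000000000000000000000000 0x480000007c0000007f000000f80000019c0000001800000008 5 9) 0 0 (step_sound _ 131 [(rh09a0ed377b548935.shift 2 2), (rh2ae2dff33e999c27.shift 2 0), (rha4b45d0722e1e6ff.shift 1 1), (rhf60aa8aede119d3b.shift 0 3)] (by decide +kernel))
noncomputable def rh23a7fc9abecba92d : CRef := CRef.mk (Pat.mk 0x200000003800000018000000000000000000000000 0x380000003f0000007e000000060000000400000004 5 7) 0 0 (step_sound _ 130 [(rh4baa30ac13a5afd1.shift 0 3), (rh6292bd8784ece55f.shift 1 3), (rha80f7301cddb7f2d.shift 1 0)] (by decide +kernel))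
noncomputable def rh4e9b41e021d863b7 : CRef := CRef.mk (Pat.mk 0x100000001c0000000c00000000 0x1c0000001e000000fc0000001c0000007f00000022 5 8) 0 0 (step_sound _ 131 [rh0577b9c0ac071b9a, (rh2aafd7143de9b5e6.shift 2 0), rh77ae4d6fe8ee7b19] (by decide +kernel))
noncomputable def rha108f4d30a6e9f04 : CRef := CRef.mk (Pat.mk 0x10000000180000000e0000000000000000 0x12000000330000001f0000003e0000006700000004 5 7) 0 0 (step_sound _ 97 [(rh09a0ed377b548935.shift 0 1), rh9458e878ee940312, (rhb5cd765beaf7c699.shift 0 2)] (by decide +kernel))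
noncomputable def rh57a00d60287193ac : CRef := CRef.mk (Pat.mk 0x1000000010000000180000000c00000000 0x8000000080000000c0000001e00000078000000180000003f00000027 5 7) 0 0 (step_sound _ 131 [rh0700c9ed276784f7, rh1f8d53fb2fd8edd0, (rh3d59af463782ee7f.shift 0 1), (rhc3a9559c72b00d0b.shift 1 0)] (by decide +kernel))
noncomputable def rhf5c687748b2f890d : CRef := CRef.mk (Pat.mk 0x20000000300000001c000000000000000000000000 0x780000003f0000007c0000000f0000000c0000000c 5 7) 0 0 (step_sound _ 131 [(rh13c1ec585d8070bb.shift 1 3), (rh41835ba1dc72c0ef.shift 0 3), rh6963969a66bf111c] (by decide +kernel))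
noncomputable def rhefb519189d8f62d1 : CRef := CRef.mk (Pat.mk 0x80000001e000000000000000000000000 0x8000000380000001e000000330000001000000010 5 6) 0 0 (step_sound _ 64 [(rh80fcd6d0a18cb2dd.shift 0 2), (rhe7d1749390aefb37.shift 1 0)] (by decide +kernel))
noncomputable def rh9f7669c0799aba17 : CRef := CRef.mk (Pat.mk 0x1e000000160000000000000000 0x10000000330000001f0000001e0000000800000008 5 6) 0 0 (step_sound _ 67 [(rh3244c3cc8379b070.shift 0 2), rh4b961a3659b5c1c1] (by decide +kernel))
noncomputable def rh9c1f3b793e9a3050 : CRef := CRef.mk (Pat.mk 0x1e000000160000000000000000 0x10000000300000001f0000001e0000000b00000008 5 6) 0 0 (step_sound _ 67 [rh2579c98897af56b6, (rh3244c3cc8379b070.shift 0 2)] (by decide +kernel))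
noncomputable def rh798ec962e22d8de6 : CRef := CRef.mk (Pat.mk 0x1e0000001c000000000000000000000000 0xb0000001e0000001e000000f80000001000000010 5 8) 0 0 (step_sound _ 161 [(rh3244c3cc8379b070.shift 0 4), (rh72b9378abb24c533.shift 1 0)] (by decide +kernel))
noncomputable def rh3696e38db30e93b0 : CRef := CRef.mk (Pat.mk 0xc0000001c0000000000000000 0x10000000300000007f0000001e0000000800000008 5 7) 0 0 (step_sound _ 97 [(rh27fa3aef8a893a5f.shift 1 0), (rhb739f4f82bb681b4.shift 0 2)] (by decide +kernel))
noncomputable def rha7e6172d37a9348a : CRef := CRef.mk (Pat.mk 0x700000007000000020000000000000000 0x50000000700000007000000070000001e0000000c00000004 5 5) 0 0 (step_sound _ 160 [(rh2145e1d24b96a57e.shift 0 2), rhaeb7261ea18cb548] (by decide +kernel))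
noncomputable def rh1e8aceccf05fd0a3 : CRef := CRef.mk (Pat.mk 0xc0000001c0000000000000000 0x10000000370000007f0000001c0000000800000008 5 7) 0 0 (step_sound _ 97 [(rhb739f4f82bb681b4.shift 0 2), rhbab53e8167d67671] (by decide +kernel))
noncomputable def rhfc1d83842c343c73 : CRef := CRef.mk (Pat.mk 0xc00000016000000000000000000000000 0x10000000380000003f0000001e000000380000001800000010 5 6) 0 0 (step_sound _ 132 [(rh18965a982d73c794.shift 1 3), rh7a0d643003664604] (by decide +kernel))
noncomputable def rh2ee2395d40407687 : CRef := CRef.mk (Pat.mk 0xe0000000f000000000000000000000000 0xa0000000e0000000f0000001c0000000c0000000c 5 5) 0 0 (step_sound _ 67 [(rhb17e54761414237f.shift 1 0), (rhe25b0a99195a5d59.shift 0 2)] (by decide +kernel))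
noncomputable def rhd6f19ada2669f0d7 : CRef := CRef.mk (Pat.mk 0x8000000080000001c0000000400000000 0x6000000060000000f0000003e0000007c0000000c00000008 5 7) 0 0 (step_sound _ 98 [rh6f3f83025c66bc37, (rh79b3c29022acbdf3.shift 1 2)] (by decide +kernel))
noncomputable def rh61b021f318f1fd0e : CRef := CRef.mk (Pat.mk 0x200000007000000050000000400000000 0xc0000001e00000007000000070000001e0000000a 5 5) 0 0 (step_sound _ 130 [rh0fbcd98aa74dd48d, (rh712526e472efe489.shift 0 1)] (by decide +kernel))
noncomputable def rh489a569c723e0fda : CRef := CRef.mk (Pat.mk 0x700000006000000040000000000000000 0xe0000001f0000000700000006000000060000000200000002 5 5) 0 0 (step_sound _ 161 [(rh2145e1d24b96a57e.shift 1 2), rh950501ce37cb45f7] (by decide +kernel))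
noncomputable def rh3d34e7c02f804101 : CRef := CRef.mk (Pat.mk 0x700000007000000040000000000000000 0x60000000700000007000000070000001e0000000a00000002 5 5) 0 0 (step_sound _ 161 [(rh2145e1d24b96a57e.shift 1 2), rhaeab3ecd7900b4d0] (by decide +kernel))
noncomputable def rhbafb842230215364 : CRef := CRef.mk (Pat.mk 0x80000001c0000003800000000 0x1c0000001f0000007c0000001c0000003800000020 5 7) 0 0 (step_sound _ 100 [(rh571950d89739e871.shift 3 0), (rhb1f23aa8e7d38b4e.shift 0 1)] (by decide +kernel))
noncomputable def rh3719d517a2319662 : CRef := CRef.mk (Pat.mk 0x1800000038000000000000000000000000 0x80000001e0000003f000000770000000400000004 5 7) 0 0 (step_sound _ 130 [rh9db2ffb490ffba6c, (rhb739f4f82bb681b4.shift 1 3)] (by decide +kernel))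
noncomputable def rh55a3f2d695b6b249 : CRef := CRef.mk (Pat.mk 0x8000000080000000c0000001800000000 0x1000000018000000780000001f0000001800000008 5 7) 0 0 (step_sound _ 65 [(rha08502d9a3e4fd9d.shift 1 0), (rhb739f4f82bb681b4.shift 0 1)] (by decide +kernel))
noncomputable def rha8fe94fd750264a6 : CRef := CRef.mk (Pat.mk 0x8000000080000000c0000001c000000000000000000000000 0x10000000180000001c0000000f0000001c000000080000000800000008 5 5) 0 0 (step_sound _ 128 [(rh3502d92c6cce609b.shift 2 0), (rhab22b5b56e7b3243.shift 0 3)] (by decide +kernel))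
noncomputable def rh49fe7cd8d3dde189 : CRef := CRef.mk (Pat.mk 0x8000000080000000c0000001800000000 0x140000001c0000001c0000000f0000001800000008 5 5) 0 0 (step_sound _ 64 [(rhab22b5b56e7b3243.shift 0 1), (rhc4055b4872d6fb38.shift 2 0)] (by decide +kernel))
noncomputable def rhdb4a49ba45cc3ae8 : CRef := CRef.mk (Pat.mk 0x6000000030000000400000000 0x8000000080000007c0000001f0000000f0000000400000004 5 7) 0 0 (step_sound _ 99 [(rh18965a982d73c794.shift 0 2), rhcdb56d3e5b8fd791] (by decide +kernel))
noncomputable def rhe0a188546588f854 : CRef := CRef.mk (Pat.mk 0x8000000180000000c0000001400000000 0x20000000b0000001f0000003f0000001400000010 5 6) 0 0 (step_sound _ 68 [(rh7b1f1fb55310c477.shift 3 0), (rhfa2e65bbb3da669e.shift 0 1)] (by decide +kernel))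
noncomputable def rhee0cdae7a56d461d : CRef := CRef.mk (Pat.mk 0x40000000f000000080000000000000000 0x1800000018000000180000001c0000000f0000000c0000000c0000000c 5 5) 0 0 (step_sound _ 131 [(rh31387895e755a011.shift 2 0), (rh33e738c4ed385b9f.shift 0 3)] (by decide +kernel))
noncomputable def rh1690883feee00726 : CRef := CRef.mk (Pat.mk 0x80000001e00000004 0x1f000000fe000001cc 5 9) 0 0 (step_sound _ 37 [(rh1207e140cca14bac.shift 2 0), (rh7b030ba967bf927e.shift 2 0), (rhd5eb272e07a4e288.shift 0 1)] (by decide +kernel))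
noncomputable def rhda8c3feb570db0ed : CRef := CRef.mk (Pat.mk 0x1e00000004 0xe70000007e0000000c 5 8) 0 0 (step_sound _ 65 [(rh3244c3cc8379b070.shift 0 1), (rhb84b1f66852c4b18.shift 1 0)] (by decide +kernel))
noncomputable def rhd08bd81f52bc963d : CRef := CRef.mk (Pat.mk 0xc0000000e00000008 0x600000006000000070000003f0000003e00000008 5 6) 0 0 (step_sound _ 130 [(rh3fb4ab5223d0dae1.shift 0 1), (rh6f1cbe15c631ee70.shift 2 0)] (by decide +kernel))
noncomputable def rh820546166e3a0a00 : CRef := CRef.mk (Pat.mk 0x20000000f000000000 0x3f000000fe0000000e 5 8) 0 0 (step_sound _ 35 [(rh0a74f7641db5049f.shift 1 0), (rh775ca1963e850b80.shift 1 0), rhc0d3e82dfe617fcf, (rhd5eb272e07a4e288.shift 2 1)] (by decide +kernel))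
noncomputable def rh52e40bcab13c8c05 : CRef := CRef.mk (Pat.mk 0x100000007800000000 0x3e0000007e00000007 5 7) 0 0 (step_sound _ 66 [(rh3f8766e6ecb455ce.shift 2 1), rha923c86b183b0f97] (by decide +kernel))
noncomputable def rh54d59ef5a770bd2c : CRef := CRef.mk (Pat.mk 0xc000000080000000c00000004 0x20000001f0000007e0000000f00000004 5 7) 0 0 (step_sound _ 68 [rh13d54427c4631d50, (rh3e11480408ba39c3.shift 0 1), (rhdeca8db941583de2.shift 0 2), (rhf04c7e9be5243300.shift 0 1)] (by decide +kernel))
noncomputable def rh953af6dbba9c9ad2 : CRef := CRef.mk (Pat.mk 0x4000000060000001c0000000000000000 0xa0000001a0000003f0000003e0000001f0000000c00000008 5 6) 0 0 (step_sound _ 99 [(rh29090ff5167b2eac.shift 1 0), rh435c813e669d8ae4, (rh73bb6971660b7fb8.shift 0 1)] (by decide +kernel))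
noncomputable def rh1ef90faddd7efaf0 : CRef := CRef.mk (Pat.mk 0x180000001800000010 0x40000000c0000000e0000007f0000003800000018 5 7) 0 0 (step_sound _ 99 [rh2108e4920eea13c7, (rh2145e1d24b96a57e.shift 3 0)] (by decide +kernel))
noncomputable def rh27c8340262f79fa3 : CRef := CRef.mk (Pat.mk 0x6000000060000001c000000000000000000000000 0x8000000380000003f0000000e0000001c0000001c0000000800000008 5 6) 0 0 (step_sound _ 163 [(rh2f1e4958a9838ca2.shift 0 2), (rh3698711be2857b93.shift 1 0), (rh9e3b31ab11202fd1.shift 1 1), (rha7976e43fb57a213.shift 2 2)] (by decide +kernel))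
noncomputable def rhed6838a9fc546401 : CRef := CRef.mk (Pat.mk 0xe00000004000000040000000000000000 0x80000000c0000000f0000003e0000007c0000001800000008 5 7) 0 0 (step_sound _ 99 [(rh0b5523572e849cbc.shift 1 0), (rh6292bd8784ece55f.shift 0 3)] (by decide +kernel))
noncomputable def rhb376a9803e26d872 : CRef := CRef.mk (Pat.mk 0x4000000040000001c0000001800000000 0x7b0000007e0000003c0000001f0000001c00000010 5 7) 0 0 (step_sound _ 131 [rh1ee525400ece50d9, (rh499de316127b99d6.shift 0 1), (rhda6cc5da102e1723.shift 3 0)] (by decide +kernel))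
noncomputable def rhabccc69e51b3d0d9 : CRef := CRef.mk (Pat.mk 0x2000000020000000e0000000c0000000000000000 0x80000000f0000003e0000000e0000003c0000001800000008 5 6) 0 0 (step_sound _ 68 [rh5259925501ae5d40, (rhf48373e13d2bc128.shift 1 2)] (by decide +kernel))
noncomputable def rh8adbe9673c811f0b : CRef := CRef.mk (Pat.mk 0x30000000f0000000800000000 0x140000001c0000001e0000001b0000000f0000000c00000004 5 5) 0 0 (step_sound _ 99 [(rh33e738c4ed385b9f.shift 0 2), rhaeadf2f91e7dcd09] (by decide +kernel))
noncomputable def rhd5a17d7cbadf310d : CRef := CRef.mk (Pat.mk 0xc0000001c0000000000000000 0x200000006000000070000003f0000001c0000000c00000008 5 6) 0 0 (step_sound _ 97 [rh052c26b52c71221f, (rhb739f4f82bb681b4.shift 0 2)] (by decide +kernel))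
noncomputable def rh85840abc9fa9f42c : CRef := CRef.mk (Pat.mk 0x40000000700000006000000000000000000000000 0x80000003e00000007000000060000000c0000000c0000000c 5 6) 0 0 (step_sound _ 66 [(rh3cb04db3dd2b6a55.shift 1 0), (rh820d4e04d5dcd02e.shift 1 0), (rhc14e05cbbaaf54c9.shift 0 1)] (by decide +kernel))
noncomputable def rh66f06f7d59787da3 : CRef := CRef.mk (Pat.mk 0xe0000001c00000000 0x18000000180000003f0000007e0000001c00000014 5 7) 0 0 (step_sound _ 68 [(rh54feb13ca81dbc4a.shift 1 0), (rh771383521b68d2cd.shift 0 1)] (by decide +kernel))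
noncomputable def rhadd74a1fd122891a : CRef := CRef.mk (Pat.mk 0x200000003000000070000000200000000 0xc0000001e00000007000000070000001e0000000c 5 5) 0 0 (step_sound _ 34 [(rh55afc6a59410cf00.shift 1 0), rhb92f7a3ffd5f2308] (by decide +kernel))
noncomputable def rh885be8d04daa096d : CRef := CRef.mk (Pat.mk 0x60000001e00000000 0x200000002000000030000003e0000001f00000004 5 6) 0 0 (step_sound _ 68 [rh305bae41965b54e2, (rh33e738c4ed385b9f.shift 1 1)] (by decide +kernel))
noncomputable def rh5cd9ecfe847bcb8d : CRef := CRef.mk (Pat.mk 0x18000000580000000000000000 0x10000000300000001f000000780000000800000008 5 7) 0 0 (step_sound _ 98 [(rh2fe78cc5ca4405d8.shift 2 2), rh8d364617c03d6975] (by decide +kernel))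
noncomputable def rh9386baf0036394d7 : CRef := CRef.mk (Pat.mk 0xc0000000c0000000000000000 0x1c0000001e0000001f0000003c0000000c0000000c00000004 5 6) 0 0 (step_sound _ 131 [rh0637f6d9c6c6b5c9, (rh1e309b005ffa1b36.shift 2 0), (rh5a9701d0c298587f.shift 2 1)] (by decide +kernel))
noncomputable def rhf63a9381a062aa76 : CRef := CRef.mk (Pat.mk 0xc0000000c0000000000000000 0x1000000018000000380000003f0000000f0000000c00000004 5 6) 0 0 (step_sound _ 131 [(rh1e309b005ffa1b36.shift 2 0), (rh56b856a4e34017e5.shift 0 1)] (by decide +kernel))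
noncomputable def rhb808b86363df2ec8 : CRef := CRef.mk (Pat.mk 0x400000006000000038000000000000000000000000 0x280000007c0000007f000000780000003e0000003800000018 5 7) 0 0 (step_sound _ 68 [rh12d5b64c8b528a02, (rh64ad4c0097fb8340.shift 4 0), (rha951f84278f1704f.shift 1 0), (rhf9366b6a121593ef.shift 4 0)] (by decide +kernel))
noncomputable def rh56dc9eba420159ed : CRef := CRef.mk (Pat.mk 0x200000002000000020000000300000000 0x200000002000000060000000600000006000000070000000300000002 5 3) 0 0 (step_sound _ 130 [(rh2f68792b6b779e96.shift 1 1), rh6d796111b439ce2b] (by decide +kernel))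
noncomputable def rh1f2ba46b58dc76b2 : CRef := CRef.mk (Pat.mk 0xc000000080000000c00000004 0x170000001f0000003b0000000e0000000c 5 6) 0 0 (step_sound _ 100 [(rh261f868a429ae0e3.shift 2 0), rh3e039e30505c062d] (by decide +kernel))
noncomputable def rhfad416c62ec06eee : CRef := CRef.mk (Pat.mk 0x7000000020 0x38e000001fe000001f7 5 10) 0 0 (step_sound _ 35 [rh522ed139a2d80d2d, (rha03f6e28ea70fc7d.shift 2 0), (rhe388d93a40face2b.shift 3 0)] (by decide +kernel))
noncomputable def rh650d44d32ccc672b : CRef := CRef.mk (Pat.mk 0x8000000080000001c000000140000000000000000 0x30000000780000003f0000007f0000001c0000000800000008 5 7) 0 0 (step_sound _ 132 [(rhab2ad169e49f9c5e.shift 0 3), (rhad08522259e87e33.shift 1 1), rheed17fe5e12d614d] (by decide +kernel))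
noncomputable def rhd3d0f47e237af63e : CRef := CRef.mk (Pat.mk 0xf00000008000000000000000000000000 0x40000000c0000001c0000000f0000000c0000001c0000001c00000014 5 5) 0 0 (step_sound _ 163 [(rh2140e04d90a4f0d4.shift 2 0), (rh33e738c4ed385b9f.shift 0 4)] (by decide +kernel))
noncomputable def rhbdd187dd77a59a20 : CRef := CRef.mk (Pat.mk 0x1800000028000000000000000000000000 0x4000000040000000e0000007f0000003f0000000f0000000400000004 5 7) 0 0 (step_sound _ 98 [(rh69012675dfdb1a5b.shift 0 3), (rh896ba8a508f21a23.shift 0 2), (rhd69c262cd33b94b3.shift 0 3), (rhed6395bea3b2a5d6.shift 1 0)] (by decide +kernel))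
noncomputable def rh7d449143ca16be3f : CRef := CRef.mk (Pat.mk 0x70000000e000000000000000000000000 0x40000000c0000003c0000000f0000000e0000000e0000000c0000000c 5 6) 0 0 (step_sound _ 162 [(rh503dd4575245365b.shift 1 2), rh7c20ffe7059869dd, (rhde10baa3043a2b46.shift 1 2)] (by decide +kernel))
noncomputable def rh5b076ea63a7aaa2d : CRef := CRef.mk (Pat.mk 0xc0000001e00000000 0x200000002000000030000003f0000001e00000004 5 6) 0 0 (step_sound _ 65 [(rh3244c3cc8379b070.shift 0 1), rhfa0a1e0a8a93877a] (by decide +kernel))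
noncomputable def rh72d8e3fe84bad08b : CRef := CRef.mk (Pat.mk 0x60000000e000000000000000000000000 0x40000000400000006000000060000000f0000003e0000000c00000004 5 6) 0 0 (step_sound _ 162 [(rh503dd4575245365b.shift 1 2), rh948d2e8dd4fc2412, (rhde10baa3043a2b46.shift 1 2)] (by decide +kernel))
noncomputable def rh239f1e3e7b41cb1c : CRef := CRef.mk (Pat.mk 0x4000000060000000a0000000000000000 0x4000000040000000f0000003e0000000a0000000a00000008 5 6) 0 0 (step_sound _ 162 [(rh5c5e593799055d58.shift 1 2), rh9f3e18dfd9b89de4] (by decide +kernel))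
noncomputable def rha65e076fdd207854 : CRef := CRef.mk (Pat.mk 0x80000001e0000000400000000 0x2000000030000003f0000001e0000000400000004 5 6) 0 0 (step_sound _ 97 [(rh3244c3cc8379b070.shift 0 2), rh5e2bfc8d869d8c17] (by decide +kernel))
noncomputable def rh868ca5f8f308066e : CRef := CRef.mk (Pat.mk 0x80000001e000000140000000000000000 0x2000000020000000f0000003e000000140000001400000010 5 6) 0 0 (step_sound _ 4 [(rh6c918a7151ce5cb8.shift 0 1), (rh9e07f76261b05888.shift 3 0)] (by decide +kernel))
noncomputable def rh2bb0da32b6e76d07 : CRef := CRef.mk (Pat.mk 0xe0000000a0000000000000000 0x4000000140000003f0000003f0000000a0000000a00000008 5 6) 0 0 (step_sound _ 130 [rh1f509f08c24652b8, rh2648c356493cdebd, (rh280453866bfa01cb.shift 0 1), (rha40d42a2e34c408d.shift 2 0)] (by decide +kernel))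
noncomputable def rh7638832f7526c2cc : CRef := CRef.mk (Pat.mk 0x380000000800000000 0x400000004000000770000003e0000000f00000008 5 7) 0 0 (step_sound _ 66 [(rh00f1bb10334541e3.shift 0 2), (rh2c1baeadcd4b32f5.shift 0 1), (rh2cc7d62e70c02209.shift 0 1), (rhdd3ef923ff6c7ad5.shift 1 0)] (by decide +kernel))
noncomputable def rh463a11da444c90f2 : CRef := CRef.mk (Pat.mk 0x1800000028000000000000000000000000 0x4000000040000000e0000007e0000003f0000007f0000000400000004 5 7) 0 0 (step_sound _ 98 [(rh6b9ceb06d65958ae.shift 0 2), (rhd69c262cd33b94b3.shift 0 3), (rhed6395bea3b2a5d6.shift 1 0)] (by decide +kernel))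
noncomputable def rh21e46ae3afcf8f9c : CRef := CRef.mk (Pat.mk 0x7000000020000000200000002000000000 0xe000001fe0000003f000000300000003000000010 5 9) 0 0 (step_sound _ 131 [(rh29a687eba27f144d.shift 2 0), (rh2cc7d62e70c02209.shift 1 3), (rh522ed139a2d80d2d.shift 0 3), (rh5f1ae710410dd65b.shift 0 3)] (by decide +kernel))
noncomputable def rhf4367b44ef8fcb21 : CRef := CRef.mk (Pat.mk 0x3800000010000000500000001000000000 0x70000007e0000003e000000780000003000000020 5 7) 0 0 (step_sound _ 98 [(rh076be03eb7063320.shift 1 3), (rh1a26a7518b71141d.shift 2 0), (rh72e22f8ff4816922.shift 0 3)] (by decide +kernel))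
noncomputable def rh524c723f46db4dcf : CRef := CRef.mk (Pat.mk 0x200000002000000020000000000000000 0x400000006000000060000000600000006000000070000000700000005 5 3) 0 0 (step_sound _ 161 [rh367118e0bf0473e0, rh8cdd36b03d57a2f6, (rh8dd0e254f9bfc580.shift 0 1), (rhc9de03f9731897d4.shift 1 0)] (by decide +kernel))
noncomputable def rh86549c9e58bbc66b : CRef := CRef.mk (Pat.mk 0x200000002000000020000000000000000 0x100000003000000030000000300000006000000070000000700000005 5 3) 0 0 (step_sound _ 161 [rh46baee19951a66e7, rh6aa5625770489e83, rh8cdd36b03d57a2f6, (rha06c4909f1a0e49c.shift 0 1)] (by decide +kernel))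
noncomputable def rhf2b1f500f996bfff : CRef := CRef.mk (Pat.mk 0x38000000100000004000000000 0x1c7000000fe000000f70000004000000040 5 9) 0 0 (step_sound _ 70 [(rh3f8463b1b243085b.shift 0 2), (rh7344b4efa7925350.shift 2 2), (rhf8802b2664e41e7f.shift 3 0)] (by decide +kernel))
noncomputable def rh38b486c57ca1ba9f : CRef := CRef.mk (Pat.mk 0x140000001e00000000 0x200000003000000030000001f0000001e00000007 5 5) 0 0 (step_sound _ 1 [rh04b133847f5e80e0, rheb0810cc63b001d8] (by decide +kernel))
noncomputable def rh3b87f52849d33737 : CRef := CRef.mk (Pat.mk 0x1c0000001700000000000000000000000000000000 0x800000028000000780000001c000000170000003e000000380000003800000028 5 7) 0 0 (step_sound _ 100 [rh60759b5854f3d841, (rh6e1d812eeeef3ec1.shift 0 2), (rhb1a251d9bff81766.shift 3 2), (rhe181d564227a886f.shift 3 0)] (by decide +kernel))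
noncomputable def rh00e8b61669cb3aff : CRef := CRef.mk (Pat.mk 0x140000001e0000000000000000 0x30000000300000001f0000001e0000003800000008 5 6) 0 0 (step_sound _ 36 [rhc153f3141751d418, (rhe25b0a99195a5d59.shift 1 1)] (by decide +kernel))
noncomputable def rhcea713e1810575e1 : CRef := CRef.mk (Pat.mk 0x40000000700000006000000000000000000000000 0x4000000070000001f0000003e0000000e0000000e 5 6) 0 0 (step_sound _ 99 [rh44be098787e8a74b, (rhf48373e13d2bc128.shift 0 3)] (by decide +kernel))
noncomputable def rh1fafd33512178a6e : CRef := CRef.mk (Pat.mk 0x10000000140000001c000000000000000000000000 0x300000001f0000001c000000780000003800000038 5 7) 0 0 (step_sound _ 131 [(rh0cf3c41ad9ad5f5b.shift 2 0), (rh34517e326ddb5b25.shift 0 3)] (by decide +kernel))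
noncomputable def rh9071b774bf147d58 : CRef := CRef.mk (Pat.mk 0xc000000080000000800000008 0x1800000018000000180000001f0000007c0000001800000008 5 7) 0 0 (step_sound _ 68 [(rh37645649ec557b14.shift 2 0), (rh4ca5dae25f5c14ff.shift 0 2), (rhdeca8db941583de2.shift 0 2)] (by decide +kernel))
noncomputable def rh1170c7f33da010e0 : CRef := CRef.mk (Pat.mk 0x8000000080000000a000000000000000000000000 0x1000000018000000180000000f0000001e0000001c00000014 5 5) 0 0 (step_sound _ 67 [(rh367118e0bf0473e0.shift 2 0), (rh8cdd36b03d57a2f6.shift 2 0), (rhc32899ca69d8b859.shift 0 1), (rhc9de03f9731897d4.shift 3 0)] (by decide +kernel))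
noncomputable def rh1fb4cf4f215fbb9c : CRef := CRef.mk (Pat.mk 0x2000000030000000200000002 0x100000007000000070000000700000003000000030000000200000002 5 3) 0 0 (step_sound _ 129 [rh3ca48e2a6d60153d, (rh7ef5fa5c39f1c762.shift 0 1), (rhe8915d9db8b9f3f2.shift 0 1), rhf06a227ba195dbc0] (by decide +kernel))
noncomputable def rh508339421bf2cc29 : CRef := CRef.mk (Pat.mk 0x80000000a000000080000000800000000 0x140000003c0000000f000000080000001800000010 5 6) 0 0 (step_sound _ 4 [(rh53141e54dc480be0.shift 0 1), (rhd3458b32566d63f7.shift 3 0)] (by decide +kernel))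
noncomputable def rh7b79df070bb83d66 : CRef := CRef.mk (Pat.mk 0x2000000020000000200000002 0x400000007000000070000000700000006000000060000000600000002 5 3) 0 0 (step_sound _ 129 [(rh44f453b84f013105.shift 1 0), (rhb0600cead595b55a.shift 0 1), rhbdb34f420224b15e, (rhc85cc95794737cf7.shift 0 1)] (by decide +kernel))
noncomputable def rh5ae326af2dbe503d : CRef := CRef.mk (Pat.mk 0x80000000a000000080000000800000000 0x100000003c0000001f000000080000001800000010 5 6) 0 0 (step_sound _ 4 [(rh4f4e85fdaf90cebd.shift 0 1), (rhd3458b32566d63f7.shift 3 0)] (by decide +kernel))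
noncomputable def rh30ce2cf9a0214dec : CRef := CRef.mk (Pat.mk 0x200000002000000020000000200000000 0x200000006000000070000000700000003000000030000000200000002 5 3) 0 0 (step_sound _ 128 [(rh50fbb5868c909700.shift 0 1), rh78b783ff2958d2ce] (by decide +kernel))
noncomputable def rh1e3d0679c060632c : CRef := CRef.mk (Pat.mk 0x3000000020000000280000002800000000 0xf0000007e000001f70000003e0000003800000018 5 9) 0 0 (step_sound _ 131 [(rhc21a95c499b3efdb.shift 2 3), (rhc72e185f95ef402c.shift 2 0), (rhcae08498a8760fca.shift 1 0), (rhd986e5412bf6a804.shift 0 1)] (by decide +kernel))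
noncomputable def rh895bb351d9132f0f : CRef := CRef.mk (Pat.mk 0x280000002c000000000000000000000000 0x20000000700000003e0000003e000000770000003000000020 5 7) 0 0 (step_sound _ 100 [(rh06b78c0ccfdc60ed.shift 1 0), (rh2591032a0e7f4182.shift 0 2), (rh8195a2d7794c7cd2.shift 0 2)] (by decide +kernel))
noncomputable def rh04d62da603fb7abe : CRef := CRef.mk (Pat.mk 0xc000000080000000800000008 0xf00000007f000000ff0000000800000008 5 8) 0 0 (step_sound _ 100 [(rh2f68792b6b779e96.shift 3 0), (rh6b9df646b7babe1b.shift 0 2)] (by decide +kernel))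
noncomputable def rh366482dd01674b12 : CRef := CRef.mk (Pat.mk 0x1800000008000000080000002800000000 0x380000007f0000006e0000002800000028 5 7) 0 0 (step_sound _ 100 [(rh71222050f2c63a3a.shift 3 0), rh8f12d57e0e1f27cb] (by decide +kernel))
noncomputable def rh00c94d49004aa742 : CRef := CRef.mk (Pat.mk 0x800000018000000080000000800000000 0xe000000ff000001ff0000000800000008 5 9) 0 0 (step_sound _ 101 [rh336c18cb66e77365, (rh8c70a726a3a85f76.shift 2 2), (rhd9106766b9ff53c0.shift 2 2), (rhf0f55c4504412200.shift 0 2)] (by decide +kernel))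
noncomputable def rh98ba3ec0b1ffc325 : CRef := CRef.mk (Pat.mk 0x1800000008000000080000000800000000 0xe4000000ff000001ff000000080000000c00000004 5 9) 0 0 (step_sound _ 133 [(rh18e155a35aa8a1a4.shift 2 1), (rh9099e5624e826e01.shift 0 1), rhaabc6f8103fee775, (rhf0f55c4504412200.shift 0 3)] (by decide +kernel))
noncomputable def rhcb796acd273ff66d : CRef := CRef.mk (Pat.mk 0x18000000080000002800000000 0x1000000010000000300000007c0000002f0000002800000028 5 7) 0 0 (step_sound _ 132 [rh69a090d1484f48a7, (rh71222050f2c63a3a.shift 3 0)] (by decide +kernel))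
noncomputable def rh68a32cd8cfd8511d : CRef := CRef.mk (Pat.mk 0x18000000080000002800000000 0x4000001c7000000ff000001ff0000002800000020 5 9) 0 0 (step_sound _ 101 [(rh2820ca9a6c4f41b4.shift 0 2), (rhc0dbcf89614018a8.shift 2 0), (rhf0f55c4504412200.shift 0 2), (rhf204659dbf618c64.shift 0 1)] (by decide +kernel))
noncomputable def rh869c7116e9676e23 : CRef := CRef.mk (Pat.mk 0x200000002000000020000000000000000 0x100000007000000070000000700000003000000030000000300000001 5 3) 0 0 (step_sound _ 161 [rh367118e0bf0473e0, (rh565a0c22519f57e9.shift 0 1), rh6aa5625770489e83, (rhc4055b4872d6fb38.shift 0 1)] (by decide +kernel))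
noncomputable def rhafd4c4c1c700c72a : CRef := CRef.mk (Pat.mk 0x200000002000000020000000200000000 0x1000000070000000700000002000000060000000600000004 5 3) 0 0 (step_sound _ 34 [(rh4016a8c43def2565.shift 0 1), (rh55afc6a59410cf00.shift 1 0)] (by decide +kernel))
noncomputable def rh836239318bb0a056 : CRef := CRef.mk (Pat.mk 0xc0000000c0000000400000000 0x18000000380000003f0000000f0000000c00000008 5 6) 0 0 (step_sound _ 131 [(rh5c5e593799055d58.shift 2 1), rhbe172af05515d347] (by decide +kernel))
noncomputable def rh66091e2d3b95e8e6 : CRef := CRef.mk (Pat.mk 0xc0000000c000000100000000000000000 0x340000007e0000007f000000180000001800000018 5 7) 0 0 (step_sound _ 100 [(rh79b3c29022acbdf3.shift 1 3), rhb6feff880a88bde1] (by decide +kernel))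
noncomputable def rh79e9bfa6691322eb : CRef := CRef.mk (Pat.mk 0x7000000010000000500000000000000000 0x570000007e000000fe000000700000007000000020 5 8) 0 0 (step_sound _ 131 [(rh0a31c7f562fb8d12.shift 1 3), (rh3e337bea931a14c4.shift 3 0), (rhfa26aa5ce58b8243.shift 0 3)] (by decide +kernel))
noncomputable def rh0fa56245ad747a96 : CRef := CRef.mk (Pat.mk 0x200000002000000020000000600000000 0x600000006000000060000000300000003000000070000000600000002 5 3) 0 0 (step_sound _ 161 [rh73cc2f8d08e13824, (rhd3458b32566d63f7.shift 1 1)] (by decide +kernel))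
noncomputable def rh52b0a092a4ced153 : CRef := CRef.mk (Pat.mk 0xc00000004000000040000001400000000 0x120000003f0000003f0000000c0000001c00000018 5 6) 0 0 (step_sound _ 35 [(rh55afc6a59410cf00.shift 2 0), rhe2d50aca5e2450bb] (by decide +kernel))
noncomputable def rh7e7c4edde1027eb4 : CRef := CRef.mk (Pat.mk 0x18000000080000002800000000 0x14000000370000007f000001ff0000002800000020 5 9) 0 0 (step_sound _ 101 [(rh2681a9cc88799f7f.shift 2 0), (rh2820ca9a6c4f41b4.shift 0 2), (rhf0f55c4504412200.shift 0 2), (rhf204659dbf618c64.shift 0 1)] (by decide +kernel))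
noncomputable def rh669af60102429dba : CRef := CRef.mk (Pat.mk 0x30000000100000001000000000 0x800000008000001cf000000fe000001fe0000001000000010 5 9) 0 0 (step_sound _ 99 [rh3c854e66629c2f4d, (rh6b9df646b7babe1b.shift 1 2), (rhf9a6286f1d5377a2.shift 3 0)] (by decide +kernel))
noncomputable def rh0c2570d0ab9ca10f : CRef := CRef.mk (Pat.mk 0x40000001e00000000 0x200000003000000030000003f0000001e00000007 5 6) 0 0 (step_sound _ 65 [(rh3244c3cc8379b070.shift 0 1), rhe43ff1ad7042aea4] (by decide +kernel))
noncomputable def rh843e809f06df8ae3 : CRef := CRef.mk (Pat.mk 0x80000000800000038000000000000000000000000 0x10000000300000007c0000003f000000380000003f0000001400000010 5 7) 0 0 (step_sound _ 164 [rh47d62f82182d1757, (rh61147287bacde07b.shift 0 1), (rha7976e43fb57a213.shift 3 2), (rhac0f8679b4e8a798.shift 1 1)] (by decide +kernel))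
noncomputable def rh358b93b5dde30a05 : CRef := CRef.mk (Pat.mk 0x400000007000000020000000200000000 0x30000001b0000001f00000007000000070000000700000004 5 5) 0 0 (step_sound _ 129 [rh08b88d1e4376d1d4, (rh54588a0e2fea852b.shift 0 1), rh959cbdccade231d1] (by decide +kernel))
noncomputable def rh25b83bcfa70cdf7b : CRef := CRef.mk (Pat.mk 0x1c000000160000000000000000 0x80000000e0000001f0000001c000000160000001600000016 5 5) 0 0 (step_sound _ 131 [(rha40d42a2e34c408d.shift 3 0), rhbe253d1426d5780c] (by decide +kernel))
noncomputable def rh70e5a642f7de8c4c : CRef := CRef.mk (Pat.mk 0x2000000020000000300000000 0x5000000070000000700000007000000030000000300000002 5 3) 0 0 (step_sound _ 129 [(rh7adda3dfe9451016.shift 0 1), (rh9a369cb82ea472da.shift 0 1), (rha54302d5ccf5246c.shift 0 1), rhc4055b4872d6fb38] (by decide +kernel))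
noncomputable def rh1eadfefecc5928cd : CRef := CRef.mk (Pat.mk 0x80000002800000028000000000000000000000000 0x1400000014000000760000007c0000006f000000280000002c0000000c00000004 5 7) 0 0 (step_sound _ 164 [(rh7455bb6f93900b28.shift 1 2), (rh80bb4355aab750a2.shift 1 2), (rhd63e5c19147ed538.shift 2 0), (rheb18720e2c78d829.shift 0 2), (rhf8346b0c2a63de92.shift 3 2)] (by decide +kernel))
noncomputable def rh4e2a9f77e9fc176b : CRef := CRef.mk (Pat.mk 0x380000002c00000000000000000000000000000000 0x100000001c0000001f000000380000002f0000007c0000003c0000001400000010 5 7) 0 0 (step_sound _ 99 [rh2435341cfb2f3a3e, (rh483977ec4c7a5d44.shift 2 1), (rh4c6178ff4696345e.shift 0 2), (rh541160d578a25bcf.shift 0 2), (rhccfe59976d8f78f9.shift 0 2)] (by decide +kernel))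
noncomputable def rh9ca1f3d554db0c15 : CRef := CRef.mk (Pat.mk 0x20000000200000003000000000000000000000000 0x10000000700000007000000070000000300000003000000060000000600000004 5 3) 0 0 (step_sound _ 65 [rh1b2df5ba4c8f9ada, rh46baee19951a66e7, (rhc85cc95794737cf7.shift 0 2), (rhe8915d9db8b9f3f2.shift 0 2)] (by decide +kernel))
noncomputable def rhca9d9eba9ed322bb : CRef := CRef.mk (Pat.mk 0x40000000400000006000000000000000000000000 0x20000000600000006000000070000003e0000000e0000000a 5 6) 0 0 (step_sound _ 66 [(rh1861173042f24e9a.shift 0 1), (rh46baee19951a66e7.shift 1 0), (rh6aa5625770489e83.shift 1 0), (rh8cdd36b03d57a2f6.shift 1 0)] (by decide +kernel))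
noncomputable def rh871c3e902ff76735 : CRef := CRef.mk (Pat.mk 0x400000004000000050000000600000000 0x400000004000000770000003e00000078 5 7) 0 0 (step_sound _ 35 [rh1136b81d2c6924ee, (rh55afc6a59410cf00.shift 2 0)] (by decide +kernel))
noncomputable def rh53fefa254d38584d : CRef := CRef.mk (Pat.mk 0x6800000038000000000000000000000000 0x140000001c0000001c0000007c000001e8000000380000001f0000001400000010 5 9) 0 0 (step_sound _ 163 [(rha768b229dc254047.shift 3 0), (rhac65fe9f4d7f3dc5.shift 2 2), (rhadacf7b73debade2.shift 0 1), (rhc0f6fe06378683f4.shift 2 2)] (by decide +kernel))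
noncomputable def rhd420e36e9074f089 : CRef := CRef.mk (Pat.mk 0x18000000580000000000000000 0x8000000080000001c0000007f0000003e00000010 5 7) 0 0 (step_sound _ 69 [rh2298b74d3568eeb7, (rh3244c3cc8379b070.shift 2 2)] (by decide +kernel))
noncomputable def rh435af0e084ff217e : CRef := CRef.mk (Pat.mk 0x180000005800000000 0x3800000038000000380000001f0000007800000030 5 7) 0 0 (step_sound _ 131 [(rh2b9d78e14dbe6cb0.shift 0 1), (rhda6cc5da102e1723.shift 3 0), rhfadef44d82b2e96f] (by decide +kernel))
noncomputable def rhcdfe6437ba6f5a44 : CRef := CRef.mk (Pat.mk 0x60000001600000000000000000000000000000000 0x200000006000000060000001f00000007000000070000000300000001 5 5) 0 0 (step_sound _ 97 [rh58aa26c47e50de25, (rhb3649a6172bd88d6.shift 0 1), (rhea7a1800d6f053bd.shift 1 1)] (by decide +kernel))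
noncomputable def rh82253f57fbfd99d1 : CRef := CRef.mk (Pat.mk 0x200000007000000050 0x1f7000001fe00000070 5 9) 0 0 (step_sound _ 35 [rh3b2b05f77630fe70, (rh6765e7960b108c8d.shift 2 0), (rhcd66880aa8253b24.shift 3 0), (rhec46bd5500c722c9.shift 2 1)] (by decide +kernel))
noncomputable def rh30c668368a99e23b : CRef := CRef.mk (Pat.mk 0x20000000a0000000a0000000000000000 0x10000000300000003000000030000001b0000000f0000000700000004 5 5) 0 0 (step_sound _ 161 [(rh0fd870c734e6c513.shift 0 1), rh46baee19951a66e7, (rhe8768a83bdb59c61.shift 0 1)] (by decide +kernel))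
noncomputable def rha704ca9015953a8f : CRef := CRef.mk (Pat.mk 0x20000000a0000000a0000000000000000 0x40000000600000006000000060000001b0000000f0000000700000004 5 5) 0 0 (step_sound _ 161 [(rh402d223d12d7377d.shift 0 1), (rhc9de03f9731897d4.shift 1 0), (rhe8768a83bdb59c61.shift 0 1)] (by decide +kernel))
noncomputable def rhb5458ddcce4f1dd0 : CRef := CRef.mk (Pat.mk 0x3c 0x1fc000000ff 5 9) 0 0 (step_sound _ 6 [(rh9890f9d77740bbed.shift 2 0), (rhb18e6c78a554867d.shift 2 0), rhd64ac1b1180c5fc8] (by decide +kernel))
noncomputable def rh16c09bea24aec334 : CRef := CRef.mk (Pat.mk 0x7800000000 0xe70000007e00000007 5 8) 0 0 (step_sound _ 70 [rh30473dc56de15b6b, (rh33e738c4ed385b9f.shift 3 1)] (by decide +kernel))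
noncomputable def rh911b5089e975bd40 : CRef := CRef.mk (Pat.mk 0x1a0000000a000000080000000000000000 0x500000007000000070000000f0000001a0000000b0000001f0000001f00000014 5 5) 0 0 (step_sound _ 161 [rh1fcb0c52cca088ab, rh30de1f488ced68d2, rh6409895086bd9552, (rh6afad16846f4e5cd.shift 0 1), (rh980fcfff829ad243.shift 0 1)] (by decide +kernel))
noncomputable def rh0fa02f265ef05289 : CRef := CRef.mk (Pat.mk 0x680000002800000020000000000000000000000000 0x540000007c0000007c000000680000002f0000007c0000005e0000001400000010 5 7) 0 0 (step_sound _ 99 [(rh11bbdefe2705f60a.shift 1 0), (rh164510e3b7baa136.shift 0 2), (rh6d22e4af4868beec.shift 2 2), (rh80a5a644583a2421.shift 2 2), rhf64ae35667378b04] (by decide +kernel))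
noncomputable def rh9819664b9df56fc0 : CRef := CRef.mk (Pat.mk 0x10000000a0000000a00000002000000000000000000000000 0x10000000110000001b0000001e0000000b0000001e0000003e0000001c00000014 5 6) 0 0 (step_sound _ 99 [(rh2322ab45583e9f4c.shift 0 2), (rh2416aa61ab8e10c1.shift 0 2), rh48a21ff32460cc4d, (rh749b9667ede37e67.shift 0 1)] (by decide +kernel))
noncomputable def rh9792bea69fea0408 : CRef := CRef.mk (Pat.mk 0x200000003000000020000000000000000 0x40000000700000007000000030000000300000003000000030000000300000001 5 3) 0 0 (step_sound _ 161 [(rh03dfdf12d5937476.shift 0 1), rh6aa5625770489e83, (rh9bfcedd6961f6a87.shift 0 2)] (by decide +kernel))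
noncomputable def rh9694f7a9d0e0dff0 : CRef := CRef.mk (Pat.mk 0xa0000000a0000000200000004 0xa0000000a0000000b0000003e00000007 5 6) 0 0 (step_sound _ 34 [(rh2145e1d24b96a57e.shift 1 0), rhdbc55d3b204a972a] (by decide +kernel))
noncomputable def rhabf9fcd05300ede4 : CRef := CRef.mk (Pat.mk 0xa0000000a0000000a000000000000000000000000 0x100000011000000190000001f0000000b0000000a0000001e0000001c00000014 5 5) 0 0 (step_sound _ 67 [(rh3181373a30ceb9e3.shift 2 0), (rhbde1dbdffc26c685.shift 0 2)] (by decide +kernel))
noncomputable def rh5c80ce87ff588698 : CRef := CRef.mk (Pat.mk 0x280000002800000028000000000000000000000000 0x40000000780000002f0000007c000001f00000007000000050 5 9) 0 0 (step_sound _ 69 [(rh3181373a30ceb9e3.shift 4 0), (rh66a10826874d2466.shift 0 2), (rhc486ae0fcc44be52.shift 2 1)] (by decide +kernel))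
noncomputable def rh546848b583134c22 : CRef := CRef.mk (Pat.mk 0x20000000200000002000000000000000000000000 0x400000006000000060000000200000007000000070000000700000005 5 3) 0 0 (step_sound _ 65 [(rh20966da26a1c2ae8.shift 0 1), rh3181373a30ceb9e3, (rh426f403fa814630c.shift 1 1)] (by decide +kernel))
noncomputable def rh3248abfe85a151c7 : CRef := CRef.mk (Pat.mk 0xa0000000a0000000a000000000000000000000000 0x100000011000000190000001f0000000b0000001a0000001e0000001c00000014 5 5) 0 0 (step_sound _ 67 [(rh3181373a30ceb9e3.shift 2 0), (rh426f403fa814630c.shift 3 1), (rhbde1dbdffc26c685.shift 0 2)] (by decide +kernel))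
noncomputable def rhd19ee4ddf80920ab : CRef := CRef.mk (Pat.mk 0x20000000a0000000a000000020000000000000000 0x40000001e0000001e0000001a0000000b0000001e0000003e00000014 5 6) 0 0 (step_sound _ 67 [(rh2e1175ac59dda116.shift 1 0), (rh96542b57e9ab27d3.shift 1 0), (rh9811135352b05f37.shift 0 1)] (by decide +kernel))
noncomputable def rh4bbac08ccc287c26 : CRef := CRef.mk (Pat.mk 0x800000028000000280000000800000000 0xd00000007c000001ef000000280000002800000008 5 9) 0 0 (step_sound _ 132 [(rh2f68792b6b779e96.shift 3 1), rh7b09a60ea70b7479] (by decide +kernel))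
noncomputable def rh157830707e2c857a : CRef := CRef.mk (Pat.mk 0x80000000e00000000000000000000000000000000 0x140000001c0000001c0000000c0000000f0000007c0000001c0000001c00000010 5 7) 0 0 (step_sound _ 99 [rh5a8abb721f11b584, (rh87a3a8a8a3fd85be.shift 2 1), (rhc21a95c499b3efdb.shift 0 3)] (by decide +kernel))
noncomputable def rh18f6e49771361853 : CRef := CRef.mk (Pat.mk 0x400000007000000000000000000000000 0xa0000000e0000000e0000000e000000070000001e0000000e0000000e 5 5) 0 0 (step_sound _ 162 [(rh281c6819542c66e6.shift 1 0), (rh5142cf6cc3d2b1bc.shift 1 0), rh7552efa494129220, (rhfafeb437ceb8396d.shift 1 0)] (by decide +kernel))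
noncomputable def rh2ed2cd37a9b20882 : CRef := CRef.mk (Pat.mk 0x2000000020000000300000000 0x4000000070000000700000002000000030000000300000001 5 3) 0 0 (step_sound _ 129 [(rh7adda3dfe9451016.shift 0 1), rh932754581e0f4330] (by decide +kernel))
noncomputable def rh76bd0dc3251bfb89 : CRef := CRef.mk (Pat.mk 0x2000000020000000300000000000000000000000000000000 0x4000000070000000700000007000000030000000300000006000000070000000700000001 5 3) 0 0 (step_sound _ 97 [rh5d80382ac3a74c83, (rh9bfcedd6961f6a87.shift 0 3), (rhc85cc95794737cf7.shift 0 3)] (by decide +kernel))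
noncomputable def rh819f483d77775605 : CRef := CRef.mk (Pat.mk 0x80000000a000000080000000000000000 0x140000001c0000001c0000000c0000000f0000003c0000000c00000004 5 6) 0 0 (step_sound _ 163 [(rh0c1c1b53bc5a1510.shift 2 0), (rhc85cc95794737cf7.shift 2 2), (rhf814db9021755fce.shift 0 1)] (by decide +kernel))
noncomputable def rh533bf76a52f29312 : CRef := CRef.mk (Pat.mk 0x80000000a000000080000000c00000000 0x80000000f0000007f0000003f00000010 5 7) 0 0 (step_sound _ 36 [(rh55afc6a59410cf00.shift 3 0), (rhe64c6c9f2d0e38e8.shift 0 1)] (by decide +kernel))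
noncomputable def rh9a533699701a8346 : CRef := CRef.mk (Pat.mk 0x38000000280000000800000000 0x40000000c0000001f000000380000003c0000001e00000014 5 6) 0 0 (step_sound _ 131 [(rh0fd870c734e6c513.shift 2 0), rh6789f6f2074baf8a, (rh8065c10b3cae6218.shift 2 0), (rhf42e780814dbdbac.shift 1 0)] (by decide +kernel))
noncomputable def rh1b194f1c1b756af2 : CRef := CRef.mk (Pat.mk 0x200000002000000020000000000000000 0x100000003000000030000000200000007000000070000000700000005 5 3) 0 0 (step_sound _ 161 [(rh0fd870c734e6c513.shift 0 1), rh3181373a30ceb9e3, (rh8065c10b3cae6218.shift 0 1)] (by decide +kernel))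
noncomputable def rh249efe4758bb059f : CRef := CRef.mk (Pat.mk 0x2c000000280000000000000000 0x4000000770000003e0000003f0000000800000008 5 7) 0 0 (step_sound _ 100 [(rh2c1baeadcd4b32f5.shift 0 2), (rhb9dd680bb9375a9f.shift 1 0), (rhd1d05263fabc0227.shift 0 2)] (by decide +kernel))
noncomputable def rh70a99980bd71d9c4 : CRef := CRef.mk (Pat.mk 0x200000003000000020000000000000000 0x40000000700000007000000030000000300000003000000030000000300000003 5 3) 0 0 (step_sound _ 161 [(rh03dfdf12d5937476.shift 0 1), (rh9bfcedd6961f6a87.shift 0 2), rhd1fa8140a3eb151f] (by decide +kernel))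
noncomputable def rh2b9942482b6dbbce : CRef := CRef.mk (Pat.mk 0xa0000000a0000000a000000000000000000000000 0x40000000d0000000f0000000b0000000e000000070000000700000001 5 4) 0 0 (step_sound _ 65 [rh6aa5625770489e83, (rh79d2d2d05d30a4b0.shift 1 1)] (by decide +kernel))
noncomputable def rhb2be77f02bf1d2f2 : CRef := CRef.mk (Pat.mk 0x280000002800000028000000000000000000000000 0x100000003000000038000000280000007c0000001f0000001c00000014 5 7) 0 0 (step_sound _ 67 [(rh79d2d2d05d30a4b0.shift 3 1), (rh8cdd36b03d57a2f6.shift 2 0), (rhc8fd50c44a2112a0.shift 0 1)] (by decide +kernel))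
noncomputable def rh3c3172e40ed1953c : CRef := CRef.mk (Pat.mk 0xa0000000a0000000a0000000000000000 0x150000001d0000001d0000000f0000000b0000001a0000001a00000010 5 5) 0 0 (step_sound _ 163 [(rh46baee19951a66e7.shift 2 0), (rh7ef5fa5c39f1c762.shift 2 2), (rhc0244a6a8f388687.shift 0 1)] (by decide +kernel))
noncomputable def rh5837685bf925007f : CRef := CRef.mk (Pat.mk 0xa0000000a0000000a000000000000000000000000 0x10000000b0000000b0000001b0000001f0000001700000005 5 5) 0 0 (step_sound _ 65 [rh46baee19951a66e7, (rh6228443e62b344a2.shift 0 1), rh6aa5625770489e83, rh8cdd36b03d57a2f6] (by decide +kernel))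
noncomputable def rh45e07cbe933fdbfe : CRef := CRef.mk (Pat.mk 0x80000000e00000000000000000000000000000000 0x40000000c0000000c0000000f0000007c0000001c0000001c00000014 5 7) 0 0 (step_sound _ 99 [(rh2140e04d90a4f0d4.shift 2 0), rh5a8abb721f11b584, (rhc21a95c499b3efdb.shift 0 3)] (by decide +kernel))
noncomputable def rhb545443065bcf8d0 : CRef := CRef.mk (Pat.mk 0x140000001400000004000000000000000000000000 0x2000000060000001600000014000000f70000003e0000001b0000000a0000000a 5 8) 0 0 (step_sound _ 99 [(rh6397304e48106007.shift 1 0), (rh96fbad571715fd8b.shift 1 2), rh9ccba12e5ed12512, (rhf888686ded5effa4.shift 2 0)] (by decide +kernel))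
noncomputable def rh33ff8f61a0144882 : CRef := CRef.mk (Pat.mk 0x2c00000038000000000000000000000000 0x140000001c0000001c0000000c0000002c0000003c0000001f0000001c00000010 5 6) 0 0 (step_sound _ 163 [(rh4bcb18fc14cd73eb.shift 0 1), (rh87a3a8a8a3fd85be.shift 2 1), (rha768b229dc254047.shift 3 0), (rhc0f6fe06378683f4.shift 2 2)] (by decide +kernel))
noncomputable def rhf0a1599ba7cae59f : CRef := CRef.mk (Pat.mk 0x140000001c00000008000000000000000000000000 0x80000001c0000007c0000007f000000760000003600000010 5 7) 0 0 (step_sound _ 98 [(rh264ce5480d75c69d.shift 1 1), (rh4dc133ee0ba1420a.shift 0 3), (rh88126945e2c9f993.shift 1 0)] (by decide +kernel))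
noncomputable def rhd9f68c03af9d20db : CRef := CRef.mk (Pat.mk 0x40000001c000000080000000000000000 0x40000000c0000000c0000007c0000007f0000000600000006 5 7) 0 0 (step_sound _ 66 [(rh264ce5480d75c69d.shift 1 0), (rh3af54b5f78790764.shift 0 1), (rh4dc133ee0ba1420a.shift 0 2)] (by decide +kernel))
noncomputable def rh88923257c65ef0b4 : CRef := CRef.mk (Pat.mk 0x80000000800000038000000000000000000000000 0x40000000c0000000c000000380000001f0000001c00000014 5 6) 0 0 (step_sound _ 67 [(rh46baee19951a66e7.shift 2 0), (rh6aa5625770489e83.shift 2 0), (rh852e818bc8629e77.shift 0 1), (rh8cdd36b03d57a2f6.shift 2 0)] (by decide +kernel))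
noncomputable def rh1468d52ccc1a3c50 : CRef := CRef.mk (Pat.mk 0x20000000200000006000000000000000000000000 0x500000007000000070000000700000006000000030000000300000003 5 3) 0 0 (step_sound _ 65 [(rh2f7ea2d2c6b43cfc.shift 0 1), rh6aa5625770489e83, rh6ed5e6501b92e21f, rheacedd262407fad2] (by decide +kernel))
noncomputable def rhb5c6f8d0db024075 : CRef := CRef.mk (Pat.mk 0x280000002c000000000000000000000000 0x800000008000000380000003e0000007f0000000400000004 5 7) 0 0 (step_sound _ 100 [(rh2ebbcfe90e0f250d.shift 1 2), (rh3423e5ac208fb65b.shift 1 0), (rh8195a2d7794c7cd2.shift 0 2)] (by decide +kernel))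
noncomputable def rh3ed08c54da35234d : CRef := CRef.mk (Pat.mk 0x80000002c000000000000000000000000 0x80000000f0000003e000000770000000400000004 5 7) 0 0 (step_sound _ 100 [(rh2ba551de881ca4cd.shift 0 2), (rh4f129d8f37c2c70a.shift 1 0), (rh8195a2d7794c7cd2.shift 0 2)] (by decide +kernel))
noncomputable def rh04ebfa9c0f315627 : CRef := CRef.mk (Pat.mk 0x140000000c000000040000000000000000 0x60000000e0000000f0000001c0000000c0000000c0000000c0000000c 5 5) 0 0 (step_sound _ 131 [(rh208c73c66d2a62cd.shift 1 0), (rhdcaf1ec7c116ff42.shift 0 1), (rhea7a1800d6f053bd.shift 2 0)] (by decide +kernel))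
noncomputable def rh7ac79f18e0de8fde : CRef := CRef.mk (Pat.mk 0x140000001c00000008000000000000000000000000 0x80000001c0000001f0000007f0000007e0000003e00000018 5 7) 0 0 (step_sound _ 100 [(rh2d7209ce0a85e9fa.shift 1 0), (rh6292bd8784ece55f.shift 1 3), rhe5f445fbf1420cec] (by decide +kernel))
noncomputable def rhec2448fa5b1a0c0d : CRef := CRef.mk (Pat.mk 0x2000000020000000200000000 0x5000000070000000700000007000000030000000300000003 5 3) 0 0 (step_sound _ 129 [rh0fd870c734e6c513, rh402d223d12d7377d, rhc4055b4872d6fb38] (by decide +kernel))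
noncomputable def rh379ecaeba796b0c8 : CRef := CRef.mk (Pat.mk 0x200000002800000068000000000000000000000000 0x10000000100000003c0000007c0000002f000000680000003c0000001c00000014 5 7) 0 0 (step_sound _ 163 [(rh5d8b3f773a050a7a.shift 0 2), (rha2ead9223fc6d248.shift 2 0), (rhe27f3a99d34d0525.shift 3 2), (rhe71984e1e06c53b9.shift 0 2)] (by decide +kernel))
noncomputable def rh141617a19047b268 : CRef := CRef.mk (Pat.mk 0x200000002800000068000000000000000000000000 0x10000000140000005c0000007c0000002f000000680000007c0000007c00000054 5 7) 0 0 (step_sound _ 163 [(rh08ff1a9078a560c4.shift 2 0), (rha2ead9223fc6d248.shift 2 0), (rhcc7c28e4c9a2f586.shift 2 1), (rhe71984e1e06c53b9.shift 0 2)] (by decide +kernel))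
noncomputable def rh6172276040199426 : CRef := CRef.mk (Pat.mk 0x20000000200000002000000000000000000000000 0x400000006000000060000000200000007000000070000000700000005 5 3) 0 0 (step_sound _ 65 [(rh402d223d12d7377d.shift 0 1), rh8cdd36b03d57a2f6, (rhced6d86d2069808b.shift 1 1)] (by decide +kernel))
noncomputable def rh13d48bbdef85530c : CRef := CRef.mk (Pat.mk 0x20000000200000002000000000000000000000000 0x100000003000000030000000300000003000000070000000700000005 5 3) 0 0 (step_sound _ 65 [(rh0fd870c734e6c513.shift 0 1), rh8cdd36b03d57a2f6, rhcae87bda2c3c01d2] (by decide +kernel))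
noncomputable def rh16ab7479028fc32c : CRef := CRef.mk (Pat.mk 0x200000003000000020000000000000000 0x500000007000000070000000200000003000000070000000700000005 5 3) 0 0 (step_sound _ 161 [(rh03dfdf12d5937476.shift 0 1), (rh7ef5fa5c39f1c762.shift 0 2), rh8cdd36b03d57a2f6] (by decide +kernel))
noncomputable def rh9a80b33a5b2ded2c : CRef := CRef.mk (Pat.mk 0x8000000280000000800000000 0x140000001c0000001c000000080000007c0000000f00000004 5 7) 0 0 (step_sound _ 131 [(rh0fd870c734e6c513.shift 2 0), (rh402d223d12d7377d.shift 2 0), (rh7ef5fa5c39f1c762.shift 2 1), rhc8fd50c44a2112a0] (by decide +kernel))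
noncomputable def rh51fbe4a97b6461c3 : CRef := CRef.mk (Pat.mk 0x280000003800000020000000000000000000000000 0x140000001c0000001c00000028000000780000003f0000003c0000001400000004 5 7) 0 0 (step_sound _ 99 [(rh19b19bf0872cfe73.shift 2 0), (rhaa267e591401fc13.shift 2 1), (rhf0f55c4504412200.shift 0 3)] (by decide +kernel))
noncomputable def rh337e62714be558a0 : CRef := CRef.mk (Pat.mk 0x2800000038000000200000000000000000 0x140000001c0000001c000000280000007c0000003f0000003800000010 5 7) 0 0 (step_sound _ 67 [(rh2820ca9a6c4f41b4.shift 0 2), (rhaa267e591401fc13.shift 2 0)] (by decide +kernel))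
noncomputable def rh4ebf2782828c7c6e : CRef := CRef.mk (Pat.mk 0x20000000a0000000a000000020000000000000000 0x140000003e0000001e0000000b0000001a0000001e0000001e00000004 5 6) 0 0 (step_sound _ 163 [(rh1d991cfd4e134774.shift 0 2), (rh5f9368802ad142aa.shift 1 1), (rh79f3cd96a7fdfe31.shift 1 0)] (by decide +kernel))
noncomputable def rh7d41fed0b41e24c5 : CRef := CRef.mk (Pat.mk 0xa0000000e000000000000000000000000 0xa0000000a0000000a0000003f0000003f0000001400000004 5 6) 0 0 (step_sound _ 66 [(rh870e4bc87f2465fd.shift 0 1), (rhade0f4c81793f68e.shift 1 0), (rhcf80391c5046a495.shift 2 0)] (by decide +kernel))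
noncomputable def rh60ad8c5a8ef06625 : CRef := CRef.mk (Pat.mk 0x20000001e000000000000000000000000 0x4000000050000000700000007000000060000001e000000070000000600000006 5 5) 0 0 (step_sound _ 161 [(rh01cd4aac99ae4b40.shift 0 2), (rh046c5eb18e55a239.shift 1 0), rh1b880c036631c575, (rhc65f5dc89ddae11a.shift 0 1), rhed21e45804eeb376] (by decide +kernel))
noncomputable def rhb6f5759dc1b00526 : CRef := CRef.mk (Pat.mk 0xc000000080000000800000000 0x140000001c0000003c0000000f0000000c0000000c00000004 5 6) 0 0 (step_sound _ 131 [(rh20ee5c2c4c3a9878.shift 0 1), (rh402d223d12d7377d.shift 2 0), (rh565a0c22519f57e9.shift 2 0)] (by decide +kernel))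
noncomputable def rh56efc7f3ae759ab6 : CRef := CRef.mk (Pat.mk 0x200000002800000068000000000000000000000000 0x10000000140000005e0000007c0000002f000000680000007c0000007c00000054 5 7) 0 0 (step_sound _ 163 [(rh08ff1a9078a560c4.shift 2 0), (rh2ff636bca25f9b29.shift 2 0), (rh349d1013248e817b.shift 0 2), (rhbccd62fc0b48f4f2.shift 1 2), (rhe71984e1e06c53b9.shift 0 2)] (by decide +kernel))
noncomputable def rhcaef535c2df5c83d : CRef := CRef.mk (Pat.mk 0x2000000030000000a0000000000000000 0x6000000060000000700000007000000030000001f0000000200000002 5 5) 0 0 (step_sound _ 68 [(rh5419adcd928dba20.shift 0 2), rha48bf7c18c1f006f] (by decide +kernel))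
noncomputable def rh93610da36faff07c : CRef := CRef.mk (Pat.mk 0x1e00000006000000000000000000000000 0x10000000340000001e0000003e0000000b0000000a00000002 5 6) 0 0 (step_sound _ 100 [rh9ba416347aeaaec1, (rhe25b0a99195a5d59.shift 1 3)] (by decide +kernel))
noncomputable def rh9686025fd23d9663 : CRef := CRef.mk (Pat.mk 0x10000000f000000020000000000000000 0x60000000f0000001f0000000f0000001e0000000600000006 5 5) 0 0 (step_sound _ 66 [rh2ae694e25f74369c, rh2e017013ff157e93, rh57e0fcf9537f6a5b] (by decide +kernel))
noncomputable def rhad2fa347056c70d9 : CRef := CRef.mk (Pat.mk 0x40000001c00000004000000040000000000000000 0x400000004000000040000001c0000000f0000000e0000000c0000000c 5 5) 0 0 (step_sound _ 35 [rhbc48c47503cb9557, (rhd3458b32566d63f7.shift 2 1)] (by decide +kernel))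
noncomputable def rhe79d9e3a3e1ecc93 : CRef := CRef.mk (Pat.mk 0x2000000060000000200000002000000000000000000000000 0x2000000060000000600000006000000070000000700000001 5 3) 0 0 (step_sound _ 66 [rh9db51efc6d9d93b8, (rhd3458b32566d63f7.shift 1 2)] (by decide +kernel))
noncomputable def rh4cf961eb7f88dbc9 : CRef := CRef.mk (Pat.mk 0xc0000000e000000000000000000000000 0x4000000040000000e0000007e000000070000000200000002 5 7) 0 0 (step_sound _ 100 [rh3423e5ac208fb65b, (rh79b3c29022acbdf3.shift 1 3), (rhf10fa853c2693a25.shift 0 2)] (by decide +kernel))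
noncomputable def rh9099542ffb845dfc : CRef := CRef.mk (Pat.mk 0xc0000000e000000000000000000000000 0x4000000040000000c0000007e000000770000000200000002 5 7) 0 0 (step_sound _ 100 [rh3423e5ac208fb65b, (rh87ee923877636e52.shift 1 2), (rhf10fa853c2693a25.shift 0 2)] (by decide +kernel))
noncomputable def rhd4bfe5a853a70fb5 : CRef := CRef.mk (Pat.mk 0x600000007000000000000000000000000 0x40000000600000006000000070000001f0000000f00000007 5 5) 0 0 (step_sound _ 65 [rh7f8bb07996f68c30, rhaeb7261ea18cb548, (rhea7a1800d6f053bd.shift 1 0)] (by decide +kernel))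
noncomputable def rh1c0d8b13617569ff : CRef := CRef.mk (Pat.mk 0x1c0000001c000000000000000000000000 0x40000000c0000001c0000001c0000001f0000001e0000001c 5 5) 0 0 (step_sound _ 67 [(rh40241bd608e5be1a.shift 2 0), rh5fb31cced3e2e440, (rhc9cfa84202724d48.shift 2 0)] (by decide +kernel))
noncomputable def rh07a09f4105ddb790 : CRef := CRef.mk (Pat.mk 0x3800000008000000080000000000000000 0x80000003c0000001f0000001c0000001c0000001c 5 6) 0 0 (step_sound _ 98 [(rh1ed7a3503fa50fc8.shift 0 3), (rheea1a90336e79c71.shift 0 3), (rhf28b523c75fe0711.shift 2 0)] (by decide +kernel))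
noncomputable def rh905018e7ae61773a : CRef := CRef.mk (Pat.mk 0x10000000380000000800000008000000000000000000000000 0x28000000780000003e0000001f000000fc000000340000001000000010 5 8) 0 0 (step_sound _ 100 [(rh046c5eb18e55a239.shift 3 0), (rh4438f01b220ebc91.shift 1 2), (rh8bf8248bcf1a0fcd.shift 2 1), (rhfbfc91878dfaf737.shift 0 2)] (by decide +kernel))
noncomputable def rh87c8b8eb12c86d03 : CRef := CRef.mk (Pat.mk 0x10000000380000000800000008000000000000000000000000 0x28000000780000003e000000780000003f000000340000003000000010 5 7) 0 0 (step_sound _ 100 [(rh046c5eb18e55a239.shift 3 0), (rh1ab348ec1f5b10e8.shift 1 2), (rh6071e221c9b80e18.shift 0 2), (rhe5af11f89569327d.shift 1 1)] (by decide +kernel))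
noncomputable def rh5921f38488d3a6ac : CRef := CRef.mk (Pat.mk 0x1c0000000c0000000800000000 0x1800000018000000180000001c0000000f0000007c00000014 5 7) 0 0 (step_sound _ 131 [(rh1e309b005ffa1b36.shift 2 0), (rh543b63d61c76edc4.shift 0 1), (rhcd4e30cc39602f0f.shift 1 0)] (by decide +kernel))
noncomputable def rh7f1a66fc72ab5a2a : CRef := CRef.mk (Pat.mk 0xe00000007000000000000000000000000 0x6000000060000000e0000000e0000000f0000003c0000000c00000004 5 6) 0 0 (step_sound _ 66 [(rh24a97d9f305cf032.shift 0 1), (rhb0c1e7919d9be92d.shift 1 0)] (by decide +kernel))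
noncomputable def rh45facd64c8f4de6f : CRef := CRef.mk (Pat.mk 0x3800000018000000000000000000000000 0x80000003800000038000000380000001f0000001c00000018 5 6) 0 0 (step_sound _ 68 [rh5d4854bc4abcd7d3, (rhb0c1e7919d9be92d.shift 3 0)] (by decide +kernel))
noncomputable def rhd07c0da21697a2fc : CRef := CRef.mk (Pat.mk 0x1e0000001400000000000000000000000000000000 0x8000000080000003c0000001e000000170000003e0000001e0000000e0000000a 5 6) 0 0 (step_sound _ 98 [rh1ca46a4e40c89c25, (rh2af3bff4277f1035.shift 0 1), (rhf541df66d9d96393.shift 0 2), (rhfa40f754f1f7b88f.shift 1 0)] (by decide +kernel))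
noncomputable def rhbbe0cfeaea6fcc4d : CRef := CRef.mk (Pat.mk 0x1e000000140000000000000000 0x80000001e0000003f0000001e000000140000001400000014 5 6) 0 0 (step_sound _ 163 [(rh2146aa40751c401a.shift 2 0), rh21babdc42a85646d, rhb760bc700c38263e, rhc61a346d45ccc398, rhde29ee12f85ce2c9] (by decide +kernel))
noncomputable def rh2535f3557d1fe66d : CRef := CRef.mk (Pat.mk 0x80000001c0000000c00000000 0x1c0000001c0000001c0000001c0000000f00000008 5 5) 0 0 (step_sound _ 32 [(rh24ae073cf30720c4.shift 0 1), (rh696b67cf4aee39b5.shift 2 0)] (by decide +kernel))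
noncomputable def rha17668eda302d9a3 : CRef := CRef.mk (Pat.mk 0x200000003000000030000000000000000 0x3000000030000000300000003000000070000000600000004 5 3) 0 0 (step_sound _ 161 [rh46baee19951a66e7, (rh5c5e593799055d58.shift 0 2)] (by decide +kernel))
noncomputable def rh6684df3972f7328e : CRef := CRef.mk (Pat.mk 0x80000001c00000004000000040000000000000000 0x60000001f0000001c0000000e0000007c0000001800000008 5 7) 0 0 (step_sound _ 67 [(rh8bf8248bcf1a0fcd.shift 1 0), (rhc2f06c7a97a2ad79.shift 0 1), (rhd9a16a2c203f7ebd.shift 0 1)] (by decide +kernel))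
noncomputable def rhd457f8d8b5436d50 : CRef := CRef.mk (Pat.mk 0xf0000000a0000000000000000 0xc0000000c0000001e0000000f0000000e0000000e00000002 5 5) 0 0 (step_sound _ 131 [(rh33e738c4ed385b9f.shift 0 3), (rh68fd9b30be46ed10.shift 1 0)] (by decide +kernel))
noncomputable def rhcd1638684d2eb4ed : CRef := CRef.mk (Pat.mk 0x1c00000018000000000000000000000000 0x140000001c0000007f0000003f0000001c0000001c 5 7) 0 0 (step_sound _ 35 [(rh2c7fc7a7cc8a47be.shift 3 0), rhb5a916fa00825fa3, (rhd1f9989d6034576a.shift 2 1)] (by decide +kernel))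
noncomputable def rhfd9fb1fb60b5432a : CRef := CRef.mk (Pat.mk 0xc0000000c0000000400000000 0xa0000001e0000003e0000000f0000000c0000000c00000008 5 6) 0 0 (step_sound _ 130 [rh42aaa9e12070eb87, (rh55a1f6c57a317ce6.shift 2 0), (rhc85cc95794737cf7.shift 1 1)] (by decide +kernel))
noncomputable def rh440742153d39687f : CRef := CRef.mk (Pat.mk 0x180000001800000000000000000000000000000000 0x18000000180000007c0000001f0000000c0000000c00000004 5 7) 0 0 (step_sound _ 99 [rh50871771a03f1586, (rhea7a1800d6f053bd.shift 3 1)] (by decide +kernel))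
noncomputable def rh9514272666a701f8 : CRef := CRef.mk (Pat.mk 0x1800000018000000080000000000000000 0x180000001800000018000000380000003f0000003400000030 5 6) 0 0 (step_sound _ 164 [rh2f8336003c105dd7, (rh5c5e593799055d58.shift 3 2)] (by decide +kernel))
noncomputable def rh2c093750a34ca970 : CRef := CRef.mk (Pat.mk 0x1e000000140000000000000000 0x16000000370000001e0000001c0000001c0000000c 5 6) 0 0 (step_sound _ 35 [rh0c7a2715199ac8ca, rh38516e404612c456, (rh3e98fa1023bb94d7.shift 1 0), rhf5d412f823853b2e] (by decide +kernel))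
noncomputable def rhb5ded177eabaed7d : CRef := CRef.mk (Pat.mk 0x600000006000000040000000000000000 0x60000000600000006000000070000003f0000000b00000003 5 6) 0 0 (step_sound _ 65 [(rhea7a1800d6f053bd.shift 1 0), rhee4750e86d347f32, (rhf7ac44032989c9ef.shift 0 1)] (by decide +kernel))
noncomputable def rhd14a5bbb6d47032b : CRef := CRef.mk (Pat.mk 0x1600000006000000040000000000000000 0x3000000030000001f00000006000000060000000200000002 5 5) 0 0 (step_sound _ 161 [(rh2145e1d24b96a57e.shift 1 2), rhea5721b8cb81d352] (by decide +kernel))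
noncomputable def rh97be77d4eaa8c41b : CRef := CRef.mk (Pat.mk 0x160000001c000000000000000000000000 0x6000000160000001e0000001c0000001f0000000e00000008 5 5) 0 0 (step_sound _ 67 [(rhade0f4c81793f68e.shift 2 0), (rhc04acbc801fe9a40.shift 0 1), (rhf91b1398c815afd2.shift 3 0)] (by decide +kernel))
noncomputable def rh93ed44e1ecbc78b6 : CRef := CRef.mk (Pat.mk 0x5a00000030000000000000000000000000 0x180000001f0000007b00000030000000300000003000000020 5 7) 0 0 (step_sound _ 164 [(rh046c5eb18e55a239.shift 4 0), (rh70e33bfdf511e144.shift 4 0), (rh8bf7566d995c9c1e.shift 0 1)] (by decide +kernel))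
noncomputable def rhd68371a8706cd112 : CRef := CRef.mk (Pat.mk 0x18000000180000000800000000 0x140000001c0000001c00000018000000380000001f00000014 5 6) 0 0 (step_sound _ 131 [rh51f5a245ef7eb6cb, (rh55a1f6c57a317ce6.shift 3 0), (rhc85cc95794737cf7.shift 2 1)] (by decide +kernel))
noncomputable def rhc768244aeb5341bc : CRef := CRef.mk (Pat.mk 0x1800000038000000000000000000000000 0x10000000100000001f0000003f000000700000002000000020 5 7) 0 0 (step_sound _ 129 [rh50befda71aeb5ee5, (rhab22b5b56e7b3243.shift 1 3)] (by decide +kernel))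
noncomputable def rh1bca0cf18f2d0b61 : CRef := CRef.mk (Pat.mk 0x6000000060000000200000000 0x5000000070000000700000006000000070000003e0000000c 5 6) 0 0 (step_sound _ 129 [rh333bba90a4f5e365, (rh55a1f6c57a317ce6.shift 1 0), (rhc85cc95794737cf7.shift 0 1)] (by decide +kernel))
noncomputable def rheabf008c005a28d6 : CRef := CRef.mk (Pat.mk 0x18000000180000000800000000 0x140000001c0000001c0000001c000000fc0000000f00000004 5 8) 0 0 (step_sound _ 69 [rh41257688fe926dcc, (rh79b3c29022acbdf3.shift 2 2)] (by decide +kernel))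
noncomputable def rhfd3a397aa4f214ad : CRef := CRef.mk (Pat.mk 0x1000000038000000080000000800000000 0xc0000001e000000380000001f0000000c00000004 5 6) 0 0 (step_sound _ 131 [(rh277b01412deaec89.shift 1 1), rhde807367643436d4] (by decide +kernel))
noncomputable def rha96043d67b77a772 : CRef := CRef.mk (Pat.mk 0x20000000200000002000000040000000000000000 0x4000000060000000600000002000000070000000700000001 5 3) 0 0 (step_sound _ 65 [rh367118e0bf0473e0, (rh55afc6a59410cf00.shift 1 1)] (by decide +kernel))
noncomputable def rhc663d8ceef41cf96 : CRef := CRef.mk (Pat.mk 0x200000002000000020000000000000000 0x400000007000000070000000300000006000000070000000700000001 5 3) 0 0 (step_sound _ 161 [rh6aa5625770489e83, (rhced6d86d2069808b.shift 1 1)] (by decide +kernel))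
noncomputable def rh5983253d23ca999b : CRef := CRef.mk (Pat.mk 0x160000000c0000000000000000 0x12000000330000001e0000003f0000000c0000000c 5 6) 0 0 (step_sound _ 99 [(rh2ae694e25f74369c.shift 1 0), rhf16166e16dbfa564] (by decide +kernel))
noncomputable def rh5b8b6ecf65c3c162 : CRef := CRef.mk (Pat.mk 0x2c00000038000000000000000000000000 0x6000000160000003c0000003e0000007f0000002800000020 5 7) 0 0 (step_sound _ 98 [(rh008b05f4778dc30d.shift 0 2), (rh5c42f8da43409903.shift 1 0), (rhd27908c03515d08d.shift 1 1)] (by decide +kernel))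
noncomputable def rhcea2064ccf1fdb4d : CRef := CRef.mk (Pat.mk 0x1c0000000e0000000000000000 0x10000000f80000001e0000007e0000000f00000008 5 8) 0 0 (step_sound _ 68 [(rh79b3c29022acbdf3.shift 1 2), (rhf10fa853c2693a25.shift 0 1), (rhfb9ac98d85e06407.shift 1 0)] (by decide +kernel))
noncomputable def rh1fa16e62260576be : CRef := CRef.mk (Pat.mk 0x1c0000000e0000000000000000 0x30000000300000001e0000007e0000003f00000008 5 7) 0 0 (step_sound _ 68 [(rh5c85aa44f59d451d.shift 1 0), (rh79b3c29022acbdf3.shift 1 2), (rhf10fa853c2693a25.shift 0 1)] (by decide +kernel))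
noncomputable def rh37a70e2380f94c5b : CRef := CRef.mk (Pat.mk 0x1c0000000e000000000000000000000000 0xa0000003b0000001e0000000e0000003c0000001c0000000c 5 6) 0 0 (step_sound _ 66 [(rh1808265f8363394e.shift 1 0), rhc28cf6ff461d73c9, (rhea7a1800d6f053bd.shift 2 0)] (by decide +kernel))
noncomputable def rha2a841304777a668 : CRef := CRef.mk (Pat.mk 0x7000000070000000000000000 0xe0000001e00000007000000070000000700000007 5 5) 0 0 (step_sound _ 129 [rh1e309b005ffa1b36, rhd90f969e6ef1815c] (by decide +kernel))
noncomputable def rh3d0cceaff5d6b882 : CRef := CRef.mk (Pat.mk 0x380000001a0000000000000000 0x2000000020000000700000003f0000001b0000001000000010 5 7) 0 0 (step_sound _ 98 [(rh6eb76252a9026692.shift 2 0), (rh710860539a4c4362.shift 0 2)] (by decide +kernel))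
noncomputable def rhcba3e9532cd7dd5a : CRef := CRef.mk (Pat.mk 0xe00000007000000000000000000000000 0xc0000000c0000000c0000000e0000000f0000003c0000000c0000000c 5 6) 0 0 (step_sound _ 66 [(rh1bbf43d2fba949ae.shift 0 1), rh2106babc6adfb9a6, (rhb0c1e7919d9be92d.shift 1 0)] (by decide +kernel))
noncomputable def rhba789ab0578491b9 : CRef := CRef.mk (Pat.mk 0xf0000000600000000 0xc0000000c0000001c0000000f0000001e0000000a 5 5) 0 0 (step_sound _ 35 [rh54feb13ca81dbc4a, (rhe25b0a99195a5d59.shift 0 1)] (by decide +kernel))
noncomputable def rhe90c4793322d0a7c : CRef := CRef.mk (Pat.mk 0xa0000000e000000000000000000000000 0x8000000080000000e0000003e0000007f0000001000000010 5 7) 0 0 (step_sound _ 100 [(rh65dcfd18fd55cba0.shift 1 0), (rh8db7f7558b75b2b1.shift 0 2), (rhdc2729b77246fcd3.shift 0 2)] (by decide +kernel))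
noncomputable def rh14e4d0d222f892d5 : CRef := CRef.mk (Pat.mk 0x10000000140000001c000000000000000000000000 0x28000000780000001f0000001c0000007c0000003c00000010 5 7) 0 0 (step_sound _ 131 [(rh25f968f0227fb747.shift 2 0), (rh34517e326ddb5b25.shift 0 3), (rhea47cf317dbd85c4.shift 2 1)] (by decide +kernel))
noncomputable def rh762cf8ea43f87175 : CRef := CRef.mk (Pat.mk 0x10000000140000001c000000000000000000000000 0x3800000038000000380000001f0000001c000000140000001000000010 5 6) 0 0 (step_sound _ 131 [(rh2e14b0001f2cbe5b.shift 3 0), (rh34517e326ddb5b25.shift 0 3), (rh892ab8a2b117741d.shift 2 2)] (by decide +kernel))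
noncomputable def rh8b6652ba3e50a8bb : CRef := CRef.mk (Pat.mk 0x80000000e00000004000000000000000000000000 0xc0000000c0000000c0000000f0000003c000000180000001800000018 5 6) 0 0 (step_sound _ 99 [(rh6292bd8784ece55f.shift 0 3), (rhe63ff2e3b86cb17e.shift 2 0)] (by decide +kernel))
noncomputable def rh9605c23dc48d5b83 : CRef := CRef.mk (Pat.mk 0x700000006000000000000000000000000 0xc0000000e0000001e0000000700000006000000060000000600000006 5 5) 0 0 (step_sound _ 162 [(rh1e309b005ffa1b36.shift 1 1), (rh2e14b0001f2cbe5b.shift 1 0), rh4546e6478bb9dee9] (by decide +kernel))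
noncomputable def rhcd563cf98f1d4b54 : CRef := CRef.mk (Pat.mk 0x50000000f0000000000000000000000000 0x2000000077000000fe0000001f0000001000000010 5 8) 0 0 (step_sound _ 99 [(rh30473dc56de15b6b.shift 0 2), (rheae1728ff4a56756.shift 2 2), (rhf08cddd2fdef6293.shift 2 0)] (by decide +kernel))
noncomputable def rh6c4e0b32c574208d : CRef := CRef.mk (Pat.mk 0x80000000f00000000000000000000000000000000 0x40000000c0000000c0000000f0000001c0000001c0000001c00000014 5 5) 0 0 (step_sound _ 99 [(rh2140e04d90a4f0d4.shift 2 0), (rhe25b0a99195a5d59.shift 0 3)] (by decide +kernel))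
noncomputable def rh833f412479488fc9 : CRef := CRef.mk (Pat.mk 0x140000001c000000100000000000000000 0x10000000140000003f0000001f0000000b0000000a 5 6) 0 0 (step_sound _ 67 [(rh1e309b005ffa1b36.shift 3 0), rhb3c594f7bacc9206] (by decide +kernel))
noncomputable def rh47fb87c994cd76ab : CRef := CRef.mk (Pat.mk 0x140000001c000000080000000000000000 0x1000000010000000140000003f0000007f0000002300000002 5 7) 0 0 (step_sound _ 68 [(rh121397a93ef3afd3.shift 2 1), (rh6292bd8784ece55f.shift 1 2), rhb3c594f7bacc9206] (by decide +kernel))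
noncomputable def rh3fcc306a714d4957 : CRef := CRef.mk (Pat.mk 0xe00000007000000000000000000000000 0xc0000000c0000000c0000000e000000070000001e0000000e0000000c 5 5) 0 0 (step_sound _ 162 [(rh1e309b005ffa1b36.shift 1 1), rh65beea4cc676f87a, (rha9ab07340439ca94.shift 1 0)] (by decide +kernel))
noncomputable def rh9784e3be35be184c : CRef := CRef.mk (Pat.mk 0x38000000180000000000000000 0x2000000020000000770000003f000000180000001000000010 5 7) 0 0 (step_sound _ 133 [(rh370625f794a30c38.shift 0 2), (rh41835ba1dc72c0ef.shift 0 2), rh8417fcdea5ec7af8, (rhf9366b6a121593ef.shift 4 0)] (by decide +kernel))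
noncomputable def rh8481b779e7290c57 : CRef := CRef.mk (Pat.mk 0x200000002000000020000000000000000 0x400000006000000060000000600000003000000070000000700000005 5 3) 0 0 (step_sound _ 161 [(rh20966da26a1c2ae8.shift 0 1), rh8cdd36b03d57a2f6, (rhc9de03f9731897d4.shift 1 0)] (by decide +kernel))
noncomputable def rha18311743ef6c2e2 : CRef := CRef.mk (Pat.mk 0x30000000500000001000000010 0xf0000003e000000770000001000000010 5 7) 0 0 (step_sound _ 99 [(rh3f8463b1b243085b.shift 0 2), (rh50fbb5868c909700.shift 3 0)] (by decide +kernel))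
noncomputable def rh2dcecd9500b1b7eb : CRef := CRef.mk (Pat.mk 0x8000000080000000800000018 0xc0000000c000000080000001f0000007c 5 7) 0 0 (step_sound _ 98 [rh262c41d511184e44, (rh50fbb5868c909700.shift 2 0)] (by decide +kernel))
noncomputable def rh485d53a39310b349 : CRef := CRef.mk (Pat.mk 0x280000000800000018000000000000000000000000 0x2000000028000001ff000000ff000001ce0000000400000004 5 9) 0 0 (step_sound _ 101 [(rh1aae126fdb0efa1d.shift 2 2), (rha9fbfd4bb8cf890b.shift 0 3), (rhc74291bae5e3196d.shift 2 2), rhf24b13df8ce2c37b] (by decide +kernel))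
noncomputable def rh95b27f45014993fd : CRef := CRef.mk (Pat.mk 0x2000000020000000200000003000000000 0x2000000020000001ff000000fe0000004f 5 9) 0 0 (step_sound _ 35 [(rh12aa60211ea0d736.shift 2 0), (rh618a89ae50f6698f.shift 1 0), (rh6319ffa2535c862f.shift 2 0), rh7f0f728c796044ac, rhfff8f65783bd8bc5] (by decide +kernel))
noncomputable def rhaa96520d7ee6a3ec : CRef := CRef.mk (Pat.mk 0x100000001e000000040000000000000000 0x8000000180000001e0000003f0000003000000030 5 6) 0 0 (step_sound _ 65 [(rh1cae0224f4333627.shift 1 0), (rheb0810cc63b001d8.shift 0 2)] (by decide +kernel))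
noncomputable def rhb5ee295e06246f67 : CRef := CRef.mk (Pat.mk 0x8000000080000000e00000002000000000000000000000000 0x18000000180000001c0000000e0000003f000000180000001800000008 5 6) 0 0 (step_sound _ 98 [(rh5c5e593799055d58.shift 2 3), rh71ce200b3d661dbe] (by decide +kernel))
noncomputable def rh57af6c46ff20b165 : CRef := CRef.mk (Pat.mk 0x40000000400000007000000000000000000000000 0xa0000000e0000000e000000070000003e0000000c0000000c 5 6) 0 0 (step_sound _ 66 [(rhb0c6196f710d9a93.shift 0 1), (rhbd78a571ffa91fb9.shift 1 0), (rhc4055b4872d6fb38.shift 1 1), (rhc9de03f9731897d4.shift 2 0)] (by decide +kernel))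
noncomputable def rh0c86affd432cdf59 : CRef := CRef.mk (Pat.mk 0x4000000040000000700000001 0xa0000000e0000000e00000006000000060000000700000005 5 4) 0 0 (step_sound _ 129 [(rh114f4abf4ea101c9.shift 1 0), (rh466a2277bc06011f.shift 1 1), rha34e4fe7f1ed675b] (by decide +kernel))
noncomputable def rha72ebde87894505b : CRef := CRef.mk (Pat.mk 0x80000000b00000008000000000000000000000000 0x140000001e0000000b000000080000001c0000001c00000014 5 5) 0 0 (step_sound _ 67 [(rh8cdd36b03d57a2f6.shift 2 0), (rha78afc937ca94db4.shift 0 2)] (by decide +kernel))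
noncomputable def rhd20c7206d743ed15 : CRef := CRef.mk (Pat.mk 0x80000000b00000008000000000000000000000000 0x100000001c0000001e0000000b000000180000001c0000001c00000014 5 5) 0 0 (step_sound _ 67 [(rh426f403fa814630c.shift 3 1), (rh8cdd36b03d57a2f6.shift 2 0), (rha78afc937ca94db4.shift 0 2)] (by decide +kernel))
noncomputable def rha1afb26b51cb2096 : CRef := CRef.mk (Pat.mk 0x200000003800000018000000000000000000000000 0x300000003f0000007c000000600000006000000020 5 7) 0 0 (step_sound _ 130 [(rh4baa30ac13a5afd1.shift 0 3), (rh5c0db0f9b341d2c6.shift 2 0), (rh6292bd8784ece55f.shift 1 3)] (by decide +kernel))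
noncomputable def rhdec331f99de74410 : CRef := CRef.mk (Pat.mk 0x8000000080000000e00000002000000000000000000000000 0x10000000180000001c0000000e0000003f0000001c0000001c00000008 5 6) 0 0 (step_sound _ 98 [(rh42548283029e2a39.shift 2 1), rh71ce200b3d661dbe, (rhf9af042da61fc652.shift 2 1)] (by decide +kernel))
noncomputable def rh7ded265f3adcd6ce : CRef := CRef.mk (Pat.mk 0x2000000020000000300000000000000000000000000000000 0x1000000070000000700000006000000070000000300000006000000070000000700000001 5 3) 0 0 (step_sound _ 97 [rh5d80382ac3a74c83, (rhc9de03f9731897d4.shift 1 1), (rhe8915d9db8b9f3f2.shift 0 3)] (by decide +kernel))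
noncomputable def rh17026cda70fce3ef : CRef := CRef.mk (Pat.mk 0x4000000040000000700000000000000000000000000000000 0x600000006000000070000001e0000000e0000000e00000002 5 5) 0 0 (step_sound _ 98 [(rh5d80382ac3a74c83.shift 1 0), (rhb379f99078aafa2d.shift 0 2), (rhbd78a571ffa91fb9.shift 1 1), (rhd1fa8140a3eb151f.shift 1 1)] (by decide +kernel))
noncomputable def rh3b83cdd66dc69652 : CRef := CRef.mk (Pat.mk 0xa0000000b0000000200000000 0x6000000060000001e0000000b0000001f0000000d 5 5) 0 0 (step_sound _ 129 [rh03dfdf12d5937476, rh48a568b2159e8221] (by decide +kernel))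
noncomputable def rhe13d35548d407456 : CRef := CRef.mk (Pat.mk 0x280000002c00000008000000000000000000000000 0x800000008000000280000002f0000007c000000340000001000000010 5 7) 0 0 (step_sound _ 100 [(rh51f8c29a23c1cacf.shift 2 0), (rhb23658ecdd7ce5df.shift 2 2), (rhdeca8db941583de2.shift 0 3)] (by decide +kernel))
noncomputable def rh57f7f6b490ec4d18 : CRef := CRef.mk (Pat.mk 0x20000000200000002800000018 0x2000000020000000600000003f0000001f 5 7) 0 0 (step_sound _ 36 [(rh5c5e593799055d58.shift 4 0), rhf0ab1ab592ea3c19] (by decide +kernel))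
noncomputable def rhcd14a41fdaf676d4 : CRef := CRef.mk (Pat.mk 0x8000000080000000a000000020000000000000000 0x1000000018000000180000000b0000001e0000001c00000014 5 5) 0 0 (step_sound _ 67 [(rh11a243992b58ed44.shift 0 1), (rh367118e0bf0473e0.shift 2 0), (rhc9de03f9731897d4.shift 3 0)] (by decide +kernel))
noncomputable def rh9b48cd285658ce2b : CRef := CRef.mk (Pat.mk 0x800000008000000080000000a00000002 0x100000007c0000001f0000000a0000000a0000000a 5 7) 0 0 (step_sound _ 132 [(rh2f68792b6b779e96.shift 3 1), rh39c8b1c3f79a7a61] (by decide +kernel))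
noncomputable def rhe08194b42063891d : CRef := CRef.mk (Pat.mk 0x200000002000000020000000200000000 0x700000007000000070000000600000006000000060000000200000002 5 3) 0 0 (step_sound _ 161 [(rh44f453b84f013105.shift 1 1), (rhc85cc95794737cf7.shift 0 2), rhec83e437ca5400c6] (by decide +kernel))
noncomputable def rhcafa54870fd2e4f3 : CRef := CRef.mk (Pat.mk 0x1000000010000000100000001400000004 0x8000000180000001f000000340000001400000014 5 6) 0 0 (step_sound _ 131 [(rh50fbb5868c909700.shift 3 1), rh636f9cd5a57ea313] (by decide +kernel))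
noncomputable def rh9256997a84108e39 : CRef := CRef.mk (Pat.mk 0x2000000020000000200000002800000000 0x2000000020000000670000003e00000017 5 7) 0 0 (step_sound _ 36 [(rh932754581e0f4330.shift 4 0), rhf2cc7d47ec58b7ff] (by decide +kernel))
noncomputable def rhcc2b4b423ab45c1e : CRef := CRef.mk (Pat.mk 0x80000000e0000000800000000 0x140000001c0000001c000000080000000f0000001800000010 5 5) 0 0 (step_sound _ 36 [(rhb739f4f82bb681b4.shift 0 1), (rhc0f6fe06378683f4.shift 2 0)] (by decide +kernel))
noncomputable def rh1c68c22104c9057d : CRef := CRef.mk (Pat.mk 0x2000000038000000280000000000000000 0x2000000060000000700000003e0000003e0000003f0000006000000060 5 7) 0 0 (step_sound _ 132 [(rh3cb04db3dd2b6a55.shift 4 0), rh498de712e3a1a6be, (rh84971212fb719071.shift 1 2)] (by decide +kernel))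
noncomputable def rhba71fff43dd7c3e6 : CRef := CRef.mk (Pat.mk 0x400000007000000040000000000000000 0xe0000000e0000000e00000006000000070000003e0000000c0000000c 5 6) 0 0 (step_sound _ 129 [(rh00ce1533870109ed.shift 0 1), (rh3cb04db3dd2b6a55.shift 1 0), (rh4dc6bbc83d5aeafb.shift 1 0)] (by decide +kernel))
noncomputable def rh4d3ea2a846e574f2 : CRef := CRef.mk (Pat.mk 0x8000000080000000a000000000000000000000000 0x40000000c0000000c0000001f0000007c0000001c00000014 5 7) 0 0 (step_sound _ 67 [(rh3181373a30ceb9e3.shift 2 0), (rh6aa5625770489e83.shift 2 0), (rhc486ae0fcc44be52.shift 0 1)] (by decide +kernel))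
noncomputable def rh572372b7c11f1d09 : CRef := CRef.mk (Pat.mk 0x20000000200000002000000000000000000000000 0x100000003000000030000000300000006000000070000000700000005 5 3) 0 0 (step_sound _ 65 [(rh29dd5384d80ecb1e.shift 0 1), rh3181373a30ceb9e3, rh6aa5625770489e83] (by decide +kernel))
noncomputable def rh797653038f5535bc : CRef := CRef.mk (Pat.mk 0x400000006000000050000000100000000 0x600000006000000060000007f0000003e000000770000000500000004 5 7) 0 0 (step_sound _ 99 [(rh648452d5b01cf56e.shift 0 1), rh77e5fdcadba6b29b, (rhca1e4df97f377a88.shift 0 2)] (by decide +kernel))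
noncomputable def rhdbcc2d334e96185d : CRef := CRef.mk (Pat.mk 0x80000000c0000000a00000000000000000000000000000000 0xc0000000c0000000c0000000c0000000f000000180000001c0000001c00000004 5 5) 0 0 (step_sound _ 99 [(rh030d48d82e3321b1.shift 0 2), (rh5a26ed1c01b25f18.shift 2 0), (rhe286c75f2739cce2.shift 2 2)] (by decide +kernel))
noncomputable def rh6d39fd2eb51c82ba : CRef := CRef.mk (Pat.mk 0x1000000018000000140000000000000000 0x80000003c000000ff000000160000001000000010 5 8) 0 0 (step_sound _ 131 [(rh345a83ca59f96063.shift 0 2), (rh3cb04db3dd2b6a55.shift 3 0)] (by decide +kernel))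
noncomputable def rh6d68c88e75f7de72 : CRef := CRef.mk (Pat.mk 0x2000000020000000200000002000000000000000000000000 0x3000000030000000300000006000000070000000700000001 5 3) 0 0 (step_sound _ 66 [rh24b72e6e714c3919, (rhd3458b32566d63f7.shift 1 2)] (by decide +kernel))
noncomputable def rh8999d3fc4681d03d : CRef := CRef.mk (Pat.mk 0x8000000080000000a0000000800000000 0x40000001c0000001c000000180000000c0000000f0000001800000010 5 5) 0 0 (step_sound _ 36 [(rh12882f3f94159b08.shift 0 1), (rh55afc6a59410cf00.shift 3 0)] (by decide +kernel))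
noncomputable def rh4e27bb3b7fd89fa2 : CRef := CRef.mk (Pat.mk 0xc000000080000000a00000002 0x4000000040000001f0000007e0000000e00000002 5 7) 0 0 (step_sound _ 130 [(rh1d01379feeb49736.shift 1 0), rh9b3fa22109589eb0] (by decide +kernel))
noncomputable def rh212b6e50b45336c8 : CRef := CRef.mk (Pat.mk 0xc000000080000000a000000000000000000000000 0x10000000f00000007f000000ff0000000e000000180000001800000010 5 8) 0 0 (step_sound _ 164 [(rh42b77b88598f587a.shift 2 0), (rh435fb3ef4ac648b4.shift 2 1), (rh6432e126df4afb0e.shift 1 1), (rh6b9df646b7babe1b.shift 0 4), (rh985218a2f2c16abe.shift 0 3)] (by decide +kernel))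
noncomputable def rhe3267552a7446d26 : CRef := CRef.mk (Pat.mk 0x80000000c000000080000000000000000 0x1000000010000000180000003c0000001f000000080000000800000008 5 6) 0 0 (step_sound _ 132 [(rh557b120f072744ca.shift 0 3), (rh6cc820610249f145.shift 0 1), (rh9bb5c7e5c08d4582.shift 2 0)] (by decide +kernel))
noncomputable def rh278b1929aa33ba06 : CRef := CRef.mk (Pat.mk 0x80000000c0000000a00000000000000000000000000000000 0x18000000180000001c0000000c0000000f000000180000001c0000001c00000004 5 5) 0 0 (step_sound _ 99 [(rh43d8dfd721575dfb.shift 2 0), (rh5c651669912fbab1.shift 2 1), (rhcfbba40fae656d6f.shift 0 2)] (by decide +kernel))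
noncomputable def rh240a9441233be183 : CRef := CRef.mk (Pat.mk 0x80000000c0000000a0000000000000000 0x1000000010000000180000003c0000001f0000000b0000000800000008 5 6) 0 0 (step_sound _ 132 [(rh16d99c005e546a04.shift 0 2), (rh6cc820610249f145.shift 0 1), (rh9bb5c7e5c08d4582.shift 2 0)] (by decide +kernel))
noncomputable def rh366cd83b497f4e2a : CRef := CRef.mk (Pat.mk 0x80000000c0000000a 0xf80000007f000000ef 5 8) 0 0 (step_sound _ 36 [rh076be03eb7063320, rh5370a63943ede0b2, (rhca1e4df97f377a88.shift 1 0)] (by decide +kernel))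
noncomputable def rh15f12b2e8a1e42e2 : CRef := CRef.mk (Pat.mk 0x8000000080000000a0000000800000000 0x10000000180000007c0000000f0000000800000008 5 7) 0 0 (step_sound _ 132 [(rh2f68792b6b779e96.shift 3 1), rhb75cbe4b168cf1dd] (by decide +kernel))
noncomputable def rh6846df693af8d529 : CRef := CRef.mk (Pat.mk 0x20000000200000002800000020000000000000000000000000 0x20000000700000003e00000067000000700000007000000010 5 7) 0 0 (step_sound _ 132 [(rh5d80382ac3a74c83.shift 4 0), (rh7f0f728c796044ac.shift 0 3), (rhbdde238153e38af9.shift 2 2)] (by decide +kernel))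
noncomputable def rh743e0fbf25ecdd54 : CRef := CRef.mk (Pat.mk 0x10000000180000001400000004 0x2000000038000000380000003c0000001f0000001c00000004 5 6) 0 0 (step_sound _ 131 [(rh098da1339c072030.shift 2 0), rh1665e4d71ef70b08, (rh41b8be278618af7d.shift 3 1), (rh616c75d1b5542aee.shift 3 1)] (by decide +kernel))
noncomputable def rh9631637ae8912234 : CRef := CRef.mk (Pat.mk 0x20000000300000000800000008 0x10000000ff000000fe0000000f00000008 5 8) 0 0 (step_sound _ 67 [(rh2820ca9a6c4f41b4.shift 0 1), (rh2ccbd86a7098bf36.shift 2 0), (rh3e0b38310ac09007.shift 0 2), (rha0198dc55831a65f.shift 2 2)] (by decide +kernel))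
noncomputable def rh335fcbc5c97bd2b0 : CRef := CRef.mk (Pat.mk 0x20000000200000002000000000000000000000000 0x500000007000000070000000700000002000000060000000600000004 5 3) 0 0 (step_sound _ 65 [(rh7ef5fa5c39f1c762.shift 0 2), (rhc9de03f9731897d4.shift 1 0), rhcae87bda2c3c01d2] (by decide +kernel))
noncomputable def rh859ccb81733f8e59 : CRef := CRef.mk (Pat.mk 0x38000000280000000800000000 0x30000000300000007f0000003e000000380000001800000010 5 7) 0 0 (step_sound _ 133 [(rh05047cca2fc15eb7.shift 3 1), (rh3e09f998c8e94702.shift 1 0), (rh3e0b38310ac09007.shift 0 3)] (by decide +kernel))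
noncomputable def rhab045bea27954382 : CRef := CRef.mk (Pat.mk 0x800000028000000280000000800000000 0x40000000700000007c0000003f000000380000001800000010 5 7) 0 0 (step_sound _ 132 [(rh2f68792b6b779e96.shift 3 1), rh453c2619fc8e3fa9] (by decide +kernel))
noncomputable def rh89afb6a85c47e888 : CRef := CRef.mk (Pat.mk 0x8000000280000000800000008 0x100000007c000001ff0000000800000008 5 9) 0 0 (step_sound _ 100 [(rh2f68792b6b779e96.shift 3 0), (rh68a5b3d0ba9c08f9.shift 0 2)] (by decide +kernel))
noncomputable def rhe9e1f0f038bded44 : CRef := CRef.mk (Pat.mk 0x20000000a0000000200000002 0x40000001f0000007e0000000300000002 5 7) 0 0 (step_sound _ 98 [(rh2f68792b6b779e96.shift 1 0), (rh984773c519373485.shift 0 1)] (by decide +kernel))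
noncomputable def rhc8905710c441be9f : CRef := CRef.mk (Pat.mk 0x800000028000000280000000800000000 0x300000003c000000680000003c0000001f00000014 5 7) 0 0 (step_sound _ 132 [(rh2f68792b6b779e96.shift 3 1), rha433877a6d4f5db3] (by decide +kernel))
noncomputable def rhb480165bbce3b9e7 : CRef := CRef.mk (Pat.mk 0x20000000a0000000a00000002 0x40000001f0000007e0000000f00000002 5 7) 0 0 (step_sound _ 98 [(rh2f68792b6b779e96.shift 1 0), (rhdd16f8f822336e2a.shift 0 1)] (by decide +kernel))
noncomputable def rh74d1bcb310a2c076 : CRef := CRef.mk (Pat.mk 0x800000008000000080000000a00000002 0x140000003c0000000f0000000c0000000e00000006 5 6) 0 0 (step_sound _ 130 [(rh50fbb5868c909700.shift 2 1), rhd2a3c2d69819ec3c] (by decide +kernel))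
noncomputable def rh91ad4e3bd5d1f1e7 : CRef := CRef.mk (Pat.mk 0x20000000200000002000000000000000000000000 0x500000007000000070000000700000002000000070000000700000005 5 3) 0 0 (step_sound _ 65 [rh0c1c1b53bc5a1510, (rh7ef5fa5c39f1c762.shift 0 2), (rhc9de03f9731897d4.shift 1 0), rhcae87bda2c3c01d2] (by decide +kernel))
noncomputable def rh1acab8c375cd2207 : CRef := CRef.mk (Pat.mk 0x20000000280000002800000020 0x50000000780000002f0000007c00000020 5 7) 0 0 (step_sound _ 100 [rh3c53001395d71569, (rh50fbb5868c909700.shift 4 0)] (by decide +kernel))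
noncomputable def rh8a0b888e9b044de1 : CRef := CRef.mk (Pat.mk 0x100000001c0000000c0000000000000000 0xc0000000f0000007c0000001c0000001f0000007800000018 5 7) 0 0 (step_sound _ 131 [(rh79c113888b232c6f.shift 0 2), rh7ff76b7d2588cb1f] (by decide +kernel))
noncomputable def rh5b9b2616bdb050be : CRef := CRef.mk (Pat.mk 0x80000000e00000006000000000000000000000000 0x18000000180000001c0000000e0000003f000000180000001800000008 5 6) 0 0 (step_sound _ 195 [(rh5c5e593799055d58.shift 2 3), rh71ce200b3d661dbe] (by decide +kernel))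
noncomputable def rha55e8681c36273c3 : CRef := CRef.mk (Pat.mk 0x800000008000000080000001800000000 0x800000008000000ff0000007f000000e4 5 8) 0 0 (step_sound _ 34 [rh3a463f8d3d15292d, (rh932754581e0f4330.shift 2 0)] (by decide +kernel))
noncomputable def rh701abdafdf6c4ea1 : CRef := CRef.mk (Pat.mk 0x1c0000000c000000000000000000000000 0x140000001c0000007f0000003f0000001c0000001c 5 7) 0 0 (step_sound _ 35 [(rhd02f44a45c1a55c1.shift 2 0), (rhd1f9989d6034576a.shift 2 1), rhe7fca960227117e2] (by decide +kernel))
noncomputable def rh8a5d1a87a384ba9b : CRef := CRef.mk (Pat.mk 0x1c0000000c0000000000000000 0xc0000001c0000003c0000001f0000000f0000000e0000000c 5 6) 0 0 (step_sound _ 65 [rh349a4c00e3851637, (rh53b3c253cb0c65f4.shift 0 2)] (by decide +kernel))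
noncomputable def rhc6c504d72a2366ed : CRef := CRef.mk (Pat.mk 0x380000000800000000000000000000000000000000 0x100000001c0000001f0000003c000000180000001c0000001c0000001c00000014 5 6) 0 0 (step_sound _ 99 [(rh15590a39afd9a120.shift 2 0), (rh421cce82bb1068e3.shift 2 0), (rh483977ec4c7a5d44.shift 2 1), (rhb6fabc11b09be0e3.shift 0 2), (rhe3458ab40071103b.shift 3 2)] (by decide +kernel))
noncomputable def rhfe6e62e075887b2b : CRef := CRef.mk (Pat.mk 0x380000000800000000000000000000000000000000 0x1c0000001f000000380000001f0000001c0000001c0000001c00000014 5 6) 0 0 (step_sound _ 99 [(rh15590a39afd9a120.shift 2 0), (rh421cce82bb1068e3.shift 2 0), (rh483977ec4c7a5d44.shift 2 1), (rh6df3e9b5738faf61.shift 0 2), (rhe3458ab40071103b.shift 3 2)] (by decide +kernel))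
noncomputable def rh672cd594dd27fa33 : CRef := CRef.mk (Pat.mk 0x80000001800000018000000000000000000000000 0x800000018000000380000001f0000001c0000001c 5 6) 0 0 (step_sound _ 67 [(rh51f5a245ef7eb6cb.shift 0 1), (rhbb83b53687587fb2.shift 2 0), (rhf57bd6481b8b2ca7.shift 3 0)] (by decide +kernel))
noncomputable def rh4597748ebe7f705b : CRef := CRef.mk (Pat.mk 0x10000000f0000000a0000000000000000 0x80000001c0000001c0000001f0000000f0000000e0000000200000002 5 5) 0 0 (step_sound _ 131 [(rh33e738c4ed385b9f.shift 0 3), rhd7f2d966230939fd] (by decide +kernel))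
noncomputable def rhe4ec4b1201f6e10e : CRef := CRef.mk (Pat.mk 0x700000002800000020000000000000000000000000 0x20000000780000002f0000007c000000300000001000000010 5 7) 0 0 (step_sound _ 130 [rh516bbb2dd0416ae7, (rhca9569cc80abfe76.shift 2 4)] (by decide +kernel))
noncomputable def rhfcd78c11ca62289b : CRef := CRef.mk (Pat.mk 0x4000000070000000500000001 0x20000000e0000000e0000000e00000007000000070000000500000005 5 4) 0 0 (step_sound _ 130 [rh8499df7ecc0e8afe, (rhc85cc95794737cf7.shift 1 1), rhccb2bc3c3b3b24fc, (rhe8915d9db8b9f3f2.shift 1 1)] (by decide +kernel))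
noncomputable def rh915f238816133e05 : CRef := CRef.mk (Pat.mk 0x80000000e0000000a0000000200000000 0x40000000e0000000e0000000e0000001b0000001e00000014 5 5) 0 0 (step_sound _ 162 [(rh4f891d41ae70aa10.shift 1 1), rh6dd39209a29fe177, (rhc17a6a02773cc5f6.shift 2 1), (rhc6b6552229dbce07.shift 1 1)] (by decide +kernel))
noncomputable def rh7b1fc87fd1530ce0 : CRef := CRef.mk (Pat.mk 0x140000001c000000040000000400000000 0x780000007f0000001c000000040000000c00000008 5 7) 0 0 (step_sound _ 3 [(rhd3458b32566d63f7.shift 2 0), (rhfa45918d7f8bbb44.shift 0 1)] (by decide +kernel))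
noncomputable def rhe2f0c2bb332d33f1 : CRef := CRef.mk (Pat.mk 0x18000000080000001c0000000400000000 0x140000001c0000000c0000001c0000000f0000000a 5 5) 0 0 (step_sound _ 35 [(rh2f68792b6b779e96.shift 3 1), rhc5836a1520d7250b] (by decide +kernel))
noncomputable def rh8975e57b0981fc9d : CRef := CRef.mk (Pat.mk 0x18000000080000001c000000040000000000000000 0x40000007c0000001f0000001c0000000f0000000a00000008 5 7) 0 0 (step_sound _ 130 [(rh557b120f072744ca.shift 0 4), (rh69012675dfdb1a5b.shift 0 4), rh8dd63c869ddfd8cc, (rhd69c262cd33b94b3.shift 0 4)] (by decide +kernel))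
noncomputable def rha5e51ce4948ac2c9 : CRef := CRef.mk (Pat.mk 0x18000000080000001c00000000 0x20000001f00000007c0000007f0000001c00000010 5 9) 0 0 (step_sound _ 101 [(rh2820ca9a6c4f41b4.shift 0 2), (rhda3fbb76e62163f7.shift 2 0), (rhf0f55c4504412200.shift 0 2)] (by decide +kernel))
noncomputable def rhf67d2ab3427aadc9 : CRef := CRef.mk (Pat.mk 0x700000001000000030000000000000000000000000 0x10000000700000007e000000fe0000000f0000000800000008 5 8) 0 0 (step_sound _ 99 [(rh3d164a09ad92dabc.shift 0 2), (rh6e53f2bca3f4ade7.shift 1 1), (rhbfd14a8441b2e7b9.shift 1 3), (rhfafeb437ceb8396d.shift 3 0)] (by decide +kernel))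
noncomputable def rh1ec320c051db4640 : CRef := CRef.mk (Pat.mk 0x4000000040000000c00000000 0x40000000400000004000000070000003e0000000a 5 6) 0 0 (step_sound _ 130 [(rh55afc6a59410cf00.shift 2 0), rhc6caea4112c2545d] (by decide +kernel))
noncomputable def rh1094e83f19af0ce5 : CRef := CRef.mk (Pat.mk 0x3800000008000000180000000000000000 0x20000000380000003f0000007f0000001600000014 5 7) 0 0 (step_sound _ 98 [rh9a2c269cc63f95d9, (rha355876672dc863a.shift 0 2), (rheea1a90336e79c71.shift 0 3)] (by decide +kernel))
noncomputable def rhabaa6e480415595e : CRef := CRef.mk (Pat.mk 0x1e00000016000000000000000000000000 0x70000001e0000001e000000030000000300000002 5 5) 0 0 (step_sound _ 65 [rh9eff6abe779715d2, (rhddd0f0018083baf5.shift 0 1), (rhea7a1800d6f053bd.shift 1 0)] (by decide +kernel))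
noncomputable def rh42946c30b5d7ecce : CRef := CRef.mk (Pat.mk 0x100000001e000000140000000000000000 0x1000000038000000380000001f0000001e0000001c0000000400000004 5 6) 0 0 (step_sound _ 129 [(rh3244c3cc8379b070.shift 0 3), (rhd7f2d966230939fd.shift 1 0)] (by decide +kernel))
noncomputable def rha50f83a91ecabdbe : CRef := CRef.mk (Pat.mk 0xa0000003800000002 0x3b0000003f00000066 5 7) 0 0 (step_sound _ 34 [(rh80fcd6d0a18cb2dd.shift 1 0), rh8f652ee9c9ab3a29] (by decide +kernel))
noncomputable def rhf8f24828d8989fa7 : CRef := CRef.mk (Pat.mk 0x8000000180000000a0000000000000000 0x1000000018000000180000000f0000001e0000001c 5 5) 0 0 (step_sound _ 64 [(rh1c62b6193297d9e3.shift 0 2), rh7f5938844da1179b] (by decide +kernel))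
noncomputable def rh9847db26a7ebfe33 : CRef := CRef.mk (Pat.mk 0xa000000180000000a000000000000000000000000 0x120000001a0000001f0000000b0000001f0000001d00000001 5 5) 0 0 (step_sound _ 96 [rh3a50e0bca28fd04c, (rh7f5938844da1179b.shift 0 1)] (by decide +kernel))
noncomputable def rh7983ef36a694f3de : CRef := CRef.mk (Pat.mk 0x30000000f000000020000000000000000 0x40000000e0000001f0000000f0000001a0000000200000002 5 5) 0 0 (step_sound _ 131 [(rh33e738c4ed385b9f.shift 0 3), rh55801abcbd3b9f99] (by decide +kernel))
noncomputable def rh74765a024af9e719 : CRef := CRef.mk (Pat.mk 0x40000001e000000040000000000000000 0x80000003c0000001f000000340000000400000004 5 6) 0 0 (step_sound _ 68 [rhad9c3d19b4ca6cf7, (rhe25b0a99195a5d59.shift 1 2)] (by decide +kernel))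
noncomputable def rh96d3e12b093ced7d : CRef := CRef.mk (Pat.mk 0x300000003000000020000000000000000 0x600000006000000060000000300000003000000030000000300000003 5 3) 0 0 (step_sound _ 33 [rh7b1f1fb55310c477, rh8c1fb9b928d58238] (by decide +kernel))
noncomputable def rhc41f9af18264644f : CRef := CRef.mk (Pat.mk 0x1000000018000000080000000c00000000 0x80000001800000018000000380000001f00000014 5 6) 0 0 (step_sound _ 131 [(rh932754581e0f4330.shift 2 0), rhe418daf8de52e604] (by decide +kernel))
noncomputable def rhf3dd929ac4934c3e : CRef := CRef.mk (Pat.mk 0xe0000000200000003000000000 0x80000000e0000001ff0000007e000000c7 5 9) 0 0 (step_sound _ 35 [rh7e5e455972272e73, rh7f0f728c796044ac, (rhdfaaefae6a2d7d59.shift 2 0), rhf2cc7d47ec58b7ff] (by decide +kernel))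
noncomputable def rh418ef45433bf4917 : CRef := CRef.mk (Pat.mk 0xf0000000b000000000000000000000000 0xc0000000c0000001f0000000f0000000f000000060000000200000002 5 5) 0 0 (step_sound _ 163 [(rh33e738c4ed385b9f.shift 0 4), rha2cc4a9230decd7a] (by decide +kernel))
noncomputable def rhf560d075d3962c74 : CRef := CRef.mk (Pat.mk 0xe0000000b0000000000000000 0x400000004000000060000000e0000000f0000001e0000000a 5 5) 0 0 (step_sound _ 130 [(rh32f6277f14b47a8f.shift 1 0), rhb66ec419a6d128ce, rhdcb23b63f888217c, rhdf78f3a21f6c0329] (by decide +kernel))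
noncomputable def rhbe0362c477e19607 : CRef := CRef.mk (Pat.mk 0xf0000000300000002000000000000000000000000 0x60000000e0000001e0000000f000000070000001e0000000c0000000400000004 5 5) 0 0 (step_sound _ 98 [(rh046c5eb18e55a239.shift 1 0), (rh14aaf653ce4141f9.shift 0 2), (rh4c60faed9e5f228f.shift 0 2), (rhd0124f8e86fd5f14.shift 0 2)] (by decide +kernel))
noncomputable def rh53185092b688ba4a : CRef := CRef.mk (Pat.mk 0x400000007000000050000000000000000 0xc0000000e0000000e0000000600000007000000070000000700000007 5 4) 0 0 (step_sound _ 129 [(rh31387895e755a011.shift 1 0), (rh3cb04db3dd2b6a55.shift 1 0), rhdabfcd0659c2d3c8] (by decide +kernel))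
noncomputable def rh72340e7084f8cd9b : CRef := CRef.mk (Pat.mk 0x1e0000001600000000000000000000000000000000 0x330000001e0000001e0000003c0000003c0000003c00000028 5 6) 0 0 (step_sound _ 100 [(rh55864c0b71f3bd3c.shift 1 1), (rh56c07dfb85a8b79d.shift 1 2), (rh5aedf4360cdad7f4.shift 1 0), (rh8af4df3c65c3afd0.shift 0 2)] (by decide +kernel))
noncomputable def rh4e868defd72f7749 : CRef := CRef.mk (Pat.mk 0xf0000000b0000000000000000 0x40000001c0000000f0000000b0000001e0000001c 5 5) 0 0 (step_sound _ 131 [(rh33e738c4ed385b9f.shift 0 3), rhec46091aa7054654] (by decide +kernel))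
noncomputable def rh45d2128c38216d62 : CRef := CRef.mk (Pat.mk 0x40000000c000000020000000600000000 0xc0000000c0000007f0000003e00000078 5 7) 0 0 (step_sound _ 35 [rh00a187acd9599501, (rh935da622f8ebc962.shift 2 0), rhc7b77bdee57ef422] (by decide +kernel))
noncomputable def rh8757268e7adf1425 : CRef := CRef.mk (Pat.mk 0x40000000e000000020000000600000000 0xe0000000e0000007b0000003e0000007c 5 7) 0 0 (step_sound _ 35 [rh00a187acd9599501, (rh7b2b4f038e068647.shift 1 0), rhc7b77bdee57ef422] (by decide +kernel))
noncomputable def rh5449411346eae40e : CRef := CRef.mk (Pat.mk 0x80000000f00000003000000000000000000000000 0x40000000d0000000f0000001b0000001e0000001a00000002 5 5) 0 0 (step_sound _ 99 [rh6de3cd128fa32979, (rhe25b0a99195a5d59.shift 0 3)] (by decide +kernel))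
noncomputable def rhe323b22f2776e35d : CRef := CRef.mk (Pat.mk 0x100000001e000000100000000000000000 0x1000000030000000380000001f0000001e000000180000001000000010 5 6) 0 0 (step_sound _ 131 [(rh2d8ccf6eddee51d1.shift 0 2), (rh3cb04db3dd2b6a55.shift 3 0)] (by decide +kernel))
noncomputable def rh43638b2687da8f09 : CRef := CRef.mk (Pat.mk 0x8000000080000001c0000000c00000000 0x40000000c0000000c0000001c0000001f00000013 5 5) 0 0 (step_sound _ 33 [rh018c9867c5a77d4c, (rh53b3c253cb0c65f4.shift 0 1)] (by decide +kernel))
noncomputable def rhb4f5b9840e1b3fbf : CRef := CRef.mk (Pat.mk 0x800000008000000180000000c00000000 0x140000001c0000001c000000180000000f00000008 5 5) 0 0 (step_sound _ 32 [(rh24ae073cf30720c4.shift 0 1), (rhc4055b4872d6fb38.shift 2 0)] (by decide +kernel))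
noncomputable def rh31846a511740b9d0 : CRef := CRef.mk (Pat.mk 0x1000000038000000080000000c00000000 0x2000000020000000e8000000fe00000038000000780000003f00000066 5 8) 0 0 (step_sound _ 133 [rh2c897925be093862, (rh4d9720ef66bdd7b4.shift 1 0), rha6df2b8c078827e6, (rhfd9bb91658a56a03.shift 1 0)] (by decide +kernel))
noncomputable def rha82f09a72249b092 : CRef := CRef.mk (Pat.mk 0x1000000038000000080000000c00000000 0x10000000380000007f0000007f00000020 5 7) 0 0 (step_sound _ 69 [(rh22216d9a01925d6e.shift 1 0), rh99b9f20bc0c4963b, (rhcadd85ff2a73e8c7.shift 0 1), (rhe33d9496e10d8eb0.shift 0 1)] (by decide +kernel))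
noncomputable def rha91dd100791bf0c0 : CRef := CRef.mk (Pat.mk 0x1000000030000000080000000c00000000 0x10000000300000007f000000ff00000027 5 8) 0 0 (step_sound _ 68 [rh1aed4d4a11464652, (rh45dca2176daefed8.shift 0 1), (rh69012675dfdb1a5b.shift 0 1), (rh72f6fea2ecba46d1.shift 1 0)] (by decide +kernel))
noncomputable def rhd011005e9a0294a4 : CRef := CRef.mk (Pat.mk 0x200000002000000020000000200000000 0x4000000070000000700000002000000060000000600000004 5 3) 0 0 (step_sound _ 34 [(rh55afc6a59410cf00.shift 1 0), (rhdbc400e79194dff9.shift 0 1)] (by decide +kernel))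
noncomputable def rh67924cd1fe640a78 : CRef := CRef.mk (Pat.mk 0x1800000008000000080000001800000000 0x18000000180000003c000000ff00000064 5 8) 0 0 (step_sound _ 34 [rh41f5de2b0c7f8bf5, (rh932754581e0f4330.shift 2 0)] (by decide +kernel))
noncomputable def rh14e41a1e07a09303 : CRef := CRef.mk (Pat.mk 0x58000000180000000800000000 0x40000000c00000078000000380000001f00000014 5 7) 0 0 (step_sound _ 131 [rh51f5a245ef7eb6cb, (rh52dc0b448901c5de.shift 2 1)] (by decide +kernel))
noncomputable def rhe18aaae3bc74af6c : CRef := CRef.mk (Pat.mk 0x4000000040000000e000000000000000000000000 0x400000004000000040000001f000000780000000800000008 5 7) 0 0 (step_sound _ 67 [rh101a15b0de2c271e, (rh2145e1d24b96a57e.shift 2 2)] (by decide +kernel))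
noncomputable def rh18e9ec6bb965c41b : CRef := CRef.mk (Pat.mk 0x100000001000000038000000000000000000000000 0x1000000010000000100000007c0000000f0000000800000008 5 7) 0 0 (step_sound _ 67 [rh04e0da3c4680671a, (rh5c5e593799055d58.shift 3 2)] (by decide +kernel))
noncomputable def rhe0d8e0f37e977a6f : CRef := CRef.mk (Pat.mk 0x2c000000000000001c00000000 0x40000000600000003c000000600000007e000000f7 5 8) 0 0 (step_sound _ 37 [rh008b05f4778dc30d, (rh7618364b9b53dd13.shift 2 0), (rha74d0bd13f5b85c8.shift 2 0)] (by decide +kernel))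
noncomputable def rhd5ce03d3beb8f535 : CRef := CRef.mk (Pat.mk 0x600000006000000020000000000000000 0x1000000030000000700000006000000030000000300000003 5 3) 0 0 (step_sound _ 33 [rh565a0c22519f57e9, (rh71222050f2c63a3a.shift 1 0)] (by decide +kernel))
noncomputable def rhf87a51ba5053e915 : CRef := CRef.mk (Pat.mk 0xb00000002000000070 0xfc0000003f000000f8 5 8) 0 0 (step_sound _ 35 [(rh423c707f612cf20a.shift 3 0), (rh54c49bb299227e8d.shift 2 0), rh7f7f8314eb58a345] (by decide +kernel))
noncomputable def rh070bb9fbe4f8e333 : CRef := CRef.mk (Pat.mk 0x2c0000003800000000000000000000000000000000 0x280000002c0000002c000000380000003f0000001c0000001c00000014 5 6) 0 0 (step_sound _ 99 [(rh92407b60fca4e18e.shift 0 1), (rhbc1d8a6d7ec99b28.shift 1 1), (rhe181d564227a886f.shift 2 0), (rhe56ea00e263abbc8.shift 2 1)] (by decide +kernel))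
noncomputable def rhe979cd5c4e670bf8 : CRef := CRef.mk (Pat.mk 0x80000000b00000008000000000000000000000000 0x10000000180000000f000000080000001c0000001c00000014 5 5) 0 0 (step_sound _ 164 [(rh1c62b6193297d9e3.shift 0 4), (rhfa40f754f1f7b88f.shift 2 0)] (by decide +kernel))
noncomputable def rh83c847be5ed08d52 : CRef := CRef.mk (Pat.mk 0x10000000160000001400000010000000000000000000000000 0x1600000016000000340000001e0000000f0000000e0000000a 5 6) 0 0 (step_sound _ 98 [(rh1b9bab7704691b21.shift 0 1), (rh3439ebe2f1a20c0e.shift 0 2), (rh3b2071d8ef65be7d.shift 1 1), (rhe181d564227a886f.shift 1 0)] (by decide +kernel))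
noncomputable def rh6c3d5e2c709a6dbd : CRef := CRef.mk (Pat.mk 0xb0000000e0000000400000000 0x18000000180000000f0000000e0000003c00000010 5 6) 0 0 (step_sound _ 131 [(rh5c5e593799055d58.shift 2 1), rh608ecb439e53f5e3] (by decide +kernel))
noncomputable def rh07b5def84c16b250 : CRef := CRef.mk (Pat.mk 0x2c0000001800000000000000000000000000000000 0x280000002c0000002c0000007c0000003f0000001c0000001800000008 5 7) 0 0 (step_sound _ 100 [(rh39cd385afe63cfa1.shift 2 1), (rh5d54cb79a67f97ab.shift 3 1), rhfba8cf2863ab53d2] (by decide +kernel))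
noncomputable def rhe66a8795225403d0 : CRef := CRef.mk (Pat.mk 0xc0000001c000000040000000000000000 0x40000000c0000001c0000001f0000007b00000018 5 7) 0 0 (step_sound _ 67 [rh3427dcb112791cf8, (rh3cb04db3dd2b6a55.shift 2 0), rhf96256171e39d14d] (by decide +kernel))
noncomputable def rh2f840eb58ddb63b8 : CRef := CRef.mk (Pat.mk 0x40000001e0000000400000000 0x18000000380000003f0000001e0000000c0000000c 5 6) 0 0 (step_sound _ 100 [rh1398baacc3a0ebc5, (rh33e738c4ed385b9f.shift 1 2)] (by decide +kernel))
noncomputable def rh553fc6f8d17ebbdf : CRef := CRef.mk (Pat.mk 0x1e00000016000000000000000000000000 0x370000001e0000001e000000030000000300000002 5 6) 0 0 (step_sound _ 164 [rh068160dc2cd1b1ad, (rh33e738c4ed385b9f.shift 1 4)] (by decide +kernel))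
noncomputable def rh63ec9f8a1ae1318b : CRef := CRef.mk (Pat.mk 0x3800000008000000100000000000000000 0x100000001800000018000000380000001f0000001c0000001400000004 5 6) 0 0 (step_sound _ 163 [(rh347edc546365e1bc.shift 2 1), (rh390a8df03c6c5a62.shift 3 1), (rh478c4cadbcd4e066.shift 3 1), rh528921958bcedb00] (by decide +kernel))
noncomputable def rh7a687bc483492a18 : CRef := CRef.mk (Pat.mk 0x40000001c0000000c0000000800000000 0x18000000180000001c0000001c0000000f0000007c00000010 5 7) 0 0 (step_sound _ 65 [(rh53b3c253cb0c65f4.shift 0 2), (rhef376f1c43ac1ead.shift 1 0)] (by decide +kernel))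
noncomputable def rh36737a72eb89c4a5 : CRef := CRef.mk (Pat.mk 0x200000007000000030000000200000000 0xc0000001e00000007000000070000001e0000000c 5 5) 0 0 (step_sound _ 34 [rh44fe296145c3e1bc, (rh55afc6a59410cf00.shift 1 0)] (by decide +kernel))
noncomputable def rh03a3f97c9528645d : CRef := CRef.mk (Pat.mk 0xc0000000e000000080000000000000000 0x4000000040000000c0000007e0000007f0000000200000002 5 7) 0 0 (step_sound _ 162 [rh08431d7c12d28f34, (rh2145e1d24b96a57e.shift 2 2)] (by decide +kernel))
noncomputable def rh2a64436b6dfd8ba7 : CRef := CRef.mk (Pat.mk 0x1c0000000c0000000800000000 0x1800000018000000180000001c0000001f0000007800000010 5 7) 0 0 (step_sound _ 65 [(rh1bbf43d2fba949ae.shift 1 0), (rh53b3c253cb0c65f4.shift 0 2)] (by decide +kernel))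
noncomputable def rhce63d54681d942eb : CRef := CRef.mk (Pat.mk 0x100000001000000038000000080000001000000000 0x1000000038000000380000002f0000007c00000020 5 7) 0 0 (step_sound _ 35 [(rh1006c02ae4212ff0.shift 3 1), rh2eb3dd0dad9019e4] (by decide +kernel))
noncomputable def rh3a2825ae5b644428 : CRef := CRef.mk (Pat.mk 0x80000001c000000040000001800000000 0x30000000780000001c0000007f0000007f00000020 5 7) 0 0 (step_sound _ 67 [(rh08f17b3c735f07a4.shift 0 1), (rh44fe296145c3e1bc.shift 2 0), (rha355876672dc863a.shift 0 1), (rhfdaba9284cdfee4b.shift 0 1)] (by decide +kernel))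
noncomputable def rh00df37e6b62fb01c : CRef := CRef.mk (Pat.mk 0x40000000c000000020000000c000000000000000000000000 0xc0000000c0000003b0000001f000000380000001000000010 5 6) 0 0 (step_sound _ 131 [rh2f010fd6ddd9099b, (rh7b1f1fb55310c477.shift 2 2)] (by decide +kernel))
noncomputable def rh7b803ae4096385f0 : CRef := CRef.mk (Pat.mk 0x80000000200000006000000040000000000000000 0x8000000080000007b0000003e0000007c0000000400000004 5 7) 0 0 (step_sound _ 99 [(rh00a187acd9599501.shift 0 2), (rh61ebbcc17f085e4b.shift 1 0)] (by decide +kernel))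
noncomputable def rhb12ddf7e6327fbb9 : CRef := CRef.mk (Pat.mk 0x60000000000000003800000000 0x2000000060000000c70000007e000000e7 5 8) 0 0 (step_sound _ 34 [rh2cc7d62e70c02209, (rh7667efb53a7b34b1.shift 2 0)] (by decide +kernel))
noncomputable def rh3d87312cbcec2f9e : CRef := CRef.mk (Pat.mk 0x700000001000000030000000000000000000000000 0x3000000070000000dc000000fc000000cf0000000800000008 5 8) 0 0 (step_sound _ 99 [(rh25c509f5849f7231.shift 2 2), (rh3d164a09ad92dabc.shift 0 2), (rhfafeb437ceb8396d.shift 3 0)] (by decide +kernel))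
noncomputable def rh561f9b789d30937a : CRef := CRef.mk (Pat.mk 0xc000000080000000800000004 0x100000007c0000000f000000080000000c00000004 5 7) 0 0 (step_sound _ 131 [(rh0f88566f1a09c677.shift 0 1), (rh79877ebd3ef475dd.shift 2 0)] (by decide +kernel))
noncomputable def rhdc0e5f301fcfb063 : CRef := CRef.mk (Pat.mk 0x10000000580000001000000008 0x100000003e0000007f0000001c00000008 5 7) 0 0 (step_sound _ 35 [(rh0e0f7acf8c753f2b.shift 0 1), (rh5c5e593799055d58.shift 3 0)] (by decide +kernel))
noncomputable def rh00a49fd15affcabb : CRef := CRef.mk (Pat.mk 0xb0000000a000000030000000000000000 0xc0000001e0000000b0000001e0000001b0000001100000010 5 5) 0 0 (step_sound _ 100 [(rh5419adcd928dba20.shift 0 3), rh5b560e53b24626f9] (by decide +kernel))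
noncomputable def rh04f23d5fead1aafb : CRef := CRef.mk (Pat.mk 0x1000000016000000140000000000000000 0x8000000380000001e0000001f0000003000000030 5 6) 0 0 (step_sound _ 99 [(rh33e738c4ed385b9f.shift 1 3), rh5e74d62c00340b46] (by decide +kernel))
noncomputable def rhea0525b1250ee804 : CRef := CRef.mk (Pat.mk 0x8000000080000000b0000000a0000000000000000 0x40000000c0000000f0000000f0000000a0000000a00000002 5 4) 0 0 (step_sound _ 162 [(rh50fbb5868c909700.shift 2 2), rhc6b80eff0d94ffef] (by decide +kernel))
noncomputable def rh7a2c761bb8a63c14 : CRef := CRef.mk (Pat.mk 0x100000001000000016000000140000000000000000 0x1000000030000000780000001f0000001e0000001c0000001400000010 5 7) 0 0 (step_sound _ 165 [(rh2f68792b6b779e96.shift 4 2), rh5b73491b5eb1f965] (by decide +kernel))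
noncomputable def rh564bb90c1299bf71 : CRef := CRef.mk (Pat.mk 0x80000000c0000000c000000000000000000000000 0x100000007c0000000f0000000c0000000c0000000c0000000c 5 7) 0 0 (step_sound _ 34 [(rh9e3edb185cc347de.shift 2 1), rhaed34a53350e3e72] (by decide +kernel))
noncomputable def rhea5efad8e82de839 : CRef := CRef.mk (Pat.mk 0x1c0000003800000000000000000000000000000000 0xc0000001c0000003c0000001f0000000c0000000c00000004 5 6) 0 0 (step_sound _ 99 [rh001bd19b90e29369, (rh40241bd608e5be1a.shift 2 1)] (by decide +kernel))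
noncomputable def rh2afe9571a8f3df29 : CRef := CRef.mk (Pat.mk 0x160000001600000010000000000000000000000000 0x1200000016000000370000001e0000001c0000000c00000008 5 6) 0 0 (step_sound _ 98 [rh002ea26b14f1c25c, (rh3cb04db3dd2b6a55.shift 1 1)] (by decide +kernel))
noncomputable def rhc3d532e256e5999f : CRef := CRef.mk (Pat.mk 0xb0000000b00000008000000000000000000000000 0x140000001c0000001d0000000b0000000b0000001b0000001f0000001f00000014 5 5) 0 0 (step_sound _ 67 [(rh3181373a30ceb9e3.shift 2 0), (rhc2ec0d612c2e04db.shift 2 1), (rhe8fe53e01d33f220.shift 0 1)] (by decide +kernel))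
noncomputable def rha241e8fe390a51d2 : CRef := CRef.mk (Pat.mk 0x200000002000000020000000000000000 0x500000007000000070000000200000006000000070000000700000005 5 3) 0 0 (step_sound _ 161 [(rh29dd5384d80ecb1e.shift 0 1), (rh426f403fa814630c.shift 1 1), (rh7ef5fa5c39f1c762.shift 0 2), rh8cdd36b03d57a2f6] (by decide +kernel))
noncomputable def rh3b7e6f0b7631729c : CRef := CRef.mk (Pat.mk 0x60000000e000000000000000000000000 0x30000000300000003000000060000003e000000070000000700000007 5 6) 0 0 (step_sound _ 65 [rh208c73c66d2a62cd, rh7f8bb07996f68c30, (rha9e1a5d55b907abf.shift 0 2)] (by decide +kernel))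
noncomputable def rhc21e27978b483555 : CRef := CRef.mk (Pat.mk 0x180000001c000000100000000000000000 0x40000000c0000001f0000003c0000001f0000000c0000000c 5 6) 0 0 (step_sound _ 67 [rh3c2d39eaadcf8eae, (rh7bee4587ac150c6b.shift 2 0), rh907557147d2532a4] (by decide +kernel))
noncomputable def rhcb0b8bdfdd13f8bb : CRef := CRef.mk (Pat.mk 0x60000000e000000020000000000000000 0x2000000060000003e0000003e0000000700000007 5 6) 0 0 (step_sound _ 33 [rh109c9d4c9c9375f1, (rh71222050f2c63a3a.shift 1 0)] (by decide +kernel))
noncomputable def rhc0941e91b6afb057 : CRef := CRef.mk (Pat.mk 0xc0000001c000000080000000000000000 0x20000000f0000001c0000001f0000007c0000001c 5 7) 0 0 (step_sound _ 66 [rhda49d08e88765cc3, rhf96256171e39d14d] (by decide +kernel))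
noncomputable def rh12fb4aa2054790a1 : CRef := CRef.mk (Pat.mk 0xc0000001c000000080000000000000000 0x60000000f0000001c0000001f0000003700000014 5 6) 0 0 (step_sound _ 66 [rh3427dcb112791cf8, rhda49d08e88765cc3] (by decide +kernel))
noncomputable def rh2374cd87d0c64ea1 : CRef := CRef.mk (Pat.mk 0x5800000018000000180000000000000000 0x440000005f000000df000000fc000000e800000008 5 8) 0 0 (step_sound _ 69 [(rh439bf0635d7fe455.shift 2 1), (rh79b3c29022acbdf3.shift 2 2), rhe9f6f0aede50e55e] (by decide +kernel))
noncomputable def rh25d4dab89aab705c : CRef := CRef.mk (Pat.mk 0x1800000018000000180000000000000000 0x40000001f0000001f000000780000000c0000000c 5 7) 0 0 (step_sound _ 35 [rh496e8a20520e5e8e, (rh71222050f2c63a3a.shift 3 0)] (by decide +kernel))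
noncomputable def rha3b7871bdfc3fbf1 : CRef := CRef.mk (Pat.mk 0x8000000180000001800000000 0x8000000080000001f000000ff000000e6 5 8) 0 0 (step_sound _ 37 [rh544f486c8c292a66, (rh79b3c29022acbdf3.shift 2 1), (rhafcdb5ffda7fd6b3.shift 1 0)] (by decide +kernel))
noncomputable def rhf0befafe6ff2f12c : CRef := CRef.mk (Pat.mk 0x1000000018000000140000000000000000 0x100000007f000000ff000000e000000020 5 8) 0 0 (step_sound _ 67 [(rh41af8696f4579ab3.shift 0 1), (rhab2ad169e49f9c5e.shift 0 2), (rhe3ea657a9325ac2f.shift 2 0)] (by decide +kernel))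
noncomputable def rh80339e033d68eb1d : CRef := CRef.mk (Pat.mk 0x60000000600000005000000000000000000000000 0x2000000060000001f0000003f0000001b0000000900000001 5 6) 0 0 (step_sound _ 97 [rh281c6819542c66e6, (rhe3ea657a9325ac2f.shift 0 1)] (by decide +kernel))
noncomputable def rh761498317e589a85 : CRef := CRef.mk (Pat.mk 0x80000001800000014000000000000000000000000 0x8000000080000001f000000ff000000ec0000000400000004 5 8) 0 0 (step_sound _ 99 [(rh281c6819542c66e6.shift 2 0), (rh41af8696f4579ab3.shift 0 2)] (by decide +kernel))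
noncomputable def rh8cd3323c2f6ccb85 : CRef := CRef.mk (Pat.mk 0x3000000030000000280000000000000000 0x30000001fe000001ef0000000800000008 5 9) 0 0 (step_sound _ 99 [rh04e0da3c4680671a, (rhcdfb68dad19a8b95.shift 2 2), (rhf56e6bc5d2f7fe77.shift 1 2)] (by decide +kernel))
noncomputable def rhfee452cc90621565 : CRef := CRef.mk (Pat.mk 0x80000001e0000000000000000 0x30000000300000003f0000001e0000003800000008 5 6) 0 0 (step_sound _ 100 [(rh33e738c4ed385b9f.shift 1 2), rh484f4e6e69e1dca5] (by decide +kernel))
noncomputable def rh15b6c72b5f9b306f : CRef := CRef.mk (Pat.mk 0x100000003c000000000000000000000000 0x170000003e000000700000002000000020 5 7) 0 0 (step_sound _ 69 [rh2a8a3ea367029721, (rhe25b0a99195a5d59.shift 2 2)] (by decide +kernel))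
noncomputable def rh7758c1ab7a56a1e6 : CRef := CRef.mk (Pat.mk 0x1e0000001000000000 0x1000000010000000330000001f0000001800000008 5 6) 0 0 (step_sound _ 35 [rh314b9c317886f518, (rhb739f4f82bb681b4.shift 0 1)] (by decide +kernel))
noncomputable def rhd3b3b971c8261b5c : CRef := CRef.mk (Pat.mk 0x1e00000014000000040000000000000000 0x1000000010000000300000001f0000001c0000000c0000000400000004 5 6) 0 0 (step_sound _ 99 [(rh8f4dbbf181c60fc7.shift 1 0), (rhb739f4f82bb681b4.shift 0 3)] (by decide +kernel))
noncomputable def rh79712e42ad05dddb : CRef := CRef.mk (Pat.mk 0x280000000800000018000000100000000000000000 0x2000000028000000780000003f000000fe0000000400000004 5 8) 0 0 (step_sound _ 98 [(rh3ce854f4a795c89f.shift 0 2), (rh8ee80cc30e93a344.shift 1 2), (rhfd5b5f70b44a2f5c.shift 1 0)] (by decide +kernel))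
noncomputable def rh1b314bc8bca32c1f : CRef := CRef.mk (Pat.mk 0x8000000020000000e000000040000000000000000 0x8000000080000007a0000001f000000040000000400000004 5 7) 0 0 (step_sound _ 2 [(rh196cc96b99bfcd0e.shift 0 2), (rh9e07f76261b05888.shift 1 0)] (by decide +kernel))
noncomputable def rh73377e053ec8b84d : CRef := CRef.mk (Pat.mk 0x8000000080000003800000000 0x800000008000000080000003e00000077 5 7) 0 0 (step_sound _ 34 [rh008b05f4778dc30d, (rh1ae4704ae86cb9a8.shift 1 0), (rh975c4ddca9e0d579.shift 1 0)] (by decide +kernel))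
noncomputable def rhd40155db578f56a8 : CRef := CRef.mk (Pat.mk 0x8000000080000000e000000000000000000000000 0x800000008000000780000001f000000040000000400000004 5 7) 0 0 (step_sound _ 66 [(rh5c5e593799055d58.shift 2 2), rheb2abe2a51d96bc9] (by decide +kernel))
noncomputable def rhd1455daebbd64973 : CRef := CRef.mk (Pat.mk 0x10000000100000001c0000000000000000 0x10000000300000001f0000003b00000008 5 6) 0 0 (step_sound _ 65 [(rh33e738c4ed385b9f.shift 1 2), rhd40f6a9309551d27] (by decide +kernel))
noncomputable def rh5a21297e99bd5500 : CRef := CRef.mk (Pat.mk 0x10000000000000000e00000002 0x1000000010000000300000003e00000073 5 7) 0 0 (step_sound _ 36 [(rh7618364b9b53dd13.shift 1 0), rheb0810cc63b001d8] (by decide +kernel))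
noncomputable def rh806c629d9cf28b54 : CRef := CRef.mk (Pat.mk 0x1800000018000000100000000000000000 0x10000000f8000000ff000000700000002000000020 5 8) 0 0 (step_sound _ 98 [(rhab2ad169e49f9c5e.shift 0 3), (rhde54799abf88a9e7.shift 2 0), (rhf56e6bc5d2f7fe77.shift 0 2)] (by decide +kernel))
noncomputable def rh06883100c24d318c : CRef := CRef.mk (Pat.mk 0x140000000c0000000c0000000000000000 0x10000000100000001c0000003c0000000f0000000800000008 5 6) 0 0 (step_sound _ 35 [(rh6f919d126e66cbcd.shift 0 1), (rh7b1f1fb55310c477.shift 2 0)] (by decide +kernel))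
noncomputable def rh3bf6249ebf3691c0 : CRef := CRef.mk (Pat.mk 0x500000003000000030000000000000000 0x2000000060000000700000003000000070000000600000006 5 3) 0 0 (step_sound _ 33 [rh253cfc6a2b77fef9, rh7b1f1fb55310c477] (by decide +kernel))
noncomputable def rhadd6776bee963d41 : CRef := CRef.mk (Pat.mk 0x140000001c000000080000000000000000 0x10000000380000001f0000001c000000780000003000000010 5 7) 0 0 (step_sound _ 164 [rh0783dad1a940a3c3, (rh5c5e593799055d58.shift 3 2)] (by decide +kernel))
noncomputable def rh4d8f364ce5a68db3 : CRef := CRef.mk (Pat.mk 0x140000000400000004000000000000000000000000 0x80000000e0000001e0000000700000006000000060000000600000002 5 5) 0 0 (step_sound _ 66 [(rh20966da26a1c2ae8.shift 1 1), (rh216281f58bc5c0de.shift 0 1), (rh6aa5625770489e83.shift 1 0)] (by decide +kernel))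
noncomputable def rhfcc478bc097de844 : CRef := CRef.mk (Pat.mk 0x1000000050000000100000003800000000 0x1000000018000000780000001f0000003f00000007 5 7) 0 0 (step_sound _ 67 [rh05a6364dc709c457, (rh5c5e593799055d58.shift 3 1)] (by decide +kernel))
noncomputable def rh20bb4cffd2acac79 : CRef := CRef.mk (Pat.mk 0x800000002000000060000000400000004 0x8000000080000007b0000003e0000007c00000004 5 7) 0 0 (step_sound _ 67 [(rh00a187acd9599501.shift 0 1), (rhb009278fdd334770.shift 2 0)] (by decide +kernel))
noncomputable def rh3874f2dfd65da9a0 : CRef := CRef.mk (Pat.mk 0x50000000180000003800000000 0x1000000018000000780000001f0000003f00000007 5 7) 0 0 (step_sound _ 132 [rh05a6364dc709c457, (rh5c5e593799055d58.shift 3 1)] (by decide +kernel))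
noncomputable def rh26c9683758b2d743 : CRef := CRef.mk (Pat.mk 0xa000000030000000700000000 0x6000000060000000e0000001b0000001f00000018 5 5) 0 0 (step_sound _ 35 [rh4851d783f1d5c575, (rhf48373e13d2bc128.shift 0 1)] (by decide +kernel))
noncomputable def rhee6facdaf6d571a9 : CRef := CRef.mk (Pat.mk 0x8000000020000000e000000000000000000000000 0x8000000080000001b0000001e000000300000001000000010 5 6) 0 0 (step_sound _ 100 [(rh3244c3cc8379b070.shift 0 3), (rh65b5ceb5fe90b1cc.shift 1 0)] (by decide +kernel))
noncomputable def rhc6c285ef8238e16d : CRef := CRef.mk (Pat.mk 0x14000000040000001c000000000000000000000000 0x14000000160000001f0000003b0000000a0000000a 5 6) 0 0 (step_sound _ 97 [rh9f5936d71873c73e, rhd1474a84c69f0140] (by decide +kernel))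
noncomputable def rhf304a8f661a66eec : CRef := CRef.mk (Pat.mk 0x70000000c000000000000000000000000 0xa0000000e0000000e0000003e000000070000000c0000000e0000000e0000000a 5 6) 0 0 (step_sound _ 162 [(rh51fd590aec06bc9d.shift 0 1), (rh70e33bfdf511e144.shift 2 0), (rhc0f6fe06378683f4.shift 1 2), rhcba8d2c8d2225ee9] (by decide +kernel))
noncomputable def rhda1736ca9d4cce78 : CRef := CRef.mk (Pat.mk 0x400000007000000050000000400000000 0x400000004000000070000001f0000001e0000000a 5 5) 0 0 (step_sound _ 1 [rh08adf80776d524be, (rh79877ebd3ef475dd.shift 1 0)] (by decide +kernel))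
noncomputable def rh54330cf38da7f457 : CRef := CRef.mk (Pat.mk 0xb0000000f000000000000000000000000 0x80000001c0000000f0000000f0000001c0000000c00000008 5 5) 0 0 (step_sound _ 67 [rh9a8c21052faea982, (rhe25b0a99195a5d59.shift 0 2)] (by decide +kernel))
noncomputable def rh5443b02079fc8f87 : CRef := CRef.mk (Pat.mk 0x2800000038000000000000000000000000 0x80000003f0000003e000000070000000400000004 5 6) 0 0 (step_sound _ 98 [(rh2591032a0e7f4182.shift 0 2), (rh2cc7d62e70c02209.shift 0 2), (rh4f129d8f37c2c70a.shift 1 0), (rh7fb660bc21ce4329.shift 0 3)] (by decide +kernel))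
noncomputable def rh741c5ddafa539e65 : CRef := CRef.mk (Pat.mk 0x5000000060000000600000000 0xe0000001e00000007000000060000000600000004 5 5) 0 0 (step_sound _ 130 [rh516963541d5f8797, (rh5c5e593799055d58.shift 1 1)] (by decide +kernel))
noncomputable def rha57b3f9490d13952 : CRef := CRef.mk (Pat.mk 0x80000000a0000000800000000 0x140000001c0000001c000000080000001f0000007800000010 5 7) 0 0 (step_sound _ 131 [(rh29dd5384d80ecb1e.shift 2 0), (rh7ef5fa5c39f1c762.shift 2 1), rhc486ae0fcc44be52, (rhced6d86d2069808b.shift 3 0)] (by decide +kernel))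
noncomputable def rhe02215ab49ac9c44 : CRef := CRef.mk (Pat.mk 0x28000000200000002000000020 0x170000003e000000670000002000000020 5 7) 0 0 (step_sound _ 100 [(rh50fbb5868c909700.shift 4 0), (rh6c6cc8f59caab3aa.shift 0 2)] (by decide +kernel))
noncomputable def rh8822772cd1003584 : CRef := CRef.mk (Pat.mk 0x2800000028 0x70000003f0000007f 5 7) 0 0 (step_sound _ 34 [rh1f7cdca6e3e06448, rh8c25cb665ab79ec0, (rha6816dee951f7ee6.shift 2 0), rhf41541f1b291d58d] (by decide +kernel))
noncomputable def rh4518d342e24f2c69 : CRef := CRef.mk (Pat.mk 0x280000000c0000001800000000 0x100000001000000018000000380000001f0000001800000008 5 6) 0 0 (step_sound _ 65 [(rhb739f4f82bb681b4.shift 0 1), (rhd9335787931af093.shift 1 0)] (by decide +kernel))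
noncomputable def rhed3f2a9aa0cc548a : CRef := CRef.mk (Pat.mk 0xa000000030000000600000000 0x400000006000000060000000e0000000f0000001f0000000a 5 5) 0 0 (step_sound _ 35 [rha40932e0252cef41, (rhf48373e13d2bc128.shift 0 1)] (by decide +kernel))
noncomputable def rh5c1ac4a2c2eeda3b : CRef := CRef.mk (Pat.mk 0x280000000800000018000000000000000000000000 0x2000000028000001ff000000ff000001c70000000400000004 5 9) 0 0 (step_sound _ 101 [(rh1aae126fdb0efa1d.shift 2 2), rh5211d6d83b7d6d7b, (rha9fbfd4bb8cf890b.shift 0 3), (rhc74291bae5e3196d.shift 2 2)] (by decide +kernel))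
noncomputable def rhacef9ab68133d17d : CRef := CRef.mk (Pat.mk 0x100000001000000030000000000000000000000000 0x1000000010000001fe000000fe000001cf0000000800000008 5 9) 0 0 (step_sound _ 99 [(rh361656cd35dc1b55.shift 1 2), (rh3a463f8d3d15292d.shift 1 2), (rh3d164a09ad92dabc.shift 0 2), (rhfafeb437ceb8396d.shift 3 0)] (by decide +kernel))
noncomputable def rh0183cf4606977077 : CRef := CRef.mk (Pat.mk 0x3800000008000000080000000800000000 0x800000008000000380000003e0000000f0000000c00000008 5 6) 0 0 (step_sound _ 100 [(rh688a8fe680c760ce.shift 0 1), (rh71222050f2c63a3a.shift 3 0)] (by decide +kernel))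
noncomputable def rhfac15a34fce763b7 : CRef := CRef.mk (Pat.mk 0x200000002000000020000000000000000 0x400000006000000060000000200000007000000070000000700000005 5 3) 0 0 (step_sound _ 161 [(rh20966da26a1c2ae8.shift 0 1), rh8cdd36b03d57a2f6, (rhc9ac229b3c77cd55.shift 0 1), (rhced6d86d2069808b.shift 1 1)] (by decide +kernel))
noncomputable def rha0a9148751317501 : CRef := CRef.mk (Pat.mk 0x600000004000000040000000400000000 0x400000004000000070000003f0000003c0000000c00000004 5 6) 0 0 (step_sound _ 97 [(rh7b1f1fb55310c477.shift 1 0), (rhde8ec84b925d7e59.shift 0 1)] (by decide +kernel))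
noncomputable def rh417e259dd27a81a4 : CRef := CRef.mk (Pat.mk 0xc0000001800000008000000000000000000000000 0x80000000c000000780000001f0000000c0000000400000004 5 7) 0 0 (step_sound _ 133 [rh528921958bcedb00, (rhf48373e13d2bc128.shift 2 4)] (by decide +kernel))
noncomputable def rh8d658f36b6ac43e2 : CRef := CRef.mk (Pat.mk 0x3000000060000000200000000000000000000000000000000 0x4000000060000000600000003000000070000000700000003000000070000000700000004 5 3) 0 0 (step_sound _ 97 [(rh1f3a6ba70a310ab1.shift 0 1), rh46bfb734f58a0e67, (rhcaf8373d595b08c6.shift 0 2)] (by decide +kernel))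
noncomputable def rhc01e9acd4cbb679b : CRef := CRef.mk (Pat.mk 0x80000000c000000080000000800000000 0x8000000080000000c0000007c0000001f00000004 5 7) 0 0 (step_sound _ 34 [(rh932754581e0f4330.shift 2 0), (rhd2dfba20613a3632.shift 0 1)] (by decide +kernel))
noncomputable def rh798e7ce64585f61b : CRef := CRef.mk (Pat.mk 0x1000000010000000100000003000000000 0x1000000010000000ff0000007e0000000f 5 8) 0 0 (step_sound _ 35 [rh6119e99be32c3c3a, (rh932754581e0f4330.shift 3 0)] (by decide +kernel))
noncomputable def rhc0017e242c7b0f2e : CRef := CRef.mk (Pat.mk 0x280000000800000018000000000000000000000000 0x200000002c000000ff000000fc000001f00000001000000010 5 9) 0 0 (step_sound _ 101 [(rh1aae126fdb0efa1d.shift 2 2), (rha9fbfd4bb8cf890b.shift 0 3), (rhd223798938957dcb.shift 2 0)] (by decide +kernel))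
noncomputable def rh40e55525879dd64f : CRef := CRef.mk (Pat.mk 0x28000000080000000800000008 0x140000003f0000003f0000000800000008 5 6) 0 0 (step_sound _ 100 [(rh2f68792b6b779e96.shift 3 0), rh9099e5624e826e01] (by decide +kernel))
noncomputable def rhf0e8a403df009f8a : CRef := CRef.mk (Pat.mk 0x160000001e000000000000000000000000 0x20000000b0000001e0000001e000000340000001400000010 5 6) 0 0 (step_sound _ 68 [(rhe25b0a99195a5d59.shift 1 2), rhe4a1a40700ec0b43] (by decide +kernel))
noncomputable def rhcd32eca242b09f3d : CRef := CRef.mk (Pat.mk 0x40000001e000000000000000000000000 0x400000004000000040000001f0000003c0000000800000008 5 6) 0 0 (step_sound _ 68 [rh31edea79c38d604a, (rhe25b0a99195a5d59.shift 1 2)] (by decide +kernel))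
noncomputable def rh6c884c7d9712aaa5 : CRef := CRef.mk (Pat.mk 0x40000001e000000000000000000000000 0x4000000040000000c0000001f000000380000000800000008 5 6) 0 0 (step_sound _ 68 [rhccac3f9c8caee45e, (rhe25b0a99195a5d59.shift 1 2)] (by decide +kernel))
noncomputable def rh537597840e737eab : CRef := CRef.mk (Pat.mk 0x180000007800000008 0x1c0000001c0000001f0000003800000078000000c8 5 8) 0 0 (step_sound _ 99 [rh880f173af30d9589, (rh90b823c913a425e8.shift 2 0), (rh91e063786df919cf.shift 3 0)] (by decide +kernel))
noncomputable def rhc33d3e219e0a14e2 : CRef := CRef.mk (Pat.mk 0x140000001e00000010000000000000000000000000 0x4000000040000001c0000001e0000001f000000380000003800000010 5 6) 0 0 (step_sound _ 97 [(rh0e7f86e5209b84a6.shift 1 0), (rheb0810cc63b001d8.shift 0 3)] (by decide +kernel))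
noncomputable def rhe35021687539fa31 : CRef := CRef.mk (Pat.mk 0xa000000180000000800000000 0x1c0000001e0000000f000000180000001800000010 5 5) 0 0 (step_sound _ 96 [(rhc10214bf3fe8094a.shift 0 2), rhff9488f1098ad9ac] (by decide +kernel))
noncomputable def rh6dd85789c21f6387 : CRef := CRef.mk (Pat.mk 0xa000000180000000a00000000 0x10000001d0000001f0000000b0000001f0000001a00000012 5 5) 0 0 (step_sound _ 96 [rh35a0970f257c7e59, rhd4c9b24d87befddf, rhff9488f1098ad9ac] (by decide +kernel))
noncomputable def rhb8b282f1ecf94130 : CRef := CRef.mk (Pat.mk 0x20000000f000000030000000000000000 0x2000000020000001a0000000f0000001f0000000e00000004 5 5) 0 0 (step_sound _ 67 [rh3026ac57432eb0b8, (rhe25b0a99195a5d59.shift 0 2)] (by decide +kernel))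
noncomputable def rhea1340b67290dc8c : CRef := CRef.mk (Pat.mk 0x80000003c000000080000000000000000 0x8000000080000003f0000001f0000001000000010 5 6) 0 0 (step_sound _ 65 [rh2551a9e8849b1287, (rh80fcd6d0a18cb2dd.shift 1 2)] (by decide +kernel))
noncomputable def rh7cf3de4e9a6a8f9d : CRef := CRef.mk (Pat.mk 0x40000001c000000080000001800000000 0x20000000f0000001c0000000e0000007c00000014 5 7) 0 0 (step_sound _ 131 [(rh55afc6a59410cf00.shift 3 0), rh820eb767cdafc47b] (by decide +kernel))
noncomputable def rh89fe6510f95643b8 : CRef := CRef.mk (Pat.mk 0x40000001c000000080000001800000000 0x80000000a0000000f0000001c0000001f0000007c00000004 5 7) 0 0 (step_sound _ 66 [(rha355876672dc863a.shift 0 1), rhdffdb03d1b51bb4e, (rhfdaba9284cdfee4b.shift 0 1)] (by decide +kernel))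
noncomputable def rh71b6a85ca6fd9525 : CRef := CRef.mk (Pat.mk 0x180000000800000018000000000000000000000000 0x1000000018000001ff000000fc000001f00000002000000020 5 9) 0 0 (step_sound _ 101 [(rh00a187acd9599501.shift 2 2), (rh7b3b5f331ea7dfb9.shift 2 0), (rhfd99604093c09fe0.shift 0 3)] (by decide +kernel))
noncomputable def rhc86e3ab3c2b165e9 : CRef := CRef.mk (Pat.mk 0x600000004000000040000000000000000 0xa0000000f0000003c000000040000000400000004 5 6) 0 0 (step_sound _ 34 [(rh50fbb5868c909700.shift 1 1), rh5eb116785a745a33] (by decide +kernel))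
noncomputable def rhdd589cb26f911332 : CRef := CRef.mk (Pat.mk 0x3000000020000000e00000004000000000 0x470000007e000001ff000000e0000000c000000080 5 9) 0 0 (step_sound _ 131 [(rh3a67b94b1575e06e.shift 2 0), (rh5a24f83bf59116eb.shift 0 2), (rh682ae24ad59e8a5a.shift 2 2), (rh8ee80cc30e93a344.shift 2 3)] (by decide +kernel))
noncomputable def rh552d89c376c1796d : CRef := CRef.mk (Pat.mk 0x60000001e0000000000000000 0x3000000030000003e0000001e0000000700000004 5 6) 0 0 (step_sound _ 100 [(rh33e738c4ed385b9f.shift 1 2), rha3e2ccf04d4db8ff] (by decide +kernel))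
noncomputable def rhd56bd7f86ec87043 : CRef := CRef.mk (Pat.mk 0x40000001e0000001000000000 0x30000000300000003f0000001e0000001800000008 5 6) 0 0 (step_sound _ 100 [(rh33e738c4ed385b9f.shift 1 2), rhc153f3141751d418] (by decide +kernel))
noncomputable def rh3287ff992b363872 : CRef := CRef.mk (Pat.mk 0x60000001e0000001000000000 0x340000003c000000360000001e0000001b00000008 5 6) 0 0 (step_sound _ 100 [(rh33e738c4ed385b9f.shift 1 2), rhe2988adc4e01730b] (by decide +kernel))
noncomputable def rhce49e892438df0e4 : CRef := CRef.mk (Pat.mk 0x100000001e00000010000000000000000000000000 0x10000000180000001e0000001f000000380000003800000010 5 6) 0 0 (step_sound _ 99 [(rh1e309b005ffa1b36.shift 3 1), rhcf7947f2b9d25bf5] (by decide +kernel))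
noncomputable def rh85f2808b23669478 : CRef := CRef.mk (Pat.mk 0x300000007000000020000000200000000 0x1c0000001f00000007000000060000000600000004 5 5) 0 0 (step_sound _ 34 [(rh55afc6a59410cf00.shift 1 0), (rha30365077b15a33d.shift 0 1)] (by decide +kernel))
noncomputable def rhb054cb5cf4952285 : CRef := CRef.mk (Pat.mk 0xc000000080000003800000010000000000000000000000000 0x260000003f0000007800000038000000fe000000e80000002000000020 5 8) 0 0 (step_sound _ 101 [(rh25f7d6f29a329d98.shift 1 2), (rh3b6886a70fb01cd6.shift 1 2), (rh85abeef44cb3fe28.shift 1 0), (rh9c412f8e1c236468.shift 0 2)] (by decide +kernel))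
noncomputable def rh0e007fddf2bfff7b : CRef := CRef.mk (Pat.mk 0xc000000080000003800000010 0x200000007f0000007f0000003800000010 5 7) 0 0 (step_sound _ 69 [(rh075bfb5b00b4bd3e.shift 1 0), (rh126557da767e56cc.shift 0 2), (rh64ee3dabd9fd5137.shift 1 1), rhd417879f6e342312] (by decide +kernel))
noncomputable def rhf9d2353b4bdb8be9 : CRef := CRef.mk (Pat.mk 0xc000000080000003000000010 0x270000007f0000007f0000003000000010 5 7) 0 0 (step_sound _ 68 [(rh4ca5dae25f5c14ff.shift 0 2), (rhdf372f002b77cac7.shift 0 1), rhee3c9f08ae907d82, (rhffbeccdd2c673ba2.shift 1 0)] (by decide +kernel))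
noncomputable def rh2fa9f590dce6de4b : CRef := CRef.mk (Pat.mk 0x140000001e000000000000000000000000 0x40000000c0000001c0000001e0000003f0000001800000018 5 6) 0 0 (step_sound _ 68 [rh5bb266c43d555d9e, (rhe25b0a99195a5d59.shift 1 2)] (by decide +kernel))
noncomputable def rh1a028e594199c3b5 : CRef := CRef.mk (Pat.mk 0xb0000000e000000000000000000000000 0xa0000001e0000000f0000000e000000060000000400000004 5 5) 0 0 (step_sound _ 66 [(rh027d4e0842061688.shift 0 2), (rha2fdfed2184dbf0c.shift 1 0), (rhab292f7f30e6ad1f.shift 1 0), (rhade0f4c81793f68e.shift 1 0), (rhf9366b6a121593ef.shift 2 0)] (by decide +kernel))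
noncomputable def rh42f461a87abd084e : CRef := CRef.mk (Pat.mk 0x4000000060000001e000000000000000000000000 0x180000003c0000000e0000001e0000003f0000001c0000001c 5 6) 0 0 (step_sound _ 163 [(rh03a6f79dca3226c9.shift 1 0), (rh31a747384711ff09.shift 1 0), (rh3470fcd67ff81181.shift 1 0), rh95903c486aeb4bd2] (by decide +kernel))
noncomputable def rh851bd38b51cf0a81 : CRef := CRef.mk (Pat.mk 0x160000001e00000000 0x20000000380000003c0000003c0000001e0000001e00000033 5 6) 0 0 (step_sound _ 100 [(rh156fc6e5108dea8d.shift 1 0), rh1b6998564d39b11f, rhe20ed85033c98c6f, rhedc37af7512acaf5] (by decide +kernel))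
noncomputable def rh8f27e70b92d77ee4 : CRef := CRef.mk (Pat.mk 0x30000000f0000000800000000 0x1c0000001e0000001b0000000f0000000c00000004 5 5) 0 0 (step_sound _ 99 [(rh33e738c4ed385b9f.shift 0 2), rhe9f86ffc18bf5653] (by decide +kernel))
noncomputable def rhbd9473445ac5296e : CRef := CRef.mk (Pat.mk 0x300000003000000020000000200000000 0x200000006000000060000000700000003000000030000000300000001 5 3) 0 0 (step_sound _ 0 [(rh028809442a7beef4.shift 0 1), rh79877ebd3ef475dd] (by decide +kernel))
noncomputable def rh5e540a97552d0cd9 : CRef := CRef.mk (Pat.mk 0xc000000040000001c0000000800000000 0x180000003c0000000f0000001c0000000c00000004 5 6) 0 0 (step_sound _ 34 [(rh2f68792b6b779e96.shift 2 1), rh81139222464e3b97] (by decide +kernel))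
noncomputable def rhdead5e5254153af1 : CRef := CRef.mk (Pat.mk 0x6000000020000000e00000004 0x7c0000003e0000007b0000000e0000000e 5 7) 0 0 (step_sound _ 99 [(rh013733e6ac4330ac.shift 1 0), rh745da51e01c722fb, (rhdfe67b24fcc3b045.shift 0 2)] (by decide +kernel))
noncomputable def rh1b5f73373c2a2b80 : CRef := CRef.mk (Pat.mk 0x2000000020000000200000002000000060000000000000000 0x2000000020000000300000003000000030000001f0000000200000002 5 5) 0 0 (step_sound _ 96 [rh749e50c40abe9ddc, (rh932754581e0f4330.shift 0 2)] (by decide +kernel))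
noncomputable def rhafffd9aa0b90b1e9 : CRef := CRef.mk (Pat.mk 0xc00000004000000040000000c 0x320000007f0000003e0000000c0000000c 5 7) 0 0 (step_sound _ 97 [rh12c4913e42e9c926, (rh50fbb5868c909700.shift 1 0)] (by decide +kernel))
noncomputable def rhf0cff05681e7f045 : CRef := CRef.mk (Pat.mk 0x200000002000000020000000000000000 0x100000007000000070000000700000003000000070000000700000004 5 3) 0 0 (step_sound _ 161 [rh46baee19951a66e7, (rh565a0c22519f57e9.shift 0 1), (rhc9de03f9731897d4.shift 1 0)] (by decide +kernel))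
noncomputable def rhe03c8cd0d4715eca : CRef := CRef.mk (Pat.mk 0x60000001e0000000000000000 0x3000000030000003e0000001e0000000700000004 5 6) 0 0 (step_sound _ 100 [(rh33e738c4ed385b9f.shift 1 2), rhd27908c03515d08d] (by decide +kernel))
noncomputable def rh9bd1e048a3cb57f4 : CRef := CRef.mk (Pat.mk 0x800000018000000580000000000000000 0x140000001f00000038000000780000000c00000004 5 7) 0 0 (step_sound _ 35 [(rh84f01cf2134210c0.shift 2 0), (rh880f173af30d9589.shift 0 1)] (by decide +kernel))
noncomputable def rh1579802bbf06b7b6 : CRef := CRef.mk (Pat.mk 0x18000000180000000000000000 0x4000000140000003c0000007f0000007e000000180000001800000010 5 7) 0 0 (step_sound _ 131 [(rh13f62183bfa0bd28.shift 0 1), (rh2712bd82c4eb4bf1.shift 1 0), (rh55a1f6c57a317ce6.shift 3 0)] (by decide +kernel))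
noncomputable def rh02ded2dc34fe4bf5 : CRef := CRef.mk (Pat.mk 0x180000005800000000 0x1000000010000000300000001f0000007800000008 5 7) 0 0 (step_sound _ 66 [(rh2fe78cc5ca4405d8.shift 2 1), rhc04bdb4f52da4841] (by decide +kernel))
noncomputable def rh11be4531241e4524 : CRef := CRef.mk (Pat.mk 0x1800000058 0x70000003f0000007f 5 7) 0 0 (step_sound _ 34 [(rh2fe78cc5ca4405d8.shift 2 0), rh92e1a33d56d48131] (by decide +kernel))
noncomputable def rhfa9bfe55c883e549 : CRef := CRef.mk (Pat.mk 0x180000005800000000 0x3c0000007f0000000e 5 7) 0 0 (step_sound _ 37 [(rh3244c3cc8379b070.shift 2 1), rhcef93a29c93c96c9] (by decide +kernel))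
noncomputable def rh0de403ac3272aa8d : CRef := CRef.mk (Pat.mk 0x18000000180000000000000000 0x1800000038000000780000003e0000001f0000001c00000010 5 7) 0 0 (step_sound _ 131 [(rh2712bd82c4eb4bf1.shift 1 0), (rh55a1f6c57a317ce6.shift 3 0), (rhe2d7daae1577d340.shift 0 1)] (by decide +kernel))
noncomputable def rh005c80d53e4b47af : CRef := CRef.mk (Pat.mk 0x1c000000000000002c0000000000000000 0xf70000007e000000600000003c0000006000000040 5 8) 0 0 (step_sound _ 133 [(rh4bcac5cf6a8ec492.shift 2 0), (rh61325f73ebf98108.shift 0 4), (rhfcffa0a9e99c8fd4.shift 2 1)] (by decide +kernel))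
noncomputable def rhc7dda4f1e78867a2 : CRef := CRef.mk (Pat.mk 0x7000000020000000b0 0xf80000003f000000fc 5 8) 0 0 (step_sound _ 35 [(rh076be03eb7063320.shift 2 1), rh53894614ea0e4e9d, (rha3fe8c174ffc13e1.shift 3 0)] (by decide +kernel))
noncomputable def rh3caed42bb967c53d : CRef := CRef.mk (Pat.mk 0x380000002c0000000000000000 0x140000001c0000001c0000003f000000380000002c0000002c00000028 5 6) 0 0 (step_sound _ 131 [(rh1cffe035391a786c.shift 1 0), (rh2395cf2a79a5856d.shift 0 1), (rh6c03a9ef5fb89cef.shift 2 1), (rhf48af1b814b4fc51.shift 2 0)] (by decide +kernel))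
noncomputable def rh9648498c730ec0ef : CRef := CRef.mk (Pat.mk 0x1000000014000000160000001000000000 0xa0000000e0000000f0000001e00000034000000160000003600000020 5 6) 0 0 (step_sound _ 130 [(rh0673ddd4780ee58f.shift 1 0), (rh634c2f63f715f226.shift 0 1), (rh6c03a9ef5fb89cef.shift 1 1), (rh6f64897adf06908f.shift 0 1)] (by decide +kernel))
noncomputable def rh237a84ba5dbe676e : CRef := CRef.mk (Pat.mk 0x40000000e0000000b0000000000000000 0x100000003c0000000e0000000f0000001800000018 5 6) 0 0 (step_sound _ 35 [(rh7b1f1fb55310c477.shift 2 0), rhd6e3341f73642d6a] (by decide +kernel))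
noncomputable def rhc2cc1256258a02f4 : CRef := CRef.mk (Pat.mk 0xc000000160000000000000000 0x40000000c0000000e0000001f0000003e000000160000001600000014 5 6) 0 0 (step_sound _ 131 [(rh429faeeaead9ab43.shift 1 0), rhec9ab696d3cba391, (rhf9366b6a121593ef.shift 2 0)] (by decide +kernel))
noncomputable def rhe38ccb798e1d90a1 : CRef := CRef.mk (Pat.mk 0x40000001c0000000c00000000 0x180000007b0000001f0000001c0000000c00000004 5 7) 0 0 (step_sound _ 99 [rh24ce401e0364d2e0, (rh3e64c81eba17eaf5.shift 0 1), (rh84d1c02a8954c6a8.shift 2 0)] (by decide +kernel))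
noncomputable def rh06d69c63118e234c : CRef := CRef.mk (Pat.mk 0x160000001e00000000 0x600000007000000070000001e0000001e00000003 5 5) 0 0 (step_sound _ 1 [rh4f1458654bfb8120, rheb0810cc63b001d8] (by decide +kernel))
noncomputable def rheebf9e7cb344b153 : CRef := CRef.mk (Pat.mk 0x40000001e00000004000000000000000000000000 0x40000000c0000001e0000003f000000380000001800000010 5 6) 0 0 (step_sound _ 100 [rha648fc2aca7afa9c, (rhe25b0a99195a5d59.shift 1 3)] (by decide +kernel))
noncomputable def rh28d87f6e13d3e08f : CRef := CRef.mk (Pat.mk 0x40000001e000000000000000000000000 0x40000000c0000001f0000003c0000000800000008 5 6) 0 0 (step_sound _ 68 [rh8516bf52b794c53b, (rhe25b0a99195a5d59.shift 1 2)] (by decide +kernel))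
noncomputable def rh6e4e1205cbf31961 : CRef := CRef.mk (Pat.mk 0x40000000200000006000000000000000000000000 0x5000000070000000700000006000000060000000600000004 5 3) 0 0 (step_sound _ 65 [rh2481db76783e51bb, (rh5fcbac5b57173fc5.shift 1 1), (rh93edfa1f77289b62.shift 1 2), rha14b526890d8e59c] (by decide +kernel))
noncomputable def rha879bc432310e071 : CRef := CRef.mk (Pat.mk 0x80000000c0000001c000000000000000000000000 0x100000007c0000000f0000001c000000180000001800000018 5 7) 0 0 (step_sound _ 129 [(rhb40413606a77b10b.shift 1 0), (rhb739f4f82bb681b4.shift 0 3)] (by decide +kernel))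
noncomputable def rh06c770a99c58d660 : CRef := CRef.mk (Pat.mk 0x80000000e0000000c0000000000000000 0x2000000020000007f0000007e0000000c0000000400000004 5 7) 0 0 (step_sound _ 34 [(rh71222050f2c63a3a.shift 2 0), (rh8188bc4094449e1d.shift 0 1)] (by decide +kernel))
noncomputable def rhf903d106a34ea049 : CRef := CRef.mk (Pat.mk 0x80000000c0000001c000000000000000000000000 0x10000000780000001f0000001c000000180000001800000018 5 7) 0 0 (step_sound _ 129 [(rh7c20ffe7059869dd.shift 1 0), (rhb739f4f82bb681b4.shift 0 3)] (by decide +kernel))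
noncomputable def rh68c4fe79fa936ca6 : CRef := CRef.mk (Pat.mk 0x1000000008000000380000001000000010 0x200000007c0000002f000000380000003800000010 5 7) 0 0 (step_sound _ 131 [rh8ce0b65810c2cdae, (rhbe0e43a3bc50a43f.shift 3 0)] (by decide +kernel))
noncomputable def rh7bf22930c4c96074 : CRef := CRef.mk (Pat.mk 0x18000000040000000c0000000800000000 0x100000007c0000000f0000000c0000000c00000004 5 7) 0 0 (step_sound _ 99 [(rh2f68792b6b779e96.shift 3 1), rh51c5cc9baab37337] (by decide +kernel))
noncomputable def rhaf4b1ba7cf5893ff : CRef := CRef.mk (Pat.mk 0x18000000040000001c0000000800000000 0x200000007f0000007f0000001c0000007c00000034 5 7) 0 0 (step_sound _ 99 [rh51c5cc9baab37337, (rh69012675dfdb1a5b.shift 0 3), (rh7083086a3fd0ba68.shift 2 0), rh85fcd39e279af49e] (by decide +kernel))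
noncomputable def rh4a75acd813fc864d : CRef := CRef.mk (Pat.mk 0xc000000020000000e0000000400000000 0x180000001f0000003b0000000e0000003c00000010 5 6) 0 0 (step_sound _ 99 [rh553340e583ecda96, (rh5c5e593799055d58.shift 2 1)] (by decide +kernel))
noncomputable def rh0bacf878e44f380f : CRef := CRef.mk (Pat.mk 0x400000006000000020000000c00000000 0x40000007c0000003e0000007b0000000c0000000c 5 7) 0 0 (step_sound _ 99 [(rhac640c8fd4633ef8.shift 2 0), (rhdfe67b24fcc3b045.shift 0 2)] (by decide +kernel))
noncomputable def rh9e4cc98b26c65ae9 : CRef := CRef.mk (Pat.mk 0x38000000000000006000000000 0xe70000007e000000c70000006000000020 5 8) 0 0 (step_sound _ 98 [(rh2cc7d62e70c02209.shift 0 2), (rhb701899451b33183.shift 2 0)] (by decide +kernel))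
noncomputable def rh4cb5a77170c81e82 : CRef := CRef.mk (Pat.mk 0x400000008000000080000000c0000000000000000 0x40000000c000000080000000f0000007c00000010 5 7) 0 0 (step_sound _ 35 [rhaa4d9de99c4ea825, (rhffd04209dc8ea796.shift 2 1)] (by decide +kernel))
noncomputable def rh6c9b8b24e57b34bb : CRef := CRef.mk (Pat.mk 0x4000000080000002c0000000800000000 0x40000000e0000003f0000003f00000008 5 6) 0 0 (step_sound _ 98 [(rh7b1f1fb55310c477.shift 2 0), (rha2a00a88c6c918af.shift 0 1)] (by decide +kernel))
noncomputable def rh4b7a8cfc3cce41f7 : CRef := CRef.mk (Pat.mk 0x20000000a0000000300000000 0x40000000600000006000000020000001f0000000300000001 5 5) 0 0 (step_sound _ 66 [(rh18965a982d73c794.shift 0 1), rh7a7e08304268422e] (by decide +kernel))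
noncomputable def rh9fa445a5f4501b92 : CRef := CRef.mk (Pat.mk 0x2000000020000000300000000 0x500000007000000070000000200000002000000030000000300000001 5 3) 0 0 (step_sound _ 129 [rh932754581e0f4330, (rhbf86953346e76381.shift 0 1)] (by decide +kernel))
noncomputable def rh8bf893dce68faedb : CRef := CRef.mk (Pat.mk 0x30000000a0000000b0000000000000000 0x10000000110000001b0000001e0000000b0000001e0000000c 5 5) 0 0 (step_sound _ 100 [rh6d76e52535afc41a, (rhb2a0b9ccfb5cecd5.shift 0 2)] (by decide +kernel))
noncomputable def rh01581fe89764e3eb : CRef := CRef.mk (Pat.mk 0x20000000a0000000300000000 0x50000000700000007000000020000001e0000000300000001 5 5) 0 0 (step_sound _ 66 [(rh18965a982d73c794.shift 0 1), rh6c03a9ef5fb89cef] (by decide +kernel))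
noncomputable def rh8d72a02fde18418c : CRef := CRef.mk (Pat.mk 0x500000005000000040000000400000000 0x1000000050000000700000007000000070000000600000002 5 3) 0 0 (step_sound _ 33 [(rh01a5cbc1a1fff043.shift 0 1), (rh932754581e0f4330.shift 1 0)] (by decide +kernel))
noncomputable def rh8aafa222044b0ac6 : CRef := CRef.mk (Pat.mk 0xa0000000a000000080000000800000000 0xa0000000a0000000a0000000f0000003c00000004 5 6) 0 0 (step_sound _ 34 [(rh932754581e0f4330.shift 2 0), (rhf6c48f0bcb88238f.shift 0 1)] (by decide +kernel))
noncomputable def rh0c8bff2f9853e9ef : CRef := CRef.mk (Pat.mk 0x100000001600000010000000100000000000000000 0x1000000010000000180000001e0000001f000000f80000003000000010 5 8) 0 0 (step_sound _ 69 [rh0665fc867ee1bf20, (rh55afc6a59410cf00.shift 4 1)] (by decide +kernel))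
noncomputable def rh92190a70dc49a243 : CRef := CRef.mk (Pat.mk 0x4000000000000000c0000000c0000000800000000 0xc0000000c000000080000000c0000000f0000007c00000010 5 7) 0 0 (step_sound _ 131 [(rh16567ae718d9fd54.shift 2 2), rhaa4d9de99c4ea825, (rhbdd4e349c1dde679.shift 2 1)] (by decide +kernel))
noncomputable def rh16dcf4fc0868e0d2 : CRef := CRef.mk (Pat.mk 0x18000000180000000000000000 0x4000000040000000c0000001f0000007c000000180000001800000010 5 7) 0 0 (step_sound _ 131 [(rh13f62183bfa0bd28.shift 0 1), (rh55a1f6c57a317ce6.shift 3 0)] (by decide +kernel))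
noncomputable def rh2c5df723d73d32ea : CRef := CRef.mk (Pat.mk 0x400000004000000140000000000000000 0x2000000060000000600000006000000070000001e0000000e00000008 5 5) 0 0 (step_sound _ 162 [(rh46baee19951a66e7.shift 1 0), (rh565a0c22519f57e9.shift 1 1), (rh73ba6c579e4b229a.shift 0 1)] (by decide +kernel))
noncomputable def rh88c8a6f84c89b582 : CRef := CRef.mk (Pat.mk 0x400000004000000140000000000000000 0x80000000c0000000c0000000c000000070000001e0000000e00000008 5 5) 0 0 (step_sound _ 162 [(rh20966da26a1c2ae8.shift 1 1), (rh73ba6c579e4b229a.shift 0 1), (rhc9de03f9731897d4.shift 2 0)] (by decide +kernel))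
noncomputable def rhbae430fec28de7ab : CRef := CRef.mk (Pat.mk 0x50000000700000004000000000000000000000000 0x7000000070000000700000007000000060000000e0000000e0000000c 5 4) 0 0 (step_sound _ 97 [(rh1e309b005ffa1b36.shift 1 1), (rhbe707112c53dab40.shift 0 1), (rhe63ff2e3b86cb17e.shift 1 0)] (by decide +kernel))
noncomputable def rhd7cb8c6f8be39152 : CRef := CRef.mk (Pat.mk 0xb0000000f0000000000000000 0x1c0000001e0000000b0000000f0000001c00000004 5 5) 0 0 (step_sound _ 35 [(rhe25b0a99195a5d59.shift 0 1), rhe9f86ffc18bf5653] (by decide +kernel))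
noncomputable def rh5f6808dacc1df516 : CRef := CRef.mk (Pat.mk 0x380000001c00000000 0x40000000c0000000c0000001f0000003c0000001c0000000c 5 6) 0 0 (step_sound _ 99 [(rh37d9ceebb86d75d1.shift 2 0), rhc0e03ab1234733d1] (by decide +kernel))
noncomputable def rhc63c3c56509dd3e7 : CRef := CRef.mk (Pat.mk 0x200000002c0000002c00000000 0x1000000018000000380000003c0000002f0000002c00000024 5 6) 0 0 (step_sound _ 99 [rh0a7a7ca3f1343863, (rh503dd4575245365b.shift 2 0)] (by decide +kernel))
noncomputable def rh32fe3e2d58206d3e : CRef := CRef.mk (Pat.mk 0x80000000b0000000b000000000000000000000000 0x140000001f0000001f0000001b0000000b0000000b0000001d0000001c00000014 5 5) 0 0 (step_sound _ 195 [(rh03b59bfa593aec59.shift 0 2), (rh7ef5fa5c39f1c762.shift 2 3), (rhb9a24b2061956320.shift 2 0)] (by decide +kernel))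
noncomputable def rh932307a0add114d1 : CRef := CRef.mk (Pat.mk 0x20000000200000002000000000000000000000000 0x500000007000000070000000600000002000000070000000700000005 5 3) 0 0 (step_sound _ 65 [rh3181373a30ceb9e3, rh32c2123a4016d1a7, (rh3d0ad82b26bacea7.shift 0 1), (rhec588a0d7783acc6.shift 1 0)] (by decide +kernel))
noncomputable def rhc1bbc3ed368e57db : CRef := CRef.mk (Pat.mk 0xe00000006000000000000000000000000 0x700000007000000070000003e00000006000000030000000300000003 5 6) 0 0 (step_sound _ 161 [rh2d8abb7cdac0a219, (rhb762f327c85d41a0.shift 0 3), rhfe7da3c073d75bd5] (by decide +kernel))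
noncomputable def rha85cc00e510380fb : CRef := CRef.mk (Pat.mk 0x2000000060000000600000000 0x70000000700000007000000060000000600000002 5 3) 0 0 (step_sound _ 129 [(rh2145e1d24b96a57e.shift 1 1), rhc4055b4872d6fb38] (by decide +kernel))
noncomputable def rh7a5cc9a656eead9e : CRef := CRef.mk (Pat.mk 0x8000000180000001c0000000000000000 0x16000000160000003f0000001f0000001c0000000c00000004 5 6) 0 0 (step_sound _ 98 [(rh0c9598d853c5906f.shift 0 1), rhbefd0a664f0bf60a, rhd1e32e33403ffb70] (by decide +kernel))
noncomputable def rh6697ace3da0d268c : CRef := CRef.mk (Pat.mk 0x20000000e0000000600000000 0x7000000070000003e0000003e0000000600000002 5 6) 0 0 (step_sound _ 129 [(rh2145e1d24b96a57e.shift 1 1), rh6f3087bd535a4e4b] (by decide +kernel))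
noncomputable def rhc78451dd3cf332d9 : CRef := CRef.mk (Pat.mk 0x80000001c0000000c00000000 0x1c0000007c0000001f0000001c0000000f00000002 5 7) 0 0 (step_sound _ 98 [rh3af54b5f78790764, (rh3e64c81eba17eaf5.shift 0 1)] (by decide +kernel))
noncomputable def rh7d3131395360b423 : CRef := CRef.mk (Pat.mk 0x80000001c0000000c00000000 0x14000000370000001f0000001c0000000f00000006 5 6) 0 0 (step_sound _ 98 [rh24ce401e0364d2e0, rh3af54b5f78790764] (by decide +kernel))
noncomputable def rhd6941e6fb7abf64f : CRef := CRef.mk (Pat.mk 0x18000000180000005800000000 0x8000000e8000000fc000000df0000005f00000044 5 8) 0 0 (step_sound _ 101 [rh155a828c0bb1d4c7, (rh1f0767c7fefae130.shift 2 0), (rh4dc133ee0ba1420a.shift 1 2)] (by decide +kernel))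
noncomputable def rh19bd8c9401a788da : CRef := CRef.mk (Pat.mk 0x18000000180000001800000000 0x80000000c000000f80000001f0000001f00000004 5 8) 0 0 (step_sound _ 131 [(rh2145e1d24b96a57e.shift 3 1), rha7670e59654a6d36] (by decide +kernel))
noncomputable def rh8c21351a571c1476 : CRef := CRef.mk (Pat.mk 0x18000000180000000800000000 0xe6000000ff0000001f0000000800000008 5 8) 0 0 (step_sound _ 101 [(rh4dc133ee0ba1420a.shift 1 2), (rha31df613ce260778.shift 1 0), rhad2a940827b0d1ad] (by decide +kernel))
noncomputable def rhfbb9a09997dc2c52 : CRef := CRef.mk (Pat.mk 0xa0000000c0000000c00000000 0x16000000360000003e0000003f0000000c00000004 5 6) 0 0 (step_sound _ 98 [(rh2f270258cc317492.shift 0 1), (rh384619215a59ba54.shift 1 0)] (by decide +kernel))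
noncomputable def rhf051c7658c55badc : CRef := CRef.mk (Pat.mk 0x14000000180000001800000000 0xc000000ec000000ff0000001f0000001800000008 5 8) 0 0 (step_sound _ 99 [(rh384619215a59ba54.shift 2 0), rh83e77d1169eaafcc, (rhf2c3983630ce55c5.shift 0 2)] (by decide +kernel))
noncomputable def rh697f3999da16a94b : CRef := CRef.mk (Pat.mk 0x14000000180000001800000000 0x2c0000006e0000003f000000780000001800000008 5 7) 0 0 (step_sound _ 99 [(rh6292bd8784ece55f.shift 1 2), rh83e77d1169eaafcc, (rhc2f95f20759d83cf.shift 1 0)] (by decide +kernel))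
noncomputable def rh02ba7b0187fa807d : CRef := CRef.mk (Pat.mk 0x140000001800000018 0xf7000000ff00000018 5 8) 0 0 (step_sound _ 34 [rh34517e326ddb5b25, (rh546551bfa61a8651.shift 1 0), rhc0a44ba021841f88] (by decide +kernel))
noncomputable def rh594ec366710a24d3 : CRef := CRef.mk (Pat.mk 0x14000000180000001800000000 0x40000000c0000000c0000001f0000007c0000001800000008 5 7) 0 0 (step_sound _ 99 [(rh6292bd8784ece55f.shift 1 2), rh83e77d1169eaafcc, (rh8b32fa0618d11d76.shift 2 0)] (by decide +kernel))
noncomputable def rh4eeea8f62ca9ce5c : CRef := CRef.mk (Pat.mk 0x1e00000008000000000000000000000000 0x380000001e0000003f000000300000003000000010 5 6) 0 0 (step_sound _ 100 [rh40a17d729f948ff9, (rhe25b0a99195a5d59.shift 1 3)] (by decide +kernel))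
noncomputable def rh4afe775206d4aa4e : CRef := CRef.mk (Pat.mk 0x18000000080000000800000008 0xe40000007f000000ff0000000800000008 5 8) 0 0 (step_sound _ 98 [(rh50fbb5868c909700.shift 2 0), (rh6b9df646b7babe1b.shift 0 2)] (by decide +kernel))
noncomputable def rh4663af4192f63db6 : CRef := CRef.mk (Pat.mk 0x1000000018000000080000002800000000 0x4000000fe0000007f000000780000002800000020 5 8) 0 0 (step_sound _ 98 [(rh3a9ad5f1aa69e73a.shift 1 0), (rh5dec5e73a267a1c4.shift 0 2), (rha11dfd15f08f96e3.shift 1 3)] (by decide +kernel))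
noncomputable def rh841d21070fd8f870 : CRef := CRef.mk (Pat.mk 0x1800000008000000080000000800000000 0x40000003c0000000f000000080000000c0000000c 5 6) 0 0 (step_sound _ 2 [(rh79877ebd3ef475dd.shift 2 0), rh9aab2e37f490e5ca] (by decide +kernel))
end Crest.Agent.S0047.Helper85.Cert
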