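import Crest.Agent.Lib.S0047.Helper85CertPL4F0
import Crest.Agent.Lib.S0047.Helper85CertPL4F1
import Crest.Agent.Lib.S0047.Helper85CertPL4F2
import Crest.Agent.Lib.S0047.Helper85CertPL4F3
import Crest.Agent.Lib.S0047.Helper85CertPL4F4
import Crest.Agent.Lib.S0047.Helper85CertPL4F5
import Crest.Agent.Lib.S0047.Helper85CertPL4F6
import Crest.Agent.Lib.S0047.Helper85CertPL4F7
import Crest.Agent.Lib.S0047.Helper85CertPL4F8
import Crest.Agent.Lib.S0047.Helper85CertPL4F9
set_option autoImplicit false
set_option linter.all false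
set_option Elab.async false
namespace Crest.Agent.S0047.Helper85.Cert
open Crest.Agent.S0047.Helper85

noncomputable def rh83fd9b9776438e4c : CRef := CRef.mk (Pat.mk 0xe000000020000000a00000000 0x40000001f0000007a0000000a0000000a 5 7) 0 0 (step_sound _ 130 [rh588882c60a173ffc, (rh71222050f2c63a3a.shift 1 0)] (by decide +kernel))
noncomputable def rhb768696d0dfa9832 : CRef := CRef.mk (Pat.mk 0x38000000080000000800000000 0x770000003e000000080000000800000008 5 7) 0 0 (step_sound _ 98 [(rh132883a60cd8aed8.shift 1 0), (rh261f868a429ae0e3.shift 2 0), (rh371357d551e5b98c.shift 1 0), (rh61325f73ebf98108.shift 0 3)] (by decide +kernel))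
noncomputable def rhcfecdb7dcd828cf2 : CRef := CRef.mk (Pat.mk 0x1000000018000000180000000000000000 0x20000000f0000000ff000000f80000001000000010 5 8) 0 0 (step_sound _ 98 [(rh34517e326ddb5b25.shift 0 2), (rh548781051e981375.shift 2 0), (rh6292bd8784ece55f.shift 1 2)] (by decide +kernel))
noncomputable def rhcad16442e77c9f8c : CRef := CRef.mk (Pat.mk 0x6000000060000000a0000000000000000 0x400000004000000070000003e0000000e0000000800000008 5 6) 0 0 (step_sound _ 162 [rh0e6a9fa57169f8cf, (rh5c5e593799055d58.shift 1 2)] (by decide +kernel))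
noncomputable def rh5356f6e24c0ee7be : CRef := CRef.mk (Pat.mk 0x300000003000000050000000000000000 0x6000000060000000700000003000000070000000600000002 5 3) 0 0 (step_sound _ 161 [(rh5c5e593799055d58.shift 0 2), rhf49e748fe37799f6] (by decide +kernel))
noncomputable def rh77b0945308dfc827 : CRef := CRef.mk (Pat.mk 0x40000000e0000000a0000000000000000 0x180000003c0000000e0000000f0000001c0000001c 5 6) 0 0 (step_sound _ 35 [(rh7b1f1fb55310c477.shift 2 0), rhcf28f379a3b2dbe8] (by decide +kernel))
noncomputable def rh4819a0d154be8cec : CRef := CRef.mk (Pat.mk 0x40000000400000006000000020000000800000000 0x40000007c0000003e0000007b0000000800000008 5 7) 0 0 (step_sound _ 99 [(rh3b5346b2e316d790.shift 2 0), (rhdfe67b24fcc3b045.shift 0 2)] (by decide +kernel))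
noncomputable def rhc905caa19d3b0724 : CRef := CRef.mk (Pat.mk 0x38000000180000005000000000 0x70000003f0000001f0000007800000008 5 7) 0 0 (step_sound _ 98 [(rh08229572919ed52e.shift 1 0), (rh583cd2949503eb8f.shift 0 2), (rhba89ab7cb81bcc90.shift 0 2)] (by decide +kernel))
noncomputable def rhbace70c4c8b93930 : CRef := CRef.mk (Pat.mk 0x7000000030000000a0000000000000000 0x180000001f0000001b0000000e0000000e00000004 5 5) 0 0 (step_sound _ 131 [(rh18965a982d73c794.shift 0 3), rhf67f57357ec3317d] (by decide +kernel))
noncomputable def rhbd8830bb1634bc78 : CRef := CRef.mk (Pat.mk 0xe000000020000000800000000 0x10000000300000001e0000003b0000000800000008 5 6) 0 0 (step_sound _ 100 [(rhc111b7216b72d2fb.shift 1 0), (rheb0810cc63b001d8.shift 0 2)] (by decide +kernel))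
noncomputable def rh6bb198d88cd85b30 : CRef := CRef.mk (Pat.mk 0x3c000000000000002000000000 0x300000003e000000670000002000000020 5 7) 0 0 (step_sound _ 65 [(rh80fcd6d0a18cb2dd.shift 1 2), rhbc63e559eec6f467] (by decide +kernel))
noncomputable def rh8210e642264095cb : CRef := CRef.mk (Pat.mk 0x38000000280000000000000000 0x4000000070000003e0000003f0000000800000008 5 6) 0 0 (step_sound _ 98 [(rh2cc7d62e70c02209.shift 0 2), (rhb9dd680bb9375a9f.shift 1 0), (rhd1d05263fabc0227.shift 0 2), (rhdceeca65bdd8095a.shift 0 2)] (by decide +kernel))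
noncomputable def rh45f6b1e67be007b1 : CRef := CRef.mk (Pat.mk 0x100000003800000028 0x1f7000001fe000003b8 5 10) 0 0 (step_sound _ 38 [(rh1207e140cca14bac.shift 3 0), rha13f159c1cecf00c, (rhd584a578337d0023.shift 3 0), (rhf1f2a6392a8362a4.shift 3 0)] (by decide +kernel))
noncomputable def rhbe54d5967dabb171 : CRef := CRef.mk (Pat.mk 0x80000000e00000004000000040000000000000000 0xc0000000f0000003e0000007c0000001800000018 5 7) 0 0 (step_sound _ 99 [(rh124052dc1b3819ff.shift 1 0), (rh6292bd8784ece55f.shift 0 3)] (by decide +kernel))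
noncomputable def rh83461513f300d34e : CRef := CRef.mk (Pat.mk 0x40000000400000007000000000000000000000000 0xa0000000e0000000e000000070000001e0000000e0000000c 5 5) 0 0 (step_sound _ 66 [(rhb379f99078aafa2d.shift 0 1), (rhbd78a571ffa91fb9.shift 1 0), (rhc4055b4872d6fb38.shift 1 1), (rhec588a0d7783acc6.shift 2 0)] (by decide +kernel))
noncomputable def rh88f7a10481530e96 : CRef := CRef.mk (Pat.mk 0x20000000200000003000000000000000000000000 0x500000007000000070000000700000003000000060000000600000006 5 3) 0 0 (step_sound _ 65 [(rh3d0ad82b26bacea7.shift 0 1), rhbd78a571ffa91fb9, (rhc4055b4872d6fb38.shift 0 1), (rhec588a0d7783acc6.shift 1 0)] (by decide +kernel))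
noncomputable def rh3f290a849278a53f : CRef := CRef.mk (Pat.mk 0x100000001e000000140000000000000000 0x2800000038000000380000001b0000001e0000001c0000000c00000004 5 6) 0 0 (step_sound _ 164 [(rh03dfdf12d5937476.shift 3 1), (rh7ef5fa5c39f1c762.shift 3 2), rh92d5ab4a6a8a1771] (by decide +kernel))
noncomputable def rh7c95f2febb16daff : CRef := CRef.mk (Pat.mk 0xf000000080000000000000000 0x140000001c0000001c0000001c0000000f0000000c0000000c0000000c 5 5) 0 0 (step_sound _ 131 [(rh33e738c4ed385b9f.shift 0 3), (rh87a3a8a8a3fd85be.shift 2 0)] (by decide +kernel))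
noncomputable def rhd765c95caea3450e : CRef := CRef.mk (Pat.mk 0x400000007000000050000000000000000 0x80000000e0000000e0000000600000007000000070000000500000001 5 4) 0 0 (step_sound _ 161 [(rh41b8be278618af7d.shift 1 2), rhb15c01d4a77b6915, (rhc17a6a02773cc5f6.shift 1 1)] (by decide +kernel))
noncomputable def rh60f1badc12958906 : CRef := CRef.mk (Pat.mk 0x200000002000000020000000000000000 0x500000007000000070000000300000003000000030000000300000001 5 3) 0 0 (step_sound _ 161 [(rh20966da26a1c2ae8.shift 0 1), rh6aa5625770489e83, (rh7ef5fa5c39f1c762.shift 0 2)] (by decide +kernel))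
noncomputable def rhd0e23467f2dca51c : CRef := CRef.mk (Pat.mk 0x80000000a000000080000000800000000 0x10000000780000001f000000080000001800000010 5 7) 0 0 (step_sound _ 4 [(rh0363d47a46978688.shift 0 1), (rhd3458b32566d63f7.shift 3 0)] (by decide +kernel))
noncomputable def rh60c4fdb129777615 : CRef := CRef.mk (Pat.mk 0x8000000080000000a000000000000000000000000 0x1000000018000000180000000f0000001e0000001c00000014 5 5) 0 0 (step_sound _ 67 [(rh3181373a30ceb9e3.shift 2 0), (rh367118e0bf0473e0.shift 2 0), (rhc32899ca69d8b859.shift 0 1), (rhc9de03f9731897d4.shift 3 0)] (by decide +kernel))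
noncomputable def rh438d6d4f1df7c298 : CRef := CRef.mk (Pat.mk 0x280000002800000000 0x7c0000003f00000077 5 7) 0 0 (step_sound _ 34 [rh87f4972a3180e15c, rh9e1801e106c63471, (rh9f2591205204f08d.shift 2 1), (rhe33d9496e10d8eb0.shift 0 1)] (by decide +kernel))
noncomputable def rh52599bf082122925 : CRef := CRef.mk (Pat.mk 0x180000000c00000028000000000000000000000000 0x8000000180000001f00000038000000180000001000000010 5 6) 0 0 (step_sound _ 129 [(rh53b3c253cb0c65f4.shift 0 4), (rh82491f6ac67b6f7d.shift 1 0)] (by decide +kernel))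
noncomputable def rhff6d525388e02084 : CRef := CRef.mk (Pat.mk 0x6000000030000000a000000000000000000000000 0xa0000001f0000000f0000000e000000060000000600000004 5 5) 0 0 (step_sound _ 163 [(rh18965a982d73c794.shift 0 4), rhfadc0ca57ca74365] (by decide +kernel))
noncomputable def rhcb2d38ed57a5e3f0 : CRef := CRef.mk (Pat.mk 0x18000000080000002800000000 0x1000000010000000780000007e0000007f0000002800000020 5 7) 0 0 (step_sound _ 132 [rh2b187936778c2bf6, (rhbfb5770941270498.shift 3 1), (rheb4949bdfa5025cf.shift 3 1)] (by decide +kernel))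
noncomputable def rhb8a2598084bd5842 : CRef := CRef.mk (Pat.mk 0x380000001000000040 0x7000000ff000000fe00000060 5 8) 0 0 (step_sound _ 35 [(rh4dc133ee0ba1420a.shift 1 1), (rha3eb0745c7730869.shift 0 1), (rhbe25cb6733f0b895.shift 1 0)] (by decide +kernel))
noncomputable def rh0eda93d2f5a96101 : CRef := CRef.mk (Pat.mk 0x3000000020000000200000002000000000 0x47000000fe000001ff000000200000006000000040 5 9) 0 0 (step_sound _ 131 [(rh227e37da968f4125.shift 0 1), (rhbd513dcaf5c07957.shift 2 0), (rhc21a95c499b3efdb.shift 2 3), (rhd73c85aa99504cfc.shift 2 1)] (by decide +kernel))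
noncomputable def rh3d461d62e608bd42 : CRef := CRef.mk (Pat.mk 0x800000008000000080000000c0000000000000000 0x800000018000000380000003f0000000f0000000800000008 5 6) 0 0 (step_sound _ 98 [(rh5c5e593799055d58.shift 2 2), rhbe172af05515d347] (by decide +kernel))
noncomputable def rhaba50f5f0dc791b7 : CRef := CRef.mk (Pat.mk 0x8000000180000000c00000000 0x4000000040000000c0000001f000000780000000c00000008 5 7) 0 0 (step_sound _ 69 [(rh18965a982d73c794.shift 2 1), rh5840dbfc019b4d17] (by decide +kernel))
noncomputable def rh0c26a8a224f16dbd : CRef := CRef.mk (Pat.mk 0x20000000600000003000000000000000000000000 0x4000000070000000700000003000000070000000700000003000000060000000600000004 5 3) 0 0 (step_sound _ 193 [rh208fdbcacc31badc, (rh5d410e570082021e.shift 0 3), (rha54302d5ccf5246c.shift 0 3)] (by decide +kernel))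
noncomputable def rh86df7191a135ae02 : CRef := CRef.mk (Pat.mk 0x8000000080000000c0000000800000000 0x40000001f0000007c0000000f0000000800000008 5 7) 0 0 (step_sound _ 130 [(rh50fbb5868c909700.shift 2 1), rh58a4e8e2924ea19f] (by decide +kernel))
noncomputable def rh3441054ef6cfe4ad : CRef := CRef.mk (Pat.mk 0x2000000020000000200000000 0x5000000070000000700000007000000030000000300000003 5 3) 0 0 (step_sound _ 129 [rh20966da26a1c2ae8, rh565a0c22519f57e9, rhc4055b4872d6fb38] (by decide +kernel))
noncomputable def rhb7e1c911c18ba2ec : CRef := CRef.mk (Pat.mk 0x800000008000000080000002800000000 0x8000000080000003f0000003f00000014 5 6) 0 0 (step_sound _ 36 [(rh55afc6a59410cf00.shift 3 0), rh7ce307151020a294] (by decide +kernel))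
noncomputable def rhd1c4c17b16a08f08 : CRef := CRef.mk (Pat.mk 0x180000000800000008000000000000000000000000 0xe70000007f000000ff00000008000000180000001800000010 5 8) 0 0 (step_sound _ 162 [(rh091d9d8e8cc09897.shift 2 1), (rh338385865bbd87ac.shift 2 0), (rh6b9df646b7babe1b.shift 0 4), (rhb8737d6699a46077.shift 0 4), (rhd1779d7de7f8215b.shift 2 0)] (by decide +kernel))
noncomputable def rh8fdbabcbdafb3e23 : CRef := CRef.mk (Pat.mk 0x18000000080000002800000000 0x1000000010000000300000007c0000007f0000003c00000020 5 7) 0 0 (step_sound _ 101 [(rh15c4a1b206be5926.shift 2 0), (rh2820ca9a6c4f41b4.shift 0 2), (rhf0f55c4504412200.shift 0 2)] (by decide +kernel))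
noncomputable def rh06763bcf3b1fa622 : CRef := CRef.mk (Pat.mk 0x60000001e000000000000000000000000 0x20000000b0000003e0000001e000000340000001400000010 5 6) 0 0 (step_sound _ 132 [(rh33e738c4ed385b9f.shift 1 3), rh5c42f8da43409903] (by decide +kernel))
noncomputable def rh4821978c6917c8b7 : CRef := CRef.mk (Pat.mk 0x40000001e0000000200000000 0x3000000030000003f0000001e0000000600000004 5 6) 0 0 (step_sound _ 97 [(rh3244c3cc8379b070.shift 0 2), rh793b5a397f1a8908] (by decide +kernel))
noncomputable def rhd6a14935e987a52c : CRef := CRef.mk (Pat.mk 0x8000000380000000000000000 0x8000000080000003f0000003f0000000700000004 5 6) 0 0 (step_sound _ 66 [(rh1efbca428b37b99e.shift 0 1), (rh775ca1963e850b80.shift 0 1), (rh837b431827c849c2.shift 1 0), (rh915c3ff3d4fe3a39.shift 0 2)] (by decide +kernel))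
noncomputable def rh12791ad7b1c1c5f4 : CRef := CRef.mk (Pat.mk 0x8000000380000000000000000 0x8000000080000000f0000003e0000007700000004 5 7) 0 0 (step_sound _ 66 [(rh008b05f4778dc30d.shift 0 1), (rh0d378fd9e8917c5a.shift 0 1), (rh775ca1963e850b80.shift 0 1), (rh837b431827c849c2.shift 1 0)] (by decide +kernel))
noncomputable def rhb583f025587b3557 : CRef := CRef.mk (Pat.mk 0x800000038000000000000000000000000 0x140000001c0000001c0000001c0000001f000000380000001f0000001c00000018 5 6) 0 0 (step_sound _ 163 [(rh046c5eb18e55a239.shift 3 0), (rh70e33bfdf511e144.shift 3 0), rh9b641bca51743e2c, (rhf527cf5683b56bd8.shift 2 2)] (by decide +kernel))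
noncomputable def rh4108c8850d15e83a : CRef := CRef.mk (Pat.mk 0x140000001e000000000000000000000000 0x400000004000000140000001e0000003f0000001e00000008 5 6) 0 0 (step_sound _ 35 [(rh5cb969a6db11cc20.shift 1 0), rh9885d866cffc5cc9, (rha0c90bcb61048ccf.shift 0 1)] (by decide +kernel))
noncomputable def rhc8986838162af652 : CRef := CRef.mk (Pat.mk 0xe0000001c0000000000000000 0x200000002000000070000007e0000001f0000000400000004 5 7) 0 0 (step_sound _ 100 [(rh771383521b68d2cd.shift 0 2), (rhab2ad169e49f9c5e.shift 0 2), rhd5889c99d29bf7d6] (by decide +kernel))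
noncomputable def rh6d3774d4958acfbe : CRef := CRef.mk (Pat.mk 0xe0000000c0000000000000000 0x200000002000000770000007e0000000c0000000400000004 5 7) 0 0 (step_sound _ 100 [(rh226655e3fe6b4a8a.shift 1 2), (rh771383521b68d2cd.shift 0 2), rhd5889c99d29bf7d6] (by decide +kernel))
noncomputable def rh6f7c51838a1d7c50 : CRef := CRef.mk (Pat.mk 0x700000006000000000000000000000000 0x30000000f0000001f0000000700000006000000060000000600000002 5 5) 0 0 (step_sound _ 161 [rh39a83bd891d985d7, (rh55a1f6c57a317ce6.shift 1 1), (rhd90f969e6ef1815c.shift 0 1)] (by decide +kernel))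
noncomputable def rhe914bcfb4969a3a0 : CRef := CRef.mk (Pat.mk 0x1c0000001c000000000000000000000000 0xc0000000e0000001f0000001c0000001c0000000c0000000c00000008 5 5) 0 0 (step_sound _ 163 [(rh05737698542ad308.shift 0 1), (rh1e309b005ffa1b36.shift 2 1), (rhfe7da3c073d75bd5.shift 2 0)] (by decide +kernel))
noncomputable def rh509f976aa6412b04 : CRef := CRef.mk (Pat.mk 0x800000008000000380000001000000000 0x1000000010000000340000007c0000001f0000003c000000f800000028 5 8) 0 0 (step_sound _ 132 [(rh2b16e1c8fae58c80.shift 1 0), rh9be4ae692e203044, (rhb730ba14aa32bdb3.shift 3 1), (rhe7343431bde9d496.shift 1 0)] (by decide +kernel))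
noncomputable def rh9df473e2759db1f7 : CRef := CRef.mk (Pat.mk 0x4000000040000001c0000000800000000 0x8000000180000001a0000001f0000003c0000001f0000007c00000014 5 7) 0 0 (step_sound _ 131 [(rh3415fc823c2766e9.shift 0 1), rh93b6e817dc28eb9c, (rha7976e43fb57a213.shift 2 1), (rhb730ba14aa32bdb3.shift 2 1), (rhe4b8572e14fc0085.shift 1 0)] (by decide +kernel))
noncomputable def rh53eaa86a18af8e3c : CRef := CRef.mk (Pat.mk 0x80000000c0000001c000000000000000000000000 0x140000003c0000000f0000001c0000000c0000000c0000000c 5 6) 0 0 (step_sound _ 67 [(rh3cb04db3dd2b6a55.shift 2 0), (rh66aaae7f6c35085c.shift 0 2), (rhbdf73b26f73f8159.shift 2 0)] (by decide +kernel))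
noncomputable def rh4d16e587899c8459 : CRef := CRef.mk (Pat.mk 0x70000000e000000000000000000000000 0x40000000c0000003c0000000f0000000e0000000e0000000e0000000e 5 6) 0 0 (step_sound _ 162 [(rh1e309b005ffa1b36.shift 1 1), (rh571950d89739e871.shift 1 2), rh888a2a34c811abd8] (by decide +kernel))
noncomputable def rh3dbca53cd7101d1d : CRef := CRef.mk (Pat.mk 0xc0000001c0000000000000000 0x80000000e0000000f0000003c0000001c0000001c0000000c 5 6) 0 0 (step_sound _ 131 [(rh1e309b005ffa1b36.shift 2 0), (rh571950d89739e871.shift 2 1), rh6cd649d652e06885] (by decide +kernel))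
noncomputable def rh8e55099693fe9bda : CRef := CRef.mk (Pat.mk 0x140000001e000000000000000000000000 0xa0000000e0000001e0000003e000000170000001e0000003c0000000800000008 5 6) 0 0 (step_sound _ 162 [(rh091df6876141f1f8.shift 1 0), rh1ee30aafa743543b, (rha4a8f3f215245e97.shift 0 2), (rha768b229dc254047.shift 2 0)] (by decide +kernel))
noncomputable def rh6db777b6f1a4cceb : CRef := CRef.mk (Pat.mk 0x140000001e0000000000000000 0xc0000000c0000001c0000001e0000003700000016 5 6) 0 0 (step_sound _ 131 [(rh0223a742aabcbe1b.shift 1 0), rh3516c82b498a8709, rh4da7855f263d9465, rh89aea9ddcc5b5994] (by decide +kernel))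
noncomputable def rh5ef25620f444c0dd : CRef := CRef.mk (Pat.mk 0x80000002c0000000000000000 0x8000000080000000f0000003e0000007700000004 5 7) 0 0 (step_sound _ 68 [(rh008b05f4778dc30d.shift 0 1), (rh0d378fd9e8917c5a.shift 0 1), (rh775ca1963e850b80.shift 0 1), (rh837b431827c849c2.shift 1 0)] (by decide +kernel))
noncomputable def rh1db0411717f0a858 : CRef := CRef.mk (Pat.mk 0x200000006000000060000000000000000 0x3000000070000000700000006000000060000000200000002 5 3) 0 0 (step_sound _ 161 [(rh2145e1d24b96a57e.shift 1 2), rh6ed5e6501b92e21f] (by decide +kernel))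
noncomputable def rh6227f8517f8e568b : CRef := CRef.mk (Pat.mk 0x40000000c0000000c0000000000000000 0x180000001a0000001f0000003c0000000c0000000c0000000c 5 6) 0 0 (step_sound _ 35 [rh7879c92a2811ac39, (rh7b1f1fb55310c477.shift 2 0)] (by decide +kernel))
noncomputable def rhccbbd1eea823c445 : CRef := CRef.mk (Pat.mk 0x38000000180000000000000000 0x2000000020000000700000003f0000001f0000001000000010 5 7) 0 0 (step_sound _ 65 [(rh24ae073cf30720c4.shift 1 2), rh5c26c7a5e693cd68] (by decide +kernel))
noncomputable def rh9228beee33ab5628 : CRef := CRef.mk (Pat.mk 0x40000000c0000000c000000000000000000000000 0x180000003c0000000f0000000c0000000e0000000e0000000a 5 6) 0 0 (step_sound _ 66 [(rh01bc9cef551ef5e3.shift 0 1), (rh2a727753f60a0586.shift 1 0), (rha707fb719e87fe6e.shift 2 1)] (by decide +kernel))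
noncomputable def rh2c413d1933cb4162 : CRef := CRef.mk (Pat.mk 0x80000001800000018000000000000000000000000 0x40000000f0000007c0000001e0000001c0000001c00000014 5 7) 0 0 (step_sound _ 133 [(rh4dc133ee0ba1420a.shift 1 3), rh70b61b4b81fcb989] (by decide +kernel))
noncomputable def rhfb87a2f4840a8b15 : CRef := CRef.mk (Pat.mk 0x180000001c0000000000000000 0x30000000300000001f0000001f0000003800000008 5 6) 0 0 (step_sound _ 132 [(rh0ebda655df2726a7.shift 0 1), (rh1e309b005ffa1b36.shift 3 0)] (by decide +kernel))
noncomputable def rh75564791d59f85c1 : CRef := CRef.mk (Pat.mk 0x18000000180000000000000000 0x1c0000001f0000007c000000180000001800000018 5 7) 0 0 (step_sound _ 131 [rh38bc03afb230705f, (rh55a1f6c57a317ce6.shift 3 0)] (by decide +kernel))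
noncomputable def rhf8ac50411f5bb5c3 : CRef := CRef.mk (Pat.mk 0x80000002c0000000000000000 0x8000000080000003f0000003f0000000700000004 5 6) 0 0 (step_sound _ 68 [(rh1efbca428b37b99e.shift 0 1), (rh775ca1963e850b80.shift 0 1), (rh837b431827c849c2.shift 1 0), (rh915c3ff3d4fe3a39.shift 0 2)] (by decide +kernel))
noncomputable def rh9da76f67c55925b7 : CRef := CRef.mk (Pat.mk 0x6000000060000000400000000 0x6000000060000000600000006000000070000003e0000000a 5 6) 0 0 (step_sound _ 130 [(rh1e309b005ffa1b36.shift 1 0), (rh7f9f3607ee25a93b.shift 1 1), rhcd4e30cc39602f0f] (by decide +kernel))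
noncomputable def rh952f9c9e5045ec54 : CRef := CRef.mk (Pat.mk 0x180000001c00000000 0x1c0000001c0000003f0000007f0000001c00000014 5 7) 0 0 (step_sound _ 131 [(rh93461d238e4ece25.shift 0 1), (rh9b32778d424b58d6.shift 2 0), (rhda6cc5da102e1723.shift 3 0)] (by decide +kernel))
noncomputable def rh7535639034b7d0e9 : CRef := CRef.mk (Pat.mk 0x20000000600000006000000000000000000000000 0x40000000600000006000000070000003f0000000f00000005 5 6) 0 0 (step_sound _ 65 [rh2a727753f60a0586, (rh333bba90a4f5e365.shift 0 1), (rha707fb719e87fe6e.shift 1 1)] (by decide +kernel))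
noncomputable def rh3f58a58dce2499ac : CRef := CRef.mk (Pat.mk 0xc0000001c0000000800000000 0x18000000780000001f0000001c0000000c00000004 5 7) 0 0 (step_sound _ 131 [(rh1e309b005ffa1b36.shift 2 0), (rh61a5ffb12f5aea93.shift 0 1)] (by decide +kernel))
noncomputable def rh2889ed17a4216880 : CRef := CRef.mk (Pat.mk 0x4000000040000001c0000000800000000 0x180000003c0000000f0000001c0000001f00000016 5 6) 0 0 (step_sound _ 131 [rh2b16e1c8fae58c80, rh675ab9d4ddf88e9c, rhf11d8e683411600d] (by decide +kernel))
noncomputable def rh2a2c9eb013bbac78 : CRef := CRef.mk (Pat.mk 0x60000001e0000000000000000 0x2000000030000003e0000001f0000000400000004 5 6) 0 0 (step_sound _ 100 [rh2a6d13f47ca0e172, (rh33e738c4ed385b9f.shift 1 2)] (by decide +kernel))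
noncomputable def rh317ff8bfe5a47313 : CRef := CRef.mk (Pat.mk 0x2000000020000000300000000 0x5000000070000000700000007000000030000000300000002 5 3) 0 0 (step_sound _ 129 [(rh9a369cb82ea472da.shift 0 1), (rha54302d5ccf5246c.shift 0 1), rhc4055b4872d6fb38] (by decide +kernel))
noncomputable def rh54d2ba95e186f86e : CRef := CRef.mk (Pat.mk 0x80000000c0000000c0000000000000000 0x4000000140000003c0000000f0000000e0000000e0000000e 5 6) 0 0 (step_sound _ 130 [(rh3cb04db3dd2b6a55.shift 2 0), rha31e2286f1ebea1b, (rhee4750e86d347f32.shift 1 0)] (by decide +kernel))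
noncomputable def rh4a395e5d30ebb2ac : CRef := CRef.mk (Pat.mk 0x4000000060000001600000000000000000000000000000000 0x6000000060000001f00000003000000030000000100000001 5 5) 0 0 (step_sound _ 97 [rh58aa26c47e50de25, (rh71222050f2c63a3a.shift 1 2)] (by decide +kernel))
noncomputable def rh89c1f347518f99c9 : CRef := CRef.mk (Pat.mk 0x300000005a00000000000000000000000000000000 0x200000003000000030000000300000007b0000001f000000380000003000000020 5 7) 0 0 (step_sound _ 100 [(rh215e11e099257d75.shift 4 2), (rh3820f35d5e705bec.shift 4 0), (rh75d87bc861391a75.shift 0 2)] (by decide +kernel))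
noncomputable def rh05447162a09779ad : CRef := CRef.mk (Pat.mk 0x80000001800000018000000000000000000000000 0x140000001f00000078000000180000001c0000001c00000014 5 7) 0 0 (step_sound _ 67 [(rh2a727753f60a0586.shift 2 0), (rha707fb719e87fe6e.shift 3 1), (rhdb019b0e908810fb.shift 0 2)] (by decide +kernel))
noncomputable def rh3f7f119198d7da6c : CRef := CRef.mk (Pat.mk 0x18000000180000000000000000 0x3c0000007f0000007e000000180000001800000018 5 7) 0 0 (step_sound _ 131 [(rh35e7f72034095f2a.shift 1 0), rh38bc03afb230705f, (rh55a1f6c57a317ce6.shift 3 0)] (by decide +kernel))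
noncomputable def rha95a9ca7436fdd33 : CRef := CRef.mk (Pat.mk 0x4000000040000001c00000000000000000000000000000000 0x2000000060000000e0000001c0000000f0000000e0000000c00000004 5 5) 0 0 (step_sound _ 99 [(rh08edf065357d68e5.shift 2 1), (rh79ad7b82ec8c35e2.shift 2 1), rhe5e5d1f80113d76d] (by decide +kernel))
noncomputable def rh66e50c5fa32577ac : CRef := CRef.mk (Pat.mk 0x200000002000000020000000000000000 0x500000007000000070000000700000002000000030000000300000001 5 3) 0 0 (step_sound _ 161 [rh367118e0bf0473e0, rh6aa5625770489e83, (rhc85cc95794737cf7.shift 0 2)] (by decide +kernel))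
noncomputable def rh2a2218c96b2db1f4 : CRef := CRef.mk (Pat.mk 0x20000000200000002000000000000000000000000 0x100000007000000070000000600000003000000070000000700000004 5 3) 0 0 (step_sound _ 65 [(rh565a0c22519f57e9.shift 0 1), (rhc9de03f9731897d4.shift 1 0)] (by decide +kernel))
noncomputable def rh82c1a194028d2df8 : CRef := CRef.mk (Pat.mk 0x400000004000000040000001c00000000 0x1a0000003f0000003f0000000c0000001c00000010 5 6) 0 0 (step_sound _ 131 [(rh2f68792b6b779e96.shift 2 1), rhe2d50aca5e2450bb] (by decide +kernel))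
noncomputable def rh54164037c6ef9891 : CRef := CRef.mk (Pat.mk 0x200000007000000050000000000000000 0x8000000080000001f0000001f000000070000000400000004 5 5) 0 0 (step_sound _ 99 [rh399f08c9bc23cb37, (rh7b030ba967bf927e.shift 0 2)] (by decide +kernel))
noncomputable def rhd16338b1364c0c81 : CRef := CRef.mk (Pat.mk 0x1e000000140000000000000000 0x4000000070000001e0000001f0000000300000003 5 5) 0 0 (step_sound _ 65 [rhb88304c6419db95d, (rheb0810cc63b001d8.shift 0 2)] (by decide +kernel))
noncomputable def rha3c6039d63f53e02 : CRef := CRef.mk (Pat.mk 0x40000001e0000000000000000 0x400000004000000070000001e0000003300000002 5 6) 0 0 (step_sound _ 33 [rh8be583836c259601, (rheb0810cc63b001d8.shift 0 1)] (by decide +kernel))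
noncomputable def rh5d31111b5b549ad6 : CRef := CRef.mk (Pat.mk 0x380000002c0000000000000000 0x280000007f0000003e0000003c0000001600000016 5 7) 0 0 (step_sound _ 98 [(rh61325f73ebf98108.shift 0 3), (rhb88304c6419db95d.shift 1 0), (rhc06605bb69974d8b.shift 1 0)] (by decide +kernel))
noncomputable def rh6344913edc3a396c : CRef := CRef.mk (Pat.mk 0x70000000e000000000000000000000000 0xc0000000c0000003c0000000f0000000e0000000c0000000c0000000c 5 6) 0 0 (step_sound _ 162 [(rh571950d89739e871.shift 1 2), rh7c20ffe7059869dd, (rhf062bb2913a19061.shift 0 2)] (by decide +kernel))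
noncomputable def rhbc3c332ad2a8189f : CRef := CRef.mk (Pat.mk 0xe0000001c000000000000000000000000 0x3f0000007e0000001e000000300000003000000010 5 7) 0 0 (step_sound _ 132 [(rh175823e8ffa28ef6.shift 1 0), (rh771383521b68d2cd.shift 0 3), (rhf9d36e158778ce35.shift 1 3)] (by decide +kernel))
noncomputable def rhf7f89b67e1499850 : CRef := CRef.mk (Pat.mk 0x18000000380000000000000000 0x8000000080000001e0000003f0000007700000004 5 7) 0 0 (step_sound _ 98 [rh331b1cb9a3361256, (rhb739f4f82bb681b4.shift 1 2)] (by decide +kernel))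
noncomputable def rh8c2ad9a06d323544 : CRef := CRef.mk (Pat.mk 0x60000000f000000000000000000000000 0xa0000001e0000000f0000001c0000000c0000000c 5 5) 0 0 (step_sound _ 131 [(rh33e738c4ed385b9f.shift 0 3), rh45ac7a71bc55c807] (by decide +kernel))
noncomputable def rhb87be96211078600 : CRef := CRef.mk (Pat.mk 0xe0000000a0000000000000000 0x10000000120000007f0000003e0000000e0000000c0000000c 5 7) 0 0 (step_sound _ 100 [rh5117ef794a583ff1, (rh6eb76252a9026692.shift 1 0), (rhf94411b389c3e54c.shift 0 3)] (by decide +kernel))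
noncomputable def rh65f001da9db29d9d : CRef := CRef.mk (Pat.mk 0x1c00000014000000100000000000000000 0x380000007c0000001c0000001f000000780000002800000008 5 7) 0 0 (step_sound _ 99 [(rh95c2f31b4be46fb5.shift 2 0), (rhdfcbbde5737bc663.shift 2 1), (rhf56e6bc5d2f7fe77.shift 0 2)] (by decide +kernel))
noncomputable def rh537e26a16e88fcd0 : CRef := CRef.mk (Pat.mk 0x1c00000014000000100000000000000000 0x140000001c0000001f000000380000003800000038 5 6) 0 0 (step_sound _ 99 [(rh6852947d3e67d303.shift 3 0), (rhb17e54761414237f.shift 2 0), (rhf56e6bc5d2f7fe77.shift 0 2)] (by decide +kernel))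
noncomputable def rhdeaa0e80af73152e : CRef := CRef.mk (Pat.mk 0x600000007000000000000000000000000 0x6000000060000000600000006000000070000001e0000000e0000000e 5 5) 0 0 (step_sound _ 66 [(rh3cb04db3dd2b6a55.shift 1 0), (rh6852947d3e67d303.shift 1 0), (rh9e60b1f52c41a951.shift 0 1)] (by decide +kernel))
noncomputable def rh65a4da1706b2bfd9 : CRef := CRef.mk (Pat.mk 0x700000007000000000000000000000000 0x40000000700000007000000070000001e0000000e00000006 5 5) 0 0 (step_sound _ 65 [rh40241bd608e5be1a, rhaeb7261ea18cb548, (rhea7a1800d6f053bd.shift 1 0)] (by decide +kernel))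
noncomputable def rh7d41099b9a2478c3 : CRef := CRef.mk (Pat.mk 0x1e000000140000000000000000 0x4000000060000007f0000001c0000000800000008 5 7) 0 0 (step_sound _ 67 [(rh0c561658b8646091.shift 1 0), (rhb739f4f82bb681b4.shift 0 2)] (by decide +kernel))
noncomputable def rh9cc333e729c7d407 : CRef := CRef.mk (Pat.mk 0x7800000000 0x3f000000ff00000007 5 8) 0 0 (step_sound _ 34 [rh2cc7d62e70c02209, rh93fbfccfde7bb6a1, (rhd5eb272e07a4e288.shift 1 1)] (by decide +kernel))
noncomputable def rh6be2cc7520b2e56c : CRef := CRef.mk (Pat.mk 0x80000001c000000100000000000000000 0x300000003000000030000000380000001f000000180000001800000018 5 6) 0 0 (step_sound _ 132 [(rh31387895e755a011.shift 3 0), (rhab2ad169e49f9c5e.shift 0 3)] (by decide +kernel))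
noncomputable def rh591b25f705f294ee : CRef := CRef.mk (Pat.mk 0x8000000180000003800000000 0x800000008000000080000001f0000003f00000004 5 6) 0 0 (step_sound _ 65 [rh918bcafda8d5258e, (rhab22b5b56e7b3243.shift 1 1)] (by decide +kernel))
noncomputable def rhc723a8390c9cb928 : CRef := CRef.mk (Pat.mk 0x800000018000000380000000000000000 0x80000001f0000003f0000001700000014 5 6) 0 0 (step_sound _ 4 [(rh9e07f76261b05888.shift 3 0), rhc6190ff18ecd0b22] (by decide +kernel))
noncomputable def rhc72231895f6839a5 : CRef := CRef.mk (Pat.mk 0x70000000e000000000000000000000000 0xc0000000e0000001e000000070000000e0000000c0000000c0000000c 5 5) 0 0 (step_sound _ 66 [(rh3489f93fb9a720e2.shift 1 0), (rh3cb04db3dd2b6a55.shift 1 0), (rh4b0a39b29844ef60.shift 0 1)] (by decide +kernel))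
noncomputable def rhce984ff4226f4ce6 : CRef := CRef.mk (Pat.mk 0x1800000038000000000000000000000000 0x1000000010000000180000003f000001f70000002000000020 5 9) 0 0 (step_sound _ 69 [(rh5d54cb79a67f97ab.shift 4 0), (rh73b2bd5cd3a6f807.shift 0 2), (rh91be479c082328ad.shift 2 0), (rhc21a95c499b3efdb.shift 2 2)] (by decide +kernel))
noncomputable def rh64991083a1397db0 : CRef := CRef.mk (Pat.mk 0x200000002000000020000000000000000 0x500000007000000070000000700000002000000060000000600000004 5 3) 0 0 (step_sound _ 161 [rh46baee19951a66e7, (rhc85cc95794737cf7.shift 0 2), (rhc9de03f9731897d4.shift 1 0)] (by decide +kernel))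
noncomputable def rhb0a4c63504b6577b : CRef := CRef.mk (Pat.mk 0x1000000010000000500000003000000000 0x1000000010000000770000003e0000000f 5 7) 0 0 (step_sound _ 35 [rh30473dc56de15b6b, (rh932754581e0f4330.shift 3 0)] (by decide +kernel))
noncomputable def rhd1593e3a2a67f4f3 : CRef := CRef.mk (Pat.mk 0x1800000008000000280000000800000000 0x3c0000001f000000380000000c0000000c 5 6) 0 0 (step_sound _ 34 [(rh932754581e0f4330.shift 2 0), rhaa633ebd3428d439] (by decide +kernel))
noncomputable def rh85d75d5d41269545 : CRef := CRef.mk (Pat.mk 0x200000002000000020000000000000000 0x500000007000000070000000600000006000000060000000600000004 5 3) 0 0 (step_sound _ 161 [(rh8065c10b3cae6218.shift 0 1), (rhc85cc95794737cf7.shift 0 2), (rhc9de03f9731897d4.shift 1 0)] (by decide +kernel))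
noncomputable def rh3017e39318a17b74 : CRef := CRef.mk (Pat.mk 0x3000000020000000200000002000000000 0x47000000fe000001ff000000200000003000000010 5 9) 0 0 (step_sound _ 131 [(rh227e37da968f4125.shift 0 1), (rhc72e185f95ef402c.shift 2 0), (rhcbeebad83e4d5f44.shift 2 0), (rhd73c85aa99504cfc.shift 2 1)] (by decide +kernel))
noncomputable def rh6374aa0742be4b66 : CRef := CRef.mk (Pat.mk 0x1000000070000000400000004000000000000000000000000 0x50000000700000006000000060000000e0000000e0000000a 5 4) 0 0 (step_sound _ 65 [(rh36f5b7631f426395.shift 1 0), (rh79610703defe4002.shift 0 2), (rhb01ac4982a11ea27.shift 1 0)] (by decide +kernel))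
noncomputable def rh30b8bb5abe80df47 : CRef := CRef.mk (Pat.mk 0x7000000040000000400000000 0xc0000000c0000003e000000070000000e0000000e0000000a 5 6) 0 0 (step_sound _ 130 [(rh1728b446c037fdbd.shift 1 1), rh508e6f743bdfa2cb, (rhc9ac229b3c77cd55.shift 1 0), (rhced6d86d2069808b.shift 2 0)] (by decide +kernel))
noncomputable def rh610da5a376ecbd68 : CRef := CRef.mk (Pat.mk 0x80000000b000000080000000000000000 0x140000001c0000001c000000180000000b0000001e0000001c00000010 5 5) 0 0 (step_sound _ 163 [(rh0c3873a75f5344d2.shift 0 1), (rh3905ea413cf31557.shift 2 1), (rhec588a0d7783acc6.shift 3 0)] (by decide +kernel))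
noncomputable def rh46943efd17c6fd91 : CRef := CRef.mk (Pat.mk 0x18000000380000002000000000 0x20000000600000007e0000003f0000003000000010 5 7) 0 0 (step_sound _ 66 [(rh8d917b916e5f3510.shift 0 1), (rhab2ad169e49f9c5e.shift 0 2), (rhe90633f6d3662e51.shift 1 0)] (by decide +kernel))
noncomputable def rh35549deb2b8bee95 : CRef := CRef.mk (Pat.mk 0x7000000040000000400000000 0xa0000000e0000001e000000070000000c0000000e0000000a 5 5) 0 0 (step_sound _ 130 [(rha06c4909f1a0e49c.shift 1 0), rhb444e71ef922ad5e, (rhced6d86d2069808b.shift 2 0)] (by decide +kernel))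
noncomputable def rhf0e65a28d65be075 : CRef := CRef.mk (Pat.mk 0x40000001c000000100000001000000000 0x8000000380000007f0000001c000000f80000003000000020 5 8) 0 0 (step_sound _ 131 [rh1e10d91c42e53cfa, (rha3df16ea9c8576c8.shift 3 1), (rhc89253ff58c66167.shift 3 1), (rhe072fffdd2fccf38.shift 3 1)] (by decide +kernel))
noncomputable def rh6d310a4a1fdb313f : CRef := CRef.mk (Pat.mk 0x30000000200000002000000000000000000000000 0x1000000070000000700000006000000030000000700000006000000070000000700000001 5 3) 0 0 (step_sound _ 193 [(rh19762886095df8b6.shift 0 3), rh5a26ed1c01b25f18, (rhced6d86d2069808b.shift 1 2)] (by decide +kernel))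
noncomputable def rh1c8a0cdd5a617280 : CRef := CRef.mk (Pat.mk 0x80000003800000020 0x380000003f00000067 5 7) 0 0 (step_sound _ 34 [rh1efbca428b37b99e, (rhe25b0a99195a5d59.shift 2 0)] (by decide +kernel))
noncomputable def rh4e6168c429553e24 : CRef := CRef.mk (Pat.mk 0xc0000001c0000001000000000 0x38000000780000003c0000001f0000001800000008 5 7) 0 0 (step_sound _ 131 [(rh2145e1d24b96a57e.shift 3 1), rh4c201041df0cef0c] (by decide +kernel))
noncomputable def rh2759ca9a3ca782a4 : CRef := CRef.mk (Pat.mk 0x40000000c0000001800000000000000000000000000000000 0xc0000000c0000007c0000001f0000000c0000000400000004 5 7) 0 0 (step_sound _ 99 [(rh7b1f1fb55310c477.shift 2 2), rhb9d8b79006d9f52c] (by decide +kernel))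
noncomputable def rhcdf08814b8e31ad2 : CRef := CRef.mk (Pat.mk 0x40000001c00000018000000000000000000000000 0x180000001c0000001c000000380000003f0000003c00000030 5 6) 0 0 (step_sound _ 67 [(rh7b1f1fb55310c477.shift 2 1), rhf907260d058c5e1b] (by decide +kernel))
noncomputable def rh38d932f05a1db45f : CRef := CRef.mk (Pat.mk 0x40000001c00000018000000000000000000000000 0x18000000180000001c0000001c0000007c0000002f0000000c00000004 5 7) 0 0 (step_sound _ 196 [(rh372b992859050e31.shift 2 2), (rh3d9ea522a568e981.shift 2 1), rhca410d64b407743f] (by decide +kernel))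
noncomputable def rh8a3bf339555429cb : CRef := CRef.mk (Pat.mk 0x40000001c00000018000000000000000000000000 0x40000001c0000007f0000007e0000001c0000001c 5 7) 0 0 (step_sound _ 35 [rh103f1406227ce269, (rh9e07f76261b05888.shift 2 1)] (by decide +kernel))
noncomputable def rhce4e636cb2a5f207 : CRef := CRef.mk (Pat.mk 0x10000000700000006000000000000000000000000 0x40000000700000007000000070000003e0000000e00000004 5 6) 0 0 (step_sound _ 65 [rh0b5523572e849cbc, (rh7b1f1fb55310c477.shift 0 1)] (by decide +kernel))
noncomputable def rhe162b28225f7ebb8 : CRef := CRef.mk (Pat.mk 0x20000000b0000000a0000000000000000 0xd0000001f0000000b0000001e0000000600000006 5 5) 0 0 (step_sound _ 33 [rh65341fef81d91180, rhe286c75f2739cce2] (by decide +kernel))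
noncomputable def rhab52eaf31b542ffd : CRef := CRef.mk (Pat.mk 0x80000002c000000280000000000000000 0x1000000010000000340000007c0000002f000000280000000800000008 5 7) 0 0 (step_sound _ 132 [(rh000637b5a81e86aa.shift 2 0), (rh0aa44aad476d735a.shift 2 1), (rhd69c262cd33b94b3.shift 0 3)] (by decide +kernel))
noncomputable def rh22a866a325be2ff9 : CRef := CRef.mk (Pat.mk 0x1800000028000000200000002000000000 0x180000003f000000670000002000000020 5 7) 0 0 (step_sound _ 100 [(rh73b2bd5cd3a6f807.shift 0 2), (rh7b1f1fb55310c477.shift 4 0)] (by decide +kernel))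
noncomputable def rhececd53a3737d0fe : CRef := CRef.mk (Pat.mk 0x60000000a00000008000000080000000000000000 0x140000001e0000000f00000008000000080000000c00000004 5 5) 0 0 (step_sound _ 35 [rh527e662973d8b350, (rhffd04209dc8ea796.shift 2 1)] (by decide +kernel))
noncomputable def rh4de3abef4dbb937e : CRef := CRef.mk (Pat.mk 0x800000008000000080000000800000000 0x800000008000000080000001f0000007c00000010 5 7) 0 0 (step_sound _ 36 [(rh262c41d511184e44.shift 0 1), (rh55afc6a59410cf00.shift 3 0)] (by decide +kernel))
noncomputable def rh092185b8521c1f7d : CRef := CRef.mk (Pat.mk 0x40000001400000010000000100000001000000000 0x1400000014000000340000001f0000001800000008 5 6) 0 0 (step_sound _ 35 [(rh932754581e0f4330.shift 3 0), (rhb4f8bf7e63201259.shift 0 1)] (by decide +kernel))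
noncomputable def rh27b05e9b6d52bd8e : CRef := CRef.mk (Pat.mk 0x140000001c00000010000000000000000000000000 0x30000000300000001f0000001f0000001f000000380000003800000010 5 6) 0 0 (step_sound _ 99 [(rh1e309b005ffa1b36.shift 3 1), (rh3669ebdfc68555d7.shift 0 3), rha95bbb0c9ff57d68] (by decide +kernel))
noncomputable def rh2171aa45cdbc6ef0 : CRef := CRef.mk (Pat.mk 0x40000000700000004000000000000000000000000 0xc0000000c0000003e00000007000000060000000e0000000e0000000e 5 6) 0 0 (step_sound _ 97 [(rh1e309b005ffa1b36.shift 1 1), (rh743e19cd6045f524.shift 1 0), rhb203c584cd71f63f] (by decide +kernel))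
noncomputable def rh73194a237cdcdd9d : CRef := CRef.mk (Pat.mk 0x80000000a0000000a0000000800000000 0x10000000380000001f0000000b0000000c00000004 5 6) 0 0 (step_sound _ 2 [(rh79877ebd3ef475dd.shift 2 0), (rhf1422681c6b900c2.shift 0 1)] (by decide +kernel))
noncomputable def rh098ed89708f73e1c : CRef := CRef.mk (Pat.mk 0x1000000014000000100000000000000000 0x280000003800000038000000300000001f000000180000001800000008 5 6) 0 0 (step_sound _ 164 [(rh367118e0bf0473e0.shift 3 0), (rh7ef5fa5c39f1c762.shift 3 2), (rha94490687c60c4d4.shift 0 1)] (by decide +kernel))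
noncomputable def rh0ecfc125b3f7b626 : CRef := CRef.mk (Pat.mk 0x20000000a0000000c00000008000000000000000000000000 0xa000000ee0000007c000000ff0000000c0000000c0000000c 5 8) 0 0 (step_sound _ 132 [(rh1136b81d2c6924ee.shift 1 3), (rh5b16e5ce3dbbe89f.shift 0 1), (rh75a1e88a833e1685.shift 1 0)] (by decide +kernel))
noncomputable def rh37f4d408692cdf16 : CRef := CRef.mk (Pat.mk 0x1400000018000000100000000000000000 0x80000003800000038000000300000001f00000018000000180000001800000018 5 6) 0 0 (step_sound _ 164 [(rh03dfdf12d5937476.shift 3 1), (rh1a04b1fa7724b64e.shift 0 2), rhd34a6eb282e98bd2] (by decide +kernel))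
noncomputable def rhdddef7359c53a245 : CRef := CRef.mk (Pat.mk 0x2000000020000000c0000000800000000 0x2000000030000003f0000007f00000004 5 7) 0 0 (step_sound _ 65 [(rh8ee80cc30e93a344.shift 0 1), (rhc21a95c499b3efdb.shift 0 1), rhe8ea5f2a637fddf3] (by decide +kernel))
noncomputable def rh7bf288a2cd49e953 : CRef := CRef.mk (Pat.mk 0x80000000a0000000800000008000000000000000000000000 0x10000000180000000f0000000c000000180000001c0000001c00000004 5 5) 0 0 (step_sound _ 196 [(rh2f68792b6b779e96.shift 3 3), rhf7027161c1c7954a] (by decide +kernel))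
noncomputable def rh4632e7c8eee2489c : CRef := CRef.mk (Pat.mk 0x20000000a000000080000000c00000000 0xa0000000a0000007a0000001f00000004 5 7) 0 0 (step_sound _ 2 [(rh5c5e593799055d58.shift 2 0), rha4bd49d8b7e1702a] (by decide +kernel))
noncomputable def rh7d652cb307b7010c : CRef := CRef.mk (Pat.mk 0xa000000080000000c000000000000000000000000 0x80000000e000000ff0000007f000000f00000001000000010 5 8) 0 0 (step_sound _ 100 [(rh046c5eb18e55a239.shift 3 0), (rh3a463f8d3d15292d.shift 0 2), (rhc045c1e42a76a7c6.shift 0 1), (rhd5979d9ced4acd89.shift 1 2)] (by decide +kernel))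
noncomputable def rh794c5ea6d0dd70bd : CRef := CRef.mk (Pat.mk 0x20000000a000000080000000c000000000000000000000000 0x20000000a0000007e0000001f000000040000000400000004 5 7) 0 0 (step_sound _ 66 [(rha4bd49d8b7e1702a.shift 0 2), (rhf9af042da61fc652.shift 2 0)] (by decide +kernel))
noncomputable def rhe5793cbf806a9ea1 : CRef := CRef.mk (Pat.mk 0xa0000000c000000080000000000000000 0x1800000018000000180000000f0000003c000000180000001800000018 5 6) 0 0 (step_sound _ 130 [(rh4dc6bbc83d5aeafb.shift 2 0), (rh6292bd8784ece55f.shift 0 3)] (by decide +kernel))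
noncomputable def rh1737e5bccdbf103b : CRef := CRef.mk (Pat.mk 0xa0000000c000000080000000000000000 0x1800000018000000180000000f0000000f0000007c0000001800000018 5 7) 0 0 (step_sound _ 163 [(rh14ac106cb212c324.shift 2 1), rh4b3f85ed8d66887b, (rhaa4d9de99c4ea825.shift 0 1), (rhce2140fb7da3b118.shift 0 2)] (by decide +kernel))
noncomputable def rha51a828f5aaafc4a : CRef := CRef.mk (Pat.mk 0xa0000000c00000008 0xef0000007f000000f8 5 8) 0 0 (step_sound _ 36 [(rh1136b81d2c6924ee.shift 1 0), (rh54c49bb299227e8d.shift 0 1), rhbf77dad9b53157cf] (by decide +kernel))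
noncomputable def rh158c4931a5a21d88 : CRef := CRef.mk (Pat.mk 0x280000002000000020000000200000000000000000 0x70000003e0000007700000020000000600000006000000040 5 7) 0 0 (step_sound _ 164 [(rh6c6cc8f59caab3aa.shift 0 4), (rha613ffd40b6c9d24.shift 4 0)] (by decide +kernel))
noncomputable def rh64875e5dc732fe22 : CRef := CRef.mk (Pat.mk 0xa0000000800000008000000080000000000000000 0x8000000080000000f0000007c000000180000001c0000000c0000000c 5 7) 0 0 (step_sound _ 34 [(rh79877ebd3ef475dd.shift 2 1), rh92ee8205f071478b] (by decide +kernel))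
noncomputable def rhce1b01541c5981e6 : CRef := CRef.mk (Pat.mk 0xa000000080000000800000008000000000000000000000000 0xf0000001c000000180000000c0000001c0000001c00000010 5 5) 0 0 (step_sound _ 67 [(rh7928877f9bf74a91.shift 2 1), rh9f9e09fb0992b909] (by decide +kernel))
noncomputable def rhb277310d64b3a5ac : CRef := CRef.mk (Pat.mk 0x20000000a0000000c00000008000000000000000000000000 0x20000000e0000000f0000003e0000001c0000001c00000010 5 6) 0 0 (step_sound _ 66 [(rh24475f7678211b71.shift 2 0), (rh5ddbeed5d869bf16.shift 2 1), (rhae1196315518c795.shift 0 2)] (by decide +kernel))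
noncomputable def rhe5e49ecbccf9e3a1 : CRef := CRef.mk (Pat.mk 0x200000002000000020000000000000000 0x400000006000000060000000200000007000000070000000700000005 5 3) 0 0 (step_sound _ 161 [(rh20966da26a1c2ae8.shift 0 1), rh3181373a30ceb9e3, (rhabedd109a9a37101.shift 0 1), (rhced6d86d2069808b.shift 1 1)] (by decide +kernel))
noncomputable def rh9bb6c13e28316240 : CRef := CRef.mk (Pat.mk 0x80000002800000038000000000000000000000000 0x18000000380000003e000001ff0000003000000030 5 9) 0 0 (step_sound _ 69 [(rha909b79ec44bacac.shift 3 0), (rhc21a95c499b3efdb.shift 2 2), (rhd62c73b158a418d7.shift 0 2)] (by decide +kernel))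
noncomputable def rh4683639f31019acd : CRef := CRef.mk (Pat.mk 0x80000002800000028000000080000000000000000 0x1000000018000000380000003f0000007c0000007000000040 5 7) 0 0 (step_sound _ 68 [rh4be1e65b10f03f09, (rh55afc6a59410cf00.shift 3 1)] (by decide +kernel))
noncomputable def rh251e8d15f78999fb : CRef := CRef.mk (Pat.mk 0x800000008000000280000000800000000 0x800000008000001ff0000007c00000010 5 9) 0 0 (step_sound _ 36 [(rh54ca6fb0de0de542.shift 0 1), (rh55afc6a59410cf00.shift 3 0)] (by decide +kernel))
noncomputable def rh8d637c05f1f8fe87 : CRef := CRef.mk (Pat.mk 0x2000000020000000a0000000200000000 0x2000000030000003f0000001f00000004 5 6) 0 0 (step_sound _ 34 [(rh497ee864c46894ca.shift 0 1), (rh55afc6a59410cf00.shift 1 0)] (by decide +kernel))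
noncomputable def rhcce8358d8d3722f6 : CRef := CRef.mk (Pat.mk 0x800000028000000280000000800000000 0x140000001f0000003c000000680000003c00000030 5 7) 0 0 (step_sound _ 36 [(rh55afc6a59410cf00.shift 3 0), rhf07da11de36d80e8] (by decide +kernel))
noncomputable def rh5dcab789b18432d8 : CRef := CRef.mk (Pat.mk 0xa00000008000000080000000800000000 0x100000001c0000001f0000000c000000080000000800000008 5 5) 0 0 (step_sound _ 130 [rh47dc2e24e211fb26, (rh50fbb5868c909700.shift 2 1)] (by decide +kernel))
noncomputable def rh6950a5ce2a52daa2 : CRef := CRef.mk (Pat.mk 0x10000000500000004000000040000000400000000 0x30000000700000006000000070000003e0000000a 5 6) 0 0 (step_sound _ 33 [(rh932754581e0f4330.shift 1 0), rhf4fdf4e800cb92a4] (by decide +kernel))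
noncomputable def rhff3da4bcb8aae1f8 : CRef := CRef.mk (Pat.mk 0x20000000200000002000000000000000000000000 0x100000003000000030000000200000007000000070000000700000005 5 3) 0 0 (step_sound _ 65 [rh3181373a30ceb9e3, (rh565a0c22519f57e9.shift 0 1), (rh8065c10b3cae6218.shift 0 1), (rhabedd109a9a37101.shift 0 1)] (by decide +kernel))
noncomputable def rh611d5cd14f08a25c : CRef := CRef.mk (Pat.mk 0x20000000200000002000000000000000000000000 0x400000006000000060000000200000007000000070000000700000005 5 3) 0 0 (step_sound _ 65 [(rh20966da26a1c2ae8.shift 0 1), rh3181373a30ceb9e3, (rhabedd109a9a37101.shift 0 1), (rhced6d86d2069808b.shift 1 1)] (by decide +kernel))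
noncomputable def rh4a662b7cc65908ad : CRef := CRef.mk (Pat.mk 0x2000000028000000280000002000000000 0x10000000300000007c0000002f0000007800000050 5 7) 0 0 (step_sound _ 164 [rhd9105149f258996b, (rhffd04209dc8ea796.shift 4 1)] (by decide +kernel))
noncomputable def rh2993531018ea39f2 : CRef := CRef.mk (Pat.mk 0xc0000001c000000100000000000000000 0x18000000780000001f0000001c0000007c0000000f0000000c 5 7) 0 0 (step_sound _ 67 [rh0de3dacc58fdf64b, (rhdaf93fbcfcfb667c.shift 0 2)] (by decide +kernel))
noncomputable def rheadb0c43c5ad1301 : CRef := CRef.mk (Pat.mk 0x2000000020000000200000003000000000000000000000000 0x600000006000000070000000300000003000000020000000200000002 5 3) 0 0 (step_sound _ 128 [rh3502d92c6cce609b, (rh5c5e593799055d58.shift 0 3)] (by decide +kernel))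
noncomputable def rh517016e4224e3bb0 : CRef := CRef.mk (Pat.mk 0x2000000020000000200000002000000040000000000000000 0x200000002000000030000000300000003000000070000000600000002 5 3) 0 0 (step_sound _ 65 [(rh55afc6a59410cf00.shift 1 1), rh5baa46239919fe38] (by decide +kernel))
noncomputable def rh247b58b6c14225e7 : CRef := CRef.mk (Pat.mk 0x200000002000000020000000000000000 0x500000007000000070000000600000003000000030000000300000001 5 3) 0 0 (step_sound _ 161 [(rh20966da26a1c2ae8.shift 0 1), rh367118e0bf0473e0, (rh565a0c22519f57e9.shift 0 1), (rhc85cc95794737cf7.shift 0 2)] (by decide +kernel))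
noncomputable def rh28e5efaa281b4177 : CRef := CRef.mk (Pat.mk 0xc0000001c00000000 0x1c0000001c0000003f0000007f0000001c00000014 5 7) 0 0 (step_sound _ 131 [(rh9b32778d424b58d6.shift 2 0), (rhe1aabfc40b1ccf6f.shift 0 1)] (by decide +kernel))
noncomputable def rhecfacbfcc3f95a1b : CRef := CRef.mk (Pat.mk 0xc0000001c000000000000000000000000 0xe0000000f0000001e0000007c0000001c0000001c 5 7) 0 0 (step_sound _ 129 [(rhb739f4f82bb681b4.shift 0 3), (rhe685d5d4032bf403.shift 1 0)] (by decide +kernel))
noncomputable def rh5bac8f50c4340367 : CRef := CRef.mk (Pat.mk 0x800000038000000000000000000000000 0x140000001c0000001c0000001c000000180000003c0000001f0000001c00000018 5 6) 0 0 (step_sound _ 163 [(rh046c5eb18e55a239.shift 3 0), (rh70e33bfdf511e144.shift 3 0), rhf3d524016c898cc9, (rhf527cf5683b56bd8.shift 2 2)] (by decide +kernel))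
noncomputable def rh88ab92d15daec98a : CRef := CRef.mk (Pat.mk 0x1e0000000200000000000000000000000000000000 0x400000006000000070000001e0000003600000007000000070000000500000004 5 6) 0 0 (step_sound _ 97 [rh052dbe641fc254b3, (rha435884696a2a3a8.shift 1 2), (rhd5c83ac304b29784.shift 0 1), (rhd8589df49ad97764.shift 0 2)] (by decide +kernel))
noncomputable def rhf605ad9567eb2aef : CRef := CRef.mk (Pat.mk 0x40000001400000014000000000000000000000000 0x80000000c0000000c000000340000001e0000000f0000000e0000000a 5 6) 0 0 (step_sound _ 66 [(rh3181373a30ceb9e3.shift 1 0), (rhced6d86d2069808b.shift 2 1), (rhea8014c6e0bdabf0.shift 0 1)] (by decide +kernel))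
noncomputable def rh4e89222fae775f85 : CRef := CRef.mk (Pat.mk 0x1400000004000000040000000400000000 0x20000003e00000007000000040000000600000006 5 6) 0 0 (step_sound _ 1 [rh2ca6829cf8c2858b, (rh79877ebd3ef475dd.shift 1 0)] (by decide +kernel))
noncomputable def rh94eaeb2c1af23037 : CRef := CRef.mk (Pat.mk 0x200000003000000020000000000000000 0x40000000700000007000000030000000300000003000000030000000300000003 5 3) 0 0 (step_sound _ 161 [(rh03dfdf12d5937476.shift 0 1), (rh9bfcedd6961f6a87.shift 0 2), rh9ee82b97cdeec3bd] (by decide +kernel))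
noncomputable def rh3dd1045e71ce0b95 : CRef := CRef.mk (Pat.mk 0xa0000000300000002000000000000000000000000 0x20000001f0000000300000007000000070000000700000006 5 5) 0 0 (step_sound _ 164 [rh64bfff8be57cc847, (rhb2a0b9ccfb5cecd5.shift 0 4)] (by decide +kernel))
noncomputable def rh9060a6dbbc6fa5c0 : CRef := CRef.mk (Pat.mk 0x680000002800000020000000000000000000000000 0x540000007c0000007c000000680000002f0000007c0000005e0000001400000010 5 7) 0 0 (step_sound _ 99 [rh042d685b1079bd65, (rh11bbdefe2705f60a.shift 1 0), (rh6d22e4af4868beec.shift 2 2), (rh80a5a644583a2421.shift 2 2)] (by decide +kernel))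
noncomputable def rh459ffebd7e24f7ea : CRef := CRef.mk (Pat.mk 0x140000001400000004000000000000000000000000 0x2000000060000001600000014000000370000003e0000007b0000000800000008 5 7) 0 0 (step_sound _ 99 [(rh0bd8fe210e7da469.shift 0 2), rh198336ceab80f814, (rh96fbad571715fd8b.shift 1 2), (rhf888686ded5effa4.shift 2 0)] (by decide +kernel))
noncomputable def rh736895e544aeea07 : CRef := CRef.mk (Pat.mk 0x140000001400000004000000000000000000000000 0x1400000014000000370000003e0000006f0000000800000008 5 7) 0 0 (step_sound _ 99 [(rh0bd8fe210e7da469.shift 0 2), (rh70e33bfdf511e144.shift 2 0), rhbdefc6cc0ff53bfb] (by decide +kernel))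
noncomputable def rh78c52bea3d0fe119 : CRef := CRef.mk (Pat.mk 0xb0000000e000000000000000000000000 0x5000000070000000f0000001f0000000b0000000f000000070000000700000004 5 5) 0 0 (step_sound _ 161 [(rh87a3a8a8a3fd85be.shift 0 1), (rha768b229dc254047.shift 1 0), (rhc0f6fe06378683f4.shift 0 2), (rhf4591ffc51cfe371.shift 0 1)] (by decide +kernel))
noncomputable def rhbbb92b5ac1c7af31 : CRef := CRef.mk (Pat.mk 0x2c00000038000000000000000000000000 0x140000001c0000003c0000007c0000002f00000038000000180000001800000010 5 7) 0 0 (step_sound _ 163 [(rha768b229dc254047.shift 3 0), (rhc0f6fe06378683f4.shift 2 2), (rhe7b3cb943067fd4d.shift 0 1), (rhf4591ffc51cfe371.shift 2 1)] (by decide +kernel))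
noncomputable def rh5280cb3db2e6d38c : CRef := CRef.mk (Pat.mk 0x300000002000000020000000000000000 0x10000000700000007000000060000000300000003000000070000000700000005 5 3) 0 0 (step_sound _ 161 [(rh19762886095df8b6.shift 0 2), rh3181373a30ceb9e3] (by decide +kernel))
noncomputable def rhdb8fdefbce6a08fb : CRef := CRef.mk (Pat.mk 0x580000005800000000 0x7c0000007f00000007 5 7) 0 0 (step_sound _ 34 [(rh361cc68994bd8a63.shift 2 1), rh4706b3aeb3a48197] (by decide +kernel))
noncomputable def rh08ae6a9c1fa4a93d : CRef := CRef.mk (Pat.mk 0x20000000e00000000 0xe70000007e000000e0 5 8) 0 0 (step_sound _ 36 [(rh1136b81d2c6924ee.shift 1 0), (rh3244c3cc8379b070.shift 0 1)] (by decide +kernel))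
noncomputable def rh1846e439b5578a29 : CRef := CRef.mk (Pat.mk 0x140000001c00000008000000000000000000000000 0x1c0000007c0000007f0000007e0000003e0000001c 5 7) 0 0 (step_sound _ 98 [(rh2cd297232b3b4952.shift 1 0), (rh2d923dc862338fb7.shift 1 0), (rh4dc133ee0ba1420a.shift 0 3)] (by decide +kernel))
noncomputable def rh1005b5ac1d506b0b : CRef := CRef.mk (Pat.mk 0x40000001c00000008000000000000000000000000 0x4000000040000000c0000007c0000007f000000060000000600000004 5 7) 0 0 (step_sound _ 98 [(rh3af54b5f78790764.shift 0 2), (rh4dc133ee0ba1420a.shift 0 3), (rh9346b80c5304bbe4.shift 1 0)] (by decide +kernel))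
noncomputable def rhd80ea488fc07f010 : CRef := CRef.mk (Pat.mk 0x140000001c000000000000000000000000 0x80000001c0000007f000000370000001400000014 5 7) 0 0 (step_sound _ 131 [(rh92e8f86a47ca4f2b.shift 1 0), (rh9ce3a16f91dcd4b0.shift 0 2), rhcb68da4f2dc5e7fd] (by decide +kernel))
noncomputable def rhacc49e5d4fd39099 : CRef := CRef.mk (Pat.mk 0x140000001c0000000800000000 0x4000000040000001c0000003f0000001f00000002 5 6) 0 0 (step_sound _ 130 [(rh2145e1d24b96a57e.shift 2 1), rh7973d3cbe08cc545] (by decide +kernel))
noncomputable def rhc9b4839147ef5582 : CRef := CRef.mk (Pat.mk 0x500000007000000020 0x77000001fe000003bf 5 10) 0 0 (step_sound _ 35 [rh125d4eaf14c79638, (rh2591032a0e7f4182.shift 1 0), (rh3c6494a6ce51d3d4.shift 2 0), rhbfdaafe6cbbfd7f3, rhe14df9863cada929] (by decide +kernel))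
noncomputable def rh66c813948644acbe : CRef := CRef.mk (Pat.mk 0x5000000070000000200000000000000000 0x1000000077000000fe0000003f0000000800000008 5 8) 0 0 (step_sound _ 99 [(rh125d4eaf14c79638.shift 0 2), (rh2591032a0e7f4182.shift 1 2), (rhbfdaafe6cbbfd7f3.shift 0 2), (rhce12f85975fbaead.shift 2 0)] (by decide +kernel))
noncomputable def rhf05e367129188605 : CRef := CRef.mk (Pat.mk 0x140000001c00000008000000000000000000000000 0x1c0000001f0000007f0000007e0000003e0000001c 5 7) 0 0 (step_sound _ 100 [(rh6292bd8784ece55f.shift 1 3), rhe5f445fbf1420cec, (rhef0f55be27604f2b.shift 1 0)] (by decide +kernel))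
noncomputable def rh1f846c44b7aeb5c3 : CRef := CRef.mk (Pat.mk 0x1400000014000000040000000400000000 0x80000001e00000037000000040000000600000006 5 6) 0 0 (step_sound _ 1 [rh49a0102df3440ad4, (rh79877ebd3ef475dd.shift 1 0)] (by decide +kernel))
noncomputable def rhba48c815b4c786c5 : CRef := CRef.mk (Pat.mk 0x1400000014000000040000000000000000 0x2000000020000000b0000001e00000037000000040000000400000004 5 6) 0 0 (step_sound _ 129 [(rh5650670921f15035.shift 0 2), rh9eb5f2758a4c7ff1, (rha6762d44641a54b3.shift 1 1), (rhf9a6286f1d5377a2.shift 1 1)] (by decide +kernel))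
noncomputable def rhf8350c3e7af4dd93 : CRef := CRef.mk (Pat.mk 0x20000000200000002000000000000000000000000 0x500000007000000070000000300000002000000070000000700000005 5 3) 0 0 (step_sound _ 65 [rh6aa5625770489e83, rh8cdd36b03d57a2f6, (rhc85cc95794737cf7.shift 0 2)] (by decide +kernel))
noncomputable def rh7363f1305eb19370 : CRef := CRef.mk (Pat.mk 0x2000000020000001a000000000000000000000000 0x100000003000000030000001a0000000f0000000700000005 5 5) 0 0 (step_sound _ 65 [(rh36e6bb6cca6188da.shift 0 1), rh46baee19951a66e7, rh6aa5625770489e83, rh8cdd36b03d57a2f6] (by decide +kernel))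
noncomputable def rhd0680b835e97d076 : CRef := CRef.mk (Pat.mk 0x800000028000000280000000800000000 0x40000000f40000007c0000002f000000380000003800000010 5 8) 0 0 (step_sound _ 132 [(rh2f68792b6b779e96.shift 3 1), rhc0671491b386e7f4] (by decide +kernel))
noncomputable def rh938809296a7d3171 : CRef := CRef.mk (Pat.mk 0x140000001400000014000000000000000000000000 0x10000000140000003e0000001e0000000f0000000a00000008 5 6) 0 0 (step_sound _ 99 [(rh5f607ad0c4b19d6e.shift 0 1), (rha56f4c4626a53b18.shift 2 0), (rhfafeb437ceb8396d.shift 3 0)] (by decide +kernel))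
noncomputable def rh0d77e2e0401ccd13 : CRef := CRef.mk (Pat.mk 0x2800000038000000200000000000000000 0x140000001c0000001c00000028000000780000003f0000003c00000010 5 7) 0 0 (step_sound _ 67 [(rhaa267e591401fc13.shift 2 0), (rhd812756c86ec814c.shift 2 1), (rhf0f55c4504412200.shift 0 2)] (by decide +kernel))
noncomputable def rhfac200e56f5e9723 : CRef := CRef.mk (Pat.mk 0x20000000200000002000000020000000000000000 0x600000006000000070000000300000003000000060000000600000006 5 3) 0 0 (step_sound _ 33 [rh1cb572e2d40704ad, (rhd29a1fb688eae70f.shift 1 0)] (by decide +kernel))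
noncomputable def rhef0c6663baaefa3a : CRef := CRef.mk (Pat.mk 0x20000001e000000000000000000000000 0x4000000070000000700000007000000060000001e000000070000000600000006 5 5) 0 0 (step_sound _ 161 [(rh046c5eb18e55a239.shift 1 0), rh1b880c036631c575, (rh5dc42907a7ca011e.shift 0 2), (rhc65f5dc89ddae11a.shift 0 1), rhed21e45804eeb376] (by decide +kernel))
noncomputable def rh871d5ce499d9eda1 : CRef := CRef.mk (Pat.mk 0x30000000200000002000000000000000000000000 0x1000000070000000700000006000000030000000300000007000000070000000700000004 5 3) 0 0 (step_sound _ 193 [(rh19762886095df8b6.shift 0 3), (rh8cdd36b03d57a2f6.shift 0 1), rhfaa2ea8d3894ed71] (by decide +kernel))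
noncomputable def rh5fba5992ee6efb1d : CRef := CRef.mk (Pat.mk 0x200000007000000060000000000000000 0x30000000300000003000000070000001f0000000300000001 5 5) 0 0 (step_sound _ 67 [rh4982f245e93c690d, (rhf48373e13d2bc128.shift 0 2)] (by decide +kernel))
noncomputable def rhb167ce3ac5e6dd36 : CRef := CRef.mk (Pat.mk 0x40000000e0000000c0000000000000000 0xc0000000c0000000c0000000e0000003e0000003300000002 5 6) 0 0 (step_sound _ 68 [rh377e6173f35d5294, (rhf48373e13d2bc128.shift 1 2)] (by decide +kernel))
noncomputable def rhc8e1b00ff32aea22 : CRef := CRef.mk (Pat.mk 0x80000001c000000180000000000000000 0x140000001c0000001c0000007c0000000f0000000c 5 7) 0 0 (step_sound _ 35 [(rh261f868a429ae0e3.shift 2 0), (rha707fb719e87fe6e.shift 3 0), rhce6d1b7e5a1e8958, (rhe286c75f2739cce2.shift 2 0)] (by decide +kernel))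
noncomputable def rha3a3f9dc7580010b : CRef := CRef.mk (Pat.mk 0x1e000000040000000000000000 0x200000002000000070000001e000000070000000400000004 5 5) 0 0 (step_sound _ 64 [(rh80fcd6d0a18cb2dd.shift 0 2), rhd5889c99d29bf7d6] (by decide +kernel))
noncomputable def rh77e49818bff4e709 : CRef := CRef.mk (Pat.mk 0xa0000000e000000020000000000000000 0x140000001c0000001c0000000a0000001f0000007e0000000e00000004 5 7) 0 0 (step_sound _ 67 [(rh8ee80cc30e93a344.shift 0 2), (rha60d91ce4063f31c.shift 1 0)] (by decide +kernel))
noncomputable def rh80d3a801875e8f9d : CRef := CRef.mk (Pat.mk 0x20000001e000000000000000000000000 0x1000000070000000700000006000000060000001e000000070000000600000006 5 5) 0 0 (step_sound _ 161 [(rh046c5eb18e55a239.shift 1 0), rh1b880c036631c575, (rh1f6816da7d83a67c.shift 0 2), (rhc65f5dc89ddae11a.shift 0 1), rhed21e45804eeb376] (by decide +kernel))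
noncomputable def rh1a174162c01f37ee : CRef := CRef.mk (Pat.mk 0x140000001e000000000000000000000000 0x20000000b0000001f0000001e000000340000001400000010 5 6) 0 0 (step_sound _ 131 [(rh12b3e7d1014f8218.shift 0 1), (rhbbe16ff26f7822db.shift 1 0)] (by decide +kernel))
noncomputable def rh65d3e0cb09a604fc : CRef := CRef.mk (Pat.mk 0x80000000800000038000000000000000000000000 0x40000001c0000001c000000380000001f0000001c0000001c 5 6) 0 0 (step_sound _ 67 [(rh0c1c1b53bc5a1510.shift 2 0), (rh852e818bc8629e77.shift 0 1), (rhca18712e5e5c7b8f.shift 3 0)] (by decide +kernel))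
noncomputable def rhb1beb69913c0a930 : CRef := CRef.mk (Pat.mk 0x20000000200000006000000000000000000000000 0x500000007000000070000000700000006000000030000000300000003 5 3) 0 0 (step_sound _ 65 [rh0c1c1b53bc5a1510, (rh7ef5fa5c39f1c762.shift 0 2), rheacedd262407fad2] (by decide +kernel))
noncomputable def rh5464e261c4a40a5e : CRef := CRef.mk (Pat.mk 0x140000001c000000080000000000000000 0x1c0000007f000000ff0000000800000008 5 8) 0 0 (step_sound _ 35 [(rh222078f0c0c311b9.shift 0 2), (rh71222050f2c63a3a.shift 3 0)] (by decide +kernel))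
noncomputable def rh620bd4db2fb395d1 : CRef := CRef.mk (Pat.mk 0x140000001c000000080000000000000000 0x400000004000000140000007e0000007f0000006200000020 5 7) 0 0 (step_sound _ 66 [(rh3464eab5c90daa28.shift 1 0), (rh3af54b5f78790764.shift 0 1), (rh4dc133ee0ba1420a.shift 0 2)] (by decide +kernel))
noncomputable def rh5ad4e716fae363f2 : CRef := CRef.mk (Pat.mk 0x200000002800000068000000000000000000000000 0x140000005c0000007c0000002f000000680000007c0000007c00000054 5 7) 0 0 (step_sound _ 163 [(rh08ff1a9078a560c4.shift 2 0), (rh2ff636bca25f9b29.shift 2 0), (rh349d1013248e817b.shift 0 2), (rh34f01bbeada41651.shift 2 0)] (by decide +kernel))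
noncomputable def rha4202c99c4a61a97 : CRef := CRef.mk (Pat.mk 0x80000002c00000028000000000000000000000000 0x18000000180000007c0000002f0000002c0000002c0000000c00000008 5 7) 0 0 (step_sound _ 98 [(rh1e309b005ffa1b36.shift 2 1), (rh2e14b0001f2cbe5b.shift 2 0), rhc81f2a94a3368baf] (by decide +kernel))
noncomputable def rh20cd3f9642a961e5 : CRef := CRef.mk (Pat.mk 0x80000000800000008000000280000000000000000 0xc0000000c0000001c0000003c0000000f0000007c0000000800000008 5 7) 0 0 (step_sound _ 98 [rh48487892a865da0f, (rh899f885acab7361f.shift 1 2), (rh8c25cb665ab79ec0.shift 0 2), (rhc5bc34518ce17094.shift 2 2)] (by decide +kernel))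
noncomputable def rhfe0d72f5194da0ed : CRef := CRef.mk (Pat.mk 0x380000001c000000000000000000000000 0x800000038000000380000003c0000001f0000001c0000001c 5 6) 0 0 (step_sound _ 68 [rh4d845d7e9f5b88e4, (rhb0c1e7919d9be92d.shift 3 0)] (by decide +kernel))
noncomputable def rhe9a4118226d21cb7 : CRef := CRef.mk (Pat.mk 0x80000001c0000000c0000000000000000 0xc0000001c000000380000001f0000000c0000000800000008 5 6) 0 0 (step_sound _ 163 [(rh5c5e593799055d58.shift 2 2), rh866e791d121b0342] (by decide +kernel))
noncomputable def rhfc73149436a3368e : CRef := CRef.mk (Pat.mk 0x1c0000000c0000000000000000 0x18000000380000001f0000000f0000000c0000000c 5 6) 0 0 (step_sound _ 65 [(rh53b3c253cb0c65f4.shift 0 2), rhe58b0dacc250552f] (by decide +kernel))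
noncomputable def rh5cd2570e9bd12b2a : CRef := CRef.mk (Pat.mk 0x1c0000000e0000000000000000 0x10000000300000001f0000007e0000007800000008 5 7) 0 0 (step_sound _ 68 [(rh79b3c29022acbdf3.shift 1 2), (rh87ee923877636e52.shift 1 1), rhb48fed03d8127111] (by decide +kernel))
noncomputable def rh2b62f5f79ea72b7e : CRef := CRef.mk (Pat.mk 0x1c0000000c000000000000000000000000 0x80000001e0000007f000000300000001000000010 5 7) 0 0 (step_sound _ 97 [(rh01dd0ad9eef877ef.shift 1 0), (rh53b3c253cb0c65f4.shift 0 3)] (by decide +kernel))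
noncomputable def rh6ef2dcd029604fc0 : CRef := CRef.mk (Pat.mk 0x1c0000000e0000000000000000 0x10000000300000001f0000007e0000000f00000008 5 7) 0 0 (step_sound _ 68 [(rh79b3c29022acbdf3.shift 1 2), rhb48fed03d8127111, (rhf10fa853c2693a25.shift 0 1)] (by decide +kernel))
noncomputable def rh19293cfde27af7d1 : CRef := CRef.mk (Pat.mk 0x1c0000000c000000000000000000000000 0x10000000380000001f0000007c0000000e0000000c00000004 5 7) 0 0 (step_sound _ 100 [(rh39b36e93b258e604.shift 1 0), (rh79b3c29022acbdf3.shift 1 3), (rh8d364617c03d6975.shift 0 1)] (by decide +kernel))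
noncomputable def rh3ca8a87c2ecd6560 : CRef := CRef.mk (Pat.mk 0x500000003000000020000000200000000 0x60000000700000003000000070000000700000005 5 3) 0 0 (step_sound _ 129 [(rh2f68792b6b779e96.shift 1 1), rh71db9facc75efbcc] (by decide +kernel))
noncomputable def rha359fe73bfab2e49 : CRef := CRef.mk (Pat.mk 0x800000008000000180000001000000000 0x1000000018000000180000003c000000ff0000002c 5 8) 0 0 (step_sound _ 35 [rh6fae963f33cfdfd7, (rhfa88012a51cb806b.shift 2 0)] (by decide +kernel))
noncomputable def rh4f7467f2c94797af : CRef := CRef.mk (Pat.mk 0x80000002800000018000000100000000000000000 0x1000000030000000780000003f000000780000003f0000002c00000004 5 7) 0 0 (step_sound _ 164 [(rh15590a39afd9a120.shift 2 0), (rh1be7ac9af4fb6233.shift 1 1), (rha4a90701732bc6b6.shift 0 1), (rhd0f9d30d1d0b7bb8.shift 0 2)] (by decide +kernel))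
noncomputable def rh975b099a705d37b1 : CRef := CRef.mk (Pat.mk 0x8000000280000001800000010000000000000000000000000 0x10000000180000003c0000001f000000ff0000002c0000000c00000008 5 8) 0 0 (step_sound _ 99 [(rh70ae4a3831b873d4.shift 1 0), (rh7b18f3f209f14cd6.shift 2 0), (rhe2925231d2f05261.shift 0 2), (rhfa88012a51cb806b.shift 2 2)] (by decide +kernel))
noncomputable def rh77e75a95749aa7e3 : CRef := CRef.mk (Pat.mk 0x140000001c000000000000000000000000 0x80000001c0000007f000000370000001400000014 5 7) 0 0 (step_sound _ 131 [(rh39b36e93b258e604.shift 1 0), rh7fe3849afaeeddfd, (rh9ce3a16f91dcd4b0.shift 0 2)] (by decide +kernel))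
noncomputable def rh05c88f9cfb671a39 : CRef := CRef.mk (Pat.mk 0x40000000c000000080000000000000000 0x400000004000000070000003f0000007f0000000200000002 5 7) 0 0 (step_sound _ 97 [(rh8ee80cc30e93a344.shift 0 2), (rhc21a95c499b3efdb.shift 0 2), rhf6c8e3df982d092b] (by decide +kernel))
noncomputable def rh31d5998334e4eabc : CRef := CRef.mk (Pat.mk 0x2800000018000000100000000000000000 0x20000000200000002f0000007c000000300000001000000010 5 7) 0 0 (step_sound _ 36 [(rh1d16fbcfb0a27976.shift 0 1), (rh7b1f1fb55310c477.shift 3 0)] (by decide +kernel))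
noncomputable def rh807aefd0b91eccb8 : CRef := CRef.mk (Pat.mk 0x80000000e000000000000000000000000 0x140000001c0000001c0000000c0000001f0000007c0000000c0000000c 5 7) 0 0 (step_sound _ 67 [(rh87a3a8a8a3fd85be.shift 2 0), (rh8ee80cc30e93a344.shift 0 2), (rhc21a95c499b3efdb.shift 0 2)] (by decide +kernel))
noncomputable def rh1b79740c74061dde : CRef := CRef.mk (Pat.mk 0x200000002000000020000000000000000 0x100000007000000070000000700000006000000060000000600000004 5 3) 0 0 (step_sound _ 161 [(rh8065c10b3cae6218.shift 0 1), (rhc4055b4872d6fb38.shift 0 1), (rhc9de03f9731897d4.shift 1 0)] (by decide +kernel))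
noncomputable def rhc1f48429e2584caf : CRef := CRef.mk (Pat.mk 0x200000002000000020000000000000000 0x100000007000000070000000700000003000000030000000300000001 5 3) 0 0 (step_sound _ 161 [rh367118e0bf0473e0, (rh565a0c22519f57e9.shift 0 1), (rhc4055b4872d6fb38.shift 0 1)] (by decide +kernel))
noncomputable def rh5f18eceb77ab763f : CRef := CRef.mk (Pat.mk 0x2c000000080000000800000008 0x100000003e0000007f0000000800000008 5 7) 0 0 (step_sound _ 100 [(rh008b05f4778dc30d.shift 0 2), (rh2f68792b6b779e96.shift 3 0)] (by decide +kernel))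
noncomputable def rhdb68842914d447c5 : CRef := CRef.mk (Pat.mk 0x8000000280000000800000018 0x740000007c0000003f0000003800000018 5 7) 0 0 (step_sound _ 100 [(rh2f68792b6b779e96.shift 3 0), rh9c50d5389d1c3d10] (by decide +kernel))
noncomputable def rhc39c32252d4fdcd1 : CRef := CRef.mk (Pat.mk 0xb0000000e00000000000000000000000000000000 0x1c0000001e0000000b0000000f0000007c0000001c0000001000000010 5 7) 0 0 (step_sound _ 99 [rh5a8abb721f11b584, (rhc21a95c499b3efdb.shift 0 3), (rhe9f86ffc18bf5653.shift 0 2)] (by decide +kernel))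
noncomputable def rh8c2e7c9812e34762 : CRef := CRef.mk (Pat.mk 0x70000000c0000000000000000 0x40000000e0000001e0000000f0000000e0000000e00000004 5 5) 0 0 (step_sound _ 130 [(rhb23658ecdd7ce5df.shift 1 1), rhc1c1b4a46bee218b] (by decide +kernel))
noncomputable def rh95cd90ff80e46efd : CRef := CRef.mk (Pat.mk 0xf000000030000000000000000 0x40000001c0000000f0000001f0000001800000018 5 5) 0 0 (step_sound _ 131 [rh1cae0224f4333627, (rh33e738c4ed385b9f.shift 0 3)] (by decide +kernel))
noncomputable def rh593f484a5391af01 : CRef := CRef.mk (Pat.mk 0xb0000000b00000000000000000000000000000000 0x2000000020000000b0000000b0000001f0000001f000000060000000600000004 5 5) 0 0 (step_sound _ 97 [(rh3cb04db3dd2b6a55.shift 0 1), (rhb8538ce4e5e6cda1.shift 0 1), rhf366311c23480cc2] (by decide +kernel))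
noncomputable def rh97ccbadac11e5935 : CRef := CRef.mk (Pat.mk 0xb0000000b000000000000000000000000 0x40000000f0000000f0000001b0000001f0000000e00000002 5 5) 0 0 (step_sound _ 65 [rh0bd65c561ceb34d8, rh3cb04db3dd2b6a55, (rh734f8cecd26b5c5f.shift 0 1)] (by decide +kernel))
noncomputable def rh95b48347d23e4942 : CRef := CRef.mk (Pat.mk 0xb0000000b000000000000000000000000 0x10000000160000001e0000001e0000000f0000000f0000001d0000001c00000014 5 5) 0 0 (step_sound _ 163 [(rh9548c07d1d1f2a1b.shift 0 2), rh9902ebb0ebf188d0, (rhe9105e7eef2f9794.shift 0 2)] (by decide +kernel))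
noncomputable def rhf6f5c7da47a201f6 : CRef := CRef.mk (Pat.mk 0xc0000000c00000008000000000000000000000000 0x40000000c0000000c0000001f0000007c000000100000001000000010 5 7) 0 0 (step_sound _ 226 [rh60fe67cecc0aa864, (rh6f1cbe15c631ee70.shift 2 3)] (by decide +kernel))
noncomputable def rhff8efe2a8faeccdf : CRef := CRef.mk (Pat.mk 0x180000001c00000000 0x180000003f00000077 5 7) 0 0 (step_sound _ 33 [rh0edd3afef6b5d7e0, (rh53b3c253cb0c65f4.shift 0 1)] (by decide +kernel))
noncomputable def rh7984283cca997913 : CRef := CRef.mk (Pat.mk 0x180000001c00000000 0x1f0000003f00000007 5 6) 0 0 (step_sound _ 33 [rh47c07cd0cc865f65, (rh53b3c253cb0c65f4.shift 0 1)] (by decide +kernel))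
noncomputable def rhfea10ff459c6dc05 : CRef := CRef.mk (Pat.mk 0x300000003000000020000000000000000 0x4000000060000000700000003000000060000000600000006 5 3) 0 0 (step_sound _ 33 [rh7b1f1fb55310c477, (rhced6d86d2069808b.shift 1 0)] (by decide +kernel))
noncomputable def rh61a4ab9a97d828a0 : CRef := CRef.mk (Pat.mk 0x7000000080 0x770000007e000000ce 5 8) 0 0 (step_sound _ 35 [rh3b45ba8ad278d209, (rh96851dee118c1ba3.shift 3 0)] (by decide +kernel))
noncomputable def rh69e33aa735145a1b : CRef := CRef.mk (Pat.mk 0x7800000010 0xe00000007e00000037 5 8) 0 0 (step_sound _ 70 [rh2c7a93bb15bb1614, (rh33e738c4ed385b9f.shift 3 1)] (by decide +kernel))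
noncomputable def rh0e23f906b82a1cd3 : CRef := CRef.mk (Pat.mk 0x200000006000000060000000000000000 0x6000000060000000600000006000000070000000300000001 5 3) 0 0 (step_sound _ 161 [(rh2145e1d24b96a57e.shift 1 2), rh367118e0bf0473e0] (by decide +kernel))
noncomputable def rh429e389ff645ea91 : CRef := CRef.mk (Pat.mk 0x170000000c000000000000000000000000 0x140000003e000000170000003c0000001c0000000800000008 5 6) 0 0 (step_sound _ 67 [(rh39cd385afe63cfa1.shift 1 0), (rh3c8ce40113d80209.shift 0 2), (rh5d54cb79a67f97ab.shift 2 0)] (by decide +kernel))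
noncomputable def rh0629d9b90748909d : CRef := CRef.mk (Pat.mk 0x80000001800000030000000000000000000000000 0x1800000018000000180000001f0000003f0000002e0000000400000004 5 6) 0 0 (step_sound _ 99 [(rh1a64fdb454ca4f39.shift 3 2), (rh544f486c8c292a66.shift 0 2), rhb81cd97085901d60] (by decide +kernel))
noncomputable def rhb990105fe101a292 : CRef := CRef.mk (Pat.mk 0x40000000c000000180000000000000000 0x180000003c0000000f000000180000001800000018 5 6) 0 0 (step_sound _ 97 [(rh9ce69c879dc440b9.shift 1 0), (rhb739f4f82bb681b4.shift 0 2)] (by decide +kernel))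
noncomputable def rh0a4844fdf171cc0a : CRef := CRef.mk (Pat.mk 0x80000002c000000080000000800000000 0x80000003f0000007c0000003f00000014 5 7) 0 0 (step_sound _ 34 [rh599eeae95165833d, (rh932754581e0f4330.shift 2 0)] (by decide +kernel))
noncomputable def rh819126da9839f993 : CRef := CRef.mk (Pat.mk 0x580000001000000030000000000000000000000000 0x80000000800000018000000780000001f000000fe0000000f0000000c00000008 5 8) 0 0 (step_sound _ 99 [(rh3d164a09ad92dabc.shift 0 2), (rh995e257dda7f387d.shift 0 2), (rhaf1416731c05934d.shift 1 1), (rhfafeb437ceb8396d.shift 3 0)] (by decide +kernel))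
noncomputable def rhac96d575bb1f2cd5 : CRef := CRef.mk (Pat.mk 0x2c0000000800000018000000000000000000000000 0x280000003c000001e80000007e000000f70000001000000010 5 9) 0 0 (step_sound _ 101 [(rh61d3dc0caa057605.shift 2 2), (rh73770d9950ef0c9f.shift 3 0), (rhc05ee89a43f79cc0.shift 2 0), (rhe75edc6582963f18.shift 1 2), (rhf2dc415bde563b36.shift 0 2)] (by decide +kernel))
noncomputable def rh78026a63c688b35f : CRef := CRef.mk (Pat.mk 0x2c0000000800000018000000000000000000000000 0x200000003c000001ef000000fc000001f00000001000000010 5 9) 0 0 (step_sound _ 101 [(rh00a187acd9599501.shift 2 2), (rh6aba808d3877b30e.shift 2 0), (rha9fbfd4bb8cf890b.shift 0 3)] (by decide +kernel))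
noncomputable def rh221a2f72d140c1c0 : CRef := CRef.mk (Pat.mk 0x2c000000080000001800000000 0xc0000000c0000000c0000003c0000000f0000001800000010 5 6) 0 0 (step_sound _ 131 [(rh09c79e94e3d6459c.shift 0 1), (rh55afc6a59410cf00.shift 3 0)] (by decide +kernel))
noncomputable def rh108022be7d810404 : CRef := CRef.mk (Pat.mk 0xb0000000a000000020000000000000000 0x10000000180000001a0000000f0000007a0000001f0000001c00000014 5 7) 0 0 (step_sound _ 67 [(rh1ad2c633a366394c.shift 0 1), (rh397bcc29d1494747.shift 0 1), (rhcc6775a4752547ba.shift 0 1), (rhe57df5fd7b63fb6b.shift 0 2), rhf926f0a9d8708921] (by decide +kernel))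
noncomputable def rh08e3d9067e1f5fa4 : CRef := CRef.mk (Pat.mk 0x3800000000 0xf70000007e0000000f 5 8) 0 0 (step_sound _ 34 [(rh3b00e9e9432b8f40.shift 1 0), (rh61325f73ebf98108.shift 0 1), rh7654d7b92c96fe12, rh775ca1963e850b80] (by decide +kernel))
noncomputable def rhb14a52bcaa2857f1 : CRef := CRef.mk (Pat.mk 0x1000000018000000100000001000000000 0x800000018000000180000003c000000ff0000002c 5 8) 0 0 (step_sound _ 35 [rh03312b1476ce7635, (rh932754581e0f4330.shift 3 0)] (by decide +kernel))
noncomputable def rh99a2598ed1c1c8a2 : CRef := CRef.mk (Pat.mk 0x1e00000004000000040000000000000000 0x340000001e0000000f0000000c0000000c0000000c 5 6) 0 0 (step_sound _ 97 [(rh7cb52c8b7c250c95.shift 1 0), (rheb0810cc63b001d8.shift 0 3)] (by decide +kernel))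
noncomputable def rh48d4cfcd63710493 : CRef := CRef.mk (Pat.mk 0xb0000000a000000020000000000000000 0x1c0000001e0000000f0000001b0000001e0000001400000010 5 5) 0 0 (step_sound _ 163 [(rh47e45fb0d7bc6017.shift 0 1), rh9765e413c7f50252, (rhabf575676fe0ef70.shift 0 3)] (by decide +kernel))
noncomputable def rhfdba606e44d341a5 : CRef := CRef.mk (Pat.mk 0xb0000000a0000000200000000 0x50000000f0000001f0000000b0000001e0000000600000004 5 5) 0 0 (step_sound _ 66 [rh413d08df26a67848, (rhf48373e13d2bc128.shift 0 2)] (by decide +kernel))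
noncomputable def rh1c7528c33c6a75c3 : CRef := CRef.mk (Pat.mk 0xb0000000a00000002000000000000000000000000 0x10000000140000001e0000001e0000000f0000000f0000001e000000140000000400000004 5 5) 0 0 (step_sound _ 195 [(rh17ed3197c9f17f22.shift 1 0), (rh47e45fb0d7bc6017.shift 0 2), (rh6c53afc29829c0cc.shift 0 2), (rh85fa5d4252c97823.shift 0 3), (rh9548c07d1d1f2a1b.shift 0 3)] (by decide +kernel))
noncomputable def rha7838260cbf3c18b : CRef := CRef.mk (Pat.mk 0xc000000080000000800000000 0x140000001c0000003c0000000f000000180000001800000010 5 6) 0 0 (step_sound _ 131 [(rh20ee5c2c4c3a9878.shift 0 1), (rh29dd5384d80ecb1e.shift 2 0), (rhced6d86d2069808b.shift 3 0)] (by decide +kernel))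
noncomputable def rh377f8e7b11876629 : CRef := CRef.mk (Pat.mk 0x1e0000000400000004000000000000000000000000 0x340000001e000000370000001c0000000c0000000c00000008 5 6) 0 0 (step_sound _ 196 [(rh33e738c4ed385b9f.shift 1 5), rh674c9508184d1554] (by decide +kernel))
noncomputable def rh75c329317019b4c5 : CRef := CRef.mk (Pat.mk 0x80000000c000000080000000800000000 0x10000000780000001f000000080000001800000010 5 7) 0 0 (step_sound _ 4 [(rhc9613fc5bab58382.shift 0 1), (rhd3458b32566d63f7.shift 3 0)] (by decide +kernel))
noncomputable def rh2137ca830ac57bbb : CRef := CRef.mk (Pat.mk 0x80000002c000000080000000800000000 0xc0000000c0000000c0000003c0000000f0000001800000010 5 6) 0 0 (step_sound _ 36 [(rh09c79e94e3d6459c.shift 0 1), (rh55afc6a59410cf00.shift 3 0)] (by decide +kernel))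
noncomputable def rh1a68f1b75eab250a : CRef := CRef.mk (Pat.mk 0x80000000c000000080000000800000000 0x100000003c0000001f000000080000001800000010 5 6) 0 0 (step_sound _ 4 [(rhd3458b32566d63f7.shift 3 0), (rhee178fa823ae81ac.shift 0 1)] (by decide +kernel))
noncomputable def rha13754f6eb33dc0e : CRef := CRef.mk (Pat.mk 0x80000000c0000001800000000 0x140000001c0000001c000000080000000f0000001800000010 5 5) 0 0 (step_sound _ 64 [(rhab22b5b56e7b3243.shift 0 1), (rhc0f6fe06378683f4.shift 2 0)] (by decide +kernel))
noncomputable def rh3ec0635caa1baa76 : CRef := CRef.mk (Pat.mk 0x80000000c000000180000000000000000 0x10000000100000001c0000007c0000000f000000180000000800000008 5 7) 0 0 (step_sound _ 97 [(rh51fd590aec06bc9d.shift 1 0), (rhb739f4f82bb681b4.shift 0 2)] (by decide +kernel))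
noncomputable def rhbac3141e0b3750c3 : CRef := CRef.mk (Pat.mk 0x80000000c0000001800000000000000000000000000000000 0x140000003c0000000f0000001c000000180000001c0000001c00000004 5 6) 0 0 (step_sound _ 99 [(rh5a26ed1c01b25f18.shift 2 0), (rh66aaae7f6c35085c.shift 0 3), (rhe286c75f2739cce2.shift 2 2)] (by decide +kernel))
noncomputable def rh95e960a96072856f : CRef := CRef.mk (Pat.mk 0x1e00000006000000000000000000000000 0x80000001f0000003e000000300000001000000010 5 6) 0 0 (step_sound _ 100 [rh99515cbbb29e1be5, (rhe25b0a99195a5d59.shift 1 3)] (by decide +kernel))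
noncomputable def rh7f110563ccbb269f : CRef := CRef.mk (Pat.mk 0x1e000000040000000000000000 0x80000003c0000001f0000000c0000000400000004 5 6) 0 0 (step_sound _ 132 [(rh33e738c4ed385b9f.shift 1 3), rh7f2c75fae2031d85] (by decide +kernel))
noncomputable def rhaa001ed675117efd : CRef := CRef.mk (Pat.mk 0x1e00000014000000000000000000000000 0x80000001f0000001e000000f80000001000000010 5 8) 0 0 (step_sound _ 99 [(rh72b9378abb24c533.shift 1 0), (rhb739f4f82bb681b4.shift 0 3)] (by decide +kernel))
noncomputable def rhddb39b3c8ce76b3c : CRef := CRef.mk (Pat.mk 0x800000007000000020 0xc00000007e00000077 5 8) 0 0 (step_sound _ 35 [(rh428265de8cd3cd2d.shift 3 1), rha87bd76817e3db94] (by decide +kernel))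
noncomputable def rh8d22ed3e08c21069 : CRef := CRef.mk (Pat.mk 0x18000000180000000800000000 0x18000000180000001800000018000000780000001f00000004 5 7) 0 0 (step_sound _ 164 [rh4753896b3fc311d0, (rhee230b994cc8b773.shift 3 1)] (by decide +kernel))
noncomputable def rh257ca5d4f3899d05 : CRef := CRef.mk (Pat.mk 0x180000001800000000000000000000000000000000 0x18000000180000007c0000001f0000000c0000000c00000004 5 7) 0 0 (step_sound _ 99 [rh2e33e16b0d835c56, rh3fc9df38e8c4fd36, (rhea7a1800d6f053bd.shift 3 1)] (by decide +kernel))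
noncomputable def rhe8b4c0c5772c9ceb : CRef := CRef.mk (Pat.mk 0x5800000018000000000000000000000000 0x18000000780000003c0000000f0000000c0000000c 5 7) 0 0 (step_sound _ 98 [(rh361cc68994bd8a63.shift 2 3), rh6963969a66bf111c] (by decide +kernel))
noncomputable def rh56fd1d00872e94b9 : CRef := CRef.mk (Pat.mk 0x80000000c0000000c0000000000000000 0x4000000140000003c0000000f0000000e0000000e0000000e 5 6) 0 0 (step_sound _ 34 [(rh71222050f2c63a3a.shift 2 0), rhf4f4ca8cb51f8632] (by decide +kernel))
noncomputable def rh35306d89836511d6 : CRef := CRef.mk (Pat.mk 0x100000001800000018000000000000000000000000 0x280000003800000038000000380000001f0000001c00000010 5 6) 0 0 (step_sound _ 67 [(rh71222050f2c63a3a.shift 3 1), rhcd2f5ee1337bd89c] (by decide +kernel))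
noncomputable def rhb9c8a4fb0b2dce53 : CRef := CRef.mk (Pat.mk 0x80000000c0000000c000000000000000000000000 0x100000007c0000001f0000000c0000000c0000000c00000008 5 7) 0 0 (step_sound _ 66 [(rh71222050f2c63a3a.shift 2 1), rha7431d9b3a409ba3] (by decide +kernel))
noncomputable def rheb1bf9ec04f8eb84 : CRef := CRef.mk (Pat.mk 0x100000001800000018000000000000000000000000 0x80000001800000018000000380000001f0000001c00000018 5 6) 0 0 (step_sound _ 68 [(rh3cb04db3dd2b6a55.shift 3 0), (rh6582e2731ff9f309.shift 0 1), (rhbdf73b26f73f8159.shift 3 0)] (by decide +kernel))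
noncomputable def rh75fd5cbcc79cfec8 : CRef := CRef.mk (Pat.mk 0x1c00000018000000000000000000000000 0x1000000010000000100000001c0000007f0000003f0000001c0000001c 5 7) 0 0 (step_sound _ 35 [(rh2c7fc7a7cc8a47be.shift 3 0), rhb5a916fa00825fa3, (rhef89e1c3435458e2.shift 2 1)] (by decide +kernel))
noncomputable def rh9d39e5f3efae40c6 : CRef := CRef.mk (Pat.mk 0x40000000c0000000c0000000000000000 0x18000000180000003c0000000f0000007c0000001800000008 5 7) 0 0 (step_sound _ 35 [(rh7b1f1fb55310c477.shift 2 0), (rhda30ab8c50a03cc1.shift 0 1)] (by decide +kernel))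
noncomputable def rhdc054f107d622813 : CRef := CRef.mk (Pat.mk 0x180000001800000000000000000000000000000000 0x18000000180000007c0000001f0000000c0000000c00000004 5 7) 0 0 (step_sound _ 99 [rh2e33e16b0d835c56, (rhea7a1800d6f053bd.shift 3 1)] (by decide +kernel))
noncomputable def rh5fed2e1ad49997f8 : CRef := CRef.mk (Pat.mk 0x1600000014000000040000000000000000 0x400000004000000040000001e000000370000000e0000000e0000000e 5 6) 0 0 (step_sound _ 131 [rh8e20fc30c964a686, (rhe25b0a99195a5d59.shift 1 3)] (by decide +kernel))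
noncomputable def rh412d31662ec03428 : CRef := CRef.mk (Pat.mk 0x16000000140000000400000000 0x600000006000000060000001e000000370000001e0000000a 5 6) 0 0 (step_sound _ 130 [(rh565a0c22519f57e9.shift 1 0), (rh64463e345cf3577a.shift 1 0), (rhe447374c5905966f.shift 0 1)] (by decide +kernel))
noncomputable def rh954ff1137f65da29 : CRef := CRef.mk (Pat.mk 0xb0000000e000000000000000000000000 0x1a0000001a0000000f0000000f0000003e0000000400000004 5 6) 0 0 (step_sound _ 66 [(rhade0f4c81793f68e.shift 1 0), (rhd1ae1bff5cb55b99.shift 0 2)] (by decide +kernel))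
noncomputable def rhaf1b60e597b2a0aa : CRef := CRef.mk (Pat.mk 0x280000000800000018000000000000000000000000 0x2000000028000001ef000000fe000001f70000001400000014 5 9) 0 0 (step_sound _ 101 [(rh00a187acd9599501.shift 2 2), rh1a42fb750919bda2, (rha9fbfd4bb8cf890b.shift 0 3), (rhc05ee89a43f79cc0.shift 2 0)] (by decide +kernel))
noncomputable def rhe9c7b5bfa07779d6 : CRef := CRef.mk (Pat.mk 0xc0000001800000008000000000000000000000000 0x80000000c0000007c0000000f0000000c0000000400000004 5 7) 0 0 (step_sound _ 133 [rhc05efa86ad4d71de, (rhf48373e13d2bc128.shift 2 4)] (by decide +kernel))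
noncomputable def rh96eb9a2323491c23 : CRef := CRef.mk (Pat.mk 0xc000000180000000800000000 0x100000001c0000001c0000000c0000001c0000007c0000000f00000004 5 7) 0 0 (step_sound _ 131 [(rh198560344679c925.shift 2 1), (rh1db71118bee297d0.shift 2 1), rhce6d1b7e5a1e8958] (by decide +kernel))
noncomputable def rhfda3e505779f5ee5 : CRef := CRef.mk (Pat.mk 0x180000001c000000000000000000000000 0x1800000038000000380000001f0000001f0000001c0000001800000018 5 6) 0 0 (step_sound _ 164 [(rh1e309b005ffa1b36.shift 3 1), (rh27c8111cf125e4dd.shift 2 2), rh7ca302a700aa1cc7] (by decide +kernel))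
noncomputable def rh04ad90f6d3481143 : CRef := CRef.mk (Pat.mk 0x5800000018000000080000000000000000 0x8000000280000007c000000f80000001f0000001400000010 5 8) 0 0 (step_sound _ 68 [(rh3cb04db3dd2b6a55.shift 3 0), (rh3f54ce37cb3e86ea.shift 2 0), (rhfba219b2ab1310a3.shift 0 1)] (by decide +kernel))
noncomputable def rhe392c93ec86068d8 : CRef := CRef.mk (Pat.mk 0xb0000000a000000020000000000000000 0x10000000f0000001f0000000f0000001b0000001b0000001100000010 5 5) 0 0 (step_sound _ 163 [(rh0820ca134f82bdac.shift 0 1), rh9765e413c7f50252, (rhabf575676fe0ef70.shift 0 3)] (by decide +kernel))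
noncomputable def rhc6ef82078b091eca : CRef := CRef.mk (Pat.mk 0xc0000003800000000000000000000000000000000 0x140000001c0000001c0000000c0000003c0000000f0000000c0000000c00000004 5 6) 0 0 (step_sound _ 99 [(rh41257688fe926dcc.shift 0 2), (rh43d8dfd721575dfb.shift 2 0), (rh7b24c4ccc068b0b2.shift 2 2), (rhb1a251d9bff81766.shift 2 2), rhc05efa86ad4d71de] (by decide +kernel))
noncomputable def rh9f8b652a100f3c7e : CRef := CRef.mk (Pat.mk 0x400000016000000140000000000000000 0x600000006000000060000001e0000001f0000000700000007 5 5) 0 0 (step_sound _ 65 [(rh18f40e5cb8f23916.shift 0 1), (rh1e309b005ffa1b36.shift 1 0), rh213a7b786dfed213] (by decide +kernel))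
noncomputable def rha10052fc5257b890 : CRef := CRef.mk (Pat.mk 0x40000001600000014000000000000000000000000 0x8000000080000001c0000003c0000001e0000001f000000320000003200000020 5 6) 0 0 (step_sound _ 164 [(rh6e4125656b7f7d4c.shift 1 0), (rh9f2591205204f08d.shift 1 4), (rhcc007f686bc45e0d.shift 1 2), (rheb0c607b2606ccc4.shift 0 1)] (by decide +kernel))
noncomputable def rh3c36e97e9af52106 : CRef := CRef.mk (Pat.mk 0x20000000b0000000a0000000000000000 0x140000001c0000001d0000001f0000000f0000000a0000000a00000002 5 5) 0 0 (step_sound _ 131 [rh3eaff42d940993d3, (rh9548c07d1d1f2a1b.shift 0 1), (rh9f2591205204f08d.shift 0 3)] (by decide +kernel))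
noncomputable def rh461909c4707c3c6b : CRef := CRef.mk (Pat.mk 0x20000000300000002000000000000000000000000 0x500000007000000070000000700000002000000030000000300000001 5 3) 0 0 (step_sound _ 65 [(rh2f7ea2d2c6b43cfc.shift 0 1), rh367118e0bf0473e0, (rhe286c75f2739cce2.shift 0 1)] (by decide +kernel))
noncomputable def rh2a44e9fad9ebc812 : CRef := CRef.mk (Pat.mk 0x40000000600000014000000000000000000000000 0xc0000000e0000000e000000060000001e000000070000000700000004 5 5) 0 0 (step_sound _ 97 [(rh1e309b005ffa1b36.shift 1 1), (rh213a7b786dfed213.shift 0 1), (rh2e14b0001f2cbe5b.shift 1 0)] (by decide +kernel))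
noncomputable def rh51552f8a9183ab46 : CRef := CRef.mk (Pat.mk 0x80000000c000000080000000800000000 0x10000000780000001f000000080000000c00000004 5 7) 0 0 (step_sound _ 2 [(rh79877ebd3ef475dd.shift 2 0), (rhc9613fc5bab58382.shift 0 1)] (by decide +kernel))
noncomputable def rhbce5cde10cf8d518 : CRef := CRef.mk (Pat.mk 0x80000002c0000000800000008 0x40000007c0000003f0000007800000008 5 7) 0 0 (step_sound _ 130 [(rh88b43a8d84fba1ac.shift 0 1), (rhffd04209dc8ea796.shift 2 0)] (by decide +kernel))
noncomputable def rhf56194472b4bd82f : CRef := CRef.mk (Pat.mk 0x80000000c000000080000000800000000 0x100000003c0000001f000000080000000c00000004 5 6) 0 0 (step_sound _ 2 [(rh79877ebd3ef475dd.shift 2 0), (rhee178fa823ae81ac.shift 0 1)] (by decide +kernel))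
noncomputable def rh418013b5fb5083ed : CRef := CRef.mk (Pat.mk 0xc000000080000000800000000 0x140000001c0000003c0000000f0000000c0000000c00000004 5 6) 0 0 (step_sound _ 131 [(rh0fd870c734e6c513.shift 2 0), (rh20966da26a1c2ae8.shift 2 0), (rh20ee5c2c4c3a9878.shift 0 1)] (by decide +kernel))
noncomputable def rhad6fabc2a0220dbd : CRef := CRef.mk (Pat.mk 0x1000000018000000300000000000000000 0x18000000180000001800000038000000ff0000000e00000008 5 8) 0 0 (step_sound _ 67 [(rh15f8768b7548a9ab.shift 0 1), (rh1e309b005ffa1b36.shift 3 0), (rh7478433a598f2371.shift 2 0)] (by decide +kernel))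
noncomputable def rhbd2706f892eec238 : CRef := CRef.mk (Pat.mk 0x1000000018000000300000000000000000 0x1000000038000000ff000000ec00000008 5 8) 0 0 (step_sound _ 70 [rh4ed5ba6aa449e181, (rhf48373e13d2bc128.shift 3 2)] (by decide +kernel))
noncomputable def rh4709c46c8ce1a6a0 : CRef := CRef.mk (Pat.mk 0x1800000028000000080000000800000000 0x640000007c0000003f000000380000001800000010 5 7) 0 0 (step_sound _ 36 [(rh55afc6a59410cf00.shift 3 0), (rh9c50d5389d1c3d10.shift 0 1)] (by decide +kernel))
noncomputable def rh17c93ced454ecc46 : CRef := CRef.mk (Pat.mk 0x14000000040000000e00000000 0x80000001c0000001c000000770000003e00000070 5 7) 0 0 (step_sound _ 36 [(rh35e918dd76851f8c.shift 1 0), (rh8bc0c71ac2706319.shift 1 0), (rhe3060b190bc0bc78.shift 0 1)] (by decide +kernel))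
noncomputable def rh2fd5906129805967 : CRef := CRef.mk (Pat.mk 0x80000001c00000000 0xef0000007e000000e7 5 8) 0 0 (step_sound _ 37 [(rh35e918dd76851f8c.shift 2 0), rh775ca1963e850b80, (rhe3060b190bc0bc78.shift 1 1)] (by decide +kernel))
noncomputable def rh7af4b4c3d9c5275c : CRef := CRef.mk (Pat.mk 0x280000000800000038000000000000000000000000 0x280000002f0000003e000000770000001400000014 5 7) 0 0 (step_sound _ 98 [(rh008b05f4778dc30d.shift 0 2), (rh775ca1963e850b80.shift 0 2), (rh9f5936d71873c73e.shift 1 0), (rhd1474a84c69f0140.shift 1 0)] (by decide +kernel))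
noncomputable def rhf29696c9572200d6 : CRef := CRef.mk (Pat.mk 0x10000000000000001c000000000000000000000000 0x1000000010000000f00000003f000000780000000800000008 5 8) 0 0 (step_sound _ 132 [(rh281c6819542c66e6.shift 3 0), (rh523f9e75314c8231.shift 1 2), (rh5b34634c0415f4c9.shift 1 2), (rh6cf4c37417009e6c.shift 0 1)] (by decide +kernel))
noncomputable def rh33b78da1c6c054ee : CRef := CRef.mk (Pat.mk 0x2000000038000000080000000000000000 0x10000000300000003e000001ff0000006000000060 5 9) 0 0 (step_sound _ 66 [(rh1ed7a3503fa50fc8.shift 0 2), (rhcd1231c8bcf6cca6.shift 1 0), (rheea1a90336e79c71.shift 0 2)] (by decide +kernel))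
noncomputable def rh969284e0ff0cdfe7 : CRef := CRef.mk (Pat.mk 0x140000001c000000040000000000000000 0x1800000018000000380000001f0000001c0000007c0000003800000018 5 7) 0 0 (step_sound _ 164 [(rh281c6819542c66e6.shift 3 0), rhdf712542056dcbf2, (rhfd6c4a10529b1ed4.shift 0 2)] (by decide +kernel))
noncomputable def rhe47d952a79fe1744 : CRef := CRef.mk (Pat.mk 0x2c00000020 0x700000003e00000067 5 7) 0 0 (step_sound _ 36 [rh7654d7b92c96fe12, (rhe25b0a99195a5d59.shift 2 0)] (by decide +kernel))
noncomputable def rhe3ffdbb66193d287 : CRef := CRef.mk (Pat.mk 0x200000002000000028000000000000000000000000 0x2000000020000000700000003e000000370000001000000010 5 7) 0 0 (step_sound _ 100 [(rh281c6819542c66e6.shift 4 0), (rh7f0f728c796044ac.shift 0 2), (rhfafeb437ceb8396d.shift 4 0)] (by decide +kernel))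
noncomputable def rh5ee7c8bee8f700b9 : CRef := CRef.mk (Pat.mk 0x80000000a0000000a000000000000000000000000 0x8000000080000000f0000001e0000003c0000001400000014 5 6) 0 0 (step_sound _ 98 [(rh299a18a9bb09cab4.shift 0 2), rh2d71bfb3e5699952, (rhfafeb437ceb8396d.shift 2 0)] (by decide +kernel))
noncomputable def rhaaf9dda8c616a786 : CRef := CRef.mk (Pat.mk 0xa0000000a0000000a000000000000000000000000 0x80000000b0000001f0000001b000000180000001000000010 5 5) 0 0 (step_sound _ 130 [rh5a8abb721f11b584, (rhd9106766b9ff53c0.shift 0 3)] (by decide +kernel))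
noncomputable def rhddce38f9f23a24d9 : CRef := CRef.mk (Pat.mk 0x200000002c00000008000000000000000000000000 0x20000000200000003f0000007c000000700000005000000050 5 7) 0 0 (step_sound _ 101 [rh71a99b31f0b3148f, (rh9765e413c7f50252.shift 2 0), (rha6816dee951f7ee6.shift 2 3)] (by decide +kernel))
noncomputable def rhad8c421da9855690 : CRef := CRef.mk (Pat.mk 0x280000002c00000008000000000000000000000000 0x300000003c0000002f0000007c000000700000007000000050 5 7) 0 0 (step_sound _ 101 [rh62925bea595f4f3c, (rh63e3e58eda49bb28.shift 2 0), (rh8c25cb665ab79ec0.shift 0 3)] (by decide +kernel))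
noncomputable def rh8100bcdcdfbe39af : CRef := CRef.mk (Pat.mk 0x80000000b00000002000000000000000000000000 0x40000000c0000000c0000000f0000001e0000001c0000001c00000014 5 5) 0 0 (step_sound _ 99 [rh63e3e58eda49bb28, (rh9025223dca583e9f.shift 2 0), rh9765e413c7f50252, (rha6816dee951f7ee6.shift 0 3)] (by decide +kernel))
noncomputable def rh2f1117361e9ccf5f : CRef := CRef.mk (Pat.mk 0x140000001400000014000000000000000000000000 0x1000000014000000360000001e0000001b0000000a0000000a 5 6) 0 0 (step_sound _ 99 [(rh281c6819542c66e6.shift 3 0), rhe42899a825168d95] (by decide +kernel))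
noncomputable def rh061db7b2a2b35c35 : CRef := CRef.mk (Pat.mk 0x140000001400000014000000000000000000000000 0x14000000370000003f0000007b0000002a00000022 5 7) 0 0 (step_sound _ 99 [(rh2d71bfb3e5699952.shift 1 0), (rh5313d5bb1e61521b.shift 1 0), (rh6cf4c37417009e6c.shift 0 1), (rhd117684c4a851b90.shift 0 3), rhe42899a825168d95] (by decide +kernel))
noncomputable def rh84ee30ccd6f96123 : CRef := CRef.mk (Pat.mk 0x200000002000000020000000000000000 0x500000007000000070000000300000006000000060000000600000004 5 3) 0 0 (step_sound _ 161 [(rh29dd5384d80ecb1e.shift 0 1), (rh426f403fa814630c.shift 1 1), rh46baee19951a66e7, (rh7ef5fa5c39f1c762.shift 0 2)] (by decide +kernel))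
noncomputable def rhd2b1fa7631d20976 : CRef := CRef.mk (Pat.mk 0x2800000038000000000000000000000000 0x20000000700000003e0000003e000000770000003000000020 5 7) 0 0 (step_sound _ 98 [(rh008b05f4778dc30d.shift 0 2), (rh06b78c0ccfdc60ed.shift 1 0), (rh2591032a0e7f4182.shift 0 2)] (by decide +kernel))
noncomputable def rh14ca8de9b6eee6bf : CRef := CRef.mk (Pat.mk 0x200000002000000020000000000000000 0x100000007000000070000000600000003000000070000000700000004 5 3) 0 0 (step_sound _ 161 [(rh565a0c22519f57e9.shift 0 1), (rhc9de03f9731897d4.shift 1 0)] (by decide +kernel))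
noncomputable def rh17b4be6885a61418 : CRef := CRef.mk (Pat.mk 0x600000002000000020000000200000000 0x200000003000000030000000700000006000000060000000200000002 5 3) 0 0 (step_sound _ 98 [(rh71222050f2c63a3a.shift 1 0), (rh933f3ac7d57d09d8.shift 0 1)] (by decide +kernel))
noncomputable def rh09514843a9aa0f18 : CRef := CRef.mk (Pat.mk 0x800000028000000080000001800000000 0x8000000380000003f0000003f00000004 5 6) 0 0 (step_sound _ 34 [(rh304d87ae2c9b025c.shift 0 1), (rh932754581e0f4330.shift 2 0)] (by decide +kernel))
noncomputable def rheeb09fa00fbc55f9 : CRef := CRef.mk (Pat.mk 0x200000002000000020000000000000000 0x100000003000000030000000200000007000000070000000700000005 5 3) 0 0 (step_sound _ 161 [(rh565a0c22519f57e9.shift 0 1), (rh8065c10b3cae6218.shift 0 1), rh8cdd36b03d57a2f6, (rhc9ac229b3c77cd55.shift 0 1)] (by decide +kernel))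
noncomputable def rh345b13ef5967ae47 : CRef := CRef.mk (Pat.mk 0x200000002c00000008000000000000000000000000 0x50000000780000002f0000007c000000700000007000000050 5 7) 0 0 (step_sound _ 101 [(rh8c25cb665ab79ec0.shift 0 3), (rhbb71a2bdefaefdd9.shift 2 0)] (by decide +kernel))
noncomputable def rh2f63932790c78224 : CRef := CRef.mk (Pat.mk 0x80000000e00000002000000000000000000000000 0x8000000080000000c0000000f0000003f0000003c0000001c00000008 5 6) 0 0 (step_sound _ 98 [rh1800739925e70673, rh54f173324c8fbc64, (rhcf80391c5046a495.shift 2 1), (rhf91b1398c815afd2.shift 2 1), (rhf9366b6a121593ef.shift 2 1)] (by decide +kernel))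
noncomputable def rh81c56a0d9544826d : CRef := CRef.mk (Pat.mk 0x2000000020000000300000000000000000000000000000000 0x1000000070000000700000006000000070000000300000006000000070000000700000001 5 3) 0 0 (step_sound _ 97 [rh5d80382ac3a74c83, (rhe8915d9db8b9f3f2.shift 0 3), (rhec588a0d7783acc6.shift 1 1)] (by decide +kernel))
noncomputable def rhd1cedaf388bc1d92 : CRef := CRef.mk (Pat.mk 0x800000008000000080000000a00000002 0x100000003c0000001f0000000a0000000a0000000a 5 6) 0 0 (step_sound _ 132 [rh10b53a4369df2a19, (rh2f68792b6b779e96.shift 3 1)] (by decide +kernel))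
noncomputable def rh45a95942c5dee393 : CRef := CRef.mk (Pat.mk 0x800000008000000080000000a0000000200000000 0x110000003f0000001f0000007a0000000f0000000700000005 5 7) 0 0 (step_sound _ 129 [(rh4f4e85fdaf90cebd.shift 0 2), (rh5e7d0c40abc1df04.shift 0 1), rh7c7a6e98feb93269, rhac2dcc15b6e3c552, rhc847af9ef0b4d89b] (by decide +kernel))
noncomputable def rhc934c6d8d8432eec : CRef := CRef.mk (Pat.mk 0x800000008000000080000000a00000000 0x40000001c0000001c0000001800000018000000180000000f00000004 5 5) 0 0 (step_sound _ 34 [(rh377bbcaf27bca18a.shift 0 1), (rh932754581e0f4330.shift 2 0)] (by decide +kernel))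
noncomputable def rh91a7c85b7002c66f : CRef := CRef.mk (Pat.mk 0x800000008000000080000000a00000000 0x100000001c0000001c0000000c00000018000000180000000f00000004 5 5) 0 0 (step_sound _ 34 [(rh932754581e0f4330.shift 2 0), (rh9ec287a3553387b5.shift 0 1)] (by decide +kernel))
noncomputable def rh897463cfa15dcb1c : CRef := CRef.mk (Pat.mk 0x100000001000000010000000140000000400000000 0xa0000003e0000003f000000f40000001e0000000e0000000a 5 8) 0 0 (step_sound _ 130 [(rh7c7a6e98feb93269.shift 1 0), (rh8f04a99bfa8de5f1.shift 2 0), (rhc847af9ef0b4d89b.shift 1 0), (rhd8299dc8e08d911e.shift 0 1), (rhe6b623a08ae6cf88.shift 0 1)] (by decide +kernel))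
noncomputable def rh838c779ec64d8417 : CRef := CRef.mk (Pat.mk 0xc0000000a00000002 0x4000000e70000007e000000ef00000002 5 8) 0 0 (step_sound _ 68 [(rh076be03eb7063320.shift 0 1), rh6393c571f5ee53ef, (rhca1e4df97f377a88.shift 1 1)] (by decide +kernel))
noncomputable def rhc40bfd0042d36510 : CRef := CRef.mk (Pat.mk 0x400000006000000050000000100000000 0x20000000a0000003f0000003e000000070000000500000004 5 6) 0 0 (step_sound _ 129 [(rh1b9584b0a9395bfc.shift 0 1), (rh3cb04db3dd2b6a55.shift 1 0), rhdc76a35d97451798] (by decide +kernel))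
noncomputable def rhefe6899c002f22b0 : CRef := CRef.mk (Pat.mk 0x100000001800000014000000000000000000000000 0x300000003000000030000000380000001f000000300000003000000030 5 6) 0 0 (step_sound _ 99 [(rh743e19cd6045f524.shift 3 0), (rhab2ad169e49f9c5e.shift 0 3)] (by decide +kernel))
noncomputable def rheb384c3e33ffaa6d : CRef := CRef.mk (Pat.mk 0x4000000060000000500000001 0x80000000e0000000e00000006000000060000000700000005 5 4) 0 0 (step_sound _ 129 [(rh41b8be278618af7d.shift 1 1), (rhc17a6a02773cc5f6.shift 1 0), rhfa1fc34e3368307c] (by decide +kernel))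
noncomputable def rh97ce0db3de075214 : CRef := CRef.mk (Pat.mk 0x400000006000000050000000100000000 0x600000006000000060000007f0000003e000000770000000500000004 5 7) 0 0 (step_sound _ 99 [(rh3cb1bfbfbd36a5cf.shift 0 1), rh77e5fdcadba6b29b, (rh992c004d0b4c6565.shift 0 1), (rhca1e4df97f377a88.shift 0 2)] (by decide +kernel))
noncomputable def rh687c63039873ae8f : CRef := CRef.mk (Pat.mk 0x80000000c0000000a00000002 0x100000001c0000001c0000003e0000000f0000000e00000002 5 6) 0 0 (step_sound _ 130 [(rh098da1339c072030.shift 1 0), (rh41b8be278618af7d.shift 2 1), rh5fef8ea25a551133, (rh616c75d1b5542aee.shift 2 1)] (by decide +kernel))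
noncomputable def rh526b442602daf19b : CRef := CRef.mk (Pat.mk 0xc0000000b00000000000000000000000000000000 0x140000001c0000001c0000000c0000000f00000018000000180000001800000010 5 5) 0 0 (step_sound _ 99 [rh9765e413c7f50252, (rhaf10c1251f13c126.shift 0 1), (rhb1a251d9bff81766.shift 2 2), (rhe38fa54d887d7283.shift 0 2)] (by decide +kernel))
noncomputable def rh6637c2d417e93afd : CRef := CRef.mk (Pat.mk 0x300000000c0000000800000000 0xc0000001f0000003c0000000f0000000c00000004 5 6) 0 0 (step_sound _ 99 [(rh1ed7a3503fa50fc8.shift 0 2), rh541160d578a25bcf, rh688fbb54c9d31d63] (by decide +kernel))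
noncomputable def rh66f625005a68d96b : CRef := CRef.mk (Pat.mk 0x38000000280000000800000000 0x54000001ff000000fc000000280000002800000020 5 9) 0 0 (step_sound _ 131 [(rh2e8814637c3f6d46.shift 2 1), (rh4a6763fc05df4462.shift 2 0), (rh53509d91ff78ed56.shift 0 1)] (by decide +kernel))
noncomputable def rh7c5e19c1bdd598ad : CRef := CRef.mk (Pat.mk 0x38000000280000000800000000 0x100000001c0000003e0000003c0000002f0000002c00000024 5 6) 0 0 (step_sound _ 132 [rh0e32f96b4c3f9c68, (rha40d42a2e34c408d.shift 4 0), (rhfa7d9ef1a865136e.shift 3 1)] (by decide +kernel))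
noncomputable def rh4931885e31c86a84 : CRef := CRef.mk (Pat.mk 0x180000001c000000000000000000000000 0x8000000180000001f000000330000001000000010 5 6) 0 0 (step_sound _ 97 [rh2fb7851f2066c386, (rh53b3c253cb0c65f4.shift 0 3)] (by decide +kernel))
noncomputable def rhaaa876b826731793 : CRef := CRef.mk (Pat.mk 0xc0000000e0000000200000000 0xc0000001c0000003c0000003f0000000e0000000a00000008 5 6) 0 0 (step_sound _ 100 [(rh18965a982d73c794.shift 1 2), rh6b11eaf4977d32a2] (by decide +kernel))
noncomputable def rhefc976778ec1d039 : CRef := CRef.mk (Pat.mk 0x28000000080000000800000000 0x140000001c0000001f0000007c0000000c0000000c00000004 5 7) 0 0 (step_sound _ 131 [(rh20966da26a1c2ae8.shift 2 0), (rh565a0c22519f57e9.shift 2 0), (rh7430a052bcb4bacd.shift 0 1)] (by decide +kernel))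
noncomputable def rh47b70e71a978bfd3 : CRef := CRef.mk (Pat.mk 0xa00000003000000000 0xff0000007e0000000f 5 8) 0 0 (step_sound _ 35 [(rhcb00ab67b46fb179.shift 3 1), (rhddb24c61d0a0d35a.shift 2 1), rhe8feadac53402a7a, (rhf4585caa3b13e38a.shift 2 1)] (by decide +kernel))
noncomputable def rh8956e8acdae6d5f7 : CRef := CRef.mk (Pat.mk 0x500000005800000010 0xd80000007f0000003f 5 8) 0 0 (step_sound _ 37 [(rh33e738c4ed385b9f.shift 3 1), rhc31c4fe9fb6ec21a] (by decide +kernel))
noncomputable def rh1d7e87ea04373cfc : CRef := CRef.mk (Pat.mk 0xc000000080000000a000000020000000000000000 0x10000000330000003f0000007f0000000a0000000e0000000c00000004 5 7) 0 0 (step_sound _ 164 [(rh435fb3ef4ac648b4.shift 2 1), (rh4afb4a6b6b4fb2c0.shift 2 0), (rhae8d3f031214eb88.shift 0 2), (rhbb8f4b1bbbe4104d.shift 0 2)] (by decide +kernel))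
noncomputable def rh2142766c34e2b59a : CRef := CRef.mk (Pat.mk 0x20000000200000002000000000000000000000000 0x500000007000000070000000700000002000000070000000700000005 5 3) 0 0 (step_sound _ 65 [rh367118e0bf0473e0, (rh7ef5fa5c39f1c762.shift 0 2), rhcae87bda2c3c01d2] (by decide +kernel))
noncomputable def rh7f6ab7efb1e17b00 : CRef := CRef.mk (Pat.mk 0x8000000080000000a000000000000000000000000 0x100000001800000018000000080000001f0000007c0000001c00000014 5 7) 0 0 (step_sound _ 67 [(rh20966da26a1c2ae8.shift 2 1), (rh3181373a30ceb9e3.shift 2 0), (rhc486ae0fcc44be52.shift 0 1)] (by decide +kernel))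
noncomputable def rhf8860a7a36fae672 : CRef := CRef.mk (Pat.mk 0x200000002800000028000000000000000000000000 0x50000000780000002f0000007c000000700000007000000050 5 7) 0 0 (step_sound _ 130 [(rh8c25cb665ab79ec0.shift 0 3), (rhbb71a2bdefaefdd9.shift 2 0)] (by decide +kernel))
noncomputable def rhfaaeb21c6bc2d8e3 : CRef := CRef.mk (Pat.mk 0x380000000800000008000000000000000000000000 0x40000003f0000003f000000080000000c0000000c00000004 5 6) 0 0 (step_sound _ 162 [(rh0a31c7f562fb8d12.shift 0 4), (rh8f2ec7d8df44323f.shift 2 0), (rha0bb913a2cea44c0.shift 1 1)] (by decide +kernel))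
noncomputable def rh3258025d1b2845d7 : CRef := CRef.mk (Pat.mk 0x1c00000004000000040000000000000000 0x18000000380000001f0000007f0000007e0000001800000018 5 7) 0 0 (step_sound _ 99 [rh4c3f48492504c0f6, (rh56579cb4ede6de45.shift 1 0), (rhb6bf993f3690f076.shift 0 1)] (by decide +kernel))
noncomputable def rh4fa16eef911b784e : CRef := CRef.mk (Pat.mk 0x500000001000000030000000000000000000000000 0x1000000078000001fe000000fe000001cf0000000800000008 5 9) 0 0 (step_sound _ 99 [(rh283f076cb37b8f7e.shift 1 1), (rh3a463f8d3d15292d.shift 1 2), (rh3d164a09ad92dabc.shift 0 2), (rhfafeb437ceb8396d.shift 3 0)] (by decide +kernel))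
noncomputable def rh9e7823bcd1db55b6 : CRef := CRef.mk (Pat.mk 0x280000000800000018000000000000000000000000 0x200000002c000000ff000000fc000001f00000001000000010 5 9) 0 0 (step_sound _ 101 [(rh1aae126fdb0efa1d.shift 2 2), (rh4b2ee0b6c33f07dd.shift 2 0), (rha9fbfd4bb8cf890b.shift 0 3)] (by decide +kernel))
noncomputable def rhb6b4b0239958932e : CRef := CRef.mk (Pat.mk 0x800000008000000080000002c00000000 0x8000000080000003f0000003f00000010 5 6) 0 0 (step_sound _ 36 [(rh55afc6a59410cf00.shift 3 0), (rh915c3ff3d4fe3a39.shift 0 1)] (by decide +kernel))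
noncomputable def rh3471c91cc83da18c : CRef := CRef.mk (Pat.mk 0x800000008000000280000001800000000 0x1000000018000000380000003f0000007c00000064 5 7) 0 0 (step_sound _ 132 [(rh2f68792b6b779e96.shift 3 1), rhe2bb31d199c51480] (by decide +kernel))
noncomputable def rhbabd6c92f46a055d : CRef := CRef.mk (Pat.mk 0x400000004000000140000000000000000 0x60000000600000006000000070000001e0000000e0000000a 5 5) 0 0 (step_sound _ 162 [(rh46baee19951a66e7.shift 1 0), (rh6aa5625770489e83.shift 1 0), (rh73ba6c579e4b229a.shift 0 1), (rh8cdd36b03d57a2f6.shift 1 0)] (by decide +kernel))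
noncomputable def rhcdde53061d8dbd19 : CRef := CRef.mk (Pat.mk 0xc0000001c000000000000000000000000 0xc0000000f0000001e000000780000001800000018 5 7) 0 0 (step_sound _ 129 [(rh9425272e357bb618.shift 1 0), (rhb739f4f82bb681b4.shift 0 3)] (by decide +kernel))
noncomputable def rhe49f6975f221447b : CRef := CRef.mk (Pat.mk 0x60000000e000000000000000000000000 0x40000000400000004000000060000000f0000003e0000000e0000000e 5 6) 0 0 (step_sound _ 162 [(rh1e309b005ffa1b36.shift 1 1), rh44be098787e8a74b, (rh571950d89739e871.shift 1 2)] (by decide +kernel))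
noncomputable def rh02b606b74f1b5350 : CRef := CRef.mk (Pat.mk 0xe0000001c0000000000000000 0xe0000000e0000000f0000003e0000001c0000001c0000000c 5 6) 0 0 (step_sound _ 131 [(rh1e309b005ffa1b36.shift 2 0), (rh571950d89739e871.shift 2 1), rh86ae79a2d69651bb] (by decide +kernel))
noncomputable def rh424456e6eabaa333 : CRef := CRef.mk (Pat.mk 0x60000000e000000040000000000000000 0x4000000060000000f0000003c0000000e0000000e 5 6) 0 0 (step_sound _ 34 [rh0a18afb2ce71feb9, (rh7b1f1fb55310c477.shift 1 0)] (by decide +kernel))
noncomputable def rha4b7d45d0348ec16 : CRef := CRef.mk (Pat.mk 0xc0000001c0000000000000000 0x10000000300000003f0000001f0000000800000008 5 6) 0 0 (step_sound _ 97 [rh1e8aacb127917080, (rhb739f4f82bb681b4.shift 0 2)] (by decide +kernel))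
noncomputable def rh4c9bbc8a26aa0e54 : CRef := CRef.mk (Pat.mk 0x700000006000000000000000000000000 0x30000000f0000001f0000000700000006000000060000000600000002 5 5) 0 0 (step_sound _ 161 [(rh55a1f6c57a317ce6.shift 1 1), (rhd90f969e6ef1815c.shift 0 1), rhfe7da3c073d75bd5] (by decide +kernel))
noncomputable def rh68c442cbe3edabef : CRef := CRef.mk (Pat.mk 0x80000000c000000040000000400000000 0x160000003f0000003f0000000c0000000c00000008 5 6) 0 0 (step_sound _ 130 [rhc49dcbc8b1f304cb, (rhcf85c92937975d4d.shift 0 1)] (by decide +kernel))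
noncomputable def rh008fd92deec061d5 : CRef := CRef.mk (Pat.mk 0x10000000180000002800000008000000000000000000000000 0x240000003e000000780000003f000000f8000000300000003000000010 5 8) 0 0 (step_sound _ 100 [(rh046c5eb18e55a239.shift 3 0), (rh09523eec71061f6e.shift 1 2), (rh3605905534ed8bf2.shift 0 2), (rh80322995f2027d27.shift 2 1)] (by decide +kernel))
noncomputable def rh7e545dc7e7fa5a7e : CRef := CRef.mk (Pat.mk 0x8000000080000000c00000014000000000000000000000000 0x10000000180000001c0000000f0000001c000000180000000800000008 5 5) 0 0 (step_sound _ 99 [(rh55afc6a59410cf00.shift 3 2), rhd901a16037204365] (by decide +kernel))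
noncomputable def rh37dee76bbfc36939 : CRef := CRef.mk (Pat.mk 0x1000000018000000280000000800000000 0x80000000c0000002c0000007f0000001f0000003c0000001800000010 5 7) 0 0 (step_sound _ 131 [(rh0dc52b6080f17e02.shift 0 1), (rh47e31d689c0104b8.shift 0 1), (rhbde193c2d1f6a1f9.shift 2 0), (rhc49dcbc8b1f304cb.shift 1 0)] (by decide +kernel))
noncomputable def rh6ca6c87a7f20f39c : CRef := CRef.mk (Pat.mk 0x1c000000140000000000000000 0x14000000370000007f0000001c0000000800000008 5 7) 0 0 (step_sound _ 67 [(rh0c561658b8646091.shift 1 0), (rh14dd0ea8c9451c4f.shift 0 2), rh8d364617c03d6975] (by decide +kernel))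
noncomputable def rh76bff32e69fdbe68 : CRef := CRef.mk (Pat.mk 0x38000000280000000000000000 0x24000000670000003e0000003f0000001800000018 5 7) 0 0 (step_sound _ 98 [(rh2cc7d62e70c02209.shift 0 2), (rhb9dd680bb9375a9f.shift 1 0), (rhba50fd7aca570c30.shift 1 0)] (by decide +kernel))
noncomputable def rh186503e85448e12f : CRef := CRef.mk (Pat.mk 0x1000000018000000080000000000000000 0x400000004000000ff0000007e0000000f0000000800000008 5 8) 0 0 (step_sound _ 98 [(rh5663699dce542bd2.shift 1 0), (rh57526f0ddb156580.shift 1 0), (rhe381240693a9a415.shift 0 2), (rheb2abe2a51d96bc9.shift 1 0)] (by decide +kernel))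
noncomputable def rh1601952e9405fa83 : CRef := CRef.mk (Pat.mk 0x1000000018000000280000000000000000 0x1000000010000000300000007c0000002f0000002000000020 5 7) 0 0 (step_sound _ 164 [rh556dc3dcfa932690, (rh5c5e593799055d58.shift 3 2)] (by decide +kernel))
noncomputable def rhe044d0d40ead2a65 : CRef := CRef.mk (Pat.mk 0x1c00000010000000000000000000000000 0x800000018000000f80000001f00000018000000380000003800000028 5 8) 0 0 (step_sound _ 164 [(rh2140e04d90a4f0d4.shift 3 0), (rh3e09f998c8e94702.shift 0 1), (rhff7d63dcb3cf9f74.shift 1 4)] (by decide +kernel))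
noncomputable def rh93dc176231d1756d : CRef := CRef.mk (Pat.mk 0x4000000040000001e00000000 0xc0000000c0000001c000000370000001e00000034 5 6) 0 0 (step_sound _ 4 [rhdd310332fe4d3103, (rhe25b0a99195a5d59.shift 1 0)] (by decide +kernel))
noncomputable def rh11e096129a92290c : CRef := CRef.mk (Pat.mk 0x20000000a0000000b0000000000000000 0x10000000140000001e0000001b0000000f0000001e0000001c 5 5) 0 0 (step_sound _ 35 [rh9548c07d1d1f2a1b, (rhabf575676fe0ef70.shift 0 1), rhf2041c15b7c6015c] (by decide +kernel))
noncomputable def rhece945f9f264258b : CRef := CRef.mk (Pat.mk 0x20000000a0000000b000000000000000000000000 0x4000000060000001e0000000b0000001f0000000f00000005 5 5) 0 0 (step_sound _ 130 [(rh18965a982d73c794.shift 0 3), rh98e47a5f9fbd3525] (by decide +kernel))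
noncomputable def rhefba5ff047897f1e : CRef := CRef.mk (Pat.mk 0x20000000a0000000b00000000000000000000000000000000 0x140000001e0000000f0000000f0000001e0000001e0000001400000010 5 5) 0 0 (step_sound _ 99 [rh9765e413c7f50252, (rh9b39567564476cde.shift 0 2), (rha6551dd8cbc150c8.shift 0 1), (rhd7669ad5e58833d0.shift 0 2)] (by decide +kernel))
noncomputable def rh4918c954b324c1ae : CRef := CRef.mk (Pat.mk 0x400000004000000160000000000000000 0x80000000e0000000e0000000c000000070000001e0000000c00000008 5 5) 0 0 (step_sound _ 162 [(rh7adda3dfe9451016.shift 1 2), (rhc9de03f9731897d4.shift 2 0), (rhe1ba4430f80ed85f.shift 0 1)] (by decide +kernel))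
noncomputable def rh6eb6020f7dac5566 : CRef := CRef.mk (Pat.mk 0x40000000400000006000000000000000000000000 0x80000000c0000000c000000070000003e0000000e0000000a 5 6) 0 0 (step_sound _ 66 [(rh1861173042f24e9a.shift 0 1), (rh3181373a30ceb9e3.shift 1 0), (rh32c2123a4016d1a7.shift 1 0), (rhc9de03f9731897d4.shift 2 0)] (by decide +kernel))
noncomputable def rhd74d1cf28f418982 : CRef := CRef.mk (Pat.mk 0x8000000080000002c000000080000000000000000 0x10000000180000000f0000003c0000000c0000000c0000000c 5 6) 0 0 (step_sound _ 34 [(rh79877ebd3ef475dd.shift 2 1), rhe8713864cf84ead4] (by decide +kernel))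
noncomputable def rhe01fdb5129720dba : CRef := CRef.mk (Pat.mk 0xc000000170000000000000000 0x8000000080000001c0000003c000000170000003e00000014 5 6) 0 0 (step_sound _ 131 [(rh429faeeaead9ab43.shift 1 0), rhb5c30dd3513cb37a, (rhf9366b6a121593ef.shift 2 0)] (by decide +kernel))
noncomputable def rh97e9f392fddadc46 : CRef := CRef.mk (Pat.mk 0xe0000000b0000000000000000 0x10000000100000001c0000007c0000000f0000000b0000001e0000001c 5 7) 0 0 (step_sound _ 131 [(rh878c03cc42e824bf.shift 0 1), rhec46091aa7054654, (rhff7d63dcb3cf9f74.shift 0 3)] (by decide +kernel))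
noncomputable def rh1ae6d97d82e71049 : CRef := CRef.mk (Pat.mk 0x4000000060000000400000000 0x20000000e0000000e0000000c00000006000000070000003e0000000a 5 6) 0 0 (step_sound _ 130 [(rh03dfdf12d5937476.shift 1 0), rh1861173042f24e9a, (rhe8915d9db8b9f3f2.shift 1 1)] (by decide +kernel))
noncomputable def rh2a21430a0333921b : CRef := CRef.mk (Pat.mk 0x8000000080000002c00000008 0x140000003f0000007c0000003f00000008 5 7) 0 0 (step_sound _ 98 [(rh50fbb5868c909700.shift 2 0), rh859a4feff0f2e4b2] (by decide +kernel))
noncomputable def rh9ac41c7b0c47146e : CRef := CRef.mk (Pat.mk 0x60000000200000003000000000000000000000000 0x4000000070000000300000003000000030000000300000003 5 3) 0 0 (step_sound _ 65 [(rh2f68792b6b779e96.shift 1 2), rhd1fa8140a3eb151f] (by decide +kernel))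
noncomputable def rhf3a10a720295ba00 : CRef := CRef.mk (Pat.mk 0x300000001000000058000000000000000000000000 0x80000000f000000fe0000001f00000078000000180000001800000008 5 8) 0 0 (step_sound _ 163 [(rh3c854e66629c2f4d.shift 0 2), (rh43d8dfd721575dfb.shift 3 0), rh56eccda6dfe71ba0, (rh9be7016e6c638784.shift 1 3)] (by decide +kernel))
noncomputable def rhed29c90cab06fb9b : CRef := CRef.mk (Pat.mk 0x18000000080000002c00000000 0x1000000010000000f70000007e000001e80000003c00000028 5 9) 0 0 (step_sound _ 101 [(rh248cbf9037404653.shift 1 0), rh4a206907f274b8cb, (rh5c038409da414165.shift 2 0), (rh666bf15668ead765.shift 2 0), (rha2eb5bc710929d51.shift 3 0)] (by decide +kernel))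
noncomputable def rhb59cdcae9e8614cd : CRef := CRef.mk (Pat.mk 0x18000000080000002c00000000 0x1000000010000001f0000000fc000001ef0000003c00000020 5 9) 0 0 (step_sound _ 101 [(rh2820ca9a6c4f41b4.shift 0 2), (rh7c372b0075b9a7d4.shift 2 0), (rhdfe67b24fcc3b045.shift 2 2)] (by decide +kernel))
noncomputable def rhcd98d01d016feabc : CRef := CRef.mk (Pat.mk 0x18000000080000002c000000000000000000000000 0x10000000180000000f0000003c0000000c0000000c0000000c 5 6) 0 0 (step_sound _ 67 [(rh2f68792b6b779e96.shift 3 2), rh6fee4d356eab505b] (by decide +kernel))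
noncomputable def rh7e54647b5776e75d : CRef := CRef.mk (Pat.mk 0x1000000010000000180000001000000000 0x2c0000007f0000003e000000180000001800000008 5 7) 0 0 (step_sound _ 131 [(rh50fbb5868c909700.shift 3 1), rhfd06097de3657795] (by decide +kernel))
noncomputable def rhb7635cea616f6b57 : CRef := CRef.mk (Pat.mk 0xa0000000f000000000000000000000000 0xe0000000e0000000f0000001e0000000c0000000c 5 5) 0 0 (step_sound _ 67 [(rh1cfed990208ac246.shift 1 0), (rhe25b0a99195a5d59.shift 0 2)] (by decide +kernel))
noncomputable def rh52442602df5ec9b3 : CRef := CRef.mk (Pat.mk 0x140000001e0000000000000000 0x10000000f80000001e0000001f0000000800000008 5 8) 0 0 (step_sound _ 99 [(rh53b3c253cb0c65f4.shift 0 2), (rhfb9ac98d85e06407.shift 1 0)] (by decide +kernel))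
noncomputable def rh861f6ca2126d530b : CRef := CRef.mk (Pat.mk 0x80000001800000018000000000000000000000000 0x40000001f0000007800000018000000180000001800000018 5 7) 0 0 (step_sound _ 36 [(rh9e07f76261b05888.shift 3 1), rh9e103c06593ec5db] (by decide +kernel))
noncomputable def rhf7061e030d727cfa : CRef := CRef.mk (Pat.mk 0x1800000018000000000000000000000000 0xc0000000c0000001f0000007c00000018000000180000001800000008 5 7) 0 0 (step_sound _ 163 [rh35d364533695abf1, (rh55a1f6c57a317ce6.shift 3 1), rhc6698dddb94a483d] (by decide +kernel))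
noncomputable def rhbb01e2bc34beb6c8 : CRef := CRef.mk (Pat.mk 0x30000000f0000000000000000 0x18000000180000001f0000000f0000001c00000004 5 5) 0 0 (step_sound _ 35 [rh98c86f3947f6fc11, (rhe25b0a99195a5d59.shift 0 1)] (by decide +kernel))
noncomputable def rh2a80c4925a1e0b63 : CRef := CRef.mk (Pat.mk 0x300000003000000020000000000000000 0x20000000300000003000000070000000700000007 5 3) 0 0 (step_sound _ 33 [rh71db9facc75efbcc, rh7b1f1fb55310c477] (by decide +kernel))
noncomputable def rh8da870b0dce1f50d : CRef := CRef.mk (Pat.mk 0x600000006000000040000000000000000 0x70000000700000007000000070000003e0000000a00000002 5 6) 0 0 (step_sound _ 161 [(rh2145e1d24b96a57e.shift 1 2), rh6cd8d231e43e2c2b] (by decide +kernel))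
noncomputable def rhb16c51e800d2324e : CRef := CRef.mk (Pat.mk 0x18000000180000001000000000 0x100000001c0000001f00000038000000380000003800000028 5 6) 0 0 (step_sound _ 131 [(rh2145e1d24b96a57e.shift 3 1), rh31f643cf5f792477] (by decide +kernel))
noncomputable def rhe9e587dc9f6747bf : CRef := CRef.mk (Pat.mk 0xc0000000c00000008000000000000000000000000 0xc0000000c0000000c0000001f0000007c000000140000001000000010 5 7) 0 0 (step_sound _ 194 [(rh2145e1d24b96a57e.shift 2 3), rh592f8882bea0b18d] (by decide +kernel))
noncomputable def rh36b08682a53f6933 : CRef := CRef.mk (Pat.mk 0x180000001c000000000000000000000000 0x1c0000001c0000003f0000007f0000001c000000100000001000000010 5 7) 0 0 (step_sound _ 195 [(rh93461d238e4ece25.shift 0 3), (rhc98b34074cea9ada.shift 2 0), (rhda6cc5da102e1723.shift 3 2)] (by decide +kernel))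
noncomputable def rh3906f0abd96bc60d : CRef := CRef.mk (Pat.mk 0x1c0000000c 0x770000007e0000000c 5 7) 0 0 (step_sound _ 37 [(rh18965a982d73c794.shift 2 0), (rh61325f73ebf98108.shift 0 1)] (by decide +kernel))
noncomputable def rhf735d29fac840db6 : CRef := CRef.mk (Pat.mk 0x1800000018000000080000000000000000 0xe7000000ff0000001f000000080000000800000008 5 8) 0 0 (step_sound _ 130 [(rh40241bd608e5be1a.shift 2 0), (rh92e1a33d56d48131.shift 0 3), (rhf2c3983630ce55c5.shift 0 3)] (by decide +kernel))
noncomputable def rhf9475b91a432aac6 : CRef := CRef.mk (Pat.mk 0xc0000000c000000040000000000000000 0x8000000180000003c0000000f0000007c0000001800000018 5 7) 0 0 (step_sound _ 163 [(rh5c5e593799055d58.shift 2 2), rhe52b813a96e8d504] (by decide +kernel))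
noncomputable def rhebbd9e599174af8a : CRef := CRef.mk (Pat.mk 0x20000000a0000000b00000000 0x50000000700000007000000020000001a0000000f00000001 5 5) 0 0 (step_sound _ 34 [(rh33e738c4ed385b9f.shift 0 1), rh6c03a9ef5fb89cef] (by decide +kernel))
noncomputable def rhf8398fd5bb0e7605 : CRef := CRef.mk (Pat.mk 0x40000001400000016000000000000000000000000 0xe0000000e0000000e000000370000001e000000040000000400000004 5 6) 0 0 (step_sound _ 99 [(rh33e738c4ed385b9f.shift 1 3), rhbc44cb85ae8936a3] (by decide +kernel))
noncomputable def rh98b0aa21836ed522 : CRef := CRef.mk (Pat.mk 0x40000001400000016000000000000000000000000 0xa0000001e000000370000001e000000060000000600000006 5 6) 0 0 (step_sound _ 66 [(rhbd3e4805ad0ba0fe.shift 1 2), (rhd1fa8140a3eb151f.shift 1 0), rhe0ef281accfd32f5, rhf41b2f66f9284952] (by decide +kernel))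
noncomputable def rhfd72e1fc1ce4bf92 : CRef := CRef.mk (Pat.mk 0x1c000000160000000000000000 0x8000000080000003c0000001f0000001e0000003400000034 5 6) 0 0 (step_sound _ 131 [(rh32f6277f14b47a8f.shift 2 0), rhfd509c89469f441f] (by decide +kernel))
noncomputable def rh42e7a3bb2644f343 : CRef := CRef.mk (Pat.mk 0x18000000080000002800000000 0x1000000014000001f7000000fe000001ef0000002800000020 5 9) 0 0 (step_sound _ 101 [(rh2820ca9a6c4f41b4.shift 0 2), (rh666bf15668ead765.shift 2 0), rhb1a92371935acda1, (rhdfe67b24fcc3b045.shift 2 2)] (by decide +kernel))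
noncomputable def rhc0fed86eb650ef64 : CRef := CRef.mk (Pat.mk 0x20000000a0000000b000000000000000000000000 0x140000001c0000001f0000007a0000000f0000001a0000001800000010 5 7) 0 0 (step_sound _ 163 [rh10864d3af06460a9, (rh2a5ebc2e705f04ba.shift 0 2), (rh4b17d840c77809a2.shift 0 1), (rh61afa6d7bed914c4.shift 0 3), (rh8800f0df3b5b5b2f.shift 0 2)] (by decide +kernel))
noncomputable def rh127c5a2f71b0929a : CRef := CRef.mk (Pat.mk 0x1c000000160000000000000000 0x80000000e0000000f0000001c0000001e0000003600000016 5 6) 0 0 (step_sound _ 131 [(rh32f6277f14b47a8f.shift 2 0), (rhb66ec419a6d128ce.shift 1 0), rhbe253d1426d5780c] (by decide +kernel))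
noncomputable def rhce83bf9c25287c0d : CRef := CRef.mk (Pat.mk 0x8000000180000000c00000000 0x4000000040000000c0000000f0000007c0000000c00000008 5 7) 0 0 (step_sound _ 69 [(rh18965a982d73c794.shift 2 1), rh59d674cd14a69bfd] (by decide +kernel))
noncomputable def rhf47a0945de8ff327 : CRef := CRef.mk (Pat.mk 0x8000000180000000c00000000000000000000000000000000 0x40000000f0000007c0000001c0000000c0000001c0000001c00000010 5 7) 0 0 (step_sound _ 99 [(rh15c5b67713fe7920.shift 0 3), (rh218cd2e070c414fb.shift 2 0), (rh2dd23789115a02f3.shift 2 1), (rh8f4d9ff695ee5bf4.shift 1 2)] (by decide +kernel))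
noncomputable def rhf2ae53d56b9494f7 : CRef := CRef.mk (Pat.mk 0x1c00000018000000000000000000000000 0x18000000180000001c0000001f0000001f000000380000003800000018 5 6) 0 0 (step_sound _ 68 [(rh3cb04db3dd2b6a55.shift 3 0), (rh7e390ac552b7931b.shift 0 1), (rha0f16c71b89af744.shift 2 0)] (by decide +kernel))
noncomputable def rh510d215f94bf1ad4 : CRef := CRef.mk (Pat.mk 0x60000001e0000000000000000 0x10000000300000003e0000001f0000000800000008 5 6) 0 0 (step_sound _ 100 [rh0c2a9b4f6c6bac74, (rh33e738c4ed385b9f.shift 1 2)] (by decide +kernel))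
noncomputable def rh2516c208521c8f72 : CRef := CRef.mk (Pat.mk 0x40000000c0000002c0000000000000000 0x80000000a0000000f0000007c0000003e0000001400000004 5 7) 0 0 (step_sound _ 131 [rh8f1158d9f5036793, (rhea7a1800d6f053bd.shift 2 0), (rhf69f38b0c5454364.shift 1 1)] (by decide +kernel))
noncomputable def rh50d3dc5ae94e107c : CRef := CRef.mk (Pat.mk 0x380000000c000000000000000000000000 0x4000000040000000c0000000f0000003c0000000c0000001c0000001c00000014 5 6) 0 0 (step_sound _ 163 [(rh281c6819542c66e6.shift 2 0), (rh59d674cd14a69bfd.shift 0 2), rh661450a32479ba23, (rhfafeb437ceb8396d.shift 2 0)] (by decide +kernel))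
noncomputable def rhe78ef804fa0f2a92 : CRef := CRef.mk (Pat.mk 0x1400000016000000040000000000000000 0x3000000070000001f0000001e000000060000000600000006 5 5) 0 0 (step_sound _ 129 [(rh3cb04db3dd2b6a55.shift 1 0), rh4fe580567921c623, rh677af051aa1f5729] (by decide +kernel))
noncomputable def rh6c42ba28ef4a4db1 : CRef := CRef.mk (Pat.mk 0xa0000000b00000002000000000000000000000000 0x1000000018000000190000000f0000000f0000001e0000001e0000001600000014 5 5) 0 0 (step_sound _ 99 [(rh0384a59209a8fba2.shift 0 1), rh63e3e58eda49bb28, rh9765e413c7f50252, (rha6816dee951f7ee6.shift 0 3)] (by decide +kernel))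
noncomputable def rhd2e34cd48a5f12a0 : CRef := CRef.mk (Pat.mk 0xa0000000b00000002000000000000000000000000 0xa0000000a0000000f0000001f0000001d0000001d00000014 5 5) 0 0 (step_sound _ 99 [rh3d0074e0c4920811, rh9765e413c7f50252, (rha6816dee951f7ee6.shift 0 3)] (by decide +kernel))
noncomputable def rhb701e857b24dfa22 : CRef := CRef.mk (Pat.mk 0x200000003000000020000000000000000 0x100000003000000030000000200000007000000070000000700000005 5 3) 0 0 (step_sound _ 161 [(rh03dfdf12d5937476.shift 0 1), (rh8065c10b3cae6218.shift 0 1), rh8cdd36b03d57a2f6] (by decide +kernel))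
noncomputable def rhec87619d51f44562 : CRef := CRef.mk (Pat.mk 0x1400000006000000040000000000000000 0x3000000070000001e000000060000000e0000000e0000000e 5 5) 0 0 (step_sound _ 129 [(rh3cb04db3dd2b6a55.shift 1 0), rh677af051aa1f5729, (rh6852947d3e67d303.shift 1 0)] (by decide +kernel))
noncomputable def rhb6d76f1949e69354 : CRef := CRef.mk (Pat.mk 0x3000000018000000100000000000000000 0x80000000e000000ff00000038000000180000001800000018 5 8) 0 0 (step_sound _ 131 [(rh0f936b2c74e7b815.shift 2 2), (rh3cb04db3dd2b6a55.shift 3 0), rh869367879aed35c6] (by decide +kernel))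
noncomputable def rh0048eb3daff65734 : CRef := CRef.mk (Pat.mk 0x300000001800000010 0x8000000ec000000ff0000003800000010 5 8) 0 0 (step_sound _ 70 [rh16cadd6ffe0cbfb4, (rh18965a982d73c794.shift 3 1)] (by decide +kernel))
noncomputable def rh1b55a0f7922d919b : CRef := CRef.mk (Pat.mk 0xe00000004000000140000000000000000 0x700000003e000000770000001c0000001c00000008 5 7) 0 0 (step_sound _ 132 [(rh35e918dd76851f8c.shift 1 3), (rhaf9f2efc81a8312b.shift 0 3), (rhf67f57357ec3317d.shift 1 0)] (by decide +kernel))
noncomputable def rhd53e9ff3997c295f : CRef := CRef.mk (Pat.mk 0xe0000000000000008000000000000000000000000 0x40000001f00000078000000080000001c0000001c00000014 5 7) 0 0 (step_sound _ 131 [(rh8ee80cc30e93a344.shift 0 4), (rhe181d564227a886f.shift 2 0)] (by decide +kernel))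
noncomputable def rhb79f3aaa15ce8a12 : CRef := CRef.mk (Pat.mk 0x40000001c000000100000000000000000 0x1000000018000000780000007f0000001f000000180000001000000010 5 7) 0 0 (step_sound _ 131 [(rh07d7514f30ba6b97.shift 0 2), (rh5d54cb79a67f97ab.shift 3 0), (rha40d42a2e34c408d.shift 3 0), rhd138f889992e00f6] (by decide +kernel))
noncomputable def rh811c7413fb44d53a : CRef := CRef.mk (Pat.mk 0x800000038000000200000000000000000 0x6000000060000001ff0000003e000000300000001000000010 5 9) 0 0 (step_sound _ 130 [(rh7da29d6027ee5864.shift 1 0), (rhc02b3aee7ab87ee1.shift 0 3), (rhdbcea10a0fbe5ba6.shift 0 3)] (by decide +kernel))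
noncomputable def rh9ee03940adeeffaf : CRef := CRef.mk (Pat.mk 0x40000001c0000001400000000000000000000000000000000 0x380000007c0000001c0000001f00000038000000380000003800000020 5 7) 0 0 (step_sound _ 100 [(rh369225b5d41e1569.shift 3 1), (rh53fd21747f61abc9.shift 1 2), (rhd1779d7de7f8215b.shift 3 0), (rhf8cd99bcb550e553.shift 0 1)] (by decide +kernel))
noncomputable def rh712745061989c117 : CRef := CRef.mk (Pat.mk 0x200000002c00000000 0x670000003e00000070 5 7) 0 0 (step_sound _ 36 [rh0d378fd9e8917c5a, (rh33e738c4ed385b9f.shift 2 1)] (by decide +kernel))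
noncomputable def rh523463052a326d03 : CRef := CRef.mk (Pat.mk 0x20000000e000000080000000000000000 0x14000000340000003e0000003f0000000c0000000800000008 5 6) 0 0 (step_sound _ 130 [(rh5d54cb79a67f97ab.shift 2 0), (rha40d42a2e34c408d.shift 2 0), (rhf4ff21b4046eeb56.shift 0 2)] (by decide +kernel))
noncomputable def rh2bfe6bc7491027a2 : CRef := CRef.mk (Pat.mk 0x40000001c000000100000000000000000 0x18000000380000007f0000001f000000180000001800000010 5 7) 0 0 (step_sound _ 131 [(rh5d54cb79a67f97ab.shift 3 0), (rha12e69977f4105a8.shift 0 1), (rha40d42a2e34c408d.shift 3 0), rhbeccb01a9f4ea548] (by decide +kernel))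
noncomputable def rhcbf5323d7a1d9f65 : CRef := CRef.mk (Pat.mk 0x280000002800000008 0x1ff0000007e0000000c 5 9) 0 0 (step_sound _ 36 [(rh3e0b38310ac09007.shift 0 1), (rha11dfd15f08f96e3.shift 2 1), (rhd9106766b9ff53c0.shift 2 0)] (by decide +kernel))
noncomputable def rh96e3f43e851128d4 : CRef := CRef.mk (Pat.mk 0xa0000000a0000000a000000000000000000000000 0x40000000c0000000f0000003e0000000b0000001c0000001c00000014 5 6) 0 0 (step_sound _ 162 [(rh3b97c0bc2615f008.shift 0 3), (rh7b24c4ccc068b0b2.shift 2 2), (rhe181d564227a886f.shift 2 0)] (by decide +kernel))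
noncomputable def rh6445a5d7177f70aa : CRef := CRef.mk (Pat.mk 0x280000002800000020000000000000000000000000 0x100000007c0000002f00000020000000700000007000000050 5 7) 0 0 (step_sound _ 164 [(rh2820ca9a6c4f41b4.shift 0 4), (rhe181d564227a886f.shift 4 0)] (by decide +kernel))
noncomputable def rhc2bb0a36cbcb6566 : CRef := CRef.mk (Pat.mk 0xa0000000a0000000a00000000 0x1000000010000000180000001b0000001f0000000b00000008 5 5) 0 0 (step_sound _ 66 [rh878c03cc42e824bf, (rhd9106766b9ff53c0.shift 0 1)] (by decide +kernel))
noncomputable def rhcba531d762a3d4ae : CRef := CRef.mk (Pat.mk 0x80000002c0000002000000000 0x1000000010000000300000007f0000003f0000002700000020 5 7) 0 0 (step_sound _ 101 [(rh9f2591205204f08d.shift 2 2), rhb76e2ac3c74904c3, (rhd5508566f9334fb1.shift 0 1), (rhe33d9496e10d8eb0.shift 0 2)] (by decide +kernel))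
noncomputable def rh2ad2639e54eb5d5e : CRef := CRef.mk (Pat.mk 0x20000000b0000000a0 0x7c000000fe000000e7 5 8) 0 0 (step_sound _ 35 [(rh1030303f9ea8e103.shift 2 0), (rh47688a8720dc0294.shift 2 0), rh7f0f728c796044ac, (rhcf86d050071af9b3.shift 2 0)] (by decide +kernel))
noncomputable def rh1704b06239b906ad : CRef := CRef.mk (Pat.mk 0x20000000b0000000a000000000000000000000000 0x14000000140000001c0000001e0000000f0000000f0000001c0000001c00000010 5 5) 0 0 (step_sound _ 163 [(rh9548c07d1d1f2a1b.shift 0 2), (rh9f2591205204f08d.shift 0 4), (rhcc007f686bc45e0d.shift 0 2), rhf2c698d992cd426e] (by decide +kernel))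
noncomputable def rh97861f013b154680 : CRef := CRef.mk (Pat.mk 0x80000002c0000002800000000 0x5000000070000000700000007c0000002f0000003c00000030 5 7) 0 0 (step_sound _ 101 [(rhcc007f686bc45e0d.shift 2 0), (rhe33d9496e10d8eb0.shift 0 2), rhe5b64f6e059a641e] (by decide +kernel))
noncomputable def rh2efd04ac38ca2ae0 : CRef := CRef.mk (Pat.mk 0x80000002c00000028000000000000000000000000 0x200000007f0000003e0000003f000000700000003000000020 5 7) 0 0 (step_sound _ 132 [(rh6ee0256c86f8501f.shift 1 0), (rh775ca1963e850b80.shift 0 3), (rha4c1d69345b99268.shift 1 1)] (by decide +kernel))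
noncomputable def rh44fbb1acf25a7478 : CRef := CRef.mk (Pat.mk 0x140000001400000014000000000000000000000000 0x20000000b0000001e0000003700000014000000380000003800000028 5 6) 0 0 (step_sound _ 163 [(rh06be8e5562dc7104.shift 0 3), (rhe181d564227a886f.shift 3 0)] (by decide +kernel))
noncomputable def rhf7ceebac9b75313c : CRef := CRef.mk (Pat.mk 0x280000002800000028 0x44000000c60000007c000001ef00000028 5 9) 0 0 (step_sound _ 68 [(rh06be8e5562dc7104.shift 1 0), (rh2820ca9a6c4f41b4.shift 0 1), (rh89536becce4a9eeb.shift 2 0), (rh8ee80cc30e93a344.shift 2 1)] (by decide +kernel))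
noncomputable def rha328ef791068a517 : CRef := CRef.mk (Pat.mk 0x8000000080000000a000000000000000000000000 0x1000000018000000180000000f0000003c0000001c00000014 5 6) 0 0 (step_sound _ 67 [(rh3181373a30ceb9e3.shift 2 0), (rh32c2123a4016d1a7.shift 2 0), (rh678dbc6f9c9ad34f.shift 0 1), (rhec588a0d7783acc6.shift 3 0)] (by decide +kernel))
noncomputable def rh3923ef907d729c94 : CRef := CRef.mk (Pat.mk 0x80000003800000028000000000000000000000000 0x200000007f0000003e0000003f000000700000003000000020 5 7) 0 0 (step_sound _ 130 [(rh6ee0256c86f8501f.shift 1 0), (rh775ca1963e850b80.shift 0 3), (rha4c1d69345b99268.shift 1 1)] (by decide +kernel))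
noncomputable def rhc3f964830df33a9f : CRef := CRef.mk (Pat.mk 0x18000000080000002800000008 0x40000003f0000007f0000003800000008 5 7) 0 0 (step_sound _ 98 [(rh50fbb5868c909700.shift 2 0), (rhadd5ada196ebe64b.shift 0 1)] (by decide +kernel))
noncomputable def rhbede0049e4a00269 : CRef := CRef.mk (Pat.mk 0x80000002c00000020 0x3f0000003f00000060 5 7) 0 0 (step_sound _ 36 [(rh915c3ff3d4fe3a39.shift 0 1), (rhe25b0a99195a5d59.shift 2 0)] (by decide +kernel))
noncomputable def rh3e00a8eae1c50318 : CRef := CRef.mk (Pat.mk 0x80000002c0000002000000000 0x5000000070000000700000007c0000002f0000007800000050 5 7) 0 0 (step_sound _ 101 [(rh865de6395c50e5f4.shift 2 0), (rhe33d9496e10d8eb0.shift 0 2)] (by decide +kernel))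
noncomputable def rh697a30c69152e704 : CRef := CRef.mk (Pat.mk 0x1c000000100000000000000000 0x8000000380000001f000000300000001000000010 5 6) 0 0 (step_sound _ 97 [rh65d03e622566ecd5, (rhe25b0a99195a5d59.shift 1 2)] (by decide +kernel))
noncomputable def rh2f1a6390daa22edf : CRef := CRef.mk (Pat.mk 0xc0000001c00000010 0x1000000038000000780000007f0000001f00000018 5 7) 0 0 (step_sound _ 99 [(rh2145e1d24b96a57e.shift 3 0), rh976cad1cc05d9822] (by decide +kernel))
noncomputable def rh0467b07075ea43f8 : CRef := CRef.mk (Pat.mk 0xc0000001c000000100000000000000000 0x1000000010000000300000007f0000001f000000180000001000000010 5 7) 0 0 (step_sound _ 129 [(rhb739f4f82bb681b4.shift 0 3), rhcb4e137efa3d4432] (by decide +kernel))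
noncomputable def rh969197837ff5eef8 : CRef := CRef.mk (Pat.mk 0x7000000040000000400000000 0x20000000e0000001e000000070000003e0000000c00000008 5 6) 0 0 (step_sound _ 129 [(rha3df16ea9c8576c8.shift 1 1), (rhc89253ff58c66167.shift 1 1), (rhe072fffdd2fccf38.shift 1 1), rhf5032e926abfd030] (by decide +kernel))
noncomputable def rh1dea96f888b2e2cf : CRef := CRef.mk (Pat.mk 0x70000000400000004000000000000000000000000 0x20000000e0000000e0000000c000000070000003e0000000c0000000e0000000e00000002 5 6) 0 0 (step_sound _ 194 [(rh19762886095df8b6.shift 1 3), (rh426f403fa814630c.shift 2 2), (rh5a26ed1c01b25f18.shift 1 0), (rh6f235c76ee6d9186.shift 0 2)] (by decide +kernel))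
noncomputable def rh116aa588201a7e7d : CRef := CRef.mk (Pat.mk 0x70000000400000000000000000000000000000000 0xa0000000e0000001e000000070000000e0000000e0000000e0000000e00000002 5 5) 0 0 (step_sound _ 98 [(rh1b0e16c6885fbc54.shift 0 2), (rh43d8dfd721575dfb.shift 1 0), (rh7b24c4ccc068b0b2.shift 1 2), (rhb1a251d9bff81766.shift 1 2), (rhfd55a6946499fe93.shift 1 1)] (by decide +kernel))
noncomputable def rh442d3997f8517cfd : CRef := CRef.mk (Pat.mk 0x1800000028000000200000002000000000 0x1f0000003f000000600000002000000020 5 7) 0 0 (step_sound _ 100 [(rh7b1f1fb55310c477.shift 4 0), (rhf2da1b4f900135f1.shift 0 2)] (by decide +kernel))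
noncomputable def rh23409aa44038acb8 : CRef := CRef.mk (Pat.mk 0x20000000a00000008000000080000000800000000 0x5000000070000000f0000007a0000001f0000007f00000011 5 7) 0 0 (step_sound _ 65 [rh5403d84323993bd9, (rh57e7caa9712bfc81.shift 0 1), rh84e8dc9ce9849555, rh9fa1a31ea632b5f9, rhabaa648d2bc9d61c] (by decide +kernel))
noncomputable def rhb904711480570a6a : CRef := CRef.mk (Pat.mk 0xa000000080000000800000008000000000000000000000000 0x40000000f0000001800000018000000180000001c0000001c00000004 5 5) 0 0 (step_sound _ 194 [rh3957dce264fa60e8, (rh50fbb5868c909700.shift 2 3)] (by decide +kernel))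
noncomputable def rhbeaf8c14302a6451 : CRef := CRef.mk (Pat.mk 0xa000000080000000800000008000000000000000000000000 0x40000000f00000018000000180000000c0000001c0000001c00000010 5 5) 0 0 (step_sound _ 194 [rh05d8d916515b7f9c, (rh50fbb5868c909700.shift 2 3)] (by decide +kernel))
noncomputable def rh329b3c6d352ca3b2 : CRef := CRef.mk (Pat.mk 0x20000000a00000008000000080000000800000000 0x5000000070000000f0000007a0000001f0000003f00000005 5 7) 0 0 (step_sound _ 65 [(rh272e7b15b4dbedf4.shift 1 0), rh5403d84323993bd9, (rhc4dfcd1776ed4a77.shift 0 1), rhd70e89b9efa53bbc, rhe725f6ab9e777651] (by decide +kernel))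
noncomputable def rh3134a13106ca9ed3 : CRef := CRef.mk (Pat.mk 0x20000000800000008000000080000000000000000 0x140000001c0000001f0000000c00000018000000180000001800000010 5 5) 0 0 (step_sound _ 163 [(rh46baee19951a66e7.shift 2 0), (rh7182140bdec2c358.shift 0 2), (rh8065c10b3cae6218.shift 2 1), (rhced6d86d2069808b.shift 3 1)] (by decide +kernel))
noncomputable def rh333b25edbfe2cf15 : CRef := CRef.mk (Pat.mk 0xa0000000a000000080000000800000000 0x100000001e0000000f000000080000001c00000014 5 5) 0 0 (step_sound _ 2 [(rh79877ebd3ef475dd.shift 2 0), rhde27a1f8f8f60ef1] (by decide +kernel))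
noncomputable def rheaefef0cf5d84625 : CRef := CRef.mk (Pat.mk 0xa0000000a00000008000000080000000000000000 0x100000001e0000000f000000080000000c0000000c00000004 5 5) 0 0 (step_sound _ 34 [rh1a68cd3d8bb2fa3d, (rh79877ebd3ef475dd.shift 2 1)] (by decide +kernel))
noncomputable def rh1cea9fe1e8541296 : CRef := CRef.mk (Pat.mk 0xa0000000a00000008000000080000000000000000 0x100000001e0000000f00000008000000180000001800000010 5 5) 0 0 (step_sound _ 36 [rh96d2df05ad542e24, (rhd3458b32566d63f7.shift 3 1)] (by decide +kernel))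
noncomputable def rh80f63bb8c84fde5a : CRef := CRef.mk (Pat.mk 0x200000002000000020000000000000000 0x500000007000000070000000600000003000000030000000300000001 5 3) 0 0 (step_sound _ 161 [rh367118e0bf0473e0, (rh565a0c22519f57e9.shift 0 1), (rh7ef5fa5c39f1c762.shift 0 2)] (by decide +kernel))
noncomputable def rh5bffab07da13fcb9 : CRef := CRef.mk (Pat.mk 0x20000000a0000000c0000000000000000 0x2000000ef0000007e000000e700000004 5 8) 0 0 (step_sound _ 68 [(rh1136b81d2c6924ee.shift 1 1), (rh54c49bb299227e8d.shift 0 2), rh91c13f66a23a53b7] (by decide +kernel))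
noncomputable def rh176dcbd130942309 : CRef := CRef.mk (Pat.mk 0x1000000050000000600000004000000000000000000000000 0x40000000500000007000000060000000e0000000e0000000e00000004 5 4) 0 0 (step_sound _ 97 [(rh1e309b005ffa1b36.shift 1 1), (rh4f5da4dafb6dd81a.shift 0 1), (rhccd9e2db9de096f0.shift 1 0)] (by decide +kernel))
noncomputable def rh87354ee8c17b6ebc : CRef := CRef.mk (Pat.mk 0x10000000500000006000000040000000000000000 0x400000005000000070000003e0000003f0000000a00000002 5 6) 0 0 (step_sound _ 65 [(rh1e309b005ffa1b36.shift 1 0), rh4f5da4dafb6dd81a, (rhec56e907becc2124.shift 0 1)] (by decide +kernel))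
noncomputable def rh74b8a6ce6af5fac7 : CRef := CRef.mk (Pat.mk 0x20000000a0000000c00000008000000000000000000000000 0xa000000ee0000007c000000ff0000000c0000000c0000000c 5 8) 0 0 (step_sound _ 132 [(rh1136b81d2c6924ee.shift 1 3), (rh1b1d9d37dc492e4a.shift 1 3), (rh5b16e5ce3dbbe89f.shift 0 1), (rh75a1e88a833e1685.shift 1 0)] (by decide +kernel))
noncomputable def rh09302acfb6af8b93 : CRef := CRef.mk (Pat.mk 0x4000000140000001800000010000000000000000000000000 0x40000001c0000003c0000001f000000380000003800000020 5 6) 0 0 (step_sound _ 67 [(rh0404b21eaea75f03.shift 0 2), (rh24475f7678211b71.shift 3 0), (rh5ddbeed5d869bf16.shift 3 1)] (by decide +kernel))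
noncomputable def rh335aea0e6a441f91 : CRef := CRef.mk (Pat.mk 0xb0000000c000000000000000000000000 0x100000001000000018000000180000000f0000000c0000001c0000001c00000014 5 5) 0 0 (step_sound _ 163 [(rh281c6819542c66e6.shift 2 0), (rh9548c07d1d1f2a1b.shift 0 2), rha8ca8b4e49361e06, (rhfafeb437ceb8396d.shift 2 0)] (by decide +kernel))
noncomputable def rhf090637355124b86 : CRef := CRef.mk (Pat.mk 0x80000000c000000300000000000000000 0x40000000c0000000f0000003c0000001f0000000c 5 6) 0 0 (step_sound _ 67 [rh4bcb18fc14cd73eb, rh9780d53f0790be85, (rhdbcea10a0fbe5ba6.shift 0 2)] (by decide +kernel))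
noncomputable def rhf01c305e1d625049 : CRef := CRef.mk (Pat.mk 0x800000028000000380000000000000000 0x200000002800000028000000fc000001ff00000054 5 9) 0 0 (step_sound _ 35 [(rh157b220518f94713.shift 2 0), rh852e818bc8629e77, (rhb5b09d717d16cd23.shift 2 0)] (by decide +kernel))
noncomputable def rhcd1f5f81db044636 : CRef := CRef.mk (Pat.mk 0x80000002800000038000000000000000000000000 0x240000002c0000002f0000003c0000003e0000001c00000010 5 6) 0 0 (step_sound _ 68 [(rh02a92d1802aaacf6.shift 0 1), (rh45fa90edadfa0251.shift 3 0), (rhcf80391c5046a495.shift 4 0)] (by decide +kernel))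
noncomputable def rh17289b56f292256b : CRef := CRef.mk (Pat.mk 0x10000000700000006000000000000000000000000 0x5000000070000001f0000003e0000000e0000000e 5 6) 0 0 (step_sound _ 99 [rhc48a3281eb030b54, (rhf48373e13d2bc128.shift 0 3)] (by decide +kernel))
noncomputable def rh263d06d0dec5408c : CRef := CRef.mk (Pat.mk 0x800000008000000280000000800000000 0x8000000080000007c0000001f00000014 5 7) 0 0 (step_sound _ 4 [rhc8fd50c44a2112a0, (rhd3458b32566d63f7.shift 3 0)] (by decide +kernel))
noncomputable def rhb7cb20d9174e8968 : CRef := CRef.mk (Pat.mk 0x30000000a0 0xf0000007e000000ff 5 8) 0 0 (step_sound _ 35 [(rh47688a8720dc0294.shift 2 0), rh73c0cb930217bc98, (rhba65360472489f45.shift 2 0), (rhe28dc3223a412fc9.shift 3 0)] (by decide +kernel))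
noncomputable def rh4c45747136d28f51 : CRef := CRef.mk (Pat.mk 0x100000005800000050 0x3f0000007f000000d8 5 8) 0 0 (step_sound _ 37 [rha9552956f48260bb, (rhe25b0a99195a5d59.shift 3 0)] (by decide +kernel))
noncomputable def rhd1cb6d972b22d75f : CRef := CRef.mk (Pat.mk 0x20000000800000008000000080000000000000000 0x140000001c0000001f0000000c0000000c0000000c0000000c00000004 5 5) 0 0 (step_sound _ 163 [(rh20966da26a1c2ae8.shift 2 1), (rh565a0c22519f57e9.shift 2 1), (rh6aa5625770489e83.shift 2 0), (rh7182140bdec2c358.shift 0 2)] (by decide +kernel))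
noncomputable def rh0beb3c2108eb07d6 : CRef := CRef.mk (Pat.mk 0x4000000140000001000000018000000000000000000000000 0x1400000014000000fe0000007e000001e70000002000000020 5 9) 0 0 (step_sound _ 101 [(rh046c5eb18e55a239.shift 4 0), (rh58814482be555a02.shift 0 2), rhcfa445e53599bbf1, (rhd5979d9ced4acd89.shift 2 2)] (by decide +kernel))
noncomputable def rhc683f6e2dd16a214 : CRef := CRef.mk (Pat.mk 0x200000002000000020000000000000000 0x100000003000000030000000200000007000000070000000700000005 5 3) 0 0 (step_sound _ 161 [rh3181373a30ceb9e3, (rh565a0c22519f57e9.shift 0 1), (rh8065c10b3cae6218.shift 0 1), (rhabedd109a9a37101.shift 0 1)] (by decide +kernel))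
noncomputable def rh2c450c43a85b1349 : CRef := CRef.mk (Pat.mk 0x28000000280000002000000000 0x5000000070000000700000007c0000002f0000007800000050 5 7) 0 0 (step_sound _ 66 [(rh865de6395c50e5f4.shift 2 0), (rhe33d9496e10d8eb0.shift 0 2)] (by decide +kernel))
noncomputable def rheebfe330bddc1b28 : CRef := CRef.mk (Pat.mk 0x80000003800000020 0x3f0000003f00000060 5 7) 0 0 (step_sound _ 34 [(rh915c3ff3d4fe3a39.shift 0 1), (rhe25b0a99195a5d59.shift 2 0)] (by decide +kernel))
noncomputable def rh525df8f5ba440f42 : CRef := CRef.mk (Pat.mk 0x40000001c000000100000000000000000 0x18000000380000007f0000001f000000180000001800000010 5 7) 0 0 (step_sound _ 131 [(rh5d54cb79a67f97ab.shift 3 0), (rh7e1098702e50f2b0.shift 3 0), (rha12e69977f4105a8.shift 0 1), (rha40d42a2e34c408d.shift 3 0), rhbeccb01a9f4ea548] (by decide +kernel))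
noncomputable def rha33ea1e0c84ee6c9 : CRef := CRef.mk (Pat.mk 0x80000000800000038000000000000000000000000 0x800000008000000080000007f0000003f000000040000000400000004 5 7) 0 0 (step_sound _ 98 [(rhab0a51944a639071.shift 1 2), (rhc554838dd23febb3.shift 0 3), (rhfafeb437ceb8396d.shift 2 0)] (by decide +kernel))
noncomputable def rhf1562e42b31bda83 : CRef := CRef.mk (Pat.mk 0x4000000040000001c000000000000000000000000 0x100000003e0000007f0000001f000000780000001800000010 5 7) 0 0 (step_sound _ 131 [rh10eb5a1ae8c9a3ff, (rh59ea434ed71c4dba.shift 1 0), (rha27d362d19efe760.shift 0 1)] (by decide +kernel))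
noncomputable def rh171719d6c53bb778 : CRef := CRef.mk (Pat.mk 0x180000000800000028000000000000000000000000 0x4000000e60000007f000000ff0000003c0000000c0000000c00000004 5 8) 0 0 (step_sound _ 162 [(rh091d9d8e8cc09897.shift 2 1), (rh43d8dfd721575dfb.shift 2 0), (rh5165e7b392466a0f.shift 0 3), (rh6b9df646b7babe1b.shift 0 4), (rh8f2ec7d8df44323f.shift 2 0)] (by decide +kernel))
noncomputable def rhdc26450f126b27b1 : CRef := CRef.mk (Pat.mk 0x18000000080000002800000000 0x14000000370000007f000001ff0000003c00000020 5 9) 0 0 (step_sound _ 101 [(rh1dff13e8c6c5d248.shift 2 0), (rh2820ca9a6c4f41b4.shift 0 2), (rhf0f55c4504412200.shift 0 2), (rhf204659dbf618c64.shift 0 1)] (by decide +kernel))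
noncomputable def rhdd52925b4911e132 : CRef := CRef.mk (Pat.mk 0x1e0000000200000000000000000000000000000000 0x400000006000000070000001e0000000600000006000000070000000700000001 5 5) 0 0 (step_sound _ 97 [rh15590a39afd9a120, rhc600a051aff3735c, (rhd8589df49ad97764.shift 0 2), (rhefd63ac50bcd13b7.shift 0 1)] (by decide +kernel))
noncomputable def rhe3a6d8366de560f2 : CRef := CRef.mk (Pat.mk 0xc0000000c000000000000000000000000 0x60000001e0000003e0000000f0000000c0000000c0000000c00000004 5 6) 0 0 (step_sound _ 162 [(rh35e7f72034095f2a.shift 0 1), (rh55a1f6c57a317ce6.shift 2 1), (rhfe7da3c073d75bd5.shift 1 0)] (by decide +kernel))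
noncomputable def rhb71a738820934dfe : CRef := CRef.mk (Pat.mk 0x40000000400000006000000000000000000000000 0x600000006000000070000003e0000000e0000000e 5 6) 0 0 (step_sound _ 66 [(rh1861173042f24e9a.shift 0 1), (rhbd78a571ffa91fb9.shift 1 0), (rhd1fa8140a3eb151f.shift 1 0)] (by decide +kernel))
noncomputable def rh29790a6978369e04 : CRef := CRef.mk (Pat.mk 0x1e00000014000000000000000000000000 0x10000000340000001e0000001f0000000b0000000a00000002 5 6) 0 0 (step_sound _ 99 [(rh34b1188e635efc8d.shift 1 1), rh6b478a440aed82b9] (by decide +kernel))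
noncomputable def rhe674a34dba9086f0 : CRef := CRef.mk (Pat.mk 0x38000000280000000000000000 0x4000000070000003e0000003f0000000800000008 5 6) 0 0 (step_sound _ 98 [(rhb9dd680bb9375a9f.shift 1 0), (rhd1d05263fabc0227.shift 0 2), (rhdceeca65bdd8095a.shift 0 2)] (by decide +kernel))
noncomputable def rh6aff410a8a5d55f8 : CRef := CRef.mk (Pat.mk 0x80000001c00000014 0x800000008000000ff0000007f0000001c 5 8) 0 0 (step_sound _ 99 [(rh2145e1d24b96a57e.shift 3 0), rh8883bfa6082f2254] (by decide +kernel))
noncomputable def rh56be1c3afae74301 : CRef := CRef.mk (Pat.mk 0x680000002800000020000000000000000000000000 0x140000001c0000003c000000680000002f0000007c000000fc0000001400000010 5 8) 0 0 (step_sound _ 99 [rh1bf146767542bce1, (rh1c365c76821ab000.shift 3 1), (rh26fe2cca2b347534.shift 2 1), (rh80a5a644583a2421.shift 2 2)] (by decide +kernel))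
noncomputable def rhd29920124183c3f5 : CRef := CRef.mk (Pat.mk 0x1a0000000a00000008000000000000000000000000 0x150000001f0000001f0000001a0000000b0000001f000000370000000500000004 5 6) 0 0 (step_sound _ 97 [rh0092c88cb1cbef18, (rh31c08fc223b4ad72.shift 0 1), (rh6d22e4af4868beec.shift 0 2), (rh73e0ebf8a9646397.shift 0 1), (rh80a5a644583a2421.shift 0 2)] (by decide +kernel))
noncomputable def rh82b9893c161ac363 : CRef := CRef.mk (Pat.mk 0x280000002c000000080000000000000000 0x8000000080000002c0000002c0000002f0000007c0000001800000018 5 7) 0 0 (step_sound _ 130 [(rh3cb04db3dd2b6a55.shift 2 0), (rhb424b334a045f1ad.shift 2 0), (rhd8f82079b077bfd0.shift 0 1)] (by decide +kernel))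
noncomputable def rhdfdeb10be77c9bf6 : CRef := CRef.mk (Pat.mk 0x28000000080000000800000008000000000000000000000000 0x8000000080000007c0000000f0000007c0000001c0000000c0000000c00000004 5 7) 0 0 (step_sound _ 162 [(rh21be5cb15bc543a6.shift 1 1), (rh24b4f41f846cb1d8.shift 2 1), (rh43d8dfd721575dfb.shift 2 0), (rh7835fbab86a1e33a.shift 0 2), (rh91ad790649044b79.shift 2 1)] (by decide +kernel))
noncomputable def rh1bbe8907fa627e3b : CRef := CRef.mk (Pat.mk 0xa0000000a0000000a000000000000000000000000 0x10000000b0000000b0000001b0000001f0000001700000005 5 5) 0 0 (step_sound _ 65 [rh0c1c1b53bc5a1510, rh3181373a30ceb9e3, rh46baee19951a66e7, (rh6228443e62b344a2.shift 0 1)] (by decide +kernel))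
noncomputable def rhdd95e8f42a68030d : CRef := CRef.mk (Pat.mk 0xa0000000a0000000a000000000000000000000000 0x90000000b0000000b0000001e000000070000000700000005 5 5) 0 0 (step_sound _ 65 [rh0c1c1b53bc5a1510, rh3181373a30ceb9e3, rh46baee19951a66e7, (rhd27cbd481e65015c.shift 0 1)] (by decide +kernel))
noncomputable def rhe02ec5f7610e52b6 : CRef := CRef.mk (Pat.mk 0xe0000000a0000000000000000 0x4000000140000003f0000003f0000000a0000000a0000000a 5 6) 0 0 (step_sound _ 130 [rh1f509f08c24652b8, (rh32f6277f14b47a8f.shift 1 0), (rh7d0322e2c55dccc0.shift 1 0)] (by decide +kernel))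
noncomputable def rh8fec9d524b319db4 : CRef := CRef.mk (Pat.mk 0x100000001e000000100000000000000000 0x1000000030000000380000001f0000001e000000180000001000000010 5 6) 0 0 (step_sound _ 129 [(rh3244c3cc8379b070.shift 0 3), (rhda5cb13dd22b9f12.shift 1 0)] (by decide +kernel))
noncomputable def rhfd1123c2f66fe148 : CRef := CRef.mk (Pat.mk 0x1e00000012000000000000000000000000 0x12000000370000001e0000001e0000000f0000000e00000002 5 6) 0 0 (step_sound _ 98 [(rh38a0850c9fea941e.shift 0 1), rh9ba416347aeaaec1] (by decide +kernel))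
noncomputable def rh7e3108cc4b236cbb : CRef := CRef.mk (Pat.mk 0x80000000c00000008000000080000000000000000 0x80000000c0000001f0000007c0000001c0000000c 5 7) 0 0 (step_sound _ 68 [(rh55afc6a59410cf00.shift 3 1), rhb291fd43d20ffb82] (by decide +kernel))
noncomputable def rh2940458fa65065e4 : CRef := CRef.mk (Pat.mk 0xe000000080000001800000000 0x8000000080000000e0000007e0000007e0000000f 5 7) 0 0 (step_sound _ 34 [(rh1a4a2d7ee39b16f9.shift 2 0), rh6df0d48cd866e1ee, (rha87f555221dfc651.shift 1 1)] (by decide +kernel))
noncomputable def rhda65e32da3cd964e : CRef := CRef.mk (Pat.mk 0x7000000040000000c000000000000000000000000 0x1000000070000007f0000007f0000003f0000000800000008 5 7) 0 0 (step_sound _ 100 [(rh23a83f3bbee323af.shift 1 3), (rhe8ea5f2a637fddf3.shift 1 1), (rhfc80d20c28a26208.shift 1 1), rhfe14d52c2f41572f] (by decide +kernel))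
noncomputable def rhfc88265cc8682823 : CRef := CRef.mk (Pat.mk 0x3000000060000000200000000000000000000000000000000 0x4000000060000000600000003000000070000000700000003000000070000000700000005 5 3) 0 0 (step_sound _ 97 [(rh1f3a6ba70a310ab1.shift 0 1), rh46bfb734f58a0e67, (rhcaf8373d595b08c6.shift 0 2), rhee45040c368f97b1] (by decide +kernel))
noncomputable def rh5ad428eba4eaf175 : CRef := CRef.mk (Pat.mk 0x70000000400000006000000000000000000000000 0x4000000070000003f0000003f000000780000000800000008 5 7) 0 0 (step_sound _ 99 [(rh046c5eb18e55a239.shift 2 0), (rha87f555221dfc651.shift 0 3), (rhd5979d9ced4acd89.shift 0 2)] (by decide +kernel))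
noncomputable def rhb8581b5ad7c99b58 : CRef := CRef.mk (Pat.mk 0xe000000080000000c0000000000000000 0x20000000e0000007e0000007f0000003400000014 5 7) 0 0 (step_sound _ 100 [rh0f42dab1bbd5f0f2, (rh89ade209b3e28f13.shift 1 3), (rhea5ad313ff444aaf.shift 0 2)] (by decide +kernel))
noncomputable def rh62ca34bdfdc13a55 : CRef := CRef.mk (Pat.mk 0x1c00000010000000100000001000000000 0x40000001c0000003c0000007f000000fe0000002c 5 8) 0 0 (step_sound _ 35 [(rh932754581e0f4330.shift 3 0), rhfa794780df422ce4] (by decide +kernel))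
noncomputable def rh3012566c3bbb79e5 : CRef := CRef.mk (Pat.mk 0x20000001e000000100000000000000000 0x30000000340000003e0000001e0000001b0000000a00000002 5 6) 0 0 (step_sound _ 130 [(rh98c86f3947f6fc11.shift 1 1), rh9a011a4d0ec8f646] (by decide +kernel))
noncomputable def rh8690592e0fe5684c : CRef := CRef.mk (Pat.mk 0x80000000800000038000000000000000000000000 0x40000001c0000001c000000380000001f0000001c0000001c 5 6) 0 0 (step_sound _ 67 [(rh6aa5625770489e83.shift 2 0), (rh852e818bc8629e77.shift 0 1), (rhca18712e5e5c7b8f.shift 3 0), (rheacedd262407fad2.shift 2 0)] (by decide +kernel))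
noncomputable def rh53c0cb3afc935472 : CRef := CRef.mk (Pat.mk 0x2800000038000000000000000000000000 0x8000000080000003f0000003e0000006f0000000400000004 5 7) 0 0 (step_sound _ 98 [(rh2cc7d62e70c02209.shift 0 2), (rh3423e5ac208fb65b.shift 1 0), (rhc570c09f7c0268b1.shift 0 2)] (by decide +kernel))
noncomputable def rh5eaf6f42760bc618 : CRef := CRef.mk (Pat.mk 0x1000000070000000200000000000000000 0x1000000017000000fe0000007f0000000800000008 5 8) 0 0 (step_sound _ 99 [(rha87bd76817e3db94.shift 0 2), (rhb2432c16363a7e8d.shift 1 2), (rhb2afcb5db661472f.shift 0 2), (rhce12f85975fbaead.shift 2 0), (rhe14df9863cada929.shift 0 2)] (by decide +kernel))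
noncomputable def rh417f396f014c2c18 : CRef := CRef.mk (Pat.mk 0x8000000280000002c000000000000000000000000 0x280000002f0000003e000000770000001400000014 5 7) 0 0 (step_sound _ 100 [(rh008b05f4778dc30d.shift 0 2), (rh775ca1963e850b80.shift 0 2), (rh9483656c38360087.shift 1 0), (rhd1474a84c69f0140.shift 1 0)] (by decide +kernel))
noncomputable def rh05f3f166ca8ce082 : CRef := CRef.mk (Pat.mk 0x280000003c00000000000000000000000000000000 0x80000000c0000002f0000003f0000001c0000001c0000001c0000001c 5 6) 0 0 (step_sound _ 99 [(rh7db0d62794c563d0.shift 2 0), (rha83956d09585cdd6.shift 0 1), (rhe8ba5e25e7c74702.shift 1 1)] (by decide +kernel))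
noncomputable def rhe793825c4305264c : CRef := CRef.mk (Pat.mk 0x8000000280000000800000000 0x140000001c0000001c000000080000007c0000000f00000004 5 7) 0 0 (step_sound _ 131 [(rh0fd870c734e6c513.shift 2 0), (rhc85cc95794737cf7.shift 2 1), rhc8fd50c44a2112a0] (by decide +kernel))
noncomputable def rh6066dccee6975121 : CRef := CRef.mk (Pat.mk 0x140000001400000014000000000000000000000000 0x1000000014000000340000001f0000003c0000000800000008 5 6) 0 0 (step_sound _ 67 [(rh1c28718a4697e5bc.shift 2 0), (rh34d16bbba8b65d44.shift 0 2), (rhe38ad39d05c44887.shift 2 1)] (by decide +kernel))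
noncomputable def rh699c606416662402 : CRef := CRef.mk (Pat.mk 0x600000016000000000000000000000000 0x20000000200000006000000060000001f000000030000000300000002 5 5) 0 0 (step_sound _ 65 [(rh1d7f01bf6c114563.shift 0 1), (rhea7a1800d6f053bd.shift 1 0)] (by decide +kernel))
noncomputable def rh5bc48682df020515 : CRef := CRef.mk (Pat.mk 0x600000006000000000000000000000000 0x50000000700000007000000070000003e0000000e00000006 5 6) 0 0 (step_sound _ 65 [rh02f204c981718137, rh0b5523572e849cbc, (rhea7a1800d6f053bd.shift 1 0)] (by decide +kernel))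
noncomputable def rh837e5996cf3b8459 : CRef := CRef.mk (Pat.mk 0x2000000060000000200000000000000000000000000000000 0x5000000070000000700000002000000060000000600000007000000070000000700000004 5 3) 0 0 (step_sound _ 97 [rh218cd2e070c414fb, (rh3181373a30ceb9e3.shift 0 1), (rh6c67440462d70ddd.shift 0 1), (rhc2ec0d612c2e04db.shift 0 2)] (by decide +kernel))
noncomputable def rhe85c947c8f2fe00a : CRef := CRef.mk (Pat.mk 0x1000000070000000200000000000000000 0x1000000017000000fe0000007f0000000800000008 5 8) 0 0 (step_sound _ 99 [(rha87bd76817e3db94.shift 0 2), (rhb2432c16363a7e8d.shift 1 2), (rhb2afcb5db661472f.shift 0 2), (rhce12f85975fbaead.shift 2 0)] (by decide +kernel))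
noncomputable def rhb224a2c6f1b5aeb4 : CRef := CRef.mk (Pat.mk 0x2800000028000000280000000000000000 0x140000001c0000001f0000007c00000028000000380000003000000010 5 7) 0 0 (step_sound _ 163 [(rh6db78692e8794ae8.shift 2 1), (rh7430a052bcb4bacd.shift 0 2), (rh7ef5fa5c39f1c762.shift 2 2), (rh98b5e869a127ef67.shift 3 0)] (by decide +kernel))
noncomputable def rh6a922cb14db74f17 : CRef := CRef.mk (Pat.mk 0xa0000000a0000000a0000000000000000 0x500000007000000070000000a0000000a0000000e0000000e00000004 5 4) 0 0 (step_sound _ 161 [(rh96542b57e9ab27d3.shift 1 0), (rhc85cc95794737cf7.shift 0 2)] (by decide +kernel))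
noncomputable def rhe9ae10b1a5d27fc3 : CRef := CRef.mk (Pat.mk 0x400000004000000040000000400000000 0x20000000f0000003e000000040000000400000004 5 6) 0 0 (step_sound _ 129 [rh30e2c5f3463de7af, (rh50fbb5868c909700.shift 1 1)] (by decide +kernel))
noncomputable def rheedf43235c2e54aa : CRef := CRef.mk (Pat.mk 0x1e000000100000000000000000 0x80000003b0000001f000000100000001000000010 5 6) 0 0 (step_sound _ 128 [(rh3f8766e6ecb455ce.shift 0 3), rh65d03e622566ecd5] (by decide +kernel))
noncomputable def rh910ac58a981e3cfe : CRef := CRef.mk (Pat.mk 0x1600000006000000000000000000000000 0x600000006000000070000001f00000007000000020000000200000002 5 5) 0 0 (step_sound _ 65 [rha204e36e9b49fab0, (rhc10d4eb636fb22ff.shift 0 2), (rhea7a1800d6f053bd.shift 1 0)] (by decide +kernel))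
noncomputable def rh60723c6fe03da383 : CRef := CRef.mk (Pat.mk 0x1c0000000c000000000000000000000000 0x60000000e0000000f0000001c0000000c0000000c0000000c0000000c 5 5) 0 0 (step_sound _ 162 [(rh55a1f6c57a317ce6.shift 2 1), rh68a382cc483bbb7d, (rhfe7da3c073d75bd5.shift 1 0)] (by decide +kernel))
noncomputable def rh237f839004404c28 : CRef := CRef.mk (Pat.mk 0x200000002000000020000000000000000 0x500000007000000070000000300000003000000030000000300000001 5 3) 0 0 (step_sound _ 161 [(rh0fd870c734e6c513.shift 0 1), (rh20966da26a1c2ae8.shift 0 1), rh6aa5625770489e83, (rh7ef5fa5c39f1c762.shift 0 2)] (by decide +kernel))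
noncomputable def rh8e75806fa88aba7c : CRef := CRef.mk (Pat.mk 0x8000000280000000800000000 0x140000001c0000001c000000080000007c0000000f00000004 5 7) 0 0 (step_sound _ 131 [(rh0fd870c734e6c513.shift 2 0), (rh20966da26a1c2ae8.shift 2 0), (rh7ef5fa5c39f1c762.shift 2 1), rhc8fd50c44a2112a0] (by decide +kernel))
noncomputable def rh29ca2531e7d42066 : CRef := CRef.mk (Pat.mk 0xe000000080000000c000000000000000000000000 0x200000002000000020000000e0000007f0000003f0000003c0000001800000010 5 7) 0 0 (step_sound _ 97 [(rha4d12035b13e1546.shift 0 1), (rhb37e485dff1e07aa.shift 0 3), rhc32840c774dd7776] (by decide +kernel))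
noncomputable def rhc686395c067e409c : CRef := CRef.mk (Pat.mk 0xe000000080000000c000000000000000000000000 0x80000000e0000007e0000007f000000f00000001000000010 5 8) 0 0 (step_sound _ 100 [(rh046c5eb18e55a239.shift 3 0), (rh33b36fcc1d8f7641.shift 0 1), (rha87f555221dfc651.shift 1 3), (rhd5979d9ced4acd89.shift 1 2)] (by decide +kernel))
noncomputable def rh416b956ccae89216 : CRef := CRef.mk (Pat.mk 0x1c00000010000000100000001000000000 0x40000001c000000180000003c000000ff0000002c 5 8) 0 0 (step_sound _ 35 [(rh932754581e0f4330.shift 3 0), rhe875a7752e08d4bf] (by decide +kernel))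
noncomputable def rh261e3bc3ca08f44d : CRef := CRef.mk (Pat.mk 0x160000001c000000000000000000000000 0xa0000000e0000001e0000003e000000170000001e0000000c0000000c00000008 5 6) 0 0 (step_sound _ 162 [(rh175b5c0467b89afb.shift 0 1), (rh469a9c36feccf72d.shift 0 2), (rha768b229dc254047.shift 2 0), rhdc71f3f410dcf859] (by decide +kernel))
noncomputable def rh78ddd8cf51805ef5 : CRef := CRef.mk (Pat.mk 0x1800000070000000000000000000000000 0x80000001c0000007f0000003e0000001000000010 5 7) 0 0 (step_sound _ 99 [(rh3244c3cc8379b070.shift 2 3), rhff639e83b81c1040] (by decide +kernel))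
noncomputable def rh9c5ead9a9fbff3d6 : CRef := CRef.mk (Pat.mk 0xc0000003800000000000000000000000000000000 0x140000001c0000001c0000000c000000380000001f0000001c0000001c00000014 5 6) 0 0 (step_sound _ 99 [(rh136da48a6dbd44d0.shift 0 2), rh528921958bcedb00, (rhb1a251d9bff81766.shift 2 2), (rhe181d564227a886f.shift 2 0)] (by decide +kernel))
noncomputable def rha0c86a85e724b3ac : CRef := CRef.mk (Pat.mk 0x6000000040000000400000000 0x20000000e0000000e0000003e00000007000000060000000600000002 5 6) 0 0 (step_sound _ 130 [(rh19762886095df8b6.shift 1 1), (rh20966da26a1c2ae8.shift 1 0), (rh565a0c22519f57e9.shift 1 0), (rhd8406b09026060f8.shift 0 1)] (by decide +kernel))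
noncomputable def rh27f511ca6cb401ba : CRef := CRef.mk (Pat.mk 0x5800000050000000000000000000000000 0x180000007c0000007f0000003c0000001800000018 5 7) 0 0 (step_sound _ 99 [(rh9bb455da33111465.shift 2 0), rhbeb2fa530076c156] (by decide +kernel))
noncomputable def rh9e6165d51a3a0d73 : CRef := CRef.mk (Pat.mk 0x1000000038000000080000000000000000 0xc0000001e000000380000001f0000000c0000000c 5 6) 0 0 (step_sound _ 35 [(rh71222050f2c63a3a.shift 3 0), rhe433db8d20030924] (by decide +kernel))
noncomputable def rhb9822be4e4a00d92 : CRef := CRef.mk (Pat.mk 0x1000000038000000280000000000000000 0x100000003c0000003f0000007800000028 5 7) 0 0 (step_sound _ 35 [(rh71222050f2c63a3a.shift 3 0), rhd55e1f9b80c13a7c] (by decide +kernel))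
noncomputable def rhb5c2b6462b8d30ac : CRef := CRef.mk (Pat.mk 0x40000001c00000000 0x60000003e00000077 5 7) 0 0 (step_sound _ 37 [rh008b05f4778dc30d, (rh3244c3cc8379b070.shift 1 1)] (by decide +kernel))
noncomputable def rhcb80f6b135386bca : CRef := CRef.mk (Pat.mk 0x40000001c000000000000000000000000 0x4000000070000003e000000030000000200000002 5 6) 0 0 (step_sound _ 129 [rh5deaed7f1c5b350b, (rhf48373e13d2bc128.shift 1 3)] (by decide +kernel))
noncomputable def rh50c0dce797577b38 : CRef := CRef.mk (Pat.mk 0x1e00000000 0xe0000000ff000000fc 5 8) 0 0 (step_sound _ 37 [(rh3fc3a7fb6866dcd4.shift 2 0), (rh4ad5fc38f1b69f65.shift 1 0), rh4df2b5b5453abb7b] (by decide +kernel))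
noncomputable def rhc944ec8aecff94b9 : CRef := CRef.mk (Pat.mk 0x2800000038000000000000000000000000 0x80000003e0000003e000000770000000400000004 5 7) 0 0 (step_sound _ 98 [(rh2ebbcfe90e0f250d.shift 1 2), (rh4f129d8f37c2c70a.shift 1 0), (rh8195a2d7794c7cd2.shift 0 2)] (by decide +kernel))
noncomputable def rh7d7266a32953fdc7 : CRef := CRef.mk (Pat.mk 0x28000000280000000800000008 0x140000003e0000003f0000000800000008 5 6) 0 0 (step_sound _ 98 [(rh50fbb5868c909700.shift 2 0), rh59af09296d18a4d7] (by decide +kernel))
noncomputable def rhcde9ea51c1d816f3 : CRef := CRef.mk (Pat.mk 0x80000002800000028000000080000000000000000 0x1000000018000000380000003f0000007c0000007400000040 5 7) 0 0 (step_sound _ 68 [rh509dbbb9596d26b6, (rh55afc6a59410cf00.shift 3 1)] (by decide +kernel))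
noncomputable def rh8d2cdcbf4fbcce27 : CRef := CRef.mk (Pat.mk 0x200000002000000020000000000000000 0x400000006000000060000000200000007000000070000000700000005 5 3) 0 0 (step_sound _ 161 [rh3181373a30ceb9e3, (rh402d223d12d7377d.shift 0 1), (rhced6d86d2069808b.shift 1 1)] (by decide +kernel))
noncomputable def rh6d3fef824eae25a9 : CRef := CRef.mk (Pat.mk 0x500000007000000020 0x70000001fe000003bf 5 10) 0 0 (step_sound _ 35 [rh125d4eaf14c79638, (rh2591032a0e7f4182.shift 1 0), (rh3c6494a6ce51d3d4.shift 2 0), (rh4f24b26ce02ae66a.shift 1 0), rh5f1ae710410dd65b] (by decide +kernel))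
noncomputable def rhd0c9416bd38ee36b : CRef := CRef.mk (Pat.mk 0x140000001c00000008000000000000000000000000 0x1c0000001f0000007f000000370000003600000034 5 7) 0 0 (step_sound _ 100 [(rh6292bd8784ece55f.shift 1 3), rh7d5abdbf38d697b9, rh8ddba96098442154] (by decide +kernel))
noncomputable def rhe3880011c4a6d24e : CRef := CRef.mk (Pat.mk 0x2800000038000000100000000000000000 0x800000008000000380000003e0000007f0000000400000004 5 7) 0 0 (step_sound _ 163 [(rh2145e1d24b96a57e.shift 3 2), rh279d4cd391a45f95] (by decide +kernel))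
noncomputable def rhedc71b05c23a1746 : CRef := CRef.mk (Pat.mk 0xf00000000 0x700000003f0000003f 5 7) 0 0 (step_sound _ 4 [rh5e35da67da12d60d, rh96851dee118c1ba3] (by decide +kernel))
noncomputable def rhad2830904f22b624 : CRef := CRef.mk (Pat.mk 0x40000001c000000080000000000000000 0x400000004000000060000001e0000000f0000000200000002 5 5) 0 0 (step_sound _ 162 [(rh2145e1d24b96a57e.shift 2 2), rh4175a9ff196fd1f9] (by decide +kernel))
noncomputable def rhf9fcd6ab17b53276 : CRef := CRef.mk (Pat.mk 0x7800000000 0x1fe0000007f 5 9) 0 0 (step_sound _ 34 [rh008b05f4778dc30d, (rh992f31992592569e.shift 1 0), (rheae1728ff4a56756.shift 1 0)] (by decide +kernel))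
noncomputable def rhde1134cc47f88c8e : CRef := CRef.mk (Pat.mk 0x1e00000000 0xe00000007e000000e7 5 8) 0 0 (step_sound _ 1 [(rhca1e4df97f377a88.shift 1 0), rheb0810cc63b001d8] (by decide +kernel))
noncomputable def rhefe189f26afa68e4 : CRef := CRef.mk (Pat.mk 0x140000001c00000010 0x2c0000003c0000003c000000170000001e0000001e 5 6) 0 0 (step_sound _ 98 [(rh6d721490a3c9e5dd.shift 1 0), (rha8260d8ae5a48311.shift 2 0), rhb0cc2a4486321658, rheaf5453bdfd1db11] (by decide +kernel))
noncomputable def rh20cae81380e2d2a4 : CRef := CRef.mk (Pat.mk 0xa0000000e0000000800000000 0x140000001e0000001e0000000b0000000e0000000c00000004 5 5) 0 0 (step_sound _ 131 [(rh03dfdf12d5937476.shift 2 0), rh5b88f3d5a93875c6, (rh7ef5fa5c39f1c762.shift 2 1)] (by decide +kernel))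
noncomputable def rhef9f25969bf02fb9 : CRef := CRef.mk (Pat.mk 0x80000000a0000001a000000000000000000000000 0x10000000150000003f0000001f0000000b0000001a0000000f0000000700000005 5 6) 0 0 (step_sound _ 161 [rh24e797fe2d505814, rha2ead9223fc6d248, (rhcc7c28e4c9a2f586.shift 0 1), (rhd083fa7a39d54653.shift 0 2)] (by decide +kernel))
noncomputable def rh08fd3225d062c78b : CRef := CRef.mk (Pat.mk 0x80000000a0000001a000000000000000000000000 0x400000005000000370000001f0000000b0000001a0000001f0000001f00000015 5 6) 0 0 (step_sound _ 161 [rh08ff1a9078a560c4, rh8e9bcea9f50c2144, rha2ead9223fc6d248, (rhbfdc31150739eaa1.shift 0 2), (rhcc7c28e4c9a2f586.shift 0 1)] (by decide +kernel))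
noncomputable def rhcda502c60e91dae4 : CRef := CRef.mk (Pat.mk 0x20000000a0000000a000000010000000000000000 0x140000001c0000003e0000001f0000000b0000001e0000001b0000001100000010 5 6) 0 0 (step_sound _ 163 [(rh5322c7650a84dc9c.shift 0 1), rh822c60d64322cb98, (rha952ef69c1428d13.shift 0 1), (rhce75c71b10208671.shift 0 1)] (by decide +kernel))
noncomputable def rh1dfc719e5d411a4a : CRef := CRef.mk (Pat.mk 0x400000004000000140000000400000000 0x40000000600000006000000070000003e0000000600000004 5 6) 0 0 (step_sound _ 129 [(rh50fbb5868c909700.shift 1 1), rh6682f88678f136d8] (by decide +kernel))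
noncomputable def rh65072d6eda033e86 : CRef := CRef.mk (Pat.mk 0x400000014000000140000000400000000 0x7a0000003e000000170000001c0000001c00000008 5 7) 0 0 (step_sound _ 131 [(rh2f68792b6b779e96.shift 2 1), rh5cd859c53bfd3fb4] (by decide +kernel))
noncomputable def rh93d0ba55461319f1 : CRef := CRef.mk (Pat.mk 0x80000000800000038000000000000000000000000 0x40000000c0000000c0000003c0000001f0000001c00000014 5 6) 0 0 (step_sound _ 67 [(rh0c1c1b53bc5a1510.shift 2 0), (rh46baee19951a66e7.shift 2 0), (rh8cdd36b03d57a2f6.shift 2 0), (rhe34c23e651948db8.shift 0 1)] (by decide +kernel))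
noncomputable def rh9052859d4d9b7199 : CRef := CRef.mk (Pat.mk 0x2800000038000000000000000000000000 0x280000002e0000003e000000770000001400000014 5 7) 0 0 (step_sound _ 98 [(rh4f129d8f37c2c70a.shift 1 0), (rh8195a2d7794c7cd2.shift 0 2), (rh9483656c38360087.shift 1 0)] (by decide +kernel))
noncomputable def rha436af02a231ac11 : CRef := CRef.mk (Pat.mk 0xa0000000e000000000000000000000000 0x80000000b0000001f000000380000001000000010 5 6) 0 0 (step_sound _ 100 [(rh3244c3cc8379b070.shift 0 3), rh9bf0be42223291ee] (by decide +kernel))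
noncomputable def rh899b70e3a6ba8a09 : CRef := CRef.mk (Pat.mk 0x1e000000100000000000000000 0x8000000380000001f000000130000001000000010 5 6) 0 0 (step_sound _ 64 [rh65d03e622566ecd5, (rh80fcd6d0a18cb2dd.shift 0 2)] (by decide +kernel))
noncomputable def rhe4e5d13861980637 : CRef := CRef.mk (Pat.mk 0x1e000000100000000000000000 0x10000000300000001f0000001b0000000800000008 5 6) 0 0 (step_sound _ 64 [(rh80fcd6d0a18cb2dd.shift 0 2), rhba50fd7aca570c30] (by decide +kernel))
noncomputable def rh8f85abdc09a07da3 : CRef := CRef.mk (Pat.mk 0x2c00000038000000000000000000000000 0x140000001c0000001c0000001c0000002c0000003c0000001f0000001c00000010 5 6) 0 0 (step_sound _ 163 [(rh4bcb18fc14cd73eb.shift 0 1), (rha768b229dc254047.shift 3 0), (rhc0f6fe06378683f4.shift 2 2), (rhcedb4d37f801a778.shift 2 1)] (by decide +kernel))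
noncomputable def rhb56709839a23492d : CRef := CRef.mk (Pat.mk 0xc000000080000000800000000 0x1c0000001c0000007c0000000f0000000c0000000c00000004 5 7) 0 0 (step_sound _ 131 [(rh0f88566f1a09c677.shift 0 1), (rh1728b446c037fdbd.shift 2 1), (rh565a0c22519f57e9.shift 2 0)] (by decide +kernel))
noncomputable def rhc49626c89a3eb918 : CRef := CRef.mk (Pat.mk 0x16000000140000000000000000 0x200000002000000070000001e000000340000000400000004 5 6) 0 0 (step_sound _ 99 [rhd5889c99d29bf7d6, (rhe25b0a99195a5d59.shift 1 2)] (by decide +kernel))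
noncomputable def rhacd8c296f117c421 : CRef := CRef.mk (Pat.mk 0x1600000014000000000000000000000000 0x2000000070000001f0000001f000000070000000600000002 5 5) 0 0 (step_sound _ 97 [(rh476eccabcfbdd1bd.shift 0 1), rh9bb455da33111465] (by decide +kernel))
noncomputable def rh13294eb4fb4f9c62 : CRef := CRef.mk (Pat.mk 0x1c0000001c0000000000000000 0x2000000030000001f0000001f0000000400000004 5 5) 0 0 (step_sound _ 65 [rh12b3e7d1014f8218, (rh53b3c253cb0c65f4.shift 0 2)] (by decide +kernel))
noncomputable def rh7802c39a3068d457 : CRef := CRef.mk (Pat.mk 0x2800000038000000000000000000000000 0x800000008000000380000003e0000007f0000000400000004 5 7) 0 0 (step_sound _ 98 [(rh2591032a0e7f4182.shift 0 2), (rh2ebbcfe90e0f250d.shift 1 2), (rh3423e5ac208fb65b.shift 1 0), (rh8195a2d7794c7cd2.shift 0 2)] (by decide +kernel))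
noncomputable def rheb148aa76a4b79f6 : CRef := CRef.mk (Pat.mk 0x800000038000000000000000000000000 0x80000000f0000003e000000770000000400000004 5 7) 0 0 (step_sound _ 98 [(rh2ba551de881ca4cd.shift 0 2), (rh4f129d8f37c2c70a.shift 1 0), (rh775ca1963e850b80.shift 0 2), (rh8195a2d7794c7cd2.shift 0 2)] (by decide +kernel))
noncomputable def rh3817154459371c30 : CRef := CRef.mk (Pat.mk 0x4000000040000001c000000000000000000000000 0xa0000000e0000000e0000000e000000070000001e000000070000000200000002 5 5) 0 0 (step_sound _ 97 [(rh1ae4704ae86cb9a8.shift 0 2), rh1e8d6e1ef30e2d92, (rha4a8f3f215245e97.shift 0 2)] (by decide +kernel))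
noncomputable def rh76a7abed70c2c2fd : CRef := CRef.mk (Pat.mk 0x80000000800000038000000000000000000000000 0x40000000c0000000c0000003c0000001f0000001c00000014 5 6) 0 0 (step_sound _ 67 [(rh46baee19951a66e7.shift 2 0), (rh6aa5625770489e83.shift 2 0), (rh8cdd36b03d57a2f6.shift 2 0), (rhe34c23e651948db8.shift 0 1)] (by decide +kernel))
noncomputable def rh72942ba962f6cb3b : CRef := CRef.mk (Pat.mk 0x20000000200000002000000000000000000000000 0x400000006000000060000000200000007000000070000000700000005 5 3) 0 0 (step_sound _ 65 [rh3181373a30ceb9e3, (rh402d223d12d7377d.shift 0 1), (rhced6d86d2069808b.shift 1 1)] (by decide +kernel))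
noncomputable def rh7d833cc8ad8b613a : CRef := CRef.mk (Pat.mk 0x280000002800000028000000000000000000000000 0x2000000028000000780000003e0000001f0000001000000010 5 7) 0 0 (step_sound _ 100 [(rh7f0f728c796044ac.shift 0 2), (rha56f4c4626a53b18.shift 3 0)] (by decide +kernel))
noncomputable def rh663c6a363477d004 : CRef := CRef.mk (Pat.mk 0x3800000020000000000000000000000000 0x5000000070000000770000003e00000030000000700000007000000050 5 7) 0 0 (step_sound _ 165 [(rh055db6938db19010.shift 1 3), (rh2140e04d90a4f0d4.shift 4 0), (rh3e09f998c8e94702.shift 1 1), (rh3e0b38310ac09007.shift 0 4), (rhe75dc8626c525ad9.shift 4 1)] (by decide +kernel))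
noncomputable def rhca4cc60e6440c9ba : CRef := CRef.mk (Pat.mk 0x100000003800000028 0x1000000010000000ff000000fe00000038 5 8) 0 0 (step_sound _ 100 [(rh2145e1d24b96a57e.shift 4 0), rhef943dbdab5b1c48] (by decide +kernel))
noncomputable def rh5323dea0578fde47 : CRef := CRef.mk (Pat.mk 0x400000004000000040000000400000000 0x400000004000000040000003e0000000f00000002 5 6) 0 0 (step_sound _ 33 [(rh932754581e0f4330.shift 1 0), (rha33f0cf6011274ba.shift 0 1)] (by decide +kernel))
noncomputable def rh17d0e2f01dc54128 : CRef := CRef.mk (Pat.mk 0x680000002800000020000000000000000000000000 0x140000001c0000003c000000680000002f0000007c0000003e0000001400000010 5 7) 0 0 (step_sound _ 99 [rh042d685b1079bd65, (rh1c365c76821ab000.shift 3 1), rh5ea34e0a5987e837, (rh80a5a644583a2421.shift 2 2)] (by decide +kernel))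
noncomputable def rh0cf6a206c3664f56 : CRef := CRef.mk (Pat.mk 0x680000002800000020000000000000000000000000 0x540000007c0000007c000000680000002f0000007c0000005e0000001400000010 5 7) 0 0 (step_sound _ 99 [rh042d685b1079bd65, (rh31c08fc223b4ad72.shift 2 1), (rh6d22e4af4868beec.shift 2 2), (rh80a5a644583a2421.shift 2 2)] (by decide +kernel))
noncomputable def rh4e8846cc642b4a24 : CRef := CRef.mk (Pat.mk 0x1400000014000000040000000400000000 0x8000000180000001c000000140000003e0000003f0000002a 5 6) 0 0 (step_sound _ 35 [(rh55afc6a59410cf00.shift 2 0), rha741bfc6d4ee3877] (by decide +kernel))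
noncomputable def rh96ac08f3e4d2f790 : CRef := CRef.mk (Pat.mk 0xc000000080000000800000000 0x40000001c0000001c0000007c0000000f0000000c0000000c00000004 5 7) 0 0 (step_sound _ 131 [(rh0f88566f1a09c677.shift 0 1), (rh19762886095df8b6.shift 2 1), (rh565a0c22519f57e9.shift 2 0)] (by decide +kernel))
noncomputable def rhd31751788e163ec1 : CRef := CRef.mk (Pat.mk 0x80000000800000038000000000000000000000000 0x40000000c0000000c000000380000001f0000001c00000014 5 6) 0 0 (step_sound _ 67 [(rh0c1c1b53bc5a1510.shift 2 0), (rh46baee19951a66e7.shift 2 0), (rh852e818bc8629e77.shift 0 1)] (by decide +kernel))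
noncomputable def rh3b017ab2cd1ceb67 : CRef := CRef.mk (Pat.mk 0x800000004000000040000001400000000 0xc0000000c00000004000000070000003e00000002 5 6) 0 0 (step_sound _ 130 [(rh2f68792b6b779e96.shift 2 1), rh64d324585ca865ad] (by decide +kernel))
noncomputable def rh40fc3cf085d4bd79 : CRef := CRef.mk (Pat.mk 0x8000000080000003800000000 0x140000001c0000001c0000001c0000000f0000003e0000000f 5 6) 0 0 (step_sound _ 34 [(rh1ae4704ae86cb9a8.shift 1 0), rh775ca1963e850b80, (rha4a8f3f215245e97.shift 1 0)] (by decide +kernel))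
noncomputable def rhd5319de26e5240b4 : CRef := CRef.mk (Pat.mk 0x80000000800000038000000000000000000000000 0x1c0000001c0000001c0000000f0000003e0000000f0000000800000008 5 6) 0 0 (step_sound _ 98 [(rh1ae4704ae86cb9a8.shift 1 2), (rh775ca1963e850b80.shift 0 2), (rhbc44cb85ae8936a3.shift 1 0)] (by decide +kernel))
noncomputable def rh2d8f96205aef0b5c : CRef := CRef.mk (Pat.mk 0x1000000070000000200000000000000000 0x1000000017000000fe0000007e0000000800000008 5 8) 0 0 (step_sound _ 99 [(rhb2432c16363a7e8d.shift 1 2), (rhb2afcb5db661472f.shift 0 2), (rhce12f85975fbaead.shift 2 0)] (by decide +kernel))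
noncomputable def rh349da3375a2b01e5 : CRef := CRef.mk (Pat.mk 0x4000000040000001c000000000000000000000000 0xe0000000e0000000e000000070000001e000000070000000600000006 5 5) 0 0 (step_sound _ 97 [(rh1ae4704ae86cb9a8.shift 0 2), rh1e8d6e1ef30e2d92, rhbc44cb85ae8936a3] (by decide +kernel))
noncomputable def rhf61e8a3b132720e9 : CRef := CRef.mk (Pat.mk 0x7000000040000000400000000 0x80000000e0000001e000000070000003e0000000c00000008 5 6) 0 0 (step_sound _ 130 [(rh4017de503635a93b.shift 0 1), rh6f235c76ee6d9186, (rhced6d86d2069808b.shift 2 0)] (by decide +kernel))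
noncomputable def rh2b2f6eab3094ca4f : CRef := CRef.mk (Pat.mk 0xc0000003800000000000000000000000000000000 0x140000001c0000001c0000000c0000003c0000001f0000001c0000001c00000014 5 6) 0 0 (step_sound _ 99 [rh001bd19b90e29369, (rh136da48a6dbd44d0.shift 0 2), (rh43d8dfd721575dfb.shift 2 0), (rhd1779d7de7f8215b.shift 2 0)] (by decide +kernel))
noncomputable def rh56fa0f4d2c9da9fa : CRef := CRef.mk (Pat.mk 0x20000000200000006000000000000000000000000 0x500000007000000070000000700000006000000030000000300000003 5 3) 0 0 (step_sound _ 65 [rh6aa5625770489e83, (rhc85cc95794737cf7.shift 0 2), rheacedd262407fad2] (by decide +kernel))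
noncomputable def rhade5efeb5882dd7f : CRef := CRef.mk (Pat.mk 0x2800000038000000000000000000000000 0x80000003f0000003e000000770000000400000004 5 7) 0 0 (step_sound _ 98 [(rh008b05f4778dc30d.shift 0 2), (rh4f129d8f37c2c70a.shift 1 0), (rhc570c09f7c0268b1.shift 0 2)] (by decide +kernel))
noncomputable def rh0b2284982e410b65 : CRef := CRef.mk (Pat.mk 0x280000002c000000000000000000000000 0x800000008000000380000003e0000007f0000000400000004 5 7) 0 0 (step_sound _ 100 [(rh008b05f4778dc30d.shift 0 2), (rh2ebbcfe90e0f250d.shift 1 2), (rh3423e5ac208fb65b.shift 1 0)] (by decide +kernel))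
noncomputable def rh5b3397f2c9f35fc7 : CRef := CRef.mk (Pat.mk 0x280000002c000000000000000000000000 0x80000003f0000003e000000770000000400000004 5 7) 0 0 (step_sound _ 100 [(rh008b05f4778dc30d.shift 0 2), (rh4f129d8f37c2c70a.shift 1 0), (rhc570c09f7c0268b1.shift 0 2)] (by decide +kernel))
noncomputable def rhd83d7c27dcb6fd73 : CRef := CRef.mk (Pat.mk 0x140000001c000000080000000000000000 0x80000001c0000007f0000007f0000001c0000001c 5 7) 0 0 (step_sound _ 35 [(rh71222050f2c63a3a.shift 3 0), rhbd9e68449fc24ea8] (by decide +kernel))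
noncomputable def rha618f2f0ae83a98f : CRef := CRef.mk (Pat.mk 0xa0000000a000000020000000200000000 0x50000000f0000001a000000020000000700000005 5 5) 0 0 (step_sound _ 0 [rh79877ebd3ef475dd, rhbf6beef8440e57ca] (by decide +kernel))
noncomputable def rhd45e0e6a18a75442 : CRef := CRef.mk (Pat.mk 0x2800000038000000000000000000000000 0x800000008000000380000007e000000ff0000001000000010 5 8) 0 0 (step_sound _ 68 [(rh2734157314de9e95.shift 0 2), (rhade0f4c81793f68e.shift 3 0), (rhbe707112c53dab40.shift 3 0)] (by decide +kernel))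
noncomputable def rh38bd857cc2c92910 : CRef := CRef.mk (Pat.mk 0x200000002000000020000000000000000 0x500000007000000070000000300000003000000030000000300000001 5 3) 0 0 (step_sound _ 161 [(rh20966da26a1c2ae8.shift 0 1), (rh565a0c22519f57e9.shift 0 1), rh6aa5625770489e83, (rhc85cc95794737cf7.shift 0 2)] (by decide +kernel))
noncomputable def rha27c7b7a60446304 : CRef := CRef.mk (Pat.mk 0x2000000020000000200000000 0x5000000070000000700000007000000030000000300000003 5 3) 0 0 (step_sound _ 129 [rh20966da26a1c2ae8, rh565a0c22519f57e9, rhc095807b70b89e70, (rhc85cc95794737cf7.shift 0 1)] (by decide +kernel))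
noncomputable def rh3c8cec96c10b750a : CRef := CRef.mk (Pat.mk 0x2000000030000000200000000000000000000000000000000 0x5000000070000000700000002000000030000000300000007000000070000000700000001 5 3) 0 0 (step_sound _ 97 [rh5a26ed1c01b25f18, (rh8cdd36b03d57a2f6.shift 0 1), (rhcc935990d76b4797.shift 0 1), (rhecbd96f9e94bfd4d.shift 0 2)] (by decide +kernel))
noncomputable def rh8e416247a2c6c4eb : CRef := CRef.mk (Pat.mk 0x140000001400000004000000000000000000000000 0x1000000014000000140000003f0000003f0000000e0000000a0000000a 5 6) 0 0 (step_sound _ 99 [(rh70e33bfdf511e144.shift 2 0), rh7457e5f04df56b3e, (rh785abe9e3c140815.shift 0 1)] (by decide +kernel))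
noncomputable def rh915b733dc6d50734 : CRef := CRef.mk (Pat.mk 0x200000002000000020000000000000000 0x500000007000000070000000200000003000000070000000700000005 5 3) 0 0 (step_sound _ 161 [(rh565a0c22519f57e9.shift 0 1), rh8cdd36b03d57a2f6, (rhc85cc95794737cf7.shift 0 2)] (by decide +kernel))
noncomputable def rh8f71c0f2fc6b7d07 : CRef := CRef.mk (Pat.mk 0x8000000280000000800000000 0x140000001c0000001c000000080000007c0000000f00000004 5 7) 0 0 (step_sound _ 131 [(rh20966da26a1c2ae8.shift 2 0), (rh565a0c22519f57e9.shift 2 0), (rhc85cc95794737cf7.shift 2 1), rhc8fd50c44a2112a0] (by decide +kernel))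
noncomputable def rh4ab2c9ca1ce0a837 : CRef := CRef.mk (Pat.mk 0x2800000038000000000000000000000000 0x280000002f0000003e000000770000001400000014 5 7) 0 0 (step_sound _ 98 [(rh008b05f4778dc30d.shift 0 2), (rh4f129d8f37c2c70a.shift 1 0), (rh775ca1963e850b80.shift 0 2), (rh9483656c38360087.shift 1 0)] (by decide +kernel))
noncomputable def rh15f59d26e56129ed : CRef := CRef.mk (Pat.mk 0x70000000400000000000000000000000000000000 0xe0000001e000000070000000e0000000e0000000e0000000e0000000a 5 5) 0 0 (step_sound _ 98 [(rh369225b5d41e1569.shift 1 1), (rh406bfc4f631a2f4f.shift 1 0), (rh43d8dfd721575dfb.shift 1 0), (rh7b24c4ccc068b0b2.shift 1 2), (rhdd000bd3a041bb63.shift 0 2)] (by decide +kernel))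
noncomputable def rhb5f847b125dc7a23 : CRef := CRef.mk (Pat.mk 0xc000000040000000c0000000c 0x320000003e000000370000001c0000000c 5 6) 0 0 (step_sound _ 97 [rh0dde11880d4cbd12, (rh50fbb5868c909700.shift 1 0)] (by decide +kernel))
noncomputable def rhbdb6460e9602b732 : CRef := CRef.mk (Pat.mk 0x1c000000000000000800000008 0x770000003e000000700000001800000008 5 7) 0 0 (step_sound _ 97 [(rh1fbc9fee05401eba.shift 1 0), (rhb18e6c78a554867d.shift 0 3), (rhe401600d466b97cd.shift 0 2)] (by decide +kernel))
noncomputable def rh5b9e8eb8067551ff : CRef := CRef.mk (Pat.mk 0x90000000e00000004 0xa0000001e0000000f0000001e00000004 5 5) 0 0 (step_sound _ 65 [rh22ce94ecd5d4e492, (rhf48373e13d2bc128.shift 0 1)] (by decide +kernel))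
noncomputable def rhf8d322467fcc9522 : CRef := CRef.mk (Pat.mk 0x38000000000000001000000030 0x770000003e000000670000003000000030 5 7) 0 0 (step_sound _ 98 [(rh1fbc9fee05401eba.shift 2 0), (rh3282381855f37c72.shift 1 0), (rh592c7139d2c44767.shift 0 2), (rh7654d7b92c96fe12.shift 0 2)] (by decide +kernel))
noncomputable def rhae8f7fee462ac9ae : CRef := CRef.mk (Pat.mk 0x1c00000000 0xff0000007e000000e0 5 8) 0 0 (step_sound _ 37 [(rh3947d1dfff0afc6c.shift 1 0), (rh3fc3a7fb6866dcd4.shift 2 0), (rh4c622fddc53a5f99.shift 0 1)] (by decide +kernel))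
noncomputable def rhb06c8efa7c6e06b2 : CRef := CRef.mk (Pat.mk 0x38000000000000001000000030 0x3f0000007e000000e70000003000000030 5 8) 0 0 (step_sound _ 98 [(rh4dfe14e1416680c8.shift 2 0), (rh592c7139d2c44767.shift 0 2), (rhe401600d466b97cd.shift 1 2)] (by decide +kernel))
noncomputable def rh32577a4bf16acdf4 : CRef := CRef.mk (Pat.mk 0x80000000e000000180000001800000000 0x40000000c0000000e0000001a0000001f00000007 5 5) 0 0 (step_sound _ 34 [rh1a76b0d418dca194, (rh932754581e0f4330.shift 2 0)] (by decide +kernel))
noncomputable def rha7f321bc4d5814ed : CRef := CRef.mk (Pat.mk 0xc00000008000000180000000000000000 0x40000000c000000080000007c0000000f00000004 5 7) 0 0 (step_sound _ 35 [(rh50fbb5868c909700.shift 2 1), rhb0de455c382c5b1c] (by decide +kernel))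
noncomputable def rha365a36299ab641e : CRef := CRef.mk (Pat.mk 0x40000000e0000000b0000000200000000 0x2000000060000000e0000000b0000001f0000000d 5 5) 0 0 (step_sound _ 35 [(rh7b1f1fb55310c477.shift 2 0), rh873152f5c63c9e04] (by decide +kernel))
noncomputable def rh69ec16394c7dea1b : CRef := CRef.mk (Pat.mk 0x40000000c000000180000000200000000 0x80000000c0000000c000000180000001f0000001c 5 5) 0 0 (step_sound _ 35 [rh07752f073a06aa96, (rh7b1f1fb55310c477.shift 2 0)] (by decide +kernel))
noncomputable def rh6913575f5e5daef5 : CRef := CRef.mk (Pat.mk 0x380000002c00000020000000000000000000000000 0x20000000380000002f0000007c000000300000001000000010 5 7) 0 0 (step_sound _ 129 [(rh53b3c253cb0c65f4.shift 0 4), (rh60759b5854f3d841.shift 1 0)] (by decide +kernel))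
noncomputable def rh3e73e7aa93286446 : CRef := CRef.mk (Pat.mk 0x1c00000018 0x700000003f0000001f 5 7) 0 0 (step_sound _ 33 [rh3b00e9e9432b8f40, rhb739f4f82bb681b4] (by decide +kernel))
noncomputable def rh2a0831f7db847ed3 : CRef := CRef.mk (Pat.mk 0x1e0000001c000000000000000000000000 0x380000001e0000001f000000300000001000000010 5 6) 0 0 (step_sound _ 97 [(rh7e3d16edcf9d3120.shift 1 0), (rheb0810cc63b001d8.shift 0 3)] (by decide +kernel))
noncomputable def rh72489930c198b542 : CRef := CRef.mk (Pat.mk 0x80000000a000000080000000c 0x8000000080000003b0000003f0000000f 5 6) 0 0 (step_sound _ 34 [(rh5c5e593799055d58.shift 2 0), rhe948e8586d69721e] (by decide +kernel))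
noncomputable def rh5af475dee2943e97 : CRef := CRef.mk (Pat.mk 0x40000000c0000000e000000000000000000000000 0x40000000c0000007e000000770000000200000002 5 7) 0 0 (step_sound _ 100 [(rh0cb6a409506b34ea.shift 1 2), rh1e8d6e1ef30e2d92, rhf8100281cd1d133e] (by decide +kernel))
noncomputable def rh957e3bb4c843b184 : CRef := CRef.mk (Pat.mk 0x400000006000000040000000400000000 0x400000004000000060000003c0000000f0000000a 5 6) 0 0 (step_sound _ 35 [rh1b87edc82f705b7b, (rh55afc6a59410cf00.shift 2 0)] (by decide +kernel))
noncomputable def rh87479c6a08847ac3 : CRef := CRef.mk (Pat.mk 0x400000004000000040000000a00000000 0x400000004000000040000007c0000001f00000002 5 7) 0 0 (step_sound _ 34 [(rh932754581e0f4330.shift 1 0), (rhebedeba8ef332487.shift 0 1)] (by decide +kernel))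
noncomputable def rh6a0873b22bac2d3d : CRef := CRef.mk (Pat.mk 0x180000001000000000000000060000000300000000 0x80000001800000018000000100000003e0000003300000020 5 6) 0 0 (step_sound _ 68 [(rh361cc68994bd8a63.shift 0 1), (rh853c2bd7522c3ee7.shift 3 0)] (by decide +kernel))
noncomputable def rh75386b4e7c2acfa8 : CRef := CRef.mk (Pat.mk 0x14000000040000001c000000000000000000000000 0x1000000014000000340000001f0000003c0000000800000008 5 6) 0 0 (step_sound _ 67 [(rh61ebbcc17f085e4b.shift 2 0), (rh79ad7b82ec8c35e2.shift 2 0), (rhe8223644518e14be.shift 0 2)] (by decide +kernel))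
noncomputable def rh8b0d2795e3692bc4 : CRef := CRef.mk (Pat.mk 0xe00000002000000020000000000000000 0x1000000030000001e00000002000000070000000700000005 5 5) 0 0 (step_sound _ 161 [(rh2e8814637c3f6d46.shift 0 2), rh6eff4158bb400f47] (by decide +kernel))
noncomputable def rh7916acf7e1a3ad5e : CRef := CRef.mk (Pat.mk 0x1000000004000000040000000a0000000800000000 0x1000000010000000170000003e0000001b0000000800000008 5 6) 0 0 (step_sound _ 99 [(rh5e5a1cce49dd18d2.shift 0 1), (rh7b1f1fb55310c477.shift 2 0)] (by decide +kernel))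
noncomputable def rhbd1676d9697e3ff5 : CRef := CRef.mk (Pat.mk 0x80000001c00000000 0xff000000ff000001e0 5 9) 0 0 (step_sound _ 37 [(rh3fc3a7fb6866dcd4.shift 2 0), (rh915c3ff3d4fe3a39.shift 0 1), (rhae8d21abc86b555a.shift 2 0)] (by decide +kernel))
noncomputable def rh318a73546b536cd5 : CRef := CRef.mk (Pat.mk 0x20000000200000002000000020000000200000002000000000000000000000000 0x20000000200000006000000060000000600000002000000070000000700000005 5 3) 0 0 (step_sound _ 65 [(rh29dbfa0393219db4.shift 1 2), rh8cdd36b03d57a2f6] (by decide +kernel))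
noncomputable def rha69c33dffd8ed231 : CRef := CRef.mk (Pat.mk 0x420000003a00000002000000020000000000000000 0xc20000007a00000002000000070000000700000005 5 8) 0 0 (step_sound _ 134 [(rh33e738c4ed385b9f.shift 3 4), rh6eff4158bb400f47] (by decide +kernel))
noncomputable def rh627b46e23167033f : CRef := CRef.mk (Pat.mk 0x400000004000000040000000600000000 0x400000004000000040000007c0000001f00000008 5 7) 0 0 (step_sound _ 35 [(rh55afc6a59410cf00.shift 2 0), (rhebedeba8ef332487.shift 0 1)] (by decide +kernel))
noncomputable def rh694b3dda36d16526 : CRef := CRef.mk (Pat.mk 0x1c000000020000000200000002000000000000000000000000 0x30000001f000000020000000200000007000000070000000700000005 5 5) 0 0 (step_sound _ 65 [(rh0759445859795ba4.shift 0 1), rh8cdd36b03d57a2f6, (rhb7046b564aeae30e.shift 0 1)] (by decide +kernel))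
noncomputable def rh1a8343b65afb5669 : CRef := CRef.mk (Pat.mk 0x3800000000 0xf0000007e000000ef 5 8) 0 0 (step_sound _ 34 [(rh06db8ceda6269a47.shift 1 0), rh592c7139d2c44767, (rh5f7b3bfbaf903d4f.shift 1 0), (rhe401600d466b97cd.shift 1 0)] (by decide +kernel))
noncomputable def rhb57bd18609ae225c : CRef := CRef.mk (Pat.mk 0x400000007800000020 0x4000000040000000600000007e00000037 5 7) 0 0 (step_sound _ 102 [(rh5c5e593799055d58.shift 5 0), rhbfe376cd40aaedfb] (by decide +kernel))
noncomputable def rhac02bd5b989f0b3f : CRef := CRef.mk (Pat.mk 0x100000003e000000000000000000000000 0x8000000080000001c0000003f000000060000000400000004 5 6) 0 0 (step_sound _ 131 [(rh50e736ca27d8bdbd.shift 1 0), (rh53b3c253cb0c65f4.shift 0 3)] (by decide +kernel))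
noncomputable def rh03de4028502f3760 : CRef := CRef.mk (Pat.mk 0x20000000e000000040000000000000000 0x8000000080000007e0000000f0000000c0000000400000004 5 7) 0 0 (step_sound _ 34 [(rh39c00d1aee1d8d7e.shift 0 1), (rh7b1f1fb55310c477.shift 1 0)] (by decide +kernel))
noncomputable def rhe4b45d98a47ea8db : CRef := CRef.mk (Pat.mk 0x6000000060000001c0000000800000000 0x30000000370000003e0000001e0000007800000030 5 7) 0 0 (step_sound _ 100 [(rh2f50e1924537f66e.shift 0 1), (rh5e8e40a15cd6bf66.shift 1 0), (rh649b0af3519a7bcf.shift 1 2)] (by decide +kernel))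
noncomputable def rhfb924525b3b574a6 : CRef := CRef.mk (Pat.mk 0x80000000e0000000400000000 0x1800000018000000180000000f0000003c00000018 5 6) 0 0 (step_sound _ 100 [(rh471c9edde87ddc5c.shift 1 0), (rh53b3c253cb0c65f4.shift 0 2)] (by decide +kernel))
noncomputable def rh1692ccf86a90bd1b : CRef := CRef.mk (Pat.mk 0x300000006000000020000000300000000 0x200000002000000020000000700000007000000070000000700000004 5 3) 0 0 (step_sound _ 2 [(rhd3458b32566d63f7.shift 1 0), (rhf1c50e9026784bbe.shift 0 1)] (by decide +kernel))
noncomputable def rh622b27b5c152f235 : CRef := CRef.mk (Pat.mk 0x38000000000000003800000000 0x40000000c0000007c0000000f0000007800000010 5 7) 0 0 (step_sound _ 67 [(rh046254d731362e10.shift 2 1), (rh0cbd98d022e84f17.shift 2 0), rhee2c3e56de6a6a07] (by decide +kernel))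
noncomputable def rha2db6bb47f3973d0 : CRef := CRef.mk (Pat.mk 0x700000000000000070 0x2000000020000000f7000000fe0000001f000000f0 5 8) 0 0 (step_sound _ 67 [(rh22c1636ac43b7d22.shift 2 0), (rh51abd147d735efbe.shift 2 0), (rh525c09f832ac1ad2.shift 0 1), (rh9e97bba44c1b13e4.shift 1 1)] (by decide +kernel))
noncomputable def rhc02f31a75529f742 : CRef := CRef.mk (Pat.mk 0x70000000000000003000000000 0x28000001ff000000fe000000170000003000000020 5 9) 0 0 (step_sound _ 99 [(rh4c622fddc53a5f99.shift 1 3), (rh525c09f832ac1ad2.shift 0 2), (rh57ae49f970b6602f.shift 2 0), (rhf1eeee927723e515.shift 2 0)] (by decide +kernel))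
noncomputable def rh600cafcef7175bf8 : CRef := CRef.mk (Pat.mk 0x380000000000000038 0x4000000770000003e0000000f00000078 5 7) 0 0 (step_sound _ 66 [(rh4c622fddc53a5f99.shift 0 2), (rh592c7139d2c44767.shift 0 1), (rh9e97bba44c1b13e4.shift 0 1), (rhc2110794e3502b19.shift 1 0)] (by decide +kernel))
noncomputable def rh064175b205c69604 : CRef := CRef.mk (Pat.mk 0x1c000000000000001c00000000 0xa0000000f0000003c000000060000003c00000008 5 6) 0 0 (step_sound _ 66 [(rh046254d731362e10.shift 1 1), (rh0cbd98d022e84f17.shift 1 0), rhcc60a17a1a87c612] (by decide +kernel))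
noncomputable def rh2dfd46e20862c77d : CRef := CRef.mk (Pat.mk 0x3800000000 0xff0000007e00000007 5 8) 0 0 (step_sound _ 34 [(rh0cc4c691701426ad.shift 1 1), (rh4c622fddc53a5f99.shift 0 1), rh592c7139d2c44767, rh9e97bba44c1b13e4] (by decide +kernel))
noncomputable def rh30acd9627e2fab2e : CRef := CRef.mk (Pat.mk 0x380000000000000038 0x770000007e0000000f00000078 5 7) 0 0 (step_sound _ 66 [(rh4c622fddc53a5f99.shift 0 2), (rh51abd147d735efbe.shift 1 0), (rh592c7139d2c44767.shift 0 1), (rh9e97bba44c1b13e4.shift 0 1)] (by decide +kernel))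
noncomputable def rhd93e4c9bb2648213 : CRef := CRef.mk (Pat.mk 0x400000004000000040000000400000000 0xa0000003e00000007000000040000000400000004 5 6) 0 0 (step_sound _ 131 [(rh2f68792b6b779e96.shift 2 1), rhbf917515d9aa5742] (by decide +kernel))
noncomputable def rh946fbe1ddfc14810 : CRef := CRef.mk (Pat.mk 0x2000000020000000600000006000000000000000000000000 0x400000006000000060000000600000006000000030000000300000003 5 3) 0 0 (step_sound _ 194 [rh1c9b4deb3f3e414b, (rh2f68792b6b779e96.shift 1 3)] (by decide +kernel))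
noncomputable def rh855b49a2f97cc31e : CRef := CRef.mk (Pat.mk 0x40000003c000000380000000800000000 0x38000000780000006c0000003c0000003c0000000f00000004 5 7) 0 0 (step_sound _ 131 [rh7b8dea8ecb53c3b8, (rhc0ed5fe86a628eef.shift 2 2), (rhc653ec73ec5ab032.shift 2 0)] (by decide +kernel))
noncomputable def rh553894f28df725f5 : CRef := CRef.mk (Pat.mk 0x160000001c0000000000000000 0x400000004000000360000001e0000003300000002 5 6) 0 0 (step_sound _ 65 [(rh33e738c4ed385b9f.shift 1 2), rhafa79035fcfa694f] (by decide +kernel))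
noncomputable def rh3899e32f00ea223d : CRef := CRef.mk (Pat.mk 0xa0000001a000000320000001000000000 0x40000000f0000007a000000320000001e00000004 5 7) 0 0 (step_sound _ 130 [(rh9933ffd86fd15922.shift 1 0), (rhb739f4f82bb681b4.shift 0 3)] (by decide +kernel))
noncomputable def rh3320b39c715f262a : CRef := CRef.mk (Pat.mk 0x28000000680000000800000000 0x140000001c0000001f0000003c0000006c0000000c00000004 5 7) 0 0 (step_sound _ 100 [(rhb739f4f82bb681b4.shift 2 2), rhec9f8666c39898b8] (by decide +kernel))
noncomputable def rh5f1bd349b1683f05 : CRef := CRef.mk (Pat.mk 0x200000002000000320000001000000000 0x500000007000000070000000200000002000000330000001f00000005 5 6) 0 0 (step_sound _ 33 [(rhe82112c8440f1b7b.shift 1 0), rhecbd96f9e94bfd4d] (by decide +kernel))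
noncomputable def rh9759d8fb9593a7fa : CRef := CRef.mk (Pat.mk 0x20000000200000032000000100000000000000000 0x10000000300000003000000320000001f0000000700000001 5 6) 0 0 (step_sound _ 65 [rhc4526fc8abf298b6, (rhe82112c8440f1b7b.shift 1 1)] (by decide +kernel))
noncomputable def rhfb5958588b28e8a2 : CRef := CRef.mk (Pat.mk 0x1a0000001a000000100000001000000000 0x1000000010000000300000001e0000001b000000180000001800000008 5 6) 0 0 (step_sound _ 3 [(rh79877ebd3ef475dd.shift 3 0), (rha88074a3111006bb.shift 0 2)] (by decide +kernel))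
noncomputable def rh03102c3a9967a1fb : CRef := CRef.mk (Pat.mk 0xc0000000c000000180000000800000000 0x800000008000000080000000c0000001c0000001c0000000f00000004 5 5) 0 0 (step_sound _ 34 [(rh932754581e0f4330.shift 2 0), (rh99f9ac5165c9f560.shift 0 1)] (by decide +kernel))
noncomputable def rhe74fd49ae7df603f : CRef := CRef.mk (Pat.mk 0x2000000020000000000000002000000000000000000000000 0x5000000070000000700000003000000030000000300000003000000070000000700000005 5 3) 0 0 (step_sound _ 129 [rh188b675a22bac9f4, (rh3a6dba598e7ad493.shift 0 3), rh6b7e00dc0aeee6fe, (rhc4526fc8abf298b6.shift 0 1), (rhecbd96f9e94bfd4d.shift 0 2)] (by decide +kernel))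
noncomputable def rh04da1973c7e93f5e : CRef := CRef.mk (Pat.mk 0x20000000200000000000000020000000000000000 0x100000003000000030000000300000003000000070000000700000005 5 3) 0 0 (step_sound _ 97 [(rh565a0c22519f57e9.shift 0 1), rh6eff4158bb400f47, rh8ff3dde5b1c639e0, rhc4526fc8abf298b6] (by decide +kernel))
noncomputable def rhbd417027218d8c62 : CRef := CRef.mk (Pat.mk 0xb0000000f000000010000000000000000 0x18000000180000000f0000000f0000001d0000000500000001 5 5) 0 0 (step_sound _ 32 [rh71222050f2c63a3a, (rhcfc1e46168ba8b3c.shift 0 1)] (by decide +kernel))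
noncomputable def rha4aa8c7437ca3051 : CRef := CRef.mk (Pat.mk 0xb0000000f000000000000000000000000 0x1a0000001a0000000f0000000f0000001c0000000400000004 5 5) 0 0 (step_sound _ 67 [rh720d09f2da9939f9, (rhe25b0a99195a5d59.shift 0 2)] (by decide +kernel))
noncomputable def rh46e7b907141167e2 : CRef := CRef.mk (Pat.mk 0xc0000000c000000180000000800000000 0xc0000000c0000001c0000001f00000017 5 5) 0 0 (step_sound _ 36 [(rh55afc6a59410cf00.shift 3 0), rhb1c06754cc0d7506] (by decide +kernel))
noncomputable def rh5898876c378fd412 : CRef := CRef.mk (Pat.mk 0x80000000800000008000000180000000c 0x100000001c0000001c0000000800000018000000180000000f 5 5) 0 0 (step_sound _ 0 [rh24ae073cf30720c4, (rh5bd6c04439fad2cd.shift 2 1)] (by decide +kernel))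
noncomputable def rh2ade4908de82b58d : CRef := CRef.mk (Pat.mk 0x800000018000000100000001800000000 0x140000001f0000007c000000780000001e00000004 5 7) 0 0 (step_sound _ 67 [(rh215fef6ef21eb5a3.shift 0 1), (rh5916e081cc655c17.shift 1 0)] (by decide +kernel))
noncomputable def rhc39b9d1d3c70335b : CRef := CRef.mk (Pat.mk 0xc0000000c000000180000000c 0x800000008000000080000000c0000001f000000180000001f 5 5) 0 0 (step_sound _ 0 [rh24ae073cf30720c4, rh60337546665d5c57] (by decide +kernel))
noncomputable def rh6fda262428bf49cd : CRef := CRef.mk (Pat.mk 0x800000018000000080000000800000000 0x40000000f0000007c000000080000000c00000004 5 7) 0 0 (step_sound _ 2 [(rh215fef6ef21eb5a3.shift 0 1), (rh79877ebd3ef475dd.shift 2 0)] (by decide +kernel))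
noncomputable def rh69afdb07edfc18c6 : CRef := CRef.mk (Pat.mk 0x180000001e000000180000001000000000 0x30000000300000001f0000001e000000180000003000000020 5 6) 0 0 (step_sound _ 5 [(rhd3458b32566d63f7.shift 4 0), (rhff273d5184c43958.shift 0 2)] (by decide +kernel))
noncomputable def rhb413d4a403e25acc : CRef := CRef.mk (Pat.mk 0x100000001e000000180000001000000000 0x1000000010000000130000001e0000001f0000003000000020 5 6) 0 0 (step_sound _ 128 [rh370843733b2fcf0d, (rh3f8766e6ecb455ce.shift 0 3)] (by decide +kernel))
noncomputable def rhe2298688dc536e4b : CRef := CRef.mk (Pat.mk 0xb0000000a00000002000000000000000000000000 0x10000000f0000001b00000002000000030000000300000001 5 5) 0 0 (step_sound _ 132 [rh01483ff9cba2f6ac, (rhc10214bf3fe8094a.shift 0 4)] (by decide +kernel))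
noncomputable def rh788ff3fa6825651c : CRef := CRef.mk (Pat.mk 0x20000000200000002000000020000000000000000 0x5000000070000000300000002000000030000000300000001 5 3) 0 0 (step_sound _ 162 [(rh2f68792b6b779e96.shift 1 2), rh6aa5625770489e83] (by decide +kernel))
noncomputable def rhc7bc9bc8daedeb95 : CRef := CRef.mk (Pat.mk 0xe0000000a0000000a00000000 0x1000000010000000340000001e0000001b0000000a00000002 5 6) 0 0 (step_sound _ 1 [(rh2f68792b6b779e96.shift 1 0), (rhbd3560211fa7f71a.shift 0 1)] (by decide +kernel))
noncomputable def rhd86d5f4137437145 : CRef := CRef.mk (Pat.mk 0xe0000000a0000000a00000000 0x10000000340000001f0000001b0000000a00000002 5 6) 0 0 (step_sound _ 68 [(rhb739f4f82bb681b4.shift 0 2), rhe09685f2be7475b8] (by decide +kernel))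
noncomputable def rhbce1aa2526faa408 : CRef := CRef.mk (Pat.mk 0x400000014000000040000000400000000 0xa0000000f0000003c000000040000000600000002 5 6) 0 0 (step_sound _ 131 [(rh2f68792b6b779e96.shift 2 1), rhbab08fde3e198e13] (by decide +kernel))
noncomputable def rhc2bb4d99ebde3783 : CRef := CRef.mk (Pat.mk 0x200000002000000020000000000000000 0x500000007000000070000000600000003000000030000000300000001 5 3) 0 0 (step_sound _ 161 [(rh565a0c22519f57e9.shift 0 1), rhcab3157f7bdcba3e, (rhd9d598133124fa86.shift 0 1), (rhe1d7b89b539c0d0e.shift 0 2)] (by decide +kernel))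
noncomputable def rh0636fbf5a8a672cd : CRef := CRef.mk (Pat.mk 0xe00000002000000020000000000000000 0x70000001e00000003000000030000000300000001 5 5) 0 0 (step_sound _ 33 [(rh2f68792b6b779e96.shift 1 1), rh33f6d37cd16199b4] (by decide +kernel))
noncomputable def rha04746b679d64160 : CRef := CRef.mk (Pat.mk 0xa0000000b00000002000000000000000000000000 0x100000001a0000001a0000001b0000001e0000001c0000001c00000014 5 5) 0 0 (step_sound _ 99 [rh0becfb987d6e48b6, rh63e3e58eda49bb28, (rh986c82ee4bb35353.shift 2 0), (rha91940d3a4d3af01.shift 2 0), rhec5ab178413670e3] (by decide +kernel))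
noncomputable def rh2350ec004460e424 : CRef := CRef.mk (Pat.mk 0x6000000040000000c0000000800000000 0xa0000000e000000040000003c0000000f00000002 5 6) 0 0 (step_sound _ 34 [(rh50fbb5868c909700.shift 1 1), rh5916e081cc655c17] (by decide +kernel))
noncomputable def rh24bf82b57fabb4a5 : CRef := CRef.mk (Pat.mk 0x600000006000000040000000400000000 0x80000003e00000007000000040000000e0000000a 5 6) 0 0 (step_sound _ 1 [(rh79877ebd3ef475dd.shift 1 0), rh91169c5576c1acce] (by decide +kernel))
noncomputable def rh38be8c9357c128a5 : CRef := CRef.mk (Pat.mk 0x18000000080000001c00000000 0x4000000760000007e0000000f0000003c00000008 5 7) 0 0 (step_sound _ 66 [(rh08bbde95ddae059f.shift 1 0), (rhfdd338b587cdea0b.shift 0 1)] (by decide +kernel))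
noncomputable def rh57904e3f22237443 : CRef := CRef.mk (Pat.mk 0x70000000000000007000000000 0x20000000f7000000fe0000001f000000f000000020 5 8) 0 0 (step_sound _ 99 [(rh51abd147d735efbe.shift 2 1), (rh525c09f832ac1ad2.shift 0 2), (rh9e97bba44c1b13e4.shift 1 2), (rhefdfb843653e1e42.shift 2 0)] (by decide +kernel))
noncomputable def rh53403bbceab3b4db : CRef := CRef.mk (Pat.mk 0x70000000000000003000000000 0x28000001ff000000fe000000170000003000000020 5 9) 0 0 (step_sound _ 99 [(rh525c09f832ac1ad2.shift 0 2), (rh57ae49f970b6602f.shift 2 0), (rh61325f73ebf98108.shift 1 3), (rhf1eeee927723e515.shift 2 0)] (by decide +kernel))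
noncomputable def rh25f8516bb381cab9 : CRef := CRef.mk (Pat.mk 0x380000000000000038 0x4000000770000003e0000000f00000078 5 7) 0 0 (step_sound _ 66 [(rh61325f73ebf98108.shift 0 2), (rh775ca1963e850b80.shift 0 1), (rh9e97bba44c1b13e4.shift 0 1), (rhc2110794e3502b19.shift 1 0)] (by decide +kernel))
noncomputable def rh301a027d74a75e0a : CRef := CRef.mk (Pat.mk 0x380000000000000038 0x770000007e0000000f00000078 5 7) 0 0 (step_sound _ 66 [(rh51abd147d735efbe.shift 1 0), (rh61325f73ebf98108.shift 0 2), (rh775ca1963e850b80.shift 0 1), (rh9e97bba44c1b13e4.shift 0 1)] (by decide +kernel))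
noncomputable def rh06d1de846cda2546 : CRef := CRef.mk (Pat.mk 0x1c000000000000001c00000000 0xa0000000f0000003c000000060000003c00000008 5 6) 0 0 (step_sound _ 66 [(rh046254d731362e10.shift 1 1), (rh0cbd98d022e84f17.shift 1 0), rhf485a23dc0d72b30] (by decide +kernel))
noncomputable def rh77a22a4eba951a56 : CRef := CRef.mk (Pat.mk 0x3800000000 0xff0000007e00000007 5 8) 0 0 (step_sound _ 34 [(rh0cc4c691701426ad.shift 1 1), (rh61325f73ebf98108.shift 0 1), rh775ca1963e850b80, rh9e97bba44c1b13e4] (by decide +kernel))
noncomputable def rh14d943251349f232 : CRef := CRef.mk (Pat.mk 0x300000003000000020000000300000000 0x600000006000000060000000300000003000000030000000700000004 5 3) 0 0 (step_sound _ 2 [(rh75d405f970ca51d6.shift 0 1), (rhd3458b32566d63f7.shift 1 0)] (by decide +kernel))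
noncomputable def rhb1111a1bcb4ac16d : CRef := CRef.mk (Pat.mk 0xc0000000c000000080000000800000000 0x80000000c0000000c0000003c0000000f00000006 5 6) 0 0 (step_sound _ 34 [rh52e369fc79f13a2e, (rh932754581e0f4330.shift 2 0)] (by decide +kernel))
noncomputable def rhbab2db7304cf4f0f : CRef := CRef.mk (Pat.mk 0x300000003000000020000000200000000 0x600000006000000060000000300000003000000060000000600000004 5 3) 0 0 (step_sound _ 34 [(rh4a92560bd1e2a36a.shift 0 1), (rh55afc6a59410cf00.shift 1 0)] (by decide +kernel))
noncomputable def rhe93a1469eabff810 : CRef := CRef.mk (Pat.mk 0xc0000000c000000080000000800000000 0xa0000000f0000003c0000000c0000000c00000004 5 6) 0 0 (step_sound _ 34 [(rh8f2fbebe9b6cbe8a.shift 0 1), (rh932754581e0f4330.shift 2 0)] (by decide +kernel))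
noncomputable def rh1dfd484f552e7f77 : CRef := CRef.mk (Pat.mk 0x1800000018000000000000001e00000000 0x50000001f0000001f0000000b0000001e00000003 5 5) 0 0 (step_sound _ 65 [(rh3244c3cc8379b070.shift 0 1), rhdd217602f3e4608b] (by decide +kernel))
noncomputable def rh977726e9cc0a7323 : CRef := CRef.mk (Pat.mk 0x3000000030000000000000007800000000 0x3e0000007e000000070000007e0000000f 5 7) 0 0 (step_sound _ 130 [rh4fc2a7e0a2034198, (rhcd6baf37b3e5de21.shift 1 3), rhe76bcc5bb7f5635a] (by decide +kernel))
noncomputable def rh45e8d9ac0d96ed18 : CRef := CRef.mk (Pat.mk 0xc0000000c000000080000000e00000000 0x20000000f0000003c0000000c0000001e00000012 5 6) 0 0 (step_sound _ 4 [(rhd3458b32566d63f7.shift 3 0), rhde73d0b91a24a8a5] (by decide +kernel))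
noncomputable def rh6e6d44dbdcb28a81 : CRef := CRef.mk (Pat.mk 0x8000000080000000a0000000800000000 0x1000000018000000080000001f0000007800000010 5 7) 0 0 (step_sound _ 132 [(rh2f68792b6b779e96.shift 3 1), rhc486ae0fcc44be52] (by decide +kernel))
noncomputable def rhc635eda008c53391 : CRef := CRef.mk (Pat.mk 0x140000001400000014000000000000000000000000 0x1000000014000000360000003e0000001b0000000a00000008 5 6) 0 0 (step_sound _ 99 [(rh281c6819542c66e6.shift 3 0), (rhd7b02ac124407524.shift 0 1), (rhec27478d8da4bc65.shift 1 0)] (by decide +kernel))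
noncomputable def rh65600450c128b4db : CRef := CRef.mk (Pat.mk 0x80000000a0000000a0000000800000000 0x80000000b0000001f0000003c00000014 5 6) 0 0 (step_sound _ 2 [(rh79877ebd3ef475dd.shift 2 0), rhc247f2d7a10544ae] (by decide +kernel))
noncomputable def rh90dd30d6475954d3 : CRef := CRef.mk (Pat.mk 0x8000000080000000a0000000800000000 0x1800000018000000080000000f0000001c00000014 5 5) 0 0 (step_sound _ 34 [rh0a9693cf478bb9d7, (rh932754581e0f4330.shift 2 0)] (by decide +kernel))
noncomputable def rhd6957edd2c7e9e4d : CRef := CRef.mk (Pat.mk 0x14000000140000001c000000000000000000000000 0x1000000014000000360000001e0000000b0000000200000002 5 6) 0 0 (step_sound _ 97 [(rh33e738c4ed385b9f.shift 1 3), rh9a7681743de253bf] (by decide +kernel))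
noncomputable def rh98d2abfd8f876ecb : CRef := CRef.mk (Pat.mk 0x200000002000000020000000200000000 0x4000000060000000600000002000000060000000700000005 5 3) 0 0 (step_sound _ 162 [(rhbaefcd01e0a8bca3.shift 1 1), rhbe2e147a1d991520] (by decide +kernel))
noncomputable def rhecd3198da6cddc4b : CRef := CRef.mk (Pat.mk 0x80000000a0000000a000000000000000000000000 0x8000000080000001b0000001f0000003c0000000400000004 5 6) 0 0 (step_sound _ 98 [(rh7a2cb55027c5f5b0.shift 0 2), (rh8ab8c564895658e7.shift 0 2), rhec27478d8da4bc65] (by decide +kernel))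
noncomputable def rh4d02e2747fc6a56f : CRef := CRef.mk (Pat.mk 0x2e00000028 0xe30000007e0000006c 5 8) 0 0 (step_sound _ 36 [rhc6d33501f70b1658, (rhe25b0a99195a5d59.shift 2 0)] (by decide +kernel))
noncomputable def rh03c8474c6babf461 : CRef := CRef.mk (Pat.mk 0x300000003000000020000000200000000 0x200000002000000020000000300000003000000070000000700000005 5 3) 0 0 (step_sound _ 34 [rh31f25001176bc52d, (rh55afc6a59410cf00.shift 1 0)] (by decide +kernel))
noncomputable def rh0b54e2cae76efaeb : CRef := CRef.mk (Pat.mk 0xc000000380000001c000000100000000000000000 0x200000002f00000038000000fc000000fe0000000400000004 5 8) 0 0 (step_sound _ 101 [(rh1e8d6e1ef30e2d92.shift 1 0), (rhdeb791b55b8acb0a.shift 2 2), (rhf8739baa7d305555.shift 0 2)] (by decide +kernel))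
noncomputable def rh88707888d07fe268 : CRef := CRef.mk (Pat.mk 0x20000000600000007000000040000000000000000 0x600000006000000070000001f0000001b00000003 5 5) 0 0 (step_sound _ 65 [rh3aac9b6b8ea84c2e, (rh5222d5d5fedeba7b.shift 0 1), (rhea7a1800d6f053bd.shift 1 0)] (by decide +kernel))
noncomputable def rh84ebeac045665d0c : CRef := CRef.mk (Pat.mk 0xc00000018000000180000000800000000 0xf000000180000007c0000000f00000004 5 7) 0 0 (step_sound _ 128 [rh80650b8e93363f1e, (rhab22b5b56e7b3243.shift 0 3)] (by decide +kernel))
noncomputable def rh5b23de17d094d110 : CRef := CRef.mk (Pat.mk 0x600000006000000100000000e00000000 0x170000003e000000300000003e00000070 5 7) 0 0 (step_sound _ 36 [rh04818fa55fa0f1f5, (rh33e738c4ed385b9f.shift 1 1)] (by decide +kernel))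
noncomputable def rh043a69081cbdad05 : CRef := CRef.mk (Pat.mk 0x80000000c000000080000000800000000 0x8000000080000001f000000780000001800000010 5 7) 0 0 (step_sound _ 36 [(rh032b9293535eedef.shift 0 1), (rh55afc6a59410cf00.shift 3 0)] (by decide +kernel))
noncomputable def rh8129c1a013c9353b : CRef := CRef.mk (Pat.mk 0x2000000030000000200000002 0x100000007000000070000000700000003000000030000000200000002 5 3) 0 0 (step_sound _ 129 [(rh0516f3b0c681c22f.shift 0 1), rh2d9cf2b378a087dd, rh3ca48e2a6d60153d, (rhe1d7b89b539c0d0e.shift 0 1)] (by decide +kernel))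
noncomputable def rhd693541053e8037f : CRef := CRef.mk (Pat.mk 0x40000000800000008000000180000000c 0x100000001c0000001c0000000800000018000000180000000f 5 5) 0 0 (step_sound _ 0 [rh24ae073cf30720c4, (rh3d1a1891ecf5a845.shift 2 1)] (by decide +kernel))
noncomputable def rh0dc9f470f4cb2c4a : CRef := CRef.mk (Pat.mk 0x80000000c000000180000000c 0x40000000c0000001f000000780000000f 5 7) 0 0 (step_sound _ 98 [rh2b4b8b79ec79d231, (rh50fbb5868c909700.shift 2 0)] (by decide +kernel))
noncomputable def rheb2e2a1e1f39715f : CRef := CRef.mk (Pat.mk 0x200000002000000060000000600000000 0x400000006000000060000003e0000003f00000039 5 6) 0 0 (step_sound _ 32 [rh5009210a7f3908cf, rh932754581e0f4330] (by decide +kernel))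
noncomputable def rh6c338cb8c997d2eb : CRef := CRef.mk (Pat.mk 0xa0000001c0000000000000000 0x200000002000000070000007e0000003e0000000400000004 5 7) 0 0 (step_sound _ 98 [rh0343d9899f99be97, (rhf48373e13d2bc128.shift 1 2)] (by decide +kernel))
noncomputable def rh6917e99a51ffea92 : CRef := CRef.mk (Pat.mk 0x1e00000000 0x770000003e00000003 5 7) 0 0 (step_sound _ 0 [(rh0cc4c691701426ad.shift 0 1), rh80fcd6d0a18cb2dd] (by decide +kernel))
noncomputable def rh2d0146eaa0e0ee71 : CRef := CRef.mk (Pat.mk 0x80000001e000000000000000000000000 0x2000000070000003f0000001e000000070000000600000002 5 6) 0 0 (step_sound _ 129 [(rh3244c3cc8379b070.shift 0 3), rhe921c9d098a0965f] (by decide +kernel))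
noncomputable def rh3a64fe58b14d3b67 : CRef := CRef.mk (Pat.mk 0xc0000001c000000000000000800000000 0x1c0000001c0000003f0000007f0000001c000000040000000c00000008 5 7) 0 0 (step_sound _ 195 [rh31f6d16b4e92f57c, (rhb8fddd58ad9026ec.shift 2 2), (rhe1aabfc40b1ccf6f.shift 0 3)] (by decide +kernel))
noncomputable def rh026201f745a7ef46 : CRef := CRef.mk (Pat.mk 0x1800000038000000000000003000000000 0x1c0000001c0000001c000000180000003c0000000f0000007c00000010 5 7) 0 0 (step_sound _ 67 [(rh1ab3839901233890.shift 0 1), (rh93bb09469abb6e2d.shift 3 0), rha13b9a4be889f76a] (by decide +kernel))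
noncomputable def rh1a4a6b8b404ca300 : CRef := CRef.mk (Pat.mk 0x16000000020000001200000010 0x3c0000003e000000130000001200000012 5 6) 0 0 (step_sound _ 1 [(rh2f68792b6b779e96.shift 1 0), rh4599d2b56543b3ea] (by decide +kernel))
noncomputable def rhfdc1542ba53e25f0 : CRef := CRef.mk (Pat.mk 0xb000000000000000800000008000000000000000000000000 0x140000001e0000001b0000001800000018000000180000001c0000001c00000004 5 5) 0 0 (step_sound _ 163 [(rh3c8f4260c625d1ca.shift 0 3), (rh665813a1b2c46ecc.shift 0 2), (rh6c59ce14113da07f.shift 3 1), (rh71d8b0352e63a5c8.shift 2 0)] (by decide +kernel))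
noncomputable def rhabc3166674883eb8 : CRef := CRef.mk (Pat.mk 0x2000000000000000200000002000000000000000000000000 0x5000000070000000700000006000000060000000600000006000000070000000700000005 5 3) 0 0 (step_sound _ 161 [(rh1661d7d3499ff742.shift 0 3), (rh6c59ce14113da07f.shift 1 1), rh71d8b0352e63a5c8, rhb9a24b2061956320, (rhc2ec0d612c2e04db.shift 0 2)] (by decide +kernel))
noncomputable def rha45f50e2d37cac99 : CRef := CRef.mk (Pat.mk 0x6000000020000000600000004000000000000000000000000 0x400000006000000060000000600000006000000030000000300000003 5 3) 0 0 (step_sound _ 97 [rh1c9b4deb3f3e414b, (rh2f68792b6b779e96.shift 1 3)] (by decide +kernel))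
noncomputable def rhd3766488a4ddf097 : CRef := CRef.mk (Pat.mk 0x200000003000000000000000b00000008000000000000000000000000 0x100000001e0000001f000000180000000f00000018000000180000001000000010 5 5) 0 0 (step_sound _ 163 [(rh063a6ce73ac86a04.shift 0 2), rh9765e413c7f50252, (rhabf575676fe0ef70.shift 0 3)] (by decide +kernel))
noncomputable def rh2df371b3b4bfb84c : CRef := CRef.mk (Pat.mk 0x30000000900000009000000080 0xef000000fe000000970000009000000090 5 8) 0 0 (step_sound _ 99 [(rh261f868a429ae0e3.shift 3 0), rh3c854e66629c2f4d, rhcb015d0947e5d520] (by decide +kernel))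
noncomputable def rh41f113d7d8f589dd : CRef := CRef.mk (Pat.mk 0x3000000080000000b0000000800000000 0x10000000100000001f000000180000001f0000000800000008 5 5) 0 0 (step_sound _ 100 [(rh1c62b6193297d9e3.shift 0 2), rh3d9f16145cbae72c] (by decide +kernel))
noncomputable def rhc4ad7b6077cdd4d0 : CRef := CRef.mk (Pat.mk 0xb0000000100000009000000080000000000000000 0x100000001a0000001f0000001900000019000000190000001800000010 5 5) 0 0 (step_sound _ 64 [(rh2f68792b6b779e96.shift 0 2), rh3d064726ccb041f4] (by decide +kernel))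
noncomputable def rha598ed9e115c2032 : CRef := CRef.mk (Pat.mk 0x1600000002000000120000001000000000 0x280000003d0000003f00000012000000320000003200000020 5 6) 0 0 (step_sound _ 33 [(rh2f68792b6b779e96.shift 1 1), rh858b38bcc50fd226] (by decide +kernel))
noncomputable def rh6b3ec43dfc8e5ff5 : CRef := CRef.mk (Pat.mk 0xb00000001000000090000000800000000 0x140000001e0000000f00000019000000190000001900000010 5 5) 0 0 (step_sound _ 161 [rh0e289fe159c49757, (rh71222050f2c63a3a.shift 0 1)] (by decide +kernel))
noncomputable def rh7a853e027c1a4c21 : CRef := CRef.mk (Pat.mk 0x58000000080000004800000040 0x3b7000001fe000003c8000000c800000048 5 10) 0 0 (step_sound _ 101 [rh7cc8aea724e34ce9, (rh9a4a6673d077c16f.shift 3 0), (rhae6e4620d0ea5fad.shift 3 0), (rhdad6fb8687a5e7f2.shift 3 0)] (by decide +kernel))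
noncomputable def rh165d2d04fff36d9c : CRef := CRef.mk (Pat.mk 0xb000000000000000800000008000000000000000000000000 0x40000000c0000001f0000001800000018000000180000001c0000001c00000004 5 5) 0 0 (step_sound _ 163 [(rh71d8b0352e63a5c8.shift 2 0), (rh8065c10b3cae6218.shift 2 2), (rheca207e390c8f755.shift 0 3)] (by decide +kernel))
noncomputable def rhdaac2e30485f9344 : CRef := CRef.mk (Pat.mk 0xb0000000000000008000000080000000000000000 0x40000001c0000001f0000001800000018000000180000001800000010 5 5) 0 0 (step_sound _ 131 [(rh6c59ce14113da07f.shift 3 0), (rh8065c10b3cae6218.shift 2 1), (rheca207e390c8f755.shift 0 2)] (by decide +kernel))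
noncomputable def rh0a91e73157c439ff : CRef := CRef.mk (Pat.mk 0x58000000080000004800000040 0x3f7000001fe00000388000000c800000048 5 10) 0 0 (step_sound _ 101 [(rh2df5afcfc4cfd1fc.shift 3 0), rh4a206907f274b8cb, (rhae6e4620d0ea5fad.shift 3 0)] (by decide +kernel))
noncomputable def rhdfdb45823056ce54 : CRef := CRef.mk (Pat.mk 0xb0000000100000009000000080000000000000000 0x1e0000001f0000001900000009000000190000001800000010 5 5) 0 0 (step_sound _ 64 [(rh2f68792b6b779e96.shift 0 2), rh93c6347976cefe05] (by decide +kernel))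
noncomputable def rh1ef15faae36132bd : CRef := CRef.mk (Pat.mk 0x30000000800000008000000080000000000000000 0x40000001c0000001f0000001800000018000000180000001800000010 5 5) 0 0 (step_sound _ 163 [(rh6c59ce14113da07f.shift 3 0), (rh8065c10b3cae6218.shift 2 1), (rheca207e390c8f755.shift 0 2)] (by decide +kernel))
noncomputable def rhbc30d72d7af6686c : CRef := CRef.mk (Pat.mk 0xc000000040000002c0000006800000000 0xf30000007e0000006c0000002c0000006c00000040 5 8) 0 0 (step_sound _ 132 [rh0863d10f4032ee31, (rh8d684d8f54f9b35b.shift 0 1), (rha8e8a5fc268436f0.shift 2 0), (rhd8e818f38b4263b6.shift 2 0)] (by decide +kernel))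
noncomputable def rhba540076b23cfd04 : CRef := CRef.mk (Pat.mk 0x700000001000000080000000800000000 0x380000001f0000003b000000180000001800000010 5 6) 0 0 (step_sound _ 131 [(rh2df5afcfc4cfd1fc.shift 0 1), (rh4274f4328cb9f3fd.shift 0 3), rhac53c00637716274, (rhd584a578337d0023.shift 0 3)] (by decide +kernel))
noncomputable def rh97516c17b0a81c1e : CRef := CRef.mk (Pat.mk 0xe000000000000001000000010 0x780000003f000000700000003000000010 5 7) 0 0 (step_sound _ 100 [rh05e15f63bf4f90c9, (rh2df5afcfc4cfd1fc.shift 1 0), (rhdad6fb8687a5e7f2.shift 1 0)] (by decide +kernel))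
noncomputable def rh7101362715ac604d : CRef := CRef.mk (Pat.mk 0xc000000040000006c000000280000000000000000 0xf30000007e000000ec0000006c0000002c0000002000000020 5 8) 0 0 (step_sound _ 164 [(rh54242c4cd29a6389.shift 1 2), (rh5dd37da99468ed0a.shift 2 0), (rh8d684d8f54f9b35b.shift 0 2), (rh92cadccbc80bed0e.shift 2 2)] (by decide +kernel))
noncomputable def rhc3de4fe93fda10a0 : CRef := CRef.mk (Pat.mk 0x80000000c000000000000002c00000028 0x10000000780000003f000000680000003c00000068 5 7) 0 0 (step_sound _ 132 [(rh477487b2c134cd01.shift 3 0), (rh69012675dfdb1a5b.shift 0 3), (rhabd1a7cea2fa850e.shift 2 0)] (by decide +kernel))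
noncomputable def rhb66b308e5511ca66 : CRef := CRef.mk (Pat.mk 0x2000000010000000b0000000a 0x60000000600000006000000030000001f0000001a 5 5) 0 0 (step_sound _ 34 [rh682632191a22e410, rhe25b0a99195a5d59] (by decide +kernel))
noncomputable def rh626f3660f5c39787 : CRef := CRef.mk (Pat.mk 0x7000000010000000b0000000800000000 0x10000000100000001f0000003b0000001f0000000800000008 5 6) 0 0 (step_sound _ 100 [(rh427508a6a791330e.shift 0 2), (rh5cf65daae92dd3de.shift 0 2), (rhace880836e00953f.shift 0 1), rhde4fc943b3c316a9] (by decide +kernel))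
noncomputable def rh8437f85d160c48bb : CRef := CRef.mk (Pat.mk 0x7000000000000000b0000000800000000 0x100000001c0000001f000000180000001f0000000800000008 5 5) 0 0 (step_sound _ 99 [(rh4b676234a5ebf2d3.shift 0 2), (rhc8e453170ae5c65b.shift 0 1), rhd2f81451d7df0686] (by decide +kernel))
noncomputable def rha6258a35c8fc6dda : CRef := CRef.mk (Pat.mk 0x7000000010000000b0000000a 0x140000001f0000001b0000001f0000000a 5 5) 0 0 (step_sound _ 65 [(rh2f68792b6b779e96.shift 1 0), rhc1ef93beb23e3f7b] (by decide +kernel))
noncomputable def rh757650899816e33a : CRef := CRef.mk (Pat.mk 0x20000000e000000000000000000000010 0x670000003e000000300000001000000010 5 7) 0 0 (step_sound _ 100 [(rh3244c3cc8379b070.shift 0 3), (rhbb26caacc5303f47.shift 1 0)] (by decide +kernel))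
noncomputable def rh12eb151930dae4e8 : CRef := CRef.mk (Pat.mk 0x20000000e000000000000000000000010 0x7e0000003f000000700000001000000010 5 7) 0 0 (step_sound _ 100 [(rh2aac33c566332a8c.shift 1 2), (rh790acd67f4fffd04.shift 1 3), (rhbb26caacc5303f47.shift 1 0), rhea2ba495190a41d9] (by decide +kernel))
noncomputable def rhefbd47f604a3284e : CRef := CRef.mk (Pat.mk 0x40000001e0000000000000000 0x400000004000000370000001e0000000300000002 5 6) 0 0 (step_sound _ 100 [(rh33e738c4ed385b9f.shift 1 2), rh837b431827c849c2] (by decide +kernel))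
noncomputable def rh0531b49c6246b1a6 : CRef := CRef.mk (Pat.mk 0x20000000e000000000000000000000010 0x3b0000001f000000300000001000000010 5 6) 0 0 (step_sound _ 100 [(rh3244c3cc8379b070.shift 0 3), rhea2ba495190a41d9] (by decide +kernel))
noncomputable def rhe678c14109b7186f : CRef := CRef.mk (Pat.mk 0x20000000e00000000 0x730000003e00000070 5 7) 0 0 (step_sound _ 36 [(rh3244c3cc8379b070.shift 0 1), (rhc3ab095df7f091ac.shift 1 0)] (by decide +kernel))
noncomputable def rh56f9fe9c628c0157 : CRef := CRef.mk (Pat.mk 0x10000000f000000000 0x1f7000000fe0000000e 5 9) 0 0 (step_sound _ 35 [(rh1efbca428b37b99e.shift 1 0), rh2ea3c59416b0d047, (rh9890f9d77740bbed.shift 3 1)] (by decide +kernel))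
noncomputable def rhe72f9a44d52f5daf : CRef := CRef.mk (Pat.mk 0x800000038000000000000000800000000 0x80000007f0000003f000000070000000c00000008 5 7) 0 0 (step_sound _ 98 [(rh775ca1963e850b80.shift 0 2), (rh88bda68c0b95902b.shift 1 0), (rh915c3ff3d4fe3a39.shift 0 3), (rh9e97bba44c1b13e4.shift 0 2)] (by decide +kernel))
noncomputable def rhc6068986664a6bd2 : CRef := CRef.mk (Pat.mk 0x180000001a00000010 0x40000000c0000000e0000007f0000001b00000018 5 7) 0 0 (step_sound _ 99 [(rh2145e1d24b96a57e.shift 3 0), rhe6a5db9bb1f5c073] (by decide +kernel))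
noncomputable def rh4722cfdf3712a40b : CRef := CRef.mk (Pat.mk 0x2000000000000000200000002000000000000000000000000 0x5000000070000000700000006000000060000000600000006000000070000000700000005 5 3) 0 0 (step_sound _ 161 [(rh1661d7d3499ff742.shift 0 3), (rh5ef66011045fb859.shift 1 2), rh71d8b0352e63a5c8, rhb9a24b2061956320, (rhc2ec0d612c2e04db.shift 0 2)] (by decide +kernel))
noncomputable def rh0e6f39f4fe84f82a : CRef := CRef.mk (Pat.mk 0x20000000000000002000000020000000000000000 0x500000007000000070000000600000006000000060000000600000004 5 3) 0 0 (step_sound _ 129 [(rh5ef66011045fb859.shift 1 1), (rh6c59ce14113da07f.shift 1 0), (rh8065c10b3cae6218.shift 0 1), (rhe1d7b89b539c0d0e.shift 0 2)] (by decide +kernel))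
noncomputable def rhe364003d0e92b473 : CRef := CRef.mk (Pat.mk 0x200000002c000000280000000000000000 0x140000001c0000001c0000003c0000006f0000002c0000002c00000004 5 7) 0 0 (step_sound _ 131 [(rh15cdca3c85634347.shift 0 1), (rh83175d0a83614e81.shift 2 1), (rh8e864e3b8a4eb052.shift 1 1), (rhc6c4681ae2803d82.shift 2 0)] (by decide +kernel))
noncomputable def rhc9f404672ee426d4 : CRef := CRef.mk (Pat.mk 0x80000000a0000000200000002000000000000000000000000 0x50000000f0000001b0000000200000002000000070000000700000005 5 5) 0 0 (step_sound _ 65 [rh31a2e88f4dbdd2d2, rh6eff4158bb400f47, (rhb771f0c0eb3dc0fa.shift 0 2)] (by decide +kernel))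
noncomputable def rh6e5ff215cef2d357 : CRef := CRef.mk (Pat.mk 0x100000001400000034000000200000000000000000 0xa0000000e0000000f0000001e000000340000003e000000360000000200000002 5 6) 0 0 (step_sound _ 162 [(rh0635dbc328a2413d.shift 1 2), (rh478d70adf93ffeb9.shift 1 1), (rh87e2110e4f4cd2a6.shift 0 2), (rh8de0e6d49f2e2665.shift 1 1), (rhd6dd0aff1a96d776.shift 1 0)] (by decide +kernel))
noncomputable def rhbc9bd2fe5d03a57c : CRef := CRef.mk (Pat.mk 0x14000000140000001400000000 0x8000000080000000f0000001e000000340000001400000014 5 6) 0 0 (step_sound _ 99 [rhb1e85508c6bcb2d1, (rhd8a13c7f042cc6ea.shift 2 0), (rhfc4879b2af87f2e3.shift 1 0)] (by decide +kernel))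
noncomputable def rhc1c1531cdb7807dc : CRef := CRef.mk (Pat.mk 0x14000000140000001400000000 0xa0000000e0000000e0000000c0000001e000000370000001600000016 5 6) 0 0 (step_sound _ 130 [rh81024d2c512b9591, (rhc5998ce9d02e6204.shift 2 0), (rhecbd96f9e94bfd4d.shift 1 0)] (by decide +kernel))
noncomputable def rh2c6e247b1dea9475 : CRef := CRef.mk (Pat.mk 0x1400000014000000040000000000000000 0xa0000000e0000000e000000070000001e00000037000000060000000600000002 5 6) 0 0 (step_sound _ 162 [(rh6aa5625770489e83.shift 1 0), rhcecf32c1f98214ca, (rhdda7f8b821c2bde5.shift 0 1), (rhecbd96f9e94bfd4d.shift 1 1)] (by decide +kernel))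
noncomputable def rhe76b5bec55177195 : CRef := CRef.mk (Pat.mk 0x14000000140000001400000000 0xa0000000e0000000f0000001c000000160000001600000012 5 5) 0 0 (step_sound _ 130 [(rh565a0c22519f57e9.shift 1 0), rh7635e2a9df6dbabe, (rhd9d598133124fa86.shift 1 0)] (by decide +kernel))
noncomputable def rh420c9faa7c62cff8 : CRef := CRef.mk (Pat.mk 0xa0000000a0000000a00000000 0x100000007000000070000000e0000000b0000000b0000000b 5 4) 0 0 (step_sound _ 129 [rh565a0c22519f57e9, (rhc5998ce9d02e6204.shift 1 0)] (by decide +kernel))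
noncomputable def rhedb589451de7976f : CRef := CRef.mk (Pat.mk 0x200000002000000020000000000000000 0x500000007000000070000000300000003000000030000000300000001 5 3) 0 0 (step_sound _ 161 [rh6aa5625770489e83, (rhd9d598133124fa86.shift 0 1), (rhe1d7b89b539c0d0e.shift 0 2)] (by decide +kernel))
noncomputable def rhc457cdb23550374d : CRef := CRef.mk (Pat.mk 0x14000000140000001400000000 0x20000000b0000001e000000370000001400000014 5 6) 0 0 (step_sound _ 99 [(rh8c3a1fff475f5ecd.shift 0 1), rhb1e85508c6bcb2d1, (rhd8a13c7f042cc6ea.shift 2 0)] (by decide +kernel))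
noncomputable def rh83f58980b4f6d0aa : CRef := CRef.mk (Pat.mk 0x1400000014000000140000000000000000 0xa0000000f0000001e00000014000000160000001600000002 5 5) 0 0 (step_sound _ 162 [(rh6aa5625770489e83.shift 1 0), (rh7635e2a9df6dbabe.shift 0 1), (rhc5998ce9d02e6204.shift 2 1)] (by decide +kernel))
noncomputable def rh78d1ed6e801db2d9 : CRef := CRef.mk (Pat.mk 0x20000000e000000000000000000000010 0x730000003e000000300000001000000010 5 7) 0 0 (step_sound _ 100 [(rh3244c3cc8379b070.shift 0 3), (rhb53751346030a0ae.shift 1 0)] (by decide +kernel))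
noncomputable def rh594f7bd3f77009c4 : CRef := CRef.mk (Pat.mk 0x20000003c000000000000000c0000002000000000 0x130000003e000000600000003c0000006000000040 5 7) 0 0 (step_sound _ 129 [(rh3244c3cc8379b070.shift 0 4), (rha62aed487c1dbd84.shift 2 0)] (by decide +kernel))
noncomputable def rhfcdc3c3b5ae6b837 : CRef := CRef.mk (Pat.mk 0x7000000020000000b0000000a00000000 0x180000001f0000001a0000000f0000001b00000011 5 5) 0 0 (step_sound _ 32 [rh932754581e0f4330, rhdde873a2468dd3a3] (by decide +kernel))
noncomputable def rh32ecea5467a69d89 : CRef := CRef.mk (Pat.mk 0x400000003000000020000000b00000008 0x140000001e0000001b0000001a0000000f00000018 5 5) 0 0 (step_sound _ 67 [rhabf575676fe0ef70, rhcbe1d6985155cee8] (by decide +kernel))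
noncomputable def rhb3cbe90e31a91649 : CRef := CRef.mk (Pat.mk 0x7000000000000000f00000008 0x380000001f000000380000001f00000008 5 6) 0 0 (step_sound _ 68 [rh01a6b4dd09b42962, (rh428265de8cd3cd2d.shift 0 1)] (by decide +kernel))
noncomputable def rhabdc26b2b3cf1a0e : CRef := CRef.mk (Pat.mk 0x6000000300000000400000004 0x7c0000001f000000340000000400000004 5 7) 0 0 (step_sound _ 99 [rhb610a44bb7d47cab, (rhd6e447e81774439e.shift 1 2)] (by decide +kernel))
noncomputable def rh402211600ba33d98 : CRef := CRef.mk (Pat.mk 0x7000000100000000800000008000000000000000000000000 0x1f0000001800000018000000080000000c0000000c00000004 5 5) 0 0 (step_sound _ 163 [(rh274a837cd7eaa569.shift 2 0), (rhd6e447e81774439e.shift 0 5)] (by decide +kernel))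
noncomputable def rhec78db8bcaf888cf : CRef := CRef.mk (Pat.mk 0x1800000080000000d0000000500000000000000000 0x1f7000000fe00000197000000f0000000500000004000000040 5 9) 0 0 (step_sound _ 165 [(rha7b4f2e8e63f50d0.shift 4 0), (rhb610a44bb7d47cab.shift 2 2), (rhe0550b095796768c.shift 0 2)] (by decide +kernel))
noncomputable def rh897f9912825f7826 : CRef := CRef.mk (Pat.mk 0x6000000200000003600000014 0x80000007c0000003f000000240000003600000016 5 7) 0 0 (step_sound _ 133 [rh553c65425326b783, (rhee230b994cc8b773.shift 4 0)] (by decide +kernel))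
noncomputable def rh205f7502bb4ce437 : CRef := CRef.mk (Pat.mk 0xb000000020000000a0000000a00000000 0x1c0000000f0000001a0000001a0000001a00000010 5 5) 0 0 (step_sound _ 130 [(rh2f68792b6b779e96.shift 1 1), rh41d9cead9575d01b] (by decide +kernel))
noncomputable def rh41e452db8177f321 : CRef := CRef.mk (Pat.mk 0xb000000020000000a0000000a000000000000000000000000 0x40000000c0000001f0000001a0000001a0000001a0000001c0000001c00000004 5 5) 0 0 (step_sound _ 163 [(rh66bd93334418f273.shift 1 2), (rh71d8b0352e63a5c8.shift 2 0), (rhb01df2df6ae952df.shift 0 3)] (by decide +kernel))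
noncomputable def rh9d3042f6aa964c6e : CRef := CRef.mk (Pat.mk 0xb000000020000000a0000000a 0x3c0000001f000000320000001a0000000a 5 6) 0 0 (step_sound _ 98 [rh2df5afcfc4cfd1fc, (rh2f68792b6b779e96.shift 1 0)] (by decide +kernel))
noncomputable def rh96b4953a723eef45 : CRef := CRef.mk (Pat.mk 0xb000000000000000800000008000000000000000000000000 0x10000000180000001f0000001800000018000000180000001c0000001c00000004 5 5) 0 0 (step_sound _ 163 [(rh636d588b70c96ccc.shift 0 2), (rh6c59ce14113da07f.shift 3 1), (rh71d8b0352e63a5c8.shift 2 0), (rhd444dcb48ef11957.shift 0 3)] (by decide +kernel))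
noncomputable def rh647f016262c9a701 : CRef := CRef.mk (Pat.mk 0xb000000020000000a0000000a 0x340000001f0000003a0000001a0000000a 5 6) 0 0 (step_sound _ 98 [(rh2f68792b6b779e96.shift 1 0), rh9a4a6673d077c16f] (by decide +kernel))
noncomputable def rhf268ce8016f5bf74 : CRef := CRef.mk (Pat.mk 0xb000000020000000a0000000a000000000000000000000000 0x40000000e0000001f0000001a0000001a0000001a0000001c0000001c00000004 5 5) 0 0 (step_sound _ 163 [(rh71d8b0352e63a5c8.shift 2 0), (rhb01df2df6ae952df.shift 0 3), (rhf0bd31327b7f14f8.shift 1 2)] (by decide +kernel))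
noncomputable def rh06f25685224cc476 : CRef := CRef.mk (Pat.mk 0x3c000000000000002c00000020 0x1fc000000ff000000000000003c00000060 5 9) 0 0 (step_sound _ 102 [(rh9890f9d77740bbed.shift 2 3), (rhbc0bc93287be51cc.shift 2 0), (rhd64ac1b1180c5fc8.shift 0 3)] (by decide +kernel))
noncomputable def rh86f9c979b5c94685 : CRef := CRef.mk (Pat.mk 0x1e000000000000002c0000002000000000 0x170000003e000000200000003c0000006000000040 5 7) 0 0 (step_sound _ 38 [rh49ad75b026885cf6, (rhc10214bf3fe8094a.shift 2 1)] (by decide +kernel))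
noncomputable def rh332e8620d80720e3 : CRef := CRef.mk (Pat.mk 0x3c00000000000000580000004000000000 0x1bc000000fe0000004700000078000000c000000080 5 9) 0 0 (step_sound _ 97 [rh32b9f86da03c5b3d, (rh80fcd6d0a18cb2dd.shift 1 3)] (by decide +kernel))
noncomputable def rhb39ad18738eb0e21 : CRef := CRef.mk (Pat.mk 0x7800000000 0x770000007e0000000e 5 7) 0 0 (step_sound _ 2 [(rh80fcd6d0a18cb2dd.shift 2 0), rha33d5de15427eea1] (by decide +kernel))
noncomputable def rh73c800d2fc5f74e1 : CRef := CRef.mk (Pat.mk 0x1c000000000000003c00000028 0xe70000007e000000230000007e0000002c 5 8) 0 0 (step_sound _ 129 [rh0260b1b6e7d003cf, (rhdbb42d517c6ced56.shift 1 0)] (by decide +kernel))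
noncomputable def rhc72c6399a595682b : CRef := CRef.mk (Pat.mk 0xe00000000000000100000003000000000 0x7f0000003e00000010000000100000003000000020 5 7) 0 0 (step_sound _ 132 [(rh56a24c72f1c55520.shift 0 4), (rhc5351dabd90740aa.shift 3 0)] (by decide +kernel))
noncomputable def rhb6bbca39c6eb1615 : CRef := CRef.mk (Pat.mk 0x1c000000000000002000000020 0xff0000007e000000200000002000000020 5 8) 0 0 (step_sound _ 101 [(rh36329e17fd511d53.shift 1 0), (rh4c622fddc53a5f99.shift 0 3), (rh6a78fa75f0f8d5b0.shift 2 0), rha4c194df36df815e] (by decide +kernel))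
noncomputable def rh4b4c9674ed8b1775 : CRef := CRef.mk (Pat.mk 0x38000000000000007800000010 0x770000003e00000007000000fc00000018 5 8) 0 0 (step_sound _ 3 [(rh18965a982d73c794.shift 3 0), rh4bd42e0bc41d815d] (by decide +kernel))
noncomputable def rh474fd5ab748adcd6 : CRef := CRef.mk (Pat.mk 0xb000000000000000f00000008 0x140000001e0000000f000000180000000f00000008 5 5) 0 0 (step_sound _ 67 [(rh33e738c4ed385b9f.shift 0 1), rh624387a5ffe62264] (by decide +kernel))
noncomputable def rh1dcb9523f349bd43 : CRef := CRef.mk (Pat.mk 0x16000000000000001e00000010 0x2f0000003e000000300000001e00000010 5 6) 0 0 (step_sound _ 68 [(rh33e738c4ed385b9f.shift 1 1), rhd0066972526ea4b9] (by decide +kernel))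
noncomputable def rha3641f30015779ed : CRef := CRef.mk (Pat.mk 0x58000000000000007800000040 0x7e000000fe000001c70000007800000040 5 9) 0 0 (step_sound _ 101 [(rh2c38abab8fc96547.shift 2 1), (rhab0acc3af159c362.shift 3 0), (rhcb39f338366dfbf3.shift 0 2)] (by decide +kernel))
noncomputable def rhb6134a4ba7baf3e9 : CRef := CRef.mk (Pat.mk 0xb000000000000000f00000008 0x140000001e0000001b000000180000000f00000008 5 5) 0 0 (step_sound _ 67 [(rh33e738c4ed385b9f.shift 0 1), rh3c8f4260c625d1ca] (by decide +kernel))
noncomputable def rh131adc0b21dad767 : CRef := CRef.mk (Pat.mk 0x2c000000000000002000000020 0xff0000007e000000200000002000000020 5 8) 0 0 (step_sound _ 100 [(rh05e15f63bf4f90c9.shift 1 0), (rh36329e17fd511d53.shift 1 0), (rh4c622fddc53a5f99.shift 0 3), (rh968b07e3fb4782be.shift 1 0), rha4c194df36df815e] (by decide +kernel))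
noncomputable def rh391fa942a1a521d6 : CRef := CRef.mk (Pat.mk 0x5800000000 0x3ff000001fe00000387 5 10) 0 0 (step_sound _ 37 [(rh4c622fddc53a5f99.shift 1 1), rh525c09f832ac1ad2, rhcb39f338366dfbf3, (rhd22efb4d25a74e1a.shift 3 0), (rhdc173edb4e3fed61.shift 2 0)] (by decide +kernel))
noncomputable def rh3a31c147d36b4e65 : CRef := CRef.mk (Pat.mk 0x7000000000 0x1ff000000fe0000000e 5 9) 0 0 (step_sound _ 35 [(rh0cc4c691701426ad.shift 2 1), rh3b45ba8ad278d209, (rh592c7139d2c44767.shift 1 0), (rh9e97bba44c1b13e4.shift 1 0)] (by decide +kernel))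
noncomputable def rh02d844ed35ad34b6 : CRef := CRef.mk (Pat.mk 0x38000000000000007800000050 0xcf000000fc00000186000000fc00000058 5 9) 0 0 (step_sound _ 130 [(rh0260b1b6e7d003cf.shift 1 0), (rh4df35fbc131eb4ae.shift 0 3), (rh8394c11568efe4fe.shift 2 0)] (by decide +kernel))
noncomputable def rhc6793a3a9a7b499e : CRef := CRef.mk (Pat.mk 0x1e000000000000000400000000 0x4000000070000003e000000030000000600000004 5 6) 0 0 (step_sound _ 65 [(rheb0810cc63b001d8.shift 0 2), rhfc08d82a46183e62] (by decide +kernel))
noncomputable def rha047756ebabbbc0b : CRef := CRef.mk (Pat.mk 0x3c00000000 0x3c000000ff00000007 5 8) 0 0 (step_sound _ 33 [(rh211a6c48392e6e74.shift 0 1), rheae1728ff4a56756] (by decide +kernel))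
noncomputable def rh538806e76ffe9d5b : CRef := CRef.mk (Pat.mk 0x7800000000000000b000000080 0x770000007e0000000e000000f000000180 5 9) 0 0 (step_sound _ 8 [(rh3b45ba8ad278d209.shift 0 2), (rhc10214bf3fe8094a.shift 4 0)] (by decide +kernel))
noncomputable def rhc4dd5a103c5ac7c1 : CRef := CRef.mk (Pat.mk 0x7000000000000000e0000000a 0x3e0000001f000000300000001e0000000b 5 6) 0 0 (step_sound _ 36 [rhd1459ccacd5cf43a, rheb0810cc63b001d8] (by decide +kernel))
noncomputable def rh38ee96a1e414470c : CRef := CRef.mk (Pat.mk 0x1600000000000000160000001000000000 0x2f0000003e000000300000001e0000001000000010 5 6) 0 0 (step_sound _ 100 [(rh0a88cd63e34485c5.shift 1 0), (rh39b84031d160205a.shift 0 1), (rh51e51e8d2827a2be.shift 1 2)] (by decide +kernel))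
noncomputable def rha083b8f3b9d524ef : CRef := CRef.mk (Pat.mk 0xb000000080000000b 0x140000001c0000001e0000000b000000180000001f 5 5) 0 0 (step_sound _ 36 [rh1c62b6193297d9e3, rh8ee8e0fda8cf069e] (by decide +kernel))
noncomputable def rh95e59ab397a8968f : CRef := CRef.mk (Pat.mk 0x7800000000 0x7e0000007e00000007 5 7) 0 0 (step_sound _ 66 [rh025ebb45ce709cdb, (rh3f8766e6ecb455ce.shift 2 1)] (by decide +kernel))
noncomputable def rhe969d577ae946923 : CRef := CRef.mk (Pat.mk 0x1e000000000000001000000010 0x670000003e000000600000003000000010 5 7) 0 0 (step_sound _ 129 [(rh3244c3cc8379b070.shift 0 3), (rhd805eddfa5fec78d.shift 1 0)] (by decide +kernel))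
noncomputable def rhc6ae60f5ac85e9ef : CRef := CRef.mk (Pat.mk 0x80000000b00000008000000000000000000000000 0x10000000180000001f000000080000000c0000000c00000004 5 5) 0 0 (step_sound _ 164 [(rh1c62b6193297d9e3.shift 0 4), (rh274a837cd7eaa569.shift 2 0)] (by decide +kernel))
noncomputable def rh8dc83603f24af7bf : CRef := CRef.mk (Pat.mk 0x2c000000000000002000000020 0xff0000007e000000200000002000000020 5 8) 0 0 (step_sound _ 100 [(rh1cc0eab914658d8b.shift 1 0), (rh4c622fddc53a5f99.shift 0 3), (rh6a78fa75f0f8d5b0.shift 2 0), rha4c194df36df815e] (by decide +kernel))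
noncomputable def rhb346c908451f6a93 : CRef := CRef.mk (Pat.mk 0x2000000020000000200000002000000000000000000000000 0x6000000060000000600000006000000070000000700000001 5 3) 0 0 (step_sound _ 66 [rha1525bb463ada7fb, (rhd3458b32566d63f7.shift 1 2)] (by decide +kernel))
noncomputable def rhdbb4195926374320 : CRef := CRef.mk (Pat.mk 0x2c00000000000000200000002000000000 0x770000003e00000060000000600000006000000040 5 7) 0 0 (step_sound _ 132 [(rh4c622fddc53a5f99.shift 0 4), (rhac53c00637716274.shift 2 0), (rhdad6fb8687a5e7f2.shift 2 1)] (by decide +kernel))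
noncomputable def rhe42acc0e8a161ada : CRef := CRef.mk (Pat.mk 0xb00000008000000080000000800000000 0x140000001e0000000b00000008000000180000001800000010 5 5) 0 0 (step_sound _ 36 [(rh55afc6a59410cf00.shift 3 0), (rhe81211ef80657552.shift 0 1)] (by decide +kernel))
noncomputable def rh4fe26c1ce75b0122 : CRef := CRef.mk (Pat.mk 0x160000000000000010000000100000000000000000 0x2f0000003e0000003000000010000000300000003000000020 5 6) 0 0 (step_sound _ 132 [(rh39b84031d160205a.shift 0 2), (rhc9de03f9731897d4.shift 4 0), (rheca207e390c8f755.shift 1 2)] (by decide +kernel))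
noncomputable def rh3abb27c663038e1d : CRef := CRef.mk (Pat.mk 0x1000000008000000700000003000000000 0x200000007c0000002f000000780000003000000010 5 7) 0 0 (step_sound _ 98 [(rh09d4dfe75d4407d6.shift 2 2), rha1fe594ba22c8e8c] (by decide +kernel))
noncomputable def rh70aca44cca3edb83 : CRef := CRef.mk (Pat.mk 0x90000000800000008000000080000001000000000 0x100000001c0000001f0000000800000008000000080000001800000010 5 5) 0 0 (step_sound _ 4 [(rh003c7867c9043fd7.shift 0 2), (rhbe0e43a3bc50a43f.shift 3 0)] (by decide +kernel))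
noncomputable def rh60acce34b5923411 : CRef := CRef.mk (Pat.mk 0x1a000000100000000200000000 0x400000004000000040000001e000000370000000200000002 5 6) 0 0 (step_sound _ 98 [(rhe25b0a99195a5d59.shift 1 2), rhf8d2c1ffa8e3abe1] (by decide +kernel))
noncomputable def rh56415f180723e904 : CRef := CRef.mk (Pat.mk 0x90000000800000008000000080000000000000000 0x40000001f0000001800000008000000180000001800000010 5 5) 0 0 (step_sound _ 36 [rh89ba0b9fa0cfc5a9, (rhd3458b32566d63f7.shift 3 1)] (by decide +kernel))
noncomputable def rhbec44d5f438e9215 : CRef := CRef.mk (Pat.mk 0x1600000010 0x770000003e00000030 5 7) 0 0 (step_sound _ 35 [(rh22b38309c56a80eb.shift 0 1), (rhe25b0a99195a5d59.shift 1 0)] (by decide +kernel))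
noncomputable def rh29b38ff9862c437e : CRef := CRef.mk (Pat.mk 0x600000006000000020000000000000000 0x1000000030000000700000006000000030000000300000003 5 3) 0 0 (step_sound _ 33 [(rh71222050f2c63a3a.shift 1 0), rhfbd142acd04e79a5] (by decide +kernel))
noncomputable def rhff388f1ccb523833 : CRef := CRef.mk (Pat.mk 0x7000000020000000300000002000000000 0xf000001fe0000003e000000300000003000000010 5 9) 0 0 (step_sound _ 131 [(rh01ac0821a463c3cc.shift 1 0), (rh42744861eba0bda2.shift 0 3), (rh592c7139d2c44767.shift 1 3), (rh7c25be9386eb2e3e.shift 2 0), (rhb9739f1ab700cea6.shift 2 0)] (by decide +kernel))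
noncomputable def rh5970369cc29b1c4c : CRef := CRef.mk (Pat.mk 0x1e000000000000001000000010 0x700000003e000000630000003000000010 5 7) 0 0 (step_sound _ 133 [rh1559955ecf53c1c6, (rh428265de8cd3cd2d.shift 1 3)] (by decide +kernel))
noncomputable def rh0c1050593a87f960 : CRef := CRef.mk (Pat.mk 0x1e00000000000000100000001000000000 0x300000001e00000033000000300000003000000020 5 6) 0 0 (step_sound _ 164 [(rh33e738c4ed385b9f.shift 1 4), rhdd128ce39c6c8e40] (by decide +kernel))
noncomputable def rh224800885815ad17 : CRef := CRef.mk (Pat.mk 0x200000003000000000000000400000004 0x3b0000001f0000003c0000000c00000004 5 6) 0 0 (step_sound _ 98 [rh00187c35da60cec0, (rh2613c889e411427e.shift 1 0)] (by decide +kernel))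
noncomputable def rh7530e69f327d5753 : CRef := CRef.mk (Pat.mk 0x1c000000000000002c0000002c 0x130000003e0000002f0000002e0000002c 5 6) 0 0 (step_sound _ 132 [(rh04253f50b6dd0619.shift 3 0), rhbaabc6cf3e7e34b8] (by decide +kernel))
noncomputable def rhdc614a6ff293e87f : CRef := CRef.mk (Pat.mk 0x1c000000000000000c0000000c 0x330000001e0000000b0000000e0000000c 5 6) 0 0 (step_sound _ 132 [(rh04253f50b6dd0619.shift 3 0), rh384d2e579349ba70] (by decide +kernel))
noncomputable def rh9d0ec266e59cecd2 : CRef := CRef.mk (Pat.mk 0xe00000000000000140000001400000000 0x380000003e00000037000000340000003400000020 5 6) 0 0 (step_sound _ 132 [(rh7955f19473c09b83.shift 0 1), (rha761300b78595edf.shift 2 1), (rhac53c00637716274.shift 1 0)] (by decide +kernel))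
noncomputable def rh71c205c8e7269289 : CRef := CRef.mk (Pat.mk 0x1c00000000000000240000002400000000 0x630000003e00000067000000660000006400000040 5 7) 0 0 (step_sound _ 133 [(rh2d6456998b44a133.shift 0 1), (rhac53c00637716274.shift 2 0)] (by decide +kernel))
noncomputable def rhf497d0e10a678129 : CRef := CRef.mk (Pat.mk 0x20000001a000000000000001800000000 0x10000000100000003000000030000001e000000030000001f00000007 5 5) 0 0 (step_sound _ 65 [(rh01e48cd9f335aa73.shift 0 2), rh363ae3da3de3a14c, (rhe8a9e0e6037b7c6e.shift 0 1), rhf097a4a097ee831d] (by decide +kernel))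
noncomputable def rhf46d583591ad4f8e : CRef := CRef.mk (Pat.mk 0x20000001a00000012000000180000000000000000 0x2000000120000001f00000013000000190000000900000001 5 5) 0 0 (step_sound _ 35 [(rh5c5e593799055d58.shift 3 1), rh712b6e7d90bff97a] (by decide +kernel))
noncomputable def rh372c3714a9a88457 : CRef := CRef.mk (Pat.mk 0x100000009000000090000000c00000000 0x900000009000000e90000007f000000f7 5 8) 0 0 (step_sound _ 36 [rhd351565150949118, (rhd5979d9ced4acd89.shift 1 0), (rhde10baa3043a2b46.shift 2 0)] (by decide +kernel))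
noncomputable def rhf7373758c9e17d99 : CRef := CRef.mk (Pat.mk 0x200000012000000100000001a00000000 0x1000000030000001300000012000000130000001f0000000f 5 5) 0 0 (step_sound _ 132 [(rh932754581e0f4330.shift 3 0), rhf6e14637d414a105] (by decide +kernel))
noncomputable def rh9e7dc5ff5d2cac94 : CRef := CRef.mk (Pat.mk 0x200000012000000100000001a0000000000000000 0x1000000030000001300000013000000130000001f0000000b00000001 5 5) 0 0 (step_sound _ 164 [(rh932754581e0f4330.shift 3 1), rha238b647ae5603e4] (by decide +kernel))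
noncomputable def rhb74b685ad71cb3f8 : CRef := CRef.mk (Pat.mk 0x200000012000000100000001a0000000000000000 0x10000001300000013000000120000003f0000002f00000005 5 6) 0 0 (step_sound _ 164 [(rh932754581e0f4330.shift 3 1), rhc947567c21aef8d3] (by decide +kernel))
noncomputable def rh199be9165565ad97 : CRef := CRef.mk (Pat.mk 0x200000012000000100000001a0000000000000000 0x10000001300000013000000130000001e0000000f00000005 5 5) 0 0 (step_sound _ 35 [(rh5c5e593799055d58.shift 3 1), rhf2d024f4fcf850ff] (by decide +kernel))
noncomputable def rhfbf370cb7ebefa58 : CRef := CRef.mk (Pat.mk 0x800000048000000400000006800000000 0x480000004c0000004f000001fe000003b7 5 10) 0 0 (step_sound _ 36 [(rh17a2532da6e9fbda.shift 3 0), (rh24ee6ed3ace170eb.shift 1 0), (rh993fdb6c3ac61b99.shift 2 0), rhd5b7c4e3619bf733] (by decide +kernel))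
noncomputable def rh013aab45c5de02c3 : CRef := CRef.mk (Pat.mk 0x200000002000000000000001a0000000000000000 0x400000007000000070000000300000003000000030000001f0000000600000004 5 5) 0 0 (step_sound _ 97 [(rh3a6dba598e7ad493.shift 0 2), rh5ad9898cc32ef511, (rhcd496e99dbfe6492.shift 0 1)] (by decide +kernel))
noncomputable def rh8d1562b216e7fa9a : CRef := CRef.mk (Pat.mk 0x200000012000000100000001a0000000000000000 0x400000007000000070000001300000013000000130000001b0000000f00000005 5 5) 0 0 (step_sound _ 97 [(rh3a6dba598e7ad493.shift 0 2), rh4d9fb53d5c5533a9, rh6aa5625770489e83, rhf68f91c55a318d0f] (by decide +kernel))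
noncomputable def rh83e34a48df2de57d : CRef := CRef.mk (Pat.mk 0x200000002000000000000001a0000000000000000 0x10000000300000003000000030000001f0000000700000001 5 5) 0 0 (step_sound _ 97 [rh6aa5625770489e83, (rhcd496e99dbfe6492.shift 0 1)] (by decide +kernel))
noncomputable def rh12fc1d5ad297c074 : CRef := CRef.mk (Pat.mk 0x800000048000000400000006800000000 0x480000004c00000047000001fe000003bf 5 10) 0 0 (step_sound _ 36 [(rh2c56be22e7e0e355.shift 1 0), (rhc9ab234beaaf90fa.shift 3 0), rhd5b7c4e3619bf733, (rhe34c2a4bad6c590c.shift 2 0)] (by decide +kernel))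
noncomputable def rh8824b7eab7e8243d : CRef := CRef.mk (Pat.mk 0x200000012000000100000001a0000000000000000 0x10000001300000013000000130000001f0000000f00000001 5 5) 0 0 (step_sound _ 164 [(rh932754581e0f4330.shift 3 1), rhbf68c3d532b64114] (by decide +kernel))
noncomputable def rhda90b768981a09fb : CRef := CRef.mk (Pat.mk 0x20000001a000000020000001800000000 0x1000000030000001f000000020000001f00000003 5 5) 0 0 (step_sound _ 128 [(rh5419adcd928dba20.shift 0 3), rh6120bc6b14b0b1d6] (by decide +kernel))
noncomputable def rhb0645d647fa8b06b : CRef := CRef.mk (Pat.mk 0x20000000200000002000000180000000000000000 0x10000000300000003000000030000001f0000000700000001 5 5) 0 0 (step_sound _ 65 [rh6aa5625770489e83, (rhcd496e99dbfe6492.shift 0 1)] (by decide +kernel))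
noncomputable def rh96482d388a6b5355 : CRef := CRef.mk (Pat.mk 0x20000001a00000000000000180000000800000000 0x100000003000000030000001f000000030000001f0000000f00000001 5 5) 0 0 (step_sound _ 97 [(rh01e48cd9f335aa73.shift 0 3), rh45f35e0ccabaac01, (rhf64cf2cfa0eeb0d9.shift 0 2)] (by decide +kernel))
noncomputable def rhb961eddd18ed296e : CRef := CRef.mk (Pat.mk 0xa000000180000001000000018000000000000000000000000 0x1f0000007c0000001000000018000000080000000800000008 5 7) 0 0 (step_sound _ 67 [(rh5c5e593799055d58.shift 3 2), rh8bf92c46d515b210] (by decide +kernel))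
noncomputable def rh179767cb0dc619d4 : CRef := CRef.mk (Pat.mk 0x40000000c0000000c0000000c00000000 0xa0000000f0000003c0000000c0000001c00000010 5 6) 0 0 (step_sound _ 131 [rh0d84d5d4fe80ad89, (rh5c5e593799055d58.shift 2 1)] (by decide +kernel))
noncomputable def rhf0df43c0ba239771 : CRef := CRef.mk (Pat.mk 0x800000018000000120000001e00000000 0x50000001f0000001f0000001a0000001e00000003 5 5) 0 0 (step_sound _ 1 [rh3cd259c6e927b42f, rheb0810cc63b001d8] (by decide +kernel))
noncomputable def rh2fc061da5ef9a961 : CRef := CRef.mk (Pat.mk 0x800000018000000000000001e00000000 0x50000000f0000007e000000030000001e00000004 5 7) 0 0 (step_sound _ 65 [(rh3244c3cc8379b070.shift 0 1), rhd1b875f19a7279d0] (by decide +kernel))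
noncomputable def rhc3ff11d15777c4bc : CRef := CRef.mk (Pat.mk 0x800000018000000000000001e00000000 0x50000001f0000007e000000030000001e00000004 5 7) 0 0 (step_sound _ 65 [(rh3244c3cc8379b070.shift 0 1), rhba4cce9a2a2c632f] (by decide +kernel))
noncomputable def rh9976fb7d5298745f : CRef := CRef.mk (Pat.mk 0xa0000001a00000010000000010000000000000000 0x20000000a0000003a0000001f0000003f0000001500000001 5 6) 0 0 (step_sound _ 97 [rh0e6924d680f6455d, (rh7d6ac68ee29482af.shift 0 1), (rha3ca7013b15bb16f.shift 0 1)] (by decide +kernel))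
noncomputable def rhcba2d8acf7178fd3 : CRef := CRef.mk (Pat.mk 0xa0000001a00000010000000010000000000000000 0x80000000a0000000a0000003a0000001f0000000f0000000500000001 5 6) 0 0 (step_sound _ 97 [rh0e6924d680f6455d, (rh778cac64a1d1fb60.shift 0 2), (rha3ca7013b15bb16f.shift 0 1), (rhd6ff727d1eede939.shift 0 1)] (by decide +kernel))
noncomputable def rhee76c82cc5922b09 : CRef := CRef.mk (Pat.mk 0x20000000600000000000000010000000000000000 0x200000002000000060000000600000007000000070000000700000005 5 3) 0 0 (step_sound _ 97 [(rh7e2b5fc52af4e919.shift 0 2), rh816debf2b169d216, rhb01ac4982a11ea27] (by decide +kernel))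
noncomputable def rhc205d8388aa0d7ea : CRef := CRef.mk (Pat.mk 0x5800000040000000000000003800000000 0x78000000c0000000070000007e000000ff 5 8) 0 0 (step_sound _ 34 [(rh0edd3afef6b5d7e0.shift 1 0), rh29dce71f1e5ca186, rh775ca1963e850b80, rh9c548838e8725ba1] (by decide +kernel))
noncomputable def rhd8b39d312b36c2a6 : CRef := CRef.mk (Pat.mk 0xf0000000a000000000000000500000000 0xa0000001f0000000b0000001e0000000700000003 5 5) 0 0 (step_sound _ 96 [(rh18965a982d73c794.shift 0 3), rh1f1a975e11f03052] (by decide +kernel))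
noncomputable def rhf055b4721d0472df : CRef := CRef.mk (Pat.mk 0x50000000d00000000000000020000000000000000 0x50000000d0000003d0000000f0000000e0000000e0000000a 5 6) 0 0 (step_sound _ 98 [(rh35da04d37c15686f.shift 0 2), (rh816debf2b169d216.shift 1 0), (rhb01ac4982a11ea27.shift 1 0)] (by decide +kernel))
noncomputable def rh749767dc9f30b489 : CRef := CRef.mk (Pat.mk 0x2000000020000000000000001c00000000 0x200000002000000020000000700000003e00000077 5 7) 0 0 (step_sound _ 37 [rh41140eaa67c26838, (rh89ede30a9bebefed.shift 1 0), (rhd5b731d5aad98dec.shift 2 0)] (by decide +kernel))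
noncomputable def rh40c3588c84ef59c4 : CRef := CRef.mk (Pat.mk 0x1c00000014000000000000000a00000000 0x140000003c000000160000003c0000001f0000000a 5 6) 0 0 (step_sound _ 133 [rh0ea51c2d0b2dcd43, (rheb0810cc63b001d8.shift 1 3)] (by decide +kernel))
noncomputable def rh79370329a2139df8 : CRef := CRef.mk (Pat.mk 0x1000000010000000170000001400000000000000080000000000000000 0x10000000150000001700000036000000360000003e0000000e00000002 5 6) 0 0 (step_sound _ 66 [(rh377a4b472c5e0f50.shift 0 1), (rh81e4d5ac9186a27b.shift 2 1), (rha9ab61cfc35bc243.shift 1 0), (rhbdf8909289fdf321.shift 1 1)] (by decide +kernel))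
noncomputable def rh55123a52893bdba6 : CRef := CRef.mk (Pat.mk 0x8000000080000000b0000000a000000000000000400000000 0x5000000070000000f0000001a0000000b0000000b000000070000000700000005 5 5) 0 0 (step_sound _ 161 [(rh1c414583801ba62f.shift 0 3), (rhb97849c77b9bfb2d.shift 0 2), rhff763b75cad9671b] (by decide +kernel))
noncomputable def rh0228b0387419a1ae : CRef := CRef.mk (Pat.mk 0x1e0000000c000000080000000000000000 0x200000002000000030000001e0000000c0000000c0000000c0000000c 5 5) 0 0 (step_sound _ 161 [(rh3244c3cc8379b070.shift 0 4), (rhe8b2894460248d88.shift 1 0)] (by decide +kernel))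
noncomputable def rh2e076e66ee007521 : CRef := CRef.mk (Pat.mk 0xa0000000b0000000300000000 0x2000000120000001e0000000b0000001f0000001c 5 5) 0 0 (step_sound _ 100 [(rhb2a0b9ccfb5cecd5.shift 0 2), rhcc835fa32abd8cc1] (by decide +kernel))
noncomputable def rh1080998bc48bf8c4 : CRef := CRef.mk (Pat.mk 0xe0000000c000000080000000800000000 0x20000000e0000000c0000000f0000003c00000014 5 6) 0 0 (step_sound _ 36 [rh1b4aeff0091c6f0d, (rh55afc6a59410cf00.shift 3 0)] (by decide +kernel))
noncomputable def rh359b9af2de33ffb2 : CRef := CRef.mk (Pat.mk 0x700000016000000040000000000000000 0x40000000500000007000000360000003e0000000a00000002 5 6) 0 0 (step_sound _ 65 [rh40241bd608e5be1a, (rhea7a1800d6f053bd.shift 1 0), (rhfc60cf662bc146cb.shift 1 1)] (by decide +kernel))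
noncomputable def rhdf3811e0ed24323b : CRef := CRef.mk (Pat.mk 0x700000006000000040000000000000000 0x50000000700000006000000060000000e0000000e 5 4) 0 0 (step_sound _ 34 [(rh7b1f1fb55310c477.shift 1 0), rha4cc4e764f24332e] (by decide +kernel))
noncomputable def rh4d802211d7e6f343 : CRef := CRef.mk (Pat.mk 0x40000000c0000000400000008000000000000000000000000 0x40000000c0000000c0000001f0000007c000000100000001000000010 5 7) 0 0 (step_sound _ 131 [(rh2145e1d24b96a57e.shift 2 3), rhcbcd736dc09739f9] (by decide +kernel))
noncomputable def rhff260181c40c81b4 : CRef := CRef.mk (Pat.mk 0x80000001800000018000000000000000000000000 0x18000000180000007c0000000f0000000c0000000c 5 7) 0 0 (step_sound _ 67 [(rh46530d756bdf8511.shift 2 0), (rh80650b8e93363f1e.shift 0 1), (rhea7a1800d6f053bd.shift 3 0)] (by decide +kernel))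
noncomputable def rhb339781626c9db8b : CRef := CRef.mk (Pat.mk 0x200000002000000020000000200000000 0x4000000060000000600000002000000060000000700000005 5 3) 0 0 (step_sound _ 0 [(rh006e276e36d5cbd3.shift 1 0), rh79877ebd3ef475dd] (by decide +kernel))
noncomputable def rha5d654f2ef2a6ee6 : CRef := CRef.mk (Pat.mk 0x1a0000001a0000000800000000 0x8000000180000001a0000001a0000007a0000001f00000004 5 7) 0 0 (step_sound _ 132 [rh0d1ca0b192c8cf49, (rh5c5e593799055d58.shift 3 1)] (by decide +kernel))
noncomputable def rh7942bacd8c999042 : CRef := CRef.mk (Pat.mk 0x1a0000001a000000080000000000000000 0xa0000001a0000001a0000000f0000000c0000000c 5 5) 0 0 (step_sound _ 35 [rh326bb5c62e94def2, (rh71222050f2c63a3a.shift 3 0)] (by decide +kernel))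
noncomputable def rhbd58111dd519a295 : CRef := CRef.mk (Pat.mk 0x40000000c000000040000000400000000 0x80000000c0000000c0000003e0000007f0000001a 5 7) 0 0 (step_sound _ 35 [(rh55afc6a59410cf00.shift 2 0), rhd5ce6cfbca4fc44c] (by decide +kernel))
noncomputable def rh3295568599f8a313 : CRef := CRef.mk (Pat.mk 0x80000001800000018000000000000000000000000 0x800000038000000ff000000ee0000000400000004 5 8) 0 0 (step_sound _ 98 [(rh75ab166bafd6c308.shift 1 0), (rhab2ad169e49f9c5e.shift 0 3)] (by decide +kernel))
noncomputable def rhe40ef56aa46358e3 : CRef := CRef.mk (Pat.mk 0x40000000c0000000c00000000 0xc0000000c000000040000003c0000000f00000002 5 6) 0 0 (step_sound _ 130 [(rh2145e1d24b96a57e.shift 2 1), rh5916e081cc655c17] (by decide +kernel))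
noncomputable def rhb002a553cb3695b6 : CRef := CRef.mk (Pat.mk 0x800000018000000180000000000000000 0x1000000030000000f8000000f8000000ff0000003000000030 5 8) 0 0 (step_sound _ 102 [rh422e668c9298c84d, (rhd11dc6dd83191698.shift 2 2), (rhfa3e679fe38940fc.shift 3 0)] (by decide +kernel))
noncomputable def rhb58235721fe0b773 : CRef := CRef.mk (Pat.mk 0x200000002000000020000000200000000 0x4000000060000000600000002000000030000000700000005 5 3) 0 0 (step_sound _ 2 [(rhd3458b32566d63f7.shift 1 0), rhd9d598133124fa86] (by decide +kernel))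
noncomputable def rh9c5a9349999f4e24 : CRef := CRef.mk (Pat.mk 0xb0000000a000000080000000000000000 0x10000000380000001f0000000b0000000c0000000c00000004 5 6) 0 0 (step_sound _ 164 [(rh14c650b81439982e.shift 0 2), (rh66d46f39a73ee696.shift 2 0), (rh86bf295edf98b8a4.shift 0 1)] (by decide +kernel))
noncomputable def rhbde1eca077c906ec : CRef := CRef.mk (Pat.mk 0xb0000000a000000080000000000000000 0x10000000380000001f0000000b000000180000001800000010 5 6) 0 0 (step_sound _ 164 [(rh14c650b81439982e.shift 0 2), (rh51573b6314c3db61.shift 3 0), (rh86bf295edf98b8a4.shift 0 1)] (by decide +kernel))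
noncomputable def rhc872beae9c3c03a5 : CRef := CRef.mk (Pat.mk 0xa0000000a0000000800000004 0xa0000000a0000000b0000003e00000007 5 6) 0 0 (step_sound _ 34 [(rh5c5e593799055d58.shift 2 0), rhe59693a22b23878a] (by decide +kernel))
noncomputable def rhbc6c672b90d1445b : CRef := CRef.mk (Pat.mk 0x700000006000000100000000000000000 0x40000000500000007000000060000003e0000000f0000000e 5 6) 0 0 (step_sound _ 66 [rh23af2af7becd8e86, (rh7dbe302d4f684d89.shift 1 0), rha210c422688bf4e3, (rhe0c44693bdcb5e28.shift 1 1), rhf16923b4788ed150] (by decide +kernel))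
noncomputable def rh87f1ec783521e174 : CRef := CRef.mk (Pat.mk 0x20000000200000002000000000000000000000000 0x400000006000000060000000200000007000000070000000700000005 5 3) 0 0 (step_sound _ 65 [(rh006e276e36d5cbd3.shift 1 1), rh6eff4158bb400f47, (rhd9d598133124fa86.shift 0 1)] (by decide +kernel))
noncomputable def rh3a5ac4cef59e7e30 : CRef := CRef.mk (Pat.mk 0xa0000000a0000000800000004 0xa0000000a0000003b0000001f00000004 5 6) 0 0 (step_sound _ 34 [(rh5c5e593799055d58.shift 2 0), rh66c1638032b275b8] (by decide +kernel))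
noncomputable def rh5b5aa842f172f4bc : CRef := CRef.mk (Pat.mk 0xa0000000a000000080000000800000000 0xa0000000a0000000a0000001f0000007c00000010 5 7) 0 0 (step_sound _ 36 [(rh55afc6a59410cf00.shift 3 0), (rhbbe7360674484119.shift 0 1)] (by decide +kernel))
noncomputable def rh92a4fbbe14d43a4b : CRef := CRef.mk (Pat.mk 0x20000000200000002000000040000000000000000 0x4000000060000000600000002000000070000000700000001 5 3) 0 0 (step_sound _ 65 [(rh55afc6a59410cf00.shift 1 1), rha78b327dad5d6a04] (by decide +kernel))
noncomputable def rh192f51283cc6c4d2 : CRef := CRef.mk (Pat.mk 0xa0000000a000000080000000c00000000 0x1a0000001a0000000a0000000f0000001c00000010 5 5) 0 0 (step_sound _ 132 [(rh2f68792b6b779e96.shift 3 1), rh75c54538b87708d0] (by decide +kernel))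
noncomputable def rhdb581079a11b7ed7 : CRef := CRef.mk (Pat.mk 0x80000000800000008000000060000000000000000 0x100000001800000018000000080000000f0000001c00000010 5 5) 0 0 (step_sound _ 67 [(rh932754581e0f4330.shift 2 1), rhfdd9aee12f9d3331] (by decide +kernel))
noncomputable def rh65b9639a5ef21f4b : CRef := CRef.mk (Pat.mk 0x700000004000000100000000c00000000 0x50000000700000006000000370000001e00000007 5 6) 0 0 (step_sound _ 33 [rha570882cd450916c, (rhd8f1020fdef59d6a.shift 0 1), rhf07ea8111c4ec1b3] (by decide +kernel))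
noncomputable def rha4ec09d1468d5b40 : CRef := CRef.mk (Pat.mk 0x10000000100000001000000010000000000000000 0x20000000300000003000000030000000300000003000000030000000100000001 5 2) 0 0 (step_sound _ 192 [(rh44f453b84f013105.shift 0 2), (rh5ef66011045fb859.shift 0 2), rhc9696e4650cbd493] (by decide +kernel))
noncomputable def rhc83e04c7aa832270 : CRef := CRef.mk (Pat.mk 0xa0000000a000000080000000c00000000 0x20000000a0000000a0000003f0000003f00000010 5 6) 0 0 (step_sound _ 36 [(rh55afc6a59410cf00.shift 3 0), (rh843c335c39283947.shift 0 1)] (by decide +kernel))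
noncomputable def rh1081089e9cd7eb6c : CRef := CRef.mk (Pat.mk 0x8000000080000000a0000001800000000 0x1000000018000000080000003b0000001f00000004 5 6) 0 0 (step_sound _ 34 [(rh932754581e0f4330.shift 2 0), (rhfea65620c23b29e1.shift 0 1)] (by decide +kernel))
noncomputable def rhf5b77440b37c3c4f : CRef := CRef.mk (Pat.mk 0x2000000020000000200000002 0x400000007000000070000000700000006000000060000000600000002 5 3) 0 0 (step_sound _ 129 [(rh44f453b84f013105.shift 1 0), (rhb0600cead595b55a.shift 0 1), rhbdb34f420224b15e, (rhf5c1905878495bf7.shift 0 1)] (by decide +kernel))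
noncomputable def rha8ef80620549fc75 : CRef := CRef.mk (Pat.mk 0x8000000080000000a0000000800000000 0x800000008000000080000003b0000001e00000014 5 6) 0 0 (step_sound _ 34 [rh8f4766893dc08add, (rh932754581e0f4330.shift 2 0)] (by decide +kernel))
noncomputable def rhb79be3796f1f9759 : CRef := CRef.mk (Pat.mk 0x80000000c000000080000000800000000 0x8000000080000000f0000007c0000001800000010 5 7) 0 0 (step_sound _ 36 [(rh55afc6a59410cf00.shift 3 0), (rhc2b978e6dcd8bb51.shift 0 1)] (by decide +kernel))
noncomputable def rh3ed9de60b241694a : CRef := CRef.mk (Pat.mk 0x20000001e0000001a000000000000000000000000 0x500000007000000070000000e0000001e0000001e0000000c0000000c0000000c 5 5) 0 0 (step_sound _ 193 [(rh35e4bd72e771bccb.shift 1 0), (rhc85cc95794737cf7.shift 0 3), (rhd4b4beefcd67f51e.shift 1 2)] (by decide +kernel))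
noncomputable def rh51f1b2b5ed6b9a0d : CRef := CRef.mk (Pat.mk 0x10000000180000001000000018 0x2e0000003f000000380000001800000018 5 6) 0 0 (step_sound _ 99 [(rh50fbb5868c909700.shift 3 0), rhfe3d25fc672e0d73] (by decide +kernel))
noncomputable def rh4e5711838124a51f : CRef := CRef.mk (Pat.mk 0x80000007800000040 0x18000000ff00000067 5 8) 0 0 (step_sound _ 34 [(rh96851dee118c1ba3.shift 2 0), rhc65ca09abc388a61] (by decide +kernel))
noncomputable def rh074fd259b7a6fbaa : CRef := CRef.mk (Pat.mk 0x20000001e00000000 0x760000003f00000038 5 7) 0 0 (step_sound _ 4 [rh818defa14017d594, (rhe25b0a99195a5d59.shift 1 0)] (by decide +kernel))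
noncomputable def rhd706c045747d5eb8 : CRef := CRef.mk (Pat.mk 0x18000000180000000800000000 0x1c0000001f00000038000000180000001800000010 5 6) 0 0 (step_sound _ 132 [rh0b75002a0478683f, (rh5c5e593799055d58.shift 3 1)] (by decide +kernel))
noncomputable def rh49ebcbaac3a39965 : CRef := CRef.mk (Pat.mk 0x20000000f000000000 0x7e000000fe00000007 5 8) 0 0 (step_sound _ 35 [rh7f0f728c796044ac, (rhd5eb272e07a4e288.shift 2 1), (rhedf6b6c69a16cbd5.shift 1 1)] (by decide +kernel))
noncomputable def rh24a26d6228d626b8 : CRef := CRef.mk (Pat.mk 0x200000007000000008 0x770000007e0000000c 5 7) 0 0 (step_sound _ 35 [(rh3e0b38310ac09007.shift 0 1), (rheb0810cc63b001d8.shift 2 0)] (by decide +kernel))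
noncomputable def rhfa962880dcb026ce : CRef := CRef.mk (Pat.mk 0x100000007800000004 0x370000007e000000c6 5 8) 0 0 (step_sound _ 6 [rh2793be06f124c05c, (rhe25b0a99195a5d59.shift 3 0)] (by decide +kernel))
noncomputable def rhfb74894423510101 : CRef := CRef.mk (Pat.mk 0x10000000100000000a0000001a00000000000000000000000000000000 0x1000000350000001f0000000b0000001e0000000b000000030000000100000001 5 6) 0 0 (step_sound _ 97 [(rh01e48cd9f335aa73.shift 0 3), rh5c8c873042790be0, (rh646f010ec5a5991e.shift 0 1), (rhe8a9e0e6037b7c6e.shift 0 2)] (by decide +kernel))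
noncomputable def rh1ede0cc3e1fbed48 : CRef := CRef.mk (Pat.mk 0x1000000000000000020000000200000002000000000000000000000000 0x40000001f00000007000000030000000200000002000000070000000700000005 5 5) 0 0 (step_sound _ 192 [rh641084bb64cf8acf, (rhf5244b03d2a97778.shift 0 3)] (by decide +kernel))
noncomputable def rh4e3b96c138b44aa4 : CRef := CRef.mk (Pat.mk 0x10000000080000000a0000001a00000000 0x100000001000000018000000180000000b0000001e0000000b 5 5) 0 0 (step_sound _ 34 [(rh3244c3cc8379b070.shift 0 1), rh4c91c1736b37879a] (by decide +kernel))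
noncomputable def rh0ad4bdeff8e6434d : CRef := CRef.mk (Pat.mk 0x1000000008000000020000001a00000000000000000000000000000000 0x10000003d0000001f000000030000001e00000003000000030000000100000001 5 6) 0 0 (step_sound _ 97 [(rh01e48cd9f335aa73.shift 0 3), (rh208beddbdd29c86a.shift 0 1), rh5c8c873042790be0, (rhe8a9e0e6037b7c6e.shift 0 2)] (by decide +kernel))
noncomputable def rhb47c5d90876cdccb : CRef := CRef.mk (Pat.mk 0x10000000080000000a0000001a00000000 0x140000001c0000000e0000000b0000001e0000000b 5 5) 0 0 (step_sound _ 34 [rh22d77c46c737a8f0, (rh3244c3cc8379b070.shift 0 1)] (by decide +kernel))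
noncomputable def rhbc9698eeb2423386 : CRef := CRef.mk (Pat.mk 0x4000000020000000280000006800000000 0x500000007c0000002f0000007800000028 5 7) 0 0 (step_sound _ 66 [(rh5419adcd928dba20.shift 2 1), rh5b818b81cbc936e5] (by decide +kernel))
noncomputable def rh8523ec7b62989a43 : CRef := CRef.mk (Pat.mk 0x10000000080000000a0000001a00000000 0x140000001c0000001c0000000b0000001e00000008 5 5) 0 0 (step_sound _ 3 [rh884d86999c364a1f, (rhbaefcd01e0a8bca3.shift 3 0)] (by decide +kernel))
noncomputable def rh6d6f7dfe902581c9 : CRef := CRef.mk (Pat.mk 0x10000000000000000a0000000200000002000000000000000000000000 0x1d0000000f0000001b0000000200000002000000070000000700000005 5 5) 0 0 (step_sound _ 192 [rh641084bb64cf8acf, (rh74d62c9d9d26143f.shift 0 3)] (by decide +kernel))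
noncomputable def rh0a91c5e040615723 : CRef := CRef.mk (Pat.mk 0x200000002000000020000000600000000 0x4000000070000000700000003000000060000000600000002 5 3) 0 0 (step_sound _ 128 [rh37563e2345266b8b, (rh50fbb5868c909700.shift 0 1)] (by decide +kernel))
noncomputable def rh0a1f11c5a3fbf335 : CRef := CRef.mk (Pat.mk 0x8000000080000001e000000000000000000000000 0xc0000000c0000001c000000180000001f000000080000000800000008 5 5) 0 0 (step_sound _ 132 [(rh53b3c253cb0c65f4.shift 0 3), (rhfe7da3c073d75bd5.shift 2 0)] (by decide +kernel))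
noncomputable def rhc0693d904f57aa17 : CRef := CRef.mk (Pat.mk 0x20000000280000006800000000 0x1000000010000000700000007c0000002f0000007800000020 5 7) 0 0 (step_sound _ 66 [(rh5419adcd928dba20.shift 2 1), rh90759a9a80e5ab81] (by decide +kernel))
noncomputable def rh95eabf4161ec5242 : CRef := CRef.mk (Pat.mk 0x180000000a0000001a0000000000000000 0x4000000070000003e0000001b0000001f0000000800000008 5 6) 0 0 (step_sound _ 130 [(rh34fd96a3e173741f.shift 0 1), (rh5ef1c85688574b5a.shift 0 2), rhb67b1abcc57493e1] (by decide +kernel))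
noncomputable def rh4fd848abfc99e9ae : CRef := CRef.mk (Pat.mk 0x6000000020000000200000000000000000000000000000000 0x400000006000000060000000200000002000000070000000700000005 5 3) 0 0 (step_sound _ 97 [(rh2f68792b6b779e96.shift 1 3), rhc87f7657c377b457] (by decide +kernel))
noncomputable def rhe86c8d24b32327ff : CRef := CRef.mk (Pat.mk 0x8000000080000003e00000000 0x180000001800000018000000180000003f00000060 5 7) 0 0 (step_sound _ 5 [rh9d1bb1cd83513961, (rhe25b0a99195a5d59.shift 2 0)] (by decide +kernel))
noncomputable def rha3552d27c956daf4 : CRef := CRef.mk (Pat.mk 0x800000004000000140000001400000000 0x2a0000003f0000007e000000140000001400000010 5 7) 0 0 (step_sound _ 130 [(rh2f68792b6b779e96.shift 2 1), rh4396d871c683a944] (by decide +kernel))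
noncomputable def rhe2f0e26684ea6fb2 : CRef := CRef.mk (Pat.mk 0x800000004000000140000001400000000 0x380000001f000000340000001400000014 5 6) 0 0 (step_sound _ 99 [(rh71222050f2c63a3a.shift 2 0), rh7b4d9af96eb824bf] (by decide +kernel))
noncomputable def rh84dc6781d3786179 : CRef := CRef.mk (Pat.mk 0xc00000014000000340000000000000000 0x730000003e000000340000003c0000001600000002 5 7) 0 0 (step_sound _ 129 [(rh5e2e602ed6172766.shift 1 0), (rha077024870a355a3.shift 0 1), (rhf8802b2664e41e7f.shift 1 1)] (by decide +kernel))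
noncomputable def rh9d0f0237fabab8b4 : CRef := CRef.mk (Pat.mk 0x60000000800000038000000000000000000000000 0x40000001c0000003c0000001f0000001800000038000000280000000800000008 5 6) 0 0 (step_sound _ 163 [rh3a549b71f8801f98, (rh5325751301e7c463.shift 0 2), (rh88db3c4b2c58c8fd.shift 0 2), (rhb1a251d9bff81766.shift 2 2), (rhc890c037f994717d.shift 0 2)] (by decide +kernel))
noncomputable def rh4eadfbfdecd8dbb5 : CRef := CRef.mk (Pat.mk 0xa0000000a0000001a 0x140000001c0000001d0000003f0000001f0000001a0000001a 5 6) 0 0 (step_sound _ 99 [rh4f4e85fdaf90cebd, (rh65909b08999dc522.shift 2 0), rhc60ba51ac4dc42bc, (rhde061a0c3cca9b80.shift 2 0)] (by decide +kernel))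
noncomputable def rhcfaec4d878663234 : CRef := CRef.mk (Pat.mk 0xa000000080000001800000000 0x140000001c0000001c0000003c0000000f000000180000001800000008 5 6) 0 0 (step_sound _ 131 [(rh65909b08999dc522.shift 2 1), rh73c42531adaf2c9a, (rhde061a0c3cca9b80.shift 2 1)] (by decide +kernel))
noncomputable def rh03f4b54ecc5c7174 : CRef := CRef.mk (Pat.mk 0xa0000000a0000003a00000000 0x140000001c0000001d0000001f0000001b0000001a0000003a00000028 5 6) 0 0 (step_sound _ 131 [(rh65909b08999dc522.shift 2 1), (rhc60ba51ac4dc42bc.shift 0 1), (rhde061a0c3cca9b80.shift 2 1), (rhe5fc0333a9854b22.shift 3 0)] (by decide +kernel))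
noncomputable def rh83b731c0d198591f : CRef := CRef.mk (Pat.mk 0x14000000140000007400000000 0x2000000032000000360000003c000000340000007e00000053 5 7) 0 0 (step_sound _ 33 [rh519dfd84cd7b5b78, (rh595e46f5ae606647.shift 1 0), (rhe501adb9ec226eda.shift 1 0)] (by decide +kernel))
noncomputable def rhca685fd522baedbe : CRef := CRef.mk (Pat.mk 0xa0000000800000038000000000000000000000000 0x1c0000003c0000001f0000001800000038000000280000000800000008 5 6) 0 0 (step_sound _ 132 [(rh0658f2813247e13a.shift 0 2), (rh1dc900ed663fe718.shift 3 2), (rh5bd0b7a93b5f5954.shift 0 2), rhed43c569f6d4e300] (by decide +kernel))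
noncomputable def rh6e9b5e5ebb2bb937 : CRef := CRef.mk (Pat.mk 0x28000000280000002800000000 0x140000005c0000007f0000007c000000280000002800000020 5 7) 0 0 (step_sound _ 131 [(rh1dc1647188521960.shift 2 0), (rh7430a052bcb4bacd.shift 0 1), (rhc85cc95794737cf7.shift 2 1), (rhf88ae983e463ce96.shift 2 1)] (by decide +kernel))
noncomputable def rhc683e15f3f500f0d : CRef := CRef.mk (Pat.mk 0x28000000280000002800000000 0x140000001c0000001f0000007c000000680000003c00000024 5 7) 0 0 (step_sound _ 131 [(rh7430a052bcb4bacd.shift 0 1), (rhc85cc95794737cf7.shift 2 1), (rhdc0f0bd6a538c0fd.shift 2 0)] (by decide +kernel))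
noncomputable def rh78f582e5da2727e2 : CRef := CRef.mk (Pat.mk 0xa0000000a0000003a00000000 0x1d0000003f0000001f0000001a0000003a00000028 5 6) 0 0 (step_sound _ 131 [rhba14fe0efc7850fd, (rhc60ba51ac4dc42bc.shift 0 1), rhe5c446e6f9c46d72, (rhe5fc0333a9854b22.shift 3 0)] (by decide +kernel))
noncomputable def rh5e0e764f65ab663c : CRef := CRef.mk (Pat.mk 0x200000002000000020000000000000000 0x500000007000000070000000700000002000000030000000300000001 5 3) 0 0 (step_sound _ 161 [rh367118e0bf0473e0, rh6aa5625770489e83, (rhc4055b4872d6fb38.shift 0 1), (rhc85cc95794737cf7.shift 0 2)] (by decide +kernel))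
noncomputable def rh05826e0566277456 : CRef := CRef.mk (Pat.mk 0x200000002000000020000000200000000000000000000000000000000 0x200000003000000030000000300000007000000070000000700000001 5 3) 0 0 (step_sound _ 97 [(rh7928877f9bf74a91.shift 0 2), (rh8cdd36b03d57a2f6.shift 0 1), (rha8d0d56f3d9a86e7.shift 0 1), rhc89ee3608750cd83] (by decide +kernel))
noncomputable def rhb2b0207cc28c3817 : CRef := CRef.mk (Pat.mk 0x4000000020000000a0000003a00000000 0x100000003f0000001e0000003b0000001b0000003b00000029 5 6) 0 0 (step_sound _ 131 [(rh4064d24356ef2355.shift 1 1), (rh46d5d5138b86b44a.shift 2 1), rh818b55fb3aac4a6e, rhe18358bb8fa3da45] (by decide +kernel))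
noncomputable def rh9bfb870092698778 : CRef := CRef.mk (Pat.mk 0x400000004000000140000001400000000 0x2a0000003f0000007e000000140000001400000010 5 7) 0 0 (step_sound _ 131 [(rh2f68792b6b779e96.shift 2 1), rh4396d871c683a944] (by decide +kernel))
noncomputable def rhc554476314c43248 : CRef := CRef.mk (Pat.mk 0x18000000280000006000000000 0x30000000700000007c0000006f0000006000000020 5 7) 0 0 (step_sound _ 101 [(rh2820ca9a6c4f41b4.shift 0 2), (rh4621828ea5f4dfbb.shift 2 0), (rhc890c037f994717d.shift 2 0)] (by decide +kernel))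
noncomputable def rh45ddb8e9a80bbf00 : CRef := CRef.mk (Pat.mk 0xc0000001400000004000000000000000000000000 0x30000003e0000003700000004000000060000000600000002 5 6) 0 0 (step_sound _ 161 [(rh1e42cdaa2b8276ac.shift 0 4), (rh43d8dfd721575dfb.shift 1 0), (rha077024870a355a3.shift 0 2)] (by decide +kernel))
noncomputable def rh069646da498b276f : CRef := CRef.mk (Pat.mk 0x100000001c000000380000000800000000 0xc0000000c0000007c0000001c0000003c0000000f00000004 5 7) 0 0 (step_sound _ 131 [(rh1adf5ad3e6c5bf77.shift 2 1), rh322e79f034282812, (rhcaa080098f0e9e4a.shift 2 0)] (by decide +kernel))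
noncomputable def rh9f48259926176fe8 : CRef := CRef.mk (Pat.mk 0x200000007000000060000000200000000 0xd0000001f00000007000000060000000600000004 5 5) 0 0 (step_sound _ 34 [(rh7b1f1fb55310c477.shift 1 0), (rhed3630b57b16b048.shift 0 1)] (by decide +kernel))
noncomputable def rhac208c1278ee4447 : CRef := CRef.mk (Pat.mk 0x8000000180000001800000008 0x180000001c0000001f000000180000001800000008 5 5) 0 0 (step_sound _ 98 [(rh50fbb5868c909700.shift 2 0), rhc059336e00b985ca] (by decide +kernel))
noncomputable def rh564d2d236cd269d1 : CRef := CRef.mk (Pat.mk 0x80000000b00000008000000080000000000000000 0x140000001e0000000b000000080000000c0000000c00000004 5 5) 0 0 (step_sound _ 34 [(rh79877ebd3ef475dd.shift 2 1), rhb5c62032a3248428] (by decide +kernel))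
noncomputable def rh2241294f2a6b20e7 : CRef := CRef.mk (Pat.mk 0x80000001c00000038000000000000000000000000 0xc0000001c0000003c0000001f0000001c00000008 5 6) 0 0 (step_sound _ 36 [rh2ac6e86e27821d4a, (rh9e07f76261b05888.shift 3 1)] (by decide +kernel))
noncomputable def rhae4b63745560a7d7 : CRef := CRef.mk (Pat.mk 0xd0000001d00000001000000000000000000000000 0x90000000d0000001d0000000f000000070000000600000002 5 5) 0 0 (step_sound _ 98 [rh942990b42f156b63, (rhea7a1800d6f053bd.shift 2 1)] (by decide +kernel))
noncomputable def rh6d1394ae82358a5a : CRef := CRef.mk (Pat.mk 0x3000000000000000180000007000000000 0xff0000007e0000000f000000180000007c0000000c 5 8) 0 0 (step_sound _ 131 [(rh099d444677688b93.shift 0 1), (rh42a67b4064628394.shift 0 3), (rh593c461c37a56aa7.shift 0 1), (rhc697557386494b9d.shift 2 0)] (by decide +kernel))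
noncomputable def rh46dce94ff64e9d06 : CRef := CRef.mk (Pat.mk 0x18000000380000000800000000 0xc0000000c0000000c000000180000003c0000001f00000014 5 6) 0 0 (step_sound _ 131 [rh29598f382625b6b7, (rh55a1f6c57a317ce6.shift 3 0), (rhcaa080098f0e9e4a.shift 2 0)] (by decide +kernel))
noncomputable def rhd36da432537ba706 : CRef := CRef.mk (Pat.mk 0x200000007800000000 0x3e0000007e00000007 5 7) 0 0 (step_sound _ 66 [rh0607660ff50d178c, (rh3f8766e6ecb455ce.shift 2 1)] (by decide +kernel))
noncomputable def rh22dbbb924d8aa4f1 : CRef := CRef.mk (Pat.mk 0x1800000000000000080000007800000000 0xc0000003c0000000f00000018000000f800000008 5 8) 0 0 (step_sound _ 99 [rh9aab2e37f490e5ca, (rhc9ca25976740a074.shift 3 1)] (by decide +kernel))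
noncomputable def rh5f18032ec87cc6c3 : CRef := CRef.mk (Pat.mk 0xc00000000000000140000003800000000 0xff0000007e000000f00000001c0000007800000010 5 8) 0 0 (step_sound _ 132 [(rh04b80be1dd2c7952.shift 0 3), (rh28ff8c9a5807c471.shift 1 0), (rhd49b7e0a13f8632e.shift 2 1)] (by decide +kernel))
noncomputable def rhcc980f3d996f16fc : CRef := CRef.mk (Pat.mk 0xc00000000000000080000000800000000 0x40000001f0000007c000000080000000800000008 5 7) 0 0 (step_sound _ 99 [(rh50fbb5868c909700.shift 2 1), rha593eb9b98e91083] (by decide +kernel))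
noncomputable def rh7146616a16ac35b8 : CRef := CRef.mk (Pat.mk 0x3000000000000000280000002800000000 0x770000003e000000ff000000280000002800000020 5 8) 0 0 (step_sound _ 131 [(rha761300b78595edf.shift 3 1), (rhb77557328806142f.shift 0 1), (rhbc5e64c454a8584c.shift 2 0), (rhfe593dc6f2268754.shift 1 0)] (by decide +kernel))
noncomputable def rh6c06e74081bc8b9a : CRef := CRef.mk (Pat.mk 0x1800000000000000140000001400000000 0xf70000007e000000fe000000140000001400000010 5 8) 0 0 (step_sound _ 133 [(rh36ec770401298d9d.shift 1 0), (rh62f73952c5708e3e.shift 1 0), (rh63624046dbd83126.shift 3 0), (rh64d0952f1c5d6448.shift 0 1)] (by decide +kernel))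
noncomputable def rhc5079807559727a8 : CRef := CRef.mk (Pat.mk 0x30000000000000000800000008 0x4000000ff0000007e0000001f0000000800000008 5 8) 0 0 (step_sound _ 99 [(rh9def86bbd50a3389.shift 0 2), rhb77557328806142f, (rhcf72250f78f7d72f.shift 2 0), rhdc3bdc5be172fcf6, rhea635feb0fb65c16] (by decide +kernel))
noncomputable def rh074f2cd2dcb2a237 : CRef := CRef.mk (Pat.mk 0x1000000038000000000000000000000000 0x1000000010000000100000007c0000001f0000000800000008 5 7) 0 0 (step_sound _ 67 [rh04e0da3c4680671a, (rhcf80391c5046a495.shift 3 0), (rhf0f55c4504412200.shift 0 2)] (by decide +kernel))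
noncomputable def rha01b6248c1f0bb4b : CRef := CRef.mk (Pat.mk 0x40000001e000000020000000200000000 0x30000000300000003000000070000001e000000060000000600000004 5 5) 0 0 (step_sound _ 129 [(rh3244c3cc8379b070.shift 0 3), rhbc4f1db1cf6a34a7] (by decide +kernel))
noncomputable def rh1a1eec278fa8fb30 : CRef := CRef.mk (Pat.mk 0x1000000018000000080000001c00000000 0x100000007c0000006f0000007c00000060 5 7) 0 0 (step_sound _ 66 [(rh51e1c6fcf00b5e70.shift 2 0), (rh79b3c29022acbdf3.shift 1 1), (rhd69c262cd33b94b3.shift 0 2)] (by decide +kernel))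
noncomputable def rh97fe0a902b6b7219 : CRef := CRef.mk (Pat.mk 0x40000000700000004000000000000000000000000 0x8000000080000000c0000003e0000000700000004000000060000000600000002 5 6) 0 0 (step_sound _ 163 [(rh4a7c66425458b2ac.shift 1 2), (rh80f90a60d87caa0d.shift 0 4), (rh953e410617738e80.shift 1 0)] (by decide +kernel))
noncomputable def rh9106dbe5839ddd08 : CRef := CRef.mk (Pat.mk 0x4000000020000000300000006 0x1000000030000000700000006000000030000000700000006 5 3) 0 0 (step_sound _ 97 [(rh2f68792b6b779e96.shift 1 0), rhe8476f0b7eaf4046] (by decide +kernel))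
noncomputable def rh1ffd91322bb18093 : CRef := CRef.mk (Pat.mk 0x2000000020000000600000002 0x500000007000000070000000300000003000000070000000600000002 5 3) 0 0 (step_sound _ 129 [rh3ca48e2a6d60153d, rhda4a1740e3a0e27e, (rhde061a0c3cca9b80.shift 0 1)] (by decide +kernel))
noncomputable def rh26078ccfcf5301e4 : CRef := CRef.mk (Pat.mk 0x40000001c0000000800000008 0x10000000fc0000007f0000000f00000008 5 8) 0 0 (step_sound _ 33 [(rh076be03eb7063320.shift 0 1), rh8badea6e810aa7cc, (rhf69eab89e5fbfa83.shift 1 1)] (by decide +kernel))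
noncomputable def rhb4ea3845197b9edc : CRef := CRef.mk (Pat.mk 0x8000000380000001000000010 0x20000000200000007f0000003f0000001f00000010 5 7) 0 0 (step_sound _ 66 [(rh001e6fcbe716251f.shift 1 0), (rh775ca1963e850b80.shift 0 1), (rhe0f805967f3463ab.shift 0 1), (rhee41ea3ba0cbf52f.shift 0 1)] (by decide +kernel))
noncomputable def rhb84baac6207e4014 : CRef := CRef.mk (Pat.mk 0x10000000200000002000000020000000000000000 0x5000000070000000700000002000000020000000300000001 5 3) 0 0 (step_sound _ 33 [rh4e12797ab8d9618a, (rhffd04209dc8ea796.shift 0 1)] (by decide +kernel))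
noncomputable def rh80a0173a57e59ac2 : CRef := CRef.mk (Pat.mk 0x18000000100000007000000010 0x270000007e0000003f0000007000000010 5 7) 0 0 (step_sound _ 101 [(rh2f68792b6b779e96.shift 4 0), (rhcd1deb4e4ba974f7.shift 0 1)] (by decide +kernel))
noncomputable def rh8010b216e4866763 : CRef := CRef.mk (Pat.mk 0xe00000004000000000000001800000000 0x100000003f0000003f000000080000001800000010 5 6) 0 0 (step_sound _ 99 [(rh6292bd8784ece55f.shift 0 3), rhd2c5d35a81143964] (by decide +kernel))
noncomputable def rha6f6ba4f13e6e353 : CRef := CRef.mk (Pat.mk 0x200000002000000060000000200000000 0x3000000070000000700000006000000060000000200000002 5 3) 0 0 (step_sound _ 130 [(rh2f68792b6b779e96.shift 1 1), rh6420678f01f8d7c7] (by decide +kernel))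
noncomputable def rh24564abcfba89684 : CRef := CRef.mk (Pat.mk 0x18000000180000007800000000 0x30000000700000003f0000003800000078000000c0 5 8) 0 0 (step_sound _ 6 [rh1e518b255da7ca2d, (rhe25b0a99195a5d59.shift 3 0)] (by decide +kernel))
noncomputable def rhc76be74ae784527d : CRef := CRef.mk (Pat.mk 0x1800000018000000780000000000000000 0x40000001f0000003800000078000000c800000008 5 8) 0 0 (step_sound _ 35 [(rh71222050f2c63a3a.shift 3 0), (rh760aaf0ddaae4897.shift 0 1)] (by decide +kernel))
noncomputable def rh0e43a953b43b2672 : CRef := CRef.mk (Pat.mk 0x8000000180000000c0000000c 0x60000000f0000001e0000000f0000000c 5 5) 0 0 (step_sound _ 33 [rh501207f89dcab93e, (rh53b3c253cb0c65f4.shift 0 1)] (by decide +kernel))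
noncomputable def rh73dfe59a68583406 : CRef := CRef.mk (Pat.mk 0xe00000008000000080000000c 0x130000001e0000000f0000000e0000000c 5 5) 0 0 (step_sound _ 100 [rh25efc5d5a6c022ff, (rh2f68792b6b779e96.shift 3 0)] (by decide +kernel))
noncomputable def rh272cbce72498a84d : CRef := CRef.mk (Pat.mk 0x3800000010000000300000001800000000 0x40000007f0000003e000000380000001e00000004 5 7) 0 0 (step_sound _ 34 [rh11b8daee69c44976, (rh53b3c253cb0c65f4.shift 1 1)] (by decide +kernel))
noncomputable def rhb03a29e2c9f3115a : CRef := CRef.mk (Pat.mk 0x2000000020000000200000004 0x1000000030000000300000002000000030000000700000005 5 3) 0 0 (step_sound _ 129 [rh565a0c22519f57e9, (rhd3458b32566d63f7.shift 1 0)] (by decide +kernel))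
noncomputable def rh57bfd61f9a661cae : CRef := CRef.mk (Pat.mk 0x3000000020000000600000001 0x100000003000000030000000200000003000000070000000700000001 5 3) 0 0 (step_sound _ 129 [(rh20a9e8598c937248.shift 0 1), rh79877ebd3ef475dd] (by decide +kernel))
noncomputable def rh71622e3d1527ef05 : CRef := CRef.mk (Pat.mk 0x800000008000000080000001800000008 0x10000000180000001800000008000000180000001c0000000f 5 5) 0 0 (step_sound _ 2 [(rh79877ebd3ef475dd.shift 2 0), rhadfaf8ce5cf4e460] (by decide +kernel))
noncomputable def rh4f476f4d5bd14644 : CRef := CRef.mk (Pat.mk 0x8000000080000000800000018000000080000000000000000 0x80000000800000018000000180000001c0000000f0000000800000008 5 5) 0 0 (step_sound _ 66 [(rh79877ebd3ef475dd.shift 2 2), rhf5b9771386dae5ad] (by decide +kernel))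
noncomputable def rh11edacbdac335664 : CRef := CRef.mk (Pat.mk 0x80000000800000008000000180000000c0000000000000000 0x8000000080000001800000018000000780000000f0000000800000008 5 7) 0 0 (step_sound _ 64 [(rh24ae073cf30720c4.shift 0 2), (rh364d7f34e6a398b3.shift 2 0)] (by decide +kernel))
noncomputable def rh45e47857f0b7ef07 : CRef := CRef.mk (Pat.mk 0x200000002000000020000000600000003 0x500000007000000070000000200000002000000060000001e00000003 5 5) 0 0 (step_sound _ 35 [rh18965a982d73c794, (rhde061a0c3cca9b80.shift 0 1)] (by decide +kernel))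
noncomputable def rhcffc4b078a6820ed : CRef := CRef.mk (Pat.mk 0x800000008000000180000000c 0x100000001800000018000000080000007c0000000f 5 7) 0 0 (step_sound _ 0 [rh24ae073cf30720c4, (rhc23d543e2e507eea.shift 2 0)] (by decide +kernel))
noncomputable def rh2698aa0ee7855177 : CRef := CRef.mk (Pat.mk 0x200000002000000060000000000000000 0x500000007000000070000000300000006000000070000000300000001 5 3) 0 0 (step_sound _ 161 [(rh4b783bb445d2d96a.shift 0 1), rh6aa5625770489e83, (rhbdecaeed4a59cb58.shift 0 1), (rhdbc400e79194dff9.shift 0 2)] (by decide +kernel))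
noncomputable def rha22217f51fc5a1ab : CRef := CRef.mk (Pat.mk 0xc000000040000000c0000000c00000000 0x100000003c0000000f0000000c0000001c00000014 5 6) 0 0 (step_sound _ 99 [(rh71222050f2c63a3a.shift 2 0), rh80d10083eb6a67cd] (by decide +kernel))
noncomputable def rha82b7c64fa4cb41d : CRef := CRef.mk (Pat.mk 0x1e00000004000000040000000c00000000 0x300000001f0000003c0000000c0000000e00000002 5 6) 0 0 (step_sound _ 1 [(rh79877ebd3ef475dd.shift 1 0), (rhe4331c6b06ac49c3.shift 0 1)] (by decide +kernel))
noncomputable def rh6613bd2aa423c87a : CRef := CRef.mk (Pat.mk 0x1c000000100000001000000000 0x600000003e000000370000001000000010 5 7) 0 0 (step_sound _ 97 [rh3acbad362c0fb42d, (rhe25b0a99195a5d59.shift 1 2)] (by decide +kernel))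
noncomputable def rhfb7531a7e6d88af7 : CRef := CRef.mk (Pat.mk 0x1c000000100000001000000000 0x670000003e000000300000001000000010 5 7) 0 0 (step_sound _ 97 [rh7cd27a71ce016d8d, (rhe25b0a99195a5d59.shift 1 2)] (by decide +kernel))
noncomputable def rhf60b8c53225e9a63 : CRef := CRef.mk (Pat.mk 0xe0000000a00000008 0x1000000010000000330000001e0000001b00000008 5 6) 0 0 (step_sound _ 68 [rh59e2ca35af35a44a, (rheb0810cc63b001d8.shift 0 1)] (by decide +kernel))
noncomputable def rh8f7063681704f7b7 : CRef := CRef.mk (Pat.mk 0xe0000000a000000180000000400000000 0x1000000330000001e0000000a0000001b0000000f00000005 5 6) 0 0 (step_sound _ 33 [(rh0bc251320fcd4671.shift 1 0), rh22fec84c82ff2f6f, rh48633d39d92701d2, rh98a30b81e5fdc6e0] (by decide +kernel))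
noncomputable def rhe88c68b7e6c05d62 : CRef := CRef.mk (Pat.mk 0xe0000000a00000008000000040000000000000000 0x1000000010000000330000001e0000001a0000000e0000000c0000000400000004 5 6) 0 0 (step_sound _ 34 [rh382f474eca292154, (rheea67dfebd0f8008.shift 2 1)] (by decide +kernel))
noncomputable def rhbed0deb42f7acbfd : CRef := CRef.mk (Pat.mk 0x1c000000140000003000000008 0x2000000020000000660000003c000000340000007c0000001f 5 7) 0 0 (step_sound _ 101 [rh52be96a2c6912137, (rh59e2ca35af35a44a.shift 1 1), (rhd4d36b4007f546b1.shift 2 0)] (by decide +kernel))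
noncomputable def rh7682f29da1926818 : CRef := CRef.mk (Pat.mk 0xe0000000a00000018000000040000000000000000 0x1000000030000001e0000000a0000001f000000070000000500000004 5 5) 0 0 (step_sound _ 97 [(rh17c2a69528594d87.shift 0 1), (rh2b2af670ba3dc253.shift 1 0), (rh81842d5dac21bf9c.shift 0 1), (rhf44b2f9cb5a7f97f.shift 0 2)] (by decide +kernel))
noncomputable def rha7e7d92b5753bea1 : CRef := CRef.mk (Pat.mk 0x4000000040000000e000000000000000000000000 0x4000000ec0000007e000000770000000200000002 5 8) 0 0 (step_sound _ 100 [rh1e8d6e1ef30e2d92, (rhc3f8d890a3bb80c0.shift 1 2)] (by decide +kernel))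
noncomputable def rh218640b9e590a0a6 : CRef := CRef.mk (Pat.mk 0x1e00000000000000300000000000000000 0x80000003e000000070000003c0000000400000004 5 6) 0 0 (step_sound _ 97 [(rhb859409e7981988f.shift 1 0), (rheb0810cc63b001d8.shift 0 3)] (by decide +kernel))
noncomputable def rhdfff46210fb02dc6 : CRef := CRef.mk (Pat.mk 0x1e000000000000003000000000 0x2000000070000003e000000060000003c00000004 5 6) 0 0 (step_sound _ 129 [(rh3244c3cc8379b070.shift 0 3), (rha3ba56f67f145513.shift 1 0)] (by decide +kernel))
noncomputable def rh656b343c12268ffa : CRef := CRef.mk (Pat.mk 0x1e0000000800000008 0x1000000010000000330000001e0000001b00000008 5 6) 0 0 (step_sound _ 32 [rh59e2ca35af35a44a, (rh80fcd6d0a18cb2dd.shift 0 1)] (by decide +kernel))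
noncomputable def rh4d75227bdef4de1e : CRef := CRef.mk (Pat.mk 0xc00000038000000080000000000000000 0x180000001c0000003c0000000f0000000c0000000c 5 6) 0 0 (step_sound _ 35 [(rha707fb719e87fe6e.shift 3 0), rhc59a2df7a9768206, (rhc705a4e0321a1bff.shift 2 0)] (by decide +kernel))
noncomputable def rh838812f75ed7f952 : CRef := CRef.mk (Pat.mk 0xc000000380000000800000000 0x1c0000001c0000001c0000001c0000003c0000000f00000004 5 6) 0 0 (step_sound _ 131 [rh322e79f034282812, (rhbe5addaf45b06322.shift 2 1), (rhc85cc95794737cf7.shift 2 1), (rhf8f2dd1658083a86.shift 2 1)] (by decide +kernel))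
noncomputable def rh56453d502675d295 : CRef := CRef.mk (Pat.mk 0xf00000004 0x380000003f00000076 5 7) 0 0 (step_sound _ 68 [(rh1c778aeb78cd3ef8.shift 1 0), (rh428265de8cd3cd2d.shift 0 1)] (by decide +kernel))
noncomputable def rh884c7369ace5e57b : CRef := CRef.mk (Pat.mk 0x1f00000000 0x700000007f0000001e 5 7) 0 0 (step_sound _ 3 [rhe25b0a99195a5d59, (rhed57d1a6d4db2db6.shift 1 0)] (by decide +kernel))
noncomputable def rh1aea8b635ae016ce : CRef := CRef.mk (Pat.mk 0x100000000e00000000 0x300000003e00000077 5 7) 0 0 (step_sound _ 36 [rh0edd3afef6b5d7e0, (rh33e738c4ed385b9f.shift 1 1)] (by decide +kernel))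
noncomputable def rh9d0dd2e9259730df : CRef := CRef.mk (Pat.mk 0x1e000000020000000000000000 0x2000000030000003e000000360000000400000004 5 6) 0 0 (step_sound _ 66 [(rh18965a982d73c794.shift 1 2), rhc298b91816a3bf40] (by decide +kernel))
noncomputable def rh34c6441c63b6e279 : CRef := CRef.mk (Pat.mk 0x3c00000000 0x70000003e00000076 5 7) 0 0 (step_sound _ 1 [rh0d378fd9e8917c5a, (rh80fcd6d0a18cb2dd.shift 1 0)] (by decide +kernel))
noncomputable def rh98172d84f27cf27c : CRef := CRef.mk (Pat.mk 0x300000003000000020000000200000000 0x200000002000000020000000300000003000000070000000700000005 5 3) 0 0 (step_sound _ 0 [rh330f820e7f44bd5b, rh79877ebd3ef475dd] (by decide +kernel))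
noncomputable def rh2d34a3bbbccb0632 : CRef := CRef.mk (Pat.mk 0x1000000018000000180000001000000000 0x80000001800000018000000380000001f0000000c 5 6) 0 0 (step_sound _ 35 [rh251f4c515ef5ed3d, (rh71222050f2c63a3a.shift 3 0)] (by decide +kernel))
noncomputable def rhfba99ba83997c5ab : CRef := CRef.mk (Pat.mk 0x20000007c00000000 0x3000000ff0000003b 5 8) 0 0 (step_sound _ 33 [(rh3244c3cc8379b070.shift 0 1), rhc7328edb2ed48e57] (by decide +kernel))
noncomputable def rhed5a276f9d899ac4 : CRef := CRef.mk (Pat.mk 0x2000000030000000e0000000200000000 0x1d0000001f0000000b0000000e0000000600000004 5 5) 0 0 (step_sound _ 130 [(rh2f68792b6b779e96.shift 1 1), rhb75f789c3aa2fb26] (by decide +kernel))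
noncomputable def rheb12f0a97986646a : CRef := CRef.mk (Pat.mk 0x700000006000000040000000000000000 0x40000000500000007000000070000003e0000000a00000002 5 6) 0 0 (step_sound _ 65 [rh40241bd608e5be1a, (rh70cfad7a15d735cc.shift 0 1), (rhea7a1800d6f053bd.shift 1 0)] (by decide +kernel))
noncomputable def rh0aa5eaa0cc3bb989 : CRef := CRef.mk (Pat.mk 0x3800000000 0xf0000007e000000ef 5 8) 0 0 (step_sound _ 34 [(rh0edd3afef6b5d7e0.shift 1 0), (rh3947d1dfff0afc6c.shift 1 0), rh775ca1963e850b80] (by decide +kernel))
noncomputable def rh64043e6a4f0cbd7c : CRef := CRef.mk (Pat.mk 0x3800000000 0xf0000007e000000f7 5 8) 0 0 (step_sound _ 34 [rh008b05f4778dc30d, (rh3947d1dfff0afc6c.shift 1 0), rh775ca1963e850b80] (by decide +kernel))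
noncomputable def rh3c6173ddcd48718f : CRef := CRef.mk (Pat.mk 0x3e000000100000000000000000 0x80000000c000000ff000000180000001000000010 5 8) 0 0 (step_sound _ 67 [(rh0c561658b8646091.shift 2 0), (rhb739f4f82bb681b4.shift 0 2)] (by decide +kernel))
noncomputable def rh821c1a631420eb55 : CRef := CRef.mk (Pat.mk 0x1e00000010 0x7000000ff0000001c 5 8) 0 0 (step_sound _ 3 [rh412d230494194d0a, rhb739f4f82bb681b4] (by decide +kernel))
noncomputable def rh057b43b3c8d2f265 : CRef := CRef.mk (Pat.mk 0x1a0000001200000002000000040000000000000000 0x80000001a0000001a000000120000003f0000003f00000029 5 6) 0 0 (step_sound _ 68 [rh3cd11341cd3f7ff5, (rh853c2bd7522c3ee7.shift 3 0), (rh9a8a9d1a637362a5.shift 3 0)] (by decide +kernel))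
noncomputable def rh18ef13365be020f9 : CRef := CRef.mk (Pat.mk 0x1a00000012000000020000000400000000 0x800000008000000080000001a0000001a0000001e0000001f00000005 5 5) 0 0 (step_sound _ 33 [(rh55afc6a59410cf00.shift 1 0), rha27a5a52b38a88b6] (by decide +kernel))
noncomputable def rh32f6efaa475dc0d0 : CRef := CRef.mk (Pat.mk 0xe000000020000000200000000 0x100000003000000030000001e000000030000000300000001 5 5) 0 0 (step_sound _ 129 [(rh2e8814637c3f6d46.shift 0 1), rh565a0c22519f57e9, rha47cde37f72062b4, (rhd9106766b9ff53c0.shift 0 2)] (by decide +kernel))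
noncomputable def rh1c2c00078dec1d59 : CRef := CRef.mk (Pat.mk 0x20000001a0000001200000002000000000000000000000000 0xa0000001a0000001a0000001f0000003d0000003800000008 5 6) 0 0 (step_sound _ 68 [(rh5ea55bf3b1e041f5.shift 0 2), (rh9a8a9d1a637362a5.shift 3 0), (rhc8aa689f530b6f55.shift 1 1)] (by decide +kernel))
noncomputable def rh4eba2cfd7551f9ea : CRef := CRef.mk (Pat.mk 0x200000003000000060000000200000000000000000000000000000000 0x200000003000000070000000700000003000000070000000700000005 5 3) 0 0 (step_sound _ 97 [rh46bfb734f58a0e67, (rh7928877f9bf74a91.shift 0 2), rhee45040c368f97b1] (by decide +kernel))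
noncomputable def rh41146ecbd27cd6dd : CRef := CRef.mk (Pat.mk 0xe00000002000000020000000000000000 0x1000000030000001e00000002000000070000000700000005 5 5) 0 0 (step_sound _ 161 [(rh2e8814637c3f6d46.shift 0 2), rh8cdd36b03d57a2f6] (by decide +kernel))
noncomputable def rh38b24dd69382dcf0 : CRef := CRef.mk (Pat.mk 0x30000000100000001800000018000000000000000000000000 0x300000001f0000003f0000007f000000060000000400000004 5 7) 0 0 (step_sound _ 130 [rh1aa9b76cd5a726a4, (rh6292bd8784ece55f.shift 1 3), (rh7a77fcf32d94ad75.shift 0 3)] (by decide +kernel))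
noncomputable def rhc97b0b05c6a15fcd : CRef := CRef.mk (Pat.mk 0x20000000080000001800000018 0x20000000200000006c000000ff000000f8 5 8) 0 0 (step_sound _ 34 [rh24cce59c0a17c7b5, (rh6292bd8784ece55f.shift 1 0), (rh65594685095c2321.shift 2 0)] (by decide +kernel))
noncomputable def rh151148ce16250c9f : CRef := CRef.mk (Pat.mk 0x80000000e0000000c000000000000000000000000 0x80000000e0000003f0000003f0000001e0000000e 5 6) 0 0 (step_sound _ 34 [(rh9e3edb185cc347de.shift 2 1), rhca522066e176581d] (by decide +kernel))
noncomputable def rh2cdd50b3696c72ec : CRef := CRef.mk (Pat.mk 0x100000001a00000018000000000000000000000000 0x10000000fb000000ff000000e00000002000000020 5 8) 0 0 (step_sound _ 98 [(rh5c36e97be8af272f.shift 0 3), (rh96a25d64ec2dbc47.shift 2 0), (rhab2ad169e49f9c5e.shift 0 3)] (by decide +kernel))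
noncomputable def rh1facfa9b37bf0df4 : CRef := CRef.mk (Pat.mk 0x180000001e000000040000000000000000 0x180000001e0000003f0000003000000030 5 6) 0 0 (step_sound _ 65 [(rha4ea59bf6dd353dc.shift 1 0), (rheb0810cc63b001d8.shift 0 2)] (by decide +kernel))
noncomputable def rh3a63ce1b169d096c : CRef := CRef.mk (Pat.mk 0xc0000000e000000040000000400000000 0xc0000007e000000770000003c00000018 5 7) 0 0 (step_sound _ 100 [(rh4b4298603c6f19ca.shift 1 0), (rhaf9f2efc81a8312b.shift 0 2), rhfdd2c5ca0cc82a11] (by decide +kernel))
noncomputable def rhd9bae1d7e88c36b7 : CRef := CRef.mk (Pat.mk 0xe000000020000000200000006 0xa0000000e0000000f0000003e00000006 5 6) 0 0 (step_sound _ 34 [rh1b33b281759994d3, (rh2145e1d24b96a57e.shift 1 0)] (by decide +kernel))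
noncomputable def rh125b4485feeafb2e : CRef := CRef.mk (Pat.mk 0x200000006000000020000000200000000000000000000000000000000 0x200000006000000070000000300000003000000070000000700000005 5 3) 0 0 (step_sound _ 97 [rh62d070110dcf9ddf, (rh7928877f9bf74a91.shift 0 2), rhc87f7657c377b457] (by decide +kernel))
noncomputable def rh0850d16ab983ad51 : CRef := CRef.mk (Pat.mk 0x70000000100000003800000000 0x70000000fe000000ff00000007 5 8) 0 0 (step_sound _ 67 [rh23070a1f15e38fa9, (rh79b3c29022acbdf3.shift 2 1), (rheea1a90336e79c71.shift 1 2)] (by decide +kernel))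
noncomputable def rh59788212b56220e0 : CRef := CRef.mk (Pat.mk 0x3000000000000000080000001c00000000 0x2000000030000000100000003c000000ff00000020 5 8) 0 0 (step_sound _ 68 [(rhab2ad169e49f9c5e.shift 0 1), (rhb58244e1c19055b6.shift 2 0)] (by decide +kernel))
noncomputable def rh32f4bcb279b29e85 : CRef := CRef.mk (Pat.mk 0x3800000018000000080000000800000000 0x8000000380000003e0000000f0000000c00000004 5 6) 0 0 (step_sound _ 34 [(rh12c72dd036a2ed10.shift 0 1), (rh932754581e0f4330.shift 2 0)] (by decide +kernel))
noncomputable def rhb7bea42cd863571f : CRef := CRef.mk (Pat.mk 0xe00000006000000020000000200000000 0x80000000e00000006000000070000003e0000000c 5 6) 0 0 (step_sound _ 34 [(rh55afc6a59410cf00.shift 1 0), rhbe29180e1626a757] (by decide +kernel))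
noncomputable def rh6c980ac862afd5f5 : CRef := CRef.mk (Pat.mk 0x3800000018000000080000000000000000 0x80000002800000038000000380000001f0000001400000010 5 6) 0 0 (step_sound _ 68 [(rhb0c1e7919d9be92d.shift 3 0), (rhe2d7daae1577d340.shift 0 1)] (by decide +kernel))
end Crest.Agent.S0047.Helper85.Cert
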