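import Crest.Agent.Lib.S0047.Helper85CertPL4F0
import Crest.Agent.Lib.S0047.Helper85CertPL4F1
import Crest.Agent.Lib.S0047.Helper85CertPL4F2
import Crest.Agent.Lib.S0047.Helper85CertPL4F3
import Crest.Agent.Lib.S0047.Helper85CertPL4F4
import Crest.Agent.Lib.S0047.Helper85CertPL4F5
import Crest.Agent.Lib.S0047.Helper85CertPL4F6
import Crest.Agent.Lib.S0047.Helper85CertPL4F7
import Crest.Agent.Lib.S0047.Helper85CertPL4F8
import Crest.Agent.Lib.S0047.Helper85CertPL4F9
set_option autoImplicit false
set_option linter.all false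
set_option Elab.async false
namespace Crest.Agent.S0047.Helper85.Cert
open Crest.Agent.S0047.Helper85

noncomputable def rh73bc18ea4d1807c3 : CRef := CRef.mk (Pat.mk 0xe00000006000000020000000000000000 0xa0000000e00000006000000060000000700000007 5 4) 0 0 (step_sound _ 33 [rh20cd6bc110d7b6ed, (rh71222050f2c63a3a.shift 1 0)] (by decide +kernel))
noncomputable def rhaeb708430c6e66dc : CRef := CRef.mk (Pat.mk 0x3c00000002 0xe0000007e000000e3 5 8) 0 0 (step_sound _ 0 [(rh3947d1dfff0afc6c.shift 1 0), rhca9569cc80abfe76] (by decide +kernel))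
noncomputable def rhf5c6d29a6fe40cc0 : CRef := CRef.mk (Pat.mk 0x1c00000000 0xf0000007e000000fe 5 8) 0 0 (step_sound _ 37 [rh0d378fd9e8917c5a, (rh2eb6cac0fecf3e9c.shift 1 0), (rh56f43794bcf10c2f.shift 1 0), (rh8db7f7558b75b2b1.shift 1 0)] (by decide +kernel))
noncomputable def rh71a689db65139446 : CRef := CRef.mk (Pat.mk 0x1c00000002 0x380000001f0000003b 5 6) 0 0 (step_sound _ 33 [rh3e1b7b343686dca1, rheb0810cc63b001d8] (by decide +kernel))
noncomputable def rhf51788ddb0a95f0c : CRef := CRef.mk (Pat.mk 0x3800000000 0xf0000007e000000ef 5 8) 0 0 (step_sound _ 34 [rh2cc7d62e70c02209, (rh3947d1dfff0afc6c.shift 1 0), (rh8db7f7558b75b2b1.shift 1 0)] (by decide +kernel))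
noncomputable def rh64c3acf481f7deac : CRef := CRef.mk (Pat.mk 0xe00000002000000000000000000000000 0x400000006000000070000003e00000076000000070000000700000005 5 7) 0 0 (step_sound _ 161 [(rh1aae126fdb0efa1d.shift 0 3), rh210813553596681c, (rh34c6542e55ceb0b7.shift 0 1), (rh8cda118e73192ffa.shift 0 3)] (by decide +kernel))
noncomputable def rheb1b6f51483999d1 : CRef := CRef.mk (Pat.mk 0x380000000800000000000000000000000000000000 0x140000001c0000001f000000380000001c0000001c0000001c0000001c00000004 5 6) 0 0 (step_sound _ 99 [(rh15590a39afd9a120.shift 2 0), (rh215e11e099257d75.shift 3 2), (rhd03dc3b7a42c1589.shift 2 1), (rhdd0c31067280721f.shift 0 2), (rhe3458ab40071103b.shift 3 2)] (by decide +kernel))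
noncomputable def rh83b8d6faf9820663 : CRef := CRef.mk (Pat.mk 0x6000000060000000400000000 0x40000000400000004000000060000000f0000003e0000000a 5 6) 0 0 (step_sound _ 130 [(rh0ff7ca71cb891e23.shift 1 0), (rh1e309b005ffa1b36.shift 1 0), rhcd4e30cc39602f0f] (by decide +kernel))
noncomputable def rh1155764ef1bc35ad : CRef := CRef.mk (Pat.mk 0xe0000000c000000000000000000000000 0xf0000007e0000003f000000300000001000000010 5 7) 0 0 (step_sound _ 132 [(rh4dc133ee0ba1420a.shift 0 3), (rh771383521b68d2cd.shift 0 3), rhcdd8b945863c4140] (by decide +kernel))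
noncomputable def rh65863e0063e7b9dc : CRef := CRef.mk (Pat.mk 0xe0000000c0000000000000000 0x2000000070000007e0000000f0000000400000004 5 7) 0 0 (step_sound _ 100 [(rh4dc133ee0ba1420a.shift 0 2), (rh771383521b68d2cd.shift 0 2), rhf16166e16dbfa564] (by decide +kernel))
noncomputable def rh07fce3de9c8aa9fb : CRef := CRef.mk (Pat.mk 0x1c000000180000000000000000 0x4000000060000007c0000007f0000007800000008 5 7) 0 0 (step_sound _ 69 [rh399fa0e70005660c, (rhf48373e13d2bc128.shift 2 2)] (by decide +kernel))
noncomputable def rh4ed3ec1fcbf0e9d1 : CRef := CRef.mk (Pat.mk 0xc0000000c0000000800000000 0x80000000e0000000f0000003c0000001c0000001c00000014 5 6) 0 0 (step_sound _ 130 [rh0cf217c63b3fc1f8, (rh2145e1d24b96a57e.shift 2 1)] (by decide +kernel))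
noncomputable def rh39d65f0716e3ed40 : CRef := CRef.mk (Pat.mk 0xc0000000c0000000000000000 0x80000000e0000000f0000003f0000003c0000001c0000000c 5 6) 0 0 (step_sound _ 130 [(rh55a1f6c57a317ce6.shift 2 0), rhcb39c38eaf019914] (by decide +kernel))
noncomputable def rhc269b224828aef17 : CRef := CRef.mk (Pat.mk 0x300000001c000000000000000000000000 0x140000003f0000003f0000007c0000001f0000001c0000001c 5 7) 0 0 (step_sound _ 131 [(rh749bb6fde4a0135a.shift 0 1), rha63760247f93a8c8, rhac7612a871fda53b, (rhdc6b042be8ed0243.shift 0 1)] (by decide +kernel))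
noncomputable def rh4b5a292a18ac9621 : CRef := CRef.mk (Pat.mk 0x7000000018000000000000000000000000 0x100000003e0000007f000000f80000000c0000000c00000008 5 8) 0 0 (step_sound _ 131 [(rh1a13ca61aabd1498.shift 1 3), (rh1aaa189d4f02b3a2.shift 2 0), (rh4721219539d968dc.shift 0 3), (rh6991441ea091e864.shift 0 1), (rhd9a831431bcbae10.shift 2 0)] (by decide +kernel))
noncomputable def rh2eb8a648ac4b82a0 : CRef := CRef.mk (Pat.mk 0x180000000e000000000000000000000000 0x80000001f0000003e000000770000001000000010 5 7) 0 0 (step_sound _ 100 [(rh47c07cd0cc865f65.shift 0 2), (rh8db7f7558b75b2b1.shift 0 2), (rhbbe16ff26f7822db.shift 1 0)] (by decide +kernel))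
noncomputable def rh2e3774a9550498f4 : CRef := CRef.mk (Pat.mk 0x40000000e000000000000000000000000 0x4000000070000003e000000070000000200000002 5 6) 0 0 (step_sound _ 100 [rh4f129d8f37c2c70a, rhce12f85975fbaead, (rhe3060b190bc0bc78.shift 0 3)] (by decide +kernel))
noncomputable def rh76356c33b20cdec7 : CRef := CRef.mk (Pat.mk 0xc0000000e000000000000000000000000 0x80000003f0000003e000000300000001000000010 5 6) 0 0 (step_sound _ 100 [(rhe3060b190bc0bc78.shift 0 3), (rhe7d1749390aefb37.shift 1 0)] (by decide +kernel))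
noncomputable def rh7b52f21a8fbe4fa1 : CRef := CRef.mk (Pat.mk 0xc0000000e000000000000000000000000 0x80000003f0000003e000000370000001400000014 5 6) 0 0 (step_sound _ 100 [rh0c5f0cbbbccd894d, (rhe3060b190bc0bc78.shift 0 3), (rhe7d1749390aefb37.shift 1 0)] (by decide +kernel))
noncomputable def rh3059670e287eb611 : CRef := CRef.mk (Pat.mk 0xc0000000e000000000000000000000000 0xc0000000f0000003e000000070000000600000006 5 6) 0 0 (step_sound _ 100 [rh0c5f0cbbbccd894d, rh4f129d8f37c2c70a, (rhe3060b190bc0bc78.shift 0 3)] (by decide +kernel))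
noncomputable def rhf8c8d962f41a49df : CRef := CRef.mk (Pat.mk 0x800000018000000080000000800000000 0x40000001f00000078000000080000000c00000004 5 7) 0 0 (step_sound _ 2 [(rh79877ebd3ef475dd.shift 2 0), (rhdb019b0e908810fb.shift 0 1)] (by decide +kernel))
noncomputable def rh4a9a9ca6a8644714 : CRef := CRef.mk (Pat.mk 0x7000000018000000000000000000000000 0x80000001e0000007f000000f80000001c0000001800000008 5 8) 0 0 (step_sound _ 131 [(rh1a13ca61aabd1498.shift 1 3), (rh38a0850c9fea941e.shift 2 1), (rh4721219539d968dc.shift 0 3), (rhd9a831431bcbae10.shift 2 0)] (by decide +kernel))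
noncomputable def rh7bbcd15cd123a7a2 : CRef := CRef.mk (Pat.mk 0x3800000018000000000000000000000000 0xf0000003f0000007e000000060000000400000004 5 7) 0 0 (step_sound _ 98 [(rh53b3c253cb0c65f4.shift 1 3), rha63760247f93a8c8] (by decide +kernel))
noncomputable def rhe2184b93d69f854e : CRef := CRef.mk (Pat.mk 0x3800000018000000000000000000000000 0x80000000c0000000f0000003c0000001e0000001c0000001c0000000c 5 6) 0 0 (step_sound _ 163 [rh04597292272a3ac2, (rh3af54b5f78790764.shift 1 2), (rh55a1f6c57a317ce6.shift 3 1)] (by decide +kernel))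
noncomputable def rhb3455424bbcb7edb : CRef := CRef.mk (Pat.mk 0x38000000180000000000000000 0x4000000040000000f0000003f000000780000000800000008 5 7) 0 0 (step_sound _ 98 [(rh6292bd8784ece55f.shift 1 2), (rhba89ab7cb81bcc90.shift 0 2), (rhd5889c99d29bf7d6.shift 1 0)] (by decide +kernel))
noncomputable def rh68fd2cfedc2d8f99 : CRef := CRef.mk (Pat.mk 0x38000000180000000000000000 0x4000000070000003f0000007e0000000800000008 5 7) 0 0 (step_sound _ 66 [(rh53b3c253cb0c65f4.shift 1 2), rh749bb6fde4a0135a] (by decide +kernel))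
noncomputable def rhe13c8a110889834e : CRef := CRef.mk (Pat.mk 0x7000000018000000000000000000000000 0x80000002f0000007f000000f80000001c0000001800000018 5 8) 0 0 (step_sound _ 131 [(rh0de5acb61b506233.shift 2 0), (rh1a13ca61aabd1498.shift 1 3), (rh38a0850c9fea941e.shift 2 1), (rh4721219539d968dc.shift 0 3), (rhde1252caea722962.shift 0 3)] (by decide +kernel))
noncomputable def rh83afd99be56b9b28 : CRef := CRef.mk (Pat.mk 0x180000000e000000000000000000000000 0x140000001c0000001c0000001f000000780000000e0000003c0000001c00000004 5 7) 0 0 (step_sound _ 163 [(rh281c6819542c66e6.shift 2 0), (rh6c03a9ef5fb89cef.shift 2 2), (rh86d868437bb455ab.shift 0 1), (rhc1b5d17a350cbb83.shift 1 1)] (by decide +kernel))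
noncomputable def rhcc092708a415f34d : CRef := CRef.mk (Pat.mk 0x18000000080000000800000000 0x140000001c0000001f0000007c000000180000001800000010 5 7) 0 0 (step_sound _ 131 [(rh29dd5384d80ecb1e.shift 2 0), (rh426f403fa814630c.shift 3 0), (rh7ef5fa5c39f1c762.shift 2 1), (rhca405e350c462817.shift 0 1)] (by decide +kernel))
noncomputable def rh04c6542796f914f3 : CRef := CRef.mk (Pat.mk 0x1800000008000000000000000000000000 0x1c0000001f0000007c0000001f0000001c0000001c00000004 5 7) 0 0 (step_sound _ 163 [(rh38bc03afb230705f.shift 0 1), rh50871771a03f1586, (rh755c413ec79f71a0.shift 2 1)] (by decide +kernel))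
noncomputable def rh2e31d5610b0d1a48 : CRef := CRef.mk (Pat.mk 0xe00000002000000000000000000000000 0x500000007000000070000003e00000076000000070000000700000005 5 7) 0 0 (step_sound _ 161 [(rh1aae126fdb0efa1d.shift 0 3), rh210813553596681c, (rh34c6542e55ceb0b7.shift 0 1), (rh3e8fa4d4ef9b5b85.shift 0 1), (rh8cda118e73192ffa.shift 0 3)] (by decide +kernel))
noncomputable def rh22860136051e7525 : CRef := CRef.mk (Pat.mk 0x7800000004 0x3c000000ff00000006 5 8) 0 0 (step_sound _ 34 [(rhd64ac1b1180c5fc8.shift 0 1), (rheb0810cc63b001d8.shift 1 0)] (by decide +kernel))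
noncomputable def rh1e5198319878ccc7 : CRef := CRef.mk (Pat.mk 0x7000000080 0xe70000007e000000c7 5 8) 0 0 (step_sound _ 35 [rh525c09f832ac1ad2, (rh96851dee118c1ba3.shift 3 0)] (by decide +kernel))
noncomputable def rh735c28bc3aa1173c : CRef := CRef.mk (Pat.mk 0x3c000000040000000000000000 0x18000000380000007f0000000c0000000c0000000c 5 7) 0 0 (step_sound _ 67 [(rh18965a982d73c794.shift 2 2), rhe58b0dacc250552f] (by decide +kernel))
noncomputable def rh7685057ac2f3bf7a : CRef := CRef.mk (Pat.mk 0x7800000000 0x700000007e000000e7 5 8) 0 0 (step_sound _ 6 [(rhe25b0a99195a5d59.shift 3 0), rhe9668d7541f86033] (by decide +kernel))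
noncomputable def rh15d23b4855e4bd1c : CRef := CRef.mk (Pat.mk 0x1e000000000000000000000000 0x200000002000000070000003e000000060000000400000004 5 6) 0 0 (step_sound _ 129 [(rh3244c3cc8379b070.shift 0 3), (rh363055311817507f.shift 1 0)] (by decide +kernel))
noncomputable def rhd6fea92fa3a0ecdb : CRef := CRef.mk (Pat.mk 0x7800000000 0x770000007e000000e0 5 8) 0 0 (step_sound _ 6 [rhbb5cf2e3cb4e323d, (rhe25b0a99195a5d59.shift 3 0)] (by decide +kernel))
noncomputable def rh81453695ce5a818d : CRef := CRef.mk (Pat.mk 0x3800000008000000000000000000000000 0x40000001c0000001f000000780000000c0000001c0000001c00000014 5 7) 0 0 (step_sound _ 163 [(rh19b19bf0872cfe73.shift 2 0), (rhd9106766b9ff53c0.shift 2 3), (rhf3670f9792a5f0a6.shift 2 0), (rhf60aa8aede119d3b.shift 0 4)] (by decide +kernel))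
noncomputable def rhd7c4042910fd6b61 : CRef := CRef.mk (Pat.mk 0x380000000800000000000000000000000000000000 0x140000001c0000001f000000380000001c0000001c0000001c0000001c00000004 5 6) 0 0 (step_sound _ 99 [(rh15590a39afd9a120.shift 2 0), (rh1a7fde4f8029d73c.shift 2 1), (rh215e11e099257d75.shift 3 2), (rh735216263c03d027.shift 0 2), (rhe3458ab40071103b.shift 3 2)] (by decide +kernel))
noncomputable def rheefc97e4d4e7d79e : CRef := CRef.mk (Pat.mk 0x3800000008000000000000000000000000 0x4000000140000001c0000001f00000078000000180000001c0000001c00000014 5 7) 0 0 (step_sound _ 163 [(rh210813553596681c.shift 2 0), (rhb5ba847c57864cbc.shift 2 2), (rhf60aa8aede119d3b.shift 0 4)] (by decide +kernel))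
noncomputable def rh22988c072fe447ed : CRef := CRef.mk (Pat.mk 0x7000000030000000000000000000000000 0x1000000010000000780000007c0000001f0000000800000008 5 7) 0 0 (step_sound _ 99 [rh03f9158702aebf08, (rh53b3c253cb0c65f4.shift 2 3)] (by decide +kernel))
noncomputable def rhddbfd90d49dca996 : CRef := CRef.mk (Pat.mk 0xe00000006000000000000000000000000 0x40000000e0000000e000000070000003e0000000e00000006 5 6) 0 0 (step_sound _ 65 [rh56579cb4ede6de45, (rh6c9418b1ab9df1ec.shift 1 0), (rhea7a1800d6f053bd.shift 1 0)] (by decide +kernel))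
noncomputable def rhadee6b6feb8e21f9 : CRef := CRef.mk (Pat.mk 0x3800000018000000000000000000000000 0x80000003c0000003e000000780000001f0000001c00000018 5 7) 0 0 (step_sound _ 68 [rh82ffdb21f4924cd9, (rhb0c1e7919d9be92d.shift 3 0)] (by decide +kernel))
noncomputable def rh2cb0cb4c469ee6ca : CRef := CRef.mk (Pat.mk 0xe00000002000000000000000000000000 0x400000006000000070000003e00000006000000070000000700000005 5 6) 0 0 (step_sound _ 161 [rh210813553596681c, (rh34c6542e55ceb0b7.shift 0 1), (rh8cda118e73192ffa.shift 0 3), (rhe9c92ea8be41130b.shift 0 1)] (by decide +kernel))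
noncomputable def rh4f7c9c02e85d24d9 : CRef := CRef.mk (Pat.mk 0x10000000f000000000000000000000000 0x1000000030000001f0000001b0000000200000002 5 5) 0 0 (step_sound _ 67 [rh7b25c948cd7eecba, (rhe25b0a99195a5d59.shift 0 2)] (by decide +kernel))
noncomputable def rh5f6b8b9947884059 : CRef := CRef.mk (Pat.mk 0x1e000000100000000000000000 0x8000000080000001c000000fe0000001f0000001000000010 5 8) 0 0 (step_sound _ 131 [(rh5d54cb79a67f97ab.shift 3 0), (rh7e1098702e50f2b0.shift 3 0), (rh8fd0355dd15fa322.shift 0 2), (rha40d42a2e34c408d.shift 3 0)] (by decide +kernel))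
noncomputable def rh5e3a92a3727b2c93 : CRef := CRef.mk (Pat.mk 0x1800000070000000000000000000000000 0x800000058000000ff000000780000007c000000f00000007000000060 5 8) 0 0 (step_sound _ 133 [(rh212d806ace09b5df.shift 2 0), (rh2250a246e8dada8b.shift 2 0), (rh539b8355bb942eb8.shift 0 1), (rhe87cd81b77db583c.shift 1 1)] (by decide +kernel))
noncomputable def rhfdc4c2f5df975593 : CRef := CRef.mk (Pat.mk 0x3800000000 0xf0000007e0000007f 5 7) 0 0 (step_sound _ 34 [rh2ba551de881ca4cd, rh2cc7d62e70c02209, (rh47c07cd0cc865f65.shift 1 0), rh8195a2d7794c7cd2] (by decide +kernel))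
noncomputable def rh63bccf871f1e12d4 : CRef := CRef.mk (Pat.mk 0x40000000c0000000c0000000800000000 0x8000000080000000c0000000c0000001f0000007c00000014 5 7) 0 0 (step_sound _ 131 [(rh0ff7ca71cb891e23.shift 2 0), rhcc2a2baa9246395a, (rhea7a1800d6f053bd.shift 2 0)] (by decide +kernel))
noncomputable def rh5993cf2f6d105cf9 : CRef := CRef.mk (Pat.mk 0x1c0000003c0000000000000000 0xe0000000f0000001c0000003c0000000e00000008 5 6) 0 0 (step_sound _ 34 [rhdcaf1ec7c116ff42, (rheb0810cc63b001d8.shift 1 1)] (by decide +kernel))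
noncomputable def rh79cbb37900d9453b : CRef := CRef.mk (Pat.mk 0x20000000600000006000000000000000000000000 0x50000000700000007000000070000003e0000000e00000002 5 6) 0 0 (step_sound _ 66 [rh6cd8d231e43e2c2b, (rh7b1f1fb55310c477.shift 1 1)] (by decide +kernel))
noncomputable def rhb7680a45628ce155 : CRef := CRef.mk (Pat.mk 0x60000000e000000000000000000000000 0x400000004000000060000003f0000003c0000000800000008 5 6) 0 0 (step_sound _ 100 [rh31480734369c96a7, (rhf48373e13d2bc128.shift 1 3)] (by decide +kernel))
noncomputable def rhffe100a1c4fb7013 : CRef := CRef.mk (Pat.mk 0x100000001a000000380000000000000000 0xc0000000c0000001f0000001b0000003f0000000e00000008 5 6) 0 0 (step_sound _ 35 [(rh343ea6ef2970898a.shift 0 1), (rh71222050f2c63a3a.shift 3 0)] (by decide +kernel))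
noncomputable def rh008024e78995f67b : CRef := CRef.mk (Pat.mk 0x600000006000000000000000000000000 0x6000000070000003f0000003c0000000c0000000c 5 6) 0 0 (step_sound _ 99 [(rh79b3c29022acbdf3.shift 0 3), rh9425272e357bb618] (by decide +kernel))
noncomputable def rhf71fcb301a0b6131 : CRef := CRef.mk (Pat.mk 0xc0000000c000000000000000000000000 0x80000000e0000000f0000003e0000007c0000001c0000000c 5 7) 0 0 (step_sound _ 66 [(rh0b5523572e849cbc.shift 1 0), rh370af384ddd2082c, (rhea7a1800d6f053bd.shift 2 0)] (by decide +kernel))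
noncomputable def rhc92fc89a75883a9a : CRef := CRef.mk (Pat.mk 0x600000006000000040000000000000000 0x60000000600000006000000070000003f0000000b00000003 5 6) 0 0 (step_sound _ 161 [(rh2145e1d24b96a57e.shift 1 2), rhe320f9ed65dce6db] (by decide +kernel))
noncomputable def rh3860ad06b0f1bdb1 : CRef := CRef.mk (Pat.mk 0x100000000000000018000000180000000800000000 0x180000001800000008000000180000007c0000000f00000004 5 7) 0 0 (step_sound _ 131 [(rh82bd946b1709a78e.shift 3 2), rhb0de455c382c5b1c] (by decide +kernel))
noncomputable def rh6c90357d907a80e1 : CRef := CRef.mk (Pat.mk 0x1e0000000a0000000000000000 0x4000000070000001e0000003e0000000300000003 5 6) 0 0 (step_sound _ 68 [rh4ed8f83e52b7dbab, (rhe25b0a99195a5d59.shift 1 2)] (by decide +kernel))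
noncomputable def rhf1aa48e26aa9d38a : CRef := CRef.mk (Pat.mk 0x1000000010000000100000003800000000 0x800000018000000180000003c000000ff00000006 5 8) 0 0 (step_sound _ 131 [rh46c394614903929b, (rh50fbb5868c909700.shift 3 1)] (by decide +kernel))
noncomputable def rh416f268873db3970 : CRef := CRef.mk (Pat.mk 0x18000000080000001e00000000 0x10000000100000001800000018000000fb0000007e000000e0 5 8) 0 0 (step_sound _ 65 [(rh3244c3cc8379b070.shift 0 1), (rh4b5ec95bfefbdd16.shift 1 0)] (by decide +kernel))
noncomputable def rh16a49f19a95f6c1b : CRef := CRef.mk (Pat.mk 0x18000000080000001c0000000000000000 0x18000000380000003f000000f000000030 5 8) 0 0 (step_sound _ 100 [(rh312eadfd36a7b554.shift 1 0), (rh3ebba147dbd14f98.shift 2 0), (rhab2ad169e49f9c5e.shift 0 2)] (by decide +kernel))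
noncomputable def rhbe3896a8aaca0abf : CRef := CRef.mk (Pat.mk 0x7800000000 0x7000000ff0000003f 5 8) 0 0 (step_sound _ 34 [rh0a76e02ed0c9fddd, rh775ca1963e850b80, (rheae1728ff4a56756.shift 1 0)] (by decide +kernel))
noncomputable def rh0b9c1a23a7f9201e : CRef := CRef.mk (Pat.mk 0x30000000000000001e00000000 0x4000000040000003c000000070000003e00000008 5 6) 0 0 (step_sound _ 65 [(rh3244c3cc8379b070.shift 0 1), (rha5aa5ffe9d34ea00.shift 1 0)] (by decide +kernel))
noncomputable def rh423ca3aab2ea27c4 : CRef := CRef.mk (Pat.mk 0x1e000000000000000000000000 0x4000000060000003e000000070000000200000002 5 6) 0 0 (step_sound _ 65 [(rhab1aa65dea6b9342.shift 1 0), (rheb0810cc63b001d8.shift 0 2)] (by decide +kernel))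
noncomputable def rh53a055eaa2efe286 : CRef := CRef.mk (Pat.mk 0x1c00000000 0xf00000007e000000ef 5 8) 0 0 (step_sound _ 37 [(rh35e918dd76851f8c.shift 2 0), rh7654d7b92c96fe12, (rh8db7f7558b75b2b1.shift 1 0), (rhdd4fe9fd28ed4c0f.shift 1 0)] (by decide +kernel))
noncomputable def rh591003b0aabe21aa : CRef := CRef.mk (Pat.mk 0x1c00000000 0xe00000007e000000ff 5 8) 0 0 (step_sound _ 37 [rh008b05f4778dc30d, (rh35e918dd76851f8c.shift 2 0), (rh8db7f7558b75b2b1.shift 1 0), (rhdd4fe9fd28ed4c0f.shift 1 0)] (by decide +kernel))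
noncomputable def rh8c1f28019143619b : CRef := CRef.mk (Pat.mk 0x80000001800000018000000000000000000000000 0x40000000c0000001c000000380000001f0000001c0000000c 5 6) 0 0 (step_sound _ 68 [rh0bf6fbdf131c72f8, (rh7b1f1fb55310c477.shift 3 1)] (by decide +kernel))
noncomputable def rh45871cc5e633538c : CRef := CRef.mk (Pat.mk 0x4000000060000000e000000000000000000000000 0x4000000060000003f0000003c0000000800000008 5 6) 0 0 (step_sound _ 100 [rh42c212064b599c2b, (rhf48373e13d2bc128.shift 1 3)] (by decide +kernel))
noncomputable def rh7ebfa13ad2a5fb9f : CRef := CRef.mk (Pat.mk 0x1000000038000000000000003000000000 0x40000001e000000380000000f0000007e000000ff 5 8) 0 0 (step_sound _ 35 [rhb54390edcf8a95c3, (rhd64445e5e724fed5.shift 1 0), rhd8970f20df7aae31, rhee2ff9d90efa8c59] (by decide +kernel))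
noncomputable def rh5fcef695c0682304 : CRef := CRef.mk (Pat.mk 0x800000008000000080000000e00000000 0x40000000c0000000c0000000e0000007e00000013 5 7) 0 0 (step_sound _ 36 [(rh55afc6a59410cf00.shift 3 0), rh565c45dadea7da64] (by decide +kernel))
noncomputable def rhd981695f3a4c809d : CRef := CRef.mk (Pat.mk 0x4000000040000000c0000000c 0x3a0000003e0000000f0000000c0000000c 5 6) 0 0 (step_sound _ 97 [(rh50fbb5868c909700.shift 1 0), rhb60084e65a5c8fc9] (by decide +kernel))
noncomputable def rh53b9193ad1f1d216 : CRef := CRef.mk (Pat.mk 0x100000000c0000000800000018 0x800000018000000180000000f0000001c0000001c 5 5) 0 0 (step_sound _ 99 [(rh2f68792b6b779e96.shift 3 0), rhadb2c322c9f6e07f] (by decide +kernel))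
noncomputable def rhdf4a68b946174ceb : CRef := CRef.mk (Pat.mk 0x8000000180000001e0000000000000000 0x20000000b0000001f0000003e0000000400000004 5 6) 0 0 (step_sound _ 97 [(rh3244c3cc8379b070.shift 0 2), rh55a8a2e35418a2e9] (by decide +kernel))
noncomputable def rhd8a69d8a2039d214 : CRef := CRef.mk (Pat.mk 0x180000001e00000000 0x1f000000fe000000e0 5 8) 0 0 (step_sound _ 65 [(rh3244c3cc8379b070.shift 0 1), (rh9769bdab59649ef8.shift 1 0)] (by decide +kernel))
noncomputable def rh0458e7acc31afe59 : CRef := CRef.mk (Pat.mk 0x80000001a0000000b000000000000000000000000 0x11000000330000001f0000001b0000000b000000010000000100000001 5 6) 0 0 (step_sound _ 161 [(rh3068e443d36f23f5.shift 0 3), (rhc97aff1a6a62e709.shift 0 2), rhfafeb437ceb8396d] (by decide +kernel))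
noncomputable def rheb0d3c029d575766 : CRef := CRef.mk (Pat.mk 0x1000000034000000140000000000000000 0x8000000080000003c0000003f000000160000000400000004 5 6) 0 0 (step_sound _ 99 [rh6dacba17831d5b53, (rheb0810cc63b001d8.shift 1 2)] (by decide +kernel))
noncomputable def rh0b1b9f8dd6577694 : CRef := CRef.mk (Pat.mk 0x200000006800000008 0x770000007e0000000c 5 7) 0 0 (step_sound _ 36 [(rh3e0b38310ac09007.shift 0 1), (rheb0810cc63b001d8.shift 2 0)] (by decide +kernel))
noncomputable def rh0c034af5d33ac9bb : CRef := CRef.mk (Pat.mk 0x80000001a0000000a00000000 0x400000015000000370000001f0000001f0000000a00000002 5 6) 0 0 (step_sound _ 97 [rh6380ca6fab66e38a, (rhd8be3b7ca6adb62f.shift 0 2), rhf64cf2cfa0eeb0d9] (by decide +kernel))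
noncomputable def rh6a2eff7b13e20122 : CRef := CRef.mk (Pat.mk 0x80000001a0000000a0000000000000000 0x500000017000000370000001f0000001b0000000b0000000300000001 5 6) 0 0 (step_sound _ 129 [(rh3068e443d36f23f5.shift 0 2), (rh46990448042cc692.shift 0 1), rh5276f7368372b0a4, (rh58ffa0133807a088.shift 0 1), rh8e41442dd2d7cc36] (by decide +kernel))
noncomputable def rh7b863bffb428cc17 : CRef := CRef.mk (Pat.mk 0x80000001a0000000a00000000 0x400000014000000360000001f0000001f0000003a00000002 5 6) 0 0 (step_sound _ 97 [(rh5f6f4b204f5806fb.shift 0 1), rh6380ca6fab66e38a, (rhd8be3b7ca6adb62f.shift 0 2)] (by decide +kernel))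
noncomputable def rhe2fc999be1ecc59a : CRef := CRef.mk (Pat.mk 0x80000001a0000000a000000000000000000000000 0x500000017000000370000001f0000001b0000000b000000070000000700000005 5 6) 0 0 (step_sound _ 161 [(rh3068e443d36f23f5.shift 0 3), (rh46990448042cc692.shift 0 2), (rh5276f7368372b0a4.shift 0 1), (rh58ffa0133807a088.shift 0 2), rh9025223dca583e9f] (by decide +kernel))
noncomputable def rh1759279f5a3ad266 : CRef := CRef.mk (Pat.mk 0x1000000034000000140000000000000000 0x40000003e0000003f0000007c0000006800000028 5 7) 0 0 (step_sound _ 99 [(rh055db6938db19010.shift 0 2), (rha03f6e28ea70fc7d.shift 1 2), (rhcd77e05e0c131bda.shift 1 0)] (by decide +kernel))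
noncomputable def rh7b71908ccfc37d9c : CRef := CRef.mk (Pat.mk 0x80000001a0000000a0000000000000000 0x80000001f0000003e0000003700000010 5 6) 0 0 (step_sound _ 68 [rh1517675b5b4fba58, rh741b079238e32ec6, (rhcd6baf37b3e5de21.shift 0 2), (rhd8be3b7ca6adb62f.shift 0 2)] (by decide +kernel))
noncomputable def rh1feb8c953a206a38 : CRef := CRef.mk (Pat.mk 0x80000001a00000002000000000000000000000000 0x100000005000000070000000f0000001e00000006000000070000000700000005 5 5) 0 0 (step_sound _ 161 [(rh46990448042cc692.shift 0 2), rhd54ba717e3821403, (rhd8be3b7ca6adb62f.shift 0 4), (rhe8a9e0e6037b7c6e.shift 0 2)] (by decide +kernel))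
noncomputable def rhc75110e2c45decd6 : CRef := CRef.mk (Pat.mk 0x80000001a0000000a000000000000000000000000 0x100000011000000330000001f0000001b0000001e000000370000001700000005 5 6) 0 0 (step_sound _ 161 [rh06d79b177cf9f49c, (rh3068e443d36f23f5.shift 0 3), (rh46990448042cc692.shift 0 2), (rh58ffa0133807a088.shift 0 2), rh73e4dc42196a65d8] (by decide +kernel))
noncomputable def rhbebce00a550005a3 : CRef := CRef.mk (Pat.mk 0x8000000180000000a0000000000000000 0x80000001c000000ff0000003700000010 5 8) 0 0 (step_sound _ 66 [(rh53b3c253cb0c65f4.shift 0 2), rh7546ed41750f8fb3] (by decide +kernel))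
noncomputable def rh0d566e3c655ff915 : CRef := CRef.mk (Pat.mk 0x800000038000000000000000000000000 0x40000000c0000000c0000000c000000780000001f0000001c00000004 5 7) 0 0 (step_sound _ 67 [(rh8f75c820ceb79a60.shift 2 0), (rhb5ba847c57864cbc.shift 2 1), (rhd9106766b9ff53c0.shift 2 2), (rhf0f55c4504412200.shift 0 2)] (by decide +kernel))
noncomputable def rh00cb505adf0f4d04 : CRef := CRef.mk (Pat.mk 0x1a0000000e000000000000000000000000 0x10000000100000003000000030000001f0000000e000000060000000400000004 5 5) 0 0 (step_sound _ 161 [(rh235edbdf3bbc6c03.shift 1 0), (rha768b229dc254047.shift 1 0), (rhdd17fd55617d70f9.shift 0 2), (rhf64cf2cfa0eeb0d9.shift 0 2)] (by decide +kernel))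
noncomputable def rhfb452336cd872e19 : CRef := CRef.mk (Pat.mk 0x1a0000000e0000000000000000 0x3000000030000001f0000001e0000000700000004 5 5) 0 0 (step_sound _ 68 [(rh3244c3cc8379b070.shift 0 2), rh56b1b4197d27d114] (by decide +kernel))
noncomputable def rh33e5cafec0ef43d6 : CRef := CRef.mk (Pat.mk 0x200000006000000030000000000000000 0x200000006000000060000000600000007000000070000000600000006 5 3) 0 0 (step_sound _ 161 [(rh17ebc3e771625541.shift 1 0), (rh5299d028bcf83633.shift 0 1), (rhd4b4beefcd67f51e.shift 1 1)] (by decide +kernel))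
noncomputable def rha9211d7bd8917ade : CRef := CRef.mk (Pat.mk 0x200000006000000030000000200000000 0x40000000600000006000000070000001f0000001d 5 5) 0 0 (step_sound _ 34 [rh2f069b59d9010aa5, (rh55afc6a59410cf00.shift 1 0)] (by decide +kernel))
noncomputable def rhd7126b8ebb3d1c62 : CRef := CRef.mk (Pat.mk 0x180000001e000000000000000000000000 0x200000002000000070000001f0000001e000000070000000200000002 5 5) 0 0 (step_sound _ 129 [rh0cccb2b69194b4e7, (rh3244c3cc8379b070.shift 0 3)] (by decide +kernel))
noncomputable def rh3c482b661058f648 : CRef := CRef.mk (Pat.mk 0x380000000c0000000000000000 0x40000000c0000001c0000001f0000003c0000001c0000001c00000018 5 6) 0 0 (step_sound _ 131 [(rh25f6b1c3affd7b3c.shift 2 0), rh4289f1f21bc106a3, (rhbb339bb7e4e96b38.shift 2 1)] (by decide +kernel))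
noncomputable def rh64bbea378ab37d6b : CRef := CRef.mk (Pat.mk 0x380000000c000000000000000000000000 0x1c0000001f0000003c0000000c0000000c0000000c00000004 5 6) 0 0 (step_sound _ 163 [(rh281c6819542c66e6.shift 2 0), (rh4289f1f21bc106a3.shift 0 1), (rhfafeb437ceb8396d.shift 2 0)] (by decide +kernel))
noncomputable def rh1c6fd882a7edb6d2 : CRef := CRef.mk (Pat.mk 0x200000006000000030000000000000000 0x10000000300000007000000060000001f000000070000000600000006 5 5) 0 0 (step_sound _ 161 [(rh9ade936a91f8145f.shift 0 2), (rhca18712e5e5c7b8f.shift 1 0), (rhd4b4beefcd67f51e.shift 1 1)] (by decide +kernel))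
noncomputable def rh6f2ea89f4c10c451 : CRef := CRef.mk (Pat.mk 0x20000000600000002000000020000000400000000 0x300000003000000030000000600000006000000020000000600000006 5 3) 0 0 (step_sound _ 33 [(rh55afc6a59410cf00.shift 1 0), rhf4e6fedba06c3e58] (by decide +kernel))
noncomputable def rh17ea70473ed50263 : CRef := CRef.mk (Pat.mk 0xc0000000700000000000000000000000000000000 0xa0000000e0000000e0000000c000000070000003e0000000e0000000e0000000a 5 6) 0 0 (step_sound _ 98 [(rh0368f485681c63ab.shift 0 2), (rh215e11e099257d75.shift 2 2), rh3f069944e50c0cbf, (rhfa40f754f1f7b88f.shift 1 0)] (by decide +kernel))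
noncomputable def rhe16108f077a7d0e5 : CRef := CRef.mk (Pat.mk 0x20000000300000002000000000000000000000000 0x3000000030000000300000007000000070000000700000005 5 3) 0 0 (step_sound _ 65 [rh8cdd36b03d57a2f6, (rhc9ac229b3c77cd55.shift 0 1), (rhe286c75f2739cce2.shift 0 1)] (by decide +kernel))
noncomputable def rha634f858da7e466a : CRef := CRef.mk (Pat.mk 0x4000000070000000400000000 0xa0000000e0000000e00000004000000070000001e0000000a 5 5) 0 0 (step_sound _ 130 [(rh03dfdf12d5937476.shift 1 0), rhb379f99078aafa2d, (rhc85cc95794737cf7.shift 1 1)] (by decide +kernel))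
noncomputable def rh073924512706379d : CRef := CRef.mk (Pat.mk 0x380000000c000000000000000000000000 0x1c0000001f0000003c0000000c0000001c0000001c00000014 5 6) 0 0 (step_sound _ 163 [rh265236f62c04d141, (rh4289f1f21bc106a3.shift 0 1), (rhfafeb437ceb8396d.shift 2 0)] (by decide +kernel))
noncomputable def rh3c48bd0e307783b3 : CRef := CRef.mk (Pat.mk 0x200000006000000030000000000000000 0x100000003000000030000000300000007000000070000000600000004 5 3) 0 0 (step_sound _ 161 [rh46baee19951a66e7, (rha54302d5ccf5246c.shift 0 2), (rhd4b4beefcd67f51e.shift 1 1)] (by decide +kernel))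
noncomputable def rhc60d730b1bc97c58 : CRef := CRef.mk (Pat.mk 0x8000000380000000c000000000000000000000000 0x40000000f0000003c0000001c0000001c0000001c0000001c 5 6) 0 0 (step_sound _ 67 [(rh2dd23789115a02f3.shift 2 0), (rh3181373a30ceb9e3.shift 2 0), (rh60f8a5416b531026.shift 2 0), (rhf0eae3109e9a967c.shift 0 1)] (by decide +kernel))
noncomputable def rhf9d0de732103f405 : CRef := CRef.mk (Pat.mk 0x680000002c00000000000000000000000000000000 0x400000004c0000004c0000006c0000006f0000007c0000003c0000001c00000014 5 7) 0 0 (step_sound _ 99 [(rh05f6cb55ae7c9b80.shift 2 0), (rh2140e04d90a4f0d4.shift 2 0), (rh498dffc738f2231f.shift 2 1), (rhf75825f908e643c1.shift 0 2)] (by decide +kernel))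
noncomputable def rh168213f4932e3fe0 : CRef := CRef.mk (Pat.mk 0x6000000028000000280000000000000000 0x140000001c0000001c000000fc0000006f0000007c0000000c00000004 5 8) 0 0 (step_sound _ 131 [(rh40987509451a5734.shift 0 2), (rh8e41442dd2d7cc36.shift 2 0), (rhab8a6151de98a722.shift 2 0), (rhfe59245d4f7f9ecc.shift 2 1)] (by decide +kernel))
noncomputable def rhb138e29ad8ba5fb9 : CRef := CRef.mk (Pat.mk 0x600000002800000028000000000000000000000000 0x140000001c000000fc0000006f0000007c000000180000001000000010 5 8) 0 0 (step_sound _ 163 [(rh28aca3f80a7edfeb.shift 1 0), (rh2deadcd8992887d6.shift 2 1), (rh40987509451a5734.shift 0 3), (rhfe59245d4f7f9ecc.shift 2 2)] (by decide +kernel))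
noncomputable def rh6f4b8e386aa97472 : CRef := CRef.mk (Pat.mk 0x60000000280000002800000000 0x140000001c0000001e0000007c0000006f0000007c00000014 5 7) 0 0 (step_sound _ 99 [(rh40987509451a5734.shift 0 1), (rh6ebf234536327d76.shift 2 0), (rha40f8f78fb75e358.shift 1 2)] (by decide +kernel))
noncomputable def rh247d73f1df9737de : CRef := CRef.mk (Pat.mk 0x6000000008000000280000000000000000 0x140000001c0000001c000000fc0000000f0000007c0000001c00000010 5 8) 0 0 (step_sound _ 131 [(rh2deadcd8992887d6.shift 2 0), (rh40987509451a5734.shift 0 2), (rhded885047b16a567.shift 2 1), (rhe616bd15ec9e20c1.shift 2 0)] (by decide +kernel))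
noncomputable def rhd3f3446ec312a9c0 : CRef := CRef.mk (Pat.mk 0x300000001400000014000000000000000000000000 0xa0000000f0000007e000000360000003c0000000e0000000e0000000a 5 7) 0 0 (step_sound _ 162 [(rh2deadcd8992887d6.shift 1 1), (rh73e4dc42196a65d8.shift 1 0), (rha40f8f78fb75e358.shift 0 4), (rhded885047b16a567.shift 1 2), (rhfe59245d4f7f9ecc.shift 1 2)] (by decide +kernel))
noncomputable def rh54c6da3650e36f4c : CRef := CRef.mk (Pat.mk 0x180000000a0000000a000000000000000000000000 0x5000000070000003f0000001a0000000f000000070000000700000005 5 6) 0 0 (step_sound _ 161 [(rh12102cd1337facfa.shift 0 1), (rh2deadcd8992887d6.shift 0 1), rh3690aec8ba212820, rh946a116aad97a44e, (rhab8a6151de98a722.shift 0 1), (rhd2b18c200f9faf18.shift 0 2)] (by decide +kernel))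
noncomputable def rh064abf206e4a72aa : CRef := CRef.mk (Pat.mk 0x200000002800000028000000000000000000000000 0x200000006f000000fe000001df0000004000000040 5 9) 0 0 (step_sound _ 100 [(rh5313d5bb1e61521b.shift 2 0), (rha9fbfd4bb8cf890b.shift 0 3), (rhcc1929177a3251cc.shift 1 0), (rhd117684c4a851b90.shift 1 3), (rhf2cc7d47ec58b7ff.shift 0 2)] (by decide +kernel))
noncomputable def rh4636448a0a7f418b : CRef := CRef.mk (Pat.mk 0x300000001400000004000000000000000000000000 0xa0000000f0000007e00000036000000060000000e0000000e0000000a 5 7) 0 0 (step_sound _ 162 [(rh9025223dca583e9f.shift 1 0), (rha40f8f78fb75e358.shift 0 4), (rhab8a6151de98a722.shift 1 1), (rhded885047b16a567.shift 1 2), (rhfe59245d4f7f9ecc.shift 1 2)] (by decide +kernel))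
noncomputable def rha9976d33c3d2c8d2 : CRef := CRef.mk (Pat.mk 0x600000002800000028000000000000000000000000 0x8000000780000006f0000007c000000df0000004400000040 5 8) 0 0 (step_sound _ 100 [(rh1c5d69a9a9904ae7.shift 1 2), (rh5313d5bb1e61521b.shift 2 0), (rha9fbfd4bb8cf890b.shift 0 3), (rhd117684c4a851b90.shift 1 3), (rhefdf625c97bc0510.shift 0 1)] (by decide +kernel))
noncomputable def rh7a00fdc70e9b661e : CRef := CRef.mk (Pat.mk 0x8000000180000000e000000000000000000000000 0x20000000f0000001f0000001e000000360000001400000004 5 6) 0 0 (step_sound _ 129 [rh7724783241fece53, (rhb9784ff7a7632a57.shift 0 1)] (by decide +kernel))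
noncomputable def rh2ec66d7e7d50caaa : CRef := CRef.mk (Pat.mk 0x80000001a0000000a00000000 0x400000004000000060000001f0000007f0000001a00000002 5 7) 0 0 (step_sound _ 97 [(rh8857db3d5f1bcaf5.shift 0 1), (rhd8be3b7ca6adb62f.shift 0 2), (rhf5853b842d3a401a.shift 1 0)] (by decide +kernel))
noncomputable def rh508bd44b5ff31b94 : CRef := CRef.mk (Pat.mk 0x80000001a00000002000000000000000000000000 0x400000005000000070000001f0000007b00000003000000070000000700000005 5 7) 0 0 (step_sound _ 161 [rh9025223dca583e9f, (rh9ebd639649ea671c.shift 0 4), (rhf5853b842d3a401a.shift 1 2)] (by decide +kernel))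
noncomputable def rh4b6f5d35e679d7b1 : CRef := CRef.mk (Pat.mk 0x80000003800000000000000000000000000000000 0x180000001800000018000000780000001f0000001c0000001c00000014 5 7) 0 0 (step_sound _ 99 [(rh19b19bf0872cfe73.shift 2 0), (rh210813553596681c.shift 2 0), (rh5f4fb9541f0899b7.shift 2 1), (rhf0f55c4504412200.shift 0 3)] (by decide +kernel))
noncomputable def rh72ac494e39ec6f21 : CRef := CRef.mk (Pat.mk 0x800000038000000000000000000000000 0x140000001c0000001c0000001c000000380000001f0000001c0000001c 5 6) 0 0 (step_sound _ 163 [(rh046c5eb18e55a239.shift 3 0), (rh5203773e7ec65d1b.shift 2 0), (rh70e33bfdf511e144.shift 3 0), rheea1dc0a7c465a8a] (by decide +kernel))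
noncomputable def rh35f3e58c050f8740 : CRef := CRef.mk (Pat.mk 0x1c00000018 0x70000003f0000001f 5 6) 0 0 (step_sound _ 33 [rh3bbb6459c441914e, rhb739f4f82bb681b4] (by decide +kernel))
noncomputable def rh3b50166728417108 : CRef := CRef.mk (Pat.mk 0xe0000000c0000000000000000 0x200000002000000070000003e0000003f0000000400000004 5 6) 0 0 (step_sound _ 68 [rhc443b96e248d4c7a, (rhf48373e13d2bc128.shift 1 2)] (by decide +kernel))
noncomputable def rhb47cf74c449936d8 : CRef := CRef.mk (Pat.mk 0x40000000c0000000c0000000000000000 0x80000000a0000000f0000003c0000001c0000001c0000001c 5 6) 0 0 (step_sound _ 35 [rh0cf217c63b3fc1f8, (rh7b1f1fb55310c477.shift 2 0)] (by decide +kernel))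
noncomputable def rhb3e0af99ef9876dd : CRef := CRef.mk (Pat.mk 0x1800000018000000000000000000000000 0xc0000001f0000007c00000018000000180000001800000008 5 7) 0 0 (step_sound _ 163 [rh296a6af879346d54, (rh55a1f6c57a317ce6.shift 3 1)] (by decide +kernel))
noncomputable def rh692eb55c762e9843 : CRef := CRef.mk (Pat.mk 0xc0000000c0000000000000000 0x80000000e0000000f0000003e0000007c0000001c0000000c 5 7) 0 0 (step_sound _ 130 [(rh55a1f6c57a317ce6.shift 2 0), rhafa04bb91b9b064d] (by decide +kernel))
noncomputable def rhb7223ea9debff707 : CRef := CRef.mk (Pat.mk 0x18000000380000000000000000 0x1000000010000000780000003f0000007000000020 5 7) 0 0 (step_sound _ 66 [(rh6210f0fae0472354.shift 2 0), (rhab2ad169e49f9c5e.shift 0 2), (rhf56dc6c929980f59.shift 0 1)] (by decide +kernel))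
noncomputable def rhcdfd685eb81435ef : CRef := CRef.mk (Pat.mk 0xc0000000c000000040000000000000000 0x20000000f0000003c000000040000000600000006 5 6) 0 0 (step_sound _ 34 [(rh71222050f2c63a3a.shift 2 0), rhd24778b085d8f6e1] (by decide +kernel))
noncomputable def rh16b98b7cd0fb490e : CRef := CRef.mk (Pat.mk 0x18000000180000000000000000 0x180000001c000000fc000000ff000000f000000030 5 8) 0 0 (step_sound _ 69 [(rh43e06a69887b4db3.shift 0 1), (rh79b3c29022acbdf3.shift 2 2), (rhd346a82972aa81ea.shift 1 0)] (by decide +kernel))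
noncomputable def rhb3d9a4387d8bf9a1 : CRef := CRef.mk (Pat.mk 0x180000000c000000000000000000000000 0x80000001c000000ff000000770000001000000010 5 8) 0 0 (step_sound _ 97 [rh118b50d72e2cad2c, (rh53b3c253cb0c65f4.shift 0 3)] (by decide +kernel))
noncomputable def rh5b9ac6f70bb6dcf4 : CRef := CRef.mk (Pat.mk 0xc0000000e000000000000000000000000 0x40000007f0000007e000000030000000200000002 5 7) 0 0 (step_sound _ 100 [(rh4c40641a327d7ac1.shift 0 2), rh4f129d8f37c2c70a, (rh79b3c29022acbdf3.shift 1 3)] (by decide +kernel))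
noncomputable def rhbfba2f3eff79f6ae : CRef := CRef.mk (Pat.mk 0xc0000000e000000000000000000000000 0x40000000f0000007e000000730000000200000002 5 7) 0 0 (step_sound _ 100 [rh4f129d8f37c2c70a, (rh79b3c29022acbdf3.shift 1 3), (rh87ee923877636e52.shift 1 2)] (by decide +kernel))
noncomputable def rhc06180d46fdc3d95 : CRef := CRef.mk (Pat.mk 0x600000007000000000000000000000000 0x400000004000000070000003f0000003e0000000e00000006 5 6) 0 0 (step_sound _ 162 [(rh1e309b005ffa1b36.shift 1 1), rh5bb2b439614485e2, (rh5f99a340f54a2fa1.shift 0 2)] (by decide +kernel))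
noncomputable def rh934c9516dfa7de0c : CRef := CRef.mk (Pat.mk 0x380000000800000000000000000000000000000000 0x140000001c0000001f000000380000001c0000001c0000001c0000001c00000004 5 6) 0 0 (step_sound _ 99 [(rh15590a39afd9a120.shift 2 0), (rh215e11e099257d75.shift 3 2), (rhd03dc3b7a42c1589.shift 2 1), (rhda29e93936cd8414.shift 0 2), (rhe3458ab40071103b.shift 3 2)] (by decide +kernel))
noncomputable def rha7ddab351b460066 : CRef := CRef.mk (Pat.mk 0x3800000000 0xf0000007e000000ef 5 8) 0 0 (step_sound _ 34 [(rh0edd3afef6b5d7e0.shift 1 0), (rh3947d1dfff0afc6c.shift 1 0), (rh56f43794bcf10c2f.shift 1 0), rh775ca1963e850b80] (by decide +kernel))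
noncomputable def rh011d1f3cf95b381c : CRef := CRef.mk (Pat.mk 0xe00000001 0xe70000007e000000e3 5 8) 0 0 (step_sound _ 36 [rh80fcd6d0a18cb2dd, rhdc173edb4e3fed61] (by decide +kernel))
noncomputable def rh3b9a704cb638bc37 : CRef := CRef.mk (Pat.mk 0x7000000030000000000000000000000000 0x1000000010000000780000007c0000001f0000000800000008 5 7) 0 0 (step_sound _ 99 [(rh53b3c253cb0c65f4.shift 2 3), rha8013273f785f51e] (by decide +kernel))
noncomputable def rh510b6b9e2e542969 : CRef := CRef.mk (Pat.mk 0x600000006000000000000000000000000 0x60000000600000006000000070000003f0000000f0000000f 5 6) 0 0 (step_sound _ 66 [(rh3cb04db3dd2b6a55.shift 1 0), (rh6852947d3e67d303.shift 1 0), rhac8e378a69d6fa04] (by decide +kernel))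
noncomputable def rh8e42b18955c5c441 : CRef := CRef.mk (Pat.mk 0x1800000018000000000000000000000000 0x80000001800000018000000380000003f0000003c0000003c 5 6) 0 0 (step_sound _ 68 [(rh3cb04db3dd2b6a55.shift 3 0), (rh6852947d3e67d303.shift 3 0), rhdb3d1dd0d83a7cbc] (by decide +kernel))
noncomputable def rh0764057f599dbd8d : CRef := CRef.mk (Pat.mk 0xe0000000200000002000000000000000000000000 0x4000000060000003f0000007e0000000f000000050000000400000004 5 7) 0 0 (step_sound _ 132 [(rh3651dc98b7bda96d.shift 1 3), rh66c66a19da84e11d, (rh71efda916732b25a.shift 0 4)] (by decide +kernel))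
noncomputable def rh6c5d9b77960fe42a : CRef := CRef.mk (Pat.mk 0x10000000e00000000 0x30000003e00000077 5 7) 0 0 (step_sound _ 36 [rh0edd3afef6b5d7e0, (rh3f8766e6ecb455ce.shift 0 1)] (by decide +kernel))
noncomputable def rh115df6ab38b25b33 : CRef := CRef.mk (Pat.mk 0xe00000010 0x700000003e00000037 5 7) 0 0 (step_sound _ 36 [rh3b00e9e9432b8f40, (rhe25b0a99195a5d59.shift 1 0)] (by decide +kernel))
noncomputable def rh249208cc34e75ef4 : CRef := CRef.mk (Pat.mk 0x18000000380000000000000000 0x4000000060000007e0000003f0000007800000008 5 7) 0 0 (step_sound _ 98 [rh399fa0e70005660c, (rhb739f4f82bb681b4.shift 1 2)] (by decide +kernel))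
noncomputable def rhbca0fbe1ec9df2c6 : CRef := CRef.mk (Pat.mk 0xc0000000c0000000000000000 0x6000000070000003f0000003c0000000c0000000c 5 6) 0 0 (step_sound _ 97 [rh26f820cb19a930a5, (rh6292bd8784ece55f.shift 0 2)] (by decide +kernel))
noncomputable def rhd82711d04bc924c1 : CRef := CRef.mk (Pat.mk 0xc0000000c0000000800000000 0x80000000e0000000f0000003c0000001c0000001c00000014 5 6) 0 0 (step_sound _ 131 [(rh0ff7ca71cb891e23.shift 2 0), (rh1e309b005ffa1b36.shift 2 0), rh82f14c06086e67a0] (by decide +kernel))
noncomputable def rh0c7d7653291d5603 : CRef := CRef.mk (Pat.mk 0xe0000000c000000000000000000000000 0xf0000007e0000003f000000300000001000000010 5 7) 0 0 (step_sound _ 100 [rhb39e12d8476ddcfb, (rhf48373e13d2bc128.shift 1 3)] (by decide +kernel))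
noncomputable def rh9ba20578d028b83e : CRef := CRef.mk (Pat.mk 0x1800000018000000000000000000000000 0x80000001c000000fc000000ff000000f00000003000000020 5 8) 0 0 (step_sound _ 101 [(rh264680c962c2421e.shift 1 0), (rh43e06a69887b4db3.shift 0 2), (rh79b3c29022acbdf3.shift 2 3)] (by decide +kernel))
noncomputable def rh1abd56020eed7a25 : CRef := CRef.mk (Pat.mk 0x300000001c000000000000000000000000 0x140000003f0000003f0000007c0000000f0000000c0000000c 5 7) 0 0 (step_sound _ 131 [rh6963969a66bf111c, rha63760247f93a8c8, (rhdc6b042be8ed0243.shift 0 1)] (by decide +kernel))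
noncomputable def rhc47b1c487b8d6248 : CRef := CRef.mk (Pat.mk 0x180000000e000000000000000000000000 0x80000001c000000fe000000370000001000000010 5 8) 0 0 (step_sound _ 100 [rh2fb7851f2066c386, (rhbbe16ff26f7822db.shift 1 0), (rhc5b6c3e7bb45db36.shift 0 2)] (by decide +kernel))
noncomputable def rh7015695212d135e4 : CRef := CRef.mk (Pat.mk 0x38000000180000000000000000 0x4000000040000000f0000003f0000001f0000000800000008 5 6) 0 0 (step_sound _ 98 [(rh583cd2949503eb8f.shift 0 2), (rhba89ab7cb81bcc90.shift 0 2), (rhd5889c99d29bf7d6.shift 1 0)] (by decide +kernel))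
noncomputable def rh379da64299479fd6 : CRef := CRef.mk (Pat.mk 0x380000000c00000000000000000000000000000000 0x100000001c0000001f000000380000000f0000007c0000001c0000001c00000014 5 7) 0 0 (step_sound _ 99 [(rh215e11e099257d75.shift 3 2), rh2435341cfb2f3a3e, (rh541160d578a25bcf.shift 0 2), (rhfa40f754f1f7b88f.shift 2 0)] (by decide +kernel))
noncomputable def rh50ff58ea617a0a20 : CRef := CRef.mk (Pat.mk 0x180000000c000000080000000000000000 0xc0000001c0000000f0000001c0000001c0000001c 5 5) 0 0 (step_sound _ 97 [(rh53b3c253cb0c65f4.shift 0 3), (rh717e0b4c10cdb5db.shift 2 0)] (by decide +kernel))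
noncomputable def rh44619c6afac6f31b : CRef := CRef.mk (Pat.mk 0x4000000060000000400000000 0xa0000000e0000000e00000004000000070000003e0000000a 5 6) 0 0 (step_sound _ 130 [(rh03dfdf12d5937476.shift 1 0), rh1861173042f24e9a, (rhc85cc95794737cf7.shift 1 1)] (by decide +kernel))
noncomputable def rh6d04286dbf3de772 : CRef := CRef.mk (Pat.mk 0x380000000c000000000000000000000000 0x100000001c0000001f0000003c0000000c0000000c0000000c00000008 5 6) 0 0 (step_sound _ 67 [(rh000637b5a81e86aa.shift 2 0), (rh215e11e099257d75.shift 3 1), (rh688fbb54c9d31d63.shift 0 1)] (by decide +kernel))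
noncomputable def rh9449709203b7b06f : CRef := CRef.mk (Pat.mk 0x18000000080000000800000000 0x140000001c0000001f0000007c000000180000001800000010 5 7) 0 0 (step_sound _ 131 [(rh426f403fa814630c.shift 3 0), (rh8065c10b3cae6218.shift 2 0), (rhca405e350c462817.shift 0 1)] (by decide +kernel))
noncomputable def rh01265d0ba8bec087 : CRef := CRef.mk (Pat.mk 0x20000000e00000002000000000000000000000000 0x2000000060000003e0000003e000000070000000700000002 5 6) 0 0 (step_sound _ 98 [(rh55a1f6c57a317ce6.shift 1 1), rh9346b80c5304bbe4] (by decide +kernel))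
noncomputable def rh1204dd180cd0281d : CRef := CRef.mk (Pat.mk 0x20000000600000002000000000000000000000000 0x4000000070000000700000003000000060000000600000007000000070000000700000004 5 3) 0 0 (step_sound _ 193 [(rh1db71118bee297d0.shift 0 3), rhc8cc82cbfc1592e2, (rhd4b4beefcd67f51e.shift 1 2)] (by decide +kernel))
noncomputable def rh2babc676b351377d : CRef := CRef.mk (Pat.mk 0x8000000080000003800000000000000000000000000000000 0x40000000c0000001f000000380000001f0000001c0000001c00000010 5 6) 0 0 (step_sound _ 99 [(rh0c1c1b53bc5a1510.shift 2 1), (rh852e818bc8629e77.shift 0 2), (rhc8cc82cbfc1592e2.shift 2 0), (rhd716e2ab31203e19.shift 0 2)] (by decide +kernel))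
noncomputable def rhf16537efca8126d5 : CRef := CRef.mk (Pat.mk 0x8000000080000003800000000000000000000000000000000 0x100000001c0000001c0000000c0000001f000000380000000c0000001c0000001c00000010 5 6) 0 0 (step_sound _ 99 [(rh0c1c1b53bc5a1510.shift 2 1), (rh1db71118bee297d0.shift 2 3), (rhc8cc82cbfc1592e2.shift 2 0), (rhd716e2ab31203e19.shift 0 2)] (by decide +kernel))
noncomputable def rhc0e0b5d8729f332e : CRef := CRef.mk (Pat.mk 0x1e000000020000000000000000 0x4000000070000003e000000320000000200000002 5 6) 0 0 (step_sound _ 68 [rhd1f95657bcbb399e, (rhe25b0a99195a5d59.shift 1 2)] (by decide +kernel))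
noncomputable def rhea4346e1f9fccd6d : CRef := CRef.mk (Pat.mk 0x20000000e000000020000000000000000 0x4000000070000003e000000320000000200000002 5 6) 0 0 (step_sound _ 100 [(rh3244c3cc8379b070.shift 0 3), (rh55f706c54e3a925c.shift 1 0)] (by decide +kernel))
noncomputable def rhae5697c810d4c5d2 : CRef := CRef.mk (Pat.mk 0x20000000e0000000200000000000000000000000000000000 0x600000006000000060000003e0000003e00000003000000070000000700000004 5 6) 0 0 (step_sound _ 97 [rh218cd2e070c414fb, (rh764aa26988b45f22.shift 0 2), (rha707fb719e87fe6e.shift 1 2)] (by decide +kernel))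
noncomputable def rh80878f550b59410f : CRef := CRef.mk (Pat.mk 0x2000000060000000200000000000000000000000000000000 0x4000000070000000700000007000000060000000600000003000000070000000700000004 5 3) 0 0 (step_sound _ 97 [rh218cd2e070c414fb, (rh252bad32582c99d7.shift 0 3), (rha707fb719e87fe6e.shift 1 2)] (by decide +kernel))
noncomputable def rha96127bfef739bab : CRef := CRef.mk (Pat.mk 0x38000000080000000800000000 0x100000001c0000001c0000001f000000380000001f0000000c00000004 5 6) 0 0 (step_sound _ 131 [(rh0fd870c734e6c513.shift 2 0), (rh252bad32582c99d7.shift 2 1), rh6789f6f2074baf8a, rhde807367643436d4] (by decide +kernel))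
noncomputable def rh01653cfd42fdd6e5 : CRef := CRef.mk (Pat.mk 0x380000000800000008000000000000000000000000 0x100000001c0000001c0000000c000000380000001f0000000c0000001c0000001c00000010 5 6) 0 0 (step_sound _ 195 [(rh0fd870c734e6c513.shift 2 2), (rh218cd2e070c414fb.shift 2 0), (rh252bad32582c99d7.shift 2 3), (rhde807367643436d4.shift 0 2)] (by decide +kernel))
noncomputable def rhb63ceb83dcdd1924 : CRef := CRef.mk (Pat.mk 0x20000000e0000000000000000 0x200000002000000030000003e0000000700000004 5 6) 0 0 (step_sound _ 68 [(rh3244c3cc8379b070.shift 0 2), rh92753b9d07d99e9c] (by decide +kernel))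
noncomputable def rh734428ba56e305a9 : CRef := CRef.mk (Pat.mk 0x20000000e00000002000000000000000000000000 0x200000002000000060000003e0000003e000000070000000300000003 5 6) 0 0 (step_sound _ 98 [(rh3e595262c1b737ad.shift 1 2), rh84b6691cd8651792] (by decide +kernel))
noncomputable def rh537802749a754247 : CRef := CRef.mk (Pat.mk 0x800000038000000000000000000000000 0x40000001c0000001c0000001c0000001f000000380000001f0000001c0000000c 5 6) 0 0 (step_sound _ 163 [(rh11d0cfac524032d5.shift 3 1), (rh1c4e170256b7d441.shift 1 1), (rh4e64b7e82c9211af.shift 2 2), rh9b275fa92edc86f9, rhbef597b557994e47] (by decide +kernel))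
noncomputable def rh2b4dd9a983e141eb : CRef := CRef.mk (Pat.mk 0x80000003800000000000000000000000000000000 0x140000001c0000001c00000018000000780000001f0000001c0000001c00000004 5 7) 0 0 (step_sound _ 99 [(rh19b19bf0872cfe73.shift 2 0), (rh2b1c276a6b56355c.shift 2 1), (rh5f4fb9541f0899b7.shift 2 1), (rhf0f55c4504412200.shift 0 3)] (by decide +kernel))
noncomputable def rh4ecc1d8b8edb1dd7 : CRef := CRef.mk (Pat.mk 0x600000006000000000000000000000000 0x4000000040000000f0000003f0000007c0000000800000008 5 7) 0 0 (step_sound _ 99 [rh3ed98727abf28908, (rh79b3c29022acbdf3.shift 0 3)] (by decide +kernel))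
noncomputable def rh3e2dc10e82d2dee4 : CRef := CRef.mk (Pat.mk 0xc0000001c000000000000000000000000 0xf0000007f0000001f000000300000001000000010 5 7) 0 0 (step_sound _ 129 [rhb39e12d8476ddcfb, (rhb739f4f82bb681b4.shift 0 3)] (by decide +kernel))
noncomputable def rh48dcc808214cd2bf : CRef := CRef.mk (Pat.mk 0x180000003800000000 0x38000000ff000000e0 5 8) 0 0 (step_sound _ 38 [rhe74f96057964b96f, (rhf48373e13d2bc128.shift 3 1)] (by decide +kernel))
noncomputable def rha2f792dab8f61a5f : CRef := CRef.mk (Pat.mk 0xc0000000c000000000000000000000000 0x40000000e0000007e0000007f000000380000001800000010 5 7) 0 0 (step_sound _ 100 [rh264680c962c2421e, (rh79b3c29022acbdf3.shift 1 3)] (by decide +kernel))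
noncomputable def rh92ec9ad1740740a7 : CRef := CRef.mk (Pat.mk 0x300000001c000000000000000000000000 0x140000003f0000003f0000007c0000000f0000000c0000000c 5 7) 0 0 (step_sound _ 131 [rh6963969a66bf111c, (rh749bb6fde4a0135a.shift 0 1), rha63760247f93a8c8, (rhdc6b042be8ed0243.shift 0 1)] (by decide +kernel))
noncomputable def rh9bfe8d6fc2d7c58d : CRef := CRef.mk (Pat.mk 0x180000000c000000000000000000000000 0x1c0000001f0000007c0000000c0000000c0000000c00000004 5 7) 0 0 (step_sound _ 163 [(rh281c6819542c66e6.shift 2 0), (rh38bc03afb230705f.shift 0 1), (rhfafeb437ceb8396d.shift 2 0)] (by decide +kernel))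
noncomputable def rh964519c5dc280d9c : CRef := CRef.mk (Pat.mk 0x3800000018000000000000000000000000 0xc0000002c0000003e000000780000001f0000001c00000018 5 7) 0 0 (step_sound _ 68 [rh95477202962e8ef9, (rhb0c1e7919d9be92d.shift 3 0)] (by decide +kernel))
noncomputable def rh0a300c3f6eb33416 : CRef := CRef.mk (Pat.mk 0x7000000018000000000000000000000000 0x80000002f0000007f000000f80000001c0000001800000018 5 8) 0 0 (step_sound _ 131 [(rh0de5acb61b506233.shift 2 0), (rh38a0850c9fea941e.shift 2 1), (rhde1252caea722962.shift 0 3)] (by decide +kernel))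
noncomputable def rh29899b13cbe5440e : CRef := CRef.mk (Pat.mk 0x1c00000006000000000000000000000000 0x2000000070000001f0000003e000000070000000600000002 5 6) 0 0 (step_sound _ 129 [(rh38a0850c9fea941e.shift 0 1), rhd9a831431bcbae10] (by decide +kernel))
noncomputable def rh57f103642405ccc5 : CRef := CRef.mk (Pat.mk 0x20000000200000002000000000000000000000000 0x3000000030000000300000007000000070000000700000005 5 3) 0 0 (step_sound _ 65 [rh46baee19951a66e7, rh6aa5625770489e83, (rhc9ac229b3c77cd55.shift 0 1)] (by decide +kernel))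
noncomputable def rh4bbbe32d114857bf : CRef := CRef.mk (Pat.mk 0x18000000080000000800000000 0x100000001c0000001f0000007c0000000c0000000c00000004 5 7) 0 0 (step_sound _ 131 [(rh20966da26a1c2ae8.shift 2 0), (rhca405e350c462817.shift 0 1)] (by decide +kernel))
noncomputable def rh3555e3d66c3b6610 : CRef := CRef.mk (Pat.mk 0x18000000080000000800000000 0x100000001c0000001f0000007c000000180000001800000010 5 7) 0 0 (step_sound _ 131 [(rhca405e350c462817.shift 0 1), (rhced6d86d2069808b.shift 3 0)] (by decide +kernel))
noncomputable def rhbc7f84fc5b457273 : CRef := CRef.mk (Pat.mk 0x1800000008000000000000000000000000 0x1c0000001f0000007c0000001f0000001c0000001c00000004 5 7) 0 0 (step_sound _ 163 [(rh38bc03afb230705f.shift 0 1), rh3fc9df38e8c4fd36, rh50871771a03f1586, (rh755c413ec79f71a0.shift 2 1)] (by decide +kernel))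
noncomputable def rh98608c6afefa0c7d : CRef := CRef.mk (Pat.mk 0x1e00000000 0x770000003e00000003 5 7) 0 0 (step_sound _ 0 [rh80fcd6d0a18cb2dd, (rhb18e6c78a554867d.shift 0 1)] (by decide +kernel))
noncomputable def rh82618ce3544c9725 : CRef := CRef.mk (Pat.mk 0x20000000e000000020000000200000000 0x4000000060000003e0000003e0000000f00000005 5 6) 0 0 (step_sound _ 34 [(rh55afc6a59410cf00.shift 1 0), rhf49a26f1384542d6] (by decide +kernel))
noncomputable def rh688952070c6d6164 : CRef := CRef.mk (Pat.mk 0x6000000060000000200000003000000000 0x60000003f0000003fe0000007e0000004f 5 10) 0 0 (step_sound _ 35 [(rh6a56bf014d41f122.shift 1 0), rh7f0f728c796044ac, (rha9a87af2238a69fc.shift 2 0), (rhfffcaa94a77722cd.shift 2 0)] (by decide +kernel))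
noncomputable def rhc535be3544c789db : CRef := CRef.mk (Pat.mk 0xe0000000b0000000000000000 0x400000004000000060000000e0000000f0000001e0000000a 5 5) 0 0 (step_sound _ 130 [(rh32f6277f14b47a8f.shift 1 0), rhb66ec419a6d128ce, rhdcb23b63f888217c] (by decide +kernel))
noncomputable def rhf7d3933db188ac58 : CRef := CRef.mk (Pat.mk 0xe0000001b00000000000000000000000000000000 0x400000004000000060000000e0000007b0000001f0000000e0000000400000004 5 7) 0 0 (step_sound _ 97 [(rh5a75aa73d982693c.shift 0 2), (rh7f36f639160ea2c8.shift 1 2), (rhe333ef2d5df6f473.shift 0 2), rhe7d072865946f56d] (by decide +kernel))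
noncomputable def rh170611066f44b0aa : CRef := CRef.mk (Pat.mk 0x400000007000000040000000400000000 0x4000000040000000f0000003c0000000e0000000a 5 6) 0 0 (step_sound _ 1 [rh42ccc0fab2d4ae9a, (rh79877ebd3ef475dd.shift 1 0)] (by decide +kernel))
noncomputable def rh6f111be5fa103297 : CRef := CRef.mk (Pat.mk 0x2000000030000000600000000 0x100000007000000070000000600000003000000030000000600000004 5 3) 0 0 (step_sound _ 129 [(rh55afc6a59410cf00.shift 1 0), (rhe8915d9db8b9f3f2.shift 0 1)] (by decide +kernel))
noncomputable def rhc82fcb6429472d32 : CRef := CRef.mk (Pat.mk 0x20000000e000000030000000200000000 0x4000000060000000e0000000f0000001e0000000c 5 5) 0 0 (step_sound _ 34 [(rh55afc6a59410cf00.shift 1 0), rhafee4ae8fadb3c5e] (by decide +kernel))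
noncomputable def rh1f64b9361671cf58 : CRef := CRef.mk (Pat.mk 0x200000002000000030000000200000000 0x100000003000000030000000200000003000000070000000600000004 5 3) 0 0 (step_sound _ 34 [(rh55afc6a59410cf00.shift 1 0), (rhe8476f0b7eaf4046.shift 0 1)] (by decide +kernel))
noncomputable def rhbcbe883757daac65 : CRef := CRef.mk (Pat.mk 0x180000001e000000100000000000000000 0x10000000180000001e0000001f0000003800000038 5 6) 0 0 (step_sound _ 36 [rh0499c9395a1e7b52, (rh7b1f1fb55310c477.shift 3 0)] (by decide +kernel))
noncomputable def rhaff555eb5cb4a0fd : CRef := CRef.mk (Pat.mk 0x180000001e00000000 0x1c000000fe00000073 5 8) 0 0 (step_sound _ 0 [(rh76c4edc656936505.shift 1 0), rh80fcd6d0a18cb2dd] (by decide +kernel))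
noncomputable def rh43eff460dd51f1f9 : CRef := CRef.mk (Pat.mk 0x1000000018000000100000001800000000 0x18000000180000003c000000ff00000026 5 8) 0 0 (step_sound _ 37 [(rh55afc6a59410cf00.shift 4 0), rh94f2fefc437fbcd7] (by decide +kernel))
noncomputable def rh14e87e2937b7de55 : CRef := CRef.mk (Pat.mk 0xc0000000b00000002000000000000000000000000 0x40000000c0000000f0000001e0000001c0000001c00000014 5 5) 0 0 (step_sound _ 99 [(rha6816dee951f7ee6.shift 0 3), (rhe181d564227a886f.shift 2 0)] (by decide +kernel))
noncomputable def rh4821725405520188 : CRef := CRef.mk (Pat.mk 0xe0000000b00000002000000000000000000000000 0x40000000f0000001b0000001f0000001c0000001c00000014 5 5) 0 0 (step_sound _ 99 [(rh9e51b411cf60c0be.shift 0 3), (rhe181d564227a886f.shift 2 0)] (by decide +kernel))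
noncomputable def rh26c34d20a8f02850 : CRef := CRef.mk (Pat.mk 0x18000000180000000800000000 0x18000000180000001800000018000000380000001f00000014 5 6) 0 0 (step_sound _ 131 [rh51f5a245ef7eb6cb, (rh55a1f6c57a317ce6.shift 3 0), (rhc0301b400ca2a736.shift 3 1)] (by decide +kernel))
noncomputable def rh67e7e232eabd3a79 : CRef := CRef.mk (Pat.mk 0x80000000800000000000000180000000000000000 0xc0000000c0000001f0000007c0000001c0000000c 5 7) 0 0 (step_sound _ 99 [rh23913013821ddb1a, (rh55afc6a59410cf00.shift 3 1)] (by decide +kernel))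
noncomputable def rhed748c34297bf7d3 : CRef := CRef.mk (Pat.mk 0x1800000014000000000000000c00000000 0x180000001f000000380000003e0000007e 5 7) 0 0 (step_sound _ 99 [(rh2672ccfe89f6433d.shift 1 0), rh640f7d27b4b363ce, (rhd24b9aa3f1cc01cd.shift 2 0)] (by decide +kernel))
noncomputable def rhb51fdf7a8b89c866 : CRef := CRef.mk (Pat.mk 0x380000002800000000000000180000000000000000 0x3c0000003f0000001e0000001c0000000c00000004 5 6) 0 0 (step_sound _ 130 [(rh1ed7a3503fa50fc8.shift 0 4), (rh6fa6fb5af9dab895.shift 1 0), (rheea1a90336e79c71.shift 0 4)] (by decide +kernel))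
noncomputable def rhbff9f929d1be5533 : CRef := CRef.mk (Pat.mk 0x3800000008000000000000001000000000 0x8000000080000003c0000001f0000001c0000001400000004 5 6) 0 0 (step_sound _ 98 [(rh1ed7a3503fa50fc8.shift 0 3), (rh46b2d9743d782f3e.shift 2 0), (rheea1a90336e79c71.shift 0 3)] (by decide +kernel))
noncomputable def rhc3783e86d7078ccf : CRef := CRef.mk (Pat.mk 0x1c00000016000000000000000800000000 0x40000001f0000001e000000330000001a0000001a 5 6) 0 0 (step_sound _ 99 [rh4f129d8f37c2c70a, (rhdc461deccfb05432.shift 1 0)] (by decide +kernel))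
noncomputable def rhca30e8e2036fe4f6 : CRef := CRef.mk (Pat.mk 0x80000000800000008000000100000000000000000 0xc0000000c0000001f0000007c0000001c0000000c 5 7) 0 0 (step_sound _ 67 [rh23913013821ddb1a, (rh55afc6a59410cf00.shift 3 1)] (by decide +kernel))
noncomputable def rheac27b7a8db9859a : CRef := CRef.mk (Pat.mk 0x38000000080000000800000010 0x8000000080000003c0000000f0000001c00000014 5 6) 0 0 (step_sound _ 131 [rhc59a2df7a9768206, (rhd3458b32566d63f7.shift 3 0)] (by decide +kernel))
noncomputable def rh97c38a17d353b9fc : CRef := CRef.mk (Pat.mk 0x1c00000014000000000000000800000000 0x4000000040000001c0000001f0000003b0000001800000018 5 6) 0 0 (step_sound _ 99 [(rh0e68843e94ec51cd.shift 0 1), rh640f7d27b4b363ce, (rhc93583770a36d0f1.shift 2 0)] (by decide +kernel))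
noncomputable def rh319a3adc2c89a075 : CRef := CRef.mk (Pat.mk 0x1c0000001c00000000 0x1c0000007f00000073 5 7) 0 0 (step_sound _ 33 [(rh53b3c253cb0c65f4.shift 0 1), rhf2abb75b3aff7e41] (by decide +kernel))
noncomputable def rhfa31bd93b8db12e9 : CRef := CRef.mk (Pat.mk 0x1c0000001c000000080000000000000000 0x1c0000007c0000007f0000007e0000001e 5 7) 0 0 (step_sound _ 66 [(rh2fe009f0d302b6ba.shift 1 0), (rh4dc133ee0ba1420a.shift 0 2), rh7ff76b7d2588cb1f] (by decide +kernel))
noncomputable def rh47f9fca610a16f61 : CRef := CRef.mk (Pat.mk 0xc0000001c000000080000000000000000 0x4000000040000000c0000007c0000007f0000000600000006 5 7) 0 0 (step_sound _ 66 [(rh2fe009f0d302b6ba.shift 1 0), (rh3af54b5f78790764.shift 0 1), (rh4dc133ee0ba1420a.shift 0 2)] (by decide +kernel))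
noncomputable def rh11fbc4d707f559e2 : CRef := CRef.mk (Pat.mk 0x1e00000006000000000000000000000000 0xc0000001e0000003e000000330000001200000012 5 6) 0 0 (step_sound _ 100 [rh4584dc790392db21, (rhe25b0a99195a5d59.shift 1 3)] (by decide +kernel))
noncomputable def rh5e1a643c9f3fc565 : CRef := CRef.mk (Pat.mk 0xf000000020 0xe000000fe000001f7 5 9) 0 0 (step_sound _ 35 [(rh4ad5fc38f1b69f65.shift 3 0), rh522ed139a2d80d2d, (rha03f6e28ea70fc7d.shift 2 0)] (by decide +kernel))
noncomputable def rh892be28f74496ae4 : CRef := CRef.mk (Pat.mk 0x600000006000000020000000600000000 0x60000000f0000007e0000003f00000079 5 7) 0 0 (step_sound _ 35 [rh0cf87a452aebd5be, rh0d25db8d7caac2d9, rh97f3b4e4e6457833, rhb508637072eea9c2] (by decide +kernel))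
noncomputable def rh82c0fdad1a7a008e : CRef := CRef.mk (Pat.mk 0xc0000000700000004000000000000000000000000 0x40000003c000000070000003e0000000c0000000800000008 5 6) 0 0 (step_sound _ 165 [(rh361cc68994bd8a63.shift 1 4), rh3f069944e50c0cbf] (by decide +kernel))
noncomputable def rhc93a168067f441ea : CRef := CRef.mk (Pat.mk 0x40000000600000006000000000000000000000000 0x600000006000000070000003e0000000e00000004 5 6) 0 0 (step_sound _ 65 [(rh71222050f2c63a3a.shift 1 1), rh71a88667e709f03b] (by decide +kernel))
noncomputable def rhefdda6c9e8ddc8b2 : CRef := CRef.mk (Pat.mk 0x60000000300000003000000000000000000000000 0x2000000020000001f0000000300000007000000060000000600000002 5 5) 0 0 (step_sound _ 163 [(rh18965a982d73c794.shift 0 4), rhccd9e2db9de096f0] (by decide +kernel))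
noncomputable def rh493310089805861b : CRef := CRef.mk (Pat.mk 0x800000018000000080000001800000000 0x10000000180000007c000000ef0000007c000000e4 5 8) 0 0 (step_sound _ 37 [(rh13b37f03eb1d945f.shift 0 1), rha28e519bb2427a0e, (rhc9f2430cd24d42d7.shift 2 0), (rhfa8c7f01b0685da6.shift 1 0)] (by decide +kernel))
noncomputable def rh97428ce13c0ff849 : CRef := CRef.mk (Pat.mk 0x1800000018000000000000000000000000 0x8000000080000003c000000ff0000000e0000000400000004 5 8) 0 0 (step_sound _ 98 [(rh25513c256ae58fee.shift 1 0), (rhab2ad169e49f9c5e.shift 0 3)] (by decide +kernel))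
noncomputable def rha56581e1717be79b : CRef := CRef.mk (Pat.mk 0x1800000018000000000000000000000000 0x18000000380000003f0000000f0000000c0000000c 5 6) 0 0 (step_sound _ 98 [rh6963969a66bf111c, (rhab2ad169e49f9c5e.shift 0 3)] (by decide +kernel))
noncomputable def rhc021d59f4fdd0362 : CRef := CRef.mk (Pat.mk 0x800000018000000080000000c00000000 0x8000000780000003f0000003f00000010 5 7) 0 0 (step_sound _ 36 [(rh55afc6a59410cf00.shift 3 0), (rhfec6a477123b4864.shift 0 1)] (by decide +kernel))
noncomputable def rhaa874ddc89eb57c0 : CRef := CRef.mk (Pat.mk 0x1000000008000000180000000800000000 0x180000001800000008000000380000001f00000004 5 6) 0 0 (step_sound _ 131 [(rh2f68792b6b779e96.shift 3 1), rh92ed490c8db8cf3e] (by decide +kernel))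
noncomputable def rhbea5ac7f403d7a91 : CRef := CRef.mk (Pat.mk 0x1800000018000000080000001800000000 0x8000000380000001f000000f8000000f800000020 5 8) 0 0 (step_sound _ 68 [(rh50fbb5868c909700.shift 3 1), rh8ccb8628f6558f82] (by decide +kernel))
noncomputable def rha3e6f80fb43d1a27 : CRef := CRef.mk (Pat.mk 0x3000000038000000080000000000000000 0x300000003e0000007f0000006000000060 5 7) 0 0 (step_sound _ 66 [(rh1ed7a3503fa50fc8.shift 0 2), (rh43d243dc42101d99.shift 1 0), (rheea1a90336e79c71.shift 0 2)] (by decide +kernel))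
noncomputable def rh757dca4af2051a78 : CRef := CRef.mk (Pat.mk 0xe00000006000000020000000000000000 0x200000002000000030000003e00000006000000060000000200000002 5 6) 0 0 (step_sound _ 1 [(rh113e957afa7c17ad.shift 0 2), (rh9e3edb185cc347de.shift 1 0)] (by decide +kernel))
noncomputable def rh19d63ac5eadde518 : CRef := CRef.mk (Pat.mk 0xc0000000e0000000c0000000000000000 0xc0000007e0000007f0000003000000010 5 7) 0 0 (step_sound _ 100 [(rh4dc133ee0ba1420a.shift 0 2), rhdeb3c20511afdfb5, (rhf28ae6a3744c3071.shift 1 2)] (by decide +kernel))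
noncomputable def rha7d0af08e06eaebc : CRef := CRef.mk (Pat.mk 0x1800000018000000080000001800000000 0x38000000ff000000ee0000007800000020 5 8) 0 0 (step_sound _ 98 [(rh5dac351430e5ca83.shift 1 0), (rhab2ad169e49f9c5e.shift 0 3)] (by decide +kernel))
noncomputable def rhd1671c6e88add9be : CRef := CRef.mk (Pat.mk 0x800000018000000080000000800000000 0x800000008000000780000001f0000000c00000004 5 7) 0 0 (step_sound _ 34 [(rh2031b42593ca6b1b.shift 0 1), (rh932754581e0f4330.shift 2 0)] (by decide +kernel))
noncomputable def rhacdc93fe93d9bf44 : CRef := CRef.mk (Pat.mk 0x4000000040000000e000000020000000000000000 0x4000000070000003f0000003e0000000800000008 5 6) 0 0 (step_sound _ 100 [rh42c212064b599c2b, (rh7b030ba967bf927e.shift 1 2), (rhe3060b190bc0bc78.shift 0 3), (rhfd8c9ccaa7f9521f.shift 0 1)] (by decide +kernel))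
noncomputable def rh5120e8fd37d04c8d : CRef := CRef.mk (Pat.mk 0x200000002000000070000000000000000000000000 0x200000003f0000007e000000ee0000004000000040 5 8) 0 0 (step_sound _ 99 [(rh775ca1963e850b80.shift 1 2), (rhc0d3e82dfe617fcf.shift 0 2), (rhc7b95363f9049b11.shift 3 0)] (by decide +kernel))
noncomputable def rhd47ed746ec54b2a8 : CRef := CRef.mk (Pat.mk 0xc000000080000000c00000000000000000000000000000000 0xc0000000c0000001f0000007c0000001c0000001c00000014 5 7) 0 0 (step_sound _ 99 [(rh1861173042f24e9a.shift 1 2), (rh1f3a6ba70a310ab1.shift 2 1), (rh3181373a30ceb9e3.shift 2 1), (rh641084bb64cf8acf.shift 2 0), (rhcc2a2baa9246395a.shift 0 2)] (by decide +kernel))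
noncomputable def rh768250f9b3c825cb : CRef := CRef.mk (Pat.mk 0x300000006000000030000000000000000 0x10000000300000003000000020000000700000007000000070000000600000006 5 3) 0 0 (step_sound _ 161 [rh582ee92784d83252, (rh7f5ee5bbfdef1c38.shift 0 2), (rhd4b4beefcd67f51e.shift 1 1)] (by decide +kernel))
noncomputable def rh6477de21740f2b27 : CRef := CRef.mk (Pat.mk 0x1800000000000000180000000800000000 0x1000000018000000080000007c0000000f00000004 5 7) 0 0 (step_sound _ 99 [(rh2f68792b6b779e96.shift 3 1), rhb0de455c382c5b1c] (by decide +kernel))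
noncomputable def rh1cb5b37392afbd09 : CRef := CRef.mk (Pat.mk 0x100000001000000018000000080000000000000000 0x10000001f7000000fe000001ef0000002000000020 5 9) 0 0 (step_sound _ 101 [(rh2820ca9a6c4f41b4.shift 0 2), (rhc32688944b7f7dbb.shift 2 0), rhd29460d2e2b12fa0, (rhdfe67b24fcc3b045.shift 2 2)] (by decide +kernel))
noncomputable def rh3ee3e586d419f576 : CRef := CRef.mk (Pat.mk 0xc000000000000000c0000000700000000000000000000000000000000 0xc0000000c0000000c000000070000003e0000000e0000000e0000000a 5 6) 0 0 (step_sound _ 98 [rh7ca04c2993a62282, (rhc18fc78fbe905b06.shift 1 3), (rhfa40f754f1f7b88f.shift 1 0)] (by decide +kernel))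
noncomputable def rhaec606572b4166b5 : CRef := CRef.mk (Pat.mk 0x4000000020000000200000003000000000000000000000000 0x4000000070000000300000003000000060000000600000006 5 3) 0 0 (step_sound _ 65 [(rhbaefcd01e0a8bca3.shift 1 2), rhbd78a571ffa91fb9] (by decide +kernel))
noncomputable def rh9a1e4d9e72e220ad : CRef := CRef.mk (Pat.mk 0x3800000000 0xf70000007e0000000f 5 8) 0 0 (step_sound _ 34 [(rh61325f73ebf98108.shift 0 1), rh775ca1963e850b80, (rhdd4fe9fd28ed4c0f.shift 1 0)] (by decide +kernel))
noncomputable def rhc069012654e9201e : CRef := CRef.mk (Pat.mk 0x6000000000000001e000000020000000000000000 0x6000000070000001e000000360000000600000004 5 6) 0 0 (step_sound _ 68 [(rhe25b0a99195a5d59.shift 1 2), rhf28c73eca2e832c1] (by decide +kernel))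
noncomputable def rh28c69cbff36b37f6 : CRef := CRef.mk (Pat.mk 0x4000000000000001e00000002000000000000000000000000 0x4000000070000001e00000002000000070000000700000005 5 5) 0 0 (step_sound _ 161 [(rh3244c3cc8379b070.shift 0 4), rhc87f7657c377b457] (by decide +kernel))
noncomputable def rh943827621fe82abd : CRef := CRef.mk (Pat.mk 0x8000000180000000c000000000000000000000000 0x18000000180000000f0000003c0000001c00000014 5 6) 0 0 (step_sound _ 97 [(rh0fc40373e394f21b.shift 1 0), (rh53b3c253cb0c65f4.shift 0 3)] (by decide +kernel))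
noncomputable def rh67e0736b1571b4f6 : CRef := CRef.mk (Pat.mk 0x60000000c0000000e000000000000000000000000 0x60000003c0000007e000000770000000200000002 5 7) 0 0 (step_sound _ 132 [rh08431d7c12d28f34, (rhf48373e13d2bc128.shift 1 4)] (by decide +kernel))
noncomputable def rh03d05d00af6fb962 : CRef := CRef.mk (Pat.mk 0x300000006000000070000000000000000 0x8000000380000003f0000003e000000070000001e0000000e 5 6) 0 0 (step_sound _ 130 [rh0e9befc88d6338f2, (rh746c746f28b070d0.shift 0 2)] (by decide +kernel))
noncomputable def rhb727ed1dccef4e48 : CRef := CRef.mk (Pat.mk 0x20000000600000007000000000000000000000000 0x60000003e0000003f0000001c0000000c00000008 5 6) 0 0 (step_sound _ 66 [(rh7b1f1fb55310c477.shift 1 1), rhde54799abf88a9e7] (by decide +kernel))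
noncomputable def rh2aa737aa0db1d1e5 : CRef := CRef.mk (Pat.mk 0x8000000180000000c000000000000000000000000 0x8000000180000003f0000003f0000001400000004 5 6) 0 0 (step_sound _ 97 [(rh53b3c253cb0c65f4.shift 0 3), rh645ec466de5f255c] (by decide +kernel))
noncomputable def rh469624678d170306 : CRef := CRef.mk (Pat.mk 0x40000000f00000000 0xfc0000007f00000070 5 8) 0 0 (step_sound _ 36 [(rh35e918dd76851f8c.shift 1 0), (rh9890f9d77740bbed.shift 0 1), (rhc3f8d890a3bb80c0.shift 1 0), rhd61f390e8c2eca79] (by decide +kernel))
noncomputable def rh551c754ce0077360 : CRef := CRef.mk (Pat.mk 0x180000000800000038000000080000000000000000 0x180000000f0000007c000000180000001800000010 5 7) 0 0 (step_sound _ 36 [rh8a1cde2292bbfa21, (rhd3458b32566d63f7.shift 3 1)] (by decide +kernel))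
noncomputable def rhc65f330658584982 : CRef := CRef.mk (Pat.mk 0x80000000800000038000000080000000000000000 0x8000000080000007c0000001f0000001800000010 5 7) 0 0 (step_sound _ 36 [rh40f9550fe6f0cb92, (rhd3458b32566d63f7.shift 3 1)] (by decide +kernel))
noncomputable def rh7663727ff839d070 : CRef := CRef.mk (Pat.mk 0x80000000800000038000000080000000000000000 0x80000000f0000003e0000007f0000001800000018 5 7) 0 0 (step_sound _ 98 [(rh775ca1963e850b80.shift 0 2), (rh8d29162e86432fc6.shift 1 0), (rheb4a525a4d0c83fc.shift 1 1)] (by decide +kernel))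
noncomputable def rh12575497daa24206 : CRef := CRef.mk (Pat.mk 0x100000000e000000000000000000000000 0x8000000380000001f000000300000001000000010 5 6) 0 0 (step_sound _ 100 [(rh33e738c4ed385b9f.shift 1 3), rhc16287f285781cd8] (by decide +kernel))
noncomputable def rh8f199c67580537c0 : CRef := CRef.mk (Pat.mk 0x30000000800000007000000000000000000000000 0x18000000180000000f0000001c0000001f0000001c0000000400000004 5 5) 0 0 (step_sound _ 163 [(rh08113e1367787204.shift 0 1), (rha7163cdd54987556.shift 0 2), rhae89de82f5241b11, (rhf428b1dc658d16d8.shift 0 3)] (by decide +kernel))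
noncomputable def rh437a1f3e1c139520 : CRef := CRef.mk (Pat.mk 0x3800000000 0xe70000007e000000f7 5 8) 0 0 (step_sound _ 34 [rh2ba551de881ca4cd, (rh3fc3a7fb6866dcd4.shift 2 0), rh775ca1963e850b80, rh8195a2d7794c7cd2] (by decide +kernel))
noncomputable def rhe0b39a68177c9321 : CRef := CRef.mk (Pat.mk 0x3000000000000000f000000080000000000000000 0x10000000180000001f0000001c0000000f0000000c0000000c0000000c 5 5) 0 0 (step_sound _ 131 [(rh33e738c4ed385b9f.shift 0 3), rhfd38976020c78082] (by decide +kernel))
noncomputable def rh6467ba93c25dd19a : CRef := CRef.mk (Pat.mk 0x4000000000000000c0000000c000000000000000000000000 0x4000000140000003c0000000f000000080000000800000008 5 6) 0 0 (step_sound _ 67 [rh677e6fbb651585de, (rh6f1cbe15c631ee70.shift 2 2)] (by decide +kernel))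
noncomputable def rh3b362d4a3fb0cba5 : CRef := CRef.mk (Pat.mk 0xc0000000c0000000000000000 0x10000000300000003f0000007f0000007f00000008 5 7) 0 0 (step_sound _ 68 [(rh79b3c29022acbdf3.shift 1 2), rha12e69977f4105a8, (rhe60b368eb055d682.shift 0 1)] (by decide +kernel))
noncomputable def rhb7114f326a1ecf03 : CRef := CRef.mk (Pat.mk 0x1000000018000000700000000000000000 0x1000000010000000f80000007f0000000f00000008 5 8) 0 0 (step_sound _ 67 [(rh1e309b005ffa1b36.shift 3 0), (rh510b34c601fc87fc.shift 0 1), (rh9c40a739b57d6d20.shift 2 0)] (by decide +kernel))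
noncomputable def rh1c00c760a9056692 : CRef := CRef.mk (Pat.mk 0x800000018000000000000001800000000 0x40000001f00000078000000080000001800000010 5 7) 0 0 (step_sound _ 67 [(rh55afc6a59410cf00.shift 3 0), (rhdb019b0e908810fb.shift 0 1)] (by decide +kernel))
noncomputable def rhfbd1f5dfe71f1ce1 : CRef := CRef.mk (Pat.mk 0x2000000060000000200000006 0x3000000030000000700000006000000060000000600000006 5 3) 0 0 (step_sound _ 98 [(rh2f68792b6b779e96.shift 1 0), rha4d655741e78f7b9] (by decide +kernel))
noncomputable def rh60a474e751c69dca : CRef := CRef.mk (Pat.mk 0x1c000000060000000c0000000000000000 0x80000001c000000360000003e0000003300000002 5 6) 0 0 (step_sound _ 68 [rhdfae60512d96217e, (rhf48373e13d2bc128.shift 1 2)] (by decide +kernel))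
noncomputable def rh9483e85abe121198 : CRef := CRef.mk (Pat.mk 0x800000018000000080000001800000000 0x8000000780000003f0000003f00000004 5 7) 0 0 (step_sound _ 34 [(rh932754581e0f4330.shift 2 0), (rhfec6a477123b4864.shift 0 1)] (by decide +kernel))
noncomputable def rhe913c7fd1e8ae049 : CRef := CRef.mk (Pat.mk 0x18000000080000001800000000 0x40000001f00000078000000080000001800000010 5 7) 0 0 (step_sound _ 131 [(rh55afc6a59410cf00.shift 3 0), (rhdb019b0e908810fb.shift 0 1)] (by decide +kernel))
noncomputable def rh23e19498d7bd9f6a : CRef := CRef.mk (Pat.mk 0x4000000000000001e00000000 0x40000000400000004000000070000003e00000038 5 6) 0 0 (step_sound _ 4 [rh0a3b830133168a45, (rhe25b0a99195a5d59.shift 1 0)] (by decide +kernel))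
noncomputable def rha0786896be2fa836 : CRef := CRef.mk (Pat.mk 0x8000000000000001e000000000000000000000000 0x8000000080000001b0000001e000000300000001000000010 5 6) 0 0 (step_sound _ 68 [rh21babdc42a85646d, (rhe25b0a99195a5d59.shift 1 2)] (by decide +kernel))
noncomputable def rhea9ab9bfa2176c10 : CRef := CRef.mk (Pat.mk 0x10000000000000003c000000020000000000000000 0x1000000010000000300000003e000000630000002000000020 5 7) 0 0 (step_sound _ 64 [(rh65b5ceb5fe90b1cc.shift 2 0), (rhca9569cc80abfe76.shift 0 2)] (by decide +kernel))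
noncomputable def rh5647e84fd6a466ef : CRef := CRef.mk (Pat.mk 0x10000000000000003c00000000 0x1000000010000000370000003e00000060 5 7) 0 0 (step_sound _ 5 [rh58514151a51e2a5d, (rhe25b0a99195a5d59.shift 2 0)] (by decide +kernel))
noncomputable def rh1c14c0a15f335067 : CRef := CRef.mk (Pat.mk 0x8000000080000000c000000080000000000000000 0x18000000380000003f0000000f0000000c00000008 5 6) 0 0 (step_sound _ 66 [(rh932754581e0f4330.shift 2 1), rhbe172af05515d347] (by decide +kernel))
noncomputable def rh40a58a01ba49b356 : CRef := CRef.mk (Pat.mk 0xc000000000000000c0000000800000000 0x40000000c000000080000001f0000007800000010 5 7) 0 0 (step_sound _ 99 [(rh50fbb5868c909700.shift 2 1), rhcc2a2baa9246395a] (by decide +kernel))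
noncomputable def rhf016a777a520067c : CRef := CRef.mk (Pat.mk 0xe000000080000000000000000 0x10000000700000003e0000007f0000000800000008 5 7) 0 0 (step_sound _ 100 [(rh0d41b5929f428e99.shift 1 0), (rh35e918dd76851f8c.shift 1 2), (rh8db7f7558b75b2b1.shift 0 2), (rhdd4fe9fd28ed4c0f.shift 0 2)] (by decide +kernel))
noncomputable def rh4dfcb8fe7303f21b : CRef := CRef.mk (Pat.mk 0x1c00000000 0xe70000007e000000e7 5 8) 0 0 (step_sound _ 37 [(rh3fc3a7fb6866dcd4.shift 2 0), rh775ca1963e850b80] (by decide +kernel))
noncomputable def rhb518467960561b18 : CRef := CRef.mk (Pat.mk 0x800000078000000000000000000000000 0x800000008000000180000007f0000003f0000001000000010 5 7) 0 0 (step_sound _ 68 [(rh0eb7229d05a1c4db.shift 2 0), (rh33a00cf34bb4b417.shift 0 2), (rha40d42a2e34c408d.shift 3 0)] (by decide +kernel))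
noncomputable def rh1ff43b430fca1251 : CRef := CRef.mk (Pat.mk 0x2000000038000000100000000000000000 0x670000003e000000170000001000000010 5 7) 0 0 (step_sound _ 4 [(rh9e3edb185cc347de.shift 4 0), (rhf2cc7d47ec58b7ff.shift 0 2)] (by decide +kernel))
noncomputable def rh9b2ce182ba2d37b2 : CRef := CRef.mk (Pat.mk 0x1c00000000 0xe70000007e000000ef 5 8) 0 0 (step_sound _ 37 [(rh3fc3a7fb6866dcd4.shift 2 0), rh775ca1963e850b80, (rhdd4fe9fd28ed4c0f.shift 1 0)] (by decide +kernel))
noncomputable def rh29e7cb2914d3b0d3 : CRef := CRef.mk (Pat.mk 0x3800000000 0xe70000007e000000ef 5 8) 0 0 (step_sound _ 34 [(rh3fc3a7fb6866dcd4.shift 2 0), rh775ca1963e850b80, (rhdd4fe9fd28ed4c0f.shift 1 0)] (by decide +kernel))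
noncomputable def rhb38812be986353a7 : CRef := CRef.mk (Pat.mk 0x200000003c00000000 0x30000000ff0000003c 5 8) 0 0 (step_sound _ 33 [(rh428265de8cd3cd2d.shift 1 1), rh992f31992592569e] (by decide +kernel))
noncomputable def rhce62f427f4813e3a : CRef := CRef.mk (Pat.mk 0x3800000000 0x70000007e000000ff 5 8) 0 0 (step_sound _ 34 [(rh0edd3afef6b5d7e0.shift 1 0), rh2ba551de881ca4cd, rh775ca1963e850b80, rh8195a2d7794c7cd2] (by decide +kernel))
noncomputable def rh168ff87fe8bff0db : CRef := CRef.mk (Pat.mk 0x100000002000000030000000200000000000000000000000000000000 0x10000000300000002000000030000000300000007000000070000000700000001 5 3) 0 0 (step_sound _ 97 [(rh3181373a30ceb9e3.shift 0 1), rh5a26ed1c01b25f18, (rhc4307a5759f1ed24.shift 0 2), (rhed4ac555a6bad9bc.shift 0 1)] (by decide +kernel))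
noncomputable def rh78354259ccb5844d : CRef := CRef.mk (Pat.mk 0x700000004000000070000000000000000 0x8000000180000000f0000001c000000070000001e0000000e 5 5) 0 0 (step_sound _ 131 [rh0822119817706194, (rhbbda3e5cf400e6dd.shift 0 2), (rhd4d36b4007f546b1.shift 0 1)] (by decide +kernel))
noncomputable def rh2b4b4dfd26d7feb1 : CRef := CRef.mk (Pat.mk 0xe0000000800000008 0x1000000010000000770000003e0000007800000008 5 7) 0 0 (step_sound _ 68 [(rh3947d1dfff0afc6c.shift 0 1), rh59e2ca35af35a44a, (rhb18e6c78a554867d.shift 0 2), (rhbbda3e5cf400e6dd.shift 1 0)] (by decide +kernel))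
noncomputable def rhcc67723ea6dbd57e : CRef := CRef.mk (Pat.mk 0x3000000080000000f000000000000000000000000 0x10000000180000001f0000000c0000000f0000001c0000000c0000000c 5 5) 0 0 (step_sound _ 67 [(rhe25b0a99195a5d59.shift 0 2), rhfd38976020c78082] (by decide +kernel))
noncomputable def rh85f9d1d99eba7de4 : CRef := CRef.mk (Pat.mk 0x30000000000000003000000000000000000000000 0x10000000300000003000000030000000600000007000000070000000700000005 5 3) 0 0 (step_sound _ 129 [rh281c6819542c66e6, (rh54a11c8c6848d893.shift 0 2), (rhb1a251d9bff81766.shift 0 2), rhe181d564227a886f] (by decide +kernel))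
noncomputable def rhdbe2fb63699ce0bb : CRef := CRef.mk (Pat.mk 0x18000000080000000800000000 0x40000000c0000001f000000780000001c0000001c00000014 5 7) 0 0 (step_sound _ 131 [(rh0fd870c734e6c513.shift 2 0), (rh29dd5384d80ecb1e.shift 2 0), (rhabedd109a9a37101.shift 2 0), (rhdb019b0e908810fb.shift 0 1)] (by decide +kernel))
noncomputable def rhb3da8384b9332508 : CRef := CRef.mk (Pat.mk 0x1c00000000 0xef0000007e0000000f 5 8) 0 0 (step_sound _ 37 [(rh3b00e9e9432b8f40.shift 1 0), (rh56f43794bcf10c2f.shift 1 0), rh775ca1963e850b80, (rhb18e6c78a554867d.shift 1 1)] (by decide +kernel))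
noncomputable def rh803bdd8e60b9063b : CRef := CRef.mk (Pat.mk 0x20000001e000000020000000000000000 0x50000000700000007000000360000001e000000060000000600000006 5 6) 0 0 (step_sound _ 161 [(rh61914556ff080501.shift 0 2), (rhca18712e5e5c7b8f.shift 1 0), (rhd4b4beefcd67f51e.shift 1 1)] (by decide +kernel))
noncomputable def rh6b8a52b2762d52c0 : CRef := CRef.mk (Pat.mk 0x2000000180000000a000000000000000000000000 0x50000000700000007000000030000001f0000003b000000030000000100000001 5 6) 0 0 (step_sound _ 129 [(rh01e48cd9f335aa73.shift 0 3), (rh5f6f4b204f5806fb.shift 0 3), rh712b6e7d90bff97a, (rh8e41442dd2d7cc36.shift 0 1)] (by decide +kernel))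
noncomputable def rh31ac1df6e0412ded : CRef := CRef.mk (Pat.mk 0x180000007800000010 0x300000003c0000003f00000038000000780000001c 5 7) 0 0 (step_sound _ 99 [(rh2145e1d24b96a57e.shift 3 0), rha3fe859d8977f276] (by decide +kernel))
noncomputable def rhcc48a1d48540c986 : CRef := CRef.mk (Pat.mk 0x40000001c00000004000000000000000000000000 0x40000000c0000001e0000007f000000780000001800000010 5 7) 0 0 (step_sound _ 99 [(rh55a1f6c57a317ce6.shift 2 1), rha6459954493fb141] (by decide +kernel))
noncomputable def rh72a68555c4bbad2d : CRef := CRef.mk (Pat.mk 0x3c0000000800000008 0x1c0000001c0000001c0000003f0000006f00000008 5 7) 0 0 (step_sound _ 99 [rh00792d6c0631d2d9, (rh1fba227cadce9690.shift 1 0), (rh35d4e52068a09b0e.shift 2 0), (rhcae9bdb85d1617ed.shift 1 0)] (by decide +kernel))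
noncomputable def rh33e76eccbeab9104 : CRef := CRef.mk (Pat.mk 0x38000000080000000800000000 0x100000001c0000001c0000001f00000038000000180000001800000010 5 6) 0 0 (step_sound _ 131 [(rh252bad32582c99d7.shift 2 1), (rh29dd5384d80ecb1e.shift 2 0), rha65b3143c555ad6e, (rhced6d86d2069808b.shift 3 0)] (by decide +kernel))
noncomputable def rhedad74a424ed7d2f : CRef := CRef.mk (Pat.mk 0x38000000080000000000000000 0x4000000070000003f0000003f0000000800000008 5 6) 0 0 (step_sound _ 98 [(rh0a31c7f562fb8d12.shift 0 2), (rh2cc7d62e70c02209.shift 0 2), (rh882a3e8c7bd7762b.shift 0 2), (rhb9dd680bb9375a9f.shift 1 0)] (by decide +kernel))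
noncomputable def rh4d5bdfa5bbcd79dc : CRef := CRef.mk (Pat.mk 0x1800000018000000000000000000000000 0x300000003c0000003f0000003800000018000000180000001800000010 5 6) 0 0 (step_sound _ 164 [(rh1522cc062b93177a.shift 0 1), (rh1e309b005ffa1b36.shift 3 1), (rh2e14b0001f2cbe5b.shift 3 0)] (by decide +kernel))
noncomputable def rh0cb38fe344d301f1 : CRef := CRef.mk (Pat.mk 0x60000000e000000000000000000000000 0x200000006000000060000000f0000003c0000000c0000000c 5 6) 0 0 (step_sound _ 66 [rh100fa814afed711b, (rh3cb04db3dd2b6a55.shift 1 0), rh820060460debdc74] (by decide +kernel))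
noncomputable def rh4b370ff195e9de8f : CRef := CRef.mk (Pat.mk 0x200000006000000020000000000000000 0x500000007000000070000000600000006000000060000000600000004 5 3) 0 0 (step_sound _ 161 [(rh7ef5fa5c39f1c762.shift 0 2), (rhc9de03f9731897d4.shift 1 0), (rhd4b4beefcd67f51e.shift 1 1)] (by decide +kernel))
noncomputable def rh889db1ec0a785870 : CRef := CRef.mk (Pat.mk 0x80000007800000000 0x380000007f000000e7 5 8) 0 0 (step_sound _ 6 [rhcb1b5abc04ec7f94, (rhe25b0a99195a5d59.shift 3 0)] (by decide +kernel))
noncomputable def rhedaf679cda8997d1 : CRef := CRef.mk (Pat.mk 0x80000007800000000 0x38000000ff000000e0 5 8) 0 0 (step_sound _ 6 [rh77327a6aafcf8c64, (rhe25b0a99195a5d59.shift 3 0)] (by decide +kernel))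
noncomputable def rhdf0f6b1e2fb327d4 : CRef := CRef.mk (Pat.mk 0x800000038000000000000000000000000 0x800000008000000080000003e0000007f0000001400000014 5 7) 0 0 (step_sound _ 98 [(rh31480734369c96a7.shift 1 0), (rh3423e5ac208fb65b.shift 1 0), (rh8195a2d7794c7cd2.shift 0 2)] (by decide +kernel))
noncomputable def rh02a526a6dbd1715f : CRef := CRef.mk (Pat.mk 0x8000000180000003000000000 0x180000001800000018000000380000003f0000002c 5 6) 0 0 (step_sound _ 131 [(rh2145e1d24b96a57e.shift 3 1), rh25dfb1ca89a175bf] (by decide +kernel))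
noncomputable def rhe0fac22921ac0b86 : CRef := CRef.mk (Pat.mk 0x8000000080000003800000000 0x8000000080000003f0000003f00000006 5 6) 0 0 (step_sound _ 34 [(rh1ae4704ae86cb9a8.shift 1 0), (rh915c3ff3d4fe3a39.shift 0 1)] (by decide +kernel))
noncomputable def rh35896288e4c65047 : CRef := CRef.mk (Pat.mk 0x80000000800000038000000000000000000000000 0x40000000c0000000c000000380000001f0000001c00000014 5 6) 0 0 (step_sound _ 67 [(rh46baee19951a66e7.shift 2 0), (rh6aa5625770489e83.shift 2 0), (rh852e818bc8629e77.shift 0 1)] (by decide +kernel))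
noncomputable def rh794b576fbe04332e : CRef := CRef.mk (Pat.mk 0x800000008000000080000003000000000 0x180000001800000018000000380000003f0000002c 5 6) 0 0 (step_sound _ 68 [(rh2145e1d24b96a57e.shift 3 1), rh25dfb1ca89a175bf] (by decide +kernel))
noncomputable def rh872037596486df22 : CRef := CRef.mk (Pat.mk 0x40000000400000004000000180000000000000000 0xe0000000e0000000e000000070000001e0000000600000002 5 5) 0 0 (step_sound _ 66 [(rh367118e0bf0473e0.shift 1 0), (rh642b26d7cba6ff2f.shift 0 1), (rh6aa5625770489e83.shift 1 0), (rhc4055b4872d6fb38.shift 1 1)] (by decide +kernel))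
noncomputable def rh08d6d2f037649614 : CRef := CRef.mk (Pat.mk 0x80000000800000008000000300000000000000000 0x140000001c0000001c0000003f0000003f0000000c00000004 5 6) 0 0 (step_sound _ 67 [(rh367118e0bf0473e0.shift 2 0), (rh6aa5625770489e83.shift 2 0), (rh7ce307151020a294.shift 0 1), (rhc4055b4872d6fb38.shift 2 1)] (by decide +kernel))
noncomputable def rh5acbd7badee33726 : CRef := CRef.mk (Pat.mk 0x80000001800000030000000000000000000000000 0x40000000f0000003e0000003f0000007e0000001c00000004 5 7) 0 0 (step_sound _ 99 [(rh1b65ce0d41692be5.shift 0 1), (rh5e23fdc77fa1a08f.shift 0 1), (rh76791469628730c6.shift 1 0), rh9df2067dce5bc702] (by decide +kernel))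
noncomputable def rhaf0c9b9a3943dbf0 : CRef := CRef.mk (Pat.mk 0x80000001800000030000000000000000000000000 0x140000001f0000003e0000003f0000000f0000000c00000004 5 6) 0 0 (step_sound _ 99 [(rh1b65ce0d41692be5.shift 0 1), (rh2b008872c42eb65d.shift 0 1), (rh5e23fdc77fa1a08f.shift 0 1), rh9df2067dce5bc702] (by decide +kernel))
noncomputable def rh69cf8e1215bc02a1 : CRef := CRef.mk (Pat.mk 0x80000001800000030000000000000000000000000 0x1000000018000000380000003f000000fe0000003c00000024 5 8) 0 0 (step_sound _ 99 [(rh59ea434ed71c4dba.shift 2 0), rh9df2067dce5bc702, (rhf89cb31ca9790162.shift 1 1)] (by decide +kernel))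
noncomputable def rh8ddd3d2a4179333b : CRef := CRef.mk (Pat.mk 0xc00000004000000180000000000000000 0xc0000000c0000001c0000003c0000000f000000180000001800000008 5 6) 0 0 (step_sound _ 99 [(rh3cb04db3dd2b6a55.shift 2 0), rh9a3bfb7fb0179462, (rhc9428ff8564c0dea.shift 2 1)] (by decide +kernel))
noncomputable def rhd6d814f68dd97a5c : CRef := CRef.mk (Pat.mk 0x1800000008000000300000000000000000 0x8000001fc000000fc0000003f000000300000001000000010 5 9) 0 0 (step_sound _ 133 [(rh2820ca9a6c4f41b4.shift 0 3), (rh3f9e6d3254e7f0a9.shift 2 0), (rhc3db3ed05ae22c87.shift 2 1)] (by decide +kernel))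
noncomputable def rhbf27a2fa03970205 : CRef := CRef.mk (Pat.mk 0x18000000080000003000000000 0x1800000018000000380000007c0000003f0000003000000020 5 7) 0 0 (step_sound _ 132 [(rh29fdc264a5b6f7e6.shift 3 0), rh2d745af1ad6181e9, rh69a090d1484f48a7, (rh6f92e7a768814f0f.shift 3 1), (rhe79307a1f5f4535c.shift 3 0)] (by decide +kernel))
noncomputable def rh052f1faaef7466bd : CRef := CRef.mk (Pat.mk 0x180000000800000030000000000000000000000000 0x280000007c0000003f00000030000000300000001000000010 5 7) 0 0 (step_sound _ 68 [rh6c91bd372ccbd4ab, (rh94b6e4c0b65a2a0c.shift 3 1), (rhd425500513a8c1e4.shift 1 2)] (by decide +kernel))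
noncomputable def rh29ec03433afd18f6 : CRef := CRef.mk (Pat.mk 0xc0000000400000018000000000000000000000000 0x180000003c0000001f00000018000000180000001800000010 5 6) 0 0 (step_sound _ 131 [(rh046c5eb18e55a239.shift 3 0), (rh9a3bfb7fb0179462.shift 0 1)] (by decide +kernel))
noncomputable def rh88b527a254cac98c : CRef := CRef.mk (Pat.mk 0x18000000080000003000000000 0x50000001fc000000fc0000002f0000003000000030 5 9) 0 0 (step_sound _ 101 [(rh2820ca9a6c4f41b4.shift 0 2), (rh37368e91c2d94e62.shift 2 0), (rh5024bbfb5139b661.shift 2 2)] (by decide +kernel))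
noncomputable def rh092f5d4552f1192e : CRef := CRef.mk (Pat.mk 0x4000000040000001c0000000000000000 0xe0000000e0000000e000000070000001e0000000600000002 5 5) 0 0 (step_sound _ 162 [(rh367118e0bf0473e0.shift 1 0), (rh642b26d7cba6ff2f.shift 0 1), (rh6aa5625770489e83.shift 1 0), (rhc4055b4872d6fb38.shift 1 1)] (by decide +kernel))
noncomputable def rh09e512221c9c1c86 : CRef := CRef.mk (Pat.mk 0x1000000030000000600000000000000000 0x1000000010000000180000007c0000007f0000000800000008 5 7) 0 0 (step_sound _ 99 [(rhb739f4f82bb681b4.shift 2 2), rhd7ef4fc43245eaf8] (by decide +kernel))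
noncomputable def rh8de75b6f4cc2c8db : CRef := CRef.mk (Pat.mk 0xc00000038000000000000000000000000 0x140000001c0000001c0000007c0000000f000000380000001f0000001c00000010 5 7) 0 0 (step_sound _ 163 [(rh4bcb18fc14cd73eb.shift 0 1), (rh70e33bfdf511e144.shift 3 0), (rhc0f6fe06378683f4.shift 2 2), (rhe7b3cb943067fd4d.shift 0 1)] (by decide +kernel))
noncomputable def rh12078cb2588021d7 : CRef := CRef.mk (Pat.mk 0x70000000c000000000000000000000000 0xe0000001e0000000f0000000c0000000c0000000c00000008 5 5) 0 0 (step_sound _ 162 [(rh046c5eb18e55a239.shift 2 0), (rh70e33bfdf511e144.shift 2 0), (rhc1c1b4a46bee218b.shift 0 1)] (by decide +kernel))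
noncomputable def rhac197ab459b66905 : CRef := CRef.mk (Pat.mk 0xc00000038000000000000000000000000 0x140000001c0000001c0000001c0000001c000000380000001f0000001c00000010 5 6) 0 0 (step_sound _ 163 [(rh046c5eb18e55a239.shift 3 0), (rh1a061601a28c1dbd.shift 2 1), (rh4bcb18fc14cd73eb.shift 0 1)] (by decide +kernel))
noncomputable def rh5517a47cb67dbb75 : CRef := CRef.mk (Pat.mk 0x800000038000000000000000000000000 0x8000000080000000f0000003e0000007f0000001400000014 5 7) 0 0 (step_sound _ 98 [(rh31480734369c96a7.shift 1 0), (rh4f129d8f37c2c70a.shift 1 0), (rh775ca1963e850b80.shift 0 2), (rh8195a2d7794c7cd2.shift 0 2)] (by decide +kernel))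
noncomputable def rh9f9e61768ead139d : CRef := CRef.mk (Pat.mk 0x800000038000000000000000000000000 0x800000008000000080000007e0000007f0000001400000014 5 7) 0 0 (step_sound _ 98 [(rh31480734369c96a7.shift 1 0), (rh8195a2d7794c7cd2.shift 0 2), (rhce12f85975fbaead.shift 1 0)] (by decide +kernel))
noncomputable def rh5d20769b373c9e89 : CRef := CRef.mk (Pat.mk 0xe00000001 0x70000003e00000073 5 7) 0 0 (step_sound _ 36 [rh3947d1dfff0afc6c, rh80fcd6d0a18cb2dd] (by decide +kernel))
noncomputable def rhd41970a06ca27345 : CRef := CRef.mk (Pat.mk 0x1800000038000000000000000000000000 0x80000003e0000003f000000070000000400000004 5 6) 0 0 (step_sound _ 98 [(rh0e1512cbacfbd48b.shift 0 2), (rh4f129d8f37c2c70a.shift 1 0), (rhab2ad169e49f9c5e.shift 0 3)] (by decide +kernel))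
noncomputable def rh2ba5c00738500fa3 : CRef := CRef.mk (Pat.mk 0x60000000200000002000000000000000000000000 0x2000000060000000600000007000000070000000700000005 5 3) 0 0 (step_sound _ 65 [rh3181373a30ceb9e3, rh8aec56c4ee12918c, (rh8c3839f9b9075f23.shift 1 0), (rhc9ac229b3c77cd55.shift 0 1)] (by decide +kernel))
noncomputable def rhca6fb09669c74d2a : CRef := CRef.mk (Pat.mk 0x18000000080000000800000000 0x140000001c0000001f0000007c000000180000001800000010 5 7) 0 0 (step_sound _ 131 [(rh29dd5384d80ecb1e.shift 2 0), (rh7ef5fa5c39f1c762.shift 2 1), (rhca405e350c462817.shift 0 1), (rhced6d86d2069808b.shift 3 0)] (by decide +kernel))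
noncomputable def rh42ff8c8492a23a36 : CRef := CRef.mk (Pat.mk 0x20000000200000002000000000000000000000000 0x3000000030000000300000007000000070000000700000005 5 3) 0 0 (step_sound _ 65 [rh3181373a30ceb9e3, rh46baee19951a66e7, rh6aa5625770489e83, (rhc9ac229b3c77cd55.shift 0 1)] (by decide +kernel))
noncomputable def rh328fa6cd3b6da3c9 : CRef := CRef.mk (Pat.mk 0x18000000080000000800000000 0x140000001c0000001f0000007c0000000c0000000c00000004 5 7) 0 0 (step_sound _ 131 [(rh0fd870c734e6c513.shift 2 0), (rh402d223d12d7377d.shift 2 0), (rh7ef5fa5c39f1c762.shift 2 1), (rhca405e350c462817.shift 0 1)] (by decide +kernel))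
noncomputable def rh3554394d0df631bf : CRef := CRef.mk (Pat.mk 0x1e00000002 0x700000003f0000003e 5 7) 0 0 (step_sound _ 4 [rh471bee0515eca455, (rhe25b0a99195a5d59.shift 1 0)] (by decide +kernel))
noncomputable def rhcdd9a94cd040516c : CRef := CRef.mk (Pat.mk 0x180000001c000000000000000000000000 0x100000001c0000001f0000003c000000780000003800000018 5 7) 0 0 (step_sound _ 67 [rh907557147d2532a4, (rhaeb7261ea18cb548.shift 2 0), (rhea7a1800d6f053bd.shift 3 0)] (by decide +kernel))
noncomputable def rhb32eb569dfc388a6 : CRef := CRef.mk (Pat.mk 0x1e000000060000000000000000 0x10000000300000001f0000003e0000000800000008 5 6) 0 0 (step_sound _ 68 [rhae1333b9ca64928f, (rhe25b0a99195a5d59.shift 1 2)] (by decide +kernel))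
noncomputable def rh2b1ade5be8c9bde3 : CRef := CRef.mk (Pat.mk 0x1c000000080000001800000000 0x1f000001ff000000fc000001c0 5 9) 0 0 (step_sound _ 37 [(rh1aae126fdb0efa1d.shift 2 0), (rh3ae391fd9c26f1e3.shift 2 0), (rh66ba32db36147148.shift 0 1), (rhfd99604093c09fe0.shift 0 1)] (by decide +kernel))
noncomputable def rh8fac572c56c02520 : CRef := CRef.mk (Pat.mk 0x4000000040000000e000000080000000000000000 0x4000000ee000000fe0000007b0000000200000002 5 8) 0 0 (step_sound _ 100 [(rh19b92de635d91051.shift 1 2), (rh8eb52d4d8ea4b1b0.shift 0 2), (rhc3f8d890a3bb80c0.shift 1 2), rhd1474a84c69f0140] (by decide +kernel))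
noncomputable def rhf3c65fc4ea40dacb : CRef := CRef.mk (Pat.mk 0x40000000c000000080000000c00000000 0x40000001f0000007e0000000f00000002 5 7) 0 0 (step_sound _ 68 [(rh4ca5dae25f5c14ff.shift 0 2), rh64f35c226fe67a4e, rha03bfacd308df03b] (by decide +kernel))
noncomputable def rh0a45d231fa81e6fa : CRef := CRef.mk (Pat.mk 0x1000000030000000200000003000000000 0x38000001fe000001ef0000003c00000018 5 9) 0 0 (step_sound _ 99 [(rh2314aca9f7648aa5.shift 1 0), (rh433d0f84dcf835ae.shift 2 0), (rh8ee80cc30e93a344.shift 2 2), rhea6e5623d9f38f26] (by decide +kernel))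
noncomputable def rhf67a63a8c112a4d0 : CRef := CRef.mk (Pat.mk 0x60000001e0000000000000000 0x3000000030000003e0000001e0000000700000004 5 6) 0 0 (step_sound _ 33 [rh793b5a397f1a8908, (rheb0810cc63b001d8.shift 0 1)] (by decide +kernel))
noncomputable def rh360618180b5276a8 : CRef := CRef.mk (Pat.mk 0x80000000c000000180000000000000000 0x40000000c0000000c0000000c0000001f0000001c0000000c0000000c 5 5) 0 0 (step_sound _ 163 [(rh03dfdf12d5937476.shift 2 1), (rh0d9bd2ff2298045e.shift 0 2), (rhd1fa8140a3eb151f.shift 2 0)] (by decide +kernel))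
noncomputable def rh519b605986f18fd6 : CRef := CRef.mk (Pat.mk 0x80000000c000000180000000800000000 0x40000000c0000000c0000001c0000001f00000017 5 5) 0 0 (step_sound _ 34 [(rh932754581e0f4330.shift 2 0), rhe3005f49059b06f5] (by decide +kernel))
noncomputable def rheb464318cdcb7ab8 : CRef := CRef.mk (Pat.mk 0x180000007800000000 0xf80000007f00000007 5 8) 0 0 (step_sound _ 70 [(rh33e738c4ed385b9f.shift 3 1), rh39f15240cc732f4c] (by decide +kernel))
noncomputable def rha2f2a0281995eebc : CRef := CRef.mk (Pat.mk 0xe0000001a000000000000000000000000 0xc0000003e0000001e000000330000001200000012 5 6) 0 0 (step_sound _ 98 [rh9a011a4d0ec8f646, (rhe7d1749390aefb37.shift 1 0)] (by decide +kernel))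
noncomputable def rhb3d82427a0c353f0 : CRef := CRef.mk (Pat.mk 0xe0000001a0000000000000000 0x4000000040000000e000000fe0000001b0000000a0000000a 5 8) 0 0 (step_sound _ 100 [(rhae312e5892290b0a.shift 1 0), (rheb0810cc63b001d8.shift 0 2)] (by decide +kernel))
noncomputable def rh2c171759de90d468 : CRef := CRef.mk (Pat.mk 0xe0000001a000000000000000000000000 0x4000000040000000e0000000e0000001f0000003a0000001a00000010 5 6) 0 0 (step_sound _ 162 [(rh32f6277f14b47a8f.shift 1 1), rh8143bc7790462310] (by decide +kernel))
noncomputable def rh1dc1916cab6e8cb7 : CRef := CRef.mk (Pat.mk 0x1800000018000000080000000000000000 0x80000001f000000ff0000000f0000000400000004 5 8) 0 0 (step_sound _ 101 [(rh79b3c29022acbdf3.shift 2 3), rh964082407f1ab898, (rha9e1a5d55b907abf.shift 2 2)] (by decide +kernel))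
noncomputable def rh2a6206ca952f3677 : CRef := CRef.mk (Pat.mk 0x1800000038000000000000000000000000 0x80000001e0000003f000000760000000400000004 5 7) 0 0 (step_sound _ 130 [rh403968873c76a2b4, (rhb739f4f82bb681b4.shift 1 3)] (by decide +kernel))
noncomputable def rh41192779c5edae00 : CRef := CRef.mk (Pat.mk 0xe0000001a0000000000000000 0x400000004000000060000000e0000001e0000000f0000000a 5 5) 0 0 (step_sound _ 130 [(rh32f6277f14b47a8f.shift 1 0), (rh5d54cb79a67f97ab.shift 2 0), rh6e90a8ee29ce3f22] (by decide +kernel))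
noncomputable def rhf8efcff3aef0f7e2 : CRef := CRef.mk (Pat.mk 0xe0000001a00000000000000000000000000000000 0x400000006000000060000003e0000001b0000001f000000070000000700000005 5 6) 0 0 (step_sound _ 97 [(rh50919a543c4a4adc.shift 0 2), (rh7f36f639160ea2c8.shift 1 2), rhfa40f754f1f7b88f, rhfb6f25bedbfed9ce] (by decide +kernel))
noncomputable def rh4519ef6353c1755f : CRef := CRef.mk (Pat.mk 0x180000001c000000000000000000000000 0x80000000800000008000000180000003c0000001f0000001c0000001c 5 6) 0 0 (step_sound _ 163 [(rh37d9ceebb86d75d1.shift 2 2), (rh55a1f6c57a317ce6.shift 3 1), rh95369cb652814ee4] (by decide +kernel))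
noncomputable def rhf0197dd1dd65b7ce : CRef := CRef.mk (Pat.mk 0x1600000007000000000000000000000000 0x400000004000000360000003f0000001c0000000800000008 5 6) 0 0 (step_sound _ 99 [rh65dcfd18fd55cba0, (rheff610e725081997.shift 1 3)] (by decide +kernel))
noncomputable def rh3b2c426084f8ce5a : CRef := CRef.mk (Pat.mk 0x1e00000018000000000000000000000000 0xc0000001e0000001f000000330000001200000012 5 6) 0 0 (step_sound _ 97 [rhc733e4350e53d24f, (rheb0810cc63b001d8.shift 0 3)] (by decide +kernel))
noncomputable def rhea3c35dc5d356333 : CRef := CRef.mk (Pat.mk 0x1800000070000000100000000000000000 0x10000000380000007f000000fc0000001800000018 5 8) 0 0 (step_sound _ 99 [(rha7e66e97c8285b1b.shift 2 0), (rhe74f96057964b96f.shift 0 2)] (by decide +kernel))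
noncomputable def rh19fe2e8d84137811 : CRef := CRef.mk (Pat.mk 0xe0000001800000008000000000000000000000000 0xa0000001e0000001e0000000f0000000c0000000c00000004 5 5) 0 0 (step_sound _ 66 [(rh3743dbe66b959104.shift 2 0), (rh4beb94526b73eb11.shift 0 2), (rh544d3caba1e1e2bb.shift 2 0), (rhb01ac4982a11ea27.shift 2 0), (rhede0806dd0b1c3c2.shift 2 1)] (by decide +kernel))
noncomputable def rh0df840f44dd76d41 : CRef := CRef.mk (Pat.mk 0x20000000600000002000000040000000000000000 0x200000006000000070000003f0000003c0000000800000008 5 6) 0 0 (step_sound _ 98 [(rh2145e1d24b96a57e.shift 1 2), rhb99a491b9a372cca] (by decide +kernel))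
noncomputable def rhd52af5a1546adf65 : CRef := CRef.mk (Pat.mk 0xc00000008000000080000000c00000000 0xc0000000c0000003e0000007f00000013 5 7) 0 0 (step_sound _ 36 [(rh55afc6a59410cf00.shift 3 0), rhbef07ed30a8da009] (by decide +kernel))
noncomputable def rha793e6b056fe2ebb : CRef := CRef.mk (Pat.mk 0x8000000180000001800000000 0x800000008000000080000001f000000ff000000e7 5 8) 0 0 (step_sound _ 34 [(rh37d9ceebb86d75d1.shift 2 0), rh41af8696f4579ab3, rha81ec7df766b27ed] (by decide +kernel))
noncomputable def rh4bcd46fe61c64119 : CRef := CRef.mk (Pat.mk 0xc0000003800000008000000000000000000000000 0x80000000f000000380000001f0000000c0000000400000004 5 6) 0 0 (step_sound _ 161 [rh528921958bcedb00, (rhb739f4f82bb681b4.shift 0 4)] (by decide +kernel))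
noncomputable def rhaebc39d0f0d0c78f : CRef := CRef.mk (Pat.mk 0x80000003800000008000000000000000000000000 0x800000018000000380000001f0000001c0000001c00000004 5 6) 0 0 (step_sound _ 68 [(rh390a8df03c6c5a62.shift 3 1), (rh478c4cadbcd4e066.shift 3 1), rh528921958bcedb00, (rh78aec13dcd8fd007.shift 2 0)] (by decide +kernel))
noncomputable def rhe5be4a874045e549 : CRef := CRef.mk (Pat.mk 0x80000001800000018000000000000000000000000 0x18000000180000007c0000000f0000000c00000008 5 7) 0 0 (step_sound _ 67 [(rhb0de455c382c5b1c.shift 0 1), (rhea7a1800d6f053bd.shift 3 0)] (by decide +kernel))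
noncomputable def rhe1ddb652ddbbdb21 : CRef := CRef.mk (Pat.mk 0xc0000001800000018000000000000000000000000 0x8000000080000001f000000180000001c0000000c0000000c00000008 5 5) 0 0 (step_sound _ 160 [(rhab22b5b56e7b3243.shift 0 4), (rhb83c12541a772d12.shift 2 0)] (by decide +kernel))
noncomputable def rh96ccb93e8449ea42 : CRef := CRef.mk (Pat.mk 0x1000000030000000200000003000000000 0x30000000780000003f0000007e000000cf 5 8) 0 0 (step_sound _ 35 [rh61a0202de37988d6, rh71051e2efe366ae0, (rhcbec23ace3403333.shift 2 0), rhfecbf8a8d622df5e] (by decide +kernel))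
noncomputable def rhc88c7e49fdbcbc8d : CRef := CRef.mk (Pat.mk 0x600000006000000060000000000000000 0x3000000030000000700000006000000060000000300000003 5 3) 0 0 (step_sound _ 33 [(rh71222050f2c63a3a.shift 1 0), rhcaa080098f0e9e4a] (by decide +kernel))
noncomputable def rh00549c357e8d0242 : CRef := CRef.mk (Pat.mk 0x18000000180000001800000000 0x800000008000000380000001f0000003f00000004 5 6) 0 0 (step_sound _ 131 [(rh2145e1d24b96a57e.shift 3 1), rhb44426b5150543ef] (by decide +kernel))
noncomputable def rh07e5b52acb752a96 : CRef := CRef.mk (Pat.mk 0x20000000e00000004 0x730000007e000000ec 5 8) 0 0 (step_sound _ 36 [(rh3244c3cc8379b070.shift 0 1), (rh5f5a303f1e779959.shift 1 0)] (by decide +kernel))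
noncomputable def rhbb9424492a7b1a26 : CRef := CRef.mk (Pat.mk 0x40000003c000000080000000000000000 0x4000000ff000001f80000000800000008 5 9) 0 0 (step_sound _ 3 [(rh46a93bedf8a96310.shift 0 2), (rh9e07f76261b05888.shift 2 0)] (by decide +kernel))
noncomputable def rh3144cfda4b0d6441 : CRef := CRef.mk (Pat.mk 0x10000000f000000020000000000000000 0x390000001f0000003a0000000200000002 5 6) 0 0 (step_sound _ 1 [(rh3fc3a7fb6866dcd4.shift 0 2), rh9e07f76261b05888] (by decide +kernel))
noncomputable def rh9326d6a0121ef670 : CRef := CRef.mk (Pat.mk 0x40000003c000000080000000000000000 0xe4000000ff000000380000000800000008 5 8) 0 0 (step_sound _ 3 [(rh72577dc24d987d5b.shift 0 2), (rh9e07f76261b05888.shift 2 0)] (by decide +kernel))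
noncomputable def rhf42f513d41faace0 : CRef := CRef.mk (Pat.mk 0x10000000f000000020000000000000000 0x390000003f000000760000000200000002 5 7) 0 0 (step_sound _ 1 [(rh5f5a303f1e779959.shift 0 2), rh9e07f76261b05888] (by decide +kernel))
noncomputable def rh8f1faeaa81352f4f : CRef := CRef.mk (Pat.mk 0x40000001c000000080000000000000000 0x400000004000000060000001f0000003b0000000200000002 5 6) 0 0 (step_sound _ 162 [(rh2145e1d24b96a57e.shift 2 2), rh34b2972b3ce8dda2] (by decide +kernel))
noncomputable def rhfa0e4def6949d7e5 : CRef := CRef.mk (Pat.mk 0x20000000e000000040000000000000000 0x770000003e000000040000000400000004 5 7) 0 0 (step_sound _ 2 [(rh38791ac5737ed75e.shift 0 3), (rh9e07f76261b05888.shift 1 0)] (by decide +kernel))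
noncomputable def rha6678bf0e10eb541 : CRef := CRef.mk (Pat.mk 0x40000001c00000018000000000000000000000000 0x80000000c0000001c000000380000001f0000001c00000018 5 6) 0 0 (step_sound _ 68 [(rh32acf6e48ace9a3e.shift 0 1), (rh3cb04db3dd2b6a55.shift 3 0), (rhf2c54251c789958e.shift 2 0)] (by decide +kernel))
noncomputable def rh5a1ec3c0293bd207 : CRef := CRef.mk (Pat.mk 0x40000001c000000180000000000000000 0x80000000c0000001f0000001b0000001f0000001e 5 5) 0 0 (step_sound _ 35 [rh1fd4bd164f12075e, (rh7b1f1fb55310c477.shift 2 0)] (by decide +kernel))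
noncomputable def rh7125ec4d2ada6b21 : CRef := CRef.mk (Pat.mk 0x8000000380000000c000000000000000000000000 0x140000001f0000003c0000001c000000180000001800000018 5 6) 0 0 (step_sound _ 67 [(rh60f8a5416b531026.shift 2 0), (rh79905f95cb2d899a.shift 0 2), (rha707fb719e87fe6e.shift 3 1)] (by decide +kernel))
noncomputable def rhc5433c3efab62c6a : CRef := CRef.mk (Pat.mk 0x180000000c000000000000000000000000 0x80000001c000000ff000000370000001000000010 5 8) 0 0 (step_sound _ 97 [rh4c2807da4de86426, (rh53b3c253cb0c65f4.shift 0 3)] (by decide +kernel))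
noncomputable def rhfb4c9c0c2af98844 : CRef := CRef.mk (Pat.mk 0x100000001c00000010000000000000000000000000 0x10000000180000003c0000007f0000000e0000000c00000004 5 7) 0 0 (step_sound _ 99 [rh1aa9b76cd5a726a4, (rh1e309b005ffa1b36.shift 3 1)] (by decide +kernel))
noncomputable def rh539cfef6d8c91201 : CRef := CRef.mk (Pat.mk 0x300000001c00000008000000000000000000000000 0x28000000380000003c0000001f0000007c0000003c00000010 5 7) 0 0 (step_sound _ 98 [(rh4dc133ee0ba1420a.shift 0 3), (rh6a4ad1042b6f5ea0.shift 2 0)] (by decide +kernel))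
noncomputable def rh7de8ece609a88fae : CRef := CRef.mk (Pat.mk 0x300000001c0000000800000000 0x3c0000003f000000380000003c0000001f00000014 5 6) 0 0 (step_sound _ 131 [rh21145dd369e3db4c, rh5c4540f04863648e, rh8fd4a22cdec572f5, (rh9eff2e866bfe53d8.shift 3 0), (rhfc25f5c4d2d7ad0e.shift 3 0)] (by decide +kernel))
noncomputable def rh4b7a99bb7bd5b728 : CRef := CRef.mk (Pat.mk 0x600000003000000020000000000000000 0x20000000700000007000000070000000700000007 5 3) 0 0 (step_sound _ 33 [rh2d5442cbf338480d, rhc9ac229b3c77cd55] (by decide +kernel))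
noncomputable def rh17253ca33f65d77e : CRef := CRef.mk (Pat.mk 0x1c000000060000000400000000 0x80000000c0000000c0000001e000000fe0000003f0000001a 5 8) 0 0 (step_sound _ 130 [(rh03dfdf12d5937476.shift 1 0), rh6396b7a742b4b6d1, (rhced6d86d2069808b.shift 2 0)] (by decide +kernel))
noncomputable def rh5a24d5ff9ee94f88 : CRef := CRef.mk (Pat.mk 0x40000001c000000060000000000000000 0x600000006000000070000001e0000000e0000000c0000000c 5 5) 0 0 (step_sound _ 162 [rh39855a4f754bb563, (rh46baee19951a66e7.shift 1 0), (rhd4b4beefcd67f51e.shift 2 1)] (by decide +kernel))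
noncomputable def rhb0ba2afc310897cf : CRef := CRef.mk (Pat.mk 0x180000001c00000000 0x1c000000ff00000070 5 8) 0 0 (step_sound _ 33 [(rh53b3c253cb0c65f4.shift 0 1), (rh76c4edc656936505.shift 1 0)] (by decide +kernel))
noncomputable def rha0fc683d393fad90 : CRef := CRef.mk (Pat.mk 0x180000001c000000080000000000000000 0x1000000010000000180000001f0000007f0000003000000030 5 7) 0 0 (step_sound _ 68 [(rh6292bd8784ece55f.shift 1 2), rha54350b004048f14, (rheb994a656686fac5.shift 2 0)] (by decide +kernel))
noncomputable def rh4a47899062c7a1f4 : CRef := CRef.mk (Pat.mk 0x80000000e000000040000000000000000 0x800000008000000080000003e0000003f0000001000000010 5 6) 0 0 (step_sound _ 100 [(rh65dcfd18fd55cba0.shift 1 0), (rhaf9f2efc81a8312b.shift 0 2)] (by decide +kernel))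
noncomputable def rhbf53b55c36d50b17 : CRef := CRef.mk (Pat.mk 0x30000000180000000800000008000000000000000000000000 0xc000000f8000000380000003c000000ff000000340000001000000010 5 8) 0 0 (step_sound _ 100 [(rh046c5eb18e55a239.shift 3 0), (rh229ff3e2c9c0597e.shift 2 1), (rh7cae8272d0946a62.shift 2 2), (rhf628963460e574a5.shift 0 2)] (by decide +kernel))
noncomputable def rh923cd9a7ce40c763 : CRef := CRef.mk (Pat.mk 0x100000001800000018000000000000000000000000 0x1000000038000000ff000000ef0000002800000020 5 8) 0 0 (step_sound _ 98 [(rha81ec7df766b27ed.shift 0 2), (rhaa47ab9153c941ac.shift 1 0), (rhab2ad169e49f9c5e.shift 0 3)] (by decide +kernel))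
noncomputable def rhe75ff843ecf73ac9 : CRef := CRef.mk (Pat.mk 0x300000001800000018000000000000000000000000 0x80000003800000038000000380000001f0000001c00000010 5 6) 0 0 (step_sound _ 68 [(rh3eb26739ea0a224c.shift 3 0), (rh6582e2731ff9f309.shift 0 1)] (by decide +kernel))
noncomputable def rhb5f972ff1d1c9782 : CRef := CRef.mk (Pat.mk 0xc00000006000000060000000000000000 0x80000000a0000000b0000003e0000003e0000003e0000001300000002 5 6) 0 0 (step_sound _ 100 [rh0127191b7cd05293, (rh08f7ad552c1343f9.shift 1 0), rh29acb4f6f7935d53, (rh48caf36aefcd87e6.shift 0 2)] (by decide +kernel))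
noncomputable def rh483f5cf7008821b7 : CRef := CRef.mk (Pat.mk 0xc0000000600000002000000020000000000000000 0xb0000003e00000006000000070000003f0000000d0000000c 5 6) 0 0 (step_sound _ 66 [(rh150248ac5685a666.shift 1 0), (rh7cae8272d0946a62.shift 0 1), (rhbe29180e1626a757.shift 0 1)] (by decide +kernel))
noncomputable def rh95c511c13f6b1bcc : CRef := CRef.mk (Pat.mk 0x300000001800000008000000080000000000000000 0x2000000038000000380000003f0000001f0000001400000014 5 6) 0 0 (step_sound _ 100 [(rh8379dda7bed67b0f.shift 3 0), (rh84bebdeadf3219f3.shift 3 0), rhc923cbcd1abfbca7] (by decide +kernel))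
noncomputable def rh8710a482a2dbdf6a : CRef := CRef.mk (Pat.mk 0x1c00000006000000020000000000000000 0x20000000b0000001e0000007e000000370000001400000010 5 7) 0 0 (step_sound _ 100 [(rh58e6dda71d4b4d9b.shift 0 1), (rh657a1c6d7f2f8475.shift 0 2), rh93a403cd651853c3] (by decide +kernel))
noncomputable def rheb9dbc9a74199c27 : CRef := CRef.mk (Pat.mk 0x1c00000006000000020000000000000000 0xb0000001e000000fe000000330000001300000013 5 8) 0 0 (step_sound _ 100 [(rh657a1c6d7f2f8475.shift 0 2), rh93a403cd651853c3, rh9d7fa8038b21a874, (rhea2dd5ed9da32b43.shift 1 0)] (by decide +kernel))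
noncomputable def rh19d971e9528af089 : CRef := CRef.mk (Pat.mk 0x1c00000006000000040000000000000000 0x2000000070000001e000000060000000e0000000e0000000e 5 5) 0 0 (step_sound _ 129 [(rh309fd0c3d364cd61.shift 0 2), (rh3cb04db3dd2b6a55.shift 1 0), (rh6852947d3e67d303.shift 1 0)] (by decide +kernel))
noncomputable def rh9b5331fa8f2c780a : CRef := CRef.mk (Pat.mk 0x80000000e00000008000000000000000000000000 0x8000000080000000c0000000e0000003f0000003f0000001e0000000a 5 6) 0 0 (step_sound _ 98 [(rh121397a93ef3afd3.shift 1 2), (rh1e309b005ffa1b36.shift 2 1), rhea1cbd0fb4d3ad42] (by decide +kernel))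
noncomputable def rhec8fab0a3970e33b : CRef := CRef.mk (Pat.mk 0x800000018000000080000000800000000 0x40000000f0000007c000000080000000c00000004 5 7) 0 0 (step_sound _ 2 [(rh79877ebd3ef475dd.shift 2 0), (rhca405e350c462817.shift 0 1)] (by decide +kernel))
noncomputable def rh8c04ed0eab2368f3 : CRef := CRef.mk (Pat.mk 0x160000000b000000000000000000000000 0x400000004000000360000003f0000001c0000000800000008 5 6) 0 0 (step_sound _ 98 [rh65dcfd18fd55cba0, (rheff610e725081997.shift 1 3)] (by decide +kernel))
noncomputable def rh4324885c838066da : CRef := CRef.mk (Pat.mk 0x1c00000016000000000000000000000000 0x40000000c0000001e0000001e000000330000001200000012 5 6) 0 0 (step_sound _ 99 [(rhbbe16ff26f7822db.shift 1 0), rhee7dc6826bc99ade] (by decide +kernel))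
noncomputable def rh3e11d38d322daa91 : CRef := CRef.mk (Pat.mk 0xc00000016000000000000000000000000 0x4000000040000000e0000007e000000730000000200000002 5 7) 0 0 (step_sound _ 99 [(rh79b3c29022acbdf3.shift 1 3), rhee7dc6826bc99ade, (rhf2abb75b3aff7e41.shift 0 2)] (by decide +kernel))
noncomputable def rhd9a5bf77637438e0 : CRef := CRef.mk (Pat.mk 0x18000000080000001800000018 0x640000007c0000001f0000007800000018 5 7) 0 0 (step_sound _ 98 [(rh50fbb5868c909700.shift 2 0), rha212f303e803ac09] (by decide +kernel))
noncomputable def rh94330808ac96f370 : CRef := CRef.mk (Pat.mk 0x8000000040000000c0000000c000000000000000000000000 0x80000000e0000000f0000003c000000040000000400000004 5 6) 0 0 (step_sound _ 66 [rh370af384ddd2082c, (rhbaefcd01e0a8bca3.shift 2 2)] (by decide +kernel))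
noncomputable def rhc7dc7a762dde7f55 : CRef := CRef.mk (Pat.mk 0xc0000000c000000080000000800000000 0x20000000f0000003c0000000e0000007c00000014 5 7) 0 0 (step_sound _ 34 [rh2e322c7308f8b39b, (rh932754581e0f4330.shift 2 0)] (by decide +kernel))
noncomputable def rh16fba81e69fe1587 : CRef := CRef.mk (Pat.mk 0xc0000000c000000180000000800000000 0xc0000000c0000001c0000001f00000017 5 5) 0 0 (step_sound _ 34 [rh4d2a9c3dbabaa6ef, (rh932754581e0f4330.shift 2 0)] (by decide +kernel))
noncomputable def rh88301d7e145efcc1 : CRef := CRef.mk (Pat.mk 0x40000000c0000000c000000020000000000000000 0x60000000f0000003c000000060000000600000004 5 6) 0 0 (step_sound _ 66 [rh0b564f36c613fdac, (rh932754581e0f4330.shift 1 1)] (by decide +kernel))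
noncomputable def rh0081e02391b39f90 : CRef := CRef.mk (Pat.mk 0x40000000c0000003800000000 0x2000000060000007c0000003e00000077 5 7) 0 0 (step_sound _ 34 [rh008b05f4778dc30d, (rh39a75a3d1c69be24.shift 1 0), (rh3e1b7b343686dca1.shift 1 0), rh7654d7b92c96fe12] (by decide +kernel))
noncomputable def rh8a6e3629f0e69e41 : CRef := CRef.mk (Pat.mk 0x40000000e000000180000000800000000 0x2000000070000003e0000001e0000000f00000006 5 6) 0 0 (step_sound _ 129 [(rh79b3c29022acbdf3.shift 0 3), rha9570f2ec6ee56dc] (by decide +kernel))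
noncomputable def rh724f9645692d6bc0 : CRef := CRef.mk (Pat.mk 0x40000000c00000038000000000000000000000000 0xe0000007c0000003e000000770000000400000004 5 7) 0 0 (step_sound _ 98 [(rh008b05f4778dc30d.shift 0 2), (rh9a011a4d0ec8f646.shift 1 0), (rh9fdcb09dfa6419d9.shift 1 3)] (by decide +kernel))
noncomputable def rhf62302ba1fb4d7b6 : CRef := CRef.mk (Pat.mk 0x80000001c00000030000000000000000000000000 0x140000001e0000007c0000003c0000006f0000002c00000028 5 7) 0 0 (step_sound _ 99 [(rh77e5fdcadba6b29b.shift 1 1), (rhca2220fc4019a4c2.shift 1 0), rhecc55f6e38c11136] (by decide +kernel))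
noncomputable def rh324c8c18cca60da1 : CRef := CRef.mk (Pat.mk 0x200000003000000060000000000000000 0x400000007000000070000000300000007000000070000000300000003 5 3) 0 0 (step_sound _ 161 [(rh03dfdf12d5937476.shift 0 1), rhd1fa8140a3eb151f, (rhdbc400e79194dff9.shift 0 2)] (by decide +kernel))
noncomputable def rh2f529025d0c45e4d : CRef := CRef.mk (Pat.mk 0x100000001c000000300000001000000000 0xc0000001f0000003c0000003c000000f800000028 5 8) 0 0 (step_sound _ 131 [(rh50fbb5868c909700.shift 3 1), rhf969ddbe589c4951] (by decide +kernel))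
noncomputable def rh434024871b918915 : CRef := CRef.mk (Pat.mk 0x2000000060000001e000000000000000000000000 0x30000000300000007000000060000001e000000320000000200000002 5 6) 0 0 (step_sound _ 68 [(rhe25b0a99195a5d59.shift 1 2), rhfe7da3c073d75bd5] (by decide +kernel))
noncomputable def rhc9c7e76947834a75 : CRef := CRef.mk (Pat.mk 0x80000001800000018000000000000000000000000 0x140000001f0000003800000018000000180000001800000018 5 6) 0 0 (step_sound _ 67 [(rh880f173af30d9589.shift 0 2), (rhea7a1800d6f053bd.shift 3 0), (rhf57bd6481b8b2ca7.shift 3 0)] (by decide +kernel))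
noncomputable def rhc85a4b534c1acac6 : CRef := CRef.mk (Pat.mk 0x18000000380000000000000000 0x100000001c0000001f00000038000000380000003800000018 5 6) 0 0 (step_sound _ 132 [rh1522cc062b93177a, (rh1e309b005ffa1b36.shift 3 0), (rh571950d89739e871.shift 3 1)] (by decide +kernel))
noncomputable def rh1dd29c156009e468 : CRef := CRef.mk (Pat.mk 0x8000000080000001c000000300000000000000000 0x10000000340000007e0000007f0000003c000000380000000800000008 5 7) 0 0 (step_sound _ 130 [(rhe2b63c00a3d7bb73.shift 0 3), (rhfa96bfd32dea53d3.shift 1 1), rhfd1b24bbc6c2bb87] (by decide +kernel))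
noncomputable def rh21c896b0de70027c : CRef := CRef.mk (Pat.mk 0x2000000070000000c0000000400000000 0x4000000040000000c0000001e0000000f0000000e0000000600000002 5 5) 0 0 (step_sound _ 130 [(rh712526e472efe489.shift 0 1), (rh8fec1ddea6bd2bba.shift 1 0)] (by decide +kernel))
noncomputable def rhffbf5e8cecce2789 : CRef := CRef.mk (Pat.mk 0x1000000010000000700000000 0x30000000300000003000000030000000700000007 5 3) 0 0 (step_sound _ 128 [rh55afc6a59410cf00, rhe5fc0333a9854b22] (by decide +kernel))
noncomputable def rhbe5861666dd2f3cf : CRef := CRef.mk (Pat.mk 0x1000000018000000100000001000000000 0x2e0000003f00000038000000180000001800000008 5 6) 0 0 (step_sound _ 131 [(rh50fbb5868c909700.shift 3 1), rh5c574c5be97ab93e] (by decide +kernel))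
noncomputable def rh3b45e38627644983 : CRef := CRef.mk (Pat.mk 0x2000000030000000e0000000000000000 0x60000000700000007000000070000000f0000000b00000003 5 4) 0 0 (step_sound _ 161 [(rh03dfdf12d5937476.shift 0 1), rhd1fa8140a3eb151f, (rhe5fc0333a9854b22.shift 1 1)] (by decide +kernel))
noncomputable def rhffa0700782bb17bb : CRef := CRef.mk (Pat.mk 0x180000001000000038000000080000000000000000 0x1e7000000fe0000001f000000f8000000380000003000000020 5 9) 0 0 (step_sound _ 165 [(rh42b77b88598f587a.shift 3 0), (rh6ae1d99a9b0058f4.shift 2 2), (rh8f95122563864e5b.shift 0 2), (rhbe83ebcafc7c406e.shift 2 2)] (by decide +kernel))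
noncomputable def rh920c791551959a41 : CRef := CRef.mk (Pat.mk 0x4000000040000000e000000000000000000000000 0x6000000060000000f0000003e0000000e00000006 5 6) 0 0 (step_sound _ 66 [(rhc1ae51bfba5f1e57.shift 0 1), (rhd1fa8140a3eb151f.shift 1 0)] (by decide +kernel))
noncomputable def rh5466b9f443fff9e5 : CRef := CRef.mk (Pat.mk 0x7000000060000000200000000 0x30000000f0000001f00000007000000060000000600000004 5 5) 0 0 (step_sound _ 129 [(rh55a1f6c57a317ce6.shift 1 0), rh6af4d1e77dd150b6, (rh90b823c913a425e8.shift 0 1)] (by decide +kernel))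
noncomputable def rhcf66e0ded43efe37 : CRef := CRef.mk (Pat.mk 0x20000000280000007000000000 0x1000000010000000300000007c0000002f0000007800000020 5 7) 0 0 (step_sound _ 66 [(rh09d4dfe75d4407d6.shift 2 1), rhab195b323f08b6c2] (by decide +kernel))
noncomputable def rh56e955ff36b1270e : CRef := CRef.mk (Pat.mk 0x80000001c000000000000000c00000000 0x80000001e000000f00000007e000000ff 5 8) 0 0 (step_sound _ 36 [rh0789fb5060e9c65e, (rh2fec87a3badbb505.shift 1 0), (rh6750075f6e760f16.shift 1 0), (rhc6f96d0082a29cc4.shift 1 0), (rhd8c1904b9c672145.shift 1 0)] (by decide +kernel))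
noncomputable def rhe3800059651db9bf : CRef := CRef.mk (Pat.mk 0x60000000e000000100000000000000000 0x2000000060000000f0000001e0000000f0000000e 5 5) 0 0 (step_sound _ 67 [(rhb739f4f82bb681b4.shift 0 2), rhce6165c12bb344ba] (by decide +kernel))
noncomputable def rh636a94e64f7e8632 : CRef := CRef.mk (Pat.mk 0x40000000e000000000000000000000000 0x400000004000000040000001f0000007c0000000800000008 5 7) 0 0 (step_sound _ 67 [rh101a15b0de2c271e, (rh5d54cb79a67f97ab.shift 2 0), (rhc21a95c499b3efdb.shift 0 2)] (by decide +kernel))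
noncomputable def rhdbf53a2e71682536 : CRef := CRef.mk (Pat.mk 0x40000000e000000000000000000000000 0x6000000070000003f0000003c0000000c0000000c 5 6) 0 0 (step_sound _ 129 [(rh79b3c29022acbdf3.shift 0 3), rh9425272e357bb618] (by decide +kernel))
noncomputable def rh01cc9d900d343008 : CRef := CRef.mk (Pat.mk 0x8000000080000000c0000000800000000 0x160000003f0000003f0000000c0000000c00000004 5 6) 0 0 (step_sound _ 130 [(rh50fbb5868c909700.shift 2 1), rh6c25ee10c7276be0] (by decide +kernel))
noncomputable def rhcc014963573d3523 : CRef := CRef.mk (Pat.mk 0x80000001e000000180000000000000000 0x380000001e0000001f0000003000000030 5 6) 0 0 (step_sound _ 36 [rh61f9d70a168e40fe, (rh7b1f1fb55310c477.shift 3 0)] (by decide +kernel))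
noncomputable def rh042cb43b21baec9b : CRef := CRef.mk (Pat.mk 0x80000001e000000180000000000000000 0x20000000b0000001e0000001f0000003400000014 5 6) 0 0 (step_sound _ 129 [(rh3244c3cc8379b070.shift 0 3), rhb1a3a48fe49b2c77] (by decide +kernel))
noncomputable def rh6ed36f0c4c5a4982 : CRef := CRef.mk (Pat.mk 0x80000001e00000018 0x30000000300000003f0000001e00000018 5 6) 0 0 (step_sound _ 65 [(rh3244c3cc8379b070.shift 0 1), (rhd0742368562f04d0.shift 1 0)] (by decide +kernel))
noncomputable def rh7ceebb8e10f7e049 : CRef := CRef.mk (Pat.mk 0x800000008000000180000007000000000 0x1000000030000000780000001e000000380000007f000000e0 5 8) 0 0 (step_sound _ 132 [(rh989d47d0e3b00ee1.shift 1 0), (rhe9dbed467a82f734.shift 1 1), rhf737d3a22c3f457e] (by decide +kernel))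
noncomputable def rhb040072b440aa6c6 : CRef := CRef.mk (Pat.mk 0x600000002000000060000000c00000000 0x40000000600000006000000060000001f00000078 5 7) 0 0 (step_sound _ 3 [(rh6f1cbe15c631ee70.shift 2 0), rhc48b6557984e9114] (by decide +kernel))
noncomputable def rh004662289cee5088 : CRef := CRef.mk (Pat.mk 0xc000000040000000c0000001800000000 0x100000003c0000000f0000000c0000007800000010 5 7) 0 0 (step_sound _ 37 [rh989d47d0e3b00ee1, (rhf48373e13d2bc128.shift 2 1)] (by decide +kernel))
noncomputable def rhe99287fe18ffc2ee : CRef := CRef.mk (Pat.mk 0x800000008000000180000007000000000 0x10000000140000001e00000078000000380000007f000000e8 5 8) 0 0 (step_sound _ 132 [(rh7df2813c05b22b13.shift 3 1), (rhd125f5ab9e432ecc.shift 1 0), (rheae168e16a07fd6e.shift 3 0), rhf737d3a22c3f457e] (by decide +kernel))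
noncomputable def rhd983ea48e7c3b8c6 : CRef := CRef.mk (Pat.mk 0x40000000c0000000c0000001800000000 0x100000003c0000000f0000000c0000007800000010 5 7) 0 0 (step_sound _ 37 [rh8bfafb9e7ef9ac91, (rhf48373e13d2bc128.shift 2 1)] (by decide +kernel))
noncomputable def rh5b130595d59a5ecb : CRef := CRef.mk (Pat.mk 0x8000000180000001800000010 0x2000000020000000ef000000ff0000003800000010 5 8) 0 0 (step_sound _ 69 [rh58b3643cc96fca26, (rh6ad453f6d964ccd2.shift 2 0), (rhb762f327c85d41a0.shift 2 1)] (by decide +kernel))
noncomputable def rh71730f8e792813e0 : CRef := CRef.mk (Pat.mk 0x800000008000000180000003000000000 0x10000000340000007e0000007f000000380000003800000008 5 7) 0 0 (step_sound _ 100 [(rh01028dd925ac64f6.shift 1 1), (rh137cb260d225f489.shift 1 0), rh7f54ff1291c7f8a0, (rh9c6b60f976980dd2.shift 1 0), (rhad08522259e87e33.shift 1 0)] (by decide +kernel))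
noncomputable def rh69d811add2a82a49 : CRef := CRef.mk (Pat.mk 0x8000000080000001800000070000000000000000000000000 0x40000000c0000001c000000380000007f000000e80000000800000008 5 8) 0 0 (step_sound _ 99 [(rh2a14c815463ca7ed.shift 0 2), (rh544fd3f279a4d968.shift 2 0)] (by decide +kernel))
noncomputable def rh84d6e7e929a2413b : CRef := CRef.mk (Pat.mk 0xc000000040000000c0000001800000000 0x100000003c0000000f0000000c0000001c00000014 5 6) 0 0 (step_sound _ 99 [rh4a840d879cf6f015, (rh55afc6a59410cf00.shift 3 0)] (by decide +kernel))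
noncomputable def rh711852ffb6b51d1d : CRef := CRef.mk (Pat.mk 0x1800000008000000180000003000000000 0x100000001800000018000000380000003f00000060 5 7) 0 0 (step_sound _ 5 [rh56758f5d276ed32c, (rh6f1cbe15c631ee70.shift 4 0)] (by decide +kernel))
noncomputable def rhed5e2c66cd942c4a : CRef := CRef.mk (Pat.mk 0xc0000000c0000000800000000 0x18000000780000001f0000000c0000000c00000004 5 7) 0 0 (step_sound _ 131 [(rh1e309b005ffa1b36.shift 2 0), (rhc9613fc5bab58382.shift 0 1)] (by decide +kernel))
noncomputable def rh7890467e7d50a075 : CRef := CRef.mk (Pat.mk 0x180000001800000070000000000000000000000000 0xe7000000ff000000380000007c000000e80000002800000020 5 8) 0 0 (step_sound _ 162 [(rh165b1223640c9778.shift 2 0), (rh66c5741e685c1f62.shift 0 4), (rhad5d8fc3675c15dd.shift 0 4)] (by decide +kernel))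
noncomputable def rh856391802b899d6d : CRef := CRef.mk (Pat.mk 0x200000003000000060000000200000000 0x6000000060000000600000007000000070000000300000001 5 3) 0 0 (step_sound _ 0 [rh79877ebd3ef475dd, (rhf8f2dd1658083a86.shift 0 1)] (by decide +kernel))
noncomputable def rh16b1cc749bd38177 : CRef := CRef.mk (Pat.mk 0x20000001e00000000 0x6000000ff0000003c 5 8) 0 0 (step_sound _ 4 [rha4dcbcfb6f74e576, (rhe25b0a99195a5d59.shift 1 0)] (by decide +kernel))
noncomputable def rh9edc949bba1b68a4 : CRef := CRef.mk (Pat.mk 0x40000001e000000000000000c000000000000000000000000 0xc0000001e0000003a0000001f0000003b0000002800000008 5 6) 0 0 (step_sound _ 132 [rhdaca548ea9608bed, (rhe25b0a99195a5d59.shift 1 4)] (by decide +kernel))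
noncomputable def rhd29597282913d6a1 : CRef := CRef.mk (Pat.mk 0x1000000078000000000000003000000000 0x3c00000078000001e8000000fc000001df 5 9) 0 0 (step_sound _ 35 [(rh0501ae988cc08fd1.shift 2 0), (rha899420526ba09c6.shift 2 0), rhb31ed74e4c4d2f19, (rhd842214a4f38609a.shift 2 0), rhd8970f20df7aae31] (by decide +kernel))
noncomputable def rh896a3533c9073bb2 : CRef := CRef.mk (Pat.mk 0x40000001e000000000000000c00000000 0x70000001e0000000a0000001f0000007e 5 7) 0 0 (step_sound _ 3 [(rh2613c889e411427e.shift 2 0), rh4d6ede2aa6818690] (by decide +kernel))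
noncomputable def rhdc3ae74e8302c41e : CRef := CRef.mk (Pat.mk 0x80000003c00000000000000180000000000000000 0x180000003c000001e4000000fc000001ff00000040 5 9) 0 0 (step_sound _ 69 [(rh0231305743e0506b.shift 1 1), (rh26d36af399e8b4d5.shift 0 1), (rh987e1a94169563cc.shift 1 1), (rhb9f4d3b3d760c44e.shift 2 0), (rhef6d57e556a4570a.shift 2 1)] (by decide +kernel))
noncomputable def rh250a5b8f2d9a972e : CRef := CRef.mk (Pat.mk 0x20000000f000000000000000600000000 0x4000000060000000f0000001c0000000e0000000e 5 5) 0 0 (step_sound _ 66 [rh57a46668b1257917, (rh7b1f1fb55310c477.shift 1 0)] (by decide +kernel))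
noncomputable def rhacd82c98299a77e2 : CRef := CRef.mk (Pat.mk 0x20000000f000000000000000200000000 0x400000004000000060000000f0000001e0000000e0000000e 5 5) 0 0 (step_sound _ 67 [(rhcb045c5eaa8e244f.shift 1 0), (rhe25b0a99195a5d59.shift 0 2)] (by decide +kernel))
noncomputable def rha068cde052f1f730 : CRef := CRef.mk (Pat.mk 0x200000007000000080 0x700000007e000000c7 5 8) 0 0 (step_sound _ 35 [rh7f0f728c796044ac, (rh96851dee118c1ba3.shift 3 0)] (by decide +kernel))
noncomputable def rhe0d088a8f306af75 : CRef := CRef.mk (Pat.mk 0x100000007800000000 0x370000007e000000e0 5 8) 0 0 (step_sound _ 6 [rh476af4e76dfe292e, (rhe25b0a99195a5d59.shift 3 0)] (by decide +kernel))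
noncomputable def rhcf2ee7687b4b3257 : CRef := CRef.mk (Pat.mk 0x80000000c000000180000000000000000 0x140000003c0000001f000000180000000800000008 5 6) 0 0 (step_sound _ 97 [(rhb739f4f82bb681b4.shift 0 2), (rhc1c1b4a46bee218b.shift 1 0)] (by decide +kernel))
noncomputable def rhbf5c62762e298980 : CRef := CRef.mk (Pat.mk 0x100000001800000030000000000000000000000000 0xc0000001f00000038000000fc000000f80000003800000038 5 8) 0 0 (step_sound _ 99 [(rh1522cc062b93177a.shift 0 1), (rh60f3112a9a3f95fe.shift 2 0), (rh8c3ab83624ff12cb.shift 2 0)] (by decide +kernel))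
noncomputable def rhe97e18cf64a7b965 : CRef := CRef.mk (Pat.mk 0x1e0000000200000000000000000000000000000000 0x400000006000000070000001e0000000600000006000000070000000700000001 5 5) 0 0 (step_sound _ 97 [(rh11acd801a78010b3.shift 0 2), (rhb730ba14aa32bdb3.shift 1 2), rhc600a051aff3735c, (rhd8589df49ad97764.shift 0 2)] (by decide +kernel))
noncomputable def rh6ede8d41d351b7c8 : CRef := CRef.mk (Pat.mk 0x20000001c00000000 0x3b0000001f00000038 5 6) 0 0 (step_sound _ 33 [(rh3244c3cc8379b070.shift 0 1), rh3e1b7b343686dca1] (by decide +kernel))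
noncomputable def rh915d038ca948d95a : CRef := CRef.mk (Pat.mk 0x20000001e000000000000000000000000 0x50000000700000007000000060000001e000000070000000600000004 5 5) 0 0 (step_sound _ 65 [rh674a9599d2600691, (rheb0810cc63b001d8.shift 0 2)] (by decide +kernel))
noncomputable def rh902e067bb5c364f1 : CRef := CRef.mk (Pat.mk 0x800000038000000000000000000000000 0x140000001c0000001c00000018000000f8000001df0000001c00000018 5 9) 0 0 (step_sound _ 67 [(rh136da48a6dbd44d0.shift 0 1), (rh2b1c276a6b56355c.shift 2 0), (rh708536f06d9bd241.shift 2 2), (rhf0f55c4504412200.shift 0 2)] (by decide +kernel))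
noncomputable def rhde93ffd8265833a3 : CRef := CRef.mk (Pat.mk 0x300000001c000000000000000000000000 0x1c0000003f0000003f0000007c0000001f0000001c00000018 5 7) 0 0 (step_sound _ 131 [(rh1775688862642885.shift 0 1), rh683d48f7118529de, (rh749bb6fde4a0135a.shift 0 1), (rhdc6b042be8ed0243.shift 0 1)] (by decide +kernel))
noncomputable def rh1db8e076f498790d : CRef := CRef.mk (Pat.mk 0x38000000180000000000000000 0x80000000f0000003f0000007e0000000600000004 5 7) 0 0 (step_sound _ 66 [rh1775688862642885, (rh53b3c253cb0c65f4.shift 1 2)] (by decide +kernel))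
noncomputable def rhfa58d2ce10decb04 : CRef := CRef.mk (Pat.mk 0x3800000018000000000000000000000000 0x80000000c0000000f0000003c0000001e0000001c0000001800000018 5 6) 0 0 (step_sound _ 163 [(rh3af54b5f78790764.shift 1 2), (rh55a1f6c57a317ce6.shift 3 1), rhb657cc79bc614fea] (by decide +kernel))
noncomputable def rhce474416065c9c7c : CRef := CRef.mk (Pat.mk 0x1c0000000c000000000000000000000000 0x140000001c0000007f0000007e0000001c0000001c 5 7) 0 0 (step_sound _ 35 [rh050b0ea077e6bb93, (rhd02f44a45c1a55c1.shift 2 0), (rhd1f9989d6034576a.shift 2 1)] (by decide +kernel))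
noncomputable def rh203ae42c175072ec : CRef := CRef.mk (Pat.mk 0xe00000006000000000000000000000000 0xa0000003f0000003e000000070000000600000006 5 6) 0 0 (step_sound _ 100 [rh27d2a9562fd89e0e, (rhbca71ab025ef4262.shift 1 3), (rhfd0f316c42bbba52.shift 0 3)] (by decide +kernel))
noncomputable def rh7007bb00f39f7dab : CRef := CRef.mk (Pat.mk 0x3800000018 0x7000000ff000000f8 5 8) 0 0 (step_sound _ 38 [(rh18965a982d73c794.shift 3 0), rhde1252caea722962] (by decide +kernel))
noncomputable def rh3d02764d38462db2 : CRef := CRef.mk (Pat.mk 0x40000000c0000000c000000000000000000000000 0x20000000f0000003e0000000c0000000c0000000c0000000c 5 6) 0 0 (step_sound _ 66 [(rh17d893c7538e1819.shift 0 2), (rhea7a1800d6f053bd.shift 2 0), (rhf57bd6481b8b2ca7.shift 2 0)] (by decide +kernel))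
noncomputable def rh9c053b650b607672 : CRef := CRef.mk (Pat.mk 0x600000006000000040000000000000000 0x200000006000000070000003f0000003c0000000800000008 5 6) 0 0 (step_sound _ 161 [(rh2145e1d24b96a57e.shift 1 2), rhb99a491b9a372cca] (by decide +kernel))
noncomputable def rh7ddae2ba6b5571fb : CRef := CRef.mk (Pat.mk 0xc0000000c000000000000000000000000 0xe0000000e0000000f0000003e0000007c0000001c0000000c00000004 5 7) 0 0 (step_sound _ 162 [(rh55a1f6c57a317ce6.shift 2 1), (rhafa04bb91b9b064d.shift 0 1), (rhfe7da3c073d75bd5.shift 1 0)] (by decide +kernel))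
noncomputable def rhcc63a815dc12a7c6 : CRef := CRef.mk (Pat.mk 0x1800000018000000100000000000000000 0x10000000140000003f0000001f000000f80000002800000008 5 8) 0 0 (step_sound _ 67 [rhaeaa17d8631efecf, (rhea7a1800d6f053bd.shift 3 0), (rhf7ac44032989c9ef.shift 2 1)] (by decide +kernel))
noncomputable def rhd08b66cd22af819e : CRef := CRef.mk (Pat.mk 0x18000000180000000800000000 0x800000008000000180000007c0000001f00000014 5 7) 0 0 (step_sound _ 131 [(rh55a1f6c57a317ce6.shift 3 0), rhb0de455c382c5b1c] (by decide +kernel))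
noncomputable def rh72abe79608ca9800 : CRef := CRef.mk (Pat.mk 0x100000001800000018000000080000000000000000 0x80000001800000018000000380000003f0000003400000030 5 6) 0 0 (step_sound _ 68 [(rh251f4c515ef5ed3d.shift 0 1), (rh3cb04db3dd2b6a55.shift 3 0), (rh820d4e04d5dcd02e.shift 3 0)] (by decide +kernel))
noncomputable def rh4a6d47b9fea97fd6 : CRef := CRef.mk (Pat.mk 0x1a0000000e00000000 0x1f000000fe000000e0 5 8) 0 0 (step_sound _ 36 [(rh3244c3cc8379b070.shift 0 1), (rh9769bdab59649ef8.shift 1 0)] (by decide +kernel))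
noncomputable def rhebe9f0dc13d89c6c : CRef := CRef.mk (Pat.mk 0x20000000e000000000000000000000000 0x4000000070000003e000000030000000200000002 5 6) 0 0 (step_sound _ 100 [(rh3244c3cc8379b070.shift 0 3), rh8fc6e84d6e407574] (by decide +kernel))
noncomputable def rh698eccc29557f9a1 : CRef := CRef.mk (Pat.mk 0x280000003800000000000000000000000000000000 0x3800000038000000780000003f0000001c0000001c00000004 5 7) 0 0 (step_sound _ 99 [(rh19b19bf0872cfe73.shift 2 0), (rh7304441a26c04743.shift 3 1), (rh755c413ec79f71a0.shift 2 1), (rhf0f55c4504412200.shift 0 3)] (by decide +kernel))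
noncomputable def rh9e7d9acdd5b37d84 : CRef := CRef.mk (Pat.mk 0x340000001c000000000000000000000000 0x18000000380000003c0000003f0000001c0000001c0000001c00000008 5 6) 0 0 (step_sound _ 164 [(rh0710d0c3cf08f79a.shift 0 1), (rh281c6819542c66e6.shift 3 0), (rh972f0859fbdb0652.shift 0 2), (rhfafeb437ceb8396d.shift 3 0)] (by decide +kernel))
noncomputable def rh86768e8bfb6df91d : CRef := CRef.mk (Pat.mk 0xc00000006000000000000000000000000 0x2000000020000000e0000000f0000003e00000006000000060000000600000002 5 6) 0 0 (step_sound _ 162 [(rh03e9a61dbac4ce60.shift 0 1), (rh281c6819542c66e6.shift 1 0), (rhfafeb437ceb8396d.shift 1 0)] (by decide +kernel))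
noncomputable def rh13b98f6ed5850563 : CRef := CRef.mk (Pat.mk 0x40000000c000000040000000400000000 0xa0000000f0000003c000000040000000c00000008 5 6) 0 0 (step_sound _ 3 [(rhd3458b32566d63f7.shift 2 0), (rhf9c5f57e36ff1a39.shift 0 1)] (by decide +kernel))
noncomputable def rh77365712ac0a8d9a : CRef := CRef.mk (Pat.mk 0x180000001c000000080000000000000000 0x1000000010000000180000001f0000007f0000003000000030 5 7) 0 0 (step_sound _ 68 [(rh121397a93ef3afd3.shift 2 1), (rh6292bd8784ece55f.shift 1 2), rha54350b004048f14] (by decide +kernel))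
noncomputable def rhd1fa5970f26d48e5 : CRef := CRef.mk (Pat.mk 0xc00000016000000000000000000000000 0xa0000000b0000003f0000001e0000003c0000001400000010 5 6) 0 0 (step_sound _ 99 [(rh65dcfd18fd55cba0.shift 1 0), (rhde35e588b4ff6c5e.shift 0 1)] (by decide +kernel))
noncomputable def rhdd100a0d4a7c835c : CRef := CRef.mk (Pat.mk 0xc00000016000000000000000000000000 0x8000000080000007c0000007e0000007b0000001000000010 5 7) 0 0 (step_sound _ 99 [(rh4c40641a327d7ac1.shift 0 2), (rh65dcfd18fd55cba0.shift 1 0), (rh87ee923877636e52.shift 1 2)] (by decide +kernel))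
noncomputable def rh2374b06822b801a5 : CRef := CRef.mk (Pat.mk 0x60000000b000000000000000000000000 0x400000004000000070000003f0000003c0000000800000008 5 6) 0 0 (step_sound _ 98 [rh65dcfd18fd55cba0, (rh79b3c29022acbdf3.shift 0 3), (rh87ee923877636e52.shift 0 2)] (by decide +kernel))
noncomputable def rhe0ab5d4a23fcd7b4 : CRef := CRef.mk (Pat.mk 0xc000000160000000000000000 0x2000000030000003e000000360000000400000004 5 6) 0 0 (step_sound _ 100 [(rh18965a982d73c794.shift 1 2), rh58e6dda71d4b4d9b] (by decide +kernel))
noncomputable def rh8ae97cddd2ca775a : CRef := CRef.mk (Pat.mk 0x7000000030000000000000000000000000 0x1000000010000000780000007c0000001f0000000800000008 5 7) 0 0 (step_sound _ 99 [(rh53b3c253cb0c65f4.shift 2 3), rh7e1d7c18b29e0877] (by decide +kernel))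
noncomputable def rhca0c0aea2e75101e : CRef := CRef.mk (Pat.mk 0xe00000006000000000000000000000000 0x30000003f0000003e000000030000000300000002 5 6) 0 0 (step_sound _ 132 [(rh18965a982d73c794.shift 1 3), rh74cd36baf454ad94] (by decide +kernel))
noncomputable def rh6248dea7a7c6dd4a : CRef := CRef.mk (Pat.mk 0xe00000006000000000000000000000000 0x600000006000000070000003f00000006000000020000000200000002 5 6) 0 0 (step_sound _ 65 [(rh2f7f929276407391.shift 0 2), rh7995a65e853de7b4, (rhea7a1800d6f053bd.shift 1 0)] (by decide +kernel))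
noncomputable def rh90eec48bfda76b17 : CRef := CRef.mk (Pat.mk 0xe00000014000000000000000000000000 0xc0000000f0000001e000000780000001800000018 5 7) 0 0 (step_sound _ 99 [(rh9425272e357bb618.shift 1 0), (rhb739f4f82bb681b4.shift 0 3)] (by decide +kernel))
noncomputable def rh63ff0b732060a320 : CRef := CRef.mk (Pat.mk 0x1c00000018000000000000000000000000 0x1800000018000000180000001f0000001f000000300000003000000030 5 6) 0 0 (step_sound _ 68 [(rh3cb04db3dd2b6a55.shift 3 0), rh7178dcd6c6bdcb3f, (rhf6b758b3af069544.shift 0 1)] (by decide +kernel))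
noncomputable def rh5aafaf6a9d2a1865 : CRef := CRef.mk (Pat.mk 0x40000001c00000008000000000000000000000000 0x6000000060000000e0000001c0000000f000000060000000400000004 5 5) 0 0 (step_sound _ 194 [(rh2145e1d24b96a57e.shift 2 3), rhe5e5d1f80113d76d] (by decide +kernel))
noncomputable def rh68bfdbce3d7dd946 : CRef := CRef.mk (Pat.mk 0xf00000004 0x70000007f000000fc 5 8) 0 0 (step_sound _ 36 [rh14957db5dfbe7cb2, rh2eb6cac0fecf3e9c, rh4ad5fc38f1b69f65, rh69e663d037057002] (by decide +kernel))
noncomputable def rh9dcca023d611b440 : CRef := CRef.mk (Pat.mk 0x3c000000000000000000000000 0x80000003c000000ff000000070000000400000004 5 8) 0 0 (step_sound _ 131 [(rh26c06edd948ee532.shift 0 3), (rhe3347d26bd0251a9.shift 1 0), (rhf871e666d90bcf29.shift 0 2)] (by decide +kernel))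
noncomputable def rh1d6cae35902784dc : CRef := CRef.mk (Pat.mk 0x1c00000008000000000000000000000000 0x80000007e0000007f000000360000001400000014 5 7) 0 0 (step_sound _ 98 [(rh4dc133ee0ba1420a.shift 0 3), (rh96bf3d823ed5c23f.shift 1 0), rhcb1ce2b9f5fc40fa] (by decide +kernel))
noncomputable def rhf83955c414eaa960 : CRef := CRef.mk (Pat.mk 0xc000000040000000400000000 0xa0000000e0000000f0000003e000000060000000600000002 5 6) 0 0 (step_sound _ 130 [(rh0fd870c734e6c513.shift 1 0), (rh17d893c7538e1819.shift 0 1), (rh20966da26a1c2ae8.shift 1 0), (rh7ef5fa5c39f1c762.shift 1 1)] (by decide +kernel))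
noncomputable def rh6f16ebb354039343 : CRef := CRef.mk (Pat.mk 0xc000000040000000400000000 0xa0000000e0000000f0000003e0000000c0000000c00000008 5 6) 0 0 (step_sound _ 130 [(rh17d893c7538e1819.shift 0 1), (rh29dd5384d80ecb1e.shift 1 0), (rh426f403fa814630c.shift 2 0), (rh7ef5fa5c39f1c762.shift 1 1)] (by decide +kernel))
noncomputable def rh59fa1dd8399afa30 : CRef := CRef.mk (Pat.mk 0x1800000008000000000000000000000000 0x4000000040000001c0000001e0000007c0000001f0000001c0000001c00000004 5 7) 0 0 (step_sound _ 163 [(rh03e9a61dbac4ce60.shift 1 1), rh50871771a03f1586, (rh755c413ec79f71a0.shift 2 1)] (by decide +kernel))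
noncomputable def rhd5011049917b2e0c : CRef := CRef.mk (Pat.mk 0x18000000180000000800000000 0x80000000800000008000000180000003c0000001f00000014 5 6) 0 0 (step_sound _ 131 [rh51f5a245ef7eb6cb, (rh55a1f6c57a317ce6.shift 3 0), (rhbd1553ade3ecbf42.shift 2 0)] (by decide +kernel))
noncomputable def rhcf9e731830f2e4cc : CRef := CRef.mk (Pat.mk 0x38000000080000000000000000 0x4000000070000003e0000007f0000000800000008 5 7) 0 0 (step_sound _ 98 [(rh2ba551de881ca4cd.shift 0 2), (rh2cc7d62e70c02209.shift 0 2), (rh8195a2d7794c7cd2.shift 0 2), (rhb9dd680bb9375a9f.shift 1 0)] (by decide +kernel))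
noncomputable def rh612ffa21bbc0034e : CRef := CRef.mk (Pat.mk 0xe00000006000000000000000000000000 0x70000003e0000003e000000030000000300000002 5 6) 0 0 (step_sound _ 132 [(rh18965a982d73c794.shift 1 3), rh1aaa189d4f02b3a2] (by decide +kernel))
noncomputable def rhbba720cee4fbc066 : CRef := CRef.mk (Pat.mk 0x1c0000000c 0x70000007e0000007c 5 7) 0 0 (step_sound _ 37 [(rh18965a982d73c794.shift 2 0), rh2456963ff1f7bf23] (by decide +kernel))
noncomputable def rhe331358d43438ba0 : CRef := CRef.mk (Pat.mk 0x3800000018000000000000000000000000 0x180000001c0000001f0000003c000000180000000c0000000c0000000c 5 6) 0 0 (step_sound _ 67 [(rh29b132cef1be36c8.shift 0 2), rh4a9f4a178e9687f0, (rhea7a1800d6f053bd.shift 3 0)] (by decide +kernel))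
noncomputable def rh72b6303bcf81f0c6 : CRef := CRef.mk (Pat.mk 0x78000000080000000000000000 0x1000000010000000370000007f000000f80000000800000008 5 8) 0 0 (step_sound _ 98 [(rh4ad5fc38f1b69f65.shift 2 2), (rh55daa26adcd643af.shift 0 2), rhbd8800c66de9e6af] (by decide +kernel))
noncomputable def rhb64a4bf0e535ef33 : CRef := CRef.mk (Pat.mk 0x1c0000000c000000000000000000000000 0x60000001f0000001e0000000f0000000e0000000e0000000c 5 5) 0 0 (step_sound _ 66 [(rh27552d399fffbf2d.shift 0 1), (rh6c9418b1ab9df1ec.shift 2 0), (rhea7a1800d6f053bd.shift 2 0)] (by decide +kernel))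
noncomputable def rh300bf3b2dd3c090d : CRef := CRef.mk (Pat.mk 0x3800000018000000000000000000000000 0x38000000380000003e0000001f0000001c0000001c 5 6) 0 0 (step_sound _ 98 [(rh53b3c253cb0c65f4.shift 1 3), rhac7612a871fda53b] (by decide +kernel))
noncomputable def rh4e14295dab5d366e : CRef := CRef.mk (Pat.mk 0x1c0000000c0000000000000000 0x2000000030000001f0000003f0000000400000004 5 6) 0 0 (step_sound _ 65 [(rh53b3c253cb0c65f4.shift 0 2), rh90c9e05c3cce4abd] (by decide +kernel))
noncomputable def rh30cfd4ba10e177cc : CRef := CRef.mk (Pat.mk 0x38000000180000000000000000 0x80000000c0000000e0000003f0000001f0000001c00000018 5 6) 0 0 (step_sound _ 131 [(rh3af54b5f78790764.shift 1 1), (rh55a1f6c57a317ce6.shift 3 0), rhc8a12a7af4a52fb1] (by decide +kernel))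
noncomputable def rh85165e1f7cfcdb6e : CRef := CRef.mk (Pat.mk 0xe00000006000000000000000000000000 0xa0000003f0000003e000000070000000600000006 5 6) 0 0 (step_sound _ 132 [rh0de5acb61b506233, (rh18965a982d73c794.shift 1 3)] (by decide +kernel))
noncomputable def rhf9f644e045030dfc : CRef := CRef.mk (Pat.mk 0x1c0000000c000000000000000000000000 0x130000007f0000007c0000000e0000000c0000000c 5 7) 0 0 (step_sound _ 35 [rh74a2b0e3520e6559, (rhcc6da958f7ae4140.shift 1 0), (rhd02f44a45c1a55c1.shift 2 0)] (by decide +kernel))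
noncomputable def rh18ebf5a282d6c58a : CRef := CRef.mk (Pat.mk 0x18000000080000000800000000 0x140000001c0000001f0000007c0000000c0000000c00000004 5 7) 0 0 (step_sound _ 131 [(rh0fd870c734e6c513.shift 2 0), (rh20966da26a1c2ae8.shift 2 0), (rh7ef5fa5c39f1c762.shift 2 1), (rhca405e350c462817.shift 0 1)] (by decide +kernel))
noncomputable def rhb12ae5713cff16fa : CRef := CRef.mk (Pat.mk 0x3800000018000000000000000000000000 0xf0000003e0000007f000000060000000400000004 5 7) 0 0 (step_sound _ 130 [(rh5d2cd9c8afd20276.shift 0 3), (rh6292bd8784ece55f.shift 1 3), (rha80f7301cddb7f2d.shift 1 0)] (by decide +kernel))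
noncomputable def rhf457869500d12533 : CRef := CRef.mk (Pat.mk 0x3800000018000000000000000000000000 0xc0000000f0000003c000000180000001c0000001c0000000c 5 6) 0 0 (step_sound _ 163 [rh04597292272a3ac2, (rh55a1f6c57a317ce6.shift 3 1)] (by decide +kernel))
noncomputable def rhe6871491b709029a : CRef := CRef.mk (Pat.mk 0x1c0000000c0000000000000000 0x200000002000000070000001f0000003c0000000400000004 5 6) 0 0 (step_sound _ 97 [(rh6292bd8784ece55f.shift 0 2), rhd5889c99d29bf7d6] (by decide +kernel))
noncomputable def rh4514908f5376ea01 : CRef := CRef.mk (Pat.mk 0x1c0000000c000000000000000000000000 0x140000001e0000007f000000380000001800000018 5 7) 0 0 (step_sound _ 100 [rh6a264a410cc9c051, (rh79b3c29022acbdf3.shift 1 3)] (by decide +kernel))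
noncomputable def rha780469830670f00 : CRef := CRef.mk (Pat.mk 0xe00000006000000000000000000000000 0x40000003f0000003e000000030000000200000002 5 6) 0 0 (step_sound _ 132 [(rh18965a982d73c794.shift 1 3), rhd9a831431bcbae10] (by decide +kernel))
noncomputable def rh3776da2957ae8382 : CRef := CRef.mk (Pat.mk 0x3800000018000000000000000000000000 0x180000001c0000001f000000fc00000018000000080000000800000008 5 8) 0 0 (step_sound _ 67 [(rh29b132cef1be36c8.shift 0 2), (rh7995a65e853de7b4.shift 2 0), (rhea7a1800d6f053bd.shift 3 0)] (by decide +kernel))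
noncomputable def rh3c8398522afd3202 : CRef := CRef.mk (Pat.mk 0x1c00000018 0x70000003f0000001f 5 6) 0 0 (step_sound _ 33 [rhb739f4f82bb681b4, rhe422f3b07ceccef7] (by decide +kernel))
noncomputable def rh176a8a978958a219 : CRef := CRef.mk (Pat.mk 0xe0000000c0000000000000000 0x2000000030000007e0000007f0000000400000004 5 7) 0 0 (step_sound _ 100 [(rh4dc133ee0ba1420a.shift 0 2), rhb9dd680bb9375a9f, (rhf5e124ec5c58a2dd.shift 1 2)] (by decide +kernel))
noncomputable def rh4f098d8d112aa8cd : CRef := CRef.mk (Pat.mk 0x1c0000001800000000 0x400000004000000060000007c0000007f00000078 5 7) 0 0 (step_sound _ 37 [rh8363859edee8b1fe, (rhf48373e13d2bc128.shift 2 1)] (by decide +kernel))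
noncomputable def rha2e0029a5e9e6b86 : CRef := CRef.mk (Pat.mk 0x800000018000000180000000000000000 0x10000000140000001f00000038000000380000003800000038 5 6) 0 0 (step_sound _ 36 [rh63f68c0db2757d12, (rh7b1f1fb55310c477.shift 3 0)] (by decide +kernel))
noncomputable def rhe9c12133771c9768 : CRef := CRef.mk (Pat.mk 0x1800000038000000000000000000000000 0x1000000010000000380000003f000000700000002000000020 5 7) 0 0 (step_sound _ 98 [(rh65dcfd18fd55cba0.shift 2 0), (rhab2ad169e49f9c5e.shift 0 3)] (by decide +kernel))
noncomputable def rhd8020ecb68828e05 : CRef := CRef.mk (Pat.mk 0x18000000180000001000000000 0x100000001c0000001f00000038000000380000003800000028 5 6) 0 0 (step_sound _ 131 [(rh2145e1d24b96a57e.shift 3 1), rh63f68c0db2757d12] (by decide +kernel))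
noncomputable def rh42c54fbc09ced201 : CRef := CRef.mk (Pat.mk 0x40000000c0000000c000000000000000000000000 0xa0000000e0000000e0000000f0000003c0000001c00000004 5 6) 0 0 (step_sound _ 67 [(rh7b1f1fb55310c477.shift 2 1), rh8c36bd5b995d6e57] (by decide +kernel))
noncomputable def rh731e23388c2eb1ac : CRef := CRef.mk (Pat.mk 0xe0000000c000000000000000000000000 0xf0000007e0000003f000000300000001000000010 5 7) 0 0 (step_sound _ 100 [rh5c460e7c7699c9cc, (rhf48373e13d2bc128.shift 1 3)] (by decide +kernel))
noncomputable def rh5f9e286612403f11 : CRef := CRef.mk (Pat.mk 0xc0000000c000000000000000000000000 0x80000000c0000000e0000007f000000780000001800000018 5 7) 0 0 (step_sound _ 67 [(rh3cb04db3dd2b6a55.shift 2 0), rh473e5fca88a1d609, (rhde8ec84b925d7e59.shift 1 1)] (by decide +kernel))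
noncomputable def rh8b3e0e318482ed3c : CRef := CRef.mk (Pat.mk 0x300000001c000000000000000000000000 0x1c0000003f0000003f0000007c0000001f0000001c0000001c 5 7) 0 0 (step_sound _ 131 [(rh10e897e9a898d0ed.shift 0 1), (rh21c0ba7a027f8833.shift 0 1), rh3e842588d069895e, rhd0564d484aec1675] (by decide +kernel))
noncomputable def rhabf4de66b07a25fd : CRef := CRef.mk (Pat.mk 0xc00000006000000000000000000000000 0x2000000020000000e0000000f0000003e00000006000000060000000600000002 5 6) 0 0 (step_sound _ 162 [(rh281c6819542c66e6.shift 1 0), (rh5573fa5b31b89a7b.shift 0 1), (rh6bbc868cec2b4d9a.shift 1 0)] (by decide +kernel))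
noncomputable def rh1e5ba10be2f2ab50 : CRef := CRef.mk (Pat.mk 0x600000006000000020000000000000000 0x20000000600000006000000070000000700000007 5 3) 0 0 (step_sound _ 33 [(rh71222050f2c63a3a.shift 1 0), rhce9a49803a550f13] (by decide +kernel))
noncomputable def rh5e553c342d7fdc75 : CRef := CRef.mk (Pat.mk 0xc0000000c0000000400000000 0x40000000c0000000c0000000c0000003e0000000f0000000a 5 6) 0 0 (step_sound _ 130 [(rh55a1f6c57a317ce6.shift 2 0), (rh7a96d61384f03b7d.shift 1 0), rhab6ffbdaef6e235a] (by decide +kernel))
noncomputable def rhfcc3a69daeb4e231 : CRef := CRef.mk (Pat.mk 0x60000000e00000000 0x3e0000003f00000038 5 6) 0 0 (step_sound _ 36 [rh2381ca26b8b38d1e, (rhf48373e13d2bc128.shift 1 1)] (by decide +kernel))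
noncomputable def rhaf866ccac9174c83 : CRef := CRef.mk (Pat.mk 0x1800000038000000000000000000000000 0x80000003f0000003f000000060000000400000004 5 6) 0 0 (step_sound _ 98 [(rh88129595a1b18399.shift 1 0), (rha793ea9456b75954.shift 0 3), (rhab2ad169e49f9c5e.shift 0 3)] (by decide +kernel))
noncomputable def rhd02c1db70cba9b35 : CRef := CRef.mk (Pat.mk 0x300000003000000020000000000000000 0x20000000300000003000000070000000700000007 5 3) 0 0 (step_sound _ 33 [rh0539ead39480211b, rh7b1f1fb55310c477] (by decide +kernel))
noncomputable def rh62968ce38530e0ed : CRef := CRef.mk (Pat.mk 0x180000000c000000000000000000000000 0x80000001f0000003f000000370000001000000010 5 6) 0 0 (step_sound _ 97 [rh20880c07b610c854, (rh53b3c253cb0c65f4.shift 0 3)] (by decide +kernel))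
noncomputable def rh757f16a4a9534f8c : CRef := CRef.mk (Pat.mk 0x1c000000060000000000000000 0x6000000070000001f0000003e0000000700000006 5 6) 0 0 (step_sound _ 97 [rh1de1d4a42856522c, rh38a0850c9fea941e] (by decide +kernel))
noncomputable def rh37f0308d6fa1587c : CRef := CRef.mk (Pat.mk 0x60000000200000002000000000000000000000000 0x2000000060000000600000007000000070000000700000005 5 3) 0 0 (step_sound _ 65 [(rh8c3839f9b9075f23.shift 1 0), rha8bc3cae4d77a08f, (rhc9ac229b3c77cd55.shift 0 1)] (by decide +kernel))
noncomputable def rh0cf9fdb907eefa30 : CRef := CRef.mk (Pat.mk 0x40000000c000000040000000400000000 0x80000000c0000000c0000003f0000003f0000001a 5 6) 0 0 (step_sound _ 35 [(rh55afc6a59410cf00.shift 2 0), rhecae18493ff3f5d4] (by decide +kernel))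
noncomputable def rh669857addaba8dfa : CRef := CRef.mk (Pat.mk 0x3800000018000000000000000000000000 0xf0000003f0000007e000000060000000400000004 5 7) 0 0 (step_sound _ 98 [(rh53b3c253cb0c65f4.shift 1 3), rhd0564d484aec1675] (by decide +kernel))
noncomputable def rh40618557f619987a : CRef := CRef.mk (Pat.mk 0x3800000018000000000000000000000000 0x80000000c0000000f0000003c0000001e0000001c0000001c0000001c 5 6) 0 0 (step_sound _ 163 [(rh3af54b5f78790764.shift 1 2), (rh55a1f6c57a317ce6.shift 3 1), rhfa0e142c5a750e96] (by decide +kernel))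
noncomputable def rh8cc98a2c8cba244f : CRef := CRef.mk (Pat.mk 0x38000000180000000000000000 0x4000000070000003f0000007e0000000800000008 5 7) 0 0 (step_sound _ 66 [rh21c0ba7a027f8833, (rh53b3c253cb0c65f4.shift 1 2)] (by decide +kernel))
noncomputable def rh6a6332618d199aa1 : CRef := CRef.mk (Pat.mk 0x7000000018000000000000000000000000 0x80000002f0000007f000000f80000001c0000001800000018 5 8) 0 0 (step_sound _ 131 [(rh38a0850c9fea941e.shift 2 1), (rh602de278b2638f13.shift 2 0), (rhd8f1f2b4852c6cfd.shift 0 3)] (by decide +kernel))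
noncomputable def rh1cef82b377aa36d8 : CRef := CRef.mk (Pat.mk 0x7000000018000000000000000000000000 0x100000003e0000007f000000f80000000c0000000c00000008 5 8) 0 0 (step_sound _ 131 [(rh1a13ca61aabd1498.shift 1 3), (rh1aaa189d4f02b3a2.shift 2 0), (rh1de1d4a42856522c.shift 2 1), (rh4721219539d968dc.shift 0 3), (rh6991441ea091e864.shift 0 1)] (by decide +kernel))
noncomputable def rh969411e49f8d086b : CRef := CRef.mk (Pat.mk 0x20000000200000002000000000000000000000000 0x3000000030000000300000007000000070000000700000005 5 3) 0 0 (step_sound _ 65 [rh6aa5625770489e83, rh8ff3dde5b1c639e0, (rhc9ac229b3c77cd55.shift 0 1)] (by decide +kernel))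
noncomputable def rh7ec425f1aa6c37b7 : CRef := CRef.mk (Pat.mk 0x18000000080000000800000000 0x100000001c0000001f0000007c0000000c0000000c00000004 5 7) 0 0 (step_sound _ 131 [(rh215fef6ef21eb5a3.shift 0 1), (rhd9d598133124fa86.shift 2 0), (rhfc21d93c70905a0f.shift 1 1)] (by decide +kernel))
noncomputable def rhd8ac32ea620b0a8c : CRef := CRef.mk (Pat.mk 0xc000000040000000400000000 0xa0000000e0000000f0000003c0000000c0000000c00000008 5 6) 0 0 (step_sound _ 130 [(rh5ef66011045fb859.shift 2 0), (rh8065c10b3cae6218.shift 1 0), (rhfc21d93c70905a0f.shift 0 1)] (by decide +kernel))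
noncomputable def rha0210dbdf5da3566 : CRef := CRef.mk (Pat.mk 0x20000000200000002000000000000000000000000 0x400000007000000070000000300000003000000070000000700000005 5 3) 0 0 (step_sound _ 65 [rh6eff4158bb400f47, rh8ff3dde5b1c639e0, (rhb7ee8905496f843d.shift 0 1)] (by decide +kernel))
noncomputable def rha5616b101264ae7a : CRef := CRef.mk (Pat.mk 0x1800000010000000380000001c00000000 0x40000001e0000007f0000003f0000001c00000004 5 7) 0 0 (step_sound _ 66 [(rh34517e326ddb5b25.shift 0 1), (rhafa88c550ea36308.shift 1 1), rhb75a6127c555c15c] (by decide +kernel))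
noncomputable def rh47c6813448583588 : CRef := CRef.mk (Pat.mk 0x10000000080000000c0000000800000000 0x1800000018000000080000000f0000003c00000010 5 6) 0 0 (step_sound _ 131 [(rh2f68792b6b779e96.shift 3 1), rh7d06e03b2bab0cc9] (by decide +kernel))
noncomputable def rh3514aa529f8c2ec5 : CRef := CRef.mk (Pat.mk 0x10000000120000003c0000000000000000 0x100000001b000000ff0000000c00000008 5 8) 0 0 (step_sound _ 65 [(rh3244c3cc8379b070.shift 0 2), rhd29c5a073cd2af95] (by decide +kernel))
noncomputable def rha258efbfbc49950e : CRef := CRef.mk (Pat.mk 0x100000003e000000000000000000000000 0x800000008000000180000003f0000000e0000000400000004 5 6) 0 0 (step_sound _ 131 [(rh53b3c253cb0c65f4.shift 0 3), (rhcfde16a7ff36af03.shift 1 0)] (by decide +kernel))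
noncomputable def rhc00d011886fceffb : CRef := CRef.mk (Pat.mk 0x1000000038000000080000002000000000 0x10000000780000000f0000007c00000008 5 7) 0 0 (step_sound _ 66 [(rh18965a982d73c794.shift 2 2), rh8cdaaff8c3527dbc] (by decide +kernel))
noncomputable def rhed65875b8a2572b0 : CRef := CRef.mk (Pat.mk 0x80000000a0000001e0000000000000000 0x40000000c0000000e0000003e0000000700000006 5 6) 0 0 (step_sound _ 98 [rh53248f398f53927b, (rhf48373e13d2bc128.shift 1 2)] (by decide +kernel))
noncomputable def rhb4d68dd35be2850c : CRef := CRef.mk (Pat.mk 0xc00000018000000100000001000000000 0x300000001f00000038000000300000003000000020 5 6) 0 0 (step_sound _ 129 [(rh25d80fb3e0f10f48.shift 1 0), (rhb739f4f82bb681b4.shift 0 3)] (by decide +kernel))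
noncomputable def rh1df8ddb821eb7284 : CRef := CRef.mk (Pat.mk 0x3800000060000000400000004000000000 0x10000000d0000000780000007f000000cc000000c800000080 5 8) 0 0 (step_sound _ 99 [(rh7f0fa6c019c0f31a.shift 2 1), (rhf0f55c4504412200.shift 0 3), (rhf9e76ea285371ccb.shift 2 0)] (by decide +kernel))
noncomputable def rh66c56798d3509890 : CRef := CRef.mk (Pat.mk 0x60000001e000000080000000800000000 0x60000001e0000003b0000000f00000006 5 6) 0 0 (step_sound _ 65 [rhe2f37955abb105b9, (rheb0810cc63b001d8.shift 0 2)] (by decide +kernel))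
noncomputable def rh2fcbaa6025509b7f : CRef := CRef.mk (Pat.mk 0x80000001800000008000000000000000000000000 0x80000000800000008000000380000001f0000003c0000001400000004 5 6) 0 0 (step_sound _ 98 [(rh281c6819542c66e6.shift 2 0), (rh916c6ea577483915.shift 0 1), (rhbb339bb7e4e96b38.shift 2 2)] (by decide +kernel))
noncomputable def rh13b591e6d05322b1 : CRef := CRef.mk (Pat.mk 0x400000004000000040000000400000000 0x40000000400000004000000070000003e0000000a 5 6) 0 0 (step_sound _ 35 [(rh55afc6a59410cf00.shift 2 0), rhc6caea4112c2545d] (by decide +kernel))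
noncomputable def rh8c4e2d920eded84d : CRef := CRef.mk (Pat.mk 0x40000000200000002000000020000000000000000 0x60000000600000002000000070000000700000005 5 3) 0 0 (step_sound _ 33 [(rhbaefcd01e0a8bca3.shift 1 1), rhc9ac229b3c77cd55] (by decide +kernel))
noncomputable def rhb04390dfb291fab5 : CRef := CRef.mk (Pat.mk 0x400000002000000020000000200000000 0x60000000600000002000000070000000700000005 5 3) 0 0 (step_sound _ 129 [(rh2f68792b6b779e96.shift 1 1), rhed79e5c5ffee0217] (by decide +kernel))
noncomputable def rh75380d6b53574693 : CRef := CRef.mk (Pat.mk 0x80000001e00000000 0xec0000007e00000007 5 8) 0 0 (step_sound _ 1 [(rhe325f2417d8c01f2.shift 1 0), rheb0810cc63b001d8] (by decide +kernel))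
noncomputable def rhe01c65f8563dc012 : CRef := CRef.mk (Pat.mk 0x1000000038000000040000002000000000 0x100000003c0000000f0000007c00000008 5 7) 0 0 (step_sound _ 65 [(rhca9569cc80abfe76.shift 1 2), rhd65969c865f4aefb] (by decide +kernel))
noncomputable def rhea212a187e58a08e : CRef := CRef.mk (Pat.mk 0xa0000001c000000000000000000000000 0x20000000b0000003e000000070000000400000004 5 6) 0 0 (step_sound _ 97 [(rh3244c3cc8379b070.shift 0 3), rh5002fd5ca5291a69] (by decide +kernel))
noncomputable def rh3cc3e986d9471888 : CRef := CRef.mk (Pat.mk 0x1e0000000000000000 0x400000004000000070000003e0000000300000002 5 6) 0 0 (step_sound _ 33 [rhaf661323c6e1d2ba, (rheb0810cc63b001d8.shift 0 1)] (by decide +kernel))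
noncomputable def rh959bb0a81cbef3bf : CRef := CRef.mk (Pat.mk 0x20000000f000000040 0x3f000000fe00000060 5 8) 0 0 (step_sound _ 35 [(rh0392a73861bbdc19.shift 1 0), rh3b2b05f77630fe70, (rh8d15c12966694587.shift 2 0), (rhd1d05263fabc0227.shift 1 0), (rhd5eb272e07a4e288.shift 2 1)] (by decide +kernel))
noncomputable def rh49092ef4f76fd8bb : CRef := CRef.mk (Pat.mk 0x20000000200000002000000020000000000000000 0x1000000030000000300000002000000030000000700000005 5 3) 0 0 (step_sound _ 160 [rh2b2eafd4e3affdb2, (rh50fbb5868c909700.shift 0 2)] (by decide +kernel))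
noncomputable def rh5fe3facd957797a3 : CRef := CRef.mk (Pat.mk 0x400000002000000020000000200000000 0x1000000070000000700000002000000060000000600000004 5 3) 0 0 (step_sound _ 129 [(rh2f68792b6b779e96.shift 1 1), rh7eb4a07d72ad7934] (by decide +kernel))
noncomputable def rh2ebd6aa65799de38 : CRef := CRef.mk (Pat.mk 0x2000000020000000200000002 0x1000000070000000700000006000000060000000600000006 5 3) 0 0 (step_sound _ 129 [(rh44f453b84f013105.shift 1 0), rh7eb4a07d72ad7934] (by decide +kernel))
noncomputable def rh49935034cd43312a : CRef := CRef.mk (Pat.mk 0x800000003000000070000000000000004 0x6000000070000001f00000003000000070000000600000006 5 5) 0 0 (step_sound _ 129 [(rh571950d89739e871.shift 0 1), (rh981bb7d5c74da3b7.shift 0 1), rhfc56e58601063804] (by decide +kernel))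
noncomputable def rhed8710c5cd89632d : CRef := CRef.mk (Pat.mk 0x800000002000000020000000200000004 0x1000000070000001f00000002000000020000000600000004 5 5) 0 0 (step_sound _ 129 [(rhd3458b32566d63f7.shift 1 0), (rhe1e06f71f002e8e1.shift 0 1)] (by decide +kernel))
noncomputable def rhbc75685e876b5777 : CRef := CRef.mk (Pat.mk 0x8000000080000001e0000000200000004 0x50000000f0000001b0000001e0000000600000004 5 5) 0 0 (step_sound _ 97 [rh18681a89f7bcab09, (rh3244c3cc8379b070.shift 0 2)] (by decide +kernel))
noncomputable def rh7f0afbb8d76e17ed : CRef := CRef.mk (Pat.mk 0x10000000160000000c0000000000000000 0x2000000330000001e0000000f0000000400000004 5 6) 0 0 (step_sound _ 99 [(rh33e738c4ed385b9f.shift 1 3), rhf16166e16dbfa564] (by decide +kernel))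
noncomputable def rh09c41b734c54fcb2 : CRef := CRef.mk (Pat.mk 0x10000000120000000e0000000000000000 0x2000000330000001e0000000f0000000400000004 5 6) 0 0 (step_sound _ 99 [(rh53b3c253cb0c65f4.shift 0 2), rh9458e878ee940312] (by decide +kernel))
noncomputable def rhbe63ae3d994d326a : CRef := CRef.mk (Pat.mk 0xc00000018000000100000001800000000 0x300000001f00000018000000300000003800000028 5 6) 0 0 (step_sound _ 132 [rh681420f7738fc424, (rh932754581e0f4330.shift 3 0)] (by decide +kernel))
noncomputable def rhe0be4f1d805db3f3 : CRef := CRef.mk (Pat.mk 0x80000001c00000030000000200000003000000000 0x80000001c0000003c000001ef0000007c00000018 5 9) 0 0 (step_sound _ 35 [(rh4cbfd92be34a864f.shift 2 0), rh5489905650108f2e, (rha11dfd15f08f96e3.shift 2 1), (rha1c3a5e5dc6a3e7f.shift 1 1)] (by decide +kernel))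
noncomputable def rh7c65bd21b1c4f214 : CRef := CRef.mk (Pat.mk 0x40000000c00000018000000000000003800000000 0x40000000f0000001e000000070000007e000000ee 5 8) 0 0 (step_sound _ 34 [(rh06db8ceda6269a47.shift 1 0), (rh2eb0eda4d0668778.shift 1 0), (rh81340c0b40563b0c.shift 0 1)] (by decide +kernel))
noncomputable def rh68324ac1ac34f73a : CRef := CRef.mk (Pat.mk 0x80000001c000000300000002000000000 0x40000000f0000003c0000003c0000006e0000000c 5 7) 0 0 (step_sound _ 130 [(rh55d2f0b8ba14fee9.shift 1 0), (rhe2b63c00a3d7bb73.shift 0 3)] (by decide +kernel))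
noncomputable def rh23aad281f166fc15 : CRef := CRef.mk (Pat.mk 0x4000000040000000600000000 0x400000004000000040000003c0000000f0000000a 5 6) 0 0 (step_sound _ 130 [rh3038ab5f74634e6d, (rh932754581e0f4330.shift 1 0)] (by decide +kernel))
noncomputable def rh19fb8db6f2ccd76b : CRef := CRef.mk (Pat.mk 0x40000001e000000020000000400000000 0x40000001f0000003a0000000f0000000a 5 6) 0 0 (step_sound _ 68 [rha0159c89d49f7251, (rhe25b0a99195a5d59.shift 1 2)] (by decide +kernel))
noncomputable def rh3252dec0753a2506 : CRef := CRef.mk (Pat.mk 0x40000001e000000100000000400000000 0x80000000c0000001f000000180000001c0000001c 5 5) 0 0 (step_sound _ 67 [(rhb739f4f82bb681b4.shift 0 2), (rhbce449516dcad9f9.shift 2 0)] (by decide +kernel))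
noncomputable def rhc688f76a666de381 : CRef := CRef.mk (Pat.mk 0x80000000c0000000c0000000000000000 0x60000000f0000003c0000000c0000000c0000000c 5 6) 0 0 (step_sound _ 34 [rh02ed2f40fed2ffa4, (rh71222050f2c63a3a.shift 2 0)] (by decide +kernel))
noncomputable def rh9a704b530ec2e6cf : CRef := CRef.mk (Pat.mk 0x200000002000000060000001c000000000000000000000000 0x10000000300000007000000060000001f0000003b0000000200000002 5 6) 0 0 (step_sound _ 97 [(rh0405e677ca7cdf6b.shift 0 2), rh544fd3f279a4d968] (by decide +kernel))
noncomputable def rhc0cac396dc5b96b1 : CRef := CRef.mk (Pat.mk 0x4000000000000000e0000000c00000018 0x600000006000000030000003e0000000f00000018 5 6) 0 0 (step_sound _ 33 [(rh32ba05270f5883a6.shift 0 1), rhb739f4f82bb681b4] (by decide +kernel))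
noncomputable def rh3135b2e4c9ad5c0e : CRef := CRef.mk (Pat.mk 0x80000001800000018000000700000000000000000 0x40000000f0000007c00000018000000780000000c00000008 5 7) 0 0 (step_sound _ 67 [(rh9c40a739b57d6d20.shift 2 0), (rhca405e350c462817.shift 0 2)] (by decide +kernel))
noncomputable def rhc3ccabafbe0ee2b4 : CRef := CRef.mk (Pat.mk 0x1c000000080000000000000004 0x30000003f0000003f0000000400000004 5 6) 0 0 (step_sound _ 97 [(rha03f6e28ea70fc7d.shift 0 2), rhecdb65fc71a72afc] (by decide +kernel))
noncomputable def rh2631c0188d831221 : CRef := CRef.mk (Pat.mk 0x800000008000000100000001000000000 0x80000000800000008000000380000001f00000014 5 6) 0 0 (step_sound _ 67 [(rh2145e1d24b96a57e.shift 3 1), rha5ad71a109986e64] (by decide +kernel))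
noncomputable def rhd3c9f680c49e757e : CRef := CRef.mk (Pat.mk 0x100000000800000008000000080000001000000000 0x1800000018000000080000000f0000003c00000004 5 6) 0 0 (step_sound _ 35 [rh01b78e5ef59799ae, (rhbaefcd01e0a8bca3.shift 3 1)] (by decide +kernel))
noncomputable def rh27bfd89fd234c9c4 : CRef := CRef.mk (Pat.mk 0x18000000080000000800000008000000080000000000000000 0x1c0000000f0000000c000000080000000c0000000c00000004 5 5) 0 0 (step_sound _ 162 [(rh50fbb5868c909700.shift 2 2), rh51dfa0f56ec8a632] (by decide +kernel))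
noncomputable def rh3f7fa8cb850fe088 : CRef := CRef.mk (Pat.mk 0x20000000e00000000 0x3b0000001f00000038 5 6) 0 0 (step_sound _ 36 [(rh3244c3cc8379b070.shift 0 1), rh3e1b7b343686dca1] (by decide +kernel))
noncomputable def rh5ada0a7e0c8eff0d : CRef := CRef.mk (Pat.mk 0x100000007800000020 0x1c0000007f0000003e 5 7) 0 0 (step_sound _ 67 [rh0fdd92e34c44548d, (rh3244c3cc8379b070.shift 2 1)] (by decide +kernel))
noncomputable def rh68509164aae00666 : CRef := CRef.mk (Pat.mk 0x2000000030000000600000001000000000000000000000000 0x3000000070000000600000003000000070000000600000004 5 3) 0 0 (step_sound _ 97 [rh39b036797fb07457, (rh932754581e0f4330.shift 0 2)] (by decide +kernel))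
noncomputable def rh0e478042bf4bbbb1 : CRef := CRef.mk (Pat.mk 0x800000004000000040000001e00000000 0x80000003c0000001f0000001e00000030 5 6) 0 0 (step_sound _ 65 [(rh3244c3cc8379b070.shift 0 1), (rhe6a50c2511a99ca0.shift 1 0)] (by decide +kernel))
noncomputable def rhbc111491aa877c51 : CRef := CRef.mk (Pat.mk 0xc00000004000000040000003800000000 0x100000003c0000000f0000000c0000007800000010 5 7) 0 0 (step_sound _ 67 [rh989d47d0e3b00ee1, (rhf48373e13d2bc128.shift 2 1)] (by decide +kernel))
noncomputable def rhddaa98093597d473 : CRef := CRef.mk (Pat.mk 0x180000001c0000000800000010 0x180000003f0000003f00000030 5 6) 0 0 (step_sound _ 65 [(rh53b3c253cb0c65f4.shift 0 2), rhdce23fde707f1370] (by decide +kernel))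
noncomputable def rha5ffc31a3c3dcbac : CRef := CRef.mk (Pat.mk 0xc0000000e000000040000000c00000000 0x100000003c0000000e0000000f0000003c00000010 5 6) 0 0 (step_sound _ 132 [rh0b48232756d2831b, (rh18965a982d73c794.shift 1 3)] (by decide +kernel))
noncomputable def rh70a569f7bd376361 : CRef := CRef.mk (Pat.mk 0xc0000001800000008000000080000000000000000 0xf00000018000000080000001c0000001c00000014 5 5) 0 0 (step_sound _ 161 [(rh8cdd36b03d57a2f6.shift 2 0), (rhb739f4f82bb681b4.shift 0 4)] (by decide +kernel))
noncomputable def rh557d41e925db6ac0 : CRef := CRef.mk (Pat.mk 0x800000018000000080000000400000000 0x40000001f00000038000000080000000c0000000c 5 6) 0 0 (step_sound _ 35 [rh0e11b01577dd0eba, (rh932754581e0f4330.shift 2 0)] (by decide +kernel))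
noncomputable def rh27af35d8bd6c882b : CRef := CRef.mk (Pat.mk 0x200000002000000060000000200000000000000000000000000000000 0x200000002000000060000000600000007000000070000000700000004 5 3) 0 0 (step_sound _ 97 [rh218cd2e070c414fb, (rh8cdd36b03d57a2f6.shift 0 1), (rh96f119fce01cb5f6.shift 0 1), (rhd29a1fb688eae70f.shift 1 2)] (by decide +kernel))
noncomputable def rh9276edaf8e76eb1a : CRef := CRef.mk (Pat.mk 0x80000000c000000180000000000000000 0x40000000c0000000c0000007c0000000f0000000c 5 7) 0 0 (step_sound _ 69 [rh9780d53f0790be85, (rhf48373e13d2bc128.shift 2 2)] (by decide +kernel))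
noncomputable def rha71d30baa8ae8d0b : CRef := CRef.mk (Pat.mk 0xc0000000c000000180000001c 0x700000007c0000001c000000180000001f 5 7) 0 0 (step_sound _ 1 [rh53b3c253cb0c65f4, (rhc26a734abad09058.shift 2 0)] (by decide +kernel))
noncomputable def rhdc800af7f65a6589 : CRef := CRef.mk (Pat.mk 0x60000000c0000001c000000080000000000000000 0xe0000003c0000001f000000380000001000000010 5 6) 0 0 (step_sound _ 132 [rh8d09613a0e903d5f, (rhf48373e13d2bc128.shift 1 4)] (by decide +kernel))
noncomputable def rhd5b70192ad58fad4 : CRef := CRef.mk (Pat.mk 0x60000000e000000040000000000000000 0x4000000060000003f0000003c0000000800000008 5 6) 0 0 (step_sound _ 100 [(rhf48373e13d2bc128.shift 1 3), rhf93e7885282cbc00] (by decide +kernel))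
noncomputable def rh2ab6e16b718ee7b1 : CRef := CRef.mk (Pat.mk 0x80000001e000000180000000000000000 0x380000001e0000001f0000003000000030 5 6) 0 0 (step_sound _ 132 [(rh33e738c4ed385b9f.shift 1 3), rhee2f2527188aceae] (by decide +kernel))
noncomputable def rh7419e4ee892f05aa : CRef := CRef.mk (Pat.mk 0x80000001e000000080000000000000000 0x80000003e0000003f0000003000000010 5 6) 0 0 (step_sound _ 68 [rh1e1fdd334f5b3198, (rhe25b0a99195a5d59.shift 1 2)] (by decide +kernel))
noncomputable def rh67664dc1adb49e16 : CRef := CRef.mk (Pat.mk 0xf00000004 0x380000007f0000001e 5 7) 0 0 (step_sound _ 3 [rh70f75251a6f67951, rhe25b0a99195a5d59] (by decide +kernel))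
noncomputable def rha9fde356a67a3a66 : CRef := CRef.mk (Pat.mk 0x1800000008000000180000001800000000 0x240000003f00000038000000180000001800000008 5 6) 0 0 (step_sound _ 100 [(rh71222050f2c63a3a.shift 3 0), (rhda0c8f9f6c183d35.shift 0 1)] (by decide +kernel))
noncomputable def rh4a16ff1229c9cc4b : CRef := CRef.mk (Pat.mk 0x1800000008000000000000000800000000 0x140000003c0000000f000000080000000800000008 5 6) 0 0 (step_sound _ 67 [(rh2f68792b6b779e96.shift 3 1), rh9aab2e37f490e5ca] (by decide +kernel))
noncomputable def rheb92db832079ac16 : CRef := CRef.mk (Pat.mk 0x1000000010000000200000003000000000 0x1000000010000001f00000007e0000001f 5 9) 0 0 (step_sound _ 35 [rh0d9382e6088855bc, (rh7be2e9ae184a873f.shift 1 0), (rha11dfd15f08f96e3.shift 2 1)] (by decide +kernel))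
noncomputable def rh3841bb077e0d0707 : CRef := CRef.mk (Pat.mk 0x1c00000008000000180000001c00000000 0x3c0000000f0000001c0000001f00000003 5 6) 0 0 (step_sound _ 33 [(rh53b3c253cb0c65f4.shift 0 1), rhe83a8acacb6a8086] (by decide +kernel))
noncomputable def rh8f8c74c7c3042f85 : CRef := CRef.mk (Pat.mk 0x1c000000080000001800000010 0x600000007c0000003f0000007c00000010 5 7) 0 0 (step_sound _ 66 [(rh2612b4f73ba7c3b3.shift 1 2), (rh4e710789d6c1b3ad.shift 2 0), (rhca7b1c75b4cec277.shift 0 1)] (by decide +kernel))
noncomputable def rh0223c30570197e73 : CRef := CRef.mk (Pat.mk 0x1000000000000000180000001c00000000 0x10000000100000001c000000ff00000063 5 8) 0 0 (step_sound _ 33 [(rh53b3c253cb0c65f4.shift 0 1), rhd62231af2e1e0e13] (by decide +kernel))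
noncomputable def rh46b74d29166188d5 : CRef := CRef.mk (Pat.mk 0x8000000080000001000000018000000000000000000000000 0x40000000c0000001c000000380000001f0000000c0000000800000008 5 6) 0 0 (step_sound _ 131 [(rh544fd3f279a4d968.shift 2 0), (rh6fae963f33cfdfd7.shift 0 2)] (by decide +kernel))
noncomputable def rhe2659a108a30dabb : CRef := CRef.mk (Pat.mk 0x100000003000000060000000300000000 0x200000006000000060000000700000007000000060000000300000001 5 3) 0 0 (step_sound _ 129 [(rh58c63edee24a7e9f.shift 0 1), rh932754581e0f4330] (by decide +kernel))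
noncomputable def rh9800e035b90bac61 : CRef := CRef.mk (Pat.mk 0x400000004000000180000001e00000000 0xc0000000f0000001a0000003e00000007 5 6) 0 0 (step_sound _ 1 [rh1898c667018346ba, rheb0810cc63b001d8] (by decide +kernel))
noncomputable def rhf15bbd01e2e97654 : CRef := CRef.mk (Pat.mk 0x6000000070000000400000000 0xc0000000c0000000c000000060000000f0000003c00000008 5 6) 0 0 (step_sound _ 130 [(rh0ff7ca71cb891e23.shift 1 0), (rh5fa50b509d4ce753.shift 1 1), rh8ddd0cd6053db815] (by decide +kernel))
noncomputable def rh0f255ecf2b1f20fb : CRef := CRef.mk (Pat.mk 0x1c00000008000000180000000c 0x3f0000003f000000780000000c 5 7) 0 0 (step_sound _ 37 [(rh18965a982d73c794.shift 2 0), (rhd14dfb9528fb66b6.shift 0 1)] (by decide +kernel))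
noncomputable def rhe406449be4e3f09c : CRef := CRef.mk (Pat.mk 0x80000000c0000001800000008 0x100000007c0000000f0000007800000008 5 7) 0 0 (step_sound _ 37 [rh0f88566f1a09c677, (rhf48373e13d2bc128.shift 2 1)] (by decide +kernel))
noncomputable def rh94222be17ee6fd2a : CRef := CRef.mk (Pat.mk 0x40000000200000002000000060000000200000000 0x100000007000000070000000200000006000000060000000300000001 5 3) 0 0 (step_sound _ 161 [(rh2f68792b6b779e96.shift 1 2), rh57558646de9ad691] (by decide +kernel))
noncomputable def rh846bef0b163d540e : CRef := CRef.mk (Pat.mk 0x2000000020000000200000002000000020000000200000000 0x40000000600000006000000030000000300000003000000020000000300000001 5 3) 0 0 (step_sound _ 32 [(rh8c2882964e1b5136.shift 0 1), rh932754581e0f4330] (by decide +kernel))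
noncomputable def rh5a26a7d31d0f2e10 : CRef := CRef.mk (Pat.mk 0x2000000020000000600000002 0x4000000070000000700000003000000060000000600000002 5 3) 0 0 (step_sound _ 128 [(rh3d1a1891ecf5a845.shift 0 1), rhffd04209dc8ea796] (by decide +kernel))
noncomputable def rh9645a34a5442dfa8 : CRef := CRef.mk (Pat.mk 0x800000000000000180000001c 0xc0000000c000000060000007f0000003c 5 7) 0 0 (step_sound _ 37 [(rh18965a982d73c794.shift 2 0), rh1c1cd3fa6bcfc42f] (by decide +kernel))
noncomputable def rh0b3eebefddfe07c0 : CRef := CRef.mk (Pat.mk 0xe0000000600000008 0x10000000300000003f0000003e00000008 5 6) 0 0 (step_sound _ 68 [(rh18965a982d73c794.shift 1 1), rh526e6814811cd4c0] (by decide +kernel))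
noncomputable def rhbc3992687ed59c59 : CRef := CRef.mk (Pat.mk 0x1a0000001e00000000 0x200000002000000330000001e0000003e00000004 5 6) 0 0 (step_sound _ 66 [rh0708313d48b1246a, (rhf48373e13d2bc128.shift 1 1)] (by decide +kernel))
noncomputable def rh6b5aec4ab634b713 : CRef := CRef.mk (Pat.mk 0x400000007000000018 0xe70000007f00000018 5 8) 0 0 (step_sound _ 35 [(rh33e738c4ed385b9f.shift 3 1), rhd20ed55e5abec856] (by decide +kernel))
noncomputable def rhb9a7687581ae7927 : CRef := CRef.mk (Pat.mk 0x1f00000001 0x200000002000000070000003f00000071 5 7) 0 0 (step_sound _ 65 [(rh3244c3cc8379b070.shift 0 1), rhbf1ca1c2b97d1880] (by decide +kernel))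
noncomputable def rhcd220dc001675187 : CRef := CRef.mk (Pat.mk 0xc0000000c00000004 0xe0000000e0000000f0000003c0000000c00000004 5 6) 0 0 (step_sound _ 98 [(rh7b9fbdf6d2d059e4.shift 1 0), (rhc45960fcf2a66b44.shift 2 0), rhfc21d93c70905a0f] (by decide +kernel))
noncomputable def rhea8f44afe772c0cb : CRef := CRef.mk (Pat.mk 0x180000001e00000004 0xa0000000f0000001f0000001e00000004 5 5) 0 0 (step_sound _ 99 [(rh5c5e593799055d58.shift 2 0), rhfcbe31f2f547bfce] (by decide +kernel))
noncomputable def rh99a355928abc12af : CRef := CRef.mk (Pat.mk 0x80000000c0000000c00000008 0x10000000380000003f0000000f00000008 5 6) 0 0 (step_sound _ 100 [(rh2f68792b6b779e96.shift 3 0), (rh8e2b6b84531232e1.shift 0 1)] (by decide +kernel))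
noncomputable def rh7d406dfb399e7c7d : CRef := CRef.mk (Pat.mk 0x200000002000000020000000200000000 0x1000000070000000700000002000000030000000300000001 5 3) 0 0 (step_sound _ 130 [(rh2f68792b6b779e96.shift 1 1), rh771d065bdc85bf2d] (by decide +kernel))
noncomputable def rhdc1378f5122f5552 : CRef := CRef.mk (Pat.mk 0x180000000e000000180000001000000000 0x30000000300000001f0000001e0000001f0000003000000020 5 6) 0 0 (step_sound _ 100 [(rha2b37da49d51aaf0.shift 0 2), rhc1307820daa2ac22] (by decide +kernel))
noncomputable def rhcd4980329843336b : CRef := CRef.mk (Pat.mk 0x100000001c0000001c0000000000000000 0xc0000000e0000001f0000001c0000001c0000000c0000000c 5 5) 0 0 (step_sound _ 131 [rh0536a368a53098a7, (rh37d9ceebb86d75d1.shift 2 1), (rhdc05bc776a8e6c4f.shift 2 0)] (by decide +kernel))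
noncomputable def rhfbd6aff7a01bed1e : CRef := CRef.mk (Pat.mk 0x600000003000000060000000400000000 0x40000000c0000001e000000070000000e0000000c00000008 5 5) 0 0 (step_sound _ 131 [(rh18965a982d73c794.shift 0 3), (rhcf776dd332f9ac5f.shift 1 0)] (by decide +kernel))
noncomputable def rh84046fddae920dfa : CRef := CRef.mk (Pat.mk 0x6000000060000000c0000000800000000 0x20000000200000006000000060000001f0000007b00000003 5 7) 0 0 (step_sound _ 161 [(rh2145e1d24b96a57e.shift 1 2), rh34044f80bdcffcde] (by decide +kernel))
noncomputable def rh6e4c14e66f816e72 : CRef := CRef.mk (Pat.mk 0x1000000018000000380000000800000000 0x40000001f00000038000000780000000c00000004 5 7) 0 0 (step_sound _ 34 [rh0c4eed3690c35d61, (rh18965a982d73c794.shift 2 1)] (by decide +kernel))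
noncomputable def rhe584c2ad359a38e7 : CRef := CRef.mk (Pat.mk 0x40000001c0000000e000000000000000000000000 0x40000000c0000001c0000001e000000330000001000000010 5 6) 0 0 (step_sound _ 65 [(rh5c5e593799055d58.shift 1 2), rhe05bce87d24a7876] (by decide +kernel))
noncomputable def rh7e514c3600ad2199 : CRef := CRef.mk (Pat.mk 0x40000000e000000180000000c00000000 0xc0000000e0000001b0000001f00000032 5 6) 0 0 (step_sound _ 33 [(rh53b3c253cb0c65f4.shift 0 1), rhcc8198f8a00b5b19] (by decide +kernel))
noncomputable def rhaae05c7816f1d0df : CRef := CRef.mk (Pat.mk 0x40000001e0000001a0000000800000000 0x30000000300000003000000070000001e0000001e0000000f00000004 5 5) 0 0 (step_sound _ 129 [rh03d4b7005afa1e41, (rh3244c3cc8379b070.shift 0 3)] (by decide +kernel))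
noncomputable def rhd9c72d55426e05d2 : CRef := CRef.mk (Pat.mk 0x700000006000000040000000800000000 0x10000000700000006000000070000003e00000006 5 6) 0 0 (step_sound _ 34 [(rh7b1f1fb55310c477.shift 1 0), rha2b6db360c8d5d92] (by decide +kernel))
noncomputable def rh58dae71c22989038 : CRef := CRef.mk (Pat.mk 0xe0000000c000000180000001000000000 0x4000000060000000e0000000f0000001e0000003600000004 5 6) 0 0 (step_sound _ 97 [(rhb739f4f82bb681b4.shift 0 2), (rhfe7d23118bf974e9.shift 1 0)] (by decide +kernel))
noncomputable def rhb863bf800b996e95 : CRef := CRef.mk (Pat.mk 0xc0000000c000000100000001800000000 0xc0000000c0000001c0000001f0000000f 5 5) 0 0 (step_sound _ 67 [(rh7b1f1fb55310c477.shift 2 0), rhb1c06754cc0d7506] (by decide +kernel))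
noncomputable def rh7fc2ca31ab1dedc5 : CRef := CRef.mk (Pat.mk 0x60000000e000000000000000400000000 0x20000000200000002000000060000001f000000030000000700000006 5 5) 0 0 (step_sound _ 65 [(rh9234ba556f58c924.shift 0 1), (rh9b4df57cddcda711.shift 1 0)] (by decide +kernel))
noncomputable def rh0336244a75da9784 : CRef := CRef.mk (Pat.mk 0x200000002000000060000001c000000000000000000000000 0x10000000300000007000000060000001f0000003b0000000200000002 5 6) 0 0 (step_sound _ 97 [(rh0405e677ca7cdf6b.shift 0 2), rh544fd3f279a4d968, (rha37779f9238271b6.shift 0 2)] (by decide +kernel))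
noncomputable def rhfff68f449842295c : CRef := CRef.mk (Pat.mk 0x80000000e0000000c00000004 0x6000000060000007f0000007e0000000c00000004 5 7) 0 0 (step_sound _ 101 [(rh4c79790af7d4caa0.shift 1 0), (rh5acb6dc3b47c700e.shift 1 2), rhe6c144e024842bf9] (by decide +kernel))
noncomputable def rh6be8a961d193fbf5 : CRef := CRef.mk (Pat.mk 0x380000001800000010 0x280000006f0000003f0000007800000010 5 7) 0 0 (step_sound _ 99 [(rh2145e1d24b96a57e.shift 3 0), rhae750f8814be4d2e] (by decide +kernel))
noncomputable def rh328e394105afadd4 : CRef := CRef.mk (Pat.mk 0x4000000040000000e000000080000000800000000 0x4000000060000000f0000007a0000001f00000002 5 7) 0 0 (step_sound _ 68 [rh26aa86d41d42ba83, (rhb739f4f82bb681b4.shift 0 2)] (by decide +kernel))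
noncomputable def rh6736831d1a9078ea : CRef := CRef.mk (Pat.mk 0x4000000040000000e000000080000000800000000 0x14000000370000001e0000003b0000000a00000002 5 6) 0 0 (step_sound _ 65 [(rh0a0d555fa8352b31.shift 0 1), (rh89536becce4a9eeb.shift 0 1), (rhf9af042da61fc652.shift 1 0)] (by decide +kernel))
noncomputable def rh183301d585dd8dd1 : CRef := CRef.mk (Pat.mk 0x100000001a000000180000000000000000 0xc0000000c0000001f0000001b0000001c0000000c0000000c 5 5) 0 0 (step_sound _ 35 [rh4a1530c041f70a1a, (rh71222050f2c63a3a.shift 3 0)] (by decide +kernel))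
noncomputable def rh6b8552451498ff61 : CRef := CRef.mk (Pat.mk 0x4000000060000000e0000000000000000 0x20000000200000006000000060000001f0000000300000003 5 5) 0 0 (step_sound _ 33 [(rh71222050f2c63a3a.shift 1 0), rh9234ba556f58c924] (by decide +kernel))
noncomputable def rh2f329559737b6cd2 : CRef := CRef.mk (Pat.mk 0x18000000100000003800000018 0x40000001e000000760000003f0000001f 5 7) 0 0 (step_sound _ 34 [rh34517e326ddb5b25, rh583cd2949503eb8f, (rhe27eb8489a333d1c.shift 1 0)] (by decide +kernel))
noncomputable def rh18f71110fd66cd29 : CRef := CRef.mk (Pat.mk 0x100000003800000018 0xf7000000ff00000018 5 8) 0 0 (step_sound _ 38 [rh1651402d90487fa5, (rh18965a982d73c794.shift 3 0)] (by decide +kernel))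
noncomputable def rh9b8b2918e4c8a4da : CRef := CRef.mk (Pat.mk 0x1c00000008 0x700000003f0000003f 5 7) 0 0 (step_sound _ 33 [rh3b00e9e9432b8f40, rha03f6e28ea70fc7d] (by decide +kernel))
noncomputable def rh726dbdd182d3e691 : CRef := CRef.mk (Pat.mk 0x40000001e0000000a0000000800000000 0x70000001e0000003a0000000f00000006 5 6) 0 0 (step_sound _ 129 [(rh3244c3cc8379b070.shift 0 3), rhe2f37955abb105b9] (by decide +kernel))
noncomputable def rh1fd70e1507a39f6f : CRef := CRef.mk (Pat.mk 0x8000000080000000a0000003c00000000 0x1000000018000000180000003b0000003e00000060 5 7) 0 0 (step_sound _ 33 [(rh3244c3cc8379b070.shift 0 1), (rh4e60d4c3aeff81e1.shift 1 0)] (by decide +kernel))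
noncomputable def rh5edc55d6ea431a8e : CRef := CRef.mk (Pat.mk 0x40000003e000000000000000000000000 0x80000001c0000007f000000300000001000000010 5 7) 0 0 (step_sound _ 131 [rhd70d90db6d15fdc0, (rhf48373e13d2bc128.shift 2 3)] (by decide +kernel))
noncomputable def rh9d05b7f9205bcf15 : CRef := CRef.mk (Pat.mk 0x80000000c000000180000000000000000 0x140000007c0000001f000000180000000800000008 5 7) 0 0 (step_sound _ 97 [(rh96fdf5abc2ee6e9c.shift 1 0), (rhb739f4f82bb681b4.shift 0 2)] (by decide +kernel))
noncomputable def rhc3f9d744f24a7949 : CRef := CRef.mk (Pat.mk 0x2000000030000000e00000006 0x1d0000001f0000000b0000000e00000006 5 5) 0 0 (step_sound _ 98 [(rh2f68792b6b779e96.shift 1 0), rh9fa8eab779ad2d83] (by decide +kernel))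
noncomputable def rhb09a607b3b7cc594 : CRef := CRef.mk (Pat.mk 0x1c00000008000000180000001c00000000 0x1c0000000f0000001e0000001f00000003 5 5) 0 0 (step_sound _ 33 [rh161143b6520a7b7e, (rh53b3c253cb0c65f4.shift 0 1)] (by decide +kernel))
noncomputable def rh2d34244505ff44c2 : CRef := CRef.mk (Pat.mk 0x2000000020000000600000006000000000000000000000000 0x100000003000000070000000600000007000000030000000200000002 5 3) 0 0 (step_sound _ 96 [rh544fd3f279a4d968, (rh932754581e0f4330.shift 0 2)] (by decide +kernel))
noncomputable def rh9f583f911946c071 : CRef := CRef.mk (Pat.mk 0x1800000008000000180000001800000000 0x40000001f00000038000000180000003800000028 5 6) 0 0 (step_sound _ 100 [(rh71222050f2c63a3a.shift 3 0), rh9dc1d00b1c4e6b88] (by decide +kernel))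
noncomputable def rhc7211169a1e41db2 : CRef := CRef.mk (Pat.mk 0x4000000060000000c0000000000000000 0x200000006000000060000003c0000000f0000000e 5 6) 0 0 (step_sound _ 68 [rh23a4711996e50144, (rhf48373e13d2bc128.shift 1 2)] (by decide +kernel))
noncomputable def rh67da111513bd6e2f : CRef := CRef.mk (Pat.mk 0x80000000e000000180000000800000000 0x40000000c0000000e0000001e0000000f00000006 5 5) 0 0 (step_sound _ 130 [rh3123287b48aef0cd, (rh50fbb5868c909700.shift 2 1)] (by decide +kernel))
noncomputable def rha4ba23efef0405d5 : CRef := CRef.mk (Pat.mk 0x80000000a0000001e000000000000000000000000 0xe0000000e0000001e000000070000000600000006 5 5) 0 0 (step_sound _ 65 [(rh537197e4c01c3f13.shift 1 0), (rheb0810cc63b001d8.shift 0 2)] (by decide +kernel))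
noncomputable def rh5c898a0d7a5526d5 : CRef := CRef.mk (Pat.mk 0x80000001c000000140000001000000000 0x80000003c000000370000003e00000004 5 6) 0 0 (step_sound _ 65 [(rh18965a982d73c794.shift 1 2), rh67e976432590e65c] (by decide +kernel))
noncomputable def rh32fb630cb4fb066a : CRef := CRef.mk (Pat.mk 0x80000000c00000018000000000000001000000000 0x140000003c0000000f000000180000000c0000001c00000014 5 6) 0 0 (step_sound _ 129 [(rh7d1db414ed52f56b.shift 1 0), (rhb739f4f82bb681b4.shift 0 3)] (by decide +kernel))
noncomputable def rh629c124f5a821e23 : CRef := CRef.mk (Pat.mk 0x80000000c00000018000000000000001000000000 0xc0000000c0000007c0000000f0000001c00000010 5 7) 0 0 (step_sound _ 101 [rhd165b2ef874d102a, (rhf48373e13d2bc128.shift 2 3)] (by decide +kernel))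
noncomputable def rhceb8d7b6a40cb4b4 : CRef := CRef.mk (Pat.mk 0x80000000e0000000c0000000000000000 0x6000000060000000f0000003e0000000e0000000600000006 5 6) 0 0 (step_sound _ 34 [rh6a19f84a22682e9e, (rh71222050f2c63a3a.shift 2 0)] (by decide +kernel))
noncomputable def rhe0534fb32423ae3f : CRef := CRef.mk (Pat.mk 0x80000003c00000040 0x38000000fe000000c7 5 8) 0 0 (step_sound _ 38 [rh8f35f3c2fc8b4aaf, (rhe25b0a99195a5d59.shift 3 0)] (by decide +kernel))
noncomputable def rh48692731947e6e3f : CRef := CRef.mk (Pat.mk 0x80000001c00000000 0xe0000007e00000077 5 7) 0 0 (step_sound _ 37 [rh185f35b8bd8ec37f, (rhe3060b190bc0bc78.shift 1 1)] (by decide +kernel))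
noncomputable def rh2a861863c2709f06 : CRef := CRef.mk (Pat.mk 0x20000001f000000000000000000000000 0x400000004000000060000003f0000001c0000000800000008 5 6) 0 0 (step_sound _ 130 [rh84970c2ccb9fe470, (rhf48373e13d2bc128.shift 1 3)] (by decide +kernel))
noncomputable def rh2c7427946ab194c2 : CRef := CRef.mk (Pat.mk 0x4000000050000000f000000090000000000000000 0x7000000070000000f0000000b0000000b0000000b 5 4) 0 0 (step_sound _ 35 [rh537197e4c01c3f13, (rh7b1f1fb55310c477.shift 2 0)] (by decide +kernel))
noncomputable def rhecdaf4bb7e11f24c : CRef := CRef.mk (Pat.mk 0x80000000a0000001e0000000200000000 0x60000000f0000003e0000001e0000000600000006 5 6) 0 0 (step_sound _ 100 [(rh33e738c4ed385b9f.shift 1 2), rhf299512781b6ae70] (by decide +kernel))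
noncomputable def rh5f27e0477c371a96 : CRef := CRef.mk (Pat.mk 0x80000001e000000000000000000000000 0x20000000b0000003e000000070000000400000004 5 6) 0 0 (step_sound _ 65 [rh97008031ef76f114, (rheb0810cc63b001d8.shift 0 2)] (by decide +kernel))
noncomputable def rh38e9922c96fa6175 : CRef := CRef.mk (Pat.mk 0x4000000040000000e000000000000000000000000 0x40000000f0000003f000000380000000800000008 5 6) 0 0 (step_sound _ 100 [rhaa5997f027e3866e, (rhe3060b190bc0bc78.shift 0 3)] (by decide +kernel))
noncomputable def rhceaf33131d61cecd : CRef := CRef.mk (Pat.mk 0x80000001a000000380000002000000000 0x140000001f0000001b000000380000002800000008 5 6) 0 0 (step_sound _ 132 [rh025f5a8d72a8b681, (rh2145e1d24b96a57e.shift 4 1)] (by decide +kernel))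
noncomputable def rh6e0ff23ebf0ef8f4 : CRef := CRef.mk (Pat.mk 0x2000000060000000e0000000800000000 0x30000000700000007000000060000000e0000000a00000002 5 4) 0 0 (step_sound _ 130 [(rh2145e1d24b96a57e.shift 2 1), rh87961b2a8ca8a677] (by decide +kernel))
noncomputable def rh6331e1faa6ebb026 : CRef := CRef.mk (Pat.mk 0x1800000018000000100000001000000000 0x140000001f00000038000000180000001800000008 5 6) 0 0 (step_sound _ 35 [(rh932754581e0f4330.shift 3 0), (rhe7227718734b1403.shift 0 1)] (by decide +kernel))
noncomputable def rha941385f4fce5d16 : CRef := CRef.mk (Pat.mk 0x40000001e000000040000000000000000 0x40000001f0000003f0000000300000002 5 6) 0 0 (step_sound _ 65 [rh4c11c491f4d8ec0e, (rheb0810cc63b001d8.shift 0 2)] (by decide +kernel))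
noncomputable def rhe80c850bd7e79dfb : CRef := CRef.mk (Pat.mk 0x600000007000000000000000000000000 0x40000003e0000003f000000380000000800000008 5 6) 0 0 (step_sound _ 99 [(rh07e006e2762b0d4d.shift 0 3), (rh0cb6a409506b34ea.shift 0 2), rh4569bd9aa4440d20] (by decide +kernel))
noncomputable def rh4973760bacc2d1f7 : CRef := CRef.mk (Pat.mk 0x8000000180000001c000000100000000000000000 0x40000001f0000007c0000001c000000180000000800000008 5 7) 0 0 (step_sound _ 133 [(rh18965a982d73c794.shift 2 3), rhd79aae4f90e4b941] (by decide +kernel))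
noncomputable def rh92be62a46292e5c5 : CRef := CRef.mk (Pat.mk 0x180000000e0000000c00000000 0x6000000070000003e0000000e0000000c00000004 5 6) 0 0 (step_sound _ 98 [(rh18965a982d73c794.shift 1 2), rhb0e448014f358ce7] (by decide +kernel))
noncomputable def rh96fc3f590db2e358 : CRef := CRef.mk (Pat.mk 0x100000000e0000001c0000001000000000 0x170000007e0000001c000000f800000028 5 8) 0 0 (step_sound _ 37 [rh37d805b0b1f4c94c, (rh89ade209b3e28f13.shift 2 1), (rhab1b16f636fc134c.shift 2 0)] (by decide +kernel))
noncomputable def rh804daaa44c2bbd47 : CRef := CRef.mk (Pat.mk 0xc0000000c0000001c0000001800000000 0x20000000f0000003c0000001c0000007f00000002 5 7) 0 0 (step_sound _ 37 [rh78e6f99721df6e07, (rhf48373e13d2bc128.shift 2 1)] (by decide +kernel))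
noncomputable def rh6e3a304ff77dcbb5 : CRef := CRef.mk (Pat.mk 0x3000000070000000600000002 0x8000000080000001c0000001f0000000f0000000600000002 5 5) 0 0 (step_sound _ 98 [(rh1090e459624ad3a7.shift 0 1), (rh2f68792b6b779e96.shift 1 0)] (by decide +kernel))
noncomputable def rhc2352609220477ac : CRef := CRef.mk (Pat.mk 0xc0000000c000000080000000c00000000 0x80000000c0000000c0000000f0000003e00000012 5 6) 0 0 (step_sound _ 66 [(rh2f68792b6b779e96.shift 2 1), rhee75ba28fdfc5ad6] (by decide +kernel))
noncomputable def rh1696c55e2becd961 : CRef := CRef.mk (Pat.mk 0x8000000000000003800000018 0xc0000000c000000070000003f0000001f 5 6) 0 0 (step_sound _ 34 [rh583cd2949503eb8f, (rh6541a4f97927d27d.shift 1 0), rhba89ab7cb81bcc90] (by decide +kernel))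
noncomputable def rhdc3d04ee1ef79574 : CRef := CRef.mk (Pat.mk 0x6000000060000000c0000000c 0x180000003f0000003e0000000c0000000c 5 6) 0 0 (step_sound _ 99 [(rh2f68792b6b779e96.shift 2 0), rh3606be05a90e09ee] (by decide +kernel))
noncomputable def rh5fac7fe242dc9aac : CRef := CRef.mk (Pat.mk 0x40000000c0000000c0000001000000010 0x22000000270000007f0000007c0000003400000014 5 7) 0 0 (step_sound _ 68 [(rh79b3c29022acbdf3.shift 1 2), (rh9ccadb59a87772f4.shift 2 0), rhfc74dae190a15da9] (by decide +kernel))
noncomputable def rhde100c112ae876ff : CRef := CRef.mk (Pat.mk 0x80000000c0000001c0000000000000000 0x6000000060000000e0000000c0000001c0000000f0000000e 5 5) 0 0 (step_sound _ 34 [rh1cd1069c4c07b2a9, (rh71222050f2c63a3a.shift 2 0)] (by decide +kernel))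
noncomputable def rh04aa474d63f24212 : CRef := CRef.mk (Pat.mk 0x8000000080000000c0000000c00000000 0x40000000c0000000c0000003c0000000f0000000a 5 6) 0 0 (step_sound _ 130 [(rh50fbb5868c909700.shift 2 1), rha7ab19b0c62ea737] (by decide +kernel))
noncomputable def rh4f8d76b7513400f6 : CRef := CRef.mk (Pat.mk 0xc0000000c000000380000000000000000 0x40000000c0000000c0000003c0000003f0000000600000004 5 6) 0 0 (step_sound _ 162 [(rh2145e1d24b96a57e.shift 2 2), rhf167d7768e6971d1] (by decide +kernel))
noncomputable def rh926908da0d1436f4 : CRef := CRef.mk (Pat.mk 0x80000000c0000003c0000000000000000 0x80000003c0000003f0000007400000004 5 7) 0 0 (step_sound _ 34 [(rh71222050f2c63a3a.shift 2 0), (rh8553864a7729a62a.shift 0 1)] (by decide +kernel))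
noncomputable def rha6f155f6763370b1 : CRef := CRef.mk (Pat.mk 0x60000001c0000001800000010 0x200000002000000060000001f0000001f00000034 5 6) 0 0 (step_sound _ 65 [(rhb739f4f82bb681b4.shift 0 1), rhc7dadc8e2ab0d46f] (by decide +kernel))
noncomputable def rha1f85a5afd8d448f : CRef := CRef.mk (Pat.mk 0xc0000001c000000100000001000000000 0x40000000c0000003f0000001f0000003800000008 5 6) 0 0 (step_sound _ 67 [(rh3cb04db3dd2b6a55.shift 2 0), (rh67a2afc464f6d014.shift 0 1)] (by decide +kernel))
noncomputable def rhbfa1ff255c28a08b : CRef := CRef.mk (Pat.mk 0x3000000020000000200000002000000020000000000000000 0x70000001e0000000600000002000000030000000300000001 5 5) 0 0 (step_sound _ 162 [(rh2f68792b6b779e96.shift 1 2), rhdfac2c1abebe7817] (by decide +kernel))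
noncomputable def rh93399ec6ae84e1dc : CRef := CRef.mk (Pat.mk 0x50000000f00000000 0x1f0000007f00000070 5 7) 0 0 (step_sound _ 36 [(rh3f8766e6ecb455ce.shift 0 1), rh9c71485ed59a17cd] (by decide +kernel))
noncomputable def rh8bc1087ea7b2eaa8 : CRef := CRef.mk (Pat.mk 0x1000000020000000200000006000000000000000000000000 0x1000000070000000600000006000000030000000300000003 5 3) 0 0 (step_sound _ 65 [rheacedd262407fad2, (rhffd04209dc8ea796.shift 0 2)] (by decide +kernel))
noncomputable def rh94186331b1401652 : CRef := CRef.mk (Pat.mk 0x700000007000000000000000000000000 0x4000000040000000f0000001f000000180000000800000008 5 5) 0 0 (step_sound _ 99 [rh85069a6d037617f9, (rhf48373e13d2bc128.shift 0 3)] (by decide +kernel))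
noncomputable def rh15e73dbf691d5e47 : CRef := CRef.mk (Pat.mk 0x4000000040000000c0000000c00000000 0x80000000c0000000c0000000f0000003c00000014 5 6) 0 0 (step_sound _ 131 [(rh2f68792b6b779e96.shift 2 1), rh99071a2cce01658c] (by decide +kernel))
noncomputable def rhb8299237d7b8c322 : CRef := CRef.mk (Pat.mk 0x80000000c000000380000000000000000 0x40000000c0000000f000000380000001e0000001c 5 6) 0 0 (step_sound _ 97 [(rh23a4711996e50144.shift 1 0), (rhb739f4f82bb681b4.shift 0 2)] (by decide +kernel))
noncomputable def rh8964002430940967 : CRef := CRef.mk (Pat.mk 0x18000000180000003800000018 0x240000003f00000038000000f800000018 5 8) 0 0 (step_sound _ 38 [rhda0c8f9f6c183d35, (rhf48373e13d2bc128.shift 3 1)] (by decide +kernel))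
noncomputable def rha4f8d4b91efd96b3 : CRef := CRef.mk (Pat.mk 0x40000001e000000180000000800000000 0x70000001e0000001b0000000f00000006 5 5) 0 0 (step_sound _ 129 [(rh3244c3cc8379b070.shift 0 3), rh4752cf450ee1f99f] (by decide +kernel))
noncomputable def rh71b938f97535e4af : CRef := CRef.mk (Pat.mk 0x60000000e0000001800000000 0x1a0000003b0000003e0000000e0000001c00000014 5 6) 0 0 (step_sound _ 99 [rh0c561658b8646091, (rh540b6cc7a7d51642.shift 1 0), (rh7263bee49303e8fc.shift 2 0)] (by decide +kernel))
noncomputable def rhd3cf9442b0b4a5eb : CRef := CRef.mk (Pat.mk 0x18000000700000000000000000 0x1000000010000000380000007f000000ec00000008 5 8) 0 0 (step_sound _ 67 [(rh031a926e4a883687.shift 2 0), (rhe74f96057964b96f.shift 0 1)] (by decide +kernel))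
noncomputable def rhcff11b283bd49e03 : CRef := CRef.mk (Pat.mk 0x100000001000000060000000200000000000000000000000000000000 0x100000007000000060000000600000002000000030000000300000001 5 3) 0 0 (step_sound _ 97 [rh274a837cd7eaa569, (rhcfdf45280693d3da.shift 0 3)] (by decide +kernel))
noncomputable def rh9cc11b924c4740a0 : CRef := CRef.mk (Pat.mk 0x4000000040000001c000000080000000000000000 0x4000000070000001f0000003b0000000a00000008 5 6) 0 0 (step_sound _ 35 [(rh7b1f1fb55310c477.shift 2 0), (rhbb07bccc04294ee7.shift 0 1)] (by decide +kernel))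
noncomputable def rh51c5455fd40b94c1 : CRef := CRef.mk (Pat.mk 0x800000008000000380000001800000000 0x40000000c0000000f0000003c0000001e00000008 5 6) 0 0 (step_sound _ 34 [(rh53b3c253cb0c65f4.shift 1 1), rhdd21cabff6f8c986] (by decide +kernel))
noncomputable def rh466bb65b10f025a9 : CRef := CRef.mk (Pat.mk 0x38000000000000003000000010 0x770000003e000000200000003000000010 5 7) 0 0 (step_sound _ 133 [(rh3c88ce959c0e423f.shift 4 0), (rh3e0b38310ac09007.shift 0 3)] (by decide +kernel))
noncomputable def rh978c4b48c11c74ac : CRef := CRef.mk (Pat.mk 0x2000000028000000000000001000000010 0x770000003e000000100000001000000010 5 7) 0 0 (step_sound _ 100 [(rh04253f50b6dd0619.shift 4 0), (rh3e0b38310ac09007.shift 0 3)] (by decide +kernel))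
noncomputable def rha48aad85dc364735 : CRef := CRef.mk (Pat.mk 0x18000000030000000c0000000400000000 0x10000000180000000f0000000e0000007c00000010 5 7) 0 0 (step_sound _ 99 [(rh1c62b6193297d9e3.shift 0 3), (rhd2010e3f1e8903d9.shift 1 0)] (by decide +kernel))
noncomputable def rh67e8cd3dee14de5c : CRef := CRef.mk (Pat.mk 0x6000000020000000400000006000000000000000000000000 0x400000006000000060000000600000006000000030000000300000003 5 3) 0 0 (step_sound _ 129 [rh1c9b4deb3f3e414b, (rh2f68792b6b779e96.shift 1 3)] (by decide +kernel))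
noncomputable def rh43c7095c87df45e4 : CRef := CRef.mk (Pat.mk 0x300000003000000060000000200000000 0x1c0000001f00000007000000060000000600000004 5 5) 0 0 (step_sound _ 34 [(rh55afc6a59410cf00.shift 1 0), (rhc26a734abad09058.shift 0 1)] (by decide +kernel))
noncomputable def rhfc37ecabf4856385 : CRef := CRef.mk (Pat.mk 0xc000000180000000000000000 0x10000000300000001f000000380000000800000008 5 6) 0 0 (step_sound _ 97 [(rh137e64670c5b7fdf.shift 1 0), (rhb739f4f82bb681b4.shift 0 2)] (by decide +kernel))
noncomputable def rhaf28771b969f41a3 : CRef := CRef.mk (Pat.mk 0x2000000020000001e0000000600000000 0x400000006000000060000001f0000003e0000000a 5 6) 0 0 (step_sound _ 130 [(rh2f68792b6b779e96.shift 1 1), rh506d5c7b142560c9] (by decide +kernel))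
noncomputable def rh13e0d6127fae8ea2 : CRef := CRef.mk (Pat.mk 0x1c000000380000000800000000 0xc0000000c0000000c0000001c0000003f0000000f00000004 5 6) 0 0 (step_sound _ 162 [(rhbfad5cc5354d7121.shift 0 1), rhd207c95c60f9edbd, (rhf4bcdf19b6922e31.shift 2 1)] (by decide +kernel))
noncomputable def rh4c76ff9b954218de : CRef := CRef.mk (Pat.mk 0x3800000010000000040000003800000000 0x3e00000074000000060000003e00000007 5 7) 0 0 (step_sound _ 34 [(rh3244c3cc8379b070.shift 1 1), rh9e44cf0f007154af] (by decide +kernel))
noncomputable def rh0c4cf234fda5f94c : CRef := CRef.mk (Pat.mk 0x800000018000000080000000800000000 0x40000000f0000007c000000080000000c00000004 5 7) 0 0 (step_sound _ 130 [rh18b1b4c2fd49d92e, (rh50fbb5868c909700.shift 2 1)] (by decide +kernel))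
noncomputable def rh0da16768d059e21d : CRef := CRef.mk (Pat.mk 0x400000008000000040000000600000000 0x20000000f0000003e000000040000000600000002 5 6) 0 0 (step_sound _ 98 [(rh17d893c7538e1819.shift 0 1), (rh932754581e0f4330.shift 1 0)] (by decide +kernel))
noncomputable def rhb4dc98bb3107dfc7 : CRef := CRef.mk (Pat.mk 0x80000001c000000060000001000000000 0x20000000f0000001c000000060000003c0000000c 5 6) 0 0 (step_sound _ 34 [rh524995310b4e2dc7, (rh71222050f2c63a3a.shift 2 0)] (by decide +kernel))
noncomputable def rh0a7014a658746ef4 : CRef := CRef.mk (Pat.mk 0x40000000e0000000a0000000800000000 0x1000000070000001e0000001a0000000f00000007 5 5) 0 0 (step_sound _ 33 [rh28410cc1449183eb, (rh71222050f2c63a3a.shift 1 0)] (by decide +kernel))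
noncomputable def rh942d36381b3a6786 : CRef := CRef.mk (Pat.mk 0x3800000028000000280000000000000000 0x38000001ef0000007c000000c600000044 5 9) 0 0 (step_sound _ 68 [(rh2c588ec34b2f9d1e.shift 2 0), (rha11dfd15f08f96e3.shift 2 2), (rhb595ae21e1db6eba.shift 1 0), (rhbd64b171dbe672bd.shift 2 0), (rhfd99604093c09fe0.shift 0 2)] (by decide +kernel))
noncomputable def rhb3db7e990fa89829 : CRef := CRef.mk (Pat.mk 0x480000007000000010 0x6c0000007e00000037 5 7) 0 0 (step_sound _ 35 [(rh3244c3cc8379b070.shift 2 1), rhe9d0c63b662b3e5a] (by decide +kernel))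
noncomputable def rh2e69e61895c235be : CRef := CRef.mk (Pat.mk 0x400000007000000030000000800000000 0x20000000600000007000000030000001f00000007 5 5) 0 0 (step_sound _ 33 [(rh71222050f2c63a3a.shift 1 0), rhe0c44693bdcb5e28] (by decide +kernel))
noncomputable def rh5b8c5f2cb3db79a0 : CRef := CRef.mk (Pat.mk 0x80000000e0000001c0000001000000000 0x40000000c0000000e0000001e0000003700000006 5 6) 0 0 (step_sound _ 34 [(rh71222050f2c63a3a.shift 2 0), rhd751d1526b665964] (by decide +kernel))
noncomputable def rhfc38768ccff5661f : CRef := CRef.mk (Pat.mk 0x20000000f00000004 0xe60000007f0000007c 5 8) 0 0 (step_sound _ 36 [(rh2aac33c566332a8c.shift 1 0), rh4ad5fc38f1b69f65, rh9cde8ee4223ae862, (rhb84b1f66852c4b18.shift 1 0)] (by decide +kernel))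
noncomputable def rh4173ecdf57c5643f : CRef := CRef.mk (Pat.mk 0x80000001c0000001c0000000000000000 0x2000000020000000f0000001f0000001c0000000400000004 5 5) 0 0 (step_sound _ 97 [rh5aaccf088493f334, (rhb739f4f82bb681b4.shift 0 2)] (by decide +kernel))
noncomputable def rha879e88cdfa224cd : CRef := CRef.mk (Pat.mk 0xc0000000c000000180000000000000000 0x80000000c0000000c0000001c0000000f0000000e 5 5) 0 0 (step_sound _ 35 [(rh7b1f1fb55310c477.shift 2 0), rhd73ed56b2c4229e7] (by decide +kernel))
noncomputable def rh792d30ca3dc614ca : CRef := CRef.mk (Pat.mk 0xe0000000c00000004 0x200000002000000770000007e0000000c00000004 5 7) 0 0 (step_sound _ 97 [(rhc89253ff58c66167.shift 1 0), (rhcb054c600a87078d.shift 0 1), rhd8b2b56e7aaa7d53] (by decide +kernel))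
noncomputable def rhbe34dfb3324ec858 : CRef := CRef.mk (Pat.mk 0x4000000060000000e0000000a 0x100000003c0000003e0000001e0000000b 5 6) 0 0 (step_sound _ 36 [(rh109640f491574d7e.shift 1 0), rheb0810cc63b001d8] (by decide +kernel))
noncomputable def rh5e27551d8f4c0273 : CRef := CRef.mk (Pat.mk 0x800000008000000080000000800000000 0x40000001f0000007c000000080000000800000008 5 7) 0 0 (step_sound _ 130 [(rh50fbb5868c909700.shift 2 1), rh6c7831bafd354b22] (by decide +kernel))
noncomputable def rh11a3db031c212ca4 : CRef := CRef.mk (Pat.mk 0x200000002000000020000000400000000 0x4000000060000000600000002000000070000000700000001 5 3) 0 0 (step_sound _ 161 [rhcab3157f7bdcba3e, (rhd3458b32566d63f7.shift 1 1)] (by decide +kernel))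
noncomputable def rh093daa16f2f30323 : CRef := CRef.mk (Pat.mk 0x800000018000000080000007000000000 0x40000000f0000007c000000080000007c000000e4 5 8) 0 0 (step_sound _ 35 [(rh0405e677ca7cdf6b.shift 2 0), (rhca405e350c462817.shift 0 1)] (by decide +kernel))
noncomputable def rhb3de2b4a5511b94a : CRef := CRef.mk (Pat.mk 0x6000000030000000a00000000 0x4000000040000000c0000001e0000000b0000000a0000000a 5 5) 0 0 (step_sound _ 130 [(rh71222050f2c63a3a.shift 1 0), rhf8f635b84d0df4af] (by decide +kernel))
noncomputable def rh4d4ddb36715783b7 : CRef := CRef.mk (Pat.mk 0x1c00000020 0x70000003e00000067 5 7) 0 0 (step_sound _ 37 [rh775ca1963e850b80, (rhe25b0a99195a5d59.shift 2 0)] (by decide +kernel))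
noncomputable def rh41b23e0d0ef25950 : CRef := CRef.mk (Pat.mk 0x180000001e000000100000001000000000 0x10000000180000003e0000001f0000003800000008 5 6) 0 0 (step_sound _ 35 [(rh1fa722946c96e1d0.shift 0 1), (rh932754581e0f4330.shift 3 0)] (by decide +kernel))
noncomputable def rhfd4dfc2b4df49b01 : CRef := CRef.mk (Pat.mk 0x180000001e000000100000000000000000 0x180000003e0000001f0000003000000030 5 6) 0 0 (step_sound _ 36 [rh6b2e79956d04e46d, (rh7b1f1fb55310c477.shift 3 0)] (by decide +kernel))
noncomputable def rh2a6fe6a2ce7428a2 : CRef := CRef.mk (Pat.mk 0x600000007000000040000000000000000 0x4000000060000000f0000003c0000000c0000000c 5 6) 0 0 (step_sound _ 34 [rh42ccc0fab2d4ae9a, (rh7b1f1fb55310c477.shift 1 0)] (by decide +kernel))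
noncomputable def rhca41563c2bd3850d : CRef := CRef.mk (Pat.mk 0x3000000030000000e0000000200000000 0x1c0000001f0000000b0000000e0000000600000004 5 5) 0 0 (step_sound _ 34 [(rh55afc6a59410cf00.shift 1 0), (rhb5cf6789a350d3c2.shift 0 1)] (by decide +kernel))
noncomputable def rhc23ae72b71b0f773 : CRef := CRef.mk (Pat.mk 0xa000000030000000800000000 0x1000000010000000180000001e0000000f0000000800000008 5 5) 0 0 (step_sound _ 100 [rh4d9b7de49d2a25f3, (rhb2a0b9ccfb5cecd5.shift 0 2)] (by decide +kernel))
noncomputable def rhca837b57b5f331dc : CRef := CRef.mk (Pat.mk 0x700000001000000060000000000000000 0x600000006000000060000000700000003000000060000000600000006 5 3) 0 0 (step_sound _ 97 [(rh32c58e03f09ef244.shift 1 1), (rh4c60faed9e5f228f.shift 0 1), rhb0c1e7919d9be92d, rhb8f06d94c10886cc] (by decide +kernel))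
noncomputable def rh3527a8f5df4df449 : CRef := CRef.mk (Pat.mk 0x100000003000000020000000600000000 0x200000006000000060000000700000003000000060000000600000004 5 3) 0 0 (step_sound _ 129 [(rh47dc7c4bd0bea94e.shift 0 1), (rh55afc6a59410cf00.shift 1 0)] (by decide +kernel))
noncomputable def rhee1a29e9af6d62b9 : CRef := CRef.mk (Pat.mk 0x200000006000000070000000000000000 0x4000000060000003e0000003f0000001c0000000c 5 6) 0 0 (step_sound _ 67 [(rh07e006e2762b0d4d.shift 0 2), rhb848572c2b751f6f] (by decide +kernel))
noncomputable def rh8acb79fe332e27b9 : CRef := CRef.mk (Pat.mk 0x1000000030000000600000006 0x1e0000001f000000070000000600000006 5 5) 0 0 (step_sound _ 97 [(rh2145e1d24b96a57e.shift 1 0), rhc26a734abad09058] (by decide +kernel))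
noncomputable def rh617fc727736bd710 : CRef := CRef.mk (Pat.mk 0x80000001c000000100000000400000000 0x2000000020000000f0000001e000000340000000400000004 5 6) 0 0 (step_sound _ 97 [(rhe25b0a99195a5d59.shift 1 2), rhe4453746603cf0a3] (by decide +kernel))
noncomputable def rh463aed05763a9563 : CRef := CRef.mk (Pat.mk 0x1000000030000000000000003800000000 0x40000001c000000780000000f0000007c0000001f 5 7) 0 0 (step_sound _ 67 [(rha9fbfd4bb8cf890b.shift 0 1), rhae41c86fcf2bcac3, (rhd67198fa3ebd7ccb.shift 2 0)] (by decide +kernel))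
noncomputable def rhe333035f2fcf09e3 : CRef := CRef.mk (Pat.mk 0x40000000c000000080000000000000000 0x140000003c0000000f000000080000000800000008 5 6) 0 0 (step_sound _ 35 [(rh1f7c8c7ebf15f44e.shift 0 1), (rh7b1f1fb55310c477.shift 2 0)] (by decide +kernel))
noncomputable def rha4e2ff7965857f2b : CRef := CRef.mk (Pat.mk 0xf00000004 0x700000007f000000fc 5 8) 0 0 (step_sound _ 36 [rh27f28fc6ea159c6b, rh4ad5fc38f1b69f65, (rh9d71f6220e0cddc7.shift 1 0), (rha93a5dd541ab8209.shift 1 0)] (by decide +kernel))
noncomputable def rh975fcf8b07fa8e8c : CRef := CRef.mk (Pat.mk 0x1f000000020000000000000000 0x800000008000000180000003f0000000e0000000400000004 5 6) 0 0 (step_sound _ 66 [(rh18965a982d73c794.shift 1 2), rhe5ad44e27e846693] (by decide +kernel))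
noncomputable def rh20b1e8ec5b235335 : CRef := CRef.mk (Pat.mk 0x80000001800000018000000000000000000000000 0x18000000180000007c0000000f0000000c00000008 5 7) 0 0 (step_sound _ 67 [(rh80650b8e93363f1e.shift 0 1), (rhea7a1800d6f053bd.shift 3 0)] (by decide +kernel))
noncomputable def rh25914b2ed5d7bdbb : CRef := CRef.mk (Pat.mk 0x8000000180000000800000000 0x800000008000000080000003c0000001f00000014 5 6) 0 0 (step_sound _ 131 [rh04e877282bc382ca, rh0d35c975ee37cf45, (rhd4b4beefcd67f51e.shift 3 0)] (by decide +kernel))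
noncomputable def rhfc3b32d4927f49da : CRef := CRef.mk (Pat.mk 0x600000002000000020000000200000000 0x2000000020000000600000006000000070000000700000003 5 3) 0 0 (step_sound _ 32 [rh5deeb44fca266d91, rh932754581e0f4330] (by decide +kernel))
noncomputable def rhbb71d32ac1feb433 : CRef := CRef.mk (Pat.mk 0x40000001c0000001800000000 0x400000004000000040000001c0000007f0000000a 5 7) 0 0 (step_sound _ 37 [rh2420ce23e32af1a0, (rhf48373e13d2bc128.shift 2 1)] (by decide +kernel))
noncomputable def rh382a1084819cfc51 : CRef := CRef.mk (Pat.mk 0x40000000c000000030000000a00000000 0x40000000c0000000b0000001f0000007c 5 7) 0 0 (step_sound _ 34 [rh6750075f6e760f16, (rhf48373e13d2bc128.shift 0 1)] (by decide +kernel))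
noncomputable def rhdb32e767b64bc2a1 : CRef := CRef.mk (Pat.mk 0x40000000c000000000000000a00000000 0x40000000c0000000c0000000f0000007c 5 7) 0 0 (step_sound _ 3 [(rh2613c889e411427e.shift 2 0), rha67a6bd113c82a2b] (by decide +kernel))
noncomputable def rhb7fba35336b57849 : CRef := CRef.mk (Pat.mk 0x40000000e000000030000000a00000000 0x100000003c0000000e0000000f0000001e00000010 5 6) 0 0 (step_sound _ 36 [(rh5419adcd928dba20.shift 0 1), rhd1a3afdce1068a42] (by decide +kernel))
noncomputable def rh7e05ddd45771b630 : CRef := CRef.mk (Pat.mk 0x40000000e000000030000000800000000 0x100000003c0000000e0000000f0000001800000018 5 6) 0 0 (step_sound _ 67 [(rh7b1f1fb55310c477.shift 2 0), rhd6e3341f73642d6a] (by decide +kernel))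
noncomputable def rh2dee9174c21c587e : CRef := CRef.mk (Pat.mk 0x1c0000001800000008 0x4000000060000007c0000007f0000000f 5 7) 0 0 (step_sound _ 37 [rhafc4c9a9d69fbade, (rhf48373e13d2bc128.shift 2 1)] (by decide +kernel))
noncomputable def rh01d6b9aa1023c96e : CRef := CRef.mk (Pat.mk 0x200000002000000030000000200000000 0x400000006000000060000000200000003000000070000000600000004 5 3) 0 0 (step_sound _ 34 [(rh331a7c318f5f9a02.shift 0 1), (rh55afc6a59410cf00.shift 1 0)] (by decide +kernel))
noncomputable def rh297fae84acdfca38 : CRef := CRef.mk (Pat.mk 0x800000008000000380000001000000010 0x200000007c0000002f000000780000003000000010 5 7) 0 0 (step_sound _ 98 [rh2bca20f4ce94f759, (rhf48373e13d2bc128.shift 2 2)] (by decide +kernel))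
noncomputable def rh717d6494e4a7ab89 : CRef := CRef.mk (Pat.mk 0xf000000020 0xe000000fe0000003f 5 8) 0 0 (step_sound _ 35 [rh30d0de1a76abc67c, (rh592c7139d2c44767.shift 1 0), (rhc8d5c9136610b7ff.shift 1 0), (rheae1728ff4a56756.shift 2 0)] (by decide +kernel))
noncomputable def rha3ecc7c6acb14750 : CRef := CRef.mk (Pat.mk 0x4000000040000000c00000004000000060000000000000000 0x400000004000000060000000f0000003c000000060000000400000004 5 6) 0 0 (step_sound _ 99 [rh1eef98f3e0ecb390, (rh2145e1d24b96a57e.shift 2 3)] (by decide +kernel))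
noncomputable def rhf4fcb276c439bf4b : CRef := CRef.mk (Pat.mk 0x800000008000000080000000800000000 0x80000000800000008000000380000001f00000014 5 6) 0 0 (step_sound _ 36 [(rh55afc6a59410cf00.shift 3 0), rh989334f0df11959e] (by decide +kernel))
noncomputable def rhfcc64d3a366965e9 : CRef := CRef.mk (Pat.mk 0x1000000020000000200000002000000000000000000000000 0x5000000070000000600000002000000030000000300000001 5 3) 0 0 (step_sound _ 65 [rh82ca4d13b15beb50, (rhffd04209dc8ea796.shift 0 2)] (by decide +kernel))
noncomputable def rhb5b71cb4f22f6697 : CRef := CRef.mk (Pat.mk 0x200000002000000020000000000000001 0x50000000700000007000000020000000300000003 5 3) 0 0 (step_sound _ 33 [rh32e32f03ae89b559, rh79877ebd3ef475dd] (by decide +kernel))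
noncomputable def rhf8caf48af2bf200a : CRef := CRef.mk (Pat.mk 0x100000003800000000 0xff0000007e00000007 5 8) 0 0 (step_sound _ 34 [rh592c7139d2c44767, (rhb18e6c78a554867d.shift 1 1), (rhec46bd5500c722c9.shift 1 1)] (by decide +kernel))
noncomputable def rh909af6964c52d212 : CRef := CRef.mk (Pat.mk 0xe0000000c0000000000000000 0x4000000040000003e0000003f0000000300000002 5 6) 0 0 (step_sound _ 68 [rh3d14136b9174be6b, (rhf48373e13d2bc128.shift 1 2)] (by decide +kernel))
noncomputable def rhe552c06b3e336a71 : CRef := CRef.mk (Pat.mk 0x3c0000001200000010 0x80000000c000000ff0000001b00000010 5 8) 0 0 (step_sound _ 65 [(rheb0810cc63b001d8.shift 0 1), rhf7bb2810c702fc32] (by decide +kernel))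
noncomputable def rh3cefcdf4a66fcca8 : CRef := CRef.mk (Pat.mk 0x100000001c0000000800000008 0x400000004000000370000003e0000000c00000008 5 6) 0 0 (step_sound _ 65 [(rh33e738c4ed385b9f.shift 1 2), rhc3bb0f1b2af200a9] (by decide +kernel))
noncomputable def rhb30336065b8c5dcb : CRef := CRef.mk (Pat.mk 0x20000000080000003800000010 0x80000007c0000000f0000007800000010 5 7) 0 0 (step_sound _ 66 [rh328d79551216c3a2, (rhf48373e13d2bc128.shift 2 1)] (by decide +kernel))
noncomputable def rh2304a4d5a295908d : CRef := CRef.mk (Pat.mk 0x800000018000000080000001000000000 0x800000008000000180000000f0000003c00000014 5 6) 0 0 (step_sound _ 35 [(rh55afc6a59410cf00.shift 3 0), rh66eeaab91603179f] (by decide +kernel))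
noncomputable def rh7b727f042b9a2843 : CRef := CRef.mk (Pat.mk 0x20000000e00000002 0x360000003e00000073 5 7) 0 0 (step_sound _ 36 [(rha91d35467c4e1737.shift 1 0), rheb0810cc63b001d8] (by decide +kernel))
noncomputable def rh95f40e1bfe6f2601 : CRef := CRef.mk (Pat.mk 0x1c0000001c0000000000000000 0x2000000070000003f0000001c0000000400000004 5 6) 0 0 (step_sound _ 97 [rha60259b11b492d3d, (rhb739f4f82bb681b4.shift 0 2)] (by decide +kernel))
noncomputable def rh419885b3150da26e : CRef := CRef.mk (Pat.mk 0x20000000e000000000000000400000000 0x70000003e000000030000000600000006 5 6) 0 0 (step_sound _ 100 [rh1799ee5337b5c023, (rh3244c3cc8379b070.shift 0 3)] (by decide +kernel))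
noncomputable def rh441e72bb48a8ee07 : CRef := CRef.mk (Pat.mk 0x6000000070000000c000000000000000800000000 0x100000001e000000170000003c000000180000000800000008 5 6) 0 0 (step_sound _ 67 [(rh7b1f1fb55310c477.shift 2 0), (rhf2cf56c4eb45b014.shift 0 1)] (by decide +kernel))
noncomputable def rha105e1994fd479ef : CRef := CRef.mk (Pat.mk 0xe0000000c00000018 0x200000002000000030000003e0000000f0000001c 5 6) 0 0 (step_sound _ 33 [rh113e957afa7c17ad, rhb739f4f82bb681b4] (by decide +kernel))
noncomputable def rh65e5f0f2b7ac429a : CRef := CRef.mk (Pat.mk 0x80000000300000006000000000000000400000000 0x80000000b0000001f0000003c0000000400000004 5 6) 0 0 (step_sound _ 66 [(rh63dc2e9728281e35.shift 0 1), (rh7b1f1fb55310c477.shift 1 0)] (by decide +kernel))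
noncomputable def rhf1d58ad1c56e2493 : CRef := CRef.mk (Pat.mk 0x800000008000000080000000c000000180000000000000000 0x800000008000000180000003c0000000f000000180000000800000008 5 6) 0 0 (step_sound _ 130 [rh2ea805e6ad9a2539, (rh5c5e593799055d58.shift 2 3)] (by decide +kernel))
noncomputable def rhf23d78e1543076a5 : CRef := CRef.mk (Pat.mk 0x100000001c00000018000000000000000000000000 0x100000001c0000007f000000770000002000000020 5 7) 0 0 (step_sound _ 101 [rh910532ce4806d80d, (rhf48373e13d2bc128.shift 2 3)] (by decide +kernel))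
noncomputable def rh46196756eeb999a4 : CRef := CRef.mk (Pat.mk 0x1800000008000000080000000800000000 0x40000001f00000038000000080000001800000018 5 6) 0 0 (step_sound _ 36 [(rh55afc6a59410cf00.shift 3 0), rh9955b4045fc97d81] (by decide +kernel))
noncomputable def rh4a0633d590ca9e68 : CRef := CRef.mk (Pat.mk 0x40000000f00000002 0xfc0000007f00000006 5 8) 0 0 (step_sound _ 36 [(rh9890f9d77740bbed.shift 0 1), rhc4dadc42bc29f7e4, (rhd584a578337d0023.shift 1 0), (rhf69eab89e5fbfa83.shift 1 0)] (by decide +kernel))
noncomputable def rhbda0e96ac05ff8d6 : CRef := CRef.mk (Pat.mk 0x18000000080000000800000010 0x40000000f0000003c000000080000001800000018 5 6) 0 0 (step_sound _ 131 [rh1edccfff645534d3, (rhd3458b32566d63f7.shift 3 0)] (by decide +kernel))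
noncomputable def rh5d51c1a0244b45ed : CRef := CRef.mk (Pat.mk 0x1800000008000000080000001000000000 0x40000001f00000038000000080000001800000018 5 6) 0 0 (step_sound _ 35 [(rh55afc6a59410cf00.shift 3 0), rh9955b4045fc97d81] (by decide +kernel))
noncomputable def rh1fcaf8cebe283679 : CRef := CRef.mk (Pat.mk 0x200000002000000020000000200000000 0x4000000070000000700000002000000030000000300000001 5 3) 0 0 (step_sound _ 128 [rh20966da26a1c2ae8, (rh50fbb5868c909700.shift 0 1)] (by decide +kernel))
noncomputable def rh61376a455f135a8d : CRef := CRef.mk (Pat.mk 0x800000008000000080000000800000018 0x40000000c0000000c000000080000000c0000000f0000001c 5 5) 0 0 (step_sound _ 34 [rh7a294f8c38ec0db8, (rh932754581e0f4330.shift 2 0)] (by decide +kernel))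
noncomputable def rh76aabe7f5e016648 : CRef := CRef.mk (Pat.mk 0x1c0000000800000006 0xe0000000ff0000007f00000006 5 8) 0 0 (step_sound _ 36 [(rh2d2cd808472a7408.shift 0 1), (rh500571fd45750302.shift 1 0), (rh6292bd8784ece55f.shift 1 1)] (by decide +kernel))
noncomputable def rhe4c824f4f18a84ac : CRef := CRef.mk (Pat.mk 0x800000008000000080000000e00000008 0x800000018000000380000003f0000000e00000008 5 6) 0 0 (step_sound _ 66 [(rh5c5e593799055d58.shift 2 1), rh88217c1459e7e955] (by decide +kernel))
noncomputable def rhb69007e698d9e576 : CRef := CRef.mk (Pat.mk 0x600000002000000020000000f00000000 0x1000000070000001e0000000e0000000f00000018 5 5) 0 0 (step_sound _ 128 [(rh50fbb5868c909700.shift 0 1), rhf25d2e53de6ff05b] (by decide +kernel))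
noncomputable def rh4974d7b2fba169a7 : CRef := CRef.mk (Pat.mk 0xc0000000e000000000000000000000000 0x8000000080000001f0000007e000000300000001000000010 5 7) 0 0 (step_sound _ 100 [(rh766500f60de98127.shift 0 2), (rh79b3c29022acbdf3.shift 1 3), (rh85069a6d037617f9.shift 1 0)] (by decide +kernel))
noncomputable def rhc009e7896d92b445 : CRef := CRef.mk (Pat.mk 0x300000002000000008000000080000000000000000 0x1000000030000000300000007c0000007f0000007800000050 5 7) 0 0 (step_sound _ 101 [(rh171d3b46f9ec8b79.shift 0 1), (rh9a501d6bafc39938.shift 2 0), (rhd1779d7de7f8215b.shift 4 0), (rhf3e4ee6a14a4c7fe.shift 2 1)] (by decide +kernel))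
noncomputable def rhce5452ecdd026b4b : CRef := CRef.mk (Pat.mk 0x600000004000000060000000000000000 0x20000000600000004000000070000003e0000000a 5 6) 0 0 (step_sound _ 34 [(rh50fbb5868c909700.shift 1 1), rhd481882e425e8e93] (by decide +kernel))
noncomputable def rh85d57da75e839def : CRef := CRef.mk (Pat.mk 0x4000000040000001e000000100000001800000000 0x80000003c0000001f0000001e000000100000001800000008 5 6) 0 0 (step_sound _ 129 [(rh3244c3cc8379b070.shift 0 3), (rh7f5bfdb6ed78322d.shift 1 0)] (by decide +kernel))
noncomputable def rh7aa042684d624b07 : CRef := CRef.mk (Pat.mk 0x80000003c00000000 0x380000003f00000067 5 7) 0 0 (step_sound _ 5 [rh1efbca428b37b99e, (rhe25b0a99195a5d59.shift 2 0)] (by decide +kernel))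
noncomputable def rh8fbbc2242410c3c3 : CRef := CRef.mk (Pat.mk 0x80000003c00000000 0x3e0000003f00000007 5 6) 0 0 (step_sound _ 66 [(rh3244c3cc8379b070.shift 1 1), rh71b0012dd1d2fc9e] (by decide +kernel))
noncomputable def rh9c6239243ddfb9af : CRef := CRef.mk (Pat.mk 0x600000004000000060000000000000000 0x20000000600000004000000070000003e0000000a 5 6) 0 0 (step_sound _ 34 [rh1861173042f24e9a, (rh50fbb5868c909700.shift 1 1)] (by decide +kernel))
noncomputable def rh1f0406498a1b6907 : CRef := CRef.mk (Pat.mk 0x200000008000000080000000800000008 0x100000001c0000001f0000000c000000080000000800000008 5 5) 0 0 (step_sound _ 130 [(rh8a7159cc6254a4c8.shift 0 1), (rhffd04209dc8ea796.shift 2 0)] (by decide +kernel))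
noncomputable def rh8af98e8402c28894 : CRef := CRef.mk (Pat.mk 0x38000000100000001400000030 0x60000003e000000770000001e00000032 5 7) 0 0 (step_sound _ 33 [(rhc10214bf3fe8094a.shift 1 0), rhe917ea42a7799b0e] (by decide +kernel))
noncomputable def rhf87197963923ab12 : CRef := CRef.mk (Pat.mk 0x1e000000000000000a00000018 0x30000001e000000030000001e0000007c 5 7) 0 0 (step_sound _ 65 [rh03091da0a522beeb, (rheb0810cc63b001d8.shift 0 2)] (by decide +kernel))
noncomputable def rh9384ebd7eea1688f : CRef := CRef.mk (Pat.mk 0x380000001000000004000000340000000000000000 0x30000003e00000037000000060000003c0000000400000004 5 6) 0 0 (step_sound _ 97 [(rh5419adcd928dba20.shift 1 2), rh77a0c5a99b4ee224] (by decide +kernel))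
noncomputable def rhd2bac79ec8dedf26 : CRef := CRef.mk (Pat.mk 0x380000001000000004000000340000000000000000 0x70000003e00000076000000040000003e0000000600000002 5 7) 0 0 (step_sound _ 162 [(rh7d9f4a7b09b4d867.shift 1 0), (rh7f9cf53e19811b79.shift 0 2), (rha03f6e28ea70fc7d.shift 1 4)] (by decide +kernel))
noncomputable def rhe2e370b2e4a6e84c : CRef := CRef.mk (Pat.mk 0x1c00000008000000020000000200000000 0x30000001f0000003b000000030000000300000001 5 6) 0 0 (step_sound _ 129 [rh6115dbb0673dc671, (rha03f6e28ea70fc7d.shift 0 3)] (by decide +kernel))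
noncomputable def rh7049f5b716e2f8dd : CRef := CRef.mk (Pat.mk 0x20000000200000002000000030000000000000000 0x200000002000000060000000600000007000000070000000200000002 5 3) 0 0 (step_sound _ 193 [(rh79877ebd3ef475dd.shift 0 2), (rhc9696e4650cbd493.shift 1 0)] (by decide +kernel))
noncomputable def rh3ce1d711ed0dcaae : CRef := CRef.mk (Pat.mk 0x2000000020000000600000005000000000000000000000000 0x100000003000000070000000600000007000000030000000200000002 5 3) 0 0 (step_sound _ 97 [rh544fd3f279a4d968, (rh932754581e0f4330.shift 0 2)] (by decide +kernel))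
noncomputable def rh2534d8249ba6d7ba : CRef := CRef.mk (Pat.mk 0x8000000080000001800000014000000000000000000000000 0x40000000c0000001c000000380000001f000000080000000800000008 5 6) 0 0 (step_sound _ 99 [(rh544fd3f279a4d968.shift 2 0), (rhab2ad169e49f9c5e.shift 0 3)] (by decide +kernel))
noncomputable def rh785a7352656edb05 : CRef := CRef.mk (Pat.mk 0x100000003800000008 0x370000007e0000000e 5 7) 0 0 (step_sound _ 2 [(rh18965a982d73c794.shift 2 0), rh2427cfbc99a0c8b7] (by decide +kernel))
noncomputable def rhc884c2905f8db800 : CRef := CRef.mk (Pat.mk 0x700000003000000020000000200000000 0x1a0000001f00000007000000060000000600000004 5 5) 0 0 (step_sound _ 34 [(rh55afc6a59410cf00.shift 1 0), (rhba11115f1e70ce5e.shift 0 1)] (by decide +kernel))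
noncomputable def rhbfbe41460e076bb5 : CRef := CRef.mk (Pat.mk 0x8000000180000001c0000000000000000 0xf0000007f0000007c0000000600000004 5 7) 0 0 (step_sound _ 101 [rh0bf62c8bc7b4a0de, (rh18965a982d73c794.shift 2 2)] (by decide +kernel))
noncomputable def rhba4efc8345b4604e : CRef := CRef.mk (Pat.mk 0x80000000c000000380000000000000000 0x140000001c0000000c0000003c0000000f0000000c 5 6) 0 0 (step_sound _ 35 [rh7d6ca8adfeb65c76, (rhe286c75f2739cce2.shift 2 0)] (by decide +kernel))
noncomputable def rh04ff8b20fd8db34c : CRef := CRef.mk (Pat.mk 0x400000008000000180000001800000000 0x40000000f0000003f0000003800000008 5 6) 0 0 (step_sound _ 98 [(rh7b1f1fb55310c477.shift 2 0), (rhf44e0cb39201d3b9.shift 0 1)] (by decide +kernel))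
noncomputable def rh681cc1c7cf4ad90d : CRef := CRef.mk (Pat.mk 0x200000002000000020000000400000000 0x1000000030000000300000002000000070000000700000001 5 3) 0 0 (step_sound _ 161 [rhc4526fc8abf298b6, (rhd3458b32566d63f7.shift 1 1)] (by decide +kernel))
noncomputable def rh522f51b0ff72c680 : CRef := CRef.mk (Pat.mk 0x200000002000000020000000200000002 0x6000000060000000700000003000000030000000300000002 5 3) 0 0 (step_sound _ 96 [(rh1728b446c037fdbd.shift 0 1), rh50fbb5868c909700] (by decide +kernel))
noncomputable def rh3538b3786c1c8093 : CRef := CRef.mk (Pat.mk 0x1800000008000000180000001800000000 0x40000001f000000380000001e0000007800000020 5 7) 0 0 (step_sound _ 130 [(rh50fbb5868c909700.shift 2 1), rh8a4ee1bf74df4e88] (by decide +kernel))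
noncomputable def rh7a565d7e53f08ed2 : CRef := CRef.mk (Pat.mk 0x400000004000000080000000e000000000000000000000000 0x40000000e0000007b0000003e000000370000001000000010 5 7) 0 0 (step_sound _ 100 [(rh3b00e9e9432b8f40.shift 0 2), (rh4569bd9aa4440d20.shift 1 0), (rheb505ef94539da28.shift 0 2)] (by decide +kernel))
noncomputable def rhb6eda9ba6cc3e699 : CRef := CRef.mk (Pat.mk 0x1000000010000000040000003800000000 0x100000007c0000000f0000003c00000008 5 7) 0 0 (step_sound _ 65 [(rh09d4dfe75d4407d6.shift 1 1), rhe61e20a1e2d5bc32] (by decide +kernel))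
noncomputable def rh03bcba7975d463cf : CRef := CRef.mk (Pat.mk 0x1000000010000000040000003800000000 0x100000007c0000000f0000007800000008 5 7) 0 0 (step_sound _ 67 [rh9b34644ac88f3615, (rhf48373e13d2bc128.shift 2 1)] (by decide +kernel))
noncomputable def rhabaaf3cbb809331d : CRef := CRef.mk (Pat.mk 0x20000001c0000000000000000 0x200000002000000030000003e0000000700000004 5 6) 0 0 (step_sound _ 65 [(rh3244c3cc8379b070.shift 0 2), rh92753b9d07d99e9c] (by decide +kernel))
noncomputable def rhffb7323588680405 : CRef := CRef.mk (Pat.mk 0x800000008000000180000000000000000 0x80000000800000008000000380000001f00000014 5 6) 0 0 (step_sound _ 36 [(rh2145e1d24b96a57e.shift 3 1), rha5ad71a109986e64] (by decide +kernel))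
noncomputable def rhe65192d5555dac97 : CRef := CRef.mk (Pat.mk 0x40000000800000008000000180000000000000000 0xc0000000c000000080000003c0000000f00000004 5 6) 0 0 (step_sound _ 35 [rh04e877282bc382ca, (rhffd04209dc8ea796.shift 2 1)] (by decide +kernel))
noncomputable def rh43f392826a2ceb6c : CRef := CRef.mk (Pat.mk 0x400000008000000080000001800000000 0xc0000000c000000080000000f0000003c00000004 5 6) 0 0 (step_sound _ 131 [rh01b78e5ef59799ae, (rh50fbb5868c909700.shift 2 1)] (by decide +kernel))
noncomputable def rhd780a5f0950e6917 : CRef := CRef.mk (Pat.mk 0x1c00000038000000080000001800000000 0xe0000000fc000000380000003f0000007800000020 5 8) 0 0 (step_sound _ 133 [(rh226655e3fe6b4a8a.shift 2 3), rh5ac3f2b7b723db1e, (rh63bb75a038171f49.shift 2 1), (rh820478dac2f75e58.shift 1 0)] (by decide +kernel))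
noncomputable def rhace917a50633b053 : CRef := CRef.mk (Pat.mk 0x100000000e000000060000000200000000 0x10000000100000003e0000003e0000000b00000008 5 6) 0 0 (step_sound _ 100 [(rh18965a982d73c794.shift 1 2), rh930a946c19cc804d] (by decide +kernel))
noncomputable def rh940b9258bbb5d097 : CRef := CRef.mk (Pat.mk 0x180000001c00000004 0x18000000ff0000007c 5 8) 0 0 (step_sound _ 33 [(rh31b96bf68293d1ba.shift 1 0), (rh53b3c253cb0c65f4.shift 0 1)] (by decide +kernel))
noncomputable def rhc83317cd539485a3 : CRef := CRef.mk (Pat.mk 0x180000001e000000100000000000000000 0x300000003000000030000000180000001e0000001b0000001800000018 5 6) 0 0 (step_sound _ 64 [(rh7b9ee383cf895fdc.shift 3 0), (rh80fcd6d0a18cb2dd.shift 0 2)] (by decide +kernel))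
noncomputable def rh0b79d43259fe5d4b : CRef := CRef.mk (Pat.mk 0x80000000e000000080000000800000000 0x8000000080000000e0000003f0000003800000010 5 6) 0 0 (step_sound _ 36 [(rh55afc6a59410cf00.shift 3 0), (rhe7c62770d96dd8b5.shift 0 1)] (by decide +kernel))
noncomputable def rh28ad3357b4b8dfc2 : CRef := CRef.mk (Pat.mk 0x2000000030000000200000004 0x400000006000000060000000200000003000000030000000700000004 5 3) 0 0 (step_sound _ 129 [(rh7a7e08304268422e.shift 0 1), (rhd3458b32566d63f7.shift 1 0)] (by decide +kernel))
noncomputable def rh84536c029859ba35 : CRef := CRef.mk (Pat.mk 0x1c00000004000000040000000c00000000 0x140000001c0000000c0000000f0000003c00000010 5 6) 0 0 (step_sound _ 67 [(rh2145e1d24b96a57e.shift 2 1), rh3c9f4b29b538a733] (by decide +kernel))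
noncomputable def rh3f7921b7f3e27eeb : CRef := CRef.mk (Pat.mk 0x8000000080000000e000000000000000000000000 0x8000000780000003e0000003f0000001000000010 5 7) 0 0 (step_sound _ 100 [(rh27ce058b59d72f64.shift 0 2), (rhc7b95363f9049b11.shift 1 0)] (by decide +kernel))
noncomputable def rh3985e19336211a9c : CRef := CRef.mk (Pat.mk 0x2000000060000000300000006000000000000000000000000 0x200000006000000060000000f0000001e000000080000000800000008 5 5) 0 0 (step_sound _ 130 [(rh2145e1d24b96a57e.shift 1 3), rh8fc6a860f4f5493d] (by decide +kernel))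
noncomputable def rh15a6c957073c8bcc : CRef := CRef.mk (Pat.mk 0x2000000060000000300000004000000000000000000000000 0x6000000070000000300000006000000070000000300000001 5 3) 0 0 (step_sound _ 97 [(rh55afc6a59410cf00.shift 1 2), rhf6237156212ce777] (by decide +kernel))
noncomputable def rhcf6cfea9c447fcb9 : CRef := CRef.mk (Pat.mk 0x60000001e00000000 0x1000000010000000300000003e0000001f00000008 5 6) 0 0 (step_sound _ 68 [(rh33e738c4ed385b9f.shift 1 1), rhccfb7521e7363676] (by decide +kernel))
noncomputable def rh563a59b1c100b0c0 : CRef := CRef.mk (Pat.mk 0xe0000001e00000000 0x1000000010000000300000003e0000001e0000000b 5 6) 0 0 (step_sound _ 68 [rh30a07cfb4b92418c, (rh33e738c4ed385b9f.shift 1 1)] (by decide +kernel))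
noncomputable def rh9129d2b8a45b80c0 : CRef := CRef.mk (Pat.mk 0x4000000140000001e0000000000000000 0x40000001c0000007f0000007800000008 5 7) 0 0 (step_sound _ 99 [(rh0b1002c0488acbe5.shift 1 0), (rh53b3c253cb0c65f4.shift 0 2)] (by decide +kernel))
noncomputable def rh383a69741c4d90df : CRef := CRef.mk (Pat.mk 0x4000000340000001c0000000000000000 0x2000000060000003c0000001c0000000f0000000a 5 6) 0 0 (step_sound _ 129 [(rh5419adcd928dba20.shift 1 3), rhee98f72ecd39c1e9] (by decide +kernel))
noncomputable def rhe6842b86b2cddab0 : CRef := CRef.mk (Pat.mk 0x1a0000000e0000000000000000 0x2000000030000001f0000003e0000000400000004 5 6) 0 0 (step_sound _ 68 [(rh3244c3cc8379b070.shift 0 2), rh84c6ea69d5090d99] (by decide +kernel))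
noncomputable def rhbd8b2029031648e4 : CRef := CRef.mk (Pat.mk 0x4000000180000000c00000000 0x4000000040000000c0000001f000000780000000c00000008 5 7) 0 0 (step_sound _ 69 [(rh18965a982d73c794.shift 2 1), rhb484cde131b8a418] (by decide +kernel))
noncomputable def rh45eae5009d7ebe6b : CRef := CRef.mk (Pat.mk 0x8000000100000001c00000006 0x1800000018000000300000001f0000003e 5 6) 0 0 (step_sound _ 33 [(rh33e738c4ed385b9f.shift 1 1), rh51c627c920ff400b] (by decide +kernel))
noncomputable def rh7e1614526706b5fa : CRef := CRef.mk (Pat.mk 0x7000000018000000180000001800000000 0x40000007c000000f8000000380000001f00000004 5 8) 0 0 (step_sound _ 34 [(rh95c502c997f07572.shift 2 0), (rhab2ad169e49f9c5e.shift 0 1)] (by decide +kernel))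
noncomputable def rh2b956ac3cddeead1 : CRef := CRef.mk (Pat.mk 0x200000002000000020000000100000000 0x4000000060000000600000002000000070000000700000004 5 3) 0 0 (step_sound _ 161 [(rh6c59ce14113da07f.shift 1 0), (rh79877ebd3ef475dd.shift 0 1)] (by decide +kernel))
noncomputable def rhf1172de839113302 : CRef := CRef.mk (Pat.mk 0xc000000040000000c0000000800000000 0x180000003c0000000f0000000c0000000c00000004 5 6) 0 0 (step_sound _ 34 [(rh2f68792b6b779e96.shift 2 1), rh8600bdee62c8ef94] (by decide +kernel))
noncomputable def rhb3d70d6889dda516 : CRef := CRef.mk (Pat.mk 0x180000001e000000180000000000000000 0x1f0000003e0000001b0000000f0000000e 5 6) 0 0 (step_sound _ 65 [(rheb0810cc63b001d8.shift 0 2), rhf93572a3cf60ed3d] (by decide +kernel))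
noncomputable def rh449d73e65c81ffea : CRef := CRef.mk (Pat.mk 0x380000000c0000001800000010000000000000000000000000 0x600000003c0000006c000000380000001f0000000c0000000c0000000c 5 7) 0 0 (step_sound _ 99 [(rh46d6183566ef1216.shift 2 0), (rh6fae963f33cfdfd7.shift 0 2), (rhff9b60ef36535e8c.shift 2 2)] (by decide +kernel))
noncomputable def rhd1bfc204d7a681f4 : CRef := CRef.mk (Pat.mk 0x80000000c0000001800000000 0x1000000010000000380000001f0000003800000008 5 6) 0 0 (step_sound _ 65 [(rhb240ddcdd15491bf.shift 1 0), (rhb739f4f82bb681b4.shift 0 1)] (by decide +kernel))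
noncomputable def rh77847b477f1d043e : CRef := CRef.mk (Pat.mk 0x40000000700000004000000000000000000000000 0x8000000080000000c0000003e0000000700000004000000060000000600000002 5 6) 0 0 (step_sound _ 163 [(rh215e11e099257d75.shift 2 2), (rh80f90a60d87caa0d.shift 0 4), (rhf6237156212ce777.shift 1 0)] (by decide +kernel))
noncomputable def rh76e0b7cd2109a1fe : CRef := CRef.mk (Pat.mk 0x40000000700000008 0x3f0000003f00000018 5 6) 0 0 (step_sound _ 35 [rhe25b0a99195a5d59, (rhe6bdd62e1711df0b.shift 0 1)] (by decide +kernel))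
noncomputable def rh19d6736955c598c4 : CRef := CRef.mk (Pat.mk 0xa0000003c00000000 0x1b000000ff000000e0 5 8) 0 0 (step_sound _ 6 [(rh96851dee118c1ba3.shift 2 0), rhad1023d97d0f55dc] (by decide +kernel))
noncomputable def rh1a84ccadb9ef172a : CRef := CRef.mk (Pat.mk 0x2000000020000000200000002000000020000000000000000 0x2000000060000000600000006000000070000000300000003 5 3) 0 0 (step_sound _ 98 [(rh55afc6a59410cf00.shift 1 2), rheacedd262407fad2] (by decide +kernel))
noncomputable def rh720bc28ba73daf51 : CRef := CRef.mk (Pat.mk 0x3800000010 0x70000007e000000ff 5 8) 0 0 (step_sound _ 34 [rh775ca1963e850b80, (rha03f6e28ea70fc7d.shift 1 0), (rha55e9a51d19a998f.shift 1 0), rhb2432c16363a7e8d] (by decide +kernel))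
noncomputable def rh68da8d9ce8a4b6e9 : CRef := CRef.mk (Pat.mk 0x20000000200000002000000020000000000000000 0x5000000070000000300000002000000030000000300000001 5 3) 0 0 (step_sound _ 160 [(rh50fbb5868c909700.shift 0 2), rhfd8780583b3a591d] (by decide +kernel))
noncomputable def rhced1fa756b93455b : CRef := CRef.mk (Pat.mk 0x2000000020000000200000002000000020000000000000000 0x2000000030000000300000003000000070000000600000006 5 3) 0 0 (step_sound _ 96 [(rh932754581e0f4330.shift 0 2), rhbd78a571ffa91fb9] (by decide +kernel))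
noncomputable def rha4cbd6800253ee2f : CRef := CRef.mk (Pat.mk 0x100000001800000038000000080000000000000000 0x10000000180000003f0000007f0000002000000020 5 7) 0 0 (step_sound _ 65 [(rh8bf8257c7eeda352.shift 0 2), (rhbb229bad87965364.shift 1 2), rhbfc9eeb6ec948f45, (rhfb815e3afead425a.shift 0 2)] (by decide +kernel))
noncomputable def rhf9bd237ffd286457 : CRef := CRef.mk (Pat.mk 0x10000000200000002000000020000000000000000 0x1000000030000000200000002000000070000000700000005 5 3) 0 0 (step_sound _ 161 [(rh50fbb5868c909700.shift 0 2), rh87d79b35134c4259] (by decide +kernel))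
noncomputable def rh6c51f28a6353a183 : CRef := CRef.mk (Pat.mk 0x20000000200000002000000000000000000000000 0x400000006000000060000000200000007000000070000000700000005 5 3) 0 0 (step_sound _ 65 [rh6eff4158bb400f47, (rhb7ee8905496f843d.shift 0 1), (rhced6d86d2069808b.shift 1 1)] (by decide +kernel))
noncomputable def rhf156dc296789a0f1 : CRef := CRef.mk (Pat.mk 0x2000000020000000200000006 0x4000000070000000700000003000000020000000600000006 5 3) 0 0 (step_sound _ 129 [(rhd3458b32566d63f7.shift 1 0), rhdbbfd1e5bf77d31f] (by decide +kernel))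
noncomputable def rhb9fdadefb3895811 : CRef := CRef.mk (Pat.mk 0x40000000c0000000c0000000c00000000 0x100000003c0000000f0000007c0000007e000000f0 5 8) 0 0 (step_sound _ 36 [(rh2da36fefa6f60f2b.shift 1 1), rh8bfafb9e7ef9ac91, (rhd5979d9ced4acd89.shift 1 0)] (by decide +kernel))
noncomputable def rh5e5ef3a86c0560ec : CRef := CRef.mk (Pat.mk 0x40000000c0000000c000000000000000000000000 0xa0000000f0000003c0000000c000000060000000600000006 5 6) 0 0 (step_sound _ 66 [(rh46530d756bdf8511.shift 1 0), (rh84d1c02a8954c6a8.shift 2 1), (rhfc21d93c70905a0f.shift 0 2)] (by decide +kernel))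
noncomputable def rh3d590792a7276b0b : CRef := CRef.mk (Pat.mk 0x2000000030000000e0000000000000000 0x1000000070000000700000007000000070000000e0000000a00000002 5 4) 0 0 (step_sound _ 162 [(rh0a9f21384ef6efe7.shift 0 2), rh754b8d2daded6d3e, (rhaace14975fb582e7.shift 1 1)] (by decide +kernel))
noncomputable def rh6204fa91b810ff3e : CRef := CRef.mk (Pat.mk 0x20000000200000002000000020000000000000000 0x5000000070000000700000002000000020000000600000004 5 3) 0 0 (step_sound _ 162 [(rh2f68792b6b779e96.shift 1 2), rh9b93b577712a20e4] (by decide +kernel))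
noncomputable def rh500aaee87d853475 : CRef := CRef.mk (Pat.mk 0x1c0000000c000000080000000c00000000 0x1c0000001f0000007e0000000f00000002 5 7) 0 0 (step_sound _ 97 [(rh53b3c253cb0c65f4.shift 0 3), rhf0a98569a9321dc2] (by decide +kernel))
noncomputable def rha05ed68935fe226e : CRef := CRef.mk (Pat.mk 0x3c0000000c000000080000000c 0x2000000020000000600000003c0000003c0000007c0000001f 5 7) 0 0 (step_sound _ 133 [(rh33e738c4ed385b9f.shift 2 3), rha56a8c38139ccd67] (by decide +kernel))
noncomputable def rh6a6df508ef40f9d2 : CRef := CRef.mk (Pat.mk 0x10000000100000001c00000000 0x1000000010000000170000003e00000067 5 7) 0 0 (step_sound _ 37 [rh592c7139d2c44767, (rhba04d77b039f69d9.shift 2 0), (rhdce147dab1eb4ad9.shift 1 0)] (by decide +kernel))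
noncomputable def rh35dd301646ad41c5 : CRef := CRef.mk (Pat.mk 0xc000000040000000c0000000c 0x120000007f0000003e0000000c0000000c 5 7) 0 0 (step_sound _ 97 [(rh50fbb5868c909700.shift 1 0), rh8df030afdafb859f] (by decide +kernel))
noncomputable def rhca300808da6dc72d : CRef := CRef.mk (Pat.mk 0x100000001000000038000000080000000800000000 0x1000000030000000780000002f0000007c00000020 5 7) 0 0 (step_sound _ 66 [rh13c48259919d8812, (rh18965a982d73c794.shift 2 2)] (by decide +kernel))
noncomputable def rh58505726fb59d45b : CRef := CRef.mk (Pat.mk 0x100000001000000038000000000000000000000000 0x10000000370000003e000000670000002000000020 5 7) 0 0 (step_sound _ 98 [(rh4c063b89d42a2070.shift 0 2), (rh775ca1963e850b80.shift 0 2), (rhd132b680030c88e0.shift 2 0)] (by decide +kernel))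
noncomputable def rh18a86f0327cb6cbe : CRef := CRef.mk (Pat.mk 0x40000000e00000002 0xe0000007e00000073 5 7) 0 0 (step_sound _ 36 [(rh6b61443ae4ff0acb.shift 1 0), rheb0810cc63b001d8] (by decide +kernel))
noncomputable def rh746bdf53a475874c : CRef := CRef.mk (Pat.mk 0x20000000e000000020000000400000004 0x7e0000003f0000007b0000000c00000004 5 7) 0 0 (step_sound _ 67 [rh07d9da5b7e224558, (rh708536f06d9bd241.shift 0 2), rhf9ec6a0fbad83fba] (by decide +kernel))
noncomputable def rhcc672d021f00e2ac : CRef := CRef.mk (Pat.mk 0x60000001c000000000000000800000008 0x4000000040000003e0000001f000000330000001a00000008 5 6) 0 0 (step_sound _ 97 [rh0292c207cc9a6188, (rh031a926e4a883687.shift 0 1)] (by decide +kernel))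
noncomputable def rhdb295ec562705fd3 : CRef := CRef.mk (Pat.mk 0x60000000c0000000000000000 0x400000004000000070000003e0000000300000002 5 6) 0 0 (step_sound _ 68 [rh3001434bc51a43e8, (rhf48373e13d2bc128.shift 1 2)] (by decide +kernel))
noncomputable def rh637127fb39b5c677 : CRef := CRef.mk (Pat.mk 0x160000001c000000000000000800000008 0x4000000160000001e000000330000001a0000000a 5 6) 0 0 (step_sound _ 68 [rh6a941cf9bb21d255, (rheea67dfebd0f8008.shift 3 0)] (by decide +kernel))
noncomputable def rhd4652cea3e25ec60 : CRef := CRef.mk (Pat.mk 0x160000001c00000010 0x18000000180000007f0000007e0000001c00000010 5 7) 0 0 (step_sound _ 67 [(rh226655e3fe6b4a8a.shift 1 1), rhd29b35898344b9da, (rhd2f04bd8cfbf81b3.shift 1 0)] (by decide +kernel))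
noncomputable def rh780d2735d09297fc : CRef := CRef.mk (Pat.mk 0xe0000001800000000 0x1000000010000000370000003e0000001f00000008 5 6) 0 0 (step_sound _ 68 [(rh3bbb6459c441914e.shift 0 1), (rh5ba2d67652840f34.shift 1 0)] (by decide +kernel))
noncomputable def rh6aa19bd7cc49bfe1 : CRef := CRef.mk (Pat.mk 0x4000000060000000c000000080000000000000000 0x200000006000000060000003c0000000f0000000600000002 5 6) 0 0 (step_sound _ 100 [rh39012464be459f53, (rhf48373e13d2bc128.shift 1 3)] (by decide +kernel))
noncomputable def rhd53728b659ea90ba : CRef := CRef.mk (Pat.mk 0xa0000000e000000180000001000000000 0x2000000060000000e0000000e0000001e0000003700000006 5 6) 0 0 (step_sound _ 66 [(rh250e3886b5983513.shift 1 0), (rhbe707112c53dab40.shift 1 0), rhd751d1526b665964] (by decide +kernel))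
noncomputable def rh6cac474067f98eb3 : CRef := CRef.mk (Pat.mk 0x4000000000000000f000000010000000800000000 0x6000000060000001f000000030000001f00000005 5 5) 0 0 (step_sound _ 65 [(rh18965a982d73c794.shift 0 2), rh1d59670bda65fb99] (by decide +kernel))
noncomputable def rhc031d146355b79c8 : CRef := CRef.mk (Pat.mk 0x10000000f00000004 0x730000007f0000001c 5 7) 0 0 (step_sound _ 36 [rh11aa37d4829402ae, (rh3f8766e6ecb455ce.shift 0 1)] (by decide +kernel))
noncomputable def rh4da7184b55455439 : CRef := CRef.mk (Pat.mk 0xc00000008000000080000000000000004 0x100000001f00000038000000080000000c0000000c 5 6) 0 0 (step_sound _ 35 [(rh79877ebd3ef475dd.shift 2 0), rhc3aca83855756cc0] (by decide +kernel))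
noncomputable def rh65d349eeab1f7ac9 : CRef := CRef.mk (Pat.mk 0x1e00000018000000000000000000000004 0x2000000030000003e0000001f000000040000000400000004 5 6) 0 0 (step_sound _ 97 [rh2a94f4750259dbac, (rheb0810cc63b001d8.shift 0 3)] (by decide +kernel))
noncomputable def rhcf004718049e59cf : CRef := CRef.mk (Pat.mk 0x180000000c000000000000000400000000 0x380000003f000000070000000400000004 5 6) 0 0 (step_sound _ 97 [(rh53b3c253cb0c65f4.shift 0 3), rh7740ab0b4faa8e97] (by decide +kernel))
noncomputable def rh226bd0378e2a72d1 : CRef := CRef.mk (Pat.mk 0x1c000000160000000200000000 0x2000000030000001f0000001e0000000700000004 5 5) 0 0 (step_sound _ 67 [rh12b3e7d1014f8218, (rheb0810cc63b001d8.shift 0 1)] (by decide +kernel))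
noncomputable def rh5c05ce7e7edd1894 : CRef := CRef.mk (Pat.mk 0x10000000000000003800000008 0x40000001c0000001c0000000f0000007c00000018 5 7) 0 0 (step_sound _ 67 [(rha9fbfd4bb8cf890b.shift 0 1), (rhe7d208b70c184706.shift 2 0)] (by decide +kernel))
noncomputable def rh7a6ddb75ca4f2762 : CRef := CRef.mk (Pat.mk 0x2000000060000000e000000000000000000000000 0x2000000060000003e000000070000000600000006 5 6) 0 0 (step_sound _ 100 [rh76ade6e409ca008f, (rhf48373e13d2bc128.shift 1 3)] (by decide +kernel))
noncomputable def rhaeb034a1c5bc589b : CRef := CRef.mk (Pat.mk 0xc0000001e000000000000000000000000 0x4000000040000000c0000001e0000000f0000000a00000002 5 5) 0 0 (step_sound _ 65 [(rh3eb1859586b6b270.shift 1 0), (rheb0810cc63b001d8.shift 0 2)] (by decide +kernel))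
noncomputable def rhb9ff50560c38fe93 : CRef := CRef.mk (Pat.mk 0x2000000000000000300000003000000010000000000000000 0x300000003000000010000000300000003000000030000000300000003 5 2) 0 0 (step_sound _ 32 [rh67f27923ddebc6dc, rh71222050f2c63a3a] (by decide +kernel))
noncomputable def rh874a3eab24ee640d : CRef := CRef.mk (Pat.mk 0x1c0000001c0000000000000000 0x4000000040000001c0000003f0000000700000002 5 6) 0 0 (step_sound _ 65 [(rh53b3c253cb0c65f4.shift 0 2), rhcffb98d4c5aa625f] (by decide +kernel))
noncomputable def rh7d24b49f25c5c0c8 : CRef := CRef.mk (Pat.mk 0xe000000020000000000000000 0x2000000030000003e000000070000000400000004 5 6) 0 0 (step_sound _ 100 [rh5117ef794a583ff1, (rheb0810cc63b001d8.shift 0 2)] (by decide +kernel))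
noncomputable def rh0bed7dd68ff38da0 : CRef := CRef.mk (Pat.mk 0x600000002000000020000000200000000 0x2000000020000000600000006000000070000000700000003 5 3) 0 0 (step_sound _ 98 [(rh71222050f2c63a3a.shift 1 0), rhad2e5f3a7ec95118] (by decide +kernel))
noncomputable def rhca254af0a4f7a0f4 : CRef := CRef.mk (Pat.mk 0x10000000000000002000000020000000200000000 0x4000000070000000700000002000000030000000300000001 5 3) 0 0 (step_sound _ 129 [rh20966da26a1c2ae8, (rhffd04209dc8ea796.shift 0 1)] (by decide +kernel))
noncomputable def rh6c8e5c8b1de2424e : CRef := CRef.mk (Pat.mk 0x1000000000000000200000002000000020000000000000000 0x5000000070000000600000002000000030000000300000001 5 3) 0 0 (step_sound _ 161 [rhcab3157f7bdcba3e, (rhffd04209dc8ea796.shift 0 2)] (by decide +kernel))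
noncomputable def rha2b5a1e8c6246f9f : CRef := CRef.mk (Pat.mk 0x80000003800000008000000000000000000000000 0x40000000f0000003c000000080000001c0000001c00000014 5 6) 0 0 (step_sound _ 67 [(rh46baee19951a66e7.shift 2 0), (rh53509d91ff78ed56.shift 0 2), (rh8cdd36b03d57a2f6.shift 2 0)] (by decide +kernel))
noncomputable def rhfc4087b1b6938427 : CRef := CRef.mk (Pat.mk 0x400000004000000000000000e00000000 0x400000006000000730000003e00000073 5 7) 0 0 (step_sound _ 36 [(rh5c4e3b9267338a4f.shift 1 0), rheb505ef94539da28] (by decide +kernel))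
noncomputable def rh9811d2b2e3ff978d : CRef := CRef.mk (Pat.mk 0xe0000000c000000000000000000000000 0x40000003e0000003f000000030000000200000002 5 6) 0 0 (step_sound _ 100 [rhaecf007e95ea9630, (rhf48373e13d2bc128.shift 1 3)] (by decide +kernel))
noncomputable def rh5c4fa8b4dc23a58e : CRef := CRef.mk (Pat.mk 0x300000000000000020000000200000000 0x4000000070000000700000002000000030000000300000001 5 3) 0 0 (step_sound _ 97 [rh3b734c5288922837, (rh50fbb5868c909700.shift 0 1)] (by decide +kernel))
noncomputable def rh10742f0ea97ad888 : CRef := CRef.mk (Pat.mk 0x300000000000000020000000200000000 0x4000000070000000700000002000000060000000600000004 5 3) 0 0 (step_sound _ 97 [(rh25208373db83e521.shift 1 0), (rh50fbb5868c909700.shift 0 1)] (by decide +kernel))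
noncomputable def rhc43112e83ac5bd47 : CRef := CRef.mk (Pat.mk 0x20000000600000002000000100000001000000000 0x40000000600000006000000020000003f0000003f00000004 5 6) 0 0 (step_sound _ 65 [(rh56a18dba34c1a636.shift 0 1), rh8070539ee69ae688, (rha707fb719e87fe6e.shift 1 1)] (by decide +kernel))
noncomputable def rh3664b03fdc687bbf : CRef := CRef.mk (Pat.mk 0x3c 0x7f0000003f 5 7) 0 0 (step_sound _ 1 [(rh9890f9d77740bbed.shift 1 0), rhb60f93c86c2d0f9c, rhd5eb272e07a4e288] (by decide +kernel))
noncomputable def rh62449674621b75e5 : CRef := CRef.mk (Pat.mk 0x20000001e000000040000000000000000 0x8000000080000003a0000001f0000000c0000000400000004 5 6) 0 0 (step_sound _ 34 [(rh1e803a780da5fd4e.shift 0 1), (rh7b1f1fb55310c477.shift 1 0)] (by decide +kernel))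
noncomputable def rh3e98af1c4ecc4390 : CRef := CRef.mk (Pat.mk 0x300000000000000020000000200000000 0x30000000300000002000000070000000700000005 5 3) 0 0 (step_sound _ 97 [(rh50fbb5868c909700.shift 0 1), rhed79e5c5ffee0217] (by decide +kernel))
noncomputable def rh6e729590e6c0a6f7 : CRef := CRef.mk (Pat.mk 0xe0000000e00000008 0x600000006000000070000003e0000000e00000008 5 6) 0 0 (step_sound _ 68 [(rh18965a982d73c794.shift 1 1), rh874a213df268dd65] (by decide +kernel))
noncomputable def rh2c5e340fa9cd7296 : CRef := CRef.mk (Pat.mk 0x20000000b0000000f0000000400000000 0xd0000001f0000000b0000000f0000000600000002 5 5) 0 0 (step_sound _ 131 [rh112619997b213725, (rh5c5e593799055d58.shift 2 1)] (by decide +kernel))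
noncomputable def rhdd4d9ddb3f0dbcdd : CRef := CRef.mk (Pat.mk 0x8000000000000001e000000120000000000000000 0x80000000a0000000b0000003e000000160000000400000004 5 6) 0 0 (step_sound _ 66 [(rh18965a982d73c794.shift 1 2), rh8f5c57c10a491c8e] (by decide +kernel))
noncomputable def rh2443cefd31af890f : CRef := CRef.mk (Pat.mk 0x100000000000000038000000200000000000000000 0x100000001000000010000000fc0000003f0000000800000008 5 8) 0 0 (step_sound _ 132 [(rh2145e1d24b96a57e.shift 4 2), rh37c4339f8da0dbf5] (by decide +kernel))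
noncomputable def rhc1a9b2edc7486875 : CRef := CRef.mk (Pat.mk 0x200000002000000080000000f00000004 0x1f0000001e000000080000000f0000001c 5 5) 0 0 (step_sound _ 99 [(rh5c5e593799055d58.shift 2 0), rhe0e8f1a60e1decd5] (by decide +kernel))
noncomputable def rhbce0f12bd9296d97 : CRef := CRef.mk (Pat.mk 0x6000000030000000600000004000000000000000000000000 0x400000006000000030000000700000007000000030000000300000002 5 3) 0 0 (step_sound _ 97 [rh1152aee0afa96cae, (rh2f68792b6b779e96.shift 1 3)] (by decide +kernel))
noncomputable def rhd1ec8d824844addf : CRef := CRef.mk (Pat.mk 0x80000000e000000180000001800000000 0x40000000c0000000e0000001b0000001f00000006 5 5) 0 0 (step_sound _ 34 [rh42bd7b3db6893e22, (rh932754581e0f4330.shift 2 0)] (by decide +kernel))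
noncomputable def rh1b9effff634a43c9 : CRef := CRef.mk (Pat.mk 0x80000000800000018000000180000000000000000 0x8000000080000001f0000007f0000000c00000004 5 7) 0 0 (step_sound _ 69 [(rh13104bf9491e5713.shift 2 0), (rhe2b63c00a3d7bb73.shift 1 2), (rhfd68868dd6d945e5.shift 0 1)] (by decide +kernel))
noncomputable def rhee5a3a5c88bf0d79 : CRef := CRef.mk (Pat.mk 0x200000002000000000000000f0000000c 0x1f0000001e000000180000000f0000000c 5 5) 0 0 (step_sound _ 67 [(rh33e738c4ed385b9f.shift 0 1), rhf12b12074bdf877d] (by decide +kernel))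
noncomputable def rh7dc371a889c7a211 : CRef := CRef.mk (Pat.mk 0x2000000120000001e00000006 0x20000000380000003d0000001f0000001a0000001e0000000e 5 6) 0 0 (step_sound _ 132 [(rh2fdd01cf0650465e.shift 1 0), (rh50bf2dc507802e74.shift 3 0), (rha24d3ca070557b0a.shift 2 0), rhc38176d5265d3b20] (by decide +kernel))
noncomputable def rh77264bd419824fe3 : CRef := CRef.mk (Pat.mk 0x3000000020000000e0000000600000000 0xc0000001f0000001b0000000e0000000600000002 5 5) 0 0 (step_sound _ 130 [(rh2f68792b6b779e96.shift 1 1), rhe965b4ab85f0afd2] (by decide +kernel))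
noncomputable def rh945dbac8797118fc : CRef := CRef.mk (Pat.mk 0x1e000000120000000000000000 0x4000000040000003f0000001e0000000300000002 5 6) 0 0 (step_sound _ 66 [(rh18965a982d73c794.shift 1 2), rh238382ac6661bafa] (by decide +kernel))
noncomputable def rh7608513f662c34ef : CRef := CRef.mk (Pat.mk 0x400000002000000060000000a0000000000000000 0x600000006000000060000003e0000000700000004 5 6) 0 0 (step_sound _ 33 [rh7fe489c53abaf684, (rhbaefcd01e0a8bca3.shift 1 1)] (by decide +kernel))
noncomputable def rh6221654d33f9ba0a : CRef := CRef.mk (Pat.mk 0x4000000000000001e0000000800000000 0x4000000040000003e0000003f00000003 5 6) 0 0 (step_sound _ 33 [rhd1f0a48d41e8cd0e, (rheb0810cc63b001d8.shift 0 1)] (by decide +kernel))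
noncomputable def rh987ec049dc38e70c : CRef := CRef.mk (Pat.mk 0x14000000020000001e00000000 0x1000000070000001f000000020000001e00000003 5 5) 0 0 (step_sound _ 1 [rh6101fe544e2241cc, rheb0810cc63b001d8] (by decide +kernel))
noncomputable def rhd42f4b979a54c057 : CRef := CRef.mk (Pat.mk 0x800000008000000000000001e000000120000000000000000 0x80000000c000000040000003f0000001e0000000300000002 5 6) 0 0 (step_sound _ 66 [(rh18965a982d73c794.shift 1 2), rhd789752bdd727406] (by decide +kernel))
noncomputable def rha6706bf25ecab9ca : CRef := CRef.mk (Pat.mk 0x4000000140000000e0000001800000000 0x100000003c0000003f0000000e0000001800000010 5 6) 0 0 (step_sound _ 99 [(rh18965a982d73c794.shift 1 2), rh8bfafb9e7ef9ac91] (by decide +kernel))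
noncomputable def rh41ff50436c12a17e : CRef := CRef.mk (Pat.mk 0x4000000140000000e00000018 0x180000003c000000370000001e00000018 5 6) 0 0 (step_sound _ 36 [(rh33e738c4ed385b9f.shift 1 1), rh793fea27c223a5da] (by decide +kernel))
noncomputable def rh30ba31b1ecf09c30 : CRef := CRef.mk (Pat.mk 0x1c0000000e000000180000000000000000 0x10000000300000001f0000001e0000001f0000003000000030 5 6) 0 0 (step_sound _ 100 [(rh7c670c94442132e7.shift 0 2), rhee2f2527188aceae] (by decide +kernel))
noncomputable def rh226032381ad4e358 : CRef := CRef.mk (Pat.mk 0x1800000018000000100000001800000000 0x40000001f000000380000001e0000007800000020 5 7) 0 0 (step_sound _ 37 [(rh018c4ad94901e10b.shift 0 1), (rh55afc6a59410cf00.shift 4 0)] (by decide +kernel))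
noncomputable def rh600a09006fe572b6 : CRef := CRef.mk (Pat.mk 0x1c000000180000000000000000 0xc0000000c0000000f0000003c000000180000001800000010 5 6) 0 0 (step_sound _ 131 [(rh3cc6e9c124bc2ac4.shift 0 1), (rh55a1f6c57a317ce6.shift 3 0), rh99255533f84427b9] (by decide +kernel))
noncomputable def rhdc3e2e859da4bd92 : CRef := CRef.mk (Pat.mk 0x1800000018000000380000000000000000 0x40000001f000000f8000000780000000c00000004 5 8) 0 0 (step_sound _ 130 [(rh6292bd8784ece55f.shift 1 3), rh7b9158543583fc8d, (rhc132b7758f1003ce.shift 2 1)] (by decide +kernel))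
noncomputable def rhdb73785d96c3936b : CRef := CRef.mk (Pat.mk 0x18000000180000001800000000 0xc0000000c0000001f000000380000001800000008 5 6) 0 0 (step_sound _ 131 [(rh2145e1d24b96a57e.shift 3 1), rh52a8186fa95d20a6] (by decide +kernel))
noncomputable def rh9c4496df4299e4fb : CRef := CRef.mk (Pat.mk 0x8000000080000001800000070000000000000000000000000 0x40000000c0000001c000000380000007f000000e80000000800000008 5 8) 0 0 (step_sound _ 99 [(rh544fd3f279a4d968.shift 2 0), (rhe74f96057964b96f.shift 0 2)] (by decide +kernel))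
noncomputable def rhe87fc85786a79de4 : CRef := CRef.mk (Pat.mk 0x300000003000000020000000200000000 0x200000002000000060000000700000003000000070000000600000004 5 3) 0 0 (step_sound _ 130 [(rh2f68792b6b779e96.shift 1 1), rh330f820e7f44bd5b] (by decide +kernel))
noncomputable def rh3a483640d1bb9fdb : CRef := CRef.mk (Pat.mk 0x300000003000000020000000200000000 0x200000006000000060000000700000003000000030000000300000001 5 3) 0 0 (step_sound _ 32 [rh932754581e0f4330, (rhb48b73a6ce331f7a.shift 0 1)] (by decide +kernel))
noncomputable def rha8230855b165d746 : CRef := CRef.mk (Pat.mk 0x60000000c0000000c0000000800000000 0x180000003e0000003f0000000c0000000c00000004 5 6) 0 0 (step_sound _ 100 [rh59fa0dd343a43444, (rhf48373e13d2bc128.shift 1 3)] (by decide +kernel))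
noncomputable def rh959f00b1d87effbc : CRef := CRef.mk (Pat.mk 0xc00000018000000180000001000000000 0x1000000030000000ff0000001c000000180000003800000020 5 8) 0 0 (step_sound _ 129 [(rh7420a7af4410273d.shift 1 0), (rhb739f4f82bb681b4.shift 0 3)] (by decide +kernel))
noncomputable def rh40c721d14692094d : CRef := CRef.mk (Pat.mk 0x80000001800000010000000300000002000000000 0x20000000ef0000007e00000070000000700000006000000040 5 8) 0 0 (step_sound _ 133 [(rh40de1aea1718382e.shift 2 1), (rh59a2b03782c241f6.shift 1 0), (rha9fbfd4bb8cf890b.shift 0 4)] (by decide +kernel))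
noncomputable def rh9c4154f04f6b27ec : CRef := CRef.mk (Pat.mk 0x3800000010000000300000002000000000 0x20000000670000003e00000077000000300000006000000040 5 7) 0 0 (step_sound _ 130 [(rh775ca1963e850b80.shift 0 3), (rha03f6e28ea70fc7d.shift 1 3), (rhd60a62d0d7bb46c0.shift 2 0)] (by decide +kernel))
noncomputable def rh8b983d8d38afc2fd : CRef := CRef.mk (Pat.mk 0x800000008000000080000000800000000 0x140000001f00000038000000080000000800000008 5 6) 0 0 (step_sound _ 132 [(rh2f68792b6b779e96.shift 3 1), rh9955b4045fc97d81] (by decide +kernel))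
noncomputable def rh129fbcef5390873d : CRef := CRef.mk (Pat.mk 0x180000000c00000008000000080000000800000000 0x800000008000000180000000f0000003c000000180000000800000008 5 6) 0 0 (step_sound _ 98 [(rh7b1f1fb55310c477.shift 2 0), (rh8564be3c15eb8f39.shift 0 2)] (by decide +kernel))
noncomputable def rhe52e8b7c2168ec2d : CRef := CRef.mk (Pat.mk 0x400000001c000000300000002000000000 0x8000000680000003c0000003f0000007600000004 5 7) 0 0 (step_sound _ 66 [(rh4a2d14650c96af18.shift 1 2), (rh508fa74cd2e3b99f.shift 0 1), (rh7f0fa6c019c0f31a.shift 1 0)] (by decide +kernel))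
noncomputable def rh2de91f97942d4665 : CRef := CRef.mk (Pat.mk 0x10000000060000001c000000080000000800000000 0x8000000180000001a0000000e0000001c0000003c0000000f00000006 5 6) 0 0 (step_sound _ 34 [(rh2e09a1f486fce422.shift 1 0), (rh5cddbefd8575cc45.shift 2 0), rhf7c27e59b1d77735] (by decide +kernel))
noncomputable def rh6af88838b482281b : CRef := CRef.mk (Pat.mk 0xc0000000c000000040000000c00000000 0x100000007c0000000e0000000f0000003c00000010 5 7) 0 0 (step_sound _ 132 [rh0b48232756d2831b, (rh2612b4f73ba7c3b3.shift 1 3)] (by decide +kernel))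
noncomputable def rh684e3980fc340d4b : CRef := CRef.mk (Pat.mk 0x180000003800000010 0x18000000ff0000003e 5 8) 0 0 (step_sound _ 38 [rh2ccea04b951e92fb, (rhf48373e13d2bc128.shift 3 1)] (by decide +kernel))
noncomputable def rh078be11dcbb2c9c6 : CRef := CRef.mk (Pat.mk 0x60000001c0000000800000018 0x20000000200000002000000060000001f0000003f0000003c 5 6) 0 0 (step_sound _ 33 [(rh076be03eb7063320.shift 0 1), rh7b98e4346fbcce97, rhd2326e162a013723, (rhd526f9b20c752965.shift 0 1)] (by decide +kernel))
noncomputable def rh5314ad494858c628 : CRef := CRef.mk (Pat.mk 0xc00000018000000080000000800000000 0x80000000c000000780000001f0000000c00000004 5 7) 0 0 (step_sound _ 34 [(rh932754581e0f4330.shift 2 0), (rhd708c45c33bad245.shift 0 1)] (by decide +kernel))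
noncomputable def rh99d24683c7e1c48d : CRef := CRef.mk (Pat.mk 0x40000000c0000000c00000008 0x8000000180000003e0000007f0000000c0000000c 5 7) 0 0 (step_sound _ 68 [rh28f495a60bbf0485, (rhb762f327c85d41a0.shift 1 1)] (by decide +kernel))
noncomputable def rhafbb95de565953c9 : CRef := CRef.mk (Pat.mk 0x38000000000000001000000038 0x1c7000000fe000001cf0000001e00000078 5 9) 0 0 (step_sound _ 102 [(rh3fc3a7fb6866dcd4.shift 3 2), rha491d167502ea13f] (by decide +kernel))
noncomputable def rh057337f4ba57fe6f : CRef := CRef.mk (Pat.mk 0x8000000080000001e0000001a000000000000000000000000 0x80000000b0000001e0000001e000000070000000700000005 5 5) 0 0 (step_sound _ 161 [(rh3244c3cc8379b070.shift 0 4), rhb3c80c35af28240f] (by decide +kernel))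
noncomputable def rh7792aab5cab05a6d : CRef := CRef.mk (Pat.mk 0xc00000008000000080000001e00000000 0x100000003c0000000f0000000c0000001e00000003 5 6) 0 0 (step_sound _ 132 [(rh2f68792b6b779e96.shift 3 1), rhe83a8acacb6a8086] (by decide +kernel))
noncomputable def rhbda094784f1e2542 : CRef := CRef.mk (Pat.mk 0x1800000008000000080000001e00000000 0x40000001f0000000f0000000b0000001e00000003 5 5) 0 0 (step_sound _ 65 [(rh3244c3cc8379b070.shift 0 1), rh9ce60a7f3ac0a88a] (by decide +kernel))
noncomputable def rhdcd5b43d4389d8a3 : CRef := CRef.mk (Pat.mk 0x38000000040000003000000030 0x70000003e000000060000003e00000074 5 7) 0 0 (step_sound _ 98 [rh7d71b2e633b5d3f5, (rheb0810cc63b001d8.shift 1 2)] (by decide +kernel))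
noncomputable def rh4acffa486b180fab : CRef := CRef.mk (Pat.mk 0x10000000000000002000000020000000200000000 0x4000000070000000700000002000000060000000600000004 5 3) 0 0 (step_sound _ 129 [(rhced6d86d2069808b.shift 1 0), (rhffd04209dc8ea796.shift 0 1)] (by decide +kernel))
noncomputable def rh8ab889dd887170ab : CRef := CRef.mk (Pat.mk 0x1000000000000000080000001c00000000 0x1000000010000001f8000000ff000001e0 5 9) 0 0 (step_sound _ 37 [(rh3fc3a7fb6866dcd4.shift 2 0), (rh5744ed557bb5a452.shift 0 1), (rhb7c7938b7c3b8a55.shift 2 0), (rhbcd52c91d552d530.shift 1 0), (rhc3f8d890a3bb80c0.shift 2 0), rhf3731febd9c20499] (by decide +kernel))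
noncomputable def rh42927e8681244a7b : CRef := CRef.mk (Pat.mk 0x1000000000000000200000002000000020000000000000000 0x5000000070000000600000002000000060000000600000004 5 3) 0 0 (step_sound _ 161 [(rh6c59ce14113da07f.shift 1 0), (rhffd04209dc8ea796.shift 0 2)] (by decide +kernel))
noncomputable def rh77a0878b5373d71d : CRef := CRef.mk (Pat.mk 0x3c0000000c000000080000000800000000 0x600000003f0000003c000000180000001800000010 5 7) 0 0 (step_sound _ 36 [(rh4087053d276c63a2.shift 0 1), (rh55afc6a59410cf00.shift 3 0)] (by decide +kernel))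
noncomputable def rhc87b937b64e495b5 : CRef := CRef.mk (Pat.mk 0x8000000000000001e000000180000000000000000 0x80000000b0000003e0000001f0000000400000004 5 6) 0 0 (step_sound _ 129 [(rh3244c3cc8379b070.shift 0 3), rhdd97c32a4e91ad64] (by decide +kernel))
noncomputable def rh3580d012a1f304b7 : CRef := CRef.mk (Pat.mk 0x4000000100000001e00000018 0x380000003c000000170000001e00000018 5 6) 0 0 (step_sound _ 100 [(rh5c5e593799055d58.shift 3 0), rh75cbd47c5d9d0740] (by decide +kernel))
noncomputable def rhb0f420dcc7ac1c8f : CRef := CRef.mk (Pat.mk 0x380000001c00000000 0x2000000020000000670000003f0000007c00000010 5 7) 0 0 (step_sound _ 66 [(rh5c2ddd300f751bae.shift 1 1), (rh75a8828f210a78cf.shift 2 0), (rhba89ab7cb81bcc90.shift 0 1)] (by decide +kernel))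
noncomputable def rh7b944570079f6afb : CRef := CRef.mk (Pat.mk 0x4000000000000000e00000002 0x600000006000000030000003e00000007 5 6) 0 0 (step_sound _ 36 [rhb633056c3f8b1a07, rheb0810cc63b001d8] (by decide +kernel))
noncomputable def rh2573c90a72219f55 : CRef := CRef.mk (Pat.mk 0x20000000e000000080000000000000000 0x10000000330000001e000000380000000800000008 5 6) 0 0 (step_sound _ 100 [(rh3244c3cc8379b070.shift 0 3), (rh8226ff7f0d2fe0a7.shift 1 0)] (by decide +kernel))
noncomputable def rheafe16f0deea3b1c : CRef := CRef.mk (Pat.mk 0x4000000020000001e0000000a 0x1000000170000001f000000320000001e0000000a 5 6) 0 0 (step_sound _ 97 [(rh2f68792b6b779e96.shift 1 0), rhfaf10e0fcdca59e5] (by decide +kernel))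
noncomputable def rh5c540ae62c613092 : CRef := CRef.mk (Pat.mk 0x8000000040000001c0000005000000000 0xc0000000c000000040000001c0000007f00000002 5 7) 0 0 (step_sound _ 35 [rh1e8f96b5740c0428, (rh2fe78cc5ca4405d8.shift 2 1)] (by decide +kernel))
noncomputable def rh7e0ee40cdcec552d : CRef := CRef.mk (Pat.mk 0x4000000020000000e0000000000000000 0x10000000700000007000000720000003e0000000700000001 5 7) 0 0 (step_sound _ 33 [rh455743481e179fac, (rhdc1641106d7e5aa2.shift 0 1), (rhe7d208b70c184706.shift 0 1)] (by decide +kernel))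
noncomputable def rh4f7c45ff44e554b2 : CRef := CRef.mk (Pat.mk 0xc000000040000000c00000000 0x2000000070000003e000000040000000c0000000c 5 6) 0 0 (step_sound _ 130 [(rh55afc6a59410cf00.shift 2 0), rh8fab73097cf3a8c4] (by decide +kernel))
noncomputable def rhbf8fc0c2e4fed52e : CRef := CRef.mk (Pat.mk 0x4000000020000000e00000000 0x600000006000000030000003e00000007 5 6) 0 0 (step_sound _ 36 [(rh3244c3cc8379b070.shift 0 1), rhbbe29788f75f2f78] (by decide +kernel))
noncomputable def rh50adf6240d80d4e7 : CRef := CRef.mk (Pat.mk 0x800000000000000180000001000000000 0x80000000800000008000000380000001f00000014 5 6) 0 0 (step_sound _ 99 [(rh2145e1d24b96a57e.shift 3 1), rha5ad71a109986e64] (by decide +kernel))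
noncomputable def rh0c40da2ec9ce70d0 : CRef := CRef.mk (Pat.mk 0x400000004000000000000001800000008000000080000000800000000 0x400000006000000030000003f0000003f000000080000000800000008 5 6) 0 0 (step_sound _ 130 [(rh2e02ae96d64880aa.shift 2 0), (rh344b2a22d3a9f67b.shift 0 3), rhfe0270f45009c77d] (by decide +kernel))
noncomputable def rhdd4a88dd80c6f4d0 : CRef := CRef.mk (Pat.mk 0x200000004000000040000000400000000 0xa0000003e00000007000000040000000400000004 5 6) 0 0 (step_sound _ 130 [(rh50fbb5868c909700.shift 1 1), rh67f38977494a28b8] (by decide +kernel))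
noncomputable def rhd70684f67721368b : CRef := CRef.mk (Pat.mk 0x60000001e00000004 0x3000000030000003e0000001e00000007 5 6) 0 0 (step_sound _ 1 [rhca2368649289e662, rheb0810cc63b001d8] (by decide +kernel))
noncomputable def rh855cb42074aae6cc : CRef := CRef.mk (Pat.mk 0x40000001e00000004 0x2000000030000003f0000001f00000004 5 6) 0 0 (step_sound _ 65 [(rh3244c3cc8379b070.shift 0 1), rh90466d99f0f48f3c] (by decide +kernel))
noncomputable def rh4e69eed3bf238a02 : CRef := CRef.mk (Pat.mk 0x1e0000001c00000000 0x1a0000001a0000003f0000001e0000001c00000004 5 6) 0 0 (step_sound _ 100 [(rh33e738c4ed385b9f.shift 1 2), rh64f70bcb48881009] (by decide +kernel))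
noncomputable def rh815f4fc3e21acd28 : CRef := CRef.mk (Pat.mk 0x2000000020000000200000002 0x5000000070000000700000003000000030000000300000003 5 3) 0 0 (step_sound _ 129 [rh20966da26a1c2ae8, rh3ca48e2a6d60153d, rh771d065bdc85bf2d] (by decide +kernel))
noncomputable def rh723b1b4d69aa77dc : CRef := CRef.mk (Pat.mk 0x2000000020000000200000002 0x1000000070000000700000006000000030000000300000003 5 3) 0 0 (step_sound _ 129 [(rh44f453b84f013105.shift 1 0), rh6ae4a25ccd36a5ab, rh771d065bdc85bf2d] (by decide +kernel))
noncomputable def rha885c1248e783739 : CRef := CRef.mk (Pat.mk 0x100000001e00000018 0x30000000300000001f0000003e00000018 5 6) 0 0 (step_sound _ 100 [(rh5c5e593799055d58.shift 3 0), rh7dedfdfb3cbaa682] (by decide +kernel))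
noncomputable def rh21703bbb6af57eb9 : CRef := CRef.mk (Pat.mk 0x1e000000180000000000000000 0x4000000040000003e0000001f0000000300000002 5 6) 0 0 (step_sound _ 65 [rh06d1b4e63eb56a91, (rheb0810cc63b001d8.shift 0 2)] (by decide +kernel))
noncomputable def rh60bc78ca606eddaf : CRef := CRef.mk (Pat.mk 0x1e0000001a0000000000000000 0x4000000370000001e0000001e0000000300000003 5 6) 0 0 (step_sound _ 132 [(rh33e738c4ed385b9f.shift 1 3), rh4ed8f83e52b7dbab] (by decide +kernel))
noncomputable def rh7a353b663afb4e09 : CRef := CRef.mk (Pat.mk 0x60000001e000000000000000800000008 0x60000001e000000030000000f0000001f 5 5) 0 0 (step_sound _ 65 [(rheb0810cc63b001d8.shift 0 2), rhfce0c3db2547ee36] (by decide +kernel))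
noncomputable def rh96937d61ef02b42d : CRef := CRef.mk (Pat.mk 0x180000001800000008 0x1c0000001c0000001f000000380000001800000008 5 6) 0 0 (step_sound _ 99 [rh5aa5e9dc84124dd6, (rh7b9fbdf6d2d059e4.shift 2 0), (rhc0301b400ca2a736.shift 3 0)] (by decide +kernel))
noncomputable def rh3e9601eff8aa538d : CRef := CRef.mk (Pat.mk 0x180000007800000000 0xf80000007f00000007 5 8) 0 0 (step_sound _ 70 [(rh33e738c4ed385b9f.shift 3 1), rhf062016f557148a6] (by decide +kernel))
noncomputable def rhd4de6f1d5a5f06a0 : CRef := CRef.mk (Pat.mk 0x2000000020000000200000006000000000000000000000000 0x200000002000000060000000600000007000000030000000300000002 5 3) 0 0 (step_sound _ 64 [rh18c55e05eba45f4a, (rh79877ebd3ef475dd.shift 0 2)] (by decide +kernel))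
noncomputable def rhefd79340f4dd10da : CRef := CRef.mk (Pat.mk 0x2000000020000000300000002000000000000000000000000 0x400000006000000070000000300000002000000030000000300000001 5 3) 0 0 (step_sound _ 194 [(rh2f68792b6b779e96.shift 1 3), rhe820ba563cc6fa31] (by decide +kernel))
noncomputable def rh5dda60926a83f643 : CRef := CRef.mk (Pat.mk 0x10000000100000001c0000000e000000000000000000000000 0x1c0000001c0000001c0000007e000000370000001200000002 5 7) 0 0 (step_sound _ 100 [(rh06e944087bf4ca98.shift 0 2), rhcfde16a7ff36af03, (rhea719cc8bd0bdd28.shift 1 1)] (by decide +kernel))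
noncomputable def rha7be43fe7390d594 : CRef := CRef.mk (Pat.mk 0x10000000380000002c0000000000000000 0x10000000380000002f0000007c00000028 5 7) 0 0 (step_sound _ 35 [(rh71222050f2c63a3a.shift 3 0), rh7fe21e0494e9b6c7] (by decide +kernel))
noncomputable def rh2d1293cdc582ffee : CRef := CRef.mk (Pat.mk 0x40000001c00000014000000000000000000000000 0x2000000070000001f0000001f000000070000000600000002 5 5) 0 0 (step_sound _ 99 [(rh537c67efd11d1fdc.shift 0 1), rhbd0b832b6a6e272b, (rhcb1fef223c62f2ee.shift 0 1)] (by decide +kernel))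
noncomputable def rhe0ae70e64d66fa49 : CRef := CRef.mk (Pat.mk 0x400000004000000000000000e00000008 0x400000006000000730000003e0000007f 5 7) 0 0 (step_sound _ 5 [(rh68691964b29f233d.shift 1 0), (rhe28dc3223a412fc9.shift 1 0), rhf0fec79e7a800969] (by decide +kernel))
noncomputable def rh51a9ef21965626be : CRef := CRef.mk (Pat.mk 0x10000000000000002000000020000000200000000 0x30000000300000002000000070000000700000005 5 3) 0 0 (step_sound _ 129 [rhce9a49803a550f13, (rhffd04209dc8ea796.shift 0 1)] (by decide +kernel))
noncomputable def rhea06e7f9fd5aef33 : CRef := CRef.mk (Pat.mk 0x80000000c00000008000000000000000000000000 0x140000003c0000001f00000008000000180000001800000010 5 6) 0 0 (step_sound _ 67 [(rh20ee5c2c4c3a9878.shift 0 2), (rh6c59ce14113da07f.shift 3 0), (rhe286c75f2739cce2.shift 2 1)] (by decide +kernel))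
noncomputable def rh2e674eb34a342e27 : CRef := CRef.mk (Pat.mk 0x3800000010 0x70000007e000000ff 5 8) 0 0 (step_sound _ 34 [rh775ca1963e850b80, (rha03f6e28ea70fc7d.shift 1 0), (rha55e9a51d19a998f.shift 1 0)] (by decide +kernel))
noncomputable def rhb727fe8857cd677f : CRef := CRef.mk (Pat.mk 0x6000000020000000200000002000000000000000000000000 0x6000000060000000200000003000000070000000700000004 5 3) 0 0 (step_sound _ 65 [(rhbaefcd01e0a8bca3.shift 1 2), rhc8d8968d053fe9bb] (by decide +kernel))
noncomputable def rh2767df65193176ea : CRef := CRef.mk (Pat.mk 0x80000000c0000000800000008000000080000000000000000 0x180000001f0000000c000000080000000c0000000c00000004 5 5) 0 0 (step_sound _ 196 [rh7fb0429d473d622b, (rhbaefcd01e0a8bca3.shift 3 2)] (by decide +kernel))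
noncomputable def rh6d0c79231951a05e : CRef := CRef.mk (Pat.mk 0x100000002000000020000000200000000 0x30000000300000002000000070000000700000005 5 3) 0 0 (step_sound _ 129 [(rh50fbb5868c909700.shift 0 1), rhc9ac229b3c77cd55] (by decide +kernel))
noncomputable def rh02f2484ff4ddb10f : CRef := CRef.mk (Pat.mk 0xc0000001e0000000000000000 0x2000000030000003f0000001e0000000400000004 5 6) 0 0 (step_sound _ 97 [rh0c6c933ef0e0882e, (rh3244c3cc8379b070.shift 0 2)] (by decide +kernel))
noncomputable def rh4a291c532582554d : CRef := CRef.mk (Pat.mk 0x40000001e000000080000000000000000 0x40000003e0000003f0000000300000002 5 6) 0 0 (step_sound _ 68 [rh5dc64652fdd44fa3, (rhe25b0a99195a5d59.shift 1 2)] (by decide +kernel))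
noncomputable def rh7ff0991ff731ccf7 : CRef := CRef.mk (Pat.mk 0x4000000000000000c0000001c00000000 0x4000000040000007c0000007e00000003 5 7) 0 0 (step_sound _ 37 [rh6946abc6a0d3a574, (rhf48373e13d2bc128.shift 2 1)] (by decide +kernel))
noncomputable def rh5c429875cf5358f7 : CRef := CRef.mk (Pat.mk 0x200000002000000040000000400000000 0xa0000003e00000007000000040000000400000004 5 6) 0 0 (step_sound _ 98 [(rh7b1f1fb55310c477.shift 1 0), (rhb7563c89e784e268.shift 0 1)] (by decide +kernel))
noncomputable def rh4d8f05195de6323f : CRef := CRef.mk (Pat.mk 0x30000000180000003000000020 0x300000001e0000007f00000070 5 7) 0 0 (step_sound _ 66 [(rh53b3c253cb0c65f4.shift 1 2), rh88e3bb4419448235] (by decide +kernel))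
noncomputable def rhd42d99ecbd00ef0c : CRef := CRef.mk (Pat.mk 0x18000000040000000c0000000800000000 0x10000000180000000c0000000f0000003c00000014 5 6) 0 0 (step_sound _ 99 [(rh2f68792b6b779e96.shift 3 1), rh3701152bc77ed296] (by decide +kernel))
noncomputable def rhee56eb60375f83c2 : CRef := CRef.mk (Pat.mk 0x1800000008000000180000000800000008000000080000000000000000 0x180000000f0000001c0000001800000008000000180000001800000010 5 5) 0 0 (step_sound _ 194 [rh5ea6075340d663e1, (rhffd04209dc8ea796.shift 2 2)] (by decide +kernel))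
noncomputable def rh705acc7d329976c8 : CRef := CRef.mk (Pat.mk 0x180000000e000000180000000000000000 0x380000003e0000001f0000003000000010 5 6) 0 0 (step_sound _ 100 [rh1e1fdd334f5b3198, (rh33e738c4ed385b9f.shift 1 3)] (by decide +kernel))
noncomputable def rhf8f0e81b701c7c76 : CRef := CRef.mk (Pat.mk 0x70000000100000007000000000000000000000000 0x20000000a0000001e0000000700000005000000070000001e0000000a00000002 5 5) 0 0 (step_sound _ 130 [(rh281c6819542c66e6.shift 1 0), (rh802c7087213427b5.shift 0 2), (rhd01ed0cc6ce530d4.shift 0 2), (rhe3e29ad984c3b423.shift 0 1)] (by decide +kernel))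
noncomputable def rhe89f7170993cdb84 : CRef := CRef.mk (Pat.mk 0x40000000e000000040000000600000000 0x180000003c0000000e0000003c0000000f00000008 5 6) 0 0 (step_sound _ 131 [(rh2f68792b6b779e96.shift 2 1), rh5ed45db54a2b1f8c] (by decide +kernel))
noncomputable def rh51c199f4bf0b3538 : CRef := CRef.mk (Pat.mk 0xc000000040000000c0000000400000000 0x100000003c0000000f0000000c0000000c0000000c 5 6) 0 0 (step_sound _ 99 [rh677e6fbb651585de, (rh71222050f2c63a3a.shift 2 0)] (by decide +kernel))
noncomputable def rh6b8c4edf951392d7 : CRef := CRef.mk (Pat.mk 0x10000000180000000800000018 0xc0000001e000000780000001f0000003c 5 7) 0 0 (step_sound _ 99 [rh1449db2e2355f76c, (rh3e6658e7c3dcf240.shift 1 0), (rhcf85c92937975d4d.shift 1 0)] (by decide +kernel))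
noncomputable def rh7e3fd002aa70da8f : CRef := CRef.mk (Pat.mk 0x80000000800000008000000080000000c00000018 0x140000001c0000001c0000000800000008000000080000000f00000018 5 5) 0 0 (step_sound _ 33 [(rh1741680720c097b4.shift 2 2), rhb739f4f82bb681b4] (by decide +kernel))
noncomputable def rhb19752b4b16e80fb : CRef := CRef.mk (Pat.mk 0xc000000040000000c0000000c00000000 0x100000003c0000000f0000000e0000007c00000010 5 7) 0 0 (step_sound _ 36 [(rh79b3c29022acbdf3.shift 1 1), rh989d47d0e3b00ee1] (by decide +kernel))
noncomputable def rh96193300aa4d5318 : CRef := CRef.mk (Pat.mk 0x200000003000000020000000000000000 0x100000003000000030000000200000007000000070000000700000005 5 3) 0 0 (step_sound _ 161 [(rh03dfdf12d5937476.shift 0 1), (rh5abfc4c9d959be03.shift 0 1), rh74b3eef2d5b4c994] (by decide +kernel))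
noncomputable def rhb02f09656ae69562 : CRef := CRef.mk (Pat.mk 0x1e000000040000000000000000 0x200000002000000030000001e000000360000000400000004 5 6) 0 0 (step_sound _ 68 [rhaa738e8eddf7e18b, (rhe25b0a99195a5d59.shift 1 2)] (by decide +kernel))
noncomputable def rh21f109e51ef20def : CRef := CRef.mk (Pat.mk 0x800000008000000080000000800000000 0x800000008000000080000001f0000003c00000010 5 6) 0 0 (step_sound _ 36 [(rh55afc6a59410cf00.shift 3 0), (rh813401fddd07cc25.shift 0 1)] (by decide +kernel))
noncomputable def rh9340b6a41f320436 : CRef := CRef.mk (Pat.mk 0x2000000020000000200000002 0x5000000070000000700000003000000060000000600000006 5 3) 0 0 (step_sound _ 129 [(rh1741680720c097b4.shift 0 1), rh3ca48e2a6d60153d, (rhced6d86d2069808b.shift 1 0)] (by decide +kernel))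
noncomputable def rhe026e51402e8b5a6 : CRef := CRef.mk (Pat.mk 0x1c00000000000000080000000e00000000 0xc0000003e000000070000000e0000000e00000006 5 6) 0 0 (step_sound _ 98 [(rh12cda698427604cb.shift 1 0), rh259a50038ef9c339, (rh28571dfdf760e747.shift 2 1)] (by decide +kernel))
noncomputable def rhcbe8df3b6aeede57 : CRef := CRef.mk (Pat.mk 0xe00000000000000040000000700000000 0x770000003e00000003000000060000000700000001 5 7) 0 0 (step_sound _ 97 [rh12cda698427604cb, (rh5024bbfb5139b661.shift 0 3), rh79a48be3ac30af6a] (by decide +kernel))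
noncomputable def rhe489f3962952fa63 : CRef := CRef.mk (Pat.mk 0x80000000c000000000000001e00000006 0x7e0000001f000000020000001f0000003e 5 7) 0 0 (step_sound _ 4 [rh57d9e4b58f75ab53, (rhe25b0a99195a5d59.shift 1 0)] (by decide +kernel))
noncomputable def rh007f74e4637ab3e0 : CRef := CRef.mk (Pat.mk 0x1a0000001e0000000000000000 0x3000000030000001e0000001e0000003700000004 5 6) 0 0 (step_sound _ 33 [rh87bff48f4874c82b, (rheb0810cc63b001d8.shift 0 1)] (by decide +kernel))
noncomputable def rha40994045c6a855c : CRef := CRef.mk (Pat.mk 0x1e00000006000000000000000000000000 0x40000001f0000003e000000030000000200000002 5 6) 0 0 (step_sound _ 100 [rh9bb455da33111465, (rhe25b0a99195a5d59.shift 1 3)] (by decide +kernel))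
noncomputable def rhc297a2f3362aea03 : CRef := CRef.mk (Pat.mk 0x800000008000000000000000600000016000000000000000000000000 0x1f0000000f00000002000000070000001e000000070000000600000006 5 5) 0 0 (step_sound _ 161 [(rh3e595262c1b737ad.shift 1 2), (rha338f53bff9955d9.shift 0 3), rhbb0985821cb8fd64] (by decide +kernel))
noncomputable def rh7fa47a9cc089c0a8 : CRef := CRef.mk (Pat.mk 0x400000004000000040000000200000000 0x40000000400000004000000070000003e0000000a 5 6) 0 0 (step_sound _ 34 [rh49c84b78421e0bb2, (rh932754581e0f4330.shift 1 0)] (by decide +kernel))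
noncomputable def rhb083f739e1ba9c59 : CRef := CRef.mk (Pat.mk 0x2000000020000000200000001 0x50000000700000007000000020000000300000003 5 3) 0 0 (step_sound _ 129 [rh32e32f03ae89b559, rh79877ebd3ef475dd] (by decide +kernel))
noncomputable def rhbc0930b8ae400bb5 : CRef := CRef.mk (Pat.mk 0x20000000700000009 0x760000003f0000001b 5 7) 0 0 (step_sound _ 35 [rhe25b0a99195a5d59, rhf69eab89e5fbfa83] (by decide +kernel))
noncomputable def rh301fe10ee6f1c5e1 : CRef := CRef.mk (Pat.mk 0x1e00000016000000040000000000000000 0x1000000010000000300000001f0000001e0000000c0000000400000004 5 6) 0 0 (step_sound _ 99 [(rh3244c3cc8379b070.shift 0 3), (rh8f4dbbf181c60fc7.shift 1 0)] (by decide +kernel))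
noncomputable def rhb3e5178e330c66a1 : CRef := CRef.mk (Pat.mk 0x1c0000000c 0x70000007f0000003c 5 7) 0 0 (step_sound _ 37 [rh06d16ed1005b3fa2, (rh18965a982d73c794.shift 2 0)] (by decide +kernel))
noncomputable def rh2eb911c301b29c6f : CRef := CRef.mk (Pat.mk 0x10000000180000001c0000000000000000 0x8000000380000001f0000007c0000000600000004 5 7) 0 0 (step_sound _ 98 [(rh34517e326ddb5b25.shift 0 2), (rh87e2ca517c87b4c2.shift 1 0), (rhcf86d050071af9b3.shift 1 2)] (by decide +kernel))
noncomputable def rh8e028993f20801aa : CRef := CRef.mk (Pat.mk 0x200000002000000020000000000000001 0x5000000070000000700000002000000020000000300000001 5 3) 0 0 (step_sound _ 33 [rh79877ebd3ef475dd, (rhc85cc95794737cf7.shift 0 1)] (by decide +kernel))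
noncomputable def rhb58a2e8bdb5dc37e : CRef := CRef.mk (Pat.mk 0xe0000001c00000000 0x1000000010000000700000007e0000001f00000008 5 7) 0 0 (step_sound _ 68 [(rh226655e3fe6b4a8a.shift 1 1), (rh4dc133ee0ba1420a.shift 0 1), rh7803c990586eda9c] (by decide +kernel))
noncomputable def rh0dad4d35a329f6a4 : CRef := CRef.mk (Pat.mk 0x1e00000018 0xe0000000fe0000001f 5 8) 0 0 (step_sound _ 1 [(rh1bd512052dde4f2d.shift 1 0), rheb0810cc63b001d8] (by decide +kernel))
noncomputable def rha9350609e59b0ce1 : CRef := CRef.mk (Pat.mk 0x4000000060000000400000000 0x400000004000000040000000f0000003e0000000a 5 6) 0 0 (step_sound _ 130 [(rh03dfdf12d5937476.shift 1 0), rh1a7eb770d15c3736, rh66920cdd747eb116] (by decide +kernel))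
noncomputable def rh8bf34b10d19fc0cb : CRef := CRef.mk (Pat.mk 0x800000008000000080000000800000008 0x800000008000000180000007c0000001f0000000c00000008 5 7) 0 0 (step_sound _ 100 [(rh16a18e7e5271f67f.shift 0 1), (rh2f68792b6b779e96.shift 3 0)] (by decide +kernel))
noncomputable def rh9c4cd94ef89c4f22 : CRef := CRef.mk (Pat.mk 0x200000002000000020000000200000002 0x3000000030000000700000006000000060000000600000002 5 3) 0 0 (step_sound _ 98 [(rh2f68792b6b779e96.shift 1 0), (rhec1e3f6ff489986c.shift 0 1)] (by decide +kernel))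
noncomputable def rh7ebef449d87d4d18 : CRef := CRef.mk (Pat.mk 0x1800000008000000080000000800000000 0x40000001f00000038000000080000001800000018 5 6) 0 0 (step_sound _ 130 [(rh50fbb5868c909700.shift 2 1), rhf022ec03f30809ba] (by decide +kernel))
noncomputable def rhae7e2b8ce2819d28 : CRef := CRef.mk (Pat.mk 0x300000001800000038000000000000000800000000 0x300000001f0000003f000000070000000c0000000c 5 6) 0 0 (step_sound _ 98 [(rh31b87005ef61a98a.shift 1 0), (rh87fb4af8316b9600.shift 0 3), (rhcc2be1f880c5ea3e.shift 0 2)] (by decide +kernel))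
noncomputable def rh3517ef88a07647cf : CRef := CRef.mk (Pat.mk 0x80000000c000000060000000400000000 0x60000000f0000003e000000060000000600000002 5 6) 0 0 (step_sound _ 100 [(rh18965a982d73c794.shift 1 2), rh5ed69a0be50672cc] (by decide +kernel))
noncomputable def rh74c61ce7a280c70f : CRef := CRef.mk (Pat.mk 0x80000000a0000000e00000004 0x20000001f0000007b0000001e00000004 5 7) 0 0 (step_sound _ 97 [(rh2145e1d24b96a57e.shift 1 0), (rh2f947b961fc69f72.shift 0 1)] (by decide +kernel))
noncomputable def rhd4a664a01c4589b3 : CRef := CRef.mk (Pat.mk 0x20000000e000000000000000400000000 0x70000003e000000030000000600000006 5 6) 0 0 (step_sound _ 100 [(rh3244c3cc8379b070.shift 0 3), rh9a94a4eca433c4ad] (by decide +kernel))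
noncomputable def rh8b3e02ed1b840ad5 : CRef := CRef.mk (Pat.mk 0x1a0000001e00000002 0x600000006000000070000001e0000003e00000002 5 6) 0 0 (step_sound _ 66 [rh888c394c40d62879, (rhf48373e13d2bc128.shift 1 1)] (by decide +kernel))
noncomputable def rh27ff1754563091d4 : CRef := CRef.mk (Pat.mk 0x10000000300000003000000000000000200000000 0x300000003000000030000000300000003000000010000000300000003 5 2) 0 0 (step_sound _ 192 [(rh2145e1d24b96a57e.shift 0 3), rh86d6ca7bd182d936] (by decide +kernel))
noncomputable def rha3f6c4687b10b09c : CRef := CRef.mk (Pat.mk 0x1e0000001e00000000 0x600000006000000070000001e0000001e00000003 5 5) 0 0 (step_sound _ 1 [rh888c394c40d62879, rheb0810cc63b001d8] (by decide +kernel))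
noncomputable def rhfff8d1c8f71f1b0d : CRef := CRef.mk (Pat.mk 0x8000000000000001c0000000400000004 0x80000000a0000003b0000001f0000000700000004 5 6) 0 0 (step_sound _ 99 [(rh5c5e593799055d58.shift 2 1), rha8e118612a5545ec] (by decide +kernel))
end Crest.Agent.S0047.Helper85.Cert
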