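import Crest.Agent.Lib.S0047.Helper85CertPL4F0
import Crest.Agent.Lib.S0047.Helper85CertPL4F1
import Crest.Agent.Lib.S0047.Helper85CertPL4F2
import Crest.Agent.Lib.S0047.Helper85CertPL4F3
import Crest.Agent.Lib.S0047.Helper85CertPL4F4
import Crest.Agent.Lib.S0047.Helper85CertPL4F5
import Crest.Agent.Lib.S0047.Helper85CertPL4F6
import Crest.Agent.Lib.S0047.Helper85CertPL4F7
import Crest.Agent.Lib.S0047.Helper85CertPL4F8
import Crest.Agent.Lib.S0047.Helper85CertPL4F9
set_option autoImplicit false
set_option linter.all false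
set_option Elab.async false
namespace Crest.Agent.S0047.Helper85.Cert
open Crest.Agent.S0047.Helper85

noncomputable def rhcb90f7dc76fe18cf : CRef := CRef.mk (Pat.mk 0x4000000000000000e00000002 0x4000000040000000c0000000c0000007c0000001f0000000a 5 7) 0 0 (step_sound _ 130 [(rh3c88ce959c0e423f.shift 1 0), rhcf1e7a62115e50f6] (by decide +kernel))
noncomputable def rha1693fc6c52cf8fb : CRef := CRef.mk (Pat.mk 0x18000000100000001c0000000600000004 0x80000001a000000130000001f0000001e0000000c 5 5) 0 0 (step_sound _ 36 [(rh50fbb5868c909700.shift 3 1), rh66415e3573a7b720] (by decide +kernel))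
noncomputable def rhb34f4dd79db868fc : CRef := CRef.mk (Pat.mk 0xc00000008000000080000000300000000 0x140000001c00000018000000080000000f0000001c 5 5) 0 0 (step_sound _ 35 [(rh50fbb5868c909700.shift 2 1), rh7018378b645b6600] (by decide +kernel))
noncomputable def rh64db1675dbf7175b : CRef := CRef.mk (Pat.mk 0xf00000002000000020000000200000000 0x380000001f0000003a000000020000000300000001 5 6) 0 0 (step_sound _ 32 [rh932754581e0f4330, (rha93a5dd541ab8209.shift 0 3)] (by decide +kernel))
noncomputable def rh5cd9f26d7cd15c65 : CRef := CRef.mk (Pat.mk 0x180000000e000000180000001000000000 0x10000000300000001f0000003e0000001f0000003000000020 5 6) 0 0 (step_sound _ 100 [(rh98bfe017ab5fead7.shift 0 2), rhc1307820daa2ac22, (rhc31b6f966e0d7e89.shift 0 1)] (by decide +kernel))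
noncomputable def rh9245dbeb8d92f653 : CRef := CRef.mk (Pat.mk 0x3e00000000 0xe00000007e000000e3 5 8) 0 0 (step_sound _ 0 [(rh3fc3a7fb6866dcd4.shift 2 0), rh80fcd6d0a18cb2dd] (by decide +kernel))
noncomputable def rha751d179a64c4c1d : CRef := CRef.mk (Pat.mk 0x40000000700000006000000000000000000000000 0x80000003c0000000f000000060000000c0000000c0000000c 5 6) 0 0 (step_sound _ 66 [(rh5f725e760179b4ec.shift 0 1), (rh684e729394fba19d.shift 0 2), (rh820d4e04d5dcd02e.shift 1 0)] (by decide +kernel))
noncomputable def rhf8df2bfab16984bb : CRef := CRef.mk (Pat.mk 0x70000000e000000030000000000000000 0x1000000070000000e0000000f0000001e0000000c 5 5) 0 0 (step_sound _ 33 [(rh50fbb5868c909700.shift 0 1), rh770992ee6cf16ba5] (by decide +kernel))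
noncomputable def rhad5d9cfcdbfbd598 : CRef := CRef.mk (Pat.mk 0x200000002000000060000000600000000 0xc0000003e00000007000000060000000600000002 5 6) 0 0 (step_sound _ 130 [(rh2f68792b6b779e96.shift 1 1), rhf88844fbccf7c5e7] (by decide +kernel))
noncomputable def rh1e07ab545a38febd : CRef := CRef.mk (Pat.mk 0xc0000000c000000000000000400000000 0xa0000000f0000003c000000040000000600000002 5 6) 0 0 (step_sound _ 66 [(rh2f68792b6b779e96.shift 2 1), rh62ac40974ae34da3] (by decide +kernel))
noncomputable def rhfa805f34d9da5845 : CRef := CRef.mk (Pat.mk 0x8000000180000007000000010 0x40000000c000000f80000007f0000003e 5 8) 0 0 (step_sound _ 35 [rh2ccea04b951e92fb, (rh39a75a3d1c69be24.shift 2 0), (rh9fdcb09dfa6419d9.shift 2 1)] (by decide +kernel))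
noncomputable def rh73ffbcecd127756d : CRef := CRef.mk (Pat.mk 0x60000000e000000180000000800000000 0x60000003e0000001b0000000f00000003 5 6) 0 0 (step_sound _ 100 [rh57e49d4ee7cd34ec, (rhf48373e13d2bc128.shift 1 3)] (by decide +kernel))
noncomputable def rha770d683592997c1 : CRef := CRef.mk (Pat.mk 0xc0000001c000000300000001000000000 0x60000000f0000001c0000003c0000001e0000000c 5 6) 0 0 (step_sound _ 129 [(rh682a631da82183c3.shift 1 0), (rhb739f4f82bb681b4.shift 0 3)] (by decide +kernel))
noncomputable def rh936ccaf2dd20f6ca : CRef := CRef.mk (Pat.mk 0xc0000001800000008000000000000000000000000 0x8000000080000000c000000780000001f0000001c0000000400000004 5 7) 0 0 (step_sound _ 133 [rh555fd4dea31f8700, (rhf48373e13d2bc128.shift 2 4)] (by decide +kernel))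
noncomputable def rh63d4657002269fa3 : CRef := CRef.mk (Pat.mk 0xe0000001800000018000000100000000000000000 0x20000000e0000001f0000003f0000003c0000000400000004 5 6) 0 0 (step_sound _ 98 [(rhf56e6bc5d2f7fe77.shift 0 2), rhfa1d9c85b18ebfd4] (by decide +kernel))
noncomputable def rhdafc1c6c23dfd84d : CRef := CRef.mk (Pat.mk 0x18000000080000000c00000000 0x800000008000000180000000f0000003c00000014 5 6) 0 0 (step_sound _ 131 [rh26fd428daa97b787, (rh932754581e0f4330.shift 2 0)] (by decide +kernel))
noncomputable def rh6d6b5ee9b1027c4d : CRef := CRef.mk (Pat.mk 0x2000000038000000100000001800000000 0x370000003e000000170000001c00000008 5 6) 0 0 (step_sound _ 98 [(rh07bcdc9aa121f1fe.shift 1 0), (rh775ca1963e850b80.shift 0 2), (rhcddaa914fb7ce133.shift 1 0), (rhf015c446b680a84f.shift 0 3)] (by decide +kernel))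
noncomputable def rh6aa07a9d9bcdfb03 : CRef := CRef.mk (Pat.mk 0x180000001e000000040000000600000000 0x1c0000001e000000340000001e0000001b 5 6) 0 0 (step_sound _ 68 [rhe02e3da695d40b3d, (rhe25b0a99195a5d59.shift 1 2)] (by decide +kernel))
noncomputable def rh49265eb4834c41f4 : CRef := CRef.mk (Pat.mk 0x18000000080000001c00000000 0x8000000080000007c0000000f0000001c00000010 5 7) 0 0 (step_sound _ 131 [(rh013c36449a7cbf87.shift 0 1), (rh55afc6a59410cf00.shift 3 0)] (by decide +kernel))
noncomputable def rhb89185a50d9ec53f : CRef := CRef.mk (Pat.mk 0x30000000100000003c00000002 0xf80000001c0000007f00000003 5 8) 0 0 (step_sound _ 33 [(rh1ab9bde7db68b03e.shift 0 1), rheb0810cc63b001d8] (by decide +kernel))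
noncomputable def rhf506bca211f7cb8b : CRef := CRef.mk (Pat.mk 0x1000000010000000000000001e00000000 0x1000000030000000600000003e00000073 5 7) 0 0 (step_sound _ 0 [(rh59810ecc3e5f50ca.shift 1 0), rh80fcd6d0a18cb2dd] (by decide +kernel))
noncomputable def rh836f9cd661695ece : CRef := CRef.mk (Pat.mk 0x80000000e0000000e000000000000000000000000 0x80000000e0000003e000000070000000600000006 5 6) 0 0 (step_sound _ 34 [(rh9e3edb185cc347de.shift 2 1), rh9f91f4c630f56b97] (by decide +kernel))
noncomputable def rh14c37fbcc571911c : CRef := CRef.mk (Pat.mk 0x80000001e00000000 0xc0000007e000000e7 5 8) 0 0 (step_sound _ 1 [(rh8ec720861b3a1668.shift 1 0), rheb0810cc63b001d8] (by decide +kernel))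
noncomputable def rh4d407c583ade17f9 : CRef := CRef.mk (Pat.mk 0x80000001e000000000000000000000000 0x20000000b0000003e000000070000000400000004 5 6) 0 0 (step_sound _ 65 [rhe30aa3fc1732ba53, (rheb0810cc63b001d8.shift 0 2)] (by decide +kernel))
noncomputable def rhbc156f56c15fc835 : CRef := CRef.mk (Pat.mk 0x80000001c00000002000000060000000200000000 0x390000001f000000320000001e0000001300000001 5 6) 0 0 (step_sound _ 68 [rh1c4af61d703eda17, (rh796fc3b7c17c5d15.shift 0 1), (rha3804abfec7df74a.shift 0 1)] (by decide +kernel))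
noncomputable def rh39745811d1b3923b : CRef := CRef.mk (Pat.mk 0x18000000080000000c00000000 0x8000000080000007c0000000f0000000c00000004 5 7) 0 0 (step_sound _ 131 [(rh013c36449a7cbf87.shift 0 1), (rh932754581e0f4330.shift 2 0)] (by decide +kernel))
noncomputable def rhfacf8fc139384b08 : CRef := CRef.mk (Pat.mk 0x180000001c00000008 0x180000007f0000007e 5 7) 0 0 (step_sound _ 33 [(rh300eedc557b86950.shift 1 0), (rh53b3c253cb0c65f4.shift 0 1)] (by decide +kernel))
noncomputable def rh7e55476af6423c90 : CRef := CRef.mk (Pat.mk 0x70000000180000001c0000000800000000 0x78000000f80000003c0000000f00000004 5 8) 0 0 (step_sound _ 102 [(rh361cc68994bd8a63.shift 2 2), rhebf413ddee4a7a73] (by decide +kernel))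
noncomputable def rh636a1f13e76cbb76 : CRef := CRef.mk (Pat.mk 0x1c000000060000000e 0x10000000300000001f0000003e0000001f 5 6) 0 0 (step_sound _ 36 [(rh6870ff15d3813450.shift 1 0), rhacc3cd893a4b2c80, (rhc49b09f78f59f4ba.shift 1 0)] (by decide +kernel))
noncomputable def rh2b2722e7f31a7e16 : CRef := CRef.mk (Pat.mk 0x180000000c000000080000001800000000 0x8000000180000000f000000780000001e00000004 5 7) 0 0 (step_sound _ 68 [(rh2145e1d24b96a57e.shift 3 1), rh45ed9cc8877beea2] (by decide +kernel))
noncomputable def rhf5f440226ecccf55 : CRef := CRef.mk (Pat.mk 0x1e000000060000000200000000 0x10000000300000001e0000003e0000000b00000008 5 6) 0 0 (step_sound _ 68 [rh7ab6be545294e53e, (rhe25b0a99195a5d59.shift 1 2)] (by decide +kernel))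
noncomputable def rha2e1ab19779a3bb4 : CRef := CRef.mk (Pat.mk 0x280000000c0000000400000004 0x2000000020000003f0000003f0000000700000004 5 6) 0 0 (step_sound _ 65 [rha88fdb71eea3a0b3, (rhbf54693427023d68.shift 0 1), (rhf4585caa3b13e38a.shift 0 2)] (by decide +kernel))
noncomputable def rh2ba635e1be22f2b8 : CRef := CRef.mk (Pat.mk 0x180000000e000000080000000000000000 0x40000000c0000001f0000003e000000380000001800000010 5 6) 0 0 (step_sound _ 130 [rhedfee5dfdf958e6e, (rhfc7c29d8e65d775f.shift 2 1)] (by decide +kernel))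
noncomputable def rh50722c3358bbb124 : CRef := CRef.mk (Pat.mk 0x18000000100000007000000038 0x40000001f0000003c0000007e00000078 5 7) 0 0 (step_sound _ 35 [rh84a837aeb347ce73, (rhe2b63c00a3d7bb73.shift 1 0)] (by decide +kernel))
noncomputable def rh5b23aff60548e1d8 : CRef := CRef.mk (Pat.mk 0x200000002000000020000000200000000 0x1000000070000000700000002000000060000000600000004 5 3) 0 0 (step_sound _ 130 [(rh2f68792b6b779e96.shift 1 1), rh7eb4a07d72ad7934] (by decide +kernel))
noncomputable def rh9933c3eda2c2787b : CRef := CRef.mk (Pat.mk 0x1c000000040000000400000000 0x730000003e000000740000000400000004 5 7) 0 0 (step_sound _ 97 [rh132883a60cd8aed8, (rha93a5dd541ab8209.shift 1 2)] (by decide +kernel))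
noncomputable def rh0db1890ab1c79bd6 : CRef := CRef.mk (Pat.mk 0x1800000018000000100000000800000000 0x18000000180000007c0000000f0000000c 5 7) 0 0 (step_sound _ 67 [(rh71222050f2c63a3a.shift 3 0), rhb0de455c382c5b1c] (by decide +kernel))
noncomputable def rhe04a1c8c3bc9a2bc : CRef := CRef.mk (Pat.mk 0x380000001000000010 0x8000000080000000f000000fc000001d800000010 5 9) 0 0 (step_sound _ 99 [(rha086f24fc46b4198.shift 2 1), (rha9fbfd4bb8cf890b.shift 0 2), (rhe072fffdd2fccf38.shift 3 0)] (by decide +kernel))
noncomputable def rh7a6a5778104bcb94 : CRef := CRef.mk (Pat.mk 0x40000000f00000002 0x1c0000007f0000003e 5 7) 0 0 (step_sound _ 67 [rh31b96bf68293d1ba, (rh33e738c4ed385b9f.shift 0 1)] (by decide +kernel))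
noncomputable def rh28dbbf1cc2480271 : CRef := CRef.mk (Pat.mk 0x40000000200000002000000020000000000000000 0x1000000070000000700000002000000030000000300000001 5 3) 0 0 (step_sound _ 33 [rh771d065bdc85bf2d, (rhbaefcd01e0a8bca3.shift 1 1)] (by decide +kernel))
noncomputable def rh7d18d7334b63db57 : CRef := CRef.mk (Pat.mk 0x40000000c000000080000000200000000 0x400000004000000060000001f0000007a0000000200000002 5 7) 0 0 (step_sound _ 162 [(rh2145e1d24b96a57e.shift 2 2), rhc5735fcf4d68595e] (by decide +kernel))
noncomputable def rh33159ffe64f54bf5 : CRef := CRef.mk (Pat.mk 0xc000000080000000e000000040000000000000000 0x20000001f0000007a0000000e000000060000000400000004 5 7) 0 0 (step_sound _ 34 [(rh71222050f2c63a3a.shift 2 0), (rha11d3324936a8001.shift 0 1)] (by decide +kernel))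
noncomputable def rhf886dde88d7d7291 : CRef := CRef.mk (Pat.mk 0xe0000000a0000000e0000000400000000 0x1e0000003b0000000e0000003c00000018 5 6) 0 0 (step_sound _ 132 [(rh46c7361b57fdfa0a.shift 1 0), (rheb0810cc63b001d8.shift 0 3)] (by decide +kernel))
noncomputable def rh049d78e4e212a1f2 : CRef := CRef.mk (Pat.mk 0x1c000000100000001c000000000000000000000000 0x8000000080000000e0000003c000000160000001c0000000f0000000a00000008 5 6) 0 0 (step_sound _ 130 [(rh215e11e099257d75.shift 2 2), (rh32c58e03f09ef244.shift 2 2), (rha768b229dc254047.shift 2 0), (rhb2bdfbd0153d3403.shift 0 1), (rhe5a5bf6962a18d87.shift 1 2)] (by decide +kernel))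
noncomputable def rh7a686f4a729eb8f5 : CRef := CRef.mk (Pat.mk 0x1c000000100000000400000000 0x2000000030000001e000000370000000400000004 5 6) 0 0 (step_sound _ 97 [rh83247af42f83c8a7, (rhe25b0a99195a5d59.shift 1 2)] (by decide +kernel))
noncomputable def rhca541f66dea8248e : CRef := CRef.mk (Pat.mk 0xe0000001a 0xe0000000fe0000001f 5 8) 0 0 (step_sound _ 36 [(rh1bd512052dde4f2d.shift 1 0), rheb0810cc63b001d8] (by decide +kernel))
noncomputable def rh80a35c080566f674 : CRef := CRef.mk (Pat.mk 0x1e0000001c000000180000000000000000 0x30000001e0000001c0000001f0000003400000010 5 6) 0 0 (step_sound _ 36 [(rh6352d9774ae38524.shift 0 1), (rh7b1f1fb55310c477.shift 3 0)] (by decide +kernel))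
noncomputable def rhdcaa79d5bdff7c17 : CRef := CRef.mk (Pat.mk 0x1e000000140000000000000000 0x4000000040000001f0000001f0000000300000002 5 5) 0 0 (step_sound _ 67 [rh81df3c7a5b7d1079, (rhb739f4f82bb681b4.shift 0 2)] (by decide +kernel))
noncomputable def rhe62763857f961ffc : CRef := CRef.mk (Pat.mk 0x8000000080000000c0000000800000000 0x10000000180000007c0000000f0000000800000008 5 7) 0 0 (step_sound _ 132 [(rh2f68792b6b779e96.shift 3 1), rhe5f97321804e76eb] (by decide +kernel))
noncomputable def rh1f5a3f671a3fef94 : CRef := CRef.mk (Pat.mk 0x30000000100000001e00000000 0x40000003c0000001f0000001e00000003 5 6) 0 0 (step_sound _ 65 [rh1c91bacce578ec25, (rh3244c3cc8379b070.shift 0 1)] (by decide +kernel))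
noncomputable def rhf6e20d760ac4ea7c : CRef := CRef.mk (Pat.mk 0x10000000180000000e00000006 0x2000000330000001f0000003e00000006 5 6) 0 0 (step_sound _ 36 [(rh18965a982d73c794.shift 1 0), rh477220595313baae] (by decide +kernel))
noncomputable def rh94813f5592894daa : CRef := CRef.mk (Pat.mk 0x80000000c0000000600000003 0x380000003f0000003e00000003 5 6) 0 0 (step_sound _ 36 [rh361cc68994bd8a63, (rh4b43de9de5d2c4f9.shift 0 1)] (by decide +kernel))
noncomputable def rh099a0e3daa31ef6c : CRef := CRef.mk (Pat.mk 0xe0000000200000003 0x780000003f0000003e00000003 5 7) 0 0 (step_sound _ 36 [(rh20553f44f3de3897.shift 1 1), (rhbc662e99f765b901.shift 0 1), rhd0cda9340b872954] (by decide +kernel))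
noncomputable def rhdc60e7e7c09449f0 : CRef := CRef.mk (Pat.mk 0x80000000c000000040000000400000000 0x400000004000000060000000f0000003c0000000e0000000600000002 5 6) 0 0 (step_sound _ 130 [(rhcf85c92937975d4d.shift 0 1), (rhea90e7358341a1a4.shift 1 0)] (by decide +kernel))
noncomputable def rh47e721e0117b8d5f : CRef := CRef.mk (Pat.mk 0x4000000020000000200000002000000000000000000000000 0x5000000070000000300000002000000060000000600000004 5 3) 0 0 (step_sound _ 65 [rh5ad9898cc32ef511, (rhbaefcd01e0a8bca3.shift 1 2)] (by decide +kernel))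
noncomputable def rh3901d8753ad0f7b0 : CRef := CRef.mk (Pat.mk 0x200000006000000030000000300000000 0x40000000600000006000000070000001f0000001c 5 5) 0 0 (step_sound _ 130 [(rh2f68792b6b779e96.shift 1 1), rh459f1a5b6d1b1e06] (by decide +kernel))
noncomputable def rhdb443baecfb581be : CRef := CRef.mk (Pat.mk 0x100000000e000000180000001000000000 0x300000003e0000001f0000003800000008 5 6) 0 0 (step_sound _ 100 [rh08f55903bac4cbcd, (rh33e738c4ed385b9f.shift 1 3)] (by decide +kernel))
noncomputable def rhafd774a361fb3b4f : CRef := CRef.mk (Pat.mk 0xc00000038000000080000001c 0xf000000380000003f0000003f 5 6) 0 0 (step_sound _ 97 [(rhb739f4f82bb681b4.shift 0 2), rhdfb835cb43b5b188] (by decide +kernel))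
noncomputable def rh50e5af4552503042 : CRef := CRef.mk (Pat.mk 0x2000000020000000200000003 0x4000000070000000700000003000000020000000300000003 5 3) 0 0 (step_sound _ 129 [rh79877ebd3ef475dd, rhdbbfd1e5bf77d31f] (by decide +kernel))
noncomputable def rha7abe2e64ed5e04c : CRef := CRef.mk (Pat.mk 0x8000000080000001c000000000000000000000000 0x80000001b0000001f000000380000001000000010 5 6) 0 0 (step_sound _ 68 [(rh04dbdeb3451965eb.shift 0 2), (rh79ad7b82ec8c35e2.shift 3 0), (rhb8a1f9a12fc8f26e.shift 0 1)] (by decide +kernel))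
noncomputable def rh7fbc824ea4018db7 : CRef := CRef.mk (Pat.mk 0x40000000700000004000000000000000000000000 0x2000000060000000600000004000000070000003e0000000c0000000800000008 5 6) 0 0 (step_sound _ 99 [(rh89ade209b3e28f13.shift 0 3), (rh8b45a73eaadf2a53.shift 1 2), (rhdf864ecc9cbd02e0.shift 1 0)] (by decide +kernel))
noncomputable def rh1c87e3a33a702e4a : CRef := CRef.mk (Pat.mk 0xf00000004 0x700000007f000000fc 5 8) 0 0 (step_sound _ 36 [rh11aa37d4829402ae, rh4ad5fc38f1b69f65, (rha93a5dd541ab8209.shift 1 0), (rhfb69184a5e95e0cd.shift 1 0)] (by decide +kernel))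
noncomputable def rha17d3b69a696028a : CRef := CRef.mk (Pat.mk 0x80000001e00000004 0x2000000030000003f0000003e00000004 5 6) 0 0 (step_sound _ 65 [(rh3244c3cc8379b070.shift 0 1), rhc53eed473b40de6e] (by decide +kernel))
noncomputable def rhf833c098ea508add : CRef := CRef.mk (Pat.mk 0x140000000c0000000c00000000 0xe0000000f0000001c0000000c0000000c00000004 5 5) 0 0 (step_sound _ 130 [(rh2145e1d24b96a57e.shift 2 1), rhec7a88c6dcaa5d28] (by decide +kernel))
noncomputable def rh77a83ab3ad05a698 : CRef := CRef.mk (Pat.mk 0x8000000080000001800000010000000000000000000000000 0x40000000c0000001c000000380000001f0000000c0000000800000008 5 6) 0 0 (step_sound _ 99 [(rh544fd3f279a4d968.shift 2 0), (rh6fae963f33cfdfd7.shift 0 2)] (by decide +kernel))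
noncomputable def rh566daff05c3a379c : CRef := CRef.mk (Pat.mk 0x8000000080000000c0000001c00000000 0x140000001c0000000c0000003c0000001f00000003 5 6) 0 0 (step_sound _ 130 [(rh50fbb5868c909700.shift 2 1), rh8e72549fb4de9d02] (by decide +kernel))
noncomputable def rhd86e2a290a9c32ee : CRef := CRef.mk (Pat.mk 0x1c000000380000000800000000 0xc0000000c0000000c0000007c0000003e0000000f00000004 5 7) 0 0 (step_sound _ 162 [(rh172f434e5301c5de.shift 1 1), rhd207c95c60f9edbd, (rhf4bcdf19b6922e31.shift 2 1)] (by decide +kernel))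
noncomputable def rhfb221370f1562cde : CRef := CRef.mk (Pat.mk 0xc000000080000000c0000003c00000000 0x100000001c0000000c0000003c0000003f00000063 5 7) 0 0 (step_sound _ 132 [(rh2f68792b6b779e96.shift 3 1), rhdaf294e221a6bb44] (by decide +kernel))
noncomputable def rha9522d0f810f7879 : CRef := CRef.mk (Pat.mk 0x80000000e0000001a0000001000000000 0x20000000b0000003e0000001e0000003400000004 5 6) 0 0 (step_sound _ 66 [rh2a6f97678d325681, (rhe25b0a99195a5d59.shift 1 1)] (by decide +kernel))
noncomputable def rhcedbf724363414cd : CRef := CRef.mk (Pat.mk 0xe00000010000000100000001800000000 0x40000000f00000018000000780000001e00000004 5 7) 0 0 (step_sound _ 99 [(rhb739f4f82bb681b4.shift 0 3), (rhf7c27e59b1d77735.shift 1 0)] (by decide +kernel))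
noncomputable def rha73b0a266e8df1c6 : CRef := CRef.mk (Pat.mk 0x1e00000002000000100000001800000000 0x4000000070000001e000000020000003f0000001f00000004 5 6) 0 0 (step_sound _ 161 [rh0043bde6ffa1ae55, (rh3244c3cc8379b070.shift 0 4)] (by decide +kernel))
noncomputable def rha785f84c4bd77951 : CRef := CRef.mk (Pat.mk 0x40000001c0000001800000010 0x600000006000000060000001c0000007f00000036 5 7) 0 0 (step_sound _ 130 [(rh2145e1d24b96a57e.shift 2 1), rh505b66e92ba0cdf5] (by decide +kernel))
noncomputable def rh4da844d5404f45e4 : CRef := CRef.mk (Pat.mk 0x1800000038000000100000001800000000 0x180000003f000000770000001e00000004 5 7) 0 0 (step_sound _ 98 [(rh4dee6a4c2358bafa.shift 1 0), (rha03f6e28ea70fc7d.shift 1 2), (rhcc2be1f880c5ea3e.shift 0 2)] (by decide +kernel))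
noncomputable def rh35b88f3a8a7170fc : CRef := CRef.mk (Pat.mk 0x20000000200000002000000000000000000000000 0x100000003000000030000000200000007000000070000000700000005 5 3) 0 0 (step_sound _ 65 [(rh5abfc4c9d959be03.shift 0 1), rh6eff4158bb400f47, (rh771d065bdc85bf2d.shift 0 1)] (by decide +kernel))
noncomputable def rhe198dddff514b085 : CRef := CRef.mk (Pat.mk 0x10000000080000000c0000000800000000 0x1800000018000000080000000f0000003c00000010 5 6) 0 0 (step_sound _ 131 [(rh2f68792b6b779e96.shift 3 1), rha743567175e9b7b8] (by decide +kernel))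
noncomputable def rh8f462763269de15d : CRef := CRef.mk (Pat.mk 0x800000038000000280000000800000000 0x80000003c0000003f0000001e00000014 5 6) 0 0 (step_sound _ 36 [(rh55afc6a59410cf00.shift 3 0), rh691ecd606bc9c673] (by decide +kernel))
noncomputable def rh0e45ed2fc353a975 : CRef := CRef.mk (Pat.mk 0x80000003800000008000000080000000000000000 0x80000003c0000001f000000180000001800000018 5 6) 0 0 (step_sound _ 36 [rh1e56de8fb7290cc6, (rhd3458b32566d63f7.shift 3 1)] (by decide +kernel))
noncomputable def rh076e0bcca5404ca0 : CRef := CRef.mk (Pat.mk 0x80000003800000008000000080000000000000000 0x80000003c0000001f0000000c0000000c0000000c 5 6) 0 0 (step_sound _ 34 [rh3c9465598fd53458, (rh79877ebd3ef475dd.shift 2 1)] (by decide +kernel))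
noncomputable def rh75a224c5115a1ea8 : CRef := CRef.mk (Pat.mk 0x400000004000000000000000e00000002 0x400000006000000730000003e00000006 5 7) 0 0 (step_sound _ 65 [(rh1006c02ae4212ff0.shift 1 0), rh2c0b414e3e65d132] (by decide +kernel))
noncomputable def rh0c95a1c4ce1296ee : CRef := CRef.mk (Pat.mk 0x1e0000000000000000 0x800000008000000380000001f0000003000000010 5 6) 0 0 (step_sound _ 36 [rh6206d00fae46d42a, (rhe25b0a99195a5d59.shift 1 1)] (by decide +kernel))
noncomputable def rh200029a536cd1ebc : CRef := CRef.mk (Pat.mk 0x800000008000000200000003c00000010 0x7c0000002f000000240000003c00000016 5 7) 0 0 (step_sound _ 133 [rh6470388df7be4eda, (rhee230b994cc8b773.shift 4 0)] (by decide +kernel))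
noncomputable def rh19da675c7fc3c1aa : CRef := CRef.mk (Pat.mk 0x800000008000000000000000c0000001c000000000000000000000000 0x80000000c000000040000000c0000001c0000000f0000000e0000000e 5 5) 0 0 (step_sound _ 162 [(rh1006c02ae4212ff0.shift 2 3), rh6a42ab7a1317a286] (by decide +kernel))
noncomputable def rh9d16fbe54f3f40a8 : CRef := CRef.mk (Pat.mk 0x800000008000000200000003400000014 0x7c0000002f000000240000003400000014 5 7) 0 0 (step_sound _ 133 [rhbc082ae6473cd65f, (rhee230b994cc8b773.shift 4 0)] (by decide +kernel))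
noncomputable def rhe96b3b283f25630d : CRef := CRef.mk (Pat.mk 0xb0000000e000000000000000400000004 0x10000000180000000f0000000f000000180000001c00000004 5 5) 0 0 (step_sound _ 67 [(rh6dbf931f634ed018.shift 0 1), (rheea67dfebd0f8008.shift 2 0)] (by decide +kernel))
noncomputable def rh0003229dd77f3e48 : CRef := CRef.mk (Pat.mk 0x38000000200000001000000010 0x770000003e000000200000003000000010 5 7) 0 0 (step_sound _ 133 [(rh3e0b38310ac09007.shift 0 3), (rheea67dfebd0f8008.shift 4 0)] (by decide +kernel))
noncomputable def rh9ab1c3e55d7d62b6 : CRef := CRef.mk (Pat.mk 0x580000007000000040 0x780000007f000000c7 5 8) 0 0 (step_sound _ 35 [(rhe25b0a99195a5d59.shift 3 0), rhf062016f557148a6] (by decide +kernel))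
noncomputable def rh0aeff15107e09e96 : CRef := CRef.mk (Pat.mk 0x1e00000014000000000000000800000008 0x300000001e0000001f000000300000003800000008 5 6) 0 0 (step_sound _ 68 [(rh57f5d571eb878fdc.shift 0 1), (rheea67dfebd0f8008.shift 3 0)] (by decide +kernel))
noncomputable def rhc7de3e595ea54fc2 : CRef := CRef.mk (Pat.mk 0x1e0000000400000004 0x8000000080000001c0000001f0000003c00000004 5 6) 0 0 (step_sound _ 36 [(rhe25b0a99195a5d59.shift 1 1), rhf10481a102c8d2af] (by decide +kernel))
noncomputable def rhafce7c2a98f15f1d : CRef := CRef.mk (Pat.mk 0x1e000000000000000000000000 0x10000000300000001f000000380000000800000008 5 6) 0 0 (step_sound _ 132 [(rh33e738c4ed385b9f.shift 1 3), rh9483656c38360087] (by decide +kernel))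
noncomputable def rhe7d3d33efa1f7739 : CRef := CRef.mk (Pat.mk 0x1e0000000400000004 0x8000000080000003c0000001f0000003400000004 5 6) 0 0 (step_sound _ 100 [rh0c2322e2e36e5607, (rh33e738c4ed385b9f.shift 1 2)] (by decide +kernel))
noncomputable def rhdc3b8c421c111ac7 : CRef := CRef.mk (Pat.mk 0x2000000060000000200000002 0x100000007000000070000000600000006000000060000000600000002 5 3) 0 0 (step_sound _ 129 [(rh0fa4a62bba50784f.shift 0 1), (rh14f80659e6313cc6.shift 1 1), (rh44f453b84f013105.shift 1 0), (rh8eb2a492d52f4a07.shift 1 0)] (by decide +kernel))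
noncomputable def rh94e0c5709a8692ce : CRef := CRef.mk (Pat.mk 0x380000000800000008 0x4000000070000003e0000007f00000008 5 7) 0 0 (step_sound _ 66 [(rh0d378fd9e8917c5a.shift 0 1), (rh185f35b8bd8ec37f.shift 0 1), (rhe4f9133a81c1dbc5.shift 1 0)] (by decide +kernel))
noncomputable def rh09a828a93c42eefa : CRef := CRef.mk (Pat.mk 0x1c00000018 0xe0000000ff0000001f 5 8) 0 0 (step_sound _ 33 [rh734ad5916a3b99d6, rhb739f4f82bb681b4] (by decide +kernel))
noncomputable def rhc8ad32f27ffb57df : CRef := CRef.mk (Pat.mk 0x6000000040000000c00000000 0x400000004000000060000003c0000000f0000000a 5 6) 0 0 (step_sound _ 130 [rh1b87edc82f705b7b, (rh55afc6a59410cf00.shift 2 0)] (by decide +kernel))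
noncomputable def rh55203a72c2e59468 : CRef := CRef.mk (Pat.mk 0x380000000800000008 0x4000000040000000f0000003e0000007f00000008 5 7) 0 0 (step_sound _ 66 [(rh0d378fd9e8917c5a.shift 0 1), (rh185f35b8bd8ec37f.shift 0 1), (rh1c1037cb5b3fe471.shift 1 0)] (by decide +kernel))
noncomputable def rh82bc4081c9445fb7 : CRef := CRef.mk (Pat.mk 0x1c00000014000000000000003000000020 0x40000001c0000001c0000000e0000007e0000007f 5 7) 0 0 (step_sound _ 35 [(rh68b2f9410bda0963.shift 1 0), rha0ae8adeb1dbcf8d, (rhf4c721a5ee85f79b.shift 2 0)] (by decide +kernel))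
noncomputable def rh13ad8d703ca673f5 : CRef := CRef.mk (Pat.mk 0x1c00000004000000000000003000000020 0x20000000e0000003c00000004000000060000003e0000007f 5 7) 0 0 (step_sound _ 34 [rh473b2f7acaa88f87, (rh7ccecfcd70970d3a.shift 1 0), (rha11f0340eec03fb7.shift 1 0)] (by decide +kernel))
noncomputable def rhf1f49cb2e5a82cf4 : CRef := CRef.mk (Pat.mk 0x1800000070000000000000003800000020 0x180000007c0000000f0000007e0000003f 5 7) 0 0 (step_sound _ 99 [(rha3f42a2390de0456.shift 2 0), rha496a227fea50cc6, rhd8970f20df7aae31] (by decide +kernel))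
noncomputable def rh3764b47ca874df2f : CRef := CRef.mk (Pat.mk 0x60000001c000000000000000e00000000 0xe0000001e000000330000001e00000037 5 6) 0 0 (step_sound _ 68 [(rh4aae3c5a01e93e30.shift 1 0), rh99c0b8c39a74db88, (rhc49b09f78f59f4ba.shift 1 1), rhdac6e31834900125] (by decide +kernel))
noncomputable def rh14a307c9a7ae35f8 : CRef := CRef.mk (Pat.mk 0x38000000100000000000000008 0x6000000ff0000003e0000000800000008 5 8) 0 0 (step_sound _ 67 [(rh4dc133ee0ba1420a.shift 1 2), rh9ad45f7da88f94a3, rhe17bc2d8691c25e4] (by decide +kernel))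
noncomputable def rhd775095a74b3afc9 : CRef := CRef.mk (Pat.mk 0x100000007800000000 0x3e0000007e000000c7 5 8) 0 0 (step_sound _ 6 [rh00ad149be37e1c09, (rhe25b0a99195a5d59.shift 3 0)] (by decide +kernel))
noncomputable def rhacf812c74b7321f4 : CRef := CRef.mk (Pat.mk 0x2000000060000001e0000000000000000 0x10000000330000003e0000001e0000000800000008 5 6) 0 0 (step_sound _ 100 [(rh33e738c4ed385b9f.shift 1 2), rhd5f14d1bdeeb9b81] (by decide +kernel))
noncomputable def rh608db70f178a863b : CRef := CRef.mk (Pat.mk 0xd000000070000000000000000 0x80000000c0000001c0000000f0000001f0000001c00000008 5 5) 0 0 (step_sound _ 67 [rh096c301d36496d23, (rh911e40e388b93c31.shift 0 1), rhea719cc8bd0bdd28] (by decide +kernel))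
noncomputable def rh063cf3080212b528 : CRef := CRef.mk (Pat.mk 0x180000007000000040 0x380000007f000000ce 5 8) 0 0 (step_sound _ 35 [rhcef93a29c93c96c9, (rhe25b0a99195a5d59.shift 3 0)] (by decide +kernel))
noncomputable def rh1c0a687656f71820 : CRef := CRef.mk (Pat.mk 0x300000000000000020000000200000000 0x4000000070000000700000002000000030000000300000001 5 3) 0 0 (step_sound _ 97 [rh20966da26a1c2ae8, (rh50fbb5868c909700.shift 0 1)] (by decide +kernel))
noncomputable def rh9649bdffdcc7bbc0 : CRef := CRef.mk (Pat.mk 0x300000000000000020000000200000000 0x30000000300000002000000070000000700000005 5 3) 0 0 (step_sound _ 97 [(rh50fbb5868c909700.shift 0 1), rhc9ac229b3c77cd55] (by decide +kernel))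
noncomputable def rh3af417a478dd307e : CRef := CRef.mk (Pat.mk 0x300000000000000020000000200000000 0x4000000070000000700000002000000060000000600000004 5 3) 0 0 (step_sound _ 97 [(rh50fbb5868c909700.shift 0 1), (rhced6d86d2069808b.shift 1 0)] (by decide +kernel))
noncomputable def rh759a78bd17399b66 : CRef := CRef.mk (Pat.mk 0x1e00000018 0xe7000000fe00000018 5 8) 0 0 (step_sound _ 65 [(rh3244c3cc8379b070.shift 0 1), (rhda113f6e1ba381b7.shift 1 0)] (by decide +kernel))
noncomputable def rha26e9b3d1f2cd227 : CRef := CRef.mk (Pat.mk 0xc000000040000000e0000000c 0x100000003c000000770000007e0000000c 5 7) 0 0 (step_sound _ 36 [(rh226655e3fe6b4a8a.shift 1 0), (rhe3060b190bc0bc78.shift 0 1), rhe7a001aee0fd70f7] (by decide +kernel))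
noncomputable def rh5e6c4f726b56f667 : CRef := CRef.mk (Pat.mk 0x1f000000020000000000000000 0x8000000080000001c0000003f000000060000000400000004 5 6) 0 0 (step_sound _ 131 [(rh33e738c4ed385b9f.shift 0 3), (rheba11baa92df53a7.shift 1 0)] (by decide +kernel))
noncomputable def rhb5d6140f4e42da4b : CRef := CRef.mk (Pat.mk 0x300000004000000060000000200000000 0xe0000000f0000001c000000060000000600000004 5 5) 0 0 (step_sound _ 130 [(rh5c5e593799055d58.shift 1 1), rhebb306d4866abd5e] (by decide +kernel))
noncomputable def rhf89b7518f56b0c6c : CRef := CRef.mk (Pat.mk 0x4000000080000000e0000000400000000 0x1c0000001c000000180000000f0000000c00000008 5 5) 0 0 (step_sound _ 131 [rh0a7d3889081dce50, (rh5c5e593799055d58.shift 2 1)] (by decide +kernel))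
noncomputable def rh0cf480bf0f3cfd64 : CRef := CRef.mk (Pat.mk 0x1e000000000000000000000000 0x2000000030000003e000000070000000400000004 5 6) 0 0 (step_sound _ 129 [(rh3244c3cc8379b070.shift 0 3), rh44afbb496b7a3d6b] (by decide +kernel))
noncomputable def rh35b9386a26d5f95f : CRef := CRef.mk (Pat.mk 0x1e00000012000000000000000000000000 0x40000003f0000001e000000030000000200000002 5 6) 0 0 (step_sound _ 98 [(rh18965a982d73c794.shift 1 3), rh9bb455da33111465] (by decide +kernel))
noncomputable def rhc52f5bae51c86367 : CRef := CRef.mk (Pat.mk 0x1e0000000e000000000000000000000000 0x30000001e0000003e000000070000000700000007 5 6) 0 0 (step_sound _ 161 [rh2a17fd093f4ada3e, (rh3244c3cc8379b070.shift 0 4)] (by decide +kernel))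
noncomputable def rhc798ca0681113501 : CRef := CRef.mk (Pat.mk 0xf00000005 0x700000007f0000001f 5 7) 0 0 (step_sound _ 36 [rh11aa37d4829402ae, rh80fcd6d0a18cb2dd] (by decide +kernel))
noncomputable def rh5de50892c5186150 : CRef := CRef.mk (Pat.mk 0xc000000000000000c0000000800000000 0xc0000000c000000040000003c0000000f00000002 5 6) 0 0 (step_sound _ 98 [(rh2145e1d24b96a57e.shift 2 1), rh5dc92c7cb979eb44] (by decide +kernel))
noncomputable def rh6fee3867b64a689d : CRef := CRef.mk (Pat.mk 0x160000001e00000000 0x1800000018000000380000001e0000001f00000030 5 6) 0 0 (step_sound _ 67 [(rh53b3c253cb0c65f4.shift 0 1), (rhfeb91c60f28c78a8.shift 1 0)] (by decide +kernel))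
noncomputable def rhb8bb04b9560a1b82 : CRef := CRef.mk (Pat.mk 0xe000000000000000800000008 0x700000003e000000770000001800000008 5 7) 0 0 (step_sound _ 100 [(rh06db8ceda6269a47.shift 0 2), (rh1fbc9fee05401eba.shift 1 0), (rh3b00e9e9432b8f40.shift 0 2)] (by decide +kernel))
noncomputable def rh130c83337374025d : CRef := CRef.mk (Pat.mk 0x40000003c000000080000000000000000 0x740000003f000000380000000800000008 5 7) 0 0 (step_sound _ 35 [(rh7b1f1fb55310c477.shift 2 0), (rhcbf8a4f49ea7fcd2.shift 0 2)] (by decide +kernel))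
noncomputable def rhde91c129e28832b1 : CRef := CRef.mk (Pat.mk 0x80000001e00000000 0x3c000000fe00000007 5 8) 0 0 (step_sound _ 68 [(rh33e738c4ed385b9f.shift 1 1), rhb447f348b8f2aaa5] (by decide +kernel))
noncomputable def rh4576028d9895ab00 : CRef := CRef.mk (Pat.mk 0xe000000000000000800000008 0x370000003e000000370000001800000008 5 6) 0 0 (step_sound _ 100 [(rh1fbc9fee05401eba.shift 1 0), (rh5f7b3bfbaf903d4f.shift 0 2)] (by decide +kernel))
noncomputable def rh8c079dd4a460bae4 : CRef := CRef.mk (Pat.mk 0x3c00000000 0x70000003e00000067 5 7) 0 0 (step_sound _ 6 [rh592c7139d2c44767, (rh96851dee118c1ba3.shift 2 0)] (by decide +kernel))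
noncomputable def rh96b03db7c04bf80f : CRef := CRef.mk (Pat.mk 0x8000000080000001e0000001000000000 0x80000000f0000007f0000001c00000004 5 7) 0 0 (step_sound _ 35 [rhab0a8adaa09924f7, (rhb739f4f82bb681b4.shift 0 1)] (by decide +kernel))
noncomputable def rh9ff5bd11e291dfb9 : CRef := CRef.mk (Pat.mk 0x10000000180000003800000008 0x80000000c0000001f0000003e0000003800000018 5 6) 0 0 (step_sound _ 66 [(rhb739f4f82bb681b4.shift 1 1), rhbf56dbc01ae402ca] (by decide +kernel))
noncomputable def rhf9daa8452e0e35af : CRef := CRef.mk (Pat.mk 0x80000000800000018000000140000000000000000 0x8000000380000001f0000003c0000000400000004 5 6) 0 0 (step_sound _ 34 [rhd0369fa2286dccd0, (rheea67dfebd0f8008.shift 2 1)] (by decide +kernel))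
noncomputable def rhedb3b02e2070cb06 : CRef := CRef.mk (Pat.mk 0x20000000f00000004 0x3e0000007f0000001c 5 7) 0 0 (step_sound _ 68 [(rh428265de8cd3cd2d.shift 0 1), rhcfc1d5d35ded1666] (by decide +kernel))
noncomputable def rhec49dc45c67f7816 : CRef := CRef.mk (Pat.mk 0x40000001c00000008 0xe6000000ff00000038 5 8) 0 0 (step_sound _ 37 [(rh3244c3cc8379b070.shift 1 1), rha80376740378a305] (by decide +kernel))
noncomputable def rh04be48e60875a3ef : CRef := CRef.mk (Pat.mk 0x14000000380000002000000000 0x8000000080000001c0000007f0000003600000004 5 7) 0 0 (step_sound _ 99 [rh478cecb8fd165732, (rhf48373e13d2bc128.shift 2 2)] (by decide +kernel))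
noncomputable def rhd1e019b956037589 : CRef := CRef.mk (Pat.mk 0x2000000120000001e000000060000000000000000 0x11000000130000001a0000001f0000001e0000000800000008 5 5) 0 0 (step_sound _ 160 [(rh50fbb5868c909700.shift 0 2), rha2ad90f4d55a102f] (by decide +kernel))
noncomputable def rhf677a391f2cc9385 : CRef := CRef.mk (Pat.mk 0x4000000060000001e0000000800000000 0x1000000014000000360000001e0000003b00000002 5 6) 0 0 (step_sound _ 100 [(rh33e738c4ed385b9f.shift 1 2), rhb8307e4c182688f5] (by decide +kernel))
noncomputable def rh2eafb5ef556a69f3 : CRef := CRef.mk (Pat.mk 0x1c00000010 0x3f0000003f0000001f 5 6) 0 0 (step_sound _ 33 [rha4e794e69630f173, rhd52e3929053d9d5f] (by decide +kernel))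
noncomputable def rhdf05054f27544b74 : CRef := CRef.mk (Pat.mk 0xe000000020000000000000000 0x2000000030000003e000000070000000400000004 5 6) 0 0 (step_sound _ 100 [rha812867386aecac6, (rheb0810cc63b001d8.shift 0 2)] (by decide +kernel))
noncomputable def rhdbf2effe2e2e3e76 : CRef := CRef.mk (Pat.mk 0x1e000000140000000000000000 0x4000000040000001f0000001f0000000300000002 5 5) 0 0 (step_sound _ 65 [rh238382ac6661bafa, (rheb0810cc63b001d8.shift 0 2)] (by decide +kernel))
noncomputable def rh836c8bb6b749f387 : CRef := CRef.mk (Pat.mk 0x10000000f00000007000000000000000000000000 0x50000000f0000001f0000001a0000000a00000008 5 5) 0 0 (step_sound _ 99 [rh7172c675ba77a020, (rhf48373e13d2bc128.shift 0 3)] (by decide +kernel))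
noncomputable def rh9ba47a8dbddcea8b : CRef := CRef.mk (Pat.mk 0x8000000060000001e0000000000000000 0x20000000b0000003e0000001f0000000400000004 5 6) 0 0 (step_sound _ 100 [(rh33e738c4ed385b9f.shift 1 2), rh9bb54e9a49c8ab45] (by decide +kernel))
noncomputable def rh227e78c892f02dfb : CRef := CRef.mk (Pat.mk 0x8000000040000001e00000008 0x140000003c000000370000001e00000008 5 6) 0 0 (step_sound _ 65 [(rh3244c3cc8379b070.shift 0 1), (rhc58ba22137f4bcc1.shift 1 0)] (by decide +kernel))
noncomputable def rh69330d616dedc443 : CRef := CRef.mk (Pat.mk 0x40000001c00000018 0x7c000000ff00000018 5 8) 0 0 (step_sound _ 33 [(rh726ed8e3d0fdcf87.shift 1 0), rhb739f4f82bb681b4] (by decide +kernel))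
noncomputable def rh331fc9dcd623b99a : CRef := CRef.mk (Pat.mk 0x4000000040000001e0000000400000000 0xa0000000f0000003c0000001e0000000400000004 5 6) 0 0 (step_sound _ 131 [(rh2f68792b6b779e96.shift 2 1), rheb356526b579c1bd] (by decide +kernel))
noncomputable def rh4a82ee3aaee1281f : CRef := CRef.mk (Pat.mk 0x1c0000001000000000 0x1000000010000000300000001f0000003800000008 5 6) 0 0 (step_sound _ 65 [rh6cf8b6956f09736d, (rhe25b0a99195a5d59.shift 1 1)] (by decide +kernel))
noncomputable def rh1b22c9d56f0bd025 : CRef := CRef.mk (Pat.mk 0x1c00000010 0x380000001f0000003b 5 6) 0 0 (step_sound _ 33 [(rhe25b0a99195a5d59.shift 1 0), rhf2af253f6836a78d] (by decide +kernel))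
noncomputable def rh56f50a4ac91710b2 : CRef := CRef.mk (Pat.mk 0x4000000040000000f0000000c 0x180000007c0000001e0000000f0000000c 5 7) 0 0 (step_sound _ 67 [(rh3349790ef9ee6561.shift 1 0), (rh33e738c4ed385b9f.shift 0 1)] (by decide +kernel))
noncomputable def rhdae3b865ce07814a : CRef := CRef.mk (Pat.mk 0x20000000000000006000000070000000000000000 0x1000000070000000700000006000000070000000300000002 5 3) 0 0 (step_sound _ 129 [(rh932754581e0f4330.shift 0 1), rhaf560e2bdde6bf7b] (by decide +kernel))
noncomputable def rhb0e26835e39b06ac : CRef := CRef.mk (Pat.mk 0x1c00000010 0x770000003e00000030 5 7) 0 0 (step_sound _ 33 [(rh22b38309c56a80eb.shift 0 1), (rhe25b0a99195a5d59.shift 1 0)] (by decide +kernel))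
noncomputable def rh81a42b164e70087f : CRef := CRef.mk (Pat.mk 0x20000000100000007000000060000000000000000 0x4000000060000000700000007000000070000000300000003 5 3) 0 0 (step_sound _ 33 [rh3ea300c3301cee68, rh7b1f1fb55310c477] (by decide +kernel))
noncomputable def rhe0d74f19c9e553d4 : CRef := CRef.mk (Pat.mk 0x10000000100000001e0000001000000000 0x8000000380000001f0000003e0000001000000010 5 6) 0 0 (step_sound _ 131 [(rh50fbb5868c909700.shift 3 1), rhb09a79466be4480a] (by decide +kernel))
noncomputable def rha3a249597a08dd25 : CRef := CRef.mk (Pat.mk 0x8000000000000001c0000001c00000000 0xa0000000b0000001f0000001f00000004 5 5) 0 0 (step_sound _ 65 [rh392eaa81159b185b, (rhb739f4f82bb681b4.shift 0 1)] (by decide +kernel))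
noncomputable def rh9665f157cab8d7e9 : CRef := CRef.mk (Pat.mk 0x1c0000001c0000000000000000 0x4000000040000001f0000001f0000000300000002 5 5) 0 0 (step_sound _ 97 [rh81df3c7a5b7d1079, (rhb739f4f82bb681b4.shift 0 2)] (by decide +kernel))
noncomputable def rhe4374866cadc7201 : CRef := CRef.mk (Pat.mk 0x1e00000008 0x7000000fe0000003c 5 8) 0 0 (step_sound _ 4 [rh412d230494194d0a, (rhe25b0a99195a5d59.shift 1 0)] (by decide +kernel))
noncomputable def rhdd510ff8251b8a75 : CRef := CRef.mk (Pat.mk 0x3c00000000 0x760000003e00000007 5 7) 0 0 (step_sound _ 66 [(rh3244c3cc8379b070.shift 1 1), rh9e97bba44c1b13e4] (by decide +kernel))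
noncomputable def rhfa53d7817102d8e8 : CRef := CRef.mk (Pat.mk 0x8000000000000003c00000014000000000000000000000000 0x80000000a0000007f0000001c000000040000000400000004 5 7) 0 0 (step_sound _ 99 [rh0e0b6070fdd0f56c, (rh18965a982d73c794.shift 2 3)] (by decide +kernel))
noncomputable def rh3e669c3b1d0ed186 : CRef := CRef.mk (Pat.mk 0x100000000e0000000200000000 0x200000002000000330000003e0000000600000004 5 6) 0 0 (step_sound _ 68 [(rh33e738c4ed385b9f.shift 1 2), rhef50fe823a140c7d] (by decide +kernel))
noncomputable def rhc2c446d6cf9731b3 : CRef := CRef.mk (Pat.mk 0x200000001c000000040000000000000000 0x200000002000000370000001e000000040000000400000004 5 6) 0 0 (step_sound _ 97 [(rh428265de8cd3cd2d.shift 1 3), rhe1ef59f9ff87186c] (by decide +kernel))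
noncomputable def rhd8c409e67fa983ee : CRef := CRef.mk (Pat.mk 0x4000000060000001c00000008000000000000000000000000 0x80000000c0000000e0000001e0000000f000000060000000400000004 5 5) 0 0 (step_sound _ 98 [(rh60c17605e880d32b.shift 1 0), (rhf5094ad2a427d4d3.shift 0 2)] (by decide +kernel))
noncomputable def rh1272a1a168bc4ae5 : CRef := CRef.mk (Pat.mk 0xe00000006000000060000000600000000 0x3e0000003e000000070000001e00000008 5 6) 0 0 (step_sound _ 132 [(rh18965a982d73c794.shift 1 3), rh4d11256e9142cf29] (by decide +kernel))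
noncomputable def rh35273267d1605123 : CRef := CRef.mk (Pat.mk 0x4000000040000000c00000008000000000000000000000000 0x2000000060000000e0000003c0000000f000000060000000400000004 5 6) 0 0 (step_sound _ 98 [(rh544fd3f279a4d968.shift 1 0), (rha71afc656c87d410.shift 0 2)] (by decide +kernel))
noncomputable def rhd1ce6ea7fa3d44a4 : CRef := CRef.mk (Pat.mk 0x80000003800000040 0x380000003f00000067 5 7) 0 0 (step_sound _ 34 [rh1efbca428b37b99e, (rh96851dee118c1ba3.shift 2 0)] (by decide +kernel))
noncomputable def rh579ea01d0e347b70 : CRef := CRef.mk (Pat.mk 0x2000000020000000600000006000000000000000000000000 0x400000006000000060000000600000007000000030000000300000002 5 3) 0 0 (step_sound _ 194 [(rh2f68792b6b779e96.shift 1 3), rhf5176d4807cc3f6f] (by decide +kernel))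
noncomputable def rh8923ea539754fe60 : CRef := CRef.mk (Pat.mk 0x80000001e000000180000000000000000 0x20000000b0000003e0000001f0000000400000004 5 6) 0 0 (step_sound _ 65 [(rheb0810cc63b001d8.shift 0 2), rhebfa5d0096fcb904] (by decide +kernel))
noncomputable def rh1d49daaf42ee4a8f : CRef := CRef.mk (Pat.mk 0x80000001e00000018 0x3c000000fe0000001f 5 8) 0 0 (step_sound _ 68 [(rh33e738c4ed385b9f.shift 1 1), rh3637b98dec3858d5] (by decide +kernel))
noncomputable def rh033256a0e285e4c4 : CRef := CRef.mk (Pat.mk 0x180000001e00000018 0x30000000300000001f0000001e0000001b 5 6) 0 0 (step_sound _ 65 [rh1d5d0c7091249eda, (rh3244c3cc8379b070.shift 0 1)] (by decide +kernel))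
noncomputable def rhc2944cd01c6fcbc3 : CRef := CRef.mk (Pat.mk 0x4000000060000001c0000000800000000 0x10000000340000003e0000001f0000000b00000002 5 6) 0 0 (step_sound _ 65 [(rh1125a15ebee0d2a3.shift 0 1), rh9c40a739b57d6d20] (by decide +kernel))
noncomputable def rh52fa5817b6fe6de8 : CRef := CRef.mk (Pat.mk 0x40000000700000004000000000000000000000000 0xa0000003e0000000f00000004000000060000000600000002 5 6) 0 0 (step_sound _ 163 [(rh026fe94e65800e5e.shift 0 2), (rh15590a39afd9a120.shift 1 0), (rh572132728df34c43.shift 0 4)] (by decide +kernel))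
noncomputable def rh85d8c28f8fbce67f : CRef := CRef.mk (Pat.mk 0xe0000001e000000000000000000000000 0xa0000000e0000001e000000070000000600000006 5 5) 0 0 (step_sound _ 65 [(rh01063aa26991a6f6.shift 1 0), (rheb0810cc63b001d8.shift 0 2)] (by decide +kernel))
noncomputable def rh12e1c23a5234a3bb : CRef := CRef.mk (Pat.mk 0x18000000380000000000000000 0x100000001000000010000000180000007c0000002f00000008 5 7) 0 0 (step_sound _ 132 [(rh571950d89739e871.shift 3 1), rh80027ce1936d9ccb] (by decide +kernel))
noncomputable def rh6520ce5b73fb2475 : CRef := CRef.mk (Pat.mk 0x18000000180000000c0000000000000000 0x18000000180000000f0000003c0000001c 5 6) 0 0 (step_sound _ 35 [rh01e4fccfeee46272, (rh71222050f2c63a3a.shift 3 0)] (by decide +kernel))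
noncomputable def rh6104416cc0caacfc : CRef := CRef.mk (Pat.mk 0x4000000010000000f0000000c 0x180000001e0000001f0000000f0000000c 5 5) 0 0 (step_sound _ 67 [(rh33e738c4ed385b9f.shift 0 1), rh935958661ca8b3dd] (by decide +kernel))
noncomputable def rhf8a85b9ca7f56ddc : CRef := CRef.mk (Pat.mk 0x1000000000000000180000003800000000 0x1000000010000000180000003f00000067 5 7) 0 0 (step_sound _ 5 [(rh6f1cbe15c631ee70.shift 4 0), rha4ae2ee71608971a] (by decide +kernel))
noncomputable def rh05852984d90e1eab : CRef := CRef.mk (Pat.mk 0x400000000000000040000000e00000000 0x400000004000000040000003e00000077 5 7) 0 0 (step_sound _ 1 [rh492208f1043c36f8, (rhee230b994cc8b773.shift 1 0)] (by decide +kernel))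
noncomputable def rh3bebf3442dce0b94 : CRef := CRef.mk (Pat.mk 0x8000000000000001800000018000000000000000000000000 0x800000018000000380000007f0000000e0000000800000008 5 7) 0 0 (step_sound _ 67 [(rh410d42eef7fab08d.shift 0 2), (rhea7a1800d6f053bd.shift 3 0)] (by decide +kernel))
noncomputable def rhe9a84b2a25d3db2e : CRef := CRef.mk (Pat.mk 0x1c0000000e000000000000000000000000 0x8000000080000001c0000003e000000770000001400000004 5 7) 0 0 (step_sound _ 100 [(rh0edd3afef6b5d7e0.shift 0 2), rh99398fa357d9bf61, (rhea719cc8bd0bdd28.shift 1 1)] (by decide +kernel))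
noncomputable def rh07f116f584d831a0 : CRef := CRef.mk (Pat.mk 0x4000000000000001c0000000e0000000000000000 0xc0000000c0000001c0000001e0000003300000010 5 6) 0 0 (step_sound _ 33 [rh5bf746ecd15c6274, (rhee230b994cc8b773.shift 1 1)] (by decide +kernel))
noncomputable def rhb1ee0216c513ea8c : CRef := CRef.mk (Pat.mk 0xc000000000000000c0000000c00000000 0xa0000000e000000040000003c0000000f00000002 5 6) 0 0 (step_sound _ 98 [(rh2f68792b6b779e96.shift 2 1), rh3c1192fb324bd90d] (by decide +kernel))
noncomputable def rhe34d5b16b00f32c0 : CRef := CRef.mk (Pat.mk 0x200000001c00000000 0x370000003e00000007 5 6) 0 0 (step_sound _ 33 [(rh428265de8cd3cd2d.shift 1 1), rhaeebc73f5a9c796a] (by decide +kernel))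
noncomputable def rh01591de926d52984 : CRef := CRef.mk (Pat.mk 0x4000000100000000e0000000000000000 0x4000000370000003e0000000300000002 5 6) 0 0 (step_sound _ 68 [(rh33e738c4ed385b9f.shift 1 2), rh8bb9cbc40f723f93] (by decide +kernel))
noncomputable def rhe4dff0107b40f388 : CRef := CRef.mk (Pat.mk 0x4000000120000001e0000000800000000 0x1000000014000000160000003e0000003b00000002 5 6) 0 0 (step_sound _ 98 [rhb8307e4c182688f5, (rhf48373e13d2bc128.shift 1 2)] (by decide +kernel))
noncomputable def rhfc203579036f7790 : CRef := CRef.mk (Pat.mk 0x1c0000001000000000 0x10000000100000003f0000003f0000001f00000008 5 6) 0 0 (step_sound _ 65 [rh6cf8b6956f09736d, (rhd52e3929053d9d5f.shift 0 1), (rhf2af253f6836a78d.shift 0 1)] (by decide +kernel))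
noncomputable def rh9a5c6744c2ba817e : CRef := CRef.mk (Pat.mk 0xf000000000000000200000002 0x4000000040000001c0000000f0000001a0000000a00000002 5 5) 0 0 (step_sound _ 130 [(rh04253f50b6dd0619.shift 1 0), (rh6210f0fae0472354.shift 0 1)] (by decide +kernel))
noncomputable def rh64d22537d8f7b16a : CRef := CRef.mk (Pat.mk 0x3800000000 0xe70000007e000000ef 5 8) 0 0 (step_sound _ 34 [(rh06db8ceda6269a47.shift 1 0), (rh3fc3a7fb6866dcd4.shift 2 0), rh775ca1963e850b80] (by decide +kernel))
noncomputable def rhab1690a4dda61c82 : CRef := CRef.mk (Pat.mk 0x3800000004 0x70000003e00000076 5 7) 0 0 (step_sound _ 34 [rh9c548838e8725ba1, (rheb0810cc63b001d8.shift 1 0)] (by decide +kernel))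
noncomputable def rhfe53e3e870e68045 : CRef := CRef.mk (Pat.mk 0xc000000040000000e0000001c 0x100000003c000000370000007e0000001e 5 7) 0 0 (step_sound _ 36 [(rhe3060b190bc0bc78.shift 0 1), rhe7a001aee0fd70f7, (rhf9d36e158778ce35.shift 1 0)] (by decide +kernel))
noncomputable def rh12f67c13ff6b9195 : CRef := CRef.mk (Pat.mk 0x6000000080000000c00000004 0x1c0000001f000000380000000c0000000c 5 6) 0 0 (step_sound _ 99 [(rh5c5e593799055d58.shift 2 0), rh842920869d266e8f] (by decide +kernel))
noncomputable def rhcc4cbd1486912b47 : CRef := CRef.mk (Pat.mk 0xc0000000e0000000000000000 0x2000000030000003f0000003e0000000400000004 5 6) 0 0 (step_sound _ 100 [(rh18965a982d73c794.shift 1 2), rhe211a5562844a99b] (by decide +kernel))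
noncomputable def rh4c05afeb7a1b01ec : CRef := CRef.mk (Pat.mk 0x18000000000000001e00000000 0x40000003c000000070000003e00000003 5 6) 0 0 (step_sound _ 65 [(rh3244c3cc8379b070.shift 0 1), rhd8895235ad72ace7] (by decide +kernel))
noncomputable def rh0a267e18aaedab7c : CRef := CRef.mk (Pat.mk 0x18000000000000001e00000000 0x40000003c000000070000003e00000003 5 6) 0 0 (step_sound _ 1 [rheb0810cc63b001d8, rhfc9f07ce5b76abfb] (by decide +kernel))
noncomputable def rh71425b99c81b7935 : CRef := CRef.mk (Pat.mk 0x4000000000000001e00000000 0x600000006000000030000003e00000007 5 6) 0 0 (step_sound _ 1 [rhb633056c3f8b1a07, rheb0810cc63b001d8] (by decide +kernel))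
noncomputable def rh4407ace1ed7f393f : CRef := CRef.mk (Pat.mk 0x1000000006000000080000001c00000000 0x10000000160000007c000000ff00000060 5 8) 0 0 (step_sound _ 68 [rh45109dfe0da23a74, (rhc3c694226a015fc3.shift 1 1), (rhf9d36e158778ce35.shift 1 1)] (by decide +kernel))
noncomputable def rhbe205b6920fa72d2 : CRef := CRef.mk (Pat.mk 0x100000001c00000000 0x300000003e00000077 5 7) 0 0 (step_sound _ 33 [rh06db8ceda6269a47, (rh33e738c4ed385b9f.shift 1 1)] (by decide +kernel))
noncomputable def rhe3f7356e6060e8e8 : CRef := CRef.mk (Pat.mk 0x20000000380000000000000000 0x1000000010000000300000007e000000ef00000020 5 8) 0 0 (step_sound _ 66 [(rh06db8ceda6269a47.shift 1 1), (rh21d582c147e7e118.shift 0 1), (rhd9f8fdeeb50c6416.shift 1 0)] (by decide +kernel))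
noncomputable def rhb007393dd67c13a9 : CRef := CRef.mk (Pat.mk 0x1a0000001e00000000 0x1200000012000000330000001e0000001e0000000c 5 6) 0 0 (step_sound _ 100 [rh114680e7a1ca66eb, (rh503dd4575245365b.shift 3 0)] (by decide +kernel))
noncomputable def rh8d59968615bddea6 : CRef := CRef.mk (Pat.mk 0x20000001e0000000000000000 0x400000004000000060000003e0000003300000002 5 6) 0 0 (step_sound _ 33 [(rh04a978a26ee643ec.shift 1 0), (rheb0810cc63b001d8.shift 0 1)] (by decide +kernel))
noncomputable def rhc3e8361aa7c60363 : CRef := CRef.mk (Pat.mk 0x140000001c000000080000000000000000 0x4000000040000001c0000001f0000001f0000000200000002 5 5) 0 0 (step_sound _ 162 [(rh2145e1d24b96a57e.shift 2 2), rha61fa682b273bde1] (by decide +kernel))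
noncomputable def rh5e5b6c8eda34d977 : CRef := CRef.mk (Pat.mk 0x40000000700000004000000000000000000000000 0xa0000001e00000007000000040000000e0000000e0000000a 5 5) 0 0 (step_sound _ 66 [(rh4017de503635a93b.shift 0 2), (rh8cdd36b03d57a2f6.shift 1 0), (rhe286c75f2739cce2.shift 1 1)] (by decide +kernel))
noncomputable def rh14e30ae87b198e4b : CRef := CRef.mk (Pat.mk 0x200000003800000000 0x730000003e00000070 5 7) 0 0 (step_sound _ 34 [rh27d5b8ff81704bc6, (rh33e738c4ed385b9f.shift 2 1)] (by decide +kernel))
noncomputable def rh3456e117398b4c9c : CRef := CRef.mk (Pat.mk 0x10000001c00000000 0x30000003e00000077 5 7) 0 0 (step_sound _ 33 [rh06db8ceda6269a47, (rh3f8766e6ecb455ce.shift 0 1)] (by decide +kernel))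
noncomputable def rh9dbb76c35b26f1cb : CRef := CRef.mk (Pat.mk 0x220000003800000000 0x330000007e000000ee 5 8) 0 0 (step_sound _ 34 [(rh06db8ceda6269a47.shift 1 0), (rhfcf1119458f22b28.shift 0 1)] (by decide +kernel))
noncomputable def rhb18170f487f92fe1 : CRef := CRef.mk (Pat.mk 0x100000000e000000080000001c00000000 0x100000001e000001f8000000ff000000e0 5 9) 0 0 (step_sound _ 37 [(rh308e802c1186176c.shift 1 1), (rha93a5dd541ab8209.shift 2 0), (rhc3f8d890a3bb80c0.shift 2 0), rhf3731febd9c20499] (by decide +kernel))
noncomputable def rh37eeff0c3c4d4122 : CRef := CRef.mk (Pat.mk 0x480000007800000000 0x78000000ff00000007 5 8) 0 0 (step_sound _ 68 [rhf062016f557148a6, (rhf48373e13d2bc128.shift 3 1)] (by decide +kernel))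
noncomputable def rhee280e976e7de9e1 : CRef := CRef.mk (Pat.mk 0x60000000c0000001c000000000000000000000000 0x60000003e0000001f000000030000000200000002 5 6) 0 0 (step_sound _ 132 [rhcbf2a7d5d1431017, (rhf48373e13d2bc128.shift 1 4)] (by decide +kernel))
noncomputable def rh406619d0d2a4450a : CRef := CRef.mk (Pat.mk 0x80000000e00000008000000080000000000000000 0x80000001e0000007c0000001f0000000c0000000c 5 7) 0 0 (step_sound _ 100 [(rh0b007fc291716b29.shift 0 1), (rh15f571aba15ed1e1.shift 2 0), (rhae2edff970a530ce.shift 1 3)] (by decide +kernel))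
noncomputable def rh43a98e0770cf8cc0 : CRef := CRef.mk (Pat.mk 0x40000000700000004000000040000000000000000 0x40000000f0000003e0000000c0000000c0000000c 5 6) 0 0 (step_sound _ 35 [rhc95335b2b3cb380c, (rhd3458b32566d63f7.shift 2 1)] (by decide +kernel))
noncomputable def rh457f2abbfb9d5b13 : CRef := CRef.mk (Pat.mk 0xb0000000a000000080000000c00000000 0x30000000b0000000a0000000e0000003f00000013 5 6) 0 0 (step_sound _ 36 [(rh55afc6a59410cf00.shift 3 0), rhc2ac2668ed0cbad2] (by decide +kernel))
noncomputable def rh254eddaae00c07ce : CRef := CRef.mk (Pat.mk 0x30000000e00000008000000080000001000000000 0x10000000300000003000000030000000e0000000e0000000f0000001900000018 5 5) 0 0 (step_sound _ 35 [rh3703404575e7a539, (rh55afc6a59410cf00.shift 3 0)] (by decide +kernel))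
noncomputable def rh6e3c2586faa41425 : CRef := CRef.mk (Pat.mk 0xe000000000000001c0000000000000000 0x2000000030000003e000000070000003e0000000300000002 5 6) 0 0 (step_sound _ 97 [rh1477f9c3922b596f, (rh7361a6378a79e53f.shift 0 2), (rh8288fb599a75c6d0.shift 0 2)] (by decide +kernel))
noncomputable def rh6936f04fa46e6ed0 : CRef := CRef.mk (Pat.mk 0x40000000c0000001c0000001000000000 0x80000000c0000000c0000001c0000001f0000000e 5 5) 0 0 (step_sound _ 131 [(rh2145e1d24b96a57e.shift 3 1), rhd2d5360a7d54cf97] (by decide +kernel))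
noncomputable def rhf88f108b5ba5cf55 : CRef := CRef.mk (Pat.mk 0x2000000020000000600000000 0x50000000700000007000000020000000600000006 5 3) 0 0 (step_sound _ 129 [rh32e32f03ae89b559, (rh55afc6a59410cf00.shift 1 0)] (by decide +kernel))
noncomputable def rhc285527e08d8cdd3 : CRef := CRef.mk (Pat.mk 0x20000000e0000000000000000 0x400000004000000070000003e0000000300000002 5 6) 0 0 (step_sound _ 68 [(rh3244c3cc8379b070.shift 0 2), rha8148b9bb2ff3cb1] (by decide +kernel))
noncomputable def rh33ecdbcc9b68c2ae : CRef := CRef.mk (Pat.mk 0x4000000380000000c000000000000000000000000 0x80000000f0000003c0000000c0000000c0000000400000004 5 6) 0 0 (step_sound _ 161 [(rh09d4dfe75d4407d6.shift 1 4), rh81be399a0175d467] (by decide +kernel))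
noncomputable def rhba729d7f754bf307 : CRef := CRef.mk (Pat.mk 0x1c000000240000000000000000 0x200000002000000070000001e000000340000000400000004 5 6) 0 0 (step_sound _ 97 [(rh96851dee118c1ba3.shift 1 2), rhe1ef59f9ff87186c] (by decide +kernel))
noncomputable def rh7c1f21459a93095b : CRef := CRef.mk (Pat.mk 0x80000000e000000120000000000000000 0x20000000b0000003e000000360000000400000004 5 6) 0 0 (step_sound _ 100 [rh97008031ef76f114, (rhe25b0a99195a5d59.shift 1 2)] (by decide +kernel))
noncomputable def rhef9c4a5ad52c15e4 : CRef := CRef.mk (Pat.mk 0x180000001e000000100000000000000000 0x180000003e0000001f0000003000000030 5 6) 0 0 (step_sound _ 65 [(rhd3aa8c369cd6ca6f.shift 1 0), (rheb0810cc63b001d8.shift 0 2)] (by decide +kernel))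
noncomputable def rhba9fdacd0d886664 : CRef := CRef.mk (Pat.mk 0xd0000000c000000080000000000000000 0x800000018000000180000000f0000000c0000000c0000001800000018 5 5) 0 0 (step_sound _ 35 [(rh7b1f1fb55310c477.shift 2 0), rhb0d3d803b47a25b4] (by decide +kernel))
noncomputable def rh45c4133b34d4200e : CRef := CRef.mk (Pat.mk 0x200000003800000000 0x300000007e000000ff 5 8) 0 0 (step_sound _ 34 [(rh06db8ceda6269a47.shift 1 0), rh21d582c147e7e118, (rh2ebbcfe90e0f250d.shift 1 0)] (by decide +kernel))
noncomputable def rhf61fb3470c82322c : CRef := CRef.mk (Pat.mk 0x6000000080000001c00000000 0x60000007f000000ff000000e0 5 8) 0 0 (step_sound _ 68 [rh0cd5c6dd89495b93, (rhc3c694226a015fc3.shift 1 1), (rhf9d36e158778ce35.shift 1 1)] (by decide +kernel))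
noncomputable def rh0be40e07838c82ae : CRef := CRef.mk (Pat.mk 0x40000000f000000010000000400000000 0x2000000060000001f000000030000000700000007 5 5) 0 0 (step_sound _ 65 [rh02942b5fc0bcc7bd, (rh18965a982d73c794.shift 0 2)] (by decide +kernel))
noncomputable def rhd19f17a3ae2b82f6 : CRef := CRef.mk (Pat.mk 0x40000001c0000000400000000 0xa0000000e0000000e000000040000001c0000000f0000000a 5 5) 0 0 (step_sound _ 130 [(rhc85cc95794737cf7.shift 1 1), rhfbf2eae4035425b6] (by decide +kernel))
noncomputable def rh7f7d8dcc24c2c54a : CRef := CRef.mk (Pat.mk 0x10000000580000007000000000 0x100000001000000010000000780000007f0000000f 5 7) 0 0 (step_sound _ 35 [(rh1ae4704ae86cb9a8.shift 2 0), (rh503dd4575245365b.shift 3 0), rhf062016f557148a6] (by decide +kernel))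
noncomputable def rhde343267ca41d862 : CRef := CRef.mk (Pat.mk 0x40000001c0000000c000000080000000000000000 0x80000000c0000001c0000000f0000003e0000001600000006 5 6) 0 0 (step_sound _ 97 [(rh53b3c253cb0c65f4.shift 0 3), (rhd03e4a04a18923e5.shift 1 0)] (by decide +kernel))
noncomputable def rhee3cfb18cb4898e7 : CRef := CRef.mk (Pat.mk 0x40000000f000000030000000200000000 0x2000000060000000f0000001b0000001f0000000d 5 5) 0 0 (step_sound _ 67 [rhb9681426379f5ff9, (rhe25b0a99195a5d59.shift 0 2)] (by decide +kernel))
noncomputable def rh017d9d6f43ceba66 : CRef := CRef.mk (Pat.mk 0x4000000140000001c0000000800000000 0xa0000000f0000001c0000001c0000000f00000006 5 5) 0 0 (step_sound _ 34 [rh5dadc213733acde0, rhf5094ad2a427d4d3] (by decide +kernel))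
noncomputable def rhd16b2373b1d4e546 : CRef := CRef.mk (Pat.mk 0x1a0000001e000000120000000000000000 0x3000000030000001e0000001e000000160000001c00000018 5 5) 0 0 (step_sound _ 36 [(rh7b1f1fb55310c477.shift 3 0), rhb7ae10cf7b2c0e64] (by decide +kernel))
noncomputable def rhc0b58ad60bfdca27 : CRef := CRef.mk (Pat.mk 0x180000001e000000100000001000000000 0x180000003e000000170000003c0000000c 5 6) 0 0 (step_sound _ 65 [(rh83bb80c64f9f27ad.shift 1 0), (rheb0810cc63b001d8.shift 0 2)] (by decide +kernel))
noncomputable def rh51a57244e64379f6 : CRef := CRef.mk (Pat.mk 0x200000006000000160000000000000000 0x40000000400000006000000060000001e0000000f0000000f 5 5) 0 0 (step_sound _ 34 [rh3c6d7a8a083e8974, (rh7b1f1fb55310c477.shift 1 0)] (by decide +kernel))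
noncomputable def rh58d06923c5afc265 : CRef := CRef.mk (Pat.mk 0x20000000600000006000000000000000000000000 0x600000006000000060000000600000006000000030000000300000003 5 3) 0 0 (step_sound _ 193 [(rh2145e1d24b96a57e.shift 1 3), rhd93431c3ad9982b9] (by decide +kernel))
noncomputable def rhe98853668e8f24ec : CRef := CRef.mk (Pat.mk 0x1a0000001800000008 0x1c0000001c0000001f0000001b0000001800000008 5 5) 0 0 (step_sound _ 99 [rh6132a70967ffabf6, (rh7b9fbdf6d2d059e4.shift 2 0), (rhc45960fcf2a66b44.shift 3 0)] (by decide +kernel))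
noncomputable def rh4fb0944b58a2c3f8 : CRef := CRef.mk (Pat.mk 0xc0000001c000000160000000000000000 0xf0000001c000000160000003c0000001c 5 6) 0 0 (step_sound _ 129 [(rhb739f4f82bb681b4.shift 0 3), (rhf64c13d9a0a60b1f.shift 1 0)] (by decide +kernel))
noncomputable def rhd3427edfe1bb73fe : CRef := CRef.mk (Pat.mk 0x40000001c00000004000000000000000000000000 0xa0000000f0000001c000000040000000e0000000e0000000a 5 5) 0 0 (step_sound _ 66 [(rh039efe07c35de3d4.shift 0 2), (rh8cdd36b03d57a2f6.shift 1 0), (rha707fb719e87fe6e.shift 2 1)] (by decide +kernel))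
noncomputable def rh784c7b94a445b2bb : CRef := CRef.mk (Pat.mk 0x1800000010000000180000001800000000 0x240000003f0000001f000000180000001800000010 5 6) 0 0 (step_sound _ 99 [(rh7b1f1fb55310c477.shift 3 0), (rhf3b8cdcf9f7b4de1.shift 0 1)] (by decide +kernel))
noncomputable def rh85210b7244c2a9ab : CRef := CRef.mk (Pat.mk 0x2000000020000000300000003000000000000000000000000 0x100000003000000030000000300000007000000060000000600000002 5 3) 0 0 (step_sound _ 192 [rh032b6973ed793695, (rh50fbb5868c909700.shift 0 3)] (by decide +kernel))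
noncomputable def rh93bcce24557713d2 : CRef := CRef.mk (Pat.mk 0x40000000f0000000b0000000200000000 0x2000000060000000f0000000b0000001f0000000d 5 5) 0 0 (step_sound _ 35 [(rh7b1f1fb55310c477.shift 2 0), rhe0c44693bdcb5e28] (by decide +kernel))
noncomputable def rh9e21c01e2ba1dee9 : CRef := CRef.mk (Pat.mk 0x200000002000000020000000200000000 0x500000007000000070000000200000002000000060000000600000004 5 3) 0 0 (step_sound _ 34 [(rh55afc6a59410cf00.shift 1 0), (rhde061a0c3cca9b80.shift 0 1)] (by decide +kernel))
noncomputable def rhb2272e24508e38ee : CRef := CRef.mk (Pat.mk 0x140000001c00000000 0x1e0000007f00000070 5 7) 0 0 (step_sound _ 37 [(rh3244c3cc8379b070.shift 1 1), rh8d9c13d97203eb86] (by decide +kernel))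
noncomputable def rhd3e95a009f39e032 : CRef := CRef.mk (Pat.mk 0x1e0000000c0000000000000000 0x6000000070000001e0000000c0000000c0000000c 5 5) 0 0 (step_sound _ 129 [(rh2e017013ff157e93.shift 1 0), (rh3244c3cc8379b070.shift 0 3)] (by decide +kernel))
noncomputable def rhcd1dd7d21b1a41d6 : CRef := CRef.mk (Pat.mk 0x4000000070000000a0 0x600000007e000000f7 5 8) 0 0 (step_sound _ 35 [(rh96851dee118c1ba3.shift 3 0), rhbfe376cd40aaedfb] (by decide +kernel))
noncomputable def rh1f41b73f7c851e6d : CRef := CRef.mk (Pat.mk 0x500000007000000020 0x77000001fe000001f0 5 9) 0 0 (step_sound _ 35 [(rh3bd77ad381b0c7ec.shift 3 0), (rha03f6e28ea70fc7d.shift 2 0), rhbfdaafe6cbbfd7f3, (rhe3dc93746cbe6e7c.shift 2 0)] (by decide +kernel))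
noncomputable def rhd3dc55569bfd6caf : CRef := CRef.mk (Pat.mk 0x160000001c0000000000000000 0xc0000000c0000001e0000001f0000003300000012 5 6) 0 0 (step_sound _ 65 [rh031a926e4a883687, rh4983c44f3a2eb597] (by decide +kernel))
noncomputable def rha2959b67624b388e : CRef := CRef.mk (Pat.mk 0x140000001e0000000000000000 0x8000000080000001c0000007f0000000600000004 5 7) 0 0 (step_sound _ 99 [(rh53b3c253cb0c65f4.shift 0 2), (rh87e2ca517c87b4c2.shift 1 0)] (by decide +kernel))
noncomputable def rha9bccb6e9e0c380f : CRef := CRef.mk (Pat.mk 0x2800000038000000000000000000000000 0x1800000018000000380000003e0000006f0000002400000004 5 7) 0 0 (step_sound _ 98 [(rh21d582c147e7e118.shift 0 2), (rh4983c44f3a2eb597.shift 1 1), (rhcfde16a7ff36af03.shift 1 0)] (by decide +kernel))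
noncomputable def rhf918b6ee45297661 : CRef := CRef.mk (Pat.mk 0x100000001c000000040000000000000000 0xa0000000a0000001b0000001f000000360000001400000004 5 6) 0 0 (step_sound _ 97 [(rh28d782e6e855ec21.shift 0 1), rh6cc58692ec716844] (by decide +kernel))
noncomputable def rh0bc4232dcd5b4fd6 : CRef := CRef.mk (Pat.mk 0x40000000f0000000b0000000000000000 0x2000000060000000f0000000b0000001f0000000f 5 5) 0 0 (step_sound _ 33 [(rh71222050f2c63a3a.shift 1 0), rhb9681426379f5ff9] (by decide +kernel))
noncomputable def rha3d9777f7cbaeab4 : CRef := CRef.mk (Pat.mk 0x1e00000000 0x30000003e00000077 5 7) 0 0 (step_sound _ 65 [rh06db8ceda6269a47, (rh3244c3cc8379b070.shift 0 1)] (by decide +kernel))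
noncomputable def rh0fe7e174ea960d02 : CRef := CRef.mk (Pat.mk 0x20000000e00000000 0x30000003e00000077 5 7) 0 0 (step_sound _ 36 [rh06db8ceda6269a47, (rh3244c3cc8379b070.shift 0 1)] (by decide +kernel))
noncomputable def rh214448c9bf163ebe : CRef := CRef.mk (Pat.mk 0x58000000700000000000000000 0x3000000030000000780000007f000000cf00000048 5 8) 0 0 (step_sound _ 67 [(rh031a926e4a883687.shift 2 0), (rh4983c44f3a2eb597.shift 2 0), (rhf062016f557148a6.shift 0 1)] (by decide +kernel))
noncomputable def rhd49523d6cd17eb38 : CRef := CRef.mk (Pat.mk 0x120000001a0000000000000000 0x400000004000000360000003e0000000300000002 5 6) 0 0 (step_sound _ 66 [(rh33e738c4ed385b9f.shift 1 2), rhd1564cc1f0e06cc8] (by decide +kernel))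
noncomputable def rhe0f4334d41ad24d5 : CRef := CRef.mk (Pat.mk 0xa000000180000000000000000 0x10000000300000001f000000380000000800000008 5 6) 0 0 (step_sound _ 98 [(rh137e64670c5b7fdf.shift 1 0), (rhb739f4f82bb681b4.shift 0 2)] (by decide +kernel))
noncomputable def rh5c2f0150d1f7d056 : CRef := CRef.mk (Pat.mk 0x78000000500000000000000000 0x2000000020000000300000007e000000770000001000000010 5 7) 0 0 (step_sound _ 133 [(rh6e672cddce798f8b.shift 4 0), (rh908411fcafde85e3.shift 2 1), (rhfd3b863ea463319a.shift 0 2)] (by decide +kernel))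
noncomputable def rhe85a3cffbf7d730f : CRef := CRef.mk (Pat.mk 0xe0000000a0000000000000000 0x12000000330000003e0000003e0000000c0000000c 5 6) 0 0 (step_sound _ 100 [rh5117ef794a583ff1, (rh8226ff7f0d2fe0a7.shift 1 0)] (by decide +kernel))
noncomputable def rh8f7af3f59561927a : CRef := CRef.mk (Pat.mk 0xe000000080000000000000000 0x10000000300000001f000000380000000800000008 5 6) 0 0 (step_sound _ 68 [(rh137e64670c5b7fdf.shift 1 0), (rhb739f4f82bb681b4.shift 0 2)] (by decide +kernel))
noncomputable def rhaaa362a1ef1f95f1 : CRef := CRef.mk (Pat.mk 0x2800000028000000180000000000000000 0x28000000780000003f0000007800000010 5 7) 0 0 (step_sound _ 66 [rh547ee452ec790338, (rh6870ff15d3813450.shift 2 2), (rh7dcd5319f4f71bec.shift 1 2), (rh8e8bb318f11a6b6d.shift 1 0)] (by decide +kernel))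
noncomputable def rh962518222e4d8110 : CRef := CRef.mk (Pat.mk 0x800000008000000060000000400000004 0x8000000380000001f0000003c00000014 5 6) 0 0 (step_sound _ 67 [rhd8c24d9b70d6ce6b, (rheea67dfebd0f8008.shift 2 0)] (by decide +kernel))
noncomputable def rh1f88ddeca49b52e1 : CRef := CRef.mk (Pat.mk 0xc0000000f000000030000000000000000 0x80000000c0000000f0000001f0000001c0000000c 5 5) 0 0 (step_sound _ 67 [rhc13c80fddf288e56, (rhe25b0a99195a5d59.shift 0 2)] (by decide +kernel))
noncomputable def rh1d1ff638f3815e97 : CRef := CRef.mk (Pat.mk 0xe0000000a0000000200000000 0x10000000700000003e0000003e0000000b00000008 5 7) 0 0 (step_sound _ 100 [(rh76de2bf3c43935fb.shift 0 1), (rh8226ff7f0d2fe0a7.shift 1 0), (rhd584a578337d0023.shift 1 2)] (by decide +kernel))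
noncomputable def rh169a5019b3eb8c0c : CRef := CRef.mk (Pat.mk 0x80000002800000008000000040000000000000000 0x8000000780000001f0000000c0000000400000004 5 7) 0 0 (step_sound _ 34 [rh92584284f8f1d209, (rheea67dfebd0f8008.shift 2 1)] (by decide +kernel))
noncomputable def rhb6137bb35f082558 : CRef := CRef.mk (Pat.mk 0xd0000000c000000080000000000000000 0x10000000180000000f0000000c0000000c0000000c0000000c 5 5) 0 0 (step_sound _ 35 [(rh7b1f1fb55310c477.shift 2 0), rh83805c1b349b7f6f] (by decide +kernel))
noncomputable def rh22538e7075d1879a : CRef := CRef.mk (Pat.mk 0x4000000040000000100000003800000000 0x4000000040000000f7000000fe000000c7 5 8) 0 0 (step_sound _ 34 [(rh3137f3db262c2e3f.shift 2 0), rh592c7139d2c44767, (rhec46bd5500c722c9.shift 1 1)] (by decide +kernel))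
noncomputable def rh17d7303830c72081 : CRef := CRef.mk (Pat.mk 0x40000000200000002000000020000000000000000 0x60000000600000002000000070000000700000005 5 3) 0 0 (step_sound _ 33 [(rhbaefcd01e0a8bca3.shift 1 1), rhce9a49803a550f13] (by decide +kernel))
noncomputable def rhf521f66750ae5b0a : CRef := CRef.mk (Pat.mk 0x800000004000000140000000400000000 0xc0000000c000000040000001c0000000f0000000a 5 5) 0 0 (step_sound _ 130 [(rh2f68792b6b779e96.shift 2 1), rh9c6ef0ba0f8edd71] (by decide +kernel))
noncomputable def rh617b684357e73c60 : CRef := CRef.mk (Pat.mk 0x28000000080000000800000010 0x40000000f0000007c000000080000001800000010 5 7) 0 0 (step_sound _ 131 [(rh7430a052bcb4bacd.shift 0 1), (rhd3458b32566d63f7.shift 3 0)] (by decide +kernel))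
noncomputable def rh48359f3ea1773bbe : CRef := CRef.mk (Pat.mk 0x2000000020000000000000001e00000000 0x2000000020000000670000007e00000060 5 7) 0 0 (step_sound _ 65 [(rh2e6f9e03f5d73313.shift 1 0), (rh3244c3cc8379b070.shift 0 1)] (by decide +kernel))
noncomputable def rh62048c0ade01e723 : CRef := CRef.mk (Pat.mk 0xe0000000200000002 0x600000007000000070000001e0000000600000006 5 5) 0 0 (step_sound _ 97 [rh2e8814637c3f6d46, (rh7ab09f375cd5d482.shift 1 0)] (by decide +kernel))
noncomputable def rh12462b136fc4e541 : CRef := CRef.mk (Pat.mk 0x14000000140000000400000000 0x80000000e0000000f0000003c0000001c0000000f0000000a 5 6) 0 0 (step_sound _ 130 [rh15f443a9a462a99b, (rhb1f11fdfc32eb594.shift 0 1), (rhced6d86d2069808b.shift 2 0)] (by decide +kernel))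
noncomputable def rhad1baf204156c8c4 : CRef := CRef.mk (Pat.mk 0xa0000000a000000060000000000000000 0xb0000003e0000001f0000003000000010 5 6) 0 0 (step_sound _ 100 [(rh01e48cd9f335aa73.shift 0 2), (rh0ea7de2da709317e.shift 0 2), rhb8ccad5f84374f22] (by decide +kernel))
noncomputable def rhed587f576d3ec58b : CRef := CRef.mk (Pat.mk 0x800000038000000080000000000000000 0x100000001c0000001c0000000c000000380000001f0000000c00000004 5 6) 0 0 (step_sound _ 163 [(rh14f80659e6313cc6.shift 3 2), (rh852e818bc8629e77.shift 0 1), (rhc4526fc8abf298b6.shift 2 0)] (by decide +kernel))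
noncomputable def rh1655eefc1ea73868 : CRef := CRef.mk (Pat.mk 0xb0000000a000000000000000700000000 0x100000001b0000001e000000380000001f00000038 5 6) 0 0 (step_sound _ 100 [rh1dd7423dae765ee3, (rh5419adcd928dba20.shift 0 3)] (by decide +kernel))
noncomputable def rhfd74434a172f378b : CRef := CRef.mk (Pat.mk 0x40000001c0000000400000000 0xa0000000e0000000e000000040000001c0000000f0000000a 5 5) 0 0 (step_sound _ 130 [(rhc85cc95794737cf7.shift 1 1), (rhd4b4beefcd67f51e.shift 2 0), rhfbf2eae4035425b6] (by decide +kernel))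
noncomputable def rh06fe2389fa6d205e : CRef := CRef.mk (Pat.mk 0xb0000000a000000030000000600000000 0x100000001b0000001e0000000f0000001e00000008 5 5) 0 0 (step_sound _ 100 [rh33f35cdda90373cf, (rh5419adcd928dba20.shift 0 3)] (by decide +kernel))
noncomputable def rh551696f1abd59aff : CRef := CRef.mk (Pat.mk 0x20000000a0000000200000002000000020000000000000000 0x30000001e0000000700000002000000030000000300000001 5 5) 0 0 (step_sound _ 32 [(rh79877ebd3ef475dd.shift 0 1), rhea20b2e1b4a88777] (by decide +kernel))
noncomputable def rhf7260bd287335280 : CRef := CRef.mk (Pat.mk 0x80000001800000008000000080000000800000000 0x8000000180000007c0000000f0000000c00000008 5 7) 0 0 (step_sound _ 100 [(rh71222050f2c63a3a.shift 3 0), (rh80650b8e93363f1e.shift 0 1)] (by decide +kernel))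
noncomputable def rh1748102f931eb837 : CRef := CRef.mk (Pat.mk 0xa0000000a00000002000000030000000600000000 0xb0000003e0000003e0000001b0000001e00000012 5 6) 0 0 (step_sound _ 100 [rh098c56123c034458, (rh21f15bc73f941d2e.shift 0 1), rh448b80e90022dc20, (rh72603dfb0c436954.shift 0 1), rhd826477d39bda528] (by decide +kernel))
noncomputable def rh45a726939473513b : CRef := CRef.mk (Pat.mk 0x200000002000000060000000200000000 0x3000000070000000700000006000000060000000200000002 5 3) 0 0 (step_sound _ 160 [rh21c34111fa763b98, (rhffd04209dc8ea796.shift 0 1)] (by decide +kernel))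
noncomputable def rh604ba53da59d6fdc : CRef := CRef.mk (Pat.mk 0xe0000000a0000000000000000 0x400000014000000770000003e0000003a0000000a00000008 5 7) 0 0 (step_sound _ 100 [(rh8226ff7f0d2fe0a7.shift 1 0), (rhaf661323c6e1d2ba.shift 0 1), (rhb18e6c78a554867d.shift 0 3)] (by decide +kernel))
noncomputable def rh5e3458e5a400ab1f : CRef := CRef.mk (Pat.mk 0x1c000000140000000000000000 0x2000000070000003e000000340000000400000004 5 6) 0 0 (step_sound _ 97 [rh71481c29d87b7b99, (rhe25b0a99195a5d59.shift 1 2)] (by decide +kernel))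
noncomputable def rh9e24c218225bb676 : CRef := CRef.mk (Pat.mk 0xe0000000a0000000000000000 0x10000000300000001e0000003b0000000800000008 5 6) 0 0 (step_sound _ 100 [(rh95d8379bb7c33900.shift 1 0), (rheb0810cc63b001d8.shift 0 2)] (by decide +kernel))
noncomputable def rh0aba4afd71486ade : CRef := CRef.mk (Pat.mk 0x20000000f0000000b000000000000000000000000 0x4000000060000000f0000000b0000001e0000000e00000006 5 5) 0 0 (step_sound _ 65 [rh820d4e04d5dcd02e, rh86308a570de11f2c, (rha707fb719e87fe6e.shift 1 1), (rhfa9681ed7ca31a56.shift 0 1)] (by decide +kernel))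
noncomputable def rh11a290682a49cce6 : CRef := CRef.mk (Pat.mk 0x800000038000000080000000800000000 0x18000000180000003c0000000f0000000c00000004 5 6) 0 0 (step_sound _ 132 [(rh2f68792b6b779e96.shift 3 1), rhc59a2df7a9768206] (by decide +kernel))
noncomputable def rh767694941ef2c178 : CRef := CRef.mk (Pat.mk 0x40000001c0000000400000004 0x400000006000000070000001e0000000700000006 5 5) 0 0 (step_sound _ 97 [rh3001434bc51a43e8, (rh50fbb5868c909700.shift 1 0)] (by decide +kernel))
noncomputable def rhd97e3ad6649814b3 : CRef := CRef.mk (Pat.mk 0xc0000000c000000080000000800000000 0x80000000c0000000c0000000f0000003c00000014 5 6) 0 0 (step_sound _ 34 [(rh932754581e0f4330.shift 2 0), rhedb92cf628da4c9f] (by decide +kernel))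
noncomputable def rh236af70c223e1a76 : CRef := CRef.mk (Pat.mk 0xe0000000a0000000000000000 0x10000000300000001e0000003b0000000800000008 5 6) 0 0 (step_sound _ 100 [(rh8226ff7f0d2fe0a7.shift 1 0), (rheb0810cc63b001d8.shift 0 2)] (by decide +kernel))
noncomputable def rh6464d3e7a80a55ea : CRef := CRef.mk (Pat.mk 0x1c000000140000000000000000 0x2000000030000001e000000370000000400000004 5 6) 0 0 (step_sound _ 97 [rhc901bc4bb2497753, (rhe25b0a99195a5d59.shift 1 2)] (by decide +kernel))
noncomputable def rhd37a08c5bf39d5bc : CRef := CRef.mk (Pat.mk 0x380000002800000008000000100000001000000000 0x380000002f0000007c000000300000001000000010 5 7) 0 0 (step_sound _ 100 [(rh7b1f1fb55310c477.shift 3 0), (rh9f1ac322b6f12a31.shift 0 1)] (by decide +kernel))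
noncomputable def rh2ad5bfa510d27cdd : CRef := CRef.mk (Pat.mk 0x200000002000000020000000000000000 0x500000007000000070000000300000002000000070000000700000005 5 3) 0 0 (step_sound _ 161 [rh6eff4158bb400f47, rhc4526fc8abf298b6, (rhc85cc95794737cf7.shift 0 2)] (by decide +kernel))
noncomputable def rh4ecbbcd8b1011770 : CRef := CRef.mk (Pat.mk 0x1400000014000000040000000a0000000000000000 0x14000000340000001e0000001f0000000800000008 5 6) 0 0 (step_sound _ 35 [(rhbe0e43a3bc50a43f.shift 2 1), rhd97dc455ea2479ac] (by decide +kernel))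
noncomputable def rhf56ef785604bc06e : CRef := CRef.mk (Pat.mk 0x1000000010000000040000000e00000000 0x10000000300000003f0000003f00000030 5 6) 0 0 (step_sound _ 36 [(rh40596762b17615dd.shift 0 1), (rhe3060b190bc0bc78.shift 0 1), (rheba69208ec1d6f97.shift 1 0)] (by decide +kernel))
noncomputable def rh2831cc53dc0ef389 : CRef := CRef.mk (Pat.mk 0x200000002000000020000000000000000 0x400000007000000070000000300000003000000070000000700000004 5 3) 0 0 (step_sound _ 161 [(rh20966da26a1c2ae8.shift 0 1), rh8ff3dde5b1c639e0] (by decide +kernel))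
noncomputable def rh28c73d57e4f29782 : CRef := CRef.mk (Pat.mk 0x80000000e00000008000000080000000000000000 0x80000001f0000003c000000180000001800000010 5 6) 0 0 (step_sound _ 36 [rhb5b59ebe51586730, (rhd3458b32566d63f7.shift 3 1)] (by decide +kernel))
noncomputable def rhca0c1198e27561f2 : CRef := CRef.mk (Pat.mk 0xc0000000c000000080000000c00000000 0xc0000000c0000003e0000007f00000012 5 7) 0 0 (step_sound _ 36 [(rh55afc6a59410cf00.shift 3 0), rh71f76013d0b0c13d] (by decide +kernel))
noncomputable def rh79b61ab6bf1c7998 : CRef := CRef.mk (Pat.mk 0xa0000000e000000180000000000000000 0xb0000003e0000001f0000003000000010 5 6) 0 0 (step_sound _ 100 [(rh3244c3cc8379b070.shift 0 3), rh71076fcbfa908baf] (by decide +kernel))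
noncomputable def rhb3c19ac92468befa : CRef := CRef.mk (Pat.mk 0x180000000c000000000000000a0000000000000000 0x18000000180000000c0000000c0000000f0000001c00000018 5 5) 0 0 (step_sound _ 99 [rh12ea5000ffe513ff, (rh2f68792b6b779e96.shift 3 2)] (by decide +kernel))
noncomputable def rh5114df3b76e459a8 : CRef := CRef.mk (Pat.mk 0x100000001c00000006000000140000000000000000 0x100000001c0000000e0000003f0000003b00000002 5 6) 0 0 (step_sound _ 67 [rhd50f7445af4be931, (rhf48373e13d2bc128.shift 1 2)] (by decide +kernel))
noncomputable def rha64573bd9feb1d5d : CRef := CRef.mk (Pat.mk 0x1000000018000000000000001c0000000000000000 0x10000000100000001800000018000000180000001f0000003000000010 5 6) 0 0 (step_sound _ 99 [(rh296418b54b6472b9.shift 3 0), rh2ca013f0c46862b0, (rh55c8fae470e8430a.shift 3 1), (rhbfb5770941270498.shift 3 2), rhdcf10ad5fbc4b5fe] (by decide +kernel))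
noncomputable def rh6086d80a3e0f6a90 : CRef := CRef.mk (Pat.mk 0x80000000c00000003000000060000000000000000 0xc0000000c0000000b0000001f0000001c00000010 5 5) 0 0 (step_sound _ 67 [rhaad9d26060ca4112, (rhf48373e13d2bc128.shift 0 2)] (by decide +kernel))
noncomputable def rhf182a8d847418250 : CRef := CRef.mk (Pat.mk 0x1000000002000000020000000600000000 0x70000001f00000003000000020000000600000004 5 5) 0 0 (step_sound _ 129 [(rh55afc6a59410cf00.shift 1 0), (rh86aa75e034ac3439.shift 0 1)] (by decide +kernel))
noncomputable def rh6589ff203f2415cf : CRef := CRef.mk (Pat.mk 0xc000000080000000c00000000 0x10000000780000001f000000080000000c00000004 5 7) 0 0 (step_sound _ 131 [(rh932754581e0f4330.shift 2 0), (rhe9f9259b2da8d967.shift 0 1)] (by decide +kernel))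
noncomputable def rhde16252fdba3f7e3 : CRef := CRef.mk (Pat.mk 0x6000000040000000600000000 0x80000003c0000000f000000040000000600000006 5 6) 0 0 (step_sound _ 130 [(rh932754581e0f4330.shift 1 0), rhddc1856af4164a47] (by decide +kernel))
noncomputable def rh3da7b58043f0d197 : CRef := CRef.mk (Pat.mk 0x6000000040000000600000000 0xa0000003e00000007000000040000000600000002 5 6) 0 0 (step_sound _ 130 [(rh932754581e0f4330.shift 1 0), (rhd8406b09026060f8.shift 0 1)] (by decide +kernel))
noncomputable def rhe9e5c1528e071a8c : CRef := CRef.mk (Pat.mk 0x8000000180000000c0000000800000000 0x60000000f0000001c0000000c0000000c0000000c 5 5) 0 0 (step_sound _ 34 [(rh932754581e0f4330.shift 2 0), rhd12345ba03c871a7] (by decide +kernel))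
noncomputable def rhf2beb972856dfb5c : CRef := CRef.mk (Pat.mk 0xc000000180000000e0000000800000000 0x8000000080000000c0000001f0000003e0000001800000008 5 6) 0 0 (step_sound _ 98 [(rh08e2be399e351743.shift 0 1), (rh7b1f1fb55310c477.shift 2 0)] (by decide +kernel))
noncomputable def rh02f4b9832968c51d : CRef := CRef.mk (Pat.mk 0xc000000060000000400000000 0x6000000070000003e000000060000000600000006 5 6) 0 0 (step_sound _ 100 [rh17c857dcf8da1757, (rh18965a982d73c794.shift 1 2)] (by decide +kernel))
noncomputable def rhdb96e009ca7f0113 : CRef := CRef.mk (Pat.mk 0x100000001800000038000000000000000000000000 0x100000003f0000003f000000600000002000000020 5 7) 0 0 (step_sound _ 129 [rh5310cd4316f1e71f, (rhab22b5b56e7b3243.shift 1 3)] (by decide +kernel))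
noncomputable def rhe1820f7555843259 : CRef := CRef.mk (Pat.mk 0x4000000060000000e000000000000000000000000 0x40000000e0000003f000000380000000800000008 5 6) 0 0 (step_sound _ 100 [rhaa5997f027e3866e, (rhf48373e13d2bc128.shift 1 3)] (by decide +kernel))
noncomputable def rhde3f97a42f805586 : CRef := CRef.mk (Pat.mk 0x20000000e00000000 0x670000003e00000070 5 7) 0 0 (step_sound _ 36 [(rh3244c3cc8379b070.shift 0 1), (rhceef54650bd2c0b9.shift 1 0)] (by decide +kernel))
noncomputable def rh1d8db92885e5ac9e : CRef := CRef.mk (Pat.mk 0x20000000e0000000000000000 0x400000004000000070000003e0000000300000002 5 6) 0 0 (step_sound _ 68 [(rh3244c3cc8379b070.shift 0 2), rhd1564cc1f0e06cc8] (by decide +kernel))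
noncomputable def rh984b5534de41c62c : CRef := CRef.mk (Pat.mk 0x80000000c000000000000001800000000 0x10000000780000001f000000080000001800000010 5 7) 0 0 (step_sound _ 67 [(rh55afc6a59410cf00.shift 3 0), (rhc9613fc5bab58382.shift 0 1)] (by decide +kernel))
noncomputable def rh0737c2ffffefa08f : CRef := CRef.mk (Pat.mk 0x1800000008000000380000000000000000 0x40000001f00000038000000780000000c0000000c 5 7) 0 0 (step_sound _ 35 [(rh157b220518f94713.shift 2 0), rha9a69d57f9167c99] (by decide +kernel))
noncomputable def rh2a889473938f494d : CRef := CRef.mk (Pat.mk 0x1e00000000 0x770000007e000000e0 5 8) 0 0 (step_sound _ 37 [(rh9890f9d77740bbed.shift 1 1), rhed04b6e978427241] (by decide +kernel))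
noncomputable def rhe1f91466bd3abdb6 : CRef := CRef.mk (Pat.mk 0x1e000000000000000000000010 0x600000003e000000370000001000000010 5 7) 0 0 (step_sound _ 65 [(rhb66ef8ba16830b74.shift 1 0), (rheb0810cc63b001d8.shift 0 2)] (by decide +kernel))
noncomputable def rh31d1ab8a303b5e10 : CRef := CRef.mk (Pat.mk 0x18000000080000000c00000000 0xc0000000f0000007c000000380000001f00000010 5 7) 0 0 (step_sound _ 131 [(rh215fef6ef21eb5a3.shift 0 1), rh54968f8c0e71a67e] (by decide +kernel))
noncomputable def rhfe086b11d5047246 : CRef := CRef.mk (Pat.mk 0x18000000080000000c0000000000000004 0x800000008000000180000000f0000003c0000001400000004 5 6) 0 0 (step_sound _ 98 [(rh708bc64a570577a3.shift 0 1), (rh9e3edb185cc347de.shift 2 0)] (by decide +kernel))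
noncomputable def rh47f0e74ed3ad9dce : CRef := CRef.mk (Pat.mk 0x380000000800000018000000100000000000000000 0x20000000380000002f0000007c000000300000001000000010 5 7) 0 0 (step_sound _ 36 [(rh09eb485d87365415.shift 0 1), (rh7b1f1fb55310c477.shift 3 0)] (by decide +kernel))
noncomputable def rh2c934bae1034f8b2 : CRef := CRef.mk (Pat.mk 0x1000000038000000080000001800000000 0x30000000380000003f00000078000000e0 5 8) 0 0 (step_sound _ 37 [(rh935da622f8ebc962.shift 4 0), (rha3204d5dbf1e6777.shift 0 1), (rhc7b77bdee57ef422.shift 2 0)] (by decide +kernel))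
noncomputable def rhbdccc3dfce665038 : CRef := CRef.mk (Pat.mk 0x3800000008000000380000000000000000 0x50000000f0000000380000002f0000007c0000003000000010 5 8) 0 0 (step_sound _ 101 [(rh47ecea03df6fae84.shift 4 0), (rh802c7087213427b5.shift 3 1), (rhfd99604093c09fe0.shift 0 2)] (by decide +kernel))
noncomputable def rhe310031246225327 : CRef := CRef.mk (Pat.mk 0x2000000060000000200000006 0x3000000030000000700000006000000060000000600000006 5 3) 0 0 (step_sound _ 98 [(rh2f68792b6b779e96.shift 1 0), rh4b685788b9557979] (by decide +kernel))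
noncomputable def rh7b7caf37a8546a37 : CRef := CRef.mk (Pat.mk 0x3c00000008 0xe6000000ff00000038 5 8) 0 0 (step_sound _ 66 [(rh3244c3cc8379b070.shift 1 1), rhd320fa596a321b57] (by decide +kernel))
noncomputable def rhc74966130f24d717 : CRef := CRef.mk (Pat.mk 0x400000007000000020000000600000000 0x200000003000000030000000700000007000000030000000600000004 5 3) 0 0 (step_sound _ 129 [(rh55afc6a59410cf00.shift 1 0), (rhe897af202bc68eb8.shift 0 1)] (by decide +kernel))
noncomputable def rh46d807f6e271ad3d : CRef := CRef.mk (Pat.mk 0x8000000180000000e0000000400000000 0x160000001f0000001e0000000e0000000c00000008 5 5) 0 0 (step_sound _ 35 [(rh501207f89dcab93e.shift 0 1), rh9e3680845ae0253e, (rha707fb719e87fe6e.shift 3 0)] (by decide +kernel))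
noncomputable def rhf963e4bc3ca451c9 : CRef := CRef.mk (Pat.mk 0x8000000060000000e0000000000000000 0x80000003e0000003f0000003000000010 5 6) 0 0 (step_sound _ 68 [rh3d12b22a3a27ac9e, (rhf48373e13d2bc128.shift 1 2)] (by decide +kernel))
noncomputable def rhdec69e28546604d7 : CRef := CRef.mk (Pat.mk 0x2000000060000000300000002000000000000000000000000 0x100000003000000070000000700000003000000030000000200000002 5 3) 0 0 (step_sound _ 96 [(rh932754581e0f4330.shift 0 2), rhd29c8239e1cc0277] (by decide +kernel))
noncomputable def rh68fe845a5c51375e : CRef := CRef.mk (Pat.mk 0x20000000600000002000000020000000000000000 0x1000000030000001f00000002000000060000000600000004 5 5) 0 0 (step_sound _ 160 [rh476ccc8a2435fd07, (rh50fbb5868c909700.shift 0 2)] (by decide +kernel))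
noncomputable def rh55800e0decb9c023 : CRef := CRef.mk (Pat.mk 0x2000000020000000300000002000000000000000000000000 0x2000000030000000300000007000000070000000600000002 5 3) 0 0 (step_sound _ 96 [rh4f66b8b299b10e60, (rh932754581e0f4330.shift 0 2)] (by decide +kernel))
noncomputable def rhe48f71dc2be97b18 : CRef := CRef.mk (Pat.mk 0x100000001000000038000000000000000000000000 0x10000000370000007e000001e00000002000000020 5 9) 0 0 (step_sound _ 69 [(rh08edf065357d68e5.shift 4 0), (rh40d60e552b04154f.shift 0 2), (rh8ee80cc30e93a344.shift 2 2)] (by decide +kernel))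
noncomputable def rhc83b743fb6d2ae41 : CRef := CRef.mk (Pat.mk 0x1000000010000000380000000000000000 0x10000000770000003e0000006700000020 5 7) 0 0 (step_sound _ 66 [(rh625dde73e665edc8.shift 2 0), (rh775ca1963e850b80.shift 0 1), (rhec46bd5500c722c9.shift 1 2)] (by decide +kernel))
noncomputable def rh666bd3b837211b5f : CRef := CRef.mk (Pat.mk 0x180000000c0000000400000004 0x2000000020000001f0000003f0000000600000004 5 6) 0 0 (step_sound _ 65 [rh229e715eaa0b6a69, (rh53b3c253cb0c65f4.shift 0 2)] (by decide +kernel))
noncomputable def rhbd9ac79c87120162 : CRef := CRef.mk (Pat.mk 0x1c0000001400000000 0x800000008000000380000001f0000003400000010 5 6) 0 0 (step_sound _ 65 [rh2b40d254177f8dd3, (rhe25b0a99195a5d59.shift 1 1)] (by decide +kernel))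
noncomputable def rhdc45b369c3a917ba : CRef := CRef.mk (Pat.mk 0x3800000018000000080000000800000000 0x640000003f00000018000000180000001800000010 5 7) 0 0 (step_sound _ 130 [(rh50fbb5868c909700.shift 2 1), rheb39b74c8337613e] (by decide +kernel))
noncomputable def rh27d95a0f8f38f55d : CRef := CRef.mk (Pat.mk 0x1e0000000400000000 0x800000008000000380000001f0000003400000010 5 6) 0 0 (step_sound _ 36 [rh2b40d254177f8dd3, (rhe25b0a99195a5d59.shift 1 1)] (by decide +kernel))
noncomputable def rhb7c835049e667ccf : CRef := CRef.mk (Pat.mk 0x1c000000160000000200000000 0xc0000000c0000001c0000001e0000003300000010 5 6) 0 0 (step_sound _ 67 [(rh914ff4febe8e14d3.shift 1 0), (rheb0810cc63b001d8.shift 0 1)] (by decide +kernel))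
noncomputable def rh2d432a4e867e50f2 : CRef := CRef.mk (Pat.mk 0x180000001e000000080000000000000000 0x180000001e0000003f0000003000000030 5 6) 0 0 (step_sound _ 68 [(rhe25b0a99195a5d59.shift 1 2), rhee2f2527188aceae] (by decide +kernel))
noncomputable def rh5368599ec0d58b94 : CRef := CRef.mk (Pat.mk 0x8000000080000000c0000000e00000000 0x140000003c0000000f0000000c0000000e00000002 5 6) 0 0 (step_sound _ 130 [(rh50fbb5868c909700.shift 2 1), rhaac4eca025ee7762] (by decide +kernel))
noncomputable def rhc3ccf3e621431b90 : CRef := CRef.mk (Pat.mk 0x1000000010000000100000001e00000000 0x280000003800000038000000130000001e00000010 5 6) 0 0 (step_sound _ 65 [(rh3244c3cc8379b070.shift 0 1), (rhc4055b4872d6fb38.shift 3 0)] (by decide +kernel))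
noncomputable def rh7328732d0893fed7 : CRef := CRef.mk (Pat.mk 0x40000001c00000004000000000000000000000000 0x20000000f0000001e000000040000000e0000000e0000000a 5 5) 0 0 (step_sound _ 66 [(rh6eff4158bb400f47.shift 1 0), (rhcf02561c3c7740f4.shift 0 2)] (by decide +kernel))
noncomputable def rhebe09cf15e834d1f : CRef := CRef.mk (Pat.mk 0x90000000f0000000a0000000000000000 0xc0000000c0000000d0000000f0000000e0000000e00000002 5 4) 0 0 (step_sound _ 33 [(rh371a9957a166d2f9.shift 1 1), rh7b1f1fb55310c477] (by decide +kernel))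
noncomputable def rh3bb201def308172f : CRef := CRef.mk (Pat.mk 0x40000000e000000080000000200000000 0x40000000f000000780000001f00000008 5 7) 0 0 (step_sound _ 68 [rh02794658cccf00d8, (rhb739f4f82bb681b4.shift 0 2)] (by decide +kernel))
noncomputable def rh57c337bee0669234 : CRef := CRef.mk (Pat.mk 0x40000000e000000020000000000000000 0x400000004000000040000001f0000007e0000000800000008 5 7) 0 0 (step_sound _ 162 [(rh5c5e593799055d58.shift 1 2), rha9286d423e2a6fb5] (by decide +kernel))
noncomputable def rhe8f21a63e5790b28 : CRef := CRef.mk (Pat.mk 0x4000000040000000e0000000600000000 0x80000000c0000000c0000000f0000001e0000001c 5 5) 0 0 (step_sound _ 131 [rh1af52505efaa5b8d, (rh2f68792b6b779e96.shift 2 1)] (by decide +kernel))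
noncomputable def rh171acb83cceabd54 : CRef := CRef.mk (Pat.mk 0xe000000100000000000000000 0x10000000300000001f000000380000000800000008 5 6) 0 0 (step_sound _ 100 [rhba50fd7aca570c30, (rhe25b0a99195a5d59.shift 1 2)] (by decide +kernel))
noncomputable def rh2aa6212c1c9b6fb4 : CRef := CRef.mk (Pat.mk 0x100000001e000000020000000000000000 0x8000000080000001c0000003f000000060000000400000004 5 6) 0 0 (step_sound _ 131 [(rh53b3c253cb0c65f4.shift 0 3), (rheba11baa92df53a7.shift 1 0)] (by decide +kernel))
noncomputable def rh24bf3b1980a14cd0 : CRef := CRef.mk (Pat.mk 0x600000006000000050000000000000000 0x40000000600000006000000070000001e0000000e 5 5) 0 0 (step_sound _ 34 [rh6e6b590cd38a882d, (rh7b1f1fb55310c477.shift 1 0)] (by decide +kernel))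
noncomputable def rh9f82297883cbb03c : CRef := CRef.mk (Pat.mk 0x3c00000040 0x770000007e000000c0 5 8) 0 0 (step_sound _ 69 [(rh33e738c4ed385b9f.shift 2 1), rh46a51893feb99aaf] (by decide +kernel))
noncomputable def rha24220aaf323f8af : CRef := CRef.mk (Pat.mk 0x200000002000000070000000700000000 0x400000006000000060000001f0000001f0000000a 5 5) 0 0 (step_sound _ 35 [rhbeee14346ee17040, (rhf48373e13d2bc128.shift 0 1)] (by decide +kernel))
noncomputable def rh92c5866cf4cb982e : CRef := CRef.mk (Pat.mk 0x80000000c0000000400000000 0x800000008000000080000000f0000003c00000014 5 6) 0 0 (step_sound _ 131 [(rh5c5e593799055d58.shift 2 1), rhc6c8721b98efe6cc] (by decide +kernel))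
noncomputable def rh26a664f32f8ccb01 : CRef := CRef.mk (Pat.mk 0x80000001c000000040000000000000000 0x800000008000000380000001f0000003c0000001000000010 5 6) 0 0 (step_sound _ 163 [(rh5c5e593799055d58.shift 2 2), rhf17906db8dc30c44] (by decide +kernel))
noncomputable def rheae10a793d0c54f6 : CRef := CRef.mk (Pat.mk 0x1c000000080000000c0000000c00000000 0x30000001f0000003c0000000c0000007c00000010 5 7) 0 0 (step_sound _ 36 [(rh480378523843b552.shift 0 1), (rh55afc6a59410cf00.shift 3 0)] (by decide +kernel))
noncomputable def rhb798bad1f044b600 : CRef := CRef.mk (Pat.mk 0xc0000000c000000040000000e00000000 0x20000000e0000000c0000003e0000007f00000010 5 7) 0 0 (step_sound _ 129 [(rh50fbb5868c909700.shift 1 1), rh67a45aff1ea551b3] (by decide +kernel))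
noncomputable def rh37d018ef9c817686 : CRef := CRef.mk (Pat.mk 0x1e00000018000000080000000800000000 0xa0000003e0000001f0000000c0000000c00000004 5 6) 0 0 (step_sound _ 97 [(rh4f34cd89ac0b4d78.shift 1 0), (rheb0810cc63b001d8.shift 0 3)] (by decide +kernel))
noncomputable def rh6565d34ae9e6243a : CRef := CRef.mk (Pat.mk 0x180000000e0000000400000004 0x80000000a0000001b0000001e0000003700000014 5 6) 0 0 (step_sound _ 131 [(rh5c5e593799055d58.shift 2 1), rhd11b561e49648aba] (by decide +kernel))
noncomputable def rha38003a665d9a506 : CRef := CRef.mk (Pat.mk 0x80000000e000000040000000000000000 0x2000000020000000f0000003e000000760000000400000004 5 7) 0 0 (step_sound _ 34 [(rh71222050f2c63a3a.shift 2 0), (rh80b349b2964deda7.shift 0 1)] (by decide +kernel))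
noncomputable def rh7bb29236d1712829 : CRef := CRef.mk (Pat.mk 0x40000000c000000040000000c0000000000000000 0x4000000060000000f0000003c0000000c0000000400000004 5 6) 0 0 (step_sound _ 99 [(rh2145e1d24b96a57e.shift 2 2), rh370af384ddd2082c] (by decide +kernel))
noncomputable def rh41b3875df7259a62 : CRef := CRef.mk (Pat.mk 0xc00000004000000040000000200000000 0x20000000f0000003c000000040000000600000006 5 6) 0 0 (step_sound _ 34 [(rh932754581e0f4330.shift 1 0), rhecf4cf49642b1cf9] (by decide +kernel))
noncomputable def rh9b7644b5feaf0e6b : CRef := CRef.mk (Pat.mk 0x1c000000080000001800000010 0x200000007c0000006f0000007c00000010 5 7) 0 0 (step_sound _ 66 [(rh4dc133ee0ba1420a.shift 0 2), (rh5ac338b5fcda750b.shift 0 1), (rhfa009dbfd473562c.shift 2 0)] (by decide +kernel))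
noncomputable def rh4f4f9440c93b7001 : CRef := CRef.mk (Pat.mk 0x80000001800000008000000000000000000000000 0x40000000f0000007c000000080000001c0000001c00000014 5 7) 0 0 (step_sound _ 67 [(rh5ad9898cc32ef511.shift 2 0), (rh6eff4158bb400f47.shift 2 0), (rhca405e350c462817.shift 0 2)] (by decide +kernel))
noncomputable def rh1a7f35be05f0c012 : CRef := CRef.mk (Pat.mk 0x80000001800000008000000000000000000000000 0x4000000040000000c0000000f0000007c00000008000000180000001800000010 5 7) 0 0 (step_sound _ 162 [(rh3c3e23a02e82b2ed.shift 0 4), (rh6d7e9fbf5dfafd17.shift 2 0), (rhb1a251d9bff81766.shift 2 2)] (by decide +kernel))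
noncomputable def rh4cfb77788e40cdc8 : CRef := CRef.mk (Pat.mk 0x2000000038000000080000000000000000 0x14000000140000003f0000003e000000080000000800000008 5 6) 0 0 (step_sound _ 98 [(rh7fb660bc21ce4329.shift 0 3), (rhd29496a0b66fc9ff.shift 1 0), (rhe1ef59f9ff87186c.shift 1 0)] (by decide +kernel))
noncomputable def rha647c1eea3a4f11d : CRef := CRef.mk (Pat.mk 0x80000003800000008000000000000000000000000 0x4000000040000000c0000000f0000003c00000008000000180000001800000010 5 6) 0 0 (step_sound _ 162 [(rhb1a251d9bff81766.shift 2 2), (rhd1779d7de7f8215b.shift 2 0), (rhdbcea10a0fbe5ba6.shift 0 4)] (by decide +kernel))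
noncomputable def rhe727758c69e11e83 : CRef := CRef.mk (Pat.mk 0x4000000060000001e0000000000000000 0x10000000340000003e0000001f0000000800000008 5 6) 0 0 (step_sound _ 100 [rh0e1a19d901ccf948, (rh33e738c4ed385b9f.shift 1 2)] (by decide +kernel))
noncomputable def rh9e0ea76c51d48e02 : CRef := CRef.mk (Pat.mk 0xc0000001800000008000000080000000000000000 0xf00000018000000080000001c0000001c00000014 5 5) 0 0 (step_sound _ 161 [(rh6eff4158bb400f47.shift 2 0), (rhb739f4f82bb681b4.shift 0 4)] (by decide +kernel))
noncomputable def rh18b31825f45c624c : CRef := CRef.mk (Pat.mk 0x40000000e000000100000000200000000 0x40000001e000000780000001f00000008 5 7) 0 0 (step_sound _ 69 [rh8a1faca68310bc02, (rhd6e447e81774439e.shift 1 2)] (by decide +kernel))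
noncomputable def rh1b7fc1427bbf1dfc : CRef := CRef.mk (Pat.mk 0x40000000e000000120000000200000000 0xe0000000f0000001a0000000f0000000c 5 5) 0 0 (step_sound _ 67 [rh3884b61926757a14, (rhb739f4f82bb681b4.shift 0 2)] (by decide +kernel))
noncomputable def rha294e9694edf530e : CRef := CRef.mk (Pat.mk 0x40000000e00000010 0x760000003f00000038 5 7) 0 0 (step_sound _ 32 [(rh2dbb87262884a238.shift 1 0), rh96851dee118c1ba3] (by decide +kernel))
noncomputable def rh82cc2deab149c31d : CRef := CRef.mk (Pat.mk 0x80000001c000000040000000000000000 0x2000000020000003f0000001f000000040000000400000004 5 6) 0 0 (step_sound _ 34 [(rh246bb6eff8175e68.shift 0 1), (rh71222050f2c63a3a.shift 2 0)] (by decide +kernel))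
noncomputable def rha76407f4bd547f70 : CRef := CRef.mk (Pat.mk 0x1c00000000 0xf70000007e000000f0 5 8) 0 0 (step_sound _ 37 [rh0d378fd9e8917c5a, (rh4c622fddc53a5f99.shift 0 1), (rha93a5dd541ab8209.shift 2 0)] (by decide +kernel))
noncomputable def rh6052fb40ff1ff60e : CRef := CRef.mk (Pat.mk 0xe0000001200000000 0x400000004000000070000003e0000003200000002 5 6) 0 0 (step_sound _ 68 [rhaf661323c6e1d2ba, (rhe25b0a99195a5d59.shift 1 1)] (by decide +kernel))
noncomputable def rh46c081abdb45aff8 : CRef := CRef.mk (Pat.mk 0x1e000000040000000000000000 0x200000002000000370000001e000000040000000400000004 5 6) 0 0 (step_sound _ 129 [(rh3244c3cc8379b070.shift 0 3), (rhcab4c3a1fc84153a.shift 1 0)] (by decide +kernel))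
noncomputable def rh6484072c26d7de2a : CRef := CRef.mk (Pat.mk 0x8000000080000001e00000006 0x60000000f0000003b0000001e00000006 5 6) 0 0 (step_sound _ 68 [rh1ba597799b5c5efa, (rh33e738c4ed385b9f.shift 1 1)] (by decide +kernel))
noncomputable def rh431ab6845f1f5305 : CRef := CRef.mk (Pat.mk 0x20000000600000002000000020000000000000000 0x300000003000000070000000600000006000000020000000200000002 5 3) 0 0 (step_sound _ 33 [(rh2f68792b6b779e96.shift 1 1), rhbaebc0cc9cf01c79] (by decide +kernel))
noncomputable def rhb9fa41937b57b353 : CRef := CRef.mk (Pat.mk 0x80000001c000000080000000800000000 0xe0000000f0000001c0000000c0000000c00000004 5 5) 0 0 (step_sound _ 130 [rh3ec9baf74efce829, (rh50fbb5868c909700.shift 2 1)] (by decide +kernel))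
noncomputable def rhb9d7bcc4b554fedb : CRef := CRef.mk (Pat.mk 0x600000007000000020000000200000000 0x2000000030000000700000007000000070000000700000001 5 3) 0 0 (step_sound _ 128 [rh20000ccf39b0f0f9, (rh50fbb5868c909700.shift 0 1)] (by decide +kernel))
noncomputable def rhd426521d0841faae : CRef := CRef.mk (Pat.mk 0x1800000008000000040000000400000000 0x1800000018000000080000000f0000003c00000010 5 6) 0 0 (step_sound _ 67 [rh08c0a4b24e0c6ff9, (rh5c5e593799055d58.shift 2 1)] (by decide +kernel))
noncomputable def rhb2e6f8b79afdeff9 : CRef := CRef.mk (Pat.mk 0x180000000e0000001c00000000 0x60000000f0000001e0000000e0000001c00000010 5 5) 0 0 (step_sound _ 131 [(rh501207f89dcab93e.shift 0 1), (rh55afc6a59410cf00.shift 3 0)] (by decide +kernel))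
noncomputable def rhd9a03a17cb3bba9c : CRef := CRef.mk (Pat.mk 0x180000000e0000000c0000000000000000 0x10000000180000000e0000003f0000003800000010 5 6) 0 0 (step_sound _ 35 [(rh2f68792b6b779e96.shift 3 1), rh4d3b54600aa031c0] (by decide +kernel))
noncomputable def rh93e190a7f3c08cfd : CRef := CRef.mk (Pat.mk 0xc00000006000000020000000200000000 0x1d0000000f00000006000000060000000600000004 5 5) 0 0 (step_sound _ 129 [(rh2f68792b6b779e96.shift 1 1), rhe43b4aaaf26647b5] (by decide +kernel))
noncomputable def rh017183e606fdd160 : CRef := CRef.mk (Pat.mk 0x80000001c000000060000000400000000 0x3c0000001f000000360000003e00000018 5 6) 0 0 (step_sound _ 68 [(rh2fafbcb1435bcca1.shift 1 0), (rh3ce854f4a795c89f.shift 0 2), (rhb4b61a49b0d27ace.shift 1 0)] (by decide +kernel))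
noncomputable def rhfb5b3e530894a2ea : CRef := CRef.mk (Pat.mk 0x80000001c000000040000000000000000 0x800000008000000380000001f0000003c0000001000000010 5 6) 0 0 (step_sound _ 163 [rh42ae4cf64280e54c, (rh5c5e593799055d58.shift 2 2)] (by decide +kernel))
noncomputable def rh9ee3848b537ea47a : CRef := CRef.mk (Pat.mk 0x1c0000000e000000040000000400000000 0x100000001c0000000e0000003c0000000f0000000a 5 6) 0 0 (step_sound _ 35 [(rh55afc6a59410cf00.shift 2 0), rhad8eaff05a9d39ab] (by decide +kernel))
noncomputable def rhbd6b85b9bdb1a42a : CRef := CRef.mk (Pat.mk 0x80000001c000000060000000c00000000 0xc0000001c000000360000003e00000013 5 6) 0 0 (step_sound _ 36 [rh1be6864662b2e083, (rhf48373e13d2bc128.shift 1 1)] (by decide +kernel))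
noncomputable def rh688f36e28d6273d1 : CRef := CRef.mk (Pat.mk 0x40000000e000000030000000600000000 0x100000003c0000000e0000000b0000001e0000000c 5 6) 0 0 (step_sound _ 35 [(rhc22deff993a3faec.shift 1 0), (rhf48373e13d2bc128.shift 0 1)] (by decide +kernel))
noncomputable def rh2420be1a7b3e5bbf : CRef := CRef.mk (Pat.mk 0x80000001e000000040000000000000000 0x20000000b0000001e000000370000000400000004 5 6) 0 0 (step_sound _ 68 [rh2642de6ca2d23e3a, (rhe25b0a99195a5d59.shift 1 2)] (by decide +kernel))
noncomputable def rh5fe9459e4f578d27 : CRef := CRef.mk (Pat.mk 0x600000006000000030000000300000000 0x60000001e0000001b0000001f0000000c 5 5) 0 0 (step_sound _ 99 [(rh18965a982d73c794.shift 0 2), rh9a2fd8b22c122707] (by decide +kernel))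
noncomputable def rhcde230e1fccc7ea0 : CRef := CRef.mk (Pat.mk 0xc000000060000000000000000 0x2000000030000003e000000070000000400000004 5 6) 0 0 (step_sound _ 100 [(rh18965a982d73c794.shift 1 2), rh7235e22a26ce31fe] (by decide +kernel))
noncomputable def rh1535e2a4be39266a : CRef := CRef.mk (Pat.mk 0x3000000060000000300000001000000000000000000000000 0x100000003000000060000000700000007000000060000000600000002 5 3) 0 0 (step_sound _ 97 [rh270502ca45ea5299, (rh50fbb5868c909700.shift 0 3)] (by decide +kernel))
noncomputable def rhc33f7110154c1d23 : CRef := CRef.mk (Pat.mk 0x8000000180000000e0000000400000000 0x20000000f0000001f0000003e0000003400000010 5 6) 0 0 (step_sound _ 97 [(rh2f32edc41b016dfb.shift 0 1), (rhad264869bfe92f26.shift 0 1), rhb9784ff7a7632a57] (by decide +kernel))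
noncomputable def rhde620120ede18add : CRef := CRef.mk (Pat.mk 0x80000001c000000060000000000000000 0x80000000a0000003b0000001f000000060000000400000004 5 6) 0 0 (step_sound _ 163 [(rh5c5e593799055d58.shift 2 2), rhdc564b97248c4913] (by decide +kernel))
noncomputable def rh04dfafbbc53b0235 : CRef := CRef.mk (Pat.mk 0x40000000f000000030000000200000000 0x1c0000000f0000001b0000001e0000000c 5 5) 0 0 (step_sound _ 131 [(rh33e738c4ed385b9f.shift 0 3), rhbbe712c9e486db20] (by decide +kernel))
noncomputable def rhd47ced289c19ecf0 : CRef := CRef.mk (Pat.mk 0x200000003000000020000000200000000 0x100000003000000030000000200000003000000070000000600000004 5 3) 0 0 (step_sound _ 34 [(rh55afc6a59410cf00.shift 1 0), (rhe01be80656df83b3.shift 0 1)] (by decide +kernel))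
noncomputable def rhee413b8cdcf5f0aa : CRef := CRef.mk (Pat.mk 0xe00000003000000020000000200000000 0xa0000000e0000000f0000001e0000000600000004 5 5) 0 0 (step_sound _ 34 [(rh00252dbeb2746f9c.shift 0 1), (rh55afc6a59410cf00.shift 1 0)] (by decide +kernel))
noncomputable def rhc2c45f0e7a944914 : CRef := CRef.mk (Pat.mk 0x6000000020000000200000001 0x3000000030000000300000006000000060000000700000001 5 3) 0 0 (step_sound _ 129 [rh79877ebd3ef475dd, (rhec1e3f6ff489986c.shift 0 1)] (by decide +kernel))
noncomputable def rh57aa63af46829ecf : CRef := CRef.mk (Pat.mk 0x1800000008000000080000000c00000000 0x8000000180000007c0000000f0000000c00000008 5 7) 0 0 (step_sound _ 66 [(rh5c5e593799055d58.shift 2 1), rhdc0a4287ab9db7aa] (by decide +kernel))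
noncomputable def rhd800296bfcfc7fbc : CRef := CRef.mk (Pat.mk 0xc00000018000000080000001c 0xc000000780000003f0000003f 5 7) 0 0 (step_sound _ 69 [rhdfb835cb43b5b188, (rhf48373e13d2bc128.shift 2 2)] (by decide +kernel))
noncomputable def rhc2bee9b499ec4446 : CRef := CRef.mk (Pat.mk 0x30000000600000002000000020000000000000000 0x30000001e00000002000000070000000700000005 5 5) 0 0 (step_sound _ 131 [rh6eff4158bb400f47, (rhf48373e13d2bc128.shift 0 4)] (by decide +kernel))
noncomputable def rh26a641dd1ea9a7b1 : CRef := CRef.mk (Pat.mk 0x800000018000000080000000800000000 0x800000008000000180000000f0000003c00000014 5 6) 0 0 (step_sound _ 36 [(rh55afc6a59410cf00.shift 3 0), rh66eeaab91603179f] (by decide +kernel))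
noncomputable def rh7ac0d191c8e9336f : CRef := CRef.mk (Pat.mk 0x8000000080000001c000000060000000400000000 0x8000000380000001f000000360000003e00000010 5 6) 0 0 (step_sound _ 68 [(rh08edf065357d68e5.shift 3 0), (rh3ce854f4a795c89f.shift 0 2), (rh8349b894a33edab5.shift 1 0)] (by decide +kernel))
noncomputable def rh40654773de2f46ef : CRef := CRef.mk (Pat.mk 0x2000000020000000700000001800000000 0x20000000fe0000007f000000d800000040 5 8) 0 0 (step_sound _ 67 [(rh14b7f29a2029f50d.shift 0 1), (rh503775339733bab1.shift 1 2), (rh625dde73e665edc8.shift 3 0)] (by decide +kernel))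
noncomputable def rhf6e61450d4452d7e : CRef := CRef.mk (Pat.mk 0xc0000000e000000040000000400000000 0x40000000c0000000e0000003c0000000f0000000a 5 6) 0 0 (step_sound _ 35 [rh1d7e0b0361b25719, (rh55afc6a59410cf00.shift 2 0)] (by decide +kernel))
noncomputable def rh0e125c315770d421 : CRef := CRef.mk (Pat.mk 0x180000000e000000040000000000000000 0x2000000020000001f0000003e000000060000000400000004 5 6) 0 0 (step_sound _ 34 [(rh6d98f21c82bb44b4.shift 0 1), (rh71222050f2c63a3a.shift 2 0)] (by decide +kernel))
noncomputable def rh94201d150dbfe5dd : CRef := CRef.mk (Pat.mk 0x180000001e00000004 0x3000000030000001f0000001e00000007 5 5) 0 0 (step_sound _ 65 [(rh3244c3cc8379b070.shift 0 1), rh48833c2e25383c2e] (by decide +kernel))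
noncomputable def rh7878b592544d766e : CRef := CRef.mk (Pat.mk 0x20000000e000000030000000300000000 0x60000000e0000001b0000001f0000001c 5 5) 0 0 (step_sound _ 34 [rh46d94ef482239556, (rh55afc6a59410cf00.shift 1 0)] (by decide +kernel))
noncomputable def rh85209bc20e676645 : CRef := CRef.mk (Pat.mk 0x180000001e000000040000000400000000 0x180000001e000000370000003c00000030 5 6) 0 0 (step_sound _ 68 [(rhe25b0a99195a5d59.shift 1 2), rhf0b30de5b48e04bc] (by decide +kernel))
noncomputable def rh407a05a532520ec2 : CRef := CRef.mk (Pat.mk 0x1000000010000000380000000c0000000000000000 0x10000000370000003e0000007c0000002000000020 5 7) 0 0 (step_sound _ 69 [(rh08edf065357d68e5.shift 4 0), (rh64a91c118681c512.shift 0 2), (rh79ad7b82ec8c35e2.shift 4 0)] (by decide +kernel))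
noncomputable def rh87392e1f76cad36e : CRef := CRef.mk (Pat.mk 0x80000001c000000160000000400000000 0x40000000c0000001c0000001e0000003700000012 5 6) 0 0 (step_sound _ 36 [(rh7b1f1fb55310c477.shift 3 0), rhb02ca35181966ef3] (by decide +kernel))
noncomputable def rhf19240af8a218f1b : CRef := CRef.mk (Pat.mk 0x18000000080000001800000000 0x800000008000000180000000f0000003c00000014 5 6) 0 0 (step_sound _ 131 [(rh55afc6a59410cf00.shift 3 0), rh66eeaab91603179f] (by decide +kernel))
noncomputable def rhc3d1b6aced6c6bfc : CRef := CRef.mk (Pat.mk 0x8000000080000003800000004 0x8000000080000003f0000003f00000004 5 6) 0 0 (step_sound _ 34 [(rh5c5e593799055d58.shift 2 0), (rh915c3ff3d4fe3a39.shift 0 1)] (by decide +kernel))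
noncomputable def rh3e23057e6112ad96 : CRef := CRef.mk (Pat.mk 0x4000000040000001c000000060000000000000000 0xc0000000c0000000f0000001e000000060000000400000004 5 5) 0 0 (step_sound _ 97 [(rh5c5e593799055d58.shift 1 2), rh9cb7def1fda7cebc] (by decide +kernel))
noncomputable def rh59a8450f63fdff62 : CRef := CRef.mk (Pat.mk 0x600000006000000030000000200000000 0x600000006000000070000001f0000001d 5 5) 0 0 (step_sound _ 34 [(rh55afc6a59410cf00.shift 1 0), rh72340e602a6d535e] (by decide +kernel))
noncomputable def rh287568c5fc026144 : CRef := CRef.mk (Pat.mk 0x200000002000000070000000300000000 0x40000000600000006000000070000001f0000001c 5 5) 0 0 (step_sound _ 34 [(rh55afc6a59410cf00.shift 1 0), rhe17ef062e95a6bca] (by decide +kernel))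
noncomputable def rh14aea11f3e9516d0 : CRef := CRef.mk (Pat.mk 0xa0000000300000006000000000000000000000000 0xa0000000a0000000b0000001e0000000c0000000400000004 5 5) 0 0 (step_sound _ 66 [(rh2145e1d24b96a57e.shift 1 2), rh700158ad6001656e] (by decide +kernel))
noncomputable def rhbabdfb803bcba7d4 : CRef := CRef.mk (Pat.mk 0x80000001a0000001e000000000000000000000000 0x8000000080000000c0000001e0000003e000000030000000200000002 5 6) 0 0 (step_sound _ 130 [rhe8248a1b95ce33e7, (rhf48373e13d2bc128.shift 1 3)] (by decide +kernel))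
noncomputable def rh5a6f873926ef2942 : CRef := CRef.mk (Pat.mk 0x8000000180000001e0000000000000000 0x20000000b0000001f0000003e0000000400000004 5 6) 0 0 (step_sound _ 97 [rh197eac3645f3813e, (rh3244c3cc8379b070.shift 0 2)] (by decide +kernel))
noncomputable def rhb05e654568d968ad : CRef := CRef.mk (Pat.mk 0x280000000e000000000000000000000000 0x800000008000000680000003e0000007f0000001000000010 5 7) 0 0 (step_sound _ 100 [(rh24806a4aaf7813c3.shift 0 2), (rh84970c2ccb9fe470.shift 1 0), (rhf270fa1f24348253.shift 1 2)] (by decide +kernel))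
noncomputable def rh8ceeb43d62a6bb9d : CRef := CRef.mk (Pat.mk 0x80000000e000000040000000000000000 0x20000000f0000003e000000770000000400000004 5 7) 0 0 (step_sound _ 34 [(rh71222050f2c63a3a.shift 2 0), (rhe060dff3c45bacc6.shift 0 1)] (by decide +kernel))
noncomputable def rh2cb8437104de90cf : CRef := CRef.mk (Pat.mk 0x80000000e000000040000000000000000 0x800000008000000080000003e0000003f0000001000000010 5 6) 0 0 (step_sound _ 163 [(rh5c5e593799055d58.shift 2 2), rha475531719705764] (by decide +kernel))
noncomputable def rhc8ce4b019dfb66d2 : CRef := CRef.mk (Pat.mk 0x180000001e000000100000001000000000 0x20000000300000001f0000001e000000180000001800000008 5 6) 0 0 (step_sound _ 129 [(rh3244c3cc8379b070.shift 0 3), (rh83805c1b349b7f6f.shift 1 0)] (by decide +kernel))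
noncomputable def rh960bb47eab01200a : CRef := CRef.mk (Pat.mk 0x1400000007000000000000000000000000 0x400000004000000370000003f0000001c0000000800000008 5 6) 0 0 (step_sound _ 99 [rh84970c2ccb9fe470, (rhca6a4af813f68cee.shift 0 3)] (by decide +kernel))
noncomputable def rhc7ac98245b1848ae : CRef := CRef.mk (Pat.mk 0xe0000000400000004 0x2000000730000003e0000007700000004 5 7) 0 0 (step_sound _ 68 [(rh0ae232cce48795b7.shift 1 1), (rha93a5dd541ab8209.shift 1 1), rhe4f9133a81c1dbc5] (by decide +kernel))
noncomputable def rhcd6adb2fafd26d26 : CRef := CRef.mk (Pat.mk 0x600000007000000020000000200000000 0xb0000001f00000007000000060000000600000004 5 5) 0 0 (step_sound _ 128 [rh4f402ce420c5c06c, (rh50fbb5868c909700.shift 0 1)] (by decide +kernel))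
noncomputable def rh977d386b2b3169bd : CRef := CRef.mk (Pat.mk 0x700000007000000020000000200000000 0x180000001f00000007000000060000000700000005 5 5) 0 0 (step_sound _ 34 [(rh55afc6a59410cf00.shift 1 0), rhb96df5c3a78e6968] (by decide +kernel))
noncomputable def rh586c41aaa8a3f2b7 : CRef := CRef.mk (Pat.mk 0xc0000001c000000080000000800000000 0x80000000c0000001c0000000f0000003c00000014 5 6) 0 0 (step_sound _ 36 [(rh55afc6a59410cf00.shift 3 0), rhb2355ac630244203] (by decide +kernel))
noncomputable def rh2df0c87ffbadaf67 : CRef := CRef.mk (Pat.mk 0x1a0000001e0000000000000000 0x14000000340000001e0000001e0000000b0000000a 5 6) 0 0 (step_sound _ 33 [(rh3100b06a6300fdfa.shift 1 0), (rheb0810cc63b001d8.shift 0 1)] (by decide +kernel))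
noncomputable def rhfc49ace0fb47c1b9 : CRef := CRef.mk (Pat.mk 0x1c00000020 0x70000003e00000067 5 7) 0 0 (step_sound _ 37 [rh592c7139d2c44767, (rhe25b0a99195a5d59.shift 2 0)] (by decide +kernel))
noncomputable def rhf2087de3a2fad627 : CRef := CRef.mk (Pat.mk 0x1c000000160000000200000000 0x10000000300000001f0000001e0000000b00000008 5 6) 0 0 (step_sound _ 67 [rhb48fed03d8127111, (rheb0810cc63b001d8.shift 0 1)] (by decide +kernel))
noncomputable def rh7831f4fe1db86547 : CRef := CRef.mk (Pat.mk 0x1c00000016000000020000000200000000 0x380000001f00000036000000060000000600000004 5 6) 0 0 (step_sound _ 129 [rh4b4bd3c7652db278, (rhe25b0a99195a5d59.shift 1 3)] (by decide +kernel))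
noncomputable def rh8ee7175133964991 : CRef := CRef.mk (Pat.mk 0x100000001a0000000e0000000800000000 0x4000000340000001e0000003e0000000b00000002 5 6) 0 0 (step_sound _ 98 [(rh33e738c4ed385b9f.shift 1 3), rhb1caee1f98a870f2] (by decide +kernel))
noncomputable def rh0aef863016e27e3f : CRef := CRef.mk (Pat.mk 0xa0000000e000000080000000000000000 0x80000000b0000003e0000000f0000000400000004 5 6) 0 0 (step_sound _ 100 [(rh3244c3cc8379b070.shift 0 3), rh93e8fe2ae070d0cb] (by decide +kernel))
noncomputable def rh5756a78db323356a : CRef := CRef.mk (Pat.mk 0x40000001c000000160000000200000000 0x10000000340000001f0000001e0000000b00000008 5 6) 0 0 (step_sound _ 67 [rhd5a7350752ad8e4b, (rheb0810cc63b001d8.shift 0 1)] (by decide +kernel))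
noncomputable def rh99af78a46b7e7b5d : CRef := CRef.mk (Pat.mk 0x40000001c0000001400000000 0x8000000080000003c0000001f0000003400000004 5 6) 0 0 (step_sound _ 65 [rh245cfab0de74c583, (rhe25b0a99195a5d59.shift 1 1)] (by decide +kernel))
noncomputable def rh52fb5f3b090cacd9 : CRef := CRef.mk (Pat.mk 0x80000001c000000060000000000000000 0x800000008000000180000001f0000003e0000001000000010 5 6) 0 0 (step_sound _ 163 [rh148083039183edc0, (rh5c5e593799055d58.shift 2 2)] (by decide +kernel))
noncomputable def rh5f66fb5b860eeed9 : CRef := CRef.mk (Pat.mk 0xc000000070000000800000000 0x8000000080000000c0000000c0000000f0000003c00000004 5 6) 0 0 (step_sound _ 36 [(rh9d83c31a7404da9d.shift 1 0), (rhd6e447e81774439e.shift 0 1)] (by decide +kernel))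
noncomputable def rh0deec73ba27f1c6d : CRef := CRef.mk (Pat.mk 0xc00000006000000180000000000000000 0x80000000c000000060000003c0000000f0000000a 5 6) 0 0 (step_sound _ 66 [rhb2bdfbd0153d3403, (rhf48373e13d2bc128.shift 1 2)] (by decide +kernel))
noncomputable def rh3a2447ed8c5fdc2c : CRef := CRef.mk (Pat.mk 0x20000000e000000030000000200000000 0x4000000060000000e0000000f0000001e0000000c 5 5) 0 0 (step_sound _ 130 [(rh2f68792b6b779e96.shift 1 1), rh770992ee6cf16ba5] (by decide +kernel))
noncomputable def rh7cd75823eb0050a7 : CRef := CRef.mk (Pat.mk 0x2000000060000000300000002 0x2000000030000000700000007000000070000000300000002 5 3) 0 0 (step_sound _ 98 [(rh2f68792b6b779e96.shift 1 0), rh865cf161b9b29643] (by decide +kernel))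
noncomputable def rhefe968784396ba5c : CRef := CRef.mk (Pat.mk 0x2000000060000000300000002 0x30000000700000007000000070000000700000002 5 3) 0 0 (step_sound _ 98 [(rh2f68792b6b779e96.shift 1 0), rha86cc6850bd41e55] (by decide +kernel))
noncomputable def rhee47d95cec925ce0 : CRef := CRef.mk (Pat.mk 0x2000000020000000700000001000000000000000000000000 0x2000000060000000700000007000000070000000600000002 5 3) 0 0 (step_sound _ 97 [(rh932754581e0f4330.shift 0 2), rhdaa34f01e5e560a1] (by decide +kernel))
noncomputable def rh8026aa9dd8ea0b36 : CRef := CRef.mk (Pat.mk 0x100000007800000018 0x1000000010000000f00000007f00000038 5 8) 0 0 (step_sound _ 100 [rh210e2d9c685c857e, (rh5c5e593799055d58.shift 3 0)] (by decide +kernel))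
noncomputable def rh75e1695803052323 : CRef := CRef.mk (Pat.mk 0x40000001e000000060000000000000000 0x10000000340000001f0000003e0000000800000008 5 6) 0 0 (step_sound _ 68 [rh476fa916496a4316, (rhe25b0a99195a5d59.shift 1 2)] (by decide +kernel))
noncomputable def rh878de4c68fcef2a5 : CRef := CRef.mk (Pat.mk 0x40000001e000000160000000000000000 0x10000000340000001e0000001e0000000b0000000a 5 6) 0 0 (step_sound _ 132 [rh15228c732569498b, (rh33e738c4ed385b9f.shift 1 3)] (by decide +kernel))
noncomputable def rh5e46927f286229a7 : CRef := CRef.mk (Pat.mk 0x200000007000000020000000200000000 0x200000002000000030000000300000007000000070000000300000001 5 3) 0 0 (step_sound _ 128 [rh27fff1f9ab8f90a9, (rh50fbb5868c909700.shift 0 1)] (by decide +kernel))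
noncomputable def rh79282ce4d2b3b110 : CRef := CRef.mk (Pat.mk 0x80000001c000000080000001800000000 0xc0000000c0000001c0000000f0000003c00000004 5 6) 0 0 (step_sound _ 130 [(rh50fbb5868c909700.shift 2 1), rhb2355ac630244203] (by decide +kernel))
noncomputable def rhafe2bff1d5013456 : CRef := CRef.mk (Pat.mk 0x100000001c00000000 0x370000003e00000007 5 6) 0 0 (step_sound _ 33 [(rh33e738c4ed385b9f.shift 1 1), rh47c07cd0cc865f65] (by decide +kernel))
noncomputable def rh688c9fd4443018af : CRef := CRef.mk (Pat.mk 0x2000000038000000000000001000000000 0x8000000080000002f000000fc000000180000001000000010 5 8) 0 0 (step_sound _ 68 [(rh1e2e095a54aeb72c.shift 0 1), (rh71222050f2c63a3a.shift 4 0)] (by decide +kernel))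
noncomputable def rh9a83837d515b0a6d : CRef := CRef.mk (Pat.mk 0x100000001c000000000000000000000000 0x1000000010000000170000003e000000770000002000000020 5 7) 0 0 (step_sound _ 101 [(rh65dcfd18fd55cba0.shift 2 0), (rh775ca1963e850b80.shift 0 2), (rh8862001fbd813c47.shift 1 0)] (by decide +kernel))
noncomputable def rh52b4b7b516a7d39e : CRef := CRef.mk (Pat.mk 0x1e0000000400000000 0x800000008000000380000001f0000003400000010 5 6) 0 0 (step_sound _ 100 [rh01448e89f620d602, (rh33e738c4ed385b9f.shift 1 2)] (by decide +kernel))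
noncomputable def rh59f751a6d1d59e78 : CRef := CRef.mk (Pat.mk 0x40000001c000000160000000200000000 0x80000000c0000001c0000001e0000003b00000018 5 6) 0 0 (step_sound _ 67 [(rh78318e74e44bb80d.shift 1 0), (rheb0810cc63b001d8.shift 0 1)] (by decide +kernel))
noncomputable def rhd0a3b1093d13b2d7 : CRef := CRef.mk (Pat.mk 0x2000000060000000300000000 0x400000006000000060000000200000006000000060000000700000001 5 3) 0 0 (step_sound _ 129 [rh932754581e0f4330, (rhf64821747b7b1be1.shift 1 1)] (by decide +kernel))
noncomputable def rhe52cc56a091e2831 : CRef := CRef.mk (Pat.mk 0x2000000060000000300000002000000000000000000000000 0x2000000060000000700000007000000070000000600000002 5 3) 0 0 (step_sound _ 96 [rh270502ca45ea5299, (rh932754581e0f4330.shift 0 2)] (by decide +kernel))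
noncomputable def rh4debe05c95570ec5 : CRef := CRef.mk (Pat.mk 0xc000000180000000a00000000 0x400000004000000060000000f0000001a0000000a0000000a 5 5) 0 0 (step_sound _ 130 [rh6afedd06c145487b, (rh7b1f1fb55310c477.shift 2 0)] (by decide +kernel))
noncomputable def rh2c0d840c709967a7 : CRef := CRef.mk (Pat.mk 0xe00000001 0x70000003e00000073 5 7) 0 0 (step_sound _ 36 [rh1a9922713ba80f42, rh80fcd6d0a18cb2dd] (by decide +kernel))
noncomputable def rh10ab9917367cccab : CRef := CRef.mk (Pat.mk 0x20000000e00000000 0x7e0000003f00000078 5 7) 0 0 (step_sound _ 36 [rh3e1b7b343686dca1, (rh60e95adc726bb530.shift 1 0), (rh790acd67f4fffd04.shift 1 1)] (by decide +kernel))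
noncomputable def rhdaa484a4a2096467 : CRef := CRef.mk (Pat.mk 0x1e00000000 0x3b0000001f00000038 5 6) 0 0 (step_sound _ 65 [rh2381ca26b8b38d1e, (rh3244c3cc8379b070.shift 0 1)] (by decide +kernel))
noncomputable def rha2f21a9ef0fe7654 : CRef := CRef.mk (Pat.mk 0x7800000010 0xe00000007f0000003c 5 8) 0 0 (step_sound _ 3 [rh210e2d9c685c857e, (rheb0810cc63b001d8.shift 2 0)] (by decide +kernel))
noncomputable def rhf6c927e3548f1524 : CRef := CRef.mk (Pat.mk 0x2000000020000001e0000000200000000 0x4000000070000003e0000001f0000000200000002 5 6) 0 0 (step_sound _ 130 [(rh2f68792b6b779e96.shift 1 1), rh9b3499d2f1bbc5a5] (by decide +kernel))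
noncomputable def rhf8291c12faa3c332 : CRef := CRef.mk (Pat.mk 0x80000001c0000000400000000 0x800000008000000380000001f0000003c00000010 5 6) 0 0 (step_sound _ 131 [rh54ed8932932596de, (rh5c5e593799055d58.shift 2 1)] (by decide +kernel))
noncomputable def rhfae331e376b2a6ed : CRef := CRef.mk (Pat.mk 0x380000000a0000000000000000 0x4000000040000000e0000003f0000003b0000000800000008 5 6) 0 0 (step_sound _ 98 [(rhd526f9b20c752965.shift 0 2), (rhd5889c99d29bf7d6.shift 1 0)] (by decide +kernel))
noncomputable def rh398ef3aca3e32b0a : CRef := CRef.mk (Pat.mk 0x8000000080000001e0000000000000000 0x80000003b0000001e0000003300000010 5 6) 0 0 (step_sound _ 100 [(rh33e738c4ed385b9f.shift 1 2), rhf021f4f29496536d] (by decide +kernel))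
noncomputable def rh8475f6a1a85d4e4a : CRef := CRef.mk (Pat.mk 0x8000000080000001c0000001c00000000 0x140000001c0000000c0000001c0000001f00000003 5 5) 0 0 (step_sound _ 130 [(rh50fbb5868c909700.shift 2 1), rhc40f4a70182623fa] (by decide +kernel))
noncomputable def rhcbdab5535266b9ed : CRef := CRef.mk (Pat.mk 0x8000000080000001c0000000c0000000000000000 0x80000001c0000001c0000001f0000001800000018 5 5) 0 0 (step_sound _ 36 [(rhd3458b32566d63f7.shift 3 1), rhfceea78ee1f8f04a] (by decide +kernel))
noncomputable def rh3a74e41dc360bbd7 : CRef := CRef.mk (Pat.mk 0x80000001c000000040000000400000000 0x60000000f0000001c0000000e0000000e0000000a 5 5) 0 0 (step_sound _ 130 [(rh277b01412deaec89.shift 0 1), (rhfaeb45e0b84ef968.shift 1 0)] (by decide +kernel))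
noncomputable def rhed724896ef78f2ed : CRef := CRef.mk (Pat.mk 0x40000001c00000004000000000000000000000000 0xa0000000f0000001c000000040000000e0000000e0000000a 5 5) 0 0 (step_sound _ 66 [(rh039efe07c35de3d4.shift 0 2), (rh127b405bd7f7b930.shift 2 0), (rh8cdd36b03d57a2f6.shift 1 0)] (by decide +kernel))
noncomputable def rh7241cfcb7ac8b7dc : CRef := CRef.mk (Pat.mk 0x8000000180000000e0000000400000004 0x20000000a0000001b000000fe000000f600000014 5 8) 0 0 (step_sound _ 68 [rh768a472a1ebe455c, (rh78974448101547fe.shift 1 0), (rhbb8ddf6556e5ee9b.shift 1 1)] (by decide +kernel))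
noncomputable def rh54722dc35f66b564 : CRef := CRef.mk (Pat.mk 0xe0000000400000004 0x200000002000000070000003e0000007600000004 5 7) 0 0 (step_sound _ 97 [(rhae8d21abc86b555a.shift 0 1), (rhe072fffdd2fccf38.shift 1 0)] (by decide +kernel))
noncomputable def rhf615f94237eaff33 : CRef := CRef.mk (Pat.mk 0x8000000180000000e0000000400000000 0x20000000b0000001f0000003e0000003400000010 5 6) 0 0 (step_sound _ 68 [(rh78974448101547fe.shift 1 0), (rhcea95bd1ecd58bb2.shift 0 1)] (by decide +kernel))
noncomputable def rh91f29260523c7ccb : CRef := CRef.mk (Pat.mk 0xf0000000b0000000000000000 0xc0000001c0000000f0000000f0000001c0000000c 5 5) 0 0 (step_sound _ 131 [(rh33e738c4ed385b9f.shift 0 3), rh98425abcc2bfb145] (by decide +kernel))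
noncomputable def rh014abbda9a411227 : CRef := CRef.mk (Pat.mk 0x1e000000060000000000000000 0x8000000080000001f0000003e0000003000000010 5 6) 0 0 (step_sound _ 68 [rh2f1ae6141b061898, (rhe25b0a99195a5d59.shift 1 2)] (by decide +kernel))
noncomputable def rh868c42a8cb7b319e : CRef := CRef.mk (Pat.mk 0x80000000e000000040000000000000000 0x2000000020000000f0000003e000000060000000400000004 5 6) 0 0 (step_sound _ 34 [(rh229e715eaa0b6a69.shift 0 1), (rh71222050f2c63a3a.shift 2 0)] (by decide +kernel))
noncomputable def rh7f462ec8865f90aa : CRef := CRef.mk (Pat.mk 0x8000000180000000e0000000c 0x160000001f0000001b0000000e0000000c 5 5) 0 0 (step_sound _ 98 [(rh50fbb5868c909700.shift 2 0), rh6d1b517c83df80d2] (by decide +kernel))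
noncomputable def rh0324bce79e7043da : CRef := CRef.mk (Pat.mk 0x40000000c00000007000000000000000000000000 0x20000000e0000000e0000000f0000001e0000000e00000006 5 5) 0 0 (step_sound _ 66 [(rh04ee05071d91faba.shift 1 1), (rh2dd23789115a02f3.shift 1 0), (rh548ca695070b4cbb.shift 0 1)] (by decide +kernel))
noncomputable def rhbc92f561fb055ddc : CRef := CRef.mk (Pat.mk 0x20000001a0000000c0000000000000000 0x10000000330000001e0000003c0000000800000008 5 6) 0 0 (step_sound _ 98 [(rh2ae694e25f74369c.shift 1 0), (rh3244c3cc8379b070.shift 0 3)] (by decide +kernel))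
noncomputable def rhaf8953d4498f2c71 : CRef := CRef.mk (Pat.mk 0x20000001a0000000e00000000 0x600000006000000070000001e0000000e0000000a 5 5) 0 0 (step_sound _ 66 [(rh1dc900ed663fe718.shift 1 0), (rh3244c3cc8379b070.shift 0 2)] (by decide +kernel))
noncomputable def rh6f99d3dbda097b35 : CRef := CRef.mk (Pat.mk 0xc0000000e000000100000000000000000 0xc0000007e000000370000000200000002 5 7) 0 0 (step_sound _ 100 [rh4a5a2e400edec8a3, (rhe25b0a99195a5d59.shift 1 2)] (by decide +kernel))
noncomputable def rh28545fcf4114fdac : CRef := CRef.mk (Pat.mk 0x20000001a00000002000000000000000000000000 0x1000000030000001f00000002000000060000000600000004 5 5) 0 0 (step_sound _ 160 [(rh5419adcd928dba20.shift 0 4), rh6d7e9fbf5dfafd17] (by decide +kernel))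
noncomputable def rhac3e151480abbcfe : CRef := CRef.mk (Pat.mk 0x1a0000000e0000000000000000 0x10000000300000001f0000003e0000000800000008 5 6) 0 0 (step_sound _ 68 [(rh3244c3cc8379b070.shift 0 2), (rha0d560dcab205fc1.shift 1 0)] (by decide +kernel))
noncomputable def rh04663aea25939a3c : CRef := CRef.mk (Pat.mk 0x4000000070000000200000002 0x2000000030000000700000007000000070000000300000002 5 3) 0 0 (step_sound _ 97 [(rh2f68792b6b779e96.shift 1 0), rhe897af202bc68eb8] (by decide +kernel))
noncomputable def rhbfb96df59b7aff3f : CRef := CRef.mk (Pat.mk 0x180000001e000000000000000000000000 0xa0000000a0000001b000000fe0000000e0000000400000004 5 8) 0 0 (step_sound _ 129 [(rh3244c3cc8379b070.shift 0 3), (rhecd9e19e5e508d59.shift 1 0)] (by decide +kernel))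
noncomputable def rh6ef52b5dba668a8b : CRef := CRef.mk (Pat.mk 0x1c0000001800000004 0x2000000030000003f0000001f00000004 5 6) 0 0 (step_sound _ 65 [rh18df145e883a5761, (rhb739f4f82bb681b4.shift 0 1)] (by decide +kernel))
noncomputable def rh8e8889e03176485f : CRef := CRef.mk (Pat.mk 0xa0000000300000002000000040000000000000000 0x80000000a0000000b0000001e0000000e0000000400000004 5 5) 0 0 (step_sound _ 34 [rh77e8ef9588c550b3, (rhbe0e43a3bc50a43f.shift 1 1)] (by decide +kernel))
noncomputable def rhe585e4778e8182f2 : CRef := CRef.mk (Pat.mk 0x40000000f000000040000000400000000 0x40000001f0000003c0000001e0000000a 5 6) 0 0 (step_sound _ 68 [(rh34d1b435c04dddd3.shift 1 0), (rh96851dee118c1ba3.shift 0 2)] (by decide +kernel))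
noncomputable def rh959626eb621bd7c7 : CRef := CRef.mk (Pat.mk 0x1c000000070000000400000000 0x800000008000000180000001c000000170000003e00000014 5 6) 0 0 (step_sound _ 131 [rh2e0e1bd31cb89fa3, (rh71222050f2c63a3a.shift 2 0)] (by decide +kernel))
noncomputable def rhace8d3f5c0278871 : CRef := CRef.mk (Pat.mk 0x380000000e0000000800000000 0x40000000c0000001f000000380000000e0000007c00000010 5 7) 0 0 (step_sound _ 36 [(rh89ade209b3e28f13.shift 1 1), (rh8b45a73eaadf2a53.shift 2 0), rhb232fadadcf6cde8] (by decide +kernel))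
noncomputable def rh7cb05597f159185c : CRef := CRef.mk (Pat.mk 0x1800000006000000000000000000000000 0x8000000380000001f000000300000001000000010 5 6) 0 0 (step_sound _ 99 [(rh2e6f530911a4ba98.shift 1 0), (rh53b3c253cb0c65f4.shift 0 3)] (by decide +kernel))
noncomputable def rh9348cf50b6ac1c35 : CRef := CRef.mk (Pat.mk 0x1c00000002 0x770000003e00000003 5 7) 0 0 (step_sound _ 33 [(rhb18e6c78a554867d.shift 0 1), rheb0810cc63b001d8] (by decide +kernel))
noncomputable def rh2cfc87a36ba8132d : CRef := CRef.mk (Pat.mk 0x180000000e000000040000000000000000 0x800000008000000180000003e000000370000001400000004 5 6) 0 0 (step_sound _ 34 [(rh71222050f2c63a3a.shift 2 0), (rhbc45defcffc6d51e.shift 0 1)] (by decide +kernel))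
noncomputable def rhfa8c138cc50acb47 : CRef := CRef.mk (Pat.mk 0x1a0000000e00000004 0x1b000000fe0000007c 5 8) 0 0 (step_sound _ 36 [(rh31b96bf68293d1ba.shift 1 0), (rh3244c3cc8379b070.shift 0 1)] (by decide +kernel))
noncomputable def rh73c03d042751cb83 : CRef := CRef.mk (Pat.mk 0x180000000e0000000400000000 0x800000008000000180000003e0000003f00000010 5 6) 0 0 (step_sound _ 131 [rh14526ca88460b08c, (rh5c5e593799055d58.shift 2 1)] (by decide +kernel))
noncomputable def rhc8031c215ef64696 : CRef := CRef.mk (Pat.mk 0x200000002000000070000000700000000 0x50000000700000006000000070000001f00000018 5 5) 0 0 (step_sound _ 130 [(rh2f68792b6b779e96.shift 1 1), rhbd2d16e0d48f056e] (by decide +kernel))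
noncomputable def rha47540fd72942c72 : CRef := CRef.mk (Pat.mk 0x180000001e000000040000000400000000 0x180000001e000000370000003c00000018 5 6) 0 0 (step_sound _ 68 [rh2ffb3e65e4d7159f, (rhe25b0a99195a5d59.shift 1 2)] (by decide +kernel))
noncomputable def rhe0e9ec933b9e0f03 : CRef := CRef.mk (Pat.mk 0x80000001e000000140000000000000000 0x80000001f0000001e000000f800000010 5 8) 0 0 (step_sound _ 67 [(rh11c6a0856d69fe3f.shift 1 0), (rhb739f4f82bb681b4.shift 0 2)] (by decide +kernel))
noncomputable def rh01cda8dd3ba5036f : CRef := CRef.mk (Pat.mk 0x2000000020000001e000000060000000000000000 0x400000006000000060000001e0000003e0000000300000001 5 6) 0 0 (step_sound _ 162 [(rh2f68792b6b779e96.shift 1 2), rh74ccdbf363223198] (by decide +kernel))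
noncomputable def rh5482fb09d322c9a7 : CRef := CRef.mk (Pat.mk 0x380000000a0000000000000000 0x4000000040000000f0000003e0000007b0000000800000008 5 7) 0 0 (step_sound _ 98 [(rh8c590dcbef2e4cc5.shift 0 2), (rhd5889c99d29bf7d6.shift 1 0), (rhe902c9e8f416b192.shift 0 2)] (by decide +kernel))
noncomputable def rh4a39877b101e3102 : CRef := CRef.mk (Pat.mk 0xc0000001c000000040000000400000000 0x40000000c0000001c0000000f0000003c00000018 5 6) 0 0 (step_sound _ 35 [rh1789ddc6ef95d06f, (rh55afc6a59410cf00.shift 2 0)] (by decide +kernel))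
noncomputable def rh247546f310433323 : CRef := CRef.mk (Pat.mk 0x80000000a0000001e00000004 0x70000000f0000001a0000001e00000007 5 5) 0 0 (step_sound _ 1 [rh8ac4b10a053cad09, rheb0810cc63b001d8] (by decide +kernel))
noncomputable def rhe86ecbe6c8090c55 : CRef := CRef.mk (Pat.mk 0x10000000180000000c0000000800000000 0x800000018000000180000001f0000007c00000010 5 7) 0 0 (step_sound _ 65 [(rh53b3c253cb0c65f4.shift 0 2), (rh61333a272914a696.shift 1 0)] (by decide +kernel))
noncomputable def rhcdaa8364d3215052 : CRef := CRef.mk (Pat.mk 0x80000001c000000060000000400000000 0x1c0000001f0000003e0000003c00000018 5 6) 0 0 (step_sound _ 68 [(rh251facab2e282844.shift 0 2), rh89012dd016b5feb1, (rhb4b61a49b0d27ace.shift 1 0)] (by decide +kernel))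
noncomputable def rhd2c95e82fa4e1f3e : CRef := CRef.mk (Pat.mk 0x40000001e00000006 0x3000000030000003f0000001e00000006 5 6) 0 0 (step_sound _ 65 [(rh3244c3cc8379b070.shift 0 1), rhf8367319461b97e0] (by decide +kernel))
noncomputable def rh69e1e121114ea140 : CRef := CRef.mk (Pat.mk 0x8000000180000000e0000000400000000 0x20000003f0000001f0000003e0000003400000010 5 6) 0 0 (step_sound _ 97 [(rh0fe9ffd52e1cd12f.shift 0 1), (rh2f32edc41b016dfb.shift 0 1), (rh8ada648cb6a34f73.shift 0 1), rhb9784ff7a7632a57] (by decide +kernel))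
noncomputable def rhdf5114c0547288a9 : CRef := CRef.mk (Pat.mk 0x18000000180000000800000000 0x80000000800000008000000180000007c0000001f00000004 5 7) 0 0 (step_sound _ 131 [(rh3e595262c1b737ad.shift 3 1), rh80650b8e93363f1e] (by decide +kernel))
noncomputable def rh20bb62adcec3c962 : CRef := CRef.mk (Pat.mk 0x8000000180000000c0000000400000000 0x1000000018000000780000000f0000003c00000018 5 7) 0 0 (step_sound _ 101 [rh02f99bbc1f377c55, (rh18965a982d73c794.shift 2 2)] (by decide +kernel))
noncomputable def rh4c674509b38b7a3e : CRef := CRef.mk (Pat.mk 0x80000000c0000000c00000008 0x10000000780000001f0000003c00000008 5 7) 0 0 (step_sound _ 100 [(rh2f68792b6b779e96.shift 3 0), (rh77293e6356a08b8b.shift 0 1)] (by decide +kernel))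
noncomputable def rh151e72b11efbcd8a : CRef := CRef.mk (Pat.mk 0x1000000018000000080000001800000000 0x80000000800000008000000180000007c0000000f0000007c00000010 5 7) 0 0 (step_sound _ 131 [(rh55afc6a59410cf00.shift 3 0), (rhf6b70fd23dcb0c19.shift 0 1)] (by decide +kernel))
noncomputable def rh6799e174f619f451 : CRef := CRef.mk (Pat.mk 0x80000000c000000040000000c00000000 0x40000000c0000000c0000000f0000003c00000018 5 6) 0 0 (step_sound _ 130 [(rh55afc6a59410cf00.shift 2 0), rhf8d9ac5b35cc26f5] (by decide +kernel))
noncomputable def rhfbc1b8bc9e3a8677 : CRef := CRef.mk (Pat.mk 0x2000000020000000f00000003000000000000000000000000 0x2000000060000000f0000001f0000001c0000000800000008 5 5) 0 0 (step_sound _ 98 [(rh55afc6a59410cf00.shift 1 2), rhaf75a02a061d2a76] (by decide +kernel))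
noncomputable def rh81fe71fa6d359d51 : CRef := CRef.mk (Pat.mk 0x2000000020000000f000000020000000000000000 0x20000001a0000000f0000001e0000000e00000004 5 5) 0 0 (step_sound _ 34 [rh69fdb968f4f144a7, (rhd3458b32566d63f7.shift 1 1)] (by decide +kernel))
noncomputable def rh0e9c0dada797d648 : CRef := CRef.mk (Pat.mk 0x4000000040000000e000000060000000000000000 0x80000000c0000000f0000003e000000060000000400000004 5 6) 0 0 (step_sound _ 100 [(rh18965a982d73c794.shift 1 2), rh9cb7def1fda7cebc] (by decide +kernel))
noncomputable def rhb8bc388dc7421ef6 : CRef := CRef.mk (Pat.mk 0x8000000080000001c0000000c000000000000000000000000 0x10000000180000001c0000001c0000000f000000080000000800000008 5 5) 0 0 (step_sound _ 196 [(rh2f68792b6b779e96.shift 3 3), rh3c6d2326386b8484] (by decide +kernel))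
noncomputable def rhdedd6ef84d5c626a : CRef := CRef.mk (Pat.mk 0x40000001c0000000600000002000000000000000000000000 0xa0000000f0000001c0000000e0000000e0000000c0000000c00000004 5 5) 0 0 (step_sound _ 98 [(rh039efe07c35de3d4.shift 0 3), (rh270502ca45ea5299.shift 1 0), (rha707fb719e87fe6e.shift 2 2)] (by decide +kernel))
noncomputable def rhcfff0406fc14ed59 : CRef := CRef.mk (Pat.mk 0x2000000030000000f0000000000000000 0xc0000001e0000001b0000000f0000001c00000004 5 5) 0 0 (step_sound _ 99 [(rh33e738c4ed385b9f.shift 0 2), rh9006c400766e5336] (by decide +kernel))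
noncomputable def rh936b4adcf7483bd7 : CRef := CRef.mk (Pat.mk 0x80000000c000000040000000c00000000 0x60000000f0000003c0000000f0000003c00000010 5 6) 0 0 (step_sound _ 67 [(rhcd8ace9fca182ce7.shift 0 1), rhfe557af9112f51d6] (by decide +kernel))
noncomputable def rh14fa7717ab723f83 : CRef := CRef.mk (Pat.mk 0x20000000040000003800000010 0x80000007c0000000f0000003c00000010 5 7) 0 0 (step_sound _ 65 [(rh09d4dfe75d4407d6.shift 1 1), rh3138906752825700] (by decide +kernel))
noncomputable def rh239b048be7785530 : CRef := CRef.mk (Pat.mk 0x20000000040000003800000010 0x80000007c0000000f0000007800000010 5 7) 0 0 (step_sound _ 67 [rh328d79551216c3a2, (rhf48373e13d2bc128.shift 2 1)] (by decide +kernel))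
noncomputable def rhb3f98f056ee37bad : CRef := CRef.mk (Pat.mk 0x1800000018000000080000000800000000 0x80000000800000008000000180000007c0000000f0000007c00000010 5 7) 0 0 (step_sound _ 36 [(rh55afc6a59410cf00.shift 3 0), (rhf6b70fd23dcb0c19.shift 0 1)] (by decide +kernel))
noncomputable def rh2a495fc992a5ea9c : CRef := CRef.mk (Pat.mk 0x40000000200000002000000020000000000000000 0x1000000070000000700000002000000060000000600000004 5 3) 0 0 (step_sound _ 33 [rh5abfc4c9d959be03, (rhbaefcd01e0a8bca3.shift 1 1)] (by decide +kernel))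
noncomputable def rh53e462704bcd47c7 : CRef := CRef.mk (Pat.mk 0x20000000200000002000000020000000000000000 0x5000000070000000600000002000000060000000600000004 5 3) 0 0 (step_sound _ 162 [(rh2f68792b6b779e96.shift 1 2), rh7213d63c3b3b297f] (by decide +kernel))
noncomputable def rh268b3692f2aae3bc : CRef := CRef.mk (Pat.mk 0x800000008000000080000000800000000 0x800000008000000080000001f0000007c00000010 5 7) 0 0 (step_sound _ 36 [(rh55afc6a59410cf00.shift 3 0), (rh81d17f934d551f98.shift 0 1)] (by decide +kernel))
noncomputable def rhafa347a29579114c : CRef := CRef.mk (Pat.mk 0x300000006000000020000000200000000 0x200000002000000030000001e000000070000000700000001 5 5) 0 0 (step_sound _ 99 [rh5e5bc0e07bb5ae10, (rhf48373e13d2bc128.shift 0 3)] (by decide +kernel))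
noncomputable def rhc29312d6e799ff1f : CRef := CRef.mk (Pat.mk 0x1c000000080000000800000010 0x8000000080000003c0000000f0000001c00000014 5 6) 0 0 (step_sound _ 131 [rhbde581ad67601c48, (rhd3458b32566d63f7.shift 3 0)] (by decide +kernel))
noncomputable def rha8c3c3974f50027b : CRef := CRef.mk (Pat.mk 0x8000000180000000c0000000400000000 0x40000001f0000007c0000000c0000000c00000008 5 7) 0 0 (step_sound _ 101 [(rh18965a982d73c794.shift 2 2), rh2122f4d5d9151e97] (by decide +kernel))
noncomputable def rh0507344190b95ddd : CRef := CRef.mk (Pat.mk 0xc000000180000000e00000004 0x10000000320000001f0000001b0000000e00000004 5 6) 0 0 (step_sound _ 97 [rh02f4f158f1f80c2a, (rhb739f4f82bb681b4.shift 0 2)] (by decide +kernel))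
noncomputable def rhcc585e6df53e3afe : CRef := CRef.mk (Pat.mk 0x400000004000000060000000300000000 0x200000006000000060000003e0000003f0000000d 5 6) 0 0 (step_sound _ 68 [(rh361cc68994bd8a63.shift 0 1), rh847c88d2ba383361] (by decide +kernel))
noncomputable def rhbbaeee846fdb5ee1 : CRef := CRef.mk (Pat.mk 0x600000004000000060000000300000000 0x80000003e00000007000000060000000700000005 5 6) 0 0 (step_sound _ 97 [rh20e3cbe97aab9353, rh932754581e0f4330] (by decide +kernel))
noncomputable def rh77ca85b7a1b8179d : CRef := CRef.mk (Pat.mk 0x20000000a0000000f000000000000000000000000 0xe0000000e0000000f0000001c0000000c0000000c 5 5) 0 0 (step_sound _ 67 [(rhac3c303f24260d87.shift 1 0), (rhe25b0a99195a5d59.shift 0 2)] (by decide +kernel))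
noncomputable def rhbfcebe01e68384ab : CRef := CRef.mk (Pat.mk 0x20000000e000000030000000300000000 0x4000000060000000e0000001b0000001f0000000c 5 5) 0 0 (step_sound _ 130 [(rh2f68792b6b779e96.shift 1 1), rh9a2fd8b22c122707] (by decide +kernel))
noncomputable def rh47b8d163a16badd6 : CRef := CRef.mk (Pat.mk 0x8000000280000000c0000000400000000 0x1000000018000000780000000f0000003c00000018 5 7) 0 0 (step_sound _ 100 [rh02f99bbc1f377c55, (rh18965a982d73c794.shift 2 2)] (by decide +kernel))
noncomputable def rhb9f9e107e5ce07cb : CRef := CRef.mk (Pat.mk 0x18000000280000000c0000000c 0x70000001e0000003b0000000e0000000c 5 6) 0 0 (step_sound _ 98 [rh4e9df9fc4fa983f2, (rh50fbb5868c909700.shift 2 0)] (by decide +kernel))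
noncomputable def rhf68f58b66a8139c9 : CRef := CRef.mk (Pat.mk 0x20000000a000000020000000200000000 0x50000001f0000001b000000020000000200000002 5 5) 0 0 (step_sound _ 128 [rh3378625fe28cae55, (rh50fbb5868c909700.shift 0 1)] (by decide +kernel))
noncomputable def rh5cb28f59dd92a967 : CRef := CRef.mk (Pat.mk 0x40000000c00000016000000020000000000000000 0xc0000000c0000001e0000003b0000001800000010 5 6) 0 0 (step_sound _ 99 [(rhd6a62ea55d1ff97c.shift 1 0), (rheb0810cc63b001d8.shift 0 2)] (by decide +kernel))
noncomputable def rh2288baf270c8f823 : CRef := CRef.mk (Pat.mk 0x4000000060000000200000000 0x40000000400000004000000070000003e0000000a 5 6) 0 0 (step_sound _ 130 [(rh5c5e593799055d58.shift 1 1), rh96daba97ac8db274] (by decide +kernel))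
noncomputable def rh3ee1a3f6aa7284a1 : CRef := CRef.mk (Pat.mk 0xc000000040000000400000000 0xa0000000f0000003c000000040000000400000004 5 6) 0 0 (step_sound _ 131 [(rh516a021585c206bf.shift 0 1), (rh71222050f2c63a3a.shift 2 0)] (by decide +kernel))
noncomputable def rh8bfc49d28ab751de : CRef := CRef.mk (Pat.mk 0x180000000c0000000800000000 0xc0000000f0000007c0000000c0000000c00000004 5 7) 0 0 (step_sound _ 101 [(rh18965a982d73c794.shift 2 2), rh688fbb54c9d31d63] (by decide +kernel))
noncomputable def rh31a713248702cbb2 : CRef := CRef.mk (Pat.mk 0x180000000c00000008000000000000000000000000 0x800000008000000180000000f0000007c000000180000001000000010 5 7) 0 0 (step_sound _ 129 [(rh53b3c253cb0c65f4.shift 0 4), (rh92c0a1899325fd43.shift 1 0)] (by decide +kernel))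
noncomputable def rh7f8df149e0a95c13 : CRef := CRef.mk (Pat.mk 0x2000000060000000300000002 0x2000000030000000700000007000000070000000300000002 5 3) 0 0 (step_sound _ 128 [rh4dd1130e9b02aeb2, rhffd04209dc8ea796] (by decide +kernel))
noncomputable def rh0322b7c22cf869d9 : CRef := CRef.mk (Pat.mk 0x2000000060000000300000002 0x2000000020000000700000007000000070000000300000003 5 3) 0 0 (step_sound _ 96 [rh50fbb5868c909700, rh9306d2aceba3807e] (by decide +kernel))
noncomputable def rh9487bb5c7ec4a806 : CRef := CRef.mk (Pat.mk 0x200000002000000030000000200000000 0x1000000030000000300000002000000070000001e00000004 5 5) 0 0 (step_sound _ 34 [(rh55afc6a59410cf00.shift 1 0), (rh8188925af67817fc.shift 0 1)] (by decide +kernel))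
noncomputable def rhcebe9a0661ee4c51 : CRef := CRef.mk (Pat.mk 0xc0000000700000000000000000000000000000000 0x2000000060000000e0000000e0000000f0000003e0000000e0000000c00000008 5 6) 0 0 (step_sound _ 98 [(rh000637b5a81e86aa.shift 1 1), rh92c0a1899325fd43, (rhd9a7a5fb028a256c.shift 0 2)] (by decide +kernel))
noncomputable def rh5a0e92a25a8b1a6e : CRef := CRef.mk (Pat.mk 0x180000000e000000040000000000000000 0x2000000020000001f0000003e000000070000000400000004 5 6) 0 0 (step_sound _ 34 [(rh71222050f2c63a3a.shift 2 0), (rh9d9fd9b7e3786872.shift 0 1)] (by decide +kernel))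
noncomputable def rh35ff36398f466e47 : CRef := CRef.mk (Pat.mk 0x500000004000000070000000200000000 0x30000000700000007000000070000001e00000008 5 5) 0 0 (step_sound _ 160 [(rhff0f29cb645b05f7.shift 0 1), rhff0ff5ec28344c9a] (by decide +kernel))
noncomputable def rh146eac8c1cee8860 : CRef := CRef.mk (Pat.mk 0x70000000180000000000000000 0x8000000ec0000007f000000380000001000000010 5 8) 0 0 (step_sound _ 99 [(rh210e2d9c685c857e.shift 0 2), (rh38a0850c9fea941e.shift 2 0)] (by decide +kernel))
noncomputable def rh0ab273d635ba54c7 : CRef := CRef.mk (Pat.mk 0x8000000380000000e000000000000000000000000 0xa0000001f0000003a0000000e000000060000000400000004 5 6) 0 0 (step_sound _ 66 [rh51eb023841043bff, (rh5c5e593799055d58.shift 2 2)] (by decide +kernel))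
noncomputable def rhef0cb1a82558754c : CRef := CRef.mk (Pat.mk 0xc000000070000000200000000 0xe0000000e0000000c000000070000001e0000000c 5 5) 0 0 (step_sound _ 130 [rh3addeb5f52f58f32, (rh5c5e593799055d58.shift 1 1)] (by decide +kernel))
noncomputable def rh98b3fb218cdc3421 : CRef := CRef.mk (Pat.mk 0x200000006000000020000000000000000 0x1000000070000000700000006000000060000000600000006 5 3) 0 0 (step_sound _ 33 [rh5abfc4c9d959be03, (rha707fb719e87fe6e.shift 1 0)] (by decide +kernel))
noncomputable def rh8836a37d624d13e5 : CRef := CRef.mk (Pat.mk 0x200000006000000160000000000000000 0x60000000600000006000000060000001e0000000300000001 5 5) 0 0 (step_sound _ 161 [(rh2145e1d24b96a57e.shift 1 2), rhe03233ab5a386fb6] (by decide +kernel))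
noncomputable def rh4f48fdf56905d688 : CRef := CRef.mk (Pat.mk 0x80000000e000000040000000400000000 0x4000000060000000f0000003e0000000e0000000e00000008 5 6) 0 0 (step_sound _ 130 [(rh4c0a031285265102.shift 1 0), (rhaef2adbbd453a55b.shift 0 1)] (by decide +kernel))
noncomputable def rhd5227d3b65f66cdc : CRef := CRef.mk (Pat.mk 0x280000007800000010 0x80000001f00000078000000f800000010 5 8) 0 0 (step_sound _ 68 [rhaef01e76e9900544, (rhf48373e13d2bc128.shift 3 1)] (by decide +kernel))
noncomputable def rh80f4812d68d65270 : CRef := CRef.mk (Pat.mk 0x80000000e000000040000000000000000 0x800000008000000180000003e000000370000001000000010 5 6) 0 0 (step_sound _ 163 [(rh5c5e593799055d58.shift 2 2), rh7a24f9a1ff3ecc28] (by decide +kernel))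
noncomputable def rh53c40d3d6d122826 : CRef := CRef.mk (Pat.mk 0x80000001e000000040000000400000000 0x80000001e0000003f0000003c00000010 5 6) 0 0 (step_sound _ 65 [(rh874593e3f05c8191.shift 1 0), (rheb0810cc63b001d8.shift 0 2)] (by decide +kernel))
noncomputable def rhd03771d046038dcb : CRef := CRef.mk (Pat.mk 0x140000000c0000000400000000 0xe0000000f0000001c0000000c0000000c0000000c 5 5) 0 0 (step_sound _ 130 [(rhd4b4beefcd67f51e.shift 2 0), rhec7a88c6dcaa5d28] (by decide +kernel))
noncomputable def rh47ba11c5c768bb6c : CRef := CRef.mk (Pat.mk 0x1c0000001c000000080000000800000000 0x30000001f0000001c0000000c0000001c00000014 5 5) 0 0 (step_sound _ 36 [rh4edb157f09354d7e, (rh55afc6a59410cf00.shift 3 0)] (by decide +kernel))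
noncomputable def rh2e553d5005eeb4f8 : CRef := CRef.mk (Pat.mk 0x18000000080000000e0000000c00000000 0x60000001f0000001b0000000e0000000c00000008 5 5) 0 0 (step_sound _ 130 [(rh50fbb5868c909700.shift 2 1), rhdfe6c786f702c239] (by decide +kernel))
noncomputable def rhb32debe252aae572 : CRef := CRef.mk (Pat.mk 0x1000000010000000100000003c00000000 0x200000003000000010000000170000003e00000007 5 6) 0 0 (step_sound _ 133 [(rh2f68792b6b779e96.shift 4 1), rh592c7139d2c44767] (by decide +kernel))
noncomputable def rhec213941cbacc540 : CRef := CRef.mk (Pat.mk 0x8000000080000000e0000000000000000 0x140000001c0000001c000000080000001f0000003800000010 5 6) 0 0 (step_sound _ 35 [rhbdde238153e38af9, (rhc85cc95794737cf7.shift 2 1), (rhdd2601c875e3d18f.shift 1 0)] (by decide +kernel))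
noncomputable def rhfefd7be2d273f2ab : CRef := CRef.mk (Pat.mk 0x100000001c000000000000000000000000 0x10000000300000001f000000380000000800000008 5 6) 0 0 (step_sound _ 97 [(rh33e738c4ed385b9f.shift 1 3), rh9483656c38360087] (by decide +kernel))
noncomputable def rh8221d7a04ed609cd : CRef := CRef.mk (Pat.mk 0xc0000000f000000030000000000000000 0xc0000000f0000001b0000001e0000000e 5 5) 0 0 (step_sound _ 33 [(rh71222050f2c63a3a.shift 1 0), rhbbe712c9e486db20] (by decide +kernel))
noncomputable def rh84313de8ed45999e : CRef := CRef.mk (Pat.mk 0x400000007800000018 0x670000007f000000d8 5 8) 0 0 (step_sound _ 34 [(rh428265de8cd3cd2d.shift 2 1), rha7419416b48358d1] (by decide +kernel))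
noncomputable def rhd9d1bb46f90c42b4 : CRef := CRef.mk (Pat.mk 0x40000000e00000003000000020000000000000000 0x20000000e0000000e0000000f0000001e0000000c00000004 5 5) 0 0 (step_sound _ 66 [(rh172d9a5e6cdaefb8.shift 0 1), (rh26146467c8c562e3.shift 0 1), (rh36bdd71eb75150ba.shift 0 1), (rhcf0096e346dba882.shift 1 0)] (by decide +kernel))
noncomputable def rhaada96c5de887e7e : CRef := CRef.mk (Pat.mk 0x40000000700000004000000000000000000000000 0x40000000400000004000000070000003e0000000e0000000800000008 5 6) 0 0 (step_sound _ 99 [(rh89ade209b3e28f13.shift 0 3), (rhb23658ecdd7ce5df.shift 1 2), (rhdf864ecc9cbd02e0.shift 1 0)] (by decide +kernel))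
noncomputable def rh00818de152853ff8 : CRef := CRef.mk (Pat.mk 0x80000000e000000040000000000000000 0x2000000020000000f0000003e000000070000000400000004 5 6) 0 0 (step_sound _ 34 [(rh71222050f2c63a3a.shift 2 0), (rh8fc4d9681a650ba3.shift 0 1)] (by decide +kernel))
noncomputable def rh121d8d014225e2d9 : CRef := CRef.mk (Pat.mk 0x180000001e000000040000000400000000 0x180000001e000000370000003c00000018 5 6) 0 0 (step_sound _ 65 [(rhbbe712c9e486db20.shift 1 0), (rheb0810cc63b001d8.shift 0 2)] (by decide +kernel))
noncomputable def rh2aecbe614d87fc01 : CRef := CRef.mk (Pat.mk 0x180000000e000000000000000400000000 0x800000008000000180000003e000000370000001400000004 5 6) 0 0 (step_sound _ 66 [(rh71222050f2c63a3a.shift 2 0), (rhbc45defcffc6d51e.shift 0 1)] (by decide +kernel))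
noncomputable def rh149fa16fbc1c9a44 : CRef := CRef.mk (Pat.mk 0x180000001e000000000000000000000000 0x80000001f0000003e000000300000001000000010 5 6) 0 0 (step_sound _ 129 [(rh3244c3cc8379b070.shift 0 3), (rh550103a8e1d5b574.shift 1 0)] (by decide +kernel))
noncomputable def rh735826b9443ea1e9 : CRef := CRef.mk (Pat.mk 0x180000001e000000100000000400000000 0x180000001e000000170000003c00000038 5 6) 0 0 (step_sound _ 36 [(rh7b1f1fb55310c477.shift 3 0), rhe6e76042a896d494] (by decide +kernel))
noncomputable def rh791b6989fe111af9 : CRef := CRef.mk (Pat.mk 0x1e000000000000000400000000 0x70000003e000000030000000600000006 5 6) 0 0 (step_sound _ 129 [(rh3244c3cc8379b070.shift 0 3), rh9a94a4eca433c4ad] (by decide +kernel))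
noncomputable def rh497d205c5cb4a4fe : CRef := CRef.mk (Pat.mk 0x180000000c000000040000000000000000 0x160000001f0000003c0000000c0000000c0000000c 5 6) 0 0 (step_sound _ 34 [(rh71222050f2c63a3a.shift 2 0), rhaa04013fdef6a1c6] (by decide +kernel))
noncomputable def rh8551c7def15ab90c : CRef := CRef.mk (Pat.mk 0x400000007000000040000000600000000 0x40000000f0000003f0000003f00000008 5 6) 0 0 (step_sound _ 35 [(rh370fdf074cb7fb76.shift 0 1), (rh55afc6a59410cf00.shift 2 0)] (by decide +kernel))
noncomputable def rhe0caeaaed2cc2a46 : CRef := CRef.mk (Pat.mk 0x80000001e000000080000000000000000 0x80000003e0000003f0000003000000010 5 6) 0 0 (step_sound _ 68 [rh493762fd0b688b67, (rhe25b0a99195a5d59.shift 1 2)] (by decide +kernel))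
noncomputable def rhedc8dfbd0c3d386f : CRef := CRef.mk (Pat.mk 0x1c00000006000000020000000200000000 0x80000000a0000001e0000007e000000370000001600000004 5 7) 0 0 (step_sound _ 100 [(rh14b21a5d56ad19c3.shift 0 2), (rhe1c545a0fa7090aa.shift 0 1), (rhf8afa47161d211f5.shift 1 0)] (by decide +kernel))
noncomputable def rh7331751bc9f266c3 : CRef := CRef.mk (Pat.mk 0xc000000180000000e00000008 0x130000001f0000001b0000000e0000000c 5 5) 0 0 (step_sound _ 97 [(rhb739f4f82bb681b4.shift 0 2), rhe92e0a7039c9b088] (by decide +kernel))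
noncomputable def rh5aba2fbb680f00bf : CRef := CRef.mk (Pat.mk 0x380000000c0000000400000000 0x1c0000001f0000003c0000000c0000000c00000008 5 6) 0 0 (step_sound _ 131 [(rh5c5e593799055d58.shift 2 1), rh7dd968b1f7333103] (by decide +kernel))
noncomputable def rhfec133a36871c8e5 : CRef := CRef.mk (Pat.mk 0x1c00000006000000020000000200000000 0x80000000b0000001e000000fe000000330000001300000001 5 8) 0 0 (step_sound _ 100 [rh63d99e86578c4d52, (rhc21a95c499b3efdb.shift 1 3), (rhe1c545a0fa7090aa.shift 0 1)] (by decide +kernel))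
noncomputable def rhd4c5dae9d2c4e3de : CRef := CRef.mk (Pat.mk 0x10000000100000007800000018 0xc0000001f0000003c0000007800000018 5 7) 0 0 (step_sound _ 67 [(rh3244c3cc8379b070.shift 2 1), rh60310a71edd4a6ab] (by decide +kernel))
noncomputable def rh2e8757b28c0e6a24 : CRef := CRef.mk (Pat.mk 0x40000001e000000060000000000000000 0x70000001e0000003e0000000300000003 5 6) 0 0 (step_sound _ 129 [(rh3244c3cc8379b070.shift 0 3), rh5bbb42b4dd96b3c7] (by decide +kernel))
noncomputable def rh2c1f485dedae8cc7 : CRef := CRef.mk (Pat.mk 0x40000001e000000060000000000000000 0x70000001f0000003e0000000300000002 5 6) 0 0 (step_sound _ 129 [(rh3244c3cc8379b070.shift 0 3), rh4c11c491f4d8ec0e] (by decide +kernel))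
noncomputable def rh9aff3d982c612a4f : CRef := CRef.mk (Pat.mk 0xc000000080000001c0000000600000000 0xc0000000c0000001f0000003e0000001a 5 6) 0 0 (step_sound _ 98 [(rh932754581e0f4330.shift 1 0), rha26dd57aaf142392] (by decide +kernel))
noncomputable def rh757a29c20c8f4c26 : CRef := CRef.mk (Pat.mk 0x40000001c00000004000000000000000000000000 0xa0000000f0000001c000000040000000e0000000e0000000a 5 5) 0 0 (step_sound _ 66 [(rh039efe07c35de3d4.shift 0 2), (rh6eff4158bb400f47.shift 1 0)] (by decide +kernel))
noncomputable def rh0f62f5195ce3f276 : CRef := CRef.mk (Pat.mk 0x380000000c0000000400000000 0xc0000001f0000003c0000000c0000000c00000008 5 6) 0 0 (step_sound _ 131 [rh2122f4d5d9151e97, (rh5c5e593799055d58.shift 2 1)] (by decide +kernel))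
noncomputable def rh6d0ba9be14fe2c22 : CRef := CRef.mk (Pat.mk 0x1e000000060000000000000000 0x2000000030000001f0000003e0000000400000004 5 6) 0 0 (step_sound _ 68 [rhde1e482a93f5f360, (rhe25b0a99195a5d59.shift 1 2)] (by decide +kernel))
noncomputable def rh5a6d143fb6bea8d3 : CRef := CRef.mk (Pat.mk 0x180000000c000000040000000400000000 0x160000001f0000003c0000000c0000000c00000008 5 6) 0 0 (step_sound _ 130 [(rh8af9a32e61457eb0.shift 2 0), rhb3a47c35594fc1ad, (rhcf85c92937975d4d.shift 0 1)] (by decide +kernel))
noncomputable def rh0dd2dbda54561bd4 : CRef := CRef.mk (Pat.mk 0x40000001c00000006000000000000000000000000 0x20000000f0000001e000000060000000c0000000c00000008 5 5) 0 0 (step_sound _ 161 [(rh39b036797fb07457.shift 1 0), (rhd652c19df8b64ee8.shift 0 1), (rhd8e93bbc8568df99.shift 0 4)] (by decide +kernel))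
noncomputable def rh5425f6111a084d6f : CRef := CRef.mk (Pat.mk 0x2000000038000000100000000000000000 0x8000000080000002f000000fc000000180000001000000010 5 8) 0 0 (step_sound _ 36 [(rh1e2e095a54aeb72c.shift 0 1), (rh71222050f2c63a3a.shift 4 0)] (by decide +kernel))
noncomputable def rh4c54db11513e1664 : CRef := CRef.mk (Pat.mk 0x180000000e000000040000000c00000000 0x140000001c0000000e0000003c0000000f00000002 5 6) 0 0 (step_sound _ 67 [(rh2f68792b6b779e96.shift 3 1), rhd593d4842b4adfa6] (by decide +kernel))
noncomputable def rhaafc3380287f21c8 : CRef := CRef.mk (Pat.mk 0x1c000000080000001800000000 0x8000000080000003c0000000f0000001c00000014 5 6) 0 0 (step_sound _ 131 [(rh55afc6a59410cf00.shift 3 0), rhbde581ad67601c48] (by decide +kernel))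
noncomputable def rh2bc88489005fb725 : CRef := CRef.mk (Pat.mk 0x1c00000006000000020000000200000000 0x80000000a0000001f0000003e000000370000001600000004 5 6) 0 0 (step_sound _ 100 [(rh7fd50e698048e434.shift 0 2), (rhe1c545a0fa7090aa.shift 0 1), (rhf8afa47161d211f5.shift 1 0)] (by decide +kernel))
noncomputable def rh633234b1529667bd : CRef := CRef.mk (Pat.mk 0xc000000080000001c0000000c00000000 0x100000003c0000000f0000001c0000000f00000002 5 6) 0 0 (step_sound _ 132 [(rh2f68792b6b779e96.shift 3 1), rh376ceaca89a17906] (by decide +kernel))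
noncomputable def rh1f05c54e0fe49b01 : CRef := CRef.mk (Pat.mk 0x7000000018000000080000000800000000 0x800000008000000e80000007f000000380000001c0000001c00000014 5 8) 0 0 (step_sound _ 131 [(rh210e2d9c685c857e.shift 0 3), (rh8af9a32e61457eb0.shift 3 0), (rhea90e7358341a1a4.shift 2 0)] (by decide +kernel))
noncomputable def rh77ca8ee4662eb9d1 : CRef := CRef.mk (Pat.mk 0x1000000010000000180000000e0000000000000000 0x2000000032000000330000001f0000003e0000003400000004 5 6) 0 0 (step_sound _ 97 [rh9458e878ee940312, (rhaa73d67be2de7cd7.shift 0 1), (rhf5d886dc0d9d25f5.shift 0 1)] (by decide +kernel))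
noncomputable def rhfefa827a49a86663 : CRef := CRef.mk (Pat.mk 0x100000001000000038000000000000000000000000 0x10000000370000003e000000700000002000000020 5 7) 0 0 (step_sound _ 69 [(rh39ee55465d7f1610.shift 0 2), (rh79ad7b82ec8c35e2.shift 4 0)] (by decide +kernel))
noncomputable def rh39618165250b6639 : CRef := CRef.mk (Pat.mk 0xc0000000c000000040000000c00000000 0xc0000000c0000003f0000003f00000012 5 6) 0 0 (step_sound _ 33 [(rh932754581e0f4330.shift 1 0), rhfaf99c764dc14cd0] (by decide +kernel))
noncomputable def rhd3137fddc9a993b2 : CRef := CRef.mk (Pat.mk 0x10000000180000000c0000000800000000 0x800000018000000180000001f0000007c00000010 5 7) 0 0 (step_sound _ 65 [(rh53b3c253cb0c65f4.shift 0 2), (rhd6d573fe05752f92.shift 1 0)] (by decide +kernel))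
noncomputable def rhdcb8db7164d7cf95 : CRef := CRef.mk (Pat.mk 0x38000000180000000000000010 0x600000003f0000001f0000001000000010 5 7) 0 0 (step_sound _ 65 [(rh24ae073cf30720c4.shift 1 2), rhef17670318af7582] (by decide +kernel))
noncomputable def rh591174ba4683a07b : CRef := CRef.mk (Pat.mk 0x40000000f000000030000000000000000 0x1c0000000f0000001f0000001800000018 5 5) 0 0 (step_sound _ 67 [rh7df0ddf80ef6ea32, (rhe25b0a99195a5d59.shift 0 2)] (by decide +kernel))
noncomputable def rh4983ef42b6c40cbc : CRef := CRef.mk (Pat.mk 0x8000000080000000c0000000800000000 0x1000000018000000780000001f0000000800000008 5 7) 0 0 (step_sound _ 132 [rh24105e572ba413fd, (rh2f68792b6b779e96.shift 3 1)] (by decide +kernel))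
noncomputable def rh3ae8bdbc7f9d5d54 : CRef := CRef.mk (Pat.mk 0x1000000010000000380000000000000000 0x10000000770000003e0000006700000020 5 7) 0 0 (step_sound _ 66 [(rh592c7139d2c44767.shift 0 1), (rh625dde73e665edc8.shift 2 0)] (by decide +kernel))
noncomputable def rhb67c358f306a3b92 : CRef := CRef.mk (Pat.mk 0x4000000140000001e000000000000000000000000 0xc0000001c0000001f000000380000001800000010 5 6) 0 0 (step_sound _ 131 [(rh53b3c253cb0c65f4.shift 0 3), (rhd6a62ea55d1ff97c.shift 1 0)] (by decide +kernel))
noncomputable def rhff20438b4e06ee6b : CRef := CRef.mk (Pat.mk 0x40000000e0000001a0000000200000000 0x10000000340000003e0000001e0000000b00000008 5 6) 0 0 (step_sound _ 66 [(rh9cf97f6533525ab0.shift 1 0), (rheb0810cc63b001d8.shift 0 1)] (by decide +kernel))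
noncomputable def rhb2da1ef9c38d509e : CRef := CRef.mk (Pat.mk 0xc0000000700000004 0x1c0000007f0000003e 5 7) 0 0 (step_sound _ 35 [(rh33e738c4ed385b9f.shift 0 1), rhc6919780d26a686c] (by decide +kernel))
noncomputable def rhe618501621ff0080 : CRef := CRef.mk (Pat.mk 0x20000000e00000008 0x30000007e0000007e 5 7) 0 0 (step_sound _ 36 [(rh300eedc557b86950.shift 1 0), (rh3244c3cc8379b070.shift 0 1)] (by decide +kernel))
noncomputable def rh470b226807518611 : CRef := CRef.mk (Pat.mk 0x80000000c000000060000000400000000 0x380000003f0000003e0000003c00000010 5 6) 0 0 (step_sound _ 100 [rh101c9178f62e676f, (rh18965a982d73c794.shift 1 2)] (by decide +kernel))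
noncomputable def rh6a6124da44f8db30 : CRef := CRef.mk (Pat.mk 0x200000007000000058 0x3e0000007f000000d8 5 8) 0 0 (step_sound _ 35 [rh14b7f29a2029f50d, (rhe25b0a99195a5d59.shift 3 0)] (by decide +kernel))
noncomputable def rhe81d91ee00a78f19 : CRef := CRef.mk (Pat.mk 0x10000000180000000e0000000000000000 0x8000000380000001f0000003e0000003000000010 5 6) 0 0 (step_sound _ 68 [rh426a29b34452fc84, (rh870359598daa9f92.shift 0 2), (rhea719cc8bd0bdd28.shift 1 0)] (by decide +kernel))
noncomputable def rh9eb5c710e4abb6c4 : CRef := CRef.mk (Pat.mk 0x200000007800000018 0x3e0000007f000000d8 5 8) 0 0 (step_sound _ 6 [rh14b7f29a2029f50d, (rhe25b0a99195a5d59.shift 3 0)] (by decide +kernel))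
noncomputable def rh73959fa6e5d07721 : CRef := CRef.mk (Pat.mk 0x20000000e000000030000000300000000 0x4000000060000000e0000001b0000001f0000000c 5 5) 0 0 (step_sound _ 34 [(rh55afc6a59410cf00.shift 1 0), rh692364cecbd039e7] (by decide +kernel))
noncomputable def rhc230ec5214fef044 : CRef := CRef.mk (Pat.mk 0x80000001c00000006000000140000000000000000 0x80000001c000000360000003e0000001300000002 5 6) 0 0 (step_sound _ 100 [rh7a9f124911bb3251, (rh7b1f1fb55310c477.shift 3 1)] (by decide +kernel))
noncomputable def rhe6760eaa6d926ed2 : CRef := CRef.mk (Pat.mk 0x80000001c00000006000000140000000000000000 0x80000001c0000001e0000001e0000003300000002 5 6) 0 0 (step_sound _ 36 [(rh2613c889e411427e.shift 3 1), rh94b80c9e6af3c682] (by decide +kernel))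
noncomputable def rhfdc89832195f21de : CRef := CRef.mk (Pat.mk 0x400000004000000040000001e00000000 0x80000000c0000000c0000003c0000001f00000014 5 6) 0 0 (step_sound _ 68 [rh114d8d5ded3641ca, (rh33e738c4ed385b9f.shift 1 1)] (by decide +kernel))
noncomputable def rh2ceca2a5fdd4eeb9 : CRef := CRef.mk (Pat.mk 0x400000004000000040000000800000000 0x400000004000000040000003c0000000f0000000a 5 6) 0 0 (step_sound _ 34 [(rh55afc6a59410cf00.shift 2 0), rh9657c25562dad1df] (by decide +kernel))
noncomputable def rh94bb082dd5ee462f : CRef := CRef.mk (Pat.mk 0x3000000020000000600000001000000000000000000000000 0x3000000070000000600000003000000070000000600000004 5 3) 0 0 (step_sound _ 97 [rh0d0fab9b7d00b2b5, (rh932754581e0f4330.shift 0 2)] (by decide +kernel))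
noncomputable def rh545f33f89a0e23f3 : CRef := CRef.mk (Pat.mk 0x1c00000006000000020000000200000000 0x1b0000001f00000006000000060000000600000004 5 5) 0 0 (step_sound _ 129 [rh654a5d57fd8b9734, (rh8af9a32e61457eb0.shift 1 0), (rha25c0e62bb8d55c9.shift 0 1)] (by decide +kernel))
noncomputable def rh4e0ac0a5983dd3f3 : CRef := CRef.mk (Pat.mk 0x1e0000000a00000008 0x600000006000000070000001e0000000e0000000e 5 5) 0 0 (step_sound _ 97 [(rh3244c3cc8379b070.shift 0 2), (rhe7b550087fd53730.shift 1 0)] (by decide +kernel))
noncomputable def rha7e1652142e422b1 : CRef := CRef.mk (Pat.mk 0x80000001e000000080000000800000000 0xe0000000f0000001e0000000c0000000c00000004 5 5) 0 0 (step_sound _ 130 [(rh50fbb5868c909700.shift 2 1), rhb71748adeac66553] (by decide +kernel))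
noncomputable def rh9a475cfe822e0d67 : CRef := CRef.mk (Pat.mk 0x8000000180000000c0000000400000000 0x40000001f0000007c0000000c0000000c00000008 5 7) 0 0 (step_sound _ 101 [(rh18965a982d73c794.shift 2 2), rh3346800492764c72] (by decide +kernel))
noncomputable def rh99727ca548624604 : CRef := CRef.mk (Pat.mk 0x1000000010000000180000000e00000000 0x2000000030000000300000001f0000003e00000030 5 6) 0 0 (step_sound _ 36 [rh2864624e87c79f7c, (rh2aa7c1d375387a4e.shift 1 0), (rh870359598daa9f92.shift 0 1)] (by decide +kernel))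
noncomputable def rhbe7d67620aa16c02 : CRef := CRef.mk (Pat.mk 0x40000001e00000004 0x2000000030000003f0000001f00000004 5 6) 0 0 (step_sound _ 68 [(rh33e738c4ed385b9f.shift 1 1), rh5b26183aac2166dd] (by decide +kernel))
noncomputable def rha9a399fcc318c7ca : CRef := CRef.mk (Pat.mk 0xc000000180000000e0000000400000000 0x20000000f0000001c0000003e0000000700000002 5 6) 0 0 (step_sound _ 129 [(rhb739f4f82bb681b4.shift 0 3), rhcb1b2bbee4488fbf] (by decide +kernel))
noncomputable def rh307e87dde5ddcd87 : CRef := CRef.mk (Pat.mk 0x400000006000000030000000600000000 0x200000003000000030000000700000007000000030000000600000004 5 3) 0 0 (step_sound _ 129 [(rh55afc6a59410cf00.shift 1 0), (rh865cf161b9b29643.shift 0 1)] (by decide +kernel))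
noncomputable def rhd480d351d67fd626 : CRef := CRef.mk (Pat.mk 0x80000001e000000000000000000000000 0x8000000080000000c0000003e000000070000000400000004 5 6) 0 0 (step_sound _ 65 [(rh57335751f17679e1.shift 1 0), (rheb0810cc63b001d8.shift 0 2)] (by decide +kernel))
noncomputable def rhb3ca9c7a749fe5c4 : CRef := CRef.mk (Pat.mk 0x8000000080000001c000000060000000000000000 0xa0000003b0000001e000000360000001400000004 5 6) 0 0 (step_sound _ 34 [(rh71222050f2c63a3a.shift 2 0), (rh92f21e40dddb62a7.shift 0 1)] (by decide +kernel))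
noncomputable def rh7dfa6a80bc594bea : CRef := CRef.mk (Pat.mk 0xa0000001e00000006 0xe0000000f0000003a0000001e00000006 5 6) 0 0 (step_sound _ 97 [(rh2145e1d24b96a57e.shift 1 0), rh240a6cb2ffc62322] (by decide +kernel))
noncomputable def rh9865a5c7b7f92d07 : CRef := CRef.mk (Pat.mk 0x8000000180000000e0000000400000000 0x60000000f0000001c0000000e0000003c00000018 5 6) 0 0 (step_sound _ 35 [(rh42afa1af9fffa0e1.shift 1 0), rh9e3680845ae0253e] (by decide +kernel))
noncomputable def rhccafeca2f846e991 : CRef := CRef.mk (Pat.mk 0x8000000080000000c0000000e00000000 0x40000000c0000000c0000000f0000001e00000013 5 5) 0 0 (step_sound _ 36 [(rh55afc6a59410cf00.shift 3 0), rh9750c05db7e93b3b] (by decide +kernel))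
noncomputable def rh192f0eca9832e096 : CRef := CRef.mk (Pat.mk 0x8000000080000001c0000000e00000000 0x1000000018000000380000001f0000001e00000018 5 6) 0 0 (step_sound _ 36 [rh19f5d917ac5b4fce, (rh55afc6a59410cf00.shift 3 0)] (by decide +kernel))
noncomputable def rh950c9c2678b6fbe4 : CRef := CRef.mk (Pat.mk 0x8000000380000000c00000004000000000000000000000000 0x40000000f0000003c0000001c0000001c000000180000001800000008 5 6) 0 0 (step_sound _ 99 [(rh0f9cf023e5c434f4.shift 1 2), (rh270502ca45ea5299.shift 2 0), (rh53509d91ff78ed56.shift 0 3)] (by decide +kernel))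
noncomputable def rh8a39bdc8ad2acd5a : CRef := CRef.mk (Pat.mk 0x8000000080000001c000000060000000000000000 0x40000001c0000001c0000001c0000001e0000001b00000018 5 5) 0 0 (step_sound _ 67 [(rh18b49738f4e5d343.shift 1 1), (rh622e1e57e499877e.shift 0 1), (rhc25035b08412a6a9.shift 2 0), (rhca18712e5e5c7b8f.shift 3 0)] (by decide +kernel))
noncomputable def rh40cebeb7560cce52 : CRef := CRef.mk (Pat.mk 0x80000000c000000060000000c0000000000000000 0x80000000c0000000e0000003e0000003300000002 5 6) 0 0 (step_sound _ 68 [rh0f1d0b889a1adcaa, (rhf48373e13d2bc128.shift 1 2)] (by decide +kernel))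
noncomputable def rhb7c7b21df561be2e : CRef := CRef.mk (Pat.mk 0x8000000080000000c0000000e000000000000000000000000 0x80000000c0000000f0000001e000000130000000200000002 5 5) 0 0 (step_sound _ 100 [(rh55afc6a59410cf00.shift 3 2), rh88129595a1b18399] (by decide +kernel))
noncomputable def rh27c37e65908f58a5 : CRef := CRef.mk (Pat.mk 0x600000007000000040000000000000000 0x60000000600000006000000070000001f0000000b00000003 5 5) 0 0 (step_sound _ 161 [(rh2145e1d24b96a57e.shift 1 2), rhe08c2e86a0a5e454] (by decide +kernel))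
noncomputable def rh9007493f1908044a : CRef := CRef.mk (Pat.mk 0x600000007000000020000000200000000 0x200000002000000030000000700000007000000070000000600000004 5 3) 0 0 (step_sound _ 128 [rh257cac3f88c56b7b, (rh50fbb5868c909700.shift 0 1)] (by decide +kernel))
noncomputable def rh79ac4757f7fcfa7a : CRef := CRef.mk (Pat.mk 0xe00000006000000020000000000000000 0x190000000f00000006000000060000000600000006 5 5) 0 0 (step_sound _ 33 [(rh71222050f2c63a3a.shift 1 0), rhe43b4aaaf26647b5] (by decide +kernel))
noncomputable def rh3613b53cff55a6f8 : CRef := CRef.mk (Pat.mk 0x380000001800000010 0x2000000020000000770000003f0000001800000010 5 7) 0 0 (step_sound _ 66 [(rh13cff1aaa4924947.shift 1 0), (rh1830a026b526961e.shift 1 0), (rhba89ab7cb81bcc90.shift 0 1)] (by decide +kernel))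
noncomputable def rh5ab55df6f8312b9a : CRef := CRef.mk (Pat.mk 0x80000003800000018000000000000000000000000 0x40000000f0000003c000000180000000c0000000c0000000c 5 6) 0 0 (step_sound _ 67 [(rh29245de5933fbe8d.shift 1 1), (rh46530d756bdf8511.shift 2 0), (rh8292e11cff743ce0.shift 0 1)] (by decide +kernel))
noncomputable def rh35fe68b51048166a : CRef := CRef.mk (Pat.mk 0x800000018000000080000000000000000 0x4000000140000003c0000001f00000038000000080000000800000008 5 6) 0 0 (step_sound _ 130 [(rh668fc65514a55b16.shift 2 0), (rhb1a251d9bff81766.shift 2 1), (rhcf8e04ac2e2850fe.shift 0 2)] (by decide +kernel))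
noncomputable def rh52ecb6ff62bbb0f9 : CRef := CRef.mk (Pat.mk 0x80000001800000008000000000000000000000000 0x140000001f0000003c00000008000000180000001800000010 5 6) 0 0 (step_sound _ 67 [(rh5ad9898cc32ef511.shift 2 0), (rh880f173af30d9589.shift 0 2), (rha707fb719e87fe6e.shift 3 1)] (by decide +kernel))
noncomputable def rh7f2d57148fa97479 : CRef := CRef.mk (Pat.mk 0xc00000006000000020000000200000000 0x10000001b0000001f00000006000000070000000700000005 5 5) 0 0 (step_sound _ 129 [rh654a5d57fd8b9734, rh6720799bdc7f6a6c, (rh8af9a32e61457eb0.shift 1 0)] (by decide +kernel))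
noncomputable def rh5de6bdf93c36c3fe : CRef := CRef.mk (Pat.mk 0x4000000040000001c0000000c00000000 0x180000003c0000000f0000001c0000000c00000004 5 6) 0 0 (step_sound _ 131 [(rh2f68792b6b779e96.shift 2 1), rh81139222464e3b97] (by decide +kernel))
noncomputable def rh26e374d7baf2e30b : CRef := CRef.mk (Pat.mk 0x40000001c0000000c000000000000000000000000 0xa0000000f0000001c0000000c0000000e0000000e00000006 5 5) 0 0 (step_sound _ 67 [rh057148d1741d47b3, (rh7b1f1fb55310c477.shift 2 1)] (by decide +kernel))
noncomputable def rhd8d01b3d400f86de : CRef := CRef.mk (Pat.mk 0x8000000080000000e0000000400000004 0x20000000a0000003b0000001e0000003600000014 5 6) 0 0 (step_sound _ 97 [rhbd64b171dbe672bd, (rhe072fffdd2fccf38.shift 1 0)] (by decide +kernel))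
noncomputable def rhc1047a5b5ab10860 : CRef := CRef.mk (Pat.mk 0x400000004000000070000000800000000 0x80000000c0000003c0000000f0000000c0000000c 5 6) 0 0 (step_sound _ 34 [(rh55afc6a59410cf00.shift 2 0), rha08502d9a3e4fd9d] (by decide +kernel))
noncomputable def rh0656236c7a8f2718 : CRef := CRef.mk (Pat.mk 0x1c0000000c0000000800000000 0x180000001e0000001f0000001c0000000c0000000c00000004 5 5) 0 0 (step_sound _ 130 [rh06226fcd439ef9c7, (rh2145e1d24b96a57e.shift 2 1)] (by decide +kernel))
noncomputable def rhaad04ec8f0d71d65 : CRef := CRef.mk (Pat.mk 0x8000000180000001c00000014 0x20000000f0000001f0000001e00000034 5 6) 0 0 (step_sound _ 33 [(rhe25b0a99195a5d59.shift 1 0), rhfcbe31f2f547bfce] (by decide +kernel))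
noncomputable def rhcc008df404913180 : CRef := CRef.mk (Pat.mk 0x50000000f0000000000000000 0x8000000180000001f0000001f0000000400000004 5 5) 0 0 (step_sound _ 97 [rh0c7fcc8062a231c2, (rhf48373e13d2bc128.shift 0 2)] (by decide +kernel))
noncomputable def rh07543f4b2ab89060 : CRef := CRef.mk (Pat.mk 0x7000000070000000000000000 0x8000000180000001f0000001f0000000400000004 5 5) 0 0 (step_sound _ 99 [(rh18965a982d73c794.shift 0 2), rh2ae694e25f74369c] (by decide +kernel))
noncomputable def rhaab1ad55bf9278f3 : CRef := CRef.mk (Pat.mk 0xf000000060000000000000000 0x80000000a0000001e0000000f000000060000000400000004 5 5) 0 0 (step_sound _ 131 [(rh33e738c4ed385b9f.shift 0 3), (rh50606850f5dd5616.shift 1 0)] (by decide +kernel))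
noncomputable def rhc8ffcd37e490e874 : CRef := CRef.mk (Pat.mk 0x1e0000000c0000000000000000 0x20000000a0000000f0000001e0000000c0000000400000004 5 5) 0 0 (step_sound _ 129 [(rh3244c3cc8379b070.shift 0 3), (rh49ca21550b74bdba.shift 1 0)] (by decide +kernel))
noncomputable def rh3a067c34b3258daa : CRef := CRef.mk (Pat.mk 0x1c0000001c 0x370000007f0000001c 5 7) 0 0 (step_sound _ 33 [rh0b767b74010cd9f3, rhb739f4f82bb681b4] (by decide +kernel))
noncomputable def rh428a599b4a33598d : CRef := CRef.mk (Pat.mk 0xc00000008000000080000000600000000 0xa0000000f0000003c0000000c0000000600000002 5 6) 0 0 (step_sound _ 66 [(rh5c5e593799055d58.shift 2 1), rhc3a9559c72b00d0b] (by decide +kernel))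
noncomputable def rh1673820267637e27 : CRef := CRef.mk (Pat.mk 0x40000000c0000000c00000004 0x20000000f0000003e0000000f00000004 5 6) 0 0 (step_sound _ 97 [(rh199eb8bf9a6a3fd8.shift 0 1), (rh50fbb5868c909700.shift 1 0)] (by decide +kernel))
noncomputable def rh0901d4634e55bc25 : CRef := CRef.mk (Pat.mk 0x80000001e000000040000000000000000 0x80000001f0000003f0000003000000010 5 6) 0 0 (step_sound _ 65 [rh715ef4deafe86686, (rheb0810cc63b001d8.shift 0 2)] (by decide +kernel))
noncomputable def rhf7bbabc7740a8b9b : CRef := CRef.mk (Pat.mk 0x80000001c000000040000000000000000 0x800000008000000180000001f0000003c0000001000000010 5 6) 0 0 (step_sound _ 163 [rh0c17f602ec019e20, (rh5c5e593799055d58.shift 2 2)] (by decide +kernel))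
noncomputable def rhe50f429190deabc7 : CRef := CRef.mk (Pat.mk 0x40000001c000000060000000000000000 0x2000000070000001f0000003e0000000700000006 5 6) 0 0 (step_sound _ 97 [rh38a0850c9fea941e, rh4c11c491f4d8ec0e] (by decide +kernel))
noncomputable def rh0b6df8814c803bac : CRef := CRef.mk (Pat.mk 0x80000003c0000000c 0x8000000080000000f0000003e0000007c 5 7) 0 0 (step_sound _ 99 [rh2456963ff1f7bf23, (rh5c5e593799055d58.shift 2 0)] (by decide +kernel))
noncomputable def rhe6170b0fe1a886b6 : CRef := CRef.mk (Pat.mk 0x80000003c0000000c 0x3e0000003f0000007c 5 7) 0 0 (step_sound _ 66 [(rh3244c3cc8379b070.shift 1 1), rhd2044c8ea4a85573] (by decide +kernel))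
noncomputable def rh309dfb2f0d0cc90c : CRef := CRef.mk (Pat.mk 0x80000001c000000060000000000000000 0x20000003b0000001f000000360000000400000004 5 6) 0 0 (step_sound _ 34 [(rh71222050f2c63a3a.shift 2 0), (rha91e7fd3a55c12d6.shift 0 1)] (by decide +kernel))
noncomputable def rhdb562990d287f667 : CRef := CRef.mk (Pat.mk 0x18000000180000000c0000000c 0x60000003f0000001f0000000c0000000c 5 6) 0 0 (step_sound _ 98 [(rh50fbb5868c909700.shift 2 0), rha76b3b67a2281e3d] (by decide +kernel))
noncomputable def rh49a76b3605ba79d3 : CRef := CRef.mk (Pat.mk 0x1c000000060000000200000002 0x80000000b0000001f0000007e0000003700000012 5 7) 0 0 (step_sound _ 68 [(rh14b21a5d56ad19c3.shift 0 1), rh4118eb83563389a5, rhe1c545a0fa7090aa] (by decide +kernel))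
noncomputable def rh653173f70b6fca4b : CRef := CRef.mk (Pat.mk 0x80000001e0000001a0000000000000000 0x40000000c0000001e0000001e0000003300000012 5 6) 0 0 (step_sound _ 36 [(rh7b1f1fb55310c477.shift 3 0), rh7f0fa6c019c0f31a] (by decide +kernel))
noncomputable def rhabb3d8abe57c3b79 : CRef := CRef.mk (Pat.mk 0x80000001e0000000800000000 0x4000000040000000c0000007e0000000f00000008 5 7) 0 0 (step_sound _ 33 [(rh9ab2a9a12d5e38ff.shift 1 0), (rheb0810cc63b001d8.shift 0 1)] (by decide +kernel))
noncomputable def rh1a72c7cdabf684ca : CRef := CRef.mk (Pat.mk 0x1c0000002800000008 0x4000000040000000f0000003e0000003800000008 5 6) 0 0 (step_sound _ 65 [rh3e34a007a92efc93, (rh96851dee118c1ba3.shift 1 1)] (by decide +kernel))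
noncomputable def rhef250c29c5e05d99 : CRef := CRef.mk (Pat.mk 0x1000000038000000080000000000000000 0x1000000010000000370000003e000000780000002000000020 5 7) 0 0 (step_sound _ 164 [(rh5c5e593799055d58.shift 3 2), rh807d482b3ee4b0c5] (by decide +kernel))
noncomputable def rh7946d3b226c7723d : CRef := CRef.mk (Pat.mk 0x1c0000000600000002 0x600000006000000070000001f0000003e00000003 5 6) 0 0 (step_sound _ 130 [rh8e4255809d6dbfa3, (rhee230b994cc8b773.shift 1 0)] (by decide +kernel))
noncomputable def rh041379f73bd57e3e : CRef := CRef.mk (Pat.mk 0x1c00000016000000020000000200000000 0x30000001f0000001e000000070000000600000004 5 5) 0 0 (step_sound _ 99 [rhc18cd807fc0c6551, (rheb0810cc63b001d8.shift 0 2)] (by decide +kernel))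
noncomputable def rh30f03bcbb8f1ff42 : CRef := CRef.mk (Pat.mk 0x4000000040000001e00000004 0x2000000070000003f0000001f00000004 5 6) 0 0 (step_sound _ 65 [rh1782bc4968479070, (rh3244c3cc8379b070.shift 0 1)] (by decide +kernel))
noncomputable def rh5cd669cb81580711 : CRef := CRef.mk (Pat.mk 0x60000001e00000006 0x3000000030000003e0000001e00000036 5 6) 0 0 (step_sound _ 68 [(rh33e738c4ed385b9f.shift 1 1), rhfe460e580d4f17d5] (by decide +kernel))
noncomputable def rh258ad03ab6ada472 : CRef := CRef.mk (Pat.mk 0x3c0000000c 0x760000003f0000003c 5 7) 0 0 (step_sound _ 66 [rh1b1a23e58c3e6ec7, (rh3244c3cc8379b070.shift 1 1)] (by decide +kernel))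
noncomputable def rhd34abd4e84e22c6c : CRef := CRef.mk (Pat.mk 0x8000000000000001c000000040000000000000000 0x800000008000000180000001f0000003c0000001000000010 5 6) 0 0 (step_sound _ 131 [rh0c17f602ec019e20, (rh5c5e593799055d58.shift 2 2)] (by decide +kernel))
noncomputable def rhe8420af454851ad2 : CRef := CRef.mk (Pat.mk 0x8000000020000001e00000006 0x70000000f0000003a0000001e00000006 5 6) 0 0 (step_sound _ 97 [(rh2145e1d24b96a57e.shift 1 0), rh6ee242ad10e2a5b8] (by decide +kernel))
noncomputable def rhf6bd27d962905ae5 : CRef := CRef.mk (Pat.mk 0x8000000000000001e00000006 0x1800000018000000300000001f0000003e 5 6) 0 0 (step_sound _ 4 [rh01a5d5969c427d7c, (rhe25b0a99195a5d59.shift 1 0)] (by decide +kernel))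
noncomputable def rh0981ba99e26b3cae : CRef := CRef.mk (Pat.mk 0x1c000000180000000c0000000800000000 0x20000003f0000001f0000000c0000000c00000004 5 6) 0 0 (step_sound _ 34 [(rh932754581e0f4330.shift 2 0), (rha76b3b67a2281e3d.shift 0 1)] (by decide +kernel))
noncomputable def rhacfadced04c76156 : CRef := CRef.mk (Pat.mk 0x400000014000000040000000200000000 0xa0000000f0000001c000000040000000600000006 5 5) 0 0 (step_sound _ 34 [(rh932754581e0f4330.shift 1 0), rhec7a88c6dcaa5d28] (by decide +kernel))
noncomputable def rhae88f600f33b586c : CRef := CRef.mk (Pat.mk 0x2000000020000000600000000 0x50000000700000007000000020000000600000006 5 3) 0 0 (step_sound _ 129 [rh00c644645561e9be, (rh55afc6a59410cf00.shift 1 0)] (by decide +kernel))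
noncomputable def rhe454094de9bbc1c5 : CRef := CRef.mk (Pat.mk 0x10000000160000000c0000000800000000 0x6000000370000001e0000000c0000000c00000004 5 6) 0 0 (step_sound _ 99 [(rh33e738c4ed385b9f.shift 1 3), rh7ba762276cd125ce] (by decide +kernel))
noncomputable def rh4c425482f4fed9bf : CRef := CRef.mk (Pat.mk 0x80000005a0000003000000000 0x300000001f0000007b0000003000000020 5 7) 0 0 (step_sound _ 98 [(rh2fe78cc5ca4405d8.shift 2 2), rh4d77610e0ffb50a4] (by decide +kernel))
noncomputable def rh26c1c2658ecf442f : CRef := CRef.mk (Pat.mk 0xb0000000e000000000000000000000000 0xa0000001e0000000f0000000e0000000c0000000400000004 5 5) 0 0 (step_sound _ 66 [(rh22ce94ecd5d4e492.shift 0 2), (rhbe707112c53dab40.shift 1 0), (rhcf80391c5046a495.shift 2 0), (rhf9366b6a121593ef.shift 2 0)] (by decide +kernel))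
noncomputable def rh38e4254a2a2ec198 : CRef := CRef.mk (Pat.mk 0x160000001c0000000000000000 0x1200000012000000330000001e0000001e0000000c00000004 5 6) 0 0 (step_sound _ 129 [(rh5d54cb79a67f97ab.shift 1 0), (rh74b5e97ae5f0c736.shift 0 1)] (by decide +kernel))
noncomputable def rhe0e3f03cffa994da : CRef := CRef.mk (Pat.mk 0x80000000c0000000e0000000000000000 0xc0000000c0000000c0000000c0000000f0000001800000010 5 5) 0 0 (step_sound _ 163 [(rh5c5e593799055d58.shift 2 2), rh6ae680e8601885b7] (by decide +kernel))
noncomputable def rh41f7d192234e4e20 : CRef := CRef.mk (Pat.mk 0xc000000140000000c0000000c 0x120000003f0000001f0000000c0000000c 5 6) 0 0 (step_sound _ 97 [rh45e898571edd852f, (rh50fbb5868c909700.shift 1 0)] (by decide +kernel))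
noncomputable def rh42870e86c19153e5 : CRef := CRef.mk (Pat.mk 0x2000000020000000600000006000000000000000000000000 0x200000006000000060000001f000000030000000300000002 5 5) 0 0 (step_sound _ 64 [(rh79877ebd3ef475dd.shift 0 2), rhdd884bb80cd6425a] (by decide +kernel))
noncomputable def rh29f5fbb34abe25d9 : CRef := CRef.mk (Pat.mk 0x800000028000000180000001000000000 0x140000001e00000038000000380000001f0000000c 5 6) 0 0 (step_sound _ 35 [rh6fae963f33cfdfd7, (rhec7a88c6dcaa5d28.shift 1 0)] (by decide +kernel))
noncomputable def rh6d73337abec5a977 : CRef := CRef.mk (Pat.mk 0x40000000600000004000000000000000000000000 0x40000000400000004000000070000003e0000000f0000000a00000008 5 6) 0 0 (step_sound _ 99 [(rh70e33bfdf511e144.shift 2 0), (rhb23658ecdd7ce5df.shift 1 2), (rhb94ea1dd7c577fd4.shift 0 1)] (by decide +kernel))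
noncomputable def rh20fee2d91e700ffe : CRef := CRef.mk (Pat.mk 0xc000000180000000c0000000c 0x120000003f0000001f0000000c0000000c 5 6) 0 0 (step_sound _ 100 [(rh2f68792b6b779e96.shift 3 0), rha76b3b67a2281e3d] (by decide +kernel))
noncomputable def rh6cb0e5959253c9cf : CRef := CRef.mk (Pat.mk 0x1c0000000c000000040000000400000000 0x100000001c0000000c0000003c0000000f0000000a 5 6) 0 0 (step_sound _ 35 [rh0ddcd9ca63d9923e, (rh55afc6a59410cf00.shift 2 0)] (by decide +kernel))
noncomputable def rhba3581038cb37afc : CRef := CRef.mk (Pat.mk 0x80000001a0000000e0000000400000000 0x120000003b0000001e0000000e0000000c00000008 5 6) 0 0 (step_sound _ 129 [(rh2145e1d24b96a57e.shift 1 1), rhf677ba2fb9d494ad] (by decide +kernel))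
noncomputable def rh726d9190c68b2835 : CRef := CRef.mk (Pat.mk 0x40000001e000000060000000200000000 0x10000000340000001e0000003e0000000b00000008 5 6) 0 0 (step_sound _ 68 [rh37a69a3905d365b7, (rhe25b0a99195a5d59.shift 1 2)] (by decide +kernel))
noncomputable def rhd81fd08d8cd70717 : CRef := CRef.mk (Pat.mk 0x8000000380000000800000000 0x40000000c0000000c0000001f000000380000001800000018 5 6) 0 0 (step_sound _ 131 [(rh3da62da861143b9a.shift 2 1), (rhd4b4beefcd67f51e.shift 3 0), rhd716e2ab31203e19] (by decide +kernel))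
noncomputable def rh6c538eea0400cdf3 : CRef := CRef.mk (Pat.mk 0x800000038000000080000000800000000 0x40000001f00000038000000080000001c00000014 5 6) 0 0 (step_sound _ 34 [rh3c32c1362145132d, (rh932754581e0f4330.shift 2 0)] (by decide +kernel))
noncomputable def rh8780feb96d6aa5c7 : CRef := CRef.mk (Pat.mk 0x8000000180000000e0000000800000000 0x60000000f0000001e0000000e0000000c00000004 5 5) 0 0 (step_sound _ 34 [(rh501207f89dcab93e.shift 0 1), (rh932754581e0f4330.shift 2 0)] (by decide +kernel))
noncomputable def rh5ac8a52ac3a4f013 : CRef := CRef.mk (Pat.mk 0x4000000000000000c0000000e00000000 0x4000000040000007c0000007e00000003 5 7) 0 0 (step_sound _ 69 [(rh361cc68994bd8a63.shift 1 1), rha9f534b21f67f0a6] (by decide +kernel))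
noncomputable def rh1f4c791948e68118 : CRef := CRef.mk (Pat.mk 0x800000000000000180000001c00000000 0x8000000080000001b0000003f00000007 5 6) 0 0 (step_sound _ 33 [(rh53b3c253cb0c65f4.shift 0 1), rh6714c7551197e2a4] (by decide +kernel))
noncomputable def rhfa42e0d11b309c7d : CRef := CRef.mk (Pat.mk 0x80000003800000008000000000000000000000000 0x4000000040000000c0000001f0000003800000008000000180000001800000010 5 6) 0 0 (step_sound _ 162 [(rh7cf68dc7e62595c7.shift 2 0), (rhb1a251d9bff81766.shift 2 2), (rhc02b3aee7ab87ee1.shift 0 4)] (by decide +kernel))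
noncomputable def rhc7e0b8feac46bbfb : CRef := CRef.mk (Pat.mk 0x1800000008000000380000000800000000 0x40000001f0000003e000000380000000800000008 5 6) 0 0 (step_sound _ 100 [(rh46f34fdbf6b9ab76.shift 0 1), (rh71222050f2c63a3a.shift 3 0)] (by decide +kernel))
noncomputable def rh84e3bcfa3678760b : CRef := CRef.mk (Pat.mk 0x1e000000060000000400000000 0x8000000080000001f0000003e0000003400000010 5 6) 0 0 (step_sound _ 68 [rhb9e0e239342621c0, (rhe25b0a99195a5d59.shift 1 2)] (by decide +kernel))
noncomputable def rh99ca9486dffadd55 : CRef := CRef.mk (Pat.mk 0x100000007800000018 0x3c0000007f000000f8 5 8) 0 0 (step_sound _ 67 [rh0ac4d9272d89bceb, (rh3244c3cc8379b070.shift 2 1)] (by decide +kernel))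
noncomputable def rhc021d31cf355e878 : CRef := CRef.mk (Pat.mk 0x8000000180000001e00000004 0x60000000f0000001b0000003e00000006 5 6) 0 0 (step_sound _ 65 [(rh3244c3cc8379b070.shift 0 1), rha7034ad0b953aa2c] (by decide +kernel))
noncomputable def rh84faf3c77c936851 : CRef := CRef.mk (Pat.mk 0x1e000000060000000200000000 0x8000000080000001e0000003e0000003300000010 5 6) 0 0 (step_sound _ 68 [rhe1c545a0fa7090aa, (rhe25b0a99195a5d59.shift 1 2)] (by decide +kernel))
noncomputable def rhbde007d47b9dc637 : CRef := CRef.mk (Pat.mk 0x180000000c0000000000000000 0x800000008000000380000001f0000003000000010 5 6) 0 0 (step_sound _ 65 [(rh2f5dd1e0b615921c.shift 1 0), (rh53b3c253cb0c65f4.shift 0 2)] (by decide +kernel))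
noncomputable def rh599f8b48cb135a15 : CRef := CRef.mk (Pat.mk 0x10000000180000000c0000000000000000 0x8000000380000001f0000003f0000003000000010 5 6) 0 0 (step_sound _ 65 [(rh53b3c253cb0c65f4.shift 0 2), rh5bbe1c004ccdf534] (by decide +kernel))
noncomputable def rhb8d9fb4ff7ff2618 : CRef := CRef.mk (Pat.mk 0x180000000e0000000400000004 0x2000000020000001f000000fe0000007c00000004 5 8) 0 0 (step_sound _ 68 [rh1c1037cb5b3fe471, (rh31b96bf68293d1ba.shift 1 1)] (by decide +kernel))
noncomputable def rhe9ca129e12e86b15 : CRef := CRef.mk (Pat.mk 0x1c000000160000000200000000 0x8000000080000001e0000003e0000003300000010 5 6) 0 0 (step_sound _ 97 [rhe1c545a0fa7090aa, (rhe25b0a99195a5d59.shift 1 2)] (by decide +kernel))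
noncomputable def rh65485b477f2c7514 : CRef := CRef.mk (Pat.mk 0xc0000000e000000080000000800000000 0xc0000000e0000003b0000001f00000016 5 6) 0 0 (step_sound _ 36 [(rh55afc6a59410cf00.shift 3 0), rhd5e39ea7dd1db2ce] (by decide +kernel))
noncomputable def rh6abb4cb4046b60d4 : CRef := CRef.mk (Pat.mk 0x1e00000016000000040000000000000000 0x300000001f0000001e0000000c0000000c0000000c 5 6) 0 0 (step_sound _ 99 [(rh3244c3cc8379b070.shift 0 3), (rh9fcfb7da64a26d11.shift 1 0)] (by decide +kernel))
noncomputable def rhdf8bd8767e62dc1a : CRef := CRef.mk (Pat.mk 0x1c0000000600000004 0x20000003b0000001f0000003e00000004 5 6) 0 0 (step_sound _ 65 [rh309fd0c3d364cd61, (rhb2d1aa7b1ffc4eb6.shift 0 1)] (by decide +kernel))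
noncomputable def rh5c23ecb1996f81b9 : CRef := CRef.mk (Pat.mk 0x600000007000000020000000200000000 0x190000001f00000007000000060000000600000004 5 5) 0 0 (step_sound _ 128 [(rh50fbb5868c909700.shift 0 1), rhe5f1d6f0879cdb28] (by decide +kernel))
noncomputable def rhdd23e20ea856851f : CRef := CRef.mk (Pat.mk 0x600000007000000020000000600000000 0x200000006000000070000003e0000003e00000008 5 6) 0 0 (step_sound _ 66 [(rh50fbb5868c909700.shift 1 1), rhda8b3d2a3e590da7] (by decide +kernel))
noncomputable def rhdbe81ec60db065ce : CRef := CRef.mk (Pat.mk 0x180000000c000000000000000000000000 0x8000000380000001f000000300000001000000010 5 6) 0 0 (step_sound _ 97 [(rh2e6f530911a4ba98.shift 1 0), (rh53b3c253cb0c65f4.shift 0 3)] (by decide +kernel))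
noncomputable def rhbea32a382651a0e3 : CRef := CRef.mk (Pat.mk 0x100000007800000010 0xfc0000007f00000030 5 8) 0 0 (step_sound _ 67 [rh20f545700634a2c8, (rh3244c3cc8379b070.shift 2 1)] (by decide +kernel))
noncomputable def rhf1edb6671c9a5104 : CRef := CRef.mk (Pat.mk 0x80000003c0000000c 0x3e0000003f0000007c 5 7) 0 0 (step_sound _ 5 [rh06ebb06f5f5fb6af, (rhe25b0a99195a5d59.shift 2 0)] (by decide +kernel))
noncomputable def rhda4b429055f88d04 : CRef := CRef.mk (Pat.mk 0x8000000080000000e000000100000000000000000 0x8000000080000003e0000003f0000000400000004 5 6) 0 0 (step_sound _ 100 [rh375f643453e42b7a, (rhe25b0a99195a5d59.shift 1 2)] (by decide +kernel))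
noncomputable def rh3f9fc89da253b258 : CRef := CRef.mk (Pat.mk 0xc00000004000000040000001e00000000 0x20000000f0000003c0000000c0000001e00000030 5 6) 0 0 (step_sound _ 129 [rh309019e4b17e5c91, (rh50fbb5868c909700.shift 1 1)] (by decide +kernel))
noncomputable def rh46a15bb68c6932e8 : CRef := CRef.mk (Pat.mk 0x3800000010 0x70000007e000000ff 5 8) 0 0 (step_sound _ 34 [rh592c7139d2c44767, (rha03f6e28ea70fc7d.shift 1 0), (rha55e9a51d19a998f.shift 1 0)] (by decide +kernel))
noncomputable def rheb3c3e7cd84082fe : CRef := CRef.mk (Pat.mk 0x60000000e000000030000000200000000 0x60000000e0000001b0000001f0000000d 5 5) 0 0 (step_sound _ 34 [(rh55afc6a59410cf00.shift 1 0), rhe88f719fe55ba9de] (by decide +kernel))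
noncomputable def rhca732744413cbe05 : CRef := CRef.mk (Pat.mk 0x1000000070000000180000000800000000 0x3e0000007f000000f80000000c00000004 5 8) 0 0 (step_sound _ 99 [(rh719a4defb16e1b89.shift 0 2), (rhdfb45a0764e33452.shift 2 0), (rhf6d72ac90bd26cb0.shift 2 1)] (by decide +kernel))
noncomputable def rh89d987ecd4a50600 : CRef := CRef.mk (Pat.mk 0x8000000180000000e00000004 0x20000000f0000001f0000003e00000007 5 6) 0 0 (step_sound _ 65 [rh0fe9ffd52e1cd12f, rh2f32edc41b016dfb, rh9f93e2b24091a43d] (by decide +kernel))
noncomputable def rha61128906192bb74 : CRef := CRef.mk (Pat.mk 0x20000000300000001000000010 0x8000000080000007f000000fe0000003800000010 5 8) 0 0 (step_sound _ 67 [(rh104a142e7acfc826.shift 2 0), rh1e2e095a54aeb72c, (rh6558fc11d90a948b.shift 1 1)] (by decide +kernel))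
noncomputable def rhf1daa5fb86586a14 : CRef := CRef.mk (Pat.mk 0x100000001c0000000800000008 0x140000001f0000003f0000000800000008 5 6) 0 0 (step_sound _ 99 [rh011e4142515085ec, (rh2f68792b6b779e96.shift 3 0)] (by decide +kernel))
noncomputable def rhaae39daa5d6aa80d : CRef := CRef.mk (Pat.mk 0xc000000080000000c0000000c 0x130000001f0000003b0000000e0000000c 5 6) 0 0 (step_sound _ 100 [(rh2f68792b6b779e96.shift 3 0), rh3e039e30505c062d] (by decide +kernel))
noncomputable def rhad7ca240fba4080a : CRef := CRef.mk (Pat.mk 0x180000001c000000080000000800000000 0x800000008000000180000001f0000003c0000000c00000004 5 6) 0 0 (step_sound _ 97 [(rh1ec49f55d40f956e.shift 1 0), (rh53b3c253cb0c65f4.shift 0 3)] (by decide +kernel))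
noncomputable def rh581aac718c7fa263 : CRef := CRef.mk (Pat.mk 0x6000000070000000200000002 0x200000003000000030000001f000000070000000300000002 5 5) 0 0 (step_sound _ 128 [(rh062693b029b41d9c.shift 0 1), rhffd04209dc8ea796] (by decide +kernel))
noncomputable def rhb6e93348f09da51a : CRef := CRef.mk (Pat.mk 0x18000000180000000e0000000800000000 0x60000001f0000001b0000000e0000000c00000004 5 5) 0 0 (step_sound _ 130 [rh41c446d57b51d23d, (rh50fbb5868c909700.shift 2 1)] (by decide +kernel))
noncomputable def rh1fc06c341dd295ca : CRef := CRef.mk (Pat.mk 0xe0000000400000004 0x2000000730000003e0000007700000004 5 7) 0 0 (step_sound _ 68 [(rha93a5dd541ab8209.shift 1 1), (rhaf9f2efc81a8312b.shift 0 1), rhe4f9133a81c1dbc5] (by decide +kernel))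
noncomputable def rh2598feaa2162b66a : CRef := CRef.mk (Pat.mk 0x120000001c000000000000000000000000 0x10000000130000001f000000380000000800000008 5 6) 0 0 (step_sound _ 97 [(rh3244c3cc8379b070.shift 0 3), rh9483656c38360087] (by decide +kernel))
noncomputable def rhea5ba6202124cc37 : CRef := CRef.mk (Pat.mk 0x90000000e0000000000000000 0x8000000080000003b0000001e0000003000000010 5 6) 0 0 (step_sound _ 68 [(rh3f8766e6ecb455ce.shift 0 2), (rh6210f0fae0472354.shift 1 0)] (by decide +kernel))
noncomputable def rh859f528250daca3c : CRef := CRef.mk (Pat.mk 0xc000000080000000c0000000c00000000 0x100000003c0000000f0000003c0000000f00000002 5 6) 0 0 (step_sound _ 132 [(rh2f68792b6b779e96.shift 3 1), rhed3c776db01afc16] (by decide +kernel))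
noncomputable def rh06792f840ee7ef6b : CRef := CRef.mk (Pat.mk 0xe00000004000000060000000c00000000 0x3f0000003f0000001e0000003c00000010 5 6) 0 0 (step_sound _ 36 [rha516a3d27367b169, (rhf48373e13d2bc128.shift 1 1)] (by decide +kernel))
noncomputable def rh26cf4e0edec73dad : CRef := CRef.mk (Pat.mk 0x80000000e00000004 0x380000003f00000076 5 7) 0 0 (step_sound _ 68 [(rh1c778aeb78cd3ef8.shift 1 0), (rh53b3c253cb0c65f4.shift 0 1)] (by decide +kernel))
noncomputable def rhf6b6c24d14079f3c : CRef := CRef.mk (Pat.mk 0xa0000000e000000000000000000000000 0x80000003b0000001e000000300000001000000010 5 6) 0 0 (step_sound _ 100 [(rh3244c3cc8379b070.shift 0 3), (rh4569bd9aa4440d20.shift 1 0)] (by decide +kernel))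
noncomputable def rh0179fcc472496beb : CRef := CRef.mk (Pat.mk 0x180000000c0000000800000000 0x40000000c0000000c000000180000001f0000003c00000014 5 6) 0 0 (step_sound _ 65 [(rh53b3c253cb0c65f4.shift 0 2), (rhd9a7a5fb028a256c.shift 1 0)] (by decide +kernel))
noncomputable def rh737fea866f72dae5 : CRef := CRef.mk (Pat.mk 0x180000000c0000000800000000 0xc0000001f000000780000000c0000000c00000004 5 7) 0 0 (step_sound _ 101 [(rh18965a982d73c794.shift 2 2), rh541160d578a25bcf] (by decide +kernel))
noncomputable def rh59056920fcba8e3d : CRef := CRef.mk (Pat.mk 0xc00000004000000040000000c00000000 0x40000000c0000000c0000000f0000003c00000014 5 6) 0 0 (step_sound _ 67 [(rh2145e1d24b96a57e.shift 2 1), rh99071a2cce01658c] (by decide +kernel))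
noncomputable def rh72d43230b0212c4f : CRef := CRef.mk (Pat.mk 0x800000008000000080000001c 0xc0000000c000000080000003f0000003f 5 6) 0 0 (step_sound _ 98 [(rh50fbb5868c909700.shift 2 0), rhc8323dc824533198] (by decide +kernel))
noncomputable def rhf4fc431c6cf8f3c7 : CRef := CRef.mk (Pat.mk 0x20000000200000002000000020000000000000000 0x1000000030000000300000002000000070000000700000004 5 3) 0 0 (step_sound _ 64 [rh8ff3dde5b1c639e0, (rh932754581e0f4330.shift 0 1)] (by decide +kernel))
noncomputable def rhcc24e65e1f5738dd : CRef := CRef.mk (Pat.mk 0xe000000040000000400000008 0x340000003f0000003f0000001c00000008 5 6) 0 0 (step_sound _ 100 [(rh5a4137a36c93f1f5.shift 1 0), (rhaf9f2efc81a8312b.shift 0 2), rhe4331c6b06ac49c3] (by decide +kernel))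
noncomputable def rh387ffa5e411212ae : CRef := CRef.mk (Pat.mk 0x200000002000000020000000600000000 0x100000003000000030000000200000002000000070000000700000001 5 3) 0 0 (step_sound _ 161 [rh680726b6ed9fd3cd, (rhd3458b32566d63f7.shift 1 1)] (by decide +kernel))
noncomputable def rh852396cb7ebe63e8 : CRef := CRef.mk (Pat.mk 0x40000000700000006000000000000000000000000 0x80000003c0000000f000000060000000c0000000c0000000c 5 6) 0 0 (step_sound _ 66 [(rh55ff3d990152394d.shift 0 1), (rh5f725e760179b4ec.shift 0 1), (rh820d4e04d5dcd02e.shift 1 0)] (by decide +kernel))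
noncomputable def rh001166eb663f20b4 : CRef := CRef.mk (Pat.mk 0x1e000000160000000000000000 0x8000000080000001c0000001f0000001e0000000400000004 5 5) 0 0 (step_sound _ 96 [(rh2fe78cc5ca4405d8.shift 0 2), rhfb887dc442f7725b] (by decide +kernel))
noncomputable def rh9586f1d20a33296b : CRef := CRef.mk (Pat.mk 0x1000000018000000080000000000000000 0x140000001f00000038000000080000000800000008 5 6) 0 0 (step_sound _ 35 [(rh71222050f2c63a3a.shift 3 0), (rhaf7c83fabfefdcde.shift 0 1)] (by decide +kernel))
noncomputable def rh184c89c985979d9f : CRef := CRef.mk (Pat.mk 0x1c00000018000000080000000800000000 0x80000001f000000380000000f0000000c00000004 5 6) 0 0 (step_sound _ 34 [(rh932754581e0f4330.shift 2 0), (rhd4ef12ccdc7bfc0d.shift 0 1)] (by decide +kernel))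
noncomputable def rh620215698459aaa3 : CRef := CRef.mk (Pat.mk 0x1c00000008000000080000000800000000 0x80000003c0000000f0000000c0000000c0000000c 5 6) 0 0 (step_sound _ 98 [(rh7b1f1fb55310c477.shift 2 0), rh90d9c583da87cdb5] (by decide +kernel))
noncomputable def rh410a0a98901a55b2 : CRef := CRef.mk (Pat.mk 0xc000000060000000400000000 0x60000000f0000003e000000060000000600000002 5 6) 0 0 (step_sound _ 130 [(rh03dfdf12d5937476.shift 1 0), (rh17d893c7538e1819.shift 0 1)] (by decide +kernel))
noncomputable def rh73ecd41cf8243248 : CRef := CRef.mk (Pat.mk 0x1e000000180000000800000000 0x4000000040000003e0000001f0000000b00000002 5 6) 0 0 (step_sound _ 65 [rh429d6e052d4df52f, (rheb0810cc63b001d8.shift 0 2)] (by decide +kernel))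
noncomputable def rhd7d623ef241e209a : CRef := CRef.mk (Pat.mk 0xe0000000c0000000000000000 0x10000000300000003e0000003f0000000800000008 5 6) 0 0 (step_sound _ 68 [rhe1eb410f20df8382, (rhf48373e13d2bc128.shift 1 2)] (by decide +kernel))
noncomputable def rh7807620841bbaf84 : CRef := CRef.mk (Pat.mk 0x100000001800000038000000000000000000000000 0x10000000180000003f000000770000002000000020 5 7) 0 0 (step_sound _ 98 [(rh0647d666102fa269.shift 1 1), (rh3593e1fdb4246637.shift 1 0), (rhcc2be1f880c5ea3e.shift 0 2)] (by decide +kernel))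
noncomputable def rh3bd611db75da8ece : CRef := CRef.mk (Pat.mk 0x180000001c00000008 0x18000000ff0000007c 5 8) 0 0 (step_sound _ 33 [(rh53b3c253cb0c65f4.shift 0 1), (rhc6919780d26a686c.shift 1 0)] (by decide +kernel))
noncomputable def rh85ff9f0fe342d881 : CRef := CRef.mk (Pat.mk 0x40000000e000000000000000000000000 0x140000003c0000001f000000780000000800000008 5 7) 0 0 (step_sound _ 67 [(rh8ee80cc30e93a344.shift 0 2), rh9bcd0dff3c31227e, (rha7e239a8204be023.shift 1 0)] (by decide +kernel))
noncomputable def rh449bb51d9fb12b54 : CRef := CRef.mk (Pat.mk 0x80000001c000000060000000000000000 0x8000000380000001f0000003e0000003000000010 5 6) 0 0 (step_sound _ 97 [(rh4569bd9aa4440d20.shift 1 0), (rhec46bd5500c722c9.shift 0 3), (rheda99a191283b9ee.shift 0 1)] (by decide +kernel))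
noncomputable def rh0fb10b969d921054 : CRef := CRef.mk (Pat.mk 0x180000001e000000100000000000000000 0x1c000000fe000000170000001000000010 5 8) 0 0 (step_sound _ 36 [(rh7b1f1fb55310c477.shift 3 0), (rhb447f348b8f2aaa5.shift 0 2)] (by decide +kernel))
noncomputable def rha33b3c03ebd3204a : CRef := CRef.mk (Pat.mk 0x1000000018000000380000000000000000 0x100000007e0000003f0000006700000020 5 7) 0 0 (step_sound _ 98 [rh60fd89e95760eba3, (rhb739f4f82bb681b4.shift 1 2)] (by decide +kernel))
noncomputable def rh652dac0036f3a1dd : CRef := CRef.mk (Pat.mk 0x180000000c0000000800000000 0x800000008000000180000001f0000007c00000014 5 7) 0 0 (step_sound _ 65 [(rh53b3c253cb0c65f4.shift 0 2), (rh663f59971b2a36af.shift 1 0)] (by decide +kernel))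
noncomputable def rhc9e48f538dc56371 : CRef := CRef.mk (Pat.mk 0xc00000018000000080000001c 0x20000000f0000001e0000003f0000003f 5 6) 0 0 (step_sound _ 97 [rh452e83543caf7ac7, (rhb739f4f82bb681b4.shift 0 2)] (by decide +kernel))
noncomputable def rh275501423c94f5b1 : CRef := CRef.mk (Pat.mk 0x1a0000001e00000008 0x600000006000000070000001e0000003e00000008 5 6) 0 0 (step_sound _ 66 [rh874a213df268dd65, (rhf48373e13d2bc128.shift 1 1)] (by decide +kernel))
noncomputable def rhefa595f89623131c : CRef := CRef.mk (Pat.mk 0x1c0000000600000004 0x20000003b0000001f0000003e00000004 5 6) 0 0 (step_sound _ 65 [rh309fd0c3d364cd61, rh6b5f6cdf4ea71b7d, (rhb2d1aa7b1ffc4eb6.shift 0 1)] (by decide +kernel))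
noncomputable def rha7537a2bac798a50 : CRef := CRef.mk (Pat.mk 0x1e000000040000000000000000 0x8000000080000003c0000001f000000040000000400000004 5 6) 0 0 (step_sound _ 132 [rh30d08358f93f7791, (rh33e738c4ed385b9f.shift 1 3)] (by decide +kernel))
noncomputable def rh3a2f845395d0da08 : CRef := CRef.mk (Pat.mk 0x1c00000006000000020000000600000000 0x80000001f0000003e000000070000000600000004 5 6) 0 0 (step_sound _ 129 [(rh55afc6a59410cf00.shift 1 0), (rh6e1b96824840802e.shift 0 1)] (by decide +kernel))
noncomputable def rhc758e51bd98709d1 : CRef := CRef.mk (Pat.mk 0x4000000070000000400000000 0x80000000c0000000c000000040000000f0000001e0000000a 5 5) 0 0 (step_sound _ 130 [(rh03dfdf12d5937476.shift 1 0), rh548ca695070b4cbb, (rhced6d86d2069808b.shift 2 0)] (by decide +kernel))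
noncomputable def rh056b5712875b258c : CRef := CRef.mk (Pat.mk 0x4000000040000000600000002000000000000000000000000 0x80000000c0000000e000000070000003e0000000c0000000400000004 5 6) 0 0 (step_sound _ 98 [(rh3502d92c6cce609b.shift 1 0), (rh36d4d92ef3dad5f8.shift 0 2)] (by decide +kernel))
noncomputable def rh024e513121fe1b70 : CRef := CRef.mk (Pat.mk 0x200000002000000030000000200000000 0x100000003000000030000000200000003000000070000000600000004 5 3) 0 0 (step_sound _ 34 [(rh55afc6a59410cf00.shift 1 0), (rhb35e66efa75d67a8.shift 0 1)] (by decide +kernel))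
noncomputable def rhe20583caacc44ece : CRef := CRef.mk (Pat.mk 0x200000006000000030000000200000000 0x60000000600000006000000070000001e0000000c 5 5) 0 0 (step_sound _ 34 [(rh55afc6a59410cf00.shift 1 0), rheee5bd1b9dc0a3f9] (by decide +kernel))
noncomputable def rh22f53ba2f05af569 : CRef := CRef.mk (Pat.mk 0x80000001e000000000000000000000000 0x20000000b0000003e000000070000000400000004 5 6) 0 0 (step_sound _ 129 [(rh3244c3cc8379b070.shift 0 3), rh5002fd5ca5291a69] (by decide +kernel))
noncomputable def rheeb58e8c2df1f008 : CRef := CRef.mk (Pat.mk 0x4000000070000000400000000 0xa0000000e0000000e00000004000000070000001e0000000a 5 5) 0 0 (step_sound _ 130 [(rh1741680720c097b4.shift 1 1), rhb379f99078aafa2d, (rhd2c74283b7b6e6b8.shift 1 1)] (by decide +kernel))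
noncomputable def rhd14628fea3bd9904 : CRef := CRef.mk (Pat.mk 0x200000001c00000000 0x670000003e00000070 5 7) 0 0 (step_sound _ 37 [rh0d378fd9e8917c5a, (rh33e738c4ed385b9f.shift 2 1)] (by decide +kernel))
noncomputable def rhe9fa28debea0215b : CRef := CRef.mk (Pat.mk 0x8000000380000000c0000000400000000 0x40000001f0000003c0000007c0000000e0000000a 5 7) 0 0 (step_sound _ 130 [(rh3289262d1f59fe3a.shift 2 0), (rh5dbe2fd002c6c501.shift 1 0), (rhc02b3aee7ab87ee1.shift 0 3)] (by decide +kernel))
noncomputable def rha44591082de8a15d : CRef := CRef.mk (Pat.mk 0x8000000080000001e000000000000000000000000 0x8000000380000003e0000000f0000000400000004 5 6) 0 0 (step_sound _ 132 [(rh33e738c4ed385b9f.shift 1 3), rh375f643453e42b7a] (by decide +kernel))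
noncomputable def rh8686ce90d2a4251c : CRef := CRef.mk (Pat.mk 0x20000000e000000030000000600000000 0x4000000060000000e0000001b0000001f00000009 5 5) 0 0 (step_sound _ 130 [(rh2f68792b6b779e96.shift 1 1), rhe88f719fe55ba9de] (by decide +kernel))
noncomputable def rhabcb32a1f897ed2c : CRef := CRef.mk (Pat.mk 0xc000000080000000c0000000c 0x130000001f0000007c0000000f0000000c 5 7) 0 0 (step_sound _ 100 [(rh2f68792b6b779e96.shift 3 0), rh7784259e49d2b9f1] (by decide +kernel))
noncomputable def rh403efdfd5c368d17 : CRef := CRef.mk (Pat.mk 0x60000000400000006000000040000000000000000 0xe0000003e0000000f000000040000000400000004 5 6) 0 0 (step_sound _ 34 [rhda794e0c692d0381, (rhffd04209dc8ea796.shift 1 1)] (by decide +kernel))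
noncomputable def rh1d731470c5f6b8e1 : CRef := CRef.mk (Pat.mk 0x200000002000000030000000200000000000000000000000000000000 0x200000003000000030000000300000003000000070000000700000004 5 3) 0 0 (step_sound _ 97 [(rh5192e84255fe3228.shift 0 1), (rh7928877f9bf74a91.shift 0 2), rhd1779d7de7f8215b] (by decide +kernel))
noncomputable def rhedac0154092b0521 : CRef := CRef.mk (Pat.mk 0x2000000020000000200000002000000020000000000000000 0x400000006000000020000000200000002000000070000000700000005 5 3) 0 0 (step_sound _ 226 [rh6eff4158bb400f47, (rhbaefcd01e0a8bca3.shift 1 3)] (by decide +kernel))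
noncomputable def rh3b392ab82d9ceaf1 : CRef := CRef.mk (Pat.mk 0x80000000c000000040000000c00000000 0x40000000c0000000c0000003f0000003f00000012 5 6) 0 0 (step_sound _ 67 [rh9816434bd6468104, rhfe557af9112f51d6] (by decide +kernel))
noncomputable def rh7651f86b8442a0bf : CRef := CRef.mk (Pat.mk 0xc00000007000000080000000000000000 0xa0000000e0000000f0000003c0000000400000004 5 6) 0 0 (step_sound _ 68 [(rhd6e447e81774439e.shift 0 2), (rhff52c6557ec264c3.shift 1 0)] (by decide +kernel))
noncomputable def rhe5f121614ddc3b1d : CRef := CRef.mk (Pat.mk 0x6000000030000000400000000 0x400000006000000070000000700000007000000070000000600000006 5 3) 0 0 (step_sound _ 129 [(rh331a7c318f5f9a02.shift 0 1), (rh390a8df03c6c5a62.shift 1 0), rh5d68e402d99634d8] (by decide +kernel))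
noncomputable def rh1b39041d83ebfa15 : CRef := CRef.mk (Pat.mk 0xc000000040000000c0000000000000000 0x80000000c000000040000003c0000000f0000000a 5 6) 0 0 (step_sound _ 34 [(rh2f68792b6b779e96.shift 2 1), rhab6ffbdaef6e235a] (by decide +kernel))
noncomputable def rh63dfa88f6e3df4a9 : CRef := CRef.mk (Pat.mk 0x40000000700000008000000000000000000000000 0x4000000040000000f0000003c0000000c0000000800000008 5 6) 0 0 (step_sound _ 100 [(rh700eb40db44b6775.shift 1 0), (rhd6e447e81774439e.shift 0 3)] (by decide +kernel))
noncomputable def rhab60da94184d4622 : CRef := CRef.mk (Pat.mk 0x8000000180000000c0000000800000000 0x60000000f0000001c0000000c0000000c0000000c 5 5) 0 0 (step_sound _ 130 [(rh50fbb5868c909700.shift 2 1), rh97eaf2b458bf126a] (by decide +kernel))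
noncomputable def rh3983abbaa1e6dd80 : CRef := CRef.mk (Pat.mk 0x800000008000000180000000e00000000 0x40000000c0000000f0000001e0000000e0000000a 5 5) 0 0 (step_sound _ 130 [(rh50fbb5868c909700.shift 2 1), rhc72f934642952c1d] (by decide +kernel))
noncomputable def rh5d7bad87ea13d46f : CRef := CRef.mk (Pat.mk 0x340000001c000000080000000800000000 0x280000003f0000003c000000180000001800000010 5 6) 0 0 (step_sound _ 129 [rh187c5eef9df77602, (rhf48373e13d2bc128.shift 1 3)] (by decide +kernel))
noncomputable def rh08480f4413476838 : CRef := CRef.mk (Pat.mk 0x10000000180000001e0000000000000000 0x4000000340000001f0000001e0000000300000002 5 6) 0 0 (step_sound _ 97 [(rh3244c3cc8379b070.shift 0 2), rhbec250d9989bf30e] (by decide +kernel))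
noncomputable def rh7fb276822a012166 : CRef := CRef.mk (Pat.mk 0x400000008000000180000000a00000000 0x4000000040000000e0000000f0000001a0000000a00000002 5 5) 0 0 (step_sound _ 162 [rh796a71bf3d46f5c2, (rhcfdf45280693d3da.shift 2 1)] (by decide +kernel))
noncomputable def rh0a9d766b5340c0e0 : CRef := CRef.mk (Pat.mk 0x400000008000000080000000800000000 0x140000003c0000000f000000080000000800000008 5 6) 0 0 (step_sound _ 131 [(rh50fbb5868c909700.shift 2 1), rh98a2281efa777683] (by decide +kernel))
noncomputable def rh0073b331e2c68d15 : CRef := CRef.mk (Pat.mk 0x1c000000060000000200000000 0xe0000000f0000001e000000060000000600000004 5 5) 0 0 (step_sound _ 130 [(rh5c5e593799055d58.shift 1 1), rhb218cf71230e6ea5] (by decide +kernel))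
noncomputable def rhc9e26c0ff48ef4a3 : CRef := CRef.mk (Pat.mk 0x6000000040000000e0000000000000000 0xa0000000e0000003c0000000f0000000400000004 5 6) 0 0 (step_sound _ 34 [(rh50fbb5868c909700.shift 1 1), rh7ef96393e2144d84] (by decide +kernel))
noncomputable def rh99675969af7986fe : CRef := CRef.mk (Pat.mk 0x200000006000000030000000200000000 0x200000002000000060000000600000007000000070000000600000004 5 3) 0 0 (step_sound _ 130 [rh1f31a35375523519, (rh2f68792b6b779e96.shift 1 1)] (by decide +kernel))
noncomputable def rh0d84970d5ea614aa : CRef := CRef.mk (Pat.mk 0x8000000080000001e00000006 0x60000000f0000003b0000001e00000006 5 6) 0 0 (step_sound _ 65 [(rh3244c3cc8379b070.shift 0 1), rh615efa8e6e98bdfd] (by decide +kernel))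
noncomputable def rhad7276d0bd878d05 : CRef := CRef.mk (Pat.mk 0x20000000600000002000000000000000000000000 0x400000006000000060000000600000006000000070000000700000005 5 3) 0 0 (step_sound _ 65 [(rh25208373db83e521.shift 1 1), rh6eff4158bb400f47, (rha707fb719e87fe6e.shift 1 1)] (by decide +kernel))
noncomputable def rh4faa24555526a01c : CRef := CRef.mk (Pat.mk 0x1e000000000000000000000000 0x800000008000000180000001f000000380000001000000010 5 6) 0 0 (step_sound _ 68 [(rhe25b0a99195a5d59.shift 1 2), rhe713a2e5675944bb] (by decide +kernel))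
noncomputable def rhd325fcc4a674fdfe : CRef := CRef.mk (Pat.mk 0x7c00000000 0x3c0000007f00000007 5 7) 0 0 (step_sound _ 67 [rh1efbca428b37b99e, (rh3244c3cc8379b070.shift 2 1)] (by decide +kernel))
noncomputable def rh170af8696fd13441 : CRef := CRef.mk (Pat.mk 0x40000001e000000000000000000000000 0x4000000040000000c0000001f000000380000000800000008 5 6) 0 0 (step_sound _ 68 [(rhe25b0a99195a5d59.shift 1 2), rhf74cb5e4c96a704d] (by decide +kernel))
noncomputable def rh263d9c2411454ebf : CRef := CRef.mk (Pat.mk 0x8000000180000000c0000000400000000 0x80000001f0000003f0000003600000010 5 6) 0 0 (step_sound _ 65 [(rh53b3c253cb0c65f4.shift 0 2), rh7e5339b39b9675ee] (by decide +kernel))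
noncomputable def rh6b84fa6a1cf1da53 : CRef := CRef.mk (Pat.mk 0x100000001e00000008 0x1f000000fe0000001c 5 8) 0 0 (step_sound _ 65 [(rh1db906c53c63163c.shift 1 0), (rh3244c3cc8379b070.shift 0 1)] (by decide +kernel))
noncomputable def rh1d28ec47814bca61 : CRef := CRef.mk (Pat.mk 0xc0000000f000000020000000200000000 0xc0000000f0000001b0000001e0000001c 5 5) 0 0 (step_sound _ 67 [(rhe25b0a99195a5d59.shift 0 2), rhe56e0673ee2287dd] (by decide +kernel))
noncomputable def rh5734a3dfe37f4feb : CRef := CRef.mk (Pat.mk 0x1c0000002800000008 0x400000004000000070000003e0000003c00000008 5 6) 0 0 (step_sound _ 65 [(rh96851dee118c1ba3.shift 1 1), rhc3bb0f1b2af200a9] (by decide +kernel))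
noncomputable def rh877f27d7c475f6ef : CRef := CRef.mk (Pat.mk 0x40000001e000000020000000200000000 0x40000001f0000003e0000000f00000008 5 6) 0 0 (step_sound _ 68 [(rhe25b0a99195a5d59.shift 1 2), rhf0d8c1f881847c60] (by decide +kernel))
noncomputable def rh1fe30948da2950de : CRef := CRef.mk (Pat.mk 0x8000000180000000c0000000400000000 0x80000001c000000ff0000003600000010 5 8) 0 0 (step_sound _ 65 [(rh53b3c253cb0c65f4.shift 0 2), (rh974ce24dd69fdb00.shift 1 0)] (by decide +kernel))
noncomputable def rh1b64d6430d1d7ca7 : CRef := CRef.mk (Pat.mk 0xc0000000c000000040000000400000000 0x60000000f0000003c0000000c0000000c00000008 5 6) 0 0 (step_sound _ 35 [(rh3e6658e7c3dcf240.shift 0 1), (rh55afc6a59410cf00.shift 2 0)] (by decide +kernel))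
noncomputable def rh2221efc44f1b9a1f : CRef := CRef.mk (Pat.mk 0x8000000080000000e0000000400000004 0x20000001f0000007a0000000f0000000600000004 5 7) 0 0 (step_sound _ 100 [(rh53b3c253cb0c65f4.shift 0 2), rhc5e73d38ca06ef89] (by decide +kernel))
noncomputable def rhcf44251493dc67e7 : CRef := CRef.mk (Pat.mk 0x40000000f0000000a0000000200000000 0x1c0000000f0000000b0000001e0000001c 5 5) 0 0 (step_sound _ 131 [(rh33e738c4ed385b9f.shift 0 3), rhe56e0673ee2287dd] (by decide +kernel))
noncomputable def rhb7227e2a43e0ef1a : CRef := CRef.mk (Pat.mk 0x1e000000120000000000000000 0x8000000080000003f0000001e0000003000000010 5 6) 0 0 (step_sound _ 67 [(rh3d0404269046c5d2.shift 1 0), (rhb739f4f82bb681b4.shift 0 2)] (by decide +kernel))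
noncomputable def rh5c0beb31ed083a33 : CRef := CRef.mk (Pat.mk 0x120000001e0000001400000000 0x1a0000001f0000001e0000001e0000001c00000018 5 5) 0 0 (step_sound _ 129 [(rh2145e1d24b96a57e.shift 1 1), rhceeae3bd82299777] (by decide +kernel))
noncomputable def rh7476da47569391d8 : CRef := CRef.mk (Pat.mk 0x1e000000000000000400000004 0x60000003e000000730000000600000004 5 7) 0 0 (step_sound _ 65 [(rh11b3085c164aba78.shift 1 0), (rheb0810cc63b001d8.shift 0 2)] (by decide +kernel))
noncomputable def rh4a60876f262a0ac9 : CRef := CRef.mk (Pat.mk 0x80000000e000000000000000400000004 0x80000003b0000001e000000330000001600000014 5 6) 0 0 (step_sound _ 100 [rh04395309fba550d6, (rhe7d1749390aefb37.shift 1 0)] (by decide +kernel))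
noncomputable def rh02b61373514f8551 : CRef := CRef.mk (Pat.mk 0x1000000000000000180000000800000008 0x140000001f0000007c0000000800000008 5 7) 0 0 (step_sound _ 99 [rh215fef6ef21eb5a3, (rhbaefcd01e0a8bca3.shift 3 0)] (by decide +kernel))
noncomputable def rhc0b6beb59387c71c : CRef := CRef.mk (Pat.mk 0xc00000008000000080000000c00000000 0x80000000c0000000c0000003c0000000f0000000a 5 6) 0 0 (step_sound _ 98 [rh52e369fc79f13a2e, (rh7b1f1fb55310c477.shift 2 0)] (by decide +kernel))
noncomputable def rh07f0598894a2ba5d : CRef := CRef.mk (Pat.mk 0x40000001c0000000c000000000000000000000000 0xa0000000f0000001e0000000c0000000c0000000c00000004 5 5) 0 0 (step_sound _ 67 [rh569236fa30a3d18f, (rh7b1f1fb55310c477.shift 2 1)] (by decide +kernel))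
noncomputable def rh20eef1c512385891 : CRef := CRef.mk (Pat.mk 0x40000000e0000001000000000 0x400000004000000060000003e0000003300000002 5 6) 0 0 (step_sound _ 68 [rh3775b9fec76e2ef0, (rhe25b0a99195a5d59.shift 1 1)] (by decide +kernel))
noncomputable def rh2da5358739ca2cfd : CRef := CRef.mk (Pat.mk 0xc0000000600000000 0x200000002000000030000003e0000000700000004 5 6) 0 0 (step_sound _ 68 [(rh18965a982d73c794.shift 1 1), rh44abd4fb20e6dd41] (by decide +kernel))
noncomputable def rh3b581bdf70f6ede7 : CRef := CRef.mk (Pat.mk 0x700000001800000000 0x800000008000000ec0000007f0000003800000010 5 8) 0 0 (step_sound _ 67 [(rh210e2d9c685c857e.shift 0 1), (rhbdb8dfd08861fbf7.shift 2 0)] (by decide +kernel))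
noncomputable def rha6bdd189dfb1bf61 : CRef := CRef.mk (Pat.mk 0x180000001e00000006 0xe0000000f0000001b0000001e00000006 5 5) 0 0 (step_sound _ 99 [rh1ba597799b5c5efa, (rh5c5e593799055d58.shift 2 0)] (by decide +kernel))
noncomputable def rh8202f60b764a8f9f : CRef := CRef.mk (Pat.mk 0x50000000f0000000000000000 0x8000000180000001f0000001f0000000400000004 5 5) 0 0 (step_sound _ 99 [(rh33e738c4ed385b9f.shift 0 2), rha0d560dcab205fc1] (by decide +kernel))
noncomputable def rh8121013d9d56b966 : CRef := CRef.mk (Pat.mk 0x1800000008000000080000000e00000000 0xc0000003c0000000f0000000c0000000e00000002 5 6) 0 0 (step_sound _ 130 [(rh50fbb5868c909700.shift 2 1), rhb2d5256c07b38689] (by decide +kernel))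
noncomputable def rh8e0c838220b75264 : CRef := CRef.mk (Pat.mk 0x800000004000000040000000700000000 0xe0000000e00000006000000060000000700000005 5 4) 0 0 (step_sound _ 130 [(rh2f68792b6b779e96.shift 2 1), rh4862d90f568361f9] (by decide +kernel))
noncomputable def rh2367ae2f4c2b082d : CRef := CRef.mk (Pat.mk 0x400000004000000070000000400000000 0xa0000000e0000003e000000070000000400000004 5 6) 0 0 (step_sound _ 129 [(rh50fbb5868c909700.shift 1 1), rhfa7a4568173970d8] (by decide +kernel))
noncomputable def rh74a569946d9e940b : CRef := CRef.mk (Pat.mk 0x60000001c0000000600000000 0x3000000030000003e0000001e0000000600000004 5 6) 0 0 (step_sound _ 129 [(rh09131948568257dd.shift 0 1), (rh7b1f1fb55310c477.shift 1 0)] (by decide +kernel))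
noncomputable def rh4bb84bbc7733c9c6 : CRef := CRef.mk (Pat.mk 0x1c000000050000000000000000 0x200000002000000070000001e000000070000000400000004 5 5) 0 0 (step_sound _ 97 [(rh80fcd6d0a18cb2dd.shift 0 2), rhe1ef59f9ff87186c] (by decide +kernel))
noncomputable def rh37cee14fac1be201 : CRef := CRef.mk (Pat.mk 0x1c000000240000000000000000 0x200000002000000070000001e000000340000000400000004 5 6) 0 0 (step_sound _ 97 [(rh96851dee118c1ba3.shift 1 2), rhd5889c99d29bf7d6] (by decide +kernel))
noncomputable def rh9ad0c60d8ec2f607 : CRef := CRef.mk (Pat.mk 0xe000000120000000000000000 0x2000000030000003e000000360000000400000004 5 6) 0 0 (step_sound _ 100 [rh5117ef794a583ff1, (rhe25b0a99195a5d59.shift 1 2)] (by decide +kernel))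
noncomputable def rh0f0086b71d574456 : CRef := CRef.mk (Pat.mk 0x70000000d0000000800000000 0x8000000180000001f0000000f0000001c00000004 5 5) 0 0 (step_sound _ 65 [rh0c7fcc8062a231c2, (rhe25b0a99195a5d59.shift 0 1)] (by decide +kernel))
noncomputable def rh67977f190b36298e : CRef := CRef.mk (Pat.mk 0x4000000040000001c0000000c 0x1a0000003e000000370000001c0000000c 5 6) 0 0 (step_sound _ 97 [(rh50fbb5868c909700.shift 1 0), rh5dd0a6c6ba826ec8] (by decide +kernel))
noncomputable def rh2ce463b89c35ba1e : CRef := CRef.mk (Pat.mk 0x8000000080000003c00000008 0x140000001e0000000f0000003e00000008 5 6) 0 0 (step_sound _ 65 [(rh3f8766e6ecb455ce.shift 1 1), rhb8117cff4821996f] (by decide +kernel))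
noncomputable def rhd999cb3b477d32b5 : CRef := CRef.mk (Pat.mk 0x80000001800000018000000100000000000000000 0xc0000001f000000780000001e0000000c0000000c 5 7) 0 0 (step_sound _ 67 [(rh46530d756bdf8511.shift 2 0), (rha71afc656c87d410.shift 1 1), rhc24ef288f4895ae7] (by decide +kernel))
noncomputable def rh7be21612c5f33858 : CRef := CRef.mk (Pat.mk 0x80000001800000018000000000000001000000000 0x8000000180000007c0000000f0000001c00000018 5 7) 0 0 (step_sound _ 67 [(rh80650b8e93363f1e.shift 0 1), (rh9b4df57cddcda711.shift 3 0)] (by decide +kernel))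
noncomputable def rh92f68c9cec1358a6 : CRef := CRef.mk (Pat.mk 0xc00000018000000080000001c00000000 0x20000000f0000001c0000000f0000003c00000008 5 6) 0 0 (step_sound _ 98 [(rh7b1f1fb55310c477.shift 2 0), (rhab327551321a17d4.shift 0 1)] (by decide +kernel))
noncomputable def rha180f0047b0a8341 : CRef := CRef.mk (Pat.mk 0x20000000600000002000000020000000000000000 0x3000000030000000700000006000000060000000600000002 5 3) 0 0 (step_sound _ 66 [rh2f5550ea7a25712f, (rh55afc6a59410cf00.shift 1 1)] (by decide +kernel))
noncomputable def rhb31291ab037e5234 : CRef := CRef.mk (Pat.mk 0x1800000008000000080000000000000000 0x40000000f0000007c000000080000001c0000001c00000014 5 7) 0 0 (step_sound _ 163 [(rh215fef6ef21eb5a3.shift 0 2), (rh5ad9898cc32ef511.shift 2 0), (rh6eff4158bb400f47.shift 2 0)] (by decide +kernel))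
noncomputable def rh34e677bdca93d83f : CRef := CRef.mk (Pat.mk 0x1800000008000000080000001000000000 0x40000003c0000000f000000080000001800000018 5 6) 0 0 (step_sound _ 35 [(rh55afc6a59410cf00.shift 3 0), rh9aab2e37f490e5ca] (by decide +kernel))
noncomputable def rhadab1c9755d0d979 : CRef := CRef.mk (Pat.mk 0x800000018000000080000000800000000 0x40000000f0000007c000000080000000c00000004 5 7) 0 0 (step_sound _ 34 [(rh215fef6ef21eb5a3.shift 0 1), (rh932754581e0f4330.shift 2 0)] (by decide +kernel))
noncomputable def rhb71093badcb98332 : CRef := CRef.mk (Pat.mk 0x80000001c000000060000000400000000 0x20000000b0000001f0000003e0000003400000010 5 6) 0 0 (step_sound _ 97 [(rh309fd0c3d364cd61.shift 0 1), rh715ef4deafe86686] (by decide +kernel))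
noncomputable def rh62aba1704cf9e462 : CRef := CRef.mk (Pat.mk 0x60000000c000000080000000c 0x1a0000003e0000000f0000000c0000000c 5 6) 0 0 (step_sound _ 34 [(rh50fbb5868c909700.shift 1 0), rh51eaacb6a9bbb57b] (by decide +kernel))
noncomputable def rh07958068869f836f : CRef := CRef.mk (Pat.mk 0x1000000000000000200000002000000030000000000000000 0x100000007000000060000000600000003000000070000000600000004 5 3) 0 0 (step_sound _ 161 [(rhc9de03f9731897d4.shift 1 0), (rhd98729bc66308eae.shift 0 2)] (by decide +kernel))
noncomputable def rhd96a729988943d53 : CRef := CRef.mk (Pat.mk 0x20000000380000001000000010 0x8000000080000003f0000007e0000001000000010 5 7) 0 0 (step_sound _ 99 [(rh518ac8f0967ff188.shift 1 0), (rha9fbfd4bb8cf890b.shift 0 2), (rhc89253ff58c66167.shift 3 0)] (by decide +kernel))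
noncomputable def rhca7708e58eb7b0b4 : CRef := CRef.mk (Pat.mk 0x480000007000000020 0x6c0000007e00000037 5 7) 0 0 (step_sound _ 35 [(rh3244c3cc8379b070.shift 2 1), rhbfe376cd40aaedfb] (by decide +kernel))
noncomputable def rhf119fefe21067f2b : CRef := CRef.mk (Pat.mk 0x20000001c0000000000000000 0x400000004000000070000003e0000000300000002 5 6) 0 0 (step_sound _ 65 [(rh3244c3cc8379b070.shift 0 2), rhd1564cc1f0e06cc8] (by decide +kernel))
noncomputable def rh215bea315b07eadf : CRef := CRef.mk (Pat.mk 0x100000003c00000002 0x18000000ff000000e3 5 8) 0 0 (step_sound _ 33 [rh54c220d2e6f99d03, rheb0810cc63b001d8] (by decide +kernel))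
noncomputable def rhcca1caac63fa15f8 : CRef := CRef.mk (Pat.mk 0x1c00000038000000000000000000000000 0x8000000080000001c0000003f000000370000001400000010 5 6) 0 0 (step_sound _ 98 [(rh031a926e4a883687.shift 1 1), rh7fe3849afaeeddfd, (rhcc2be1f880c5ea3e.shift 0 2)] (by decide +kernel))
noncomputable def rheddb3a3f2dd35014 : CRef := CRef.mk (Pat.mk 0x80000001c00000000 0xef0000007e000000f0 5 8) 0 0 (step_sound _ 37 [rh9c548838e8725ba1, (rha93a5dd541ab8209.shift 2 0), (rhe3060b190bc0bc78.shift 1 1)] (by decide +kernel))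
noncomputable def rh4818442fd6d77c78 : CRef := CRef.mk (Pat.mk 0x200000007000000040000000000000000 0x80000003b0000001f0000003c0000000400000004 5 6) 0 0 (step_sound _ 34 [(rh2506a0f8df8b6256.shift 0 1), (rh7b1f1fb55310c477.shift 1 0)] (by decide +kernel))
noncomputable def rh45b1aa7c3da24c60 : CRef := CRef.mk (Pat.mk 0x18000000380000000000000000 0x8000000080000001e0000003f0000007600000004 5 7) 0 0 (step_sound _ 66 [(rh04029d7e2e3adf1c.shift 1 0), (rhf56dc6c929980f59.shift 0 1)] (by decide +kernel))
noncomputable def rh385919b2964b564c : CRef := CRef.mk (Pat.mk 0x80000001e000000040000000000000000 0x80000001f0000003f0000003000000010 5 6) 0 0 (step_sound _ 68 [rh09da1024801a669e, (rhe25b0a99195a5d59.shift 1 2)] (by decide +kernel))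
noncomputable def rhf2f5c96e69e371c4 : CRef := CRef.mk (Pat.mk 0xa0000001e000000120000000000000000 0x20000000a0000001f0000001e0000003400000014 5 6) 0 0 (step_sound _ 67 [(rh1eb5fba744744213.shift 1 0), (rhb739f4f82bb681b4.shift 0 2)] (by decide +kernel))
noncomputable def rh57789c48acc5fc97 : CRef := CRef.mk (Pat.mk 0x60000001e000000020000000200000000 0x2000000060000001f0000003e0000000700000004 5 6) 0 0 (step_sound _ 34 [(rh55afc6a59410cf00.shift 1 0), (rha752db8a30bfeb1b.shift 0 1)] (by decide +kernel))
noncomputable def rh0ad57a4c383b6596 : CRef := CRef.mk (Pat.mk 0x80000000e000000010000000000000000 0x800000008000000080000001e0000003b0000001000000010 5 6) 0 0 (step_sound _ 100 [(rh80fcd6d0a18cb2dd.shift 0 2), (rh84970c2ccb9fe470.shift 1 0)] (by decide +kernel))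
noncomputable def rh976ffbf1bb8b5d82 : CRef := CRef.mk (Pat.mk 0x100000001c000000020000000000000000 0x10000000100000001f0000003b0000000800000008 5 6) 0 0 (step_sound _ 97 [rh9483656c38360087, (rheb0810cc63b001d8.shift 0 2)] (by decide +kernel))
noncomputable def rhaca49fe9a456473e : CRef := CRef.mk (Pat.mk 0x90000000e000000000000000000000000 0x8000000080000000b0000001e000000380000001000000010 5 6) 0 0 (step_sound _ 100 [(rh3f8766e6ecb455ce.shift 0 3), (rh84970c2ccb9fe470.shift 1 0)] (by decide +kernel))
noncomputable def rheb0ed7d8c5b13267 : CRef := CRef.mk (Pat.mk 0x100000001c000000000000000000000000 0x1000000010000000170000003e000000770000002000000020 5 7) 0 0 (step_sound _ 101 [(rh3a835c9c24581dd0.shift 0 2), (rh592c7139d2c44767.shift 0 2), (rh65dcfd18fd55cba0.shift 2 0)] (by decide +kernel))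
noncomputable def rhf69753f40be11ffd : CRef := CRef.mk (Pat.mk 0xc000000080000000c0000000800000000 0x8000000080000000c0000000f0000003c0000001800000008 5 6) 0 0 (step_sound _ 98 [(rh7b1f1fb55310c477.shift 2 0), (rhc355bcc39d2b9dce.shift 0 1)] (by decide +kernel))
noncomputable def rhd68c2cbe7e6f2476 : CRef := CRef.mk (Pat.mk 0x400000002000000020000000300000000 0x1000000070000000700000002000000030000000700000004 5 3) 0 0 (step_sound _ 129 [(rh2f68792b6b779e96.shift 1 1), rhedf200999b964984] (by decide +kernel))
noncomputable def rh01f80e4cd7e5e005 : CRef := CRef.mk (Pat.mk 0x80000000c00000008000000000000000000000000 0x80000000c0000001f000000780000001c0000001c00000014 5 7) 0 0 (step_sound _ 68 [(rh47dece01c1595e79.shift 3 0), (rh5974029d68103ee7.shift 0 2), (rh7f8e2dc642e0c1d7.shift 2 0)] (by decide +kernel))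
noncomputable def rhf72a0967ce6476f4 : CRef := CRef.mk (Pat.mk 0x80000000c00000018000000000000000000000000 0x40000000c0000000c000000780000001f0000000c00000004 5 7) 0 0 (step_sound _ 101 [rh5397c2575ffb8276, (rhf48373e13d2bc128.shift 2 3)] (by decide +kernel))
noncomputable def rh84a81c62fa3496eb : CRef := CRef.mk (Pat.mk 0x2000000030000000600000000 0x1000000030000000300000002000000070000001e00000004 5 5) 0 0 (step_sound _ 129 [(rh55afc6a59410cf00.shift 1 0), (rhe8b8b6d59e8cde52.shift 0 1)] (by decide +kernel))
noncomputable def rh7c89696386b0ace1 : CRef := CRef.mk (Pat.mk 0x8000000080000000c000000000000000400000000 0xc0000000c0000001f000000780000001c0000000c 5 7) 0 0 (step_sound _ 67 [(rh42e615827c8908b1.shift 0 1), (rh752c9303f297f9fa.shift 2 0)] (by decide +kernel))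
noncomputable def rh5d9f0e491a8919cf : CRef := CRef.mk (Pat.mk 0x40000000c000000060000000200000000 0x20000000f0000003e000000060000000600000004 5 6) 0 0 (step_sound _ 100 [(rh18965a982d73c794.shift 1 2), rh8903c03e90f2a4b3] (by decide +kernel))
noncomputable def rh250a8c2104de9e53 : CRef := CRef.mk (Pat.mk 0x180000000e0000000400000004 0x2000000020000001f000000fe0000007c00000004 5 8) 0 0 (step_sound _ 68 [rh1c1037cb5b3fe471, (rh31b96bf68293d1ba.shift 1 1), rheddd3d8f7db62149] (by decide +kernel))
noncomputable def rha79fd047665f38c2 : CRef := CRef.mk (Pat.mk 0xc0000000c000000040000000c00000000 0x100000007c0000000e0000003c0000000f00000002 5 7) 0 0 (step_sound _ 33 [(rh71961d64ad9d9532.shift 0 1), (rh932754581e0f4330.shift 1 0)] (by decide +kernel))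
noncomputable def rh935379d135da50db : CRef := CRef.mk (Pat.mk 0xc000000040000000c0000000800000000 0xc0000000c0000003f0000003f00000016 5 6) 0 0 (step_sound _ 34 [rh99071a2cce01658c, rha71afc656c87d410] (by decide +kernel))
noncomputable def rh733d1d00f1f64c0d : CRef := CRef.mk (Pat.mk 0x300000006000000020000000200000002000000020000000000000000 0x30000001e000000020000000200000002000000070000000700000005 5 5) 0 0 (step_sound _ 195 [rh6eff4158bb400f47, (rhf48373e13d2bc128.shift 0 6)] (by decide +kernel))
noncomputable def rh264b7e37c2b851ad : CRef := CRef.mk (Pat.mk 0x70000000e0000000000000000 0x20000000a0000003b0000003f0000000e0000000400000004 5 6) 0 0 (step_sound _ 99 [(rh113e957afa7c17ad.shift 0 1), (rh226655e3fe6b4a8a.shift 0 2), rh34b1188e635efc8d] (by decide +kernel))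
noncomputable def rh0d7edd0d506f3208 : CRef := CRef.mk (Pat.mk 0x120000001e0000001400000000 0xa0000000b0000001e0000003e0000001400000010 5 6) 0 0 (step_sound _ 98 [rh4e54466f6f83ab31, (rhf48373e13d2bc128.shift 1 2)] (by decide +kernel))
noncomputable def rhe72638161d8d23e1 : CRef := CRef.mk (Pat.mk 0x3800000040 0x770000003e00000060 5 7) 0 0 (step_sound _ 34 [(rh67fc5628a4cda3d1.shift 0 1), (rh96851dee118c1ba3.shift 2 0)] (by decide +kernel))
noncomputable def rh1192c4d5e58678ce : CRef := CRef.mk (Pat.mk 0xe0000001400000000 0x800000008000000380000001f0000003400000010 5 6) 0 0 (step_sound _ 68 [rh2b40d254177f8dd3, (rhe25b0a99195a5d59.shift 1 1)] (by decide +kernel))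
noncomputable def rh2887e039268cde47 : CRef := CRef.mk (Pat.mk 0x1c000000180000000000000010 0x600000003f0000001f0000001000000010 5 7) 0 0 (step_sound _ 97 [(rhb739f4f82bb681b4.shift 0 2), rhbe6d933593d30567] (by decide +kernel))
noncomputable def rhdf15b40c9702d329 : CRef := CRef.mk (Pat.mk 0x140000001c0000000800000000 0x400000004000000370000001e0000000b00000002 5 6) 0 0 (step_sound _ 65 [(rh33e738c4ed385b9f.shift 1 2), rhc06593e38d9b7588] (by decide +kernel))
noncomputable def rh756042516b75a148 : CRef := CRef.mk (Pat.mk 0x14000000180000000800000008 0x4000000040000003f0000003e0000000800000008 5 6) 0 0 (step_sound _ 130 [(rhcfdf45280693d3da.shift 2 0), (rhebcf8267073c4477.shift 0 1)] (by decide +kernel))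
noncomputable def rh9a88f10b79d859a2 : CRef := CRef.mk (Pat.mk 0x160000001c0000000000000000 0x6000000070000001e0000001f0000000700000006 5 5) 0 0 (step_sound _ 65 [rh031a926e4a883687, rh2a6d13f47ca0e172] (by decide +kernel))
noncomputable def rh01ac144ba8866706 : CRef := CRef.mk (Pat.mk 0x40000001c0000000600000000 0x200000002000000370000001e0000000700000004 5 6) 0 0 (step_sound _ 65 [rh85e909ef1392528c, (rheb0810cc63b001d8.shift 0 1)] (by decide +kernel))
noncomputable def rh36449903dde31c08 : CRef := CRef.mk (Pat.mk 0x1c000000080000000c00000018 0x7e0000007e0000000f00000018 5 7) 0 0 (step_sound _ 33 [(rh3bf2a8147dfd5f83.shift 1 1), rhb739f4f82bb681b4] (by decide +kernel))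
noncomputable def rh19c4456947fbe32d : CRef := CRef.mk (Pat.mk 0x400000008000000080000000800000000 0x140000003c0000000f000000080000000800000008 5 6) 0 0 (step_sound _ 131 [(rh50fbb5868c909700.shift 2 1), rh8d5397c29a6031ac] (by decide +kernel))
noncomputable def rhf3b6c0376da067e2 : CRef := CRef.mk (Pat.mk 0x1000000020000000200000002000000020000000000000000 0x100000007000000060000000600000002000000060000000600000004 5 3) 0 0 (step_sound _ 193 [(rh50fbb5868c909700.shift 0 3), (rh6c59ce14113da07f.shift 1 0)] (by decide +kernel))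
noncomputable def rh7ec2caf51ec36d5d : CRef := CRef.mk (Pat.mk 0xc00000008000000080000000800000000 0x100000003c0000000f000000080000001800000018 5 6) 0 0 (step_sound _ 98 [(rh7b1f1fb55310c477.shift 2 0), rh8d8709356aef8bf9] (by decide +kernel))
noncomputable def rh50fd44597237198a : CRef := CRef.mk (Pat.mk 0x4000000000000000c0000000c00000008 0xc0000001c000000780000001f0000000c00000008 5 7) 0 0 (step_sound _ 99 [(rh16567ae718d9fd54.shift 2 1), rhc9613fc5bab58382] (by decide +kernel))
noncomputable def rh462de1bc08c3f8eb : CRef := CRef.mk (Pat.mk 0x1e00000006000000040000000400000000 0x300000001f0000003e0000000c0000000c00000008 5 6) 0 0 (step_sound _ 100 [rh51a3512535a11caf, (rhe25b0a99195a5d59.shift 1 3)] (by decide +kernel))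
noncomputable def rh87e1d7e6dc3a18b6 : CRef := CRef.mk (Pat.mk 0x200000002000000030000000200000000 0x1000000030000000300000002000000070000001e00000004 5 5) 0 0 (step_sound _ 34 [(rh55afc6a59410cf00.shift 1 0), (rhe8b8b6d59e8cde52.shift 0 1)] (by decide +kernel))
noncomputable def rh1e996525357a5a4d : CRef := CRef.mk (Pat.mk 0xe00000004000000060000000c00000000 0x40000000f0000003c0000000e0000003c00000010 5 6) 0 0 (step_sound _ 67 [(rh2145e1d24b96a57e.shift 2 1), rhaab5d59581c46ab5] (by decide +kernel))
noncomputable def rhf6e466063c388db3 : CRef := CRef.mk (Pat.mk 0x1000000010000000380000000000000000 0x10000000770000003e0000006700000020 5 7) 0 0 (step_sound _ 66 [(rh592c7139d2c44767.shift 0 1), (rh625dde73e665edc8.shift 2 0), (rhec46bd5500c722c9.shift 1 2)] (by decide +kernel))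
noncomputable def rha1ac771c65ae9cf8 : CRef := CRef.mk (Pat.mk 0x8000000180000000c0000000000000000 0x1000000018000000180000001f0000007800000018 5 7) 0 0 (step_sound _ 65 [(rh53b3c253cb0c65f4.shift 0 2), (rh5495e3a1fe63c802.shift 1 0)] (by decide +kernel))
noncomputable def rh27723e832001bdd4 : CRef := CRef.mk (Pat.mk 0x200000002000000020000000000000000 0x500000007000000070000000700000002000000060000000600000004 5 3) 0 0 (step_sound _ 161 [rh8ff3dde5b1c639e0, (rhc85cc95794737cf7.shift 0 2), (rhc9de03f9731897d4.shift 1 0)] (by decide +kernel))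
noncomputable def rh81b46e6a5d21c8ca : CRef := CRef.mk (Pat.mk 0x1000000008000000080000000c0000000000000000 0x1000000018000000080000001f0000007800000010 5 7) 0 0 (step_sound _ 35 [(rhbaefcd01e0a8bca3.shift 3 1), rhcc2a2baa9246395a] (by decide +kernel))
noncomputable def rh90c0c0d62ad3fbf1 : CRef := CRef.mk (Pat.mk 0x1000000008000000080000000c00000000 0x180000001800000008000000380000001f00000010 5 6) 0 0 (step_sound _ 131 [(rh2f68792b6b779e96.shift 3 1), rh54968f8c0e71a67e] (by decide +kernel))
noncomputable def rhb723d1ca7da5e7fc : CRef := CRef.mk (Pat.mk 0x1800000008000000080000001800000000 0xc0000003c0000000f000000180000001800000008 5 6) 0 0 (step_sound _ 68 [(rh2145e1d24b96a57e.shift 3 1), rh9aab2e37f490e5ca] (by decide +kernel))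
noncomputable def rh10c9885c5c36a302 : CRef := CRef.mk (Pat.mk 0x40000000c000000080000001c00000000 0x40000001f0000007b0000001f00000002 5 7) 0 0 (step_sound _ 68 [(rh4ca5dae25f5c14ff.shift 0 2), (rhab2ad169e49f9c5e.shift 0 1), rhbbad055adcf6b98d] (by decide +kernel))
noncomputable def rha8a5cb6795097bad : CRef := CRef.mk (Pat.mk 0x1000000010000000380000000800000000 0x100000007f0000003f0000007800000020 5 7) 0 0 (step_sound _ 66 [(rh625dde73e665edc8.shift 2 0), (rh72ddbefe89b0241f.shift 0 1), (rhec46bd5500c722c9.shift 1 2)] (by decide +kernel))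
noncomputable def rh4461edbf9030f2f6 : CRef := CRef.mk (Pat.mk 0x80000001c000000060000000000000000 0x20000003f0000001f000000060000000400000004 5 6) 0 0 (step_sound _ 34 [(rh3219a7d93a549a11.shift 0 1), (rh71222050f2c63a3a.shift 2 0)] (by decide +kernel))
noncomputable def rhcf78f438612a54e7 : CRef := CRef.mk (Pat.mk 0x100000003c00000020 0x1000000010000000170000003e00000027 5 6) 0 0 (step_sound _ 100 [(rh2145e1d24b96a57e.shift 4 0), rh775ca1963e850b80] (by decide +kernel))
noncomputable def rh4b8e6fc33adf8fa2 : CRef := CRef.mk (Pat.mk 0x60000000e000000030000000200000000 0x60000000e0000001b0000001f0000000d 5 5) 0 0 (step_sound _ 32 [rh932754581e0f4330, rh9a2fd8b22c122707] (by decide +kernel))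
noncomputable def rhce642ec05c11f63a : CRef := CRef.mk (Pat.mk 0x8000000180000001e0000000000000000 0x1000000018000000180000003e0000000f0000000c 5 6) 0 0 (step_sound _ 33 [(rhdc5a072f8f2c3deb.shift 1 0), (rheb0810cc63b001d8.shift 0 1)] (by decide +kernel))
noncomputable def rh612d9cd2ae1e9a9d : CRef := CRef.mk (Pat.mk 0x8000000280000000c0000000000000000 0x140000001e000000380000001f0000003c00000018 5 6) 0 0 (step_sound _ 35 [(rh5e8888c5a8b0359b.shift 1 0), rheecca8248285d065] (by decide +kernel))
noncomputable def rh51897c97414d951a : CRef := CRef.mk (Pat.mk 0x1000000010000000180000000e00000000 0x8000000080000000c0000001e00000078000000180000003e00000027 5 7) 0 0 (step_sound _ 131 [rh1a41c2c18ae1ba11, (rhc3a9559c72b00d0b.shift 1 0), (rhf9a6286f1d5377a2.shift 3 1)] (by decide +kernel))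
noncomputable def rh3ae2a81de1ccbc00 : CRef := CRef.mk (Pat.mk 0x80000001e000000000000000000000000 0x8000000080000000b0000001e000000380000001000000010 5 6) 0 0 (step_sound _ 128 [(rh3f8766e6ecb455ce.shift 0 3), (rh84970c2ccb9fe470.shift 1 0)] (by decide +kernel))
noncomputable def rhb9d70f667ff7387a : CRef := CRef.mk (Pat.mk 0x200000003800000000 0x670000003e00000070 5 7) 0 0 (step_sound _ 34 [(rh33e738c4ed385b9f.shift 2 1), rh3a835c9c24581dd0] (by decide +kernel))
noncomputable def rhb7ad091321cde676 : CRef := CRef.mk (Pat.mk 0x1c00000020 0x70000003e00000037 5 6) 0 0 (step_sound _ 33 [(rh96851dee118c1ba3.shift 1 0), rhd52e3929053d9d5f] (by decide +kernel))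
noncomputable def rhe02097ed614683eb : CRef := CRef.mk (Pat.mk 0x18000000080000000c0000000800000000 0x40000001e000000780000000f0000000800000008 5 7) 0 0 (step_sound _ 100 [(rh71222050f2c63a3a.shift 3 0), (rhc5992db40708bee3.shift 0 1)] (by decide +kernel))
noncomputable def rh527b973b6d979a4b : CRef := CRef.mk (Pat.mk 0x100000001e0000001a0000000000000000 0x4000000140000003e0000001e0000000b0000000a 5 6) 0 0 (step_sound _ 66 [(rh33e738c4ed385b9f.shift 1 2), rhf936b5f78e2e803c] (by decide +kernel))
noncomputable def rh8c4d54da64be7151 : CRef := CRef.mk (Pat.mk 0x8000000080000000e0000000000000000 0x140000001c0000001c000000080000000f0000001800000010 5 5) 0 0 (step_sound _ 35 [rhbdde238153e38af9, (rhc85cc95794737cf7.shift 2 1)] (by decide +kernel))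
noncomputable def rh28ea138fef552e6e : CRef := CRef.mk (Pat.mk 0x80000003800000008000000000000000000000000 0x40000001f00000038000000080000001c0000001c00000014 5 6) 0 0 (step_sound _ 67 [(rh6eff4158bb400f47.shift 2 0), (rh79905f95cb2d899a.shift 0 2)] (by decide +kernel))
noncomputable def rh95470263832c4b38 : CRef := CRef.mk (Pat.mk 0x80000003800000008000000000000000000000000 0x4000000040000000c0000001f0000003800000008000000180000001800000010 5 6) 0 0 (step_sound _ 162 [(rh39b036797fb07457.shift 2 0), (rhb1a251d9bff81766.shift 2 2), (rhc02b3aee7ab87ee1.shift 0 4)] (by decide +kernel))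
noncomputable def rhb3c5b7e3415540e9 : CRef := CRef.mk (Pat.mk 0x100000001e000000040000000000000000 0x800000008000000180000001f000000340000001400000004 5 6) 0 0 (step_sound _ 131 [(rh02ffe0acccce9c02.shift 1 0), (rh53b3c253cb0c65f4.shift 0 3)] (by decide +kernel))
noncomputable def rhdfc40e6893bf1bea : CRef := CRef.mk (Pat.mk 0x100000001e0000000000000000 0x8000000080000001b0000001f0000003000000010 5 6) 0 0 (step_sound _ 97 [(rh3244c3cc8379b070.shift 0 2), rhd9f8fdeeb50c6416] (by decide +kernel))
noncomputable def rh8bdae004c815c501 : CRef := CRef.mk (Pat.mk 0x40000003400000006000000000000000000000000 0xa0000001e00000036000000070000003e0000000e00000006 5 6) 0 0 (step_sound _ 66 [(rh1861173042f24e9a.shift 0 1), (rhd1fa8140a3eb151f.shift 1 0), (rhdc5671191cba2261.shift 1 1)] (by decide +kernel))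
noncomputable def rh4904a019878e6edb : CRef := CRef.mk (Pat.mk 0x1c000000050000000000000000 0x200000002000000070000001e000000070000000400000004 5 5) 0 0 (step_sound _ 97 [(rh80fcd6d0a18cb2dd.shift 0 2), rhd5889c99d29bf7d6] (by decide +kernel))
noncomputable def rh1815fa84a9d15ea1 : CRef := CRef.mk (Pat.mk 0x1c0000000a0000000000000000 0x10000000380000001f0000000b0000000800000008 5 6) 0 0 (step_sound _ 97 [rh7df21cb76601c80b, (rheb0810cc63b001d8.shift 0 2)] (by decide +kernel))
noncomputable def rhc2dc5c0498e32daa : CRef := CRef.mk (Pat.mk 0xc000000080000001c0000000600000000 0x140000003c0000000f0000001c0000000e00000002 5 6) 0 0 (step_sound _ 35 [(rh50fbb5868c909700.shift 2 1), rh8365b2ccf6b6e1b6] (by decide +kernel))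
noncomputable def rhc11c3bc5b182ec8d : CRef := CRef.mk (Pat.mk 0x2000000020000000300000000 0x5000000070000000300000002000000030000000300000001 5 3) 0 0 (step_sound _ 129 [(rh0d1a065a153564d2.shift 0 1), rh932754581e0f4330] (by decide +kernel))
noncomputable def rh9b55d31e0673a43a : CRef := CRef.mk (Pat.mk 0x2000000020000000300000002000000000000000000000000 0x400000006000000070000000300000003000000030000000200000002 5 3) 0 0 (step_sound _ 96 [rh3502d92c6cce609b, (rh932754581e0f4330.shift 0 2)] (by decide +kernel))
noncomputable def rhefbc696f9a360272 : CRef := CRef.mk (Pat.mk 0x80000000c000000080000000800000000 0x140000003c0000000f000000080000001800000010 5 6) 0 0 (step_sound _ 130 [(rh50fbb5868c909700.shift 2 1), rh8d8709356aef8bf9] (by decide +kernel))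
noncomputable def rhe50b01f4bc1b5579 : CRef := CRef.mk (Pat.mk 0xc0000000c000000080000001800000000 0xc0000000c0000003f0000001f00000007 5 6) 0 0 (step_sound _ 34 [rh24891b93a7c61a05, (rh932754581e0f4330.shift 2 0)] (by decide +kernel))
noncomputable def rh2124d991693dcd25 : CRef := CRef.mk (Pat.mk 0xc0000000c000000080000000000000000 0x6000000060000000e0000003c0000000f0000000600000004 5 6) 0 0 (step_sound _ 162 [(rh2145e1d24b96a57e.shift 2 2), rh2f803ea89fb5acfa] (by decide +kernel))
noncomputable def rh6fe773d73169ef2e : CRef := CRef.mk (Pat.mk 0x2000000020000000700000001800000000 0x20000000fe0000007f000000d800000040 5 8) 0 0 (step_sound _ 67 [(rh14b7f29a2029f50d.shift 0 1), (rh625dde73e665edc8.shift 3 0), (rhec46bd5500c722c9.shift 2 2)] (by decide +kernel))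
noncomputable def rhf91024f60c87bdf0 : CRef := CRef.mk (Pat.mk 0x80000001c000000060000000400000000 0x60000000f0000001c0000000e0000003c00000018 5 6) 0 0 (step_sound _ 130 [(rh277b01412deaec89.shift 0 1), (rh7c5c9e3d7752e57e.shift 1 0)] (by decide +kernel))
noncomputable def rh9fb04752e091cf55 : CRef := CRef.mk (Pat.mk 0x8000000080000003c00000008 0x140000001e0000000f0000003e00000008 5 6) 0 0 (step_sound _ 65 [rh2dc541427ea680e9, (rh3f8766e6ecb455ce.shift 1 1)] (by decide +kernel))
noncomputable def rh06e896084169fd9d : CRef := CRef.mk (Pat.mk 0x1000000070000000180000000800000000 0x3e0000007f000000180000000800000008 5 7) 0 0 (step_sound _ 99 [(rh71222050f2c63a3a.shift 3 0), (rh719a4defb16e1b89.shift 0 2)] (by decide +kernel))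
noncomputable def rhb1bde2fedbcf7a62 : CRef := CRef.mk (Pat.mk 0x380000000c0000000400000000 0xc0000001f0000003c0000000c0000000c00000008 5 6) 0 0 (step_sound _ 131 [rh15bc14e51f13742b, (rh5c5e593799055d58.shift 2 1)] (by decide +kernel))
noncomputable def rh0ba4dbec80dfb4d4 : CRef := CRef.mk (Pat.mk 0x10000000100000001a0000000e00000000 0x800000018000000180000001b0000003e00000007 5 6) 0 0 (step_sound _ 36 [(rh3244c3cc8379b070.shift 0 1), rheb671aa8248dc6b7] (by decide +kernel))
noncomputable def rhbba2711d85e3cb4c : CRef := CRef.mk (Pat.mk 0x400000004000000070000000400000000 0xa0000000e0000003c0000000f0000000400000004 5 6) 0 0 (step_sound _ 131 [(rh2f68792b6b779e96.shift 2 1), rhf841aa88e49c2a40] (by decide +kernel))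
noncomputable def rh41c1047bb2f5cc8a : CRef := CRef.mk (Pat.mk 0x80000000e00000001 0xe0000007e00000073 5 7) 0 0 (step_sound _ 36 [(rh6a5aad1075fb7119.shift 1 0), rh80fcd6d0a18cb2dd] (by decide +kernel))
noncomputable def rha703f82316c7240b : CRef := CRef.mk (Pat.mk 0x1e000000060000000200000000 0x10000000300000001e0000003e0000000b00000008 5 6) 0 0 (step_sound _ 68 [rh0a387ecca94e9898, (rhe25b0a99195a5d59.shift 1 2)] (by decide +kernel))
noncomputable def rhc5a0f50ad46c05f0 : CRef := CRef.mk (Pat.mk 0x40000001e0000000400000000 0x8000000080000003c0000001f0000003400000004 5 6) 0 0 (step_sound _ 36 [rh245cfab0de74c583, (rhe25b0a99195a5d59.shift 1 1)] (by decide +kernel))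
noncomputable def rhf83672e5bcd98bfe : CRef := CRef.mk (Pat.mk 0x1e00000006000000000000000000000000 0x600000006000000070000001f00000006000000020000000200000002 5 5) 0 0 (step_sound _ 65 [rh8684a9eeaf4c57a0, (rh888c394c40d62879.shift 0 2), (rhea7a1800d6f053bd.shift 1 0)] (by decide +kernel))
noncomputable def rh402ae77211dfa6f0 : CRef := CRef.mk (Pat.mk 0xc000000080000000c0000000600000000 0x60000000f0000003c0000000c0000000e00000002 5 6) 0 0 (step_sound _ 35 [(rh50fbb5868c909700.shift 2 1), rhc3a9559c72b00d0b] (by decide +kernel))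
noncomputable def rh897397de187d9e47 : CRef := CRef.mk (Pat.mk 0x400000006000000030000000000000000 0x1000000070000000700000006000000030000000300000002 5 3) 0 0 (step_sound _ 33 [(rh71222050f2c63a3a.shift 1 0), (rhc3d226678c927710.shift 0 1)] (by decide +kernel))
noncomputable def rh2857ab727150ad46 : CRef := CRef.mk (Pat.mk 0xa0000000c00000004 0x1f0000003f0000003e 5 6) 0 0 (step_sound _ 36 [rh73705265df9d9dd7, (rh795d3e5d420177aa.shift 1 0)] (by decide +kernel))
noncomputable def rhee1d61da1785bedc : CRef := CRef.mk (Pat.mk 0x180000001e000000100000001000000000 0x20000000300000001f0000001e000000180000001800000008 5 6) 0 0 (step_sound _ 35 [(rh6f96a500e035889c.shift 0 1), (rh932754581e0f4330.shift 3 0)] (by decide +kernel))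
noncomputable def rhc7650cb9c388bfab : CRef := CRef.mk (Pat.mk 0x20000000200000002000000020000000000000000 0x1000000070000000700000002000000060000000600000004 5 3) 0 0 (step_sound _ 160 [(rh50fbb5868c909700.shift 0 2), rhdf97dfd376744c1c] (by decide +kernel))
noncomputable def rh61522d14b2584c60 : CRef := CRef.mk (Pat.mk 0x18000000180000000800000008 0x40000000c000000ff0000001f0000000800000008 5 8) 0 0 (step_sound _ 101 [(rh2612b4f73ba7c3b3.shift 2 2), (rh5cbe34a540eef4f6.shift 2 0), rhc75a54885a6c376b] (by decide +kernel))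
noncomputable def rh60ffd94c5f84d7a4 : CRef := CRef.mk (Pat.mk 0x1e0000001800000000 0x200000002000000030000003e0000001f00000004 5 6) 0 0 (step_sound _ 33 [rh18ce4bf591dd40f6, (rheb0810cc63b001d8.shift 0 1)] (by decide +kernel))
noncomputable def rha29e72151be084f7 : CRef := CRef.mk (Pat.mk 0x8000000180000000c0000000400000000 0x140000001f0000007c0000000c0000000c00000008 5 7) 0 0 (step_sound _ 101 [(rh18965a982d73c794.shift 2 2), rhfb5688c635dbdaed] (by decide +kernel))
noncomputable def rh95c8e63fe7e39721 : CRef := CRef.mk (Pat.mk 0x40000000d0000000e00000000 0x400000004000000040000000f0000007e00000070 5 7) 0 0 (step_sound _ 36 [(rh3f8766e6ecb455ce.shift 0 1), (rh7502a03125803f39.shift 1 0)] (by decide +kernel))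
noncomputable def rheecbc184a4dc9c4f : CRef := CRef.mk (Pat.mk 0x1800000008000000180000000000000000 0x40000001e000000780000007c0000000f0000000c 5 7) 0 0 (step_sound _ 35 [(rh099a4ec72b73d1a6.shift 1 0), rh80650b8e93363f1e] (by decide +kernel))
noncomputable def rh6632360cbd7c7bd4 : CRef := CRef.mk (Pat.mk 0x1e00000008000000080000000800000000 0x30000003e0000000f0000000c0000000c00000004 5 6) 0 0 (step_sound _ 34 [(rh12a4aa43a438d841.shift 0 1), (rh932754581e0f4330.shift 2 0)] (by decide +kernel))
noncomputable def rhe954cacf2268f418 : CRef := CRef.mk (Pat.mk 0x18000000080000000800000004 0x40000000f0000007c000000080000000c00000004 5 7) 0 0 (step_sound _ 131 [(rh79877ebd3ef475dd.shift 2 0), (rhca405e350c462817.shift 0 1)] (by decide +kernel))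
noncomputable def rh6188d2dfb74635ea : CRef := CRef.mk (Pat.mk 0x1800000008000000080000000400000000 0x40000003c0000000f000000080000000c0000000c 5 6) 0 0 (step_sound _ 35 [(rh932754581e0f4330.shift 2 0), rh9aab2e37f490e5ca] (by decide +kernel))
noncomputable def rh5ab46171e730b5a2 : CRef := CRef.mk (Pat.mk 0x600000002000000020000000000000000 0x60000000600000002000000070000000700000005 5 3) 0 0 (step_sound _ 33 [(rh2f68792b6b779e96.shift 1 1), rhce9a49803a550f13] (by decide +kernel))
noncomputable def rh91f2d153b08a3c0b : CRef := CRef.mk (Pat.mk 0x4000000070000000400000000 0xa0000000e0000000e00000004000000070000001e0000000a 5 5) 0 0 (step_sound _ 130 [(rh1741680720c097b4.shift 1 1), (rh18ee3a27294cac80.shift 1 0), rhb379f99078aafa2d] (by decide +kernel))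
noncomputable def rh910778f6eb68460f : CRef := CRef.mk (Pat.mk 0xc000000060000000400000000 0x60000000f0000003e000000060000000600000002 5 6) 0 0 (step_sound _ 100 [(rh18965a982d73c794.shift 1 2), rh9b9a56b9e08582e0] (by decide +kernel))
noncomputable def rha8a8ab8db16c2546 : CRef := CRef.mk (Pat.mk 0x10000000180000001e0000000000000000 0x4000000340000001f0000001e0000000300000002 5 6) 0 0 (step_sound _ 97 [rh23b68aa43cb4c0f5, (rh3244c3cc8379b070.shift 0 2)] (by decide +kernel))
noncomputable def rh0b151af470a87f7c : CRef := CRef.mk (Pat.mk 0x10000000200000002000000020000000000000000 0x30000000300000002000000070000000700000005 5 3) 0 0 (step_sound _ 33 [rhc9ac229b3c77cd55, (rhffd04209dc8ea796.shift 0 1)] (by decide +kernel))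
noncomputable def rhe88ce93a5e1de37b : CRef := CRef.mk (Pat.mk 0x30000000600000002000000020000000000000000 0x30000001e00000002000000070000000700000005 5 5) 0 0 (step_sound _ 131 [rh8cdd36b03d57a2f6, (rhf48373e13d2bc128.shift 0 4)] (by decide +kernel))
noncomputable def rh2b899681eb42f67e : CRef := CRef.mk (Pat.mk 0x4000000120000001e00000002 0xc0000000c0000000e0000001a0000001f0000000a 5 5) 0 0 (step_sound _ 67 [(rh53b3c253cb0c65f4.shift 0 1), (rhbf2166881d2656ab.shift 1 0)] (by decide +kernel))
noncomputable def rh466fbc951195850a : CRef := CRef.mk (Pat.mk 0xc0000000f000000000000000000000000 0x800000008000000080000000c0000001f0000001c0000000c0000000c 5 5) 0 0 (step_sound _ 163 [rh225a66d7634c3aad, (rh503dd4575245365b.shift 2 2), (rh568066b19a6d9b02.shift 0 2)] (by decide +kernel))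
noncomputable def rh7ab2b85ee5f92f48 : CRef := CRef.mk (Pat.mk 0x600000006000000040000000400000000 0x40000000600000006000000070000003e0000000a 5 6) 0 0 (step_sound _ 33 [(rh932754581e0f4330.shift 1 0), rhea9dc59267b51ebb] (by decide +kernel))
noncomputable def rha2341ca8c7e14aad : CRef := CRef.mk (Pat.mk 0x100000001000000038000000000000000000000000 0x10000000370000003e000000700000002000000020 5 7) 0 0 (step_sound _ 69 [(rh40d60e552b04154f.shift 0 2), (rh79ad7b82ec8c35e2.shift 4 0)] (by decide +kernel))
noncomputable def rhd7b02fc5e10a2ad4 : CRef := CRef.mk (Pat.mk 0x40000000e0000000b0000000200000000 0x100000001c0000000f0000000b0000001e0000000c 5 5) 0 0 (step_sound _ 35 [rh294f098e99c89b5a, (rh7b1f1fb55310c477.shift 2 0)] (by decide +kernel))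
noncomputable def rh5bc12b2c4976ccbf : CRef := CRef.mk (Pat.mk 0x80000001c00000016000000040000000000000000 0x80000001c000000360000003e0000001300000002 5 6) 0 0 (step_sound _ 68 [rh7a9f124911bb3251, (rh7b1f1fb55310c477.shift 3 1)] (by decide +kernel))
noncomputable def rh7caa2478668a399c : CRef := CRef.mk (Pat.mk 0x40000000700000004000000000000000000000000 0x2000000060000000600000004000000070000003e0000000c0000000800000008 5 6) 0 0 (step_sound _ 99 [(rh70e33bfdf511e144.shift 2 0), (rh89ade209b3e28f13.shift 0 3), (rh93acef825b4343d6.shift 1 2)] (by decide +kernel))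
noncomputable def rhe79075fa30d86af3 : CRef := CRef.mk (Pat.mk 0x80000001c000000060000000c0000000000000000 0x80000001c000000360000003e0000001300000002 5 6) 0 0 (step_sound _ 68 [rhabdb7a7c9ea17a45, (rhf48373e13d2bc128.shift 1 2)] (by decide +kernel))
noncomputable def rh00ea10f4481d4201 : CRef := CRef.mk (Pat.mk 0x100000000e0000000200000000 0x400000004000000370000003e0000000200000002 5 6) 0 0 (step_sound _ 68 [(rh33e738c4ed385b9f.shift 1 2), rhaf661323c6e1d2ba] (by decide +kernel))
noncomputable def rh228db4628df8d3ce : CRef := CRef.mk (Pat.mk 0x80000003800000008000000000000000000000000 0x4000000040000000c0000000f0000003c000000080000000c0000000c00000004 5 6) 0 0 (step_sound _ 162 [(rh01483ff9cba2f6ac.shift 2 0), (rhb1a251d9bff81766.shift 2 2), (rhdbcea10a0fbe5ba6.shift 0 4)] (by decide +kernel))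
noncomputable def rha1ffaf16110c502b : CRef := CRef.mk (Pat.mk 0x1c000000040000000000000000 0x200000002000000770000003e000000740000000400000004 5 7) 0 0 (step_sound _ 97 [(rh3947d1dfff0afc6c.shift 0 2), (rha93a5dd541ab8209.shift 1 2), rhe1ef59f9ff87186c] (by decide +kernel))
noncomputable def rh06e4d1e4f75a0776 : CRef := CRef.mk (Pat.mk 0x20000000300000002000000000000000000000000 0x100000003000000030000000300000003000000070000000700000005 5 3) 0 0 (step_sound _ 65 [rh8cdd36b03d57a2f6, (rh968ba7b0df7e4096.shift 0 1), (rhe286c75f2739cce2.shift 0 1)] (by decide +kernel))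
noncomputable def rh0dc175b1aaeaec94 : CRef := CRef.mk (Pat.mk 0x1c0000000400000004 0x200000002000000770000003e0000007400000004 5 7) 0 0 (step_sound _ 65 [rh1c1037cb5b3fe471, (rh3fc3a7fb6866dcd4.shift 1 1), rheddd3d8f7db62149] (by decide +kernel))
noncomputable def rhfb541ced2a920213 : CRef := CRef.mk (Pat.mk 0x1c000000040000000400000000 0x730000003e000000740000000400000004 5 7) 0 0 (step_sound _ 97 [rh132883a60cd8aed8, (rh3fc3a7fb6866dcd4.shift 1 2)] (by decide +kernel))
noncomputable def rhe1774e16ee393e62 : CRef := CRef.mk (Pat.mk 0x180000000e0000000c0000000400000000 0x10000000180000000e0000003f0000003c00000010 5 6) 0 0 (step_sound _ 35 [(rh2f68792b6b779e96.shift 3 1), rh3e50ec7680ad637d] (by decide +kernel))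
noncomputable def rh495ac6eb947d9bcd : CRef := CRef.mk (Pat.mk 0x4000000060000000200000002 0x2000000030000000700000007000000060000000600000002 5 3) 0 0 (step_sound _ 97 [(rh2f68792b6b779e96.shift 1 0), rh933f3ac7d57d09d8] (by decide +kernel))
noncomputable def rh09651f4931b215d5 : CRef := CRef.mk (Pat.mk 0x1c000000060000000c0000000800000000 0x100000001c0000000e0000003c0000000f00000006 5 6) 0 0 (step_sound _ 99 [(rh2f68792b6b779e96.shift 3 1), rh3126441d204f6ad4] (by decide +kernel))
noncomputable def rh2a9695c6b547a23a : CRef := CRef.mk (Pat.mk 0x1e0000000400000004 0x8000000080000003c0000001f0000003400000004 5 6) 0 0 (step_sound _ 36 [rh4c7411087d622b9c, (rhe25b0a99195a5d59.shift 1 1)] (by decide +kernel))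
noncomputable def rh46a5aaaef010cdd9 : CRef := CRef.mk (Pat.mk 0x100000001e000000100000001000000000 0x100000003e000000170000003c00000028 5 6) 0 0 (step_sound _ 35 [rh8a3cf144bb3f548f, (rh932754581e0f4330.shift 3 0)] (by decide +kernel))
noncomputable def rhae7299dc8910e40d : CRef := CRef.mk (Pat.mk 0x8000000180000000e0000000400000000 0x60000000f0000001e0000000e0000003c00000010 5 6) 0 0 (step_sound _ 35 [(rh42afa1af9fffa0e1.shift 1 0), (rh501207f89dcab93e.shift 0 1)] (by decide +kernel))
noncomputable def rha6767fb880bb5eca : CRef := CRef.mk (Pat.mk 0xa0000000c0000000400000004 0x2000000020000007e0000001f0000000400000004 5 7) 0 0 (step_sound _ 129 [(rhc4ebca958f601dab.shift 0 1), (rhcfdf45280693d3da.shift 1 0)] (by decide +kernel))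
noncomputable def rh797b256a388a45d8 : CRef := CRef.mk (Pat.mk 0x400000014000000180000000800000000 0x400000004000000370000001e0000000b00000002 5 6) 0 0 (step_sound _ 66 [(rh2145e1d24b96a57e.shift 2 1), rhb595ae21e1db6eba] (by decide +kernel))
noncomputable def rh427bc58567cd120b : CRef := CRef.mk (Pat.mk 0x8000000080000000c0000000e00000000 0x40000000c0000000c0000000e0000007e00000003 5 7) 0 0 (step_sound _ 130 [(rh50fbb5868c909700.shift 2 1), rhc545505dec9fe375] (by decide +kernel))
noncomputable def rh0667a35a1b97b3ac : CRef := CRef.mk (Pat.mk 0x1800000018000000080000001c 0x20000000fc000000f80000003c0000001f 5 8) 0 0 (step_sound _ 101 [(rh3afd92a68366ae78.shift 2 1), rhdb7b1946f411de5f] (by decide +kernel))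
noncomputable def rhd7c343fb0024c57f : CRef := CRef.mk (Pat.mk 0x180000000c0000000800000000 0x800000008000000180000001f0000003c00000014 5 6) 0 0 (step_sound _ 65 [(rh53b3c253cb0c65f4.shift 0 2), (rh6a99ac50fb31e17e.shift 1 0)] (by decide +kernel))
noncomputable def rh837c35879c397ce1 : CRef := CRef.mk (Pat.mk 0x80000001c000000060000000c00000000 0x10000000380000001f0000000e0000003c00000010 5 6) 0 0 (step_sound _ 36 [rh5f515113bda73f65, (rhf48373e13d2bc128.shift 1 1)] (by decide +kernel))
noncomputable def rhbc027af87f799019 : CRef := CRef.mk (Pat.mk 0x400000004000000060000000380000000000000000 0x80000000c8000000cc0000007f00000078000000d000000010 5 8) 0 0 (step_sound _ 99 [(rh9458e878ee940312.shift 2 0), (rhaa73d67be2de7cd7.shift 2 1), (rhee43fc36b38178b6.shift 2 1), (rhf60aa8aede119d3b.shift 0 2)] (by decide +kernel))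
noncomputable def rh282410c8b59b0b53 : CRef := CRef.mk (Pat.mk 0x400000003800000008 0x670000003f00000038 5 7) 0 0 (step_sound _ 34 [(rh428265de8cd3cd2d.shift 2 1), rh55daa26adcd643af] (by decide +kernel))
noncomputable def rh956b1ee917a8bf4e : CRef := CRef.mk (Pat.mk 0x80000001c000000060000000400000000 0x80000001f0000007e0000003e00000010 5 7) 0 0 (step_sound _ 68 [(rh3b97c0bc2615f008.shift 1 1), rh3c746a4af2e0cb8f, (rh6a7d78a202a43da8.shift 1 0), (rh8349b894a33edab5.shift 1 0)] (by decide +kernel))
noncomputable def rh4fa8f955440ed0e6 : CRef := CRef.mk (Pat.mk 0xc0000000c000000040000000c00000000 0x100000003c0000000f0000003c0000000f00000002 5 6) 0 0 (step_sound _ 33 [(rh4a836dc107530aaa.shift 0 1), (rh932754581e0f4330.shift 1 0)] (by decide +kernel))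
noncomputable def rh2f24eea91f7d98fc : CRef := CRef.mk (Pat.mk 0x800000008000000080000000800000000 0x100000003c0000001f000000080000000800000008 5 6) 0 0 (step_sound _ 132 [(rh2f68792b6b779e96.shift 3 1), rhe07751283d9d40cc] (by decide +kernel))
noncomputable def rhe897032202fa007b : CRef := CRef.mk (Pat.mk 0x300000002000000020000000600000000 0x600000006000000060000000300000003000000060000000600000002 5 3) 0 0 (step_sound _ 161 [rh4688bac4c1467f4b, (rhd3458b32566d63f7.shift 1 1)] (by decide +kernel))
noncomputable def rh3e2780006c081da1 : CRef := CRef.mk (Pat.mk 0x4000000000000000c0000000e00000000 0x4000000040000003e0000007e00000003 5 7) 0 0 (step_sound _ 68 [(rh18965a982d73c794.shift 1 1), rhc545505dec9fe375] (by decide +kernel))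
noncomputable def rh022041bdf0632cdd : CRef := CRef.mk (Pat.mk 0x8000000080000000c0000000400000000 0x140000001c0000001c0000000f0000003c00000018 5 6) 0 0 (step_sound _ 35 [(rhc4055b4872d6fb38.shift 2 0), rhfe557af9112f51d6] (by decide +kernel))
noncomputable def rhaab185a4d64a9d50 : CRef := CRef.mk (Pat.mk 0x2000000020000000300000003000000000000000000000000 0x100000007000000070000000700000003000000020000000200000002 5 3) 0 0 (step_sound _ 192 [(rh50fbb5868c909700.shift 0 3), rha6d73b7eb9587f8c] (by decide +kernel))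
noncomputable def rh8df523ca45d4d184 : CRef := CRef.mk (Pat.mk 0x8000000180000000e0000000000000000 0x80000001f0000003e0000003700000010 5 6) 0 0 (step_sound _ 68 [(rh5f7b3bfbaf903d4f.shift 0 1), (rh78974448101547fe.shift 1 0)] (by decide +kernel))
noncomputable def rhb8fcb666ea0f55c9 : CRef := CRef.mk (Pat.mk 0x8000000480000003c0000000000000000 0x8000000d8000000ff0000003000000010 5 8) 0 0 (step_sound _ 70 [(rh33e738c4ed385b9f.shift 3 2), rhf967a83980af199c] (by decide +kernel))
noncomputable def rh1376b0ccc0237f13 : CRef := CRef.mk (Pat.mk 0xc00000018000000080000000800000000 0x80000000c0000007c0000000f0000000c00000004 5 7) 0 0 (step_sound _ 101 [rhc59a2df7a9768206, (rhf48373e13d2bc128.shift 2 3)] (by decide +kernel))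
noncomputable def rhe2980b9c4f477b83 : CRef := CRef.mk (Pat.mk 0x8000000380000000e0000000400000000 0x160000001f0000003a0000000e0000000e00000008 5 6) 0 0 (step_sound _ 130 [(rh0e94e866737f673f.shift 0 1), (rh668fc65514a55b16.shift 2 0), (rhc02b3aee7ab87ee1.shift 0 3)] (by decide +kernel))
noncomputable def rh8e0c7a4bae8affbe : CRef := CRef.mk (Pat.mk 0x800000008000000080000000800000000 0x140000001f0000007c000000080000000800000008 5 7) 0 0 (step_sound _ 130 [rh32652c4ecca2a6ed, (rh50fbb5868c909700.shift 2 1)] (by decide +kernel))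
noncomputable def rhba8fc30eb353ed18 : CRef := CRef.mk (Pat.mk 0x200000002000000020000000100000000 0x50000000700000007000000020000000300000003 5 3) 0 0 (step_sound _ 33 [rh00c644645561e9be, rh932754581e0f4330] (by decide +kernel))
noncomputable def rhd11d779da1036bbd : CRef := CRef.mk (Pat.mk 0x1c000000080000000000000010 0x600000007f0000003e0000001000000010 5 7) 0 0 (step_sound _ 101 [rh5d91a62aa3dbdfe0, (rhaf9f2efc81a8312b.shift 1 2)] (by decide +kernel))
noncomputable def rhda8a3b834707f4bb : CRef := CRef.mk (Pat.mk 0x80000001c000000070000000400000000 0x40000001c0000001c000000170000003e0000001a 5 6) 0 0 (step_sound _ 35 [(rh89ade209b3e28f13.shift 0 1), (rh9f7061d191f3e908.shift 1 0), (rhb23658ecdd7ce5df.shift 1 0)] (by decide +kernel))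
noncomputable def rhfb1333456b85ba87 : CRef := CRef.mk (Pat.mk 0x80000000c000000070000000400000000 0x400000006000000060000000e0000000e000000070000001e0000000a 5 5) 0 0 (step_sound _ 130 [(rh865cf161b9b29643.shift 1 1), rhb379f99078aafa2d, (rhd2c74283b7b6e6b8.shift 1 1)] (by decide +kernel))
noncomputable def rh51236d3c272d1deb : CRef := CRef.mk (Pat.mk 0x8000000380000000c0000000400000000 0x3f0000003f0000007c0000000600000002 5 7) 0 0 (step_sound _ 98 [(rh668d1876510a8d45.shift 0 2), (rh915c3ff3d4fe3a39.shift 0 3), (rhdfb45a0764e33452.shift 1 0)] (by decide +kernel))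
noncomputable def rhf977c67afcd9383c : CRef := CRef.mk (Pat.mk 0x8000000180000000e0000000c 0x160000001f0000001b0000000e0000000c 5 5) 0 0 (step_sound _ 100 [(rh2f68792b6b779e96.shift 3 0), rh625e024e534c5ee6] (by decide +kernel))
noncomputable def rhab9e3e9beba535c3 : CRef := CRef.mk (Pat.mk 0x380000000800000008 0x4000000070000003e0000007f00000008 5 7) 0 0 (step_sound _ 66 [(rh0d378fd9e8917c5a.shift 0 1), (rh3a522686800c907f.shift 0 1), (rhe4f9133a81c1dbc5.shift 1 0)] (by decide +kernel))
noncomputable def rh7f56d0fb2981c591 : CRef := CRef.mk (Pat.mk 0x400000000000000200000001c00000000 0x400000004000000370000003e00000003 5 6) 0 0 (step_sound _ 33 [(rh428265de8cd3cd2d.shift 1 1), rh972dbc07a0b18f2c] (by decide +kernel))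
noncomputable def rhb7feb5aae5ace0ce : CRef := CRef.mk (Pat.mk 0x1c0000000c000000040000000400000000 0x100000001c0000000c0000003c0000000f0000000a 5 6) 0 0 (step_sound _ 35 [rh47fa8cba4c7ab085, (rh55afc6a59410cf00.shift 2 0)] (by decide +kernel))
noncomputable def rha3a035462e5edf29 : CRef := CRef.mk (Pat.mk 0x180000000c000000040000000c00000000 0x140000001c0000000c0000003c0000000f00000002 5 6) 0 0 (step_sound _ 67 [(rh2f68792b6b779e96.shift 3 1), rh9816434bd6468104] (by decide +kernel))
noncomputable def rh937d8cacca3c26a9 : CRef := CRef.mk (Pat.mk 0x1c00000002000000020000000600000000 0x30000001e00000032000000030000000700000005 5 6) 0 0 (step_sound _ 129 [(rh55afc6a59410cf00.shift 1 0), rhfb1a5676d72e8f8d] (by decide +kernel))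
noncomputable def rh1face668f88412af : CRef := CRef.mk (Pat.mk 0x1e00000018000000080000000800000000 0x600000003e0000001f000000180000001800000010 5 7) 0 0 (step_sound _ 97 [(rhe4b4a34d3b64d33b.shift 1 0), (rheb0810cc63b001d8.shift 0 3)] (by decide +kernel))
noncomputable def rh7e564f1339421f65 : CRef := CRef.mk (Pat.mk 0xa0000001e0000000600000000 0x6000000070000003e0000001e0000000600000002 5 6) 0 0 (step_sound _ 129 [(rh2145e1d24b96a57e.shift 1 1), rh5ccf524d1d93077b] (by decide +kernel))
noncomputable def rh4ca3319397c6bab6 : CRef := CRef.mk (Pat.mk 0x8000000080000001c000000040000000400000000 0xa0000001b0000001e000000370000001400000010 5 6) 0 0 (step_sound _ 68 [(rh06be8e5562dc7104.shift 0 1), (rh08edf065357d68e5.shift 3 0)] (by decide +kernel))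
noncomputable def rh91317bda041b6848 : CRef := CRef.mk (Pat.mk 0x80000000c000000040000000000000000 0xa0000000f0000003c000000040000000400000004 5 6) 0 0 (step_sound _ 34 [(rh516a021585c206bf.shift 0 1), (rh71222050f2c63a3a.shift 2 0)] (by decide +kernel))
noncomputable def rh1af2eed4e0065b29 : CRef := CRef.mk (Pat.mk 0x10000000180000000e000000000000000000000000 0x300000001f0000003e000000380000001800000018 5 6) 0 0 (step_sound _ 35 [rh105346e14e7534ae, (rh9e3edb185cc347de.shift 3 1)] (by decide +kernel))
noncomputable def rhc97e5537df756862 : CRef := CRef.mk (Pat.mk 0x1000000010000000180000001e00000000 0x2800000038000000300000001f0000001e00000010 5 6) 0 0 (step_sound _ 131 [rh2864624e87c79f7c, (rh50fbb5868c909700.shift 3 1)] (by decide +kernel))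
noncomputable def rhd8251e55af4a7460 : CRef := CRef.mk (Pat.mk 0x180000000e000000040000000400000000 0x400000006000000160000001f0000003e0000000c0000000c00000008 5 6) 0 0 (step_sound _ 130 [(rh8af9a32e61457eb0.shift 2 0), (rh933f3ac7d57d09d8.shift 1 1), (rhff4c737aebdcf19e.shift 0 1)] (by decide +kernel))
noncomputable def rh7384c83f0469cbf6 : CRef := CRef.mk (Pat.mk 0x8000000180000000e00000004 0x20000001f0000001f000000fe0000000c 5 8) 0 0 (step_sound _ 65 [rh2f32edc41b016dfb, rh441f3098d3a9709b, rh69affbbc41170138] (by decide +kernel))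
noncomputable def rh4d58c5d822a2edfa : CRef := CRef.mk (Pat.mk 0x180000001e000000080000000800000000 0x70000001f0000001e0000000c0000000c00000004 5 5) 0 0 (step_sound _ 130 [rh423aef1cad2b112c, (rh50fbb5868c909700.shift 2 1)] (by decide +kernel))
noncomputable def rh06cd0d4234ca65c9 : CRef := CRef.mk (Pat.mk 0x180000001e00000008 0x30000000300000001f0000001e00000038 5 6) 0 0 (step_sound _ 4 [rha2b37da49d51aaf0, (rhe25b0a99195a5d59.shift 1 0)] (by decide +kernel))
noncomputable def rh08b3a705b1fe4f19 : CRef := CRef.mk (Pat.mk 0xc000000080000000c0000000c00000000 0x20000000f0000003c0000000c0000001c00000018 5 6) 0 0 (step_sound _ 36 [rh15a3403100bccd1e, (rh55afc6a59410cf00.shift 3 0)] (by decide +kernel))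
noncomputable def rh91546ce6c5a2a60c : CRef := CRef.mk (Pat.mk 0x80000000c000000070000000400000000 0x400000006000000060000000e0000000c0000000f0000001e00000008 5 5) 0 0 (step_sound _ 130 [rh548ca695070b4cbb, (rh933f3ac7d57d09d8.shift 1 1), (rhd2c74283b7b6e6b8.shift 1 1)] (by decide +kernel))
noncomputable def rhc5107aca8f698659 : CRef := CRef.mk (Pat.mk 0x80000001c0000000400000004 0x20000001f0000003f0000003c00000004 5 6) 0 0 (step_sound _ 97 [rh326fee6e55c10bf8, (rh6279f4d0e372f7fa.shift 1 0), (rh73705265df9d9dd7.shift 0 1)] (by decide +kernel))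
noncomputable def rh653a4e299315e31d : CRef := CRef.mk (Pat.mk 0x80000001e00000004 0x2000000030000003f0000003e00000004 5 6) 0 0 (step_sound _ 68 [(rh33e738c4ed385b9f.shift 1 1), rhcea95bd1ecd58bb2] (by decide +kernel))
noncomputable def rh09315eb2908d1578 : CRef := CRef.mk (Pat.mk 0x140000003c0000000000000000 0x8000000080000001c0000007f0000003000000010 5 7) 0 0 (step_sound _ 99 [rha8bcb4927b3d3cd5, (rhf48373e13d2bc128.shift 2 2)] (by decide +kernel))
noncomputable def rh255704914a2d16ab : CRef := CRef.mk (Pat.mk 0x80000001c000000040000000000000000 0x20000003f0000003f000000040000000400000004 5 6) 0 0 (step_sound _ 34 [(rh71222050f2c63a3a.shift 2 0), (rhbdd5cff8f2847d5e.shift 0 1)] (by decide +kernel))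
noncomputable def rh9c6973f47fb25921 : CRef := CRef.mk (Pat.mk 0x8000000380000000800000000 0xc0000000c0000000f0000003c0000001800000018 5 6) 0 0 (step_sound _ 131 [(rhd4b4beefcd67f51e.shift 3 0), rhdd21cabff6f8c986] (by decide +kernel))
noncomputable def rh62e931f8ec45c70a : CRef := CRef.mk (Pat.mk 0x80000001c000000040000000000000000 0x800000008000000380000003f000000f40000001000000010 5 8) 0 0 (step_sound _ 163 [rh2ead9b9cc22afc12, (rh5c5e593799055d58.shift 2 2)] (by decide +kernel))
noncomputable def rh1f0d714a26639a27 : CRef := CRef.mk (Pat.mk 0x1e0000000400000004 0x200000002000000370000001e0000003400000004 5 6) 0 0 (step_sound _ 100 [rh0c04b97cec8b3249, (rh33e738c4ed385b9f.shift 1 2)] (by decide +kernel))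
noncomputable def rh538f744c3b549048 : CRef := CRef.mk (Pat.mk 0x100000001e0000000200000000 0x800000008000000180000003f0000003600000010 5 6) 0 0 (step_sound _ 99 [(rh53b3c253cb0c65f4.shift 0 2), (rh723c389335bb8481.shift 1 0)] (by decide +kernel))
noncomputable def rh049bd00447062473 : CRef := CRef.mk (Pat.mk 0x6000000180000000c00000000 0x140000003c0000000f000000180000000c00000004 5 6) 0 0 (step_sound _ 99 [(rh802c7087213427b5.shift 1 0), (rhb739f4f82bb681b4.shift 0 2)] (by decide +kernel))
noncomputable def rha4c086e4ef4322c2 : CRef := CRef.mk (Pat.mk 0x4000000080000001c0000000c00000000 0x2000000070000003f0000001c0000000c00000008 5 6) 0 0 (step_sound _ 98 [(rh7b1f1fb55310c477.shift 2 0), (rhb183b7ca4f065e7c.shift 0 1)] (by decide +kernel))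
noncomputable def rhfc4356d3d2a4024e : CRef := CRef.mk (Pat.mk 0x20000000e000000040000000000000000 0xa0000003e0000000f000000040000000400000004 5 6) 0 0 (step_sound _ 34 [(rh3b0c808886cd470b.shift 0 1), (rh7b1f1fb55310c477.shift 1 0)] (by decide +kernel))
noncomputable def rh8bf61080e34cec66 : CRef := CRef.mk (Pat.mk 0x200000006000000020000000000000000 0x500000007000000070000000600000006000000060000000600000004 5 3) 0 0 (step_sound _ 161 [(rh1741680720c097b4.shift 0 2), (rh6b49c384df38419b.shift 1 0), (rhd4b4beefcd67f51e.shift 1 1)] (by decide +kernel))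
noncomputable def rha3d4104031ffed1d : CRef := CRef.mk (Pat.mk 0x1e00000000 0x3b0000001f00000038 5 6) 0 0 (step_sound _ 65 [(rh3244c3cc8379b070.shift 0 1), rh3e1b7b343686dca1] (by decide +kernel))
end Crest.Agent.S0047.Helper85.Cert
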