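import Crest.Agent.Lib.S0047.Helper85CertPL5F0
import Crest.Agent.Lib.S0047.Helper85CertPL5F1
import Crest.Agent.Lib.S0047.Helper85CertPL5F2
import Crest.Agent.Lib.S0047.Helper85CertPL5F3
import Crest.Agent.Lib.S0047.Helper85CertPL5F4
import Crest.Agent.Lib.S0047.Helper85CertPL5F5
import Crest.Agent.Lib.S0047.Helper85CertPL5F6
import Crest.Agent.Lib.S0047.Helper85CertPL5F7
import Crest.Agent.Lib.S0047.Helper85CertPL5F8
import Crest.Agent.Lib.S0047.Helper85CertPL5F9
import Crest.Agent.Lib.S0047.Helper85CertPL5F10
import Crest.Agent.Lib.S0047.Helper85CertPL5F11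
import Crest.Agent.Lib.S0047.Helper85CertPL5F12
set_option autoImplicit false
set_option linter.all false
set_option Elab.async false
namespace Crest.Agent.S0047.Helper85.Cert
open Crest.Agent.S0047.Helper85

noncomputable def rh9379f9f341e475ef : CRef := CRef.mk (Pat.mk 0xa0000001a00000002000000000000000000000000 0x40000000f0000001a00000002000000070000000700000005 6 5) 0 0 (step_sound _ 162 [rh1b9022be4f7af407, (rhb739f4f82bb681b4.shift 0 4)] (by decide +kernel))
noncomputable def rhd45941d7f68403cf : CRef := CRef.mk (Pat.mk 0x20000000a0000001a0000000200000000 0x1000000014000000360000001e0000001b0000000a00000002 6 6) 0 0 (step_sound _ 130 [(rh2f68792b6b779e96.shift 1 1), rhe1b3819c128a9e83] (by decide +kernel))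
noncomputable def rh6f44232daaa984b6 : CRef := CRef.mk (Pat.mk 0x200000002000000020000000200000016 0x50000000700000007000000020000000200000003000000030000001e 6 5) 0 0 (step_sound _ 32 [rh2fe78cc5ca4405d8, (rhb77bfac3e9efecea.shift 0 1)] (by decide +kernel))
noncomputable def rh7eb809fb0cbb3ab7 : CRef := CRef.mk (Pat.mk 0x20000000200000002000000020000001000000000 0x100000003000000030000000200000003000000070000001e00000004 6 5) 0 0 (step_sound _ 34 [rh2e7f57f9715c4a34, (rhd3458b32566d63f7.shift 1 1)] (by decide +kernel))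
noncomputable def rh58bc5b635b65859d : CRef := CRef.mk (Pat.mk 0xa0000001a00000002000000100000000000000000 0x1000000010000000340000001e0000001b0000000a0000001f0000000700000005 6 6) 0 0 (step_sound _ 65 [(rh385c1f5a7480d523.shift 0 2), rh6eff4158bb400f47, rh9aa6ac2fc87719f2] (by decide +kernel))
noncomputable def rh0798174041532c23 : CRef := CRef.mk (Pat.mk 0x20000000200000002000000020000001000000000 0x2000000030000000300000003000000070000001e00000006 6 5) 0 0 (step_sound _ 34 [rhba432562c8b32508, (rhd3458b32566d63f7.shift 1 1)] (by decide +kernel))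
noncomputable def rh082ac680b8b3abec : CRef := CRef.mk (Pat.mk 0x8000000080000000c000000180000000000000000 0xc0000000c0000003f0000001f0000000700000002 6 6) 0 0 (step_sound _ 66 [(rh932754581e0f4330.shift 2 1), rha67dadb3b6397746] (by decide +kernel))
noncomputable def rh4567ecf37c4cb49b : CRef := CRef.mk (Pat.mk 0x200000002000000060000000000000000 0x50000000700000007000000060000000700000007000000070000000300000001 6 3) 0 0 (step_sound _ 161 [(rh33e98d0e97205a3e.shift 0 2), (rh73f605273a09a9d0.shift 1 2), (rhaf349dd7709502bf.shift 0 2), rhcab3157f7bdcba3e] (by decide +kernel))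
noncomputable def rh744d69d4ecbe6787 : CRef := CRef.mk (Pat.mk 0x200000002000000060000000000000000 0x50000000700000007000000030000000300000007000000070000000300000001 6 3) 0 0 (step_sound _ 161 [(rh33e98d0e97205a3e.shift 0 2), (rh5bd4bc0c2c48140c.shift 0 2), (rhba97f7f4ade5e136.shift 0 2), rhc4526fc8abf298b6] (by decide +kernel))
noncomputable def rh5b6729093662ba66 : CRef := CRef.mk (Pat.mk 0x3000000010000000300000001000000000 0xe000000ff0000003f000000380000001800000008 6 8) 0 0 (step_sound _ 131 [rh45770f5c8b48b34f, (rh50fbb5868c909700.shift 3 1)] (by decide +kernel))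
noncomputable def rhdb976da54a9306ab : CRef := CRef.mk (Pat.mk 0x2000000020000000200000002000000000000000000000000 0x400000007000000070000000300000002000000030000000300000001 6 3) 0 0 (step_sound _ 194 [(rh2f68792b6b779e96.shift 1 3), rh8ef08dc72f6a2a29] (by decide +kernel))
noncomputable def rh9266c031630b494d : CRef := CRef.mk (Pat.mk 0x800000008000000180000000800000000 0x140000003c0000000f000000180000000c0000000c 6 6) 0 0 (step_sound _ 34 [rh3a61644a128cd4ab, (rh932754581e0f4330.shift 2 0)] (by decide +kernel))
noncomputable def rh167a5c48d10a8647 : CRef := CRef.mk (Pat.mk 0x7000000020000000400000004 0x780000003f0000003e0000000400000004 6 7) 0 0 (step_sound _ 99 [rh12beb922497b07e1, (rh3fc3a7fb6866dcd4.shift 0 2), rh4fc80024ed3db095, (rhb8de41a89a9d4634.shift 0 2)] (by decide +kernel))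
noncomputable def rhf1a76a54e65686b5 : CRef := CRef.mk (Pat.mk 0xc00000004000000340000001400000000 0x120000003e00000037000000340000003600000022 6 6) 0 0 (step_sound _ 129 [(rh50fbb5868c909700.shift 1 1), rhfb2246dccbfc1d78] (by decide +kernel))
noncomputable def rh43fcc0a074e18aa4 : CRef := CRef.mk (Pat.mk 0x80000000a000000000000000800000000 0x140000001c0000001f0000003b0000000c0000000c00000004 6 6) 0 0 (step_sound _ 67 [(rh009db477ebccb70b.shift 0 1), (rh1741680720c097b4.shift 2 1), (rh20966da26a1c2ae8.shift 2 0), (rh771d065bdc85bf2d.shift 2 0)] (by decide +kernel))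
noncomputable def rh624a6e114a8cf3b6 : CRef := CRef.mk (Pat.mk 0x120000001e00000008 0x10000000100000001e000000ff000000e8 6 8) 0 0 (step_sound _ 67 [(rh43cebe0d33c4faa9.shift 1 0), (rh53b3c253cb0c65f4.shift 0 1)] (by decide +kernel))
noncomputable def rhbf873a50c97a5a16 : CRef := CRef.mk (Pat.mk 0x7000000020000000000000002000000000000000000000000 0x100000007000000060000000200000002000000070000000700000005 6 3) 0 0 (step_sound _ 129 [(rh50fbb5868c909700.shift 0 3), rhc94dfb5f501cb051] (by decide +kernel))
noncomputable def rh98ef38ab6cacfdcc : CRef := CRef.mk (Pat.mk 0x90000000e0000000a0000000000000000 0x1c0000001c0000000f0000000e0000000e0000001c00000018 6 5) 0 0 (step_sound _ 130 [(rh1b30fad02acc208f.shift 1 0), (rh35ab8589afe62dd0.shift 1 1), rh65895bf6d3f2cc11, (rh9397e1ef1fd877be.shift 0 1)] (by decide +kernel))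
noncomputable def rhc37293dcc228fcf4 : CRef := CRef.mk (Pat.mk 0x40000000f00000000 0xfe0000007f000000e0 6 8) 0 0 (step_sound _ 36 [(rh4a0cb3a9508b05dd.shift 1 0), (rh775b78df42231b16.shift 0 1), (rh9890f9d77740bbed.shift 0 1), (rhb6f72982232a8164.shift 1 1)] (by decide +kernel))
noncomputable def rh549503f6ee9fac0a : CRef := CRef.mk (Pat.mk 0x40000000f00000000 0xf60000007f000000f8 6 8) 0 0 (step_sound _ 36 [(rh3fc3a7fb6866dcd4.shift 1 0), (rh4a0cb3a9508b05dd.shift 1 0), rh4ad5fc38f1b69f65, (rh75c6fff53e4cbd6e.shift 1 0), (rhb6f72982232a8164.shift 1 1)] (by decide +kernel))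
noncomputable def rh200491c3f6e9f883 : CRef := CRef.mk (Pat.mk 0x20000000300000003000000000000000000000000 0x300000003000000030000000300000003000000060000000600000006 6 3) 0 0 (step_sound _ 193 [(rh5c5e593799055d58.shift 0 3), rhdd11e03a2f8b13b6] (by decide +kernel))
noncomputable def rheca59cb9ed7013b6 : CRef := CRef.mk (Pat.mk 0x8000000030000000b0000000000000000 0x140000001c0000001c000000180000001f0000001b0000001800000010 6 5) 0 0 (step_sound _ 99 [(rh26cf6cd574a72447.shift 0 2), (rhabf575676fe0ef70.shift 0 2), (rhc9b77a278c88d98b.shift 2 0), (rhf21a690ddaaecbd4.shift 0 2)] (by decide +kernel))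
noncomputable def rheb1fc97f3a2af76b : CRef := CRef.mk (Pat.mk 0x2000000120000000200000002 0x3d0000001f0000003a0000000200000002 6 6) 0 0 (step_sound _ 98 [rh29063726aee96931, (rh2f68792b6b779e96.shift 1 0)] (by decide +kernel))
noncomputable def rhea0c50db67e26316 : CRef := CRef.mk (Pat.mk 0x800000008000000000000001e00000004 0x80000007c0000001f000000340000001e0000000c 6 7) 0 0 (step_sound _ 98 [(rh04253f50b6dd0619.shift 2 0), rh981df4d24ffbab05] (by decide +kernel))
noncomputable def rhe23f0669d5a6bf31 : CRef := CRef.mk (Pat.mk 0xf00000002 0xee0000007f000000fe 6 8) 0 0 (step_sound _ 36 [(rh0f4a0920b9f47778.shift 1 0), rh4ad5fc38f1b69f65, (rhc083815ec94cd2b2.shift 1 0)] (by decide +kernel))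
noncomputable def rhf42a7a2a906fe7c0 : CRef := CRef.mk (Pat.mk 0xf00000002 0xfc0000007f000000e6 6 8) 0 0 (step_sound _ 36 [rh31e351ef79ee1ce8, (rh3d54e7f933686048.shift 1 0), (rh9890f9d77740bbed.shift 0 1), (rhd584a578337d0023.shift 1 0)] (by decide +kernel))
noncomputable def rh8dc2031d32064d45 : CRef := CRef.mk (Pat.mk 0x200000002000000020000000300000000 0x300000003000000030000000600000006000000070000000300000002 6 3) 0 0 (step_sound _ 161 [rh2c8d9f772b3bf7e8, (rh79877ebd3ef475dd.shift 0 1)] (by decide +kernel))
noncomputable def rhe052fd19f6b2da06 : CRef := CRef.mk (Pat.mk 0x3800000010000000100000001000000000 0x7000000fe000000ff000000100000003000000020 6 8) 0 0 (step_sound _ 37 [(rh55afc6a59410cf00.shift 4 0), (rha0862759400c3387.shift 0 3)] (by decide +kernel))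
noncomputable def rhbb474d028d0902e9 : CRef := CRef.mk (Pat.mk 0x8000000080000000a000000000000000800000000 0x80000000c0000001c0000001f0000001b000000180000000800000008 6 5) 0 0 (step_sound _ 67 [(rh3ca48e2a6d60153d.shift 2 1), (rh9bb7d10ce98dcee4.shift 3 0), rh9e78c8d0a6e73966] (by decide +kernel))
noncomputable def rh1b2cc4ba122a7e24 : CRef := CRef.mk (Pat.mk 0x8000000180000001a00000000 0x20000000200000006c000000ff0000007b00000010 6 8) 0 0 (step_sound _ 66 [(rh2215fbe783434aa4.shift 2 0), (rh710860539a4c4362.shift 0 1)] (by decide +kernel))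
noncomputable def rhd7a4a4846b0c70b4 : CRef := CRef.mk (Pat.mk 0xc000000040000000e0000000c00000000 0x100000003c0000003f0000000e0000003c00000010 6 6) 0 0 (step_sound _ 36 [rh0af5a455cbe36211, (rhf48373e13d2bc128.shift 1 1)] (by decide +kernel))
noncomputable def rhb8ac66c864b9404e : CRef := CRef.mk (Pat.mk 0x800000008000000080000000a000000000000000800000000 0x8000000080000000c0000001f0000001b000000180000000800000008 6 5) 0 0 (step_sound _ 100 [rh2858257a4727a180, (rh55afc6a59410cf00.shift 3 2)] (by decide +kernel))
noncomputable def rh3bc66e0f0c23afc0 : CRef := CRef.mk (Pat.mk 0x8000000080000000a000000000000000800000000 0x140000001c0000001f0000001b000000080000000800000008 6 5) 0 0 (step_sound _ 67 [(rh3ca48e2a6d60153d.shift 2 1), (rh44f453b84f013105.shift 3 1), rh9e78c8d0a6e73966] (by decide +kernel))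
noncomputable def rhdae5b40d5ef079d3 : CRef := CRef.mk (Pat.mk 0x800000008000000080000000a0000000000000008 0x140000003c0000000f0000001f0000003b0000001800000008 6 6) 0 0 (step_sound _ 162 [(rh50fbb5868c909700.shift 2 2), rh92e37159a2a3b051] (by decide +kernel))
noncomputable def rha9f58eac03eb1442 : CRef := CRef.mk (Pat.mk 0x4000000040000000400000000 0xa0000000e0000000f0000003c0000000c0000000c0000000c 6 6) 0 0 (step_sound _ 130 [rh305945700f20b255, (rh5abfc4c9d959be03.shift 1 0), (rhc85cc95794737cf7.shift 1 1), (rhced6d86d2069808b.shift 2 0)] (by decide +kernel))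
noncomputable def rh5e6e1f1966d4ee2e : CRef := CRef.mk (Pat.mk 0x200000002000000020000000200000000 0x200000002000000060000000600000006000000070000000300000003 6 3) 0 0 (step_sound _ 130 [(rh2f68792b6b779e96.shift 1 1), rh367ba021e273d8d6] (by decide +kernel))
noncomputable def rh804b308c5c0809e6 : CRef := CRef.mk (Pat.mk 0x80000000a00000000000000080000000000000000 0x40000001c0000001f0000001b0000000c0000000c0000000c00000004 6 5) 0 0 (step_sound _ 99 [(rh771d065bdc85bf2d.shift 2 1), (rh9e78c8d0a6e73966.shift 0 1), (rhcab3157f7bdcba3e.shift 2 0)] (by decide +kernel))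
noncomputable def rh435cb8dadc8af256 : CRef := CRef.mk (Pat.mk 0x200000002000000020000000200000000 0x200000003000000070000000700000006000000060000000200000002 6 3) 0 0 (step_sound _ 130 [(rh2f68792b6b779e96.shift 1 1), rh31f29076cbc7802e] (by decide +kernel))
noncomputable def rh72c40f9ee7724588 : CRef := CRef.mk (Pat.mk 0x2000000020000000200000002000000020000000000000000 0x10000000300000003000000020000000200000002000000070000000700000005 6 3) 0 0 (step_sound _ 224 [rh1cbda79ca706763a, (rhffd04209dc8ea796.shift 0 3)] (by decide +kernel))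
noncomputable def rhead136b9b48a2d77 : CRef := CRef.mk (Pat.mk 0x180000000a0000000800000008000000080000000000000000 0x40000001e0000000b00000008000000080000001c0000001c00000014 6 5) 0 0 (step_sound _ 194 [(rh50fbb5868c909700.shift 2 3), rh54a0263f69db99e1] (by decide +kernel))
noncomputable def rhc1baa1e99999d90d : CRef := CRef.mk (Pat.mk 0x3c000000100000001000000010000000100000000000000000 0x70000003e000000100000001000000010000000380000003800000028 6 6) 0 0 (step_sound _ 225 [(rh3f8766e6ecb455ce.shift 1 6), rh8a45b3c247e52441] (by decide +kernel))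
noncomputable def rh331be5abf1cbad56 : CRef := CRef.mk (Pat.mk 0x1c000000000000001000000000 0x80000007f0000003f000000300000001000000010 6 7) 0 0 (step_sound _ 97 [rh09d9f2ed3f61f767, rh43a01e9b17b0abd4, rh4a0183ed70e2bd2d, (rhb18e6c78a554867d.shift 0 3)] (by decide +kernel))
noncomputable def rh7389ce0f5df2a3df : CRef := CRef.mk (Pat.mk 0x100000001e00000000 0x1000000010000000300000001f0000003f00000008 6 6) 0 0 (step_sound _ 65 [rh27b574b937c57303, (rh3244c3cc8379b070.shift 0 1)] (by decide +kernel))
noncomputable def rha4f04de5afb2225d : CRef := CRef.mk (Pat.mk 0x2000000020000000200000002000000020000000000000000 0x50000000700000007000000020000000200000002000000060000000600000004 6 3) 0 0 (step_sound _ 34 [rh152cef056f41c349, (rhd3458b32566d63f7.shift 1 1)] (by decide +kernel))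
noncomputable def rh6dbe6390b8cc8511 : CRef := CRef.mk (Pat.mk 0xe0000000100000000 0x1000000010000000300000001f0000003b00000008 6 6) 0 0 (step_sound _ 68 [(rh80fcd6d0a18cb2dd.shift 0 1), rha4cf9251629f1722] (by decide +kernel))
noncomputable def rhe1cad0428e540968 : CRef := CRef.mk (Pat.mk 0x80000000a0000000c0000000e00000000 0x60000000f0000003e0000003c0000000e00000002 6 6) 0 0 (step_sound _ 130 [(rh50fbb5868c909700.shift 2 1), rh6223fde72bf088a1] (by decide +kernel))
noncomputable def rh3d1d13fd66741360 : CRef := CRef.mk (Pat.mk 0x6000000020000000200000002000000000000000000000000 0x100000007000000060000000200000002000000070000000700000005 6 3) 0 0 (step_sound _ 65 [rh5042db7f0b871028, (rhbaefcd01e0a8bca3.shift 1 2)] (by decide +kernel))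
noncomputable def rh70b214074ddc619f : CRef := CRef.mk (Pat.mk 0xa00000008000000080000000000000000 0x100000001c0000001f0000007c0000000c0000000c00000004 6 7) 0 0 (step_sound _ 35 [(rh20966da26a1c2ae8.shift 2 0), (rh39bac26a3afdee51.shift 0 1), (rh4a37486e0549b1bc.shift 0 1), rh713195889705734a] (by decide +kernel))
noncomputable def rh2985e254e65d6bbb : CRef := CRef.mk (Pat.mk 0x3c00000000 0xee0000007e00000007 6 8) 0 0 (step_sound _ 1 [(rh80fcd6d0a18cb2dd.shift 1 0), rhaeec3e7cb61cf764] (by decide +kernel))
noncomputable def rhdcf59d50d110bb21 : CRef := CRef.mk (Pat.mk 0x1e00000000000000100000000000000000 0x270000003f00000038000000100000001000000010 6 6) 0 0 (step_sound _ 100 [rh2cfa49cf7c88766d, (rhe25b0a99195a5d59.shift 1 3)] (by decide +kernel))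
noncomputable def rh016453ae10cbece4 : CRef := CRef.mk (Pat.mk 0x1e00000000000000100000000000000000 0x140000001f00000038000000180000001800000018 6 6) 0 0 (step_sound _ 100 [rh50ee8b0bfe4250ef, (rhe25b0a99195a5d59.shift 1 3)] (by decide +kernel))
noncomputable def rhc9e50f8f9601f67b : CRef := CRef.mk (Pat.mk 0x3800000000000000200000000000000000 0x30000000700000003e00000077000000300000003000000020 6 7) 0 0 (step_sound _ 130 [(rh09d9f2ed3f61f767.shift 1 1), (rh4b4ad80ec7facee3.shift 2 1), (rh9e29fb7c6bb32015.shift 1 1), (rh9e97bba44c1b13e4.shift 0 3), (rheb100aab8ed4573d.shift 1 0)] (by decide +kernel))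
noncomputable def rh5279ae1c94d1f418 : CRef := CRef.mk (Pat.mk 0x1e00000000000000140000000000000000 0x80000000c0000001c0000001f000000180000001c0000001c00000018 6 5) 0 0 (step_sound _ 100 [(rh259d7508f2b8dd41.shift 0 1), rh50ee8b0bfe4250ef, (rhb1a251d9bff81766.shift 3 1)] (by decide +kernel))
noncomputable def rh11a76f93c7cb2adf : CRef := CRef.mk (Pat.mk 0x1e00000000000000140000000000000000 0xc0000002f0000003f000000180000001c0000001c00000010 6 6) 0 0 (step_sound _ 100 [rh0e310d024965cb08, (rh259d7508f2b8dd41.shift 0 1), rh2cfa49cf7c88766d, (rhc68444a3d8d82935.shift 0 1)] (by decide +kernel))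
noncomputable def rhbdf237b41f10648e : CRef := CRef.mk (Pat.mk 0x3800000000000000200000000000000000 0x30000000770000003e00000070000000300000003000000020 6 7) 0 0 (step_sound _ 130 [(rh09d9f2ed3f61f767.shift 1 1), (rh4b4ad80ec7facee3.shift 2 1), (rh4c622fddc53a5f99.shift 0 4), (rh9e29fb7c6bb32015.shift 1 1), (rheb100aab8ed4573d.shift 1 0)] (by decide +kernel))
noncomputable def rh4454a437c95e0888 : CRef := CRef.mk (Pat.mk 0x100000001e0000000000000000 0x10000000300000001f0000003f0000000800000008 6 6) 0 0 (step_sound _ 97 [(rh3244c3cc8379b070.shift 0 2), rhdc9b566064fc5d7d] (by decide +kernel))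
noncomputable def rh70ae1a473ea9b592 : CRef := CRef.mk (Pat.mk 0x3800000000000000200000000000000000 0x30000000700000003e00000077000000300000003000000020 6 7) 0 0 (step_sound _ 130 [(rh4b4ad80ec7facee3.shift 2 1), (rh9e29fb7c6bb32015.shift 1 1), (rh9e97bba44c1b13e4.shift 0 3), (rheb100aab8ed4573d.shift 1 0)] (by decide +kernel))
noncomputable def rh1bbe343feac34b9b : CRef := CRef.mk (Pat.mk 0x8000000000000001c00000018000000000000000000000000 0x8000000380000001f00000018000000300000003000000030 6 6) 0 0 (step_sound _ 68 [(rh6f1cbe15c631ee70.shift 3 2), rha80de7e2be2820dd] (by decide +kernel))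
noncomputable def rh7108172435f27f9a : CRef := CRef.mk (Pat.mk 0xc0000000c0000000c00000018 0x700000007c0000003c0000001f00000018 6 7) 0 0 (step_sound _ 33 [(rh17824d5e1bc0351d.shift 1 0), rhb739f4f82bb681b4] (by decide +kernel))
noncomputable def rh72c6df9bc6951e26 : CRef := CRef.mk (Pat.mk 0x40000000e0000001c 0x30000000300000007f0000007e0000001c 6 7) 0 0 (step_sound _ 36 [(rh226655e3fe6b4a8a.shift 1 0), rh8b10c04bde622b78, (rhb762f327c85d41a0.shift 1 0)] (by decide +kernel))
noncomputable def rh61b6ed7ceddeeec1 : CRef := CRef.mk (Pat.mk 0xc000000040000000e0000001c0000000000000000 0x300000003c000000770000007e0000001c0000001000000010 6 7) 0 0 (step_sound _ 100 [(rh25f0c6692c5adf18.shift 2 0), (rhb762f327c85d41a0.shift 1 2), (rhe7a001aee0fd70f7.shift 0 2)] (by decide +kernel))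
noncomputable def rh3f32bc372c9a05f1 : CRef := CRef.mk (Pat.mk 0x38000000100000000000000040 0x1c7000000fe000000f70000004000000040 6 9) 0 0 (step_sound _ 98 [(rh66c438da7fa185e0.shift 2 0), (rh775ca1963e850b80.shift 0 2), (rha03f6e28ea70fc7d.shift 1 2), (rhfcb55d5dc3b78d1f.shift 0 2)] (by decide +kernel))
noncomputable def rh1e1c41f9254d8622 : CRef := CRef.mk (Pat.mk 0x30000000100000001000000010 0xf000000fe000000ff0000001000000010 6 8) 0 0 (step_sound _ 99 [(rh50fbb5868c909700.shift 3 0), (rh6f5b630944e294cc.shift 0 2)] (by decide +kernel))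
noncomputable def rhf515bd7a6bdea78b : CRef := CRef.mk (Pat.mk 0x2000000060000000300000000 0x500000007000000070000000200000002000000060000000700000001 6 3) 0 0 (step_sound _ 129 [(rh14e0829dc73b6804.shift 0 1), rh932754581e0f4330] (by decide +kernel))
noncomputable def rhf1068de07ecc4813 : CRef := CRef.mk (Pat.mk 0x70000000200000000000000020 0xe70000007e000000300000002000000020 6 8) 0 0 (step_sound _ 134 [(rh9e3edb185cc347de.shift 5 0), (rha9c8ba8b59589816.shift 0 2)] (by decide +kernel))
noncomputable def rh03b0d0af6f322cad : CRef := CRef.mk (Pat.mk 0x120000001e0000000a00000000 0x16000000370000001e0000001e0000000e00000006 6 6) 0 0 (step_sound _ 132 [rh12a658487e7da690, (rh5c5e593799055d58.shift 3 1)] (by decide +kernel))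
noncomputable def rh229c09c92f6aae24 : CRef := CRef.mk (Pat.mk 0x38000000100000000000000010 0x670000003e000000170000001000000010 6 7) 0 0 (step_sound _ 133 [(rh9e3edb185cc347de.shift 4 0), (rhb12ffaec36122c99.shift 0 2)] (by decide +kernel))
noncomputable def rh57585ecc72cf7beb : CRef := CRef.mk (Pat.mk 0x200000007000000040 0x670000007e000000c7 6 8) 0 0 (step_sound _ 35 [rhb12ffaec36122c99, (rhe25b0a99195a5d59.shift 3 0)] (by decide +kernel))
noncomputable def rh5f7fdd3fa995a688 : CRef := CRef.mk (Pat.mk 0xe00000002000000000000000800000000 0x10000000f00000007f000000fe000000180000000800000008 6 8) 0 0 (step_sound _ 132 [(rh353ebc24c4d595b9.shift 1 1), rh8f7ef08428eb6a32, (rhd584a578337d0023.shift 1 3), (rhf2b3bcf1454375d8.shift 1 3)] (by decide +kernel))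
noncomputable def rh1c7ece7a1e9a040d : CRef := CRef.mk (Pat.mk 0x8000000380000001000000000 0x8000000080000000f0000003e0000007700000004 6 7) 0 0 (step_sound _ 131 [rh1a8158aff2ae5a1a, (rh2145e1d24b96a57e.shift 3 1)] (by decide +kernel))
noncomputable def rh4822d55b92e47d0e : CRef := CRef.mk (Pat.mk 0x3000000030000000000000004000000000 0x1f7000001fe000000cf0000004000000040 6 9) 0 0 (step_sound _ 99 [(rh325c05698cedaa51.shift 1 0), (rh7b38a00019a0031b.shift 3 0), (rhb12ffaec36122c99.shift 0 2), (rhf9d36e158778ce35.shift 2 3)] (by decide +kernel))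
noncomputable def rh91ef3a6f840d0fff : CRef := CRef.mk (Pat.mk 0x4000000000000000e00000006000000000000001000000000 0x4000000040000003f0000003e000000320000001000000010 6 6) 0 0 (step_sound _ 162 [(rh932754581e0f4330.shift 1 2), rhd7cbc5daea640744] (by decide +kernel))
noncomputable def rhf9f5ad8dfd9d880b : CRef := CRef.mk (Pat.mk 0xe00000002000000000000000800000000 0xf40000007f000000fe000000080000000800000008 6 8) 0 0 (step_sound _ 132 [rh9edeb982515330c5, (rhd584a578337d0023.shift 1 3), (rhf2b3bcf1454375d8.shift 1 3), (rhf9fc252bb8290774.shift 0 1)] (by decide +kernel))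
noncomputable def rhd0cf3d1e536805e1 : CRef := CRef.mk (Pat.mk 0x3800000008000000000000002000000000 0x170000003e0000007f000000600000002000000020 6 7) 0 0 (step_sound _ 130 [(rh775ca1963e850b80.shift 0 3), (rha21931e1abf11b29.shift 1 0), (rhf46246cf3f4adb4a.shift 1 0)] (by decide +kernel))
noncomputable def rhe5594a90fc3836f1 : CRef := CRef.mk (Pat.mk 0x100000002000000020000000200000000 0x4000000070000000700000002000000060000000700000005 6 3) 0 0 (step_sound _ 129 [rh416b24cc7bdeb028, (rh50fbb5868c909700.shift 0 1)] (by decide +kernel))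
noncomputable def rh5514933d5f1a6910 : CRef := CRef.mk (Pat.mk 0x8000000180000000800000000 0x140000001c0000001c0000000c000000080000007c0000001f00000004 6 7) 0 0 (step_sound _ 131 [(rh14e0829dc73b6804.shift 2 1), (rh771d065bdc85bf2d.shift 2 0), rh8dce4397d6075b0b] (by decide +kernel))
noncomputable def rh2fe39102f854a9b3 : CRef := CRef.mk (Pat.mk 0x400000008000000080000000800000000 0xc0000000c000000080000001f0000007c00000010 6 7) 0 0 (step_sound _ 131 [(rh50fbb5868c909700.shift 2 1), rh8a68cefc5770c933] (by decide +kernel))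
noncomputable def rh60d9b2f2c718db0c : CRef := CRef.mk (Pat.mk 0xf00000002000000020000000a00000000 0xf80000007f000000e6000000060000000e0000000c 6 8) 0 0 (step_sound _ 132 [(rh3496008575b0c978.shift 1 0), (rh9890f9d77740bbed.shift 0 4), (rhf2b3bcf1454375d8.shift 1 3)] (by decide +kernel))
noncomputable def rh76060637a004f59d : CRef := CRef.mk (Pat.mk 0x3000000030000000200000006 0x1c0000001f0000001f0000000e00000006 6 5) 0 0 (step_sound _ 98 [(rh2f68792b6b779e96.shift 1 0), rh30455f70e4150295] (by decide +kernel))
noncomputable def rh9bb0c33ebe16b42f : CRef := CRef.mk (Pat.mk 0x200000006000000020000000800000038 0x50000000700000007000000070000000200000006000000060000001f00000038 6 6) 0 0 (step_sound _ 161 [(rh14e0829dc73b6804.shift 0 2), rh2b183b6f04e1cb6e, (rhc85cc95794737cf7.shift 0 2)] (by decide +kernel))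
noncomputable def rh7b3ba9f1e7e0b1a9 : CRef := CRef.mk (Pat.mk 0x1c000000040000000000000004 0x10000000330000001f0000003c0000000c0000000c 6 6) 0 0 (step_sound _ 97 [rh0da3f8d18d3a0dfd, rhf459621b93742302] (by decide +kernel))
noncomputable def rh876e5912f9043ef4 : CRef := CRef.mk (Pat.mk 0x80000000800000008000000080000001000000008 0x8000000180000007c0000000f0000001c00000018 6 7) 0 0 (step_sound _ 35 [(rh55afc6a59410cf00.shift 3 0), rh9b4dba8c043d8c52] (by decide +kernel))
noncomputable def rhc108617956a6b971 : CRef := CRef.mk (Pat.mk 0x4000000040000000400000000 0xa0000000e0000000f0000003c000000060000000600000006 6 6) 0 0 (step_sound _ 130 [(rh20966da26a1c2ae8.shift 1 0), rh305945700f20b255, (rh771d065bdc85bf2d.shift 1 0)] (by decide +kernel))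
noncomputable def rhc423f9c0cb02283f : CRef := CRef.mk (Pat.mk 0x80000001c00000000 0x1ff000000fe000001c0 6 9) 0 0 (step_sound _ 37 [(rh4c622fddc53a5f99.shift 0 1), (rh9c94213f6896c74a.shift 2 0), (rha1f05977cb30c9d7.shift 2 0), (rhe3060b190bc0bc78.shift 1 1)] (by decide +kernel))
noncomputable def rh244fb68295ca61f9 : CRef := CRef.mk (Pat.mk 0x8000000080000000800000000 0x140000001c0000003c0000000f0000000c0000000c0000000c 6 6) 0 0 (step_sound _ 131 [(rh1741680720c097b4.shift 2 1), (rh20966da26a1c2ae8.shift 2 0), rh5ee4dc8825dcefa0, (rh771d065bdc85bf2d.shift 2 0)] (by decide +kernel))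
noncomputable def rh3d92b62a1b4cc5a5 : CRef := CRef.mk (Pat.mk 0x900000007000000000 0xf70000007e0000000e 6 8) 0 0 (step_sound _ 35 [(rh428265de8cd3cd2d.shift 3 1), rhab6f55bc99585f19] (by decide +kernel))
noncomputable def rhe1e0524274ea4188 : CRef := CRef.mk (Pat.mk 0x40000000800000008000000080000000800000008 0x40000000c00000018000000780000001f0000000c00000008 6 7) 0 0 (step_sound _ 163 [(rh50fbb5868c909700.shift 2 2), rh5122bfaf1b7c78bc] (by decide +kernel))
noncomputable def rh7dfbd9c7f23afcbe : CRef := CRef.mk (Pat.mk 0xc0000000800000008000000080000000000000008 0xc0000001c000000780000001f0000000c00000008 6 7) 0 0 (step_sound _ 35 [rh5122bfaf1b7c78bc, (rhffd04209dc8ea796.shift 2 1)] (by decide +kernel))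
noncomputable def rh45df217638b3dcc7 : CRef := CRef.mk (Pat.mk 0x1c00000018000000080000000800000000 0x600000003f0000001f000000180000001800000010 6 7) 0 0 (step_sound _ 129 [rh8d47b117a3181398, (rhb739f4f82bb681b4.shift 0 3)] (by decide +kernel))
noncomputable def rh78ce9bacb8937013 : CRef := CRef.mk (Pat.mk 0x2000000030000000000000003800000000 0x40000001e00000007c000000670000003e00000007 6 9) 0 0 (step_sound _ 69 [rhb12ffaec36122c99, (rhc9613fc5bab58382.shift 2 1)] (by decide +kernel))
noncomputable def rh2fcd99b2f163ef01 : CRef := CRef.mk (Pat.mk 0x40000000400000004000000000000000400000000 0xa0000000e0000000f0000003e000000040000000c0000000c0000000c00000008 6 6) 0 0 (step_sound _ 194 [(rh1741680720c097b4.shift 1 3), (rh305945700f20b255.shift 0 2), (rh32ad22d6e9e34b55.shift 2 0), (rh8ff3dde5b1c639e0.shift 1 1)] (by decide +kernel))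
noncomputable def rhb5235791d507ae37 : CRef := CRef.mk (Pat.mk 0xe00000004000000040000000400000000 0xf00000007f0000003f0000000c0000000c00000008 6 8) 0 0 (step_sound _ 35 [(rh55afc6a59410cf00.shift 2 0), (rh8e0756c4ae58c955.shift 0 1)] (by decide +kernel))
noncomputable def rhaed7bf8ab24f550b : CRef := CRef.mk (Pat.mk 0x200000007000000058 0x20000000200000007c0000007f000000d8 6 8) 0 0 (step_sound _ 101 [(rh5c5e593799055d58.shift 4 0), rhaf620906d0d35264] (by decide +kernel))
noncomputable def rh71a4c173bf261f95 : CRef := CRef.mk (Pat.mk 0x180000001e0000000600000000 0xe0000000f0000001b0000001e0000001600000010 6 5) 0 0 (step_sound _ 131 [(rh5c5e593799055d58.shift 2 1), rhdc943904de253ebd] (by decide +kernel))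
noncomputable def rh15115c16165f7f79 : CRef := CRef.mk (Pat.mk 0x300000003000000000000000400000000 0x500000007000000070000000300000003000000060000000600000006 6 3) 0 0 (step_sound _ 65 [rh3cb04db3dd2b6a55, rh7bed6280d5711866, (rhba97f7f4ade5e136.shift 0 1)] (by decide +kernel))
noncomputable def rha82bf9e83b78fa91 : CRef := CRef.mk (Pat.mk 0x180000001e0000000000000000 0x200000006000000070000001f0000001e0000000700000002 6 5) 0 0 (step_sound _ 97 [(rh3244c3cc8379b070.shift 0 2), rh406e69fd54876794] (by decide +kernel))
noncomputable def rhd85f892fa05ffac0 : CRef := CRef.mk (Pat.mk 0x7000000018000000000000004000000000 0x40000000e70000007f000000f8000000e00000006000000040 6 8) 0 0 (step_sound _ 131 [(rh8a43f6f8aecc2e36.shift 3 0), (rha58ddf8813c4b875.shift 0 3), (rhea2ba495190a41d9.shift 2 1), (rhf459621b93742302.shift 2 1), (rhf46246cf3f4adb4a.shift 2 0)] (by decide +kernel))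
noncomputable def rhf1cce1a3e3826cd1 : CRef := CRef.mk (Pat.mk 0x40000000c0000000c00000000 0xe0000000f0000003c0000000c0000000c00000004 6 6) 0 0 (step_sound _ 130 [(rh2145e1d24b96a57e.shift 2 1), rh23abe14e4c828fd9] (by decide +kernel))
noncomputable def rh8b3b13ec5744bd02 : CRef := CRef.mk (Pat.mk 0xc0000000c0000003c0000001c 0x320000007e0000006c0000003f0000001c 6 7) 0 0 (step_sound _ 32 [rhab22b5b56e7b3243, (rhbe61211f80e6c70e.shift 1 0)] (by decide +kernel))
noncomputable def rh9f2c29147641364e : CRef := CRef.mk (Pat.mk 0x2000000000000000600000003000000000000000800000000 0x2000000020000003e0000003f0000001d0000000800000008 6 6) 0 0 (step_sound _ 161 [(rh932754581e0f4330.shift 0 2), rhf7d12c6924e7e45b] (by decide +kernel))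
noncomputable def rh817b8cebcba6dbca : CRef := CRef.mk (Pat.mk 0x4000000000000001c000000060000000000000000 0x600000016000000330000001f0000003e0000000800000008 6 6) 0 0 (step_sound _ 97 [(rhc6719c6594e47b00.shift 0 2), rhf459621b93742302] (by decide +kernel))
noncomputable def rhef38858534887a05 : CRef := CRef.mk (Pat.mk 0x1e000000000000000000000000 0x400000004000000070000003e000000070000000200000002 6 6) 0 0 (step_sound _ 129 [(rh3244c3cc8379b070.shift 0 3), rh5aa55bd138007dd8] (by decide +kernel))
noncomputable def rhcb49a5e584d3f9c0 : CRef := CRef.mk (Pat.mk 0x100000001e0000001800000000 0x38000000380000001f0000001e0000001800000010 6 6) 0 0 (step_sound _ 132 [rh17165b0834d69604, (rh5c5e593799055d58.shift 3 1)] (by decide +kernel))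
noncomputable def rhe071d5edbc5a25a2 : CRef := CRef.mk (Pat.mk 0xb00000003000000000000000400000000 0x7000000070000001f0000001b00000003000000020000000600000006 6 5) 0 0 (step_sound _ 65 [(rh06e01e1c08a41fe8.shift 0 2), rh3cb04db3dd2b6a55, rh7bed6280d5711866] (by decide +kernel))
noncomputable def rh65cef9632e677259 : CRef := CRef.mk (Pat.mk 0x5800000018000000000000002000000000 0xd8000000ff000000e70000002000000020 6 8) 0 0 (step_sound _ 101 [(rhabf5497ec964aa6c.shift 2 0), rhb5d85289ca26b1be, (rheff610e725081997.shift 3 3)] (by decide +kernel))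
noncomputable def rhfea279949e69cda5 : CRef := CRef.mk (Pat.mk 0x1600000002 0xe00000007e000000e7 6 8) 0 0 (step_sound _ 35 [rheb0810cc63b001d8, (rhf2b3bcf1454375d8.shift 1 0)] (by decide +kernel))
noncomputable def rh4b4e848370234aa6 : CRef := CRef.mk (Pat.mk 0x1c00000038000000200000000000000000 0x4000000040000001c0000003f000000670000000200000002 6 7) 0 0 (step_sound _ 98 [rh8f7039354bfc4ec2, (rhe25b0a99195a5d59.shift 2 2)] (by decide +kernel))
noncomputable def rh375cf92be0f5a226 : CRef := CRef.mk (Pat.mk 0xe0000001c000000000000001000000010 0x14000000770000007e0000001c000000080000001800000010 6 7) 0 0 (step_sound _ 67 [(rh6374dd1971f3a185.shift 0 2), (rhbe0e43a3bc50a43f.shift 3 0)] (by decide +kernel))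
noncomputable def rh5e3e18b676d4791c : CRef := CRef.mk (Pat.mk 0x600000006000000000000000800000000 0x14000000140000003f0000003e000000180000000800000008 6 6) 0 0 (step_sound _ 99 [rh64a9fd7e6d5009df, (rh6ef7308397abfdcd.shift 1 0), (rh79b3c29022acbdf3.shift 0 3), (rh95a80f84f48ac358.shift 2 0)] (by decide +kernel))
noncomputable def rh8188273ca5b1fdda : CRef := CRef.mk (Pat.mk 0x20000000200000002000000000000000200000000 0x600000006000000070000000300000003000000070000000600000004 6 3) 0 0 (step_sound _ 65 [(rhd29a1fb688eae70f.shift 1 0), (rhd534da25a9e1909f.shift 0 1)] (by decide +kernel))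
noncomputable def rhf443ea4e34c4e8a5 : CRef := CRef.mk (Pat.mk 0x1c00000008000000080000002800000000 0x200000007f0000007e000000180000003800000030 6 7) 0 0 (step_sound _ 36 [(rh55afc6a59410cf00.shift 3 0), rh66df769176390699] (by decide +kernel))
noncomputable def rh906403dd62397d1a : CRef := CRef.mk (Pat.mk 0x40000000e0000001c 0x30000000300000007f0000007e0000001c 6 7) 0 0 (step_sound _ 36 [(rh226655e3fe6b4a8a.shift 1 0), rhbe218c4b64d0fb80, (rhe3060b190bc0bc78.shift 0 1)] (by decide +kernel))
noncomputable def rhf1c3b1ce18004698 : CRef := CRef.mk (Pat.mk 0x8000000080000000800000000 0x14000000140000003e0000007f0000001c0000000800000008 6 7) 0 0 (step_sound _ 132 [rh22d86f446f3de558, (rh5890386c1f942fa1.shift 3 1), (rh6338043325e2f60c.shift 1 0), (rh87d5e4118780fa3b.shift 3 0)] (by decide +kernel))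
noncomputable def rh920aa40b70767bab : CRef := CRef.mk (Pat.mk 0xc0000000c000000040000001800000000 0x100000003c0000003f0000000f0000001800000010 6 6) 0 0 (step_sound _ 67 [(rh55afc6a59410cf00.shift 3 0), (rh6ebed6b9b5c91f96.shift 0 1)] (by decide +kernel))
noncomputable def rhb408dca00d15fd24 : CRef := CRef.mk (Pat.mk 0xc000000040000000c0000001800000000 0x100000003c0000003f0000000f0000001800000010 6 6) 0 0 (step_sound _ 99 [(rh55afc6a59410cf00.shift 3 0), (rh6ebed6b9b5c91f96.shift 0 1)] (by decide +kernel))
noncomputable def rh012c7625579c68af : CRef := CRef.mk (Pat.mk 0xe000000040000001000000008 0x700000007f0000003f0000001800000008 6 7) 0 0 (step_sound _ 100 [(rhaf9f2efc81a8312b.shift 0 2), (rhd542320a7a4dc2c4.shift 0 2), (rhe84bfd2bc1159083.shift 1 0)] (by decide +kernel))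
noncomputable def rhdfdd3a9b8bb67edc : CRef := CRef.mk (Pat.mk 0x1c00000008 0xe0000000fe0000007f 6 8) 0 0 (step_sound _ 37 [rh41140eaa67c26838, (rhaf9f2efc81a8312b.shift 1 0), (rhd542320a7a4dc2c4.shift 1 0)] (by decide +kernel))
noncomputable def rh4a2c29906411e3f2 : CRef := CRef.mk (Pat.mk 0x600000004000000040000000400000000 0xc0000003e000000070000000c0000000c0000000c 6 6) 0 0 (step_sound _ 35 [(rh55afc6a59410cf00.shift 2 0), rha53399dbbc6fa82e] (by decide +kernel))
noncomputable def rh037225a6b6511aa5 : CRef := CRef.mk (Pat.mk 0x1c0000000e000000080000002000000000 0x200000002000000030000001f0000007e0000006f0000002000000020 6 7) 0 0 (step_sound _ 100 [(rh57356921bb808803.shift 2 0), (rh7fcd588089ecd0df.shift 0 2), (rh9f93e2b24091a43d.shift 1 2)] (by decide +kernel))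
noncomputable def rh7c5378df7eddd423 : CRef := CRef.mk (Pat.mk 0xe0000001e000000080000000000000000 0x8000000080000000e0000001e0000003f0000000300000003 6 6) 0 0 (step_sound _ 68 [rhce17cada0b9b1e14, (rhe25b0a99195a5d59.shift 1 2)] (by decide +kernel))
noncomputable def rha32e3cfdc8d48254 : CRef := CRef.mk (Pat.mk 0xc000000080000000800000000 0x8000000180000001c0000007c0000000f0000001c0000001800000010 6 7) 0 0 (step_sound _ 131 [(rhced6d86d2069808b.shift 3 0), (rhdf8b9aa233deec1e.shift 0 1), (rhf15f1e29f6f0aa1f.shift 2 0)] (by decide +kernel))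
noncomputable def rh095b376292d8fbe7 : CRef := CRef.mk (Pat.mk 0x1e00000002000000140000000000000000 0x60000003e000000060000001c0000000f0000000a 6 6) 0 0 (step_sound _ 98 [(rh18965a982d73c794.shift 1 3), rhdc59ba418ff98db2] (by decide +kernel))
noncomputable def rh4c6fa5356a4905b7 : CRef := CRef.mk (Pat.mk 0xe000000000000000a00000000 0x1000000012000000730000003e0000007f0000000e0000000c 6 7) 0 0 (step_sound _ 100 [(rh3fc3a7fb6866dcd4.shift 1 2), (rhceed0e29dfbc434b.shift 1 0), rhe398dab5b84aa6e5] (by decide +kernel))
noncomputable def rhcaedef3b23fb3798 : CRef := CRef.mk (Pat.mk 0x60000000900000014000000000000000000000000 0x400000006000000060000000f0000001c0000000f0000000e00000002 6 5) 0 0 (step_sound _ 130 [(rh01483ff9cba2f6ac.shift 1 0), (rh9ded7a8c954dee2a.shift 0 2), (rhdc59ba418ff98db2.shift 0 1)] (by decide +kernel))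
noncomputable def rhced9f65e4ff4dd02 : CRef := CRef.mk (Pat.mk 0xe00000010000000280000000000000000 0xc0000000f00000018000000380000001e00000014 6 6) 0 0 (step_sound _ 99 [(rhb739f4f82bb681b4.shift 0 3), (rhdc59ba418ff98db2.shift 1 0)] (by decide +kernel))
noncomputable def rh47db436c481961a2 : CRef := CRef.mk (Pat.mk 0x80000000c000000080000000800000000 0xc0000000c0000000f0000007c0000001800000010 6 7) 0 0 (step_sound _ 130 [(rh50fbb5868c909700.shift 2 1), rhedf6a18f6f88178e] (by decide +kernel))
noncomputable def rh6aaf382993851e7f : CRef := CRef.mk (Pat.mk 0xf000000000000001400000000 0x40000000c0000001c0000000f0000001c0000001c00000010 6 5) 0 0 (step_sound _ 67 [rh27b637df7224086c, (rhe25b0a99195a5d59.shift 0 2)] (by decide +kernel))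
noncomputable def rh8430f61d153805cf : CRef := CRef.mk (Pat.mk 0x1e00000010000000280000000000000000 0x180000001f00000018000000380000001e00000014 6 6) 0 0 (step_sound _ 99 [(rhb739f4f82bb681b4.shift 0 3), (rhd97c7c4033cca5ce.shift 1 0)] (by decide +kernel))
noncomputable def rh6a5ed51e7edf5fdc : CRef := CRef.mk (Pat.mk 0xe000000000000001000000000 0x800000008000000780000003f000000370000001000000010 6 7) 0 0 (step_sound _ 100 [(rh00c1a02c588da1b0.shift 1 0), rh22de5993038d04b0, (rh3b00e9e9432b8f40.shift 0 2), rh721a9f023dbadaa4] (by decide +kernel))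
noncomputable def rh0ac366295e5dc4df : CRef := CRef.mk (Pat.mk 0xe000000000000001400000000 0x800000008000000780000003e0000003f0000001400000014 6 7) 0 0 (step_sound _ 100 [(rh3b00e9e9432b8f40.shift 0 2), rh96baeb6eaf172679, (rhd45e3ae46e6d7252.shift 1 0)] (by decide +kernel))
noncomputable def rh33d2ac197510fc74 : CRef := CRef.mk (Pat.mk 0x1c00000000000000200000000000000000 0x1000000030000000770000003e00000070000000300000003000000020 6 7) 0 0 (step_sound _ 133 [(rh00c1a02c588da1b0.shift 2 1), (rh0837bf74ccc9ef48.shift 1 1), (rh22de5993038d04b0.shift 1 1), (rh4c622fddc53a5f99.shift 0 4), (rheb100aab8ed4573d.shift 1 0)] (by decide +kernel))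
noncomputable def rhffdd029c37f544a3 : CRef := CRef.mk (Pat.mk 0x380000001000000010 0x2000000020000000670000003e0000003700000010 6 7) 0 0 (step_sound _ 101 [(rh69755ef358ebfd54.shift 4 0), (rha4e887c2a2a0f60b.shift 0 1)] (by decide +kernel))
noncomputable def rh682c8c3da2f92152 : CRef := CRef.mk (Pat.mk 0x4000000040000000c0000001c00000000 0xa0000000f0000003c0000000f0000001c00000010 6 6) 0 0 (step_sound _ 131 [rh05a19ea783f2fd59, (rh2f68792b6b779e96.shift 2 1)] (by decide +kernel))
noncomputable def rh7c90ebdd31e24436 : CRef := CRef.mk (Pat.mk 0x2000000030000000200000002 0x500000007000000070000000600000007000000030000000300000002 6 3) 0 0 (step_sound _ 129 [(rh32431e66bbf434a4.shift 0 1), (rh44f453b84f013105.shift 1 0), (rh769be3fe24eee174.shift 0 1), (rh976a48eb1c80a12f.shift 0 1)] (by decide +kernel))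
noncomputable def rh54672b8610874b11 : CRef := CRef.mk (Pat.mk 0xc00000018000000280000000000000000 0x10000000180000001f0000001f000000380000003000000010 6 6) 0 0 (step_sound _ 129 [rh0e18ef51f30687bd, (rhb739f4f82bb681b4.shift 0 3)] (by decide +kernel))
noncomputable def rh4f2e1aafba31458f : CRef := CRef.mk (Pat.mk 0x1c000000080000002000000000 0x1e0000000fe000001ff0000002000000020 6 9) 0 0 (step_sound _ 101 [(rh008b05f4778dc30d.shift 0 2), (rh352b7f91eba0c81f.shift 2 2), (rhaf9f2efc81a8312b.shift 1 2), (rhfcffa0a9e99c8fd4.shift 2 0)] (by decide +kernel))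
noncomputable def rh07fb19e62505db57 : CRef := CRef.mk (Pat.mk 0x300000002000000020 0x4000000040000000fe000000fe000001ff00000020 6 9) 0 0 (step_sound _ 67 [(rh1484d0ac58222097.shift 2 0), (rh4c0fcb205717f138.shift 1 1), (rh50743d3b66e40ece.shift 1 1), (rhb77529f2dc2b7442.shift 0 1)] (by decide +kernel))
noncomputable def rh53f9e724b5377399 : CRef := CRef.mk (Pat.mk 0xc000000180000000800000000 0x180000007c0000000f000000780000001800000010 6 7) 0 0 (step_sound _ 97 [(rhb51c6ae270bdb431.shift 1 0), (rhb739f4f82bb681b4.shift 0 2)] (by decide +kernel))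
noncomputable def rh3f4e18d4fde79bdb : CRef := CRef.mk (Pat.mk 0x10000000700000007000000000000000000000000 0x40000000700000007000000070000001e0000000e0000000c 6 5) 0 0 (step_sound _ 65 [rh091a64cd6a32b583, (rh7b1f1fb55310c477.shift 0 1)] (by decide +kernel))
noncomputable def rh0796d9a9a08a17ca : CRef := CRef.mk (Pat.mk 0xe000000180000002800000000 0x1000000018000000ff000000fe000000180000003800000030 6 8) 0 0 (step_sound _ 100 [(rh36095876875a1ad2.shift 0 2), (rh49606a42a30c7ac4.shift 1 1), (rhaaf7f80df1989e30.shift 3 0)] (by decide +kernel))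
noncomputable def rhf7feb30212101096 : CRef := CRef.mk (Pat.mk 0xf000000000000000a0000000000000000 0xc0000000f000000180000000e0000003c00000014 6 6) 0 0 (step_sound _ 99 [(rh34a706fd115c6418.shift 1 0), (rhe25b0a99195a5d59.shift 0 3)] (by decide +kernel))
noncomputable def rh1fd9915b19fe5aad : CRef := CRef.mk (Pat.mk 0x38000000100000004000000000 0x8000000080000003bf000001fe000003df0000004000000040 6 10) 0 0 (step_sound _ 102 [(rh30d4c68134598f9f.shift 3 0), (rh352b7f91eba0c81f.shift 3 2), (rh943c9a14b5422bad.shift 0 2)] (by decide +kernel))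
noncomputable def rh14b35b7f09ea2ac4 : CRef := CRef.mk (Pat.mk 0x38000000100000004000000000 0x3cf000001fe000003df0000004000000040 6 10) 0 0 (step_sound _ 102 [(rh352b7f91eba0c81f.shift 3 2), (rh943c9a14b5422bad.shift 0 2), (rhfcffa0a9e99c8fd4.shift 3 0)] (by decide +kernel))
noncomputable def rhef61a9e75392de8f : CRef := CRef.mk (Pat.mk 0x2000000030000000200000004 0x500000007000000070000000200000002000000030000000700000004 6 3) 0 0 (step_sound _ 129 [(rh32431e66bbf434a4.shift 0 1), (rhd3458b32566d63f7.shift 1 0)] (by decide +kernel))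
noncomputable def rha3e58f5f7aaf8466 : CRef := CRef.mk (Pat.mk 0xc0000000800000028000000000000000000000000 0x80000000c0000001f000000380000001e0000001c00000004 6 6) 0 0 (step_sound _ 67 [(rh15f443a9a462a99b.shift 1 1), (rh6477e5cdd5dd07fb.shift 0 1), (rhe4441baab75a6f73.shift 2 0)] (by decide +kernel))
noncomputable def rh101e72857d6da29e : CRef := CRef.mk (Pat.mk 0xe0000001a 0xe7000000fe0000001b 6 8) 0 0 (step_sound _ 36 [rh36095876875a1ad2, rheb0810cc63b001d8] (by decide +kernel))
noncomputable def rh729828c66c86df93 : CRef := CRef.mk (Pat.mk 0x60000001c000000140000000000000000 0x30000000340000003e0000001f0000001c0000000800000008 6 6) 0 0 (step_sound _ 67 [(rh369f87e380fb0016.shift 0 2), (rh55a1f6c57a317ce6.shift 2 0)] (by decide +kernel))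
noncomputable def rh0dce13052660042a : CRef := CRef.mk (Pat.mk 0x60000000e0000000a0000000000000000 0x80000003e0000000f0000000e0000003c0000001c 6 6) 0 0 (step_sound _ 35 [rh7804c1b82493f6cf, (rh7b1f1fb55310c477.shift 2 0)] (by decide +kernel))
noncomputable def rhce2cb63438ac5556 : CRef := CRef.mk (Pat.mk 0x200000003000000000000000500000000 0x500000007000000070000000300000003000000060000000700000007 6 3) 0 0 (step_sound _ 65 [rh2818863d77d69ed0, rh752c9303f297f9fa, (rhba97f7f4ade5e136.shift 0 1), rhc7a10ee8d0d37048] (by decide +kernel))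
noncomputable def rh106fd933998042c0 : CRef := CRef.mk (Pat.mk 0x2000000030000000200000002 0x500000007000000070000000600000006000000070000000700000002 6 3) 0 0 (step_sound _ 129 [(rh32431e66bbf434a4.shift 0 1), (rh44f453b84f013105.shift 1 0), (rh769be3fe24eee174.shift 0 1), (rhf0561682bb684ebc.shift 0 1)] (by decide +kernel))
noncomputable def rh119424d75d576844 : CRef := CRef.mk (Pat.mk 0xc000000080000000800000000 0x10000000180000007c0000000f0000007c0000001800000010 6 7) 0 0 (step_sound _ 131 [(rh0f88566f1a09c677.shift 0 1), (rhced6d86d2069808b.shift 3 0), rhedf6a18f6f88178e] (by decide +kernel))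
noncomputable def rh856cf79165ebf3f0 : CRef := CRef.mk (Pat.mk 0x40000000f00000000 0xee0000007f00000038 6 8) 0 0 (step_sound _ 4 [(rh7d288a353d8899c2.shift 1 0), rh96851dee118c1ba3] (by decide +kernel))
noncomputable def rh84992a92559190fe : CRef := CRef.mk (Pat.mk 0x2000000030000000200000001 0x400000007000000070000000300000003000000030000000300000001 6 3) 0 0 (step_sound _ 129 [(rh69f0587a21bb077f.shift 0 1), rh79877ebd3ef475dd] (by decide +kernel))
noncomputable def rhdd79fd6cacbbb46f : CRef := CRef.mk (Pat.mk 0x60000000c0000000a0000000000000000 0x180000003e0000000f0000000e0000003c0000001c 6 6) 0 0 (step_sound _ 35 [(rh7b1f1fb55310c477.shift 2 0), rhb25c3ef9dc9288b4] (by decide +kernel))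
noncomputable def rhcfe865d9f9b0569d : CRef := CRef.mk (Pat.mk 0xc00000018000000140000001000000000 0x300000007f0000001e0000001c0000007800000028 6 7) 0 0 (step_sound _ 128 [(rhab22b5b56e7b3243.shift 0 3), (rhb25c3ef9dc9288b4.shift 1 0)] (by decide +kernel))
noncomputable def rh886db41f4f7357e5 : CRef := CRef.mk (Pat.mk 0x80000000c000000000000001400000000 0x1c0000003c0000001f000000780000001c0000000c 6 7) 0 0 (step_sound _ 67 [(rh5974029d68103ee7.shift 0 1), (rh752c9303f297f9fa.shift 2 0), rh8818eb43e264257b] (by decide +kernel))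
noncomputable def rh55e3f09137f3062a : CRef := CRef.mk (Pat.mk 0x1000000018000000080000003800000000 0x100000007c000001ff0000003800000020 6 9) 0 0 (step_sound _ 66 [(rh2cb670e5eefc6f52.shift 2 0), (rhc02b3aee7ab87ee1.shift 0 1), (rhd69c262cd33b94b3.shift 0 2)] (by decide +kernel))
noncomputable def rh8d12965a7224c83a : CRef := CRef.mk (Pat.mk 0x1800000018000000080000002000000000 0x18000000ff000001ef0000002000000020 6 9) 0 0 (step_sound _ 101 [(rh2820ca9a6c4f41b4.shift 0 2), (rh588882c60a173ffc.shift 2 0), (rha9e1a5d55b907abf.shift 2 2), rhb5d85289ca26b1be] (by decide +kernel))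
noncomputable def rhef25c460fa63fb95 : CRef := CRef.mk (Pat.mk 0xa00000007000000000 0xf70000007e0000000e 6 8) 0 0 (step_sound _ 35 [rh1f9701c4cf497514, (rh428265de8cd3cd2d.shift 3 1)] (by decide +kernel))
noncomputable def rh8eef18077391dc88 : CRef := CRef.mk (Pat.mk 0x3c0000000000000014000000000000000000000000 0x40000003c0000000e0000001c0000000f0000000e0000000a 6 6) 0 0 (step_sound _ 130 [rh2559e966e5ad0c20, (rheb0810cc63b001d8.shift 1 4)] (by decide +kernel))
noncomputable def rh6f06891ed6db6e61 : CRef := CRef.mk (Pat.mk 0x6800000040 0x70000007e000000e7 6 8) 0 0 (step_sound _ 36 [rh88c620441a3a17ea, (rhe25b0a99195a5d59.shift 3 0)] (by decide +kernel))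
noncomputable def rh3a1cb0ea10b1513f : CRef := CRef.mk (Pat.mk 0x70000000800000008000000000000000000000000 0x40000000f00000018000000080000001c0000001c00000014 6 5) 0 0 (step_sound _ 163 [(rh0a6888916bcef86b.shift 2 0), (rhe25b0a99195a5d59.shift 0 4)] (by decide +kernel))
noncomputable def rh11810e92c8e46c1f : CRef := CRef.mk (Pat.mk 0xf0000000000000008000000000000000000000000 0x140000001c0000003c0000001f0000000c0000000c0000001c0000001c00000014 6 6) 0 0 (step_sound _ 131 [(rh0a6888916bcef86b.shift 2 0), (rh4ab9c4dc4d42970a.shift 0 2), (rhb1a251d9bff81766.shift 2 2), (rhd3815271ee404dcc.shift 1 2)] (by decide +kernel))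
noncomputable def rhe60907c7f9669ed4 : CRef := CRef.mk (Pat.mk 0x38000000000000004000000000 0x1c7000000fe000000e70000004000000040 6 9) 0 0 (step_sound _ 98 [(rh775ca1963e850b80.shift 0 2), (rhff137c455409f0e3.shift 2 0)] (by decide +kernel))
noncomputable def rh5a4204ba5093639a : CRef := CRef.mk (Pat.mk 0x1000000018000000080000002000000000 0x1f0000000fe000001ef0000002000000020 6 9) 0 0 (step_sound _ 101 [(rh2820ca9a6c4f41b4.shift 0 2), (rh352b7f91eba0c81f.shift 2 2), (rha3804abfec7df74a.shift 1 0)] (by decide +kernel))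
noncomputable def rh89f9c7aff9d88eaf : CRef := CRef.mk (Pat.mk 0x200000006000000120000001000000000 0x600000006000000060000001e0000003700000006 6 6) 0 0 (step_sound _ 66 [(rh55a1f6c57a317ce6.shift 1 0), rh90b7179ed187cb22, rhf8f9958de208feb3] (by decide +kernel))
noncomputable def rh1eae86dfe440adb2 : CRef := CRef.mk (Pat.mk 0x300000002000000050000000000000000 0x50000000700000007000000030000000700000007000000070000000600000004 6 3) 0 0 (step_sound _ 161 [(rh47dece01c1595e79.shift 1 0), (rh9fb9dc683e09b5f3.shift 0 2), (rhc7a10ee8d0d37048.shift 0 1)] (by decide +kernel))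
noncomputable def rh01cf8ced872c6241 : CRef := CRef.mk (Pat.mk 0x4000000060000001c0000000c 0x20000001b0000003e000000360000001c0000000c 6 6) 0 0 (step_sound _ 99 [(rh2f68792b6b779e96.shift 2 0), rh7b37756f32452040] (by decide +kernel))
noncomputable def rhc934b269c0e73d9b : CRef := CRef.mk (Pat.mk 0x80000000c000000180000000000000000 0x4000000140000007c0000001f0000001c0000000800000008 6 7) 0 0 (step_sound _ 97 [(rhb739f4f82bb681b4.shift 0 2), (rhea649dfb49198f10.shift 1 0)] (by decide +kernel))
noncomputable def rh7bf29ad584746bc0 : CRef := CRef.mk (Pat.mk 0xf0000000400000008000000000000000000000000 0xc0000000c0000001c0000001f0000000c000000080000001c0000001c00000014 6 5) 0 0 (step_sound _ 131 [(rh0a6888916bcef86b.shift 2 0), (rh89da563484db6020.shift 0 1), (rhb1a251d9bff81766.shift 2 2), (rhd2f04bd8cfbf81b3.shift 0 3)] (by decide +kernel))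
noncomputable def rh3bd6123e7a842bd9 : CRef := CRef.mk (Pat.mk 0x40000000c0000000400000014000000000000000000000000 0x40000000c0000000c0000001f0000001c000000180000001000000010 6 5) 0 0 (step_sound _ 99 [(rh55afc6a59410cf00.shift 2 2), rhfed50f03487f3f2a] (by decide +kernel))
noncomputable def rh736254fd4bbe4ad1 : CRef := CRef.mk (Pat.mk 0x2000000020000000600000002 0x4000000070000000700000003000000060000000700000003 6 3) 0 0 (step_sound _ 128 [rh71cb6b2fa9b3ae56, rhffd04209dc8ea796] (by decide +kernel))
noncomputable def rh13a5aaf92624f1c7 : CRef := CRef.mk (Pat.mk 0x40000000c0000000c0000001800000000 0x100000003c0000003f0000000f0000001800000010 6 6) 0 0 (step_sound _ 65 [rh9e3b3a9a70b6d573, (rhb739f4f82bb681b4.shift 0 1)] (by decide +kernel))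
noncomputable def rh52d196eac70edc27 : CRef := CRef.mk (Pat.mk 0x6000000020000000c0000000400000004 0x780000003e0000007b0000000c0000000c00000004 6 7) 0 0 (step_sound _ 131 [(rh352b7f91eba0c81f.shift 0 3), (rhb009278fdd334770.shift 2 0)] (by decide +kernel))
noncomputable def rh6d09739f568e9449 : CRef := CRef.mk (Pat.mk 0x2000000020000000200000002 0x1000000070000000700000006000000060000000600000006 6 3) 0 0 (step_sound _ 130 [rh9fdf4b366b1cf3c3, (rhbaefcd01e0a8bca3.shift 1 0)] (by decide +kernel))
noncomputable def rh0427fc1b2878eb21 : CRef := CRef.mk (Pat.mk 0x200000002000000020000000200000000 0x400000006000000060000000200000003000000070000000700000004 6 3) 0 0 (step_sound _ 34 [(rh33e98d0e97205a3e.shift 0 1), (rh55afc6a59410cf00.shift 1 0)] (by decide +kernel))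
noncomputable def rh1c60d3459196ae8b : CRef := CRef.mk (Pat.mk 0x200000002000000020000000200000000 0x100000003000000030000000200000003000000070000000700000004 6 3) 0 0 (step_sound _ 34 [(rh55afc6a59410cf00.shift 1 0), (rhaf349dd7709502bf.shift 0 1)] (by decide +kernel))
noncomputable def rhe3ce9e4e865ce01f : CRef := CRef.mk (Pat.mk 0x18000000080000000800000008 0xe40000007f000000ff0000000800000008 6 8) 0 0 (step_sound _ 98 [(rh50fbb5868c909700.shift 2 0), (rhf38e37b591928a0c.shift 0 2)] (by decide +kernel))
noncomputable def rhd2c051b710a40782 : CRef := CRef.mk (Pat.mk 0x100000005000000020000000200000000000000000000000000000000 0x100000007000000060000000200000002000000070000000700000005 6 3) 0 0 (step_sound _ 97 [rhc94dfb5f501cb051, (rhcfdf45280693d3da.shift 0 3)] (by decide +kernel))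
noncomputable def rh3e8426f1ca432b47 : CRef := CRef.mk (Pat.mk 0x200000001c00000010000000000000000600000002 0x600000003c00000010000000100000003e00000077 6 7) 0 0 (step_sound _ 133 [rh26370054250c765f, (rh33e738c4ed385b9f.shift 2 4)] (by decide +kernel))
noncomputable def rhe076173e728fefda : CRef := CRef.mk (Pat.mk 0x18000000000000000800000008000000030000000000000000 0x10000000180000001800000008000000080000001b0000001e00000014 6 5) 0 0 (step_sound _ 163 [rh00cc3c557f52e3ac, (rh2f68792b6b779e96.shift 3 3)] (by decide +kernel))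
noncomputable def rhd96cdd49578b980c : CRef := CRef.mk (Pat.mk 0xa000000020000000e000000040000000000000000 0x180000001e0000003b0000000e0000003c0000001800000010 6 6) 0 0 (step_sound _ 131 [(rh5c5e593799055d58.shift 2 2), rh634d7f83e7f8db6d] (by decide +kernel))
noncomputable def rh93e41547997e1997 : CRef := CRef.mk (Pat.mk 0x2000000020000000200000003000000000 0x2000000020000001fe000000fe0000004f 6 9) 0 0 (step_sound _ 38 [rh31bf53284f0a2fb6, (rh55afc6a59410cf00.shift 5 0)] (by decide +kernel))
noncomputable def rh4d6fdf669d27004c : CRef := CRef.mk (Pat.mk 0x800000008000000080000000800000008000000000000000000000000 0x80000001c0000007c0000001f0000000c000000180000001800000010 6 7) 0 0 (step_sound _ 130 [(rh932754581e0f4330.shift 2 3), rhf2b553abd8191a47] (by decide +kernel))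
noncomputable def rh8e3b1d976c2c4cbf : CRef := CRef.mk (Pat.mk 0x2000000020000000200000002000000000000000000000000 0x3000000030000000300000006000000070000000700000001 6 3) 0 0 (step_sound _ 66 [rh08c75accbceac6f3, (rhd3458b32566d63f7.shift 1 2)] (by decide +kernel))
noncomputable def rh7fa49d2362d0c30f : CRef := CRef.mk (Pat.mk 0x8000000080000000800000008000000030000000000000000 0x10000000180000001800000008000000080000001b0000001e00000014 6 5) 0 0 (step_sound _ 196 [rh00cc3c557f52e3ac, (rh2f68792b6b779e96.shift 3 3)] (by decide +kernel))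
noncomputable def rh1aab0db3647530f7 : CRef := CRef.mk (Pat.mk 0xe00000000000000040000000400000004 0x700000003e00000077000000040000000400000004 6 7) 0 0 (step_sound _ 97 [(rh352b7f91eba0c81f.shift 0 3), (rhcfdf45280693d3da.shift 1 0)] (by decide +kernel))
noncomputable def rh2ac5d4ab37b2986d : CRef := CRef.mk (Pat.mk 0x1e00000010000000080000000000000008 0x4000000140000001f0000003e00000018000000080000000800000008 6 6) 0 0 (step_sound _ 99 [(rh9e3edb185cc347de.shift 3 0), (rhae1dc7761d373688.shift 0 2)] (by decide +kernel))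
noncomputable def rhaeac014a58998cf3 : CRef := CRef.mk (Pat.mk 0x7800000000 0x770000007e0000000e 6 7) 0 0 (step_sound _ 2 [(rh80fcd6d0a18cb2dd.shift 2 0), rha0f541aa9ffae9a1] (by decide +kernel))
noncomputable def rh5bcfd1bd23d511bc : CRef := CRef.mk (Pat.mk 0x78000000400000004000000000 0x370000007e0000004e0000004000000040 6 7) 0 0 (step_sound _ 133 [(rh1f9701c4cf497514.shift 0 2), (rh7b1f1fb55310c477.shift 5 0)] (by decide +kernel))
noncomputable def rh7e236bfa74a2d22d : CRef := CRef.mk (Pat.mk 0x40000000e0000000800000008 0x400000014000000770000003e0000007800000008 6 7) 0 0 (step_sound _ 130 [(rh2145e1d24b96a57e.shift 2 1), rh8651b60ca4cd0dd2] (by decide +kernel))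
noncomputable def rhe4e5aee7d112f7ce : CRef := CRef.mk (Pat.mk 0x1e000000000000000800000000 0x80000003b0000001e000000300000001800000018 6 6) 0 0 (step_sound _ 129 [(rh3244c3cc8379b070.shift 0 3), (rh7be56dea451b252f.shift 1 0)] (by decide +kernel))
noncomputable def rh12cb410d1f4d5769 : CRef := CRef.mk (Pat.mk 0x40000001e0000000000000008 0x20000000300000003f0000001e0000003800000008 6 6) 0 0 (step_sound _ 97 [(rh0dd03a0fe4bb5be9.shift 1 0), (rh3244c3cc8379b070.shift 0 2)] (by decide +kernel))
noncomputable def rh7bbd5b647d86f3a7 : CRef := CRef.mk (Pat.mk 0x4000000000000000a000000020000000a00000000 0x40000007e0000003e0000007b0000000a00000008 6 7) 0 0 (step_sound _ 98 [(rh4a70aea49c133224.shift 1 0), (rhfa35e196e150edb4.shift 0 2)] (by decide +kernel))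
noncomputable def rh74ccb68b76103c15 : CRef := CRef.mk (Pat.mk 0x4000000000000000a000000020000000800000000 0x4000000040000007c0000003e0000007b0000000800000008 6 7) 0 0 (step_sound _ 98 [(rhd1ac2257341302d0.shift 1 0), (rhfa35e196e150edb4.shift 0 2)] (by decide +kernel))
noncomputable def rhf74ffa6e5983eeb7 : CRef := CRef.mk (Pat.mk 0x1000000010000000500000001800000000 0x1000000010000000770000003e00000027 6 7) 0 0 (step_sound _ 37 [(rh55afc6a59410cf00.shift 4 0), rh5e601430b8bc2e39] (by decide +kernel))
noncomputable def rheb801cadf924206a : CRef := CRef.mk (Pat.mk 0xa000000020000000a00000000 0x4000000040000007c0000003e0000007b0000000a0000000a 6 7) 0 0 (step_sound _ 98 [(rh98b64c5d74c79655.shift 1 0), (rhfa35e196e150edb4.shift 0 2)] (by decide +kernel))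
noncomputable def rha845d2c0539caab2 : CRef := CRef.mk (Pat.mk 0x3c00000000 0x670000003e00000067 6 7) 0 0 (step_sound _ 69 [(rh33e738c4ed385b9f.shift 2 1), rh6db5e6cb937903bb] (by decide +kernel))
noncomputable def rhfe2ef4df6d347c09 : CRef := CRef.mk (Pat.mk 0x40000000400000004000000000000000e00000000 0x40000000400000004000000770000003e00000070 6 7) 0 0 (step_sound _ 65 [rh4a0cb3a9508b05dd, (rheea67dfebd0f8008.shift 1 1)] (by decide +kernel))
noncomputable def rh205dc383ce3b31ea : CRef := CRef.mk (Pat.mk 0x1e00000000 0xe00000007e000000e7 6 8) 0 0 (step_sound _ 1 [(rh3d54e7f933686048.shift 1 0), rheb0810cc63b001d8] (by decide +kernel))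
noncomputable def rh7ec584bbeb9ce38d : CRef := CRef.mk (Pat.mk 0x2000000060000001a00000000000000000000000000000000 0x2000000060000001e00000007000000070000000700000001 6 5) 0 0 (step_sound _ 97 [(rh5710f30ba40ee3ec.shift 0 2), (rh73a91115cefcd038.shift 0 1), (rh8cdd36b03d57a2f6.shift 0 1), rha52e1acf7ed5511e] (by decide +kernel))
noncomputable def rh180df8f831fe2482 : CRef := CRef.mk (Pat.mk 0x100000001000000010000000000000003800000000 0x100000001000000010000000770000003e00000007 6 7) 0 0 (step_sound _ 69 [rhb12ffaec36122c99, (rhbe0e43a3bc50a43f.shift 4 1)] (by decide +kernel))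
noncomputable def rh96c84747a3ad56d1 : CRef := CRef.mk (Pat.mk 0x200000002000000000000000e00000000 0x200000002000000730000003e00000074 6 7) 0 0 (step_sound _ 65 [rh4a0cb3a9508b05dd, (rh55afc6a59410cf00.shift 1 0)] (by decide +kernel))
noncomputable def rhbcab0494d78b0abb : CRef := CRef.mk (Pat.mk 0x2000000020000000000000003800000000 0x2000000020000000670000003e00000017 6 7) 0 0 (step_sound _ 69 [(rh932754581e0f4330.shift 4 0), rha4e887c2a2a0f60b] (by decide +kernel))
noncomputable def rhb685aa8712e221c7 : CRef := CRef.mk (Pat.mk 0x6000000000000000a0000000a00000008 0x1000000770000003f0000007a0000000a0000000a00000008 6 7) 0 0 (step_sound _ 131 [(rh499c75226f92534c.shift 1 0), (rha761300b78595edf.shift 1 1), (rhcf72250f78f7d72f.shift 0 1)] (by decide +kernel))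
noncomputable def rhfac6da352d584205 : CRef := CRef.mk (Pat.mk 0x1800000000000000280000002800000028 0x1ef000000fe000001ef000000280000002800000028 6 9) 0 0 (step_sound _ 133 [rh10100dc1fdea7457, (rh499c75226f92534c.shift 3 0), (rh5b80d90965a2c21b.shift 0 1), (rhaac7e64f8151c096.shift 0 3)] (by decide +kernel))
noncomputable def rhb23a650437ef9ff2 : CRef := CRef.mk (Pat.mk 0xa000000020000000800000000 0x1000000010000000780000007e0000007f0000000800000008 6 7) 0 0 (step_sound _ 100 [rh355c44d77d55be9b, (rh5097179b612bed67.shift 1 0), rh62d9a08326752237, (rhc192858dc363f708.shift 0 2), (rhc42297b4a2656f14.shift 0 2), (rhc6338602faf8e7de.shift 0 2)] (by decide +kernel))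
noncomputable def rh3290eb83f8a84c79 : CRef := CRef.mk (Pat.mk 0x2000000060000000200000002 0x500000007000000070000000600000006000000060000000600000002 6 3) 0 0 (step_sound _ 129 [(rh14e0829dc73b6804.shift 0 1), (rh44f453b84f013105.shift 1 0), (rhb8566e9a0302f73d.shift 1 0)] (by decide +kernel))
noncomputable def rh09e15002aedb66eb : CRef := CRef.mk (Pat.mk 0x200000002000000020000000200000002 0x50000000700000007000000030000000700000006000000060000000600000002 6 3) 0 0 (step_sound _ 161 [(rh1f01239ae2eb1687.shift 1 0), (rh39fd5b98275e7a9f.shift 0 1), (rh3ca48e2a6d60153d.shift 0 1), (rh5abfc4c9d959be03.shift 0 1)] (by decide +kernel))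
noncomputable def rhcf28efee64db1c2b : CRef := CRef.mk (Pat.mk 0x2000000060000000200000002 0x500000007000000070000000700000003000000060000000600000002 6 3) 0 0 (step_sound _ 129 [(rh14e0829dc73b6804.shift 0 1), (rh14f80659e6313cc6.shift 1 1), rh3ca48e2a6d60153d, (rhc85cc95794737cf7.shift 0 1)] (by decide +kernel))
noncomputable def rhd8e88f70454c96dc : CRef := CRef.mk (Pat.mk 0xa0000000200000008000000000000000400000000 0x10000000700000007e0000007f000000080000001c0000001c00000014 6 7) 0 0 (step_sound _ 164 [rh28128a3e19931bf5, (rh5097179b612bed67.shift 1 2), (rh62d9a08326752237.shift 0 2), (rhc192858dc363f708.shift 0 4), (rhc42297b4a2656f14.shift 0 4)] (by decide +kernel))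
noncomputable def rh9b055255f21f062f : CRef := CRef.mk (Pat.mk 0x6000000020000000a0000000a0000000800000000 0x390000001f0000007a0000001f0000000a0000000800000008 6 7) 0 0 (step_sound _ 160 [(rh50fbb5868c909700.shift 0 2), rhd8c02b1f5d1e0935] (by decide +kernel))
noncomputable def rh0d31c529c011c9c2 : CRef := CRef.mk (Pat.mk 0x400000004000000140000001400000000 0x400000004000000740000007f0000001c00000008 6 7) 0 0 (step_sound _ 35 [(rh55afc6a59410cf00.shift 2 0), (rh7f047e10541f99f0.shift 0 1)] (by decide +kernel))
noncomputable def rhff7cafbe1fe3297a : CRef := CRef.mk (Pat.mk 0xa000000020000000a0000000a 0x350000001f0000003a0000001a0000000a 6 6) 0 0 (step_sound _ 98 [(rh2f68792b6b779e96.shift 1 0), rh5a63d60437164e75] (by decide +kernel))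
noncomputable def rhd16fa635aa96ef56 : CRef := CRef.mk (Pat.mk 0xa000000020000000a0000000a00000000 0x3d0000001f0000000a0000000a0000000e00000004 6 6) 0 0 (step_sound _ 2 [(rh9f1ff6a5f1324a28.shift 0 1), (rhd3458b32566d63f7.shift 1 0)] (by decide +kernel))
noncomputable def rhc9598f15418899c1 : CRef := CRef.mk (Pat.mk 0xc000000020000000200000002 0x740000003e000000730000000200000002 6 7) 0 0 (step_sound _ 97 [(rh2f68792b6b779e96.shift 1 0), (rh352b7f91eba0c81f.shift 0 2)] (by decide +kernel))
noncomputable def rh41eb7b614d3b6635 : CRef := CRef.mk (Pat.mk 0xc0000000a000000000000000800000008 0x700000003e0000007b000000080000000800000008 6 7) 0 0 (step_sound _ 132 [(rh02c669351ff79c08.shift 0 1), (rh317c4d3b549861df.shift 0 3), (rh477487b2c134cd01.shift 3 0), (rh96c1151e6736a65d.shift 1 0)] (by decide +kernel))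
noncomputable def rhaf798c041bec95ba : CRef := CRef.mk (Pat.mk 0x40000000a000000020000000a 0x3d0000001f0000001a0000000a0000000a 6 6) 0 0 (step_sound _ 97 [rh2669bb97c83f8432, (rh2f68792b6b779e96.shift 1 0)] (by decide +kernel))
noncomputable def rh57b93e66a2f4dd33 : CRef := CRef.mk (Pat.mk 0x80000000a0000000a0000000a00000000 0x5000000070000001f0000007a0000000e0000000e00000004 6 7) 0 0 (step_sound _ 129 [(rh1741680720c097b4.shift 0 1), rh2fbddababb45574a, rh5abfc4c9d959be03, (rhd164152e216e11e5.shift 1 0)] (by decide +kernel))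
noncomputable def rh204bb769a7e9b2e5 : CRef := CRef.mk (Pat.mk 0x80000000a0000000a0000000a000000020000000000000000 0x80000007a0000003f0000000e000000070000000300000003 6 7) 0 0 (step_sound _ 98 [(rh932754581e0f4330.shift 2 2), rhf73a05e6057f2bb8] (by decide +kernel))
noncomputable def rh0a57c265da6c8f78 : CRef := CRef.mk (Pat.mk 0x80000000a0000000200000002000000020000000000000000 0x780000001f0000000600000002000000060000000600000004 6 7) 0 0 (step_sound _ 34 [rh1069793f7c6eec90, (rhd3458b32566d63f7.shift 1 1)] (by decide +kernel))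
noncomputable def rhc0320a7a17a31eb6 : CRef := CRef.mk (Pat.mk 0x1400000004000000140000001c 0x20000000320000003e000000f40000003f0000001c 6 8) 0 0 (step_sound _ 97 [rh12c68fd10c29b010, (rh50fbb5868c909700.shift 1 0)] (by decide +kernel))
noncomputable def rhba0e3b4488635dbd : CRef := CRef.mk (Pat.mk 0xe00000004000000040000000400000000 0x700000007f0000007e0000001c0000000c00000008 6 7) 0 0 (step_sound _ 35 [(rh55afc6a59410cf00.shift 2 0), (rh6c2ca09d6bdb9eea.shift 0 1)] (by decide +kernel))
noncomputable def rh0e85e751df3eb26d : CRef := CRef.mk (Pat.mk 0xa000000020000000200000002 0x3d0000001f0000003a0000000200000002 6 6) 0 0 (step_sound _ 98 [(rh2f68792b6b779e96.shift 1 0), rhff94ef9c201f4a80] (by decide +kernel))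
noncomputable def rh135448955992a08f : CRef := CRef.mk (Pat.mk 0x8000000080000000a0000000a000000020000000100000000 0x8000000780000001f0000000e000000060000000300000003 6 7) 0 0 (step_sound _ 33 [rh932754581e0f4330, rhfd10f4418abdb1e2] (by decide +kernel))
noncomputable def rhc8b5c0b6f7f78ee4 : CRef := CRef.mk (Pat.mk 0x8000000080000000a00000008 0x40000000c0000000c000000780000001f0000000c 6 7) 0 0 (step_sound _ 130 [rh93ce42b527ed3561, (rhffd04209dc8ea796.shift 2 0)] (by decide +kernel))
noncomputable def rh0a3819ad80b77571 : CRef := CRef.mk (Pat.mk 0xa000000020000000a0000000a 0x3d0000001f000000320000001a0000000a 6 6) 0 0 (step_sound _ 98 [(rh2f68792b6b779e96.shift 1 0), rh9ddc3978d1b16209] (by decide +kernel))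
noncomputable def rh017429492b832114 : CRef := CRef.mk (Pat.mk 0xf00000009000000000000000000000000 0x80000001c0000000f0000000f0000001c0000001c00000018 6 5) 0 0 (step_sound _ 163 [(rh33e738c4ed385b9f.shift 0 4), rhd3326662841a24a2] (by decide +kernel))
noncomputable def rh4655358e0ef99593 : CRef := CRef.mk (Pat.mk 0xf00000000000000000000000a00000000 0x1c0000000f00000018000000180000001f00000004 6 5) 0 0 (step_sound _ 99 [rh7eba832750935fed, (rhe25b0a99195a5d59.shift 0 3)] (by decide +kernel))
noncomputable def rhec5a779e75f3333d : CRef := CRef.mk (Pat.mk 0xf0000000800000008 0x100000001c0000001c0000001c0000000f0000000c00000008 6 5) 0 0 (step_sound _ 99 [(rh1dffa6d8a02b5f3a.shift 2 0), (rh33e738c4ed385b9f.shift 0 2)] (by decide +kernel))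
noncomputable def rh371b447922205375 : CRef := CRef.mk (Pat.mk 0x100000001e0000000000000000 0x1000000038000000380000001f0000001e0000003800000010 6 6) 0 0 (step_sound _ 36 [rh5c5250123634c343, (rhe25b0a99195a5d59.shift 1 1)] (by decide +kernel))
noncomputable def rh66b302f22681b271 : CRef := CRef.mk (Pat.mk 0x90000000c0000000800000000 0x140000001c0000001c0000007e0000000f0000000c0000000c0000000c 6 7) 0 0 (step_sound _ 131 [(rh03dfdf12d5937476.shift 2 0), (rh32431e66bbf434a4.shift 2 1), (rh33e2e68d6dfbb63c.shift 0 1), (rhc85cc95794737cf7.shift 2 1), (rhe1bcd80b5c7d4f4c.shift 1 0)] (by decide +kernel))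
noncomputable def rh195cdf5785787856 : CRef := CRef.mk (Pat.mk 0x180000000a000000080000000800000008000000000000000000000000 0x180000000f0000000c00000008000000080000001c0000001c00000014 6 5) 0 0 (step_sound _ 194 [(rh53b3c253cb0c65f4.shift 0 6), (rhbba7d23481996066.shift 2 0)] (by decide +kernel))
noncomputable def rhe5e2d7a746d6b957 : CRef := CRef.mk (Pat.mk 0x20000000a0000000a00000002 0x50000000f0000007a0000001f00000002 6 7) 0 0 (step_sound _ 98 [rh25a95c3cf753838b, (rh2f68792b6b779e96.shift 1 0)] (by decide +kernel))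
noncomputable def rh97edf64b9f71a8a2 : CRef := CRef.mk (Pat.mk 0x20000000a0000000a00000002 0x400000006000000060000007a0000001f00000006 6 7) 0 0 (step_sound _ 130 [rh81643460d1204063, (rhbaefcd01e0a8bca3.shift 1 0)] (by decide +kernel))
noncomputable def rhc5b405f1d4e08ede : CRef := CRef.mk (Pat.mk 0x20000000a0000000a00000002 0x100000003000000030000007a0000001f00000006 6 7) 0 0 (step_sound _ 128 [rh606949c5f4b95d39, rhffd04209dc8ea796] (by decide +kernel))
noncomputable def rh8a5cde5201252fcd : CRef := CRef.mk (Pat.mk 0x20000000a0000000a000000000000000600000000 0xa0000000a0000000a0000007b0000003f00000074 6 7) 0 0 (step_sound _ 35 [(rh90c4546f59aef0d0.shift 1 0), rhb12b6feead69bbcb, rhe4f57d2acbc4e1ac] (by decide +kernel))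
noncomputable def rhad383be9d686061c : CRef := CRef.mk (Pat.mk 0x80000000c0000000b00000000000000000000000000000000 0x80000000c0000000f0000001c0000001c0000001c00000010 6 5) 0 0 (step_sound _ 99 [(rh5f11ee373cbffcaa.shift 0 2), (rh89cf5152879421f3.shift 2 0), (rh8cdd36b03d57a2f6.shift 2 1), (rha4a12d84bf1ba206.shift 0 1)] (by decide +kernel))
noncomputable def rh58f8b4d1a0aa491c : CRef := CRef.mk (Pat.mk 0x20000000700000000000000000 0x1000000010000000ff000000fe0000000f00000008 6 8) 0 0 (step_sound _ 67 [(rh21460d2d48a35cb8.shift 2 0), (rha4e887c2a2a0f60b.shift 0 1), (rhec46bd5500c722c9.shift 2 2)] (by decide +kernel))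
noncomputable def rh00d408725a513cb5 : CRef := CRef.mk (Pat.mk 0x200000002000000020000000200000002000000000000000000000000 0x300000003000000070000000600000006000000030000000300000001 6 3) 0 0 (step_sound _ 192 [(rh50fbb5868c909700.shift 0 3), rha6e4ed44f7b6a7de] (by decide +kernel))
noncomputable def rhc140d9e7c9ac6289 : CRef := CRef.mk (Pat.mk 0x20000000a0000000a00000000000000000000000000000000 0x500000007000000070000000a0000000e0000000e0000000e0000000c0000000400000004 6 4) 0 0 (step_sound _ 225 [(rh1741680720c097b4.shift 0 4), (rh5abfc4c9d959be03.shift 0 3), (rh605ef5a5ae48f4b0.shift 1 0), (rhced6d86d2069808b.shift 1 3)] (by decide +kernel))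
noncomputable def rh04b5a123ea5003fa : CRef := CRef.mk (Pat.mk 0xf00000004 0x700000007f000000fc 6 8) 0 0 (step_sound _ 36 [rh11aa37d4829402ae, (rh3fc3a7fb6866dcd4.shift 1 0), rh4ad5fc38f1b69f65, (rhdbe30b89b8872db3.shift 1 0)] (by decide +kernel))
noncomputable def rh8e2aac60c4a01220 : CRef := CRef.mk (Pat.mk 0x20000000200000002000000020000000000000000 0x300000003000000070000000600000006000000060000000200000002 6 3) 0 0 (step_sound _ 192 [rh46aa47d8d369db75, (rhffd04209dc8ea796.shift 0 2)] (by decide +kernel))
noncomputable def rhee0f66b55c275a5a : CRef := CRef.mk (Pat.mk 0x1000000010000000500000003000000000 0x1000000010000000770000003e0000000f 6 7) 0 0 (step_sound _ 35 [rh551591afa7e9bd9a, (rh932754581e0f4330.shift 3 0)] (by decide +kernel))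
noncomputable def rh71a2d025e53ff683 : CRef := CRef.mk (Pat.mk 0xc00000004000000040000001400000000 0x100000003c0000000f0000000c0000001c0000001c 6 6) 0 0 (step_sound _ 99 [(rh71222050f2c63a3a.shift 2 0), rh79ea95e000807b70] (by decide +kernel))
noncomputable def rh1527d809b137dbb1 : CRef := CRef.mk (Pat.mk 0x200000002000000020000000600000000 0x600000006000000060000000300000003000000070000000600000002 6 3) 0 0 (step_sound _ 161 [rh2778abb7d7c839bf, (rhd3458b32566d63f7.shift 1 1)] (by decide +kernel))
noncomputable def rhd8d4a3e18b9bc051 : CRef := CRef.mk (Pat.mk 0x2000000020000000a00000000 0x1000000070000000700000007000000060000000e0000000e 6 4) 0 0 (step_sound _ 129 [rh32e32f03ae89b559, (rh50b4c4058f77120d.shift 1 0), rh5abfc4c9d959be03] (by decide +kernel))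
noncomputable def rh7ddc530d66b22215 : CRef := CRef.mk (Pat.mk 0xe00000004000000140000000400000000 0x300000003f0000003f0000001c0000000c00000008 6 6) 0 0 (step_sound _ 132 [(rhaf9f2efc81a8312b.shift 0 3), rhfb85b00d82a1f171] (by decide +kernel))
noncomputable def rh06fc66e3678f9bd5 : CRef := CRef.mk (Pat.mk 0x1c00000008000000080000002800000000 0x200000007f0000007e000000180000003800000030 6 7) 0 0 (step_sound _ 36 [rh217f7934a512393b, (rh55afc6a59410cf00.shift 3 0)] (by decide +kernel))
noncomputable def rh461482ecc5c54f5a : CRef := CRef.mk (Pat.mk 0x80000000800000008000000000000000000000000 0x140000001c0000001f0000007c00000008000000180000001800000010 6 7) 0 0 (step_sound _ 67 [(rh1741680720c097b4.shift 2 2), (rh5ad9898cc32ef511.shift 2 0), (rhb01c8921475706a1.shift 0 1), (rhc16750d25dcb9f19.shift 3 0)] (by decide +kernel))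
noncomputable def rha1d1e0ca93c2d7aa : CRef := CRef.mk (Pat.mk 0x80000000c00000008000000280000000800000000 0x18000000180000000f0000003e000000380000000800000008 6 6) 0 0 (step_sound _ 164 [(rh2f68792b6b779e96.shift 3 2), rhb105fa6bb0dc69be] (by decide +kernel))
noncomputable def rha6a1a25c0c5e7d58 : CRef := CRef.mk (Pat.mk 0x20000000200000002000000020000000000000000 0x200000003000000070000000700000006000000060000000200000002 6 3) 0 0 (step_sound _ 160 [rh4def23ab09cc1832, (rh50fbb5868c909700.shift 0 2)] (by decide +kernel))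
noncomputable def rh700f008627649a77 : CRef := CRef.mk (Pat.mk 0x2000000020000000200000002000000000000000000000000 0x100000007000000070000000600000002000000060000000600000004 6 3) 0 0 (step_sound _ 192 [rh1aa7645d07f45dd6, (rh50fbb5868c909700.shift 0 3)] (by decide +kernel))
noncomputable def rhf0e8ed10c96afab6 : CRef := CRef.mk (Pat.mk 0xe00000004000000040000000400000000 0xf00000007e0000007f0000001c0000000c00000008 6 8) 0 0 (step_sound _ 132 [(rh3fc3a7fb6866dcd4.shift 1 3), (rhaf9f2efc81a8312b.shift 0 3), (rhcdb368c5e68fbcfe.shift 1 0), (rhdc1641106d7e5aa2.shift 1 3)] (by decide +kernel))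
noncomputable def rhf4e6e43081e95de6 : CRef := CRef.mk (Pat.mk 0xe00000004000000040000001400000000 0x100000007f0000003e0000000c0000001c00000018 6 7) 0 0 (step_sound _ 99 [(rh4623c30ddc32f114.shift 1 0), (rh6292bd8784ece55f.shift 0 3)] (by decide +kernel))
noncomputable def rhbf28fb4e1af39189 : CRef := CRef.mk (Pat.mk 0xc000000040000000c0000001800000000 0x100000007c0000003e0000000f0000001800000010 6 7) 0 0 (step_sound _ 99 [(rh2e840919ac68a2db.shift 0 1), (rh55afc6a59410cf00.shift 3 0)] (by decide +kernel))
noncomputable def rhcc4debb6fc7d3eb9 : CRef := CRef.mk (Pat.mk 0xe00000004000000140000000400000000 0x300000003e000000370000001c0000000e0000000a 6 6) 0 0 (step_sound _ 35 [rh137d22b41e17faf2, (rh55afc6a59410cf00.shift 2 0)] (by decide +kernel))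
noncomputable def rh39227f47722fff3d : CRef := CRef.mk (Pat.mk 0xe00000004000000040000001400000000 0x100000003f0000003f0000000c0000001c00000018 6 6) 0 0 (step_sound _ 132 [rh25b5d3a6a885eed6, (rhaf9f2efc81a8312b.shift 0 3)] (by decide +kernel))
noncomputable def rh99bfff0e0874b450 : CRef := CRef.mk (Pat.mk 0x40000000400000014000000000000000000000000 0xc0000000c0000000c0000001c0000000f0000000e0000000a 6 5) 0 0 (step_sound _ 66 [(rh15f443a9a462a99b.shift 0 1), (rh2bd1c6cb9723ed05.shift 0 1), (rh6c59ce14113da07f.shift 2 0), (rhcab3157f7bdcba3e.shift 1 0)] (by decide +kernel))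
noncomputable def rh4e38fc72b2bfb223 : CRef := CRef.mk (Pat.mk 0xc00000004000000140000000400000000 0x320000003e000000370000001c0000000c00000008 6 6) 0 0 (step_sound _ 129 [rh2f04825cf8607f55, (rh50fbb5868c909700.shift 1 1)] (by decide +kernel))
noncomputable def rhab0d281efb8b5fa9 : CRef := CRef.mk (Pat.mk 0x3800000010000000000000003c00000000 0x3e00000074000000060000003e00000007 6 7) 0 0 (step_sound _ 1 [(rh80fcd6d0a18cb2dd.shift 1 0), rhda64cc5667b52153] (by decide +kernel))
noncomputable def rh58c0fd6fa3c0b54e : CRef := CRef.mk (Pat.mk 0x3800000010000000000000003c00000000 0x3e0000001e000000070000003e00000006 6 6) 0 0 (step_sound _ 65 [(rh3f8766e6ecb455ce.shift 1 1), rh8c515cd1ca8d4dea] (by decide +kernel))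
noncomputable def rh20c75369c597b2ac : CRef := CRef.mk (Pat.mk 0x200000003000000020000000000000000 0x50000000700000007000000070000000300000003000000030000000300000001 6 3) 0 0 (step_sound _ 161 [(rh03dfdf12d5937476.shift 0 1), (rh42ab489a1be3958e.shift 0 2), (rh68a777751bfeafdf.shift 0 2), rhc4526fc8abf298b6] (by decide +kernel))
noncomputable def rhe5151c96abdea5d2 : CRef := CRef.mk (Pat.mk 0x2000000030000000200000000000000000000000000000000 0x30000000300000003000000030000000300000003000000070000000700000004 6 3) 0 0 (step_sound _ 97 [(rh79bf920132cab629.shift 0 3), rh89cf5152879421f3, (rhe286c75f2739cce2.shift 0 2)] (by decide +kernel))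
noncomputable def rh9b9d00427563617d : CRef := CRef.mk (Pat.mk 0x200000002000000060000000200000000000000000000000000000000 0x200000002000000060000000600000007000000070000000700000004 6 3) 0 0 (step_sound _ 97 [(rh10452bc14d0b4b6a.shift 0 1), rh8a1bd34420cccc7f, (rh8cdd36b03d57a2f6.shift 0 1), (rhd29a1fb688eae70f.shift 1 2)] (by decide +kernel))
noncomputable def rh00572033924112f0 : CRef := CRef.mk (Pat.mk 0x300000001800000038000000100000001800000000 0xf0000000180000003f000000770000001e00000004 6 8) 0 0 (step_sound _ 166 [(rh18965a982d73c794.shift 3 4), rh1f325e0f3e056dd5] (by decide +kernel))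
noncomputable def rh2ca3aa432aaccc48 : CRef := CRef.mk (Pat.mk 0x80000000e000000080000000c000000000000000000000000 0x80000000c0000000e0000003e0000000f000000020000000200000002 6 6) 0 0 (step_sound _ 130 [(rh5c5e593799055d58.shift 2 3), rh8f666d9a246f5c97] (by decide +kernel))
noncomputable def rh97c9e0d60ca2bf5c : CRef := CRef.mk (Pat.mk 0xc000000180000000c0000000000000000 0xc0000001f0000003f0000003300000012 6 6) 0 0 (step_sound _ 65 [(rh53b3c253cb0c65f4.shift 0 2), rhca7b093a94043019] (by decide +kernel))
noncomputable def rhdd8dbaa1c2a29ea1 : CRef := CRef.mk (Pat.mk 0x100000003800000000 0xff000000fe000001c7 6 9) 0 0 (step_sound _ 34 [(rh096767d96a1b3292.shift 2 0), rh775ca1963e850b80] (by decide +kernel))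
noncomputable def rhb0eae9621a908e4d : CRef := CRef.mk (Pat.mk 0x700000006000000040000000400000000 0xc0000000c0000000c000000070000001e0000000c0000000c00000008 6 5) 0 0 (step_sound _ 99 [(rh1adc8391535f5fb2.shift 1 0), (rhf48373e13d2bc128.shift 0 3)] (by decide +kernel))
noncomputable def rh9ff949b1e8e47cae : CRef := CRef.mk (Pat.mk 0x8000000080000000e0000000c 0x170000001f0000007c0000000e0000000c 6 7) 0 0 (step_sound _ 98 [rh033be36e768cec15, (rh50fbb5868c909700.shift 2 0)] (by decide +kernel))
noncomputable def rha77b6dcd23725bfd : CRef := CRef.mk (Pat.mk 0x18000000100000001000000010 0x27000000fe000000ff0000001000000010 6 8) 0 0 (step_sound _ 101 [(rh2f68792b6b779e96.shift 4 0), (rh6f5b630944e294cc.shift 0 2)] (by decide +kernel))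
noncomputable def rha514f8dba0ea8950 : CRef := CRef.mk (Pat.mk 0xc0000000800000008000000000000000000000000 0x80000000c0000000c0000000f0000003c0000001c00000014 6 6) 0 0 (step_sound _ 67 [(rh1f3a6ba70a310ab1.shift 2 0), (rh641b5241be04eec6.shift 0 1), (rh8cdd36b03d57a2f6.shift 2 0), (rha613ffd40b6c9d24.shift 2 0)] (by decide +kernel))
noncomputable def rhedaf4fd22f696f90 : CRef := CRef.mk (Pat.mk 0xc0000001e000000180000000000000000 0x8000000080000000c0000001e0000001b0000000f0000000e 6 5) 0 0 (step_sound _ 35 [(rh7b1f1fb55310c477.shift 2 0), rhe33c9f4c7627940d] (by decide +kernel))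
noncomputable def rh36ce7d56fc0dab8f : CRef := CRef.mk (Pat.mk 0x1c00000038000000100000000000000000 0x1c0000003f0000007f0000000600000006 6 7) 0 0 (step_sound _ 98 [(rha9b45fc165e16ab9.shift 1 0), (rhcc2be1f880c5ea3e.shift 0 2), (rhf56e6bc5d2f7fe77.shift 0 2)] (by decide +kernel))
noncomputable def rhc46b61bcbcf6c641 : CRef := CRef.mk (Pat.mk 0x3000000020000000200000000000000000000000000000000 0x100000003000000030000000200000002000000070000000700000005 6 3) 0 0 (step_sound _ 97 [(rh50fbb5868c909700.shift 0 3), rhbba7d23481996066] (by decide +kernel))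
noncomputable def rh63107cf1f03b249d : CRef := CRef.mk (Pat.mk 0x2000000030000000200000002 0x50000000700000007000000070000001e000000030000000300000002 6 5) 0 0 (step_sound _ 129 [(rh1741680720c097b4.shift 0 1), rh1775efe41f56ac70, (rh32431e66bbf434a4.shift 0 1), (rh44f453b84f013105.shift 1 0)] (by decide +kernel))
noncomputable def rh458c5db3ff5327ab : CRef := CRef.mk (Pat.mk 0x1800000038000000100000001000000000 0x1000000010000000180000003f000000f70000003800000008 6 8) 0 0 (step_sound _ 35 [(rh932754581e0f4330.shift 3 0), (rhb7fccbb677e762ea.shift 0 1)] (by decide +kernel))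
noncomputable def rhf9c24750b968eb06 : CRef := CRef.mk (Pat.mk 0x7000000040000000400000000 0xa0000000e0000001e000000070000003c0000000f0000000a 6 6) 0 0 (step_sound _ 130 [rh3ca4c10fdf355329, (rh4017de503635a93b.shift 0 1), (rhc85cc95794737cf7.shift 1 1), (rhced6d86d2069808b.shift 2 0)] (by decide +kernel))
noncomputable def rha415ffddcd2affd6 : CRef := CRef.mk (Pat.mk 0x400000000000000100000003800000000 0x400000004000000ff000000fe00000007 6 8) 0 0 (step_sound _ 34 [rh2ca301d628ef7a86, rh775ca1963e850b80, (rhe6bdd62e1711df0b.shift 2 1), (rhec46bd5500c722c9.shift 1 1)] (by decide +kernel))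
noncomputable def rh5aa83a5881fe6db5 : CRef := CRef.mk (Pat.mk 0x60000001c000000080000000c00000000 0x60000001f0000007f0000001f00000003 6 7) 0 0 (step_sound _ 68 [rh0da2e59bc176bb1b, (rh3c3e23a02e82b2ed.shift 0 2), (rh69012675dfdb1a5b.shift 0 1)] (by decide +kernel))
noncomputable def rheb353260d3b80e8d : CRef := CRef.mk (Pat.mk 0x3000000000000000200000002000000000000000000000000 0x100000003000000030000000200000002000000070000000700000005 6 3) 0 0 (step_sound _ 161 [(rh50fbb5868c909700.shift 0 3), rhbba7d23481996066] (by decide +kernel))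
noncomputable def rh9599294d1bef6853 : CRef := CRef.mk (Pat.mk 0xc00000008000000080000000c00000000 0xc0000000c0000003f0000003f00000013 6 6) 0 0 (step_sound _ 36 [rh3e50a038ba7d8ed0, (rh55afc6a59410cf00.shift 3 0)] (by decide +kernel))
noncomputable def rh51c465be28d4d98d : CRef := CRef.mk (Pat.mk 0x4000000040000000e0000000000000000 0x4000000f70000007e000000f300000002 6 8) 0 0 (step_sound _ 68 [(rh3fc3a7fb6866dcd4.shift 1 1), (rh4a0cb3a9508b05dd.shift 1 1), rhae036cc4ef671676] (by decide +kernel))
noncomputable def rh1864e4c677b30864 : CRef := CRef.mk (Pat.mk 0xc0000000c000000080000000000000000 0xc0000000c0000003c0000001f0000001f 6 6) 0 0 (step_sound _ 35 [(rh7b1f1fb55310c477.shift 2 0), rhcfbea19f509e11c8] (by decide +kernel))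
noncomputable def rhbe47afb675b8c3c1 : CRef := CRef.mk (Pat.mk 0x1c00000000 0xe70000007e000000e7 6 8) 0 0 (step_sound _ 37 [rh311b7fb6883a242e, rh775ca1963e850b80, (rha93a5dd541ab8209.shift 2 0)] (by decide +kernel))
noncomputable def rhc2c2eeb25ae7bf61 : CRef := CRef.mk (Pat.mk 0x180000001e000000100000000000000000 0x180000001e0000001f0000003c00000038 6 6) 0 0 (step_sound _ 36 [rh023e01672e497271, (rh7b1f1fb55310c477.shift 3 0)] (by decide +kernel))
noncomputable def rh1798da140fcd772d : CRef := CRef.mk (Pat.mk 0x600000006000000040000000000000000 0x40000000600000006000000070000003e0000000e 6 6) 0 0 (step_sound _ 34 [(rh7b1f1fb55310c477.shift 1 0), rhe81dfc0a63bb579e] (by decide +kernel))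
noncomputable def rh42f1ac2ea08e80a9 : CRef := CRef.mk (Pat.mk 0x6000000000000000e000000180000000000000000 0x240000002600000073000000fe0000001f0000001000000010 6 8) 0 0 (step_sound _ 100 [(rh4dde45b6cee3e19c.shift 0 2), (rh8ea5e4a7794c5a80.shift 2 0)] (by decide +kernel))
noncomputable def rh1626dc96ea4d3a2b : CRef := CRef.mk (Pat.mk 0x100000001e00000000000000000000000000000000 0x1000000010000000180000001e0000003f000000380000003800000018 6 6) 0 0 (step_sound _ 100 [rhb96e0fc334a287d7, (rhe25b0a99195a5d59.shift 1 3)] (by decide +kernel))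
noncomputable def rhee08865ca70ce73d : CRef := CRef.mk (Pat.mk 0x800000020000000300000001800000010 0x80000006f0000003f0000001e00000010 6 7) 0 0 (step_sound _ 67 [(rh00816d89044311ce.shift 0 1), (rh6f1cbe15c631ee70.shift 3 0)] (by decide +kernel))
noncomputable def rh4b6ccc4208bfe84d : CRef := CRef.mk (Pat.mk 0x80000001c00000000 0x1ff000000ff000001e0 6 9) 0 0 (step_sound _ 37 [(rh3fc3a7fb6866dcd4.shift 2 0), (rh915c3ff3d4fe3a39.shift 0 1), (rh9c94213f6896c74a.shift 2 0)] (by decide +kernel))
noncomputable def rh58813fc22ac00b8a : CRef := CRef.mk (Pat.mk 0xc000000080000001800000000000000000000000000000000 0xc0000000f0000007c0000000f0000001c0000001c00000014 6 7) 0 0 (step_sound _ 99 [(rh80650b8e93363f1e.shift 0 2), (rha34c4b685132e310.shift 0 2), (rhc05d451ce3dd5e48.shift 2 0)] (by decide +kernel))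
noncomputable def rh5aef53f32c66ea21 : CRef := CRef.mk (Pat.mk 0x3000000018000000100000003c00000000 0xf0000000180000001c000000ff00000007 6 8) 0 0 (step_sound _ 134 [(rh18965a982d73c794.shift 3 3), rhec0f150ffdda098a] (by decide +kernel))
noncomputable def rh680751a0c81e2368 : CRef := CRef.mk (Pat.mk 0x4000000020000001e00000000000000000000000000000000 0x4000000060000001e00000003000000070000000700000005 6 5) 0 0 (step_sound _ 97 [rh984bfc6de6c2c524, (rheb0810cc63b001d8.shift 0 3)] (by decide +kernel))
noncomputable def rh5b85ac987260870e : CRef := CRef.mk (Pat.mk 0x2000000060000000200000002 0x400000007000000070000000700000006000000060000000200000002 6 3) 0 0 (step_sound _ 129 [(rh44f453b84f013105.shift 1 0), (rh64bc0dab78a08b48.shift 0 1), rhb67cb32759fb664f, (rhc85cc95794737cf7.shift 0 1)] (by decide +kernel))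
noncomputable def rh076ec28aa0e5437e : CRef := CRef.mk (Pat.mk 0x2000000070000000200000002 0x500000007000000070000000600000006000000070000000300000002 6 3) 0 0 (step_sound _ 129 [(rh19425efbd4f76f8f.shift 0 1), (rh44f453b84f013105.shift 1 0), (rh68a777751bfeafdf.shift 0 1)] (by decide +kernel))
noncomputable def rhddb295b5ec3304ad : CRef := CRef.mk (Pat.mk 0x180000000000000038000000000000000000000000 0x10000000180000000f0000007c0000001c0000001c00000014 6 7) 0 0 (step_sound _ 131 [(rh1b9022be4f7af407.shift 2 0), (rha9fbfd4bb8cf890b.shift 0 3)] (by decide +kernel))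
noncomputable def rh987e7d582fda8532 : CRef := CRef.mk (Pat.mk 0x4000000080000000f00000000000000000000000000000000 0x40000000c0000000f000000180000001c0000001c00000014 6 5) 0 0 (step_sound _ 99 [(rhc05d451ce3dd5e48.shift 2 0), (rhe25b0a99195a5d59.shift 0 3)] (by decide +kernel))
noncomputable def rhc69ebda51d6ec2a0 : CRef := CRef.mk (Pat.mk 0x4000000020000001e00000000000000000000000000000000 0x4000000060000001e00000003000000070000000700000005 6 5) 0 0 (step_sound _ 97 [rhc94dfb5f501cb051, (rheb0810cc63b001d8.shift 0 3)] (by decide +kernel))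
noncomputable def rh5310752009859b6b : CRef := CRef.mk (Pat.mk 0x7000000020 0x38f000001fe000001f7 6 10) 0 0 (step_sound _ 35 [rh2efad3051cff7df1, rh3918eeb6c53434d8, (rhe8ab71c4076c7ec8.shift 3 0)] (by decide +kernel))
noncomputable def rh97ad1986540fd573 : CRef := CRef.mk (Pat.mk 0x2000000060000000300000002 0x400000006000000070000000300000007000000070000000300000002 6 3) 0 0 (step_sound _ 128 [(rh919ac74d9bd8c450.shift 0 1), rhffd04209dc8ea796] (by decide +kernel))
noncomputable def rh6c38779a7b6e043f : CRef := CRef.mk (Pat.mk 0x7000000020 0xf000000fe000001ff 6 9) 0 0 (step_sound _ 35 [rh3918eeb6c53434d8, (rh42d32bf970c9c157.shift 2 0), (rh775ca1963e850b80.shift 1 0), (rha03f6e28ea70fc7d.shift 2 0)] (by decide +kernel))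
noncomputable def rha17980f7b4b9423e : CRef := CRef.mk (Pat.mk 0x400000007000000040000000600000000 0x4000000070000007f0000003e00000078 6 7) 0 0 (step_sound _ 35 [(rh55afc6a59410cf00.shift 2 0), rh97fbc002008b0a7b] (by decide +kernel))
noncomputable def rhe868fa41af24b81b : CRef := CRef.mk (Pat.mk 0x7000000020000000600000000 0x10000000700000007000000070000000600000007000000030000000600000004 6 3) 0 0 (step_sound _ 129 [(rh115c43e13eb9d2a1.shift 0 1), (rh55afc6a59410cf00.shift 1 0)] (by decide +kernel))
noncomputable def rh85e093005b2e6cc1 : CRef := CRef.mk (Pat.mk 0x7000000020000000200000000000000000000000000000000 0x400000007000000030000000200000002000000070000000700000005 6 3) 0 0 (step_sound _ 97 [(rh2f68792b6b779e96.shift 1 3), rhc05d451ce3dd5e48] (by decide +kernel))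
noncomputable def rh0fae7dfd2481efec : CRef := CRef.mk (Pat.mk 0x3800000000000000700000000000000000 0x300000003000000030000000380000001f000000fc0000002f00000004 6 8) 0 0 (step_sound _ 99 [(rh9f5e9b86f8715b6b.shift 3 1), (rhb3888086d5460b3f.shift 0 2), rhea6077f8c251a006] (by decide +kernel))
noncomputable def rhc0b4681adbc79a40 : CRef := CRef.mk (Pat.mk 0x2000000070000000200000002 0x40000000700000007000000070000001e000000070000000200000002 6 5) 0 0 (step_sound _ 129 [(rh1741680720c097b4.shift 0 1), (rh44f453b84f013105.shift 1 0), (rh64bc0dab78a08b48.shift 0 1), rh724d6ed95fc6d924] (by decide +kernel))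
noncomputable def rh0fc0a4d1525f43e7 : CRef := CRef.mk (Pat.mk 0x200000000000000020000000300000000 0x500000007000000070000000200000002000000030000000300000001 6 3) 0 0 (step_sound _ 97 [rh932754581e0f4330, (rh9fb9dc683e09b5f3.shift 0 1)] (by decide +kernel))
noncomputable def rhcd73b1fae15d2e7a : CRef := CRef.mk (Pat.mk 0x1e00000000 0x70000007e000000ee 6 8) 0 0 (step_sound _ 65 [(rh3244c3cc8379b070.shift 0 1), (rhe79590487a395ecc.shift 1 0)] (by decide +kernel))
noncomputable def rh5a3838f97a0a62d4 : CRef := CRef.mk (Pat.mk 0x1e00000000 0x70000000ff0000003c 6 8) 0 0 (step_sound _ 4 [rhcd796775d983042d, (rhe25b0a99195a5d59.shift 1 0)] (by decide +kernel))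
noncomputable def rh9c0b09e6156def5b : CRef := CRef.mk (Pat.mk 0x3c0000001c000000080000000000000000 0x200000003c0000001c000000380000001f0000001c 6 6) 0 0 (step_sound _ 35 [(rh7b1f1fb55310c477.shift 2 0), rhdaec39178448f92a] (by decide +kernel))
noncomputable def rhe55b0dbbf3210617 : CRef := CRef.mk (Pat.mk 0x3c00000000 0x7000000ff0000003c 6 8) 0 0 (step_sound _ 65 [(rh3f8766e6ecb455ce.shift 1 1), rh4fa286acc4ae7598] (by decide +kernel))
noncomputable def rh969fe839a70a78a6 : CRef := CRef.mk (Pat.mk 0x1e00000010000000000000000000000000 0x10000000380000001e0000001f000000380000003800000010 6 6) 0 0 (step_sound _ 164 [(rh33e738c4ed385b9f.shift 1 4), rhd95d9b4c8f300cb8] (by decide +kernel))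
noncomputable def rh9ce0e328d8071308 : CRef := CRef.mk (Pat.mk 0x100000001e000000100000000000000000 0x18000000180000001e0000001f0000003800000038 6 6) 0 0 (step_sound _ 65 [(rh763cf08b0e5d4187.shift 1 0), (rheb0810cc63b001d8.shift 0 2)] (by decide +kernel))
noncomputable def rh2468df785c0dea64 : CRef := CRef.mk (Pat.mk 0x8000000000000003c0000000200000000 0x80000000c000000ff0000003b00000010 6 8) 0 0 (step_sound _ 65 [rh18080533bf5a94f9, (rheb0810cc63b001d8.shift 0 1)] (by decide +kernel))
noncomputable def rha9ecfa2e0b1b6cdc : CRef := CRef.mk (Pat.mk 0x8000000000000003c00000004000000000000000000000000 0x80000000a0000007f0000003c000000040000000400000004 6 7) 0 0 (step_sound _ 99 [(rh18965a982d73c794.shift 2 3), rh3c8d48bbfc8a5af0] (by decide +kernel))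
noncomputable def rhe88019b2c869138f : CRef := CRef.mk (Pat.mk 0x400000007800000000 0x670000007f0000003c 6 7) 0 0 (step_sound _ 34 [(rh428265de8cd3cd2d.shift 2 1), rh9ff6b5f518aa81cf] (by decide +kernel))
noncomputable def rhb8a31dd7586424cd : CRef := CRef.mk (Pat.mk 0x80000001e00000018000000000000000000000000 0x40000000c0000001e0000001e0000000f0000000e0000000c 6 5) 0 0 (step_sound _ 67 [(rh40241bd608e5be1a.shift 2 0), (rh46530d756bdf8511.shift 2 0), (rh9754e95fae27c0d6.shift 0 1)] (by decide +kernel))
noncomputable def rhb084d8d3305a2163 : CRef := CRef.mk (Pat.mk 0x2000000030000000200000000000000000000000000000000 0x30000000300000003000000030000000300000007000000070000000700000005 6 3) 0 0 (step_sound _ 97 [rh0a6888916bcef86b, (rh6eff4158bb400f47.shift 0 1), (rh79bf920132cab629.shift 0 3)] (by decide +kernel))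
noncomputable def rh85a2b1dac3394263 : CRef := CRef.mk (Pat.mk 0x200000002000000030000000200000000000000000000000000000000 0x200000002000000030000000300000007000000070000000700000001 6 3) 0 0 (step_sound _ 97 [rh4ed972033d0a12ff, (rh54b8034e7f92149e.shift 0 1), (rh7928877f9bf74a91.shift 0 2), (rh8cdd36b03d57a2f6.shift 0 1)] (by decide +kernel))
noncomputable def rhd9c97a1ad96f78aa : CRef := CRef.mk (Pat.mk 0xc000000080000000b000000090000000000000000 0x100000001a0000001f0000000a0000000b0000000b0000000100000001 6 5) 0 0 (step_sound _ 196 [rh8fac90c51dc4d0a0, (rhbaefcd01e0a8bca3.shift 3 2)] (by decide +kernel))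
noncomputable def rhf4e483b69383042a : CRef := CRef.mk (Pat.mk 0x160000001200000030000000100000000000000000 0x40000001600000016000000320000001f0000000b00000001 6 6) 0 0 (step_sound _ 67 [(rh932754581e0f4330.shift 3 1), rhc96989fc2561d194] (by decide +kernel))
noncomputable def rhfda3a43953fc04b3 : CRef := CRef.mk (Pat.mk 0x18000000180000001e00000012000000000000000000000000 0x40000001c0000001c0000001e0000001e0000000f0000000200000002 6 5) 0 0 (step_sound _ 99 [(rh932754581e0f4330.shift 3 2), rhc8aaee26b2031f08] (by decide +kernel))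
noncomputable def rhc871eb1eb9b1c953 : CRef := CRef.mk (Pat.mk 0x1c0000000000000007000000050000000000000000 0xe30000007e000000e600000007000000070000000100000001 6 8) 0 0 (step_sound _ 161 [rh02ef15e22aa7db92, (rh7f8e4a6fbe0e1f11.shift 0 2), (rhea1977e228a6d74a.shift 0 2), rhf105c41a5093e558] (by decide +kernel))
noncomputable def rh8b3ef37836edbc21 : CRef := CRef.mk (Pat.mk 0x800000007000000000 0xce0000007e00000077 6 8) 0 0 (step_sound _ 35 [(rh428265de8cd3cd2d.shift 3 1), rh57252df62b95110a] (by decide +kernel))
noncomputable def rhd00abbeb3aaa4999 : CRef := CRef.mk (Pat.mk 0xf000000000 0xe000000fe0000007f 6 8) 0 0 (step_sound _ 35 [rh57252df62b95110a, (rh775ca1963e850b80.shift 1 0), (rh9ff6b5f518aa81cf.shift 1 0), (rheae1728ff4a56756.shift 2 0)] (by decide +kernel))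
noncomputable def rhf0104ee410e7a142 : CRef := CRef.mk (Pat.mk 0x80000000e00000008000000000000000000000000 0x10000000180000000f000000080000001c0000001c00000014 6 5) 0 0 (step_sound _ 164 [(rh1b9022be4f7af407.shift 2 0), (rh53b3c253cb0c65f4.shift 0 4)] (by decide +kernel))
noncomputable def rh319640522a4fbb70 : CRef := CRef.mk (Pat.mk 0x300000002000000020000000200000000 0x600000006000000060000000300000003000000030000000300000003 6 3) 0 0 (step_sound _ 96 [rh7b1f1fb55310c477, rhbe6a11bbb961c2b9] (by decide +kernel))
noncomputable def rh625b7f8b02840b6a : CRef := CRef.mk (Pat.mk 0xc0000001e000000080000000000000000 0xc0000001e0000003b0000000f0000000e 6 6) 0 0 (step_sound _ 68 [rh7e2ac6222c5947be, (rhe25b0a99195a5d59.shift 1 2)] (by decide +kernel))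
noncomputable def rhb3dd5fa479da7d6b : CRef := CRef.mk (Pat.mk 0x1c00000038000000100000000000000000 0x4000000040000001c0000003f0000007f0000000600000006 6 7) 0 0 (step_sound _ 98 [rh8f7039354bfc4ec2, (rha9b45fc165e16ab9.shift 1 0), (rhf56e6bc5d2f7fe77.shift 0 2)] (by decide +kernel))
noncomputable def rhffb5ed80dade3a93 : CRef := CRef.mk (Pat.mk 0x1c000000180000001000000000 0x3000000030000000300000001c0000007f0000007700000020 6 7) 0 0 (step_sound _ 69 [rh964db1912d3854a8, (rhf48373e13d2bc128.shift 2 2)] (by decide +kernel))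
noncomputable def rh217a38004a1143e2 : CRef := CRef.mk (Pat.mk 0x80000000c000000080000000800000000000000000000000000000000 0x80000000c0000000f0000007c000000180000001c0000001c00000014 6 7) 0 0 (step_sound _ 99 [(rha613ffd40b6c9d24.shift 2 1), (rhc05d451ce3dd5e48.shift 2 0), (rhd29a1fb688eae70f.shift 3 2), (rhdd186e8d75b0c8ce.shift 0 2)] (by decide +kernel))
noncomputable def rh513cea63f3441bf3 : CRef := CRef.mk (Pat.mk 0x8000000200000007000000000 0x800000008000001ff000001fe0000000f 6 9) 0 0 (step_sound _ 35 [rhb12ffaec36122c99, (rhc50c2b097dd5cced.shift 1 0), (rhe6bdd62e1711df0b.shift 3 1)] (by decide +kernel))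
noncomputable def rh45a544b226141825 : CRef := CRef.mk (Pat.mk 0x80000000e000000080000000800000000 0x8000000080000000e0000003f0000003c00000014 6 6) 0 0 (step_sound _ 34 [rh26e973e2d7b954d4, (rh932754581e0f4330.shift 2 0)] (by decide +kernel))
noncomputable def rh71d2392fbc279128 : CRef := CRef.mk (Pat.mk 0x100000003800000000 0xff000000ff00000007 6 8) 0 0 (step_sound _ 34 [rh775ca1963e850b80, rhafaa61f79143ceed, (rhe6bdd62e1711df0b.shift 2 1), (rhec46bd5500c722c9.shift 1 1)] (by decide +kernel))
noncomputable def rh56b3c89dab0a6d34 : CRef := CRef.mk (Pat.mk 0x600000000000000080000001c00000000 0x200000006000000060000007f0000007e00000003 6 7) 0 0 (step_sound _ 66 [(rh5c5a2014709044d0.shift 0 1), (rhe2b63c00a3d7bb73.shift 0 1), rhe547d009765a517f, (rhfbe734d7f1523424.shift 0 1)] (by decide +kernel))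
noncomputable def rhd88a35f1f6516d5f : CRef := CRef.mk (Pat.mk 0x1e00000002000000000000003000000060 0x30000001e00000002000000070000003f00000065 6 7) 0 0 (step_sound _ 34 [(rhab22b5b56e7b3243.shift 2 0), rhed2257d4723009e0] (by decide +kernel))
noncomputable def rh7c5fc0436e66c43c : CRef := CRef.mk (Pat.mk 0x1000000016000000120000001000000000 0x1400000016000000160000003e0000002f 6 6) 0 0 (step_sound _ 35 [rh2f5f07d1769e5d01, (rh932754581e0f4330.shift 3 0)] (by decide +kernel))
noncomputable def rh89115674902e708e : CRef := CRef.mk (Pat.mk 0x400000000000000000000003800000000 0x400000004000001ce000000fe000001c7 6 9) 0 0 (step_sound _ 38 [(rh3fc3a7fb6866dcd4.shift 3 0), rh845e6931135b38f6] (by decide +kernel))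
noncomputable def rh26b8711cee0f1dec : CRef := CRef.mk (Pat.mk 0x3000000060000000200000002000000000000000000000000 0x30000001e0000000600000006000000070000000700000001 6 5) 0 0 (step_sound _ 66 [rh4ba4900f310b23d0, (rhd3458b32566d63f7.shift 1 2)] (by decide +kernel))
noncomputable def rh7de9f97699eea1e4 : CRef := CRef.mk (Pat.mk 0x200000006000000030000000200000000000000000000000000000000 0x200000006000000070000000700000006000000070000000300000001 6 3) 0 0 (step_sound _ 98 [(rhd3458b32566d63f7.shift 1 3), rheaaa7250048fb6ba] (by decide +kernel))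
noncomputable def rhbb8aa3ff184f70d3 : CRef := CRef.mk (Pat.mk 0x200000006000000020000000200000000000000000000000000000000 0x200000006000000070000000300000003000000070000000700000005 6 3) 0 0 (step_sound _ 97 [rh678b469c748f9cec, (rh7928877f9bf74a91.shift 0 2), rh984bfc6de6c2c524] (by decide +kernel))
noncomputable def rhb0a09d1393ad970e : CRef := CRef.mk (Pat.mk 0x20000003a00000002000000000000000000000000 0x4000000060000003e00000002000000070000000700000005 6 6) 0 0 (step_sound _ 162 [(rh09d4dfe75d4407d6.shift 1 4), rh1b9022be4f7af407] (by decide +kernel))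
noncomputable def rhd55f0d63baf96b6a : CRef := CRef.mk (Pat.mk 0x20000007a000000020000000000000000 0x50000000700000007000000c60000007b000000030000000300000001 6 8) 0 0 (step_sound _ 134 [(rh33e738c4ed385b9f.shift 3 3), rhe7744232a23032a1] (by decide +kernel))
noncomputable def rh218184eb2ddd8882 : CRef := CRef.mk (Pat.mk 0x400000034000000040000000600000000 0x80000002c00000034000000370000003e00000038 6 6) 0 0 (step_sound _ 35 [(rh55afc6a59410cf00.shift 2 0), rhf1df4522a7046d82] (by decide +kernel))
noncomputable def rh36da476815415d25 : CRef := CRef.mk (Pat.mk 0x3800000010000000100000001000000000 0x70000003e0000003f0000001c0000001800000008 6 6) 0 0 (step_sound _ 35 [(rh169481326810cf56.shift 0 1), (rh932754581e0f4330.shift 3 0)] (by decide +kernel))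
noncomputable def rhf517b930ee0bd92d : CRef := CRef.mk (Pat.mk 0x20000000200000002000000020000000000000000 0x200000002000000030000000300000003000000070000000600000006 6 3) 0 0 (step_sound _ 34 [rh1599a3ed570439c7, (rhd3458b32566d63f7.shift 1 1)] (by decide +kernel))
noncomputable def rha1e8b119632c3bbd : CRef := CRef.mk (Pat.mk 0x3000000010000000100000001000000000 0xe0000007f0000003e000000180000001800000008 6 7) 0 0 (step_sound _ 131 [(rh50fbb5868c909700.shift 3 1), rhb906b8f4b705b0da] (by decide +kernel))
noncomputable def rh8b24269fce9ae942 : CRef := CRef.mk (Pat.mk 0x20000001a0000000200000000 0x50000000700000007000000020000001e0000000300000001 6 5) 0 0 (step_sound _ 32 [rh68a777751bfeafdf, (rhb2a0b9ccfb5cecd5.shift 0 1)] (by decide +kernel))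
noncomputable def rh60b238ba5fba27f7 : CRef := CRef.mk (Pat.mk 0x30000000120000001000000000000000e0 0xf0000003e000000170000001000000018000000f8 6 8) 0 0 (step_sound _ 36 [(rh35256fb8afedac85.shift 3 0), (rh415dc6589756028c.shift 0 1)] (by decide +kernel))
noncomputable def rhe0f0114d0706525d : CRef := CRef.mk (Pat.mk 0x300000005200000050000000400000004000000000 0x8000000080000001f0000003e000000570000005000000050000000c000000080 6 8) 0 0 (step_sound _ 39 [(rh55afc6a59410cf00.shift 6 0), (rhe600b60e755ae96c.shift 0 2)] (by decide +kernel))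
noncomputable def rhf6681f92a805e2ac : CRef := CRef.mk (Pat.mk 0x200000002000000030000000200000000000000000000000000000000 0x200000002000000030000000300000007000000070000000700000001 6 3) 0 0 (step_sound _ 97 [(rh4d70d27262289c21.shift 0 1), (rh6eff4158bb400f47.shift 0 1), (rh7928877f9bf74a91.shift 0 2), rhbaff7ec0fcc038ba] (by decide +kernel))
noncomputable def rhb21ad5351866bb94 : CRef := CRef.mk (Pat.mk 0x300000000200000018000000000000000000000000 0x28000000380000003f0000003e0000001700000018000000180000000800000008 6 6) 0 0 (step_sound _ 132 [(rh215e11e099257d75.shift 4 2), (rh281c6819542c66e6.shift 3 0), (rh68a777751bfeafdf.shift 3 2), (rhbaf1722104a48e62.shift 0 2)] (by decide +kernel))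
noncomputable def rh8c2630f6150e1dda : CRef := CRef.mk (Pat.mk 0x200000006000000020000000200000000000000000000000000000000 0x200000006000000060000000600000007000000070000000700000005 6 3) 0 0 (step_sound _ 97 [(rh6eff4158bb400f47.shift 0 1), (rh8c3839f9b9075f23.shift 1 1), rh984bfc6de6c2c524, (rha8bc3cae4d77a08f.shift 0 1), (rhd29a1fb688eae70f.shift 1 2)] (by decide +kernel))
noncomputable def rh188ee235e1b078a5 : CRef := CRef.mk (Pat.mk 0x1c0000000e000000040000000000000000 0x10000000100000001c0000007e0000007f0000003000000030 6 7) 0 0 (step_sound _ 100 [(rh523334f89545e18f.shift 2 0), rh746d570f5eb223ab, (rhaf9f2efc81a8312b.shift 0 2)] (by decide +kernel))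
noncomputable def rh57eaf2886b2593a1 : CRef := CRef.mk (Pat.mk 0x180000001e000000040000000000000000 0x180000001e000000370000003c0000001c 6 6) 0 0 (step_sound _ 68 [rh56f3a2e824768648, (rhe25b0a99195a5d59.shift 1 2)] (by decide +kernel))
noncomputable def rh5e5b1fa88f00587b : CRef := CRef.mk (Pat.mk 0x1c0000000c0000000c0000000000000000 0x1c0000007f0000007f0000007000000010 6 7) 0 0 (step_sound _ 100 [(rh2612b4f73ba7c3b3.shift 1 2), rh36753147e0ca5822, (rh3f7430a396d6fd4e.shift 0 2)] (by decide +kernel))
noncomputable def rh061ef40e81580364 : CRef := CRef.mk (Pat.mk 0xe0000000a0000000800000000 0x400000004000000060000000f0000007a0000001f00000002 6 7) 0 0 (step_sound _ 68 [rh468e4d4891e8acfc, (rhb739f4f82bb681b4.shift 0 2)] (by decide +kernel))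
noncomputable def rh5f31249694d25bd6 : CRef := CRef.mk (Pat.mk 0x280000002800000000 0x1ef000000fe000001c7 6 9) 0 0 (step_sound _ 36 [(rh9c94213f6896c74a.shift 2 0), (rha11dfd15f08f96e3.shift 2 1), rha4e887c2a2a0f60b, (rha9fbfd4bb8cf890b.shift 0 1)] (by decide +kernel))
noncomputable def rh279c2dd692dba10d : CRef := CRef.mk (Pat.mk 0x60000000300000008000000000000000000000000 0x4000000060000000600000006000000030000001f000000070000000700000005 6 5) 0 0 (step_sound _ 97 [rh1b9022be4f7af407, (rh215e11e099257d75.shift 1 2), (rh873152f5c63c9e04.shift 0 2)] (by decide +kernel))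
noncomputable def rhd714d75ee3e26cda : CRef := CRef.mk (Pat.mk 0x60000001a00000008000000000000000000000000 0x6000000060000001b0000000f000000070000000700000005 6 5) 0 0 (step_sound _ 97 [rh1b9022be4f7af407, rh794501743a61ce18, rhe4e4efb231e692a9] (by decide +kernel))
noncomputable def rha092f041706d96bb : CRef := CRef.mk (Pat.mk 0x4000000070000000400000000000000000000000000000000 0xa0000001e00000007000000040000000e0000000e0000000e0000000a 6 5) 0 0 (step_sound _ 98 [(rh0a6888916bcef86b.shift 1 0), (rh4017de503635a93b.shift 0 3), (rh6eff4158bb400f47.shift 1 1)] (by decide +kernel))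
noncomputable def rh10a54f547ba7da48 : CRef := CRef.mk (Pat.mk 0xe0000000c000000080000000800000000 0x20000000e0000000c0000001f0000007c00000014 6 7) 0 0 (step_sound _ 34 [rh40d380c2720167c3, (rh932754581e0f4330.shift 2 0)] (by decide +kernel))
noncomputable def rhef3032495df9d34e : CRef := CRef.mk (Pat.mk 0x60000000e000000000000000000000000 0x10000000360000003f000000380000000800000008 6 6) 0 0 (step_sound _ 100 [rhce71534e51e0a15e, (rhf48373e13d2bc128.shift 1 3)] (by decide +kernel))
noncomputable def rhd673f1c91a323839 : CRef := CRef.mk (Pat.mk 0xc0000000d000000080000000000000000 0xc0000000f000000780000001f0000000c 6 7) 0 0 (step_sound _ 35 [rh0e6d6cc7cb3285cf, (rh7b1f1fb55310c477.shift 2 0)] (by decide +kernel))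
noncomputable def rhedf9040aa4d52c15 : CRef := CRef.mk (Pat.mk 0xe0000001e000000100000000000000000 0x8000000080000000e0000001e0000001f0000000700000003 6 5) 0 0 (step_sound _ 163 [(rh2145e1d24b96a57e.shift 3 2), rh69c97e361bfcdb15] (by decide +kernel))
noncomputable def rhf649c4156451c8f2 : CRef := CRef.mk (Pat.mk 0x1c0000001a000000000000000000000000 0x40000000c0000001c0000001e000000370000001200000012 6 6) 0 0 (step_sound _ 68 [(rh3cb04db3dd2b6a55.shift 3 0), rh7b539a635d9ab1f3] (by decide +kernel))
noncomputable def rha3c78e009248fbcd : CRef := CRef.mk (Pat.mk 0x80000001e0000001a000000000000000000000000 0x40000000c0000001e0000001a0000001f0000001e0000000c 6 5) 0 0 (step_sound _ 68 [(rh7b1f1fb55310c477.shift 3 1), rhcd06652375b8e360] (by decide +kernel))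
noncomputable def rh6d7477fc48cc030b : CRef := CRef.mk (Pat.mk 0xc0000000d000000080000000000000000 0xc0000000f000000780000001f0000000c 6 7) 0 0 (step_sound _ 35 [(rh7b1f1fb55310c477.shift 2 0), rh87d6aa68aef5c62f] (by decide +kernel))
noncomputable def rh1b7ce3c4648c137d : CRef := CRef.mk (Pat.mk 0x1e000000180000000000000000 0x4000000040000000c0000001e0000001f0000000f0000000a 6 5) 0 0 (step_sound _ 65 [rh71798756eeda8894, (rheb0810cc63b001d8.shift 0 2)] (by decide +kernel))
noncomputable def rh9e89289cda76e9bc : CRef := CRef.mk (Pat.mk 0xe0000001a00000008000000000000000000000000 0x400000004000000040000000e0000001e0000000f000000070000000700000005 6 5) 0 0 (step_sound _ 97 [rh1b9022be4f7af407, (rhda02c4ce0b224328.shift 0 3), (rhf6bad20b5b13e059.shift 1 2)] (by decide +kernel))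
noncomputable def rhac1605b19ddc76ee : CRef := CRef.mk (Pat.mk 0x80000001c0000001800000000 0xc0000000c0000000c0000001c0000001f00000007 6 5) 0 0 (step_sound _ 131 [(rh2145e1d24b96a57e.shift 3 1), rhfbb399d9cc55fe51] (by decide +kernel))
noncomputable def rh5148171a65162749 : CRef := CRef.mk (Pat.mk 0x2000000070000000f000000010000000000000000 0x3000000070000000f0000001f0000001e0000000a 6 5) 0 0 (step_sound _ 66 [(rh7b1f1fb55310c477.shift 1 1), rhfcad25e26c92b9e1] (by decide +kernel))
noncomputable def rh63802272e6d8bedc : CRef := CRef.mk (Pat.mk 0xe0000000c000000080000000800000000 0x20000000e0000000c0000003c0000001f00000016 6 6) 0 0 (step_sound _ 34 [rh3349ed1fc23eb5dd, (rh932754581e0f4330.shift 2 0)] (by decide +kernel))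
noncomputable def rh21130d932d6c3807 : CRef := CRef.mk (Pat.mk 0x40000000c000000000000000e0000000000000000 0x40000000c000000780000003e0000007f00000010 6 7) 0 0 (step_sound _ 99 [rh78bdeaa6e0a93350, (rh7b1f1fb55310c477.shift 2 1)] (by decide +kernel))
noncomputable def rh0cd1da1ee84a6d1d : CRef := CRef.mk (Pat.mk 0x1c00000038000000000000000000000000 0xc0000000c0000001c0000003f000000770000000600000002 6 7) 0 0 (step_sound _ 98 [(rh031a926e4a883687.shift 1 1), rh8f7039354bfc4ec2, (rhe153806bfe3acc65.shift 0 2)] (by decide +kernel))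
noncomputable def rh6c705495e4929159 : CRef := CRef.mk (Pat.mk 0xa0000001e000000020000000200000000 0xa0000001e0000003a0000001f0000001d 6 6) 0 0 (step_sound _ 68 [rhd4d88f0a4294913c, (rhe25b0a99195a5d59.shift 1 2)] (by decide +kernel))
noncomputable def rh06d73eea51440be7 : CRef := CRef.mk (Pat.mk 0x60000001e000000020000000000000000 0x2000000060000001e0000003e0000000700000007 6 6) 0 0 (step_sound _ 33 [rh14f84c623687a231, (rh71222050f2c63a3a.shift 1 0)] (by decide +kernel))
noncomputable def rh098f1be4746571da : CRef := CRef.mk (Pat.mk 0x4000000100000003800000000 0x400000004000003de000001fe000003c7 6 10) 0 0 (step_sound _ 38 [(rh3fc3a7fb6866dcd4.shift 3 0), (rh4a0cb3a9508b05dd.shift 3 0), rhb23ce12a4334daa8, (rhe3060b190bc0bc78.shift 2 1)] (by decide +kernel))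
noncomputable def rh36406070e521aa90 : CRef := CRef.mk (Pat.mk 0xc00000018000000100000000800000000 0x40000000c000000780000003e0000000f00000004 6 7) 0 0 (step_sound _ 67 [rh24ec4d0a17d8e0f4, (rh50fbb5868c909700.shift 2 1)] (by decide +kernel))
noncomputable def rh985335d5e81225b5 : CRef := CRef.mk (Pat.mk 0x3000000020000000200000000000000000000000000000000 0x100000003000000030000000200000002000000070000000700000005 6 3) 0 0 (step_sound _ 97 [(rh50fbb5868c909700.shift 0 3), rhc05d451ce3dd5e48] (by decide +kernel))
noncomputable def rh0d6d29a0db022828 : CRef := CRef.mk (Pat.mk 0xc000000180000000a0000000000000000 0xc0000001f0000003f0000003300000012 6 6) 0 0 (step_sound _ 66 [(rh53b3c253cb0c65f4.shift 0 2), rhca7b093a94043019] (by decide +kernel))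
noncomputable def rh6bc4b62a6455edd6 : CRef := CRef.mk (Pat.mk 0x1c00000018000000140000000000000000 0x80000000c0000001c0000001f000000170000000600000002 6 5) 0 0 (step_sound _ 163 [(rh2145e1d24b96a57e.shift 3 2), rh8cb8f560ae5e38af] (by decide +kernel))
noncomputable def rhd42fd13936b94154 : CRef := CRef.mk (Pat.mk 0xe0000001c0000000a0000000000000000 0x4000000060000000e0000001f0000007e0000003400000014 6 7) 0 0 (step_sound _ 162 [(rh2145e1d24b96a57e.shift 2 2), rhfadd8949c9cade78] (by decide +kernel))
noncomputable def rh97c067af7d1dee5f : CRef := CRef.mk (Pat.mk 0x1c00000018000000140000000000000000 0x40000001c0000001f0000003c0000000f0000000e 6 6) 0 0 (step_sound _ 98 [rh0e054aa93492fc22, (rhf56e6bc5d2f7fe77.shift 0 2)] (by decide +kernel))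
noncomputable def rha1c11260a0c18bfc : CRef := CRef.mk (Pat.mk 0x38000000200000002800000000 0x10000000100000001800000038000000380000007c0000000f 6 7) 0 0 (step_sound _ 132 [(rh00d6a6e3c7e3bb40.shift 3 0), rh9cd180fc23032efa, (rhe072fffdd2fccf38.shift 4 1)] (by decide +kernel))
noncomputable def rh0ca3c045c183e8e7 : CRef := CRef.mk (Pat.mk 0x60000000000000006000000000000000000000000 0x40000000600000006000000060000000300000007000000070000000700000005 6 3) 0 0 (step_sound _ 129 [(rh215e11e099257d75.shift 1 2), (rh70e33bfdf511e144.shift 1 0), (rhc88eb406ccb299be.shift 0 2), rhffb8e5993241bf15] (by decide +kernel))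
noncomputable def rhf2027dd929db7ca2 : CRef := CRef.mk (Pat.mk 0x180000000000000038000000000000000000000000 0x100000001000000018000000180000000f0000007e0000000f0000000400000004 6 7) 0 0 (step_sound _ 98 [(rh186400995b27b60f.shift 1 2), (rh775ca1963e850b80.shift 0 2), (rhad7f111fb10ea859.shift 1 0), (rhe7bee060fadb4663.shift 1 0)] (by decide +kernel))
noncomputable def rh60d5674e44e5ed2c : CRef := CRef.mk (Pat.mk 0xe000000080000000a000000000000000000000000 0x20000000e0000007f0000001f000000010000000100000001 6 7) 0 0 (step_sound _ 132 [(rh0b786d94a31538a6.shift 0 3), (rh89ade209b3e28f13.shift 1 4), rhc5a0d29a3b12ff5f] (by decide +kernel))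
noncomputable def rh80ccb250768a2257 : CRef := CRef.mk (Pat.mk 0x1c0000000000000018000000000000000000000000 0x1000000018000000180000001c0000000f0000007c0000001c0000001800000010 6 7) 0 0 (step_sound _ 131 [(rh29eed652a8fb50f2.shift 0 1), (rh42b77b88598f587a.shift 2 0), (rh70e33bfdf511e144.shift 3 0), (rh9fecc968bced2cac.shift 2 2), (rhe8f9550119ab603c.shift 3 1)] (by decide +kernel))
noncomputable def rhcb19c45d577f90e2 : CRef := CRef.mk (Pat.mk 0x8000000080000001800000008 0x140000001c0000001c0000000c0000001f000000780000001800000008 6 7) 0 0 (step_sound _ 131 [(rh3ca48e2a6d60153d.shift 2 0), (rh5bd4bc0c2c48140c.shift 2 1), rhab48aa6b621925e5, (rhba97f7f4ade5e136.shift 2 1)] (by decide +kernel))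
noncomputable def rha1eaceb720b7f9f3 : CRef := CRef.mk (Pat.mk 0x70000000000000003000000000000000000000000 0x50000000700000007000000070000000300000003000000030000000100000001 6 3) 0 0 (step_sound _ 129 [(rh261f868a429ae0e3.shift 0 2), (rh32431e66bbf434a4.shift 0 2), rhfafeb437ceb8396d] (by decide +kernel))
noncomputable def rh5d436cc74a115108 : CRef := CRef.mk (Pat.mk 0x4000000040000000e00000000 0x400000004000000740000003e00000073 6 7) 0 0 (step_sound _ 1 [(rh5c5e593799055d58.shift 1 0), rhfa35e196e150edb4] (by decide +kernel))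
noncomputable def rhf0f617bf3c0ffdd9 : CRef := CRef.mk (Pat.mk 0x700000000000000060000000000000000 0x500000007000000070000000700000002000000060000000600000004 6 3) 0 0 (step_sound _ 97 [(rh14e0829dc73b6804.shift 0 1), (rh261f868a429ae0e3.shift 0 1), rhab92366f0179162d, (rhe8f9550119ab603c.shift 1 0)] (by decide +kernel))
noncomputable def rh49fa6932037bd852 : CRef := CRef.mk (Pat.mk 0x70000000000000006000000000000000000000000 0x50000000700000007000000070000000300000006000000060000000600000004 6 3) 0 0 (step_sound _ 129 [(rh14e0829dc73b6804.shift 0 2), (rh261f868a429ae0e3.shift 0 2), rh42b77b88598f587a, rhd1779d7de7f8215b] (by decide +kernel))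
noncomputable def rhc7d97633f3b4c108 : CRef := CRef.mk (Pat.mk 0x180000000000000030000000000000000000000000 0x1800000018000001cf000000fe000001ff0000001400000014 6 9) 0 0 (step_sound _ 99 [(rh2f693d369a822c56.shift 2 2), (rh7438d9fbcd16d0e0.shift 1 2), rh86376ed1aa30906a, (rha19114e69f5ffe97.shift 0 2), (rhbfc4d5da9a49e7fe.shift 1 2), rhd6dd8c60e72fc04d] (by decide +kernel))
noncomputable def rhaa48759cccaffef1 : CRef := CRef.mk (Pat.mk 0x8000000000000003800000000 0x140000001c0000001c000000080000000f0000007c00000010 6 7) 0 0 (step_sound _ 67 [(rh14e0829dc73b6804.shift 2 0), (rha9fbfd4bb8cf890b.shift 0 1)] (by decide +kernel))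
noncomputable def rhcec0ed83a4ad6cfa : CRef := CRef.mk (Pat.mk 0x2000000000000001e00000000 0x5000000070000000700000002000000030000001e00000004 6 5) 0 0 (step_sound _ 65 [rh14e0829dc73b6804, (rh3244c3cc8379b070.shift 0 1)] (by decide +kernel))
noncomputable def rh856d1b7eb2ef2fa4 : CRef := CRef.mk (Pat.mk 0x2000000100000000e00000000 0x50000000700000007000000020000007a0000001f00000004 6 7) 0 0 (step_sound _ 65 [rh14e0829dc73b6804, (rhb8022f71dc28021b.shift 0 1)] (by decide +kernel))
noncomputable def rh468410627fe4275f : CRef := CRef.mk (Pat.mk 0x40000000e00000002 0xe60000007e000000e3 6 8) 0 0 (step_sound _ 36 [(rh9c94213f6896c74a.shift 1 0), rheb0810cc63b001d8] (by decide +kernel))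
noncomputable def rh70b7815ea181e331 : CRef := CRef.mk (Pat.mk 0x4000000070000000a 0x400000004000000760000003f0000001b 6 7) 0 0 (step_sound _ 35 [rh45df2a4f0b174bc8, rhe25b0a99195a5d59] (by decide +kernel))
noncomputable def rhb7ad932af6f4d2e0 : CRef := CRef.mk (Pat.mk 0x1000000038000000100000001800000000 0x1800000018000000380000001f0000001f00000004 6 6) 0 0 (step_sound _ 67 [(rh5c5e593799055d58.shift 3 1), rhea7ec97caa2f8b42] (by decide +kernel))
noncomputable def rh4b3444a17d451811 : CRef := CRef.mk (Pat.mk 0x20000001e0000000200000000000000000000000000000000 0x2000000060000001e0000003e00000007000000070000000700000004 6 6) 0 0 (step_sound _ 132 [rh14586e57c357d12f, (rhe25b0a99195a5d59.shift 1 4)] (by decide +kernel))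
noncomputable def rh54c2879e253bb727 : CRef := CRef.mk (Pat.mk 0x1e00000016000000000000000000000000 0x300000001f0000001e000000380000001800000018 6 6) 0 0 (step_sound _ 99 [(rh3244c3cc8379b070.shift 0 3), (rh3a649fe464366458.shift 1 0)] (by decide +kernel))
noncomputable def rh6b917285a360d28f : CRef := CRef.mk (Pat.mk 0x180000000c00000000 0x380000003f00000077 6 7) 0 0 (step_sound _ 33 [(rh53b3c253cb0c65f4.shift 0 1), rhbdce4ae460fd80ce] (by decide +kernel))
noncomputable def rh29285b82884f0de4 : CRef := CRef.mk (Pat.mk 0x200000006000000080000000c00000004 0x7b0000003e000000780000000c00000004 6 7) 0 0 (step_sound _ 99 [(rh5c5e593799055d58.shift 2 0), (rh9c94213f6896c74a.shift 0 2)] (by decide +kernel))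
noncomputable def rhfcd7236f0fb20b6c : CRef := CRef.mk (Pat.mk 0x4000000300000001c00000008000000000000000000000000 0x6000000060000003c0000001c0000000f000000060000000600000004 6 6) 0 0 (step_sound _ 162 [(rh2145e1d24b96a57e.shift 2 3), rh5b5414e18e3f4843] (by decide +kernel))
noncomputable def rh26cbbac9fedeb621 : CRef := CRef.mk (Pat.mk 0x3000000180000000c00000000 0x140000001c0000001c0000000f000000180000000c00000004 6 5) 0 0 (step_sound _ 99 [(rh32431e66bbf434a4.shift 2 0), (rhc10214bf3fe8094a.shift 0 2)] (by decide +kernel))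
noncomputable def rh9eee4c6bb46bd9bb : CRef := CRef.mk (Pat.mk 0x18000000c0 0x70000007e000000e7 6 8) 0 0 (step_sound _ 37 [rh36eba2a3de447758, (rhd6e447e81774439e.shift 3 0)] (by decide +kernel))
noncomputable def rha8241f37c79477a8 : CRef := CRef.mk (Pat.mk 0x2000000060000000300000000 0x400000007000000070000000300000006000000060000000300000001 6 3) 0 0 (step_sound _ 129 [(rh64bc0dab78a08b48.shift 0 1), rh932754581e0f4330] (by decide +kernel))
noncomputable def rh726ead662404e56b : CRef := CRef.mk (Pat.mk 0x2000000180000000e000000000000000000000000 0x140000001c0000007e0000001f0000001c0000000e000000060000000400000004 6 7) 0 0 (step_sound _ 163 [(rh32431e66bbf434a4.shift 2 2), (rh3548ad5ddd04d564.shift 0 3), (rhfa4e74cf276cb686.shift 0 1), (rhfafeb437ceb8396d.shift 2 0)] (by decide +kernel))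
noncomputable def rh72f6aa7ae9e1fca4 : CRef := CRef.mk (Pat.mk 0x10000000100000001e00000016 0x2e0000003e000000170000001e00000016 6 6) 0 0 (step_sound _ 65 [(rh3244c3cc8379b070.shift 0 1), (rhc1dce6944b181302.shift 1 0)] (by decide +kernel))
noncomputable def rh9aed1232c1216b82 : CRef := CRef.mk (Pat.mk 0x2000000020000000400000004 0x500000007000000070000000200000002000000060000000600000004 6 3) 0 0 (step_sound _ 129 [(rh1148744b53f3df58.shift 0 1), (rhbe0e43a3bc50a43f.shift 1 0)] (by decide +kernel))
noncomputable def rh74dc6d218332fb34 : CRef := CRef.mk (Pat.mk 0x6000000080000000e00000000 0x100000001000000030000001f0000007e0000000e00000002 6 7) 0 0 (step_sound _ 68 [(rh144110cd4250d264.shift 0 1), (rh80f90a60d87caa0d.shift 1 1), rha969a84209daf2dc] (by decide +kernel))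
noncomputable def rh8728c26d87322774 : CRef := CRef.mk (Pat.mk 0x18000000080000000c0000000c 0x70000001f0000007b0000001f0000000c 6 7) 0 0 (step_sound _ 98 [(rh50fbb5868c909700.shift 2 0), rhb50febfc55fd96a6] (by decide +kernel))
noncomputable def rhf2122136c8073d0e : CRef := CRef.mk (Pat.mk 0xc000000080000001800000018 0x300000007c0000006f0000007c00000018 6 7) 0 0 (step_sound _ 100 [(rh2f68792b6b779e96.shift 3 0), rhd35b10d96e4511a2] (by decide +kernel))
noncomputable def rh5306ab8221273638 : CRef := CRef.mk (Pat.mk 0x8000000200000003800000010 0x2f0000007c000000380000003800000010 6 7) 0 0 (step_sound _ 101 [(rh5c5e593799055d58.shift 4 0), rhe3796014472b2b6d] (by decide +kernel))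
noncomputable def rh5e573cd0624fcd45 : CRef := CRef.mk (Pat.mk 0x30000000500000001000000010 0xf0000003e000000770000001000000010 6 7) 0 0 (step_sound _ 99 [(rh36eba2a3de447758.shift 0 2), (rh50fbb5868c909700.shift 3 0)] (by decide +kernel))
noncomputable def rh82c5a5276b42f094 : CRef := CRef.mk (Pat.mk 0x200000002000000060000000200000000 0x400000007000000070000000300000006000000060000000300000001 6 3) 0 0 (step_sound _ 32 [(rh64bc0dab78a08b48.shift 0 1), rh932754581e0f4330] (by decide +kernel))
noncomputable def rhd53a507d2771bf90 : CRef := CRef.mk (Pat.mk 0x20000000200000006000000020000000000000000 0x300000003000000070000000600000006000000030000000300000002 6 3) 0 0 (step_sound _ 64 [rh8c1d47d14292b804, (rh932754581e0f4330.shift 0 1)] (by decide +kernel))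
noncomputable def rh6739c54c79a0a858 : CRef := CRef.mk (Pat.mk 0x100000001c00000038000000000000000000000000 0x4000000140000001c0000003f000000770000002200000022 6 7) 0 0 (step_sound _ 98 [(rh3593e1fdb4246637.shift 1 0), rhad48fcc809438143, (rhc7b95363f9049b11.shift 2 0), (rhcc2be1f880c5ea3e.shift 0 2)] (by decide +kernel))
noncomputable def rh1bcac5affc534ecf : CRef := CRef.mk (Pat.mk 0x100000001c0000001800000000 0x10000000100000001c0000007f00000067 6 7) 0 0 (step_sound _ 37 [rh587dac98b18fa6dc, (rhf48373e13d2bc128.shift 2 1)] (by decide +kernel))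
noncomputable def rhc82104635d996a43 : CRef := CRef.mk (Pat.mk 0x30000000500000001000000010 0xf0000003e000000770000001000000010 6 7) 0 0 (step_sound _ 99 [(rh50fbb5868c909700.shift 3 0), (rh88c620441a3a17ea.shift 0 2)] (by decide +kernel))
noncomputable def rhd4fce4f58f6374a0 : CRef := CRef.mk (Pat.mk 0x2000000060000000200000002 0x400000007000000070000000700000006000000060000000200000002 6 3) 0 0 (step_sound _ 129 [(rh1741680720c097b4.shift 0 1), (rh44f453b84f013105.shift 1 0), (rh64bc0dab78a08b48.shift 0 1), rhb67cb32759fb664f] (by decide +kernel))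
noncomputable def rha206b301c0fd0ad9 : CRef := CRef.mk (Pat.mk 0x4000000100000003800000000 0x400000004000001de000000fe000001c7 6 9) 0 0 (step_sound _ 66 [(rh167fff566cb27b75.shift 2 0), (rh508d31626b5d2be8.shift 1 1), rh82cbe8aa729508e4] (by decide +kernel))
noncomputable def rh01ad7216e7ce9fc4 : CRef := CRef.mk (Pat.mk 0x1000000010000000140000001000000000 0x1000000010000000360000003e0000002f 6 6) 0 0 (step_sound _ 37 [(rh55afc6a59410cf00.shift 4 0), rhf20405a597bd25b2] (by decide +kernel))
noncomputable def rhc51c89c0d5581847 : CRef := CRef.mk (Pat.mk 0x2000000060000000200000004 0x400000007000000070000000300000006000000060000000600000004 6 3) 0 0 (step_sound _ 129 [(rh64bc0dab78a08b48.shift 0 1), (rhd3458b32566d63f7.shift 1 0)] (by decide +kernel))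
noncomputable def rhbd4dda86fa6ac106 : CRef := CRef.mk (Pat.mk 0x30000000100000001000000010 0xf000000fe000000ff0000001000000010 6 8) 0 0 (step_sound _ 99 [(rh50fbb5868c909700.shift 3 0), (rhb74a64de026db287.shift 0 2)] (by decide +kernel))
noncomputable def rh347cc5eb7f664f7a : CRef := CRef.mk (Pat.mk 0xc000000000000000c0000000c 0x170000001f0000003b0000000e0000000c 6 6) 0 0 (step_sound _ 67 [(rh50fbb5868c909700.shift 2 0), rhd6ce95258fbdc4ce] (by decide +kernel))
noncomputable def rh4086c50a69fa8f36 : CRef := CRef.mk (Pat.mk 0xf000000010000000000000001 0x760000003f000000390000000100000001 6 7) 0 0 (step_sound _ 129 [rh9e3edb185cc347de, (rhf5fa5e48e0784de2.shift 0 2)] (by decide +kernel))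
noncomputable def rhba92b4bc008eed1d : CRef := CRef.mk (Pat.mk 0x100000007800000008 0x1c0000001c0000001f0000003c0000007800000008 6 7) 0 0 (step_sound _ 67 [(rh3244c3cc8379b070.shift 2 1), rh8624f2263a6928fd] (by decide +kernel))
noncomputable def rhe7bad8fe5adfedb4 : CRef := CRef.mk (Pat.mk 0x20000001e00000002 0x400000007000000070000000f0000003e0000001e00000006 6 6) 0 0 (step_sound _ 68 [(rh33e738c4ed385b9f.shift 1 1), rhdf7c0de3f22e4b83] (by decide +kernel))
noncomputable def rhe6cbd62170d7072b : CRef := CRef.mk (Pat.mk 0xc000000000000000c0000000c 0x1b0000001f0000003b0000000e0000000c 6 6) 0 0 (step_sound _ 67 [(rh5c5e593799055d58.shift 2 0), rhd6ce95258fbdc4ce] (by decide +kernel))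
noncomputable def rhce9c0fc0907b8f0d : CRef := CRef.mk (Pat.mk 0x2000000120000001200000012000000100000000000000000 0x30000001300000013000000130000003f0000000f00000005 6 6) 0 0 (step_sound _ 65 [rh6eff4158bb400f47, rh74bc9cb3ce9d0f37, (rh7928877f9bf74a91.shift 0 1), rh8ff3dde5b1c639e0] (by decide +kernel))
noncomputable def rh8303e25b77b8b7bf : CRef := CRef.mk (Pat.mk 0x20000000200000002000000020000000000000000 0x600000006000000070000000300000003000000030000000200000002 6 3) 0 0 (step_sound _ 194 [rh081c416f9407b471, (rhbaefcd01e0a8bca3.shift 1 2)] (by decide +kernel))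
noncomputable def rh27831fe539cd6652 : CRef := CRef.mk (Pat.mk 0x800000008000000080000001c00000000 0x40000000c0000000c0000003f0000003f00000003 6 6) 0 0 (step_sound _ 130 [rh3e50a038ba7d8ed0, (rh50fbb5868c909700.shift 2 1)] (by decide +kernel))
noncomputable def rh15da3a6a2b937867 : CRef := CRef.mk (Pat.mk 0x400000022000000020000001a0000001200000002 0x40000001e0000007b0000001b0000001a0000001200000002 6 7) 0 0 (step_sound _ 161 [(rh2f68792b6b779e96.shift 1 2), rhbb499e2c493a9c34] (by decide +kernel))
noncomputable def rhbedb958b193acbde : CRef := CRef.mk (Pat.mk 0x600000022000000020000001a00000010 0x1000000030000001f0000007a0000001a0000001a00000010 6 7) 0 0 (step_sound _ 160 [rhf75b13dc1a566bce, (rhffd04209dc8ea796.shift 0 1)] (by decide +kernel))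
noncomputable def rh8f3ab8fe37100084 : CRef := CRef.mk (Pat.mk 0x400000004000000340000002400000000 0x3a0000003e00000017000000340000002600000002 6 6) 0 0 (step_sound _ 129 [(rh50fbb5868c909700.shift 1 1), rhfd2010745f5d6d8f] (by decide +kernel))
noncomputable def rha8e648756753aed0 : CRef := CRef.mk (Pat.mk 0x23000000020000001a00000012 0x40000001e0000007f0000001a0000001a00000012 6 7) 0 0 (step_sound _ 130 [(rhbaefcd01e0a8bca3.shift 1 0), rhe9f813df1f0c0f62] (by decide +kernel))
noncomputable def rh5726feb1e49e1e1b : CRef := CRef.mk (Pat.mk 0x2000000002000000220000001a0000001200000007 0x3d0000001f0000003a0000001a0000001a0000000f 6 6) 0 0 (step_sound _ 3 [rh428265de8cd3cd2d, (rhf0515a66dc50ebfe.shift 0 1)] (by decide +kernel))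
noncomputable def rh9448cbac7a598ac0 : CRef := CRef.mk (Pat.mk 0x200000002000000020000000f000000000 0x1000000030000000300000003f000000fe0000000e 6 8) 0 0 (step_sound _ 35 [rh1f9701c4cf497514, (rh3d4288dcc933ddb6.shift 2 0), (rh592c7139d2c44767.shift 1 0), (rhd5eb272e07a4e288.shift 2 1)] (by decide +kernel))
noncomputable def rh892a020d1f7f2a7a : CRef := CRef.mk (Pat.mk 0x800000048000000480000000800000000 0x80000000800000068000000ff0000003800000010 6 8) 0 0 (step_sound _ 36 [(rh55afc6a59410cf00.shift 3 0), (rh841cb160e01e706a.shift 0 1)] (by decide +kernel))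
noncomputable def rh569aee9b78b5dc6e : CRef := CRef.mk (Pat.mk 0x800000022000000320000001200000002 0x3d0000003f00000023000000320000001200000002 6 6) 0 0 (step_sound _ 128 [(rh0dc3f68ac6126527.shift 0 1), rhffd04209dc8ea796] (by decide +kernel))
noncomputable def rh7e585432380c8686 : CRef := CRef.mk (Pat.mk 0x10000000200000002000000020000001200000000 0x400000007000000070000000200000003000000030000001e00000004 6 5) 0 0 (step_sound _ 161 [(rh50fbb5868c909700.shift 0 2), rha97a59d1d6891f5d] (by decide +kernel))
noncomputable def rhe7e57967609db97e : CRef := CRef.mk (Pat.mk 0x200000002000000120000000200000000 0x2000000020000000300000003000000030000001f0000000600000002 6 5) 0 0 (step_sound _ 128 [(rh50fbb5868c909700.shift 0 1), rh6a2e5e621aa6d1dd] (by decide +kernel))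
noncomputable def rh78e2bfd29c701f1d : CRef := CRef.mk (Pat.mk 0x80000001200000016000000000000000000000000 0x80000001b0000003f0000000f0000000400000004 6 6) 0 0 (step_sound _ 99 [(rh3244c3cc8379b070.shift 0 3), rh6e6514331e94cdab] (by decide +kernel))
noncomputable def rhdb18d9da0cc94d72 : CRef := CRef.mk (Pat.mk 0x2000000020000000200000002000000000000000000000000 0x200000002000000030000000300000003000000070000000700000007 6 3) 0 0 (step_sound _ 65 [(rh7928877f9bf74a91.shift 0 1), rh7ac7f773826df96f, rh8cdd36b03d57a2f6] (by decide +kernel))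
noncomputable def rha7bb430bc20854cc : CRef := CRef.mk (Pat.mk 0x2000000030000000200000002 0x100000007000000070000000700000003000000030000000200000002 6 3) 0 0 (step_sound _ 129 [rh3ca48e2a6d60153d, (rh42ab489a1be3958e.shift 0 1), (rhc85cc95794737cf7.shift 0 1), rhf06a227ba195dbc0] (by decide +kernel))
noncomputable def rhbd305e04395d6fd1 : CRef := CRef.mk (Pat.mk 0x4000000080000000c00000008 0x100000007c0000001f000000080000000c0000000c 6 7) 0 0 (step_sound _ 99 [(rh50fbb5868c909700.shift 2 0), rhd965430f2dc09cb1] (by decide +kernel))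
noncomputable def rh292281775c8a04f3 : CRef := CRef.mk (Pat.mk 0x3000000030000000240000003000000000 0x3000000030000000360000007e0000004f 6 7) 0 0 (step_sound _ 38 [(rh55afc6a59410cf00.shift 5 0), rhf382552d881ae789] (by decide +kernel))
noncomputable def rha798e7f21e7093ae : CRef := CRef.mk (Pat.mk 0x1000000010000000100000001800000000 0x1000000010000000ff000000fe00000027 6 8) 0 0 (step_sound _ 37 [(rh55afc6a59410cf00.shift 4 0), rhe320e40b24390c6b] (by decide +kernel))
noncomputable def rhe35cb66c8ff66870 : CRef := CRef.mk (Pat.mk 0x800000018000000080000000000000000 0x180000001800000018000000380000001f0000001c 6 6) 0 0 (step_sound _ 35 [rh589345da44c3b4b3, (rha707fb719e87fe6e.shift 3 0)] (by decide +kernel))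
noncomputable def rh7b2e9a302acb7fcb : CRef := CRef.mk (Pat.mk 0x100000001e000000100000000000000000 0x280000003800000038000000180000001e0000001b0000001800000008 6 6) 0 0 (step_sound _ 65 [(rh596e988aa0a40658.shift 3 0), (rheb0810cc63b001d8.shift 0 2)] (by decide +kernel))
noncomputable def rhf631f408da92aaa0 : CRef := CRef.mk (Pat.mk 0x2000000030000000200000000000000000000000000000000 0x30000000300000003000000030000000300000007000000070000000700000005 6 3) 0 0 (step_sound _ 97 [rh0a6888916bcef86b, (rh79bf920132cab629.shift 0 3), (rh8cdd36b03d57a2f6.shift 0 1)] (by decide +kernel))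
noncomputable def rhef32b2d13170c298 : CRef := CRef.mk (Pat.mk 0x80000000c00000009000000000000000000000000 0x18000000180000000c0000000c0000000f0000001c0000001c0000000c 6 5) 0 0 (step_sound _ 98 [(rh281c6819542c66e6.shift 2 0), rha85076c68f1f3e46, rhda35d1ce97a5258f, (rhf9366b6a121593ef.shift 2 1)] (by decide +kernel))
noncomputable def rhe90ea86f449430a6 : CRef := CRef.mk (Pat.mk 0x400000007800000000 0x670000007f0000003c 6 7) 0 0 (step_sound _ 34 [(rh428265de8cd3cd2d.shift 2 1), rhf70ca38ffe1e340f] (by decide +kernel))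
noncomputable def rh6651e569db34029d : CRef := CRef.mk (Pat.mk 0x20000001e00000006 0x70000000f0000003e0000001e00000006 6 6) 0 0 (step_sound _ 97 [(rh2145e1d24b96a57e.shift 1 0), rhb9a55834a23b38ee] (by decide +kernel))
noncomputable def rh7ae33bb9c4d093d7 : CRef := CRef.mk (Pat.mk 0x800000007000000020 0xce0000007e00000037 6 8) 0 0 (step_sound _ 35 [rh2efad3051cff7df1, (rh428265de8cd3cd2d.shift 3 1)] (by decide +kernel))
noncomputable def rhe15c56d4137cf69b : CRef := CRef.mk (Pat.mk 0xf000000020 0xe000000fe0000003f 6 8) 0 0 (step_sound _ 35 [rh2efad3051cff7df1, (rh775ca1963e850b80.shift 1 0), (rhc8d5c9136610b7ff.shift 1 0), (rheae1728ff4a56756.shift 2 0)] (by decide +kernel))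
noncomputable def rh69ba9039bbe65614 : CRef := CRef.mk (Pat.mk 0x3c00000002000000000000003c00000000 0x640000003e00000003000000030000003e00000007 6 7) 0 0 (step_sound _ 165 [(rh33e738c4ed385b9f.shift 2 4), rh5f0c99de1bb57e08] (by decide +kernel))
noncomputable def rh6a2909ef21f12ccd : CRef := CRef.mk (Pat.mk 0xf00000008000000000000000e00000000 0x180000000f00000008000000780000003e00000070 6 7) 0 0 (step_sound _ 163 [(rh33e738c4ed385b9f.shift 0 4), (rh8f92933e2f0c94d0.shift 1 0)] (by decide +kernel))
noncomputable def rh3dfbdc8bdcbc076d : CRef := CRef.mk (Pat.mk 0x2000000000000000180000007000000000 0x2000000060000000f80000007f000000ef 6 8) 0 0 (step_sound _ 35 [(rh07ee5159656727e3.shift 3 0), rh5b460b71d8952ca9, (rh9e97bba44c1b13e4.shift 1 0)] (by decide +kernel))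
noncomputable def rhfe33765a17a787ca : CRef := CRef.mk (Pat.mk 0x60000001e000000020000000000000000 0x60000001e0000003e0000000f00000007 6 6) 0 0 (step_sound _ 33 [rh2eec039abdfe1253, (rh71222050f2c63a3a.shift 1 0)] (by decide +kernel))
noncomputable def rh6c53fa638f474bdf : CRef := CRef.mk (Pat.mk 0x1000000010000000000000003800000000 0x1000000010000000170000003e00000067 6 7) 0 0 (step_sound _ 5 [rhc92c11e8da6c894f, (rhff0f29cb645b05f7.shift 4 0)] (by decide +kernel))
noncomputable def rh32672c8dc599eba3 : CRef := CRef.mk (Pat.mk 0xa0000000a00000002000000040000000000000000 0xa0000000a0000000b0000001e0000003c0000001000000010 6 6) 0 0 (step_sound _ 98 [rh21399312d69ee793, (rh2145e1d24b96a57e.shift 1 2)] (by decide +kernel))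
noncomputable def rhdea0f82b61912ae7 : CRef := CRef.mk (Pat.mk 0x3000000020000000200000004 0x400000007000000070000000300000003000000030000000600000004 6 3) 0 0 (step_sound _ 129 [(rhd3458b32566d63f7.shift 1 0), (rhe90487692b2a42fe.shift 0 1)] (by decide +kernel))
noncomputable def rhc9580269a381499e : CRef := CRef.mk (Pat.mk 0x10000000100000001c000000140000001000000000 0x300000003000000038000000180000001f000000140000001400000004 6 6) 0 0 (step_sound _ 131 [(rh50fbb5868c909700.shift 3 1), rh69256efb3c60d299] (by decide +kernel))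
noncomputable def rh384507886d1b397f : CRef := CRef.mk (Pat.mk 0x40000000e0000000a0000000000000000 0x100000003c0000000e0000000b0000001e0000001e 6 6) 0 0 (step_sound _ 35 [rh4067b1842016ab0e, (rh7b1f1fb55310c477.shift 2 0)] (by decide +kernel))
noncomputable def rh757e1def9d4f67d9 : CRef := CRef.mk (Pat.mk 0x1e00000000 0xfc000000ff000000e0 6 8) 0 0 (step_sound _ 37 [(rh3fc3a7fb6866dcd4.shift 2 0), (rh9890f9d77740bbed.shift 1 1), rhdd4756ed63c5dbcb] (by decide +kernel))
noncomputable def rh2fa7f8c3494cff60 : CRef := CRef.mk (Pat.mk 0x1c0000001400000000000000080000000000000000 0x200000002200000032000000f70000003e000000140000001c0000000c0000000800000008 6 8) 0 0 (step_sound _ 196 [(rh37ed05a0c9e74c8f.shift 0 2), (rhb447be62e606bd33.shift 2 3), (rhfe5910dfd461105e.shift 2 0)] (by decide +kernel))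
noncomputable def rhed48fb91c03444f9 : CRef := CRef.mk (Pat.mk 0x20000000600000004000000000000001800000000 0x20000000600000004000000e40000007e000000ff 6 8) 0 0 (step_sound _ 34 [rh1199a7e8b12afa67, (rh9e07f76261b05888.shift 1 1)] (by decide +kernel))
noncomputable def rhcaaf9cf47aab4970 : CRef := CRef.mk (Pat.mk 0x3800000028000000000000001000000000 0x44000000440000006c000001ef0000007c00000028000000780000007000000040 6 9) 0 0 (step_sound _ 165 [(rh15ff8a01f368762c.shift 0 1), (rh878c03cc42e824bf.shift 2 2), (rh97bd62662717f3a7.shift 4 0), (rha11dfd15f08f96e3.shift 2 4)] (by decide +kernel))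
noncomputable def rh9327b7a4c51c429f : CRef := CRef.mk (Pat.mk 0x2000000020000000200000002000000000000000000000000 0x400000007000000070000000300000002000000060000000600000004 6 3) 0 0 (step_sound _ 194 [(rh2f68792b6b779e96.shift 1 3), rh8dd9f845b93871d9] (by decide +kernel))
noncomputable def rhf2bd6a03d3c00d1f : CRef := CRef.mk (Pat.mk 0x400000004000000040000000200000000 0xa0000000f0000003c000000040000000600000006 6 6) 0 0 (step_sound _ 34 [rh305945700f20b255, (rh932754581e0f4330.shift 1 0)] (by decide +kernel))
noncomputable def rh90a315350f5b6a97 : CRef := CRef.mk (Pat.mk 0x2000000020000000200000002000000000000000000000000 0x6000000060000000600000006000000070000000700000001 6 3) 0 0 (step_sound _ 66 [rh0fd65e3cf503e830, (rhd3458b32566d63f7.shift 1 2)] (by decide +kernel))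
noncomputable def rh9b951d2fc655c1ff : CRef := CRef.mk (Pat.mk 0x1000000010000000000000000c00000008 0x1000000010000000f00000007e000000ff 6 8) 0 0 (step_sound _ 36 [(rh3c88ce959c0e423f.shift 3 0), rhfd070b4c3e3b8f1d] (by decide +kernel))
noncomputable def rh60ed8b6b175ebd1a : CRef := CRef.mk (Pat.mk 0x80000001c000000140000001000000000 0x20000000220000007f0000007c000000140000001400000004 6 7) 0 0 (step_sound _ 34 [(rh71222050f2c63a3a.shift 2 0), (rhfaa84588129e0940.shift 0 1)] (by decide +kernel))
noncomputable def rh8eee14803a9b57ea : CRef := CRef.mk (Pat.mk 0x10000000180000001c00000014 0x2f000000ff000000f80000001c00000014 6 8) 0 0 (step_sound _ 99 [rh488657d2bf51f941, (rh5c5e593799055d58.shift 2 0)] (by decide +kernel))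
noncomputable def rhbba06666165d5a7a : CRef := CRef.mk (Pat.mk 0x1000000000000000120000000600000002 0x5000000070000001f0000000f0000001a0000000600000006 6 5) 0 0 (step_sound _ 97 [(rh14f80659e6313cc6.shift 1 0), rh1741680720c097b4, rh3da62da861143b9a, rhc38176d5265d3b20, rhfb9fb48a5e63ed80] (by decide +kernel))
noncomputable def rh6740c46016462ff5 : CRef := CRef.mk (Pat.mk 0x1000000000000000020000000e0000000a 0x5000000070000003f0000001f0000000a0000000e0000000e 6 6) 0 0 (step_sound _ 97 [(rh14f80659e6313cc6.shift 1 0), rh1741680720c097b4, rh3da62da861143b9a, rh62637d8bccd18ce9, rhfb9fb48a5e63ed80] (by decide +kernel))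
noncomputable def rh2198e04b50d0665a : CRef := CRef.mk (Pat.mk 0x800000007000000040 0xc70000007e00000067 6 8) 0 0 (step_sound _ 35 [(rh428265de8cd3cd2d.shift 3 1), rh88c620441a3a17ea] (by decide +kernel))
noncomputable def rh89ff9440e66defae : CRef := CRef.mk (Pat.mk 0x1f800000000 0x77000001fe00000007 6 9) 0 0 (step_sound _ 69 [(rh3244c3cc8379b070.shift 4 1), rha4e887c2a2a0f60b] (by decide +kernel))
noncomputable def rh7f763b14aadaabbb : CRef := CRef.mk (Pat.mk 0x60000000a0000000a0000000200000000 0x10000000300000003e0000003f0000000a0000000200000002 6 6) 0 0 (step_sound _ 98 [(rh71222050f2c63a3a.shift 1 0), (rhe3b2bda19a03ddf0.shift 0 2)] (by decide +kernel))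
noncomputable def rh7c529692b3fb6705 : CRef := CRef.mk (Pat.mk 0x2000000010000000100000001000000000 0x280000007c0000001f000000100000001000000010 6 7) 0 0 (step_sound _ 132 [(rh2f68792b6b779e96.shift 4 1), rha50144a89c1d346d] (by decide +kernel))
noncomputable def rh66b47f3697517a5f : CRef := CRef.mk (Pat.mk 0x4000000060000000a0000000800000000 0x740000003e0000007b0000000800000008 6 7) 0 0 (step_sound _ 99 [(rh352b7f91eba0c81f.shift 0 2), (rh7b1f1fb55310c477.shift 2 0)] (by decide +kernel))
noncomputable def rha738643d04a076d5 : CRef := CRef.mk (Pat.mk 0x60000000a0000000800000000 0x4000000040000007c0000003e0000007b0000000800000008 6 7) 0 0 (step_sound _ 99 [(rh352b7f91eba0c81f.shift 0 2), (rhb1a251d9bff81766.shift 2 0)] (by decide +kernel))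
noncomputable def rh5e1157b73930c17a : CRef := CRef.mk (Pat.mk 0x8000000080000000200000007000000000 0x8000000080000001ef000001fe0000018f 6 9) 0 0 (step_sound _ 35 [(rh3137f3db262c2e3f.shift 3 0), (rh592c7139d2c44767.shift 1 0), rhb12ffaec36122c99, (rhec46bd5500c722c9.shift 2 1)] (by decide +kernel))
noncomputable def rhbd2413bb4cc1fe3b : CRef := CRef.mk (Pat.mk 0x20000000200000002000000020000000000000000 0x400000006000000060000000200000006000000070000000700000001 6 3) 0 0 (step_sound _ 66 [rh30a55c7edf518ace, (rh55afc6a59410cf00.shift 1 1)] (by decide +kernel))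
noncomputable def rhde56da86d59b3170 : CRef := CRef.mk (Pat.mk 0xa0000000a00000002000000000000000000000000 0x4000000040000000c0000000f0000000f0000000b0000000a000000030000000300000001 6 4) 0 0 (step_sound _ 65 [(rh16f92f1c149db50f.shift 1 2), rhc4526fc8abf298b6] (by decide +kernel))
noncomputable def rhbdcf55c1371f7baf : CRef := CRef.mk (Pat.mk 0x20000000e00000004 0xe30000007e000000fc 6 8) 0 0 (step_sound _ 36 [(rh3244c3cc8379b070.shift 0 1), (rhfb3bd7a117830e38.shift 1 0)] (by decide +kernel))
noncomputable def rh72d1384198daac4f : CRef := CRef.mk (Pat.mk 0x400000004000000040000000400000000 0x400000004000000040000007c0000001f0000000a 6 7) 0 0 (step_sound _ 35 [(rh55afc6a59410cf00.shift 2 0), rhce53315ccf995f19] (by decide +kernel))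
noncomputable def rhad48d64c73928d0d : CRef := CRef.mk (Pat.mk 0x800000028000000280000002800000000 0x10000000180000003c0000002f0000007800000030 6 7) 0 0 (step_sound _ 132 [(rh2f68792b6b779e96.shift 3 1), rh79c7eb941f340aab] (by decide +kernel))
noncomputable def rh312a4c6ec42d35ef : CRef := CRef.mk (Pat.mk 0x20000000a0000000a0000000a0000000000000000 0x40000000e0000000e0000000b0000001e0000003800000010 6 6) 0 0 (step_sound _ 162 [(rh2f68792b6b779e96.shift 1 2), rhc0b158dcc8441ebe] (by decide +kernel))
noncomputable def rh080f49c381efaed3 : CRef := CRef.mk (Pat.mk 0x1000000050000000500000005000000000000000000000000 0x2000000030000000700000005000000050000000e0000000e0000000a 6 4) 0 0 (step_sound _ 193 [(rh2f68792b6b779e96.shift 0 3), (rhbba7d23481996066.shift 1 0)] (by decide +kernel))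
noncomputable def rh535066a1cadc021b : CRef := CRef.mk (Pat.mk 0x800000028000000280000002800000000 0x10000000180000003c0000002f0000007800000030 6 7) 0 0 (step_sound _ 132 [(rh2f68792b6b779e96.shift 3 1), rhf6bcf397458e27a9] (by decide +kernel))
noncomputable def rh3097a5b524c04870 : CRef := CRef.mk (Pat.mk 0xc0000001c000000140000001400000000 0x300000007f0000001f000000170000003c00000020 6 7) 0 0 (step_sound _ 129 [(rhb739f4f82bb681b4.shift 0 3), rhe4809de3310af961] (by decide +kernel))
noncomputable def rhc1fec1a57e249d27 : CRef := CRef.mk (Pat.mk 0x2000000020000000200000002 0x100000007000000070000000700000003000000030000000300000002 6 3) 0 0 (step_sound _ 129 [(rh1741680720c097b4.shift 0 1), rh1dbcb5e00a28937f, rh3ca48e2a6d60153d, (rh6fa8dd4bf0561bd9.shift 0 1)] (by decide +kernel))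
noncomputable def rh109528a694f02b67 : CRef := CRef.mk (Pat.mk 0x2000000028000000280000002000000020 0x4000000040000001e0000007c0000006f000000280000002000000020 6 7) 0 0 (step_sound _ 132 [rh4d217e14c25dc9fe, (rh50fbb5868c909700.shift 4 1)] (by decide +kernel))
noncomputable def rh0157624f6bf1b337 : CRef := CRef.mk (Pat.mk 0x20000001e000000020000000800000008 0x7000000070000003e0000001e000000060000000e00000008 6 6) 0 0 (step_sound _ 132 [rh00a52309bb08a95d, (rh33e738c4ed385b9f.shift 1 3)] (by decide +kernel))
noncomputable def rh48ec8217c159c863 : CRef := CRef.mk (Pat.mk 0x400000004000000080000000a0000000a0000000a00000000 0x4000000070000000b0000000b0000000b0000001e00000013 6 5) 0 0 (step_sound _ 36 [(rh55afc6a59410cf00.shift 3 0), rhe6f3651eb36c5c2c] (by decide +kernel))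
noncomputable def rhc2d0b729473b1376 : CRef := CRef.mk (Pat.mk 0x1c000000080000000a0000000a0000000c00000000 0x1f0000000b0000000b0000000b0000001e00000013 6 5) 0 0 (step_sound _ 36 [(rh55afc6a59410cf00.shift 3 0), rhff9e236102c42956] (by decide +kernel))
noncomputable def rhe67638cf1bae99d1 : CRef := CRef.mk (Pat.mk 0x18000000140000001400000010 0x200000002000000270000003e000000360000001400000010 6 6) 0 0 (step_sound _ 101 [(rh2f68792b6b779e96.shift 4 0), (rh896ccaf2724ac0c5.shift 0 1)] (by decide +kernel))
noncomputable def rh6278d85f0636c4a3 : CRef := CRef.mk (Pat.mk 0x18000000080000000a0000000a0000000c00000000 0x190000000f0000000b0000000b0000001e00000013 6 5) 0 0 (step_sound _ 36 [(rh55afc6a59410cf00.shift 3 0), rh69e29d723ee21a4f] (by decide +kernel))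
noncomputable def rhcb3c331a13123d81 : CRef := CRef.mk (Pat.mk 0x280000002800000008 0x400000004000001ce000000fc000001ef00000008 6 9) 0 0 (step_sound _ 68 [(rh2820ca9a6c4f41b4.shift 0 1), (rh38dab6a66c300bf2.shift 1 0), (rhdf1028bdcc8bfa19.shift 1 1), (rhfa35e196e150edb4.shift 2 1), (rhfee6cf4b1b804c14.shift 1 0)] (by decide +kernel))
noncomputable def rhea502fff4bdf6fac : CRef := CRef.mk (Pat.mk 0x140000001400000004 0x20000000a000000ef0000007e000000f700000004 6 8) 0 0 (step_sound _ 67 [rh06be8e5562dc7104, (rh2ccbd86a7098bf36.shift 1 0), (rh352b7f91eba0c81f.shift 1 1), rh38dab6a66c300bf2] (by decide +kernel))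
noncomputable def rhe277ee5cc41fe229 : CRef := CRef.mk (Pat.mk 0x1800000038000000280000000800000000 0x1e0000003c0000002f0000007800000030 6 7) 0 0 (step_sound _ 129 [rh732072ef050d5f57, (rhab22b5b56e7b3243.shift 1 3)] (by decide +kernel))
noncomputable def rh4051a828645ab6b1 : CRef := CRef.mk (Pat.mk 0x20000000e00000002 0xe60000007e000000e3 6 8) 0 0 (step_sound _ 36 [(rh167fff566cb27b75.shift 1 0), rheb0810cc63b001d8] (by decide +kernel))
noncomputable def rh718d414b3da33579 : CRef := CRef.mk (Pat.mk 0x100000002000000020000000a00000002 0x4000000070000000700000002000000060000001f00000003 6 5) 0 0 (step_sound _ 129 [(rh50fbb5868c909700.shift 0 1), rh9a07fae2e348cdeb] (by decide +kernel))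
noncomputable def rh428dee20ff218f33 : CRef := CRef.mk (Pat.mk 0x2000000020000000200000002000000020000000000000000 0x50000000700000007000000020000000200000002000000030000000300000001 6 3) 0 0 (step_sound _ 32 [(rh79877ebd3ef475dd.shift 0 1), rhbe492ff94b476bd2] (by decide +kernel))
noncomputable def rh68e4f8a1f2c6eb66 : CRef := CRef.mk (Pat.mk 0x120000001a0000000a00000002000000000000000000000000 0x120000001a0000000a0000000e0000001f0000000700000001 6 5) 0 0 (step_sound _ 66 [(rhd3458b32566d63f7.shift 1 2), rhf17dbae82aa7160f] (by decide +kernel))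
noncomputable def rh3c1b38ddf5742ce7 : CRef := CRef.mk (Pat.mk 0x120000001a0000000a00000002 0x40000001f00000017000000130000001a0000000a00000002 6 5) 0 0 (step_sound _ 128 [(rhbb70e0a4d5d67ef0.shift 0 1), rhffd04209dc8ea796] (by decide +kernel))
noncomputable def rh0e5ff3ac76170b64 : CRef := CRef.mk (Pat.mk 0x80000001c0000001400000010 0x230000007f0000003f0000001400000014 6 7) 0 0 (step_sound _ 100 [(rh0bb882ba86b2372d.shift 0 2), (rh712526e472efe489.shift 2 0), rhade4aa999c9d1413] (by decide +kernel))
noncomputable def rh38463a1ca9edee2c : CRef := CRef.mk (Pat.mk 0x80000002800000028000000000000000000000000 0x28000000280000002f0000007c000000f00000005000000050 6 8) 0 0 (step_sound _ 100 [(rh53a9eca71b4a4b8f.shift 2 0), (rha614bc41232bed61.shift 3 0), (rha9fbfd4bb8cf890b.shift 0 3)] (by decide +kernel))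
noncomputable def rh8c9c5ce22c5e1bcb : CRef := CRef.mk (Pat.mk 0x800000000000000100000001e000000000000000000000000 0xa0000000a0000001f0000001f000000040000000400000004 6 5) 0 0 (step_sound _ 131 [rh2fcd883c4bd901aa, (rh53b3c253cb0c65f4.shift 0 3)] (by decide +kernel))
noncomputable def rh4df14ec9afdc3848 : CRef := CRef.mk (Pat.mk 0x1800000000000000000000001e0000000000000000 0x40000001f0000000f000000030000001e0000000700000004 6 5) 0 0 (step_sound _ 97 [rh12b8a66e37fc2bdd, (rh3244c3cc8379b070.shift 0 2)] (by decide +kernel))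
noncomputable def rh2994fea1b0bd2523 : CRef := CRef.mk (Pat.mk 0x1800000018000000080000000c 0x70000001f0000001f0000000e0000000c 6 5) 0 0 (step_sound _ 98 [rh2444968c807a2d98, (rh50fbb5868c909700.shift 2 0)] (by decide +kernel))
noncomputable def rh603d350afdee8e0d : CRef := CRef.mk (Pat.mk 0x10000000500000005000000030000000000000000 0x500000005000000050000001f0000001f0000000800000008 6 5) 0 0 (step_sound _ 97 [(rh2145e1d24b96a57e.shift 0 2), rha33da9b6fe83e41d] (by decide +kernel))
noncomputable def rh9c1a909469b2c0df : CRef := CRef.mk (Pat.mk 0x2000000020000000a0000000a000000000000000000000000 0xa0000000a0000000b0000001e0000003c0000001000000010 6 6) 0 0 (step_sound _ 98 [rh53a9eca71b4a4b8f, (rh55afc6a59410cf00.shift 1 2)] (by decide +kernel))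
noncomputable def rhaee7df9897f948a1 : CRef := CRef.mk (Pat.mk 0x3800000000000000100000001000000010 0x70000003e00000077000000100000001000000010 6 7) 0 0 (step_sound _ 101 [(rh1006c02ae4212ff0.shift 4 0), (rh3918eeb6c53434d8.shift 0 3)] (by decide +kernel))
noncomputable def rh7b8a3f2a217d2093 : CRef := CRef.mk (Pat.mk 0xe000000000000000400000004 0x730000003e000000740000000400000004 6 7) 0 0 (step_sound _ 129 [(rh2613c889e411427e.shift 1 0), (rh9c94213f6896c74a.shift 0 2)] (by decide +kernel))
noncomputable def rh20a2c9e864a169e2 : CRef := CRef.mk (Pat.mk 0x38000000000000000000000004000000040000003800000000 0xf0000007e000000e70000000600000006000000060000003c00000004 6 8) 0 0 (step_sound _ 34 [(rh3244c3cc8379b070.shift 1 1), rh8db4b6bc3744497d] (by decide +kernel))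
noncomputable def rh0fa42e2ef604ff06 : CRef := CRef.mk (Pat.mk 0x3c0000000000000000000000020000000200000000 0x740000003e0000000300000002000000030000000300000001 6 7) 0 0 (step_sound _ 197 [(rh33e738c4ed385b9f.shift 2 5), rh43a67f6e5a0f2338] (by decide +kernel))
noncomputable def rh533df5c46f4783d4 : CRef := CRef.mk (Pat.mk 0xf00000000 0x3f0000003f00000070 6 7) 0 0 (step_sound _ 68 [rh149367f9f1f8871e, (rh428265de8cd3cd2d.shift 0 1)] (by decide +kernel))
noncomputable def rh75a7eeea86ea90b2 : CRef := CRef.mk (Pat.mk 0x100000001e0000001000000000 0x38000000380000001f0000001e0000001800000018 6 6) 0 0 (step_sound _ 97 [(rh3244c3cc8379b070.shift 0 2), (rh3bc29805fee9d8b6.shift 1 0)] (by decide +kernel))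
noncomputable def rh78f20a76f87966ad : CRef := CRef.mk (Pat.mk 0x100000001e0000001000000000 0x3000000038000000380000001f0000001e0000001800000010 6 6) 0 0 (step_sound _ 97 [(rh3244c3cc8379b070.shift 0 2), (rha23cbc86790badb8.shift 1 0)] (by decide +kernel))
noncomputable def rhc77a652779e85bee : CRef := CRef.mk (Pat.mk 0xf000000080000000000000000 0x140000001c0000001c0000001c0000000f0000000c0000000c0000000c 6 5) 0 0 (step_sound _ 131 [(rh31b679a2a3cca353.shift 2 0), (rh33e738c4ed385b9f.shift 0 3)] (by decide +kernel))
noncomputable def rh16fb77bd2911dcdf : CRef := CRef.mk (Pat.mk 0x2000000028000000280000002000000000 0x200000007c0000002f0000007800000050 6 7) 0 0 (step_sound _ 36 [(rh932754581e0f4330.shift 4 0), rhb84e061f03757d02] (by decide +kernel))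
noncomputable def rhd7429d15a03f54e4 : CRef := CRef.mk (Pat.mk 0xa00000008000000080000000800000000 0x100000007c0000000f00000008000000180000001800000010 6 7) 0 0 (step_sound _ 36 [(rh55afc6a59410cf00.shift 3 0), (rhcaa3c446a18921a8.shift 0 1)] (by decide +kernel))
noncomputable def rhd92a92a910a01cb4 : CRef := CRef.mk (Pat.mk 0x2800000028000000200000000000000000 0x40000000700000007c0000002f000000300000003000000010 6 7) 0 0 (step_sound _ 37 [(rh3a73674d7a676c64.shift 2 1), (rha51f537e042fce54.shift 0 1), (rhb7ee8905496f843d.shift 4 0), (rhf4d32ceb02606f40.shift 2 0)] (by decide +kernel))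
noncomputable def rhe8775f4a901009e3 : CRef := CRef.mk (Pat.mk 0x40000000400000014000000040000000000000000 0x400000006000000070000001e000000070000000600000004 6 5) 0 0 (step_sound _ 65 [(rh932754581e0f4330.shift 1 1), rhec5243c868644e71] (by decide +kernel))
noncomputable def rhc845a68e40c7fc5d : CRef := CRef.mk (Pat.mk 0x5800000018000000000000000000000000 0x8000000df000000ff000000070000000400000004 6 8) 0 0 (step_sound _ 101 [(rha9fbfd4bb8cf890b.shift 0 3), rhe6df117360faba60, (rheff610e725081997.shift 3 3)] (by decide +kernel))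
noncomputable def rh417c9163b7d6fad7 : CRef := CRef.mk (Pat.mk 0x20000000a0000001a000000020000000000000000 0x10000000100000003c0000001e0000000b0000001a0000001a0000001000000010 6 6) 0 0 (step_sound _ 162 [(rh2f68792b6b779e96.shift 1 2), rh885fae1c35d6e511] (by decide +kernel))
noncomputable def rh0b2ec282beb91af1 : CRef := CRef.mk (Pat.mk 0x40000000800000028000000280000000c0000000000000000 0x40000000440000007f0000007800000028000000780000006c0000004000000040 6 7) 0 0 (step_sound _ 195 [(rh50fbb5868c909700.shift 2 3), rhe6c694c18721c656] (by decide +kernel))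
noncomputable def rhf7c94e16f5538873 : CRef := CRef.mk (Pat.mk 0xc00000038000000200000003800000000000000000000000000000000 0x2f00000038000000200000007c000001e0000000600000004000000040 6 9) 0 0 (step_sound _ 225 [(rha7d822594f9720f6.shift 2 0), (rhb739f4f82bb681b4.shift 0 6)] (by decide +kernel))
noncomputable def rh0546c491c3527b1e : CRef := CRef.mk (Pat.mk 0x8000000080000000e000000040000000000000000 0x8000000e80000007f000000fe0000001000000010 6 8) 0 0 (step_sound _ 100 [(rh9578ed719a62d507.shift 0 1), (rhc7b95363f9049b11.shift 1 0), (rhfa35e196e150edb4.shift 1 2)] (by decide +kernel))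
noncomputable def rhb8de812ad63e724c : CRef := CRef.mk (Pat.mk 0xc00000008000000020000001c00000000 0x10000000f0000001f000000030000001e00000003 6 5) 0 0 (step_sound _ 33 [(rh3244c3cc8379b070.shift 0 1), rhc28ac7ca760d1989] (by decide +kernel))
noncomputable def rh1254acb2dcf1a026 : CRef := CRef.mk (Pat.mk 0xc00000008000000200000003c00000000 0x3f00000078000000200000007c000000e0 6 8) 0 0 (step_sound _ 6 [rh5ef80665ccc2c48a, (rh96851dee118c1ba3.shift 2 0)] (by decide +kernel))
noncomputable def rh1cacf916f989b95f : CRef := CRef.mk (Pat.mk 0x1000000020000000a0000000a0000000a0000000000000000 0x1000000130000001e0000000a0000000a0000001f0000001900000010 6 5) 0 0 (step_sound _ 193 [rh05e59d85c4ec515f, (rh50fbb5868c909700.shift 0 3)] (by decide +kernel))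
noncomputable def rhb26a9d80e55151db : CRef := CRef.mk (Pat.mk 0xa000000080000000b0000000000000000 0x100000007c0000001f000000080000001f0000001800000010 6 7) 0 0 (step_sound _ 35 [(rh2251e5694db99b1b.shift 0 1), rh5f11ee373cbffcaa, (rhced6d86d2069808b.shift 3 0)] (by decide +kernel))
noncomputable def rh51f2fd63cf2371b7 : CRef := CRef.mk (Pat.mk 0x20000000a0000000a0000000a0000000000000000 0x100000001f0000001e0000000a0000001f0000001900000010 6 5) 0 0 (step_sound _ 64 [rh900de6cbf59b90ff, (rh932754581e0f4330.shift 0 1)] (by decide +kernel))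
noncomputable def rha57f78437203c939 : CRef := CRef.mk (Pat.mk 0x60000000300000002000000020000000b0000000a000000000000000000000000 0x1e000000130000001e0000001e0000000b0000001e000000180000001000000010 6 5) 0 0 (step_sound _ 100 [(rh5419adcd928dba20.shift 0 3), rhc639f8163a55a76f] (by decide +kernel))
noncomputable def rh9f32efcec3906de1 : CRef := CRef.mk (Pat.mk 0x2000000020000000b0000000a0000000000000000000000000 0x10000000110000001fc000001e7000000be000001e7000001800000010000000100 6 9) 0 0 (step_sound _ 131 [(rh990d8b0ee44a8b62.shift 2 0), (rhb12ffaec36122c99.shift 0 3), (rhd5b85d579310c48e.shift 2 3)] (by decide +kernel))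
noncomputable def rh94543897e5fa2ce3 : CRef := CRef.mk (Pat.mk 0x80000001e0000000c 0xe0000000f0000003b0000001e0000000c 6 6) 0 0 (step_sound _ 99 [(rh5c5e593799055d58.shift 2 0), rh9c5ff80d3ec3e386] (by decide +kernel))
noncomputable def rhf9547cc0bebcf49c : CRef := CRef.mk (Pat.mk 0x180000001e0000000000000000 0x600000006000000070000001f0000001e0000000700000002 6 5) 0 0 (step_sound _ 97 [(rh3244c3cc8379b070.shift 0 2), rhd7df709195facb47] (by decide +kernel))
noncomputable def rhf66e65c20391069b : CRef := CRef.mk (Pat.mk 0x40000001700000014000000000000000000000000 0x2000000020000000300000003e000000170000003c000000300000002000000020 6 6) 0 0 (step_sound _ 101 [rh2b2b1e0bf067455c, (rh5419adcd928dba20.shift 1 3)] (by decide +kernel))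
noncomputable def rhe05b05c25fa28588 : CRef := CRef.mk (Pat.mk 0x120000001e0000000000000000 0x7000000070000001e0000001e0000000700000006 6 5) 0 0 (step_sound _ 33 [rhd1eb313eec82ca0b, (rheb0810cc63b001d8.shift 0 1)] (by decide +kernel))
noncomputable def rh73aa6c6cc77ba7b5 : CRef := CRef.mk (Pat.mk 0x1e000000180000000000000000 0x6000000070000001e0000001f0000000700000006 6 5) 0 0 (step_sound _ 65 [(rheb0810cc63b001d8.shift 0 2), rhf6d895f9ad95dba0] (by decide +kernel))
noncomputable def rh2c3a2ea36ddad983 : CRef := CRef.mk (Pat.mk 0x14000000340000000400000000 0xa0000000e0000000f0000001e000000360000000600000002 6 6) 0 0 (step_sound _ 99 [rh88b8cec4d183a8bd, (rhb739f4f82bb681b4.shift 1 2)] (by decide +kernel))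
noncomputable def rh193f749d20993b89 : CRef := CRef.mk (Pat.mk 0x1800000010000000180000001c 0x40000001e000000770000007f0000001c 6 7) 0 0 (step_sound _ 37 [(rh18965a982d73c794.shift 2 0), rh9109a289578dc515] (by decide +kernel))
noncomputable def rhcd4d16d28964fbaf : CRef := CRef.mk (Pat.mk 0x1c000000180000000000000000 0x4000000070000001f0000001f0000000300000003 6 5) 0 0 (step_sound _ 97 [rhafa8ad03fb07c74b, (rhb739f4f82bb681b4.shift 0 2)] (by decide +kernel))
noncomputable def rh650dc73538ea7b62 : CRef := CRef.mk (Pat.mk 0x800000008000000280000000c 0x8000000080000000f0000003e0000007e 6 7) 0 0 (step_sound _ 34 [(rh5c5e593799055d58.shift 2 0), rh7bb82bb52baebe64] (by decide +kernel))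
noncomputable def rhdeec5264d5c8027e : CRef := CRef.mk (Pat.mk 0x20000000a0000000a00000006000000000000000000000000 0x100000001f0000001f0000000a0000000f0000003e000000180000001000000010 6 6) 0 0 (step_sound _ 99 [rh29efd1cb4ad9cce1, (rh482cbd948aaecf66.shift 0 3), (rh4dafd3c56d61b277.shift 0 3)] (by decide +kernel))
noncomputable def rh72ec320fc2cfbc2f : CRef := CRef.mk (Pat.mk 0x20000000a0000000a00000006 0x3e0000001e0000000b0000000e0000000e 6 6) 0 0 (step_sound _ 34 [(rh2145e1d24b96a57e.shift 1 0), rha5713126c949d9f0] (by decide +kernel))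
noncomputable def rhe7875d1fc6c8ddf6 : CRef := CRef.mk (Pat.mk 0x8000000280000002800000018 0x380000007c0000002f0000003800000018 6 7) 0 0 (step_sound _ 36 [(rh2145e1d24b96a57e.shift 3 0), rh7829737509aebab4] (by decide +kernel))
noncomputable def rh619943e5579c6d53 : CRef := CRef.mk (Pat.mk 0x2000000020000000a0000000b00000000000000000000000000000000 0x100000001e0000001f0000000a0000000f0000001c0000001c0000001400000014 6 5) 0 0 (step_sound _ 99 [(rh3e0678eb1e5c0f77.shift 0 1), (rh772b018c11e2d4b9.shift 1 0), rh9765e413c7f50252, (rha4153ec7702b79ba.shift 0 3)] (by decide +kernel))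
noncomputable def rh37f09e4afa3b0ad0 : CRef := CRef.mk (Pat.mk 0x400000004000000140000000c00000000 0x40000000400000004000000f70000007e000000e0 6 8) 0 0 (step_sound _ 36 [(rh4a0cb3a9508b05dd.shift 1 0), (rh6268334d767980dd.shift 0 1), (rh8d35ee02bbc003d6.shift 0 1), (rha11dfd15f08f96e3.shift 1 1)] (by decide +kernel))
noncomputable def rh532cccdb7b7aba24 : CRef := CRef.mk (Pat.mk 0x400000005800000018000000000000000000000000 0x4000000048000000df000000ff000001c70000000400000004 6 9) 0 0 (step_sound _ 101 [(rhb930b94183d881f3.shift 3 2), rhd35bcd0deb2a35c8] (by decide +kernel))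
noncomputable def rh891613b290eedde5 : CRef := CRef.mk (Pat.mk 0xa0000000a000000180000003c00000000 0x130000001e0000000b00000018000000fc000000e0 6 8) 0 0 (step_sound _ 132 [rh0ef07a2ae61f18b1, (rh2f68792b6b779e96.shift 3 1)] (by decide +kernel))
noncomputable def rh85e4604d04453ab4 : CRef := CRef.mk (Pat.mk 0x80000000a0000000a00000002000000060000000000000000 0x80000001a0000001a0000001a0000001f0000001300000001 6 5) 0 0 (step_sound _ 32 [(rh79877ebd3ef475dd.shift 0 1), rhfb6b854037bb694f] (by decide +kernel))
noncomputable def rha296ace342538ea9 : CRef := CRef.mk (Pat.mk 0x20000000a0000000a0000000a0000000200000006 0x10000000180000001e0000000b0000001b0000001a0000003b0000001e 6 6) 0 0 (step_sound _ 128 [rh7dc41e4c9db082f4, rhffd04209dc8ea796] (by decide +kernel))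
noncomputable def rh5b4239cfce95ea28 : CRef := CRef.mk (Pat.mk 0x20000000a0000000a0000000a0000000200000003 0x10000000180000001e0000000b0000001b0000001a0000001e00000013 6 5) 0 0 (step_sound _ 128 [rh2c0fe4d9f347314b, rhffd04209dc8ea796] (by decide +kernel))
noncomputable def rh34022deaa9df4439 : CRef := CRef.mk (Pat.mk 0xa0000000a000000060000000000000000 0x8000000080000000b0000007e0000003f0000001000000010 6 7) 0 0 (step_sound _ 100 [(rh01e48cd9f335aa73.shift 0 2), rh67696df94ccc59a8, (rhfe7c844806756e31.shift 0 2)] (by decide +kernel))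
noncomputable def rha5c6afa9fdf4dce2 : CRef := CRef.mk (Pat.mk 0xa0000000a000000020000000600000003 0x8000000080000000b0000001f0000001a0000001e00000013 6 5) 0 0 (step_sound _ 36 [rh361cc68994bd8a63, rh7a0813b81c8e120f] (by decide +kernel))
noncomputable def rh49578f49b22e8a3c : CRef := CRef.mk (Pat.mk 0x20000000a0000000a000000060000000000000000 0x2000000020000000a0000003f0000003e0000003000000010 6 6) 0 0 (step_sound _ 98 [(rh2145e1d24b96a57e.shift 1 2), rhf57052375c38e6f0] (by decide +kernel))
noncomputable def rhb8961d436bd85e38 : CRef := CRef.mk (Pat.mk 0x20000001e000000000000000000000000 0x50000000700000007000000060000001e000000070000000600000004 6 5) 0 0 (step_sound _ 65 [rh297b31b992517702, (rheb0810cc63b001d8.shift 0 2)] (by decide +kernel))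
noncomputable def rh2be17e318623b768 : CRef := CRef.mk (Pat.mk 0x40000000c00000008000000200000003000000000 0x40000000c000000080000006f0000003e00000007 6 7) 0 0 (step_sound _ 35 [(rh9e07f76261b05888.shift 2 1), rhb12ffaec36122c99] (by decide +kernel))
noncomputable def rh1206b774cff5d7bd : CRef := CRef.mk (Pat.mk 0x20000001e0000001400000010000000100000001000000000 0x20000001e00000017000000160000001e0000003600000020 6 6) 0 0 (step_sound _ 129 [(rhdfdb54891d3dba56.shift 1 0), (rheb0810cc63b001d8.shift 0 4)] (by decide +kernel))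
noncomputable def rhe735cdb0c61f29c0 : CRef := CRef.mk (Pat.mk 0x28000000280000000800000000 0x400000004000000060000003f0000007f0000000800000008 6 7) 0 0 (step_sound _ 98 [(rh1a8a9207dc162d62.shift 1 1), rh2fb8b1d5540ddc92, (rh8c25cb665ab79ec0.shift 0 2), (rha6816dee951f7ee6.shift 2 2)] (by decide +kernel))
noncomputable def rha3bd360065b44ea3 : CRef := CRef.mk (Pat.mk 0x400000014000000040000000400000000 0x400000006000000070000001e000000070000000600000004 6 5) 0 0 (step_sound _ 129 [(rh50fbb5868c909700.shift 1 1), rhdf07b3373e283437] (by decide +kernel))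
noncomputable def rh8ceade854434116d : CRef := CRef.mk (Pat.mk 0x800000008000000180000001c00000000 0x40000000c0000000e0000001f0000001f00000003 6 5) 0 0 (step_sound _ 33 [(rh53b3c253cb0c65f4.shift 0 1), rh8a475bde9860f00f] (by decide +kernel))
noncomputable def rh2689b07844a98c21 : CRef := CRef.mk (Pat.mk 0x280000002800000008 0x4000000040000000e0000003f0000007f00000008 6 7) 0 0 (step_sound _ 66 [(rh8c25cb665ab79ec0.shift 0 1), rha37d485570fdcea2, (rhf8d674b865acf5f3.shift 1 0)] (by decide +kernel))
noncomputable def rha154ec87c0a91e4a : CRef := CRef.mk (Pat.mk 0x20000000b0000000a000000020000000000000000 0xc0000001e0000000b0000001e0000001a0000001000000010 6 5) 0 0 (step_sound _ 162 [(rh2f68792b6b779e96.shift 1 2), rh84fe84ade06bc004] (by decide +kernel))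
noncomputable def rh0b62e0a4c80087e1 : CRef := CRef.mk (Pat.mk 0x18000000280000002800000008000000000000000000000000 0x200000007c0000002f0000007c00000068000000580000005800000010 6 7) 0 0 (step_sound _ 162 [(rh6d7e9fbf5dfafd17.shift 2 0), (rh84e31abbeda0403b.shift 0 4), (rh84fe84ade06bc004.shift 2 1)] (by decide +kernel))
noncomputable def rh94cee27b9a6b99c8 : CRef := CRef.mk (Pat.mk 0x2000000060000000a0000000a000000010000000000000000 0x10000000b0000001e0000000a0000001e0000001b0000001100000010 6 5) 0 0 (step_sound _ 163 [(rh2e8814637c3f6d46.shift 0 3), rhb9b453157177bd8c] (by decide +kernel))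
noncomputable def rh54373fb5514ce268 : CRef := CRef.mk (Pat.mk 0x600000002000000080000001800000010 0x700000003e0000007b000000080000001800000010 6 7) 0 0 (step_sound _ 131 [(rh352b7f91eba0c81f.shift 0 3), (rh6f1cbe15c631ee70.shift 3 0)] (by decide +kernel))
noncomputable def rh5af8ea70d7d33332 : CRef := CRef.mk (Pat.mk 0x60000000a000000080000000800000010 0x700000003e0000007b000000080000001800000010 6 7) 0 0 (step_sound _ 131 [(rh352b7f91eba0c81f.shift 0 3), (rhd3458b32566d63f7.shift 3 0)] (by decide +kernel))
noncomputable def rhb1dbab2654f08006 : CRef := CRef.mk (Pat.mk 0x100000001000000020000000200000000000000000000000000000000 0x100000007000000070000000600000002000000030000000300000001 6 3) 0 0 (step_sound _ 97 [rh374ae440e8011597, (rhcfdf45280693d3da.shift 0 3)] (by decide +kernel))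
noncomputable def rh9f0725bd6293fbb0 : CRef := CRef.mk (Pat.mk 0xa000000020000000200000002000000300000001000000000 0x700000003e000000770000000200000002000000330000001f00000005 6 7) 0 0 (step_sound _ 194 [(rh352b7f91eba0c81f.shift 0 5), rhaf10089cb3890f2f] (by decide +kernel))
noncomputable def rh150a047a02e638a8 : CRef := CRef.mk (Pat.mk 0x20000001a000000120000000200000000 0xa0000001a0000001a0000001f0000003d 6 6) 0 0 (step_sound _ 32 [rh932754581e0f4330, rh9c422a9b0fc60f6e] (by decide +kernel))
noncomputable def rhc6236ac434622314 : CRef := CRef.mk (Pat.mk 0x60000001c0000000100000000 0x30000000300000003e0000001e0000003b00000008 6 6) 0 0 (step_sound _ 65 [(rh245928b0a8b00d1d.shift 1 0), (rh80fcd6d0a18cb2dd.shift 0 1)] (by decide +kernel))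
noncomputable def rh7fabfeb8946d0a8e : CRef := CRef.mk (Pat.mk 0x300000001000000050000000500000000 0x8000000080000001f0000001f000000050000000500000005 6 5) 0 0 (step_sound _ 97 [rh71222050f2c63a3a, rhf0088796f775dd8b] (by decide +kernel))
noncomputable def rh82c8658a66d745ba : CRef := CRef.mk (Pat.mk 0x20000000b0000001a000000000000000000000000 0x100000007c0000001e0000000b0000001a0000001a0000001000000010 6 7) 0 0 (step_sound _ 163 [(rh4c5cd0a413e1c786.shift 0 2), (rh70e33bfdf511e144.shift 3 0), (rh73f90196e9cc56f0.shift 0 2)] (by decide +kernel))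
noncomputable def rh06809ab48db3b4f7 : CRef := CRef.mk (Pat.mk 0x6000000030000000200000000000000000000000000000000 0x400000007000000030000000200000002000000070000000700000005 6 3) 0 0 (step_sound _ 97 [rh0a6888916bcef86b, (rh2f68792b6b779e96.shift 1 3)] (by decide +kernel))
noncomputable def rh9ca7327ddc3bf931 : CRef := CRef.mk (Pat.mk 0x80000000e000000180000000800000000 0x40000000c0000000e0000001b0000001f00000016 6 5) 0 0 (step_sound _ 130 [(rh50fbb5868c909700.shift 2 1), rhcea16961d004063f] (by decide +kernel))
noncomputable def rh7249c27fa1f57680 : CRef := CRef.mk (Pat.mk 0x1000000010000000200000007000000000 0x10000000100000003e0000007e0000000f 6 7) 0 0 (step_sound _ 35 [(rh316d0c7c5292e4bb.shift 2 0), (rh42dffdfbdd7e3e3a.shift 1 0), (rh592c7139d2c44767.shift 1 0), rh5b2ce1e5aa4a4edd] (by decide +kernel))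
noncomputable def rhd72e75008e11c2c1 : CRef := CRef.mk (Pat.mk 0x6000000060000000400000004 0x780000003e000000770000000400000004 6 7) 0 0 (step_sound _ 99 [(rh2f68792b6b779e96.shift 2 0), (rh352b7f91eba0c81f.shift 0 2)] (by decide +kernel))
noncomputable def rhef928aea422fabf8 : CRef := CRef.mk (Pat.mk 0x8000000080000000800000008000000080000000000000000 0x80000001c0000001f0000007c000000180000000800000008 6 7) 0 0 (step_sound _ 100 [rh349f383953bf5019, (rh55afc6a59410cf00.shift 3 2)] (by decide +kernel))
noncomputable def rhc59ba9a1f24cb412 : CRef := CRef.mk (Pat.mk 0x7000000040 0x70000007e000000e7 6 8) 0 0 (step_sound _ 35 [rh88c620441a3a17ea, (rhe25b0a99195a5d59.shift 3 0)] (by decide +kernel))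
noncomputable def rh4c75518579b51b70 : CRef := CRef.mk (Pat.mk 0x200000007000000000 0x1ff000001fe0000000f 6 9) 0 0 (step_sound _ 35 [(rh592c7139d2c44767.shift 1 0), rha4e887c2a2a0f60b, (rhe6bdd62e1711df0b.shift 3 1), (rhec46bd5500c722c9.shift 2 1)] (by decide +kernel))
noncomputable def rh8b47cd5f87b5015f : CRef := CRef.mk (Pat.mk 0x18000000180000001000000010 0x400000004000000270000003f0000001f0000001800000010 6 6) 0 0 (step_sound _ 101 [(rh2f68792b6b779e96.shift 4 0), (rha92a316f980eef78.shift 0 1)] (by decide +kernel))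
noncomputable def rh5260ceaa01eafaa9 : CRef := CRef.mk (Pat.mk 0x20000000200000002000000020000000200000002000000000000000000000000 0x20000000200000006000000060000000600000002000000070000000700000005 6 3) 0 0 (step_sound _ 162 [(rh55afc6a59410cf00.shift 1 4), rhffb8e5993241bf15] (by decide +kernel))
noncomputable def rhe4c6825992b43369 : CRef := CRef.mk (Pat.mk 0x80000000800000028000000000000000000000000 0x8000000080000000f0000007c0000001f0000001c00000014 6 7) 0 0 (step_sound _ 67 [(rh098c9ae918f31a59.shift 0 1), (rh4f71fa61affe4b7c.shift 1 1), (rh6eff4158bb400f47.shift 2 0), (rhc8fd50c44a2112a0.shift 0 1)] (by decide +kernel))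
noncomputable def rh88ae30dc3a4cb395 : CRef := CRef.mk (Pat.mk 0x80000002c00000038000000000000000000000000 0x280000007c0000002f00000038000000100000001000000010 6 7) 0 0 (step_sound _ 68 [rh20988876f08645f0, (rh2145e1d24b96a57e.shift 3 2)] (by decide +kernel))
noncomputable def rh344fab86ee6bec75 : CRef := CRef.mk (Pat.mk 0x8000000080000000c0000000c 0x60000001f0000007e0000000f0000000c 6 7) 0 0 (step_sound _ 98 [(rh50fbb5868c909700.shift 2 0), rh5923591cc0599043] (by decide +kernel))
noncomputable def rh83323ea5c84168be : CRef := CRef.mk (Pat.mk 0x80000000800000028000000000000000000000000 0x40000000c0000000f0000007c0000000f0000000c00000004 6 7) 0 0 (step_sound _ 67 [(rh92ed3525f919a568.shift 0 1), (rhc4526fc8abf298b6.shift 2 0), (rhc8fd50c44a2112a0.shift 0 1)] (by decide +kernel))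
noncomputable def rha94f9e6f62cdba47 : CRef := CRef.mk (Pat.mk 0x1000000000000000300000007000000000 0x1000000010000000770000007e0000000f 6 7) 0 0 (step_sound _ 35 [(rh981be6707e4d9088.shift 2 0), (rhab2ad169e49f9c5e.shift 1 1), rhb12ffaec36122c99] (by decide +kernel))
noncomputable def rh7ccf3cdb050d375d : CRef := CRef.mk (Pat.mk 0xa00000008000000080000000800000000 0x100000001c0000000f000000080000001c0000001c00000004 6 5) 0 0 (step_sound _ 34 [(rh932754581e0f4330.shift 2 0), (rhab9348a2cfbc9929.shift 0 1)] (by decide +kernel))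
noncomputable def rhf00084cc0bd3d93b : CRef := CRef.mk (Pat.mk 0xe0000000a000000080000000c00000000 0x130000001e0000000a0000001f0000000f00000001 6 5) 0 0 (step_sound _ 132 [rh1ddec4e30dd9809f, (rh2f68792b6b779e96.shift 3 1)] (by decide +kernel))
noncomputable def rh7d322cfbe6e1de53 : CRef := CRef.mk (Pat.mk 0x2000000028000000200000002000000020 0x770000003e000000270000002000000020 6 7) 0 0 (step_sound _ 100 [(rh50fbb5868c909700.shift 4 0), (rhb12ffaec36122c99.shift 0 2)] (by decide +kernel))
noncomputable def rh7675b29ea9ac61b9 : CRef := CRef.mk (Pat.mk 0x400000004000000100000001400000010000000100000000000000000 0x4000000040000003c0000001e00000013000000180000001800000008 6 6) 0 0 (step_sound _ 35 [(rh79877ebd3ef475dd.shift 3 1), rh9e51c8b581e07e9b] (by decide +kernel))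
noncomputable def rhc844ea2aa44cc951 : CRef := CRef.mk (Pat.mk 0x1400000014000000100000001800000000 0x1400000014000000140000003f0000001f00000002 6 6) 0 0 (step_sound _ 67 [rh56f84bb01397d516, (rh5c5e593799055d58.shift 3 1)] (by decide +kernel))
noncomputable def rhaf8eb343a779efad : CRef := CRef.mk (Pat.mk 0x3c000000040000001000000030 0x70000003e000000040000003e000000f4 6 8) 0 0 (step_sound _ 129 [rh36ce425c3febe2cc, (rh3f8766e6ecb455ce.shift 1 3)] (by decide +kernel))
noncomputable def rhbf995c4abfb6b197 : CRef := CRef.mk (Pat.mk 0x28000000280000003800000060 0x40000001f0000007c0000002800000038000001e8 6 9) 0 0 (step_sound _ 100 [rh14ab3a74ae069c9a, (rh50fbb5868c909700.shift 4 0)] (by decide +kernel))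
noncomputable def rh384904dccc2a769e : CRef := CRef.mk (Pat.mk 0x280000002800000028000000200000001000000010 0x1000000038000000280000007c0000002f0000001c00000010 6 7) 0 0 (step_sound _ 67 [(rh0bf45180b3afe24d.shift 0 1), (rhbe0e43a3bc50a43f.shift 3 0)] (by decide +kernel))
noncomputable def rh8b813903960bebcb : CRef := CRef.mk (Pat.mk 0x140000001400000010000000180000000000000000 0x1400000014000000140000001f0000001f0000000200000002 6 5) 0 0 (step_sound _ 99 [(rh5c5e593799055d58.shift 3 2), rhca453784ef4f3c8c] (by decide +kernel))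
noncomputable def rh360686c1c249e008 : CRef := CRef.mk (Pat.mk 0x2800000028000000200000002000000000 0x28000000280000002f0000007c0000003000000010 6 7) 0 0 (step_sound _ 36 [(rh5fd7f69c42abe3c9.shift 0 1), (rh932754581e0f4330.shift 4 0)] (by decide +kernel))
noncomputable def rhf92c094e260f0cb7 : CRef := CRef.mk (Pat.mk 0x1000000014000000140000001000000000 0x1400000014000000160000003e0000002f 6 6) 0 0 (step_sound _ 35 [rh28b2f8835f2163cd, (rh932754581e0f4330.shift 3 0)] (by decide +kernel))
noncomputable def rh6ff73e534253a9af : CRef := CRef.mk (Pat.mk 0x1e000000120000000000000000 0x6000000070000001e0000001e0000000700000007 6 5) 0 0 (step_sound _ 129 [(rh3244c3cc8379b070.shift 0 3), rhf60360c0d4215ec0] (by decide +kernel))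
noncomputable def rhd298fb5ac315c742 : CRef := CRef.mk (Pat.mk 0x20000001e0000000200000000 0x7000000070000003e0000001e0000000600000006 6 6) 0 0 (step_sound _ 100 [(rh33e738c4ed385b9f.shift 1 2), rhd1eb313eec82ca0b] (by decide +kernel))
noncomputable def rh9837b53a2e2f64e8 : CRef := CRef.mk (Pat.mk 0x1c00000002000000140000000000000000 0x30000001e000000030000001f0000000700000001 6 5) 0 0 (step_sound _ 129 [rh98f41a9712e44987, (rheb0810cc63b001d8.shift 0 3)] (by decide +kernel))
noncomputable def rh054c24ed64bf4bf0 : CRef := CRef.mk (Pat.mk 0x3800000000000000280000000000000000 0x100000007c0000000f0000007c0000000f00000004 6 7) 0 0 (step_sound _ 99 [(rh2820ca9a6c4f41b4.shift 0 3), (rh8bd0c5aa28568e2c.shift 0 2), rhda2b60972d57e21b] (by decide +kernel))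
noncomputable def rh8520270d5e3f9f36 : CRef := CRef.mk (Pat.mk 0x20000001e00000000000000000000000000000000 0x400000006000000060000001e00000007000000070000000700000005 6 5) 0 0 (step_sound _ 97 [rh43414acb434b2d81, (rheb0810cc63b001d8.shift 0 3)] (by decide +kernel))
noncomputable def rhceebf1d544fffb6f : CRef := CRef.mk (Pat.mk 0x1000000000000000180000003c0000000000000000 0x180000001e0000000f0000001e0000003c0000000c0000000c 6 6) 0 0 (step_sound _ 98 [(rh3244c3cc8379b070.shift 1 2), rhcf6c56bff34c5cb5] (by decide +kernel))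
noncomputable def rh39044c6164022eb3 : CRef := CRef.mk (Pat.mk 0x40000000f000000000 0x67000000fe0000003f 6 8) 0 0 (step_sound _ 35 [rh55f6bc4d69c1947b, rh5e601430b8bc2e39, (rheae1728ff4a56756.shift 2 0)] (by decide +kernel))
noncomputable def rh57ec85f4a84a9add : CRef := CRef.mk (Pat.mk 0x100000001000000038000000000000002000000000 0x10000000180000007c0000000f0000007c00000008 6 7) 0 0 (step_sound _ 67 [(rh2820ca9a6c4f41b4.shift 0 2), rhe809f32eb9c43c69, (rhf9af042da61fc652.shift 3 0)] (by decide +kernel))
noncomputable def rh633720215627220a : CRef := CRef.mk (Pat.mk 0x80000000b0000000a00000000 0x140000001c0000001c000000080000000b0000001e00000010 6 5) 0 0 (step_sound _ 36 [(rh14e0829dc73b6804.shift 2 0), (rh5419adcd928dba20.shift 0 1)] (by decide +kernel))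
noncomputable def rh4e69133096f54cfa : CRef := CRef.mk (Pat.mk 0x100000000000000080000000800000008000000000000000000000000 0x40000001f0000001c0000001800000008000000080000001c0000001c00000014 6 5) 0 0 (step_sound _ 67 [(rh2ad1eb9d76589cfb.shift 0 2), (rh8cdd36b03d57a2f6.shift 2 0)] (by decide +kernel))
noncomputable def rh459539c88f7c5ecc : CRef := CRef.mk (Pat.mk 0x400000007000000080 0x670000007e000000c7 6 8) 0 0 (step_sound _ 35 [rh5e601430b8bc2e39, (rh96851dee118c1ba3.shift 3 0)] (by decide +kernel))
noncomputable def rhdf4983421b49ae7a : CRef := CRef.mk (Pat.mk 0xf000000140000000000000000 0x2000000020000000780000003f000000170000001000000010 6 7) 0 0 (step_sound _ 100 [(rh9890f9d77740bbed.shift 0 3), (rhaf9f2efc81a8312b.shift 0 2), (rhd8b43b15431aaa50.shift 1 0)] (by decide +kernel))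
noncomputable def rh834e25cef44d7ee5 : CRef := CRef.mk (Pat.mk 0x800000008000000080000000c00000008000000020000000000000000 0x8000000080000000c0000000c0000000c000000080000001f0000001c00000010 6 5) 0 0 (step_sound _ 162 [(rh5c5e593799055d58.shift 2 4), rhfed24f5160a9e29e] (by decide +kernel))
noncomputable def rhd20ac6516de2ef00 : CRef := CRef.mk (Pat.mk 0x8000000080000000800000008000000020000000000000000 0x40000000c0000000c00000008000000080000001f0000001c00000010 6 5) 0 0 (step_sound _ 194 [(rh50fbb5868c909700.shift 2 3), rhe45100d055fdd767] (by decide +kernel))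
noncomputable def rh961a47501476152d : CRef := CRef.mk (Pat.mk 0x8000000080000000c00000008000000020000000000000000 0x40000001c0000001c000000180000000c0000000c000000080000001f0000001c00000010 6 5) 0 0 (step_sound _ 67 [(rh42ab489a1be3958e.shift 2 3), rhd8c37efe07b158de] (by decide +kernel))
noncomputable def rh2d8db8ae5a897a2b : CRef := CRef.mk (Pat.mk 0x7800000000 0x3f000000ff00000007 6 8) 0 0 (step_sound _ 34 [rh775ca1963e850b80, (rhd5eb272e07a4e288.shift 1 1), rhf598e23487d34ab3] (by decide +kernel))
noncomputable def rh2276944c880ac368 : CRef := CRef.mk (Pat.mk 0xe0000000c00000008 0x200000006000000770000007e0000000c0000000c 6 7) 0 0 (step_sound _ 98 [(rh2145e1d24b96a57e.shift 2 0), rhf53978444c3034c3] (by decide +kernel))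
noncomputable def rhd1aff3e9c51ba12e : CRef := CRef.mk (Pat.mk 0x1000000038000000300000002000000000 0xc0000000c0000001c000000380000003e0000007f0000000c 6 7) 0 0 (step_sound _ 67 [(rhf56e6bc5d2f7fe77.shift 1 1), rhf5b44d004e0bdf54] (by decide +kernel))
noncomputable def rh26e8159992a0f45c : CRef := CRef.mk (Pat.mk 0x180000002c0000000800000000 0x100000001000000030000000780000002f0000007c00000020 6 7) 0 0 (step_sound _ 65 [(rh53b3c253cb0c65f4.shift 0 2), (rhec07b154fd1381ba.shift 1 0)] (by decide +kernel))
noncomputable def rh4c421aa493fab9d9 : CRef := CRef.mk (Pat.mk 0x4000000020000001e0000000a 0x1000000170000001f000000320000001e0000000a 6 6) 0 0 (step_sound _ 97 [(rh2f68792b6b779e96.shift 1 0), rh88436902e0a0e2df] (by decide +kernel))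
noncomputable def rhd134aeb916a3a8d5 : CRef := CRef.mk (Pat.mk 0x20000000600000002000000000000000000000000 0x600000006000000060000000600000006000000070000000700000003 6 3) 0 0 (step_sound _ 65 [(rh7ab09f375cd5d482.shift 1 2), (rha707fb719e87fe6e.shift 1 1), rhcaf13074474f34c3] (by decide +kernel))
noncomputable def rhabd6fd0f1301e9ec : CRef := CRef.mk (Pat.mk 0x38000000200000002000000000 0xce0000007e000000370000002000000020 6 8) 0 0 (step_sound _ 102 [(rhd4d36b4007f546b1.shift 3 0), (rheaad777ed634577b.shift 0 2)] (by decide +kernel))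
noncomputable def rh6efbbe82509d261b : CRef := CRef.mk (Pat.mk 0xf0000000a000000020000000200000000 0x180000000f0000000a0000001f0000001e00000014 6 5) 0 0 (step_sound _ 34 [(rh55afc6a59410cf00.shift 1 0), rhfab3810acd859de0] (by decide +kernel))
noncomputable def rheb51aefe5b8da381 : CRef := CRef.mk (Pat.mk 0x1c000000100000001000000000 0x67000000ff0000001c0000001000000010 6 8) 0 0 (step_sound _ 101 [(rh74f48645dd37c94b.shift 0 2), (rhd4d36b4007f546b1.shift 2 0)] (by decide +kernel))
noncomputable def rh1a07419cf7b31cc5 : CRef := CRef.mk (Pat.mk 0x40000000e00000002 0xfc0000007e000000e3 6 8) 0 0 (step_sound _ 36 [(rh4656edcd6b6fd1bd.shift 1 0), rheb0810cc63b001d8] (by decide +kernel))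
noncomputable def rhf5c2fe8852c8a1e4 : CRef := CRef.mk (Pat.mk 0x3c0000002400000020000000200000000000000000 0x2000000070000003e000000240000003e0000007e0000004e0000000a 6 7) 0 0 (step_sound _ 98 [(rh3998ad7415607566.shift 0 2), (rhbcf36ec6de70fd1f.shift 1 1), (rhbfbe0dbc7479c78f.shift 1 0), (rhe4c7949e3152959b.shift 2 0)] (by decide +kernel))
noncomputable def rh250a4da46cd7f68e : CRef := CRef.mk (Pat.mk 0x2000000030000000a00000000 0x5000000070000000700000002000000030000001e00000004 6 5) 0 0 (step_sound _ 34 [(rhf48373e13d2bc128.shift 0 1), rhfb9fb48a5e63ed80] (by decide +kernel))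
noncomputable def rh3562737056d52d9b : CRef := CRef.mk (Pat.mk 0x200000002000000030000000a 0x400000007000000070000000300000003000000030000001e 6 5) 0 0 (step_sound _ 2 [rh69f0587a21bb077f, rhf48373e13d2bc128] (by decide +kernel))
noncomputable def rh5341bed829e60292 : CRef := CRef.mk (Pat.mk 0x200000002000000030000000800000000 0x100000007000000070000000600000003000000030000001e00000004 6 5) 0 0 (step_sound _ 33 [(rh42ab489a1be3958e.shift 0 1), rh6a56790be92093bf] (by decide +kernel))
noncomputable def rh902a9a4ba332a6dd : CRef := CRef.mk (Pat.mk 0x180000001a00000002000000000000000000000000 0x5000000070000003f0000001b00000003000000070000000700000005 6 6) 0 0 (step_sound _ 161 [(rh086f6046fa319626.shift 0 4), (rh7156846f50bf0aca.shift 0 3), rhabe060634d1463d3, rhc49c5b0433bad702] (by decide +kernel))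
noncomputable def rhd311337ed5cf89c6 : CRef := CRef.mk (Pat.mk 0x1a0000000600000002 0x10000000700000007000000070000001e0000000600000002 6 5) 0 0 (step_sound _ 97 [rh1741680720c097b4, rh35c5f1c53251aa1b, rh5e05da03898e7023, rh790ac6810732f4da] (by decide +kernel))
noncomputable def rhd0898b532c108a7c : CRef := CRef.mk (Pat.mk 0x20000000200000003000000080000000000000000 0x6000000060000000700000003000000030000001e0000000600000002 6 5) 0 0 (step_sound _ 65 [(rh6a56790be92093bf.shift 0 1), rhcaa2c1a05e34bcba] (by decide +kernel))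
noncomputable def rhab4bd2663a431673 : CRef := CRef.mk (Pat.mk 0x38000000180000000000000008 0xc7000000ff000000380000000800000008 6 8) 0 0 (step_sound _ 102 [(rh18965a982d73c794.shift 3 2), rhc46d75697d95630c] (by decide +kernel))
noncomputable def rh6ec64525eab36143 : CRef := CRef.mk (Pat.mk 0x1a0000000200000002000000000000000000000000 0x40000001e0000000300000002000000070000000700000005 6 5) 0 0 (step_sound _ 162 [(rheb0810cc63b001d8.shift 0 4), rhffb8e5993241bf15] (by decide +kernel))
noncomputable def rh7a20fdf79b9062e8 : CRef := CRef.mk (Pat.mk 0xa0000000300000002000000000000000000000000 0x40000001e0000000300000002000000070000000700000005 6 5) 0 0 (step_sound _ 162 [(rh18965a982d73c794.shift 0 4), rh1b9022be4f7af407] (by decide +kernel))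
noncomputable def rhccd090adfcfd04c3 : CRef := CRef.mk (Pat.mk 0xa000000030000000200000002000000000000000000000000 0x1e000000030000000300000003000000070000000700000004 6 5) 0 0 (step_sound _ 194 [(rh18965a982d73c794.shift 0 5), rh89cf5152879421f3] (by decide +kernel))
noncomputable def rh02424fb9949006b2 : CRef := CRef.mk (Pat.mk 0x8000000030000000200000002000000000000000000000000 0x40000001e000000030000000300000006000000070000000700000001 6 5) 0 0 (step_sound _ 193 [(rh8797c67fe3ac847a.shift 0 3), rhbaff7ec0fcc038ba] (by decide +kernel))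
noncomputable def rhbda05185c5effddb : CRef := CRef.mk (Pat.mk 0x20000001a000000180000000000000000 0x50000000700000007000000030000001b0000003f0000000700000005 6 6) 0 0 (step_sound _ 65 [rh1d8ef35c5709b6d3, rh1e6400bd70fa042e, rh540f437d7ed50685, (rh6e1685e3533aff0e.shift 0 2)] (by decide +kernel))
noncomputable def rh49c1ee75098b76ea : CRef := CRef.mk (Pat.mk 0x2000000060000001a00000000000000000000000000000000 0x2000000060000001e00000007000000070000000700000001 6 5) 0 0 (step_sound _ 97 [(rh5710f30ba40ee3ec.shift 0 2), (rh6eff4158bb400f47.shift 0 1), (rh73a91115cefcd038.shift 0 1), rha52e1acf7ed5511e] (by decide +kernel))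
noncomputable def rhb0e84a82a95fa304 : CRef := CRef.mk (Pat.mk 0x80000000300000002000000020000000000000000 0x2000000060000001e0000000300000003000000070000000600000006 6 5) 0 0 (step_sound _ 161 [(rh8797c67fe3ac847a.shift 0 2), rh8ff71bc284510f75] (by decide +kernel))
noncomputable def rha1d3b3378370ef82 : CRef := CRef.mk (Pat.mk 0x800000000000000180000003800000000 0x80000000800000038000000ff000000c7 6 8) 0 0 (step_sound _ 38 [rh0fdfb57f6d06f1dd, (rhf48373e13d2bc128.shift 3 1)] (by decide +kernel))
noncomputable def rha2d9b1265af7791e : CRef := CRef.mk (Pat.mk 0x2000000020000001a00000000 0x5000000070000000700000002000000030000001e00000004 6 5) 0 0 (step_sound _ 34 [rh14e0829dc73b6804, (rh3244c3cc8379b070.shift 0 1)] (by decide +kernel))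
noncomputable def rh85ec09a894924863 : CRef := CRef.mk (Pat.mk 0x7000000020000000100000000000000000 0x8000000080000001f0000007e0000003e000000100000001000000010 6 7) 0 0 (step_sound _ 131 [(rh1ed635f5a7ab102e.shift 2 1), (rh592c7139d2c44767.shift 1 3), (rh59377470057f4368.shift 2 1), (rh8aa80d8d90d3223c.shift 0 3), (rhf1a6462906e823e9.shift 1 0)] (by decide +kernel))
noncomputable def rh0f231ad93fba7261 : CRef := CRef.mk (Pat.mk 0x1c000000100000000c0000000000000000 0x400000006000000070000003f0000001f0000000c0000000800000008 6 6) 0 0 (step_sound _ 99 [(rh40241bd608e5be1a.shift 2 0), (rh97d83a53b7724a07.shift 0 2), (rhf9a6286f1d5377a2.shift 2 1)] (by decide +kernel))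
noncomputable def rh2b4f3c0785538b0e : CRef := CRef.mk (Pat.mk 0x8000000180000001800000000 0x1c0000003c0000000f000000180000001800000008 6 6) 0 0 (step_sound _ 131 [(rh2145e1d24b96a57e.shift 3 1), rh5ee4dc8825dcefa0] (by decide +kernel))
noncomputable def rh5f72f36a00a52a06 : CRef := CRef.mk (Pat.mk 0x10000000020000000600000002000000000000000000000000 0x1000000070000001f000000060000000600000002000000070000000700000005 6 5) 0 0 (step_sound _ 65 [rh6eff4158bb400f47, (rha707fb719e87fe6e.shift 1 1), (rhc41618070c712993.shift 0 2)] (by decide +kernel))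
noncomputable def rh894140147c441419 : CRef := CRef.mk (Pat.mk 0x70000000200000000000000010 0xf0000007e000000ff0000001800000010 6 8) 0 0 (step_sound _ 99 [(rh3918eeb6c53434d8.shift 0 2), (rh4f8edb321cf5b49d.shift 1 2), (rha03f6e28ea70fc7d.shift 2 2), (rha304436d6f5c05c7.shift 2 0)] (by decide +kernel))
noncomputable def rh19627523d11fb339 : CRef := CRef.mk (Pat.mk 0x3000000010000000100000001a 0xf0000003e000000770000001e0000001a 6 7) 0 0 (step_sound _ 99 [(rh50fbb5868c909700.shift 3 0), rh5bdb5a63b3b61781] (by decide +kernel))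
noncomputable def rh9c1da240d51c152e : CRef := CRef.mk (Pat.mk 0x2000000030000001800000000000000000000000000000000 0x100000003000000030000001f0000000f000000070000000700000004 6 5) 0 0 (step_sound _ 129 [rh10d64b2efa68a36f, (rh5419adcd928dba20.shift 0 4)] (by decide +kernel))
noncomputable def rhf8cf83f33ac12b79 : CRef := CRef.mk (Pat.mk 0x300000001a000000000000001800000000 0x4000000040000000f0000003f0000001b000000080000001800000018 6 6) 0 0 (step_sound _ 67 [(rh71222050f2c63a3a.shift 3 0), rhe760af5cb6b0f988] (by decide +kernel))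
noncomputable def rhd22919919fc506b5 : CRef := CRef.mk (Pat.mk 0x6000000030000000000000002000000000000000000000000 0x400000006000000030000000300000003000000070000000700000004 6 3) 0 0 (step_sound _ 129 [(rh2f68792b6b779e96.shift 1 3), rh89cf5152879421f3] (by decide +kernel))
noncomputable def rhd34451eeca315e05 : CRef := CRef.mk (Pat.mk 0x180000001600000006000000020000000000000000 0x800000018000000160000003e0000003b0000003800000028 6 6) 0 0 (step_sound _ 100 [(rh0a6888916bcef86b.shift 3 0), (rhb7616ccf0736ebbe.shift 0 2)] (by decide +kernel))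
noncomputable def rh3976da641ba8418e : CRef := CRef.mk (Pat.mk 0x90000000b0000000a00000008 0x40000001f0000001d000000190000000b0000000a00000008 6 5) 0 0 (step_sound _ 160 [rh2ad1eb9d76589cfb, (rh6f1cbe15c631ee70.shift 0 1)] (by decide +kernel))
noncomputable def rh77e0fe17fb8c1b4e : CRef := CRef.mk (Pat.mk 0x10000000100000001600000002 0x28000000380000003800000010000000100000001e0000000b 6 6) 0 0 (step_sound _ 35 [(rh68a777751bfeafdf.shift 3 0), rheb0810cc63b001d8] (by decide +kernel))
noncomputable def rhb996f9ffbdac67e4 : CRef := CRef.mk (Pat.mk 0x2000000120000001200000016000000000000000000000000 0x210000003300000032000000120000001e000000380000003800000028 6 6) 0 0 (step_sound _ 224 [(rh4a8d7897815ccea4.shift 1 0), (rhffd04209dc8ea796.shift 0 3)] (by decide +kernel))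
noncomputable def rhda7c17c004b4f878 : CRef := CRef.mk (Pat.mk 0x80000000b0000000a00000000 0x140000001c0000001c000000080000000b0000001e00000004 6 5) 0 0 (step_sound _ 34 [(rh68a777751bfeafdf.shift 2 0), (rhf48373e13d2bc128.shift 0 1)] (by decide +kernel))
noncomputable def rh0aa46799585bc1af : CRef := CRef.mk (Pat.mk 0x2000000060000001600000014000000000000000000000000 0x28000000380000003b0000003e000000160000003c000000300000002000000020 6 6) 0 0 (step_sound _ 164 [(rh172c452e5d13a21a.shift 1 1), (rh6493ceb007f59211.shift 0 4), (rha66e4e5ada000089.shift 1 0)] (by decide +kernel))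
noncomputable def rh45009313f1dc1cd3 : CRef := CRef.mk (Pat.mk 0x10000000170000001000000000 0x280000003800000038000000100000001f0000001800000008 6 6) 0 0 (step_sound _ 35 [(rh68a777751bfeafdf.shift 3 0), (rhd6e447e81774439e.shift 0 1)] (by decide +kernel))
noncomputable def rh47343c43f1d96dee : CRef := CRef.mk (Pat.mk 0x80000000b0000000a0000000a00000008 0x50000000f0000001d0000001b0000000b0000000a00000008 6 5) 0 0 (step_sound _ 162 [rh6453855276b3cfdd, (rhffd04209dc8ea796.shift 2 1)] (by decide +kernel))
noncomputable def rh553892416814ab58 : CRef := CRef.mk (Pat.mk 0x4000000080000000b0000000a00000002 0x100000001d0000001f000000090000000b0000000b00000002 6 5) 0 0 (step_sound _ 131 [(rh50fbb5868c909700.shift 2 1), rh7f75c84896af440f] (by decide +kernel))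
noncomputable def rh0edf840d1ad4e8e5 : CRef := CRef.mk (Pat.mk 0x2000000160000001000000010000000000000000000000000 0xb0000001e0000001000000010000000380000003800000028 6 6) 0 0 (step_sound _ 163 [(rh0a6888916bcef86b.shift 3 0), (rh3244c3cc8379b070.shift 0 5)] (by decide +kernel))
noncomputable def rh92484da65e0167b1 : CRef := CRef.mk (Pat.mk 0x2000000120000000600000002 0x5000000070000000700000007000000030000001e0000000600000002 6 5) 0 0 (step_sound _ 129 [(rh1148744b53f3df58.shift 0 1), (rh1741680720c097b4.shift 0 1), rh3ca48e2a6d60153d, rh4336adbda8fdd83f] (by decide +kernel))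
noncomputable def rh75a3a5c7aa3dc0a0 : CRef := CRef.mk (Pat.mk 0x180000000c000000400000000000000000 0x80000001c0000001c0000000f0000007c0000001c00000008 6 7) 0 0 (step_sound _ 97 [(rh53b3c253cb0c65f4.shift 0 3), (rh704dac8eb83cb258.shift 2 0)] (by decide +kernel))
noncomputable def rhf7acaebcded2f86e : CRef := CRef.mk (Pat.mk 0x2000000030000001200000000 0x5000000070000000700000002000000030000001e00000004 6 5) 0 0 (step_sound _ 34 [(rh2fe78cc5ca4405d8.shift 0 1), rhfb9fb48a5e63ed80] (by decide +kernel))
noncomputable def rh60e2265b2a69f75b : CRef := CRef.mk (Pat.mk 0x2000000030000001200000000000000000000000000000000 0x100000003000000030000001f0000000f000000070000000700000004 6 5) 0 0 (step_sound _ 131 [rh10d64b2efa68a36f, (rh5419adcd928dba20.shift 0 4)] (by decide +kernel))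
noncomputable def rhf3ad1efa1f35d31a : CRef := CRef.mk (Pat.mk 0xc000000180000000c00000008 0x2000000130000003f0000001f0000000c00000008 6 6) 0 0 (step_sound _ 100 [(rh2f68792b6b779e96.shift 3 0), (rh97d83a53b7724a07.shift 0 1)] (by decide +kernel))
noncomputable def rh1396ea5b9f6063c2 : CRef := CRef.mk (Pat.mk 0x60000000200000002000000030 0x1f000000fe000000fe0000003000000030 6 8) 0 0 (step_sound _ 100 [(rh50fbb5868c909700.shift 4 0), rhb27c850f34540d49] (by decide +kernel))
noncomputable def rh57b437a2168bbfd2 : CRef := CRef.mk (Pat.mk 0x180000000e0000000800000000 0x140000001c0000001e0000000f0000001e0000000e0000000c00000004 6 5) 0 0 (step_sound _ 131 [(rh03dfdf12d5937476.shift 2 0), (rh10e19c4a59f04b1a.shift 2 1), rhf54e6cdeb4f6531a] (by decide +kernel))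
noncomputable def rhcc21179e9c7abcbc : CRef := CRef.mk (Pat.mk 0x2000000030000000600000000 0x100000007000000070000000600000003000000030000000600000004 6 3) 0 0 (step_sound _ 129 [(rh42ab489a1be3958e.shift 0 1), (rh55afc6a59410cf00.shift 1 0)] (by decide +kernel))
noncomputable def rh643668d75f3dc249 : CRef := CRef.mk (Pat.mk 0x100000002000000070000000000000000000000000 0x1000000010000000100000003e0000007e0000001f0000000800000008 6 7) 0 0 (step_sound _ 99 [(rh27606828f2b15878.shift 1 2), (rh5b2ce1e5aa4a4edd.shift 0 2), (rh775ca1963e850b80.shift 1 2), (rhad7f111fb10ea859.shift 2 0), (rhf3caf215570e71a5.shift 2 0)] (by decide +kernel))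
noncomputable def rh58ceac4b2bc72aaa : CRef := CRef.mk (Pat.mk 0xc000000100000001c000000000000000000000000 0x8000000080000000c0000001f0000003f000000070000000600000004 6 6) 0 0 (step_sound _ 131 [(rh37d9ceebb86d75d1.shift 2 2), (rhcb5b53cf0ad40bfd.shift 0 1), (rhfafeb437ceb8396d.shift 2 0)] (by decide +kernel))
noncomputable def rhf59a6115c1be017f : CRef := CRef.mk (Pat.mk 0x1800000018000000080000000000000000 0x800000018000000180000000f0000003c0000001c 6 6) 0 0 (step_sound _ 35 [rh641b5241be04eec6, (rh71222050f2c63a3a.shift 3 0)] (by decide +kernel))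
noncomputable def rh198320f0f22e8ee8 : CRef := CRef.mk (Pat.mk 0x20000000600000002000000100000000000000000 0x500000007000000070000000200000006000000060000001f0000000700000001 6 5) 0 0 (step_sound _ 193 [(rh1741680720c097b4.shift 0 3), (rhd4b4beefcd67f51e.shift 1 2), rhef3ba3c62dc7a15c] (by decide +kernel))
noncomputable def rh55f30f146cc2475e : CRef := CRef.mk (Pat.mk 0x1000000000000000200000007000000000 0x1000000018000000ff0000007e0000000f 6 8) 0 0 (step_sound _ 35 [(rh55c4ed4acec0f063.shift 1 0), (rh9798b455a139d0b5.shift 2 0), rha4e887c2a2a0f60b, (rhec46bd5500c722c9.shift 2 1)] (by decide +kernel))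
noncomputable def rhb06a7f4d7fd5b1c5 : CRef := CRef.mk (Pat.mk 0x1a00000010000000100000003000000000 0x1a0000001e000000770000003e0000000f 6 7) 0 0 (step_sound _ 35 [(rh932754581e0f4330.shift 3 0), rhc53a9b8a9e1696cf] (by decide +kernel))
noncomputable def rh4b3651ff66e6112d : CRef := CRef.mk (Pat.mk 0x18000000030000000200000000 0x400000007000000070000000f0000001f000000030000000300000001 6 5) 0 0 (step_sound _ 97 [(rhb2a0b9ccfb5cecd5.shift 0 2), rhebc3800b446b6af8] (by decide +kernel))
noncomputable def rh2e2b22190dd09e60 : CRef := CRef.mk (Pat.mk 0x18000000000000001a00000030000000000000000000000000 0x1800000018000000080000001b0000003f0000000f0000000400000004 6 6) 0 0 (step_sound _ 163 [(rh2145e1d24b96a57e.shift 3 3), rhca106f645f07538a] (by decide +kernel))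
noncomputable def rh71aae90b29d9e2ee : CRef := CRef.mk (Pat.mk 0x200000000000000030000000600000000 0x400000007000000070000000300000003000000030000000600000004 6 3) 0 0 (step_sound _ 97 [(rh55afc6a59410cf00.shift 1 0), (rh69f0587a21bb077f.shift 0 1)] (by decide +kernel))
noncomputable def rh1c46c0cae6b8d95b : CRef := CRef.mk (Pat.mk 0x200000006000000160000001800000000 0x28000000380000003b0000003e000000160000001800000008 6 6) 0 0 (step_sound _ 100 [(rh32431e66bbf434a4.shift 3 0), (rh6493ceb007f59211.shift 0 2)] (by decide +kernel))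
noncomputable def rhf3762042eb1f4b1a : CRef := CRef.mk (Pat.mk 0x80000000a0000000b00000009000000000000000000000000 0x80000000a0000000b000000190000001d0000001f00000004 6 5) 0 0 (step_sound _ 32 [rh7ea56b2bf7210d79, (rh9e3edb185cc347de.shift 0 1)] (by decide +kernel))
noncomputable def rh324990d54b4c7594 : CRef := CRef.mk (Pat.mk 0x2000000160000001000000010000000000000000000000000 0xb0000001e0000001000000010000000380000003800000028 6 6) 0 0 (step_sound _ 163 [(rh3244c3cc8379b070.shift 0 5), (rh56259dd1390eee46.shift 3 0)] (by decide +kernel))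
noncomputable def rh27f00178c76304ec : CRef := CRef.mk (Pat.mk 0x1600000012000000120000000200000000 0x2800000038000000380000001e00000012000000320000003300000021 6 6) 0 0 (step_sound _ 0 [rh79877ebd3ef475dd, (rhb47636cd7eaaed4f.shift 1 0)] (by decide +kernel))
noncomputable def rh32ed7c24a64682a4 : CRef := CRef.mk (Pat.mk 0xa0000000b00000008000000000000000000000000 0x40000001e0000000b000000080000001c0000001c00000014 6 5) 0 0 (step_sound _ 162 [(rh18965a982d73c794.shift 0 4), (rh56259dd1390eee46.shift 2 0)] (by decide +kernel))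
noncomputable def rh54b3c96821ee4bb8 : CRef := CRef.mk (Pat.mk 0x140000001600000006000000020000000000000000 0x2000000020000000300000003c000000160000003e0000003b0000003800000028 6 6) 0 0 (step_sound _ 100 [(rh3a925e7b8292dc86.shift 1 2), (rhb7616ccf0736ebbe.shift 0 2), (rhd21e8935ac9bdb76.shift 1 0)] (by decide +kernel))
noncomputable def rhbbf883590fc37e75 : CRef := CRef.mk (Pat.mk 0x100000001700000010000000000000000000000000 0x8000000180000001f00000010000000380000003800000028 6 6) 0 0 (step_sound _ 163 [(rh3fc040e777f1679e.shift 0 4), (rh56259dd1390eee46.shift 3 0)] (by decide +kernel))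
noncomputable def rh9d15c8fdd1e7bedc : CRef := CRef.mk (Pat.mk 0x80000000a0000000a0000000b000000080000000000000000 0x80000000a0000000b0000001b0000001d0000000f00000005 6 5) 0 0 (step_sound _ 34 [(rh79877ebd3ef475dd.shift 2 1), rhc52b442705af957f] (by decide +kernel))
noncomputable def rh788fb614d5ec50b6 : CRef := CRef.mk (Pat.mk 0x20000000a0000000b00000008000000040000000000000000 0x20000000b0000000b000000090000001f0000001d00000010 6 5) 0 0 (step_sound _ 67 [(rh932754581e0f4330.shift 2 1), rhb6bee2ce3ee5b7cc] (by decide +kernel))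
noncomputable def rh24b1ac9e917f3bd8 : CRef := CRef.mk (Pat.mk 0x10000000100000001600000002 0x28000000380000003800000010000000100000001e0000000b 6 6) 0 0 (step_sound _ 35 [(rh32431e66bbf434a4.shift 3 0), rheb0810cc63b001d8] (by decide +kernel))
noncomputable def rhc2028c04226b4365 : CRef := CRef.mk (Pat.mk 0x200000006000000120000000200000000000000000000000000000000 0x2000000060000001e0000000300000007000000070000000700000005 6 5) 0 0 (step_sound _ 97 [(rh6eff4158bb400f47.shift 0 1), (rh7928877f9bf74a91.shift 0 2), rh984bfc6de6c2c524, (rhfc1184fab773b2b6.shift 0 2)] (by decide +kernel))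
noncomputable def rhaf88c66991945326 : CRef := CRef.mk (Pat.mk 0x400000000c000000180000000000000000 0x80000001c0000007c0000000f0000001c0000001c00000008 6 7) 0 0 (step_sound _ 97 [(rh594a65e029332e91.shift 2 0), (rhb739f4f82bb681b4.shift 0 2)] (by decide +kernel))
noncomputable def rhaac6df22c4ef4a49 : CRef := CRef.mk (Pat.mk 0x120000000300000002000000000000000000000000 0x40000001e0000000300000002000000070000000700000005 6 5) 0 0 (step_sound _ 162 [rh1b9022be4f7af407, (rh361cc68994bd8a63.shift 0 4)] (by decide +kernel))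
noncomputable def rh433b97a3e346ca44 : CRef := CRef.mk (Pat.mk 0x12000000030000000200000000 0x400000007000000070000000f0000001f000000030000000300000001 6 5) 0 0 (step_sound _ 99 [(rhb2a0b9ccfb5cecd5.shift 0 2), rhebc3800b446b6af8] (by decide +kernel))
noncomputable def rha1c86d2cb5d99215 : CRef := CRef.mk (Pat.mk 0x80000000c000000180000000c0000000000000000 0x80000000c0000001f0000003f0000001300000002 6 6) 0 0 (step_sound _ 68 [(rh55afc6a59410cf00.shift 3 1), rhcb5b53cf0ad40bfd] (by decide +kernel))
noncomputable def rhba4cffecf97534a1 : CRef := CRef.mk (Pat.mk 0x3000000020000000200000006000000000 0x3000000030000000fe000000fe0000001f 6 8) 0 0 (step_sound _ 36 [rh1d9fee90fc307654, (rh932754581e0f4330.shift 4 0)] (by decide +kernel))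
noncomputable def rha2c045904af47f39 : CRef := CRef.mk (Pat.mk 0x80000000e0000001800000000000000000000000000000000 0x40000000c0000000e0000001e0000000f0000001e0000001c00000014 6 5) 0 0 (step_sound _ 99 [(rh697eeeab831b09b3.shift 2 0), (rh9754e95fae27c0d6.shift 0 2), (rhe286c75f2739cce2.shift 2 2)] (by decide +kernel))
noncomputable def rh3d06ca8054f42b75 : CRef := CRef.mk (Pat.mk 0x400000005000000058000000420000000000000000 0x400000005000000078000000ef0000007800000028 6 8) 0 0 (step_sound _ 67 [(rhc37667a07b8b8963.shift 2 0), (rhcf26ab340e90aa4c.shift 0 2), (rhfb187e564bf2ca3f.shift 3 0)] (by decide +kernel))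
noncomputable def rh5f479c5c2aebb295 : CRef := CRef.mk (Pat.mk 0x500000005800000042000000600000000000000000 0x50000000780000004f000000f8000000c800000080 6 8) 0 0 (step_sound _ 39 [rh61a3c20c166dcc4a, (rhd3458b32566d63f7.shift 6 1)] (by decide +kernel))
noncomputable def rh9be972b12d547221 : CRef := CRef.mk (Pat.mk 0x20000000200000002000000020000000000000000 0x5000000070000000200000002000000070000000700000005 6 3) 0 0 (step_sound _ 160 [rh4a38b3b3b5efb383, (rh50fbb5868c909700.shift 0 2)] (by decide +kernel))
noncomputable def rh4994faa1b93dabed : CRef := CRef.mk (Pat.mk 0x200000002000000060000000200000000000000000000000000000000 0x200000006000000060000000600000006000000070000000700000005 6 3) 0 0 (step_sound _ 97 [(rh301a6b3a9154ed36.shift 1 1), (rhb1fd7ebb07efd631.shift 1 1), (rhd29a1fb688eae70f.shift 1 2), rhffb8e5993241bf15] (by decide +kernel))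
noncomputable def rh01d77078bb61dd4d : CRef := CRef.mk (Pat.mk 0x50000000c00000000 0xff0000007e000000f0 6 8) 0 0 (step_sound _ 36 [(rh34290afd4148b42f.shift 1 0), rh3448f51a3b593f45, (rh4b858afe2cb38247.shift 0 1), (rhc23b2dfc9c6ae24a.shift 0 1)] (by decide +kernel))
noncomputable def rh30aff4066232e4fb : CRef := CRef.mk (Pat.mk 0x80000000a000000180000000800000000000000000000000000000000 0x80000001f0000001c0000000c0000000c0000001c0000001c00000014 6 5) 0 0 (step_sound _ 99 [(rh7928877f9bf74a91.shift 2 2), (rh91a545eb3be094e3.shift 2 1), (rhc9641e36ec7fc009.shift 0 2), (rhd8480aedf4075c15.shift 2 0), (rhffb8e5993241bf15.shift 2 0)] (by decide +kernel))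
noncomputable def rh0474c1333557103a : CRef := CRef.mk (Pat.mk 0x400000005000000040000000600000000 0x40000000f0000003e0000003f00000078 6 7) 0 0 (step_sound _ 35 [rh0d516add4271c7cc, (rh55afc6a59410cf00.shift 2 0)] (by decide +kernel))
noncomputable def rhe24d232492d0a6ae : CRef := CRef.mk (Pat.mk 0x1000000014000000140000001400000000 0x20000000a0000001b0000001f000000160000001400000010 6 5) 0 0 (step_sound _ 131 [(rh50fbb5868c909700.shift 3 1), rh59ce109d1f7b4b44] (by decide +kernel))
noncomputable def rhd1d8501cd60f7d1a : CRef := CRef.mk (Pat.mk 0x20000000200000002000000020000000000000000 0x100000007000000070000000600000002000000030000000300000001 6 3) 0 0 (step_sound _ 162 [(rh2f68792b6b779e96.shift 1 2), rh418ffd80c404bef2] (by decide +kernel))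
noncomputable def rh3c851893f2b0a6e0 : CRef := CRef.mk (Pat.mk 0xa0000000a00000008000000000000000000000000 0x100000001c0000001e0000000b000000180000001c0000001c00000014 6 5) 0 0 (step_sound _ 67 [(rh4a38b3b3b5efb383.shift 2 0), (rh6eff4158bb400f47.shift 2 0), (rh9258736a7488cc35.shift 0 2), (rhced6d86d2069808b.shift 3 1)] (by decide +kernel))
noncomputable def rh735dfb772402a1b5 : CRef := CRef.mk (Pat.mk 0xa0000000a0000000a000000000000000000000000 0xc0000001e0000000b0000001e0000003c0000001c00000014 6 6) 0 0 (step_sound _ 67 [(rh358c231171d2d7ca.shift 0 1), (rh6841182e24ff097b.shift 0 1), (rh6eff4158bb400f47.shift 2 0)] (by decide +kernel))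
noncomputable def rh29da65f5730a9117 : CRef := CRef.mk (Pat.mk 0x7000000010000000180000000200000000 0x80000000c000000f800000018000000180000000f0000000c 6 8) 0 0 (step_sound _ 99 [(rh18965a982d73c794.shift 3 3), rhae8f6a55ffecec25] (by decide +kernel))
noncomputable def rhbcba93dc58dde2d7 : CRef := CRef.mk (Pat.mk 0x500000005300000052000000c00000000000000000 0x500000005b0000005e000000e80000007800000028 6 8) 0 0 (step_sound _ 37 [(rh79877ebd3ef475dd.shift 5 1), rh964a35208bb55492] (by decide +kernel))
noncomputable def rh1be311393c26bbc4 : CRef := CRef.mk (Pat.mk 0xa0000000a0000000b000000100000000000000000 0xa0000000b0000000b0000001d0000001f00000005 6 5) 0 0 (step_sound _ 67 [(rh55afc6a59410cf00.shift 3 1), rhf01a37632d3de5dd] (by decide +kernel))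
noncomputable def rh6a0d0a5496e7040a : CRef := CRef.mk (Pat.mk 0x1c0000001400000014 0x20000002a0000007b0000001f0000001600000014 6 7) 0 0 (step_sound _ 100 [(rh4017de503635a93b.shift 2 0), rhc570cd3ed08f11ec, (rhdab32775f5c78fcf.shift 1 0)] (by decide +kernel))
noncomputable def rh2ace414d8183e76e : CRef := CRef.mk (Pat.mk 0x10000000140000001400000014 0x20000000a000000fb000000ff0000001600000014 6 8) 0 0 (step_sound _ 67 [(rh917e03f6565ef955.shift 1 0), (rha11dfd15f08f96e3.shift 1 2), rhc570cd3ed08f11ec] (by decide +kernel))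
noncomputable def rh55ef57b3c49aab84 : CRef := CRef.mk (Pat.mk 0x140000001e00000010000000080000000000000000 0x140000001e000000130000003e0000003a00000020 6 6) 0 0 (step_sound _ 68 [(rh932754581e0f4330.shift 3 1), rhea92d0c3e56f56cb] (by decide +kernel))
noncomputable def rh72b48ec5d79015c2 : CRef := CRef.mk (Pat.mk 0x140000003c0000000000000000 0xa0000000e0000000e0000000f0000001c0000003c0000000e00000004 6 6) 0 0 (step_sound _ 130 [(rh0fa4a62bba50784f.shift 1 1), (rh1744121642accf6d.shift 1 0), rh5dc8a6c485ce2ecd, (rhfb9fb48a5e63ed80.shift 1 1)] (by decide +kernel))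
noncomputable def rhf97245a3d45e02d4 : CRef := CRef.mk (Pat.mk 0x20000000200000002000000020000000200000002000000000000000000000000 0x20000000200000003000000030000000300000002000000070000000700000005 6 3) 0 0 (step_sound _ 160 [rh0a6888916bcef86b, (rh932754581e0f4330.shift 0 4)] (by decide +kernel))
noncomputable def rh17cd837667d3ea4b : CRef := CRef.mk (Pat.mk 0x1a0000000a0000000200000002000000000000000000000000 0x1a0000000f0000000300000006000000070000000700000001 6 5) 0 0 (step_sound _ 66 [rh0f96178417f4b52e, (rhd3458b32566d63f7.shift 1 2)] (by decide +kernel))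
noncomputable def rh8f3866a9859e945d : CRef := CRef.mk (Pat.mk 0x20000000200000002000000020000000200000000000000000000000000000000 0x20000000300000003000000030000000700000006000000070000000700000005 6 3) 0 0 (step_sound _ 97 [(rh1fe7bd026babc309.shift 0 2), rh637bb7f6314cfc86, (rh8ff3dde5b1c639e0.shift 0 1), (rhd29a1fb688eae70f.shift 1 2)] (by decide +kernel))
noncomputable def rhc200196990728314 : CRef := CRef.mk (Pat.mk 0x80000006800000008000000000000000000000000 0x1000000018000000780000000f0000003c0000001c00000014 6 7) 0 0 (step_sound _ 67 [(rh1c7a94ff937bfd99.shift 0 1), (rh1d7100ca12876a53.shift 2 0), (rh6eff4158bb400f47.shift 2 0), (rhad85a7675287bf13.shift 2 1), (rhcab3157f7bdcba3e.shift 2 0)] (by decide +kernel))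
noncomputable def rh9de826cb639d198d : CRef := CRef.mk (Pat.mk 0x18000000d00000000000000000 0x2000000020000000770000007e000000d70000001000000010 6 8) 0 0 (step_sound _ 101 [rh373e20ec7cd1e21e, (rhd6e447e81774439e.shift 3 2)] (by decide +kernel))
noncomputable def rhc729efe2b3ad960c : CRef := CRef.mk (Pat.mk 0x200000006000000020000000000000000 0x40000000700000007000000070000000600000006000000060000000600000006 6 3) 0 0 (step_sound _ 161 [(rh3da62da861143b9a.shift 0 2), (rh64bc0dab78a08b48.shift 0 2), (rh8599f462953abc6e.shift 1 2), (rhca18712e5e5c7b8f.shift 1 0)] (by decide +kernel))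
noncomputable def rhfb2b44ece8fde0fa : CRef := CRef.mk (Pat.mk 0x30000000200000002000000030 0x4e000000fe0000007f0000003000000030 6 8) 0 0 (step_sound _ 99 [(rh2ab61a0bdbe6c0cd.shift 2 0), (rha0ae8adeb1dbcf8d.shift 0 2), (rhcbef2b4ffc01099c.shift 1 0)] (by decide +kernel))
noncomputable def rhf2cc13c7785bbe1b : CRef := CRef.mk (Pat.mk 0x800000068000000080000000800000000 0x8000000780000001f0000007c00000014 6 7) 0 0 (step_sound _ 66 [(rhb2a0b9ccfb5cecd5.shift 2 2), rhf29317447ff2b22e] (by decide +kernel))
noncomputable def rh6ea566241b3d5180 : CRef := CRef.mk (Pat.mk 0x20000001a00000000000000000000000000000000 0x50000000700000007000000030000001f00000003000000030000000300000001 6 5) 0 0 (step_sound _ 97 [(rh01e48cd9f335aa73.shift 0 3), rhb87c81b4d8d5df91, (rhceb5f5a915f974ce.shift 0 1), (rhec5c45900e0e4fe3.shift 0 2)] (by decide +kernel))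
noncomputable def rhc65d80b3995445ee : CRef := CRef.mk (Pat.mk 0x200000006000000020000000000000000 0x50000000700000007000000070000000600000006000000060000000600000006 6 3) 0 0 (step_sound _ 161 [(rhc85cc95794737cf7.shift 0 2), (rhca18712e5e5c7b8f.shift 1 0), (rhfb9fb48a5e63ed80.shift 0 2)] (by decide +kernel))
noncomputable def rh3eec3684671df722 : CRef := CRef.mk (Pat.mk 0x1000000010000000100000003800000000 0x800000018000000180000007e0000007e00000007 6 7) 0 0 (step_sound _ 131 [rh33ba2c346b1bc992, (rh50fbb5868c909700.shift 3 1)] (by decide +kernel))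
noncomputable def rh4a272b4b7aced24a : CRef := CRef.mk (Pat.mk 0x1c00000008000000680000000c00000000 0x30000003f0000003f0000006c0000001c00000010 6 7) 0 0 (step_sound _ 36 [(rh55afc6a59410cf00.shift 3 0), (rh8aed41473eba51c1.shift 0 1)] (by decide +kernel))
noncomputable def rh48c57ed367a08fb9 : CRef := CRef.mk (Pat.mk 0x4200000042000000020000000a00000000 0x4200000042000000630000007e00000074 6 7) 0 0 (step_sound _ 34 [(rh55afc6a59410cf00.shift 1 0), rh795f45965b53473c] (by decide +kernel))
noncomputable def rh5c00cc240277e8a0 : CRef := CRef.mk (Pat.mk 0x30000001a0000000c000000000000000000000000 0x1000000030000001a0000000f000000070000000700000005 6 5) 0 0 (step_sound _ 97 [rh0a6888916bcef86b, (rh53b3c253cb0c65f4.shift 0 3)] (by decide +kernel))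
noncomputable def rh33119b6d4c69acfc : CRef := CRef.mk (Pat.mk 0x6000000b400000010000000000000000000000000 0x6000000f60000001e0000000f0000000e0000000a 6 8) 0 0 (step_sound _ 99 [(rh361cc68994bd8a63.shift 3 3), rh674d5c6fdec42510] (by decide +kernel))
noncomputable def rhab368c85ddd97094 : CRef := CRef.mk (Pat.mk 0x80000000b0000000800000008000000000000000000000000 0x80000000f0000001c000000180000001c0000001c00000004 6 5) 0 0 (step_sound _ 162 [(rhbaff7ec0fcc038ba.shift 2 0), (rhe25b0a99195a5d59.shift 0 4)] (by decide +kernel))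
noncomputable def rhc08b4fc057a242ff : CRef := CRef.mk (Pat.mk 0x800000008000000180000001000000000 0x140000003c0000000f000000180000001800000018 6 6) 0 0 (step_sound _ 35 [(rh55afc6a59410cf00.shift 3 0), rh900a894640be090c] (by decide +kernel))
noncomputable def rh7743a1de053d9a28 : CRef := CRef.mk (Pat.mk 0x2000000220000002600000036000000000000000000000000 0x2000000220000003600000037000000130000001f00000016 6 6) 0 0 (step_sound _ 64 [(rh79877ebd3ef475dd.shift 0 2), rheb49a7303ab0d674] (by decide +kernel))
noncomputable def rhb69527cbdd6de18b : CRef := CRef.mk (Pat.mk 0x30000001100000001000000014 0xf000000fe000001de0000001400000014 6 9) 0 0 (step_sound _ 99 [(rh50fbb5868c909700.shift 3 0), rh9908ee43ca75d909] (by decide +kernel))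
noncomputable def rh31bccff8027fef6e : CRef := CRef.mk (Pat.mk 0x100000000a0000000a0000000b000000080000000400000000 0x10000000180000000a0000000b0000001b000000190000000f00000005 6 5) 0 0 (step_sound _ 195 [(rh2f68792b6b779e96.shift 3 3), rhc52b442705af957f] (by decide +kernel))
noncomputable def rh07e8092d203c09a6 : CRef := CRef.mk (Pat.mk 0x1e0000000600000000 0xa0000000f0000000f0000003f0000001e0000000e00000002 6 6) 0 0 (step_sound _ 98 [(rh2e2af70cc0a250e3.shift 0 1), (rh32431e66bbf434a4.shift 1 0), (rh503dd4575245365b.shift 1 0), (rhb622aa591eacde43.shift 1 0)] (by decide +kernel))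
noncomputable def rha181fcaac96efe0b : CRef := CRef.mk (Pat.mk 0x1e00000006 0x3000000030000003f0000001f00000006 6 6) 0 0 (step_sound _ 65 [(rh3244c3cc8379b070.shift 0 1), rhe3502ca643db75db] (by decide +kernel))
noncomputable def rh9215871017093c05 : CRef := CRef.mk (Pat.mk 0x180000000e0000008000000000 0x3000000030000001f0000007e000000e700000004 6 8) 0 0 (step_sound _ 68 [rh3f38de6b95fe6c30, (rh4189d026c588653f.shift 0 1), (rhc078b3dae8bdb359.shift 0 1)] (by decide +kernel))
noncomputable def rhdf19aad92083bd7a : CRef := CRef.mk (Pat.mk 0x10000000180000000800000038 0x1000000014000000760000007e0000000f0000003c 6 7) 0 0 (step_sound _ 132 [rh1ebca14c845a2b5c, (rh5c5e593799055d58.shift 3 1)] (by decide +kernel))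
noncomputable def rhb7b54a61417ae8e6 : CRef := CRef.mk (Pat.mk 0x380000001000000030 0x8000000080000000f0000007c0000001e00000034 6 7) 0 0 (step_sound _ 34 [(rh73f5f7cdf41b5bc9.shift 1 0), (rh94fefd81d0f1c41c.shift 1 0), rhb98e183a12ed98e4, (rhcacd5b3c3d4e3df9.shift 1 0)] (by decide +kernel))
noncomputable def rh432d9cb497b72a60 : CRef := CRef.mk (Pat.mk 0x80000000e0000008400000004 0x80000000a0000007b0000007e000000e700000004 6 8) 0 0 (step_sound _ 131 [(rh5c5e593799055d58.shift 2 1), rh7ca466ec86f303a8] (by decide +kernel))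
noncomputable def rh329cb8ce43796862 : CRef := CRef.mk (Pat.mk 0x4000000070000000000000001000000000 0x100000007f0000007e0000000f0000001800000018 6 7) 0 0 (step_sound _ 99 [(rh21d582c147e7e118.shift 1 2), (rh46b8273c9da31a19.shift 2 0), (rh551591afa7e9bd9a.shift 0 2), (rh592c7139d2c44767.shift 1 2), (rh7fb660bc21ce4329.shift 1 3)] (by decide +kernel))
noncomputable def rh217d28cf2fc9f922 : CRef := CRef.mk (Pat.mk 0x7000000220 0xe000001fe000003bf 6 10) 0 0 (step_sound _ 35 [rh2efad3051cff7df1, (rh4189d026c588653f.shift 2 0), (rh74f48645dd37c94b.shift 1 0), (rh775ca1963e850b80.shift 1 0)] (by decide +kernel))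
noncomputable def rh7535e9c8bb560089 : CRef := CRef.mk (Pat.mk 0xe000000820000000200000001 0x730000007e000000e20000000300000001 6 8) 0 0 (step_sound _ 129 [(rh602732162fa3c73f.shift 0 2), rh79877ebd3ef475dd] (by decide +kernel))
noncomputable def rh2c5feb75c2fc149b : CRef := CRef.mk (Pat.mk 0x1800000008000000080000004c000000000000000000000000 0x8000000180000001c0000000f0000007c000000080000000800000008 6 7) 0 0 (step_sound _ 130 [(rh5c5e593799055d58.shift 2 3), rhf7f6ef450a0c249e] (by decide +kernel))
noncomputable def rh6165bce3ef93b6cb : CRef := CRef.mk (Pat.mk 0x400000002000000020000000300000000000000000000000000000000 0x400000006000000030000000300000006000000070000000700000005 6 3) 0 0 (step_sound _ 97 [rh97d712217d1744a8, (rhbaefcd01e0a8bca3.shift 1 3)] (by decide +kernel))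
noncomputable def rh01ffa636bb73fde1 : CRef := CRef.mk (Pat.mk 0xa00000002000000020000001600000000 0x1000000030000001f00000006000000030000001e00000003 6 5) 0 0 (step_sound _ 35 [rh13be7c83e4667e34, (rh3244c3cc8379b070.shift 0 1)] (by decide +kernel))
noncomputable def rhd38ab81f4fae2dab : CRef := CRef.mk (Pat.mk 0x7000000000000000600000000 0x5000000070000000700000007000000020000000600000006 6 3) 0 0 (step_sound _ 65 [rh14e0829dc73b6804, (rh215e11e099257d75.shift 1 0), rh261f868a429ae0e3, rh3141141b88e08fda] (by decide +kernel))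
noncomputable def rh3b0356a21c767370 : CRef := CRef.mk (Pat.mk 0xa000000820000000200000000 0x400000004000000760000007e000000e30000000200000002 6 8) 0 0 (step_sound _ 98 [(rh00a864f2ef4b31d8.shift 0 2), (rh215e11e099257d75.shift 1 0)] (by decide +kernel))
noncomputable def rhfb849e74918a9745 : CRef := CRef.mk (Pat.mk 0xa000000820000000200000002 0x740000007e000000e30000000200000002 6 8) 0 0 (step_sound _ 98 [(rh00a864f2ef4b31d8.shift 0 2), (rh2f68792b6b779e96.shift 1 0)] (by decide +kernel))
noncomputable def rhc14f1a3947a908fc : CRef := CRef.mk (Pat.mk 0x18000000500000001000000010 0x270000003e000000770000001000000010 6 7) 0 0 (step_sound _ 101 [(rh2f68792b6b779e96.shift 4 0), (rh36eba2a3de447758.shift 0 2)] (by decide +kernel))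
noncomputable def rhc8fe1e77c2dd44a1 : CRef := CRef.mk (Pat.mk 0x2000000020000001a000000000000000000000000 0x40000000600000006000000030000001b0000000f0000000500000001 6 5) 0 0 (step_sound _ 64 [rh544d3caba1e1e2bb, (rh8251479d50b891f5.shift 0 1), (rhc300cce783feec26.shift 0 1)] (by decide +kernel))
noncomputable def rhd3758b743300477a : CRef := CRef.mk (Pat.mk 0x28000002000000001000000010 0x1ff000001fe000003900000001000000010 6 10) 0 0 (step_sound _ 100 [rh1af92528011baf55, (rh33f26072e0c5c9bf.shift 1 2), (rh5a4df29f20c07a62.shift 3 0), rh687076296dd60842] (by decide +kernel))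
noncomputable def rha55649fe7258229b : CRef := CRef.mk (Pat.mk 0x2000000020000001a00000030000000000000000000000000 0x20000000200000003000000030000001b0000003f000000770000000300000001 6 7) 0 0 (step_sound _ 97 [(rha893ef807ce322b1.shift 0 2), (rhd0b5e121ccd1e6a2.shift 0 2), (rhd630af2e39ca770f.shift 0 2), rhe520c97f67e4a7f2] (by decide +kernel))
noncomputable def rhec2bb14d2e449cf3 : CRef := CRef.mk (Pat.mk 0x14000000040000000400000000 0xa0000000e0000003e00000037000000060000000600000002 6 6) 0 0 (step_sound _ 130 [(rh1d90b59f780b588e.shift 0 1), (rh20966da26a1c2ae8.shift 1 0), (rh771d065bdc85bf2d.shift 1 0), (rhc85cc95794737cf7.shift 1 1)] (by decide +kernel))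
noncomputable def rha70965866e3b6783 : CRef := CRef.mk (Pat.mk 0x1e000000020000000000000000 0x200000007000000070000003f0000001e000000060000000200000002 6 6) 0 0 (step_sound _ 129 [(rh3244c3cc8379b070.shift 0 3), rh5859a1af2a4aad2f] (by decide +kernel))
noncomputable def rh52a1d53af676a1bf : CRef := CRef.mk (Pat.mk 0x20000001e000000020000000000000000 0x50000000700000007000000360000001e000000060000000600000006 6 6) 0 0 (step_sound _ 132 [(rh33e738c4ed385b9f.shift 1 3), rhc252441a73d811a8] (by decide +kernel))
noncomputable def rhba0466855112442a : CRef := CRef.mk (Pat.mk 0x380000000000000000 0x8000000080000007f0000007e0000000700000004 6 7) 0 0 (step_sound _ 66 [(rh21460d2d48a35cb8.shift 1 0), (rh4c622fddc53a5f99.shift 0 2), (rh592c7139d2c44767.shift 0 1), (rh9e97bba44c1b13e4.shift 0 1)] (by decide +kernel))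
noncomputable def rhcb1e7f6fce82b994 : CRef := CRef.mk (Pat.mk 0x12000000060000000200000000 0x400000007000000070000000f0000001e000000060000000600000004 6 5) 0 0 (step_sound _ 129 [(rh1741680720c097b4.shift 0 1), rh486eb7c8c2e9ae71, (rh8599f462953abc6e.shift 1 1), (rhd4b4beefcd67f51e.shift 1 0)] (by decide +kernel))
noncomputable def rh8696cb3ef01233ff : CRef := CRef.mk (Pat.mk 0xe000000400000000400000000 0x4000000070000003e000000730000000600000006 6 7) 0 0 (step_sound _ 100 [rh43ca58b80ff240ff, (rheaa91b92daf0efc8.shift 1 2)] (by decide +kernel))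
noncomputable def rhdbbbcbf789385e3d : CRef := CRef.mk (Pat.mk 0x1e0000000200000000 0x200000007000000070000003f0000001e0000000600000002 6 6) 0 0 (step_sound _ 97 [(rh3244c3cc8379b070.shift 0 2), rh59702931840a5d3f] (by decide +kernel))
noncomputable def rhff44c2044230d4f6 : CRef := CRef.mk (Pat.mk 0x380000000000000068000000000000000000000000 0x140000007c0000001f000000680000003c0000001c00000014 6 7) 0 0 (step_sound _ 131 [(rh3b6da4ffa73d5ee4.shift 2 0), (rh87141cb6ad5c8198.shift 2 1), (rhf0f55c4504412200.shift 0 4)] (by decide +kernel))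
noncomputable def rhe33f29982466edaf : CRef := CRef.mk (Pat.mk 0x380000000000000060000000c0 0x20000001f70000007e0000001000000078000000f0 6 9) 0 0 (step_sound _ 36 [rh86df8e6589601709, (rhb739f4f82bb681b4.shift 3 0)] (by decide +kernel))
noncomputable def rh5af6602f33bab971 : CRef := CRef.mk (Pat.mk 0x1c000001080000001800000000 0x1800000018000000f8000000fc000001cf0000001800000010 6 9) 0 0 (step_sound _ 66 [(rh00a864f2ef4b31d8.shift 1 2), (rh2ed427353258d8dd.shift 0 1), (rh4c60faed9e5f228f.shift 2 0)] (by decide +kernel))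
noncomputable def rh5d2adca68160550d : CRef := CRef.mk (Pat.mk 0x200000003c000000000000001000000000 0x27000000ff0000001c0000001000000010 6 8) 0 0 (step_sound _ 68 [(rh71222050f2c63a3a.shift 4 0), (rh74f48645dd37c94b.shift 0 2)] (by decide +kernel))
noncomputable def rhf25fc1647ac5a3be : CRef := CRef.mk (Pat.mk 0x380000000000000060000000c0 0x2000000020000000770000003e0000001700000078000000d0 6 8) 0 0 (step_sound _ 36 [(rhb739f4f82bb681b4.shift 3 0), rhd11ff76a54243cb4] (by decide +kernel))
noncomputable def rhedbb7568c6a4a24d : CRef := CRef.mk (Pat.mk 0x1e00000000000000340000000000000000 0x3e00000007000000340000001e0000000e 6 6) 0 0 (step_sound _ 97 [(rh1ed024172493deb7.shift 1 0), (rheb0810cc63b001d8.shift 0 3)] (by decide +kernel))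
noncomputable def rh94c3229752fa6e32 : CRef := CRef.mk (Pat.mk 0xe000000800000001a0000000000000000 0x740000007e000000e30000001a0000000f00000005 6 8) 0 0 (step_sound _ 97 [(rh00a864f2ef4b31d8.shift 0 3), rh87141cb6ad5c8198] (by decide +kernel))
noncomputable def rhcefcfd066af8969c : CRef := CRef.mk (Pat.mk 0x8000000000000001c0000001800000000 0x40000000c0000000c0000001c0000001f00000017 6 5) 0 0 (step_sound _ 99 [(rh55afc6a59410cf00.shift 3 0), rhfbb399d9cc55fe51] (by decide +kernel))
noncomputable def rhb10553d5aa562ca6 : CRef := CRef.mk (Pat.mk 0x2000000030000000200000004 0x500000007000000070000000200000002000000030000000700000004 6 3) 0 0 (step_sound _ 129 [(rh68a777751bfeafdf.shift 0 1), (rhd3458b32566d63f7.shift 1 0)] (by decide +kernel))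
noncomputable def rh667bb06ee5773080 : CRef := CRef.mk (Pat.mk 0x200000002000000060000000200000000000000000000000000000000 0x200000006000000060000000300000007000000070000000700000005 6 3) 0 0 (step_sound _ 97 [(rh301a6b3a9154ed36.shift 1 1), (rh3181373a30ceb9e3.shift 0 1), (rh7928877f9bf74a91.shift 0 2), rhffb8e5993241bf15] (by decide +kernel))
noncomputable def rhd9bd2ad84374c708 : CRef := CRef.mk (Pat.mk 0x380000001000000070000000f0000000000000000000000000 0xc0000000fc0000003f00000070000000f0000001800000008000000080 6 9) 0 0 (step_sound _ 71 [rh95c5f45598c2feec, (rhe25b0a99195a5d59.shift 4 2)] (by decide +kernel))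
noncomputable def rh6a72a5c3700b3c19 : CRef := CRef.mk (Pat.mk 0x2000000030000000e0000000a 0x500000007000000070000000600000007000000070000000e0000000a 6 4) 0 0 (step_sound _ 129 [(rh44f453b84f013105.shift 1 0), (rh74077b621f65b9d0.shift 1 0), rhb79e7f6fd1cdda95, (rhba97f7f4ade5e136.shift 0 1)] (by decide +kernel))
noncomputable def rhcba2557ba2a81cae : CRef := CRef.mk (Pat.mk 0x200000002000000060000000200000000000000000000000000000000 0x600000006000000060000000300000003000000070000000700000005 6 3) 0 0 (step_sound _ 97 [rh1b9022be4f7af407, (rh7928877f9bf74a91.shift 0 2), (rha707fb719e87fe6e.shift 1 2)] (by decide +kernel))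
noncomputable def rh331c4c2c79088035 : CRef := CRef.mk (Pat.mk 0x1800000018000000380000000000000000 0xe7000000ff0000001f000000380000000800000008 6 8) 0 0 (step_sound _ 133 [rh054d636c46bd466a, (rh2ed427353258d8dd.shift 1 2), (rhd35ecca85946c7b5.shift 0 3)] (by decide +kernel))
noncomputable def rh70e1ae7d5bbbbf54 : CRef := CRef.mk (Pat.mk 0x40000000c0000001c000000000000000000000000 0x6000000060000000e0000000f0000001c000000040000000400000004 6 5) 0 0 (step_sound _ 129 [(rhb739f4f82bb681b4.shift 0 3), (rhf7c77fe48087fd5b.shift 1 0)] (by decide +kernel))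
noncomputable def rh28152048bc8b598f : CRef := CRef.mk (Pat.mk 0x8000000180000001800000000 0x1c0000003c0000000f000000180000001800000008 6 6) 0 0 (step_sound _ 131 [(rh2145e1d24b96a57e.shift 3 1), rh900a894640be090c] (by decide +kernel))
noncomputable def rhc0217ab91b2ec9c3 : CRef := CRef.mk (Pat.mk 0x1800000018000000180000000000000000 0xc0000000f0000007c00000018000000180000000800000008 6 7) 0 0 (step_sound _ 35 [(rh01ff8e29f1e0af53.shift 0 2), (rh71222050f2c63a3a.shift 3 0)] (by decide +kernel))
noncomputable def rhafa1d3932d0fade7 : CRef := CRef.mk (Pat.mk 0xc000000000000001800000030000000000000000000000000 0xc0000000c000000080000001f0000003f0000000f0000000400000004 6 6) 0 0 (step_sound _ 163 [(rh2145e1d24b96a57e.shift 3 3), rh327cc032817ae423] (by decide +kernel))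
noncomputable def rh9ad140cad4d50694 : CRef := CRef.mk (Pat.mk 0x1e000000000000001a0000000000000000 0x30000001e000000030000001b0000000f00000005 6 5) 0 0 (step_sound _ 97 [(rheb0810cc63b001d8.shift 0 3), rhf9336b26de852197] (by decide +kernel))
noncomputable def rh06594b93ba6a6bda : CRef := CRef.mk (Pat.mk 0x18000001000000001000000010 0xef000000fe000001d70000001000000010 6 9) 0 0 (step_sound _ 101 [(rh09231084b1f3e84e.shift 0 2), (rh5a4df29f20c07a62.shift 3 0), (rh6de9f2ff3549b970.shift 2 0), (rhcd92c9961d7f9922.shift 1 2)] (by decide +kernel))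
noncomputable def rh6d5e9c46a456733d : CRef := CRef.mk (Pat.mk 0xe000000800000000200000002 0x740000007e000000e30000000200000002 6 8) 0 0 (step_sound _ 65 [(rh00a864f2ef4b31d8.shift 0 2), (rh2f68792b6b779e96.shift 1 0)] (by decide +kernel))
noncomputable def rhe2a056e1a6cfcc1d : CRef := CRef.mk (Pat.mk 0x1e00000100 0xe7000000fe000001c0 6 9) 0 0 (step_sound _ 65 [(rh3244c3cc8379b070.shift 0 1), (rh799fad6b6fcaa2cc.shift 1 0)] (by decide +kernel))
noncomputable def rh0072194a60901f33 : CRef := CRef.mk (Pat.mk 0x380000000000000000 0x8000000080000007f0000007e0000000700000004 6 7) 0 0 (step_sound _ 66 [(rh43dc67402634d54f.shift 1 0), (rh4c622fddc53a5f99.shift 0 2), (rh9e97bba44c1b13e4.shift 0 1)] (by decide +kernel))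
noncomputable def rh44b32d1fade952d3 : CRef := CRef.mk (Pat.mk 0x3800000200000000080000000000000000 0x40000001c000001fc0000038f0000000c0000000c00000004 6 10) 0 0 (step_sound _ 99 [(rh2820ca9a6c4f41b4.shift 0 3), (rhb9166a57611d3858.shift 2 0), (rhc1eaeff53a3b1d6a.shift 2 3)] (by decide +kernel))
noncomputable def rh3e4afc855cf09eb7 : CRef := CRef.mk (Pat.mk 0x3800000100 0xe7000000fe000001c7 6 9) 0 0 (step_sound _ 38 [rhdc447a92996c59d4, (rheaa91b92daf0efc8.shift 3 0)] (by decide +kernel))
noncomputable def rh54fb0311328a422b : CRef := CRef.mk (Pat.mk 0x8000000080000003800000000000000000000000000000000 0x40000000c0000001c000000380000001f0000001c0000001c00000010 6 6) 0 0 (step_sound _ 99 [(rh0b7b56b1d93191f8.shift 2 0), (rh4a2ef90436fa9e13.shift 2 0), (rh852e818bc8629e77.shift 0 2), (rhfbf2eae4035425b6.shift 1 2)] (by decide +kernel))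
noncomputable def rhcd0f91aa761da866 : CRef := CRef.mk (Pat.mk 0x20000000300000002000000020000000200000000 0x50000000700000007000000020000000300000003000000030000000200000002 6 3) 0 0 (step_sound _ 96 [(rh68a777751bfeafdf.shift 0 2), rh7b1f1fb55310c477] (by decide +kernel))
noncomputable def rha02b0a315aea9d8b : CRef := CRef.mk (Pat.mk 0x100000002000000020000000600000000000000000000000000000000 0x100000003000000060000000600000003000000070000000700000005 6 3) 0 0 (step_sound _ 97 [rhc14d8284457bdedb, (rhffd04209dc8ea796.shift 0 3)] (by decide +kernel))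
noncomputable def rhd5b0780ae98fd31c : CRef := CRef.mk (Pat.mk 0x20000000200000002000000020000000200000002 0x50000000700000007000000020000000300000003000000030000000200000002 6 3) 0 0 (step_sound _ 96 [rh50fbb5868c909700, (rh68a777751bfeafdf.shift 0 2)] (by decide +kernel))
noncomputable def rhf4e4b97789bfcf7e : CRef := CRef.mk (Pat.mk 0x20000000c0000008400000004 0x8000000080000003f0000007f000000e600000004 6 8) 0 0 (step_sound _ 68 [rh7a1f620a1c8cdd90, (rhcf4316681f1a3ab1.shift 1 1), (rhf85dd19835c185aa.shift 1 1)] (by decide +kernel))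
noncomputable def rh3055c97658abea37 : CRef := CRef.mk (Pat.mk 0x800000008000000180000003800000020 0x40000001f0000007c0000001e0000003800000020 6 7) 0 0 (step_sound _ 66 [rh908ca6701f9ab3a2, (rhb739f4f82bb681b4.shift 1 1)] (by decide +kernel))
noncomputable def rh2c36f73d87c98083 : CRef := CRef.mk (Pat.mk 0x30000000100000001000000010 0xf0000007e000000ff0000001000000010 6 8) 0 0 (step_sound _ 99 [(rh1de8c3115bce5e82.shift 0 2), (rh50fbb5868c909700.shift 3 0)] (by decide +kernel))
noncomputable def rh5e4d3f6c641592fb : CRef := CRef.mk (Pat.mk 0x3800000014000000300000001000000000 0x70000003e00000016000000340000001e00000008 6 6) 0 0 (step_sound _ 130 [rh2edb723cdd034ac6, (rheb0810cc63b001d8.shift 1 3)] (by decide +kernel))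
noncomputable def rh705fea0805cf90d4 : CRef := CRef.mk (Pat.mk 0x8000000080000003800000008000000000000000000000000 0x100000001c0000001f00000038000000080000001c0000001c00000014 6 6) 0 0 (step_sound _ 196 [(rh2f68792b6b779e96.shift 3 3), rh68869c06f0be1da0] (by decide +kernel))
noncomputable def rhfaf5eccd526efa6d : CRef := CRef.mk (Pat.mk 0x3000000000000000600000004000000000000000000000000 0x300000003000000030000000600000006000000030000000300000003 6 3) 0 0 (step_sound _ 161 [(rh2145e1d24b96a57e.shift 1 3), rhf983b45ed502f8e7] (by decide +kernel))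
noncomputable def rha9dff0ad90a2dd1d : CRef := CRef.mk (Pat.mk 0x180000011800000030 0x400000004000000e7000000ff000001df00000038 6 9) 0 0 (step_sound _ 69 [(rh0ea7c0b623fbcc17.shift 0 1), rha41a6bc976b49a2d, (rhcf4316681f1a3ab1.shift 2 1)] (by decide +kernel))
noncomputable def rhb5cc59616ce1bd02 : CRef := CRef.mk (Pat.mk 0x1e00000000 0x3e0000007f00000070 6 7) 0 0 (step_sound _ 68 [(rh33e738c4ed385b9f.shift 1 1), rh85d385ed940ca6ec] (by decide +kernel))
noncomputable def rh9d908ca1a76a073c : CRef := CRef.mk (Pat.mk 0x1e000000000000000400000000 0x4000000370000001e000000030000000600000006 6 6) 0 0 (step_sound _ 132 [(rh33e738c4ed385b9f.shift 1 3), rh43ca58b80ff240ff] (by decide +kernel))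
noncomputable def rh5ea3d05f123fec30 : CRef := CRef.mk (Pat.mk 0x20000001e00000002 0x400000007000000070000000f0000003e0000001e00000006 6 6) 0 0 (step_sound _ 68 [(rh33e738c4ed385b9f.shift 1 1), rhccbbddc13e5c62d5] (by decide +kernel))
noncomputable def rh97b6053154f0c55f : CRef := CRef.mk (Pat.mk 0x1c00000006000000180000003000000000 0x120000001e0000000e0000001c0000003f0000000f 6 6) 0 0 (step_sound _ 35 [rh9ea900494366a087, rhd436bd2e7b8da4e9, (rhef73737383050ca7.shift 2 0)] (by decide +kernel))
noncomputable def rh8fe4e7f38cd0202b : CRef := CRef.mk (Pat.mk 0xf000000020 0x7000000fe0000007f 6 8) 0 0 (step_sound _ 35 [(rh257f8d8b94d7754a.shift 1 0), rh3918eeb6c53434d8, (rheae1728ff4a56756.shift 2 0)] (by decide +kernel))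
noncomputable def rh406d1a1ee7613dfd : CRef := CRef.mk (Pat.mk 0xf0000000300000004000000000000000000000000 0x3000000030000001b0000000f0000000300000006000000060000000600000004 6 5) 0 0 (step_sound _ 195 [(rh33e738c4ed385b9f.shift 0 5), rh6f62b5e2a571e0b2] (by decide +kernel))
noncomputable def rh1e9d1a71ef03f386 : CRef := CRef.mk (Pat.mk 0x380000001800000030 0x40000000c0000000f0000003f0000001f00000038 6 6) 0 0 (step_sound _ 33 [(rhab22b5b56e7b3243.shift 1 0), rhfef3103d12bed0c2] (by decide +kernel))
noncomputable def rhc96d4ee935588af4 : CRef := CRef.mk (Pat.mk 0x38000000200000002000000000 0xce0000007e000000370000002000000020 6 8) 0 0 (step_sound _ 102 [(rh2efad3051cff7df1.shift 0 2), (rhd4d36b4007f546b1.shift 3 0)] (by decide +kernel))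
noncomputable def rh94c0d316370a5350 : CRef := CRef.mk (Pat.mk 0x1c000001100000001000000000 0xe7000000ff000001dc0000001000000010 6 9) 0 0 (step_sound _ 101 [(rh0f1f75917d11acd2.shift 2 2), (rh74f48645dd37c94b.shift 0 2), (rhd4d36b4007f546b1.shift 2 0)] (by decide +kernel))
noncomputable def rh52880b774d2ce572 : CRef := CRef.mk (Pat.mk 0x38000000200000006000000000 0x4000000070000003e0000003f0000006800000008 6 7) 0 0 (step_sound _ 98 [(rh0de499e0455c9c14.shift 0 2), (rh36f7e7157ad56577.shift 1 0), (rh592c7139d2c44767.shift 0 2), (rhd1d05263fabc0227.shift 0 2)] (by decide +kernel))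
noncomputable def rha2c3460320009baa : CRef := CRef.mk (Pat.mk 0x1e00000100 0xe0000000fe000001c7 6 9) 0 0 (step_sound _ 1 [(rh97a0a1d1b73b1ba2.shift 1 0), rheb0810cc63b001d8] (by decide +kernel))
noncomputable def rhcebfdf35356b8f69 : CRef := CRef.mk (Pat.mk 0x4000000000000000e0000008800000000 0x400000004000000770000007e000000eb00000002 6 8) 0 0 (step_sound _ 98 [(rh2145e1d24b96a57e.shift 2 1), rh80708b9f1112ff1d] (by decide +kernel))
noncomputable def rh155fd1d16c429f55 : CRef := CRef.mk (Pat.mk 0x4000000000000001e00000000 0x10000000700000007000000030000001e00000007 6 5) 0 0 (step_sound _ 1 [rh2edf0f50359cf5c2, rheb0810cc63b001d8] (by decide +kernel))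
noncomputable def rhb072768ca47cd6e6 : CRef := CRef.mk (Pat.mk 0x7800000040 0x38000000ff00000067 6 8) 0 0 (step_sound _ 34 [(rh96851dee118c1ba3.shift 2 0), rhf598e23487d34ab3] (by decide +kernel))
noncomputable def rh76d226dd781a0516 : CRef := CRef.mk (Pat.mk 0xf8000000400000004000000000 0x200000002000000037000000fe000000780000005000000010 6 8) 0 0 (step_sound _ 133 [(rh46a18fdc02aaa967.shift 0 2), (rh50e736ca27d8bdbd.shift 3 0), (rh55cb5b5f992d4e9d.shift 2 1), (rhe072fffdd2fccf38.shift 5 1)] (by decide +kernel))
noncomputable def rhf7f3a5a26df95106 : CRef := CRef.mk (Pat.mk 0x18000000180000000800000004 0xa0000003f0000001f0000000f00000004 6 6) 0 0 (step_sound _ 34 [(rh5c5e593799055d58.shift 2 0), rhdfb28ec9e8a5b241] (by decide +kernel))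
noncomputable def rh3a186a5175d49afe : CRef := CRef.mk (Pat.mk 0x4000000060000001a0000001000000000 0x180000003c0000000e0000001b0000001f0000000a 6 6) 0 0 (step_sound _ 33 [(rh71222050f2c63a3a.shift 1 0), rh8e4a3ca8aa21e83d] (by decide +kernel))
noncomputable def rhaa5e37873c1fbb65 : CRef := CRef.mk (Pat.mk 0x380000001800000010 0xc0000000c0000000f0000003f0000001f00000010 6 6) 0 0 (step_sound _ 66 [(rh885223d019c6e296.shift 1 0), (rhb14e2588a8d71db8.shift 0 1), (rhba89ab7cb81bcc90.shift 0 1)] (by decide +kernel))
noncomputable def rh796a9789bfc927af : CRef := CRef.mk (Pat.mk 0x200000003000000060000000200000000 0x1d0000001f00000007000000060000000600000004 6 5) 0 0 (step_sound _ 130 [(rh2f68792b6b779e96.shift 1 1), rh46f16d35b6c1d372] (by decide +kernel))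
noncomputable def rhcd335d0c5c0514e3 : CRef := CRef.mk (Pat.mk 0x80000000c0000001800000060000000000000000000000000 0x140000003c0000000f00000018000000780000001c0000001c00000014 6 7) 0 0 (step_sound _ 161 [(rh9d9b064bebb3605d.shift 1 0), (rhb739f4f82bb681b4.shift 0 4)] (by decide +kernel))
noncomputable def rhb35d3c4db5432292 : CRef := CRef.mk (Pat.mk 0x1800000038000000000000000000000000 0x8000000080000001f0000003f0000000e0000000400000004 6 6) 0 0 (step_sound _ 129 [rha94eba71412b9d38, (rhab22b5b56e7b3243.shift 1 3)] (by decide +kernel))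
noncomputable def rh451f3ac825ff5cfb : CRef := CRef.mk (Pat.mk 0x4000000020000000a00000018000000080000000000000000 0x50000000f0000000b0000001a0000000f0000000600000004 6 5) 0 0 (step_sound _ 65 [(rh10c9a8f0ff9b0de3.shift 1 2), rh4bf2f9462370443f, (rh9745507941764734.shift 0 1), (rhf784de81568891eb.shift 0 1)] (by decide +kernel))
noncomputable def rheafdc4532b9aaf7b : CRef := CRef.mk (Pat.mk 0xc0000001c000000040000000000000000 0xc0000001c000000370000003e0000001e 6 6) 0 0 (step_sound _ 34 [(rh71222050f2c63a3a.shift 2 0), rh81a89e8b8715cc33] (by decide +kernel))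
noncomputable def rh2f72f135c4177c5b : CRef := CRef.mk (Pat.mk 0x400000002000000180000003c000000000000000000000000 0x80000000c0000000f000000180000003f0000006c0000002000000020 6 7) 0 0 (step_sound _ 97 [(rh53b3c253cb0c65f4.shift 0 3), rhfe763aeedfd677d7] (by decide +kernel))
noncomputable def rh669aa77f2a61fe1c : CRef := CRef.mk (Pat.mk 0x4000000020000001a00000038000000000000000000000000 0x5000000070000001b0000003f000000070000000700000005 6 6) 0 0 (step_sound _ 97 [rh1725eba4bd36066a, (rh32fdcf43850040ab.shift 0 2), (rh6e1685e3533aff0e.shift 0 3), rhc87f7657c377b457] (by decide +kernel))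
noncomputable def rh57ddaa285bda962e : CRef := CRef.mk (Pat.mk 0x2000000018000000c0 0x670000007e000000c7 6 8) 0 0 (step_sound _ 37 [rhb12ffaec36122c99, (rhd6e447e81774439e.shift 3 0)] (by decide +kernel))
noncomputable def rhd95388f93570b312 : CRef := CRef.mk (Pat.mk 0x38000000180000001000000000 0x14000000170000003f0000001f0000001800000008 6 6) 0 0 (step_sound _ 35 [(rh3d0ff1fe86a026fa.shift 0 1), (rh503dd4575245365b.shift 3 0)] (by decide +kernel))
noncomputable def rhda8986cb4bfcd9d6 : CRef := CRef.mk (Pat.mk 0x200000003000000020000000200000000000000000000000000000000 0x2000000020000000200000003000000030000000300000003000000070000000700000005 6 3) 0 0 (step_sound _ 97 [(rh7928877f9bf74a91.shift 0 2), rhc05d451ce3dd5e48, (rhc4c6de062e376aad.shift 0 2)] (by decide +kernel))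
noncomputable def rh4cd2f31074c32c98 : CRef := CRef.mk (Pat.mk 0x80000003800000018000000100000000000000000 0x140000001f0000003c0000001e0000001c0000000c00000004 6 6) 0 0 (step_sound _ 98 [(rh53b3c253cb0c65f4.shift 1 3), rha69b7014c57a74a9] (by decide +kernel))
noncomputable def rhdcd96714846832bc : CRef := CRef.mk (Pat.mk 0x3800000018000000100000001000000000 0x140000003f0000001f000000180000001800000008 6 6) 0 0 (step_sound _ 35 [(rh19b2bbe2a87b1004.shift 0 1), (rh932754581e0f4330.shift 3 0)] (by decide +kernel))
noncomputable def rh2def2f8fd1fe3b39 : CRef := CRef.mk (Pat.mk 0x7000000030000001a0000001200000000 0x2000000020000001a0000001f0000000b0000001b0000001300000001 6 5) 0 0 (step_sound _ 32 [(rh2dd651f8f9b0cdf5.shift 0 1), rh932754581e0f4330] (by decide +kernel))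
noncomputable def rh81c2a7048c3c64c2 : CRef := CRef.mk (Pat.mk 0x20000001e000000000000000000000000 0x1000000070000000700000007000000060000001e000000070000000600000006 6 5) 0 0 (step_sound _ 65 [rhe8e7286b99252a75, (rheb0810cc63b001d8.shift 0 2)] (by decide +kernel))
noncomputable def rhd3b7a324efe9bfc5 : CRef := CRef.mk (Pat.mk 0x40000000b0000001a0000001200000000 0x10000000b0000001f0000000b0000001b0000001300000001 6 5) 0 0 (step_sound _ 131 [(rh2145e1d24b96a57e.shift 3 1), rh790e417395f2af28] (by decide +kernel))
noncomputable def rh1a408a5f92c3096d : CRef := CRef.mk (Pat.mk 0x1800000018000000100000000000000000 0x140000001f00000038000000180000001800000018 6 6) 0 0 (step_sound _ 36 [rh79b4850e0737c6c7, (rh7b1f1fb55310c477.shift 3 0)] (by decide +kernel))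
noncomputable def rh2a04b5ad328c549a : CRef := CRef.mk (Pat.mk 0x180000000c00000008000000000000000000000000 0x40000000c0000001c0000000f0000000c0000001c0000001c00000014 6 5) 0 0 (step_sound _ 129 [(rh53b3c253cb0c65f4.shift 0 4), (rh6ef0c00f4cfeb141.shift 2 0)] (by decide +kernel))
noncomputable def rh3361ff6d52333ad4 : CRef := CRef.mk (Pat.mk 0x20000001a00000012000000000000000000000000 0x1000000030000000b0000000a0000001b0000001f0000000d0000000400000004 6 5) 0 0 (step_sound _ 98 [(rh7e2297059c77b3a4.shift 0 3), (rha8de8032a0ea52d8.shift 0 2), rhd474430b4ffa505e, (rhe380c42df720a63d.shift 0 2)] (by decide +kernel))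
noncomputable def rhd871a2a77edf81aa : CRef := CRef.mk (Pat.mk 0x200000002000000020000000200000000000000000000000000000000 0x200000003000000030000000300000007000000070000000700000005 6 3) 0 0 (step_sound _ 97 [rh124b8736b39446ea, (rh7928877f9bf74a91.shift 0 2), (rh8cdd36b03d57a2f6.shift 0 1), (rhc5b48f2c1b7901f8.shift 0 1)] (by decide +kernel))
noncomputable def rh6fc6351fd2f3b6b2 : CRef := CRef.mk (Pat.mk 0xc0000000a000000180000001000000000 0xc0000000f0000001b0000001f0000000e 6 5) 0 0 (step_sound _ 98 [(rhb739f4f82bb681b4.shift 0 2), rhe03933d511c256c8] (by decide +kernel))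
noncomputable def rha8601016a1f63c6f : CRef := CRef.mk (Pat.mk 0x1800000104 0xf7000000fe000001ce 6 9) 0 0 (step_sound _ 37 [(rh03238141166ed50f.shift 2 0), rh8fcf2ee879e273f8, (rh933ab3971aa79d28.shift 1 0)] (by decide +kernel))
noncomputable def rh76d685b198ce25b0 : CRef := CRef.mk (Pat.mk 0x38000000000000006000000040 0x670000003e000000270000006000000040 6 7) 0 0 (step_sound _ 133 [(rha4e887c2a2a0f60b.shift 0 2), (rhff0f29cb645b05f7.shift 5 0)] (by decide +kernel))
noncomputable def rh7958b8fa933a16b4 : CRef := CRef.mk (Pat.mk 0x7000000000000000600000004000000000000000000000000 0x600000007000000030000000600000006000000030000000300000003 6 3) 0 0 (step_sound _ 161 [(rh2145e1d24b96a57e.shift 1 3), rh4eb92b8fbacb8f50] (by decide +kernel))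
noncomputable def rhfc87a8e15e5be2ed : CRef := CRef.mk (Pat.mk 0xc0000000a000000180000001000000000 0xc0000000f0000001c0000001f0000000f 6 5) 0 0 (step_sound _ 98 [rh49c19d5e04bef9a6, (rhb739f4f82bb681b4.shift 0 2)] (by decide +kernel))
noncomputable def rhec180667ec552f8c : CRef := CRef.mk (Pat.mk 0x1800000098000000000000000000000000 0x80000001f000000ff000000070000000400000004 6 8) 0 0 (step_sound _ 101 [(rh2fe78cc5ca4405d8.shift 3 3), rhe6df117360faba60] (by decide +kernel))
noncomputable def rh3ce3f54825b789a6 : CRef := CRef.mk (Pat.mk 0x100000006000000020000000200000016 0x40000000600000007000000030000000600000007000000030000001e 6 5) 0 0 (step_sound _ 129 [(rh50fbb5868c909700.shift 0 1), rha04d70a23a331ab1] (by decide +kernel))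
noncomputable def rh663d4a76f19708dd : CRef := CRef.mk (Pat.mk 0x800000008000000380000000000000000 0x140000003c0000000f000000380000001e0000001c 6 6) 0 0 (step_sound _ 35 [rh3a61644a128cd4ab, (rhfbf2eae4035425b6.shift 1 0)] (by decide +kernel))
noncomputable def rhefefa9adde9c5b0c : CRef := CRef.mk (Pat.mk 0x80000001c000000080000001800000000 0x60000000f0000001c0000000e0000007c00000004 6 7) 0 0 (step_sound _ 130 [rh23c03c796ec155a3, (rh50fbb5868c909700.shift 2 1)] (by decide +kernel))
noncomputable def rh57c2f33d7db628c6 : CRef := CRef.mk (Pat.mk 0x8000000180000001800000000 0x1c0000003c0000000f000000180000001800000008 6 6) 0 0 (step_sound _ 131 [(rh2145e1d24b96a57e.shift 3 1), rh3a61644a128cd4ab] (by decide +kernel))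
noncomputable def rh9607ace265ad3036 : CRef := CRef.mk (Pat.mk 0x40000000c0000000c00000000 0xe0000003e000000070000000c0000000c00000004 6 6) 0 0 (step_sound _ 130 [(rh2145e1d24b96a57e.shift 2 1), rh895c5375da59f765] (by decide +kernel))
noncomputable def rhc6cbdc5ad5823a22 : CRef := CRef.mk (Pat.mk 0x40000001c000000180000001000000000 0x70000001f0000001f0000003300000002 6 6) 0 0 (step_sound _ 97 [rh133c472556cb89a6, (rhb739f4f82bb681b4.shift 0 2)] (by decide +kernel))
noncomputable def rh9fd63e60531cf0a9 : CRef := CRef.mk (Pat.mk 0x1800000098000000000000000000000000 0x80000000800000018000000ff0000007f0000000400000004 6 8) 0 0 (step_sound _ 101 [(rh2fe78cc5ca4405d8.shift 3 3), rh4be2e6a78b7c993f] (by decide +kernel))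
noncomputable def rhdabc5688984dab19 : CRef := CRef.mk (Pat.mk 0x600000006000000020000000000000000 0x300000003000000030000000600000006000000060000000600000006 6 3) 0 0 (step_sound _ 33 [(rh71222050f2c63a3a.shift 1 0), rhcbaa34959f85e2ef] (by decide +kernel))
noncomputable def rh34113cb1a0e37f05 : CRef := CRef.mk (Pat.mk 0x80000001800000038000000000000000000000000 0x40000000c0000001e000000380000001f0000000c0000000c 6 6) 0 0 (step_sound _ 130 [(rhb739f4f82bb681b4.shift 1 3), rhba986975ba1103df] (by decide +kernel))
noncomputable def rh13412a77410a594c : CRef := CRef.mk (Pat.mk 0x18000000980000000000000000 0x8000000080000001e000000ff0000007700000004 6 8) 0 0 (step_sound _ 69 [(rh2fe78cc5ca4405d8.shift 3 2), rha0050008f5b8a734] (by decide +kernel))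
noncomputable def rhd0bb67d70c7929d3 : CRef := CRef.mk (Pat.mk 0x800000008000000180000001c00000000 0x40000000c0000000c0000001e0000007f00000003 6 7) 0 0 (step_sound _ 130 [(rh50fbb5868c909700.shift 2 1), rhf892423d5a119808] (by decide +kernel))
noncomputable def rhaf316a0913ee7052 : CRef := CRef.mk (Pat.mk 0x1800000018000000180000000000000000 0x40000001c000000180000007c0000000f0000000c 6 7) 0 0 (step_sound _ 35 [(rh71222050f2c63a3a.shift 3 0), rhca33dde870b19192] (by decide +kernel))
noncomputable def rhc4ff05cc0d08da4e : CRef := CRef.mk (Pat.mk 0x800000008000000180000001800000000 0x40000000c0000000c0000001c0000001f0000000f 6 5) 0 0 (step_sound _ 34 [rh0aba81494a248b74, (rh932754581e0f4330.shift 2 0)] (by decide +kernel))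
noncomputable def rh03775da4d539190d : CRef := CRef.mk (Pat.mk 0x800000008000000180000000c00000000 0x140000007c0000000e000000180000000f00000008 6 7) 0 0 (step_sound _ 33 [(rh53b3c253cb0c65f4.shift 0 1), (rh895c5375da59f765.shift 1 0)] (by decide +kernel))
noncomputable def rh4118bd99e667a3d3 : CRef := CRef.mk (Pat.mk 0xc0000001e000000080000000000000000 0x4000000040000000c0000001e0000003f0000003200000010 6 6) 0 0 (step_sound _ 162 [(rh2145e1d24b96a57e.shift 2 2), rh3e4bb1a3c66c43bf] (by decide +kernel))
noncomputable def rh54d55b38a8cb2737 : CRef := CRef.mk (Pat.mk 0xe0000001e000000080000000000000000 0x2000000020000000e0000001e0000003f0000003400000010 6 6) 0 0 (step_sound _ 68 [rh13efdc63b4500c65, (rhe25b0a99195a5d59.shift 1 2)] (by decide +kernel))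
noncomputable def rhb2afa9af710fc185 : CRef := CRef.mk (Pat.mk 0x980000001c00000000 0xdf0000007f000000e0 6 8) 0 0 (step_sound _ 33 [(rh53b3c253cb0c65f4.shift 0 1), rh61bb5761f33eeb27] (by decide +kernel))
noncomputable def rhf523b8ee04276bbb : CRef := CRef.mk (Pat.mk 0x18000000380000001000000000 0x8000000080000001e0000003f0000003700000004 6 6) 0 0 (step_sound _ 98 [(rhb739f4f82bb681b4.shift 1 2), rhdda1f3cd8969da05] (by decide +kernel))
noncomputable def rha1f67675212f0f22 : CRef := CRef.mk (Pat.mk 0x1c000000180000001000000000 0x4000000040000001f0000001f0000003300000002 6 6) 0 0 (step_sound _ 97 [rh1128095e46e23146, (rhb739f4f82bb681b4.shift 0 2)] (by decide +kernel))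
noncomputable def rh3c32e5e2eb13941b : CRef := CRef.mk (Pat.mk 0x200000002700000026000000040000000000000000 0x200000023000000370000003e0000001e0000001200000012 6 6) 0 0 (step_sound _ 100 [(rh2fe78cc5ca4405d8.shift 0 3), rh5476e00417110f39] (by decide +kernel))
noncomputable def rhd44c5255a25eff97 : CRef := CRef.mk (Pat.mk 0x100000006000000020000000200000000000000000000000000000000 0x100000007000000060000000200000002000000070000000700000005 6 3) 0 0 (step_sound _ 97 [rhc94dfb5f501cb051, (rhffd04209dc8ea796.shift 0 3)] (by decide +kernel))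
noncomputable def rhb4167e6082834458 : CRef := CRef.mk (Pat.mk 0x400000004c00000048000000080000000800000000 0x400000006c000000780000002f0000007c00000030 6 7) 0 0 (step_sound _ 101 [(rh5419adcd928dba20.shift 2 3), rh80e664f3a39fb441] (by decide +kernel))
noncomputable def rhe9fee3a9fdf78663 : CRef := CRef.mk (Pat.mk 0x1800000018000000180000000800000000 0x40000001f0000001f000000780000000c00000004 6 7) 0 0 (step_sound _ 34 [(rh411eefd93b2b4274.shift 0 1), (rh932754581e0f4330.shift 2 0)] (by decide +kernel))
noncomputable def rh0345f4ef77999f70 : CRef := CRef.mk (Pat.mk 0x8000000880000001a00000008 0x140000007e000000ef0000001e00000008 6 8) 0 0 (step_sound _ 98 [(rh50fbb5868c909700.shift 2 0), rh68bf02475e7c598f] (by decide +kernel))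
noncomputable def rh9fa9db0a3c390d4f : CRef := CRef.mk (Pat.mk 0x1800000098000000000000000000000000 0x8000000080000001f000000ff0000000e0000000400000004 6 8) 0 0 (step_sound _ 101 [rh134451eb1aba78ca, (rh2fe78cc5ca4405d8.shift 3 3)] (by decide +kernel))
noncomputable def rh9d1ac8f1fefd998b : CRef := CRef.mk (Pat.mk 0x8000000180000009800000000 0x800000008000000080000001f000000ff00000004 6 8) 0 0 (step_sound _ 131 [rh0dbd3b11c4ccf994, (rh2145e1d24b96a57e.shift 3 1)] (by decide +kernel))
noncomputable def rh0b4508dcbcdb1411 : CRef := CRef.mk (Pat.mk 0x40000000e0000001c000000080000000000000000 0x2000000060000000e0000001f0000003e0000003600000016 6 6) 0 0 (step_sound _ 66 [rh22a5190655f3c169, (rh40241bd608e5be1a.shift 1 0), (rh46530d756bdf8511.shift 1 0), (rhe286c75f2739cce2.shift 1 1)] (by decide +kernel))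
noncomputable def rh04250b7d011565e6 : CRef := CRef.mk (Pat.mk 0x2000000070000000f000000010000000000000000 0x100000003000000070000000f0000001f0000001e00000008 6 5) 0 0 (step_sound _ 66 [(rh7b1f1fb55310c477.shift 1 1), rhc5f7a71e94609c64] (by decide +kernel))
noncomputable def rhe907bc3a1fcadd14 : CRef := CRef.mk (Pat.mk 0xc0000000f00000000000000000000000000000000 0x40000000c0000000f000000180000001c0000001c00000014 6 5) 0 0 (step_sound _ 99 [(rh56259dd1390eee46.shift 2 0), (rhe25b0a99195a5d59.shift 0 3)] (by decide +kernel))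
noncomputable def rhdd59f8c50800f1d1 : CRef := CRef.mk (Pat.mk 0x1c0000001e000000000000000000000000 0x4000000040000001c0000001e0000003b0000001800000018 6 6) 0 0 (step_sound _ 65 [(rh5be033e06c5ae67a.shift 1 0), (rheb0810cc63b001d8.shift 0 2)] (by decide +kernel))
noncomputable def rhfecf5583f0d8e00d : CRef := CRef.mk (Pat.mk 0x200000002600000026000000040000000000000000 0x300000023000000370000003e0000001e0000001200000012 6 6) 0 0 (step_sound _ 100 [(rh5419adcd928dba20.shift 1 3), rh83925760de8cb0a5] (by decide +kernel))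
noncomputable def rhffb04a672f106342 : CRef := CRef.mk (Pat.mk 0x1800000098000000100000000000000000 0x8000000080000001c000000ff000000360000000400000004 6 8) 0 0 (step_sound _ 101 [(rh2fe78cc5ca4405d8.shift 3 3), rh5b0804451fe0f844] (by decide +kernel))
noncomputable def rhfcbd88cafbff64e1 : CRef := CRef.mk (Pat.mk 0xc0000001e000000080000000000000000 0xc0000001e0000003f0000003300000012 6 6) 0 0 (step_sound _ 65 [rh8d7a4246a59e77ca, (rheb0810cc63b001d8.shift 0 2)] (by decide +kernel))
noncomputable def rheef5a9e18a9841c8 : CRef := CRef.mk (Pat.mk 0xc000000480000000c0000000000000000 0x4000000060000000f0000007c0000000f0000000600000004 6 7) 0 0 (step_sound _ 100 [(rh361cc68994bd8a63.shift 2 2), rhdbe28937c2a0d29a] (by decide +kernel))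
noncomputable def rhd974aa1447d17d0b : CRef := CRef.mk (Pat.mk 0x800000018000000080000001e00000000 0x40000000f0000001f0000000b0000001e00000003 6 5) 0 0 (step_sound _ 130 [rh27e2d065a4a374ca, (rh50fbb5868c909700.shift 2 1)] (by decide +kernel))
noncomputable def rh016093caec2e8d05 : CRef := CRef.mk (Pat.mk 0x1e00000008000000180000000800000000 0x30000001e0000000b0000001f0000000f00000004 6 5) 0 0 (step_sound _ 34 [(rh7b266c28d89d540a.shift 0 1), (rh932754581e0f4330.shift 2 0)] (by decide +kernel))
noncomputable def rh29a893126ffc9f0f : CRef := CRef.mk (Pat.mk 0xc0000004c0000000800000000 0x4000000040000000f0000007f0000003b00000002 6 7) 0 0 (step_sound _ 68 [(rh2fe78cc5ca4405d8.shift 2 2), rhb08129624acaf7b4] (by decide +kernel))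
noncomputable def rh3d20f6bf8b9e1e67 : CRef := CRef.mk (Pat.mk 0x1c00000038000000100000000000000000 0x40000001c0000003e0000007e0000006f0000002c 6 7) 0 0 (step_sound _ 67 [(rh06f7c36f0e544ee5.shift 1 0), (rh40241bd608e5be1a.shift 2 0), rha6f802784adb25e2] (by decide +kernel))
noncomputable def rhc0bfea7b154e1326 : CRef := CRef.mk (Pat.mk 0x100000001000000018000000020000000600000000 0x1000000018000000380000006b0000003e00000078 6 7) 0 0 (step_sound _ 35 [rhc905ab6fd70ff3f8, (rhdebc43b768884653.shift 3 0)] (by decide +kernel))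
noncomputable def rh4acb0aa3432ebc81 : CRef := CRef.mk (Pat.mk 0xc0000001c000000180000000000000000 0x20000000f0000001c0000001c0000000f0000000e 6 5) 0 0 (step_sound _ 35 [(rh7b1f1fb55310c477.shift 2 0), rhe1f407bd3f9cdcdc] (by decide +kernel))
noncomputable def rh3279b48c76dee50b : CRef := CRef.mk (Pat.mk 0x800000008000000380000001800000000 0x140000003c0000000f000000380000001e00000008 6 6) 0 0 (step_sound _ 34 [rh3a61644a128cd4ab, (rh53b3c253cb0c65f4.shift 1 1)] (by decide +kernel))
noncomputable def rh6fd417f4c9117c4d : CRef := CRef.mk (Pat.mk 0x200000002300000026000000040000000000000000 0x300000023000000330000003e0000001e0000001200000010 6 6) 0 0 (step_sound _ 100 [(rh2fe78cc5ca4405d8.shift 0 3), rhdd4a295b53e08af6] (by decide +kernel))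
noncomputable def rha8ac3a541d2fbaef : CRef := CRef.mk (Pat.mk 0xc0000001c000000180000001000000000 0x20000000f0000001c0000001f0000003f0000000a 6 6) 0 0 (step_sound _ 35 [rh3745adb98c59b9e2, (rh7b1f1fb55310c477.shift 2 0)] (by decide +kernel))
noncomputable def rha4777842c0fdd9fe : CRef := CRef.mk (Pat.mk 0x1800000098000000100000000000000000 0x80000000800000018000000ff0000003e0000000400000004 6 8) 0 0 (step_sound _ 101 [(rh2fe78cc5ca4405d8.shift 3 3), rhbaa8ff3eafdf7cc3] (by decide +kernel))
noncomputable def rh1545805115674c27 : CRef := CRef.mk (Pat.mk 0x20000000600000012000000000000000000000000 0x30000000300000006000000060000001e000000070000000700000002 6 5) 0 0 (step_sound _ 98 [rh0ae0522179bd31b9, (rh55a1f6c57a317ce6.shift 1 1), rh708738f1a30da4fa, (rha40d42a2e34c408d.shift 1 1)] (by decide +kernel))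
noncomputable def rh56d89b140f342bf9 : CRef := CRef.mk (Pat.mk 0xc00000018000000180000001800000000 0x20000000f0000001f0000003f0000007c00000004 6 7) 0 0 (step_sound _ 34 [(rh932754581e0f4330.shift 2 0), (rhd9a1075ae977c2f6.shift 0 1)] (by decide +kernel))
noncomputable def rhc5e85eb1535de781 : CRef := CRef.mk (Pat.mk 0x8000000180000001c0000000000000000 0x2000000020000000f0000001f0000003c0000000600000006 6 6) 0 0 (step_sound _ 98 [rhaed54c24fb91f24a, rhbf1eb4da8fa76cc5, (rhe2b63c00a3d7bb73.shift 0 2)] (by decide +kernel))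
noncomputable def rhf9971318f3fd5918 : CRef := CRef.mk (Pat.mk 0x180000001e0000000000000000 0x6000000070000001f0000001e0000000700000006 6 5) 0 0 (step_sound _ 97 [(rh3244c3cc8379b070.shift 0 2), rh329ace851711c188] (by decide +kernel))
noncomputable def rhdc031b5795b17a7a : CRef := CRef.mk (Pat.mk 0xc00000018000000180000000e00000000 0x20000000f0000001f0000001f0000003e00000003 6 6) 0 0 (step_sound _ 129 [rh7a5b3f41310b71fb, (rhb739f4f82bb681b4.shift 0 3)] (by decide +kernel))
noncomputable def rhb23b86f1cc387068 : CRef := CRef.mk (Pat.mk 0x80000001c000000180000000800000000 0x60000000f0000001c0000001c0000000f00000006 6 5) 0 0 (step_sound _ 130 [(rh50fbb5868c909700.shift 2 1), rhe1f407bd3f9cdcdc] (by decide +kernel))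
noncomputable def rh04872f98fd912b3e : CRef := CRef.mk (Pat.mk 0x20000001e000000180000000000000000 0x4000000040000000e0000001e0000001b0000000f0000000b 6 5) 0 0 (step_sound _ 65 [rh10200b5a50d032fb, (rheb0810cc63b001d8.shift 0 2)] (by decide +kernel))
noncomputable def rh08eb4edd77e5005f : CRef := CRef.mk (Pat.mk 0xc0000000c000000000000000400000000 0xc0000000c0000000f0000003e0000003e 6 6) 0 0 (step_sound _ 66 [rh42eeeaf8cbfaff8e, (rh71222050f2c63a3a.shift 2 0)] (by decide +kernel))
noncomputable def rh31f60766161c7d6a : CRef := CRef.mk (Pat.mk 0x60000000e000000000000000400000000 0x30000000300000003000000060000001e000000030000000700000006 6 5) 0 0 (step_sound _ 65 [(rh8ad626b30f15c88f.shift 0 1), (rh9b4df57cddcda711.shift 1 0)] (by decide +kernel))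
noncomputable def rhd9156bbf0c5a3938 : CRef := CRef.mk (Pat.mk 0xe0000000c000000000000000400000000 0x20000000e0000000c0000000f0000003e0000003a 6 6) 0 0 (step_sound _ 66 [rh42eeeaf8cbfaff8e, (rh50fbb5868c909700.shift 1 1)] (by decide +kernel))
noncomputable def rh6d4e60afcd903d8e : CRef := CRef.mk (Pat.mk 0x1a000000180000000000000000 0x4000000070000001e0000003f0000000300000003 6 6) 0 0 (step_sound _ 98 [rhafa8ad03fb07c74b, (rhe25b0a99195a5d59.shift 1 2)] (by decide +kernel))
noncomputable def rh7d14bdd45bfca3c1 : CRef := CRef.mk (Pat.mk 0x1a000000180000000000000000 0x4000000070000001f0000001f0000000300000003 6 5) 0 0 (step_sound _ 98 [rhafa8ad03fb07c74b, (rhb739f4f82bb681b4.shift 0 2)] (by decide +kernel))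
noncomputable def rh86457877b3df5be9 : CRef := CRef.mk (Pat.mk 0x800000008000000180000001c00000000 0x40000000c0000000f0000001e0000001f00000003 6 5) 0 0 (step_sound _ 130 [(rh50fbb5868c909700.shift 2 1), rh881741dd46027e55] (by decide +kernel))
noncomputable def rh362104532586ff12 : CRef := CRef.mk (Pat.mk 0xc0000000c000000040000000000000000 0xc0000000c0000000f0000003e0000003e 6 6) 0 0 (step_sound _ 34 [rh42eeeaf8cbfaff8e, (rh71222050f2c63a3a.shift 2 0)] (by decide +kernel))
noncomputable def rh8a81244b44d96c38 : CRef := CRef.mk (Pat.mk 0x1800000018000000080000000000000000 0x80000001800000018000000380000001f0000001c 6 6) 0 0 (step_sound _ 35 [rh4e38d5d715849da4, (rh71222050f2c63a3a.shift 3 0)] (by decide +kernel))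
noncomputable def rhc3d57a2bdd687966 : CRef := CRef.mk (Pat.mk 0xc0000000c000000040000000400000000 0x40000000c0000000c0000001f0000007c00000018 6 7) 0 0 (step_sound _ 35 [rh4c6fcd9c022c1b38, (rh55afc6a59410cf00.shift 2 0)] (by decide +kernel))
noncomputable def rh501e1d7082fd8abb : CRef := CRef.mk (Pat.mk 0xc000000180000000a0000000000000000 0x6000000060000000f0000001e0000000f0000000600000004 6 5) 0 0 (step_sound _ 98 [(rh076be03eb7063320.shift 0 2), (rh2b3810573df11829.shift 1 0), (rhd40e69ae5befa4c3.shift 0 1)] (by decide +kernel))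
noncomputable def rh20e446fa26a13267 : CRef := CRef.mk (Pat.mk 0x38000000600000002800000000 0x40000001f00000038000000780000003c00000004 6 7) 0 0 (step_sound _ 34 [(rh1c62b6193297d9e3.shift 2 1), rh887326a780fa1f87] (by decide +kernel))
noncomputable def rh8ba325d33b499b38 : CRef := CRef.mk (Pat.mk 0xc000000180000000e0000000000000000 0x20000000f0000001a0000003e0000003700000014 6 6) 0 0 (step_sound _ 129 [rh1fe47bc4ab7a2544, (rhb739f4f82bb681b4.shift 0 3)] (by decide +kernel))
noncomputable def rhfc1f230dfca43fd6 : CRef := CRef.mk (Pat.mk 0x1c000000300000001400000000 0x80000000a0000000f0000001c0000003c0000001600000006 6 6) 0 0 (step_sound _ 131 [(rh00d6a6e3c7e3bb40.shift 2 0), rh1281dba85437d8e6, (rhe072fffdd2fccf38.shift 3 1)] (by decide +kernel))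
noncomputable def rh844ebdfebc1d8882 : CRef := CRef.mk (Pat.mk 0x38000000200000002800000000 0x1000000010000000180000003800000038000000780000001f 6 7) 0 0 (step_sound _ 132 [(rh00d6a6e3c7e3bb40.shift 3 0), rhb5d844c5457b41c6, (rhe072fffdd2fccf38.shift 4 1)] (by decide +kernel))
noncomputable def rh67d3ab9a640bfd15 : CRef := CRef.mk (Pat.mk 0x8000000180000000a000000000000000000000000 0x80000001c0000003f000000370000001400000004 6 6) 0 0 (step_sound _ 98 [(rh53b3c253cb0c65f4.shift 0 3), rhedb5be6a0337ac60] (by decide +kernel))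
noncomputable def rhbba5da5a788d61cf : CRef := CRef.mk (Pat.mk 0x18000000300000001600000000 0x80000000a0000000f0000001e0000003c0000001600000006 6 6) 0 0 (step_sound _ 131 [(rh6afedd06c145487b.shift 1 0), rh9ae491e50d513673, (rhe072fffdd2fccf38.shift 3 1)] (by decide +kernel))
noncomputable def rhbeaaacadd7694d0a : CRef := CRef.mk (Pat.mk 0xc00000008000000080000000c00000000 0xc0000000c0000003e0000007f00000013 6 7) 0 0 (step_sound _ 36 [(rh55afc6a59410cf00.shift 3 0), rhbbc23dc90748575a] (by decide +kernel))
noncomputable def rh62e58f73b2748f35 : CRef := CRef.mk (Pat.mk 0x1c00000010000000100000003000000000 0x40000001c000000180000003f000000ff0000000c 6 8) 0 0 (step_sound _ 35 [rh575b3c4afaa651d0, (rh932754581e0f4330.shift 3 0)] (by decide +kernel))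
noncomputable def rh71a107b69e7ce33b : CRef := CRef.mk (Pat.mk 0x200000006000000020000000200000000000000000000000000000000 0x200000006000000070000000300000003000000070000000700000005 6 3) 0 0 (step_sound _ 97 [rh678b469c748f9cec, (rh7928877f9bf74a91.shift 0 2), rhc94dfb5f501cb051] (by decide +kernel))
noncomputable def rh73eef51c71b23db7 : CRef := CRef.mk (Pat.mk 0xe000000180000000e000000000000000000000000 0x40000000e0000001b0000001e000000370000001700000005 6 6) 0 0 (step_sound _ 129 [rh1b9022be4f7af407, (rhb9784ff7a7632a57.shift 0 1)] (by decide +kernel))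
noncomputable def rh32a427049fd021cb : CRef := CRef.mk (Pat.mk 0x3000000060000000200000000000000000000000000000000 0x100000003000000060000000600000006000000070000000700000001 6 3) 0 0 (step_sound _ 97 [(rh50fbb5868c909700.shift 0 3), rha52e1acf7ed5511e] (by decide +kernel))
noncomputable def rh0ee2c18560027c64 : CRef := CRef.mk (Pat.mk 0x200000002700000024000000040000000400000000 0x21000000370000003e0000001e0000001600000016 6 6) 0 0 (step_sound _ 100 [(rh5419adcd928dba20.shift 1 3), rh7f4e8040fcd9bc4a] (by decide +kernel))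
noncomputable def rh091aece1114f8783 : CRef := CRef.mk (Pat.mk 0x1000000000000000200000007000000000 0x1000000018000000ff0000007e0000000f 6 8) 0 0 (step_sound _ 35 [(rh592c7139d2c44767.shift 1 0), rha4e887c2a2a0f60b, (rhd5358021be058853.shift 2 0), (rhec46bd5500c722c9.shift 2 1)] (by decide +kernel))
noncomputable def rh64ad08057fe526f8 : CRef := CRef.mk (Pat.mk 0xe000000480000000c000000000000000000000000 0x20000000e0000007e0000000f000000060000000400000004 6 7) 0 0 (step_sound _ 132 [(rh361cc68994bd8a63.shift 2 3), rha1d1978a80892dae] (by decide +kernel))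
noncomputable def rhca0672755887fc52 : CRef := CRef.mk (Pat.mk 0x1c0000001000000018000000000000000000000000 0x40000001c00000018000000380000001f0000001c00000008 6 6) 0 0 (step_sound _ 67 [(rh1c69bb92c13f27a0.shift 2 1), (rh42548283029e2a39.shift 3 0), (rhfef176dbc6a0de61.shift 0 1)] (by decide +kernel))
noncomputable def rh1f39ad3a034a463d : CRef := CRef.mk (Pat.mk 0x1000000010000000180000000200000007000000000 0x1000000018000000180000000ef000000fe0000008f 6 9) 0 0 (step_sound _ 35 [(rh592c7139d2c44767.shift 1 0), (rh6b3ca2e78e3c8722.shift 3 0), rha4e887c2a2a0f60b, (rhec46bd5500c722c9.shift 2 1)] (by decide +kernel))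
noncomputable def rh3b0c67cfda63e7a0 : CRef := CRef.mk (Pat.mk 0x200000003800000010 0x670000007f0000001e 6 7) 0 0 (step_sound _ 34 [(rh33e738c4ed385b9f.shift 2 1), rhc93c85c35c9e08d5] (by decide +kernel))
noncomputable def rh5722efdd5c9f52cf : CRef := CRef.mk (Pat.mk 0x1c00000010000000380000000000000000 0x40000001c0000001f0000003f0000000f0000000c 6 6) 0 0 (step_sound _ 99 [rh214b7374472f3bef, (rh40241bd608e5be1a.shift 2 0), rh6daa1d4df6027665] (by decide +kernel))
noncomputable def rh2fd76ae9fce63b9f : CRef := CRef.mk (Pat.mk 0x1c00000038000000000000000000000000 0xc0000000c0000000c0000001c0000003c0000000f0000000c0000000c 6 6) 0 0 (step_sound _ 67 [(rh361e5163f4e3dde9.shift 0 1), (rh40241bd608e5be1a.shift 2 0), rh609c5f22d4c52017] (by decide +kernel))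
noncomputable def rhcdaf9b76ffd1fb8b : CRef := CRef.mk (Pat.mk 0x8000000880000000a0000000a00000000 0x170000007f000000ef0000000a0000000a00000002 6 8) 0 0 (step_sound _ 130 [(rh50fbb5868c909700.shift 2 1), rhfa64662eddc87243] (by decide +kernel))
noncomputable def rha6c1cbd189e34ce7 : CRef := CRef.mk (Pat.mk 0x60000001e000000020000000000000000 0x200000002000000060000001e0000003e0000000700000003 6 6) 0 0 (step_sound _ 33 [(rh71222050f2c63a3a.shift 1 0), rh98e50fe9ba394ce9] (by decide +kernel))
noncomputable def rhb0ff286f3462f8d6 : CRef := CRef.mk (Pat.mk 0x60000001800000003000000000000000000000000 0x4000000060000001e00000003000000070000000700000005 6 5) 0 0 (step_sound _ 129 [rh1b9022be4f7af407, (rhb2a0b9ccfb5cecd5.shift 0 3)] (by decide +kernel))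
noncomputable def rhaa26c83b691e7073 : CRef := CRef.mk (Pat.mk 0xc00000001800000000 0xe70000007e00000007 6 8) 0 0 (step_sound _ 37 [(rh3fc040e777f1679e.shift 3 1), rh5e601430b8bc2e39] (by decide +kernel))
noncomputable def rh2fe91d613ad7ba20 : CRef := CRef.mk (Pat.mk 0xc0000001800000003000000000000000000000000 0x40000000c000000180000000f0000001c0000001c00000014 6 5) 0 0 (step_sound _ 99 [(rh1c62b6193297d9e3.shift 0 3), (rh56259dd1390eee46.shift 2 0)] (by decide +kernel))
noncomputable def rh1883281cd5c3bd59 : CRef := CRef.mk (Pat.mk 0x1000000038000000080000000800000000 0xc0000000c0000000c0000001e000000380000001f0000000c00000004 6 6) 0 0 (step_sound _ 131 [(rh0ef6c71ce89c1c36.shift 2 0), (rh277b01412deaec89.shift 1 1), (rh771d065bdc85bf2d.shift 2 0), rhde807367643436d4] (by decide +kernel))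
noncomputable def rh55ce313c2e7bf3ce : CRef := CRef.mk (Pat.mk 0x10000000c000000018000000000000000000000000 0x1000000010000000d70000007e000000770000002000000020 6 8) 0 0 (step_sound _ 101 [(rh3fc040e777f1679e.shift 3 3), rhb01968ee546c41dc] (by decide +kernel))
noncomputable def rh4104711b7681f9cd : CRef := CRef.mk (Pat.mk 0x60000000000000003000000000000000000000000 0x40000000400000006000000060000000300000003000000070000000700000005 6 3) 0 0 (step_sound _ 129 [rh1b9022be4f7af407, (rh215e11e099257d75.shift 1 2), rhfafeb437ceb8396d] (by decide +kernel))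
noncomputable def rhdca17df69f68e1eb : CRef := CRef.mk (Pat.mk 0xe000000180000000a000000000000000000000000 0x20000000e0000001c0000000f0000003c0000001c00000014 6 6) 0 0 (step_sound _ 98 [(rh05cbd13c93f30ce9.shift 1 0), (rh53b3c253cb0c65f4.shift 0 3)] (by decide +kernel))
noncomputable def rh2315d2171edc4a9b : CRef := CRef.mk (Pat.mk 0x38000000080000000800000000 0x40000001c0000001e000000380000000f0000003c00000014 6 6) 0 0 (step_sound _ 131 [(rh039efe07c35de3d4.shift 1 1), (rh771d065bdc85bf2d.shift 2 0), rhf3d11b058448e968] (by decide +kernel))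
noncomputable def rh949bff1c8d7b629c : CRef := CRef.mk (Pat.mk 0x800000008000000180000001000000000 0x140000003c0000000f000000180000001800000018 6 6) 0 0 (step_sound _ 35 [rh3a61644a128cd4ab, (rh55afc6a59410cf00.shift 3 0)] (by decide +kernel))
noncomputable def rh15abd9213ba1a96a : CRef := CRef.mk (Pat.mk 0x1e00000002000000000000000000000000 0x600000006000000070000001e00000006000000070000000700000005 6 5) 0 0 (step_sound _ 161 [(rh3244c3cc8379b070.shift 0 4), rh672219f05f75effa] (by decide +kernel))
noncomputable def rh6232f28b53359c0e : CRef := CRef.mk (Pat.mk 0xe000000480000000a000000000000000000000000 0x20000000e0000007f0000000f000000010000000100000001 6 7) 0 0 (step_sound _ 132 [(rh2fe78cc5ca4405d8.shift 2 4), rhc5a0d29a3b12ff5f] (by decide +kernel))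
noncomputable def rh26b3bfc5d50c5c47 : CRef := CRef.mk (Pat.mk 0x400000004000000040000000000000002 0xa0000003e00000007000000040000000600000006 6 6) 0 0 (step_sound _ 34 [(rh79877ebd3ef475dd.shift 1 0), rh895c5375da59f765] (by decide +kernel))
noncomputable def rhc6b68637e3f35bc4 : CRef := CRef.mk (Pat.mk 0x2400000007000000000 0x36f000001fe0000039f 6 10) 0 0 (step_sound _ 35 [rh5e601430b8bc2e39, (rh775ca1963e850b80.shift 1 0), (rh7fb660bc21ce4329.shift 1 1), (rhf88acd9bc70b9c5f.shift 2 0)] (by decide +kernel))
noncomputable def rhbb8131469b969de7 : CRef := CRef.mk (Pat.mk 0x1000000010000000120000000280000000000000000 0x10000000180000001ef000000fe000001cf00000080 6 9) 0 0 (step_sound _ 68 [(rh0fbbb92589a12005.shift 4 0), (rh2d3d2386ddc6714e.shift 1 1), (rha4e887c2a2a0f60b.shift 0 1)] (by decide +kernel))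
noncomputable def rh86973a50064f5654 : CRef := CRef.mk (Pat.mk 0x18000000900000001400000000 0x8000000080000001e000000ff0000003e00000004 6 8) 0 0 (step_sound _ 69 [(rh2fe78cc5ca4405d8.shift 3 2), rhecafe19473e551aa] (by decide +kernel))
noncomputable def rhf1de380fa9ca77f6 : CRef := CRef.mk (Pat.mk 0x1200000003800000000 0x1be000000fe000001c7 6 9) 0 0 (step_sound _ 38 [rh5b2ce1e5aa4a4edd, (rhc13dbb2602bbcc3a.shift 3 0)] (by decide +kernel))
noncomputable def rhafeefa69fc938c8d : CRef := CRef.mk (Pat.mk 0xc0000001a00000002000000000000000000000000 0x40000000f0000001a00000002000000070000000700000005 6 5) 0 0 (step_sound _ 161 [rh1b9022be4f7af407, (rhb739f4f82bb681b4.shift 0 4)] (by decide +kernel))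
noncomputable def rh0888ceba2bdf021a : CRef := CRef.mk (Pat.mk 0xc000000180000000e000000000000000000000000 0x40000000f0000001c0000001e000000370000001200000002 6 6) 0 0 (step_sound _ 160 [rh33fc6225c209d855, (rhab22b5b56e7b3243.shift 0 4)] (by decide +kernel))
noncomputable def rha4f61ab8e30ad9fc : CRef := CRef.mk (Pat.mk 0xc000000180000000a0000000000000000 0x40000000f0000001b0000001f0000003300000010 6 6) 0 0 (step_sound _ 66 [(rh53b3c253cb0c65f4.shift 0 2), rhcd04678be7d3282a] (by decide +kernel))
noncomputable def rh35b79f1827291e24 : CRef := CRef.mk (Pat.mk 0x1c0000003000000014000000000000000000000000 0x80000001c0000003f000000360000000e0000000e0000000a 6 6) 0 0 (step_sound _ 130 [(rh1b9022be4f7af407.shift 1 0), (rh70eb00692e28eccb.shift 0 3)] (by decide +kernel))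
noncomputable def rh5cba131e6beefc49 : CRef := CRef.mk (Pat.mk 0x8000000180000001e000000000000000000000000 0x30000000b0000001f0000001e000000070000000400000004 6 5) 0 0 (step_sound _ 129 [(rh3244c3cc8379b070.shift 0 3), rh66401232e395d8af] (by decide +kernel))
noncomputable def rhb127286f0c8970e2 : CRef := CRef.mk (Pat.mk 0x180000001e000000000000000000000000 0x70000001f0000003e000000030000000200000002 6 6) 0 0 (step_sound _ 129 [(rh3244c3cc8379b070.shift 0 3), rh6a3a4751c0ee2923] (by decide +kernel))
noncomputable def rh2af5c644bb26964e : CRef := CRef.mk (Pat.mk 0x10000001200000003800000000 0x100000001000000010000001b0000000fe000001cf 6 9) 0 0 (step_sound _ 34 [rh21d582c147e7e118, (rh2df96f83c49a9883.shift 1 0), (rhf88acd9bc70b9c5f.shift 1 0)] (by decide +kernel))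
noncomputable def rhf5d51bf445933d88 : CRef := CRef.mk (Pat.mk 0x8000000020000001e00000000000000000000000000000000 0xe0000000e0000001e00000007000000070000000700000005 6 5) 0 0 (step_sound _ 97 [rhb488ce1dd3fb0052, (rheb0810cc63b001d8.shift 0 3)] (by decide +kernel))
noncomputable def rh5114e833dbe348d6 : CRef := CRef.mk (Pat.mk 0x18000000180000001c0000000000000000 0x180000001f0000007f0000000c0000000c 6 7) 0 0 (step_sound _ 35 [(rh71222050f2c63a3a.shift 3 0), rhff203d587041af11] (by decide +kernel))
noncomputable def rh4fe172545c5fa0d4 : CRef := CRef.mk (Pat.mk 0x380000006000000028000000000000000000000000 0x100000001000000010000000380000007e000000f8000000df0000005c00000014 6 8) 0 0 (step_sound _ 67 [(rh0fa31647f41f92ba.shift 3 2), (rh1808da1e54da954a.shift 0 1), (rh2a7fab4070057a4b.shift 1 1), (rhabfe588ce4ea32b5.shift 2 0), (rhd530000cacc6ef98.shift 2 0)] (by decide +kernel))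
noncomputable def rh3c8fcaf7bb9112e1 : CRef := CRef.mk (Pat.mk 0x400000004c00000048000000080000000800000000 0x400000006c000000780000003c0000003f00000024 6 7) 0 0 (step_sound _ 101 [(rh5419adcd928dba20.shift 2 3), rhad96a6a641ccc9a7] (by decide +kernel))
noncomputable def rh3419b0cbbcbd42d8 : CRef := CRef.mk (Pat.mk 0x1000000000000000200000007000000000 0x1000000018000000fe0000007e0000000f 6 8) 0 0 (step_sound _ 35 [(rh0cfd407e2f78a809.shift 2 0), (rh592c7139d2c44767.shift 1 0), rhb103f40a53fe1424, (rhec46bd5500c722c9.shift 2 1)] (by decide +kernel))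
noncomputable def rhc59618609f69dd24 : CRef := CRef.mk (Pat.mk 0x1000000010000000100000000000000003800000000 0x1000000018000000180000000c0000001fe000001ff 6 9) 0 0 (step_sound _ 38 [(rh175976049947b90e.shift 3 0), (rh185f35b8bd8ec37f.shift 1 0), rha95627f8f20f132a, (rhfae45c24f58ebc1e.shift 2 0)] (by decide +kernel))
noncomputable def rh10a923e42e35dcbb : CRef := CRef.mk (Pat.mk 0x4000000000000001c0000001800000008 0x200000006000000070000001f0000001f0000000c 6 5) 0 0 (step_sound _ 65 [rh2a4fa12694f96dbe, (rhb739f4f82bb681b4.shift 0 1)] (by decide +kernel))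
noncomputable def rha7635fc4e0f15e90 : CRef := CRef.mk (Pat.mk 0xc0000000c000000040000000400000000 0xc0000000c0000003e0000007f0000001a 6 7) 0 0 (step_sound _ 33 [rh3ffd3ed722b95752, (rh932754581e0f4330.shift 1 0)] (by decide +kernel))
noncomputable def rh845c0c6729105f74 : CRef := CRef.mk (Pat.mk 0x1e000000020000001800000000 0x50000000700000007000000030000001e000000060000001f00000007 6 5) 0 0 (step_sound _ 129 [(rh3244c3cc8379b070.shift 0 3), rh63ba7f6374f53ee8] (by decide +kernel))
noncomputable def rh22e83a606cc73499 : CRef := CRef.mk (Pat.mk 0xc00000018000000980000001c00000000 0xf0000001f000000df0000007e000000e3 6 8) 0 0 (step_sound _ 128 [rh1e2336b9674b311e, (rhab22b5b56e7b3243.shift 0 3)] (by decide +kernel))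
noncomputable def rhf90303884718dcf4 : CRef := CRef.mk (Pat.mk 0x1800000018000000180000000c 0x70000001f0000001c0000003c0000000f 6 6) 0 0 (step_sound _ 98 [(rh50fbb5868c909700.shift 2 0), rhd3eeea79491f9d32] (by decide +kernel))
noncomputable def rhd7e7fe228b52d534 : CRef := CRef.mk (Pat.mk 0x80000001a0000001a0000000800000000 0x40000000f0000001f0000001a0000000f00000003 6 5) 0 0 (step_sound _ 130 [(rh50fbb5868c909700.shift 2 1), rhb0a0e93e4c3d58cf] (by decide +kernel))
noncomputable def rh2765698ccb12cf89 : CRef := CRef.mk (Pat.mk 0x80000001a0000001e0000000000000000 0x2000000070000000f0000001e0000001e0000000700000002 6 5) 0 0 (step_sound _ 33 [rhcbdda36469f57799, (rheb0810cc63b001d8.shift 0 1)] (by decide +kernel))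
noncomputable def rh50d3a06127f09e17 : CRef := CRef.mk (Pat.mk 0x180000001e000000000000000000000000 0x200000006000000070000001f0000001e000000070000000200000002 6 5) 0 0 (step_sound _ 65 [rh37d523ab9929ee04, (rheb0810cc63b001d8.shift 0 2)] (by decide +kernel))
noncomputable def rh1b1ae1dda7f16412 : CRef := CRef.mk (Pat.mk 0x80000001a0000000a00000002000000000000000000000000 0x400000004000000040000000f0000001e0000000a0000000a000000070000000700000005 6 5) 0 0 (step_sound _ 194 [(rh16f5f09f92ca9248.shift 0 3), rh984bfc6de6c2c524, (rhf9a6286f1d5377a2.shift 2 3)] (by decide +kernel))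
noncomputable def rh738e3fe03271251d : CRef := CRef.mk (Pat.mk 0x1a0000001a000000100000000000000000 0x4000000040000000e0000000f0000001e0000001b000000130000000100000001 6 5) 0 0 (step_sound _ 163 [(rh2145e1d24b96a57e.shift 3 2), rh6766255ae5eb98d7] (by decide +kernel))
noncomputable def rh8fc6c5ed4fd8589b : CRef := CRef.mk (Pat.mk 0x20000000a0000001a00000010 0x5000000070000001f0000000e0000000e0000001a0000001a 6 5) 0 0 (step_sound _ 130 [rh3d51e934f233df12, (rh87d5e4118780fa3b.shift 1 0), (rhab58eae299ce7b7b.shift 2 0), (rhe2538aec7e987144.shift 1 0)] (by decide +kernel))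
noncomputable def rh503107f16fed0d82 : CRef := CRef.mk (Pat.mk 0x1c0000003000000030000000200000000000000000 0x40000001c000000380000003e0000007f0000000c00000008 6 7) 0 0 (step_sound _ 99 [rheb7ae1e770074a03, (rhf56e6bc5d2f7fe77.shift 1 2)] (by decide +kernel))
noncomputable def rhaa8d572a18950b81 : CRef := CRef.mk (Pat.mk 0xc000000180000001800000010 0x400000004000000060000000f0000001a0000001f0000003a 6 6) 0 0 (step_sound _ 130 [(rh7b1f1fb55310c477.shift 2 0), rh8773c9813d8b5e01] (by decide +kernel))
noncomputable def rh0fc88d3a5af1f858 : CRef := CRef.mk (Pat.mk 0xc000000180000001800000010 0x400000004000000060000000f0000001f0000001f00000033 6 6) 0 0 (step_sound _ 97 [rh02402bbbc38aeea8, (rhb739f4f82bb681b4.shift 0 2)] (by decide +kernel))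
noncomputable def rh1c1a467ec68f273e : CRef := CRef.mk (Pat.mk 0x1a0000000600000002 0x50000000700000007000000030000001e0000000600000006 6 5) 0 0 (step_sound _ 97 [rh5a1cd893d8c4f41a, rh5e05da03898e7023, rhfb9fb48a5e63ed80] (by decide +kernel))
noncomputable def rhe1307ec8ddc8df69 : CRef := CRef.mk (Pat.mk 0x8000000020000000600000002000000000000000000000000 0x1000000070000001f000000060000000600000002000000070000000700000005 6 5) 0 0 (step_sound _ 194 [(rh3bde0bd801823f5c.shift 0 3), (rh5fcbac5b57173fc5.shift 1 2), (rh93edfa1f77289b62.shift 1 3), rhc94dfb5f501cb051] (by decide +kernel))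
noncomputable def rh5f8b1a87c3b41acf : CRef := CRef.mk (Pat.mk 0x18000000880000000a0000000a 0xe70000007f000000ef0000000a0000000a 6 8) 0 0 (step_sound _ 98 [(rh50fbb5868c909700.shift 2 0), rh5ce9f17e85b2287e] (by decide +kernel))
noncomputable def rh6d3031741a8d04dd : CRef := CRef.mk (Pat.mk 0x80000001a0000001e00000000000000000000000000000000 0x80000001e0000001e0000000f0000000f0000000f00000001 6 5) 0 0 (step_sound _ 97 [(rheb0810cc63b001d8.shift 0 3), rhf276fd0a929d4e0b] (by decide +kernel))
noncomputable def rhb19ccb442d14d0c9 : CRef := CRef.mk (Pat.mk 0x180000001e000000000000000000000000 0xa0000000f0000001f0000001e0000000c0000000400000004 6 5) 0 0 (step_sound _ 129 [rh21b1e16abc3ac978, (rh3244c3cc8379b070.shift 0 3)] (by decide +kernel))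
noncomputable def rh11124b2a62b1992e : CRef := CRef.mk (Pat.mk 0x180000001e000000020000000000000000 0xf0000000f0000001b0000001e0000000e0000000400000004 6 5) 0 0 (step_sound _ 129 [(rh3244c3cc8379b070.shift 0 3), rhfff1a45c82c3d560] (by decide +kernel))
noncomputable def rhde1bb52c0ac1ef55 : CRef := CRef.mk (Pat.mk 0x8000000180000001c0000000800000000 0x60000000f0000001c0000001c0000000f00000006 6 5) 0 0 (step_sound _ 34 [rh5e6fe1ff40cfa896, (rh932754581e0f4330.shift 2 0)] (by decide +kernel))
noncomputable def rhf8b0a6d3d6f2a5da : CRef := CRef.mk (Pat.mk 0x1a0000001e00000000000000000000000000000000 0x50000000f0000001e0000001e00000003000000070000000700000005 6 5) 0 0 (step_sound _ 97 [rh1a3c27c1bedf6727, (rheb0810cc63b001d8.shift 0 3)] (by decide +kernel))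
noncomputable def rh8bac992cef1b6431 : CRef := CRef.mk (Pat.mk 0x1e0000000a00000008 0x50000000700000007000000070000001e0000000e0000000c 6 5) 0 0 (step_sound _ 97 [rh13185e48ed11d144, (rh3244c3cc8379b070.shift 0 2)] (by decide +kernel))
noncomputable def rh83a2bd6b66d441f5 : CRef := CRef.mk (Pat.mk 0x1e0000001a00000000000000000000000000000000 0x70000001e0000001e00000003000000030000000300000001 6 5) 0 0 (step_sound _ 193 [(rh3244c3cc8379b070.shift 0 5), rh361697386ff004a3] (by decide +kernel))
noncomputable def rhf0d37749c8e6301b : CRef := CRef.mk (Pat.mk 0x200000002000000020000000800000018 0x500000007000000070000000200000002000000060000000f0000007c 6 7) 0 0 (step_sound _ 34 [(rh1148744b53f3df58.shift 0 1), rh3c3e23a02e82b2ed] (by decide +kernel))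
noncomputable def rhd70e5c10e03d8804 : CRef := CRef.mk (Pat.mk 0x180000001a000000080000000000000000 0x180000001f0000003f0000003000000030 6 6) 0 0 (step_sound _ 98 [(rh53b3c253cb0c65f4.shift 0 3), rhd3114851a34382be] (by decide +kernel))
noncomputable def rh2d51a1641b81b364 : CRef := CRef.mk (Pat.mk 0x1a0000001a000000080000000000000000 0x1b0000001e0000003f0000003000000030 6 6) 0 0 (step_sound _ 98 [(rh3244c3cc8379b070.shift 0 3), rhd3114851a34382be] (by decide +kernel))
noncomputable def rh2e095ce826f2f201 : CRef := CRef.mk (Pat.mk 0x1a0000001a000000080000000000000000 0x4000000070000001f0000001a0000000f0000000700000004 6 5) 0 0 (step_sound _ 130 [(rhb739f4f82bb681b4.shift 0 3), rhbc4537562ad6dbf9] (by decide +kernel))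
noncomputable def rh98527158ca985da1 : CRef := CRef.mk (Pat.mk 0x1a0000001a0000000a0000000000000000 0x3000000030000001e0000001e0000003e0000003400000010 6 6) 0 0 (step_sound _ 161 [(rh5e05da03898e7023.shift 0 2), (rhd6645cafb7fd723e.shift 1 0)] (by decide +kernel))
noncomputable def rhff7b6894da85a153 : CRef := CRef.mk (Pat.mk 0x20000001a0000000a00000000 0x50000000700000007000000020000001a0000000f00000004 6 5) 0 0 (step_sound _ 34 [rh14e0829dc73b6804, (rh53b3c253cb0c65f4.shift 0 1)] (by decide +kernel))
noncomputable def rhaa9e54c62ea29f9b : CRef := CRef.mk (Pat.mk 0x1a0000001a000000080000000000000000 0x4000000070000001e0000001b0000000f0000000700000004 6 5) 0 0 (step_sound _ 130 [rhbc4537562ad6dbf9, (rheb0810cc63b001d8.shift 0 3)] (by decide +kernel))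
noncomputable def rh4a8af136e29db3ef : CRef := CRef.mk (Pat.mk 0x1c00000018000000180000001c00000000 0x1f0000001f0000001b0000001f00000003 6 5) 0 0 (step_sound _ 129 [rh962af61af614cf13, (rhb739f4f82bb681b4.shift 0 3)] (by decide +kernel))
noncomputable def rh1c768084d36d14f5 : CRef := CRef.mk (Pat.mk 0x400000004000000040000000020000000e00000000 0x400000006000000060000000330000003e00000027 6 7) 0 0 (step_sound _ 36 [(rh3244c3cc8379b070.shift 0 1), rhfae45c24f58ebc1e] (by decide +kernel))
noncomputable def rh6ee9f03ce922b713 : CRef := CRef.mk (Pat.mk 0x40000004400000044000000000000000e00000000 0x40000004600000066000000330000003e00000072 6 7) 0 0 (step_sound _ 65 [(rha47ad4ccca5a74e7.shift 1 0), rhf516d1cec07c11dd] (by decide +kernel))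
noncomputable def rhb8faeac02cdbfbfd : CRef := CRef.mk (Pat.mk 0x8000000080000000000000001e00000000 0x80000000c0000000670000007e000000e0 6 8) 0 0 (step_sound _ 65 [(rh3244c3cc8379b070.shift 0 1), (rh67a05475ed343c81.shift 1 0)] (by decide +kernel))
noncomputable def rhb987434dca143016 : CRef := CRef.mk (Pat.mk 0x400000004400000044000000000000000e00000000 0x400000006400000066000000330000003e00000077 6 7) 0 0 (step_sound _ 36 [(rh175976049947b90e.shift 1 0), rheb505ef94539da28, rhfae45c24f58ebc1e] (by decide +kernel))
noncomputable def rhb22e2c3448997dee : CRef := CRef.mk (Pat.mk 0x20000001e00000002000000000000000000000000 0x4000000060000001e0000003e0000000f0000000700000001 6 6) 0 0 (step_sound _ 100 [rhad6f722233554f74, (rhe25b0a99195a5d59.shift 1 3)] (by decide +kernel))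
noncomputable def rh90212085f107c52e : CRef := CRef.mk (Pat.mk 0x8000000180000000a0000001e00000000 0x40000000f0000001f0000000e0000003e00000003 6 6) 0 0 (step_sound _ 37 [(rh3f8766e6ecb455ce.shift 1 1), rh6b1bc05f1d977f0b] (by decide +kernel))
noncomputable def rhe64d538cec4448c4 : CRef := CRef.mk (Pat.mk 0x700000006000000040000000000000000 0x10000000700000006000000070000003e0000000e 6 6) 0 0 (step_sound _ 34 [rh720319bc9a74472b, (rh7b1f1fb55310c477.shift 1 0)] (by decide +kernel))
noncomputable def rh42ecf3b8a2b81674 : CRef := CRef.mk (Pat.mk 0x3000000200000000080000001800000000 0x1ff000001fe0000038f000000080000001800000010 6 10) 0 0 (step_sound _ 131 [(rh1e49d4c5bead25a2.shift 1 3), (rh5b2b4614291f6eec.shift 1 1), (rh70b5a108a02c807f.shift 0 3), (rh85e0f5cc78e9cbe0.shift 3 0)] (by decide +kernel))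
noncomputable def rh77798d3a3e051f5d : CRef := CRef.mk (Pat.mk 0x3000000200000000080000000800000000 0x4000001ff000001fe0000038f0000000c0000000c00000004 6 10) 0 0 (step_sound _ 131 [(rh1e49d4c5bead25a2.shift 1 3), (rh22f9092da71f0b6b.shift 2 0), (rh6a7176c231ab0ddc.shift 2 0), (rh6eee485fb591ff64.shift 0 1), (rh70b5a108a02c807f.shift 0 3), (rh8275f95ea029efa2.shift 0 1)] (by decide +kernel))
noncomputable def rh97c26d1b01927b42 : CRef := CRef.mk (Pat.mk 0x80000001a00000038000000080000000000000000 0x80000001b0000003f0000007c0000007400000020 6 7) 0 0 (step_sound _ 68 [rh3bdb7b67178fae2d, (rh7b1f1fb55310c477.shift 3 1)] (by decide +kernel))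
end Crest.Agent.S0047.Helper85.Cert
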