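import Crest.Agent.Lib.S0047.Helper85CertPL5F0
import Crest.Agent.Lib.S0047.Helper85CertPL5F1
import Crest.Agent.Lib.S0047.Helper85CertPL5F2
import Crest.Agent.Lib.S0047.Helper85CertPL5F3
import Crest.Agent.Lib.S0047.Helper85CertPL5F4
import Crest.Agent.Lib.S0047.Helper85CertPL5F5
import Crest.Agent.Lib.S0047.Helper85CertPL5F6
import Crest.Agent.Lib.S0047.Helper85CertPL5F7
import Crest.Agent.Lib.S0047.Helper85CertPL5F8
import Crest.Agent.Lib.S0047.Helper85CertPL5F9
import Crest.Agent.Lib.S0047.Helper85CertPL5F10
import Crest.Agent.Lib.S0047.Helper85CertPL5F11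
import Crest.Agent.Lib.S0047.Helper85CertPL5F12
set_option autoImplicit false
set_option linter.all false
set_option Elab.async false
namespace Crest.Agent.S0047.Helper85.Cert
open Crest.Agent.S0047.Helper85

noncomputable def rhe9a5346e8dd1e69f : CRef := CRef.mk (Pat.mk 0x1000000038000000200000002000000000 0x18000000180000001e0000007c0000002f0000007c00000008 6 7) 0 0 (step_sound _ 66 [(rh5f592a90586627e7.shift 2 0), (rh73f5f7cdf41b5bc9.shift 1 1), (rhc277914c2ed71bf6.shift 1 2), rhe01c65f8563dc012] (by decide +kernel))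
noncomputable def rhe8aaa8b400ab2fb5 : CRef := CRef.mk (Pat.mk 0x200000007000000040 0x3b7000001fe0000007e 6 10) 0 0 (step_sound _ 3 [(rh3cc5c7fb74c49f61.shift 1 0), rh4d4c77594d83f4b7, (rhe325f2417d8c01f2.shift 3 0)] (by decide +kernel))
noncomputable def rhe313b57165422369 : CRef := CRef.mk (Pat.mk 0x1800000008000000080000000c 0x70000007f0000003f0000000c0000000c 6 7) 0 0 (step_sound _ 98 [(rh50fbb5868c909700.shift 2 0), rhcca71ed482fd4d65] (by decide +kernel))
noncomputable def rhf68616d13481a009 : CRef := CRef.mk (Pat.mk 0x80000000e000000180000001000000000 0x14000000340000003f0000003e0000001f0000003200000020 6 6) 0 0 (step_sound _ 100 [(rh3cc3e986d9471888.shift 0 1), rh61f9d70a168e40fe, (rh8ebf9530de0f8ca7.shift 0 2)] (by decide +kernel))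
noncomputable def rh8dd8478f41507cb4 : CRef := CRef.mk (Pat.mk 0x80000001e0000000000000000 0x3000000030000003f0000001e0000000700000004 6 6) 0 0 (step_sound _ 33 [(rheb0810cc63b001d8.shift 0 1), rheef2b3d6c3713016] (by decide +kernel))
noncomputable def rhbe5d9d97f84e0940 : CRef := CRef.mk (Pat.mk 0x80000001e00000018000000000000000000000000 0x80000003e0000001f000000070000000600000006 6 6) 0 0 (step_sound _ 97 [rh649b17d361927b87, (rheb0810cc63b001d8.shift 0 3)] (by decide +kernel))
noncomputable def rhdcfc6c7d96612a51 : CRef := CRef.mk (Pat.mk 0x800000008000000180000000c 0x140000001c0000001c0000000c0000000c0000001c000000180000000f 6 5) 0 0 (step_sound _ 1 [(rh1ffd91322bb18093.shift 2 0), rh53b3c253cb0c65f4] (by decide +kernel))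
noncomputable def rhe1e1c9696a069f44 : CRef := CRef.mk (Pat.mk 0x100000001c00000030000000200000000000000000 0xfe0000007c0000003f0000006e0000000c00000004 6 8) 0 0 (step_sound _ 98 [(rh995dc3b188104229.shift 1 3), (rhc467c90a4dc68874.shift 0 2), (rhefe0a598df5bf420.shift 1 0)] (by decide +kernel))
noncomputable def rh0b055f7e92de0c3a : CRef := CRef.mk (Pat.mk 0x80000001e00000018 0x38000000380000003f0000001e00000018 6 6) 0 0 (step_sound _ 68 [(rh33e738c4ed385b9f.shift 1 1), rh7e1f8a70e5b4af52] (by decide +kernel))
noncomputable def rhdf88520561cf0839 : CRef := CRef.mk (Pat.mk 0x80000001e000000180000000000000000 0xf0000003e0000001b0000000f0000000e 6 6) 0 0 (step_sound _ 129 [(rh3244c3cc8379b070.shift 0 3), rh4083aefcedd355d9] (by decide +kernel))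
noncomputable def rh65e38daf893b8035 : CRef := CRef.mk (Pat.mk 0x2000000030000000e00000000 0x6000000060000001e0000000f0000000f0000000b 6 5) 0 0 (step_sound _ 129 [rh0247462e5ca63cb5, rh03dfdf12d5937476] (by decide +kernel))
noncomputable def rh60df3aa63ffcb532 : CRef := CRef.mk (Pat.mk 0x100000003800000020 0x1f000000fe0000003e 6 8) 0 0 (step_sound _ 38 [(rh48546bfd3f98c2d7.shift 2 0), rh8aa80d8d90d3223c, (rhb36f6120eccc373f.shift 2 0), (rhe3060b190bc0bc78.shift 2 1)] (by decide +kernel))
noncomputable def rhfbae6d3f764903d9 : CRef := CRef.mk (Pat.mk 0x380000001000000010 0x2000000020000000770000003e0000001700000010 6 7) 0 0 (step_sound _ 101 [(rhb12ffaec36122c99.shift 0 1), (rhbfb5770941270498.shift 4 0)] (by decide +kernel))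
noncomputable def rh2bcd01745e1bd7fe : CRef := CRef.mk (Pat.mk 0xc0000000c000000080000000000000000 0x80000000c0000000c0000003c0000000f0000000e 6 6) 0 0 (step_sound _ 35 [(rh7b1f1fb55310c477.shift 2 0), rhb1111a1bcb4ac16d] (by decide +kernel))
noncomputable def rh916e6753ed7fc760 : CRef := CRef.mk (Pat.mk 0x1000000070000000200000000000000000 0x17000000fe000000fe0000000c00000008 6 8) 0 0 (step_sound _ 99 [(rh8aa80d8d90d3223c.shift 0 2), (rha03f6e28ea70fc7d.shift 2 2), (rhba96842ad3e22ecf.shift 2 0)] (by decide +kernel))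
noncomputable def rhccf3382bd4256123 : CRef := CRef.mk (Pat.mk 0x10000000700000002000000020 0x40000000dc0000007f000000fe00000020 6 8) 0 0 (step_sound _ 67 [(rh1e66368eb2587cec.shift 2 0), (rh5ada0a7e0c8eff0d.shift 0 1), (rha03f6e28ea70fc7d.shift 2 1)] (by decide +kernel))
noncomputable def rhba838f5e12b9f036 : CRef := CRef.mk (Pat.mk 0x3000000020000000200000000000000000000000000000000 0x40000000600000007000000070000000600000006000000070000000700000005 6 3) 0 0 (step_sound _ 97 [rhc05d451ce3dd5e48, (rhced6d86d2069808b.shift 1 2), (rhd22616887d452319.shift 0 2)] (by decide +kernel))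
noncomputable def rh5d830538d2594290 : CRef := CRef.mk (Pat.mk 0x200000002000000020000000000000000 0x500000007000000070000000600000006000000070000000700000001 6 3) 0 0 (step_sound _ 161 [(rh1741680720c097b4.shift 0 2), (rh5abfc4c9d959be03.shift 0 1), rhceaabac02e703afb] (by decide +kernel))
noncomputable def rhf748f01c7a8ecd84 : CRef := CRef.mk (Pat.mk 0x1c0000001000000000 0x200000002000000030000003e0000003700000004 6 6) 0 0 (step_sound _ 65 [rh9977a3a78b1c0a5f, (rhe25b0a99195a5d59.shift 1 1)] (by decide +kernel))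
noncomputable def rh7f24d2e8f434b11e : CRef := CRef.mk (Pat.mk 0x3800000020000000200000003000000000 0x80000000c000000f8000001fe000000ff0000003e0000000e 6 9) 0 0 (step_sound _ 99 [(rh492208f1043c36f8.shift 2 3), (rh4d696e76627a03ba.shift 1 2), rh607519a0b9ade97d, (rh64e5b42bf7acf154.shift 2 0), (rh8a9b13f0cd282068.shift 1 0)] (by decide +kernel))
noncomputable def rha0e3f96e77f8cdb6 : CRef := CRef.mk (Pat.mk 0x380000002000000000 0x400000004000000070000007e0000003f00000008 6 7) 0 0 (step_sound _ 66 [(rh0de499e0455c9c14.shift 0 1), (rh9977a3a78b1c0a5f.shift 1 0), (rhd1d05263fabc0227.shift 0 1)] (by decide +kernel))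
noncomputable def rh7a9c493c93bef0c0 : CRef := CRef.mk (Pat.mk 0xc00000038000000080000000000000000 0x10000000100000007c0000003e0000007f0000002600000006 6 7) 0 0 (step_sound _ 98 [(rh52b4b7b516a7d39e.shift 1 1), (rh8cd7ffe18900bf90.shift 1 0), (rh9e97bba44c1b13e4.shift 0 2), (rha941385f4fce5d16.shift 1 0)] (by decide +kernel))
noncomputable def rhe34c9152f85a46d6 : CRef := CRef.mk (Pat.mk 0xc0000001800000008 0x10000000370000007f0000001e00000008 6 7) 0 0 (step_sound _ 65 [rh96cf7519699172f4, (rhb739f4f82bb681b4.shift 0 1)] (by decide +kernel))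
noncomputable def rh0c0e76c65d56b128 : CRef := CRef.mk (Pat.mk 0x70000000c0000000400000000 0x2000000060000000e0000001c0000000f0000000e0000000c00000004 6 5) 0 0 (step_sound _ 131 [(rh45382e873e6de244.shift 1 1), (rhc0e343a050da71e6.shift 0 1), rhe3bc8ed3804367dd] (by decide +kernel))
noncomputable def rhc5268d11b03851a4 : CRef := CRef.mk (Pat.mk 0x180000007000000000 0x1c0000007f000000e7 6 8) 0 0 (step_sound _ 35 [(rh3244c3cc8379b070.shift 2 1), rh5b460b71d8952ca9] (by decide +kernel))
noncomputable def rh40d54a57cdcd8fde : CRef := CRef.mk (Pat.mk 0x10000000e00000008 0x730000007e000000ec 6 8) 0 0 (step_sound _ 36 [(rh3f8766e6ecb455ce.shift 0 1), (rhb4ac883459ef2222.shift 1 0)] (by decide +kernel))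
noncomputable def rh6206ba156ec41d05 : CRef := CRef.mk (Pat.mk 0x20000000e000000100000000000000000 0x10000000360000003f000000380000000800000008 6 6) 0 0 (step_sound _ 100 [rh870a866e348bf852, (rhe25b0a99195a5d59.shift 1 2)] (by decide +kernel))
noncomputable def rhd27ae42c368a3181 : CRef := CRef.mk (Pat.mk 0x800000028000000380000000000000000 0x2000000020000000680000003e0000003e0000007700000004 6 7) 0 0 (step_sound _ 66 [(rh185f35b8bd8ec37f.shift 0 1), (rhae036cc4ef671676.shift 1 0), (rhdd82aadf23142bcb.shift 1 1)] (by decide +kernel))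
noncomputable def rhbc2be1894fd8140b : CRef := CRef.mk (Pat.mk 0x100000001000000030000000200000002000000000 0x50000000d80000007c000001ef0000007c00000008 6 9) 0 0 (step_sound _ 99 [(rh328e394105afadd4.shift 2 0), rh596def3aae05c2e3, (rh8ee80cc30e93a344.shift 2 2), (rhb63f23ca8ee319cb.shift 2 0)] (by decide +kernel))
noncomputable def rh137b1ffac9cea56b : CRef := CRef.mk (Pat.mk 0x200000002000000060000000c00000000 0x3000000030000003e0000003f00000003 6 6) 0 0 (step_sound _ 36 [rhe4d4365ee4fe9d01, (rhf48373e13d2bc128.shift 1 1)] (by decide +kernel))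
noncomputable def rhea3dd3f16be204e9 : CRef := CRef.mk (Pat.mk 0x200000006000000020000000200000000 0x40000000600000006000000060000000600000006000000060000000300000001 6 3) 0 0 (step_sound _ 32 [(rh1265a58133d311aa.shift 1 1), rh932754581e0f4330] (by decide +kernel))
noncomputable def rhedd5b6a80560899b : CRef := CRef.mk (Pat.mk 0xc000000180000000800000000 0x1c0000003c0000000f000000780000001800000010 6 7) 0 0 (step_sound _ 69 [rh5493ec200a1c795d, (rhf48373e13d2bc128.shift 2 2)] (by decide +kernel))
noncomputable def rh81d511d9edeeb57a : CRef := CRef.mk (Pat.mk 0x4000000060000002c0000000400000000 0xa0000000f0000003e0000006c0000007c00000018 6 7) 0 0 (step_sound _ 131 [(rh2f68792b6b779e96.shift 2 1), rh67504244231c5625] (by decide +kernel))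
noncomputable def rhd15c4c1e7836621d : CRef := CRef.mk (Pat.mk 0xc0000001800000008 0x4000000140000003f0000003f0000001800000008 6 6) 0 0 (step_sound _ 65 [rhb1114ff230eb01ae, (rhb739f4f82bb681b4.shift 0 1)] (by decide +kernel))
noncomputable def rh607b03317b81ae8f : CRef := CRef.mk (Pat.mk 0x60000001c0000000400000000 0x400000004000000070000001f0000003f00000008 6 6) 0 0 (step_sound _ 65 [(rh3244c3cc8379b070.shift 0 2), rhe54b34086112e199] (by decide +kernel))
noncomputable def rh6d8ab078a5891f1c : CRef := CRef.mk (Pat.mk 0xc0000003800000008000000000000000000000000 0x800000018000000180000007c0000003e0000001f000000180000001800000010 6 7) 0 0 (step_sound _ 195 [(rh0e11d512bf77af46.shift 0 3), (rhd4b4beefcd67f51e.shift 3 2), (rhe95d1698e6af9655.shift 2 0)] (by decide +kernel))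
noncomputable def rh58f22bd2e0fec363 : CRef := CRef.mk (Pat.mk 0x20000000200000002000000000000000000000000 0x10000000300000007000000060000000600000007000000070000000700000005 6 3) 0 0 (step_sound _ 64 [rh0e6924d680f6455d, rhb4cf3585329d41ef, (rhe5fee142b10295f1.shift 0 2), (rhf702e0fea5f10cea.shift 0 1)] (by decide +kernel))
noncomputable def rhfe7f9c5053549bdc : CRef := CRef.mk (Pat.mk 0x2000000020000000e0000000200000000 0x5000000070000003e0000003e0000000200000002 6 6) 0 0 (step_sound _ 130 [(rh2f68792b6b779e96.shift 1 1), rha0d1be62cc6edd87] (by decide +kernel))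
noncomputable def rha94a2d0eb98e7cd7 : CRef := CRef.mk (Pat.mk 0x4000000040000001c0000000800000000 0x180000007c0000000e0000001c0000000f00000006 6 7) 0 0 (step_sound _ 34 [(rhad5d9cfcdbfbd598.shift 1 0), rhf5094ad2a427d4d3] (by decide +kernel))
noncomputable def rh347ba57bbef2b645 : CRef := CRef.mk (Pat.mk 0x2000000120000000e0000000000000000 0x80000000b0000001e0000003f0000003000000010 6 6) 0 0 (step_sound _ 99 [(rh53b3c253cb0c65f4.shift 0 2), rh7aec231efb846772] (by decide +kernel))
noncomputable def rh2e0bbdf954dd6902 : CRef := CRef.mk (Pat.mk 0x2000000120000000e0000000000000000 0x80000000b0000003e0000003e0000003000000010 6 6) 0 0 (step_sound _ 68 [(rh33e738c4ed385b9f.shift 1 2), rhf213f0b95cfab292] (by decide +kernel))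
noncomputable def rh231b7a982d94f95a : CRef := CRef.mk (Pat.mk 0x4000000040000001c0000000000000000 0x80000000c0000003f0000001f0000003300000012 6 6) 0 0 (step_sound _ 65 [rh2fa8a6cd8a03c75c, rhae036cc4ef671676] (by decide +kernel))
noncomputable def rhf3e2403dd629b811 : CRef := CRef.mk (Pat.mk 0x80000003800000010 0xec0000007e00000037 6 8) 0 0 (step_sound _ 38 [(rh3244c3cc8379b070.shift 2 1), rhac9d071515877bcf] (by decide +kernel))
noncomputable def rh961318ea13ca3d27 : CRef := CRef.mk (Pat.mk 0x80000003800000010 0x1f8000000fe000000f7 6 9) 0 0 (step_sound _ 34 [(rh89541de5a22835bc.shift 1 0), rh9e97bba44c1b13e4, (rha03f6e28ea70fc7d.shift 1 0), (rhf5fa5e48e0784de2.shift 2 0)] (by decide +kernel))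
noncomputable def rh4e632c6e12b496a9 : CRef := CRef.mk (Pat.mk 0x18000000080000000800000008 0xe4000000ff0000003f0000000800000008 6 8) 0 0 (step_sound _ 98 [(rh1ca66957bfc03aef.shift 0 2), (rh50fbb5868c909700.shift 2 0)] (by decide +kernel))
noncomputable def rh485402a8f7f45389 : CRef := CRef.mk (Pat.mk 0x1000000038000000000000000000000000 0x800000008000001df000000ff0000000f0000000400000004 6 9) 0 0 (step_sound _ 66 [(rh73f5f7cdf41b5bc9.shift 1 1), rhc15b3ab058dfda2a, (rhe325f2417d8c01f2.shift 2 2), (rhe9a32cb39b958db8.shift 0 2)] (by decide +kernel))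
noncomputable def rhb130d6efc60af042 : CRef := CRef.mk (Pat.mk 0x2000000060000001c000000000000000000000000 0x80000002f0000007e0000001f000000f80000001000000010 6 8) 0 0 (step_sound _ 68 [rh794a694b2d7b44c3, (rhc21a95c499b3efdb.shift 1 2), (rhfed6fe0843ab3443.shift 0 2)] (by decide +kernel))
noncomputable def rhec1dc87bd3399c22 : CRef := CRef.mk (Pat.mk 0xc0000000c0000000800000008 0x800000018000000180000001f0000003c0000001800000008 6 6) 0 0 (step_sound _ 132 [(rh526eaade1918ed86.shift 0 1), (rhbaefcd01e0a8bca3.shift 3 0)] (by decide +kernel))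
noncomputable def rh67ac962fbb7b0944 : CRef := CRef.mk (Pat.mk 0x200000007000000000 0x3bf000001fe0000001e 6 10) 0 0 (step_sound _ 35 [(rh75380d6b53574693.shift 2 0), (rh775ca1963e850b80.shift 1 0), (rhbc6c1ead0c708fe0.shift 0 1)] (by decide +kernel))
noncomputable def rh7aa65331d581a723 : CRef := CRef.mk (Pat.mk 0x20000000e000000000000000400000004 0x80000000b0000001f000000380000001c00000014 6 6) 0 0 (step_sound _ 100 [(rh3244c3cc8379b070.shift 0 3), rh93dd30d492f679c2] (by decide +kernel))
noncomputable def rha91342a0c433cc0e : CRef := CRef.mk (Pat.mk 0x20000000e000000000000000400000004 0x80000007e0000003f000000380000001c00000014 6 7) 0 0 (step_sound _ 100 [rh6887ef21f67dd26a, (rh790acd67f4fffd04.shift 1 3), rh93dd30d492f679c2] (by decide +kernel))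
noncomputable def rh1f8fbfe0d6dc8c9f : CRef := CRef.mk (Pat.mk 0x1000000070000000000000002000000020 0xfe0000007e000000c70000006000000020 6 8) 0 0 (step_sound _ 130 [(rh075211c3608a5a57.shift 1 3), (rh0f1d155f640d12eb.shift 2 0), rh44f31b8d74d9bd47] (by decide +kernel))
noncomputable def rhc99ea8e77ef24cf2 : CRef := CRef.mk (Pat.mk 0x1e00000008 0x1c3000000fe000000fc 6 9) 0 0 (step_sound _ 65 [(rh3244c3cc8379b070.shift 0 1), (rhe2d828d623e1bb11.shift 1 0)] (by decide +kernel))
noncomputable def rhee52be9f89f16e6e : CRef := CRef.mk (Pat.mk 0x1e00000008 0x730000007e000000ec 6 8) 0 0 (step_sound _ 65 [(rh3244c3cc8379b070.shift 0 1), (rhb4ac883459ef2222.shift 1 0)] (by decide +kernel))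
noncomputable def rhfa2c2dabe6624ce9 : CRef := CRef.mk (Pat.mk 0x1e00000010 0xe7000000ff00000018 6 8) 0 0 (step_sound _ 65 [(rh3244c3cc8379b070.shift 0 1), rh7ec66969bb1960a9] (by decide +kernel))
noncomputable def rh45342aa9fb1b5621 : CRef := CRef.mk (Pat.mk 0x180000001800000000 0x40000000400000006000000fe000000ff0000000f 6 8) 0 0 (step_sound _ 37 [rh0d22eea66c99620f, (rh79b3c29022acbdf3.shift 2 1), (rhbaf603c89264bd61.shift 1 0)] (by decide +kernel))
noncomputable def rh696d1deec12e3cf4 : CRef := CRef.mk (Pat.mk 0x1800000018000000080000001800000000 0x78000000ff000000ef0000007800000020 6 8) 0 0 (step_sound _ 98 [(rh21588ce4b762d348.shift 1 0), (rh6aa0422a96f72886.shift 0 2), (rhf9d36e158778ce35.shift 1 3)] (by decide +kernel))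
noncomputable def rhfd6313ea64610afd : CRef := CRef.mk (Pat.mk 0xc00000018000000100000001000000000 0x3000000030000000370000003f00000018000000f00000003c00000028 6 8) 0 0 (step_sound _ 132 [(rh1adc8391535f5fb2.shift 3 0), (rh3ca4c10fdf355329.shift 2 0), (rh8d9dab7ce6a2cc35.shift 0 1)] (by decide +kernel))
noncomputable def rhd348c377c41f799a : CRef := CRef.mk (Pat.mk 0x200000016000000040000000400000000 0x80000000c0000000f0000003e0000000c0000000c00000008 6 6) 0 0 (step_sound _ 99 [(rh3244c3cc8379b070.shift 0 3), (rh569f6852f7bb76d3.shift 1 0)] (by decide +kernel))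
noncomputable def rhed7d64f62fc15503 : CRef := CRef.mk (Pat.mk 0x200000016000000040000000400000000 0xc0000000c0000000c0000003e000000360000003c0000000f0000000a 6 6) 0 0 (step_sound _ 130 [(rh1adc8391535f5fb2.shift 1 0), rh3ca4c10fdf355329, (rhfed57f23c5f345ee.shift 1 1)] (by decide +kernel))
noncomputable def rh5e850e70df253ad7 : CRef := CRef.mk (Pat.mk 0x80000001c00000018 0x10000000300000003f0000003f00000018 6 6) 0 0 (step_sound _ 33 [rhb739f4f82bb681b4, rhcc4964e547424109] (by decide +kernel))
noncomputable def rh8ede165f0b3b60cc : CRef := CRef.mk (Pat.mk 0x40000000e0000000c0000000000000000 0x80000000f0000003e0000003f0000003000000010 6 6) 0 0 (step_sound _ 68 [rha665c7525191f299, (rhf48373e13d2bc128.shift 1 2)] (by decide +kernel))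
noncomputable def rh9b6c363854efa280 : CRef := CRef.mk (Pat.mk 0x1e000000180000000000000000 0x4000000370000001e0000001f0000000300000003 6 6) 0 0 (step_sound _ 65 [rh40298740c3651092, (rheb0810cc63b001d8.shift 0 2)] (by decide +kernel))
noncomputable def rh0f9660ef447f8ad9 : CRef := CRef.mk (Pat.mk 0x1e00000018 0x30000000300000003f0000003e00000018 6 6) 0 0 (step_sound _ 65 [(rh13b6a0c93f7b942d.shift 1 0), (rh3244c3cc8379b070.shift 0 1)] (by decide +kernel))
noncomputable def rh7ae5c02272e7fd4b : CRef := CRef.mk (Pat.mk 0x60000001c000000000000000800000000 0x40000000c0000003e0000001f000000330000001a00000008 6 6) 0 0 (step_sound _ 97 [(rh031a926e4a883687.shift 0 1), rh4ff7d8537adf0731] (by decide +kernel))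
noncomputable def rh6991fbce18ede5df : CRef := CRef.mk (Pat.mk 0x80000001800000004 0x1ff000000ff000001e6 6 9) 0 0 (step_sound _ 37 [(rh345c4f0008bef59e.shift 1 0), (rh4a0cb3a9508b05dd.shift 2 0), rhd4fe760ed5639bc8] (by decide +kernel))
noncomputable def rhb0d453cd63529a54 : CRef := CRef.mk (Pat.mk 0x800000008000000180000000c0000000000000000 0x1000000018000000180000001800000018000000780000000f0000000800000008 6 7) 0 0 (step_sound _ 101 [rh12124437aeb52afb, (rh18965a982d73c794.shift 2 2)] (by decide +kernel))
noncomputable def rhb7b1662c7b201604 : CRef := CRef.mk (Pat.mk 0xa0000000e0000000000000000 0x200000006000000070000003e0000003e0000000700000002 6 6) 0 0 (step_sound _ 98 [(rh113e957afa7c17ad.shift 0 1), (rh1570bfd00237cade.shift 0 1), rh87e2ca517c87b4c2] (by decide +kernel))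
noncomputable def rhd35185bb7a4d19e3 : CRef := CRef.mk (Pat.mk 0x8000000010000000f0000000000000000 0x2000000070000001f000000030000001f0000000600000002 6 5) 0 0 (step_sound _ 97 [rhe73fe696c4c039b7, (rhf48373e13d2bc128.shift 0 2)] (by decide +kernel))
noncomputable def rha8b65dd656f170d7 : CRef := CRef.mk (Pat.mk 0x2000000060000000300000000000000000000000000000000 0x60000000700000007000000070000000700000002000000030000000300000001 6 3) 0 0 (step_sound _ 97 [(rh586b343be2471f50.shift 0 3), rh62e05db1b73ac916, (rha707fb719e87fe6e.shift 1 2)] (by decide +kernel))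
noncomputable def rh7ee0b8d30dd8f659 : CRef := CRef.mk (Pat.mk 0x20000000200000002000000000000000000000000 0x50000000700000007000000030000000600000006000000070000000700000005 6 3) 0 0 (step_sound _ 192 [(rh114f4abf4ea101c9.shift 0 2), (rh90b558dcae53cbf1.shift 0 2), rhbba7d23481996066] (by decide +kernel))
noncomputable def rh3fa7867e63a3d41d : CRef := CRef.mk (Pat.mk 0x40000001c00000005000000000000000000000000 0x40000001c0000003f0000000f0000000e0000000e 6 6) 0 0 (step_sound _ 99 [(rh24ae073cf30720c4.shift 0 3), rha7360cc2d941309a] (by decide +kernel))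
noncomputable def rh69cb583660010eff : CRef := CRef.mk (Pat.mk 0x18000000300000001400000000000000000000000000000000 0x180000003f000000760000003e000000380000003800000008 6 7) 0 0 (step_sound _ 100 [(rh7d50a59e7828518b.shift 0 2), (rha613ffd40b6c9d24.shift 3 1), (rhe79d9e3a3e1ecc93.shift 3 0), (rhfa24987f9e3722ea.shift 1 2)] (by decide +kernel))
noncomputable def rh2d7c1e817addbf8d : CRef := CRef.mk (Pat.mk 0x100000001000000030000000200000002000000000 0x50000000df0000007e000001ef0000002800000008 6 9) 0 0 (step_sound _ 99 [(rh8ee80cc30e93a344.shift 2 2), (rhc5dec05a47d9bdb5.shift 2 1), (rhc92c11e8da6c894f.shift 0 2), rhd8215403ae36d74e] (by decide +kernel))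
noncomputable def rh7804449b1af1bc81 : CRef := CRef.mk (Pat.mk 0x1800000070000000100000000000000000 0x380000007f000000ff0000000c0000000c 6 8) 0 0 (step_sound _ 99 [(rh2ccea04b951e92fb.shift 0 2), (rh5b460b71d8952ca9.shift 0 2), (rh8cd7ffe18900bf90.shift 2 0), (rhcef93a29c93c96c9.shift 0 2), (rhe74f96057964b96f.shift 0 2)] (by decide +kernel))
noncomputable def rha3cfaa0f8cb1b948 : CRef := CRef.mk (Pat.mk 0x40000000e000000180000000800000000 0x10000000370000001e0000001b0000000f00000006 6 6) 0 0 (step_sound _ 100 [(rh5421160f8e9bcf07.shift 1 1), rh9c7ec389ba8f31b8] (by decide +kernel))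
noncomputable def rh6e0b393a3debc4b3 : CRef := CRef.mk (Pat.mk 0x80000001e00000018 0x800000008000000ef000000fe00000018 6 8) 0 0 (step_sound _ 65 [(rh148f7450ac1f5a8e.shift 1 0), (rh3244c3cc8379b070.shift 0 1)] (by decide +kernel))
noncomputable def rhcaf66884d399b0c0 : CRef := CRef.mk (Pat.mk 0x4000000040000001c0000000000000000 0xc0000000c0000003c0000001f0000003300000010 6 6) 0 0 (step_sound _ 65 [(rh1ae4704ae86cb9a8.shift 0 1), rh2fa8a6cd8a03c75c] (by decide +kernel))
noncomputable def rhda5478f3b7ce7a55 : CRef := CRef.mk (Pat.mk 0xe00000018000000080000000000000000 0x2000000130000003e0000001f0000000c0000000c00000008 6 6) 0 0 (step_sound _ 132 [(rh32af6e600e16eab8.shift 0 1), (rhea7a1800d6f053bd.shift 3 0)] (by decide +kernel))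
noncomputable def rh3cd735b9ebfa223b : CRef := CRef.mk (Pat.mk 0x60000001c000000040000000000000000 0x4000000070000001f0000003f0000000800000008 6 6) 0 0 (step_sound _ 97 [(rh3244c3cc8379b070.shift 0 3), rhf13812e8f42b0343] (by decide +kernel))
noncomputable def rh358fe9994268f07a : CRef := CRef.mk (Pat.mk 0x40000001c000000040000000400000000 0xc0000000c0000001c0000000f0000003c00000018 6 6) 0 0 (step_sound _ 35 [rh11fad4d59a278960, (rh55afc6a59410cf00.shift 2 0)] (by decide +kernel))
noncomputable def rhcd01edd5be2c08bd : CRef := CRef.mk (Pat.mk 0x20000000200000002000000000000000000000000 0x100000007000000070000000600000007000000070000000700000005 6 3) 0 0 (step_sound _ 66 [rh37b321cf4a86b013, (rh47dece01c1595e79.shift 1 0), (rh681cc1c7cf4ad90d.shift 0 1)] (by decide +kernel))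
noncomputable def rh7d9cbbe4c49a0ab6 : CRef := CRef.mk (Pat.mk 0x200000002000000060000001c0000000000000000 0xa0000000b0000003e0000001f0000003300000010 6 6) 0 0 (step_sound _ 65 [(rh736ad3523bdf45b7.shift 0 1), rh906b0622defffad0, (rha37779f9238271b6.shift 0 1)] (by decide +kernel))
noncomputable def rh172f21c8ef17e28c : CRef := CRef.mk (Pat.mk 0x80000000e0000001c0000000000000000 0xc0000001c000000380000003e0000001f0000000800000008 6 6) 0 0 (step_sound _ 163 [(rh5c5e593799055d58.shift 2 2), rh7e0eb7361aa0748b] (by decide +kernel))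
noncomputable def rh6ff5f97fe4ba457f : CRef := CRef.mk (Pat.mk 0x800000008000000380000000000000000 0x140000003c0000000f000000380000001f0000000c 6 6) 0 0 (step_sound _ 35 [rh59c6c9d9132801ae, rh852e818bc8629e77] (by decide +kernel))
noncomputable def rh710dd881f6893385 : CRef := CRef.mk (Pat.mk 0x380000000c000000180000000000000000 0x40000000c0000000c0000000f0000003c0000001c000000780000000800000008 6 7) 0 0 (step_sound _ 69 [rhad56b7b51bc91aa7, (rhf48373e13d2bc128.shift 2 2)] (by decide +kernel))
noncomputable def rhbc2271f19f28a8c0 : CRef := CRef.mk (Pat.mk 0x1c000000060000000c0000000000000000 0x20000000b0000001f0000003e0000003c0000001000000010 6 6) 0 0 (step_sound _ 68 [rhab05f8b7b959ead8, (rhf48373e13d2bc128.shift 1 2)] (by decide +kernel))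
noncomputable def rh4de701cf26499410 : CRef := CRef.mk (Pat.mk 0x1e000000060000000000000000 0x80000003b0000001e0000003e0000003000000030 6 6) 0 0 (step_sound _ 129 [(rh3244c3cc8379b070.shift 0 3), (rhba719ba7a8fe514a.shift 1 0)] (by decide +kernel))
noncomputable def rh7e32ddfd4b7eca27 : CRef := CRef.mk (Pat.mk 0x1a0000000e00000000 0x1b000000fe000000e7 6 8) 0 0 (step_sound _ 36 [(rh3244c3cc8379b070.shift 0 1), rha1eb337eeb07c2e7] (by decide +kernel))
noncomputable def rhcfc85bdd18a9e4f0 : CRef := CRef.mk (Pat.mk 0x80000001a0000000600000000 0x3000000030000003f0000001e0000000600000004 6 6) 0 0 (step_sound _ 97 [rh63423e35ee4718c3, rh8d64568243dff2a6, rhd58eabc66e969816, (rhd8be3b7ca6adb62f.shift 0 2)] (by decide +kernel))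
noncomputable def rhb97338e6ebc23a89 : CRef := CRef.mk (Pat.mk 0x4000000000000001c0000000800000008 0x100000003e000000f00000001f0000003800000008 6 8) 0 0 (step_sound _ 100 [(rh16276789fd32c01e.shift 1 0), (rh5dec5e73a267a1c4.shift 0 1), (rh69755ef358ebfd54.shift 3 0), (rh6a0d432b8da5b206.shift 1 1)] (by decide +kernel))
noncomputable def rh0bec3ab09a0728dc : CRef := CRef.mk (Pat.mk 0x4000000040000001e00000008 0x180000003c000000370000001e00000038 6 6) 0 0 (step_sound _ 65 [(rh3244c3cc8379b070.shift 0 1), (rh72125b4f2c1b30b5.shift 1 0)] (by decide +kernel))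
noncomputable def rh11d02f370d4be166 : CRef := CRef.mk (Pat.mk 0x200000002000000030000000e00000000 0x6000000060000001e0000001b0000000f0000000a 6 5) 0 0 (step_sound _ 32 [(rh5c5e593799055d58.shift 0 1), rhaa1e1ecb861571c4] (by decide +kernel))
noncomputable def rh57963c755200c2d1 : CRef := CRef.mk (Pat.mk 0x400000006000000000000000e000000000000000000000000 0x40000001f000000780000001f000000380000000800000008 6 7) 0 0 (step_sound _ 132 [(rh3a36a8e73fab8287.shift 0 2), rh834ef1c974e4840e, (rh855f60273efa2aaf.shift 0 3)] (by decide +kernel))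
noncomputable def rhfaf9dcacc214c4a9 : CRef := CRef.mk (Pat.mk 0x4000000000000000200000002000000020000000000000000 0x400000006000000060000000200000002000000070000000700000005 6 3) 0 0 (step_sound _ 161 [rh65e9253e718182a0, (rhbaefcd01e0a8bca3.shift 1 2)] (by decide +kernel))
noncomputable def rh0b4aa3cd27fc4e16 : CRef := CRef.mk (Pat.mk 0x1000000010000000100000001800000000 0x1000000010000000ff000000fe00000027 6 8) 0 0 (step_sound _ 37 [(rh55afc6a59410cf00.shift 4 0), rhdb8479242c299d0c] (by decide +kernel))
noncomputable def rh57c65a12466b8ef1 : CRef := CRef.mk (Pat.mk 0x80000000800000018000000000000000000000000 0x18000000180000007c0000001f0000001c00000018 6 7) 0 0 (step_sound _ 36 [(rh01b3ae1aac06a75f.shift 0 1), (rh3b5346b2e316d790.shift 3 0), rhdc27bc6980aa4b6b] (by decide +kernel))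
noncomputable def rh4414b14f1e03188e : CRef := CRef.mk (Pat.mk 0x80000000c000000180000000000000000 0x40000000c0000000f000000780000001f0000000c 6 7) 0 0 (step_sound _ 97 [(rhb739f4f82bb681b4.shift 0 2), rhdd106b30880b68fa] (by decide +kernel))
noncomputable def rh556fa2732e961166 : CRef := CRef.mk (Pat.mk 0x80000000c000000180000000800000000 0x40000000c0000000f0000001e0000000f00000006 6 5) 0 0 (step_sound _ 130 [(rh50fbb5868c909700.shift 2 1), rh85996d48865af747] (by decide +kernel))
noncomputable def rh95596462eae157ed : CRef := CRef.mk (Pat.mk 0x20000000e0000000400000004 0xc0000000c0000000f0000003e0000000c0000000c 6 6) 0 0 (step_sound _ 68 [(rh3244c3cc8379b070.shift 0 2), (rhed2878e87211d64e.shift 1 0)] (by decide +kernel))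
noncomputable def rhf51e317c65ac025f : CRef := CRef.mk (Pat.mk 0x60000000e000000040000000000000000 0x60000003e0000003f0000000300000003 6 6) 0 0 (step_sound _ 100 [rh8cd7ffe18900bf90, (rhf48373e13d2bc128.shift 1 3)] (by decide +kernel))
noncomputable def rh15ce27dd2fb2db1e : CRef := CRef.mk (Pat.mk 0xc0000001c000000080000000800000000 0x20000000f0000001c0000003c0000000f00000006 6 6) 0 0 (step_sound _ 34 [rh264c4a62efd1b5eb, (rh932754581e0f4330.shift 2 0)] (by decide +kernel))
noncomputable def rhd59f2f34b017c24b : CRef := CRef.mk (Pat.mk 0xf00000003000000020000000000000000 0xa0000000f0000001b0000001e0000000600000006 6 5) 0 0 (step_sound _ 99 [rh8e05ebcc7978e7fa, (rhe25b0a99195a5d59.shift 0 3)] (by decide +kernel))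
noncomputable def rha955033d1e583bd1 : CRef := CRef.mk (Pat.mk 0x80000001c000000040000000400000000 0x600000006000000060000000f0000007c0000000c0000000c00000008 6 7) 0 0 (step_sound _ 130 [(rh277b01412deaec89.shift 0 1), (rh79b3c29022acbdf3.shift 1 3), (rhcbaa34959f85e2ef.shift 1 0)] (by decide +kernel))
noncomputable def rh486eec509339bff1 : CRef := CRef.mk (Pat.mk 0x4000000040000000400000000 0xe0000000e0000000e0000003c0000000f0000000e 6 6) 0 0 (step_sound _ 130 [rh3ca4c10fdf355329, (rhc4055b4872d6fb38.shift 1 0)] (by decide +kernel))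
noncomputable def rh26f88b7b405dcf4c : CRef := CRef.mk (Pat.mk 0x1000000010000000100000003800000000 0x200000003000000010000003f7000001fe000001c7 6 10) 0 0 (step_sound _ 38 [rh16c09bea24aec334, (rh399a4306c3957ea3.shift 3 0), (rh7e304abac51d1461.shift 3 0), (rhe755d80139a0ae3f.shift 1 0)] (by decide +kernel))
noncomputable def rhb4f0a70bea578512 : CRef := CRef.mk (Pat.mk 0x1000000000000000200000002000000000000000000000000 0x50000000700000007000000030000000300000003000000070000000700000005 6 3) 0 0 (step_sound _ 161 [(rh114f4abf4ea101c9.shift 0 2), (rh6970e1f3726660a5.shift 0 2), rhbba7d23481996066] (by decide +kernel))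
noncomputable def rhb1811788d5323cae : CRef := CRef.mk (Pat.mk 0x1000000020000000200000002000000000000000000000000 0x100000003000000030000000200000003000000070000000700000004 6 3) 0 0 (step_sound _ 193 [(rh50fbb5868c909700.shift 0 3), rhbb4cbf87c97ba3b2] (by decide +kernel))
noncomputable def rhaa82b76a1712bdcc : CRef := CRef.mk (Pat.mk 0xc000000080000000800000008 0x100000001800000018000000180000001f0000003c0000001800000018 6 6) 0 0 (step_sound _ 131 [(rh44f453b84f013105.shift 3 0), rh4e23d06bd7461233, (rhe744950f77206504.shift 2 0)] (by decide +kernel))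
noncomputable def rh673204001332990d : CRef := CRef.mk (Pat.mk 0x1000000020000000200000002000000000000000000000000 0x5000000070000000600000002000000070000000700000001 6 3) 0 0 (step_sound _ 65 [rhceaabac02e703afb, (rhffd04209dc8ea796.shift 0 2)] (by decide +kernel))
noncomputable def rhc1d728d83582478c : CRef := CRef.mk (Pat.mk 0x8000000080000001c000000100000000000000000 0xa0000000f0000003e000000360000000400000004 6 6) 0 0 (step_sound _ 97 [rh9a828782adc9bde2, (rhe25b0a99195a5d59.shift 1 2)] (by decide +kernel))
noncomputable def rhad30a11ef90f95bd : CRef := CRef.mk (Pat.mk 0x80000000e000000180000001000000000 0x6000000060000000e0000000e0000001f0000003f0000000e 6 6) 0 0 (step_sound _ 130 [(rh11fb5d476a544814.shift 1 0), (rh3cb04db3dd2b6a55.shift 2 0), rhe03933d511c256c8] (by decide +kernel))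
noncomputable def rh220bad6c4605b80b : CRef := CRef.mk (Pat.mk 0x4000000000000000c00000008000000000000000000000000 0x2000000060000000e0000003c0000000f0000000e0000000c00000004 6 6) 0 0 (step_sound _ 162 [(rh08edf065357d68e5.shift 2 1), rh35273267d1605123, (rh79ad7b82ec8c35e2.shift 2 1)] (by decide +kernel))
noncomputable def rh36ea2c6f5930e060 : CRef := CRef.mk (Pat.mk 0x4000000000000000e000000080000000000000000 0x16000000160000003b0000003e0000000f0000000800000008 6 6) 0 0 (step_sound _ 100 [(rh6eb76252a9026692.shift 1 0), (rh71425b99c81b7935.shift 0 2)] (by decide +kernel))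
noncomputable def rhd8d0f9aad4536f71 : CRef := CRef.mk (Pat.mk 0x40000000400000004000000000000000000000000 0xc0000000c0000000c0000003c0000000f0000000e0000000a 6 6) 0 0 (step_sound _ 66 [(rh6c59ce14113da07f.shift 2 0), (rh7133a7a78d762f91.shift 0 1), (rhcab3157f7bdcba3e.shift 1 0)] (by decide +kernel))
noncomputable def rhc01a38579542ac25 : CRef := CRef.mk (Pat.mk 0x80000000800000018000000080000000000000000 0xc0000000f0000003c000000180000001800000018 6 6) 0 0 (step_sound _ 36 [rhb3d94b11b6341193, (rhd3458b32566d63f7.shift 3 1)] (by decide +kernel))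
noncomputable def rh29a95aab344a5b9e : CRef := CRef.mk (Pat.mk 0x2000000020000000600000006000000000000000000000000 0x300000003000000070000001f000000030000000300000002 6 5) 0 0 (step_sound _ 64 [(rh79877ebd3ef475dd.shift 0 2), rhee98cb849a7618e6] (by decide +kernel))
noncomputable def rh4c837ed004ede88c : CRef := CRef.mk (Pat.mk 0x4000000040000000c000000040000000000000000 0x6000000070000003e000000070000000600000004 6 6) 0 0 (step_sound _ 65 [(rh932754581e0f4330.shift 1 1), rhcde230e1fccc7ea0] (by decide +kernel))
noncomputable def rhaec9c184ac493f0c : CRef := CRef.mk (Pat.mk 0x380000001000000000 0x400000004000000070000007f0000003e00000008 6 7) 0 0 (step_sound _ 34 [(rh076be03eb7063320.shift 1 1), (rh72297cd55a503360.shift 1 1), (rhb2de7aa0384527c8.shift 0 1), rhcefb17716b0e9664] (by decide +kernel))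
noncomputable def rh77da9c3856ab2233 : CRef := CRef.mk (Pat.mk 0x80000000800000008000000080000000800000000 0x80000000800000018000000380000001f0000000c0000000800000008 6 6) 0 0 (step_sound _ 132 [(rh2f68792b6b779e96.shift 3 1), rhc07bb72395eb1181] (by decide +kernel))
noncomputable def rh32493244f48256a0 : CRef := CRef.mk (Pat.mk 0x1000000070000000100000002000000020 0x80000000c000000fe0000007f000000de0000006000000020 6 8) 0 0 (step_sound _ 131 [rh6c145a5aa052d879, (rh91fc61c66e640f29.shift 2 0), (rhc02b3aee7ab87ee1.shift 1 3), (rhd8e93bbc8568df99.shift 2 3)] (by decide +kernel))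
noncomputable def rha680c62a058f2810 : CRef := CRef.mk (Pat.mk 0x1800000008000000080000000800000000 0x70000003f0000003f0000000c0000000c00000004 6 6) 0 0 (step_sound _ 130 [(rh50fbb5868c909700.shift 2 1), rh8f34f9439bbe2e08] (by decide +kernel))
noncomputable def rhf115ea59f760a714 : CRef := CRef.mk (Pat.mk 0x20000001e000000000000000400000004 0x10000000300000003e0000003f000000080000000c00000004 6 6) 0 0 (step_sound _ 132 [rh0291c41216c7b1e2, (rh33e738c4ed385b9f.shift 1 3)] (by decide +kernel))
noncomputable def rh69a65af9994df1aa : CRef := CRef.mk (Pat.mk 0x1000000070000000000000002000000020 0xf70000007e000000ce0000006000000020 6 8) 0 0 (step_sound _ 99 [(rh1fbc9fee05401eba.shift 3 0), (rhab6f55bc99585f19.shift 0 2)] (by decide +kernel))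
noncomputable def rh8b4016ff0d4ef6e2 : CRef := CRef.mk (Pat.mk 0x800000008000000080000001c00000000 0x100000001800000018000001df000000ff000000e0 6 9) 0 0 (step_sound _ 132 [(rh2f68792b6b779e96.shift 3 1), rhf5ed9ccc05cb4de7] (by decide +kernel))
noncomputable def rhceced5fee2f0d3c6 : CRef := CRef.mk (Pat.mk 0x8000000080000001a0000001000000000 0x140000003c0000000f0000001b0000001f0000000c 6 6) 0 0 (step_sound _ 35 [rh114380420d2c6317, rh900a894640be090c] (by decide +kernel))
noncomputable def rh93b7dbe93fe3f811 : CRef := CRef.mk (Pat.mk 0x8000000080000001a000000100000000000000000 0x80000000b0000003e0000003f0000000400000004 6 6) 0 0 (step_sound _ 98 [rh8aa0b4e7739f28a1, (rhe25b0a99195a5d59.shift 1 2)] (by decide +kernel))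
noncomputable def rhf210d8573d0593dd : CRef := CRef.mk (Pat.mk 0x18000000180000001000000000 0x4000000060000007f0000003f0000003800000008 6 7) 0 0 (step_sound _ 66 [rh9d4a75e793e76bcf, (rhf56e6bc5d2f7fe77.shift 0 1)] (by decide +kernel))
noncomputable def rhd07a9d0a5f6f57e4 : CRef := CRef.mk (Pat.mk 0x4000000000000000e000000080000000000000000 0x1600000016000000330000003e0000001f0000000800000008 6 6) 0 0 (step_sound _ 100 [(rh71425b99c81b7935.shift 0 2), (rhe5ad44e27e846693.shift 1 0)] (by decide +kernel))
noncomputable def rh5d39512b482ebafa : CRef := CRef.mk (Pat.mk 0x40000000000000008000000080000000000000000 0x4000000040000000c0000000c0000003c0000000f0000000a00000008 6 6) 0 0 (step_sound _ 130 [(rh0188917d0a15b7ff.shift 2 2), (rh3e4c350819528c4b.shift 0 1), (rh4d760d0d70847451.shift 2 1), (rh74a43b9a483760f6.shift 2 0), (rhb6c5498b65cea07a.shift 2 1)] (by decide +kernel))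
noncomputable def rh3ba2d86ff0e7efeb : CRef := CRef.mk (Pat.mk 0xe0000000800000008 0x1000000037000000fe0000007c00000008 6 8) 0 0 (step_sound _ 36 [(rh4a0b10776449c3e9.shift 1 1), rh6d8cb109a9cc428e, (rh89ade209b3e28f13.shift 1 1), (rhae2edff970a530ce.shift 1 1)] (by decide +kernel))
noncomputable def rh5d22706b51ff8465 : CRef := CRef.mk (Pat.mk 0x380000002000000000 0x8000000080000000f0000007e0000003700000004 6 7) 0 0 (step_sound _ 66 [(rh0de499e0455c9c14.shift 0 1), (rh43dc67402634d54f.shift 1 0), (rhd1d05263fabc0227.shift 0 1)] (by decide +kernel))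
noncomputable def rhd517d889eb9fd6bf : CRef := CRef.mk (Pat.mk 0x40000001c00000004000000000000000000000000 0x400000004000000040000001c0000007f0000007f0000000200000002 6 7) 0 0 (step_sound _ 99 [rh14cf5d46e5456f2b, (rh3e595262c1b737ad.shift 2 2)] (by decide +kernel))
noncomputable def rhec0013b7af202f19 : CRef := CRef.mk (Pat.mk 0x4000000040000000c000000020000000000000000 0x4000000760000003e000000730000000200000002 6 7) 0 0 (step_sound _ 97 [(rhf9af042da61fc652.shift 1 0), (rhfa35e196e150edb4.shift 0 2)] (by decide +kernel))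
noncomputable def rheab8a4ec72298776 : CRef := CRef.mk (Pat.mk 0x100000000800000008000000080000000000000000 0x1800000018000000080000000f0000003c00000014 6 6) 0 0 (step_sound _ 35 [rh641b5241be04eec6, (rhbaefcd01e0a8bca3.shift 3 1)] (by decide +kernel))
noncomputable def rhabb1e3b045fa2726 : CRef := CRef.mk (Pat.mk 0x40000001c0000000c0000000000000000 0x18000000180000001c0000001c0000001f0000007800000018 6 7) 0 0 (step_sound _ 35 [(rh7b1f1fb55310c477.shift 2 0), rhf3fc0f2306b47fb4] (by decide +kernel))
noncomputable def rhe279620e6a9ed39c : CRef := CRef.mk (Pat.mk 0x60000001c0000000c000000000000000000000000 0xc0000000c0000000e0000001e0000000f000000040000000400000004 6 5) 0 0 (step_sound _ 97 [(rh53b3c253cb0c65f4.shift 0 3), (rh7875d85a97e97e5d.shift 1 0)] (by decide +kernel))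
noncomputable def rh45896a8e69cc216a : CRef := CRef.mk (Pat.mk 0x20000000200000002000000000000000000000000 0x50000000700000007000000060000000600000007000000070000000700000004 6 3) 0 0 (step_sound _ 64 [rhb4cf3585329d41ef, (rhb77bfac3e9efecea.shift 0 2), (rhf702e0fea5f10cea.shift 0 1)] (by decide +kernel))
noncomputable def rhac20aaa4d647b684 : CRef := CRef.mk (Pat.mk 0x3800000010000000100000001000000000 0x70000007e000000ff000000100000001800000008 6 8) 0 0 (step_sound _ 35 [(rh932754581e0f4330.shift 3 0), (rhabf2c0b050f7c569.shift 0 3)] (by decide +kernel))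
noncomputable def rh54a013cfd164c951 : CRef := CRef.mk (Pat.mk 0x4000000040000000e000000000000000000000000 0x4000000760000003e000000730000000200000002 6 7) 0 0 (step_sound _ 65 [(rhbc3a283c92990595.shift 0 2), (rhf9af042da61fc652.shift 1 0), (rhfa35e196e150edb4.shift 0 2)] (by decide +kernel))
noncomputable def rh7b3b4e4ba01673eb : CRef := CRef.mk (Pat.mk 0x700000008000000080000000800000000 0x80000000f00000018000000780000001e00000014 6 7) 0 0 (step_sound _ 131 [(rh3ca4c10fdf355329.shift 1 0), (rhe25b0a99195a5d59.shift 0 3)] (by decide +kernel))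
noncomputable def rhe783085795bc0c6b : CRef := CRef.mk (Pat.mk 0xe00000018000000100000001000000000 0x17000000fe0000001f000000f00000003c00000028 6 8) 0 0 (step_sound _ 132 [(rh3ca4c10fdf355329.shift 2 0), (rh412d230494194d0a.shift 0 3), (rhc31b6f966e0d7e89.shift 0 2)] (by decide +kernel))
noncomputable def rha123fe906470e0b5 : CRef := CRef.mk (Pat.mk 0x1800000070000000200000002000000000 0x380000007f000000ee0000003c0000000c 6 8) 0 0 (step_sound _ 99 [(rh9cffa5cc82da3121.shift 2 0), (rha03f6e28ea70fc7d.shift 2 2), (rhcef93a29c93c96c9.shift 0 2)] (by decide +kernel))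
noncomputable def rh93e23e031ad132ca : CRef := CRef.mk (Pat.mk 0x40000001c0000000c000000000000000000000000 0x40000001c0000007f000000770000000200000002 6 7) 0 0 (step_sound _ 97 [(rh53b3c253cb0c65f4.shift 0 3), rhc0582aba1fbfe08b] (by decide +kernel))
noncomputable def rh043714561e53de0f : CRef := CRef.mk (Pat.mk 0xe000000180000000800000008 0x200000002000000130000003e0000001f0000000c00000008 6 6) 0 0 (step_sound _ 100 [(rh2f68792b6b779e96.shift 3 0), (rh60ffd94c5f84d7a4.shift 0 1)] (by decide +kernel))
noncomputable def rhc576e8f65b1341c8 : CRef := CRef.mk (Pat.mk 0x10000000120000001e0000000000000000 0x6000000370000001e0000001e0000000700000006 6 6) 0 0 (step_sound _ 33 [rh12a658487e7da690, (rheb0810cc63b001d8.shift 0 1)] (by decide +kernel))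
noncomputable def rh94cfe30bf5752a56 : CRef := CRef.mk (Pat.mk 0x80000000a0000001e00000000000000000000000000000000 0xa0000000e0000001e00000007000000070000000700000005 6 5) 0 0 (step_sound _ 97 [rhe58870a9ea0b50be, (rheb0810cc63b001d8.shift 0 3)] (by decide +kernel))
noncomputable def rh1dc8c3d09eeb68d4 : CRef := CRef.mk (Pat.mk 0x8000000040000001c0000000400000000 0x140000007c0000001f0000001c0000000c0000000c 6 7) 0 0 (step_sound _ 99 [(rh71222050f2c63a3a.shift 2 0), rh853927cba9a5440b] (by decide +kernel))
noncomputable def rh4a258672ccea55b2 : CRef := CRef.mk (Pat.mk 0x8000000180000000e0000000000000000 0x800000018000000380000001f0000003e0000001800000008 6 6) 0 0 (step_sound _ 68 [(rh3e595262c1b737ad.shift 3 1), rhd2705a941542c9fb] (by decide +kernel))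
noncomputable def rh9a6a19bced667b13 : CRef := CRef.mk (Pat.mk 0x8000000380000000800000000 0x100000001c0000001c0000000c0000001f000000380000001800000018 6 6) 0 0 (step_sound _ 131 [(rh221beddc00c0402b.shift 2 1), rh3df3ff115a1614da, (rhd4b4beefcd67f51e.shift 3 0)] (by decide +kernel))
noncomputable def rh134e9789cdabd4e6 : CRef := CRef.mk (Pat.mk 0x8000000180000000e0000000000000000 0x80000000c0000000c0000001f0000003e0000001300000002 6 6) 0 0 (step_sound _ 68 [rh21460d2d48a35cb8, (rh3e595262c1b737ad.shift 3 1)] (by decide +kernel))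
noncomputable def rh5ac9b8a0acfcd6c0 : CRef := CRef.mk (Pat.mk 0x100000000c00000038000000080000000000000000 0x100000001c0000003f0000003f0000000800000008 6 6) 0 0 (step_sound _ 35 [(rhbaefcd01e0a8bca3.shift 3 1), rheebfbcc5d7189c8f] (by decide +kernel))
noncomputable def rhe150bcf26c742db8 : CRef := CRef.mk (Pat.mk 0x400000004000000040000000400000000 0x600000006000000040000003c0000000f0000000a 6 6) 0 0 (step_sound _ 129 [rh3ca4c10fdf355329, (rh50fbb5868c909700.shift 1 1)] (by decide +kernel))
noncomputable def rha5daa9049e60d222 : CRef := CRef.mk (Pat.mk 0x80000000c00000008000000080000000400000000 0x80000000c0000001f000000780000001c0000000c 6 7) 0 0 (step_sound _ 35 [(rh932754581e0f4330.shift 2 0), rh98107b1bf0065c07] (by decide +kernel))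
noncomputable def rhd50c2a674c1b97fd : CRef := CRef.mk (Pat.mk 0x20000000200000002000000000000000000000000 0x50000000700000007000000070000000700000003000000030000000300000001 6 3) 0 0 (step_sound _ 192 [(rh114f4abf4ea101c9.shift 0 2), rh600ac662adbb0262, (rhf153d2af6b144509.shift 0 2)] (by decide +kernel))
noncomputable def rh0c93e028432a0cb3 : CRef := CRef.mk (Pat.mk 0x800000008000000080000000800000000 0x140000001f00000038000000080000001800000018 6 6) 0 0 (step_sound _ 132 [(rh2f68792b6b779e96.shift 3 1), rh46196756eeb999a4] (by decide +kernel))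
noncomputable def rh33c5ef29598e2a2d : CRef := CRef.mk (Pat.mk 0xc00000004000000040000000c00000000 0x140000003c0000000f0000000e0000007c00000010 6 7) 0 0 (step_sound _ 67 [(rh2145e1d24b96a57e.shift 2 1), rhb19752b4b16e80fb] (by decide +kernel))
noncomputable def rhe0e49ae993f3735d : CRef := CRef.mk (Pat.mk 0xc00000004000000040000000400000000 0x60000003e000000070000000c0000000c0000000c 6 6) 0 0 (step_sound _ 129 [rh49cd43ac23821111, (rh50fbb5868c909700.shift 1 1)] (by decide +kernel))
noncomputable def rh2b06e87926b2bbd3 : CRef := CRef.mk (Pat.mk 0x3800000010000000100000001800000000 0x70000007e0000001e000000fc0000003e00000007 6 8) 0 0 (step_sound _ 98 [(rh121b15bbfd6a4240.shift 1 0), rh6f837f8bf215431e, (rh72297cd55a503360.shift 1 3)] (by decide +kernel))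
noncomputable def rhbbdccefba4a3e34a : CRef := CRef.mk (Pat.mk 0x2000000020000000300000001000000010 0x800000028000001ef0000007e000000df00000050 6 9) 0 0 (step_sound _ 67 [(rha11dfd15f08f96e3.shift 2 2), (rhb12ffaec36122c99.shift 0 1), rhb98e183a12ed98e4, (rhd8d01b3d400f86de.shift 2 0)] (by decide +kernel))
noncomputable def rh2910559d50ed1943 : CRef := CRef.mk (Pat.mk 0x10000000180000000e00000008 0x20000000300000001f000000fe0000007f 6 8) 0 0 (step_sound _ 36 [(rh300eedc557b86950.shift 1 0), (rh870359598daa9f92.shift 0 1), rh99d0d99b455cec03, rhd8d98eb6ec46d5f8] (by decide +kernel))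
noncomputable def rh650ec8fab7d97243 : CRef := CRef.mk (Pat.mk 0x10000000180000000c0000000000000000 0x2000000330000003e0000000f0000000400000004 6 6) 0 0 (step_sound _ 65 [(rh53b3c253cb0c65f4.shift 0 2), rhd96d63f6d5943b32] (by decide +kernel))
noncomputable def rh14b8f82f7813ef46 : CRef := CRef.mk (Pat.mk 0x80000000e000000060000000400000000 0x20000000b0000001e0000003e0000003c00000010 6 6) 0 0 (step_sound _ 129 [(rh2145e1d24b96a57e.shift 1 1), rhbbc51700bf94db04] (by decide +kernel))
noncomputable def rhd203fc733727f58c : CRef := CRef.mk (Pat.mk 0x2000000020000000200000004 0x5000000070000000700000002000000030000000700000004 6 3) 0 0 (step_sound _ 129 [(rhb569eea4a735f823.shift 0 1), (rhd3458b32566d63f7.shift 1 0)] (by decide +kernel))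
noncomputable def rha896d6370d3166dd : CRef := CRef.mk (Pat.mk 0x800000008000000080000001000000000 0x140000003c0000000f000000080000001800000018 6 6) 0 0 (step_sound _ 35 [rh245d56c915813f64, (rh55afc6a59410cf00.shift 3 0)] (by decide +kernel))
noncomputable def rh499e45f1ceb07e87 : CRef := CRef.mk (Pat.mk 0x1c00000008000000080000001800000000 0x3f0000007f0000003f000000f800000020 6 8) 0 0 (step_sound _ 100 [rh49def758a321f3b6, (rh6292bd8784ece55f.shift 1 3), rhf163d72258121a87] (by decide +kernel))
noncomputable def rh9d6e7ce2d66f53f9 : CRef := CRef.mk (Pat.mk 0x200000002000000020000000400000000 0x200000002000000030000000300000003000000070000000600000006 6 3) 0 0 (step_sound _ 33 [rh209d6a6eb2da8dd5, (rh55afc6a59410cf00.shift 1 0)] (by decide +kernel))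
noncomputable def rh18e24faf7ee9b091 : CRef := CRef.mk (Pat.mk 0x1000000008000000080000000800000000 0x1800000018000000080000007c0000001f00000004 6 7) 0 0 (step_sound _ 131 [(rh2f68792b6b779e96.shift 3 1), rh3de4a7082cb069d0] (by decide +kernel))
noncomputable def rh40af6b645047cd55 : CRef := CRef.mk (Pat.mk 0x20000000e000000000000000000000000 0x80000003b0000001f000000300000001000000010 6 6) 0 0 (step_sound _ 100 [(rh3244c3cc8379b070.shift 0 3), rh6887ef21f67dd26a] (by decide +kernel))
noncomputable def rh30c446805a4b5200 : CRef := CRef.mk (Pat.mk 0x800000038000000000000000000000000 0x20000001f8000000ff000000e00000004000000040 6 9) 0 0 (step_sound _ 102 [(rh6887ef21f67dd26a.shift 2 0), (rh790acd67f4fffd04.shift 3 3), (rhedaf679cda8997d1.shift 0 2)] (by decide +kernel))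
noncomputable def rhc2bb0b9eccbdeda1 : CRef := CRef.mk (Pat.mk 0x200000038000000000000001000000000 0x1000000010000000730000003e000000670000003000000030 6 7) 0 0 (step_sound _ 98 [(rh00b511fddce6f168.shift 0 2), (rh2fa8a6cd8a03c75c.shift 1 1), (rh7be56dea451b252f.shift 2 0)] (by decide +kernel))
noncomputable def rh870b22be4fb0fac9 : CRef := CRef.mk (Pat.mk 0x40000000c000000080000000800000000 0x1800000018000000180000003c0000000f0000000f0000003c00000014 6 6) 0 0 (step_sound _ 131 [(rh929981d1a150078c.shift 2 0), (rhc0ddb33d3a52722b.shift 0 1), rhd97e3ad6649814b3] (by decide +kernel))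
noncomputable def rhcc6cd6bd5f12610f : CRef := CRef.mk (Pat.mk 0x1000000000000000200000002000000000000000000000000 0x50000000700000007000000030000000300000003000000070000000700000005 6 3) 0 0 (step_sound _ 161 [(rh114f4abf4ea101c9.shift 0 2), rhc05d451ce3dd5e48, (rhf153d2af6b144509.shift 0 2)] (by decide +kernel))
noncomputable def rh10033a9518ee3244 : CRef := CRef.mk (Pat.mk 0x8000000080000001800000010000000000000000000000000 0x40000000c0000000f0000007c0000001e0000000c0000000c0000000c 6 7) 0 0 (step_sound _ 99 [(rh74e2f7e19e462725.shift 0 2), (rha71afc656c87d410.shift 1 2), (rha9a9dd876407ae9a.shift 2 0)] (by decide +kernel))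
noncomputable def rh7dc6878e2047e31d : CRef := CRef.mk (Pat.mk 0x1000000000000000200000002000000000000000000000000 0x50000000700000007000000030000000600000006000000070000000700000005 6 3) 0 0 (step_sound _ 161 [(rh114f4abf4ea101c9.shift 0 2), (rh90b558dcae53cbf1.shift 0 2), rhc05d451ce3dd5e48] (by decide +kernel))
noncomputable def rh4cf0b791fb7b89ac : CRef := CRef.mk (Pat.mk 0x800000008000000080000001800000000 0x800000008000000ff0000007f000000e4 6 8) 0 0 (step_sound _ 34 [(rh932754581e0f4330.shift 2 0), rhdb25a5474e26143a] (by decide +kernel))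
noncomputable def rh5f8d49a519adbf2c : CRef := CRef.mk (Pat.mk 0x800000008000000080000000400000000 0x100000007c0000001f000000080000000c0000000c 6 7) 0 0 (step_sound _ 35 [rh5f431d3cea859888, (rh932754581e0f4330.shift 2 0)] (by decide +kernel))
noncomputable def rh8c3e1d7fb31dfd2c : CRef := CRef.mk (Pat.mk 0x2000000020000000200000004000000000000000000000000 0x400000007000000070000000300000006000000070000000300000001 6 3) 0 0 (step_sound _ 97 [(rh55afc6a59410cf00.shift 1 2), rh848b416e416a65ee] (by decide +kernel))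
noncomputable def rh76391dbba7eb5586 : CRef := CRef.mk (Pat.mk 0x4000000040000000c0000000a00000000 0x80000000c0000000c0000000f0000003e00000016 6 6) 0 0 (step_sound _ 34 [rh54063546e68442c2, (rh932754581e0f4330.shift 1 0)] (by decide +kernel))
noncomputable def rha4fcb30e347b0290 : CRef := CRef.mk (Pat.mk 0x40000000e0000000a 0xc000000fe000001fb 6 9) 0 0 (step_sound _ 36 [(rh9f804a10bb44620a.shift 1 0), rheb0810cc63b001d8] (by decide +kernel))
noncomputable def rh3cc10f9d4c8c11b4 : CRef := CRef.mk (Pat.mk 0x100000001c000000300000002000000000 0x4000000040000000c0000002f0000007c0000001c0000003c0000007400000010 6 7) 0 0 (step_sound _ 131 [(rh3cb04db3dd2b6a55.shift 3 0), (rh4e448da1f2ebc7c7.shift 2 0), (rh9435b120267fd85c.shift 0 1)] (by decide +kernel))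
noncomputable def rhf67249db61dfcd64 : CRef := CRef.mk (Pat.mk 0x2000000030000000600000004000000000000000000000000 0x1d0000001f000000070000000700000006000000020000000200000002 6 5) 0 0 (step_sound _ 97 [rh60c17605e880d32b, (rh83aedc160a7f657e.shift 0 3), (rhe286c75f2739cce2.shift 0 2)] (by decide +kernel))
noncomputable def rh2bd979fbdfd273f6 : CRef := CRef.mk (Pat.mk 0x800000008000000180000001c00000000 0x40000000c0000000c0000001f0000003f0000000a 6 6) 0 0 (step_sound _ 33 [rh22b12dd1353b44f4, (rh53b3c253cb0c65f4.shift 0 1)] (by decide +kernel))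
noncomputable def rhdee681954dc75c33 : CRef := CRef.mk (Pat.mk 0x1800000008000000180000001800000000 0x18000000180000001f0000003f00000064 6 7) 0 0 (step_sound _ 34 [(rh932754581e0f4330.shift 2 0), rhdad877f36e9733d8] (by decide +kernel))
noncomputable def rh971c1384291a89e6 : CRef := CRef.mk (Pat.mk 0x4000000000000000c00000008000000000000000000000000 0x6000000060000000e0000003c0000000f000000060000000400000004 6 6) 0 0 (step_sound _ 162 [(rh2145e1d24b96a57e.shift 2 3), rh35273267d1605123] (by decide +kernel))
noncomputable def rh5c6aacd602b1d8ac : CRef := CRef.mk (Pat.mk 0x800000008000000180000001000000000 0x140000003c0000000f000000780000001e0000000c 6 7) 0 0 (step_sound _ 35 [rh59c6c9d9132801ae, (rha71afc656c87d410.shift 1 0)] (by decide +kernel))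
noncomputable def rh96385da6da08f0d2 : CRef := CRef.mk (Pat.mk 0x3000000060000000000000006000000040 0x1f0000007c000000780000001c000000f8000003d0 6 10) 0 0 (step_sound _ 131 [rh13d8440bcf1a7093, (rhb739f4f82bb681b4.shift 2 3)] (by decide +kernel))
noncomputable def rh2aabb6e508d653bb : CRef := CRef.mk (Pat.mk 0x1800000030000000000000003000000020 0x10000000f8000000ff0000000f0000007c000001e8 6 9) 0 0 (step_sound _ 102 [rh341c6833ccdeba53, (rhf48373e13d2bc128.shift 3 3)] (by decide +kernel))
noncomputable def rhe19a0e82cf571170 : CRef := CRef.mk (Pat.mk 0x60000001c000000000000000000000000 0x40000003e0000001f0000003b0000000200000002 6 6) 0 0 (step_sound _ 97 [(rh2381ca26b8b38d1e.shift 0 2), (rh4461088443626e94.shift 0 2), rh9a011a4d0ec8f646] (by decide +kernel))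
noncomputable def rhc4b60f32b89c93a6 : CRef := CRef.mk (Pat.mk 0x4000000000000001e00000000000000000000000000000000 0x4000000070000001e00000003000000070000000700000005 6 5) 0 0 (step_sound _ 161 [rh24c0faa775fa2763, (rh3244c3cc8379b070.shift 0 4)] (by decide +kernel))
noncomputable def rh9eec19ff159bead1 : CRef := CRef.mk (Pat.mk 0x20000000e000000180000000000000000 0x80000000b0000003e0000001f0000003000000010 6 6) 0 0 (step_sound _ 100 [(rh3244c3cc8379b070.shift 0 3), rh391f4472eb57537b] (by decide +kernel))
noncomputable def rh6dcf9225a2e4d660 : CRef := CRef.mk (Pat.mk 0x4000000020000000e000000180000000000000000 0x60000000e0000000a0000003e0000001f0000003500000010 6 6) 0 0 (step_sound _ 65 [rh025f50bea12aa8b3, (rh455743481e179fac.shift 0 1), (rh4dec404a6c0e229a.shift 1 1)] (by decide +kernel))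
noncomputable def rh2927c9fbdf4e86e4 : CRef := CRef.mk (Pat.mk 0x100000000800000038000000200000000000000000 0x10000000140000001c0000007c0000002f00000038000000380000001800000010 6 7) 0 0 (step_sound _ 163 [(rh215e11e099257d75.shift 3 2), (rh32299c4141658829.shift 2 2), (rh6bc015b9268c8423.shift 0 1), (rh70e33bfdf511e144.shift 3 0)] (by decide +kernel))
noncomputable def rh7d39efbeb939022d : CRef := CRef.mk (Pat.mk 0x800000008000000180000001000000000 0x140000007c0000001f0000007c0000001e0000000c 6 7) 0 0 (step_sound _ 98 [(rhb0121edee88fe839.shift 0 2), rhbb490568a65dc4af, (rhec7286d79d970a12.shift 1 0)] (by decide +kernel))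
noncomputable def rhd22b430c854304e5 : CRef := CRef.mk (Pat.mk 0x20000000000000004000000040000000400000000 0x600000006000000040000003c0000000f0000000a 6 6) 0 0 (step_sound _ 130 [rh3ca4c10fdf355329, (rhffd04209dc8ea796.shift 1 1)] (by decide +kernel))
noncomputable def rh38f7b381e26610a2 : CRef := CRef.mk (Pat.mk 0xc0000000e0000000000000000 0x2000000030000003f0000007e0000007400000004 6 7) 0 0 (step_sound _ 100 [(rh18965a982d73c794.shift 1 2), rhe13854c674fe5d3a] (by decide +kernel))
noncomputable def rha78b846106e42080 : CRef := CRef.mk (Pat.mk 0x7000000020 0x3c7000003fe00000770 6 11) 0 0 (step_sound _ 71 [rh16b4d8287bf1fc57, (rhb8022f71dc28021b.shift 3 1), (rhf3889cbcd8405cb8.shift 4 0)] (by decide +kernel))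
noncomputable def rh470aa88d9d80d21c : CRef := CRef.mk (Pat.mk 0xa0000000f00000000000000000000000000000000 0x20000000a0000000e0000000f0000001c0000001c0000001c00000010 6 5) 0 0 (step_sound _ 99 [(rh20df1f66517a092e.shift 1 0), (rhe25b0a99195a5d59.shift 0 3)] (by decide +kernel))
noncomputable def rhc711bfeed65d29e7 : CRef := CRef.mk (Pat.mk 0x80000001c0000001000000010 0x200000007f0000003f0000001700000010 6 7) 0 0 (step_sound _ 100 [(rh712526e472efe489.shift 2 0), (rh9a07ed6d8ab07e0b.shift 0 1)] (by decide +kernel))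
noncomputable def rhb37864c0725bf711 : CRef := CRef.mk (Pat.mk 0x40000001c000000020000000000000000 0x10000000340000001f0000003b0000000800000008 6 6) 0 0 (step_sound _ 97 [rhce71534e51e0a15e, (rheb0810cc63b001d8.shift 0 2)] (by decide +kernel))
noncomputable def rh9f211130ab0b7e10 : CRef := CRef.mk (Pat.mk 0x800000008000000180000000000000000000000000000000000000000 0x800000018000000780000001f0000001c0000001c0000001c00000010 6 7) 0 0 (step_sound _ 131 [(rh0b7b56b1d93191f8.shift 2 1), (rh1ed422ad98229120.shift 3 0), (rh8dce4397d6075b0b.shift 0 3), (rhab6ffbdaef6e235a.shift 1 3), (rhb72c6d3b8f00eaae.shift 2 1)] (by decide +kernel))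
noncomputable def rhc0bd1c20ed1b87f9 : CRef := CRef.mk (Pat.mk 0x60000001e000000000000000000000000 0x10000000360000001e0000003f0000000b0000000b 6 6) 0 0 (step_sound _ 65 [rh0942ce6c90983eb7, (rheb0810cc63b001d8.shift 0 2)] (by decide +kernel))
noncomputable def rh8a2a2bc5ffd9a184 : CRef := CRef.mk (Pat.mk 0x800000008000000180000001800000000 0x8000000080000001f000000ff000000e4 6 8) 0 0 (step_sound _ 34 [rh5a280e49da9b7604, (rh932754581e0f4330.shift 2 0)] (by decide +kernel))
noncomputable def rha9e6e7f699126aa5 : CRef := CRef.mk (Pat.mk 0x40000000c00000004000000020000000000000000 0xe0000000f0000003c000000060000000600000004 6 6) 0 0 (step_sound _ 66 [(rh932754581e0f4330.shift 1 1), rhacc85467945b1e05] (by decide +kernel))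
noncomputable def rh90b4519e2bc1e805 : CRef := CRef.mk (Pat.mk 0x200000000000000018000000d00000000000000000 0x10000000380000007c0000001f00000018000000d80000007800000038 6 8) 0 0 (step_sound _ 131 [(rh225b33797687f1e5.shift 0 1), (rhc2c7bae8f445c890.shift 3 0), (rhc38f566cab2818e5.shift 3 0), (rhc8bf89fbcf441e9d.shift 3 0)] (by decide +kernel))
noncomputable def rhec2f3f5ded687db0 : CRef := CRef.mk (Pat.mk 0x50000000c00000000 0xff0000007e000000f7 6 8) 0 0 (step_sound _ 36 [(rh4a0cb3a9508b05dd.shift 1 0), (rh4b858afe2cb38247.shift 0 1), rhab69574ab2e3421e] (by decide +kernel))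
noncomputable def rhe5509b1c13eac54a : CRef := CRef.mk (Pat.mk 0x40000000e000000000000000000000000 0x400000004000000740000003e000000770000000200000002 6 7) 0 0 (step_sound _ 65 [(rhadf429772c25fde0.shift 1 0), (rhdc1641106d7e5aa2.shift 0 2), (rhfa35e196e150edb4.shift 0 2)] (by decide +kernel))
noncomputable def rh7bf00c3db97a328c : CRef := CRef.mk (Pat.mk 0x80000001800000008000000100000000000000000 0x1c0000003c0000000f000000180000001800000008 6 6) 0 0 (step_sound _ 67 [(rh55afc6a59410cf00.shift 3 1), rh6bc015b9268c8423] (by decide +kernel))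
noncomputable def rh18a4045b8e31f997 : CRef := CRef.mk (Pat.mk 0x100000000c0000001800000000 0x140000001c0000001e0000007c0000000f0000001800000010 6 7) 0 0 (step_sound _ 99 [(rh39e0eec5fc728115.shift 1 0), (rhd69c262cd33b94b3.shift 0 2), (rhfb9fb48a5e63ed80.shift 2 0)] (by decide +kernel))
noncomputable def rh4d00743bb6e10c80 : CRef := CRef.mk (Pat.mk 0x10000000080000003800000000 0x10000000100000001c0000007c0000000f0000007800000008 6 7) 0 0 (step_sound _ 66 [rh14a9563831292a9d, (rhf48373e13d2bc128.shift 2 1)] (by decide +kernel))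
noncomputable def rh8a31d6c72afed64d : CRef := CRef.mk (Pat.mk 0x40000001c000000140000000000000000 0x40000003c0000007f0000000f00000008 6 7) 0 0 (step_sound _ 65 [(rh18965a982d73c794.shift 1 2), rh5b3d87d50d654779] (by decide +kernel))
noncomputable def rh6aad8efe44967d91 : CRef := CRef.mk (Pat.mk 0x100000000800000018000000000000000000000000 0x140000001e0000007c0000000f00000018000000180000001800000010 6 7) 0 0 (step_sound _ 163 [(rh543c24d529f35d58.shift 1 2), (rh6bc015b9268c8423.shift 0 1), (rh70e33bfdf511e144.shift 3 0), (rhe8f9550119ab603c.shift 3 1)] (by decide +kernel))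
noncomputable def rh93622995447db9a4 : CRef := CRef.mk (Pat.mk 0x100000003800000000 0xfe000000ff000001c7 6 9) 0 0 (step_sound _ 34 [(rh096767d96a1b3292.shift 2 0), (rh98619266ffce163e.shift 1 1), rhafaa61f79143ceed] (by decide +kernel))
noncomputable def rh96f7a0b878835f7a : CRef := CRef.mk (Pat.mk 0x30000000100000001000000038 0xf0000003e000000770000007e0000007e 6 7) 0 0 (step_sound _ 99 [(rh50fbb5868c909700.shift 3 0), rh73f1c1e21e218931] (by decide +kernel))
noncomputable def rhdff00721f478c6f2 : CRef := CRef.mk (Pat.mk 0x80000001e00000004 0x3000000030000003f0000001e00000007 6 6) 0 0 (step_sound _ 65 [(rh3244c3cc8379b070.shift 0 1), rhe1422ce20adc6e28] (by decide +kernel))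
noncomputable def rh01a87a18ffca372f : CRef := CRef.mk (Pat.mk 0x100000003800000000 0x3f7000001fe000001c7 6 10) 0 0 (step_sound _ 34 [rh592c7139d2c44767, (rhf1f3e2d43a118d9d.shift 2 0)] (by decide +kernel))
noncomputable def rhaa29144116768c39 : CRef := CRef.mk (Pat.mk 0x8000000080000001c000000000000000000000000 0xa0000000f0000007e000000070000000400000004 6 7) 0 0 (step_sound _ 66 [rh3c13e10ce72425b0, (rh4905ac576375a3ff.shift 1 1), (rha83d0a1d851c6a27.shift 1 2), (rhf9af042da61fc652.shift 2 0)] (by decide +kernel))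
noncomputable def rh694ed1e85ca31949 : CRef := CRef.mk (Pat.mk 0x1800000018000000080000001800000000 0x38000000ff000000ee0000007800000020 6 8) 0 0 (step_sound _ 98 [(rh99a461004b671b8c.shift 1 0), (rhab2ad169e49f9c5e.shift 0 3)] (by decide +kernel))
noncomputable def rhbecb7b6b40543d33 : CRef := CRef.mk (Pat.mk 0x8000000080000001800000000 0x140000001f00000038000000080000001800000018 6 6) 0 0 (step_sound _ 131 [(rh55afc6a59410cf00.shift 3 0), rh8b983d8d38afc2fd] (by decide +kernel))
noncomputable def rh7b613c777cc15e97 : CRef := CRef.mk (Pat.mk 0x400000002000000060000000600000000 0x4000000070000003e0000003f0000000a 6 6) 0 0 (step_sound _ 98 [(rh71222050f2c63a3a.shift 1 0), rhac43f9d0116938b1] (by decide +kernel))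
noncomputable def rh7526f2ea93d8cab7 : CRef := CRef.mk (Pat.mk 0x18000000380000000c0000000000000000 0x380000003f0000006c0000007800000038 6 7) 0 0 (step_sound _ 35 [rh484cbea75ed0336e, (rh71222050f2c63a3a.shift 3 0)] (by decide +kernel))
noncomputable def rh7a58cf807a84e638 : CRef := CRef.mk (Pat.mk 0x800000008000000080000001c00000000 0x40000000c00000008000000ff0000007f000000e0 6 8) 0 0 (step_sound _ 130 [(rh50fbb5868c909700.shift 2 1), rh5385f96c5ff769a4] (by decide +kernel))
noncomputable def rhd5ef177d1cffb8e2 : CRef := CRef.mk (Pat.mk 0x800000008000000080000001800000000 0x1800000018000000180000000f0000003c0000000c 6 6) 0 0 (step_sound _ 132 [rh0477d13a5aae0e40, (rh2f68792b6b779e96.shift 3 1)] (by decide +kernel))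
noncomputable def rh7d493b512bef535b : CRef := CRef.mk (Pat.mk 0x20000000200000002000000000000000000000000 0x50000000700000007000000030000000300000003000000070000000700000005 6 3) 0 0 (step_sound _ 64 [rh0e6924d680f6455d, rh544d3caba1e1e2bb, rh72a2a0258c45220e, (rhb77bfac3e9efecea.shift 0 2)] (by decide +kernel))
noncomputable def rh3b6182323a282485 : CRef := CRef.mk (Pat.mk 0x100000000800000008000000080000000000000000 0x1800000018000000080000000f0000003c00000014 6 6) 0 0 (step_sound _ 35 [rh161c003cd166b8ec, (rhbaefcd01e0a8bca3.shift 3 1)] (by decide +kernel))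
noncomputable def rhf5087a0274320ca0 : CRef := CRef.mk (Pat.mk 0xc0000000800000008000000000000000000000000 0x80000000c0000000c0000000f0000003c0000001c00000014 6 6) 0 0 (step_sound _ 67 [(rh641b5241be04eec6.shift 0 1), (rha613ffd40b6c9d24.shift 2 0), (rhe4441baab75a6f73.shift 2 0)] (by decide +kernel))
noncomputable def rh80b150511593bc79 : CRef := CRef.mk (Pat.mk 0xe0000000800000008 0x10000000370000003e0000007f00000008 6 7) 0 0 (step_sound _ 36 [(rh1d0feb764c8c303c.shift 1 0), (rh89ade209b3e28f13.shift 1 1), (rhae2edff970a530ce.shift 1 1), rhff0c7776917c9a6f] (by decide +kernel))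
noncomputable def rhc1f484555e5bc6ca : CRef := CRef.mk (Pat.mk 0x10000000180000007000000000 0x100000001000000010000000f80000007f0000000f 6 8) 0 0 (step_sound _ 35 [rh3e9601eff8aa538d, (rh503dd4575245365b.shift 3 0), (rh9e97bba44c1b13e4.shift 1 0)] (by decide +kernel))
noncomputable def rh07efd08473cc6625 : CRef := CRef.mk (Pat.mk 0x1e00000018000000080000000000000000 0x200000002000000030000003e0000001f0000000c0000000800000008 6 6) 0 0 (step_sound _ 97 [rh0b41d276f137a972, (rheb0810cc63b001d8.shift 0 3)] (by decide +kernel))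
noncomputable def rh6a0ade40003b9405 : CRef := CRef.mk (Pat.mk 0x8000000080000000c00000004000000000000000000000000 0x60000000f0000003c0000000e0000007c000000180000001800000018 6 7) 0 0 (step_sound _ 99 [(rh36d4d92ef3dad5f8.shift 1 2), (rha10abbb88ab9db0f.shift 0 2), (rhdd11e03a2f8b13b6.shift 2 0)] (by decide +kernel))
noncomputable def rh6fe0f4b11e743d61 : CRef := CRef.mk (Pat.mk 0x4000000040000000600000000 0xa0000000f0000003c000000040000000600000006 6 6) 0 0 (step_sound _ 130 [(rh932754581e0f4330.shift 1 0), rhf149b0c20b930719] (by decide +kernel))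
noncomputable def rhf9ca639447e65cb7 : CRef := CRef.mk (Pat.mk 0x4000000040000000600000000000000000000000000000000 0x80000000c0000000e000000070000003e0000000e0000000600000004 6 6) 0 0 (step_sound _ 97 [rh056b5712875b258c, (rh42548283029e2a39.shift 1 1), (rhf9af042da61fc652.shift 1 1)] (by decide +kernel))
noncomputable def rha390e8a1c4415e34 : CRef := CRef.mk (Pat.mk 0x2000000020000000200000003000000000000000000000000 0x600000006000000060000000300000003000000060000000600000006 6 3) 0 0 (step_sound _ 194 [(rh2f68792b6b779e96.shift 1 3), rh76ef3887783defbe] (by decide +kernel))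
noncomputable def rh1f5170306f1a696f : CRef := CRef.mk (Pat.mk 0x1000000000000000200000007000000000 0x1000000010000003bf000001fe0000038e 6 10) 0 0 (step_sound _ 39 [(rh3fc3a7fb6866dcd4.shift 4 0), rh7500686ab197c6e2, (rhe3060b190bc0bc78.shift 3 1)] (by decide +kernel))
noncomputable def rhca057816a6491176 : CRef := CRef.mk (Pat.mk 0x100000001000000030000000200000002000000000 0x50000000df000000fe000001ef0000002800000008 6 9) 0 0 (step_sound _ 99 [(rh8ee80cc30e93a344.shift 2 2), (rhc92c11e8da6c894f.shift 0 2), (rhcced840e0475f351.shift 2 1), rhd8215403ae36d74e] (by decide +kernel))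
noncomputable def rhe4b1e70c32ad43a7 : CRef := CRef.mk (Pat.mk 0x20000000f00000004 0x8000000080000001b0000003f00000076 6 7) 0 0 (step_sound _ 36 [(rh3244c3cc8379b070.shift 0 1), rh705538e519d3863a] (by decide +kernel))
noncomputable def rhe5ee21331d2714c1 : CRef := CRef.mk (Pat.mk 0x800000008000000380000000000000000 0x140000003c0000000f000000380000001f0000000c 6 6) 0 0 (step_sound _ 35 [rh852e818bc8629e77, rh900a894640be090c] (by decide +kernel))
noncomputable def rh2944821ec1d622e9 : CRef := CRef.mk (Pat.mk 0x38000000200000002000000000 0x4000000040000000f0000007e0000003e0000006800000008 6 7) 0 0 (step_sound _ 98 [(rh53a67166fa760459.shift 1 1), (rhd1d05263fabc0227.shift 0 2), (rhfee9114d0243076f.shift 1 0)] (by decide +kernel))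
noncomputable def rhbaf19a3d08b45560 : CRef := CRef.mk (Pat.mk 0x4000000040000000c00000000000000000000000000000000 0x2000000060000000e0000003c0000000f0000000e0000000c00000004 6 6) 0 0 (step_sound _ 99 [(rh08edf065357d68e5.shift 2 1), rh35273267d1605123, (rh79ad7b82ec8c35e2.shift 2 1)] (by decide +kernel))
noncomputable def rh04bda38b50e6ab71 : CRef := CRef.mk (Pat.mk 0x4000000040000000c0000000800000000 0x180000003c0000000f0000003c0000000f00000006 6 6) 0 0 (step_sound _ 34 [rha71afc656c87d410, rhd65b950e17d04dd6] (by decide +kernel))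
noncomputable def rh8b488706f444a2de : CRef := CRef.mk (Pat.mk 0x80000000e000000040000000400000000 0x20000000f0000003e000000770000001400000010 6 7) 0 0 (step_sound _ 100 [rh1a21da3de03172c3, (rh9ab60d74117ac343.shift 1 2), (rheddd3d8f7db62149.shift 0 1)] (by decide +kernel))
noncomputable def rha7054fc384045257 : CRef := CRef.mk (Pat.mk 0xc00000004000000040000000000000000 0xc0000000c000000040000003c0000000f0000000a 6 6) 0 0 (step_sound _ 34 [(rh2f68792b6b779e96.shift 2 1), rh7133a7a78d762f91] (by decide +kernel))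
noncomputable def rh87478d023b72c5ca : CRef := CRef.mk (Pat.mk 0xc0000000400000004000000000000000000000000 0x40000000c0000000c0000003c0000000f0000000e0000000a 6 6) 0 0 (step_sound _ 66 [(rh7133a7a78d762f91.shift 0 1), (rh8c3839f9b9075f23.shift 2 0), (rha8bc3cae4d77a08f.shift 1 0)] (by decide +kernel))
noncomputable def rh92fbf0a7f4b51057 : CRef := CRef.mk (Pat.mk 0x800000008000000080000000000000000 0x100000001c0000003c0000000f00000018000000180000001800000010 6 6) 0 0 (step_sound _ 163 [(rh5ee4dc8825dcefa0.shift 0 1), (rh8ff3dde5b1c639e0.shift 2 0), (rhced6d86d2069808b.shift 3 1)] (by decide +kernel))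
noncomputable def rhb8284454e60bba5e : CRef := CRef.mk (Pat.mk 0xe00000004000000040000000c00000000 0x100000003f0000003f0000003c0000000f00000002 6 6) 0 0 (step_sound _ 33 [(rh4141ad616a639e65.shift 0 1), (rh932754581e0f4330.shift 1 0)] (by decide +kernel))
noncomputable def rhc81c36b29ab31035 : CRef := CRef.mk (Pat.mk 0x80000001800000070000000100000000000000000 0x200000006c000000f80000007f000000f70000006000000020 6 8) 0 0 (step_sound _ 99 [(rh5b460b71d8952ca9.shift 0 2), (rh653726311b917cd6.shift 2 1), (rh9fdcb09dfa6419d9.shift 2 3), (rhce71534e51e0a15e.shift 2 0)] (by decide +kernel))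
noncomputable def rh5ef739bd19003a8e : CRef := CRef.mk (Pat.mk 0x1c00000008000000080000001800000000 0x600000003f0000007f0000003f0000007800000020 6 7) 0 0 (step_sound _ 100 [(rh2887e039268cde47.shift 0 1), (rh6292bd8784ece55f.shift 1 3), rhf163d72258121a87] (by decide +kernel))
noncomputable def rhebb0a8b8b1078164 : CRef := CRef.mk (Pat.mk 0x180000003000000010 0x1c000000ff0000003e 6 8) 0 0 (step_sound _ 38 [rh299ff4d63237e5cf, (rhf48373e13d2bc128.shift 3 1)] (by decide +kernel))
noncomputable def rh7ce7dd2c71ef673e : CRef := CRef.mk (Pat.mk 0xc0000001800000008 0xe0000007f0000003f 6 7) 0 0 (step_sound _ 37 [rh2eef6b0b5785cfba, (rhf48373e13d2bc128.shift 2 1)] (by decide +kernel))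
noncomputable def rh6efafc70e63e91cf : CRef := CRef.mk (Pat.mk 0x100000007800000000 0x1c0000007f000000e7 6 8) 0 0 (step_sound _ 67 [(rh3244c3cc8379b070.shift 2 1), rh5b460b71d8952ca9] (by decide +kernel))
noncomputable def rh7b4c47f465ae51a3 : CRef := CRef.mk (Pat.mk 0x2000000100000001e000000000000000000000000 0x80000000c0000001f000000180000001f0000000c0000000800000008 6 5) 0 0 (step_sound _ 131 [(rh53b3c253cb0c65f4.shift 0 3), rh7a7c89c57ec0d30e] (by decide +kernel))
noncomputable def rhc193874f8fd999cc : CRef := CRef.mk (Pat.mk 0x400000004000000040000000400000000 0xa0000000f0000003c000000040000000600000006 6 6) 0 0 (step_sound _ 33 [(rh932754581e0f4330.shift 1 0), rhf149b0c20b930719] (by decide +kernel))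
noncomputable def rh5aff7dd62f36eb54 : CRef := CRef.mk (Pat.mk 0x4000000020000000200000002000000000000000000000000 0x5000000070000000300000002000000070000000700000001 6 3) 0 0 (step_sound _ 65 [rh102ff83374b12adf, (rhbaefcd01e0a8bca3.shift 1 2)] (by decide +kernel))
noncomputable def rh8e644d8be7574fe7 : CRef := CRef.mk (Pat.mk 0x40000000e00000002 0xec0000007e00000073 6 8) 0 0 (step_sound _ 36 [(rh399a4306c3957ea3.shift 1 0), rheb0810cc63b001d8] (by decide +kernel))
noncomputable def rhb0dee21a81b17dad : CRef := CRef.mk (Pat.mk 0x1000000038000000080000000800000000 0x4000000360000003f0000007e0000002800000020 6 7) 0 0 (step_sound _ 98 [(rh5dec5e73a267a1c4.shift 0 2), (rhd2bf33c75c56dd81.shift 1 0), (rhe4f9133a81c1dbc5.shift 1 1)] (by decide +kernel))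
noncomputable def rh460595216b09bad8 : CRef := CRef.mk (Pat.mk 0xe000000120000000200000000 0x8000000080000003f0000001e0000003300000010 6 6) 0 0 (step_sound _ 67 [rh2d9828c6f9c9f36e, (rhb739f4f82bb681b4.shift 0 2)] (by decide +kernel))
noncomputable def rh7f74ee904408f3a3 : CRef := CRef.mk (Pat.mk 0x40000000e00000012 0xec0000007f0000003e 6 8) 0 0 (step_sound _ 32 [rh96851dee118c1ba3, (rhbc0930b8ae400bb5.shift 1 0)] (by decide +kernel))
noncomputable def rhde865be01b10eb42 : CRef := CRef.mk (Pat.mk 0x800000008000000180000001000000010 0x200000007c000001ef0000007e0000007700000010 6 9) 0 0 (step_sound _ 69 [(rh28b05447332bc696.shift 1 0), rh297fae84acdfca38, rh94696ecf4eb36c5e, (rha9fbfd4bb8cf890b.shift 0 2)] (by decide +kernel))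
noncomputable def rhb4ab1f603a1f6377 : CRef := CRef.mk (Pat.mk 0x300000006000000020000000000000000 0x40000000600000006000000030000001f000000070000000700000005 6 5) 0 0 (step_sound _ 99 [rhd8cb4a296078e630, (rhf48373e13d2bc128.shift 0 3)] (by decide +kernel))
noncomputable def rhf8af848e37709e2b : CRef := CRef.mk (Pat.mk 0x200000002000000038000000000000000000000000 0x640000003e0000007e0000000f0000000800000008 6 7) 0 0 (step_sound _ 98 [(rh2591032a0e7f4182.shift 0 2), (rh5e434997c9d61ee8.shift 1 3), (rhe6f3c981f45ee7b2.shift 1 0)] (by decide +kernel))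
noncomputable def rh537cfd2cf5ead575 : CRef := CRef.mk (Pat.mk 0x80000000800000008000000000000000000000000 0x140000001c0000001c00000008000000180000001f0000003c0000001400000010 6 6) 0 0 (step_sound _ 68 [(rh1148744b53f3df58.shift 2 2), (rh2977b00063528966.shift 3 0), (rh475253e964ed1313.shift 3 0), (rh47dece01c1595e79.shift 3 0), (rhfa80626feb4e9cb5.shift 0 1)] (by decide +kernel))
noncomputable def rh352160a50e80ed35 : CRef := CRef.mk (Pat.mk 0x100000001000000030000000200000002000000000 0x50000000df000000fe000001ef0000002800000008 6 9) 0 0 (step_sound _ 99 [rh596def3aae05c2e3, (rh8ee80cc30e93a344.shift 2 2), (rhc92c11e8da6c894f.shift 0 2), (rhcced840e0475f351.shift 2 1)] (by decide +kernel))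
noncomputable def rhea963f5b2e1a821e : CRef := CRef.mk (Pat.mk 0xe000000180000000800000000 0x12000000330000003e0000001f0000000c00000004 6 6) 0 0 (step_sound _ 100 [rh3d7151462090f86e, (rh5421160f8e9bcf07.shift 1 1)] (by decide +kernel))
noncomputable def rhe0210c8056a715cf : CRef := CRef.mk (Pat.mk 0x100000003800000020 0x1de000000fe0000003f 6 9) 0 0 (step_sound _ 38 [rh2efad3051cff7df1, (rh3b00e9e9432b8f40.shift 2 0), (rhe3060b190bc0bc78.shift 2 1)] (by decide +kernel))
noncomputable def rh728d4314e53513c6 : CRef := CRef.mk (Pat.mk 0x30000000e0000000200000000 0x60000000e0000001e0000000f0000000f0000000600000004 6 5) 0 0 (step_sound _ 129 [rh1346e72f0829785b, (rhd4b4beefcd67f51e.shift 1 0), (rhf8f2dd1658083a86.shift 0 1)] (by decide +kernel))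
noncomputable def rh74b578d87e20891d : CRef := CRef.mk (Pat.mk 0x1c00000038000000080000000000000000 0x3c0000003f0000007e0000000600000006 6 7) 0 0 (step_sound _ 98 [(rh4dc133ee0ba1420a.shift 0 3), (rh8cd7ffe18900bf90.shift 1 0), (rhe153806bfe3acc65.shift 0 2)] (by decide +kernel))
noncomputable def rh59a59006f10a57e8 : CRef := CRef.mk (Pat.mk 0xc00000038000000080000000000000000 0x3c0000003f0000007f0000000600000006 6 7) 0 0 (step_sound _ 98 [(rh71b0012dd1d2fc9e.shift 0 2), (rh8553864a7729a62a.shift 0 2), (rh85c0b598b01483fb.shift 1 0)] (by decide +kernel))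
noncomputable def rh9efe9d2676f39eee : CRef := CRef.mk (Pat.mk 0x40000000e000000180000000800000000 0x12000000370000003e0000001f0000000f00000006 6 6) 0 0 (step_sound _ 33 [rh0b4b7ae5c383f530, rh56e4e454e4507d2a, (rhfd4f77c59ce6444f.shift 0 1)] (by decide +kernel))
noncomputable def rh2aef90968dbc61ee : CRef := CRef.mk (Pat.mk 0x400000008000000080000000800000000 0xc0000000c000000080000000f0000003c00000014 6 6) 0 0 (step_sound _ 131 [rh161c003cd166b8ec, (rh50fbb5868c909700.shift 2 1)] (by decide +kernel))
noncomputable def rh8cdb937463140449 : CRef := CRef.mk (Pat.mk 0x800000008000000080000000400000000 0x140000003c0000000f000000080000000c0000000c 6 6) 0 0 (step_sound _ 35 [rh245d56c915813f64, (rh932754581e0f4330.shift 2 0)] (by decide +kernel))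
noncomputable def rhd84af89415c37073 : CRef := CRef.mk (Pat.mk 0x8000000080000000c000000000000000000000000 0xc0000000c0000001f0000007c0000001c0000001c 6 7) 0 0 (step_sound _ 34 [rh3990b01325a162c5, (rhda5c24898b172b78.shift 0 1), (rhdebc43b768884653.shift 2 0)] (by decide +kernel))
noncomputable def rhdb76e318f58310eb : CRef := CRef.mk (Pat.mk 0x1800000008000000080000000800000008000000000000000000000000 0x1c0000000f0000007c0000001f0000000c000000180000001800000010 6 7) 0 0 (step_sound _ 194 [(rh50fbb5868c909700.shift 2 3), rh63c404d8cf5f1e56] (by decide +kernel))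
noncomputable def rhdf55a3cf74c000d9 : CRef := CRef.mk (Pat.mk 0x18000000080000000800000008000000040000000000000000 0x1c0000000f0000000c000000080000001c0000001c00000010 6 5) 0 0 (step_sound _ 67 [(rh932754581e0f4330.shift 2 1), rhd4b77628d61fd29b] (by decide +kernel))
noncomputable def rh3d60672952e20467 : CRef := CRef.mk (Pat.mk 0x18000000080000000800000008000000100000000000000000 0x1c0000000f0000000c000000080000001c0000001c00000004 6 5) 0 0 (step_sound _ 67 [(rh55afc6a59410cf00.shift 3 1), rhfb5cb32e78c34261] (by decide +kernel))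
noncomputable def rh5172286c035c58bb : CRef := CRef.mk (Pat.mk 0x800000008000000080000000000000000 0x4000000140000001f0000003c0000000c000000180000001800000010 6 6) 0 0 (step_sound _ 162 [(rh0dbc8abee7ad42d4.shift 2 1), (rh114f4abf4ea101c9.shift 2 1), (rh5b6dfefa866f05f2.shift 2 0), (rha5dc83e34999ae02.shift 0 1), (rhbab796f6dafe9186.shift 2 2)] (by decide +kernel))
noncomputable def rhe0b148644bf3b5fe : CRef := CRef.mk (Pat.mk 0x1c0000000c000000180000000000000000 0x1c0000000f0000001e0000000f0000000e 6 5) 0 0 (step_sound _ 97 [(rh53b3c253cb0c65f4.shift 0 3), rhcc8ae2cac0a2d054] (by decide +kernel))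
noncomputable def rh400931a79e74b624 : CRef := CRef.mk (Pat.mk 0x38000000100000003000000000 0x1e70000007e000000df000000f000000020 6 9) 0 0 (step_sound _ 134 [(rh08d3933f89fce00d.shift 2 0), (rh551591afa7e9bd9a.shift 0 2), (rh9578164826709400.shift 2 3)] (by decide +kernel))
noncomputable def rh7cd7e6eff52d7363 : CRef := CRef.mk (Pat.mk 0x6000000060000000c0000000000000000 0x30000000300000007000000060000003f0000003b00000002 6 6) 0 0 (step_sound _ 161 [(rh2145e1d24b96a57e.shift 1 2), rhda8d1212cc9747c1] (by decide +kernel))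
noncomputable def rh2148ea6ec6872841 : CRef := CRef.mk (Pat.mk 0x800000004000000040000000400000000 0xc0000000c000000040000003c0000000f0000000a 6 6) 0 0 (step_sound _ 130 [(rh2f68792b6b779e96.shift 2 1), rh7133a7a78d762f91] (by decide +kernel))
noncomputable def rh9fc4675d371cc985 : CRef := CRef.mk (Pat.mk 0x100000001000000018000000080000000800000000 0x14000001f6000000fe000001ef0000002800000020 6 9) 0 0 (step_sound _ 101 [(rh2820ca9a6c4f41b4.shift 0 2), (rh2ead9b9cc22afc12.shift 1 0), (rha8e118612a5545ec.shift 1 1), (rhfa35e196e150edb4.shift 2 2)] (by decide +kernel))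
noncomputable def rhb6066409d8db432b : CRef := CRef.mk (Pat.mk 0x1000000010000000180000000e0000000000000000 0x12000000330000001f0000003e0000003700000004 6 6) 0 0 (step_sound _ 68 [(rh2aa7c1d375387a4e.shift 1 1), (rh6c5b90ba2a83bd67.shift 0 1), rh7e24dc22889eb307] (by decide +kernel))
noncomputable def rh7716a0b6c38a52b6 : CRef := CRef.mk (Pat.mk 0x2000000020000000200000002000000000000000000000000 0x100000003000000030000000200000003000000070000000700000004 6 3) 0 0 (step_sound _ 192 [(rh50fbb5868c909700.shift 0 3), rhbb4cbf87c97ba3b2] (by decide +kernel))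
noncomputable def rh642a73086d688d95 : CRef := CRef.mk (Pat.mk 0x3800000010 0x1c7000001ff0000007f 6 9) 0 0 (step_sound _ 34 [rh36293b903f20bf3c, (rha03f6e28ea70fc7d.shift 1 0), (rhdc47af25aa4e67ca.shift 1 0)] (by decide +kernel))
noncomputable def rhdc92070d64f72b0c : CRef := CRef.mk (Pat.mk 0x3000000010000000100000003800000000 0x180000000f00000007e000000f7000000fe000001c7 6 9) 0 0 (step_sound _ 70 [rh5e601430b8bc2e39, (rh7dcd5319f4f71bec.shift 2 1), (rh7efd17aed6c4d9fd.shift 1 0)] (by decide +kernel))
noncomputable def rhde389c9e572c1fa9 : CRef := CRef.mk (Pat.mk 0x18000000080000000800000008 0x140000001c0000001c0000000c0000003c0000000f0000000c0000000c 6 6) 0 0 (step_sound _ 131 [(rh3ca48e2a6d60153d.shift 2 0), (rh3d48cb4e7e716da9.shift 2 0), rha731882d5846ed59] (by decide +kernel))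
noncomputable def rhe633c85fbaee6c76 : CRef := CRef.mk (Pat.mk 0x40000000400000004000000000000000200000000 0x20000000a0000000f0000003e00000006000000040000000c0000000e0000000a 6 6) 0 0 (step_sound _ 193 [(rhbab796f6dafe9186.shift 1 3), (rhbec796c3ea7a32e6.shift 0 2), (rhd77f0ab32135815c.shift 1 0)] (by decide +kernel))
noncomputable def rhb54a26d2f745d65c : CRef := CRef.mk (Pat.mk 0xc000000080000000c0000000800000000 0x20000000e0000000c0000003c0000000f0000000e 6 6) 0 0 (step_sound _ 34 [(rh932754581e0f4330.shift 2 0), rhb3a090e527051e00] (by decide +kernel))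
noncomputable def rh4fa8a6123b57e686 : CRef := CRef.mk (Pat.mk 0xc000000080000000c0000000600000000 0x100000003c0000000f0000003c0000000e0000000a 6 6) 0 0 (step_sound _ 98 [(rh932754581e0f4330.shift 1 0), rh9cbf4b3761b77191] (by decide +kernel))
noncomputable def rhf7fa32c905637de6 : CRef := CRef.mk (Pat.mk 0xc000000080000000c0000000000000000 0x140000001c0000001c000000380000003f0000000f0000000c0000000800000008 6 6) 0 0 (step_sound _ 163 [rh1d6f0b00bc8dbeea, (rh5957e7489ef71d5a.shift 0 1), (rh8620e06bbd6f00e0.shift 0 1), (rhb77bfac3e9efecea.shift 2 2)] (by decide +kernel))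
noncomputable def rh86deba971555456f : CRef := CRef.mk (Pat.mk 0x20000000400000004000000040000000000000000 0x600000006000000040000003c0000000f0000000a 6 6) 0 0 (step_sound _ 34 [rh7133a7a78d762f91, (rhffd04209dc8ea796.shift 1 1)] (by decide +kernel))
noncomputable def rhf92be61e355334ad : CRef := CRef.mk (Pat.mk 0x80000000800000008000000000000000000000000 0x10000000140000003c0000001f0000001c000000080000000c0000000c00000004 6 6) 0 0 (step_sound _ 196 [(rh08d50fe567eb1045.shift 3 2), (rh1725eba4bd36066a.shift 2 0), (rh22d86f446f3de558.shift 0 2), (rh5890386c1f942fa1.shift 3 3), (rh87d5e4118780fa3b.shift 3 2)] (by decide +kernel))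
noncomputable def rh92b5c61c720e21aa : CRef := CRef.mk (Pat.mk 0xc000000080000000800000000 0x8000000180000001c0000003c0000000f0000001c0000001800000010 6 6) 0 0 (step_sound _ 131 [(rh20ee5c2c4c3a9878.shift 0 1), (rhced6d86d2069808b.shift 3 0), (rhf15f1e29f6f0aa1f.shift 2 0)] (by decide +kernel))
noncomputable def rh2e15215092c81545 : CRef := CRef.mk (Pat.mk 0x20000000300000002000000020000000200000000 0x10000000700000007000000060000000300000003000000020000000300000001 6 3) 0 0 (step_sound _ 32 [(rh24e7089cea57625c.shift 0 2), rh932754581e0f4330] (by decide +kernel))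
noncomputable def rh1d728dc5a9041f7d : CRef := CRef.mk (Pat.mk 0x30000000180000000800000008 0x800000008000000ec000000ff000000380000001800000008 6 8) 0 0 (step_sound _ 102 [(rh18965a982d73c794.shift 3 2), rhf5cc576d48fe508a] (by decide +kernel))
noncomputable def rh1e7f51eda3853b0e : CRef := CRef.mk (Pat.mk 0x20000000200000002000000000000000000000000 0x50000000700000007000000060000000600000006000000070000000700000005 6 3) 0 0 (step_sound _ 194 [(rh08d50fe567eb1045.shift 1 2), rh984bfc6de6c2c524, (rh9fdf4b366b1cf3c3.shift 0 2)] (by decide +kernel))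
noncomputable def rhd8a69332657727ca : CRef := CRef.mk (Pat.mk 0xc0000000e000000010000000000000000 0x80000000c0000001e0000000f0000001e0000000e 6 5) 0 0 (step_sound _ 65 [(rh18965a982d73c794.shift 0 2), rhed0046e0a5e2120e] (by decide +kernel))
noncomputable def rhe76d838c2d7ad60b : CRef := CRef.mk (Pat.mk 0x1e00000016000000000000000000000000 0x800000008000000080000001e0000001e000000370000001600000006 6 6) 0 0 (step_sound _ 34 [(rh9960a7e9e80d4536.shift 1 0), rha5d276d823977079, (rha7b3b4b3a18251fd.shift 2 1), (rhd02f44a45c1a55c1.shift 1 0)] (by decide +kernel))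
noncomputable def rh85395bb47882c6f4 : CRef := CRef.mk (Pat.mk 0x1800000018000000080000000000000000 0x800000018000000180000000f0000003c0000001c 6 6) 0 0 (step_sound _ 35 [(rh71222050f2c63a3a.shift 3 0), rhf1a8127573b72831] (by decide +kernel))
noncomputable def rh3b935267018b8d50 : CRef := CRef.mk (Pat.mk 0xc00000004000000040000000400000000 0xc0000000c0000003e0000007f0000003a 6 7) 0 0 (step_sound _ 33 [rh1776f86c326c61ef, (rh932754581e0f4330.shift 1 0)] (by decide +kernel))
noncomputable def rh200490b95b6e5f38 : CRef := CRef.mk (Pat.mk 0x1e0000000600000004000000000000000000000000 0x800000008000000180000001f000000360000003e000000380000002800000008 6 6) 0 0 (step_sound _ 132 [rhe0330d848409bf44, (rhe25b0a99195a5d59.shift 1 4)] (by decide +kernel))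
noncomputable def rh55a52bd085952ad0 : CRef := CRef.mk (Pat.mk 0x1e00000006000000000000000000000000 0x20000001b0000001f00000006000000070000000700000007 6 5) 0 0 (step_sound _ 65 [(rh38a0850c9fea941e.shift 0 1), rh3b2fe3ab14852c84, rh733db848967e575c, rhc9767901e158f21b] (by decide +kernel))
noncomputable def rhb45defc2ba5580e7 : CRef := CRef.mk (Pat.mk 0xc0000000400000014000000000000000000000000 0xc0000000c000000370000003e0000000e0000000a 6 6) 0 0 (step_sound _ 66 [(rh8c3839f9b9075f23.shift 2 0), (rh8cdd36b03d57a2f6.shift 1 0), (rha8bc3cae4d77a08f.shift 1 0), (rhe06c7604aef75ec4.shift 0 1)] (by decide +kernel))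
noncomputable def rh7fb2b98ffd030877 : CRef := CRef.mk (Pat.mk 0x180000000e00000018 0x30000000300000001f0000001e0000003b 6 6) 0 0 (step_sound _ 36 [rh033256a0e285e4c4, (rhe25b0a99195a5d59.shift 1 0)] (by decide +kernel))
noncomputable def rhe308f246507dcae5 : CRef := CRef.mk (Pat.mk 0x180000000e000000180000000000000000 0x30000000300000001f0000001e0000001f0000003000000030 6 6) 0 0 (step_sound _ 100 [(rh033256a0e285e4c4.shift 0 2), rh404e8af4a6aeb81d, rha12ac78707b0d6bf, rhee2f2527188aceae] (by decide +kernel))
noncomputable def rh296053b8693ce0b6 : CRef := CRef.mk (Pat.mk 0x80000001c000000060000000000000000 0x80000000a0000001b0000001e000000360000001400000014 6 6) 0 0 (step_sound _ 163 [(rh5c5e593799055d58.shift 2 2), rha05dade6c2e991f3] (by decide +kernel))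
noncomputable def rhcb0d5cc83f467747 : CRef := CRef.mk (Pat.mk 0x4000000040000000e000000000000000000000000 0x80000000c0000000c0000000f0000003c0000001c00000008 6 6) 0 0 (step_sound _ 67 [(rh08edf065357d68e5.shift 2 0), (rh766dbcce72bea175.shift 0 1), (rh79ad7b82ec8c35e2.shift 2 0)] (by decide +kernel))
noncomputable def rhef4be602d2899c8c : CRef := CRef.mk (Pat.mk 0x80000001c00000006000000040000000000000000 0x10000000180000001e0000003e0000003f0000003b00000022 6 6) 0 0 (step_sound _ 68 [(rh145ac8fb36838629.shift 1 0), (rh2da56ecb3e4490c7.shift 1 0), (rh3be6b8746885e3c9.shift 0 1), rhe6760eaa6d926ed2, (rhf324027211bf676f.shift 1 1)] (by decide +kernel))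
noncomputable def rhdd33aeaeac85b2ce : CRef := CRef.mk (Pat.mk 0x4000000040000000e0000000200000000 0x80000000c0000000c0000000f0000001e0000001e 6 5) 0 0 (step_sound _ 34 [rh0346e09be1867b88, (rh932754581e0f4330.shift 1 0)] (by decide +kernel))
noncomputable def rh8df678ec2521a879 : CRef := CRef.mk (Pat.mk 0x7000000018000000000000000000000000 0x20000000280000006f0000007f000000f8000000d00000005000000040 6 8) 0 0 (step_sound _ 131 [(rh38a0850c9fea941e.shift 2 1), (rh4436203d7d59d0ac.shift 0 1), (rh95e960a96072856f.shift 2 0)] (by decide +kernel))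
noncomputable def rhc2a03900696379b1 : CRef := CRef.mk (Pat.mk 0xa0000000300000000000000000 0x1000000010000000fe000000fe000001ff00000020 6 9) 0 0 (step_sound _ 67 [rha38d52882d47603b, (rhc13f280295a1b38c.shift 2 1), (rhf4585caa3b13e38a.shift 2 2)] (by decide +kernel))
noncomputable def rhe686df4d7682774f : CRef := CRef.mk (Pat.mk 0x140000003c0000000000000000 0x60000000e0000000f0000001c0000003c0000000e00000004 6 6) 0 0 (step_sound _ 34 [rh1c41db8ae0e7331c, (rheb0810cc63b001d8.shift 1 1)] (by decide +kernel))
noncomputable def rh5e738780ccb5fa9e : CRef := CRef.mk (Pat.mk 0x1e000000000000000000000000 0x2000000030000003e000000370000000400000004 6 6) 0 0 (step_sound _ 129 [(rh3244c3cc8379b070.shift 0 3), rh84e3b9e87d369e42] (by decide +kernel))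
noncomputable def rhc91e9d6dd6deba7c : CRef := CRef.mk (Pat.mk 0xa0000001e0000000000000000 0x7000000070000001e0000001e0000000700000006 6 5) 0 0 (step_sound _ 33 [rh730dc7ad59ab4dad, (rheb0810cc63b001d8.shift 0 1)] (by decide +kernel))
noncomputable def rh0f7fe1328b21fc53 : CRef := CRef.mk (Pat.mk 0x1a0000001e000000000000000000000000 0x40000000700000007000000070000001e0000001e000000030000000200000002 6 5) 0 0 (step_sound _ 65 [rhdc69c39e7a1096f3, (rheb0810cc63b001d8.shift 0 2)] (by decide +kernel))
noncomputable def rh133fc973467c7340 : CRef := CRef.mk (Pat.mk 0x80000001800000018000000000000000000000000 0x8000000380000001f0000003f0000001c0000001c 6 6) 0 0 (step_sound _ 97 [rh50687376d5c2323e, (rh6d571b54e8dd9e33.shift 0 3), (rh764646065eef9665.shift 1 1)] (by decide +kernel))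
noncomputable def rh95ff87767d7b7039 : CRef := CRef.mk (Pat.mk 0x380000001800000010 0xc0000000c0000000f0000003f0000001f00000010 6 6) 0 0 (step_sound _ 131 [(rh1696c55e2becd961.shift 0 1), (rh6f1cbe15c631ee70.shift 3 0)] (by decide +kernel))
noncomputable def rh5cd25e8cfee4a4cf : CRef := CRef.mk (Pat.mk 0x8000000180000001c000000100000000000000000 0x40000000c0000001c0000001c0000001f0000000f0000000c 6 5) 0 0 (step_sound _ 67 [(rh2b2a2906262d769a.shift 0 1), (rh46530d756bdf8511.shift 2 0), (rhdf997f77704b6375.shift 2 0)] (by decide +kernel))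
noncomputable def rh08b1bc55b293a82e : CRef := CRef.mk (Pat.mk 0x80000001800000018000000000000000000000000 0x40000000f0000007c000000180000001c0000001c0000000c 6 7) 0 0 (step_sound _ 68 [(rh7b1f1fb55310c477.shift 3 1), rhe29607107df9456e] (by decide +kernel))
noncomputable def rh84713c4bf66e2b3e : CRef := CRef.mk (Pat.mk 0x8000000180000001800000000 0x1c0000003c0000000f000000180000001800000008 6 6) 0 0 (step_sound _ 131 [(rh2145e1d24b96a57e.shift 3 1), rh59c6c9d9132801ae] (by decide +kernel))
noncomputable def rh3ddc0e158e65b458 : CRef := CRef.mk (Pat.mk 0x3800000018000000000000000000000000 0x4000000270000003f0000001f000000180000001800000010 6 6) 0 0 (step_sound _ 68 [(rh5b7bf26d9fd76ab6.shift 0 1), (rhb0c1e7919d9be92d.shift 3 0)] (by decide +kernel))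
noncomputable def rh4de41532da770f77 : CRef := CRef.mk (Pat.mk 0x80000003800000018000000000000000000000000 0x8000000380000001f0000001f0000001c0000001c 6 6) 0 0 (step_sound _ 97 [(rh24ae073cf30720c4.shift 1 3), rh50687376d5c2323e] (by decide +kernel))
noncomputable def rh9fa91495f8ddafa9 : CRef := CRef.mk (Pat.mk 0x80000000c0000001800000010000000000000000000000000 0x40000000c0000000c0000001c0000001f0000000f0000000c00000008 6 5) 0 0 (step_sound _ 99 [(rh1152aee0afa96cae.shift 2 0), (rh24b4f41f846cb1d8.shift 2 1), (rhe286c75f2739cce2.shift 2 2), (rhfcbcce6cd1649a3a.shift 0 2)] (by decide +kernel))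
noncomputable def rh4cca100279b758e2 : CRef := CRef.mk (Pat.mk 0x4000000060000001c0000000000000000 0x2000000070000003e0000001f0000000700000006 6 6) 0 0 (step_sound _ 65 [rh2a2c9eb013bbac78, rh9c40a739b57d6d20] (by decide +kernel))
noncomputable def rh8782ce0c2912cd73 : CRef := CRef.mk (Pat.mk 0x80000000e000000180000000000000000 0x4000000040000000f0000003e0000001f0000000f0000000e 6 6) 0 0 (step_sound _ 130 [(rhbee6e767e08e2d8f.shift 0 1), rhcc8ae2cac0a2d054, (rhfc7c29d8e65d775f.shift 2 1)] (by decide +kernel))
noncomputable def rh6ffe651edfc67a41 : CRef := CRef.mk (Pat.mk 0x100000001800000070000000000000000000000000 0x10000000180000007f000000ff0000002800000020 6 8) 0 0 (step_sound _ 99 [(rh40b6721531d9ea8b.shift 2 0), (rh5b460b71d8952ca9.shift 0 2), (rh9c40a739b57d6d20.shift 2 1), (rha12011b5de94d698.shift 2 1)] (by decide +kernel))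
noncomputable def rhb21236efc33f050d : CRef := CRef.mk (Pat.mk 0x800000008000000180000000800000000 0x8000000080000001f000000ff000000f4 6 8) 0 0 (step_sound _ 36 [rh3a92da8e06ec150a, (rh55afc6a59410cf00.shift 3 0)] (by decide +kernel))
noncomputable def rhae5cc6fc2408e265 : CRef := CRef.mk (Pat.mk 0x1c000000200000000000000000 0x2000000030000003e000000370000000400000004 6 6) 0 0 (step_sound _ 97 [(rh96851dee118c1ba3.shift 1 2), rhe6f3c981f45ee7b2] (by decide +kernel))
noncomputable def rh8b1e6093a28b6d98 : CRef := CRef.mk (Pat.mk 0x20000000380000000000000000 0x8000000080000003f0000007e0000001f00000004 6 7) 0 0 (step_sound _ 98 [(rh1713b2a8615f2751.shift 0 1), rh55b3b931b9652e9d, (rh8c12fdbbddc1e7ab.shift 0 2)] (by decide +kernel))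
noncomputable def rhd8e35070d8f4d602 : CRef := CRef.mk (Pat.mk 0xa0000001e000000100000000000000000 0x60000000e0000001e0000001f0000003e00000016 6 6) 0 0 (step_sound _ 65 [(rhb04ed090344b019b.shift 1 0), (rheb0810cc63b001d8.shift 0 2)] (by decide +kernel))
noncomputable def rhb82c64198a2e83ed : CRef := CRef.mk (Pat.mk 0x50000000e000000080000000000000000 0x770000007e0000000e0000000800000008 6 7) 0 0 (step_sound _ 100 [(rh3f8766e6ecb455ce.shift 0 3), (rhedb501bfc7f08999.shift 1 0)] (by decide +kernel))
noncomputable def rh672f89fcd3cde2b2 : CRef := CRef.mk (Pat.mk 0x1000000010000000200000002800000008 0x1000000010000000770000003e0000000f 6 7) 0 0 (step_sound _ 36 [(rh3c88ce959c0e423f.shift 3 0), rhb12ffaec36122c99] (by decide +kernel))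
noncomputable def rhac30b87d02dfbc4b : CRef := CRef.mk (Pat.mk 0x400000006000000000000000a00000000 0x400000006000000760000003e00000007 6 7) 0 0 (step_sound _ 1 [(rh04253f50b6dd0619.shift 1 0), rhcdf35ec952c0de69] (by decide +kernel))
noncomputable def rh04a3f00e8605e1d0 : CRef := CRef.mk (Pat.mk 0x4000000140000001400000000 0x40000000400000004000000f70000007e000000ea 6 8) 0 0 (step_sound _ 35 [(rh4a0cb3a9508b05dd.shift 1 0), (rha11dfd15f08f96e3.shift 1 1), rheaf5453bdfd1db11] (by decide +kernel))
noncomputable def rh67389d957b6546fa : CRef := CRef.mk (Pat.mk 0x80000000c000000300000001400000000 0x20000000f0000003c0000003c0000001e00000002 6 6) 0 0 (step_sound _ 33 [(rh1c62b6193297d9e3.shift 1 1), rhd84b9c1352ccd1a3] (by decide +kernel))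
noncomputable def rh1baf1f1bde158072 : CRef := CRef.mk (Pat.mk 0x80000000e00000018000000000000000000000000 0x40000000c0000000e0000001e0000001f0000001e00000014 6 5) 0 0 (step_sound _ 67 [(rh67da111513bd6e2f.shift 0 1), (rh8cdd36b03d57a2f6.shift 2 0), (rh917528c935b12cb1.shift 2 1)] (by decide +kernel))
noncomputable def rh9e7fc64e715b2025 : CRef := CRef.mk (Pat.mk 0x1000000038000000000000002000000000 0x8000000080000001e000000fc0000000f0000007c00000008 6 8) 0 0 (step_sound _ 66 [(rh19f08b48cf271d79.shift 2 2), (rh73f5f7cdf41b5bc9.shift 1 1), rhe01c65f8563dc012, (rhe9a32cb39b958db8.shift 0 2)] (by decide +kernel))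
noncomputable def rhee4d0880a827f271 : CRef := CRef.mk (Pat.mk 0x80000001e00000000 0xef0000007e00000007 6 8) 0 0 (step_sound _ 64 [(rh3f8766e6ecb455ce.shift 0 1), rh75380d6b53574693] (by decide +kernel))
noncomputable def rh5bc32746712445d7 : CRef := CRef.mk (Pat.mk 0x80000000e000000080000000c00000000 0x80000001e000000ef0000007e000000f0 6 8) 0 0 (step_sound _ 36 [(rh55afc6a59410cf00.shift 3 0), rhcf2a1f5a1f336c17] (by decide +kernel))
noncomputable def rh8cf29acc80c00697 : CRef := CRef.mk (Pat.mk 0x3000000020000000200000001000000000000000000000000 0x7000000070000000600000003000000070000000600000004 6 3) 0 0 (step_sound _ 97 [(rh932754581e0f4330.shift 0 2), rhf435f65ca384ce7a] (by decide +kernel))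
noncomputable def rh497a05e3c8bf3361 : CRef := CRef.mk (Pat.mk 0xc0000001c000000040000000000000000 0x40000000c0000001c0000000f0000003c0000001c 6 6) 0 0 (step_sound _ 34 [(rh71222050f2c63a3a.shift 2 0), rhd47128db7eee9055] (by decide +kernel))
noncomputable def rhbd4a52ac624d985e : CRef := CRef.mk (Pat.mk 0xc0000001c000000040000000000000000 0x4000000040000000c0000001c0000001f0000007a00000018 6 7) 0 0 (step_sound _ 67 [(rh3af54b5f78790764.shift 0 1), (rh55a1f6c57a317ce6.shift 2 0), rh7e46ea4146e96981] (by decide +kernel))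
noncomputable def rhb177df7b86913e1b : CRef := CRef.mk (Pat.mk 0x160000001e000000000000000000000000 0x10000000160000001e0000003f0000000b0000000b 6 6) 0 0 (step_sound _ 68 [rhc0ac317fedfcc4fa, (rhe25b0a99195a5d59.shift 1 2)] (by decide +kernel))
noncomputable def rh3b48cd3fe207b607 : CRef := CRef.mk (Pat.mk 0x180000001800000008 0x4000000040000000f000000ff000000f800000008 6 8) 0 0 (step_sound _ 66 [(rhad5d8fc3675c15dd.shift 0 1), (rhc374d120537e5679.shift 1 0), rhfa84e23ffa1d661f] (by decide +kernel))
noncomputable def rha8913c419c91a0e1 : CRef := CRef.mk (Pat.mk 0x38000000180000000000000000 0x200000002000000067000000ff000000380000001000000010 6 8) 0 0 (step_sound _ 102 [(rh18965a982d73c794.shift 3 2), rh4436203d7d59d0ac] (by decide +kernel))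
noncomputable def rh23ea10580a160264 : CRef := CRef.mk (Pat.mk 0xc0000000c000000080000000800000000 0x20000000f0000003c0000000f0000003c00000014 6 6) 0 0 (step_sound _ 34 [rh5edc28b3b13a94d0, (rh932754581e0f4330.shift 2 0)] (by decide +kernel))
noncomputable def rh62fb63d9b42f2237 : CRef := CRef.mk (Pat.mk 0x1c0000000c000000000000000000000000 0x10000000300000001f0000007c000000780000002800000020 6 7) 0 0 (step_sound _ 100 [(rh523334f89545e18f.shift 2 0), (rh79b3c29022acbdf3.shift 1 3), (rh8d364617c03d6975.shift 0 1)] (by decide +kernel))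
noncomputable def rhf775aca282a1435b : CRef := CRef.mk (Pat.mk 0x180000000e000000080000000000000000 0x10000000180000003e0000007f0000000800000008 6 7) 0 0 (step_sound _ 35 [(rh2f68792b6b779e96.shift 3 1), rhe1895bac57b7c265] (by decide +kernel))
noncomputable def rhef413c2d0781fc93 : CRef := CRef.mk (Pat.mk 0x180000000e000000080000000000000000 0x4000000040000001f0000003e0000007f0000003200000030 6 7) 0 0 (step_sound _ 100 [(rh21460d2d48a35cb8.shift 0 1), rh2d432a4e867e50f2, (rhe401600d466b97cd.shift 0 2)] (by decide +kernel))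
noncomputable def rh1a1a18682c0d9828 : CRef := CRef.mk (Pat.mk 0x1c00000006000000000000000000000000 0x80000001f0000003f000000300000001000000010 6 6) 0 0 (step_sound _ 129 [rh95e960a96072856f, (rheb0810cc63b001d8.shift 0 3)] (by decide +kernel))
noncomputable def rh5fa4104cacb07f9d : CRef := CRef.mk (Pat.mk 0xf0000000d0000000000000000 0xc0000000c0000001c0000000f0000000f0000001800000010 6 5) 0 0 (step_sound _ 131 [(rh33e738c4ed385b9f.shift 0 3), rhfb5158def8c091b2] (by decide +kernel))
noncomputable def rha9950db4eb996b95 : CRef := CRef.mk (Pat.mk 0xa0000000f00000000000000000000000000000000 0xe0000000e0000000f0000001c0000001c0000001c00000014 6 5) 0 0 (step_sound _ 99 [(rh01dabd5d8d550e03.shift 1 0), (rhe25b0a99195a5d59.shift 0 3)] (by decide +kernel))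
noncomputable def rhef5b9baa1068dc7c : CRef := CRef.mk (Pat.mk 0x160000000e00000000 0x600000006000000070000001e0000000f0000000a 6 5) 0 0 (step_sound _ 67 [(rh53b3c253cb0c65f4.shift 0 1), rhc63fea8de369bd5a] (by decide +kernel))
noncomputable def rh2eac8b47c08b11de : CRef := CRef.mk (Pat.mk 0x100000001e00000000000000000000000000000000 0x1800000018000000180000001e0000003b000000380000003800000028 6 6) 0 0 (step_sound _ 100 [rhc0b2f4c5a70222e2, (rhe25b0a99195a5d59.shift 1 3)] (by decide +kernel))
noncomputable def rh3d46a4789c187384 : CRef := CRef.mk (Pat.mk 0xe00000018000000100000000000000000 0x300000003e0000001f000000300000003000000030 6 6) 0 0 (step_sound _ 36 [rh2b599ba28e9b9b7c, (rh7b1f1fb55310c477.shift 3 0)] (by decide +kernel))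
noncomputable def rhcea46497ce748772 : CRef := CRef.mk (Pat.mk 0x8000000000000000e000000180000000000000000 0x180000001c000000340000003e0000001f0000000300000002 6 6) 0 0 (step_sound _ 100 [rh21703bbb6af57eb9, (rh4d8d614e03a7f6ad.shift 1 2)] (by decide +kernel))
noncomputable def rh99f1e932c1bbb552 : CRef := CRef.mk (Pat.mk 0x2000000038000000600000000000000000 0x38000000380000003f000000780000007e0000001c00000010 6 7) 0 0 (step_sound _ 68 [(rh1e309b005ffa1b36.shift 4 0), (rh1fae7b04b87de3ff.shift 1 1), rh8d8c9d8a382f5fcd] (by decide +kernel))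
noncomputable def rhf37b56344af8bbd7 : CRef := CRef.mk (Pat.mk 0x80000001e000000180000000000000000 0x20000000b0000001e0000001f0000003400000014 6 6) 0 0 (step_sound _ 65 [(rheb0810cc63b001d8.shift 0 2), rhebf196258d397ebc] (by decide +kernel))
noncomputable def rh2bfd804cf5729c44 : CRef := CRef.mk (Pat.mk 0x1c00000006000000040000000000000000 0x2000000070000001e000000060000000e0000000e0000000e 6 5) 0 0 (step_sound _ 129 [(rh21ec48dd0948616f.shift 1 0), (rh309fd0c3d364cd61.shift 0 2), (rh3cb04db3dd2b6a55.shift 1 0)] (by decide +kernel))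
noncomputable def rh95c28bb70c879e42 : CRef := CRef.mk (Pat.mk 0x1e000000120000000000000000 0x8000000080000003c0000003f000000160000000400000004 6 6) 0 0 (step_sound _ 132 [(rh33e738c4ed385b9f.shift 1 3), rhf5948cc8025fecd3] (by decide +kernel))
noncomputable def rhf573e56196677539 : CRef := CRef.mk (Pat.mk 0x10000000f0000000500000000 0xb0000001f0000001f0000000f0000000700000003 6 5) 0 0 (step_sound _ 99 [(rh33e738c4ed385b9f.shift 0 2), rh5dbe3ffea280c1d2] (by decide +kernel))
noncomputable def rhb59e6b785b53a7cd : CRef := CRef.mk (Pat.mk 0x3c0000001c000000000000000000000000 0x2000000028000000780000003c0000003c0000000f0000000c00000008 6 7) 0 0 (step_sound _ 165 [rh181181fc45c2bb3b, (rh33e738c4ed385b9f.shift 2 4)] (by decide +kernel))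
noncomputable def rhbe589b6cf9f57e82 : CRef := CRef.mk (Pat.mk 0x10000000f00000004 0xa0000001e0000001f0000001f00000004 6 5) 0 0 (step_sound _ 65 [rh771cddb673a52b2d, (rhf48373e13d2bc128.shift 0 1)] (by decide +kernel))
noncomputable def rh803f6dd2a5876eb9 : CRef := CRef.mk (Pat.mk 0x3c00000000 0x3c000000ff0000000e 6 8) 0 0 (step_sound _ 2 [rhe8762994e38c2500, (rheb0810cc63b001d8.shift 1 0)] (by decide +kernel))
noncomputable def rh24ef24cefaf326ac : CRef := CRef.mk (Pat.mk 0x4000000040000001c0000000a00000000 0x180000003c0000000f0000001c0000000e00000006 6 6) 0 0 (step_sound _ 34 [rh5de6bdf93c36c3fe, (rh932754581e0f4330.shift 1 0)] (by decide +kernel))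
noncomputable def rh7bf9f9b2f3f08994 : CRef := CRef.mk (Pat.mk 0x600000006000000040000000000000000 0x400000006000000060000003c0000000f0000000e 6 6) 0 0 (step_sound _ 34 [(rh7b1f1fb55310c477.shift 1 0), rh957e3bb4c843b184] (by decide +kernel))
noncomputable def rhbbbd2f5eb6f45b5a : CRef := CRef.mk (Pat.mk 0x2000000080000000e0000000400000000 0x1c0000001f000000180000000f0000000c00000008 6 5) 0 0 (step_sound _ 131 [(rh5c5e593799055d58.shift 2 1), rhf4c3a701c5b3ffe1] (by decide +kernel))
noncomputable def rh844e02e778852a5e : CRef := CRef.mk (Pat.mk 0x10000000e00000002 0xe30000007e000000e6 6 8) 0 0 (step_sound _ 36 [(rh3d54e7f933686048.shift 1 0), (rh3f8766e6ecb455ce.shift 0 1)] (by decide +kernel))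
noncomputable def rh11ffb48dd5da4d94 : CRef := CRef.mk (Pat.mk 0x20000001c000000000000000000000000 0x10000000330000001f000000380000000800000008 6 6) 0 0 (step_sound _ 97 [(rh3244c3cc8379b070.shift 0 3), rhc02275ce183c9512] (by decide +kernel))
noncomputable def rhab14604a89c95407 : CRef := CRef.mk (Pat.mk 0x1c00000018000000000000000000000000 0x1800000018000000380000001f00000018000000300000003000000030 6 6) 0 0 (step_sound _ 129 [(rh8d5f0807ccfa8de1.shift 1 0), (rhb739f4f82bb681b4.shift 0 3)] (by decide +kernel))
noncomputable def rh01d0cb90a5fc7f43 : CRef := CRef.mk (Pat.mk 0x20000000e000000080000000400000000 0x600000006000000060000000e0000000e0000003c0000000f0000000a 6 6) 0 0 (step_sound _ 130 [rh151e2a60f27a60dd, (rh17c2d6a3bf856828.shift 1 1), (rha40d42a2e34c408d.shift 2 0)] (by decide +kernel))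
noncomputable def rhc9e87445c2295664 : CRef := CRef.mk (Pat.mk 0xc00000008000000040000000000000000 0x80000000c0000000c000000780000001f0000007c00000014 6 7) 0 0 (step_sound _ 67 [(rh23aad281f166fc15.shift 1 1), (rh47ecea03df6fae84.shift 2 0), rh6a7842d1b9fdbc66] (by decide +kernel))
noncomputable def rhadab841c0e82eed8 : CRef := CRef.mk (Pat.mk 0x1000000018000000180000000000000000 0xc0000000c0000001c000000180000007c0000000f0000000c 6 7) 0 0 (step_sound _ 35 [rh14160a14f7484138, (rh71222050f2c63a3a.shift 3 0)] (by decide +kernel))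
noncomputable def rh167204e06883dcc7 : CRef := CRef.mk (Pat.mk 0x100000001c000000180000000800000000 0xc0000000f0000001f0000001c0000001c0000000c00000004 6 5) 0 0 (step_sound _ 131 [(rh7b9fbdf6d2d059e4.shift 2 1), (rhbd1553ade3ecbf42.shift 2 0), rhf3711a81227b0b0c] (by decide +kernel))
noncomputable def rh6c5f16568e2653cf : CRef := CRef.mk (Pat.mk 0x60000000e000000000000000000000000 0x10000000360000003f000000380000000800000008 6 6) 0 0 (step_sound _ 100 [rhc02275ce183c9512, (rhf48373e13d2bc128.shift 1 3)] (by decide +kernel))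
noncomputable def rhdf6656ca36adc299 : CRef := CRef.mk (Pat.mk 0x4000000380000001400000000 0xc0000000c0000000f0000003c0000001c0000000c 6 6) 0 0 (step_sound _ 97 [(rh09d4dfe75d4407d6.shift 1 2), rhff12211f8d540627] (by decide +kernel))
noncomputable def rha3d5a187030543f4 : CRef := CRef.mk (Pat.mk 0xf8000000a0 0x4000000040000000e7000000fe000000b0 6 8) 0 0 (step_sound _ 70 [rh13e3211f0ffb8916, (rh33e738c4ed385b9f.shift 3 1)] (by decide +kernel))
noncomputable def rhb473f5aadaed2c9d : CRef := CRef.mk (Pat.mk 0x80000007000000020 0xec0000007e00000037 6 8) 0 0 (step_sound _ 35 [rh0bb0878927975bcc, (rh3244c3cc8379b070.shift 2 1)] (by decide +kernel))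
noncomputable def rh5a734b92f755bb04 : CRef := CRef.mk (Pat.mk 0x38000000100000000000000000 0x4000000770000007f0000001e0000000800000008 6 7) 0 0 (step_sound _ 66 [rh17e8264d38bbd1e6, (rh72297cd55a503360.shift 1 2), (rha0f541aa9ffae9a1.shift 0 2)] (by decide +kernel))
noncomputable def rhcfbeed7d979793f9 : CRef := CRef.mk (Pat.mk 0x60000001c0000000800000000 0x14000000340000003e0000001f0000000b00000002 6 6) 0 0 (step_sound _ 130 [(rh2145e1d24b96a57e.shift 2 1), rh9a4ffeb09aa9e643] (by decide +kernel))
noncomputable def rhe924b7cb38494c49 : CRef := CRef.mk (Pat.mk 0x7800000020 0xec0000007e00000037 6 8) 0 0 (step_sound _ 67 [rh0bb0878927975bcc, (rh3244c3cc8379b070.shift 2 1)] (by decide +kernel))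
noncomputable def rh989acc546a4ec333 : CRef := CRef.mk (Pat.mk 0x60000000e000000000000000000000000 0x4000000040000000e0000003f000000380000000800000008 6 6) 0 0 (step_sound _ 100 [rh170af8696fd13441, (rhf48373e13d2bc128.shift 1 3)] (by decide +kernel))
noncomputable def rhb7d47b33b7781ac5 : CRef := CRef.mk (Pat.mk 0xe0000000e00000000 0x600000006000000070000003e0000000e0000000a 6 6) 0 0 (step_sound _ 68 [(rh18965a982d73c794.shift 1 1), rhc63fea8de369bd5a] (by decide +kernel))
noncomputable def rhb2aab52c6ed31dc5 : CRef := CRef.mk (Pat.mk 0x60000000e000000000000000000000000 0x80000003e0000003f000000300000001000000010 6 6) 0 0 (step_sound _ 100 [rh5dffc5561274dae0, (rhf48373e13d2bc128.shift 1 3)] (by decide +kernel))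
noncomputable def rh35facbe2d175b8f6 : CRef := CRef.mk (Pat.mk 0xc0000000e000000000000000000000000 0x4000000040000003c0000007e000000770000000200000002 6 7) 0 0 (step_sound _ 132 [(rh18965a982d73c794.shift 1 3), rhd9e44fd599f5bede] (by decide +kernel))
noncomputable def rh96b346b60cce2177 : CRef := CRef.mk (Pat.mk 0x1e0000000e000000000000000000000000 0x600000006000000170000001e0000000e000000080000000800000008 6 5) 0 0 (step_sound _ 161 [(rh3244c3cc8379b070.shift 0 4), (rhf3425bc7faf16171.shift 1 0)] (by decide +kernel))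
noncomputable def rh0aa14ddca32df44b : CRef := CRef.mk (Pat.mk 0x4000000040000000e0000000000000000 0x4000000ef0000007e0000007300000002 6 8) 0 0 (step_sound _ 68 [rhae036cc4ef671676, (rhe3060b190bc0bc78.shift 0 2), (rhf5fa5e48e0784de2.shift 1 1)] (by decide +kernel))
noncomputable def rhfc2ecea71e1bde85 : CRef := CRef.mk (Pat.mk 0x180000001c0000001000000000 0x80000000f0000007f0000007c0000001600000004 6 7) 0 0 (step_sound _ 131 [(rh2145e1d24b96a57e.shift 3 1), rhcc02bf86af4319b7] (by decide +kernel))
noncomputable def rhf48996eac4735c93 : CRef := CRef.mk (Pat.mk 0xc0000000e000000180000000000000000 0x3f0000003e0000001b0000000f0000000e 6 6) 0 0 (step_sound _ 132 [(rh18965a982d73c794.shift 1 3), rh234adebce3596918] (by decide +kernel))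
noncomputable def rh7d1277896881924d : CRef := CRef.mk (Pat.mk 0x4000000060000001c0000000000000000 0x6000000070000003e0000001f0000000700000004 6 6) 0 0 (step_sound _ 65 [(rh1ae4704ae86cb9a8.shift 0 1), rh2a2c9eb013bbac78] (by decide +kernel))
noncomputable def rhfe013390b475a301 : CRef := CRef.mk (Pat.mk 0x80000001e000000180000000000000000 0x18000000180000001f0000003e000000180000000800000008 6 6) 0 0 (step_sound _ 129 [(rh3244c3cc8379b070.shift 0 3), (rh9b31a0be7d4ce494.shift 1 0)] (by decide +kernel))
noncomputable def rh95140e66541b69ed : CRef := CRef.mk (Pat.mk 0x4000000040000000c0000000000000000 0x2000000060000000e0000000f0000003e0000000e0000000c0000000c 6 6) 0 0 (step_sound _ 131 [(rh098e26fda667b337.shift 1 1), rh23c14eb9bbfebe82, (rhe8f9550119ab603c.shift 2 0)] (by decide +kernel))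
noncomputable def rh1639178cdacb3c17 : CRef := CRef.mk (Pat.mk 0xc00000008000000180000000800000000 0x100000003c0000000f000000780000000c0000000c 6 7) 0 0 (step_sound _ 34 [(rh932754581e0f4330.shift 2 0), rh9b56a0f36c0ce20d] (by decide +kernel))
noncomputable def rh5de5217ca6d6b365 : CRef := CRef.mk (Pat.mk 0x40000000c0000001c00000000 0xe0000000f0000003c0000000c0000001c00000010 6 6) 0 0 (step_sound _ 130 [(rh2145e1d24b96a57e.shift 2 1), rh4cd5f7367b3868c0] (by decide +kernel))
noncomputable def rhe103bb87a43a847c : CRef := CRef.mk (Pat.mk 0x2000000020000001e00000000 0x8000000080000000f0000003e0000003f00000014 6 6) 0 0 (step_sound _ 68 [(rh33e738c4ed385b9f.shift 1 1), rhf58499fa2494ad26] (by decide +kernel))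
noncomputable def rh892a3a308d8a7ec9 : CRef := CRef.mk (Pat.mk 0x2000000020000000e00000000 0x200000002000000730000003e00000074 6 7) 0 0 (step_sound _ 129 [rh4a0cb3a9508b05dd, (rh55afc6a59410cf00.shift 1 0)] (by decide +kernel))
noncomputable def rh2750a3e2c268ce6b : CRef := CRef.mk (Pat.mk 0x1c000000100000003000000000 0xc0000000c0000000f0000003e0000001f0000003e00000004 6 6) 0 0 (step_sound _ 65 [(rh550d505cf26eb720.shift 1 0), (rh73f5f7cdf41b5bc9.shift 0 1), (rhf5000754eb4cf13a.shift 0 1)] (by decide +kernel))
noncomputable def rh697510c285f99c3f : CRef := CRef.mk (Pat.mk 0x800000008000000180000001000000000 0x100000007c0000001f0000007e0000007e0000000c 6 7) 0 0 (step_sound _ 98 [(rh0a18e9416056afba.shift 1 1), (rh0fcb228d13e9ff47.shift 1 0), rh62563edd96cb8121] (by decide +kernel))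
noncomputable def rh887f76a961264d56 : CRef := CRef.mk (Pat.mk 0x4000000040000000400000004000000060000000000000000 0x400000004000000060000000f0000003c0000000e0000000400000004 6 6) 0 0 (step_sound _ 99 [rh45c59f613d9fae03, (rh55afc6a59410cf00.shift 2 2)] (by decide +kernel))
noncomputable def rhbc950f7d10d241ed : CRef := CRef.mk (Pat.mk 0x800000008000000080000001c0000000000000000 0x100000001c0000001c0000000f0000003c0000000800000008 6 6) 0 0 (step_sound _ 164 [rh2a4a5390095447c0, (rh2f68792b6b779e96.shift 3 2)] (by decide +kernel))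
noncomputable def rh002a0412570a27c5 : CRef := CRef.mk (Pat.mk 0x1c0000000800000004 0x2000000030000007e0000007f00000004 6 7) 0 0 (step_sound _ 37 [(rh1e42cdaa2b8276ac.shift 1 1), (rh7344b4efa7925350.shift 1 1), rhd52dab47ddad7b78] (by decide +kernel))
noncomputable def rh3e5950ccac625272 : CRef := CRef.mk (Pat.mk 0x400000004000000020000000200000000000000000000000000000000 0x400000006000000060000000200000002000000070000000700000005 6 3) 0 0 (step_sound _ 97 [(rh1006c02ae4212ff0.shift 1 3), rh984bfc6de6c2c524] (by decide +kernel))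
noncomputable def rhcfb77c71a84dded2 : CRef := CRef.mk (Pat.mk 0x200000002000000030000000000000000 0x6000000070000000700000003000000030000000300000002 6 3) 0 0 (step_sound _ 161 [rh214b5f744448ca32, (rh932754581e0f4330.shift 0 1)] (by decide +kernel))
noncomputable def rhf51e9919d188a948 : CRef := CRef.mk (Pat.mk 0x2000000020000000200000003000000000000000000000000 0x600000006000000060000000300000003000000060000000600000006 6 3) 0 0 (step_sound _ 128 [(rh5c5e593799055d58.shift 0 3), rh82c6aec0c6f8e399] (by decide +kernel))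
noncomputable def rh7e1df22dfabdf852 : CRef := CRef.mk (Pat.mk 0x40000001e00000006000000000000000000000000 0x40000001f0000003e000000380000001800000018 6 6) 0 0 (step_sound _ 100 [rh8b7d6449565abf29, (rhe25b0a99195a5d59.shift 1 3)] (by decide +kernel))
noncomputable def rha6b2de51e0da4aa8 : CRef := CRef.mk (Pat.mk 0x8000000180000000c00000000000000000000000000000000 0x800000018000000180000001f00000038000000180000001800000010 6 6) 0 0 (step_sound _ 129 [(rh53b3c253cb0c65f4.shift 0 4), (rhc75a4e91146dd483.shift 1 0)] (by decide +kernel))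
noncomputable def rh5eb0ec0b09e475c2 : CRef := CRef.mk (Pat.mk 0x8000000080000000c000000000000000000000000 0x140000001e0000007c0000001f0000003c0000001800000010 6 7) 0 0 (step_sound _ 132 [(rh00bf03c298320d59.shift 1 1), (rh0bb882ba86b2372d.shift 0 3), rhe54355bc0aaf2ee4] (by decide +kernel))
noncomputable def rh3a847d797f4c2715 : CRef := CRef.mk (Pat.mk 0x100000001000000038000000000000000000000000 0x10000000170000003e000001f70000002000000020 6 9) 0 0 (step_sound _ 69 [(rh3918eeb6c53434d8.shift 0 2), (rh79ad7b82ec8c35e2.shift 4 0), (rhc21a95c499b3efdb.shift 2 2)] (by decide +kernel))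
noncomputable def rh4d7c9cc78e37d477 : CRef := CRef.mk (Pat.mk 0x200000002000000020000000f00000000 0x40000000600000002000000760000003f00000038 6 7) 0 0 (step_sound _ 130 [(rh2f68792b6b779e96.shift 1 1), rhf5fa5e48e0784de2] (by decide +kernel))
noncomputable def rh8a9d77385e4cc73c : CRef := CRef.mk (Pat.mk 0x800000010000000180000001800000000 0x8000000380000007f0000007f00000006 6 7) 0 0 (step_sound _ 34 [(rh584fe6ab0ae51ce0.shift 0 1), (rh9f35cfae21decbb8.shift 1 0), (rhf9d36e158778ce35.shift 1 1)] (by decide +kernel))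
noncomputable def rh001bbc47d9c59d7e : CRef := CRef.mk (Pat.mk 0x1c000000080000000c 0x3f0000007f0000001f 6 7) 0 0 (step_sound _ 33 [(rh72297cd55a503360.shift 0 1), (rhd526f9b20c752965.shift 0 1), rhf7bd9f8272d21472] (by decide +kernel))
noncomputable def rh437ff637dcc9b74d : CRef := CRef.mk (Pat.mk 0x20000000a000000030000000300000000 0x4000000060000000e0000001b0000001f0000001c 6 5) 0 0 (step_sound _ 34 [(rh55afc6a59410cf00.shift 1 0), rh9d3e74c268257940] (by decide +kernel))
noncomputable def rh1f116b55314dbe24 : CRef := CRef.mk (Pat.mk 0x40000001400000006000000000000000000000000 0xa0000003e00000036000000070000003e0000000e0000000a 6 6) 0 0 (step_sound _ 66 [(rh1861173042f24e9a.shift 0 1), (rh8cdd36b03d57a2f6.shift 1 0), (rhc16b02c29788942e.shift 1 1)] (by decide +kernel))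
noncomputable def rhd2a00e5d4099ba1a : CRef := CRef.mk (Pat.mk 0x40000001c0000000400000000000000000000000000000000 0xa0000000f0000001c0000000c0000000c0000000e0000000e00000002 6 5) 0 0 (step_sound _ 98 [(rh039efe07c35de3d4.shift 0 3), (rha52e1acf7ed5511e.shift 1 0)] (by decide +kernel))
noncomputable def rhefb31357408b760c : CRef := CRef.mk (Pat.mk 0x8000000080000000c0000000400000000 0x40000000c0000000c0000003f0000003f0000001a 6 6) 0 0 (step_sound _ 35 [rh04aa474d63f24212, rhfe557af9112f51d6] (by decide +kernel))
noncomputable def rh04e41ddbc123eaa0 : CRef := CRef.mk (Pat.mk 0x8000000080000000c0000000400000000 0x140000001e000000780000001f0000003c00000018 6 7) 0 0 (step_sound _ 35 [(rh1bd0c14c4de1ef4d.shift 1 0), rh4983ef42b6c40cbc, rhfe557af9112f51d6] (by decide +kernel))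
noncomputable def rh644f785d2234933c : CRef := CRef.mk (Pat.mk 0x80000001c000000000000000400000000 0x10000000780000003f000000f00000003e00000030 6 8) 0 0 (step_sound _ 69 [(rh18b31825f45c624c.shift 1 0), (rh2e55065c211d34ed.shift 1 0), (rh816fd429a35c92eb.shift 0 2)] (by decide +kernel))
noncomputable def rh597e08b8840409b7 : CRef := CRef.mk (Pat.mk 0x200000002000000060000000700000000 0x400000006000000060000003e0000003f0000000a 6 6) 0 0 (step_sound _ 68 [(rh361cc68994bd8a63.shift 0 1), (rh6b7a766b12bc56c9.shift 1 0)] (by decide +kernel))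
noncomputable def rh09026d77553e85bf : CRef := CRef.mk (Pat.mk 0x8000000080000000c0000000400000000 0x1000000018000000780000001f0000000c0000000c 6 7) 0 0 (step_sound _ 35 [rh4983ef42b6c40cbc, (rh932754581e0f4330.shift 2 0)] (by decide +kernel))
noncomputable def rh3ca8c868b35eac6e : CRef := CRef.mk (Pat.mk 0x200000002000000010000000000000000 0x50000000700000007000000070000000700000003000000030000000300000001 6 3) 0 0 (step_sound _ 161 [rh0e6924d680f6455d, (rhb77bfac3e9efecea.shift 0 2), (rhd4e50120a01cc726.shift 0 1)] (by decide +kernel))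
noncomputable def rh328e0484b9031ea7 : CRef := CRef.mk (Pat.mk 0x400000004000000060000000000000000 0xa0000000e0000000e0000000c0000003c0000000f0000000c00000008 6 6) 0 0 (step_sound _ 162 [(rh6575bc1d3dcb7608.shift 0 1), (rh7ef5fa5c39f1c762.shift 1 2), (rhc9de03f9731897d4.shift 2 0)] (by decide +kernel))
noncomputable def rhe00a1ec4f0777bf4 : CRef := CRef.mk (Pat.mk 0x40000000400000004000000020000000000000000 0xa0000000e0000000e0000000e0000000e0000003c0000000f0000000c00000008 6 6) 0 0 (step_sound _ 99 [(rh0fa4a62bba50784f.shift 1 2), (rh5fc82c61eb8d1a66.shift 1 2), (rh70e33bfdf511e144.shift 2 0), (rh746c156abc5cc63f.shift 0 1)] (by decide +kernel))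
noncomputable def rh874dcc2fe8d98be7 : CRef := CRef.mk (Pat.mk 0x1800000010000000100000003800000000 0x2000000038000000180000007f0000007e00000006 6 7) 0 0 (step_sound _ 133 [(rh2f68792b6b779e96.shift 4 1), rh8af790ade9572468] (by decide +kernel))
noncomputable def rh3d07f375d2a8ff82 : CRef := CRef.mk (Pat.mk 0x40000000c000000080000000c00000000 0x40000001f0000007f0000001f00000002 6 7) 0 0 (step_sound _ 68 [rh6bb874f4d1fe849e, (rh75ea294132184f25.shift 1 2), (rh95c7bf00a65f6c99.shift 0 1)] (by decide +kernel))
noncomputable def rhfc1bd713ef56f6f6 : CRef := CRef.mk (Pat.mk 0x100000001000000038000000000000000000000000 0x10000000370000003e000000670000002000000020 6 7) 0 0 (step_sound _ 69 [(rh08edf065357d68e5.shift 4 0), (rh3918eeb6c53434d8.shift 0 2)] (by decide +kernel))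
noncomputable def rhc7b1da93a669443b : CRef := CRef.mk (Pat.mk 0x180000000e000000040000000400000000 0x1c000000fe000000770000003c00000038 6 8) 0 0 (step_sound _ 100 [(rh1d28ec47814bca61.shift 1 0), (rh76c4edc656936505.shift 1 2), (rhaf9f2efc81a8312b.shift 0 2)] (by decide +kernel))
noncomputable def rh68402c4bc2ac86b7 : CRef := CRef.mk (Pat.mk 0x7000000018000000080000000800000000 0x280000007c000000f8000000cf0000007c00000054 6 8) 0 0 (step_sound _ 131 [(rh95e960a96072856f.shift 2 0), rhf1a8127573b72831] (by decide +kernel))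
noncomputable def rh63fc8093eef5cd45 : CRef := CRef.mk (Pat.mk 0x200000002000000010000000000000000 0x10000000300000003000000030000000700000007000000070000000700000005 6 3) 0 0 (step_sound _ 161 [rh0e6924d680f6455d, rhafce214f40257ff7, (rhe16036ff578a11df.shift 0 2)] (by decide +kernel))
noncomputable def rh9a956b622400e328 : CRef := CRef.mk (Pat.mk 0xc0000000e000000040000000400000000 0x100000003c0000000e0000003c0000000f0000000a 6 6) 0 0 (step_sound _ 132 [(rh18965a982d73c794.shift 1 3), rh9ee3848b537ea47a] (by decide +kernel))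
noncomputable def rh81d2d5967a13b68f : CRef := CRef.mk (Pat.mk 0x600000006000000020000000200000000 0x300000003000000030000000600000006000000030000000700000005 6 3) 0 0 (step_sound _ 34 [rh0ef6c71ce89c1c36, (rh55afc6a59410cf00.shift 1 0)] (by decide +kernel))
noncomputable def rhca67061d93778944 : CRef := CRef.mk (Pat.mk 0x10000000180000000c0000000800000000 0x80000000c0000000c0000001c0000001c0000000f0000003c00000014 6 6) 0 0 (step_sound _ 65 [(rh4cc838eefa4b2d39.shift 1 0), (rh53b3c253cb0c65f4.shift 0 2)] (by decide +kernel))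
noncomputable def rhd4f6e3f3671d2d23 : CRef := CRef.mk (Pat.mk 0x400000006000000030000000200000000 0x1000000030000000700000006000000070000001f0000001d 6 5) 0 0 (step_sound _ 129 [rh59a8450f63fdff62, rh7c5c9e3d7752e57e, rh871caa7606de9ca4, (rhd2c74283b7b6e6b8.shift 0 1)] (by decide +kernel))
noncomputable def rh671d29fe00096fb4 : CRef := CRef.mk (Pat.mk 0x8000000080000000c00000000 0x140000001c0000001f000000380000000c0000000c00000008 6 6) 0 0 (step_sound _ 131 [rh2726962e49a46af1, (rh9a369cb82ea472da.shift 2 1), (rhe62cab2ff5ad6fe2.shift 2 1)] (by decide +kernel))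
noncomputable def rh489179491b1d8f02 : CRef := CRef.mk (Pat.mk 0xe00000004000000040000000400000000 0x700000007e000000ef000000040000000400000004 6 8) 0 0 (step_sound _ 132 [rhd680bf2cf2441e84, (rhdbe30b89b8872db3.shift 1 3)] (by decide +kernel))
noncomputable def rhff24698a4d3c90e7 : CRef := CRef.mk (Pat.mk 0x40000000c00000006000000000000000000000000 0xa0000000f0000003c000000060000000e0000000e0000000a 6 6) 0 0 (step_sound _ 132 [rh037a4dc33df8ef41, (rh18965a982d73c794.shift 1 3)] (by decide +kernel))
noncomputable def rh5902ee60d8bb3ff1 : CRef := CRef.mk (Pat.mk 0x40000000e000000030000000200000000 0x20000000300000003000000070000000f0000001b0000001f0000000d 6 5) 0 0 (step_sound _ 34 [rh307e87dde5ddcd87, rh6cd1a6e674c008c8, rh6f10b04c59adcc25] (by decide +kernel))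
noncomputable def rh9b69c353fb89ee82 : CRef := CRef.mk (Pat.mk 0x200000002000000010000000000000000 0x40000000600000007000000070000000700000007000000070000000700000004 6 3) 0 0 (step_sound _ 161 [rhafce214f40257ff7, (rhc23ec26ef2c84235.shift 0 2), (rhf4b53f8ba1873014.shift 0 1)] (by decide +kernel))
noncomputable def rh8ca4703e73edff88 : CRef := CRef.mk (Pat.mk 0x80000000800000004000000000000000000000000 0x80000000a0000000f0000003c0000000c0000000c0000000400000004 6 6) 0 0 (step_sound _ 66 [(rh1ca3eff66d43e5b6.shift 0 1), (rh53c798c09177b7db.shift 2 0), (rh751f91025c6ba4fe.shift 2 2), (rhe83f0679b86b6627.shift 2 0)] (by decide +kernel))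
noncomputable def rh49a45477cb9dd943 : CRef := CRef.mk (Pat.mk 0x8000000080000000c0000001c000000000000000000000000 0x10000000180000000c0000003f0000001f000000030000000200000002 6 6) 0 0 (step_sound _ 129 [rhad089deb6eb8bd72, (rhb739f4f82bb681b4.shift 0 3)] (by decide +kernel))
noncomputable def rhfe46d56bdd687b7c : CRef := CRef.mk (Pat.mk 0x180000001c000000080000000000000000 0x180000001f0000003f0000003000000030 6 6) 0 0 (step_sound _ 97 [rh2d432a4e867e50f2, (rh53b3c253cb0c65f4.shift 0 3)] (by decide +kernel))
noncomputable def rh3ed902448667e9e7 : CRef := CRef.mk (Pat.mk 0x180000001c000000080000000800000000 0x20000000a0000001f0000001f0000000c0000000c00000004 6 5) 0 0 (step_sound _ 34 [(rh932754581e0f4330.shift 2 0), (rhae17d7873d576200.shift 0 1)] (by decide +kernel))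
noncomputable def rhd790f0a30753ef9b : CRef := CRef.mk (Pat.mk 0x1e000000080000000000000000 0x8000000080000003e0000003f0000003000000010 6 6) 0 0 (step_sound _ 68 [rh391f4472eb57537b, (rhe25b0a99195a5d59.shift 1 2)] (by decide +kernel))
noncomputable def rha66affde9ba09e96 : CRef := CRef.mk (Pat.mk 0x3800000010 0x38e000001fe0000003f 6 10) 0 0 (step_sound _ 38 [rh9d47ef67f175c917, (rhaf9f2efc81a8312b.shift 2 0), (rhdc1641106d7e5aa2.shift 3 0)] (by decide +kernel))
noncomputable def rh30d8de180e24b81f : CRef := CRef.mk (Pat.mk 0xe0000000400000004 0x200000002000000730000003e0000007600000004 6 7) 0 0 (step_sound _ 97 [(rh9c94213f6896c74a.shift 0 1), (rhe072fffdd2fccf38.shift 1 0)] (by decide +kernel))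
noncomputable def rh18907ec69159b549 : CRef := CRef.mk (Pat.mk 0xc0000001c000000040000000400000000 0x40000000c0000007c0000003c0000000f0000000a 6 7) 0 0 (step_sound _ 35 [rh1b16f7308fd202f1, (rh55afc6a59410cf00.shift 2 0)] (by decide +kernel))
noncomputable def rh1a7b7059856a31cf : CRef := CRef.mk (Pat.mk 0x100000001e0000000800000008 0x200000002000000070000001f0000001f0000000c00000008 6 5) 0 0 (step_sound _ 99 [(rh53b3c253cb0c65f4.shift 0 2), rh7696ae8b0f0f5a20] (by decide +kernel))
noncomputable def rh361bd47d6742e588 : CRef := CRef.mk (Pat.mk 0x180000001c0000000800000008 0x200000002000000070000001f0000001f0000000c00000008 6 5) 0 0 (step_sound _ 98 [(rh31b06de3f67a0d8a.shift 0 1), (rh50fbb5868c909700.shift 2 0)] (by decide +kernel))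
noncomputable def rheed6bc73fabfea56 : CRef := CRef.mk (Pat.mk 0x100000001c000000080000000800000000 0x8000000080000002f0000007f0000001c0000001c0000001c00000014 6 7) 0 0 (step_sound _ 131 [(rh257cac3f88c56b7b.shift 2 0), (rh4f402ce420c5c06c.shift 2 0), (rh5e46927f286229a7.shift 2 0), (rhb9d7bcc4b554fedb.shift 2 0), rhf3711a81227b0b0c] (by decide +kernel))
noncomputable def rh3e83f708735348e2 : CRef := CRef.mk (Pat.mk 0x100000001000000018000000080000000800000000 0x14000001f7000000fe000001ef0000002800000020 6 9) 0 0 (step_sound _ 101 [(rh2ead9b9cc22afc12.shift 1 0), (rhb4b55eb1beed23a3.shift 0 1), (rhfa35e196e150edb4.shift 2 2)] (by decide +kernel))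
noncomputable def rhae8e8cecac20fb9e : CRef := CRef.mk (Pat.mk 0x1000000030000000180000000800000000 0x3e000000ff000000f80000000c00000004 6 8) 0 0 (step_sound _ 102 [(rh18965a982d73c794.shift 3 2), rh6eb5f9579b0359b0] (by decide +kernel))
noncomputable def rhaaf3997ca13b744a : CRef := CRef.mk (Pat.mk 0x10000000300000001c0000000800000000 0xe0000001e0000003e0000007c0000000f00000006 6 7) 0 0 (step_sound _ 130 [(rh8a473ec674e844c5.shift 1 0), (rhbac2358fc36e5851.shift 1 1), (rhcc7c8974a8ca1fc5.shift 1 1), rheebe454d9244459d, rhf2549dc0da66b756] (by decide +kernel))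
noncomputable def rhac23380c356673f0 : CRef := CRef.mk (Pat.mk 0x8000000180000000e0000000800000000 0x160000001f0000001b0000000e0000000c00000004 6 5) 0 0 (step_sound _ 34 [(rh932754581e0f4330.shift 2 0), (rhf977c67afcd9383c.shift 0 1)] (by decide +kernel))
noncomputable def rhb820fe5e46c1f8f0 : CRef := CRef.mk (Pat.mk 0x8000000180000000e0000000000000000 0x160000001f0000001e0000000e0000000c0000000c 6 5) 0 0 (step_sound _ 35 [(rh04ee05071d91faba.shift 2 0), rh8780feb96d6aa5c7, (rha707fb719e87fe6e.shift 3 0)] (by decide +kernel))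
noncomputable def rh0b447b394a6591ee : CRef := CRef.mk (Pat.mk 0x8000000080000001c0000000600000000 0x160000001f0000007f0000001c0000000e0000000a 6 7) 0 0 (step_sound _ 130 [(rh4c9eac6bf6ab9a81.shift 1 0), rh7bf2bc8ae99bd1f8, (rhc86e3ab3c2b165e9.shift 1 0)] (by decide +kernel))
noncomputable def rha503810eef345b1d : CRef := CRef.mk (Pat.mk 0x180000000e0000000400000004 0x2000000020000001f000000fe0000007c00000004 6 8) 0 0 (step_sound _ 97 [(rhc89253ff58c66167.shift 1 0), rhca6b99e1f6ffeb4c, (rhfa8c138cc50acb47.shift 0 1)] (by decide +kernel))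
noncomputable def rh6fb4802e1aa0b49b : CRef := CRef.mk (Pat.mk 0x8000000080000001c0000000600000000 0x160000001f0000003c0000001c0000007e00000073 6 7) 0 0 (step_sound _ 35 [rh622e1e57e499877e, rh6e7f58010cf0b92d, (rh806a30ccd3d3e25c.shift 2 0)] (by decide +kernel))
noncomputable def rh0af04280db0251d5 : CRef := CRef.mk (Pat.mk 0x100000001c000000080000000800000000 0xc0000000c0000000f0000001f0000001c0000001c0000000c00000004 6 5) 0 0 (step_sound _ 131 [(rh0ef6c71ce89c1c36.shift 2 0), (rh1b49a77e883412ed.shift 2 1), rh795a9fa361f5265f, (rh79bf920132cab629.shift 2 1), (rh933f3ac7d57d09d8.shift 2 1), (rhea90e7358341a1a4.shift 2 0)] (by decide +kernel))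
noncomputable def rhb4d207f38d01c7df : CRef := CRef.mk (Pat.mk 0x10000000300000001c0000000800000000 0x200000006e0000007e0000003e0000001c0000000f00000006 6 7) 0 0 (step_sound _ 130 [(rh016cdad10fac5d9c.shift 1 1), (rh8a473ec674e844c5.shift 1 0), (rhad3bc24c2bfb5a3c.shift 1 1), (rhbac2358fc36e5851.shift 1 1), rheebe454d9244459d, rhf2549dc0da66b756] (by decide +kernel))
noncomputable def rhde5d299241f8fc78 : CRef := CRef.mk (Pat.mk 0x4000000000000001c00000006000000000000000000000000 0x4000000070000001f0000003e000000030000000300000003 6 6) 0 0 (step_sound _ 65 [(rhee230b994cc8b773.shift 1 2), rhf9f7f6c98cb1f657] (by decide +kernel))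
noncomputable def rhde2edf187ca34439 : CRef := CRef.mk (Pat.mk 0x800000008000000380000000c 0x1c0000001e0000000f0000003e0000000c 6 6) 0 0 (step_sound _ 34 [(rh5c5e593799055d58.shift 2 0), rh9fb04752e091cf55] (by decide +kernel))
noncomputable def rhc33244e0364ecda2 : CRef := CRef.mk (Pat.mk 0x20000000300000001c000000100000000000000000 0xc0000006e0000003f0000007c0000001e0000000800000008 6 7) 0 0 (step_sound _ 130 [(rh24e72371d7873615.shift 1 0), (rhf6211e16945a8873.shift 1 1), (rhffbbc3c9777f51e1.shift 0 3)] (by decide +kernel))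
noncomputable def rh04d13d6c4fb904dd : CRef := CRef.mk (Pat.mk 0x1000000010000000180000000e00000000 0xc0000001e000000780000001f0000003e00000027 6 7) 0 0 (step_sound _ 131 [rh1a41c2c18ae1ba11, (rh402ae77211dfa6f0.shift 1 0), rhac6c39875d5583a5, (rhc3a9559c72b00d0b.shift 1 0)] (by decide +kernel))
noncomputable def rh877258e55e352520 : CRef := CRef.mk (Pat.mk 0x1c0000000600000000000000000000000000000000 0xa0000000e0000001f0000001c0000001e0000003c0000000e0000000e0000000a 6 6) 0 0 (step_sound _ 98 [(rh1f49594e57f9ba80.shift 1 0), (rh215e11e099257d75.shift 2 2), (rh274a837cd7eaa569.shift 1 0), (rh50cca83f35acae29.shift 0 2)] (by decide +kernel))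
noncomputable def rh5a9571250e350094 : CRef := CRef.mk (Pat.mk 0x10000000180000000e0000000800000000 0xc0000003c0000001f000000fe0000007b00000012 6 8) 0 0 (step_sound _ 68 [(rh76c4edc656936505.shift 1 1), rh85903b4a8dd8ebcd, (rhea719cc8bd0bdd28.shift 1 0)] (by decide +kernel))
noncomputable def rh20486e0473d0c2d0 : CRef := CRef.mk (Pat.mk 0x400000004000000060000000380000000000000000 0x80000000d0000000de0000007f000000f8000000cc00000008 6 8) 0 0 (step_sound _ 99 [(rh85d8fbe61f816818.shift 1 2), (rh88aceeed5f73738e.shift 2 0), (rhaa73d67be2de7cd7.shift 2 1), (rhf60aa8aede119d3b.shift 0 2)] (by decide +kernel))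
noncomputable def rh4bbf693d6319bdb7 : CRef := CRef.mk (Pat.mk 0x8000000180000000a0000000000000000 0x4000000140000001e0000007f0000001a0000000a0000000a00000008 6 7) 0 0 (step_sound _ 162 [(rh114f4abf4ea101c9.shift 2 1), (rh7fb276822a012166.shift 0 1), (rhbec796c3ea7a32e6.shift 1 1), (rhedb11bef59254b8a.shift 2 0)] (by decide +kernel))
noncomputable def rhb397139c10ff981c : CRef := CRef.mk (Pat.mk 0x300000001c000000080000000800000000 0xc0000000c0000003e0000007c0000000f0000001c00000014 6 7) 0 0 (step_sound _ 131 [(rh79bf920132cab629.shift 2 1), rh96d282fa4bcad58d, (rhff4c737aebdcf19e.shift 1 1)] (by decide +kernel))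
noncomputable def rh6bfca2d49f843bd2 : CRef := CRef.mk (Pat.mk 0x80000001e000000000000000400000000 0x20000000b0000003e000000370000001400000010 6 6) 0 0 (step_sound _ 68 [rh64f88405a603b15d, (rhe25b0a99195a5d59.shift 1 2)] (by decide +kernel))
noncomputable def rh9f705c7962e65ca6 : CRef := CRef.mk (Pat.mk 0x40000001e00000006 0xe0000000f0000003c0000001f00000006 6 6) 0 0 (step_sound _ 98 [(rh5c5e593799055d58.shift 1 0), rha069e784eb1f39f2] (by decide +kernel))
noncomputable def rh0962b4e46de79b5b : CRef := CRef.mk (Pat.mk 0x40000001e000000060000000000000000 0x2000000060000001e0000003e0000000700000007 6 6) 0 0 (step_sound _ 33 [rh0ac221a48d90f265, (rh71222050f2c63a3a.shift 1 0)] (by decide +kernel))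
noncomputable def rhfb74023a5a2bd835 : CRef := CRef.mk (Pat.mk 0x380000000c000000000000000000000000 0xc0000000c0000003e0000003f0000007c0000000c0000000400000004 6 7) 0 0 (step_sound _ 163 [(rh281c6819542c66e6.shift 2 0), (rh590a91a96503862e.shift 0 2), (rhcd32f2ed6c1181e7.shift 2 2)] (by decide +kernel))
noncomputable def rh8a617a51db180536 : CRef := CRef.mk (Pat.mk 0x8000000180000000c00000000 0x1c0000003c0000000f0000001c0000001c00000008 6 6) 0 0 (step_sound _ 131 [(rh518d6f6eeebddcb2.shift 2 1), rh900a894640be090c] (by decide +kernel))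
noncomputable def rhc05be943fa815312 : CRef := CRef.mk (Pat.mk 0x3000000060000000300000000000000000000000000000000 0x100000003000000060000000700000007000000070000000600000002 6 3) 0 0 (step_sound _ 97 [(rh50fbb5868c909700.shift 0 3), rhe52cc56a091e2831] (by decide +kernel))
noncomputable def rha3ee2577aed2dfc1 : CRef := CRef.mk (Pat.mk 0x8000000380000000c 0x6000000060000007f0000003f0000007c 6 7) 0 0 (step_sound _ 34 [rh06d16ed1005b3fa2, (rh2e2af70cc0a250e3.shift 1 0), rh668d1876510a8d45] (by decide +kernel))
noncomputable def rha8d0278b6e62a250 : CRef := CRef.mk (Pat.mk 0x380000000c0000000000000000 0x1000000014000000770000003e0000007c0000002800000008 6 7) 0 0 (step_sound _ 132 [(rhadf429772c25fde0.shift 3 0), (rhdc564b97248c4913.shift 1 0), (rhefa3f62f67d9152a.shift 0 1)] (by decide +kernel))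
noncomputable def rh7833a938b615a64d : CRef := CRef.mk (Pat.mk 0x40000000c0000000600000000 0xe0000000f0000003c0000000e0000000e00000004 6 6) 0 0 (step_sound _ 130 [rh305945700f20b255, (rh518d6f6eeebddcb2.shift 1 1)] (by decide +kernel))
noncomputable def rha9ce47e7b217680f : CRef := CRef.mk (Pat.mk 0x1c0000000700000000000000000000000000000000 0x80000000e0000000f0000001c000000070000003e0000000e0000000e0000000a 6 6) 0 0 (step_sound _ 98 [(rh164d9aed8aa31d30.shift 0 2), (rh215e11e099257d75.shift 2 2), rhb6e5fd90818b20b8, (rhffb8e5993241bf15.shift 1 0)] (by decide +kernel))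
noncomputable def rhd887058eaf5996cb : CRef := CRef.mk (Pat.mk 0x100000000e0000000000000000 0x400000004000000370000003e0000000300000002 6 6) 0 0 (step_sound _ 68 [(rh33e738c4ed385b9f.shift 1 2), rh3cc3e986d9471888] (by decide +kernel))
noncomputable def rh85dc669d43c2a37b : CRef := CRef.mk (Pat.mk 0x3800000000 0xf0000007e0000007f 6 7) 0 0 (step_sound _ 34 [rh0d378fd9e8917c5a, rh185f35b8bd8ec37f, (rhaeebc73f5a9c796a.shift 1 0), rhff3539f9e6be4aa8] (by decide +kernel))
noncomputable def rh022821774a7636d3 : CRef := CRef.mk (Pat.mk 0x20000000600000003000000000000000000000000 0x100000003000000070000000600000003000000070000000600000004 6 3) 0 0 (step_sound _ 193 [rh4a2ef90436fa9e13, (rh932754581e0f4330.shift 0 2)] (by decide +kernel))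
noncomputable def rhcfcb21518b2a0917 : CRef := CRef.mk (Pat.mk 0x8000000180000000e00000008 0x170000001f0000001b0000000e0000000c 6 5) 0 0 (step_sound _ 100 [(rh2f68792b6b779e96.shift 3 0), rhaeeecdf244ae8de6] (by decide +kernel))
noncomputable def rhe63d8d7bcbe18261 : CRef := CRef.mk (Pat.mk 0x200000006000000030000000200000000 0x200000003000000070000000700000007000000030000000600000004 6 3) 0 0 (step_sound _ 34 [(rh55afc6a59410cf00.shift 1 0), (rh7f8df149e0a95c13.shift 0 1)] (by decide +kernel))
noncomputable def rhe6680a5f4c5660bb : CRef := CRef.mk (Pat.mk 0x180000001e000000080000000000000000 0x200000002000000070000001f0000001e0000000c0000000800000008 6 5) 0 0 (step_sound _ 35 [(rh71222050f2c63a3a.shift 3 0), (rh7696ae8b0f0f5a20.shift 0 1)] (by decide +kernel))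
noncomputable def rh65898ee9994bf512 : CRef := CRef.mk (Pat.mk 0x1e000000060000000000000000 0x10000000300000001f0000003e0000000b00000008 6 6) 0 0 (step_sound _ 68 [rh9373409cff1dd827, (rhe25b0a99195a5d59.shift 1 2)] (by decide +kernel))
noncomputable def rh1e1b89b690aff0a6 : CRef := CRef.mk (Pat.mk 0x4000000040000000e00000002000000000000000000000000 0xa0000000f0000003e0000000e0000003e0000003c0000000c00000004 6 6) 0 0 (step_sound _ 98 [(rh806a30ccd3d3e25c.shift 1 2), (rhab3c3f3ae8c9664f.shift 0 2), (rhdaa34f01e5e560a1.shift 1 0), (rhebc45ca4f57d7165.shift 1 1)] (by decide +kernel))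
noncomputable def rh215571d996889550 : CRef := CRef.mk (Pat.mk 0x80000001c000000060000000000000000 0x20000000f0000001c0000001e0000003c0000001c 6 6) 0 0 (step_sound _ 34 [(rh71222050f2c63a3a.shift 2 0), rh97fc7a214b1cc341] (by decide +kernel))
noncomputable def rhcd3657898da9a3ec : CRef := CRef.mk (Pat.mk 0x1000000010000000180000000e0000000000000000 0x2000000034000000340000001f0000003e0000003300000002 6 6) 0 0 (step_sound _ 68 [rh08480f4413476838, (rh36586e595fdbb742.shift 1 1), (rh411b7fbe199774b0.shift 0 1)] (by decide +kernel))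
noncomputable def rh854957573d0342b1 : CRef := CRef.mk (Pat.mk 0x80000001c000000060000000000000000 0x400000006000000060000000f0000001c0000000e0000000600000004 6 5) 0 0 (step_sound _ 34 [(rh71222050f2c63a3a.shift 2 0), (rh7490b3c9b401cf70.shift 0 1)] (by decide +kernel))
noncomputable def rhd9127502262c7c04 : CRef := CRef.mk (Pat.mk 0x1000000010000000180000000e0000000000000000 0x14000000340000001f0000003e0000002700000002 6 6) 0 0 (step_sound _ 68 [rh08480f4413476838, (rh411b7fbe199774b0.shift 0 1), (rh6c5b90ba2a83bd67.shift 0 1)] (by decide +kernel))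
noncomputable def rhed1d5a7317926038 : CRef := CRef.mk (Pat.mk 0x10000000180000000e00000008 0x80000000c0000000f0000001f0000001f0000001e0000000c 6 5) 0 0 (step_sound _ 99 [(rh865cf161b9b29643.shift 2 0), rhaeeecdf244ae8de6, (rhcd32f2ed6c1181e7.shift 2 0)] (by decide +kernel))
noncomputable def rh76032400c82475e9 : CRef := CRef.mk (Pat.mk 0x8000000180000000e00000000 0x100000001c0000003c0000000f0000001c0000000e0000000a 6 6) 0 0 (step_sound _ 131 [rh900a894640be090c, (rh9a369cb82ea472da.shift 2 1), (rhb6f84d95cf78a63d.shift 1 0)] (by decide +kernel))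
noncomputable def rhfd156a95af17dab3 : CRef := CRef.mk (Pat.mk 0x4000000070000000400000000 0xa0000000e0000000e00000004000000070000003e00000008 6 6) 0 0 (step_sound _ 35 [(rh89ade209b3e28f13.shift 0 1), (rh8b45a73eaadf2a53.shift 1 0), (rhfb9fb48a5e63ed80.shift 1 0)] (by decide +kernel))
noncomputable def rh4fc2d8e521c3bd53 : CRef := CRef.mk (Pat.mk 0xe000000030000000200000000 0x100000007000000070000000e0000000f0000001f0000000c 6 5) 0 0 (step_sound _ 129 [rh3a2447ed8c5fdc2c, rh5abfc4c9d959be03, (rh98e1de167cad9425.shift 0 1)] (by decide +kernel))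
noncomputable def rhc2e74f46d40f24ab : CRef := CRef.mk (Pat.mk 0xe000000030000000200000000 0x50000000700000007000000060000000f0000000f0000001f0000000c 6 5) 0 0 (step_sound _ 129 [rh024e513121fe1b70, rh3a2447ed8c5fdc2c, (rh7a7e08304268422e.shift 0 1)] (by decide +kernel))
noncomputable def rh533bca98b060ca77 : CRef := CRef.mk (Pat.mk 0x10000000700000001800000000 0x10000000100000003e0000007f0000001800000008 6 7) 0 0 (step_sound _ 132 [(rh932754581e0f4330.shift 3 0), (rhad2688ef6603f2bb.shift 0 1)] (by decide +kernel))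
noncomputable def rhdafe67386ae33e6e : CRef := CRef.mk (Pat.mk 0x100000007000000018 0xc0000000c000000fe0000007f00000078 6 8) 0 0 (step_sound _ 35 [(rh06d16ed1005b3fa2.shift 1 0), (rh1b1a23e58c3e6ec7.shift 1 0), (rh2e2af70cc0a250e3.shift 2 0), rhbea32a382651a0e3] (by decide +kernel))
noncomputable def rh756b229a02b37c88 : CRef := CRef.mk (Pat.mk 0x80000001c000000060000000000000000 0x60000000f0000001c0000001e0000003e0000001c 6 6) 0 0 (step_sound _ 34 [rh51faba9adaf36222, (rh71222050f2c63a3a.shift 2 0)] (by decide +kernel))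
noncomputable def rh3b06560c6c7a4c44 : CRef := CRef.mk (Pat.mk 0x70000000180000000000000000 0x2000000028000000ff0000007f000000180000001000000010 6 8) 0 0 (step_sound _ 99 [(rh206d61528605a692.shift 2 0), (rh38a0850c9fea941e.shift 2 0), (rha58ddf8813c4b875.shift 0 2)] (by decide +kernel))
noncomputable def rhe2632f2447e1299b : CRef := CRef.mk (Pat.mk 0x4000000040000000f00000000 0xe0000000e0000000e0000001c0000000f00000004 6 5) 0 0 (step_sound _ 67 [(rh33e738c4ed385b9f.shift 0 1), (rh561e94cc331e17a1.shift 1 0)] (by decide +kernel))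
noncomputable def rh5a968ae521234cd9 : CRef := CRef.mk (Pat.mk 0x8000000080000000e000000000000000000000000 0x8000000380000003e0000003f0000001400000004 6 6) 0 0 (step_sound _ 100 [(rh61a4ef5851d4c3c5.shift 0 1), (rh625dde73e665edc8.shift 1 1), rha44591082de8a15d] (by decide +kernel))
noncomputable def rh135f475ddbc1bc26 : CRef := CRef.mk (Pat.mk 0x80000001c000000060000000400000000 0x20000003b0000001e000000360000003c00000018 6 6) 0 0 (step_sound _ 97 [(rh309fd0c3d364cd61.shift 0 1), (rhed31fe3d3cc5e5ee.shift 1 0)] (by decide +kernel))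
noncomputable def rhdfa1edaa5d35edb5 : CRef := CRef.mk (Pat.mk 0x8000000180000000e00000008 0x170000001f0000001b0000000e0000000c 6 5) 0 0 (step_sound _ 98 [rh27da4609da47c500, (rh50fbb5868c909700.shift 2 0)] (by decide +kernel))
noncomputable def rh67c8e4f76257fd03 : CRef := CRef.mk (Pat.mk 0x1e000000040000000000000000 0x8000000080000003f0000001f000000040000000400000004 6 6) 0 0 (step_sound _ 129 [(rh3244c3cc8379b070.shift 0 3), rhc3e986643a26658d] (by decide +kernel))
noncomputable def rh878dc6d02bbc5ae1 : CRef := CRef.mk (Pat.mk 0x80000000c000000060000000400000000 0x380000003f0000003e0000003c00000010 6 6) 0 0 (step_sound _ 100 [(rh18965a982d73c794.shift 1 2), rh9cdd1d9c0b4e0ec0] (by decide +kernel))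
noncomputable def rh24c51386b595b117 : CRef := CRef.mk (Pat.mk 0x40000001c000000060000000200000000 0x30000000b0000003f0000001e0000003e0000003300000011 6 6) 0 0 (step_sound _ 97 [(rh2e2af70cc0a250e3.shift 0 2), rh84faf3c77c936851, rhdfb45a0764e33452] (by decide +kernel))
noncomputable def rh3c0612130f5b9ee6 : CRef := CRef.mk (Pat.mk 0x80000001c000000000000000400000000 0x1000000030000000780000003f000000f00000003e00000010 6 8) 0 0 (step_sound _ 69 [(rh0deb2ebc850de581.shift 1 1), (rh18b31825f45c624c.shift 1 0), (rh816fd429a35c92eb.shift 0 2), (rhce337c34cf7794f8.shift 1 0)] (by decide +kernel))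
noncomputable def rhb4fabec9941b6921 : CRef := CRef.mk (Pat.mk 0x180000000800000008000000000000000000000000 0xc0000003c0000000f000000780000001e0000001c00000010 6 7) 0 0 (step_sound _ 67 [(rh7133a7a78d762f91.shift 1 1), (rh8ff3dde5b1c639e0.shift 2 0), (rh9aab2e37f490e5ca.shift 0 1)] (by decide +kernel))
noncomputable def rhe05b1d4d631ebf99 : CRef := CRef.mk (Pat.mk 0x1e000000060000000400000000 0x380000001f000000360000003c00000018 6 6) 0 0 (step_sound _ 68 [rha08c385e91247958, (rhe25b0a99195a5d59.shift 1 2)] (by decide +kernel))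
noncomputable def rhd6080db46f223ae4 : CRef := CRef.mk (Pat.mk 0x1800000008000000080000000000000000 0x1800000018000000080000000f0000003c00000014 6 6) 0 0 (step_sound _ 35 [(rh2f68792b6b779e96.shift 3 1), rh69d74edc6ed8b1cb] (by decide +kernel))
noncomputable def rh0e5509c3e018ebea : CRef := CRef.mk (Pat.mk 0x800000018000000080000000800000000 0xc0000000f0000007c000000180000001800000010 6 7) 0 0 (step_sound _ 36 [(rh55afc6a59410cf00.shift 3 0), (rhba9c966cb675b0c6.shift 0 1)] (by decide +kernel))
noncomputable def rh4dbdb09aea2f12ff : CRef := CRef.mk (Pat.mk 0x8000000180000000e0000000800000000 0x160000001f0000001b0000000e0000000c00000004 6 5) 0 0 (step_sound _ 34 [(rh7f462ec8865f90aa.shift 0 1), (rh932754581e0f4330.shift 2 0)] (by decide +kernel))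
noncomputable def rha439821ebb26c5ce : CRef := CRef.mk (Pat.mk 0x7800000020000000200000002000000000 0xe0000007e00000037000000200000003000000010 6 7) 0 0 (step_sound _ 36 [(rh2efad3051cff7df1.shift 0 3), (rh932754581e0f4330.shift 4 0)] (by decide +kernel))
noncomputable def rh6286d58551d48457 : CRef := CRef.mk (Pat.mk 0x800000008000000080000001800000000 0x800000008000000ff0000007e000000e4 6 8) 0 0 (step_sound _ 34 [rh64743f2f54677fb5, (rh932754581e0f4330.shift 2 0)] (by decide +kernel))
noncomputable def rhc62656d98e2efc3b : CRef := CRef.mk (Pat.mk 0x180000001e000000080000000000000000 0x1b0000001e0000003f0000003000000030 6 6) 0 0 (step_sound _ 68 [rh3f586e1f22541a90, (rhe25b0a99195a5d59.shift 1 2)] (by decide +kernel))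
noncomputable def rhf9d62ceb3254e4a2 : CRef := CRef.mk (Pat.mk 0x40000001e0000000000000000 0x2000000030000003f0000001f0000000400000004 6 6) 0 0 (step_sound _ 97 [rh2a2c9eb013bbac78, (rh3244c3cc8379b070.shift 0 2)] (by decide +kernel))
noncomputable def rh45a40def5bcb8fb4 : CRef := CRef.mk (Pat.mk 0x200000007000000080 0x3e0000007e000000c7 6 8) 0 0 (step_sound _ 35 [rh5b2ce1e5aa4a4edd, (rh96851dee118c1ba3.shift 3 0)] (by decide +kernel))
noncomputable def rh2841e6906e50f5ad : CRef := CRef.mk (Pat.mk 0x80000001e00000004 0x3000000030000003f0000001e00000007 6 6) 0 0 (step_sound _ 68 [(rh33e738c4ed385b9f.shift 1 1), rh94201d150dbfe5dd] (by decide +kernel))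
noncomputable def rhe0822349ed747ae0 : CRef := CRef.mk (Pat.mk 0x2000000020000000f00000000000000000000000000000000 0xa0000001e0000000f0000001e0000001c0000001c00000010 6 5) 0 0 (step_sound _ 163 [(rh33e738c4ed385b9f.shift 0 4), rh5baed06ef358fa9a] (by decide +kernel))
noncomputable def rh2d6e708421c4cbcf : CRef := CRef.mk (Pat.mk 0x8000000080000002c0000000400000000 0x60000000f0000003c0000006c0000007c00000018 6 7) 0 0 (step_sound _ 35 [(rh509847d0837ffcc5.shift 2 0), rha10abbb88ab9db0f] (by decide +kernel))
noncomputable def rhe070bd604e896104 : CRef := CRef.mk (Pat.mk 0x1000000010000000180000000e0000000000000000 0x12000000330000001f0000003e0000003400000004 6 6) 0 0 (step_sound _ 68 [(rh2aa7c1d375387a4e.shift 1 1), rh7e24dc22889eb307, (rh870359598daa9f92.shift 0 2)] (by decide +kernel))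
noncomputable def rh89215ef90278b247 : CRef := CRef.mk (Pat.mk 0x80000001e000000060000000000000000 0x3b0000001e0000003e0000003000000030 6 6) 0 0 (step_sound _ 129 [(rh3244c3cc8379b070.shift 0 3), (rh591174ba4683a07b.shift 1 0)] (by decide +kernel))
noncomputable def rh49f566ae2376a2d7 : CRef := CRef.mk (Pat.mk 0x20000000300000001000000010 0x800000008000001ef000000fe000001df00000010 6 9) 0 0 (step_sound _ 67 [rh17cc9de06e10e505, (rh1fc06c341dd295ca.shift 2 0), (rha11dfd15f08f96e3.shift 2 2), (rhb12ffaec36122c99.shift 0 1)] (by decide +kernel))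
noncomputable def rhcb771e69246e53ac : CRef := CRef.mk (Pat.mk 0x20000000200000007000000018 0x1c0000003c000000ee0000007f00000038 6 8) 0 0 (step_sound _ 35 [rh15a2b73944acc7e4, (rhec46bd5500c722c9.shift 2 1), (rhfdb2696429ffb75e.shift 2 0)] (by decide +kernel))
noncomputable def rh3ef9c1c3100ef3b0 : CRef := CRef.mk (Pat.mk 0x1000000010000000180000000e0000000000000000 0x280000003e000000f30000001f0000003e0000001400000004 6 8) 0 0 (step_sound _ 68 [(rh305945700f20b255.shift 2 1), rh41d5a93e35cc8528, (rh870359598daa9f92.shift 0 2)] (by decide +kernel))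
noncomputable def rhcb50d15eba0fed68 : CRef := CRef.mk (Pat.mk 0x1800000008000000080000000400000000 0x40000003c0000000f000000080000001c0000001c 6 6) 0 0 (step_sound _ 35 [(rh932754581e0f4330.shift 2 0), rhe6c5f01932c735b9] (by decide +kernel))
noncomputable def rh02ca3590c4af44a8 : CRef := CRef.mk (Pat.mk 0x400000004000000040000000200000000 0x600000006000000040000003c0000000f0000000a 6 6) 0 0 (step_sound _ 34 [(rh932754581e0f4330.shift 1 0), rheafbbacb2d90c3c4] (by decide +kernel))
noncomputable def rhc0dad73b6d00ebef : CRef := CRef.mk (Pat.mk 0x80000000c000000040000000000000000 0x4000000060000000f0000003c0000000e0000000e00000006 6 6) 0 0 (step_sound _ 34 [rh4d07a0e09c775b4b, (rh71222050f2c63a3a.shift 2 0)] (by decide +kernel))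
noncomputable def rhafedb74288b3aace : CRef := CRef.mk (Pat.mk 0x20000000200000002000000000000000000000000 0x3000000030000000300000007000000070000000700000005 6 3) 0 0 (step_sound _ 65 [rh8ff3dde5b1c639e0, rhc4526fc8abf298b6, (rhce9a49803a550f13.shift 0 1), rhf4fc431c6cf8f3c7] (by decide +kernel))
noncomputable def rh153f59d0a20e2512 : CRef := CRef.mk (Pat.mk 0x200000002000000070000000000000000000000000 0x200000003f0000007e000000ee0000004000000040 6 8) 0 0 (step_sound _ 99 [(rh3649f0f9b2ae946e.shift 0 2), (rh592c7139d2c44767.shift 1 2), (rhc7b95363f9049b11.shift 3 0)] (by decide +kernel))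
noncomputable def rh7ebd7cfa8708a818 : CRef := CRef.mk (Pat.mk 0x140000000700000004000000000000000000000000 0x40000001400000014000000170000003e0000001a0000000800000008 6 6) 0 0 (step_sound _ 99 [(rh55a312b9fce4d00f.shift 1 0), (rh89ade209b3e28f13.shift 0 3), (rhb23658ecdd7ce5df.shift 1 2)] (by decide +kernel))
noncomputable def rh69ddb689a2d405ae : CRef := CRef.mk (Pat.mk 0x180000001e000000100000000000000000 0x20000000300000001f0000001e000000180000001800000018 6 6) 0 0 (step_sound _ 129 [(rh3244c3cc8379b070.shift 0 3), (rhb6137bb35f082558.shift 1 0)] (by decide +kernel))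
noncomputable def rh49cfaa104330abee : CRef := CRef.mk (Pat.mk 0x8000000180000000e0000001000000000 0x18000000380000001f0000003e0000001800000008 6 6) 0 0 (step_sound _ 68 [(rh2145e1d24b96a57e.shift 3 1), rhd2705a941542c9fb] (by decide +kernel))
noncomputable def rh0e026ddf4b7fd3ab : CRef := CRef.mk (Pat.mk 0x80000001c000000060000000400000000 0x380000001f0000003e0000003c00000018 6 6) 0 0 (step_sound _ 97 [rh715ef4deafe86686, (rhec46bd5500c722c9.shift 0 3), (rhed31fe3d3cc5e5ee.shift 1 0)] (by decide +kernel))
noncomputable def rh4e5d3c6fd6730523 : CRef := CRef.mk (Pat.mk 0x80000001e000000000000000000000000 0x800000008000000380000003e0000000f0000000400000004 6 6) 0 0 (step_sound _ 132 [(rh33e738c4ed385b9f.shift 1 3), rh9cf1eae2eabf38ec] (by decide +kernel))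
noncomputable def rhc9e40dcac8cf7114 : CRef := CRef.mk (Pat.mk 0x20000000f000000000000000000000000 0x4000000060000003f0000003b0000000200000002 6 6) 0 0 (step_sound _ 68 [(rh96851dee118c1ba3.shift 0 2), rhecc20fd3195b88b6] (by decide +kernel))
noncomputable def rh794433440c78b4c3 : CRef := CRef.mk (Pat.mk 0x80000000e000000040000000400000000 0xe0000007e0000007f0000003c00000010 6 7) 0 0 (step_sound _ 100 [rh53c40d3d6d122826, (rh6a5aad1075fb7119.shift 1 2), (rhaf9f2efc81a8312b.shift 0 2)] (by decide +kernel))
noncomputable def rh56f409cd8999f1c6 : CRef := CRef.mk (Pat.mk 0x80000000e000000040000000400000000 0xe80000007e0000007f0000003c00000010 6 8) 0 0 (step_sound _ 100 [rh53c40d3d6d122826, (rhaf9f2efc81a8312b.shift 0 2), (rhb8de41a89a9d4634.shift 1 2)] (by decide +kernel))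
noncomputable def rh0a19b74020e11fa8 : CRef := CRef.mk (Pat.mk 0xc0000000e000000040000000400000000 0x100000003c0000000e0000003c0000000f0000000a 6 6) 0 0 (step_sound _ 35 [(rh55afc6a59410cf00.shift 2 0), rhf8478942b2af157e] (by decide +kernel))
noncomputable def rh21f08e622109e141 : CRef := CRef.mk (Pat.mk 0x8000000080000000c0000000c00000000 0x140000003c0000000f0000000c0000000e0000000a 6 6) 0 0 (step_sound _ 130 [rh0eac73e1cd41bc58, (rh50fbb5868c909700.shift 2 1)] (by decide +kernel))
noncomputable def rhd7e79ebf11e1b82c : CRef := CRef.mk (Pat.mk 0x80000000e0000000000000000 0x8000000080000007f0000003e0000003700000010 6 7) 0 0 (step_sound _ 100 [(rh572132728df34c43.shift 1 2), (rh80f90a60d87caa0d.shift 1 2), rh89edc132b13a1000] (by decide +kernel))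
noncomputable def rh802e5b16603ddc3d : CRef := CRef.mk (Pat.mk 0x20000000e0000000300000001000000000000000000000000 0x4000000060000000f0000001b0000001f0000001e0000000600000002 6 5) 0 0 (step_sound _ 97 [(rh127b405bd7f7b930.shift 1 1), rh4f66b8b299b10e60, (rh7878b592544d766e.shift 0 2), (rha707fb719e87fe6e.shift 1 2)] (by decide +kernel))
noncomputable def rhf02c8537ba00a4d2 : CRef := CRef.mk (Pat.mk 0x38000000000000000000000000 0x80000000c0000001f0000007c0000001f0000000c00000008 6 7) 0 0 (step_sound _ 66 [rh43aadf7a7f3a9f86, (rh4c5c51b0ae60cece.shift 0 2), (rh73f5f7cdf41b5bc9.shift 1 1), (rhe1c32197ffb40f8f.shift 0 2)] (by decide +kernel))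
noncomputable def rh9cfc0a016ed330b5 : CRef := CRef.mk (Pat.mk 0x38000000000000000000000000 0x4000000070000007e0000007f0000000800000008 6 7) 0 0 (step_sound _ 98 [(rh0d378fd9e8917c5a.shift 0 2), (rh185f35b8bd8ec37f.shift 0 2), (rhafa5a7051d37b143.shift 1 0)] (by decide +kernel))
noncomputable def rh073c177bd9190a2a : CRef := CRef.mk (Pat.mk 0x10000000180000000e0000000800000000 0x60000000e0000003f0000001f0000001e0000003800000010 6 6) 0 0 (step_sound _ 97 [rh0eba255d854412ca, (rh5ccb20250d808703.shift 0 2), (rh864e700a232e5d04.shift 0 1)] (by decide +kernel))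
noncomputable def rhc1abf54f7d403429 : CRef := CRef.mk (Pat.mk 0x180000000e000000040000000000000000 0x20000001b000000fe0000007f0000000400000004 6 8) 0 0 (step_sound _ 34 [(rh0dcb5839311c3864.shift 0 1), (rh71222050f2c63a3a.shift 2 0)] (by decide +kernel))
noncomputable def rhc987ca2c141d7f36 : CRef := CRef.mk (Pat.mk 0x40000000e000000030000000000000000 0x2000000060000000e0000000f0000001f0000000f 6 5) 0 0 (step_sound _ 33 [(rh71222050f2c63a3a.shift 1 0), rh859c65c606d77f13] (by decide +kernel))
noncomputable def rh05d66663490d46ce : CRef := CRef.mk (Pat.mk 0x8000000080000001c0000000600000000 0x140000001c0000003c0000001f0000001e0000001b 6 6) 0 0 (step_sound _ 35 [rh235cfc679c7203d6, rh622e1e57e499877e, rh6dc2d17b5ce1ca6f] (by decide +kernel))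
noncomputable def rheb8d7b7567064929 : CRef := CRef.mk (Pat.mk 0x380000000c000000040000000400000000 0x60000003f0000003c0000000f0000003c00000018 6 6) 0 0 (step_sound _ 130 [(rh5fa41af95dbdc841.shift 1 0), (rhcf85c92937975d4d.shift 0 1), rhd802bb8339359eae] (by decide +kernel))
noncomputable def rhb59a214e4dc22cb7 : CRef := CRef.mk (Pat.mk 0x8000000080000001c00000006000000000000000000000000 0x60000000f0000003c0000001c0000001e0000001a0000001800000008 6 6) 0 0 (step_sound _ 194 [(rh05e88f19e129c927.shift 2 0), (rh4c9eac6bf6ab9a81.shift 1 2), (rhc3a9559c72b00d0b.shift 0 2)] (by decide +kernel))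
noncomputable def rhe43359d1c2c98f91 : CRef := CRef.mk (Pat.mk 0x70000000180000000000000000 0x8000000ef0000007f000000780000001000000010 6 8) 0 0 (step_sound _ 99 [(rh1b1a23e58c3e6ec7.shift 1 2), (rh38a0850c9fea941e.shift 2 0), (rha58ddf8813c4b875.shift 0 2)] (by decide +kernel))
noncomputable def rh30df92a078d433d0 : CRef := CRef.mk (Pat.mk 0x600000004000000040000000000000000 0xa0000000f0000003c000000040000000c0000000c 6 6) 0 0 (step_sound _ 34 [(rh50fbb5868c909700.shift 1 1), rhaff73c82a66aa2fb] (by decide +kernel))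
noncomputable def rh4e19592082f515f6 : CRef := CRef.mk (Pat.mk 0x20000000e00000003000000000000000000000000 0x4000000060000000e0000000f0000001f0000000f00000005 6 5) 0 0 (step_sound _ 65 [(rh3a2447ed8c5fdc2c.shift 0 1), rh6eff4158bb400f47, (rha707fb719e87fe6e.shift 1 1)] (by decide +kernel))
noncomputable def rhb124eef4af3973b0 : CRef := CRef.mk (Pat.mk 0x100000000e000000180000000000000000 0x14000000140000003e0000001f0000000b0000000a 6 6) 0 0 (step_sound _ 100 [(rh1e309b005ffa1b36.shift 3 0), rh21703bbb6af57eb9] (by decide +kernel))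
noncomputable def rh03f067431414b84d : CRef := CRef.mk (Pat.mk 0xe000000100000000000000000 0x400000004000000060000003e000000370000000200000002 6 6) 0 0 (step_sound _ 100 [rhd72044392b4d28d0, (rhe25b0a99195a5d59.shift 1 2)] (by decide +kernel))
noncomputable def rh6e2398998373ca95 : CRef := CRef.mk (Pat.mk 0xe000000100000000000000000 0x200000002000000070000003e000000360000000400000004 6 6) 0 0 (step_sound _ 100 [rh7761c03094161dbb, (rhe25b0a99195a5d59.shift 1 2)] (by decide +kernel))
noncomputable def rh1b27c8bcf0d98c2e : CRef := CRef.mk (Pat.mk 0x38000000000000000000000000 0x40000001f000000fc000001de0000000800000008 6 9) 0 0 (step_sound _ 130 [(rh40811da85268475d.shift 0 3), (rh8bb330ee5aea9f6b.shift 1 0), (rh8c12fdbbddc1e7ab.shift 0 3), (rhe79590487a395ecc.shift 2 2)] (by decide +kernel))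
noncomputable def rh5439552c12defe8d : CRef := CRef.mk (Pat.mk 0x380000000000000000 0x8000000080000000f0000007e0000007700000004 6 7) 0 0 (step_sound _ 66 [(rh0d378fd9e8917c5a.shift 0 1), (rh185f35b8bd8ec37f.shift 0 1), (rh21460d2d48a35cb8.shift 1 0)] (by decide +kernel))
noncomputable def rh3e38eb79a8ff3f02 : CRef := CRef.mk (Pat.mk 0x180000000e000000040000000400000000 0x400000006000000160000001e0000000e0000003e0000000f0000000a 6 6) 0 0 (step_sound _ 130 [rh9ee3848b537ea47a, (rhe897af202bc68eb8.shift 1 1), (rhea90e7358341a1a4.shift 1 0)] (by decide +kernel))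
noncomputable def rhc6b83ece5e5e5703 : CRef := CRef.mk (Pat.mk 0x8000000080000001c00000006000000000000000000000000 0x40000000c0000001c0000001c0000007e0000001b0000001800000008 6 7) 0 0 (step_sound _ 99 [(rh23332ef26eafbb48.shift 2 0), (rh26cdfd0ee59ad7b2.shift 0 2), (rhdaa34f01e5e560a1.shift 2 0)] (by decide +kernel))
noncomputable def rh45023f76c71d2168 : CRef := CRef.mk (Pat.mk 0x80000001c0000000600000004000000000000000000000000 0x180000001c0000003e0000003f0000003b0000002a00000020 6 6) 0 0 (step_sound _ 100 [(rh14fee18525a2908c.shift 1 1), (rh36caa74d350fc8e1.shift 0 1), (rh3be6b8746885e3c9.shift 0 2), (rh3bfe72d6b3e823f4.shift 1 2), (rh6f2718c4c2575f17.shift 1 0), (rhe6760eaa6d926ed2.shift 0 1)] (by decide +kernel))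
noncomputable def rh21f347bcbe2825ae : CRef := CRef.mk (Pat.mk 0x180000000e000000040000000400000000 0x1c000000fe000000770000003c00000018 6 8) 0 0 (step_sound _ 100 [(rh76c4edc656936505.shift 1 2), rha47540fd72942c72, (rhaf9f2efc81a8312b.shift 0 2)] (by decide +kernel))
noncomputable def rh65fb53030b4207ec : CRef := CRef.mk (Pat.mk 0x20000000300000002000000000000000000000000 0x5000000070000000700000002000000030000000300000007000000070000000700000001 6 3) 0 0 (step_sound _ 193 [(rh03dfdf12d5937476.shift 0 2), (rh68a777751bfeafdf.shift 0 3), rh839bc275b7f0d03f] (by decide +kernel))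
noncomputable def rh7d2a61ed2fa6da49 : CRef := CRef.mk (Pat.mk 0x4000000070000000400000000 0x20000000e0000000e0000000c00000006000000070000001e0000000a 6 5) 0 0 (step_sound _ 130 [(rh03dfdf12d5937476.shift 1 0), (rh42ab489a1be3958e.shift 1 1), rhb379f99078aafa2d] (by decide +kernel))
noncomputable def rhdb457e0fcd7358da : CRef := CRef.mk (Pat.mk 0x200000006000000020000000200000000 0x300000003000000070000000600000006000000060000000600000004 6 3) 0 0 (step_sound _ 130 [(rh2f68792b6b779e96.shift 1 1), rhcbaa34959f85e2ef] (by decide +kernel))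
noncomputable def rh3c4cc1fd50af56fb : CRef := CRef.mk (Pat.mk 0xc00000006000000040000000000000000 0xc0000000c000000060000003c0000000f0000000a 6 6) 0 0 (step_sound _ 34 [(rh2f68792b6b779e96.shift 2 1), rh957e3bb4c843b184] (by decide +kernel))
noncomputable def rhff76751b9e64b23d : CRef := CRef.mk (Pat.mk 0xc00000018000000080000000800000000 0x80000000c000000780000000f0000003c00000014 6 7) 0 0 (step_sound _ 101 [rhf1a8127573b72831, (rhf48373e13d2bc128.shift 2 3)] (by decide +kernel))
noncomputable def rh7104db73f0b504c8 : CRef := CRef.mk (Pat.mk 0x800000018000000080000000800000000 0xc0000000c000000180000000f0000003c00000014 6 6) 0 0 (step_sound _ 162 [rhf3d11b058448e968, (rhffd04209dc8ea796.shift 2 1)] (by decide +kernel))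
noncomputable def rhe1eeebb7e793c63b : CRef := CRef.mk (Pat.mk 0x8000000080000000c0000000400000000 0x6000000160000007f0000003e0000000f0000003e0000001a 6 7) 0 0 (step_sound _ 130 [rh2945e0cb3c5365fb, rh880b34c8d02001a7, rhe51b589a77e9e460] (by decide +kernel))
noncomputable def rh57ed4e1cfda4b497 : CRef := CRef.mk (Pat.mk 0x4000000000000001c00000006000000000000000000000000 0x40000000c0000001f0000003e0000003a0000001000000010 6 6) 0 0 (step_sound _ 162 [rh1e1f6096f7be8bf4, (rh932754581e0f4330.shift 1 2)] (by decide +kernel))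
noncomputable def rh34278e2214dbf1a2 : CRef := CRef.mk (Pat.mk 0x4000000000000001c0000000600000000 0xe0000000e0000003b0000001f0000003600000010 6 6) 0 0 (step_sound _ 65 [(rhc6719c6594e47b00.shift 0 1), rhf41a34b41b8c2138] (by decide +kernel))
noncomputable def rhe73e09209f36e2d0 : CRef := CRef.mk (Pat.mk 0x180000000e0000000000000000 0x8000000080000001e000000fe000000f700000010 6 8) 0 0 (step_sound _ 68 [(rha1eb337eeb07c2e7.shift 0 1), (rhbc221e1a102c3bdc.shift 0 1), (rhea719cc8bd0bdd28.shift 1 0)] (by decide +kernel))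
noncomputable def rh773388f5d93182f7 : CRef := CRef.mk (Pat.mk 0x80000003800000008000000000000000000000000 0x4000000140000001e0000007f0000003800000008000000180000001800000010 6 7) 0 0 (step_sound _ 194 [(rh114f4abf4ea101c9.shift 2 2), (rh220150d46e3802c8.shift 2 0), (rhbec796c3ea7a32e6.shift 1 2), (rhfda53859b312fb22.shift 0 3)] (by decide +kernel))
noncomputable def rhaef10c6fccb894fe : CRef := CRef.mk (Pat.mk 0x180000001e0000000000000000 0x1800000018000000180000003e0000000f0000000c 6 6) 0 0 (step_sound _ 33 [(rh30317101fbbcd958.shift 1 0), (rheb0810cc63b001d8.shift 0 1)] (by decide +kernel))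
noncomputable def rh74cf62e90e849fc2 : CRef := CRef.mk (Pat.mk 0x1c000000060000000000000000 0x20000000a0000003b0000001f0000003e0000003400000020 6 6) 0 0 (step_sound _ 97 [rha899a957ae791d46, (rhbdb8dfd08861fbf7.shift 0 1)] (by decide +kernel))
noncomputable def rh914e6c6b2714f6f5 : CRef := CRef.mk (Pat.mk 0xc0000000f000000040000000000000000 0xc0000000f0000001e0000007c0000001c 6 7) 0 0 (step_sound _ 34 [(rh71222050f2c63a3a.shift 2 0), rh8c6243e3738b27d7] (by decide +kernel))
noncomputable def rh5a591c1cd3813a26 : CRef := CRef.mk (Pat.mk 0x180000001e00000008 0x100000001000000018000000fe000000ef 6 8) 0 0 (step_sound _ 1 [(rh0000e2b7950eae36.shift 1 0), rheb0810cc63b001d8] (by decide +kernel))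
noncomputable def rhd811802aff543e30 : CRef := CRef.mk (Pat.mk 0x180000000e000000080000000000000000 0x4000000040000001f0000007e0000007f0000003200000030 6 7) 0 0 (step_sound _ 100 [(rh21460d2d48a35cb8.shift 0 1), (rh5f68d4d802450994.shift 1 2), (rh79ca413a1e436ec6.shift 0 2), rhd3114851a34382be] (by decide +kernel))
noncomputable def rhd35175bd8dce5549 : CRef := CRef.mk (Pat.mk 0x80000000c000000060000000400000000 0x80000003f0000007e0000003e00000010 6 7) 0 0 (step_sound _ 100 [(rh18965a982d73c794.shift 1 2), rhc9968ecf1b033886] (by decide +kernel))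
noncomputable def rhbe788b914a0ed500 : CRef := CRef.mk (Pat.mk 0x8000000080000000c00000006000000000000000000000000 0x40000000c0000000c0000003f0000003e0000001a0000001800000008 6 6) 0 0 (step_sound _ 132 [(rh18965a982d73c794.shift 1 3), rh39a2b588b77d96d3] (by decide +kernel))
noncomputable def rha4a0a2874a9f7380 : CRef := CRef.mk (Pat.mk 0xc000000070000000400000000 0x80000000e0000000e000000060000000e0000000f0000003c00000008 6 6) 0 0 (step_sound _ 130 [(rh69f0587a21bb077f.shift 1 1), (rh72afbdc90680d7b8.shift 1 1), rhd9397e4126e81439] (by decide +kernel))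
noncomputable def rh748f36402bb371f7 : CRef := CRef.mk (Pat.mk 0x300000001c0000000000000000 0x1c0000007e0000003f0000007c0000006e0000002c 6 7) 0 0 (step_sound _ 98 [rh0985ba920b83ab44, (rh0eba255d854412ca.shift 1 0), (rh3e6fa113d96337e6.shift 1 0)] (by decide +kernel))
noncomputable def rh7e62201bce77aef2 : CRef := CRef.mk (Pat.mk 0x400000006000000020000000000000000 0x4000000040000000f0000003f0000007f0000000800000008 6 7) 0 0 (step_sound _ 162 [(rh5c5e593799055d58.shift 1 2), rh9c3657c62bacdcf1] (by decide +kernel))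
noncomputable def rh2dbb599cafd8431a : CRef := CRef.mk (Pat.mk 0x8000000080000001c000000060000000000000000 0x8000000380000001f000000360000003e00000014 6 6) 0 0 (step_sound _ 34 [rh1146b196d1fe7f18, (rh71222050f2c63a3a.shift 2 0)] (by decide +kernel))
noncomputable def rh2820aaf9abe86d2d : CRef := CRef.mk (Pat.mk 0x200000002000000070000000180000000000000000 0x200000007e0000007f000000d80000004000000040 6 8) 0 0 (step_sound _ 70 [(rh08edf065357d68e5.shift 5 0), (rh40d60e552b04154f.shift 1 2), (rh6a6124da44f8db30.shift 0 2)] (by decide +kernel))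
noncomputable def rh0db986919a32f087 : CRef := CRef.mk (Pat.mk 0x40000000e000000030000000000000000 0x20000000e0000000f0000001b0000001f0000000f 6 5) 0 0 (step_sound _ 33 [rh56e0b13cd0948f51, (rh71222050f2c63a3a.shift 1 0)] (by decide +kernel))
noncomputable def rh254306545f7222d6 : CRef := CRef.mk (Pat.mk 0x10000000180000000e00000000 0x8000000080000001c0000001f00000038000000180000003e00000027 6 6) 0 0 (step_sound _ 132 [rh3adaef6d8a04de5e, (rh5c5e593799055d58.shift 3 1)] (by decide +kernel))
noncomputable def rh03fd4196b4c73b9b : CRef := CRef.mk (Pat.mk 0x10000000180000000e0000000800000000 0x80000000c0000000e0000001f0000001b0000001e0000000c00000004 6 5) 0 0 (step_sound _ 131 [(rh03dfdf12d5937476.shift 2 0), (rh933f3ac7d57d09d8.shift 2 1), (rhb7a33e47895ab7d7.shift 2 0), rhe537a55726f74dba] (by decide +kernel))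
noncomputable def rh2e39650b785fec6a : CRef := CRef.mk (Pat.mk 0x400000008000000080000000c 0x100000001c0000001f0000007c0000000f0000000c 6 7) 0 0 (step_sound _ 99 [rh2146cc88d1a43824, (rh50fbb5868c909700.shift 2 0)] (by decide +kernel))
noncomputable def rh34b8ec5fc30356a4 : CRef := CRef.mk (Pat.mk 0x3000000060000000200000002 0x100000003000000070000000600000007000000070000000600000002 6 3) 0 0 (step_sound _ 130 [(rh45382e873e6de244.shift 0 1), (rhbaefcd01e0a8bca3.shift 1 0)] (by decide +kernel))
noncomputable def rh67aa3c50ea93ad1e : CRef := CRef.mk (Pat.mk 0x1a0000001e000000000000000000000000 0x4000000340000001e0000001e0000003b0000001a00000018 6 6) 0 0 (step_sound _ 68 [(rhe25b0a99195a5d59.shift 1 2), rhf4b85956d2095a74] (by decide +kernel))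
noncomputable def rhef25275f197a46fc : CRef := CRef.mk (Pat.mk 0x180000001e000000000000000000000000 0x1000000010000000100000001b0000003e000000780000001800000018 6 7) 0 0 (step_sound _ 129 [(rh3244c3cc8379b070.shift 0 3), (rhb42a8287ba86c86a.shift 1 0)] (by decide +kernel))
noncomputable def rhccfa9dbe507a06aa : CRef := CRef.mk (Pat.mk 0x8000000080000000c00000018 0x40000001c0000001c000000180000000c0000000f00000018 6 5) 0 0 (step_sound _ 33 [(rh42ab489a1be3958e.shift 2 0), rhb739f4f82bb681b4] (by decide +kernel))
noncomputable def rhcc974f6670564499 : CRef := CRef.mk (Pat.mk 0x80000000c0000000800000000 0x140000001c0000001c000000080000001f0000007800000010 6 7) 0 0 (step_sound _ 131 [rh4726f1e1122a954b, rh763c912fff7511ee, (rhc85cc95794737cf7.shift 2 1)] (by decide +kernel))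
noncomputable def rh2e46de9788326312 : CRef := CRef.mk (Pat.mk 0x80000000c0000000800000000 0x1c0000003c0000000f0000001f0000007800000018 6 7) 0 0 (step_sound _ 131 [rh4726f1e1122a954b, rh5ee4dc8825dcefa0, rh763c912fff7511ee] (by decide +kernel))
noncomputable def rhc280a345dcd35ece : CRef := CRef.mk (Pat.mk 0x7800000040 0xc70000007e00000067 6 8) 0 0 (step_sound _ 34 [rh275b33ee64930548, (rh96851dee118c1ba3.shift 2 0)] (by decide +kernel))
noncomputable def rh38768c4865b99a8c : CRef := CRef.mk (Pat.mk 0x40000000c00000007000000000000000000000000 0x6000000060000000e0000000c0000000f0000001c0000000c00000004 6 5) 0 0 (step_sound _ 99 [(rh78974448101547fe.shift 0 1), (rhba04d77b039f69d9.shift 0 2), (rhf7c77fe48087fd5b.shift 1 0)] (by decide +kernel))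
noncomputable def rhd1c46c24c8b78e87 : CRef := CRef.mk (Pat.mk 0x80000001c000000060000000000000000 0x40000003c0000001f0000003e0000003300000032 6 6) 0 0 (step_sound _ 97 [(rh591174ba4683a07b.shift 1 0), rhe15dbef4916f64a8, (rhec46bd5500c722c9.shift 0 3)] (by decide +kernel))
noncomputable def rh2ba6aa886f259681 : CRef := CRef.mk (Pat.mk 0x400000006000000030000000000000000 0x200000003000000070000000700000007000000030000000200000002 6 3) 0 0 (step_sound _ 33 [(rh1a349d8f9e8539eb.shift 0 1), (rh71222050f2c63a3a.shift 1 0)] (by decide +kernel))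
noncomputable def rh90901618e653bb3d : CRef := CRef.mk (Pat.mk 0x10000000180000000e0000000800000000 0x4000000340000001f000000fe000000ef00000002 6 8) 0 0 (step_sound _ 68 [rh85903b4a8dd8ebcd, (rh870359598daa9f92.shift 0 2), (rha1eb337eeb07c2e7.shift 0 1)] (by decide +kernel))
noncomputable def rh621baf5876219afc : CRef := CRef.mk (Pat.mk 0x80000003800000008000000000000000000000000 0x140000001f00000038000000080000001c0000001c00000014 6 6) 0 0 (step_sound _ 162 [(rh0a6888916bcef86b.shift 2 0), (rh668fc65514a55b16.shift 2 1), (rhc02b3aee7ab87ee1.shift 0 4)] (by decide +kernel))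
noncomputable def rh8676ff876f66f9a9 : CRef := CRef.mk (Pat.mk 0xe000000020000000000000000 0x8000000f80000007f000000f60000001000000010 6 8) 0 0 (step_sound _ 100 [(rh3d54e7f933686048.shift 1 2), rh5dffc5561274dae0, (rhd584a578337d0023.shift 1 2), (rhf3baec4a0a3dd35e.shift 1 2)] (by decide +kernel))
noncomputable def rh84d2d92f425b9f0a : CRef := CRef.mk (Pat.mk 0x10000000100000003800000008 0x40000001e0000007f0000003f00000038 6 7) 0 0 (step_sound _ 34 [rh55daa26adcd643af, (rhb5026552920bacb8.shift 1 0), (rhec46bd5500c722c9.shift 1 1)] (by decide +kernel))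
noncomputable def rhbdaf8c74e7ba3287 : CRef := CRef.mk (Pat.mk 0x80000001c000000040000000000000000 0x2000000020000003f0000001f000000040000000400000004 6 6) 0 0 (step_sound _ 34 [(rh71222050f2c63a3a.shift 2 0), (rhae759747b8fd9d01.shift 0 1)] (by decide +kernel))
noncomputable def rh4ba3d6a9216436ea : CRef := CRef.mk (Pat.mk 0x180000001e0000000800000000 0x12000000330000001f0000001e0000000c00000004 6 6) 0 0 (step_sound _ 97 [(rh3244c3cc8379b070.shift 0 2), rh6eab07bafa742d17] (by decide +kernel))
noncomputable def rh9ca4071e5dcbbe67 : CRef := CRef.mk (Pat.mk 0x20000000300000002000000000000000000000000 0x1000000070000000700000006000000030000000300000003000000070000000700000004 6 3) 0 0 (step_sound _ 193 [(rh03dfdf12d5937476.shift 0 2), (rh42ab489a1be3958e.shift 0 3), rhed841d9ebc5dd0e1] (by decide +kernel))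
noncomputable def rha36a279dbe3c0abf : CRef := CRef.mk (Pat.mk 0x20000001e000000120000000000000000 0x7000000070000000f0000003e0000001e000000160000001200000010 6 6) 0 0 (step_sound _ 132 [rh2306c76fed6a2b1b, (rh33e738c4ed385b9f.shift 1 3)] (by decide +kernel))
noncomputable def rhcd70aab8b9e6a2a7 : CRef := CRef.mk (Pat.mk 0x1e000000040000000000000000 0x8000000080000003c0000001f000000070000000400000004 6 6) 0 0 (step_sound _ 65 [rh206d61528605a692, (rheb0810cc63b001d8.shift 0 2)] (by decide +kernel))
noncomputable def rhd050ea11a2b85eec : CRef := CRef.mk (Pat.mk 0x7800000010 0xe70000007f0000001c 6 8) 0 0 (step_sound _ 3 [rha58ddf8813c4b875, (rheb0810cc63b001d8.shift 2 0)] (by decide +kernel))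
noncomputable def rh9686d3671f9d1c60 : CRef := CRef.mk (Pat.mk 0x200000007800000000 0x3c0000007e000000e7 6 8) 0 0 (step_sound _ 67 [(rh3244c3cc8379b070.shift 2 1), rhc7d592a49b2c2ab2] (by decide +kernel))
noncomputable def rhf80c5e44ef96fd8b : CRef := CRef.mk (Pat.mk 0x8000000080000001c0000000c00000000 0x60000000f0000003c0000001c0000000f00000002 6 6) 0 0 (step_sound _ 130 [rh167428fe1b8e498c, (rh50fbb5868c909700.shift 2 1)] (by decide +kernel))
noncomputable def rh5c716ecc989daa21 : CRef := CRef.mk (Pat.mk 0x80000001c000000040000000000000000 0x60000000f0000001c0000000e0000000e0000000e 6 5) 0 0 (step_sound _ 34 [rh04d9d60f04554b8a, (rh71222050f2c63a3a.shift 2 0)] (by decide +kernel))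
noncomputable def rhaf1a017cee36fba7 : CRef := CRef.mk (Pat.mk 0x38000000080000000000000000 0x4000000760000003e0000007f0000000800000008 6 7) 0 0 (step_sound _ 66 [(rh1ed7a3503fa50fc8.shift 0 2), (rhe34eb1c5e947ccf9.shift 1 0), (rheea1a90336e79c71.shift 0 2)] (by decide +kernel))
noncomputable def rhbd743a7425dff4cb : CRef := CRef.mk (Pat.mk 0xe00000012000000020000000000000000 0x30000001e00000032000000070000000700000005 6 6) 0 0 (step_sound _ 132 [rh3303903b5fb91e1a, (rhe25b0a99195a5d59.shift 1 3)] (by decide +kernel))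
noncomputable def rh9dfa9ccb512a0788 : CRef := CRef.mk (Pat.mk 0xe0000000200000002000000020000000000000000 0x10000000f0000001a00000002000000070000000700000005 6 5) 0 0 (step_sound _ 160 [rh219cc654dcd922b3, (rh50fbb5868c909700.shift 0 2)] (by decide +kernel))
noncomputable def rhacb79211bf17cbc0 : CRef := CRef.mk (Pat.mk 0x2000000020000001e00000002 0x4000000070000000700000003000000360000001e00000002 6 6) 0 0 (step_sound _ 68 [(rh33e738c4ed385b9f.shift 1 1), rh64bc0dab78a08b48] (by decide +kernel))
noncomputable def rh5064116d1b2ace0d : CRef := CRef.mk (Pat.mk 0xe000000120000000000000000 0xc0000000c0000001f0000003e0000003a0000001200000010 6 6) 0 0 (step_sound _ 100 [rh2129b6e5ea41379d, (rhe25b0a99195a5d59.shift 1 2)] (by decide +kernel))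
noncomputable def rhba656b59634b5042 : CRef := CRef.mk (Pat.mk 0xe00000002 0x3b0000001f0000003b 6 6) 0 0 (step_sound _ 36 [rha3d4104031ffed1d, rheb0810cc63b001d8] (by decide +kernel))
noncomputable def rh409831cc0d61a6f8 : CRef := CRef.mk (Pat.mk 0x60000000300000002000000000000000000000000 0x4000000070000000700000003000000060000000700000003000000070000000700000004 6 3) 0 0 (step_sound _ 193 [(rh03dfdf12d5937476.shift 0 2), rh5bb331872301d326, (rh72afbdc90680d7b8.shift 0 3)] (by decide +kernel))
noncomputable def rh0562de5a23f261fd : CRef := CRef.mk (Pat.mk 0x8000000180000000e000000000000000000000000 0x60000001f0000001e0000000e0000001c0000001c00000010 6 5) 0 0 (step_sound _ 67 [(rh04ee05071d91faba.shift 2 1), (rh301a6b3a9154ed36.shift 3 0), (rh8780feb96d6aa5c7.shift 0 1)] (by decide +kernel))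
noncomputable def rh2f25c377fb84c77b : CRef := CRef.mk (Pat.mk 0x380000000c0000000800000000 0x140000001f0000003c0000003c0000007c00000034 6 7) 0 0 (step_sound _ 131 [(rh039efe07c35de3d4.shift 1 1), rh25464d5536c65525, (rh3a2447ed8c5fdc2c.shift 2 0)] (by decide +kernel))
noncomputable def rhd452154e2f95c1a3 : CRef := CRef.mk (Pat.mk 0x8000000180000000e00000000 0x800000008000000080000001f000000fe000000f0 6 8) 0 0 (step_sound _ 36 [(rh3e595262c1b737ad.shift 3 0), rh883451bd3feec117] (by decide +kernel))
noncomputable def rh3dbfcdea2ee3a551 : CRef := CRef.mk (Pat.mk 0x1e00000016000000000000000000000000 0x300000001f0000001e000000380000001800000018 6 6) 0 0 (step_sound _ 99 [(rh3244c3cc8379b070.shift 0 3), (rhf619052be4aa0481.shift 1 0)] (by decide +kernel))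
noncomputable def rhd4aa107219f07aff : CRef := CRef.mk (Pat.mk 0x180000000e00000010 0x200000002000000030000001f0000003e00000034 6 6) 0 0 (step_sound _ 36 [rh331d4a807f97bfca, (rhe25b0a99195a5d59.shift 1 0)] (by decide +kernel))
noncomputable def rhaae3a4f671e11608 : CRef := CRef.mk (Pat.mk 0x40000000700000004000000040000000000000000 0x400000004000000070000001e0000000e0000000e0000000c 6 5) 0 0 (step_sound _ 65 [(rh932754581e0f4330.shift 1 1), rhdd21c41104e3ad38] (by decide +kernel))
noncomputable def rhdbb58fe6dcb42766 : CRef := CRef.mk (Pat.mk 0x180000000e0000000800000000 0x100000001c0000001e0000000f0000001e0000000e0000000c00000004 6 5) 0 0 (step_sound _ 131 [(rh03dfdf12d5937476.shift 2 0), (rh69f0587a21bb077f.shift 2 1), rh8780feb96d6aa5c7] (by decide +kernel))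
noncomputable def rh49fb5eb5c0c3443b : CRef := CRef.mk (Pat.mk 0xc0000000f000000040000000000000000 0xc0000000f0000001e0000007c0000001c 6 7) 0 0 (step_sound _ 67 [(rhe25b0a99195a5d59.shift 0 2), (rhfcf8453754690561.shift 1 0)] (by decide +kernel))
noncomputable def rhc8e0c352f7cc490e : CRef := CRef.mk (Pat.mk 0x80000000c000000070000000400000000 0x400000006000000060000000e0000000e0000000f0000001e00000008 6 5) 0 0 (step_sound _ 35 [(rh307e87dde5ddcd87.shift 1 0), (rhae2edff970a530ce.shift 0 1)] (by decide +kernel))
noncomputable def rh60eca2e8da09969b : CRef := CRef.mk (Pat.mk 0x80000000c0000000700000000 0xc0000000c0000000c0000000e0000007f0000001a 6 7) 0 0 (step_sound _ 131 [(rh5c5e593799055d58.shift 2 1), rha45c9d34a59a0199] (by decide +kernel))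
noncomputable def rhef0e71e7d99f5402 : CRef := CRef.mk (Pat.mk 0x10000000180000000e0000000000000000 0x1800000018000000380000001f0000003e0000003000000010 6 6) 0 0 (step_sound _ 164 [rh2cb282a1ece82d5d, (rh5c5e593799055d58.shift 3 2)] (by decide +kernel))
noncomputable def rh6edec57b64153980 : CRef := CRef.mk (Pat.mk 0x180000000e0000000800000000 0x80000000c0000001e0000001f0000001e0000000e0000000c00000004 6 5) 0 0 (step_sound _ 131 [(rh03dfdf12d5937476.shift 2 0), (rh7cd75823eb0050a7.shift 2 1), rh8780feb96d6aa5c7] (by decide +kernel))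
noncomputable def rh469a0a5f9c8225cd : CRef := CRef.mk (Pat.mk 0xc0000000700000008000000000000000000000000 0x80000000c000000070000003e0000000e0000000e0000000a 6 6) 0 0 (step_sound _ 98 [(rh1b9022be4f7af407.shift 1 0), (rh89ade209b3e28f13.shift 0 3), (rhc046200cde9005a2.shift 0 1)] (by decide +kernel))
noncomputable def rh76f83385fb238dcd : CRef := CRef.mk (Pat.mk 0x8000000100000003000000014 0x8000000080000001f0000003e0000003400000014 6 6) 0 0 (step_sound _ 131 [rh19d92346f4c1f069, (rhcfdf45280693d3da.shift 3 0)] (by decide +kernel))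
noncomputable def rhd4516cf30f753281 : CRef := CRef.mk (Pat.mk 0x800000010000000300000001400000000 0x8000000080000000f0000003e000000340000001400000010 6 6) 0 0 (step_sound _ 99 [(rh4e6c13ae5f4eff09.shift 0 1), (rh7b1f1fb55310c477.shift 3 0)] (by decide +kernel))
noncomputable def rh1f9114330881d08f : CRef := CRef.mk (Pat.mk 0x380000000e000000000000000000000000 0x4000000040000000e0000001f0000003a0000000e0000007e0000001400000004 6 7) 0 0 (step_sound _ 163 [rh0ab273d635ba54c7, (rh281c6819542c66e6.shift 2 0), (rh5840dbfc019b4d17.shift 0 2), (rhbb96aa47da16921b.shift 0 1)] (by decide +kernel))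
noncomputable def rhed809369164fc67c : CRef := CRef.mk (Pat.mk 0x80000003c0000000c 0xe0000000f0000003e0000003c0000000c 6 6) 0 0 (step_sound _ 66 [(rh3244c3cc8379b070.shift 1 1), rh702bf3d300087ad4] (by decide +kernel))
noncomputable def rh2dc23df1105a8bfd : CRef := CRef.mk (Pat.mk 0x40000001e00000006 0x3000000030000003f0000001e00000036 6 6) 0 0 (step_sound _ 65 [(rh3244c3cc8379b070.shift 0 1), rhd62161f3d73f6721] (by decide +kernel))
noncomputable def rhe98d820dcaa9ab58 : CRef := CRef.mk (Pat.mk 0x1c00000006000000000000000000000000 0x600000006000000070000001f0000003e000000070000000600000002 6 6) 0 0 (step_sound _ 65 [(rh7946d3b226c7723d.shift 0 2), rh84cafdab28ae2921, (rhadf429772c25fde0.shift 1 0)] (by decide +kernel))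
noncomputable def rh5e7aa396a261a685 : CRef := CRef.mk (Pat.mk 0x70000000180000000000000000 0x280000002f0000007f000000f8000000d000000050 6 8) 0 0 (step_sound _ 99 [(rh014abbda9a411227.shift 2 0), (rh04adde65229dd8ca.shift 0 2), (rh38a0850c9fea941e.shift 2 0)] (by decide +kernel))
noncomputable def rh874d35ef4c9559f4 : CRef := CRef.mk (Pat.mk 0xc0000000f0000000000000000 0x8000000080000000c0000007f0000003e00000004 6 7) 0 0 (step_sound _ 36 [(rh3d501a730f77e9b6.shift 1 0), (rh96851dee118c1ba3.shift 0 1)] (by decide +kernel))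
noncomputable def rh5cac123e76f49d10 : CRef := CRef.mk (Pat.mk 0x2000000020000000e000000020000000400000000 0x1000000030000003e0000003e000000020000000600000006 6 6) 0 0 (step_sound _ 33 [rh0e5cb9e22de26f97, (rh55afc6a59410cf00.shift 1 0)] (by decide +kernel))
noncomputable def rh58918e02b60cf959 : CRef := CRef.mk (Pat.mk 0x800000038000000080000000000000000 0x40000000c0000001f00000038000000180000001800000018 6 6) 0 0 (step_sound _ 36 [(rh390a8df03c6c5a62.shift 3 0), (rh9111ff9e472d4da3.shift 1 0), (rhd2b8d05d0c0cd0b8.shift 0 1)] (by decide +kernel))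
noncomputable def rh0086abefef2dfe1a : CRef := CRef.mk (Pat.mk 0x70000000180000000000000000 0x48000000cf0000007f000000f80000003000000030 6 8) 0 0 (step_sound _ 99 [(rh04adde65229dd8ca.shift 0 2), (rh38a0850c9fea941e.shift 2 0), (rhb32eb569dfc388a6.shift 2 0)] (by decide +kernel))
noncomputable def rh349def677e490109 : CRef := CRef.mk (Pat.mk 0x8000000180000000e00000004000000000000000000000000 0x60000001f0000001f0000000e0000000c000000080000000800000008 6 5) 0 0 (step_sound _ 99 [(rh501207f89dcab93e.shift 0 3), (rh8379dda7bed67b0f.shift 2 0), (rh8cdc95fa188c33b6.shift 0 2), (rhedee52de3917242a.shift 2 2)] (by decide +kernel))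
noncomputable def rh639598c620f976c5 : CRef := CRef.mk (Pat.mk 0x70000000180000000800000000 0x40000000e70000007f000000f80000002c00000020 6 8) 0 0 (step_sound _ 99 [(rha58ddf8813c4b875.shift 0 2), (rhf5f440226ecccf55.shift 2 0), (rhf6d72ac90bd26cb0.shift 2 1)] (by decide +kernel))
noncomputable def rhfbfbdc503383173f : CRef := CRef.mk (Pat.mk 0x8000000380000000800000000000000000000000000000000 0x40000001f00000038000000180000000c0000001c0000001c00000010 6 6) 0 0 (step_sound _ 99 [(rh3820f35d5e705bec.shift 3 0), (rh79905f95cb2d899a.shift 0 3), (rh8a1bd34420cccc7f.shift 2 0)] (by decide +kernel))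
noncomputable def rh4f496cf5d9e292d9 : CRef := CRef.mk (Pat.mk 0x180000000e00000004 0xa0000000f0000001f0000003e00000007 6 6) 0 0 (step_sound _ 99 [(rh5c5e593799055d58.shift 2 0), rhea112361e3f87cdc] (by decide +kernel))
noncomputable def rh0634126d54abd10f : CRef := CRef.mk (Pat.mk 0x10000000f00000009000000000000000000000000 0x10000001d0000000f0000000f0000001e0000001e00000014 6 5) 0 0 (step_sound _ 163 [(rh33e738c4ed385b9f.shift 0 4), rhc707078c7abd5102] (by decide +kernel))
noncomputable def rh00b343c93e2d78ab : CRef := CRef.mk (Pat.mk 0x1c00000004000000040000000c00000000 0x140000001c0000000f0000000f0000003c00000010 6 6) 0 0 (step_sound _ 67 [(rh2145e1d24b96a57e.shift 2 1), rh3b74daaa9abe3933] (by decide +kernel))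
noncomputable def rhbc7acccaa04e1483 : CRef := CRef.mk (Pat.mk 0x38000000080000000800000000 0xc0000001f000000380000000f0000003c00000014 6 6) 0 0 (step_sound _ 131 [rh26a641dd1ea9a7b1, (rh79905f95cb2d899a.shift 0 1)] (by decide +kernel))
noncomputable def rhaec83fcfdb59950d : CRef := CRef.mk (Pat.mk 0x40000000c000000040000000c00000000 0xc0000000c0000003f0000003f00000072 6 7) 0 0 (step_sound _ 33 [rh8fe834413396f13d, (rh932754581e0f4330.shift 1 0)] (by decide +kernel))
noncomputable def rh984757465dfc77d2 : CRef := CRef.mk (Pat.mk 0xc0000000c000000040000000000000000 0x40000000c0000000c0000000f0000003c0000001c 6 6) 0 0 (step_sound _ 34 [(rh71222050f2c63a3a.shift 2 0), rhd802bb8339359eae] (by decide +kernel))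
noncomputable def rh61cc198c3ef38fdd : CRef := CRef.mk (Pat.mk 0x1800000018000000080000000000000000 0x800000018000000780000001f0000000c0000000c 6 7) 0 0 (step_sound _ 35 [(rh71222050f2c63a3a.shift 3 0), rhfb1e9fe27ba300db] (by decide +kernel))
noncomputable def rh54aa9bc4324063fa : CRef := CRef.mk (Pat.mk 0xc0000000c000000080000000c00000000 0x100000007c0000000c0000003c0000001f00000013 6 7) 0 0 (step_sound _ 36 [rh1aa865ed692d276c, (rh55afc6a59410cf00.shift 3 0)] (by decide +kernel))
noncomputable def rhcbd75e843e9f1cf3 : CRef := CRef.mk (Pat.mk 0x1800000018000000100000000000000000 0xc0000000f0000007c000000180000001c0000000c0000000c 6 7) 0 0 (step_sound _ 163 [(rh2145e1d24b96a57e.shift 3 2), rh7392609c29b4875a] (by decide +kernel))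
noncomputable def rh4211127d9d5ad6be : CRef := CRef.mk (Pat.mk 0x30000000f000000000000000000000000 0x100000001c0000001f0000000f0000001c0000000c0000000c 6 5) 0 0 (step_sound _ 131 [rh153c0aacef63f650, (rh33e738c4ed385b9f.shift 0 3)] (by decide +kernel))
noncomputable def rhbaf50283bab76fed : CRef := CRef.mk (Pat.mk 0xe000000060000000000000000 0x8000000380000003f0000003e0000003000000020 6 6) 0 0 (step_sound _ 100 [(rh18965a982d73c794.shift 1 2), rha899a957ae791d46] (by decide +kernel))
noncomputable def rh1c5d19b4fa761874 : CRef := CRef.mk (Pat.mk 0x100000007000000018 0xc0000000c000000ff0000007f00000038 6 8) 0 0 (step_sound _ 35 [rh15a2b73944acc7e4, rh210e2d9c685c857e, (rh2e2af70cc0a250e3.shift 2 0), rha58ddf8813c4b875] (by decide +kernel))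
noncomputable def rhdbd804d12e9d346b : CRef := CRef.mk (Pat.mk 0x20000000e00000003000000010000000000000000 0x4000000060000000f0000001f0000001f0000001e00000006 6 5) 0 0 (step_sound _ 65 [rh60f8a5416b531026, (rh7878b592544d766e.shift 0 1), (rha707fb719e87fe6e.shift 1 1)] (by decide +kernel))
noncomputable def rh29d69dc1825c2302 : CRef := CRef.mk (Pat.mk 0x10000000180000000e000000000000000000000000 0x2000000330000001f0000003e000000070000000400000004 6 6) 0 0 (step_sound _ 129 [rh24e72371d7873615, (rh9458e878ee940312.shift 0 1), (rhf87687aa9c475ea4.shift 0 3)] (by decide +kernel))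
noncomputable def rhc4979968611927b3 : CRef := CRef.mk (Pat.mk 0x4000000040000000e0000000200000000 0x80000000c0000007c0000007f000000f600000014 6 8) 0 0 (step_sound _ 68 [rh0422353a5b2e567f, rh0c95a1c4ce1296ee, (rha1f05977cb30c9d7.shift 1 1), (rhf3baec4a0a3dd35e.shift 1 1)] (by decide +kernel))
noncomputable def rhff0e479837b0c09a : CRef := CRef.mk (Pat.mk 0x1800000018000000080000000c00000000 0x180000007c0000006f0000007c00000030 6 7) 0 0 (step_sound _ 36 [rh0bf660ac3c3ef6b3, (rh55afc6a59410cf00.shift 3 0)] (by decide +kernel))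
noncomputable def rhd9bcfe9aaaeb4622 : CRef := CRef.mk (Pat.mk 0x8000000080000000c00000004000000000000000000000000 0x10000000180000001c0000000f0000003c000000180000001800000018 6 6) 0 0 (step_sound _ 99 [(rh3502d92c6cce609b.shift 2 0), (rh82c6aec0c6f8e399.shift 2 0), (rhfe557af9112f51d6.shift 0 2)] (by decide +kernel))
noncomputable def rh3e2d88e19cc44f79 : CRef := CRef.mk (Pat.mk 0x10000000180000000e000000080000000000000000 0x300000001f0000007e0000007f0000003000000030 6 7) 0 0 (step_sound _ 100 [(rh5f68d4d802450994.shift 1 2), (rh870359598daa9f92.shift 0 3), rhd3114851a34382be] (by decide +kernel))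
noncomputable def rh4a9fe2d0a3378449 : CRef := CRef.mk (Pat.mk 0x200000003800000010 0x3b7000001fe000001de 6 10) 0 0 (step_sound _ 38 [rh1f9701c4cf497514, (rh751dab4454b0bc28.shift 3 0), (rhaf9f2efc81a8312b.shift 2 0)] (by decide +kernel))
noncomputable def rhdf517af570edfac8 : CRef := CRef.mk (Pat.mk 0x20000000e00000003000000010000000000000000 0x4000000060000000f0000001f0000001f0000000e00000006 6 5) 0 0 (step_sound _ 65 [(rh127b405bd7f7b930.shift 1 0), rh60f8a5416b531026, (rha707fb719e87fe6e.shift 1 1), (rhbfcebe01e68384ab.shift 0 1)] (by decide +kernel))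
noncomputable def rh6bd8f56ce05e09d3 : CRef := CRef.mk (Pat.mk 0x2000000020000000100000001 0x500000007000000070000000200000002000000030000000300000001 6 3) 0 0 (step_sound _ 129 [(rhb77bfac3e9efecea.shift 0 1), rheea67dfebd0f8008] (by decide +kernel))
noncomputable def rh30e62d20ed40d720 : CRef := CRef.mk (Pat.mk 0x80000001c00000000 0xff000000ff000001c0 6 9) 0 0 (step_sound _ 37 [(rh915c3ff3d4fe3a39.shift 0 1), (rha1f05977cb30c9d7.shift 2 0), (rhe3060b190bc0bc78.shift 1 1)] (by decide +kernel))
noncomputable def rh032b4c11083229d5 : CRef := CRef.mk (Pat.mk 0xe0000000200000000 0x800000008000000780000003f0000007600000010 6 7) 0 0 (step_sound _ 68 [rh2fa8a6cd8a03c75c, (rhd584a578337d0023.shift 1 1), (rhf3baec4a0a3dd35e.shift 1 1)] (by decide +kernel))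
noncomputable def rh749febdcb18efa47 : CRef := CRef.mk (Pat.mk 0x1000000010000000180000000c00000000 0x30000000300000001f0000003f00000030 6 6) 0 0 (step_sound _ 33 [(rh53b3c253cb0c65f4.shift 0 1), rh6c68c55921d3e4f3] (by decide +kernel))
noncomputable def rh67207cf6cd7da473 : CRef := CRef.mk (Pat.mk 0x4000000040000000e000000020000000000000000 0xc0000000c0000003e0000000f0000000c0000000c 6 6) 0 0 (step_sound _ 100 [(rhb2b31770788dded8.shift 1 0), (rheb0810cc63b001d8.shift 0 2)] (by decide +kernel))
noncomputable def rh2cf84a602928f20d : CRef := CRef.mk (Pat.mk 0x4000000040000000e000000020000000000000000 0x80000000c0000003c0000003f0000003e0000001c0000000c 6 6) 0 0 (step_sound _ 100 [(rh2fa8a6cd8a03c75c.shift 0 1), (rhb2b31770788dded8.shift 1 0), (rhbf26e346ec901b25.shift 0 1)] (by decide +kernel))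
noncomputable def rh17849094ff28c456 : CRef := CRef.mk (Pat.mk 0x8000000080000001c00000004000000000000000000000000 0x10000000180000001c0000001f0000003f000000180000001800000008 6 6) 0 0 (step_sound _ 99 [rh2b2e38de92f27449, (rhc25035b08412a6a9.shift 2 1), (rhfe557af9112f51d6.shift 0 2)] (by decide +kernel))
noncomputable def rhb92b6387f99dce32 : CRef := CRef.mk (Pat.mk 0x1600000018000000080000000800000000 0x600000003f0000001f000000180000001800000010 6 7) 0 0 (step_sound _ 131 [rh1face668f88412af, (rhb739f4f82bb681b4.shift 0 3)] (by decide +kernel))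
noncomputable def rh11a94151330d6f28 : CRef := CRef.mk (Pat.mk 0x100000001e0000000000000000 0x2000000030000001f0000003f0000000400000004 6 6) 0 0 (step_sound _ 97 [(rh3244c3cc8379b070.shift 0 2), rh34c9ded342efa7c3] (by decide +kernel))
noncomputable def rhce399f4db0f11680 : CRef := CRef.mk (Pat.mk 0x80000000e000000000000000000000000 0xa0000000a0000000f0000003e0000003f0000001400000014 6 6) 0 0 (step_sound _ 66 [rh1aa4b2cdb404bb38, rh23be4a946fe7a9a7, (rhf9366b6a121593ef.shift 2 0)] (by decide +kernel))
noncomputable def rh6f0768ea674f126e : CRef := CRef.mk (Pat.mk 0x4000000070000000000000000000000000 0x80000006f000000fe0000001f0000001000000010 6 8) 0 0 (step_sound _ 99 [(rh21d582c147e7e118.shift 1 2), (rh5e601430b8bc2e39.shift 0 2), (rh7fb660bc21ce4329.shift 1 3), (rhe6f3c981f45ee7b2.shift 2 0)] (by decide +kernel))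
noncomputable def rhe313f71a3fc362f5 : CRef := CRef.mk (Pat.mk 0x100000000e0000000000000000 0x400000004000000370000003e0000000300000002 6 6) 0 0 (step_sound _ 68 [rh21460d2d48a35cb8, (rh33e738c4ed385b9f.shift 1 2)] (by decide +kernel))
noncomputable def rhdd1fc785f5e67b3e : CRef := CRef.mk (Pat.mk 0x300000001c000000080000000800000000 0x6e0000003f0000001c0000007c0000001e00000014 6 7) 0 0 (step_sound _ 131 [(rh6cb0e5959253c9cf.shift 1 0), rhb9fa41937b57b353, (rhe43b4aaaf26647b5.shift 2 0)] (by decide +kernel))
noncomputable def rhebc9f997fe8a0ad6 : CRef := CRef.mk (Pat.mk 0x800000038000000180000000000000000 0x20000000200000007f0000003f000000180000001000000010 6 7) 0 0 (step_sound _ 36 [(rh146c5c5cb7631482.shift 0 1), (rh7b1f1fb55310c477.shift 3 0)] (by decide +kernel))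
noncomputable def rhdf6419128c11f7e7 : CRef := CRef.mk (Pat.mk 0x180000000e000000000000000000000000 0x140000001c0000003c0000001f000000380000000e0000003c0000001c00000004 6 6) 0 0 (step_sound _ 163 [(rh281c6819542c66e6.shift 2 0), (rh35fe68b51048166a.shift 0 1), (rh68a777751bfeafdf.shift 2 2), (rhc1b5d17a350cbb83.shift 1 1)] (by decide +kernel))
noncomputable def rh0e4d0c8a54344a68 : CRef := CRef.mk (Pat.mk 0x8000000180000000c0000000800000000 0x140000001f000000380000000c0000007800000010 6 7) 0 0 (step_sound _ 36 [(rh55afc6a59410cf00.shift 3 0), (rhb14ca7081cb9104d.shift 0 1)] (by decide +kernel))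
noncomputable def rh011bde208c2ee97a : CRef := CRef.mk (Pat.mk 0x180000000c000000040000000000000000 0x100000003c0000001f0000003c0000000c0000001c0000001800000010 6 6) 0 0 (step_sound _ 163 [rh53ea059c32e64118, (rh5c5e593799055d58.shift 2 2)] (by decide +kernel))
noncomputable def rh7f68e5f148a16ef7 : CRef := CRef.mk (Pat.mk 0x30000000180000000000000000 0x4000000760000007f0000001e0000000800000008 6 7) 0 0 (step_sound _ 66 [rh04d5e742bcc1b46d, (rh53b3c253cb0c65f4.shift 1 2)] (by decide +kernel))
noncomputable def rha2accce389990510 : CRef := CRef.mk (Pat.mk 0x80000000e000000040000000000000000 0x2000000020000000f0000003e000000760000000400000004 6 7) 0 0 (step_sound _ 34 [(rh0016b6b1baf8d810.shift 0 1), (rh71222050f2c63a3a.shift 2 0)] (by decide +kernel))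
noncomputable def rh0ca62cd3475abf3f : CRef := CRef.mk (Pat.mk 0x140000000c000000040000000000000000 0xa0000000e0000000e0000000f0000003c0000000c000000040000000400000004 6 6) 0 0 (step_sound _ 162 [(rh1741680720c097b4.shift 1 2), (rh2e3bb856366ac9fb.shift 1 0), (rh35c5f1c53251aa1b.shift 1 2), (rh64bc0dab78a08b48.shift 1 2), (rhdf6e52dc69951ef8.shift 0 1), (rhec7a88c6dcaa5d28.shift 0 1)] (by decide +kernel))
noncomputable def rh15f0d287e1c13e88 : CRef := CRef.mk (Pat.mk 0x10000000100000001c0000000800000000 0xc0000001f000000380000001c0000007800000030 6 7) 0 0 (step_sound _ 36 [(rh42afa1af9fffa0e1.shift 2 0), rha06847d8752fa06c] (by decide +kernel))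
noncomputable def rh57beafcfe3f21dae : CRef := CRef.mk (Pat.mk 0x80000000e000000000000000000000000 0x80000000a0000000f0000003e0000003f0000001400000014 6 6) 0 0 (step_sound _ 66 [rh0dbbd572901b56fd, rh1aa4b2cdb404bb38, (rhf9366b6a121593ef.shift 2 0)] (by decide +kernel))
noncomputable def rhed2c2a7fa591e01e : CRef := CRef.mk (Pat.mk 0xc000000080000000c0000000c00000000 0x130000001f0000003c0000000f0000001c00000010 6 6) 0 0 (step_sound _ 36 [(rh55afc6a59410cf00.shift 3 0), (rh9e0505190579641f.shift 0 1)] (by decide +kernel))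
noncomputable def rhaeb58d3deea508ca : CRef := CRef.mk (Pat.mk 0x40000000e000000020000000000000000 0x10000000360000003f0000003e0000000800000008 6 6) 0 0 (step_sound _ 100 [(rh7b030ba967bf927e.shift 1 2), rhafce7c2a98f15f1d] (by decide +kernel))
noncomputable def rh3b0347cbb248d2f9 : CRef := CRef.mk (Pat.mk 0x10000000180000000e0000000800000000 0xa0000003b0000001f0000003e0000000f00000004 6 6) 0 0 (step_sound _ 68 [rh52d0d34192a807e0, rh7e24dc22889eb307, (rh870359598daa9f92.shift 0 2)] (by decide +kernel))
noncomputable def rh18c495d2a0e05999 : CRef := CRef.mk (Pat.mk 0x80000001c000000040000000400000000 0x8000000380000001f000000f60000003e00000038 6 8) 0 0 (step_sound _ 68 [(rh3bb201def308172f.shift 1 0), (rh3ce854f4a795c89f.shift 0 2), (rhab30a5c44bc7a5b9.shift 1 0)] (by decide +kernel))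
noncomputable def rhd7edfb65051afa11 : CRef := CRef.mk (Pat.mk 0x800000004000000040000000400000000 0xc0000000c000000040000003c0000000f0000000a 6 6) 0 0 (step_sound _ 130 [(rh2f68792b6b779e96.shift 2 1), rh3ca4c10fdf355329] (by decide +kernel))
noncomputable def rhb3eba2b986a9613a : CRef := CRef.mk (Pat.mk 0x8000000380000000c00000004000000000000000000000000 0x40000001f000000380000001c0000001c000000180000001800000008 6 6) 0 0 (step_sound _ 194 [(rh1535e2a4be39266a.shift 2 0), (rhc02b3aee7ab87ee1.shift 0 5)] (by decide +kernel))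
noncomputable def rh61f8ebf343e0373b : CRef := CRef.mk (Pat.mk 0x8000000080000000c00000004000000000000000000000000 0x40000000c0000000c0000003f0000003f0000001a0000001800000018 6 6) 0 0 (step_sound _ 99 [(rh04aa474d63f24212.shift 0 2), (rhdd11e03a2f8b13b6.shift 2 0), (rhfe557af9112f51d6.shift 0 2)] (by decide +kernel))
noncomputable def rh7ff9e584281c20db : CRef := CRef.mk (Pat.mk 0x2000000020000000700000001000000000000000000000000 0x500000007000000070000001f0000001f0000001e0000000600000002 6 5) 0 0 (step_sound _ 97 [rh23332ef26eafbb48, (rh5c1e3b0f4de86cda.shift 0 1), (rh806a30ccd3d3e25c.shift 0 2), (rhc25035b08412a6a9.shift 0 1)] (by decide +kernel))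
noncomputable def rh0c5a80766506bbb7 : CRef := CRef.mk (Pat.mk 0x8000000080000001c00000004000000000000000000000000 0x140000001c0000001c0000001c0000007f0000007b0000001800000008 6 7) 0 0 (step_sound _ 99 [(rh23332ef26eafbb48.shift 2 0), (rh806a30ccd3d3e25c.shift 2 2), (rh8ef2a0a653a2af3e.shift 0 2), (rhc25035b08412a6a9.shift 2 1)] (by decide +kernel))
noncomputable def rh3c15c196f7f02af7 : CRef := CRef.mk (Pat.mk 0x8000000080000000c000000040000000000000000 0x140000001e0000007c0000000f0000003c0000001800000010 6 7) 0 0 (step_sound _ 132 [(rh0bb882ba86b2372d.shift 0 3), (rh20bb62adcec3c962.shift 0 1), (rh44628f5a9eecbcc4.shift 1 0), (rh9f5ab7570034ea0b.shift 0 1)] (by decide +kernel))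
noncomputable def rh04450f3814d72d18 : CRef := CRef.mk (Pat.mk 0x40000000c000000060000000200000000 0x40000003c0000007f0000000f00000008 6 7) 0 0 (step_sound _ 100 [(rh18965a982d73c794.shift 1 2), rh35e47d5f944b4abb] (by decide +kernel))
noncomputable def rh2b64b83793d6285b : CRef := CRef.mk (Pat.mk 0x80000001c000000040000000400000000 0x380000001f0000003f0000003c00000010 6 6) 0 0 (step_sound _ 97 [(rh01d64f4b25e9d366.shift 0 2), rh2d8f527606017d8a, (rhec46bd5500c722c9.shift 0 3)] (by decide +kernel))
noncomputable def rh36bb3c217d3b3bef : CRef := CRef.mk (Pat.mk 0x4000000060000000200000000 0x60000000600000004000000070000003e0000000a 6 6) 0 0 (step_sound _ 130 [rh418410019543c870, (rh5c5e593799055d58.shift 1 1)] (by decide +kernel))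
noncomputable def rh61508dc2d4bd88da : CRef := CRef.mk (Pat.mk 0x4000000040000001c0000000600000000 0xc0000000c0000003f0000001f0000000600000004 6 6) 0 0 (step_sound _ 65 [(rh5c5e593799055d58.shift 1 1), rhbaa339b91915b911] (by decide +kernel))
noncomputable def rh60e41fe87125f997 : CRef := CRef.mk (Pat.mk 0x200000007000000010 0x1ee000001fe000003b7 6 10) 0 0 (step_sound _ 35 [rh9d47ef67f175c917, (rhdbe30b89b8872db3.shift 3 0), (rhec46bd5500c722c9.shift 2 1)] (by decide +kernel))
noncomputable def rheb57677b1822ccc5 : CRef := CRef.mk (Pat.mk 0x200000007000000018 0xc0000000c000000fe0000007f00000018 6 8) 0 0 (step_sound _ 35 [rh14b7f29a2029f50d, (rh503775339733bab1.shift 1 1), (rh98d92ab9dd718be9.shift 2 0), (rhec46bd5500c722c9.shift 2 1)] (by decide +kernel))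
noncomputable def rh688b40f5b724c52c : CRef := CRef.mk (Pat.mk 0x400000004000000060000000300000000000000000 0x80000000c8000000cc0000007f0000007c000000d000000010 6 8) 0 0 (step_sound _ 67 [(rh53b3c253cb0c65f4.shift 2 2), rhc2c993d792b339fc] (by decide +kernel))
noncomputable def rh98934c98e317e368 : CRef := CRef.mk (Pat.mk 0x10000000180000000e000000080000000000000000 0x24000000340000001f0000001e0000003f0000003200000030 6 6) 0 0 (step_sound _ 100 [rh2d432a4e867e50f2, (rh85903b4a8dd8ebcd.shift 0 1), (rhd8d98eb6ec46d5f8.shift 0 2)] (by decide +kernel))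
noncomputable def rh43f954c487e28ef4 : CRef := CRef.mk (Pat.mk 0x1000000018000000080000000800000000 0xc0000001e000000780000001f0000003c00000014 6 7) 0 0 (step_sound _ 66 [rh319ab92dc6f1177b, (rh69012675dfdb1a5b.shift 0 2), (rhef1fef9b2fe09d8c.shift 1 0)] (by decide +kernel))
noncomputable def rhe3095af0679fc6af : CRef := CRef.mk (Pat.mk 0x1800000010000000180000001800000000 0x240000003f0000001f000000780000001f00000004 6 7) 0 0 (step_sound _ 133 [(rh2f68792b6b779e96.shift 4 1), rha087fc7ad945a77f] (by decide +kernel))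
noncomputable def rh65354f755c89f0e1 : CRef := CRef.mk (Pat.mk 0x8000000180000000c0000000400000000 0x160000001f0000001e0000000f0000000c00000008 6 5) 0 0 (step_sound _ 65 [rh40c3209ac2338041, (rh53b3c253cb0c65f4.shift 0 2)] (by decide +kernel))
noncomputable def rh3ce71b4b93635ff9 : CRef := CRef.mk (Pat.mk 0x20000000200000007000000018 0x180000003c000000ee0000007f00000038 6 8) 0 0 (step_sound _ 35 [rh15a2b73944acc7e4, (rh503775339733bab1.shift 1 1), (rh6484072c26d7de2a.shift 2 0), (rhec46bd5500c722c9.shift 2 1)] (by decide +kernel))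
noncomputable def rh0f790d0ff3e8085e : CRef := CRef.mk (Pat.mk 0x10000000300000001800000008 0x40000003e0000003f0000003e00000008 6 6) 0 0 (step_sound _ 34 [(rh53b3c253cb0c65f4.shift 1 1), rh767ce3ebb7f93a9b] (by decide +kernel))
noncomputable def rhfff1cd42eb66e1fe : CRef := CRef.mk (Pat.mk 0x400000007000000020000000000000000 0x3000000070000000700000007000000030000000300000002 6 3) 0 0 (step_sound _ 33 [(rh71222050f2c63a3a.shift 1 0), (rhae07c45ecc7aba92.shift 0 1)] (by decide +kernel))
noncomputable def rh0b107fe4080d3ca4 : CRef := CRef.mk (Pat.mk 0x100000002000000060000000200000000000000000000000000000000 0x100000003000000060000000600000006000000070000000700000001 6 3) 0 0 (step_sound _ 97 [rha52e1acf7ed5511e, (rhffd04209dc8ea796.shift 0 3)] (by decide +kernel))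
noncomputable def rh5a45a67be5726e14 : CRef := CRef.mk (Pat.mk 0x8000000080000000c000000000000000000000000 0x140000003c0000001f0000001e0000007c0000001800000010 6 7) 0 0 (step_sound _ 67 [(rh5ee4dc8825dcefa0.shift 0 1), (rh6c59ce14113da07f.shift 3 0), (rhfe15d25f0821986f.shift 1 1)] (by decide +kernel))
noncomputable def rh47de8e38fc533d51 : CRef := CRef.mk (Pat.mk 0x40000000400000002000000020000000000000000 0x4000000040000007c0000003f0000007f0000000800000008 6 7) 0 0 (step_sound _ 98 [(rh5c5e593799055d58.shift 1 2), rh5ca26ca11585cddf] (by decide +kernel))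
noncomputable def rh301aa7ef99633f17 : CRef := CRef.mk (Pat.mk 0x180000001c000000080000000800000000 0x180000001f0000003c000000f800000030 6 8) 0 0 (step_sound _ 97 [(rh53b3c253cb0c65f4.shift 0 3), (rh8c6243e3738b27d7.shift 1 0)] (by decide +kernel))
noncomputable def rhf1d19987b0b07819 : CRef := CRef.mk (Pat.mk 0xe0000000400000004 0x200000002000000730000003e0000007600000004 6 7) 0 0 (step_sound _ 97 [(rh9c94213f6896c74a.shift 0 1), (rha086f24fc46b4198.shift 0 1), (rhe072fffdd2fccf38.shift 1 0)] (by decide +kernel))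
noncomputable def rh2b2593ef305911bf : CRef := CRef.mk (Pat.mk 0x1000000070000000180000000800000000 0x200000003e0000007f000000f8000000cc00000040 6 8) 0 0 (step_sound _ 70 [(rha60544b5be4ccfb6.shift 0 2), (rhe1c545a0fa7090aa.shift 2 0), (rhf530834c0c5f3ed9.shift 1 2)] (by decide +kernel))
noncomputable def rhca8490a835921c3d : CRef := CRef.mk (Pat.mk 0x80000001c000000060000000000000000 0x380000001f0000003e0000003000000030 6 6) 0 0 (step_sound _ 97 [(rh591174ba4683a07b.shift 1 0), rh715ef4deafe86686, (rhec46bd5500c722c9.shift 0 3)] (by decide +kernel))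
noncomputable def rh376e6c20741b5ee7 : CRef := CRef.mk (Pat.mk 0x200000007000000000 0x770000003fe000003c7 6 11) 0 0 (step_sound _ 7 [rh71ca52c3fdaf5e64, (rh71efda916732b25a.shift 3 0), (rh7d288a353d8899c2.shift 4 0)] (by decide +kernel))
noncomputable def rhfed2fc82ea227d2b : CRef := CRef.mk (Pat.mk 0x10000000300000001800000000 0x8000000080000003e000000ff000000f800000010 6 8) 0 0 (step_sound _ 70 [(rh18965a982d73c794.shift 3 1), rhbf6e0c6b450c9abe] (by decide +kernel))
noncomputable def rhc6609698f0507247 : CRef := CRef.mk (Pat.mk 0x1000000018000000080000000800000000 0xc0000000c0000000c0000001e0000007c0000000f0000000c00000004 6 7) 0 0 (step_sound _ 131 [(rh0ef6c71ce89c1c36.shift 2 0), rh7efff25179d37ffa, (rhcf85c92937975d4d.shift 1 1)] (by decide +kernel))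
noncomputable def rh5a26d9648abbf010 : CRef := CRef.mk (Pat.mk 0x8000000080000000c0000001c00000000 0x40000000c0000000c0000007c0000007e00000003 6 7) 0 0 (step_sound _ 37 [rhe735b39eebc4ab20, (rhf48373e13d2bc128.shift 2 1)] (by decide +kernel))
noncomputable def rh70d202208948fea2 : CRef := CRef.mk (Pat.mk 0x1000000018000000080000000800000000 0xc0000000c0000000c0000001e000000780000001f0000000c00000004 6 7) 0 0 (step_sound _ 131 [(rh0ef6c71ce89c1c36.shift 2 0), (rhcf85c92937975d4d.shift 1 1), rhfb1e9fe27ba300db] (by decide +kernel))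
noncomputable def rhc391acc8b103b6d8 : CRef := CRef.mk (Pat.mk 0x18000000100000001800000018 0x270000003e000000770000001e00000018 6 7) 0 0 (step_sound _ 101 [(rh2f68792b6b779e96.shift 4 0), rh9ee2ed0c1de5bc6b] (by decide +kernel))
noncomputable def rh92f5c3eb13a89a23 : CRef := CRef.mk (Pat.mk 0x180000001c0000000800000008 0x40000000e0000001f0000001f0000000b00000008 6 5) 0 0 (step_sound _ 65 [(rh53b3c253cb0c65f4.shift 0 2), rhc544c9b98c53fcc3] (by decide +kernel))
noncomputable def rh4c3d7c9c1a631d27 : CRef := CRef.mk (Pat.mk 0x100000001c000000080000000800000000 0x80000000c0000000f0000007f0000001c0000001c0000000c00000004 6 7) 0 0 (step_sound _ 131 [(rh1b49a77e883412ed.shift 2 1), rh795a9fa361f5265f, (rh933f3ac7d57d09d8.shift 2 1), (rhc4c5634cd01c372c.shift 2 0)] (by decide +kernel))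
noncomputable def rh3d17fda9b5b13219 : CRef := CRef.mk (Pat.mk 0x8000000080000000c0000000400000000 0x170000001f0000003c0000000f0000003c00000010 6 6) 0 0 (step_sound _ 35 [(rh754ed8af3fcc8232.shift 0 1), rhfe557af9112f51d6] (by decide +kernel))
noncomputable def rh415fee3b1932f515 : CRef := CRef.mk (Pat.mk 0x1c00000006000000000000000000000000 0x2000000020000000b0000001f0000003e000000340000001000000010 6 6) 0 0 (step_sound _ 129 [rh95e960a96072856f, (rhbdb8dfd08861fbf7.shift 0 2)] (by decide +kernel))
noncomputable def rh3861465abd8ad749 : CRef := CRef.mk (Pat.mk 0x8000000180000000e00000000 0x100000001c0000001c0000000e0000001f0000001b0000001e0000000a 6 5) 0 0 (step_sound _ 130 [rh0c71ff48c31a0108, rh7fb276822a012166, (rhc5febebb7babee24.shift 2 1)] (by decide +kernel))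
noncomputable def rh0a2b0d1f4c03c9b1 : CRef := CRef.mk (Pat.mk 0x80000000c0000000400000000 0x40000000e0000000f0000003c0000000e0000000600000006 6 6) 0 0 (step_sound _ 131 [rh14a45c2a68070e75, (rh5c5e593799055d58.shift 2 1)] (by decide +kernel))
noncomputable def rhdd31c05130e44b90 : CRef := CRef.mk (Pat.mk 0x10000000180000000e0000000000000000 0xa0000003b0000001f0000001e0000003400000014 6 6) 0 0 (step_sound _ 68 [rh7e24dc22889eb307, (rhea719cc8bd0bdd28.shift 1 0)] (by decide +kernel))
noncomputable def rh89c652428bf61924 : CRef := CRef.mk (Pat.mk 0x800000008000000080000000400000000 0x140000001f00000038000000080000000c0000000c 6 6) 0 0 (step_sound _ 35 [rh8b983d8d38afc2fd, (rh932754581e0f4330.shift 2 0)] (by decide +kernel))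
noncomputable def rh43db37bdb1df5b9b : CRef := CRef.mk (Pat.mk 0x800000008000000040000000000000000 0x140000001c0000001c0000000c0000000c0000000f0000003c0000001c00000010 6 6) 0 0 (step_sound _ 163 [(rh20dd76e97b439bad.shift 0 1), (rhafce214f40257ff7.shift 2 0), (rhb77bfac3e9efecea.shift 2 2)] (by decide +kernel))
noncomputable def rhc869f784f28ceae9 : CRef := CRef.mk (Pat.mk 0x8000000080000000c0000000000000000 0x140000003c0000000f0000001f0000007c00000018 6 7) 0 0 (step_sound _ 35 [rh4726f1e1122a954b, rh5ee4dc8825dcefa0, rheecca8248285d065] (by decide +kernel))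
noncomputable def rhf162f9196e5d6d28 : CRef := CRef.mk (Pat.mk 0x8000000080000000c000000000000000000000000 0x140000001f0000007c0000001f0000003c0000001800000010 6 7) 0 0 (step_sound _ 132 [(rh0bb882ba86b2372d.shift 0 3), (rh24084ff40d1da7a8.shift 0 1), rhe54355bc0aaf2ee4] (by decide +kernel))
noncomputable def rh322ece05456a115d : CRef := CRef.mk (Pat.mk 0xc0000000c0000000400000000 0x4000000040000003f0000007f0000000700000002 6 7) 0 0 (step_sound _ 68 [rh05f89ab9356854f0, (rha9e1a5d55b907abf.shift 1 1), (rhe2b63c00a3d7bb73.shift 0 2)] (by decide +kernel))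
noncomputable def rh14d3c784643f19fa : CRef := CRef.mk (Pat.mk 0x1c000000180000000800000000 0xc0000000c0000000c0000001c0000007c0000000f00000004 6 7) 0 0 (step_sound _ 69 [rh72c402b810747421, (rhf48373e13d2bc128.shift 2 2)] (by decide +kernel))
noncomputable def rh7f0e261fe06ff320 : CRef := CRef.mk (Pat.mk 0x10000000180000001800000008 0x4000000040000003e000000ff000000f800000008 6 8) 0 0 (step_sound _ 66 [(rh34517e326ddb5b25.shift 0 1), (rhc374d120537e5679.shift 1 0), (rhcf86d050071af9b3.shift 1 1)] (by decide +kernel))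
noncomputable def rhe6ac88ff54798fc3 : CRef := CRef.mk (Pat.mk 0x2000000020000000300000001000000000 0x800000028000000ef000000fe000000df00000054 6 8) 0 0 (step_sound _ 67 [(rh42c149c634520fed.shift 2 0), rh86fc4b0766d29250, (rhb12ffaec36122c99.shift 0 1), (rhd8c24d9b70d6ce6b.shift 2 0)] (by decide +kernel))
noncomputable def rhae95e9b6d29b3ccb : CRef := CRef.mk (Pat.mk 0x180000000c0000000400000000 0x2000000030000001f0000003f0000000700000004 6 6) 0 0 (step_sound _ 65 [(rh53b3c253cb0c65f4.shift 0 2), rh7308c2ed1eec0daa] (by decide +kernel))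
noncomputable def rhe797c241b4f7deb8 : CRef := CRef.mk (Pat.mk 0x180000000c0000000400000000 0x70000007e0000007c0000000600000006 6 7) 0 0 (step_sound _ 101 [(rh18965a982d73c794.shift 2 2), rh480c1fbb48b7a161] (by decide +kernel))
noncomputable def rh374daf305a99b62f : CRef := CRef.mk (Pat.mk 0x8000000080000000c000000000000000000000000 0x140000001f0000007c0000001f0000003c0000001800000010 6 7) 0 0 (step_sound _ 132 [(rh24084ff40d1da7a8.shift 0 1), (rhd69c262cd33b94b3.shift 0 3), rhe54355bc0aaf2ee4] (by decide +kernel))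
noncomputable def rhd4003d0370667601 : CRef := CRef.mk (Pat.mk 0x8000000180000000e000000000000000000000000 0x60000000f0000001e0000000e0000003c0000001c00000010 6 6) 0 0 (step_sound _ 67 [(rh8780feb96d6aa5c7.shift 0 1), (rh8ff3dde5b1c639e0.shift 2 0), (rhb379f99078aafa2d.shift 1 1)] (by decide +kernel))
noncomputable def rhf63d9c2d45f5780e : CRef := CRef.mk (Pat.mk 0xe00000002 0x730000003e00000073 6 7) 0 0 (step_sound _ 36 [rh7eb5361c36ecb0c1, rheb0810cc63b001d8] (by decide +kernel))
noncomputable def rhb97d4bb47020f90a : CRef := CRef.mk (Pat.mk 0x1e000000000000000000000000 0x80000003b0000001f000000300000001000000010 6 6) 0 0 (step_sound _ 129 [(rh3244c3cc8379b070.shift 0 3), rh5dffc5561274dae0] (by decide +kernel))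
noncomputable def rh1942c70cd1862f9d : CRef := CRef.mk (Pat.mk 0xf000000020 0x187000000fe0000007e 6 9) 0 0 (step_sound _ 71 [rh0b056ffd0003fa89, (rh33e738c4ed385b9f.shift 4 1)] (by decide +kernel))
noncomputable def rhb40afb1baaf28af5 : CRef := CRef.mk (Pat.mk 0x38000000080000000000000000 0x4000000240000006f0000003e000000780000001800000018 6 7) 0 0 (step_sound _ 98 [(rh0d378fd9e8917c5a.shift 0 2), (rhd5889c99d29bf7d6.shift 1 0), (rhf459621b93742302.shift 1 0)] (by decide +kernel))
noncomputable def rh681d40c5372a7c39 : CRef := CRef.mk (Pat.mk 0x8000000180000000e0000000000000000 0x20000000b0000001f0000003e0000003400000014 6 6) 0 0 (step_sound _ 68 [(rh78974448101547fe.shift 1 0), rhdf4a68b946174ceb] (by decide +kernel))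
noncomputable def rhffcccc644d77e7c4 : CRef := CRef.mk (Pat.mk 0x1c000000060000000000000000 0x12000000330000001f0000003e0000000c0000000c 6 6) 0 0 (step_sound _ 97 [rh38a0850c9fea941e, rh6d0ba9be14fe2c22, rhb32eb569dfc388a6] (by decide +kernel))
noncomputable def rhe08b45fbf94e34ce : CRef := CRef.mk (Pat.mk 0x800000018000000080000000800000000 0xc0000000c000000780000001f0000000c00000004 6 7) 0 0 (step_sound _ 130 [(rh50fbb5868c909700.shift 2 1), rh8fc978b213ac5273] (by decide +kernel))
noncomputable def rhd50e2621227fd617 : CRef := CRef.mk (Pat.mk 0x180000000c00000008000000000000000000000000 0x800000008000000780000000f0000007c0000001c0000001000000010 6 7) 0 0 (step_sound _ 129 [(rh53b3c253cb0c65f4.shift 0 4), (rhce35044a2e36176d.shift 1 0)] (by decide +kernel))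
noncomputable def rh1fb66c4f2a829270 : CRef := CRef.mk (Pat.mk 0x2000000020000000600000000 0x400000006000000060000000200000003000000070000000700000004 6 3) 0 0 (step_sound _ 129 [(rh33e98d0e97205a3e.shift 0 1), (rh55afc6a59410cf00.shift 1 0)] (by decide +kernel))
noncomputable def rh05da23be4d8a3aee : CRef := CRef.mk (Pat.mk 0xc0000000c0000000c0000000000000000 0xc0000000f0000003f0000003800000018 6 6) 0 0 (step_sound _ 35 [(rh7b1f1fb55310c477.shift 2 0), rhecaaf0825d5d5513] (by decide +kernel))
noncomputable def rh1431e09b65456546 : CRef := CRef.mk (Pat.mk 0x100000006000000020000000200000000000000000000000000000000 0x100000007000000060000000200000002000000070000000700000005 6 3) 0 0 (step_sound _ 97 [rh984bfc6de6c2c524, (rhffd04209dc8ea796.shift 0 3)] (by decide +kernel))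
noncomputable def rh0e22bf40ed27576c : CRef := CRef.mk (Pat.mk 0x400000008000000180000000800000000 0x100000001c0000001c000000080000001c0000000f00000004 6 5) 0 0 (step_sound _ 131 [(rh50fbb5868c909700.shift 2 1), rhecfb7cb8b09e5801] (by decide +kernel))
noncomputable def rh231006611e76e608 : CRef := CRef.mk (Pat.mk 0x180000000800000018000000000000000000000000 0x18000000180000007c0000001f0000001c00000010 6 7) 0 0 (step_sound _ 67 [(rh4de9dd90dbde9ba9.shift 0 1), (rh80650b8e93363f1e.shift 0 1), (rh8c3839f9b9075f23.shift 3 0)] (by decide +kernel))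
noncomputable def rh1d2899c8d4dc46a7 : CRef := CRef.mk (Pat.mk 0x18000000080000001800000000000000000000000000000000 0x80000000800000018000000780000007e0000000f0000001c0000001c00000014 6 7) 0 0 (step_sound _ 99 [(rh4de9dd90dbde9ba9.shift 0 2), (rh66b4d12b93241fb4.shift 1 2), (rh80650b8e93363f1e.shift 0 2), (rh984bfc6de6c2c524.shift 2 0)] (by decide +kernel))
noncomputable def rhbe917685f239389d : CRef := CRef.mk (Pat.mk 0xc00000004000000040000000000000000 0x60000000e0000000e0000003c0000000f0000000e 6 6) 0 0 (step_sound _ 34 [rh3ca4c10fdf355329, (rhffd0ff6f60fa3c9a.shift 1 0)] (by decide +kernel))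
noncomputable def rhf58ed7d7ca558428 : CRef := CRef.mk (Pat.mk 0x1800000008000000080000000000000000 0xc0000001c0000001c0000000f0000003c0000001c 6 6) 0 0 (step_sound _ 35 [rh641b5241be04eec6, (rhffd0ff6f60fa3c9a.shift 2 0)] (by decide +kernel))
noncomputable def rh89c6db6d247febc1 : CRef := CRef.mk (Pat.mk 0x200000006000000020000000200000000 0x400000007000000070000000300000006000000060000000300000001 6 3) 0 0 (step_sound _ 32 [(rh72afbdc90680d7b8.shift 0 1), rh932754581e0f4330] (by decide +kernel))
noncomputable def rh3d980a622102069e : CRef := CRef.mk (Pat.mk 0x2000000030000000180000001000000000 0x80000002e000000ff000000f8000000f000000040 6 8) 0 0 (step_sound _ 102 [(rh18965a982d73c794.shift 3 2), rhf063b78f3267ae57] (by decide +kernel))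
noncomputable def rh14c61a47cb726b5c : CRef := CRef.mk (Pat.mk 0x180000000e000000080000000000000000 0x8000000080000001f0000007e0000007f0000001400000004 6 7) 0 0 (step_sound _ 100 [rh2b0504560f4c0dac, (rh5f68d4d802450994.shift 1 2), (rhea719cc8bd0bdd28.shift 1 1)] (by decide +kernel))
noncomputable def rh407dbb410c9e4aec : CRef := CRef.mk (Pat.mk 0x40000000e000000030000000200000000 0x2000000060000000e0000001f0000001f0000000d 6 5) 0 0 (step_sound _ 129 [rh03dfdf12d5937476, rh7c5c9e3d7752e57e, rheb3c3e7cd84082fe] (by decide +kernel))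
noncomputable def rh5bb34a05b323302d : CRef := CRef.mk (Pat.mk 0x8000000180000001800000018 0x340000003f0000001f0000001800000018 6 6) 0 0 (step_sound _ 100 [(rh2f68792b6b779e96.shift 3 0), rh7cb52dfd9e5e5e10] (by decide +kernel))
noncomputable def rh2fe0a58a3df289c0 : CRef := CRef.mk (Pat.mk 0x800000018000000180000001800000000 0x1000000018000000380000001f0000003f00000004 6 6) 0 0 (step_sound _ 132 [(rh2f68792b6b779e96.shift 3 1), rh779eb9b4539c8099] (by decide +kernel))
noncomputable def rhca0a60f1afb738a1 : CRef := CRef.mk (Pat.mk 0x1000000010000000580000000800000000 0x80000001800000018000000780000003f00000037 6 7) 0 0 (step_sound _ 34 [(rh361cc68994bd8a63.shift 2 1), rh707095ba11024fc9] (by decide +kernel))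
noncomputable def rh56e8addd8b888eef : CRef := CRef.mk (Pat.mk 0x1000000018000000080000000800000000 0xc0000001e000000780000001f0000007c00000014 6 7) 0 0 (step_sound _ 66 [(rh69012675dfdb1a5b.shift 0 2), rhd3137fddc9a993b2, (rhef1fef9b2fe09d8c.shift 1 0)] (by decide +kernel))
noncomputable def rh4798c3ae9bba584c : CRef := CRef.mk (Pat.mk 0x8000000080000000c0000000400000000 0x140000003c0000000f0000000f0000003c00000018 6 6) 0 0 (step_sound _ 35 [rh245d56c915813f64, rhfe557af9112f51d6] (by decide +kernel))
noncomputable def rh43f347773e49e4e8 : CRef := CRef.mk (Pat.mk 0x100000001e000000000000000000000000 0x800000008000000180000003f0000000f0000000400000004 6 6) 0 0 (step_sound _ 65 [rh7dbe310cc4557d9a, (rheb0810cc63b001d8.shift 0 2)] (by decide +kernel))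
noncomputable def rhaedb9d07c94e868f : CRef := CRef.mk (Pat.mk 0x1e00000010 0xe7000000fe0000001c 6 8) 0 0 (step_sound _ 65 [(rh3244c3cc8379b070.shift 0 1), (rh7fa23aa6d6cb24f1.shift 1 0)] (by decide +kernel))
noncomputable def rhb4452f112b88b363 : CRef := CRef.mk (Pat.mk 0x1e00000010 0xe7000000ff00000018 6 8) 0 0 (step_sound _ 65 [(rh3244c3cc8379b070.shift 0 1), rh5f6e56dc9ac81cf8] (by decide +kernel))
noncomputable def rhc4048fdb9dbeea4d : CRef := CRef.mk (Pat.mk 0x40000001e000000020000000200000000 0x60000003f0000003a0000000f0000000c 6 6) 0 0 (step_sound _ 129 [rh122aad65a16885af, (rhf48373e13d2bc128.shift 1 3)] (by decide +kernel))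
noncomputable def rh3137ef75640d683c : CRef := CRef.mk (Pat.mk 0x1000000038000000080000000800000000 0x4000000170000003e0000007e0000006800000020 6 7) 0 0 (step_sound _ 98 [(rh0901d4634e55bc25.shift 1 0), (rh0d378fd9e8917c5a.shift 0 2), (rhe4f9133a81c1dbc5.shift 1 1)] (by decide +kernel))
noncomputable def rh45c1591b3ffdd1f9 : CRef := CRef.mk (Pat.mk 0x40000000e000000020000000200000000 0x10000000740000003f0000003e0000000b00000008 6 7) 0 0 (step_sound _ 100 [(rhadb9687930fe236f.shift 0 1), rhce71534e51e0a15e, (rhd584a578337d0023.shift 1 2)] (by decide +kernel))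
noncomputable def rh4e3e80f1efad9d3b : CRef := CRef.mk (Pat.mk 0x60000000e000000020000000200000000 0x60000003f0000003a0000000f0000000c 6 6) 0 0 (step_sound _ 100 [rh122aad65a16885af, (rhf48373e13d2bc128.shift 1 3)] (by decide +kernel))
noncomputable def rhd9603cda19fdae97 : CRef := CRef.mk (Pat.mk 0x2000000038000000000000000000000000 0x200000002400000026000000fe000001ff0000005800000058 6 9) 0 0 (step_sound _ 67 [(rh2820ca9a6c4f41b4.shift 0 2), (rh83b55585f378f0a5.shift 1 0), (rhb02f9c2bd63f56db.shift 2 2), (rheba0f9876a24a3b7.shift 2 0)] (by decide +kernel))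
noncomputable def rha3861403680768ee : CRef := CRef.mk (Pat.mk 0x1c000000180000000000000000 0x4000000040000003f0000001f0000000300000002 6 6) 0 0 (step_sound _ 97 [rh21703bbb6af57eb9, (rhb739f4f82bb681b4.shift 0 2)] (by decide +kernel))
noncomputable def rhb7fa1c73b1c4ec99 : CRef := CRef.mk (Pat.mk 0x3800000010 0xe000001fe000003bf 6 10) 0 0 (step_sound _ 38 [(rh592c7139d2c44767.shift 1 0), (rhb02f9c2bd63f56db.shift 3 0), rhc7e8e87a0b43237b] (by decide +kernel))
noncomputable def rha62b83dd69dc04f5 : CRef := CRef.mk (Pat.mk 0x8000000080000000e0000000400000000 0x20000000f0000003f0000003e0000007400000010 6 7) 0 0 (step_sound _ 68 [(rh625dde73e665edc8.shift 1 0), (rh6dfda82b760c256f.shift 0 1), (rhe401600d466b97cd.shift 0 1)] (by decide +kernel))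
noncomputable def rh896d971dc7aad50c : CRef := CRef.mk (Pat.mk 0x2000000020000000380000001000000000 0x8000000680000003e0000007e0000001700000004 6 7) 0 0 (step_sound _ 66 [(rh21d582c147e7e118.shift 0 1), (rh44dd78dd79fc4e0b.shift 1 0), (rh7a32c57a7c61d0c8.shift 1 2)] (by decide +kernel))
noncomputable def rh7955269eb2fd1494 : CRef := CRef.mk (Pat.mk 0x3c00000008000000080000000800000000 0xe0000000ff00000038000000080000001800000010 6 8) 0 0 (step_sound _ 36 [(rh429d551bffc08aea.shift 0 3), (rh55afc6a59410cf00.shift 3 0)] (by decide +kernel))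
noncomputable def rh6e8201abcef385e8 : CRef := CRef.mk (Pat.mk 0xf00000002000000020000000200000000 0x380000003f00000076000000020000000600000004 6 7) 0 0 (step_sound _ 34 [(rh55afc6a59410cf00.shift 1 0), (rhdbe30b89b8872db3.shift 0 3)] (by decide +kernel))
noncomputable def rh723b55a7e834e946 : CRef := CRef.mk (Pat.mk 0x1e000000080000000800000000 0x4000000070000001e0000003b0000000f00000006 6 6) 0 0 (step_sound _ 68 [rh41abb4a080fb0537, (rhe25b0a99195a5d59.shift 1 2)] (by decide +kernel))
noncomputable def rh2457d9fe0bde4619 : CRef := CRef.mk (Pat.mk 0x100000001a000000080000000800000000 0xc0000001f0000001b000000780000001e00000014 6 7) 0 0 (step_sound _ 131 [rh130916767facd979, (rh85480f11efc1e555.shift 1 0), (rh9cac931137f1cfa0.shift 0 1)] (by decide +kernel))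
noncomputable def rh2767ac40d1aacd89 : CRef := CRef.mk (Pat.mk 0x40000000e000000120000000200000000 0x80000000c0000000f0000001e0000003b00000018 6 6) 0 0 (step_sound _ 67 [rh9b48793af4ccea18, (rhb739f4f82bb681b4.shift 0 2)] (by decide +kernel))
noncomputable def rh596ad0734dc51e67 : CRef := CRef.mk (Pat.mk 0x80000000c00000009000000000000000000000000 0x40000000c0000000c0000000f0000001e0000001c00000014 6 5) 0 0 (step_sound _ 67 [(rh8cdd36b03d57a2f6.shift 2 0), (rha8f0c706540dbddb.shift 0 1), (rhe286c75f2739cce2.shift 2 1)] (by decide +kernel))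
noncomputable def rhb6044cb65f8e1ddd : CRef := CRef.mk (Pat.mk 0x200000002000000070000000100000000 0x40000000600000006000000070000001f0000000f 6 5) 0 0 (step_sound _ 33 [rh932754581e0f4330, rh93b8fd814817752e] (by decide +kernel))
noncomputable def rh4e538b1a5b7b5264 : CRef := CRef.mk (Pat.mk 0x80000001c000000040000000000000000 0x800000008000000380000003f000000f40000001400000014 6 8) 0 0 (step_sound _ 163 [(rh5c5e593799055d58.shift 2 2), rhaec5f5fa5619f593] (by decide +kernel))
noncomputable def rh136a1a95fd901589 : CRef := CRef.mk (Pat.mk 0x3800000000 0x1ff000000fe000001c7 6 9) 0 0 (step_sound _ 66 [(rh167fff566cb27b75.shift 2 0), rh8b282e61cb6df183, (rh8c12fdbbddc1e7ab.shift 0 1)] (by decide +kernel))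
noncomputable def rheeee855fe3af3a44 : CRef := CRef.mk (Pat.mk 0x1c000000080000000000000000 0x200000007f000000ff000000780000001000000010 6 8) 0 0 (step_sound _ 68 [(rh31bde021a3df9e03.shift 1 0), (rh5c357cd273638c5d.shift 0 2), (rh6292bd8784ece55f.shift 1 2)] (by decide +kernel))
noncomputable def rh94433c11a2b74c78 : CRef := CRef.mk (Pat.mk 0x38000000080000000000000000 0x14000000140000007f0000007e000000080000000800000008 6 7) 0 0 (step_sound _ 98 [(rh206d61528605a692.shift 1 0), (rh4c622fddc53a5f99.shift 0 3), (rh6c918a7151ce5cb8.shift 1 1)] (by decide +kernel))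
noncomputable def rh80a760f74fa692a7 : CRef := CRef.mk (Pat.mk 0x8000000080000000c00000004000000000000000000000000 0x60000000f0000003c0000000f0000003c000000180000001800000018 6 6) 0 0 (step_sound _ 99 [(rha10abbb88ab9db0f.shift 0 2), (rhdd11e03a2f8b13b6.shift 2 0), (rhfe557af9112f51d6.shift 0 2)] (by decide +kernel))
noncomputable def rh60162e03655ad5a5 : CRef := CRef.mk (Pat.mk 0x20000001e000000020000000000000000 0x50000000700000007000000060000001e000000360000000600000004 6 6) 0 0 (step_sound _ 68 [(rhe25b0a99195a5d59.shift 1 2), rhe8ad0f20030a8b65] (by decide +kernel))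
noncomputable def rh33429fa3f39cbfba : CRef := CRef.mk (Pat.mk 0x80000001c000000060000000000000000 0x380000001f0000003e0000003c00000014 6 6) 0 0 (step_sound _ 34 [(rh71222050f2c63a3a.shift 2 0), rh9cdd1d9c0b4e0ec0] (by decide +kernel))
noncomputable def rh426e7f3c9692c92e : CRef := CRef.mk (Pat.mk 0x40000000f00000000 0xfc0000007f00000070 6 8) 0 0 (step_sound _ 36 [(rh9890f9d77740bbed.shift 0 1), rh9c71485ed59a17cd, (rha93a5dd541ab8209.shift 1 0), (rhf5fa5e48e0784de2.shift 1 0)] (by decide +kernel))
noncomputable def rh6096bce092f617bd : CRef := CRef.mk (Pat.mk 0x1c0000001c00000000 0x1800000018000000380000001f0000001c00000014 6 6) 0 0 (step_sound _ 65 [(rhab885a1d9e7b2f11.shift 1 0), (rhb739f4f82bb681b4.shift 0 1)] (by decide +kernel))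
noncomputable def rh915f68127b702515 : CRef := CRef.mk (Pat.mk 0x5000000070000000000000000000000000 0x180000001c0000007f0000007e0000001f0000001800000008 6 7) 0 0 (step_sound _ 99 [(rh5e601430b8bc2e39.shift 0 2), (rh630a93a3f95eb5d4.shift 2 1), (rhcfde16a7ff36af03.shift 2 0)] (by decide +kernel))
noncomputable def rhcb2d87c35a92205f : CRef := CRef.mk (Pat.mk 0x5000000070000000000000000000000000 0x300000003000000077000001fe0000001f0000001800000008 6 9) 0 0 (step_sound _ 99 [(rh5e601430b8bc2e39.shift 0 2), (rha2959b67624b388e.shift 2 1), (rhcfde16a7ff36af03.shift 2 0)] (by decide +kernel))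
noncomputable def rh0c19a731112882f2 : CRef := CRef.mk (Pat.mk 0xe0000000b00000000000000000000000000000000 0x4000000140000003c0000000e0000000f00000018000000180000001000000010 6 6) 0 0 (step_sound _ 99 [(rh4f97a9488dc97bc7.shift 0 2), rh9765e413c7f50252, (rhcd27b77dbaaa79f0.shift 0 2), (rhd01ed0cc6ce530d4.shift 1 2), (rhed9b4e74edbbfd52.shift 0 2)] (by decide +kernel))
noncomputable def rhc1d9d5520f118042 : CRef := CRef.mk (Pat.mk 0xc0000000c00000008 0x180000001c0000003c0000000f0000007c00000018 6 7) 0 0 (step_sound _ 99 [rh20ee5c2c4c3a9878, (rh2f3125684856df45.shift 1 0), (rh5fa50b509d4ce753.shift 2 0)] (by decide +kernel))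
noncomputable def rh9c8989bf8e13cb40 : CRef := CRef.mk (Pat.mk 0x20000000400000006000000040000000000000000 0x600000006000000060000003c0000000f0000000a 6 6) 0 0 (step_sound _ 34 [rh957e3bb4c843b184, (rhffd04209dc8ea796.shift 1 1)] (by decide +kernel))
noncomputable def rhe6c56a62fe5a862f : CRef := CRef.mk (Pat.mk 0x2000000020000000200000002000000000000000000000000 0x200000002000000060000000600000006000000070000000700000007 6 3) 0 0 (step_sound _ 65 [rh6eff4158bb400f47, rh926247ad34d020a9, (rhd29a1fb688eae70f.shift 1 1)] (by decide +kernel))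
noncomputable def rh7dfef7219656b4fa : CRef := CRef.mk (Pat.mk 0x40000000600000004000000000000000000000000 0xc0000000e0000000e0000003c0000000f0000000e0000000a 6 6) 0 0 (step_sound _ 66 [(rh2c3719f5c9f33c1b.shift 1 1), (rh8cdd36b03d57a2f6.shift 1 0), (rh957e3bb4c843b184.shift 0 1)] (by decide +kernel))
noncomputable def rhbbe9e4cfcfefa888 : CRef := CRef.mk (Pat.mk 0xc0000000400000004000000000000000000000000 0x40000000c0000000c0000003c0000000f0000000e0000000a 6 6) 0 0 (step_sound _ 66 [(rh8c3839f9b9075f23.shift 2 0), (rha8bc3cae4d77a08f.shift 1 0), (rhac13d16ea91712e4.shift 0 1)] (by decide +kernel))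
noncomputable def rh613f120011b7f3a5 : CRef := CRef.mk (Pat.mk 0x80000000e000000100000000000000000 0x8000000080000000b0000001e0000003b0000001000000010 6 6) 0 0 (step_sound _ 100 [rh6036771f72f66ddf, (rhe25b0a99195a5d59.shift 1 2)] (by decide +kernel))
noncomputable def rh887da605b3070d45 : CRef := CRef.mk (Pat.mk 0x100000001c000000200000000000000000 0x170000003e000000670000002000000020 6 7) 0 0 (step_sound _ 101 [rh2e87c015ec8670f0, (rhe25b0a99195a5d59.shift 2 2)] (by decide +kernel))
noncomputable def rh2d64593639590f1b : CRef := CRef.mk (Pat.mk 0x80000001c000000100000000000000000 0x8000000080000000b0000001e0000003b0000001000000010 6 6) 0 0 (step_sound _ 97 [rh6036771f72f66ddf, (rhe25b0a99195a5d59.shift 1 2)] (by decide +kernel))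
noncomputable def rhc43d90d706a0a1fd : CRef := CRef.mk (Pat.mk 0x20000000300000001000000010 0x800000008000001ef000000fe000001df00000010 6 9) 0 0 (step_sound _ 67 [(rh2f1921455488e2a6.shift 2 0), (rha11dfd15f08f96e3.shift 2 2), (rhb12ffaec36122c99.shift 0 1), rhe04a1c8c3bc9a2bc] (by decide +kernel))
noncomputable def rhbd6b69cfebae9e26 : CRef := CRef.mk (Pat.mk 0x100000001000000018000000080000000800000000 0x14000000360000007e000001ef0000007c00000020 6 9) 0 0 (step_sound _ 101 [(rh2820ca9a6c4f41b4.shift 0 2), (rh4372035da2c2de0c.shift 1 0), (rhc32688944b7f7dbb.shift 2 0), rhca300808da6dc72d] (by decide +kernel))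
noncomputable def rh6a6d4f6eb565ee3c : CRef := CRef.mk (Pat.mk 0x8000000080000000c0000000000000000 0x10000000180000001800000018000000380000001f0000007800000010 6 7) 0 0 (step_sound _ 164 [rh1715455e0923a43f, (rh87d5e4118780fa3b.shift 3 1), (rh90c0c0d62ad3fbf1.shift 0 1)] (by decide +kernel))
noncomputable def rh8fe5917a5861ae62 : CRef := CRef.mk (Pat.mk 0x80000000c0000000800000000 0x140000001c0000001c000000080000001f0000007800000010 6 7) 0 0 (step_sound _ 36 [(rh5c5a2014709044d0.shift 0 1), rh929026247c0e1708, (rhfb9fb48a5e63ed80.shift 2 0)] (by decide +kernel))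
noncomputable def rhdc6e71c82f8056a6 : CRef := CRef.mk (Pat.mk 0x2000000038000000000000000000000000 0x28000000280000002f0000007e000000ff0000004400000040 6 8) 0 0 (step_sound _ 66 [(rh4c5c51b0ae60cece.shift 0 2), (rh73f5f7cdf41b5bc9.shift 1 1), (rhaaf41b08e98bba87.shift 2 0), (rhe5e0e80426b689b9.shift 0 2)] (by decide +kernel))
noncomputable def rh6bc48c24b7c9344c : CRef := CRef.mk (Pat.mk 0x200000002000000030000000000000000 0x5000000070000000700000002000000030000000700000004 6 3) 0 0 (step_sound _ 161 [(rh932754581e0f4330.shift 0 1), rha3351b5409dc08fd] (by decide +kernel))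
noncomputable def rh3300f053f4f1252b : CRef := CRef.mk (Pat.mk 0x100000005000000018000000000000000000000000 0x1000000010000000770000007e000001e70000002000000020 6 9) 0 0 (step_sound _ 101 [(rh046c5eb18e55a239.shift 4 0), (rh5e601430b8bc2e39.shift 0 2), (rh8a8d1fefad27abc5.shift 2 2), (rhd5979d9ced4acd89.shift 2 2)] (by decide +kernel))
noncomputable def rh356e916bfa1b2a0a : CRef := CRef.mk (Pat.mk 0x20000001c000000040000000000000000 0x730000003e000000740000000400000004 6 7) 0 0 (step_sound _ 97 [(rh3244c3cc8379b070.shift 0 3), (rh6d6bbc8340733a81.shift 1 0)] (by decide +kernel))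
noncomputable def rh0ba76a6c656f5362 : CRef := CRef.mk (Pat.mk 0x20000000e000000040000000000000000 0x730000003e000000740000000400000004 6 7) 0 0 (step_sound _ 100 [(rh3244c3cc8379b070.shift 0 3), (rh6d6bbc8340733a81.shift 1 0)] (by decide +kernel))
noncomputable def rh1d59449cfac07c78 : CRef := CRef.mk (Pat.mk 0x30000000180000000800000008000000000000000000000000 0x2800000038000000180000001f0000007c000000340000001000000010 6 7) 0 0 (step_sound _ 100 [(rh046c5eb18e55a239.shift 3 0), (rh0b48232756d2831b.shift 1 2), (rhf19240af8a218f1b.shift 0 2)] (by decide +kernel))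
noncomputable def rh3a72b52e5253e95e : CRef := CRef.mk (Pat.mk 0x1e00000000 0xfc000000ff000000e0 6 8) 0 0 (step_sound _ 37 [(rh3fc3a7fb6866dcd4.shift 2 0), (rh9890f9d77740bbed.shift 1 1), rhdd4756ed63c5dbcb, (rhed5f4272e3711dcf.shift 1 0)] (by decide +kernel))
noncomputable def rh1389bf67c0295075 : CRef := CRef.mk (Pat.mk 0x100000001c000000000000001800000008 0x370000003e000000070000003c00000008 6 6) 0 0 (step_sound _ 97 [(rh33e738c4ed385b9f.shift 1 3), rhd7494d5bf999ebc3] (by decide +kernel))
noncomputable def rh29e898f5faf91243 : CRef := CRef.mk (Pat.mk 0x2000000038000000000000003000000010 0x3f0000007e0000000f0000007800000010 6 7) 0 0 (step_sound _ 98 [(rh21d582c147e7e118.shift 0 2), (rh7fb660bc21ce4329.shift 0 3), (rhd7494d5bf999ebc3.shift 1 0)] (by decide +kernel))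
noncomputable def rh7446ed4000dfb787 : CRef := CRef.mk (Pat.mk 0x2000000038000000000000003000000010 0x2000000020000000ff00000078000000cf0000007c00000010 6 8) 0 0 (step_sound _ 67 [rh32101d22043a0c4b, (rh70b2e85b7b996209.shift 2 1), (rhd92236b48d98c71d.shift 2 0), rhecbfab7b462f2df2] (by decide +kernel))
noncomputable def rhd9e20e62b98e4adc : CRef := CRef.mk (Pat.mk 0x1800000010000000100000001000000000 0x100000001800000018000000380000001f0000001c 6 6) 0 0 (step_sound _ 35 [rh020bff7d6646a926, (rh932754581e0f4330.shift 3 0)] (by decide +kernel))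
noncomputable def rhe768eb3da7f6ff28 : CRef := CRef.mk (Pat.mk 0xe000000020000000000000000 0x8000000380000001f000000330000001000000010 6 6) 0 0 (step_sound _ 100 [rh6887ef21f67dd26a, (rheb0810cc63b001d8.shift 0 2)] (by decide +kernel))
noncomputable def rhfacc264970e52242 : CRef := CRef.mk (Pat.mk 0x1000000010000000100000001800000000 0x180000001800000018000000380000001f00000014 6 6) 0 0 (step_sound _ 131 [rh020bff7d6646a926, (rh50fbb5868c909700.shift 3 1)] (by decide +kernel))
noncomputable def rha32504ffa5ea71cb : CRef := CRef.mk (Pat.mk 0x1c00000018000000080000000800000000 0xa0000001f0000001b0000000f0000000c00000004 6 5) 0 0 (step_sound _ 129 [rh4c82cbd1fd94211d, (rhb739f4f82bb681b4.shift 0 3)] (by decide +kernel))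
noncomputable def rh4856477b63db5b7f : CRef := CRef.mk (Pat.mk 0x380000000800000000 0x10000000100000007f0000007e000000e800000020 6 8) 0 0 (step_sound _ 66 [(rh4c622fddc53a5f99.shift 0 2), (rhe401600d466b97cd.shift 1 1), (rhf41a34b41b8c2138.shift 1 0)] (by decide +kernel))
noncomputable def rh17a257064db5b8bf : CRef := CRef.mk (Pat.mk 0x40000001c0000000400000000000000000000000000000000 0xa0000000f0000001c0000000c000000060000000e0000000e00000008 6 5) 0 0 (step_sound _ 98 [(rh039efe07c35de3d4.shift 0 3), (rh5bb331872301d326.shift 1 0), (rha707fb719e87fe6e.shift 2 2)] (by decide +kernel))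
noncomputable def rh5202bc01a167ca8a : CRef := CRef.mk (Pat.mk 0x200000002000000020000000600000003 0x500000007000000070000000200000002000000060000001e00000003 6 5) 0 0 (step_sound _ 161 [rhbc0fe5a3a27f1285, (rhd3458b32566d63f7.shift 1 1)] (by decide +kernel))
noncomputable def rh203d203518c07286 : CRef := CRef.mk (Pat.mk 0x5800000008 0xe0000000ff0000003c 6 8) 0 0 (step_sound _ 37 [rh8b24b8cfbab3984a, (rheb0810cc63b001d8.shift 2 0)] (by decide +kernel))
noncomputable def rhfd91c7abd0042bd7 : CRef := CRef.mk (Pat.mk 0x400000004000000160000000200000000 0xa0000000f0000003c000000360000003e0000000c 6 6) 0 0 (step_sound _ 34 [(rh509847d0837ffcc5.shift 1 0), (rh949e7b686a42c87f.shift 1 0), rhab3c3f3ae8c9664f] (by decide +kernel))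
noncomputable def rh7c6860d0f6b9005d : CRef := CRef.mk (Pat.mk 0x180000000e000000000000000000000000 0x20000003b0000003e000000070000000400000004 6 6) 0 0 (step_sound _ 100 [rh22f53ba2f05af569, (rh33e738c4ed385b9f.shift 1 3)] (by decide +kernel))
noncomputable def rh6965431395b48a0c : CRef := CRef.mk (Pat.mk 0x10000000180000000e000000000000000000000000 0x20000000320000001f000000fe000000f70000000400000004 6 8) 0 0 (step_sound _ 100 [rh22f53ba2f05af569, (rha1eb337eeb07c2e7.shift 0 2), (rhd8d98eb6ec46d5f8.shift 0 2)] (by decide +kernel))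
noncomputable def rhbb8536fee503e30c : CRef := CRef.mk (Pat.mk 0x80000000c000000040000000400000000 0xc0000000c0000000c0000000f0000003c00000018 6 6) 0 0 (step_sound _ 130 [(rh2f68792b6b779e96.shift 2 1), rhd802bb8339359eae] (by decide +kernel))
noncomputable def rh38261935704bf1e5 : CRef := CRef.mk (Pat.mk 0x1c00000018000000080000000800000000 0x80000003f0000001f000000380000001800000010 6 6) 0 0 (step_sound _ 129 [(rhb739f4f82bb681b4.shift 0 3), rhbfb3b7bb3caef61c] (by decide +kernel))
noncomputable def rha2586a81d7e42b9f : CRef := CRef.mk (Pat.mk 0x40000000c00000006000000000000000000000000 0xa0000000f0000003c000000060000000e0000000e0000000a 6 6) 0 0 (step_sound _ 132 [(rh18965a982d73c794.shift 1 3), rh5d54a4077da1482e] (by decide +kernel))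
noncomputable def rh214a93cab20afe1d : CRef := CRef.mk (Pat.mk 0x8000000080000000c000000000000000000000000 0x140000001e0000007c0000001f0000003c0000001800000010 6 7) 0 0 (step_sound _ 132 [(rh0bb882ba86b2372d.shift 0 3), (rhad1412821aef833c.shift 1 1), rhe54355bc0aaf2ee4] (by decide +kernel))
noncomputable def rhc4963ce654273355 : CRef := CRef.mk (Pat.mk 0x40000001c0000000400000000000000000000000000000000 0xa0000000f0000001c0000000c0000000c0000000e0000000e00000002 6 5) 0 0 (step_sound _ 98 [(rh039efe07c35de3d4.shift 0 3), (rha52e1acf7ed5511e.shift 1 0), (rhd1d1631c4c8d27fe.shift 2 2)] (by decide +kernel))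
noncomputable def rhaed0955df3c9691b : CRef := CRef.mk (Pat.mk 0x8000000180000000e0000000000000000 0x20000000b0000001f0000003e0000003700000014 6 6) 0 0 (step_sound _ 68 [rh534a6900ac2ddaa9, rh5a6f873926ef2942] (by decide +kernel))
noncomputable def rha0aa6641ab5ab565 : CRef := CRef.mk (Pat.mk 0x20000000300000002000000010000000000000000 0x40000001e0000000700000002000000070000000700000004 6 5) 0 0 (step_sound _ 65 [rh5f8ba4de600d26c4, (rh932754581e0f4330.shift 0 1)] (by decide +kernel))
noncomputable def rh997b7f2cb08d4963 : CRef := CRef.mk (Pat.mk 0x100000001a000000080000000800000000 0xc0000001f0000001b0000001e0000007800000030 6 7) 0 0 (step_sound _ 131 [(rh9cac931137f1cfa0.shift 0 1), (rhd802bb8339359eae.shift 1 0)] (by decide +kernel))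
noncomputable def rh1983194a2a0dc53a : CRef := CRef.mk (Pat.mk 0x80000001800000018000000000000000000000000 0x40000001f0000007c00000018000000180000001800000008 6 7) 0 0 (step_sound _ 68 [(rh7b1f1fb55310c477.shift 3 1), rh9648900f59aa7f70] (by decide +kernel))
noncomputable def rhaee78aca67c3b1d1 : CRef := CRef.mk (Pat.mk 0x1800000038000000000000000000000000 0x100000007e0000003f000000700000002000000020 6 7) 0 0 (step_sound _ 130 [rh677433e0c238648e, (rhb739f4f82bb681b4.shift 1 3)] (by decide +kernel))
noncomputable def rhbc29707f2e68882b : CRef := CRef.mk (Pat.mk 0x60000000e000000000000000000000000 0x4000000040000000e0000003f000000380000000800000008 6 6) 0 0 (step_sound _ 100 [rh6c884c7d9712aaa5, (rhf48373e13d2bc128.shift 1 3)] (by decide +kernel))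
noncomputable def rh3ca1f38d136ed19a : CRef := CRef.mk (Pat.mk 0x40000000c0000000c0000000800000000 0x8000000080000000c0000000c0000001f0000007c00000014 6 7) 0 0 (step_sound _ 131 [(rh0ff7ca71cb891e23.shift 2 0), rh7f81bdf8946a82b0, (rhea7a1800d6f053bd.shift 2 0)] (by decide +kernel))
noncomputable def rhe4f1448c7d175fc1 : CRef := CRef.mk (Pat.mk 0xe0000000c0000000000000000 0x200000002000000070000007e0000007c0000000400000004 6 7) 0 0 (step_sound _ 69 [(rh2fe78cc5ca4405d8.shift 1 2), rhddf797fbef905425] (by decide +kernel))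
noncomputable def rh62424766d6e677d3 : CRef := CRef.mk (Pat.mk 0x1e000000080000000000000000 0x4000000040000000f0000003e0000000b0000000800000008 6 6) 0 0 (step_sound _ 64 [(rh80fcd6d0a18cb2dd.shift 0 2), rhce8d7469bd5b0a7a] (by decide +kernel))
noncomputable def rh2170712584e495b1 : CRef := CRef.mk (Pat.mk 0x600000006000000020000000200000000 0x300000003000000030000000600000006000000060000000700000005 6 3) 0 0 (step_sound _ 0 [rh5c46ef0f4f914245, rh79877ebd3ef475dd] (by decide +kernel))
noncomputable def rhb048bfd4891c06d6 : CRef := CRef.mk (Pat.mk 0x1800000018000000080000000800000000 0x18000000180000003c000000ff00000034 6 8) 0 0 (step_sound _ 36 [(rh55afc6a59410cf00.shift 3 0), rhb2c573f098aca38a] (by decide +kernel))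
noncomputable def rhe27111ad792274ca : CRef := CRef.mk (Pat.mk 0x1000000010000000180000001800000000 0x8000000180000001800000038000000ff00000026 6 8) 0 0 (step_sound _ 37 [(rh55afc6a59410cf00.shift 4 0), rhcf22385aa238e8cf] (by decide +kernel))
noncomputable def rh0c0f747ad49e1798 : CRef := CRef.mk (Pat.mk 0x8000000080000000c0000000c000000000000000000000000 0x40000000c0000001c0000003c0000000f000000080000000800000008 6 6) 0 0 (step_sound _ 194 [(rh50fbb5868c909700.shift 2 3), rh98fe03b4552f6a6d] (by decide +kernel))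
noncomputable def rhbf0d14c42d6ac6b9 : CRef := CRef.mk (Pat.mk 0x8000000080000000c0000000c000000000000000000000000 0x8000000180000003c0000001f000000180000001800000008 6 6) 0 0 (step_sound _ 68 [rhc2bf42c525961a11, (rhd3458b32566d63f7.shift 3 2)] (by decide +kernel))
noncomputable def rh5e414ec35b13c173 : CRef := CRef.mk (Pat.mk 0x100000000000000018000000180000000800000000 0x180000001c0000000f0000007c000000180000000c00000004 6 7) 0 0 (step_sound _ 131 [(rh82bd946b1709a78e.shift 3 2), rhec8fab0a3970e33b] (by decide +kernel))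
noncomputable def rh51e65d08ec8b5124 : CRef := CRef.mk (Pat.mk 0x1c00000038000000000000000000000000 0x600000006000000060000003c0000003f0000000f0000000c0000000c 6 6) 0 0 (step_sound _ 98 [(rh0e1512cbacfbd48b.shift 0 2), (rh949a7e17d676d35b.shift 1 0), (rhab2ad169e49f9c5e.shift 0 3)] (by decide +kernel))
noncomputable def rhd7815e574eeb2003 : CRef := CRef.mk (Pat.mk 0x180000001c000000000000000000000000 0xf0000007f0000007c000000060000000400000004 6 7) 0 0 (step_sound _ 133 [(rh18965a982d73c794.shift 2 3), rh2f38b8fe53bae3f2] (by decide +kernel))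
noncomputable def rh6c9ee0ee4e41bf6f : CRef := CRef.mk (Pat.mk 0x80000001800000018000000000000000000000000 0x800000018000000380000001f0000001c0000001c 6 6) 0 0 (step_sound _ 67 [(rh51f5a245ef7eb6cb.shift 0 1), (rhbb83b53687587fb2.shift 2 0), rhdf3333e361614e0e, (rhf57bd6481b8b2ca7.shift 3 0)] (by decide +kernel))
noncomputable def rhcdfeae1ed7cdfadc : CRef := CRef.mk (Pat.mk 0x10000000100000001800000008000000000000000000000000 0x800000018000000180000003c000000ff000000340000003000000030 6 8) 0 0 (step_sound _ 100 [(rh2386d7c29ba9e7c7.shift 0 2), (rh36d4d92ef3dad5f8.shift 2 2), (rhdd11e03a2f8b13b6.shift 3 0)] (by decide +kernel))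
noncomputable def rhdf831d775948f871 : CRef := CRef.mk (Pat.mk 0x200000007800000000 0x3e0000007e000000c7 6 8) 0 0 (step_sound _ 6 [rhd36da432537ba706, (rhe25b0a99195a5d59.shift 3 0)] (by decide +kernel))
noncomputable def rh2bac60f600d85b1b : CRef := CRef.mk (Pat.mk 0x100000003c00000000 0x1c000000fe000000e7 6 8) 0 0 (step_sound _ 1 [rh31042eb1ba98bf1d, (rh80fcd6d0a18cb2dd.shift 1 0)] (by decide +kernel))
noncomputable def rh3f9ef063c03c3f0a : CRef := CRef.mk (Pat.mk 0x200000007800000000 0x370000007e000000ce 6 8) 0 0 (step_sound _ 2 [rh3b07aae555d9b7cc, (rh80fcd6d0a18cb2dd.shift 2 0)] (by decide +kernel))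
noncomputable def rhce583c15c3d7d233 : CRef := CRef.mk (Pat.mk 0x8000000080000000c0000000c00000000 0x60000000f0000003c0000000c0000000e0000000a 6 6) 0 0 (step_sound _ 130 [(rh50fbb5868c909700.shift 2 1), rhd171144836989e05] (by decide +kernel))
noncomputable def rh2d6ffdea76f9c725 : CRef := CRef.mk (Pat.mk 0x20000000300000001000000010 0x800000008000001ef000000fe000001df00000010 6 9) 0 0 (step_sound _ 67 [(rh3cefcdf4a66fcca8.shift 1 0), rh6da00715e09dd404, (rha11dfd15f08f96e3.shift 2 2), (rhaf086fbf83221240.shift 2 0), (rhb12ffaec36122c99.shift 0 1)] (by decide +kernel))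
noncomputable def rh928c2afd87d91a03 : CRef := CRef.mk (Pat.mk 0x2000000030000000180000000000000000 0x4000000670000003f0000007e000000ee00000008 6 8) 0 0 (step_sound _ 66 [(rh53b3c253cb0c65f4.shift 1 2), rhf73931904536f8ca] (by decide +kernel))
noncomputable def rh53a5249b05406106 : CRef := CRef.mk (Pat.mk 0x10000000180000000c000000080000000000000000 0x30000000780000007c0000007f000001f600000034 6 9) 0 0 (step_sound _ 69 [(rh407dcf397709fcdc.shift 2 1), (rh67d40af89fd647fc.shift 1 1), rh79c9ba71be5d4cd2, rh88977a5f61b5e624, (rh93bc6e61c15e59d8.shift 2 1), (rh965f546bcc7224ed.shift 1 0)] (by decide +kernel))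
noncomputable def rha01670a126d01dee : CRef := CRef.mk (Pat.mk 0x10000000100000001800000018 0xc0000001e000000f7000000ff0000001e 6 8) 0 0 (step_sound _ 99 [(rh50fbb5868c909700.shift 3 0), rha10475ec2ecc2b78] (by decide +kernel))
noncomputable def rh9b62cf7d94729623 : CRef := CRef.mk (Pat.mk 0x80000001e000000000000000000000000 0x7f0000003e000000300000001000000010 6 7) 0 0 (step_sound _ 68 [rh5a36c77af034e072, (rhe25b0a99195a5d59.shift 1 2)] (by decide +kernel))
noncomputable def rh7c2afc4d9bcfa653 : CRef := CRef.mk (Pat.mk 0x20000000200000002000000000000000000000000 0x100000007000000070000000700000003000000030000000300000001 6 3) 0 0 (step_sound _ 65 [rh367118e0bf0473e0, rh6aa5625770489e83, (rhc4055b4872d6fb38.shift 0 1), (rhf9494122540ecc82.shift 0 1)] (by decide +kernel))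
noncomputable def rhd7fa1d58bcc187de : CRef := CRef.mk (Pat.mk 0x20000000200000002000000000000000000000000 0x100000007000000070000000700000006000000060000000600000004 6 3) 0 0 (step_sound _ 65 [rh46baee19951a66e7, (rhafd4c4c1c700c72a.shift 0 1), (rhc4055b4872d6fb38.shift 0 1), (rhc9de03f9731897d4.shift 1 0)] (by decide +kernel))
noncomputable def rhd62be3748eb48185 : CRef := CRef.mk (Pat.mk 0x20000000200000002000000000000000000000000 0x100000007000000070000000600000006000000070000000700000005 6 3) 0 0 (step_sound _ 65 [rh367118e0bf0473e0, rh8cdd36b03d57a2f6, (rhc9de03f9731897d4.shift 1 0), (rhd7cb8ed87e2022d8.shift 0 1)] (by decide +kernel))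
noncomputable def rh8227d7c70689fe70 : CRef := CRef.mk (Pat.mk 0x200000002000000020000000000000000 0x500000007000000070000000300000006000000070000000700000001 6 3) 0 0 (step_sound _ 161 [(rh12461e137161f2e1.shift 0 1), rh6aa5625770489e83, (rhc17b7d8fab3dfe57.shift 0 1)] (by decide +kernel))
noncomputable def rhd2249103dfd2febb : CRef := CRef.mk (Pat.mk 0x80000000800000008000000080000000c0000000000000000 0x8000000080000001800000018000000780000001f0000000800000008 6 7) 0 0 (step_sound _ 100 [rh11edacbdac335664, (rh55afc6a59410cf00.shift 3 2)] (by decide +kernel))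
noncomputable def rhc782798f9862273f : CRef := CRef.mk (Pat.mk 0x2000000020000000200000006000000000000000000000000 0x600000006000000060000000600000006000000030000000300000003 6 3) 0 0 (step_sound _ 130 [(rh2145e1d24b96a57e.shift 1 3), rh5db541dd5138ce50] (by decide +kernel))
noncomputable def rh42ccdbc5b0067310 : CRef := CRef.mk (Pat.mk 0x2000000020000000200000002000000000000000000000000 0x300000003000000070000000600000006000000060000000200000002 6 3) 0 0 (step_sound _ 98 [(rh55afc6a59410cf00.shift 1 2), rhdfd10cc9da38ede8] (by decide +kernel))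
noncomputable def rhe76a4f7e06815b5f : CRef := CRef.mk (Pat.mk 0x10000000200000002000000020000000200000000 0x200000003000000030000000600000007000000070000000300000002 6 3) 0 0 (step_sound _ 161 [(rh50fbb5868c909700.shift 0 2), rhf395d7c5367a3739] (by decide +kernel))
noncomputable def rh438793dd2cee1d67 : CRef := CRef.mk (Pat.mk 0x800000008000000080000000c00000000 0x1000000018000000180000003e0000007f00000070 6 7) 0 0 (step_sound _ 36 [(rh55afc6a59410cf00.shift 3 0), rh74eb86970c84bc0f] (by decide +kernel))
noncomputable def rh24be7cc1e839c9ad : CRef := CRef.mk (Pat.mk 0x8000000080000000800000008000000180000000000000000 0x8000000080000000c0000000c0000000f0000007c0000000800000008 6 7) 0 0 (step_sound _ 98 [rh081287252393d3c5, (rh932754581e0f4330.shift 2 2)] (by decide +kernel))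
noncomputable def rhe4092d1a8b2697df : CRef := CRef.mk (Pat.mk 0x2000000020000000200000003000000000000000000000000 0x300000003000000030000000300000003000000060000000600000006 6 3) 0 0 (step_sound _ 128 [(rh5c5e593799055d58.shift 0 3), rhdd11e03a2f8b13b6] (by decide +kernel))
noncomputable def rhe9496cfbb261879b : CRef := CRef.mk (Pat.mk 0x1800000008000000080000001800000000 0x40000001f0000007f0000007f000000fe00000020 6 8) 0 0 (step_sound _ 100 [rh54751e91c6829bac, (rhcf85c92937975d4d.shift 1 1), rhf8e9495d292c86b5] (by decide +kernel))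
noncomputable def rhf6cabd8f5704560e : CRef := CRef.mk (Pat.mk 0x2000000020000000200000002000000000000000000000000 0x400000007000000070000000300000002000000060000000600000004 6 3) 0 0 (step_sound _ 194 [rh1b5880c8df69d5ca, (rh2f68792b6b779e96.shift 1 3)] (by decide +kernel))
noncomputable def rhe002d1fefa6e3fcb : CRef := CRef.mk (Pat.mk 0x2000000020000000200000002000000000000000000000000 0x400000007000000070000000300000002000000030000000300000001 6 3) 0 0 (step_sound _ 194 [rh1a77efeddae3962a, (rh2f68792b6b779e96.shift 1 3)] (by decide +kernel))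
noncomputable def rh79ca1456921d9eee : CRef := CRef.mk (Pat.mk 0x20000000200000002000000020000000100000000 0x600000006000000070000000300000003000000020000000300000003 6 3) 0 0 (step_sound _ 33 [rh932754581e0f4330, rh960b8df1fc4f4720] (by decide +kernel))
noncomputable def rh459ef5ce8c61db81 : CRef := CRef.mk (Pat.mk 0x1800000010000000100000001000000000 0x270000007e000000ff000000100000001800000008 6 8) 0 0 (step_sound _ 133 [(rh2f68792b6b779e96.shift 4 1), rh69a53c039d5b2d3f] (by decide +kernel))
noncomputable def rhb89f85803a702b86 : CRef := CRef.mk (Pat.mk 0x3800000010000000100000001000000000 0x70000007e000000ff000000100000003800000028 6 8) 0 0 (step_sound _ 37 [(rh55afc6a59410cf00.shift 4 0), rh69a53c039d5b2d3f] (by decide +kernel))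
noncomputable def rh0c35e5acfe734ec7 : CRef := CRef.mk (Pat.mk 0x800000018000000080000001800000000 0x10000000180000007c0000003f0000007800000020 6 7) 0 0 (step_sound _ 132 [(rh2f68792b6b779e96.shift 3 1), rhf8e9495d292c86b5] (by decide +kernel))
noncomputable def rhd842c0adc7410c34 : CRef := CRef.mk (Pat.mk 0x3000000060000000200000002 0x20000000600000006000000070000001f0000000700000002 6 5) 0 0 (step_sound _ 67 [(rhf48373e13d2bc128.shift 0 2), rhf8e4a04a5e3060b7] (by decide +kernel))
noncomputable def rha070572f61c8fb0d : CRef := CRef.mk (Pat.mk 0x40000000e000000020000000000000000 0x10000000360000003f0000003e0000000800000008 6 6) 0 0 (step_sound _ 100 [(rh7b030ba967bf927e.shift 1 2), rhce71534e51e0a15e] (by decide +kernel))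
noncomputable def rh55c0d10bb7bcbcfb : CRef := CRef.mk (Pat.mk 0x2000000070000000100000001000000000 0x370000007e000000fe000000f000000040 6 8) 0 0 (step_sound _ 99 [(rh008b05f4778dc30d.shift 1 2), (rh1f9701c4cf497514.shift 0 2), (rh3b9460ceb992f88f.shift 1 2), (rh53c40d3d6d122826.shift 2 0), (rh891e8803ead4f377.shift 0 2)] (by decide +kernel))
noncomputable def rha914abb13ce40377 : CRef := CRef.mk (Pat.mk 0x600000006000000020000000000000000 0x40000000600000006000000070000003e0000000c00000004 6 6) 0 0 (step_sound _ 162 [rh30bc3e998acc8179, (rh5c5e593799055d58.shift 1 2)] (by decide +kernel))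
noncomputable def rhc5bc895526f9deb4 : CRef := CRef.mk (Pat.mk 0x2000000060000000200000002 0x400000007000000070000000700000006000000060000000200000002 6 3) 0 0 (step_sound _ 129 [rh1d87b4e963406cc8, (rh44f453b84f013105.shift 1 0), (rh64bc0dab78a08b48.shift 0 1), (rhc85cc95794737cf7.shift 0 1)] (by decide +kernel))
noncomputable def rh58f61359ae436620 : CRef := CRef.mk (Pat.mk 0x1800000018000000080000000800000000 0x1f000000ff0000006f0000007800000030 6 8) 0 0 (step_sound _ 101 [(rh79b3c29022acbdf3.shift 2 3), rh96212f0ea3d40cdd, (rha9e1a5d55b907abf.shift 2 2)] (by decide +kernel))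
noncomputable def rhb286084fe4a70453 : CRef := CRef.mk (Pat.mk 0x7800000008 0x7000000ff000000f8 6 8) 0 0 (step_sound _ 4 [rh04adde65229dd8ca, (rh18965a982d73c794.shift 3 0)] (by decide +kernel))
noncomputable def rhc9b4544d1563f47a : CRef := CRef.mk (Pat.mk 0x1e000000020000000000000000 0x10000000300000003f0000003e0000000800000008 6 6) 0 0 (step_sound _ 66 [(rh18965a982d73c794.shift 1 2), rhb32eb569dfc388a6] (by decide +kernel))
noncomputable def rh431180ccec67ce83 : CRef := CRef.mk (Pat.mk 0x2000000060000000200000002 0x2000000060000000700000007000000070000000700000002 6 3) 0 0 (step_sound _ 96 [rh50fbb5868c909700, rhf8e4a04a5e3060b7] (by decide +kernel))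
noncomputable def rhb7e5e4c668b720e2 : CRef := CRef.mk (Pat.mk 0x800000008000000080000001c00000000 0x140000001e00000078000001f8000000ff000001e0 6 9) 0 0 (step_sound _ 132 [(rh2f68792b6b779e96.shift 3 1), rhb12fc399deec5698] (by decide +kernel))
noncomputable def rh8de90a7479b0bae2 : CRef := CRef.mk (Pat.mk 0x1000000070000000180000000000000000 0x30000000fe0000007f000000f8000000e0000000e0 6 8) 0 0 (step_sound _ 99 [(rh719a4defb16e1b89.shift 0 2), (rh95cd90ff80e46efd.shift 3 0), (rhbd68d223a126eb87.shift 2 0)] (by decide +kernel))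
noncomputable def rh05a2c98e1ebba74f : CRef := CRef.mk (Pat.mk 0x8000000180000000e000000000000000000000000 0xc0000001f0000003e000000330000001200000002 6 6) 0 0 (step_sound _ 100 [(rh78974448101547fe.shift 1 1), rhefd858cfdc5d2964] (by decide +kernel))
noncomputable def rh0680823d2ef87154 : CRef := CRef.mk (Pat.mk 0x80000000e0000000c0000000000000000 0x780000007e0000003f0000003400000014 6 7) 0 0 (step_sound _ 100 [(rh0e9299592e9e3236.shift 1 0), (rh4dc133ee0ba1420a.shift 0 2), rhdeb3c20511afdfb5] (by decide +kernel))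
noncomputable def rhb19b42b7d6606602 : CRef := CRef.mk (Pat.mk 0x80000000c0000000c0000000000000000 0x6000000060000000f0000003c0000000e0000000600000006 6 6) 0 0 (step_sound _ 34 [rh700cf9e742ca3424, (rh71222050f2c63a3a.shift 2 0)] (by decide +kernel))
noncomputable def rhc1fd879a84b52f9b : CRef := CRef.mk (Pat.mk 0x10000000180000001800000008 0x400000004000000fe000000ff0000007800000008 6 8) 0 0 (step_sound _ 66 [(rh34517e326ddb5b25.shift 0 1), (rh6292bd8784ece55f.shift 1 1), (rhe4cf97a152f25fa9.shift 1 0)] (by decide +kernel))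
noncomputable def rhad4738547f4e5bdb : CRef := CRef.mk (Pat.mk 0x1000000018000000180000000000000000 0xc0000000c0000001c000000180000007c0000000f0000000c 6 7) 0 0 (step_sound _ 35 [(rh71222050f2c63a3a.shift 3 0), rhd0b933781d225d0a] (by decide +kernel))
noncomputable def rh133051c3a8158a54 : CRef := CRef.mk (Pat.mk 0x80000000e0000000c0000000000000000 0xf0000007e0000003f0000003000000010 6 7) 0 0 (step_sound _ 100 [(rh4dc133ee0ba1420a.shift 0 2), rh6ab24e62d11ce4aa, rhdeb3c20511afdfb5] (by decide +kernel))
noncomputable def rhbbff08da6ed102c9 : CRef := CRef.mk (Pat.mk 0x1800000018000000080000000000000000 0xc000000f8000000fe0000000f0000000400000004 6 8) 0 0 (step_sound _ 133 [(rh4dc133ee0ba1420a.shift 1 3), rhad2bd62b3f0374bd, (rhc73ed1f94993536e.shift 2 1)] (by decide +kernel))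
noncomputable def rhef4211d0c904e20a : CRef := CRef.mk (Pat.mk 0x200000002000000020000000000000000 0x500000007000000070000000600000002000000070000000700000005 6 3) 0 0 (step_sound _ 161 [rh367118e0bf0473e0, (rh762a1aeaf83c662a.shift 0 1), rh8cdd36b03d57a2f6, (rhc9de03f9731897d4.shift 1 0)] (by decide +kernel))
noncomputable def rhb8d52298bf66f588 : CRef := CRef.mk (Pat.mk 0x3800000010000000100000001000000000 0x70000003e0000007f0000001c000000f800000028 6 8) 0 0 (step_sound _ 35 [rh8dd58e947a2e4c30, (rh932754581e0f4330.shift 3 0)] (by decide +kernel))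
noncomputable def rhcd38772cceaf9e75 : CRef := CRef.mk (Pat.mk 0x200000002000000020000000000000000 0x400000007000000070000000300000006000000070000000700000005 6 3) 0 0 (step_sound _ 161 [(rh12461e137161f2e1.shift 0 1), rh46baee19951a66e7, rh6aa5625770489e83] (by decide +kernel))
noncomputable def rhbe303033d4e95fc0 : CRef := CRef.mk (Pat.mk 0x20000000200000002000000020000000400000000 0x300000003000000070000000600000006000000020000000600000006 6 3) 0 0 (step_sound _ 33 [rh44cb98fd4d993e43, (rh55afc6a59410cf00.shift 1 0)] (by decide +kernel))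
noncomputable def rh887ea6b30e2fa6b0 : CRef := CRef.mk (Pat.mk 0x100000003c000000040000000000000000 0x60000000e0000000f0000001e0000003c0000000c0000000c0000000c 6 6) 0 0 (step_sound _ 130 [rh04ebfa9c0f315627, (rh3244c3cc8379b070.shift 1 3)] (by decide +kernel))
noncomputable def rhaaacd47ac23f5f85 : CRef := CRef.mk (Pat.mk 0x180000001e000000000000000000000000 0x100000001f000000fe0000000c0000000800000008 6 8) 0 0 (step_sound _ 129 [(rh3244c3cc8379b070.shift 0 3), (rh72e6e61c121fb4f7.shift 1 0)] (by decide +kernel))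
noncomputable def rhbb832e0fef5d7add : CRef := CRef.mk (Pat.mk 0x7000000018000000000000000000000000 0x80000002e0000007f000000f8000000d00000005000000040 6 8) 0 0 (step_sound _ 131 [(rh15a2b73944acc7e4.shift 0 3), (rh95e960a96072856f.shift 2 0), (rhc298b91816a3bf40.shift 2 1)] (by decide +kernel))
noncomputable def rh29a72d02b02e6a96 : CRef := CRef.mk (Pat.mk 0xc0000000f000000000000000000000000 0x80000000c0000007f0000003e0000000400000004 6 7) 0 0 (step_sound _ 68 [(rh96851dee118c1ba3.shift 0 2), (rhddd3738b978d50a2.shift 1 0)] (by decide +kernel))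
noncomputable def rhe94987b5d0bb7360 : CRef := CRef.mk (Pat.mk 0x180000001e000000000000000000000000 0x2000000170000001f0000001e0000003c0000001c0000001c 6 6) 0 0 (step_sound _ 129 [(rh3244c3cc8379b070.shift 0 3), rh92cc1ecf7c562c8f] (by decide +kernel))
noncomputable def rh37f57d3c2a5647b7 : CRef := CRef.mk (Pat.mk 0x180000001e000000000000000000000000 0x10000000180000001e0000003f0000003800000038 6 6) 0 0 (step_sound _ 65 [(rh07463c89a22e304a.shift 1 0), (rheb0810cc63b001d8.shift 0 2)] (by decide +kernel))
noncomputable def rh49e063294fe29976 : CRef := CRef.mk (Pat.mk 0x1c0000000600000004000000000000000000000000 0x20000000b0000001e0000003e0000003e000000380000003800000028 6 6) 0 0 (step_sound _ 132 [(rh8b4e02a3f5c6ee22.shift 1 0), (rhfe3b4040a5e9fe0b.shift 0 3)] (by decide +kernel))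
noncomputable def rh614fd2fca82c548e : CRef := CRef.mk (Pat.mk 0x200000003800000000 0x3f0000007e000000e7 6 8) 0 0 (step_sound _ 34 [rh2591032a0e7f4182, (rh7fb660bc21ce4329.shift 0 1), (rhc6ebdb02f2c2b584.shift 1 0)] (by decide +kernel))
noncomputable def rhb8c1889162712137 : CRef := CRef.mk (Pat.mk 0x600000003800000020000000000000000000000000 0x40000001c0000001c0000001c0000007f000000780000007e0000001e0000001c00000008 6 7) 0 0 (step_sound _ 163 [(rh94eb517cbfbcbab4.shift 1 0), (rha9439441fc578113.shift 1 1), (rhd98ec74f6eefb291.shift 2 1), (rhf60aa8aede119d3b.shift 0 4)] (by decide +kernel))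
noncomputable def rhf4b58e3456a65d0f : CRef := CRef.mk (Pat.mk 0x40000000f000000010000000000000000 0x80000001c0000000f0000001f0000001c0000001c 6 5) 0 0 (step_sound _ 67 [rh930c05e820260354, (rhe25b0a99195a5d59.shift 0 2)] (by decide +kernel))
noncomputable def rh93858c5ef0d6eedf : CRef := CRef.mk (Pat.mk 0x40000000e000000000000000000000000 0x80000007f0000003f000000730000001000000010 6 7) 0 0 (step_sound _ 100 [(rh07fc106a6edf0c0a.shift 0 2), rh6887ef21f67dd26a, (rhe3060b190bc0bc78.shift 0 3)] (by decide +kernel))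
noncomputable def rh9a53541e1c435424 : CRef := CRef.mk (Pat.mk 0x80000001c00000000 0xee0000007e000000f7 6 8) 0 0 (step_sound _ 37 [rh008b05f4778dc30d, (rh07fc106a6edf0c0a.shift 1 0), (rhe3060b190bc0bc78.shift 1 1)] (by decide +kernel))
noncomputable def rh3b7edd5aa55dfd0f : CRef := CRef.mk (Pat.mk 0x20000000f000000080000000000000000 0x4000000040000003e0000003f0000000c0000000800000008 6 6) 0 0 (step_sound _ 132 [(rh36ef443ce665afe9.shift 1 0), (rh428265de8cd3cd2d.shift 0 3)] (by decide +kernel))
noncomputable def rhcf37c34b91cd8a76 : CRef := CRef.mk (Pat.mk 0x20000000f00000001000000000000000000000000 0x4000000040000001e0000000f0000001f0000001f0000001d00000014 6 5) 0 0 (step_sound _ 99 [rh1e9f43c7d263906f, (rhe25b0a99195a5d59.shift 0 3)] (by decide +kernel))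
noncomputable def rh95d17095912bda47 : CRef := CRef.mk (Pat.mk 0x1000000030000000000000000800000008 0x1000000030000000300000007c000001ff 6 9) 0 0 (step_sound _ 36 [(rh3c88ce959c0e423f.shift 3 0), rh6d97f8f538840ee5] (by decide +kernel))
noncomputable def rhd3869433f2520e82 : CRef := CRef.mk (Pat.mk 0x80000001c000000040000000400000000 0x60000000f0000001c0000000e0000007c00000018 6 7) 0 0 (step_sound _ 130 [(rh277b01412deaec89.shift 0 1), (rh65a3a4cf67baf828.shift 1 0)] (by decide +kernel))
noncomputable def rh1ffb37c2dfd1c0a6 : CRef := CRef.mk (Pat.mk 0x1000000038000000000000000800000000 0xc0000001e000000380000001f0000000c0000000c 6 6) 0 0 (step_sound _ 67 [(rh71222050f2c63a3a.shift 3 0), rhfd3a397aa4f214ad] (by decide +kernel))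
noncomputable def rhb6936da08a345706 : CRef := CRef.mk (Pat.mk 0x80000001c000000040000000400000000 0x60000000f0000001c000000070000003e0000000a 6 6) 0 0 (step_sound _ 130 [rh1904b52b42aee148, (rh277b01412deaec89.shift 0 1)] (by decide +kernel))
noncomputable def rh9472942ab209ac4e : CRef := CRef.mk (Pat.mk 0x1000000030000000000000001800000000 0x3000000030000000370000007e000001ef 6 9) 0 0 (step_sound _ 3 [(rh3c88ce959c0e423f.shift 3 0), rh728372d848f52fc7] (by decide +kernel))
noncomputable def rh017cf5bf2551e060 : CRef := CRef.mk (Pat.mk 0x1000000030000000000000001800000000 0x200000003000000030000001e7000000fe000001ff 6 9) 0 0 (step_sound _ 37 [(rh100136e0fcd97dfd.shift 1 0), rh154d421d313d2dd8, (rh55f67c0642d2ed1f.shift 3 0), (rh5b603ec830095063.shift 2 0), (rh6750075f6e760f16.shift 2 0)] (by decide +kernel))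
noncomputable def rhcfa4160f528048be : CRef := CRef.mk (Pat.mk 0x40000000c000000000000000600000000 0x80000000c0000000c0000007c0000003f0000007c 6 7) 0 0 (step_sound _ 35 [(rh55f67c0642d2ed1f.shift 1 0), rh60d5722eb6dd19dd, (rh935da622f8ebc962.shift 2 0), rhfc7222e14a194fa6] (by decide +kernel))
noncomputable def rh339bdec2854d1d48 : CRef := CRef.mk (Pat.mk 0x80000001c000000000000000c00000000 0x170000001f0000001c0000000c0000000c00000008 6 5) 0 0 (step_sound _ 67 [(rh261f868a429ae0e3.shift 2 0), (rh9e3cd6579b1eb96f.shift 0 1), (rha707fb719e87fe6e.shift 3 0), (rhe286c75f2739cce2.shift 2 0)] (by decide +kernel))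
noncomputable def rh350afd8833ecaf49 : CRef := CRef.mk (Pat.mk 0x100000003800000000000000180000000000000000 0x1000000038000001ff0000007e000001e700000004 6 9) 0 0 (step_sound _ 69 [(rh5b603ec830095063.shift 2 1), (rh935da622f8ebc962.shift 4 1), rhf6c82440a4814b59, (rhfc7222e14a194fa6.shift 2 1)] (by decide +kernel))
noncomputable def rh26f72d7cf5f0bf4d : CRef := CRef.mk (Pat.mk 0x100000003800000000000000180000000000000000 0x240000003e00000038000001ef000000fe000001f700000004 6 9) 0 0 (step_sound _ 69 [rh2b0f085744c42cc0, (rh55f67c0642d2ed1f.shift 3 1), (rh5b603ec830095063.shift 2 1), (rh6750075f6e760f16.shift 2 1), (rha890e1424484c799.shift 1 1)] (by decide +kernel))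
noncomputable def rhc241497d91be2cc8 : CRef := CRef.mk (Pat.mk 0x1000000030000000000000000800000008 0x3000000030000000370000007e000001ef 6 9) 0 0 (step_sound _ 36 [(rh3c88ce959c0e423f.shift 3 0), rh728372d848f52fc7] (by decide +kernel))
noncomputable def rh084fe995122958ab : CRef := CRef.mk (Pat.mk 0x60000001e000000000000000000000000 0x2000000060000001e0000003f0000000700000007 6 6) 0 0 (step_sound _ 65 [rh18cf995b29e19680, (rheb0810cc63b001d8.shift 0 2)] (by decide +kernel))
noncomputable def rh3476bc8608165c40 : CRef := CRef.mk (Pat.mk 0x180000000e000000000000000800000000 0x140000001c0000001e0000007b0000001f00000016 6 7) 0 0 (step_sound _ 67 [(rh2f68792b6b779e96.shift 3 1), rh65eb58ad6f7f1a3d] (by decide +kernel))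
noncomputable def rhdc8a292ac5fa5a38 : CRef := CRef.mk (Pat.mk 0x180000000e000000000000000800000000 0x40000001f0000003e000000330000001a0000001a 6 6) 0 0 (step_sound _ 100 [rh7f22250bd2200f62, (rhdc461deccfb05432.shift 1 0), rhefd858cfdc5d2964] (by decide +kernel))
noncomputable def rhdbdbdda4706b7fbe : CRef := CRef.mk (Pat.mk 0x8000000180000001c000000000000000000000000 0x40000000c0000001c0000001c0000001f0000001f0000001c 6 5) 0 0 (step_sound _ 67 [(rh7bfe3f2f446c4b3f.shift 0 1), (rhbb83b53687587fb2.shift 2 0), (rhf57bd6481b8b2ca7.shift 3 0)] (by decide +kernel))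
noncomputable def rhd7daa586f30867b6 : CRef := CRef.mk (Pat.mk 0x3000000038000000000000002000000000 0x140000003e00000038000001df000000fc000001ff 6 9) 0 0 (step_sound _ 36 [(rh2ab430a705a452d5.shift 2 0), rh4f39df29e6982ba9, (rh8556ce617a451e36.shift 4 0), (rh8e882ea258c6ca15.shift 2 0)] (by decide +kernel))
noncomputable def rh2415f34f0f426962 : CRef := CRef.mk (Pat.mk 0x800000018000000180000000800000000 0x8000000380000001f0000003f00000014 6 6) 0 0 (step_sound _ 34 [(rh932754581e0f4330.shift 2 0), rha4392931b279a0ee] (by decide +kernel))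
noncomputable def rh261e44630dc26bfc : CRef := CRef.mk (Pat.mk 0x380000001c000000000000000000000000 0xc0000000c0000000f0000003c0000001c0000000c0000000c0000000c 6 6) 0 0 (step_sound _ 163 [(rh0efea48c36e092f0.shift 0 2), (rh37d9ceebb86d75d1.shift 2 2), rhf0d968e9e1b48d5d] (by decide +kernel))
noncomputable def rh3fb0ebf6698586e1 : CRef := CRef.mk (Pat.mk 0x180000001a00000008000000000000000000000000 0x5000000070000003f0000001b0000001f000000370000001700000005 6 6) 0 0 (step_sound _ 161 [(rh086f6046fa319626.shift 0 4), rha1d054e92d475c44, (rhb677462e6b309c2e.shift 0 2), (rhd5899e89efce0709.shift 0 2)] (by decide +kernel))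
noncomputable def rh402f4e2dbf644af4 : CRef := CRef.mk (Pat.mk 0x180000001a000000080000000000000000 0x40000001f0000001b000000080000001c0000001c 6 5) 0 0 (step_sound _ 35 [rh166f6fa279722ce2, (rh71222050f2c63a3a.shift 3 0)] (by decide +kernel))
noncomputable def rh2e6ec2f0d19ae79d : CRef := CRef.mk (Pat.mk 0x80000001800000018000000000000001000000000 0x40000000f0000007c000000180000000c0000001c00000018 6 7) 0 0 (step_sound _ 67 [(rh9b4df57cddcda711.shift 3 0), (rhec8fab0a3970e33b.shift 0 1)] (by decide +kernel))
noncomputable def rh3555f48661c374f0 : CRef := CRef.mk (Pat.mk 0x100000001e000000100000000000000000 0x17000000ff0000001c0000000800000008 6 8) 0 0 (step_sound _ 67 [rh239f548d8fc67672, (rhb739f4f82bb681b4.shift 0 2)] (by decide +kernel))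
noncomputable def rh32cfacbe6d462931 : CRef := CRef.mk (Pat.mk 0x20000000600000006000000040000000000000000 0x100000003000000070000001f0000003f0000001b0000000b 6 6) 0 0 (step_sound _ 65 [rh8dee1f47d8998322, rhbb83b53687587fb2, rhdf997f77704b6375] (by decide +kernel))
noncomputable def rh4acac3221eea1f75 : CRef := CRef.mk (Pat.mk 0x80000001a000000180000000000000000 0x500000007000000070000000f0000001b0000001f0000003b00000011 6 6) 0 0 (step_sound _ 65 [rh1517675b5b4fba58, rh1af844ea1fb49739, rh68364ea9fd5ddf51, (rh6e1685e3533aff0e.shift 0 2)] (by decide +kernel))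
noncomputable def rh8ea35f7744b2cf7f : CRef := CRef.mk (Pat.mk 0x180000003800000000 0x18000000ff000000e7 6 8) 0 0 (step_sound _ 38 [rhf37c83b170ac0f6a, (rhf48373e13d2bc128.shift 3 1)] (by decide +kernel))
noncomputable def rhb703046658387e51 : CRef := CRef.mk (Pat.mk 0x1c00000038000000000000000000000000 0xc0000000c0000000c0000001c0000003c0000000f0000000c0000000c 6 6) 0 0 (step_sound _ 67 [(rh40241bd608e5be1a.shift 2 0), rh609c5f22d4c52017, (rhfa0908562b32562c.shift 0 1)] (by decide +kernel))
noncomputable def rha60bba45939e72bf : CRef := CRef.mk (Pat.mk 0x60000000e000000020000000000000000 0x60000003e0000003e0000000f00000007 6 6) 0 0 (step_sound _ 33 [(rh71222050f2c63a3a.shift 1 0), rhf3d61659b1fc7e32] (by decide +kernel))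
noncomputable def rhfadd02d7ecfdbbbd : CRef := CRef.mk (Pat.mk 0x80000000c000000040000000400000000 0x60000000f0000003c0000000e0000007c00000018 6 7) 0 0 (step_sound _ 130 [(rh65a3a4cf67baf828.shift 1 0), (rhcf85c92937975d4d.shift 0 1)] (by decide +kernel))
noncomputable def rh564a4672b73a87ea : CRef := CRef.mk (Pat.mk 0x1000000018000000080000000800000000 0x80000000c0000000c0000001e000000780000001f0000000c00000004 6 7) 0 0 (step_sound _ 131 [(rhcb5b9f48a2219b5b.shift 2 0), (rhcf85c92937975d4d.shift 1 1), rhd1671c6e88add9be, (rhd24778b085d8f6e1.shift 1 0)] (by decide +kernel))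
noncomputable def rh116cc7a10a931d20 : CRef := CRef.mk (Pat.mk 0xf000000010000000000000000 0x40000001c0000001f0000001f0000001800000018 6 5) 0 0 (step_sound _ 65 [(rh18965a982d73c794.shift 0 2), rh95cd90ff80e46efd] (by decide +kernel))
noncomputable def rh91106e82c879f9df : CRef := CRef.mk (Pat.mk 0x10000000380000000800000008000000000000000000000000 0x3000000038000001ff000000ff000001f60000005400000054 6 9) 0 0 (step_sound _ 101 [(rh0e53d4288c8110f5.shift 0 2), rh1c477af91ef64248, (rh9bf0a1a2034f975c.shift 2 0), rha3ab3f433f6159b0, (rhdb32e767b64bc2a1.shift 2 2), (rhf067b1f9579910ec.shift 1 2)] (by decide +kernel))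
noncomputable def rhcc3c436905d8f79e : CRef := CRef.mk (Pat.mk 0x40000000e000000020000000000000000 0x740000003e000000730000000200000002 6 7) 0 0 (step_sound _ 1 [(rh352b7f91eba0c81f.shift 0 2), (rh9e3edb185cc347de.shift 1 0)] (by decide +kernel))
noncomputable def rhf442107f839a7c25 : CRef := CRef.mk (Pat.mk 0x1800000018000000100000000000000000 0x27000000ff000000f8000000100000001000000010 6 8) 0 0 (step_sound _ 36 [(rh7b1f1fb55310c477.shift 3 0), (rhf4466150813eb0fd.shift 0 1)] (by decide +kernel))
noncomputable def rhe1401d4cf62f87d2 : CRef := CRef.mk (Pat.mk 0x10000000180000001000000010 0x2f000000ff000000f80000001000000010 6 8) 0 0 (step_sound _ 99 [(rh50fbb5868c909700.shift 3 0), rhf4466150813eb0fd] (by decide +kernel))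
noncomputable def rh782059f097e65d69 : CRef := CRef.mk (Pat.mk 0x80000000c0000000c000000000000000000000000 0xc0000000c0000001f000000780000001800000008 6 7) 0 0 (step_sound _ 67 [(rh3cb04db3dd2b6a55.shift 2 0), rh85d44ddb1335ccf9, (rhcc2a2baa9246395a.shift 0 1)] (by decide +kernel))
noncomputable def rh241f22264ae5a213 : CRef := CRef.mk (Pat.mk 0x38000000200000000000000000 0x40000000f000001fe0000003f0000000800000008 6 9) 0 0 (step_sound _ 98 [(rh775ca1963e850b80.shift 0 2), (rh821c1a631420eb55.shift 1 2), (rhafa5a7051d37b143.shift 1 0), (rhdceeca65bdd8095a.shift 0 2)] (by decide +kernel))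
noncomputable def rh0815036f1e2464bf : CRef := CRef.mk (Pat.mk 0xf00000004 0xee0000007f0000003e 6 8) 0 0 (step_sound _ 4 [rh96851dee118c1ba3, (rhd8166535c5c39ccd.shift 1 0)] (by decide +kernel))
noncomputable def rh95e2497d07ae4e12 : CRef := CRef.mk (Pat.mk 0x1e00000008000000000000000000000000 0x80000003e0000003f000000300000001000000010 6 6) 0 0 (step_sound _ 97 [(rh3032f123a1431b2c.shift 1 0), (rheb0810cc63b001d8.shift 0 3)] (by decide +kernel))
noncomputable def rh8478d14481800153 : CRef := CRef.mk (Pat.mk 0x1e0000000a000000000000000000000000 0x1c0000001e0000003e000000330000003200000032 6 6) 0 0 (step_sound _ 100 [rhaec9b4a684e33dad, (rhe25b0a99195a5d59.shift 1 3)] (by decide +kernel))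
noncomputable def rh21bfc4a0675dc794 : CRef := CRef.mk (Pat.mk 0x1c000000100000000000000000 0x2000000030000003e000000370000000400000004 6 6) 0 0 (step_sound _ 97 [rhafa5a7051d37b143, (rhe25b0a99195a5d59.shift 1 2)] (by decide +kernel))
noncomputable def rhb99c3591d8de3a5a : CRef := CRef.mk (Pat.mk 0xe00000001 0xee0000007e00000073 6 8) 0 0 (step_sound _ 36 [rh80fcd6d0a18cb2dd, (rh93eea68832ce7ef3.shift 1 0)] (by decide +kernel))
noncomputable def rh6a5e9c40aa2bdf82 : CRef := CRef.mk (Pat.mk 0x20000000e00000018000000000000000000000000 0xb0000003e0000001f000000300000001000000010 6 6) 0 0 (step_sound _ 132 [rh20879249aee603a7, (rh3244c3cc8379b070.shift 0 4)] (by decide +kernel))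
noncomputable def rh90f07dfc49f09c11 : CRef := CRef.mk (Pat.mk 0x8000000380000006000000000 0x140000001c0000003c0000007c0000002f000000780000007000000050 6 7) 0 0 (step_sound _ 133 [(rha7e5b30d6e5612d1.shift 4 0), (rhbb10fae47190fd12.shift 0 1), (rhef97ebbc25a73f68.shift 2 0)] (by decide +kernel))
noncomputable def rh5bf15fd85065ce99 : CRef := CRef.mk (Pat.mk 0x800000038000000600000000000000000 0x10000000540000007c0000007c0000002f000000780000006c0000004c00000004 6 7) 0 0 (step_sound _ 165 [rh284acd68e1455db8, (rhc531e8994caba2c3.shift 4 1), (rhef97ebbc25a73f68.shift 2 1)] (by decide +kernel))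
noncomputable def rh0ad29edfbe990c31 : CRef := CRef.mk (Pat.mk 0x80000003800000060000000000000000000000000 0x800000028000000f80000007f000000de0000005400000044 6 8) 0 0 (step_sound _ 99 [(rh19b19bf0872cfe73.shift 2 0), (rh1feae9e9db3abd24.shift 1 1), (rh7f4f3b3709f12f9e.shift 3 0), (rhf0f55c4504412200.shift 0 3)] (by decide +kernel))
noncomputable def rh69a62ee0c754d19e : CRef := CRef.mk (Pat.mk 0x800000038000000600000000000000000 0x140000001c0000005e0000007c0000006f000000380000007f0000005c00000014 6 7) 0 0 (step_sound _ 163 [(rh14e0829dc73b6804.shift 2 2), (rh70e33bfdf511e144.shift 3 0), rhb0e215e2c57e59d5, (rhbc53e3ffe2f7990b.shift 0 1)] (by decide +kernel))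
noncomputable def rh1c1825d6590f7e1f : CRef := CRef.mk (Pat.mk 0x1e00000018000000000000000000000000 0x1c0000001e0000001f000000330000003200000032 6 6) 0 0 (step_sound _ 97 [rhaec9b4a684e33dad, (rheb0810cc63b001d8.shift 0 3)] (by decide +kernel))
noncomputable def rhd4cef4087b51869c : CRef := CRef.mk (Pat.mk 0xf000000050000000000000000 0x200000002000000070000007f000000fd0000000100000001 6 8) 0 0 (step_sound _ 129 [(rh19b92de635d91051.shift 0 2), rh32f6277f14b47a8f, rhdefbcbcad06b6930] (by decide +kernel))
noncomputable def rh1460d2b9f436fb4e : CRef := CRef.mk (Pat.mk 0x7800000020000000000000000000000000 0x10000000f80000007c0000001f0000000800000008 6 8) 0 0 (step_sound _ 99 [rh937ad9fbf50cc57c, (rheb0810cc63b001d8.shift 2 3)] (by decide +kernel))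
noncomputable def rh4df4107700f06a12 : CRef := CRef.mk (Pat.mk 0x70000000a 0xe70000007f000000fb 6 8) 0 0 (step_sound _ 35 [rh2978bb0fc374a9fa, rhe25b0a99195a5d59] (by decide +kernel))
noncomputable def rh143a9b02560e1c7d : CRef := CRef.mk (Pat.mk 0x1c0000001c000000000000000000000000 0x140000001c0000001c0000001c0000000f0000000e0000000c 6 5) 0 0 (step_sound _ 67 [(rh40241bd608e5be1a.shift 2 0), (rhea7a1800d6f053bd.shift 3 0), rhf5cd5ed2d3628365] (by decide +kernel))
noncomputable def rh1dabb36a6c68f7d7 : CRef := CRef.mk (Pat.mk 0xe0000001c000000000000000000000000 0x800000008000000080000001e0000001e000000370000001600000016 6 6) 0 0 (step_sound _ 163 [(rh1e309b005ffa1b36.shift 2 1), rh3bfb0fdc25ca110b, (rh571950d89739e871.shift 2 2)] (by decide +kernel))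
noncomputable def rh243fb694c5a02c37 : CRef := CRef.mk (Pat.mk 0xe0000001c000000000000000000000000 0x8000000080000000c0000001e0000001e000000370000001600000012 6 6) 0 0 (step_sound _ 163 [(rh1e309b005ffa1b36.shift 2 1), (rh571950d89739e871.shift 2 2), rhd6bab1851e5977f0] (by decide +kernel))
noncomputable def rh3945ed363d0aa72c : CRef := CRef.mk (Pat.mk 0x1c00000038000000000000000000000000 0x18000000180000001c0000001c0000003c0000000f0000000c00000008 6 6) 0 0 (step_sound _ 67 [(rh40241bd608e5be1a.shift 2 0), (rh40f8e8b5f56cd1be.shift 0 1), (rhea7a1800d6f053bd.shift 3 0)] (by decide +kernel))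
noncomputable def rhc05db6b064f0d29b : CRef := CRef.mk (Pat.mk 0xe0000001c000000000000000000000000 0xf0000007e0000001e000000330000001200000012 6 7) 0 0 (step_sound _ 132 [(rh771383521b68d2cd.shift 0 3), (rhf9d36e158778ce35.shift 1 3), rhfce44e8cfecd8ce3] (by decide +kernel))
noncomputable def rh4a6d80034a60f738 : CRef := CRef.mk (Pat.mk 0xe0000000c000000000000000000000000 0xc0000000e0000000f0000003e0000000c000000040000000400000004 6 6) 0 0 (step_sound _ 66 [(rh40241bd608e5be1a.shift 1 0), (rhea7a1800d6f053bd.shift 2 0), (rhed1291630a3c2150.shift 0 2)] (by decide +kernel))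
noncomputable def rh9d535f0ade5d030d : CRef := CRef.mk (Pat.mk 0x1e0000001000000000 0x30000000300000003f0000003e0000001800000008 6 6) 0 0 (step_sound _ 97 [(rh3244c3cc8379b070.shift 0 2), (rh74faa3e7c5acb94b.shift 1 0)] (by decide +kernel))
noncomputable def rh4ed021796d7d1315 : CRef := CRef.mk (Pat.mk 0x38000000200000000000000000 0x24000000670000007e0000003f0000001800000018 6 7) 0 0 (step_sound _ 98 [(rh775ca1963e850b80.shift 0 2), (rh8859ac061aed93d9.shift 1 0), (rhafa5a7051d37b143.shift 1 0), (rhdceeca65bdd8095a.shift 0 2)] (by decide +kernel))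
noncomputable def rhf76814481ffe61c0 : CRef := CRef.mk (Pat.mk 0x4000000070000000400000000 0xa0000000e0000000e00000004000000070000001e0000000a 6 5) 0 0 (step_sound _ 130 [(rh03dfdf12d5937476.shift 1 0), rhb379f99078aafa2d, (rhc17b7d8fab3dfe57.shift 1 0)] (by decide +kernel))
noncomputable def rh4d2eada41861bb93 : CRef := CRef.mk (Pat.mk 0x1000000010000000180000001000000000 0xc0000001f00000038000000380000001f0000000c 6 6) 0 0 (step_sound _ 35 [rh3208b9014032d311, (rh932754581e0f4330.shift 3 0)] (by decide +kernel))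
noncomputable def rha0f5657e879a471e : CRef := CRef.mk (Pat.mk 0x2000000020000000300000002 0x500000007000000070000000700000007000000070000000700000002 6 3) 0 0 (step_sound _ 96 [rh50fbb5868c909700, rhc9484602679c92e6] (by decide +kernel))
noncomputable def rhd071a02de85e517e : CRef := CRef.mk (Pat.mk 0x80000001e00000008000000000000000000000000 0xc0000001e0000003f000000330000001200000002 6 6) 0 0 (step_sound _ 100 [rh910e19ca439968c3, (rhe25b0a99195a5d59.shift 1 3)] (by decide +kernel))
noncomputable def rhfedc2e8b5499f6b9 : CRef := CRef.mk (Pat.mk 0x4000000070000000400000000 0xa0000000e0000000e000000040000000f0000003e0000000a 6 6) 0 0 (step_sound _ 130 [(rh03dfdf12d5937476.shift 1 0), rhb6683bf8ce83f2d6, (rhc17b7d8fab3dfe57.shift 1 0)] (by decide +kernel))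
noncomputable def rh1c9a3da3bc00019f : CRef := CRef.mk (Pat.mk 0x1e00000008000000000000000000000000 0x40000003e0000003f000000030000000200000002 6 6) 0 0 (step_sound _ 97 [rh41795b35765d30c6, (rheb0810cc63b001d8.shift 0 3)] (by decide +kernel))
noncomputable def rhd7112f8f8642f8f0 : CRef := CRef.mk (Pat.mk 0xc0000003800000000000000000000000000000000 0x80000000c0000000c0000003c0000001f0000001c0000001c00000014 6 6) 0 0 (step_sound _ 99 [(rh0a6888916bcef86b.shift 2 0), (rh3eb188fb253f07ac.shift 0 2), (rh43d8dfd721575dfb.shift 2 0), (rhd1779d7de7f8215b.shift 2 0)] (by decide +kernel))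
noncomputable def rh2f4f79213bd2b631 : CRef := CRef.mk (Pat.mk 0x2c00000038000000000000000000000000 0x10000000100000003c0000007c0000002f000000380000001f0000001c00000010 6 7) 0 0 (step_sound _ 129 [rh62e5d0336e2cee85, (rhb739f4f82bb681b4.shift 0 3)] (by decide +kernel))
noncomputable def rhc3972d64d2d2971a : CRef := CRef.mk (Pat.mk 0xc000000080000000800000000 0x100000001c0000001c0000003c0000000f0000000c0000001c00000014 6 6) 0 0 (step_sound _ 131 [(rh362ef3d1879ae226.shift 2 0), (rh55a026e6f690bbaf.shift 2 0), rh8fd66ecbb66aee6b, (rhaba26d7b21102469.shift 2 0)] (by decide +kernel))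
noncomputable def rh3f720f95742a2611 : CRef := CRef.mk (Pat.mk 0x30000000200000002000000000000000000000000 0x60000000600000006000000030000000300000007000000070000000700000001 6 3) 0 0 (step_sound _ 193 [rh4ed972033d0a12ff, (rh55a026e6f690bbaf.shift 0 2), (rh8cdd36b03d57a2f6.shift 0 1), (rh8ff71bc284510f75.shift 0 1), (rha8fb926999302092.shift 0 1)] (by decide +kernel))
noncomputable def rh7bdcc4da4284e407 : CRef := CRef.mk (Pat.mk 0x38000000200000000000000000 0x280000006f0000007e000000370000001400000014 6 7) 0 0 (step_sound _ 98 [(rh775ca1963e850b80.shift 0 2), (rh8859ac061aed93d9.shift 1 0), (rhdceeca65bdd8095a.shift 0 2), (rhefd858cfdc5d2964.shift 1 0)] (by decide +kernel))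
noncomputable def rh521ac07dcb525ca0 : CRef := CRef.mk (Pat.mk 0xf00000004 0xe00000007f0000007e 6 8) 0 0 (step_sound _ 36 [(rh0ae232cce48795b7.shift 1 0), rh4ad5fc38f1b69f65, rh5cd2ac611390945c, (rh8426b03b42bea125.shift 1 0)] (by decide +kernel))
noncomputable def rhd0ee3a34261bc64f : CRef := CRef.mk (Pat.mk 0x1e0000001800000000 0x1c0000003c0000001f0000003e0000001800000010 6 6) 0 0 (step_sound _ 97 [(rh3244c3cc8379b070.shift 0 2), (rhb1bb43842f0cc9de.shift 1 0)] (by decide +kernel))
noncomputable def rh4a700fbd61fb9ea6 : CRef := CRef.mk (Pat.mk 0x10000000000000003c0000001000000000 0x2c0000007f0000003e0000003c0000007800000028 6 7) 0 0 (step_sound _ 100 [rh0ef5b7710af8c0b2, (rha3ce8d304ffd1d8e.shift 2 0)] (by decide +kernel))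
noncomputable def rha7ba90ee9b5ef077 : CRef := CRef.mk (Pat.mk 0x200000000000000078000000200000000000000000 0x4000001ff000000fe0000005f00000078000000f00000001000000010 6 9) 0 0 (step_sound _ 164 [(rh4b870bee8a6107e8.shift 2 0), (rh6ee007921ad5e8b6.shift 1 2), (rh7bffeb91e03c2636.shift 0 2), (rh93cc13137627940f.shift 2 2), (rh9934fa641d4e3332.shift 2 0), (rhe475e6d81b4fa4b9.shift 1 2)] (by decide +kernel))
noncomputable def rh0a661a4ff8ecee34 : CRef := CRef.mk (Pat.mk 0x10000000000000003c0000001000000000 0x300000003c0000007f0000003e0000003c0000001800000008 6 7) 0 0 (step_sound _ 100 [(rh03dfdf12d5937476.shift 3 0), rh0ef5b7710af8c0b2, (rh59c200cf8f8dec3d.shift 1 1)] (by decide +kernel))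
noncomputable def rhc5f9d687ed90f454 : CRef := CRef.mk (Pat.mk 0x10000000e00000004 0xe30000007e0000006e 6 8) 0 0 (step_sound _ 36 [(rh3f8766e6ecb455ce.shift 0 1), (rh8426b03b42bea125.shift 1 0)] (by decide +kernel))
noncomputable def rhafb1507c5f328274 : CRef := CRef.mk (Pat.mk 0x10000000f0000000400000000 0xe0000001e0000000f0000001f0000001c00000008 6 5) 0 0 (step_sound _ 35 [rhb1bb43842f0cc9de, (rhe25b0a99195a5d59.shift 0 1)] (by decide +kernel))
noncomputable def rh00c135e211acf993 : CRef := CRef.mk (Pat.mk 0x80000002800000020 0x1f000000fe000001ef 6 9) 0 0 (step_sound _ 36 [rh3918eeb6c53434d8, (rh8ee80cc30e93a344.shift 2 0), (rha3494eb53bee01dd.shift 2 0), (rha9fbfd4bb8cf890b.shift 0 1)] (by decide +kernel))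
noncomputable def rhce701e8b96f2250f : CRef := CRef.mk (Pat.mk 0x1800000070000000000000000000000000 0x80000001c000000f80000007f0000001f0000001800000008 6 8) 0 0 (step_sound _ 99 [(rh2a2c9eb013bbac78.shift 2 1), (rh9a011a4d0ec8f646.shift 2 0), (rhcef93a29c93c96c9.shift 0 2), (rheb464318cdcb7ab8.shift 0 2)] (by decide +kernel))
noncomputable def rh409214a989d651bc : CRef := CRef.mk (Pat.mk 0x1000000018000000100000000000000000 0x1c0000001f0000007c00000018000000180000001800000008 6 7) 0 0 (step_sound _ 163 [rh4e2d1832b66c1f8c, (rha52e0141694f1c7d.shift 3 1), (rhc17a6a02773cc5f6.shift 3 1)] (by decide +kernel))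
noncomputable def rhb0f5b706125405f6 : CRef := CRef.mk (Pat.mk 0x80000000c000000080000000000000000 0x80000001c0000003c0000003f0000000f0000000c0000000800000008 6 6) 0 0 (step_sound _ 130 [(rh3cb04db3dd2b6a55.shift 2 0), rh677e6fbb651585de, (rh78870ebe8fae8ff5.shift 0 2)] (by decide +kernel))
noncomputable def rhfb2d28b63d9194c4 : CRef := CRef.mk (Pat.mk 0x80000000c00000028000000200000000000000000 0x18000000180000007c0000002f0000002c0000002c0000000c00000008 6 7) 0 0 (step_sound _ 98 [(rh1e309b005ffa1b36.shift 2 1), rh38a267084443bec7, (rh4ed7978f14315a7a.shift 2 2)] (by decide +kernel))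
noncomputable def rh8a70429e109e9a84 : CRef := CRef.mk (Pat.mk 0x80000000c0000000800000000 0x100000001c0000001e0000003f0000003f0000000c0000000c00000004 6 6) 0 0 (step_sound _ 131 [rh01cc9d900d343008, (rh03dfdf12d5937476.shift 2 0), (rh69f0587a21bb077f.shift 2 1)] (by decide +kernel))
end Crest.Agent.S0047.Helper85.Cert
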