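import Crest.Agent.Lib.S0047.Helper85CertPL5F0
import Crest.Agent.Lib.S0047.Helper85CertPL5F1
import Crest.Agent.Lib.S0047.Helper85CertPL5F2
import Crest.Agent.Lib.S0047.Helper85CertPL5F3
import Crest.Agent.Lib.S0047.Helper85CertPL5F4
import Crest.Agent.Lib.S0047.Helper85CertPL5F5
import Crest.Agent.Lib.S0047.Helper85CertPL5F6
import Crest.Agent.Lib.S0047.Helper85CertPL5F7
import Crest.Agent.Lib.S0047.Helper85CertPL5F8
import Crest.Agent.Lib.S0047.Helper85CertPL5F9
import Crest.Agent.Lib.S0047.Helper85CertPL5F10
import Crest.Agent.Lib.S0047.Helper85CertPL5F11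
import Crest.Agent.Lib.S0047.Helper85CertPL5F12
set_option autoImplicit false
set_option linter.all false
set_option Elab.async false
namespace Crest.Agent.S0047.Helper85.Cert
open Crest.Agent.S0047.Helper85

noncomputable def rhdbdfd5c58b3c7791 : CRef := CRef.mk (Pat.mk 0x10000000100000001c0000000800000000 0x2f0000003e000000fe0000007c0000001f00000016 6 8) 0 0 (step_sound _ 130 [(rh5f0c231a26d4677a.shift 1 1), (rh70adc1bff4ba0ea0.shift 1 0), (rh8bf371c8e58c729a.shift 0 1), (rha6751fe3de50e173.shift 1 1), (rhd5322e4712fe2124.shift 1 0), rhe9cc77b723a1aa88] (by decide +kernel))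
noncomputable def rhbdbeb5fd1933f0e5 : CRef := CRef.mk (Pat.mk 0x10000000180000000e000000080000000000000000 0x6000000370000001f0000003e0000003f0000003600000012 6 6) 0 0 (step_sound _ 65 [(rh110fc0aa5de31679.shift 0 2), rh5368e30d195f6108, rha80dbd73d19eb482] (by decide +kernel))
noncomputable def rhd56889e682b5152d : CRef := CRef.mk (Pat.mk 0x80000000c000000060000000400000000 0x20000000b0000003f0000003e0000003c00000010 6 6) 0 0 (step_sound _ 100 [(rh18965a982d73c794.shift 1 2), rh45df9fc9d63c49fa] (by decide +kernel))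
noncomputable def rhdfe5d4116c7ef752 : CRef := CRef.mk (Pat.mk 0x100000001000000038000000080000000000000000 0x10000000170000003e0000007f0000002000000020 6 7) 0 0 (step_sound _ 69 [(rh6803112df5f1595a.shift 1 1), (rh79ad7b82ec8c35e2.shift 4 0), (rhc92c11e8da6c894f.shift 0 2)] (by decide +kernel))
noncomputable def rhc8fd7777733eb104 : CRef := CRef.mk (Pat.mk 0x2000000020000000f00000001000000000000000000000000 0x400000006000000060000001f00000003000000060000000600000006 6 5) 0 0 (step_sound _ 97 [(rh18965a982d73c794.shift 0 3), rh82c6aec0c6f8e399] (by decide +kernel))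
noncomputable def rhd9abd513aab01281 : CRef := CRef.mk (Pat.mk 0x8000000080000001c0000000c00000000 0x140000001c000000780000001e0000000f00000008 6 7) 0 0 (step_sound _ 33 [(rh53b3c253cb0c65f4.shift 0 1), (rhac8cafe966315d2a.shift 1 0)] (by decide +kernel))
noncomputable def rh5db8a295a995c97f : CRef := CRef.mk (Pat.mk 0x8000000080000001c0000000c00000000 0x140000003c0000000f0000001c0000000f00000002 6 6) 0 0 (step_sound _ 130 [rh50b4343e9f3d3a23, (rh50fbb5868c909700.shift 2 1)] (by decide +kernel))
noncomputable def rhc4c83a21b89924e9 : CRef := CRef.mk (Pat.mk 0x180000000e000000040000000400000000 0x6000000060000001f0000003e0000003c0000000f0000000a 6 6) 0 0 (step_sound _ 68 [rh79aa5629d05a3e3b, (rhd5041491555e8d86.shift 1 2), (rhe7e22136d40a85d7.shift 0 1), rhef8e62a18e91e634] (by decide +kernel))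
noncomputable def rh9b6a483affb06780 : CRef := CRef.mk (Pat.mk 0x1000000010000000180000000800000000 0x80000001800000018000000ff000000ff00000034 6 8) 0 0 (step_sound _ 34 [(rh0bb882ba86b2372d.shift 0 1), rh17313626f383d9f6, (rhcc585e6df53e3afe.shift 2 0)] (by decide +kernel))
noncomputable def rh3ca17fec9c4ea0e6 : CRef := CRef.mk (Pat.mk 0xc00000018000000080000000800000000 0x80000000f000000180000000f0000003c00000014 6 6) 0 0 (step_sound _ 129 [(rhb739f4f82bb681b4.shift 0 3), rhf1a8127573b72831] (by decide +kernel))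
noncomputable def rh7d9c36001209b767 : CRef := CRef.mk (Pat.mk 0xf00000000000000000000000000000000 0xc0000000c0000001c0000000f0000001c0000001c0000001c00000014 6 5) 0 0 (step_sound _ 163 [(rh33e738c4ed385b9f.shift 0 4), rh69def47215bd3c64] (by decide +kernel))
noncomputable def rhc855e125f4247125 : CRef := CRef.mk (Pat.mk 0x40000000e000000000000000000000000 0x10000000100000003c0000001f000000780000000800000008 6 7) 0 0 (step_sound _ 132 [(rh6870ff15d3813450.shift 1 3), (rh7dcd5319f4f71bec.shift 0 3), rh834ef1c974e4840e, rha3f610973156b90c] (by decide +kernel))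
noncomputable def rh0464aeab4253e3d7 : CRef := CRef.mk (Pat.mk 0x40000000c0000000600000002000000000000000000000000 0xa0000000f0000003c0000000e0000000e0000000c0000000c00000004 6 6) 0 0 (step_sound _ 164 [(rh18965a982d73c794.shift 1 4), rh3b59f219eab5d15b] (by decide +kernel))
noncomputable def rh0e6c39f9ca802a80 : CRef := CRef.mk (Pat.mk 0x800000008000000080000001c0000000000000000 0x100000007c0000001f0000000f0000003c0000000800000008 6 7) 0 0 (step_sound _ 164 [(rh2f68792b6b779e96.shift 3 2), rh73bc67ea0effc4e1] (by decide +kernel))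
noncomputable def rhabbdb93cfffa1a59 : CRef := CRef.mk (Pat.mk 0x1000000020000000200000002000000000000000000000000 0x20000000300000007000000060000000600000006000000060000000600000004 6 3) 0 0 (step_sound _ 193 [(rh50fbb5868c909700.shift 0 3), (rhaa3bece996244111.shift 1 0)] (by decide +kernel))
noncomputable def rh8b395df8357265de : CRef := CRef.mk (Pat.mk 0x800000008000000080000000000000010 0x140000003c0000000f000000080000001800000018 6 6) 0 0 (step_sound _ 35 [rh5ee4dc8825dcefa0, (rhd3458b32566d63f7.shift 3 0)] (by decide +kernel))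
noncomputable def rh205762fbbca69b6b : CRef := CRef.mk (Pat.mk 0x8000000180000001800000004 0xe0000007f0000007f00000006 6 7) 0 0 (step_sound _ 66 [(rh1ea72b5528b1e586.shift 1 0), (rh4b87214d11111f94.shift 0 1), (rhad5d8fc3675c15dd.shift 0 1)] (by decide +kernel))
noncomputable def rhee7f16d6ff2c9a6b : CRef := CRef.mk (Pat.mk 0x100000003000000028 0x1f000000fe000001ef 6 9) 0 0 (step_sound _ 35 [(rh8ee80cc30e93a344.shift 2 0), (rha83d0a1d851c6a27.shift 2 0), rhc92c11e8da6c894f] (by decide +kernel))
noncomputable def rhe6a7eb13f5477f2e : CRef := CRef.mk (Pat.mk 0x1c000000020000000800000000 0x380000001f000000330000001800000018 6 6) 0 0 (step_sound _ 97 [rh5418bb250389bc85, (rheb0810cc63b001d8.shift 0 2)] (by decide +kernel))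
noncomputable def rh850921dd4c2d3f73 : CRef := CRef.mk (Pat.mk 0x2000000030000000180000001000000000 0x18000000780000003f0000007e0000007000000020 6 7) 0 0 (step_sound _ 66 [(rh53b3c253cb0c65f4.shift 1 2), rha3ead4047ee2ca4c] (by decide +kernel))
noncomputable def rh3289431b7e3e9be3 : CRef := CRef.mk (Pat.mk 0x10000000100000001c000000180000000000000000 0x800000018000000180000001f0000001f0000003000000020 6 6) 0 0 (step_sound _ 163 [(rh50fbb5868c909700.shift 3 2), rh8baa809f2ab624a9] (by decide +kernel))
noncomputable def rh3b84afeb930d0df3 : CRef := CRef.mk (Pat.mk 0x10000000040000000c0000000800000000 0xe0000003e000000070000003c0000000f00000002 6 6) 0 0 (step_sound _ 130 [(rh2145e1d24b96a57e.shift 2 1), rhef9eed06fc1b6e36] (by decide +kernel))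
noncomputable def rhe8ad5a93a0309b83 : CRef := CRef.mk (Pat.mk 0x200000002000000018000000700000000000000000 0x3000000030000000f80000007f0000004f00000008 6 8) 0 0 (step_sound _ 67 [(rh031a926e4a883687.shift 2 0), (rh392d2b106c34bd6c.shift 2 1), (rh3e9601eff8aa538d.shift 0 1)] (by decide +kernel))
noncomputable def rhfd43eec7d76f8475 : CRef := CRef.mk (Pat.mk 0x10000000100000000e000000180000000000000000 0x28000000fa0000001f000000fe0000001f0000001400000004 6 8) 0 0 (step_sound _ 100 [rh32af6e600e16eab8, (rh412d230494194d0a.shift 0 2), (rhe1bcd80b5c7d4f4c.shift 2 1)] (by decide +kernel))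
noncomputable def rh2ddf781dd310580d : CRef := CRef.mk (Pat.mk 0x80000001a0000000600000004 0x60000001f0000001b0000001e0000000e 6 5) 0 0 (step_sound _ 97 [(rh2145e1d24b96a57e.shift 1 0), rh6184e64a20a9676d] (by decide +kernel))
noncomputable def rh1516e5df78470992 : CRef := CRef.mk (Pat.mk 0xa000000180000000600000004 0x60000001f0000001b0000001e0000000e 6 5) 0 0 (step_sound _ 98 [rh39466dce28815332, (rhb739f4f82bb681b4.shift 0 2)] (by decide +kernel))
noncomputable def rhd48d3474c3efbec7 : CRef := CRef.mk (Pat.mk 0x14000000300000000c0000000800000000 0x20000001e0000003c0000003c0000000f00000002 6 6) 0 0 (step_sound _ 129 [(rhc10214bf3fe8094a.shift 1 3), rhe3f3f779bbef6571] (by decide +kernel))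
noncomputable def rh8c4efdf4ea1f1112 : CRef := CRef.mk (Pat.mk 0xa000000180000000600000004 0x10000000330000001e0000001e0000000e0000000c 6 6) 0 0 (step_sound _ 129 [rhb293aee5043df599, (rhff0f29cb645b05f7.shift 1 0)] (by decide +kernel))
noncomputable def rhd6f0549f69d57f34 : CRef := CRef.mk (Pat.mk 0xa00000018000000060000000400000000 0x20000000b0000001f0000003e0000003400000010 6 6) 0 0 (step_sound _ 97 [(rh2145e1d24b96a57e.shift 1 1), rhb7df83653bb2af37] (by decide +kernel))
noncomputable def rh488517a69669594a : CRef := CRef.mk (Pat.mk 0x80000000c000000070000000000000000 0x400000006000000060000000e0000000e000000070000001e0000000e 6 5) 0 0 (step_sound _ 34 [rh4361e8e9aa9e1717, (rh71222050f2c63a3a.shift 2 0)] (by decide +kernel))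
noncomputable def rh5979d11abc7fcc1d : CRef := CRef.mk (Pat.mk 0x10000000180000000c0000000000000000 0x800000018000000180000001f0000003c00000018 6 6) 0 0 (step_sound _ 35 [rh319ab92dc6f1177b, (rh71222050f2c63a3a.shift 3 0)] (by decide +kernel))
noncomputable def rh6d3bea7bb509988e : CRef := CRef.mk (Pat.mk 0x100000007000000018000000080000000000000000 0x3e0000007f000000f8000000cc0000004000000040 6 8) 0 0 (step_sound _ 162 [(rh075211c3608a5a57.shift 1 4), (rh4b858afe2cb38247.shift 2 4), rh999a9d636a1a4f7c, (rhbb5455d2a9879671.shift 1 3), (rhc30259bd62f0e380.shift 1 4)] (by decide +kernel))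
noncomputable def rhbf5dfb107c4349ad : CRef := CRef.mk (Pat.mk 0x10000000300000001c0000000800000000 0xc0000001e0000003e0000007c0000000f00000006 6 7) 0 0 (step_sound _ 34 [(rh2612b4f73ba7c3b3.shift 1 1), rh49f2159f6768bc7c, (rha03971277375fc15.shift 1 1)] (by decide +kernel))
noncomputable def rh33396d67ec906c52 : CRef := CRef.mk (Pat.mk 0x8000000080000000c0000000800000000 0x1000000018000000380000001f0000003800000018 6 6) 0 0 (step_sound _ 36 [(rh55afc6a59410cf00.shift 3 0), rhd1bfc204d7a681f4] (by decide +kernel))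
noncomputable def rh39a70e97df2c9459 : CRef := CRef.mk (Pat.mk 0x400000008000000080000000c0000000000000000 0x140000001c000000080000001f0000007800000010 6 7) 0 0 (step_sound _ 35 [rh31b8fdce777d18e4, (rhffd04209dc8ea796.shift 2 1)] (by decide +kernel))
noncomputable def rh602b942fbd069b6f : CRef := CRef.mk (Pat.mk 0x400000004000000060000000380000000000000000 0x80000000c8000000cc0000007f00000078000000d000000010 6 8) 0 0 (step_sound _ 99 [(rh9458e878ee940312.shift 2 0), (rhaa73d67be2de7cd7.shift 2 1), (rhde64d14c1aaebd33.shift 2 0), (rhf60aa8aede119d3b.shift 0 2)] (by decide +kernel))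
noncomputable def rh12e8f825e3f73973 : CRef := CRef.mk (Pat.mk 0x2000000020000000200000001000000000000000000000000 0x100000007000000070000000600000003000000070000000600000004 6 3) 0 0 (step_sound _ 97 [rh6095a226209a05e8, (rh932754581e0f4330.shift 0 2)] (by decide +kernel))
noncomputable def rhfc80a6a15e1d3006 : CRef := CRef.mk (Pat.mk 0x100000000000000008000000080000000800000000 0x1800000018000000080000000f0000003c00000014 6 6) 0 0 (step_sound _ 131 [rh161c003cd166b8ec, (rhbaefcd01e0a8bca3.shift 3 1)] (by decide +kernel))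
noncomputable def rhc8ce8e2e979853f8 : CRef := CRef.mk (Pat.mk 0x8000000080000000c0000000c00000000 0x60000000f0000003f0000007f0000000f00000002 6 7) 0 0 (step_sound _ 130 [rh06b0087d92eaf4aa, (rh50fbb5868c909700.shift 2 1)] (by decide +kernel))
noncomputable def rhddac4546e260ba2a : CRef := CRef.mk (Pat.mk 0x1e0000000000000000 0x1800000018000000380000001f0000003800000018 6 6) 0 0 (step_sound _ 36 [rh0ecdd53d02b05e9f, (rhe25b0a99195a5d59.shift 1 1)] (by decide +kernel))
noncomputable def rh154c33e8b01a924f : CRef := CRef.mk (Pat.mk 0x7800000010 0xce0000007e00000037 6 8) 0 0 (step_sound _ 70 [(rh33e738c4ed385b9f.shift 3 1), rhc7e8e87a0b43237b] (by decide +kernel))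
noncomputable def rhde20a72bb3cc5a9b : CRef := CRef.mk (Pat.mk 0x80000001e00000000 0xfc000000fe000001c3 6 9) 0 0 (step_sound _ 1 [rheb0810cc63b001d8, (rhfe23b61bbd853707.shift 1 0)] (by decide +kernel))
noncomputable def rh98c7f86ac3daf90c : CRef := CRef.mk (Pat.mk 0x2000000038000000000000000000000000 0x4000000370000007e0000000f0000000800000008 6 7) 0 0 (step_sound _ 98 [(rh21d582c147e7e118.shift 0 2), (rh7fb660bc21ce4329.shift 0 3), (rhe6f3c981f45ee7b2.shift 1 0)] (by decide +kernel))
noncomputable def rh1a3360bb5db66120 : CRef := CRef.mk (Pat.mk 0x1800000018000000000000000000000000 0xf000000ff000000fe000000060000000400000004 6 8) 0 0 (step_sound _ 133 [(rh2612b4f73ba7c3b3.shift 2 3), (rhbba720cee4fbc066.shift 1 3), rhd625aee22ad6412d] (by decide +kernel))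
noncomputable def rh0017da9c9dd132d7 : CRef := CRef.mk (Pat.mk 0x20000000200000002000000020000000000000000 0x200000002000000030000000300000007000000070000000600000002 6 3) 0 0 (step_sound _ 66 [rh2fc30f3bf4bdbaa4, (rh55afc6a59410cf00.shift 1 1)] (by decide +kernel))
noncomputable def rh352a913a321e2cc2 : CRef := CRef.mk (Pat.mk 0x2000000080000000f000000000000000000000000 0x100000001c0000001f0000000c0000000f0000001c0000000c00000004 6 5) 0 0 (step_sound _ 67 [rh08a2f3b9ab8bb748, (rhe25b0a99195a5d59.shift 0 2)] (by decide +kernel))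
noncomputable def rh63fa4281a1cbee82 : CRef := CRef.mk (Pat.mk 0x4000000080000000f00000000000000000000000000000000 0x40000000c0000000f000000180000001c0000001c00000014 6 5) 0 0 (step_sound _ 99 [(rhbba7d23481996066.shift 2 0), (rhe25b0a99195a5d59.shift 0 3)] (by decide +kernel))
noncomputable def rhbc460d9c01f3bb54 : CRef := CRef.mk (Pat.mk 0x2000000000000000f000000080000000000000000 0x100000001c0000001f0000001c0000000f0000000c0000000c00000004 6 5) 0 0 (step_sound _ 131 [rh08a2f3b9ab8bb748, (rh33e738c4ed385b9f.shift 0 3)] (by decide +kernel))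
noncomputable def rh7c4b977be6af0969 : CRef := CRef.mk (Pat.mk 0x4000000080000000e000000030000000000000000 0x140000001e000000780000000f0000001b0000001e00000014 6 7) 0 0 (step_sound _ 67 [rhb766730d84069b16, (rhba99d3a9a6f13315.shift 0 1), (rhbec796c3ea7a32e6.shift 1 1)] (by decide +kernel))
noncomputable def rhaa0c04b34da34d8d : CRef := CRef.mk (Pat.mk 0x2000000040000000700000001800000000 0x6000000060000000470000007f000000f8000000a0 6 8) 0 0 (step_sound _ 38 [(rh0bcc12a99d41656d.shift 3 0), (rha52e0141694f1c7d.shift 5 0), (rhe81e1775382c4916.shift 0 1)] (by decide +kernel))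
noncomputable def rhcc781dab552a136b : CRef := CRef.mk (Pat.mk 0x20000000400000006000000000000000000000000 0xa0000000e0000000e0000000f0000003c00000006000000060000000600000002 6 6) 0 0 (step_sound _ 162 [(rh281c6819542c66e6.shift 1 0), (rh32431e66bbf434a4.shift 1 2), (rhc86e3ab3c2b165e9.shift 0 1)] (by decide +kernel))
noncomputable def rh85b7f1f6a84b98e9 : CRef := CRef.mk (Pat.mk 0x18000000100000001000000010 0x1e7000000ff000000fc0000001000000010 6 9) 0 0 (step_sound _ 101 [(rh2f68792b6b779e96.shift 4 0), (rh38c5f33090b49f61.shift 0 2)] (by decide +kernel))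
noncomputable def rh726a87d42291dd46 : CRef := CRef.mk (Pat.mk 0x100000002000000020000000200000000 0x400000006000000070000000300000006000000070000000700000001 6 3) 0 0 (step_sound _ 129 [(rh50fbb5868c909700.shift 0 1), rh6c8796be1c96b30a] (by decide +kernel))
noncomputable def rhb6d0d42c85d4d668 : CRef := CRef.mk (Pat.mk 0x38000000100000000000000000 0x400000007000000ff000000fe0000000800000008 6 8) 0 0 (step_sound _ 67 [(rh1c81dd0868462a7a.shift 1 0), (rh444d7d405a119a95.shift 0 2), (rh4dc133ee0ba1420a.shift 1 2)] (by decide +kernel))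
noncomputable def rh483b239eb7faed8c : CRef := CRef.mk (Pat.mk 0x800000038000000080000000000000000 0x180000001800000018000000380000001f0000000c00000004 6 6) 0 0 (step_sound _ 164 [rh222d888fd60cc765, (rh5fcbac5b57173fc5.shift 3 1), (rh612573739e19f339.shift 1 1), (rh93edfa1f77289b62.shift 3 2)] (by decide +kernel))
noncomputable def rh2c94f9db7e7d3608 : CRef := CRef.mk (Pat.mk 0x1000000070000000000000002000000020 0xfc0000007f000000ce0000006000000020 6 8) 0 0 (step_sound _ 99 [(rh1fbc9fee05401eba.shift 3 0), (rh7ea7fc06b99fa11c.shift 0 2)] (by decide +kernel))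
noncomputable def rh276e20b7551414b1 : CRef := CRef.mk (Pat.mk 0x2000000060000001c000000040000000000000000 0xc0000001f0000001e0000001c0000001f0000001a00000018 6 5) 0 0 (step_sound _ 67 [(rh5096cc29873d8ca4.shift 0 1), rh95d9fb24a3f07dee, (rhd188899883dd9128.shift 0 1)] (by decide +kernel))
noncomputable def rh06898dcf47857b35 : CRef := CRef.mk (Pat.mk 0x40000000e000000180000000800000000 0x10000000360000003e0000001b0000000f00000006 6 6) 0 0 (step_sound _ 100 [rh049e3c24586be4e8, (rh5421160f8e9bcf07.shift 1 1)] (by decide +kernel))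
noncomputable def rh29801699b1b571ef : CRef := CRef.mk (Pat.mk 0x100000001000000030000000200000002000000000 0x50000000dc000000fc000001ef0000007c00000008 6 9) 0 0 (step_sound _ 99 [(rh328e394105afadd4.shift 2 0), rh596def3aae05c2e3, (rh8ee80cc30e93a344.shift 2 2), (rhcced840e0475f351.shift 2 1)] (by decide +kernel))
noncomputable def rh09607f52911ad24d : CRef := CRef.mk (Pat.mk 0x600000006000000000000000400000000 0x600000006000000060000003c0000000f0000000a 6 6) 0 0 (step_sound _ 66 [(rh50fbb5868c909700.shift 1 1), rh957e3bb4c843b184] (by decide +kernel))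
noncomputable def rhec804f89f0b78de3 : CRef := CRef.mk (Pat.mk 0x18000000180000000000000000 0x10000000100000007e000000ff0000006700000020 6 8) 0 0 (step_sound _ 66 [(rh5f05078d5830ba1b.shift 1 0), (rhab2ad169e49f9c5e.shift 0 2), (rhd1f7c2d511dd814f.shift 0 1)] (by decide +kernel))
noncomputable def rhd28fc7115bf8ca26 : CRef := CRef.mk (Pat.mk 0x60000001e000000000000000800000000 0x1800000018000000380000003e0000001f000000100000001800000018 6 6) 0 0 (step_sound _ 132 [rh03f2f8f9607e7ba7, (rh33e738c4ed385b9f.shift 1 3)] (by decide +kernel))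
noncomputable def rh9220d7ec29ca66df : CRef := CRef.mk (Pat.mk 0x1e00000010000000040000000000000000 0x18000000180000001f000000180000001e0000003c00000038 6 6) 0 0 (step_sound _ 99 [(rh795777f307eda92b.shift 1 0), (rhb739f4f82bb681b4.shift 0 3)] (by decide +kernel))
noncomputable def rhc9413ff10ac29e67 : CRef := CRef.mk (Pat.mk 0x40000001e00000010000000080000000000000000 0x340000001e000000130000003e0000003a00000020 6 6) 0 0 (step_sound _ 164 [(rh33e738c4ed385b9f.shift 1 4), rhd5b99634dfe2752b] (by decide +kernel))
noncomputable def rhda951f2cfb8ccfba : CRef := CRef.mk (Pat.mk 0x40000001c000000000000000800000000 0x4000000040000003e0000001f000000330000001a0000001a 6 6) 0 0 (step_sound _ 97 [rh50e736ca27d8bdbd, rh5418bb250389bc85] (by decide +kernel))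
noncomputable def rh81af83aecffad337 : CRef := CRef.mk (Pat.mk 0x40000001c00000000 0x3e0000007f00000070 6 7) 0 0 (step_sound _ 37 [(rh3244c3cc8379b070.shift 1 1), rhedb4d608a3c720b0] (by decide +kernel))
noncomputable def rh0ab100d90ace68fb : CRef := CRef.mk (Pat.mk 0x400000004000000040000000000000000 0xa0000000e0000003e0000000f000000040000000c0000000c00000008 6 6) 0 0 (step_sound _ 162 [(rh6c59ce14113da07f.shift 2 0), (rh8ff3dde5b1c639e0.shift 1 0), (rhc85cc95794737cf7.shift 1 2), (rhd93e4c9bb2648213.shift 0 1)] (by decide +kernel))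
noncomputable def rhba59ce4edc3cac8e : CRef := CRef.mk (Pat.mk 0x1c0000000800000008 0x400000004000000070000007e0000000f0000000a 6 7) 0 0 (step_sound _ 98 [(rh9f93e2b24091a43d.shift 1 1), (rhe072fffdd2fccf38.shift 2 0), rhe440281e1f51eec9, (rhede1dfc55ca9bb6f.shift 1 0)] (by decide +kernel))
noncomputable def rhb36d22da46ae96ae : CRef := CRef.mk (Pat.mk 0xc0000000e000000080000000000000000 0x80000000c0000000e0000003c0000000f0000000e 6 6) 0 0 (step_sound _ 35 [rh62777f1585c1177a, (rh7b1f1fb55310c477.shift 2 0)] (by decide +kernel))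
noncomputable def rh12821fbf0b16b36c : CRef := CRef.mk (Pat.mk 0x1c0000000c000000080000000800000000 0x30000007e0000007c0000000c0000000c00000004 6 7) 0 0 (step_sound _ 34 [(rh2f9cba0992b64cfb.shift 0 1), (rh932754581e0f4330.shift 2 0)] (by decide +kernel))
noncomputable def rh756148500335bd23 : CRef := CRef.mk (Pat.mk 0x80000000400000004000000040000000000000000 0xc0000000c000000040000003c0000000f0000000a 6 6) 0 0 (step_sound _ 34 [rh7133a7a78d762f91, (rhbaefcd01e0a8bca3.shift 2 1)] (by decide +kernel))
noncomputable def rh959aa807e2390268 : CRef := CRef.mk (Pat.mk 0x28000000080000000800000018 0x28000000280000006e0000007f00000078 6 7) 0 0 (step_sound _ 36 [rh184d66895af61295, (rh2145e1d24b96a57e.shift 3 0)] (by decide +kernel))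
noncomputable def rh6507a01f811cf08a : CRef := CRef.mk (Pat.mk 0x1000000030000000e0000000200000000 0x2000000060000000e0000001f0000001b0000000f0000000600000004 6 5) 0 0 (step_sound _ 129 [(rh028809442a7beef4.shift 0 1), rh21040db9a7b64265, (rhd4b4beefcd67f51e.shift 1 0)] (by decide +kernel))
noncomputable def rh0dced36299326f9f : CRef := CRef.mk (Pat.mk 0x40000000400000004000000000000000000000000 0x80000000a0000003e0000000f0000000e000000040000000c0000000c00000008 6 6) 0 0 (step_sound _ 195 [(rh23d0e80c801fc3e0.shift 0 2), (rh47e721e0117b8d5f.shift 1 0), (rh5890386c1f942fa1.shift 2 3)] (by decide +kernel))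
noncomputable def rh61ef610ed3f62c42 : CRef := CRef.mk (Pat.mk 0x18000000080000000800000000 0xc0000001f000000780000000f0000003c00000014 6 7) 0 0 (step_sound _ 131 [(rhdb019b0e908810fb.shift 0 1), rhf0d38cf1e7116183] (by decide +kernel))
noncomputable def rhe7ca52c84c68d387 : CRef := CRef.mk (Pat.mk 0x6000000020000000200000002000000000000000000000000 0x200000006000000060000000300000003000000070000000600000006 6 3) 0 0 (step_sound _ 96 [rh76ef3887783defbe, (rh932754581e0f4330.shift 0 2)] (by decide +kernel))
noncomputable def rh4cd47bb1a9759ffb : CRef := CRef.mk (Pat.mk 0x1800000008000000080000001c00000000 0x20000000780000003e0000007f0000007e00000060 6 7) 0 0 (step_sound _ 66 [(rh77905f480ce68f46.shift 1 0), (rhcaebf3de2cb6cf33.shift 0 1), (rhe2b63c00a3d7bb73.shift 0 1)] (by decide +kernel))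
noncomputable def rh0358f91b0601e05b : CRef := CRef.mk (Pat.mk 0x10000000180000000c00000008 0x20000000300000001f0000007f0000007e 6 7) 0 0 (step_sound _ 33 [rh1a7fb8cbc9114e79, (rh53b3c253cb0c65f4.shift 0 1)] (by decide +kernel))
noncomputable def rh5b0a531e72397977 : CRef := CRef.mk (Pat.mk 0x40000000e000000030000000200000000 0x180000003c0000000e0000000f0000001f0000007c 6 7) 0 0 (step_sound _ 35 [rh360528347e85c5eb, rh56d924f8388e4bc6, rh7e05ddd45771b630, rhb7fba35336b57849, rhdb32e767b64bc2a1, rhf324027211bf676f] (by decide +kernel))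
noncomputable def rh82234ba7f30a9e55 : CRef := CRef.mk (Pat.mk 0x20000000200000002000000000000000000000000 0x50000000700000007000000070000000600000006000000070000000300000001 6 3) 0 0 (step_sound _ 192 [(rh114f4abf4ea101c9.shift 0 2), rh95c36413021fa127, (rhf3c18d8cfe33c40d.shift 0 2)] (by decide +kernel))
noncomputable def rh3b9107770fe468a6 : CRef := CRef.mk (Pat.mk 0x2000000020000000300000001000000010 0x80000007c000001ef000000fc000000dc00000050 6 9) 0 0 (step_sound _ 67 [(rh1a3d54f4ee790517.shift 2 1), (rh2221efc44f1b9a1f.shift 2 0), (rha11dfd15f08f96e3.shift 2 2), rhb98e183a12ed98e4, (rheb15cf8ac6b18c5f.shift 2 0)] (by decide +kernel))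
noncomputable def rh2bdf10fa5637cbaa : CRef := CRef.mk (Pat.mk 0xc0000000c000000080000000800000000 0x80000000f0000003f000000380000001800000010 6 6) 0 0 (step_sound _ 36 [(rh55afc6a59410cf00.shift 3 0), (rhc29f09fa821c16b1.shift 0 1)] (by decide +kernel))
noncomputable def rhf89779a77e704f4f : CRef := CRef.mk (Pat.mk 0x2000000038000000000000001000000010 0x3f000001fe000001ce0000001800000010 6 9) 0 0 (step_sound _ 102 [(rh0d6116b8cc288d7d.shift 2 0), (rh1f9701c4cf497514.shift 0 2), (rh6a5aad1075fb7119.shift 3 2)] (by decide +kernel))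
noncomputable def rh78d6370e8a004ac4 : CRef := CRef.mk (Pat.mk 0x100000001e000000000000000800000008 0x2000000030000001f0000003f000000040000000c00000008 6 6) 0 0 (step_sound _ 129 [(rh3244c3cc8379b070.shift 0 3), rhd4398bbf2f753983] (by decide +kernel))
noncomputable def rh1947cbcd13c208ab : CRef := CRef.mk (Pat.mk 0x4000000040000000400000004000000060000000000000000 0x400000004000000060000000f0000003c0000000e0000000400000004 6 6) 0 0 (step_sound _ 99 [rh1ed17d822df4ce82, (rh55afc6a59410cf00.shift 2 2)] (by decide +kernel))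
noncomputable def rhd1d559642463d1bf : CRef := CRef.mk (Pat.mk 0x400000002000000020000000200000003 0x1000000070000000700000002000000060000001e00000007 6 5) 0 0 (step_sound _ 129 [(rh2f68792b6b779e96.shift 1 1), rhf151867da92813fe] (by decide +kernel))
noncomputable def rhbed1332eabf14bad : CRef := CRef.mk (Pat.mk 0x10000000f0000000000000004 0x60000000700000007000000030000001f0000000600000006 6 5) 0 0 (step_sound _ 97 [rh9c619a461b43d31f, (rhf48373e13d2bc128.shift 0 2)] (by decide +kernel))
noncomputable def rhc3216bf9e7f2b989 : CRef := CRef.mk (Pat.mk 0x300000001c000000040000000800000000 0xa0000003f000001fc000001c40000000c0000000c 6 9) 0 0 (step_sound _ 130 [rh1e3cd89691e9b42e, (rh4a6d47b9fea97fd6.shift 1 2), (rh8f4050c06a082165.shift 2 0), (rhb80a6ca5eab6f806.shift 1 0)] (by decide +kernel))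
noncomputable def rhde02dbe04027205f : CRef := CRef.mk (Pat.mk 0x380000000800000010000000000000000000000000 0x1c0000001e000000380000000f0000007c0000001e0000001400000010 6 7) 0 0 (step_sound _ 99 [(rh08641332ce838532.shift 1 2), (rh25fa3af2cfc2e502.shift 1 1), (rh70e33bfdf511e144.shift 3 0), (rhe8f9550119ab603c.shift 3 1), (rhf19240af8a218f1b.shift 0 2)] (by decide +kernel))
noncomputable def rhab93446749d51e71 : CRef := CRef.mk (Pat.mk 0x800000007000000040000000400000000 0x60000001e000000070000003c0000000f0000000a 6 6) 0 0 (step_sound _ 130 [(rh50457521e58be46d.shift 0 1), rh7133a7a78d762f91] (by decide +kernel))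
noncomputable def rh2dd9bb9bb9bdc95f : CRef := CRef.mk (Pat.mk 0x200000001000000070000000180000000000000000 0x80000002c000000ff0000007f000000f8000000c000000080 6 8) 0 0 (step_sound _ 99 [(rh04adde65229dd8ca.shift 0 2), (rh79a90556cd67da8d.shift 3 0), (rh855cb42074aae6cc.shift 2 2)] (by decide +kernel))
noncomputable def rhb968b19b6969bddd : CRef := CRef.mk (Pat.mk 0x1000000008000000080000000800000000 0x140000003c0000000f000000080000000c0000000c 6 6) 0 0 (step_sound _ 131 [(rh2f68792b6b779e96.shift 3 1), rh57a97e0228fc1d6a] (by decide +kernel))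
noncomputable def rh7b4d65256d7225ec : CRef := CRef.mk (Pat.mk 0xc0000000c000000080000000800000000 0x20000000f0000007f0000003f0000000f00000006 6 7) 0 0 (step_sound _ 34 [rh57310e96556fe28e, (rh932754581e0f4330.shift 2 0)] (by decide +kernel))
noncomputable def rh363cab4f10eaa2ab : CRef := CRef.mk (Pat.mk 0x1000000000000000380000000800000000 0x3400000034000000660000003f0000007f00000008 6 7) 0 0 (step_sound _ 66 [(rh5e0bd0e5e80a22dc.shift 1 1), (rh608d28c51ec1c5db.shift 1 0), (rhed95296174ee961f.shift 0 1)] (by decide +kernel))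
noncomputable def rheea87a15177a5006 : CRef := CRef.mk (Pat.mk 0x2000000020000000400000004 0x400000006000000060000000200000003000000070000000700000004 6 3) 0 0 (step_sound _ 129 [(rh33e98d0e97205a3e.shift 0 1), (rhbe0e43a3bc50a43f.shift 1 0)] (by decide +kernel))
noncomputable def rhc8f7b4ab1292510d : CRef := CRef.mk (Pat.mk 0x800000008000000180000001000000010 0x200000007c000001ef0000007c0000003600000014 6 9) 0 0 (step_sound _ 69 [rh297fae84acdfca38, (rh5b2d970c17910f02.shift 1 0), (rha9fbfd4bb8cf890b.shift 0 2), (rhce0f13be68529444.shift 2 0)] (by decide +kernel))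
noncomputable def rh57e48b32cc7a33e8 : CRef := CRef.mk (Pat.mk 0x3800000010 0x1c7000001fe000003f7 6 10) 0 0 (step_sound _ 34 [rh592c7139d2c44767, (rha03f6e28ea70fc7d.shift 1 0), (rhc1c18abef92d2a14.shift 2 0)] (by decide +kernel))
noncomputable def rhc87aa7ca8966ecde : CRef := CRef.mk (Pat.mk 0x1000000000000000200000002000000020000000000000000 0x5000000070000000600000002000000030000000700000005 6 3) 0 0 (step_sound _ 161 [rh3ab931031846c706, (rhffd04209dc8ea796.shift 0 2)] (by decide +kernel))
noncomputable def rh4148b1d359982a53 : CRef := CRef.mk (Pat.mk 0x2000000020000000600000002000000000000000000000000 0x200000006000000060000001f000000070000000300000002 6 5) 0 0 (step_sound _ 98 [rh42870e86c19153e5, (rh55afc6a59410cf00.shift 1 2)] (by decide +kernel))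
noncomputable def rh3c1279169b8ece0a : CRef := CRef.mk (Pat.mk 0x400000004000000040000000c00000000 0xc0000000c0000000c0000000f0000003c00000014 6 6) 0 0 (step_sound _ 131 [(rh2f68792b6b779e96.shift 2 1), rh59056920fcba8e3d] (by decide +kernel))
noncomputable def rhe11b6bdb18675230 : CRef := CRef.mk (Pat.mk 0x2000000020000000600000004000000000000000000000000 0x200000006000000060000001f000000070000000300000002 6 5) 0 0 (step_sound _ 97 [rh42870e86c19153e5, (rh55afc6a59410cf00.shift 1 2)] (by decide +kernel))
noncomputable def rh2a987fce977f0b71 : CRef := CRef.mk (Pat.mk 0x800000038000000000000001000000010 0x1f8000000ff000000e70000003000000010 6 9) 0 0 (step_sound _ 98 [(rh1efbca428b37b99e.shift 0 2), (rh1fbc9fee05401eba.shift 2 0), (rhf5fa5e48e0784de2.shift 2 2)] (by decide +kernel))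
noncomputable def rh235a3cacdffd3041 : CRef := CRef.mk (Pat.mk 0x1000000070000000000000002000000020 0xfc0000007f000000ce0000006000000020 6 8) 0 0 (step_sound _ 99 [(rh1fbc9fee05401eba.shift 3 0), (rh41f615f62bd9da0d.shift 2 0), (rh7ea7fc06b99fa11c.shift 0 2)] (by decide +kernel))
noncomputable def rh6dc837c3a381c58b : CRef := CRef.mk (Pat.mk 0x40000001e00000000 0xec0000007e00000073 6 8) 0 0 (step_sound _ 1 [rheb0810cc63b001d8, (rhf5fa5e48e0784de2.shift 1 0)] (by decide +kernel))
noncomputable def rh3417a1fc43b9a869 : CRef := CRef.mk (Pat.mk 0x400000008000000080000000800000000 0x140000001f00000038000000080000000c0000000c 6 6) 0 0 (step_sound _ 131 [(rh50fbb5868c909700.shift 2 1), rhc6512897c544e487] (by decide +kernel))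
noncomputable def rhf5623692ae6e13c5 : CRef := CRef.mk (Pat.mk 0x1000000010000000380000000000000000 0xc0000000c0000001c0000001e0000007c0000000f0000000c 6 7) 0 0 (step_sound _ 99 [rh80027ce1936d9ccb, rhc42aea36b73d40d2, (rhe2b63c00a3d7bb73.shift 1 2)] (by decide +kernel))
noncomputable def rhad4cc331c26de457 : CRef := CRef.mk (Pat.mk 0x8000000080000001c000000000000000000000000 0x40000000c0000000e0000003c0000000f0000000e00000004 6 6) 0 0 (step_sound _ 66 [(rh42548283029e2a39.shift 2 0), (rh4905ac576375a3ff.shift 1 1), (rhc9fe0bd4321b71a4.shift 0 1)] (by decide +kernel))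
noncomputable def rh922cbdf2841cabd5 : CRef := CRef.mk (Pat.mk 0x1800000070000000100000000000000000 0x20000000380000007f000000fe0000001c0000001c 6 8) 0 0 (step_sound _ 99 [(rh2a9fd0ace8c8ecc6.shift 1 0), (rh8cd7ffe18900bf90.shift 2 0), rhfb54e35e573edc89] (by decide +kernel))
noncomputable def rh30a92e4a07cec64b : CRef := CRef.mk (Pat.mk 0x200000000000000060000001c000000040000000000000000 0x200000002000000060000001e0000003f0000000300000003 6 6) 0 0 (step_sound _ 97 [(rh6f1cbe15c631ee70.shift 1 2), rh8cd7ffe18900bf90] (by decide +kernel))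
noncomputable def rhc88727465973ed24 : CRef := CRef.mk (Pat.mk 0x4000000000000000e000000180000000000000000 0x600000016000000330000001e0000001f0000000c00000008 6 6) 0 0 (step_sound _ 100 [(rh34b1188e635efc8d.shift 1 0), (rha700292a805d5a54.shift 0 1)] (by decide +kernel))
noncomputable def rh2ef2a0740bf35591 : CRef := CRef.mk (Pat.mk 0x4000000060000001c0000000000000000 0xc0000000c0000000c0000000e0000001e0000003700000002 6 6) 0 0 (step_sound _ 65 [(rh1e309b005ffa1b36.shift 1 0), (rh715db9cb16bb489c.shift 1 1), rh9c40a739b57d6d20] (by decide +kernel))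
noncomputable def rhb5cab6c238dd9c38 : CRef := CRef.mk (Pat.mk 0x1000000010000000100000003800000000 0x200000003000000010000003be000001fe000001c7 6 10) 0 0 (step_sound _ 133 [(rh2f68792b6b779e96.shift 4 1), rhe97a37752cb3e3e2] (by decide +kernel))
noncomputable def rhe7550d3725222c88 : CRef := CRef.mk (Pat.mk 0x800000008000000080000000800000000 0xc0000000c000000080000000f0000003c00000014 6 6) 0 0 (step_sound _ 130 [(rh50fbb5868c909700.shift 2 1), rh641b5241be04eec6] (by decide +kernel))
noncomputable def rh4529e7bea977502c : CRef := CRef.mk (Pat.mk 0x400000002000000020000000200000000 0x70000000700000002000000070000000700000005 6 3) 0 0 (step_sound _ 129 [(rh2f68792b6b779e96.shift 1 1), rh3ae59fc487f1f27f] (by decide +kernel))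
noncomputable def rha2469df2d0a3b945 : CRef := CRef.mk (Pat.mk 0x1c00000008 0xe0000000ff0000007f 6 8) 0 0 (step_sound _ 37 [(rhaf9f2efc81a8312b.shift 1 0), (rhd542320a7a4dc2c4.shift 1 0), rhed95296174ee961f] (by decide +kernel))
noncomputable def rh82cdca190f653e88 : CRef := CRef.mk (Pat.mk 0x10000000180000000e000000080000000000000000 0x24000000340000001f0000001e0000003f0000003200000030 6 6) 0 0 (step_sound _ 100 [rh2d432a4e867e50f2, (rha8a8ab8db16c2546.shift 0 1), (rhd8d98eb6ec46d5f8.shift 0 2)] (by decide +kernel))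
noncomputable def rh5821fbafd875c628 : CRef := CRef.mk (Pat.mk 0x20000000000000004000000040000000400000000 0x600000006000000040000003c0000000f0000000a 6 6) 0 0 (step_sound _ 130 [rh7133a7a78d762f91, (rhffd04209dc8ea796.shift 1 1)] (by decide +kernel))
noncomputable def rhd8a77b0f6300e24f : CRef := CRef.mk (Pat.mk 0x8000000080000000c000000000000000000000000 0x1000000018000000780000001f000000780000001800000010 6 7) 0 0 (step_sound _ 67 [(rh42e615827c8908b1.shift 0 1), (rh4983ef42b6c40cbc.shift 0 1), (rhc9de03f9731897d4.shift 3 0)] (by decide +kernel))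
noncomputable def rh0d3e00a5559cfd21 : CRef := CRef.mk (Pat.mk 0x2000000060000000300000000000000000000000000000000 0x60000000600000006000000070000001e0000000f0000000700000001 6 5) 0 0 (step_sound _ 97 [rha52e1acf7ed5511e, (rha707fb719e87fe6e.shift 1 2), (rhade834efeba5196f.shift 0 2)] (by decide +kernel))
noncomputable def rhcdc223e3aa84f35e : CRef := CRef.mk (Pat.mk 0x8000000180000000e0000000000000000 0x18000000380000001f0000003e0000003800000008 6 6) 0 0 (step_sound _ 68 [(rhba04d77b039f69d9.shift 1 1), rhd2705a941542c9fb] (by decide +kernel))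
noncomputable def rh97031124c7d8a92a : CRef := CRef.mk (Pat.mk 0x40000000e000000000000000000000000 0x80000003f0000003f000000300000001000000010 6 6) 0 0 (step_sound _ 100 [rh5dffc5561274dae0, (rhe3060b190bc0bc78.shift 0 3)] (by decide +kernel))
noncomputable def rh6b9501b3412a8a81 : CRef := CRef.mk (Pat.mk 0x2000000030000000200000002 0x1000000070000000700000006000000030000000700000006 6 3) 0 0 (step_sound _ 130 [(rhbaefcd01e0a8bca3.shift 1 0), rhc66fad097d71a02d] (by decide +kernel))
noncomputable def rh1c0598f48372ac11 : CRef := CRef.mk (Pat.mk 0x100000003800000020 0x1f000000fe0000003e 6 8) 0 0 (step_sound _ 38 [rh8aa80d8d90d3223c, (rhb36f6120eccc373f.shift 2 0), (rhe3060b190bc0bc78.shift 2 1)] (by decide +kernel))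
noncomputable def rh2d9992662d36e47b : CRef := CRef.mk (Pat.mk 0x1800000018000000000000000000000000 0xf00000007f000000ff000000600000002000000020 6 8) 0 0 (step_sound _ 130 [(rh49085cc1db4b6aee.shift 0 3), (rhad5d8fc3675c15dd.shift 0 3), (rhbe9602a3a460b7d5.shift 1 0)] (by decide +kernel))
noncomputable def rh6a250fad8e780a3a : CRef := CRef.mk (Pat.mk 0x18000000100000001800000018 0x40000001e000000f7000000ff0000001f 6 8) 0 0 (step_sound _ 37 [rh18f71110fd66cd29, (rh4dc133ee0ba1420a.shift 1 0), rh73d0cab49a921a35] (by decide +kernel))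
noncomputable def rhebc79cecc058da43 : CRef := CRef.mk (Pat.mk 0x2000000020000000200000002000000000000000000000000 0x6000000070000000700000003000000070000000700000004 6 3) 0 0 (step_sound _ 65 [rh153dc625dfb1e6fc, (rh7928877f9bf74a91.shift 0 1)] (by decide +kernel))
noncomputable def rhf6cc3ee396a74341 : CRef := CRef.mk (Pat.mk 0x4000000000000000f00000001000000000000000000000000 0x6000000060000001f00000003000000070000000700000006 6 5) 0 0 (step_sound _ 97 [(rh18965a982d73c794.shift 0 3), rhcfb0ba73e719a504] (by decide +kernel))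
noncomputable def rh2fba784c4f145091 : CRef := CRef.mk (Pat.mk 0x3c00000010 0xe7000000ff00000018 6 8) 0 0 (step_sound _ 65 [rh2d099a7790034590, (rh3f8766e6ecb455ce.shift 1 1)] (by decide +kernel))
noncomputable def rhb8ee324a5bc90574 : CRef := CRef.mk (Pat.mk 0x4000000000000000e0000002000000000 0x600000006000000730000003e0000006700000004 6 7) 0 0 (step_sound _ 68 [(rh372205b881c0ac90.shift 0 1), rha700292a805d5a54, (rhd82640f02a0caa69.shift 1 1)] (by decide +kernel))
noncomputable def rhff495e31fbd41198 : CRef := CRef.mk (Pat.mk 0x1000000000000000080000001c00000000 0x10000000100000007f000000ff000000e0 6 8) 0 0 (step_sound _ 68 [(rh0c7885d546dce306.shift 1 0), (rhab2ad169e49f9c5e.shift 0 1), rhdad877f36e9733d8] (by decide +kernel))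
noncomputable def rh4ef8caded66da0b7 : CRef := CRef.mk (Pat.mk 0xc000000080000000c0000000000000000 0x140000001c000000780000001f0000000800000008 6 7) 0 0 (step_sound _ 35 [rh4a349d43a93867c7, (rh50fbb5868c909700.shift 2 1)] (by decide +kernel))
noncomputable def rh2156d6b8ad867fc6 : CRef := CRef.mk (Pat.mk 0x200000002000000030000000300000000 0x40000000600000006000000070000001f0000001e 6 5) 0 0 (step_sound _ 34 [(rh55afc6a59410cf00.shift 1 0), rh743c9b3f24b6ee03] (by decide +kernel))
noncomputable def rha49d9f853034d84f : CRef := CRef.mk (Pat.mk 0x2000000000000000f000000010000000000000000 0x20000000e0000001e0000000f0000001d0000000c0000000c 6 5) 0 0 (step_sound _ 131 [(rh33e738c4ed385b9f.shift 0 3), rh6cc4abf20248405b] (by decide +kernel))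
noncomputable def rh6e8df8cf4e9b0833 : CRef := CRef.mk (Pat.mk 0x1000000000000000380000000800000000 0x1000000010000000770000003e0000006f00000020 6 7) 0 0 (step_sound _ 100 [(rh5c5e593799055d58.shift 3 1), rhc83b743fb6d2ae41] (by decide +kernel))
noncomputable def rha3728363843e57ba : CRef := CRef.mk (Pat.mk 0x1800000000000000180000000e000000000000000000000000 0x2800000038000000320000001f0000003e000000770000000400000004 6 7) 0 0 (step_sound _ 100 [rh2395824d1086e2bc, (rh30e5b8477b322538.shift 1 2), (rhd507ea8799bfefb9.shift 0 2), (rhe401600d466b97cd.shift 0 2)] (by decide +kernel))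
noncomputable def rhf3d264ee4d3c5177 : CRef := CRef.mk (Pat.mk 0x200000000000000070000000180000000000000000 0x20000000ef0000007f000000f8000000c000000080 6 8) 0 0 (step_sound _ 99 [(rh04adde65229dd8ca.shift 0 2), (rh4c622fddc53a5f99.shift 1 3), (rh79a90556cd67da8d.shift 3 0)] (by decide +kernel))
noncomputable def rh9fe14049d88765bf : CRef := CRef.mk (Pat.mk 0x8000000000000001e0000000000000000 0x1800000018000000300000001e0000003b00000008 6 6) 0 0 (step_sound _ 33 [(rh65dc9ac2eea86f24.shift 1 0), (rheb0810cc63b001d8.shift 0 1)] (by decide +kernel))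
noncomputable def rha0574910acd1bf47 : CRef := CRef.mk (Pat.mk 0x8000000000000001e00000004 0x1800000018000000300000001f0000003f 6 6) 0 0 (step_sound _ 4 [rh5af4d68923b5c928, (rhe25b0a99195a5d59.shift 1 0)] (by decide +kernel))
noncomputable def rh114748ecb9272358 : CRef := CRef.mk (Pat.mk 0x7000000010 0x1ce000000fe000001f7 6 9) 0 0 (step_sound _ 35 [(rh0d378fd9e8917c5a.shift 1 0), (rha93a5dd541ab8209.shift 3 0), rhc7e8e87a0b43237b] (by decide +kernel))
noncomputable def rh53350c5a66ffdddf : CRef := CRef.mk (Pat.mk 0xc00000000000000040000000400000000 0xc0000000c000000040000003c0000000f0000000a 6 6) 0 0 (step_sound _ 98 [(rh2f68792b6b779e96.shift 2 1), rh7133a7a78d762f91] (by decide +kernel))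
noncomputable def rh35e5a41d07204fd6 : CRef := CRef.mk (Pat.mk 0x800000008000000080000001000000000 0x40000001f0000007c000000080000001800000018 6 7) 0 0 (step_sound _ 35 [(rh55afc6a59410cf00.shift 3 0), rha55067a0a50aff3b] (by decide +kernel))
noncomputable def rh025ef997acda9858 : CRef := CRef.mk (Pat.mk 0x400000007800000000 0x670000007e000000c7 6 8) 0 0 (step_sound _ 34 [rh2921619f5029adb1, (rh428265de8cd3cd2d.shift 2 1)] (by decide +kernel))
noncomputable def rhd5812eca8f36a7e7 : CRef := CRef.mk (Pat.mk 0x30000000200000002000000020 0x3ce000001fe000001f70000002000000020 6 10) 0 0 (step_sound _ 102 [(rh2f68792b6b779e96.shift 5 0), (rhe6af08b6db6b1e4b.shift 0 2)] (by decide +kernel))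
noncomputable def rh86b3cb82015cc91e : CRef := CRef.mk (Pat.mk 0x400000004000000000000000e0000001800000000 0x1400000016000000f3000000fe0000001f00000008 6 8) 0 0 (step_sound _ 68 [(rh0dad4d35a329f6a4.shift 0 1), (rh35d56b72020b1442.shift 0 1), (rh5ba2d67652840f34.shift 1 0)] (by decide +kernel))
noncomputable def rh65633ea212033854 : CRef := CRef.mk (Pat.mk 0x7000000020000000200000002000000000 0xe000001fe000001f7000000300000003000000010 6 9) 0 0 (step_sound _ 36 [(rh1f7f7941cc017749.shift 0 1), (rh932754581e0f4330.shift 4 0)] (by decide +kernel))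
noncomputable def rh74da12ccf0b5b8ff : CRef := CRef.mk (Pat.mk 0x40000000c000000080000000800000000 0x1800000018000000180000003c0000000f000000780000001e00000014 6 7) 0 0 (step_sound _ 131 [(rh1adc8391535f5fb2.shift 2 0), (rh957e3bb4c843b184.shift 1 0), (rhc0ddb33d3a52722b.shift 0 1)] (by decide +kernel))
noncomputable def rhfae0b6427fba7bd7 : CRef := CRef.mk (Pat.mk 0x80000000e0000000c0000000000000000 0x6000000060000000e0000000e0000003c0000000f0000000e 6 6) 0 0 (step_sound _ 34 [(rh71222050f2c63a3a.shift 2 0), rhdbc6315c3a213206] (by decide +kernel))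
noncomputable def rh034ffd3c730dbeb3 : CRef := CRef.mk (Pat.mk 0x1e00000006000000040000000000000000 0x1000000010000000300000001f0000003e0000000c0000000400000004 6 6) 0 0 (step_sound _ 100 [rha30f883f15c89951, (rhe25b0a99195a5d59.shift 1 3)] (by decide +kernel))
noncomputable def rh15b7229389f08d04 : CRef := CRef.mk (Pat.mk 0x10000000000000002000000020000000200000001 0x400000007000000070000000200000006000000060000000700000001 6 3) 0 0 (step_sound _ 129 [rh79877ebd3ef475dd, (rh90b558dcae53cbf1.shift 0 1)] (by decide +kernel))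
noncomputable def rhdc4cc1dbd00cea5c : CRef := CRef.mk (Pat.mk 0x3000000020000000200000003000000000 0x3000000030000001f7000001fe0000004e 6 9) 0 0 (step_sound _ 38 [(rh55afc6a59410cf00.shift 5 0), rh59f49a3eec4c4198] (by decide +kernel))
noncomputable def rhfb152e72509985a0 : CRef := CRef.mk (Pat.mk 0x200000002000000020000000000000000 0x500000007000000070000000300000007000000070000000700000005 6 3) 0 0 (step_sound _ 160 [rh0b151af470a87f7c, (rh0dbc8abee7ad42d4.shift 0 1), (rh114f4abf4ea101c9.shift 0 1), (rh90b558dcae53cbf1.shift 0 1)] (by decide +kernel))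
noncomputable def rh6f4c4a84849a9caf : CRef := CRef.mk (Pat.mk 0x80000000c000000040000000400000000 0x60000000f0000003c0000000f0000003c00000018 6 6) 0 0 (step_sound _ 130 [rh35cf5b20374accd8, (rhcf85c92937975d4d.shift 0 1), rhd802bb8339359eae] (by decide +kernel))
noncomputable def rh42f8ee4648a88e95 : CRef := CRef.mk (Pat.mk 0x40000000700000006000000000000000000000000 0x4000000070000003e0000003e0000000e0000000e 6 6) 0 0 (step_sound _ 100 [(rh2fe78cc5ca4405d8.shift 0 3), (rh5caf90bd9fb34c6c.shift 1 0)] (by decide +kernel))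
noncomputable def rh7cc5555d3be4a9c1 : CRef := CRef.mk (Pat.mk 0x600000002000000020000000200000000 0x300000003000000030000000600000006000000030000000300000003 6 3) 0 0 (step_sound _ 32 [rh932754581e0f4330, rhfa6769a4f47619f7] (by decide +kernel))
noncomputable def rh0564152f77b1c28e : CRef := CRef.mk (Pat.mk 0x600000003000000020000000200000000000000000000000000000000 0x600000007000000070000000600000006000000030000000300000001 6 3) 0 0 (step_sound _ 97 [rha6e4ed44f7b6a7de, (rhbaefcd01e0a8bca3.shift 1 3)] (by decide +kernel))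
noncomputable def rh083787a63003e168 : CRef := CRef.mk (Pat.mk 0x400000004000000040000000e00000000 0x80000000c0000001c0000003f0000003e00000030 6 6) 0 0 (step_sound _ 131 [rh12717b0756106fb1, (rh2f68792b6b779e96.shift 2 1)] (by decide +kernel))
noncomputable def rhb51d30001a7f210a : CRef := CRef.mk (Pat.mk 0x180000001800000010 0x20000000600000007e000000ff000000f0 6 8) 0 0 (step_sound _ 34 [(rhf23058fa669ece74.shift 1 0), rhf56e6bc5d2f7fe77, (rhf9d36e158778ce35.shift 1 1)] (by decide +kernel))
noncomputable def rhaf3b7f4f34bf43e0 : CRef := CRef.mk (Pat.mk 0x800000008000000180000001000000010 0x200000007c000001ef0000007e0000007700000010 6 9) 0 0 (step_sound _ 69 [rh297fae84acdfca38, (rh305e60cb0bb1bfe3.shift 1 0), (rha9fbfd4bb8cf890b.shift 0 2), rhc593227a8ec8f04e] (by decide +kernel))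
noncomputable def rh264db28687f42597 : CRef := CRef.mk (Pat.mk 0x4000000000000001e00000008 0x600000006000000030000003e0000003f 6 6) 0 0 (step_sound _ 1 [rh6f08c57c368a43fb, rheb0810cc63b001d8] (by decide +kernel))
noncomputable def rha1db1f97c5bb73f3 : CRef := CRef.mk (Pat.mk 0x1c000000120000001000000000 0x4000000040000003f0000001e0000003300000002 6 6) 0 0 (step_sound _ 66 [(rh18965a982d73c794.shift 1 2), rh8386a58ada269d10] (by decide +kernel))
noncomputable def rhee495b629fa07fc5 : CRef := CRef.mk (Pat.mk 0x1800000008000000080000001c00000000 0x40000001c000000180000007c000000ff00000060 6 8) 0 0 (step_sound _ 130 [(rh50fbb5868c909700.shift 2 1), rhf46683c0e5e522b9] (by decide +kernel))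
noncomputable def rha86c25ffe79a1b6a : CRef := CRef.mk (Pat.mk 0x20000000200000007000000018 0xc0000003c000000ee0000007f00000038 6 8) 0 0 (step_sound _ 35 [rh15a2b73944acc7e4, (rh2c6a315c9e5a1f9d.shift 2 0), (rh503775339733bab1.shift 1 1), (rhec46bd5500c722c9.shift 2 1)] (by decide +kernel))
noncomputable def rhf5519bf02007916f : CRef := CRef.mk (Pat.mk 0x800000008000000380000000800000000 0x10000000180000007f0000003f0000006800000028 6 7) 0 0 (step_sound _ 132 [(rh2f68792b6b779e96.shift 3 1), rh952e5c36171cea6c] (by decide +kernel))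
noncomputable def rh45367e9db8cf9c2c : CRef := CRef.mk (Pat.mk 0x4000000040000000c0000000400000000 0x1000000010000000180000003c0000001f0000000c0000000c00000004 6 6) 0 0 (step_sound _ 131 [rh20fa8837cb09aa8c, (rh2f68792b6b779e96.shift 2 1)] (by decide +kernel))
noncomputable def rh65701d024dc96b38 : CRef := CRef.mk (Pat.mk 0x10000000380000000000000000 0x8000000080000001e000000fc0000001f00000004 6 8) 0 0 (step_sound _ 34 [(rh19f08b48cf271d79.shift 2 1), (rh73f5f7cdf41b5bc9.shift 1 0), (rhe1c32197ffb40f8f.shift 0 1)] (by decide +kernel))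
noncomputable def rh104631d35918e1c8 : CRef := CRef.mk (Pat.mk 0x1c00000038000000080000000000000000 0x2000000020000000600000007c0000003f000000780000000800000008 6 7) 0 0 (step_sound _ 35 [(rh71222050f2c63a3a.shift 3 0), (rhea0fe28ec5e58ae8.shift 0 2)] (by decide +kernel))
noncomputable def rhdcafe138dae0415f : CRef := CRef.mk (Pat.mk 0x1e00000018000000080000000000000000 0x200000002000000030000003e0000001f0000000c0000000800000008 6 6) 0 0 (step_sound _ 97 [rh839f3efd3accf3b8, (rheb0810cc63b001d8.shift 0 3)] (by decide +kernel))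
noncomputable def rh284b6f634517640a : CRef := CRef.mk (Pat.mk 0x180000000800000008 0x4000000f70000007e000000ff00000008 6 8) 0 0 (step_sound _ 69 [rhc9c7cf671dc35cad, (rhda6f673521835f26.shift 0 1), (rhf0f55c4504412200.shift 0 1)] (by decide +kernel))
noncomputable def rh230660cca28df197 : CRef := CRef.mk (Pat.mk 0x8000000180000000e00000000 0x800000008000000080000001f000000fe000000f0 6 8) 0 0 (step_sound _ 36 [(rh3e595262c1b737ad.shift 3 0), rh883451bd3feec117, rhe401600d466b97cd] (by decide +kernel))
noncomputable def rhd149b2d6a4041410 : CRef := CRef.mk (Pat.mk 0x1c000000060000000400000004 0x1000000010000000320000001f0000003e0000000c00000004 6 6) 0 0 (step_sound _ 97 [(rh50fbb5868c909700.shift 1 0), (rh55263462ef60c56f.shift 0 1)] (by decide +kernel))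
noncomputable def rh30c0f19e0c6cde33 : CRef := CRef.mk (Pat.mk 0x10000000100000001c000000040000000000000000 0xc0000001e0000007f0000001c0000000c0000000c0000000c 6 7) 0 0 (step_sound _ 131 [(rh4821dcf828b9d7bf.shift 2 0), rh7112057f2d661c2e, (rh99eb9182786c345b.shift 1 1), (rhadf429772c25fde0.shift 2 0)] (by decide +kernel))
noncomputable def rh6ebf05bce64c2231 : CRef := CRef.mk (Pat.mk 0x8000000180000000e00000000 0x40000000c0000000c0000000f0000001e0000001e0000000a 6 5) 0 0 (step_sound _ 131 [rh3983abbaa1e6dd80, (rh3da62da861143b9a.shift 2 1), (rh518d6f6eeebddcb2.shift 2 1)] (by decide +kernel))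
noncomputable def rh1bed5e49a79bd887 : CRef := CRef.mk (Pat.mk 0xc000000040000000c00000004 0x10000000320000003f0000003f0000000c00000004 6 6) 0 0 (step_sound _ 97 [(rh50fbb5868c909700.shift 1 0), (rhfbc8842918c75006.shift 0 1)] (by decide +kernel))
noncomputable def rh1eace3861f13e7a4 : CRef := CRef.mk (Pat.mk 0x4000000040000001c00000004 0xa0000000e0000000e00000006000000070000003f0000001c00000004 6 6) 0 0 (step_sound _ 130 [(rh1148744b53f3df58.shift 1 1), (rh3ca48e2a6d60153d.shift 1 0), rh92376b39062348f1] (by decide +kernel))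
noncomputable def rhc7e692ad98a45ef0 : CRef := CRef.mk (Pat.mk 0x2000000020000000600000002 0x500000007000000070000000700000003000000060000000600000002 6 3) 0 0 (step_sound _ 129 [(rh1148744b53f3df58.shift 0 1), rh3ca48e2a6d60153d, (rh73f605273a09a9d0.shift 1 1)] (by decide +kernel))
noncomputable def rh4c9a509cc62c31eb : CRef := CRef.mk (Pat.mk 0x8000000080000001e00000004 0x60000000f0000003b0000001e00000007 6 6) 0 0 (step_sound _ 65 [rh24e98de1b235f302, (rh3244c3cc8379b070.shift 0 1)] (by decide +kernel))
noncomputable def rh8b2f9b331371cd11 : CRef := CRef.mk (Pat.mk 0x38000000100000000000000000 0x40000001f000000fc0000001e0000000800000008 6 8) 0 0 (step_sound _ 130 [(rh1b1d9d37dc492e4a.shift 2 2), (rh40811da85268475d.shift 0 3), (rh8bb330ee5aea9f6b.shift 1 0)] (by decide +kernel))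
noncomputable def rha93c2dd95acfaca1 : CRef := CRef.mk (Pat.mk 0x1c0000000c00000000 0x200000002000000030000001f0000007f00000074 6 7) 0 0 (step_sound _ 33 [(rh53b3c253cb0c65f4.shift 0 1), rhba8d96aa51f537fc] (by decide +kernel))
noncomputable def rhb6b043eb258600e6 : CRef := CRef.mk (Pat.mk 0xe0000000600000000 0x1000000010000000300000003f0000003e00000008 6 6) 0 0 (step_sound _ 68 [(rh18965a982d73c794.shift 1 1), rh55263462ef60c56f] (by decide +kernel))
noncomputable def rh83a22a296b37828d : CRef := CRef.mk (Pat.mk 0x200000007000000020000000200000000 0x1d0000001f00000007000000060000000600000004 6 5) 0 0 (step_sound _ 130 [rh27ab7d96b8412d78, (rh2f68792b6b779e96.shift 1 1)] (by decide +kernel))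
noncomputable def rh4b5a15255a721486 : CRef := CRef.mk (Pat.mk 0x2000000070000000200000002 0x200000003000000070000001f000000070000000600000002 6 5) 0 0 (step_sound _ 98 [(rh2f68792b6b779e96.shift 1 0), rh566eb1dd19a513b9] (by decide +kernel))
noncomputable def rhc223f4bba51e533c : CRef := CRef.mk (Pat.mk 0x1c0000000200000000 0x400000004000000370000003e0000000300000002 6 6) 0 0 (step_sound _ 65 [rhba01141a274d7327, (rheb0810cc63b001d8.shift 0 1)] (by decide +kernel))
noncomputable def rh7a8ae798ab71c72e : CRef := CRef.mk (Pat.mk 0x1c0000000500000000 0x800000008000000380000001f0000003700000010 6 6) 0 0 (step_sound _ 65 [(rh80fcd6d0a18cb2dd.shift 0 1), rhf41a34b41b8c2138] (by decide +kernel))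
noncomputable def rh58f38929af13dd47 : CRef := CRef.mk (Pat.mk 0x80000001c000000000000000400000000 0x1000000010000000780000003f000000f00000003e00000010 6 8) 0 0 (step_sound _ 69 [(rh0deb2ebc850de581.shift 1 1), (rh18b31825f45c624c.shift 1 0), (rh816fd429a35c92eb.shift 0 2), (rha81c2618e5626448.shift 1 0), (rhd56b5b075adad191.shift 1 2)] (by decide +kernel))
noncomputable def rhd22a978c5a6938f4 : CRef := CRef.mk (Pat.mk 0x1c00000012000000000000000000000000 0x6000000070000003f0000001e000000070000000600000002 6 6) 0 0 (step_sound _ 98 [rh13f6549e00735078, (rh18965a982d73c794.shift 1 3)] (by decide +kernel))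
noncomputable def rh41cf518aa643711d : CRef := CRef.mk (Pat.mk 0x40000000e00000009 0x360000007e000000ef 6 8) 0 0 (step_sound _ 36 [rh80fcd6d0a18cb2dd, (rhb55025af278c7206.shift 1 0)] (by decide +kernel))
noncomputable def rhd0c90ec82d743520 : CRef := CRef.mk (Pat.mk 0x20000001a0000000b000000000000000000000000 0x5000000050000000d0000000f0000001b0000000b0000000b0000000300000003 6 5) 0 0 (step_sound _ 32 [rh2ce0597e345b4170, (rh385f4b79f5a221b0.shift 0 1), rhd5b92086fe7b06e3, rhdebc43b768884653] (by decide +kernel))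
noncomputable def rh5f9eead1c548f2ea : CRef := CRef.mk (Pat.mk 0x4000000040000000600000000 0xa0000000e0000003e00000007000000060000000600000004 6 6) 0 0 (step_sound _ 130 [(rh9a369cb82ea472da.shift 1 1), rhd93e4c9bb2648213, (rhe62cab2ff5ad6fe2.shift 1 1)] (by decide +kernel))
noncomputable def rhc57fee23e8a7517f : CRef := CRef.mk (Pat.mk 0x70000000d0000000000000000 0x600000006000000070000001f0000001c0000000c 6 5) 0 0 (step_sound _ 65 [(rhf48373e13d2bc128.shift 0 2), rhf58d8e840e8c47e3] (by decide +kernel))
noncomputable def rh965c983656eec083 : CRef := CRef.mk (Pat.mk 0x1000000018000000080000000800000000 0x2c000000ff0000003c000000180000001800000010 6 8) 0 0 (step_sound _ 131 [(rh56cd7350293095e8.shift 2 0), (rhc647a25a08ddf0ec.shift 0 1)] (by decide +kernel))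
noncomputable def rh1b331e5c09b4e0ae : CRef := CRef.mk (Pat.mk 0x60000000200000002000000000000000000000000 0x20000000300000003000000070000000600000006000000060000000600000004 6 3) 0 0 (step_sound _ 65 [(rh17b4be6885a61418.shift 0 1), (rh5abfc4c9d959be03.shift 0 1), (rh8c3839f9b9075f23.shift 1 0)] (by decide +kernel))
noncomputable def rh4a4b6c87bef15b58 : CRef := CRef.mk (Pat.mk 0x4000000070000000080000000000000000 0x20000000280000006c000000ff000000380000001000000010 6 8) 0 0 (step_sound _ 68 [rh0a9158bbf9bf8338, (rh18965a982d73c794.shift 3 2)] (by decide +kernel))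
noncomputable def rhc6ceb02b0b73538b : CRef := CRef.mk (Pat.mk 0x400000007000000008 0x67000000ff0000001c 6 8) 0 0 (step_sound _ 35 [rh6581462c250f8292, (rheb0810cc63b001d8.shift 2 0)] (by decide +kernel))
noncomputable def rhf695c6b4b0b6b55d : CRef := CRef.mk (Pat.mk 0xc00000007000000040000000400000000 0xc0000000f0000001e0000007c0000001c 6 7) 0 0 (step_sound _ 99 [(rh71222050f2c63a3a.shift 2 0), rh8c6243e3738b27d7] (by decide +kernel))
noncomputable def rh6cdf1ecd0f85809e : CRef := CRef.mk (Pat.mk 0x180000001e00000000 0x200000002000000030000001f0000003e00000034 6 6) 0 0 (step_sound _ 4 [rh331d4a807f97bfca, (rhe25b0a99195a5d59.shift 1 0)] (by decide +kernel))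
noncomputable def rh0b991517a864d047 : CRef := CRef.mk (Pat.mk 0x180000001e00000000 0x1f000000fe000000e3 6 8) 0 0 (step_sound _ 65 [(rh3244c3cc8379b070.shift 0 1), rhb2c56db41580ca5c] (by decide +kernel))
noncomputable def rh409875ed737ad8d0 : CRef := CRef.mk (Pat.mk 0x20000001a000000030000000000000000000000000000000000000000 0x50000000f0000001b000000030000000300000003000000070000000700000004 6 5) 0 0 (step_sound _ 129 [rh1d731470c5f6b8e1, (rh330a005829cdd297.shift 0 4)] (by decide +kernel))
noncomputable def rhde85cecbd9e4ca83 : CRef := CRef.mk (Pat.mk 0x20000001a0000000a00000000 0x10000001d0000001f0000000f0000001a0000001a00000012 6 5) 0 0 (step_sound _ 96 [rhb1a251d9bff81766, rhf3131809594041a9, rhf43630dd991c80b6] (by decide +kernel))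
noncomputable def rhe31af6f36c824572 : CRef := CRef.mk (Pat.mk 0x38000000000000000000000000 0x40000001f70000007e000000f00000002000000020 6 9) 0 0 (step_sound _ 134 [(rh834ef1c974e4840e.shift 2 0), (rh90fcc1b0fe0017ad.shift 2 3), (rh9578164826709400.shift 2 3), (rha2e182fd6274be10.shift 0 2), (rhba3fefaa894766da.shift 3 3)] (by decide +kernel))
noncomputable def rh146135e97bce5665 : CRef := CRef.mk (Pat.mk 0xf000000080000000000000000 0x140000001c0000001c0000001c0000000f0000000c0000000c00000004 6 5) 0 0 (step_sound _ 131 [(rh33e738c4ed385b9f.shift 0 3), (rheb423d2aecc2203c.shift 2 0)] (by decide +kernel))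
noncomputable def rhffddc2204acb900f : CRef := CRef.mk (Pat.mk 0x80000001c000000040000000000000000 0x2000000020000007f0000003e000000740000000400000004 6 7) 0 0 (step_sound _ 34 [(rh5861f303e21db104.shift 0 1), (rh71222050f2c63a3a.shift 2 0)] (by decide +kernel))
noncomputable def rh2cd5e3ff422d0616 : CRef := CRef.mk (Pat.mk 0x180000001e00000000 0x1b000000fe000000e7 6 8) 0 0 (step_sound _ 1 [rh73a7f050659c6b57, rheb0810cc63b001d8] (by decide +kernel))
noncomputable def rhc07179ec97fcaab3 : CRef := CRef.mk (Pat.mk 0x2000000020000000700000001000000000000000000000000 0x50000000700000007000000070000001f0000001e0000000600000002 6 5) 0 0 (step_sound _ 97 [(rh287568c5fc026144.shift 0 2), rh4f66b8b299b10e60, (rh6ed5e6501b92e21f.shift 0 1)] (by decide +kernel))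
noncomputable def rhbbe941760f2600d4 : CRef := CRef.mk (Pat.mk 0x80000001c000000040000000400000000 0x600000006000000060000000f0000003c0000000c0000000c00000008 6 6) 0 0 (step_sound _ 130 [(rh2e8814637c3f6d46.shift 1 1), (rhcbaa34959f85e2ef.shift 1 0), (rhe2b63c00a3d7bb73.shift 0 3)] (by decide +kernel))
noncomputable def rh1120d1bedf8bd8df : CRef := CRef.mk (Pat.mk 0x18000000180000000a0000000800000000 0x80000001800000018000000fb000000ff00000030 6 8) 0 0 (step_sound _ 36 [rh46ff75de96f7b437, (rh55afc6a59410cf00.shift 3 0)] (by decide +kernel))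
noncomputable def rha24b9f3b6e12b28c : CRef := CRef.mk (Pat.mk 0x10000000180000000e00000008 0x200000006000000370000001f000000fe0000007c 6 8) 0 0 (step_sound _ 65 [(rh9160f25ba4516b22.shift 0 1), rh9b308a25b356e959, rha865f53758b15b39] (by decide +kernel))
noncomputable def rh22ed820eddadadcc : CRef := CRef.mk (Pat.mk 0x80000000e00000005 0x2000000030000003f0000003e00000007 6 6) 0 0 (step_sound _ 36 [rh80fcd6d0a18cb2dd, rhae6ef49c15d3e446] (by decide +kernel))
noncomputable def rh2e2c2eb3695e6cb8 : CRef := CRef.mk (Pat.mk 0x2000000000000000380000001400000000 0xc0000007c0000000f0000007c0000001c00000008 6 7) 0 0 (step_sound _ 98 [(rh14fa7717ab723f83.shift 0 1), (rh93c86be5f7caa3c7.shift 1 0), (rhe9d682012dbceb06.shift 2 1)] (by decide +kernel))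
noncomputable def rh716eba45a26b60e5 : CRef := CRef.mk (Pat.mk 0x10000000100000001c0000000a0000000000000000 0xe0000003e000000f70000001e0000000e0000000200000002 6 8) 0 0 (step_sound _ 162 [(rh1d2c153754206a16.shift 1 1), (rh6c3178ed5be3176e.shift 0 1), (rh6daba3c24b34fd80.shift 1 3), (rh8e0e393e9a7a206b.shift 1 0)] (by decide +kernel))
noncomputable def rhfdf9c8c005c8d9dd : CRef := CRef.mk (Pat.mk 0x80000000c000000070000000400000000 0x600000006000000060000000f0000003c000000070000003e00000008 6 6) 0 0 (step_sound _ 100 [rh15d3e764d8d3f0a9, (rh18965a982d73c794.shift 1 2)] (by decide +kernel))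
noncomputable def rhd2d063133e6f24d3 : CRef := CRef.mk (Pat.mk 0x80000000c000000070000000400000000 0x400000006000000060000000e0000000e000000070000003e00000008 6 6) 0 0 (step_sound _ 35 [(rh307e87dde5ddcd87.shift 1 0), (rh89ade209b3e28f13.shift 0 1), (rhe6a417bfa3e0f26e.shift 1 0)] (by decide +kernel))
noncomputable def rha499176323084204 : CRef := CRef.mk (Pat.mk 0x8000000080000000a00000018 0x8000000080000000f0000003e0000003f 6 6) 0 0 (step_sound _ 36 [(rh2145e1d24b96a57e.shift 3 0), rh5ac1b224de8fd3f8] (by decide +kernel))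
noncomputable def rhb181fbf4081ccb89 : CRef := CRef.mk (Pat.mk 0x8000000080000000a00000018 0x800000008000000780000003e0000003f 6 7) 0 0 (step_sound _ 36 [(rh2145e1d24b96a57e.shift 3 0), rhe43cece8b4d25eeb] (by decide +kernel))
noncomputable def rh8a1603c03c38bea0 : CRef := CRef.mk (Pat.mk 0x3800000010000000140000001000000000 0x70000007e000000fe000000140000003400000020 6 8) 0 0 (step_sound _ 37 [(rh393f50b024d88137.shift 0 1), (rh55afc6a59410cf00.shift 4 0)] (by decide +kernel))
noncomputable def rh9fb36b83b26910f3 : CRef := CRef.mk (Pat.mk 0x400000018000000080000000a00000000 0xc0000000c000000380000003f0000000e00000004 6 6) 0 0 (step_sound _ 131 [(rh50fbb5868c909700.shift 2 1), rhaf8848b531986964] (by decide +kernel))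
noncomputable def rha756e100d10b0bf5 : CRef := CRef.mk (Pat.mk 0x1c000000080000000a0000000800000000 0x80000003c0000000f0000003e0000003800000010 6 6) 0 0 (step_sound _ 36 [(rh55afc6a59410cf00.shift 3 0), (rh9e960590b8205d7e.shift 0 1)] (by decide +kernel))
noncomputable def rh5221243ce20d0ead : CRef := CRef.mk (Pat.mk 0x1000000010000000100000000a00000000 0x280000003c000000f0000000300000003e00000037 6 8) 0 0 (step_sound _ 36 [(rh1e9e3641a49c3d16.shift 1 0), (rh305945700f20b255.shift 2 0), rh9b79cd1bc448a214] (by decide +kernel))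
noncomputable def rh9e3033862e8f6a5d : CRef := CRef.mk (Pat.mk 0x8000000080000000c0000000400000000 0x140000001e000000780000000f0000003c00000018 6 7) 0 0 (step_sound _ 35 [(rh305945700f20b255.shift 1 0), rhfe557af9112f51d6] (by decide +kernel))
noncomputable def rhfa13f8e83ee1551c : CRef := CRef.mk (Pat.mk 0x100000001c00000002 0x1e0000007f00000076 6 7) 0 0 (step_sound _ 37 [(rh80fcd6d0a18cb2dd.shift 1 0), rhd4af4e82df2adeb5] (by decide +kernel))
noncomputable def rhe0beefedd09da448 : CRef := CRef.mk (Pat.mk 0x8000000080000000c0000000500000000 0x140000001e000000780000001e0000007f00000018 6 7) 0 0 (step_sound _ 35 [(rh305945700f20b255.shift 1 0), rhd836afbdc80e8b33, rhe7c2f0302ee00949] (by decide +kernel))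
noncomputable def rhc8721f03f11e10a8 : CRef := CRef.mk (Pat.mk 0x180000000800000008 0x400000014000001ff000000fe0000000f00000008 6 9) 0 0 (step_sound _ 69 [(rh139e2a32e9cd161f.shift 1 0), (rh2820ca9a6c4f41b4.shift 0 1), (rh2ccbd86a7098bf36.shift 2 0), rhee3d0890ab3a7d6a] (by decide +kernel))
noncomputable def rh4801aec634008af9 : CRef := CRef.mk (Pat.mk 0x180000000800000008000000000000000000000000 0x40000000f0000007c0000000f00000018000000180000001800000010 6 7) 0 0 (step_sound _ 68 [(rh2977b00063528966.shift 3 0), (rh34e677bdca93d83f.shift 0 1), (rh7cb5b982a1f7ba7c.shift 0 2)] (by decide +kernel))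
noncomputable def rh0e4a02fc3901042c : CRef := CRef.mk (Pat.mk 0x200000002800000040 0x3e000000fe000000ff 6 8) 0 0 (step_sound _ 36 [(rhc6ac83766f709e95.shift 1 0), (rhfbd771d936c6609a.shift 2 0), rhfd3b863ea463319a] (by decide +kernel))
noncomputable def rhe7abab5b4977ff6b : CRef := CRef.mk (Pat.mk 0x140000003c0000002000000000 0x1c0000001e0000001f0000001c0000007c0000002c00000004 6 7) 0 0 (step_sound _ 99 [rhc521a2dfead6757a, (rhf48373e13d2bc128.shift 2 2)] (by decide +kernel))
noncomputable def rh28aff7be52228428 : CRef := CRef.mk (Pat.mk 0x200000003800000040 0x3e0000007e000000c7 6 8) 0 0 (step_sound _ 38 [rh5b2ce1e5aa4a4edd, (rhe25b0a99195a5d59.shift 3 0)] (by decide +kernel))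
noncomputable def rh42b92d5acd3eea64 : CRef := CRef.mk (Pat.mk 0x200000007800000040 0x2000000020000000370000007e0000004e 6 7) 0 0 (step_sound _ 101 [(rh2145e1d24b96a57e.shift 5 0), rhf0dcb8af34d9ea65] (by decide +kernel))
noncomputable def rh03dcc9347608b61d : CRef := CRef.mk (Pat.mk 0x1000000014000000200000000000000000 0x1000000010000000170000003e000000770000002000000020 6 7) 0 0 (step_sound _ 101 [(rh5d54cb79a67f97ab.shift 4 0), (rhff8326e31a7c12c8.shift 0 2)] (by decide +kernel))
noncomputable def rhad124d16c31897ea : CRef := CRef.mk (Pat.mk 0xe0000000200000000 0x400000004000000070000003e0000003300000002 6 6) 0 0 (step_sound _ 68 [rhbc1e46933b5c42d5, (rheb0810cc63b001d8.shift 0 1)] (by decide +kernel))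
noncomputable def rh8b54f13b445da029 : CRef := CRef.mk (Pat.mk 0x300000002800000000 0x5000000050000000f00000007e000000ef00000020 6 8) 0 0 (step_sound _ 67 [(rh2820ca9a6c4f41b4.shift 0 1), (rh6376d9bab352e16c.shift 2 0), (rhbd9ac79c87120162.shift 1 0), (rhf6388f317ffa3be8.shift 2 1)] (by decide +kernel))
noncomputable def rh9bb12067ce47bffb : CRef := CRef.mk (Pat.mk 0x20000001e0000000a00000000 0x14000000340000003e0000001f0000000a00000002 6 6) 0 0 (step_sound _ 100 [(rh33e738c4ed385b9f.shift 1 2), rhb93f5381508b6cd1] (by decide +kernel))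
noncomputable def rh022d859b4516e6e2 : CRef := CRef.mk (Pat.mk 0x18000000180000001000000010 0x27000000ff000000f80000001000000010 6 8) 0 0 (step_sound _ 101 [(rh2f68792b6b779e96.shift 4 0), (rh444d7d405a119a95.shift 0 2)] (by decide +kernel))
noncomputable def rhc7fc0d6e2627e7f6 : CRef := CRef.mk (Pat.mk 0x1800000018000000040000000000000000 0x2000000020000001f0000007f000000070000000400000004 6 7) 0 0 (step_sound _ 98 [rh64d0cec9c30c03bf, (rha83d0a1d851c6a27.shift 1 2), (rhd12cad0b329057a4.shift 0 2)] (by decide +kernel))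
noncomputable def rh08039a1ace3d0771 : CRef := CRef.mk (Pat.mk 0x100000001000000030000000280000000000000000 0x100000001f0000003e0000006f0000000800000008 6 7) 0 0 (step_sound _ 99 [(rhc92c11e8da6c894f.shift 0 2), (rhf9af042da61fc652.shift 3 0)] (by decide +kernel))
noncomputable def rhe01f0df58e883775 : CRef := CRef.mk (Pat.mk 0xc0000000c0000000a0000000800000000 0x80000000c0000000f0000001b0000001f00000012 6 5) 0 0 (step_sound _ 36 [(rh55afc6a59410cf00.shift 3 0), rhfc63d9a7482e2465] (by decide +kernel))
noncomputable def rh94e64fa54c21bdd1 : CRef := CRef.mk (Pat.mk 0x18000000140000000000000000 0x2200000022000000770000003e000000770000001400000004 6 7) 0 0 (step_sound _ 98 [(rh6376d9bab352e16c.shift 1 1), rh6464d3e7a80a55ea, (rhd7a4c4c066e784ff.shift 1 1), rhf4e4690e1d4c3fc6] (by decide +kernel))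
noncomputable def rh920a1b3eeeeeb19e : CRef := CRef.mk (Pat.mk 0x600000006000000040000000400000000 0x380000003f0000003e0000000c0000000c00000008 6 6) 0 0 (step_sound _ 131 [rh2291f67d5dae1743, (rh2f68792b6b779e96.shift 2 1)] (by decide +kernel))
noncomputable def rh18def51c5620877e : CRef := CRef.mk (Pat.mk 0x200000003000000020000000200000000 0x600000006000000070000000300000003000000060000000600000004 6 3) 0 0 (step_sound _ 128 [rh1adc8391535f5fb2, (rh50fbb5868c909700.shift 0 1)] (by decide +kernel))
noncomputable def rh31c1f8959a8d3867 : CRef := CRef.mk (Pat.mk 0x800000018000000140000000000000000 0x8000000080000000e0000003e000000770000000400000004 6 7) 0 0 (step_sound _ 163 [(rh2145e1d24b96a57e.shift 3 2), rh3c6d61da915368b3] (by decide +kernel))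
noncomputable def rh1114257776220e0e : CRef := CRef.mk (Pat.mk 0x40000000c0000000a0000000000000000 0xee0000007f0000003b0000000800000008 6 8) 0 0 (step_sound _ 35 [(rh7b1f1fb55310c477.shift 2 0), (rheeb39dbfbd046322.shift 0 2)] (by decide +kernel))
noncomputable def rh9ca31dd0e3db54c7 : CRef := CRef.mk (Pat.mk 0x2000000038000000000000000000000000 0x2000000020000000200000007e000000ff0000005000000010 6 8) 0 0 (step_sound _ 66 [(rh4c5c51b0ae60cece.shift 0 2), (rh976ffbf1bb8b5d82.shift 1 0), (rh9a0d4d6f390e20fe.shift 2 1)] (by decide +kernel))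
noncomputable def rha0bf1119d53c15ed : CRef := CRef.mk (Pat.mk 0xc0000000f000000010000000000000000 0xc0000001f0000001b0000001e0000000e 6 5) 0 0 (step_sound _ 67 [rh2f6e241f19106585, (rhe25b0a99195a5d59.shift 0 2)] (by decide +kernel))
noncomputable def rh2c90d9f596c1759c : CRef := CRef.mk (Pat.mk 0x38000000100000001000000000 0x180000001c000000f80000003e0000001f0000000c 6 8) 0 0 (step_sound _ 67 [(rh1b048598a8b37bd5.shift 2 1), rh21813610927c0a1b, (rh4dc133ee0ba1420a.shift 1 2)] (by decide +kernel))
noncomputable def rhbcccfe4c0453af3d : CRef := CRef.mk (Pat.mk 0x8000000180000000e00000004 0x60000000f0000001f0000003e00000007 6 6) 0 0 (step_sound _ 36 [rh3d9e209d9d128a84, rhaf9f2efc81a8312b, rhcea95bd1ecd58bb2] (by decide +kernel))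
noncomputable def rh64fca9a919d3b388 : CRef := CRef.mk (Pat.mk 0x20000001a0000000300000000000000000000000000000000 0x50000000f0000001b0000000300000003000000070000000700000004 6 5) 0 0 (step_sound _ 64 [(rh385f4b79f5a221b0.shift 0 2), rha741ced187085847, (rhd5b92086fe7b06e3.shift 0 1), (rhdebc43b768884653.shift 0 1)] (by decide +kernel))
noncomputable def rh4ce79217ab98a5c9 : CRef := CRef.mk (Pat.mk 0x2000000038000000200000001000000000 0x24000000260000007e0000003f0000001800000008 6 7) 0 0 (step_sound _ 98 [(rh0de499e0455c9c14.shift 0 2), (rh99058911f432ea9e.shift 1 1), (rhe6f3c981f45ee7b2.shift 1 0)] (by decide +kernel))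
noncomputable def rh34c9ddba5742a2b3 : CRef := CRef.mk (Pat.mk 0x100000001c0000001000000010000000000000000000000000 0x100000003f0000001f00000030000000300000003000000020 6 6) 0 0 (step_sound _ 68 [(rha613ffd40b6c9d24.shift 3 0), (rhd29a1fb688eae70f.shift 4 1), (rhef803f7741d1b089.shift 0 1)] (by decide +kernel))
noncomputable def rh0d3c360b0785f8b4 : CRef := CRef.mk (Pat.mk 0xc0000000e000000000000000000000000 0x4000000040000000c0000000c0000003e0000000f0000000e00000004 6 6) 0 0 (step_sound _ 162 [(rh37d9ceebb86d75d1.shift 1 2), (rh55a1f6c57a317ce6.shift 2 1), rh9eae795f67609286] (by decide +kernel))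
noncomputable def rh659f5cc42b141b1a : CRef := CRef.mk (Pat.mk 0x80000001e000000100000000000000000 0x80000003e0000001f0000003c00000014 6 6) 0 0 (step_sound _ 65 [(rhba0a3928c182bc59.shift 1 0), (rheb0810cc63b001d8.shift 0 2)] (by decide +kernel))
noncomputable def rh9ea8b757f205eb0c : CRef := CRef.mk (Pat.mk 0x1a00000006000000000000000000000000 0x50000000700000007000000030000001f00000006000000070000000700000001 6 5) 0 0 (step_sound _ 161 [rhb87c81b4d8d5df91, (rhdbe2f635cd55a39c.shift 0 1), (rhe8a9e0e6037b7c6e.shift 0 2), (rhfb9fb48a5e63ed80.shift 0 2)] (by decide +kernel))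
noncomputable def rh83b8670db7903416 : CRef := CRef.mk (Pat.mk 0x2000000038000000080000000000000000 0x10000000140000003f0000003e0000001e0000000800000008 6 6) 0 0 (step_sound _ 98 [(rh1e1c298343268b38.shift 1 0), (rh732361783a6aa381.shift 1 0), (rh7fb660bc21ce4329.shift 0 3), (rhb9dd680bb9375a9f.shift 1 0)] (by decide +kernel))
noncomputable def rh63c5337eabcefe94 : CRef := CRef.mk (Pat.mk 0x140000001c000000080000000000000000 0x130000001f0000001c0000000c0000000c0000000c 6 5) 0 0 (step_sound _ 35 [(rh71222050f2c63a3a.shift 3 0), rh91f3397f5fb455c4] (by decide +kernel))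
noncomputable def rhc2e451d626176656 : CRef := CRef.mk (Pat.mk 0x100000001e0000000000000000 0x4000000040000001f0000003f0000000300000002 6 6) 0 0 (step_sound _ 97 [(rh3244c3cc8379b070.shift 0 2), rhb48c7ee127287bcc] (by decide +kernel))
noncomputable def rh61bfcceca99b53f5 : CRef := CRef.mk (Pat.mk 0x100000003000000000000000380000000000000000 0x4000000140000003c0000000f0000007c0000000e00000008 6 7) 0 0 (step_sound _ 98 [(rh1aee1081b23e5c96.shift 0 1), (rh4df35fbc131eb4ae.shift 0 2), (rha21939080728ccea.shift 0 1), (rhabaaf3cbb809331d.shift 1 0), (rhb1c18129679171f4.shift 2 0)] (by decide +kernel))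
noncomputable def rh9a0d16ee7a537563 : CRef := CRef.mk (Pat.mk 0x100000003c00000000 0x1c000000ff00000067 6 8) 0 0 (step_sound _ 5 [(rhe25b0a99195a5d59.shift 2 0), rhec0f150ffdda098a] (by decide +kernel))
noncomputable def rhd292a17629f1d686 : CRef := CRef.mk (Pat.mk 0x200000007800000000 0x370000007e000000ce 6 8) 0 0 (step_sound _ 6 [(rhe25b0a99195a5d59.shift 3 0), rhf0dcb8af34d9ea65] (by decide +kernel))
noncomputable def rh31df0bbddf0be61d : CRef := CRef.mk (Pat.mk 0x80000000800000009000000180000000000000000 0x18000000180000001c0000000c0000000f000000180000000800000008 6 5) 0 0 (step_sound _ 98 [(rhab22b5b56e7b3243.shift 0 2), (rhcaa2c1a05e34bcba.shift 2 0)] (by decide +kernel))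
noncomputable def rhe5a9eeacb4bfeb50 : CRef := CRef.mk (Pat.mk 0x8000000080000000900000018 0x40000001c0000001c000000180000000c0000000f00000018 6 5) 0 0 (step_sound _ 34 [(rh42ab489a1be3958e.shift 2 0), rhab22b5b56e7b3243] (by decide +kernel))
noncomputable def rh0f13d0bfca265da3 : CRef := CRef.mk (Pat.mk 0x1000000010000000120000003400000000 0x8000000180000001f0000001f0000003400000014 6 6) 0 0 (step_sound _ 131 [rh26d887f3726e1abc, (rh50fbb5868c909700.shift 3 1)] (by decide +kernel))
noncomputable def rh3215f3b42377eb8a : CRef := CRef.mk (Pat.mk 0x1000000010000000120000003400000000 0x200000003000000030000000100000001b0000003e00000007 6 6) 0 0 (step_sound _ 165 [(rhbaefcd01e0a8bca3.shift 4 1), rhbafe1b71c35f72e2] (by decide +kernel))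
noncomputable def rh70b10f1260ebc875 : CRef := CRef.mk (Pat.mk 0x1000000010000000120000003400000000 0x80000001800000018000000100000001b0000003e00000007 6 6) 0 0 (step_sound _ 163 [rhe652f201b0742df1, (rhffd04209dc8ea796.shift 3 1)] (by decide +kernel))
noncomputable def rh2dde4f9228cf5665 : CRef := CRef.mk (Pat.mk 0x200000003000000020000000200000000 0x40000000700000007000000030000000300000003000000030000000600000004 6 3) 0 0 (step_sound _ 34 [(rh00d02a897ebd199e.shift 0 1), (rh55afc6a59410cf00.shift 1 0)] (by decide +kernel))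
noncomputable def rh9199d6ba2ab77a94 : CRef := CRef.mk (Pat.mk 0xc000000080000000a000000000000000000000000 0x80000000c0000000c0000001b0000001f0000001c00000014 6 5) 0 0 (step_sound _ 67 [(rh29c945565e5d58c5.shift 0 1), (rha613ffd40b6c9d24.shift 2 0), (rhe4441baab75a6f73.shift 2 0)] (by decide +kernel))
noncomputable def rheea9bbb1cf663a16 : CRef := CRef.mk (Pat.mk 0x1000000010000000100000001400000000 0x1000000010000000170000003e0000002f 6 6) 0 0 (step_sound _ 35 [rh4bf7e4f2df228537, (rh932754581e0f4330.shift 3 0)] (by decide +kernel))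
noncomputable def rhd9cbd9d7689bf191 : CRef := CRef.mk (Pat.mk 0x18000000180000000c0000000000000000 0x70000001f0000001c0000000c0000000c0000000c 6 5) 0 0 (step_sound _ 35 [rh33e591d1663cc4bf, (rh71222050f2c63a3a.shift 3 0)] (by decide +kernel))
noncomputable def rh46884caf55fc9ea5 : CRef := CRef.mk (Pat.mk 0x80000000e00000008000000000000000000000000 0x800000008000000080000000e0000003f0000003c0000001c0000001c 6 6) 0 0 (step_sound _ 98 [(rh121397a93ef3afd3.shift 1 2), (rh1e309b005ffa1b36.shift 2 1), rh68a367426c9cdf58] (by decide +kernel))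
noncomputable def rhfd6cf88dff701bbd : CRef := CRef.mk (Pat.mk 0xa0000000e000000040000000400000000 0x60000000e0000000e0000003c0000000f0000000a 6 6) 0 0 (step_sound _ 130 [(rh50fbb5868c909700.shift 1 1), rhf6e61450d4452d7e] (by decide +kernel))
noncomputable def rh8acca448118e479f : CRef := CRef.mk (Pat.mk 0x140000001c000000080000000800000000 0x8000000080000000b0000001f0000001c0000007c0000001e00000014 6 7) 0 0 (step_sound _ 131 [(rh2459533fc287d7d6.shift 2 0), (rh257cac3f88c56b7b.shift 2 0), rh3ec9baf74efce829, rhd7fd758ba0d70678, (rhf6e61450d4452d7e.shift 1 0)] (by decide +kernel))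
noncomputable def rh7a81a98a4b405ba3 : CRef := CRef.mk (Pat.mk 0x80000000e0000000400000000 0x40000000e0000000f0000003c0000000e0000003e00000018 6 6) 0 0 (step_sound _ 131 [(rh5c5e593799055d58.shift 2 1), rh61f46f9091f0b9cb] (by decide +kernel))
noncomputable def rh25f90fd20bad4b26 : CRef := CRef.mk (Pat.mk 0x80000001e000000040000000400000000 0x380000001e000000370000003c00000018 6 6) 0 0 (step_sound _ 65 [(rheb0810cc63b001d8.shift 0 2), (rhed31fe3d3cc5e5ee.shift 1 0)] (by decide +kernel))
noncomputable def rhe0af2ed9b7daedbe : CRef := CRef.mk (Pat.mk 0x8000000380000000800000000 0x100000001c0000001c0000000c00000018000000380000001f00000004 6 6) 0 0 (step_sound _ 131 [(rh5a26a7d31d0f2e10.shift 2 1), rh852e818bc8629e77, (rhd401560aa661b4cd.shift 2 0)] (by decide +kernel))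
noncomputable def rhd454e7ce549f0c70 : CRef := CRef.mk (Pat.mk 0xc0000001a0000000800000000 0x4000000040000000e0000000f0000001a0000000f00000006 6 5) 0 0 (step_sound _ 97 [rh479a591aadac29f9, (rhb739f4f82bb681b4.shift 0 2)] (by decide +kernel))
noncomputable def rh6da04f081b8813d6 : CRef := CRef.mk (Pat.mk 0xc0000001a000000080000000000000000 0xa0000001f0000001e0000000f0000000c0000000c 6 5) 0 0 (step_sound _ 129 [rh6651af40f9af2978, (rhb739f4f82bb681b4.shift 0 3)] (by decide +kernel))
noncomputable def rh59e4cc9c64db732a : CRef := CRef.mk (Pat.mk 0x8000000080000000c000000000000000400000000 0x18000000780000001f000000780000001c0000001c 6 7) 0 0 (step_sound _ 67 [(rh42e615827c8908b1.shift 0 1), (rha690ce9fcb5068d2.shift 1 0), (rhbd097c4034f102b6.shift 2 0)] (by decide +kernel))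
noncomputable def rhe92c2581d71bf85a : CRef := CRef.mk (Pat.mk 0x80000001e0000000c 0x3000000030000003f0000001e0000000f 6 6) 0 0 (step_sound _ 1 [rh53b3c253cb0c65f4, rh98d92ab9dd718be9] (by decide +kernel))
noncomputable def rh52a38d52737bb297 : CRef := CRef.mk (Pat.mk 0xe0000001a000000080000000000000000 0x2000000020000000b0000003e0000001e0000003c0000001000000010 6 6) 0 0 (step_sound _ 68 [(rh1c4a0c09e24b0f2e.shift 0 2), (rh55a1f6c57a317ce6.shift 3 0)] (by decide +kernel))
noncomputable def rh5c22cbd553636c38 : CRef := CRef.mk (Pat.mk 0xc000000080000000a0000000c 0xa0000000f0000003b0000003e0000000f 6 6) 0 0 (step_sound _ 34 [rh47590f78245f6767, (rh5c5e593799055d58.shift 2 0)] (by decide +kernel))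
noncomputable def rh8dd44acab8b95a10 : CRef := CRef.mk (Pat.mk 0x40000000500000004000000000000000000000000 0x2000000060000000600000006000000070000001e0000000e0000000e0000000a 6 5) 0 0 (step_sound _ 193 [(rh114f4abf4ea101c9.shift 1 2), (rh82d1df2ac73b6d40.shift 0 2), (rhc05d451ce3dd5e48.shift 1 0)] (by decide +kernel))
noncomputable def rhcfd232bf2af532ec : CRef := CRef.mk (Pat.mk 0x10000000380000000000000000 0x2000000020000000ff000000fe000001c700000040 6 9) 0 0 (step_sound _ 70 [(rh16c09bea24aec334.shift 0 1), (rh2fa8a6cd8a03c75c.shift 2 0), (rh695f888db18ad7c7.shift 3 1)] (by decide +kernel))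
noncomputable def rhceb7eb61ef7ca602 : CRef := CRef.mk (Pat.mk 0x400000008000000080000000c0000000000000000 0x140000001c0000007c0000000f0000000800000008 6 7) 0 0 (step_sound _ 35 [rhe62763857f961ffc, (rhffd04209dc8ea796.shift 2 1)] (by decide +kernel))
noncomputable def rh98b8d161630d359b : CRef := CRef.mk (Pat.mk 0x80000001a0000000c0000000000000000 0x20000000b0000001e0000003f0000003400000014 6 6) 0 0 (step_sound _ 65 [(rh53b3c253cb0c65f4.shift 0 2), rhb1f079c0ff02d1da] (by decide +kernel))
noncomputable def rh32c243555d8e95dd : CRef := CRef.mk (Pat.mk 0x80000001a0000000c0000000000000000 0x20000000b0000003e0000003f0000000400000004 6 6) 0 0 (step_sound _ 65 [(rh53b3c253cb0c65f4.shift 0 2), rh566f1b45e7b7dce0] (by decide +kernel))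
noncomputable def rh33ca2040a0c1a3f7 : CRef := CRef.mk (Pat.mk 0x200000002000000060000000200000000000000000000000000000000 0x10000000300000006000000060000000600000006000000060000000600000004 6 3) 0 0 (step_sound _ 224 [(rh1ed422ad98229120.shift 1 0), (rh50fbb5868c909700.shift 0 4)] (by decide +kernel))
noncomputable def rh21902ce15cc138c8 : CRef := CRef.mk (Pat.mk 0x4000000040000000e00000000 0x400000004000000ec0000007e00000073 6 8) 0 0 (step_sound _ 36 [rh1ae4704ae86cb9a8, (rhf5fa5e48e0784de2.shift 1 0)] (by decide +kernel))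
noncomputable def rh5415b4380b1a6025 : CRef := CRef.mk (Pat.mk 0x3000000020000000280000003000000000 0x70000003e0000006f0000002c0000007c0000004e 6 7) 0 0 (step_sound _ 38 [rh2f2db4a0b163e025, (rh55afc6a59410cf00.shift 5 0)] (by decide +kernel))
noncomputable def rhbee069a89b4fa027 : CRef := CRef.mk (Pat.mk 0x80000000a00000018000000000000000000000000 0x1a0000003b0000007f0000001f0000001c0000001c 6 7) 0 0 (step_sound _ 98 [(rh0e2f66b9530a6012.shift 1 0), (rhd0ed6ce702d0de55.shift 0 3), rhea212a187e58a08e] (by decide +kernel))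
noncomputable def rha0f490f05efbed91 : CRef := CRef.mk (Pat.mk 0x1000000010000000140000001000000000 0x80000001e0000007f000000360000001000000010 6 7) 0 0 (step_sound _ 131 [rh16ef14085b2b6785, (rh50fbb5868c909700.shift 3 1)] (by decide +kernel))
noncomputable def rhc003a9531f3dde3b : CRef := CRef.mk (Pat.mk 0x3000000028000000200000002000000000 0x4000000060000007c000000ef000000280000002800000020 6 8) 0 0 (step_sound _ 131 [(rh2820ca9a6c4f41b4.shift 0 3), (rha78b56add5e71b64.shift 2 0), (rhcd0ab74adf624db3.shift 1 1), (rhdde0e1a78f5059ea.shift 2 0), (rhfd9bf52e4153cf20.shift 2 0)] (by decide +kernel))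
noncomputable def rh768457b68d1e6eec : CRef := CRef.mk (Pat.mk 0x18000000140000000000000000 0xa0000000a0000000f0000007e000000370000000400000004 6 7) 0 0 (step_sound _ 98 [(rh480231ab31e80384.shift 1 1), (rh545103f8483e89f5.shift 0 2), rhf4e4690e1d4c3fc6] (by decide +kernel))
noncomputable def rh5cb3c1c582edf4ca : CRef := CRef.mk (Pat.mk 0x1e0000000a000000080000000000000000 0xa0000001e0000003a0000000f0000000c0000000c 6 6) 0 0 (step_sound _ 100 [rh7942bacd8c999042, (rhe25b0a99195a5d59.shift 1 3)] (by decide +kernel))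
noncomputable def rh04ddaf454a230f92 : CRef := CRef.mk (Pat.mk 0x2000000020000000200000002000000010000000000000000 0x100000007000000060000000600000002000000070000000700000004 6 3) 0 0 (step_sound _ 65 [(rh932754581e0f4330.shift 0 1), rh97da081bf21b385e] (by decide +kernel))
noncomputable def rh5f43c95fa1209c5f : CRef := CRef.mk (Pat.mk 0x1000000010000000140000003800000000 0xb0000001e000000fc000000160000003e00000007 6 8) 0 0 (step_sound _ 34 [(rh3244c3cc8379b070.shift 1 1), rhd79703ca2bead0c3] (by decide +kernel))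
noncomputable def rhb311896f637a0032 : CRef := CRef.mk (Pat.mk 0x28000000300000001000000010 0x8000000080000006f0000003e0000001f00000010 6 7) 0 0 (step_sound _ 67 [(rhb12ffaec36122c99.shift 0 1), (rhe072fffdd2fccf38.shift 3 0)] (by decide +kernel))
noncomputable def rh7f867edf5e198b6e : CRef := CRef.mk (Pat.mk 0x2000000028000000300000000000000000 0x2800000028000000ef0000007c000000c600000004 6 8) 0 0 (step_sound _ 67 [(rh299a18a9bb09cab4.shift 2 1), (rh41f22c48721f59ee.shift 1 0), (rh5ae4fcfc65b0c6c4.shift 2 1), (rha9fbfd4bb8cf890b.shift 0 2)] (by decide +kernel))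
noncomputable def rhdf7b93ff9cb86f5e : CRef := CRef.mk (Pat.mk 0x200000002800000030000000000000000000000000 0x800000028000000ef000000fc000000de0000005400000010 6 8) 0 0 (step_sound _ 99 [(rh41f22c48721f59ee.shift 1 1), (rha9fbfd4bb8cf890b.shift 0 3), (rhc1c1dc6967ad6567.shift 2 0)] (by decide +kernel))
noncomputable def rhf3410dedae1ea4cc : CRef := CRef.mk (Pat.mk 0x2000000028000000200000003000000000 0x380000007c0000006f0000003e0000003000000020 6 7) 0 0 (step_sound _ 132 [(rh50fbb5868c909700.shift 4 1), rha6ec4829a59c38e2] (by decide +kernel))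
noncomputable def rh8d9e2fce1162e835 : CRef := CRef.mk (Pat.mk 0x400000007800000000 0x670000007f0000003c 6 7) 0 0 (step_sound _ 34 [(rh428265de8cd3cd2d.shift 2 1), rhab0e37b52f061b7c] (by decide +kernel))
noncomputable def rh2d1dfc8d232d3731 : CRef := CRef.mk (Pat.mk 0x4000000000000000200000002000000000000000000000000 0x50000000700000007000000060000000700000003000000070000000700000005 6 3) 0 0 (step_sound _ 161 [(rh87d5e4118780fa3b.shift 1 2), (rh8f3c544a17d1186e.shift 0 2), rhc94dfb5f501cb051] (by decide +kernel))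
noncomputable def rh208de909b5e667bb : CRef := CRef.mk (Pat.mk 0x200000002000000000000000700000004000000000000000000000000 0x20000000e0000003c0000000f000000040000000e0000000e0000000a 6 6) 0 0 (step_sound _ 162 [rh0de26a20b88d2e45, (rhcfdf45280693d3da.shift 1 3)] (by decide +kernel))
noncomputable def rhb803456a6e04ecdd : CRef := CRef.mk (Pat.mk 0x100000001c000000000000000000000000 0x4000000370000003e000000030000000200000002 6 6) 0 0 (step_sound _ 97 [(rh33e738c4ed385b9f.shift 1 3), rh6076add87d5fdaa7] (by decide +kernel))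
noncomputable def rhca81c8484d2344ae : CRef := CRef.mk (Pat.mk 0x800000008000000080000000800000000 0xc0000000c000000080000000f0000003c00000014 6 6) 0 0 (step_sound _ 130 [rh161c003cd166b8ec, (rh50fbb5868c909700.shift 2 1)] (by decide +kernel))
noncomputable def rh5887b7a97269bbd5 : CRef := CRef.mk (Pat.mk 0x100000000000000008000000080000000800000000 0x1800000018000000080000000f0000003c00000014 6 6) 0 0 (step_sound _ 131 [rh641b5241be04eec6, (rhbaefcd01e0a8bca3.shift 3 1)] (by decide +kernel))
noncomputable def rh6f6acb3c17a6b047 : CRef := CRef.mk (Pat.mk 0x80000000e000000180000000000000000 0x20000007f0000003e0000001f0000003400000034 6 7) 0 0 (step_sound _ 100 [(rh56a24c72f1c55520.shift 0 3), rh8923ea539754fe60, rhaec872ec404cf678] (by decide +kernel))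
noncomputable def rhfc615b022cd6e20d : CRef := CRef.mk (Pat.mk 0x100000001800000070000000000000000000000000 0x50000000d80000007f000000ef0000002800000020 6 8) 0 0 (step_sound _ 99 [(rh5b460b71d8952ca9.shift 0 2), (rh9c40a739b57d6d20.shift 2 1), (rhf459621b93742302.shift 2 0)] (by decide +kernel))
noncomputable def rh61754ea3361139ac : CRef := CRef.mk (Pat.mk 0x8000000080000000c0000000c000000000000000000000000 0x80000000c0000003f0000001f000000130000000200000002 6 6) 0 0 (step_sound _ 100 [(rh55afc6a59410cf00.shift 3 2), rhfe4ee77e0002780a] (by decide +kernel))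
noncomputable def rh1dc7c236234c0154 : CRef := CRef.mk (Pat.mk 0x2000000030000000200000002000000000000000000000000 0x6000000070000000300000006000000070000000700000001 6 3) 0 0 (step_sound _ 66 [rh0db2da1274803b04, (rhd3458b32566d63f7.shift 1 2)] (by decide +kernel))
noncomputable def rh869d22f754a2180a : CRef := CRef.mk (Pat.mk 0x80000000c00000008000000100000000000000000 0x1c0000003c0000000f000000180000001800000008 6 6) 0 0 (step_sound _ 67 [(rh55afc6a59410cf00.shift 3 1), rhc189904a255ed82e] (by decide +kernel))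
noncomputable def rh49c038f007bdbc40 : CRef := CRef.mk (Pat.mk 0x2000000030000000200000001000000000000000000000000 0x7000000070000000600000003000000070000000600000004 6 3) 0 0 (step_sound _ 97 [(rh932754581e0f4330.shift 0 2), rh9cb1baa24be679bc] (by decide +kernel))
noncomputable def rh2bf93dfc2a1a08b3 : CRef := CRef.mk (Pat.mk 0x1000000018000000080000000000000000 0x4000000040000007e000000fe0000000f0000000800000008 6 8) 0 0 (step_sound _ 35 [(rh71222050f2c63a3a.shift 3 0), (rha46c6238824f0a07.shift 0 1)] (by decide +kernel))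
noncomputable def rhf45dd5894f4f8145 : CRef := CRef.mk (Pat.mk 0x80000001c00000000 0x7f000000fe000000e0 6 8) 0 0 (step_sound _ 37 [(rh58f7607681416282.shift 1 0), (rh61325f73ebf98108.shift 0 1), (rhe3060b190bc0bc78.shift 1 1)] (by decide +kernel))
noncomputable def rh1c61de6f3e5a7e2d : CRef := CRef.mk (Pat.mk 0x8000000080000000c0000000000000000000000000000000000000000 0x80000000c0000000f0000007c0000001c0000001c0000001c00000010 6 7) 0 0 (step_sound _ 131 [(rh0b0198cd56a23f60.shift 0 3), (rh1d731470c5f6b8e1.shift 2 0), (rh7fe11f484215afaf.shift 0 3), (rhafd44d417107dbfd.shift 2 1), (rhed841d9ebc5dd0e1.shift 2 1)] (by decide +kernel))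
noncomputable def rha9cbbbc5ace8f2bb : CRef := CRef.mk (Pat.mk 0x8000000000000001c00000016000000000000000000000000 0x1800000018000000340000001f0000001e0000003b0000001a0000001a 6 6) 0 0 (step_sound _ 99 [(rh2ee2395d40407687.shift 1 0), (rh87315b72b14f32fb.shift 0 3), rh88129595a1b18399] (by decide +kernel))
noncomputable def rha5e4058e847f132c : CRef := CRef.mk (Pat.mk 0x4000000000000000e0000000b0000000000000000 0x140000001c000000180000000f0000001b0000001e00000014 6 5) 0 0 (step_sound _ 131 [(rh0bcc12a99d41656d.shift 0 1), (rh21ffa27e82a77d78.shift 2 0), rhb766730d84069b16, (rhcf86d050071af9b3.shift 0 2)] (by decide +kernel))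
noncomputable def rh5ee3ef9176cfb6bc : CRef := CRef.mk (Pat.mk 0x1c00000016000000000000000000000000 0x140000001c0000007e0000007f0000001800000018 6 7) 0 0 (step_sound _ 99 [(rh0cb6a409506b34ea.shift 1 2), (rh2ee2395d40407687.shift 1 0), (rhf10fa853c2693a25.shift 0 2)] (by decide +kernel))
noncomputable def rh1c6ac56e18af88e8 : CRef := CRef.mk (Pat.mk 0x4000000080000000e0000000000000000 0x4000000040000001c0000001f000000780000000f0000000800000008 6 7) 0 0 (step_sound _ 100 [(rh53b3c253cb0c65f4.shift 0 2), rhdce28373eae47117] (by decide +kernel))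
noncomputable def rh24eb7e13db896fe8 : CRef := CRef.mk (Pat.mk 0x4000000080000000e00000000 0x140000001c0000003c0000001f000000780000000f00000004 6 7) 0 0 (step_sound _ 99 [(rh00bbf7855e20f51c.shift 0 1), (rh32431e66bbf434a4.shift 2 0), rh4f34fdf39c8bfb04] (by decide +kernel))
noncomputable def rh1501d881de8fa059 : CRef := CRef.mk (Pat.mk 0x4000000080000000c000000000000000000000000 0x140000003c0000001f000000780000000c0000000c0000000c00000004 6 7) 0 0 (step_sound _ 163 [(rh281c6819542c66e6.shift 2 0), (rh4f34fdf39c8bfb04.shift 0 2), (rhc86e3ab3c2b165e9.shift 1 1)] (by decide +kernel))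
noncomputable def rh7ffb9cedb3024da2 : CRef := CRef.mk (Pat.mk 0x1000000010000000180000001800000000 0x1000000010000000f8000000ff00000027 6 8) 0 0 (step_sound _ 37 [rh4158fba5e578f86c, (rh55afc6a59410cf00.shift 4 0)] (by decide +kernel))
noncomputable def rh4de64a7d26810655 : CRef := CRef.mk (Pat.mk 0x8000000080000000c0000000c0000000000000000 0x80000001c0000003c0000001f0000001800000018 6 6) 0 0 (step_sound _ 36 [rh677eec97b64b932a, (rhd3458b32566d63f7.shift 3 1)] (by decide +kernel))
noncomputable def rh85471dddf5afd741 : CRef := CRef.mk (Pat.mk 0x400000000000000180000000b0000000000000000 0x80000001c0000003e000000f8000000180000001b0000001e0000001c 6 8) 0 0 (step_sound _ 132 [rh214f3bca0327aa94, (rh4821dcf828b9d7bf.shift 3 0), (rhadf429772c25fde0.shift 3 0), (rhb851bb2d9a1bb6bd.shift 1 1)] (by decide +kernel))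
noncomputable def rh6adce385a72e6244 : CRef := CRef.mk (Pat.mk 0x100000001e00000000 0x200000002000000030000001f0000003f00000004 6 6) 0 0 (step_sound _ 65 [(rh3244c3cc8379b070.shift 0 1), rh90505b7a95df56f7] (by decide +kernel))
noncomputable def rh52a08d951d30f13d : CRef := CRef.mk (Pat.mk 0x5000000018000000000000000000000000 0x1000000050000000df000000fe000000f70000002000000020 6 8) 0 0 (step_sound _ 101 [rh622fb814d4d81162, (rh834ef1c974e4840e.shift 2 0), (rhca6a4af813f68cee.shift 2 3)] (by decide +kernel))
noncomputable def rh654a8554455801a1 : CRef := CRef.mk (Pat.mk 0x40000000600000004000000020000000000000000 0xe0000000f0000003c000000060000000600000004 6 6) 0 0 (step_sound _ 66 [(rh932754581e0f4330.shift 1 1), rhc86e3ab3c2b165e9] (by decide +kernel))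
noncomputable def rh2afe3d485df8e907 : CRef := CRef.mk (Pat.mk 0x8000000080000000c0000000400000000 0x140000001e0000007c0000000f0000003c00000018 6 7) 0 0 (step_sound _ 35 [(rh305945700f20b255.shift 1 0), rh9bf22e708841bd13, rhe62763857f961ffc, rhfe557af9112f51d6] (by decide +kernel))
noncomputable def rhf68f6976cbc46790 : CRef := CRef.mk (Pat.mk 0x20000000600000003000000000000000000000000 0x20000000300000007000000070000000700000003000000060000000600000004 6 3) 0 0 (step_sound _ 65 [(rh7f8df149e0a95c13.shift 0 2), rh8ff3dde5b1c639e0, (rha707fb719e87fe6e.shift 1 1)] (by decide +kernel))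
noncomputable def rh0366217c5eadaa23 : CRef := CRef.mk (Pat.mk 0x8000000080000000e0000000400000000 0x60000000f0000003c0000000e0000003c00000018 6 6) 0 0 (step_sound _ 35 [(rh42afa1af9fffa0e1.shift 1 0), rha10abbb88ab9db0f] (by decide +kernel))
noncomputable def rh3e433c05b121ec8e : CRef := CRef.mk (Pat.mk 0x40000000400000004000000000000000000000000 0x20000000a0000000f0000003e0000000e00000004000000060000000600000002 6 6) 0 0 (step_sound _ 193 [(rh0dbc8abee7ad42d4.shift 1 2), (rh114f4abf4ea101c9.shift 1 2), (rh374ae440e8011597.shift 1 0), (rhbab796f6dafe9186.shift 1 3), (rhbec796c3ea7a32e6.shift 0 2)] (by decide +kernel))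
noncomputable def rh0ea559c7e040a2c7 : CRef := CRef.mk (Pat.mk 0x800000008000000180000001000000010 0x2000000028000001ef000000fe000001f600000014 6 9) 0 0 (step_sound _ 69 [(rh28b05447332bc696.shift 1 0), (rh9c94213f6896c74a.shift 2 1), (rha9fbfd4bb8cf890b.shift 0 2), (rhbb07bccc04294ee7.shift 1 0)] (by decide +kernel))
noncomputable def rhe21618867378949c : CRef := CRef.mk (Pat.mk 0x1e00000010 0xe0000000ff0000001f 6 8) 0 0 (step_sound _ 1 [rhe1184ed7de424113, rheb0810cc63b001d8] (by decide +kernel))
noncomputable def rh20c6879893dae772 : CRef := CRef.mk (Pat.mk 0x1000000070000000000000002000000020 0xfe0000007e000000c70000006000000020 6 8) 0 0 (step_sound _ 130 [(rh075211c3608a5a57.shift 1 3), (rh4b858afe2cb38247.shift 2 3), rh8db3639cf3f20581, (rhc30259bd62f0e380.shift 1 3)] (by decide +kernel))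
noncomputable def rh35ffcffefd4f8e1c : CRef := CRef.mk (Pat.mk 0x400000007000000000000000200000002 0xa0000000e0000000e000000040000000f0000003c0000000e00000002 6 6) 0 0 (step_sound _ 66 [(rh0efd06122c11d03d.shift 0 1), (rheea67dfebd0f8008.shift 1 0)] (by decide +kernel))
noncomputable def rh86002f0f5d23ee8c : CRef := CRef.mk (Pat.mk 0x800000008000000080000000000000010 0x140000001f00000038000000080000001800000018 6 6) 0 0 (step_sound _ 35 [rh2726962e49a46af1, (rhd3458b32566d63f7.shift 3 0)] (by decide +kernel))
noncomputable def rh12039ef332e0b56a : CRef := CRef.mk (Pat.mk 0x20000000e0000000400000004 0x8000000080000007e0000003f0000000700000004 6 7) 0 0 (step_sound _ 68 [(rh790acd67f4fffd04.shift 1 2), (rhaf9f2efc81a8312b.shift 0 1), rhcf76227e399dda82] (by decide +kernel))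
noncomputable def rhd25dee90c78d0f4b : CRef := CRef.mk (Pat.mk 0x10000000700000002000000020 0x4000000040000000fc0000007f0000003e00000020 6 8) 0 0 (step_sound _ 67 [(rh13cff1aaa4924947.shift 2 0), (rh49606a42a30c7ac4.shift 3 0), (rh5ada0a7e0c8eff0d.shift 0 1)] (by decide +kernel))
noncomputable def rh82924f5ad9ba8f54 : CRef := CRef.mk (Pat.mk 0x40000000e0000000c0000000000000000 0x80000000f0000003e0000003f0000003000000010 6 6) 0 0 (step_sound _ 68 [rh1626414fc80454b9, (rhf48373e13d2bc128.shift 1 2)] (by decide +kernel))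
noncomputable def rh982db90d48a4f8a2 : CRef := CRef.mk (Pat.mk 0x8000000080000000800000008000000000000001000000000 0x8000000080000000c0000001f0000003c0000001c000000080000001800000018 6 6) 0 0 (step_sound _ 162 [(rh28acecebae2a05e3.shift 2 0), (rhdb44bbcb1af3448c.shift 2 0), (rhffa6626333fb9695.shift 0 3)] (by decide +kernel))
noncomputable def rhce852a30e123e237 : CRef := CRef.mk (Pat.mk 0x100000002000000020000000200000000000000040000000000000000 0x100000007000000060000000600000002000000070000000700000001 6 3) 0 0 (step_sound _ 97 [rh0fd65e3cf503e830, (rhffd04209dc8ea796.shift 0 3)] (by decide +kernel))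
noncomputable def rhc0e82037423cd898 : CRef := CRef.mk (Pat.mk 0x400000002000000020000000200000000000000040000000000000000 0x400000007000000030000000300000002000000070000000700000001 6 3) 0 0 (step_sound _ 97 [rha822df604b29e217, (rhbaefcd01e0a8bca3.shift 1 3)] (by decide +kernel))
noncomputable def rh63704e89b8eb14e0 : CRef := CRef.mk (Pat.mk 0x8000000080000000800000008000000000000001000000000 0x800000008000000180000003c0000001f0000001c000000080000001800000018 6 6) 0 0 (step_sound _ 164 [(rh789bd2867c112ed3.shift 2 0), (rh86f63a2dc51cda1a.shift 0 3), (rhff7aedbadce28866.shift 3 0)] (by decide +kernel))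
noncomputable def rhcc23c4ead179ac0d : CRef := CRef.mk (Pat.mk 0x2000000020000000200000002000000000000000400000000 0x600000006000000070000000300000003000000020000000600000006 6 3) 0 0 (step_sound _ 194 [rh04bda9fd528c2b12, (rh2f68792b6b779e96.shift 1 3)] (by decide +kernel))
noncomputable def rh95155897baadfd01 : CRef := CRef.mk (Pat.mk 0x1c0000000800000000 0x200000002000000030000003f0000003f00000004 6 6) 0 0 (step_sound _ 65 [rh3a69dc315759d1b4, (rha03f6e28ea70fc7d.shift 0 1), (rhf90a9b43adab6acc.shift 0 1)] (by decide +kernel))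
noncomputable def rh56d0616b4ec17881 : CRef := CRef.mk (Pat.mk 0x400000004000000040000000400000004 0x400000004000000060000000f0000003e0000000e00000004 6 6) 0 0 (step_sound _ 97 [(rh50fbb5868c909700.shift 1 0), (rhae6963f741337a93.shift 0 1)] (by decide +kernel))
noncomputable def rh9fd0afdf40ec6f0c : CRef := CRef.mk (Pat.mk 0x4000000000000001c0000000800000008 0x100000003e000000f00000001f0000003800000008 6 8) 0 0 (step_sound _ 100 [(rh5dec5e73a267a1c4.shift 0 1), (rh69755ef358ebfd54.shift 3 0), (rh6a0d432b8da5b206.shift 1 1)] (by decide +kernel))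
noncomputable def rh97b9888ffb564005 : CRef := CRef.mk (Pat.mk 0x4000000040000000e00000008 0x100000003c0000007f000000fe00000038 6 8) 0 0 (step_sound _ 36 [rh6e3dbae996527b3c, rh766500f60de98127, (rhf300f571c00d73dc.shift 1 0)] (by decide +kernel))
noncomputable def rhd062d8a80bc2cd8c : CRef := CRef.mk (Pat.mk 0xc0000000c0000003800000000 0x60000000f0000003e0000007c0000003e00000002 6 7) 0 0 (step_sound _ 130 [(rh2145e1d24b96a57e.shift 2 1), rhe57853ab57eb0f2c] (by decide +kernel))
noncomputable def rhad23f4903446f583 : CRef := CRef.mk (Pat.mk 0x3800000010000000100000003000000000 0x3c000000f0000001f7000000fe000001cf 6 9) 0 0 (step_sound _ 35 [rh68a8056ad4449cd4, (rh932754581e0f4330.shift 3 0)] (by decide +kernel))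
noncomputable def rh0cf2646ecaafedc1 : CRef := CRef.mk (Pat.mk 0x40000000400000004000000000000000000000000 0x20000000a0000000f0000003e00000006000000040000000e0000000e0000000a 6 6) 0 0 (step_sound _ 193 [(rh114f4abf4ea101c9.shift 1 2), (rhbab796f6dafe9186.shift 1 3), (rhbba7d23481996066.shift 1 0), (rhbec796c3ea7a32e6.shift 0 2)] (by decide +kernel))
noncomputable def rh2a3c41dd5839c3ee : CRef := CRef.mk (Pat.mk 0x100000001000000018000000080000000800000000 0x14000001f6000000fe000001ef0000002800000020 6 9) 0 0 (step_sound _ 101 [(rh2820ca9a6c4f41b4.shift 0 2), (rh2ead9b9cc22afc12.shift 1 0), (rh352b7f91eba0c81f.shift 2 2), (rha8e118612a5545ec.shift 1 1)] (by decide +kernel))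
noncomputable def rh52cd693fb77420df : CRef := CRef.mk (Pat.mk 0x400000008000000180000000e00000000 0x40000000c000000080000001f000000fe000000f0 6 8) 0 0 (step_sound _ 131 [(rh50fbb5868c909700.shift 2 1), rh61e5bc5519caa3bb] (by decide +kernel))
noncomputable def rhab4c27f203e80247 : CRef := CRef.mk (Pat.mk 0x800000008000000180000001000000010 0x2000000028000001ef000000fe000001f600000014 6 9) 0 0 (step_sound _ 69 [(rh9c94213f6896c74a.shift 2 1), (rha9fbfd4bb8cf890b.shift 0 2), (rhbb07bccc04294ee7.shift 1 0), (rhce0f13be68529444.shift 2 0)] (by decide +kernel))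
noncomputable def rh03421ec39b8494b6 : CRef := CRef.mk (Pat.mk 0x100000003000000028 0x1f000000fe000001ff 6 9) 0 0 (step_sound _ 35 [rh2820ca9a6c4f41b4, (rh9909eeda0ef2ed2c.shift 2 0), rhc92c11e8da6c894f, (rhdd1f17e324a6ef8c.shift 2 0)] (by decide +kernel))
noncomputable def rh3d478c599e9c60db : CRef := CRef.mk (Pat.mk 0x100000001000000030000000280000000000000000 0x100000001f000000fe000001ef0000000800000008 6 9) 0 0 (step_sound _ 99 [(rhc92c11e8da6c894f.shift 0 2), (rhdd1f17e324a6ef8c.shift 2 2), (rhf9af042da61fc652.shift 3 0)] (by decide +kernel))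
noncomputable def rh837ab7a725c5d410 : CRef := CRef.mk (Pat.mk 0x1000000018000000700000000000000000 0x1000000010000000f80000007f0000000f00000008 6 8) 0 0 (step_sound _ 67 [(rh1e309b005ffa1b36.shift 3 0), (rh3e9601eff8aa538d.shift 0 1), (rh8acdb7b45075d8f3.shift 2 1)] (by decide +kernel))
noncomputable def rh5af8e482ce85a3a3 : CRef := CRef.mk (Pat.mk 0x18000000100000001000000010 0x270000007e000000ff0000001000000010 6 8) 0 0 (step_sound _ 101 [(rh2f68792b6b779e96.shift 4 0), (rhf8c9c2a754b51f59.shift 0 2)] (by decide +kernel))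
noncomputable def rh2cdc4ec22fb0a8e3 : CRef := CRef.mk (Pat.mk 0x180000001c000000100000001000000000 0x300000003000000030000000180000001f000000180000001800000008 6 6) 0 0 (step_sound _ 35 [(rh865d08e07bfd97af.shift 0 1), (rh932754581e0f4330.shift 3 0)] (by decide +kernel))
noncomputable def rh7a23023020b8c3e0 : CRef := CRef.mk (Pat.mk 0x40000000e000000080000000800000000 0x180000003c0000000e0000003c0000000f00000006 6 6) 0 0 (step_sound _ 131 [(rh712526e472efe489.shift 1 1), rhb1111a1bcb4ac16d] (by decide +kernel))
noncomputable def rh614d22830ba149fc : CRef := CRef.mk (Pat.mk 0x800000008000000180000001000000010 0x200000007c000001ef0000007e0000007600000014 6 9) 0 0 (step_sound _ 69 [rh297fae84acdfca38, (rh305e60cb0bb1bfe3.shift 1 0), (rha9fbfd4bb8cf890b.shift 0 2), (rhbb07bccc04294ee7.shift 1 0)] (by decide +kernel))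
noncomputable def rh43e57be33272f09f : CRef := CRef.mk (Pat.mk 0x1000000038000000000000000000000000 0x80000000c000001de000000fc0000001f0000000c00000008 6 9) 0 0 (step_sound _ 66 [(rh4c5c51b0ae60cece.shift 0 2), (rh73f5f7cdf41b5bc9.shift 1 1), (rhe1c32197ffb40f8f.shift 0 2), (rhe325f2417d8c01f2.shift 2 2), (rhe66e63ebd0555c09.shift 1 0)] (by decide +kernel))
noncomputable def rh2c2de30d19aecb9c : CRef := CRef.mk (Pat.mk 0x8000000180000001000000018 0x200000007e0000007f000000ff00000018 6 8) 0 0 (step_sound _ 66 [(rh730e79d6750badce.shift 0 1), (rh9825d0c98fedc720.shift 1 0), (rhcced840e0475f351.shift 1 0)] (by decide +kernel))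
noncomputable def rh2f91e47ba3b15aa7 : CRef := CRef.mk (Pat.mk 0x40000000c000000080000000c 0x60000000f0000003e0000000f0000000c 6 6) 0 0 (step_sound _ 34 [rh1673820267637e27, (rh2145e1d24b96a57e.shift 2 0)] (by decide +kernel))
noncomputable def rhfaa742efe15bd053 : CRef := CRef.mk (Pat.mk 0x800000008000000080000000800000000 0x140000003c0000000f000000080000000c0000000c 6 6) 0 0 (step_sound _ 130 [(rh50fbb5868c909700.shift 2 1), rhc90b5dbafac5c9d8] (by decide +kernel))
noncomputable def rh39b4d31fe3e63eb9 : CRef := CRef.mk (Pat.mk 0xc00000004000000040000000e00000000 0xf20000007e000000f70000003c0000003f00000070 6 8) 0 0 (step_sound _ 132 [rh19e0adafe84a5e2e, (rhe991b0a7f5491f5b.shift 0 1), (rhfa35e196e150edb4.shift 1 3)] (by decide +kernel))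
noncomputable def rhed1e04fc572982ac : CRef := CRef.mk (Pat.mk 0x200000002000000060000000200000000000000000000000000000000 0x200000006000000060000000600000006000000070000000700000005 6 3) 0 0 (step_sound _ 97 [rh1b9022be4f7af407, (rhb1fd7ebb07efd631.shift 1 1), (rhd29a1fb688eae70f.shift 1 2)] (by decide +kernel))
noncomputable def rh500c9bab5b65feb2 : CRef := CRef.mk (Pat.mk 0x80000000800000018000000000000000000000000 0x18000000180000007c0000001f0000001c0000001c 6 7) 0 0 (step_sound _ 36 [rh0a2ac98560ce45de, (rh3b5346b2e316d790.shift 3 0), (rh5278689ccab1c3c2.shift 3 0), (rhc140869848ea0f2e.shift 3 1)] (by decide +kernel))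
noncomputable def rhcff6995daf2b46ea : CRef := CRef.mk (Pat.mk 0x3000000020000000200000007000000000 0x70000003e0000007c000000ee0000007c0000000e 6 8) 0 0 (step_sound _ 35 [(rh592c7139d2c44767.shift 1 0), rh81125b816b39ad72, (rhec46bd5500c722c9.shift 2 1)] (by decide +kernel))
noncomputable def rhe1d4d69ad8fd1984 : CRef := CRef.mk (Pat.mk 0x40000000400000004000000000000000000000000 0x80000000a0000003e0000000f0000000e00000004000000060000000600000002 6 6) 0 0 (step_sound _ 195 [(rh1725eba4bd36066a.shift 1 0), (rh23d0e80c801fc3e0.shift 0 2), (rh5890386c1f942fa1.shift 2 3), (rh87d5e4118780fa3b.shift 2 2)] (by decide +kernel))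
noncomputable def rh09361476c1ed2154 : CRef := CRef.mk (Pat.mk 0x20000000400000004000000040000000000000000 0x600000006000000040000003c0000000f0000000a 6 6) 0 0 (step_sound _ 34 [rh3ca4c10fdf355329, (rhffd04209dc8ea796.shift 1 1)] (by decide +kernel))
noncomputable def rh9a9dbff92452f3d0 : CRef := CRef.mk (Pat.mk 0x180000000800000008000000000000000000000000 0x80000001800000018000000380000001f0000001c00000014 6 6) 0 0 (step_sound _ 67 [(rh589345da44c3b4b3.shift 0 1), (rh8c3839f9b9075f23.shift 3 0), (rha8bc3cae4d77a08f.shift 2 0)] (by decide +kernel))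
noncomputable def rhfa964993880326a1 : CRef := CRef.mk (Pat.mk 0x2000000000000000100000003800000000 0x2000000020000003f7000001fe000001c7 6 10) 0 0 (step_sound _ 34 [(rh503775339733bab1.shift 0 1), rh592c7139d2c44767, (rhca16660e8b7b4cec.shift 2 0)] (by decide +kernel))
noncomputable def rh8d16e642349cbbdf : CRef := CRef.mk (Pat.mk 0x400000007000000040000000400000000 0x40000000f0000003e0000003f0000007a 6 7) 0 0 (step_sound _ 33 [(rh932754581e0f4330.shift 1 0), rhf8437121ddf01094] (by decide +kernel))
noncomputable def rh55f244b9242b7531 : CRef := CRef.mk (Pat.mk 0x80000001c00000006000000040000000000000000 0x30000000780000001c0000003e0000003f0000003b00000002 6 7) 0 0 (step_sound _ 68 [(rh3be6b8746885e3c9.shift 0 1), (rh56d924f8388e4bc6.shift 1 1), (rhb7fba35336b57849.shift 1 1), rhe6760eaa6d926ed2, (rhf324027211bf676f.shift 1 1)] (by decide +kernel))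
noncomputable def rh5ec40acab9b24577 : CRef := CRef.mk (Pat.mk 0x380000001c000000100000000000000000 0x400000004000000070000003f0000007c000000180000003000000030 6 7) 0 0 (step_sound _ 36 [(rh7b1f1fb55310c477.shift 3 0), rhad42fb35214b7812] (by decide +kernel))
noncomputable def rhe2b8568a07fed0b4 : CRef := CRef.mk (Pat.mk 0x70000000180000000000000000 0x2000000028000000ef0000007f000000380000001000000010 6 8) 0 0 (step_sound _ 99 [(rh38a0850c9fea941e.shift 2 0), (rh55e60302792fb64b.shift 2 0), (rha58ddf8813c4b875.shift 0 2)] (by decide +kernel))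
noncomputable def rh49d8d89b6e385a13 : CRef := CRef.mk (Pat.mk 0x200000003000000020000000200000000000000000000000000000000 0x200000003000000070000000600000006000000070000000700000005 6 3) 0 0 (step_sound _ 97 [rha6e4ed44f7b6a7de, rhc05d451ce3dd5e48, (rhd29a1fb688eae70f.shift 1 2)] (by decide +kernel))
noncomputable def rhd023fd75a429a711 : CRef := CRef.mk (Pat.mk 0x1c000000060000000000000000 0x80000000a0000003b0000001f000000360000001400000004 6 6) 0 0 (step_sound _ 97 [rh38a0850c9fea941e, (rh52b4b7b516a7d39e.shift 0 1)] (by decide +kernel))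
noncomputable def rh5e2fdb8ed724854f : CRef := CRef.mk (Pat.mk 0x180000001e0000000000000000 0x2000000330000001f0000003e0000000400000004 6 6) 0 0 (step_sound _ 97 [rh203eeaf3c8b3b121, (rh3244c3cc8379b070.shift 0 2)] (by decide +kernel))
noncomputable def rhf5fb62b175efbf45 : CRef := CRef.mk (Pat.mk 0x380000001c0000001000000000 0x80000000f0000003f0000003c0000001600000006 6 6) 0 0 (step_sound _ 131 [(rh2145e1d24b96a57e.shift 3 1), rhe6743be51ea768bf] (by decide +kernel))
noncomputable def rhd8ce378acc034838 : CRef := CRef.mk (Pat.mk 0xc0000000e000000080000000000000000 0xc0000001e0000007b0000001f0000000e 6 7) 0 0 (step_sound _ 35 [rh30f50dcd5dc059cc, (rh7b1f1fb55310c477.shift 2 0)] (by decide +kernel))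
noncomputable def rhd2aafc2140594e43 : CRef := CRef.mk (Pat.mk 0x180000000e000000180000000000000000 0x30000000300000001f0000001e0000001f0000003000000030 6 6) 0 0 (step_sound _ 100 [rh404e8af4a6aeb81d, (rha2b37da49d51aaf0.shift 0 2), rhee2f2527188aceae] (by decide +kernel))
noncomputable def rhda60dd016dfe52e1 : CRef := CRef.mk (Pat.mk 0x80000001e000000100000000000000000 0x20000000b0000003e000000170000001400000014 6 6) 0 0 (step_sound _ 65 [rh1b62961e9504bdd7, (rheb0810cc63b001d8.shift 0 2)] (by decide +kernel))
noncomputable def rh01231226a6a701a7 : CRef := CRef.mk (Pat.mk 0x7800000018 0x800000008000000ec0000007f00000038 6 8) 0 0 (step_sound _ 67 [(rh3244c3cc8379b070.shift 2 1), rhc842a18a36847944] (by decide +kernel))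
noncomputable def rh3fede6a98356affb : CRef := CRef.mk (Pat.mk 0x2000000070000000300000000 0x60000000600000006000000070000001f0000000e 6 5) 0 0 (step_sound _ 129 [(rh5c5e593799055d58.shift 0 1), rhd915d793561220ee] (by decide +kernel))
noncomputable def rhcefe4dc19b1b5531 : CRef := CRef.mk (Pat.mk 0x60000001e000000000000000000000000 0x60000001f0000003f0000000300000003 6 6) 0 0 (step_sound _ 65 [rh367f577d745ba07a, (rheb0810cc63b001d8.shift 0 2)] (by decide +kernel))
noncomputable def rh9d823d66b12f6a23 : CRef := CRef.mk (Pat.mk 0xc0000000e000000080000000800000000 0x80000000c0000000e0000001b0000001f00000016 6 5) 0 0 (step_sound _ 34 [rh5a41665339964b7d, (rh932754581e0f4330.shift 2 0)] (by decide +kernel))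
noncomputable def rh8f7ac7d0891efd66 : CRef := CRef.mk (Pat.mk 0x1c000000060000000000000000 0x10000000300000001f0000003f0000000800000008 6 6) 0 0 (step_sound _ 97 [rhb32eb569dfc388a6, (rheb0810cc63b001d8.shift 0 2)] (by decide +kernel))
noncomputable def rh5940222dbe6c7d96 : CRef := CRef.mk (Pat.mk 0x380000001c000000000000000000000000 0xc0000000c0000000f0000003c0000001c0000000c0000000c0000000c 6 6) 0 0 (step_sound _ 162 [(rh1986ad29b18dc9d4.shift 2 0), (rhd652c19df8b64ee8.shift 1 1), (rhd7aca4f81ef05d59.shift 0 2)] (by decide +kernel))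
noncomputable def rhe3e6050a7f9169c4 : CRef := CRef.mk (Pat.mk 0x8000000180000001c000000100000000000000000 0x40000000c0000001c0000001c0000001f0000000f0000000c 6 5) 0 0 (step_sound _ 67 [(rh2b2a2906262d769a.shift 0 1), (rh46530d756bdf8511.shift 2 0), (rh674dd4f5f6cca5c0.shift 2 0)] (by decide +kernel))
noncomputable def rh0867506460b10cfb : CRef := CRef.mk (Pat.mk 0x3800000018000000000000000000000000 0x4000000270000003f0000001f000000180000001800000010 6 6) 0 0 (step_sound _ 68 [(rhb0c1e7919d9be92d.shift 3 0), (rhcde521a026efcdfa.shift 0 1)] (by decide +kernel))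
noncomputable def rh94708ebd8055582e : CRef := CRef.mk (Pat.mk 0x160000001c000000000000000000000000 0x2000000020000000f0000001e0000001f000000340000001400000010 6 6) 0 0 (step_sound _ 161 [(rhc2c7bae8f445c890.shift 1 1), rhee5340ae360403b6] (by decide +kernel))
noncomputable def rh827210f2b5f439b1 : CRef := CRef.mk (Pat.mk 0x500000007000000020 0x100000001000000077000001fe000001f0 6 9) 0 0 (step_sound _ 100 [(rh2145e1d24b96a57e.shift 4 0), rhdf10431edb470062] (by decide +kernel))
noncomputable def rhfa0a017db2605800 : CRef := CRef.mk (Pat.mk 0x2000000020000000e000000000000000000000000 0x5000000070000000700000007000000070000000e0000000b0000000300000001 6 4) 0 0 (step_sound _ 192 [(rh0dbc8abee7ad42d4.shift 0 2), (rh114f4abf4ea101c9.shift 0 2), rh374ae440e8011597, (rh42c8ae686d713d97.shift 0 3), (rh8680adb1fc683951.shift 0 2)] (by decide +kernel))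
noncomputable def rhceb53dfa4785286a : CRef := CRef.mk (Pat.mk 0x4000000078000000200000000000000000 0x470000007e0000003e0000002000000020 6 7) 0 0 (step_sound _ 37 [(rh71222050f2c63a3a.shift 5 0), (rh8aa80d8d90d3223c.shift 0 2)] (by decide +kernel))
noncomputable def rh96cc97d975a43214 : CRef := CRef.mk (Pat.mk 0x1000000078000000200000000000000000 0x10000000f80000007c0000001f00000008 6 8) 0 0 (step_sound _ 67 [rh211b21a6a0e098eb, (rheb0810cc63b001d8.shift 2 2)] (by decide +kernel))
noncomputable def rhb9226156048f6dd3 : CRef := CRef.mk (Pat.mk 0x4000000140000001c0000000800000000 0xa0000000f0000001c0000001c0000001f00000016 6 5) 0 0 (step_sound _ 34 [rh598f13c23c68daa6, rhf5094ad2a427d4d3] (by decide +kernel))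
noncomputable def rhae1ef08449b1432d : CRef := CRef.mk (Pat.mk 0x400000007000000000 0x67000000fe000001ff 6 9) 0 0 (step_sound _ 35 [(rh06db8ceda6269a47.shift 2 0), rh5e601430b8bc2e39, (rh7170cc1370c66062.shift 2 0)] (by decide +kernel))
noncomputable def rha978320ccc39971f : CRef := CRef.mk (Pat.mk 0x50000000700000000000000000 0x30000000300000007e0000007f000000cf00000048 6 8) 0 0 (step_sound _ 99 [rh214448c9bf163ebe, (rhc02b3aee7ab87ee1.shift 1 2), (rhd8e93bbc8568df99.shift 2 2), (rhdbcea10a0fbe5ba6.shift 1 2)] (by decide +kernel))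
noncomputable def rh003e4cdb6e6acc31 : CRef := CRef.mk (Pat.mk 0x140000001c000000100000001000000000 0x4000000040000000c0000001c0000001f0000001a0000001800000008 6 5) 0 0 (step_sound _ 131 [(rh50fbb5868c909700.shift 3 1), rh9abf52f0ca0e4187] (by decide +kernel))
noncomputable def rhf2596af7180515ce : CRef := CRef.mk (Pat.mk 0xa0000000e000000080000000800000000 0x60000000e0000000e0000003c0000000f00000006 6 6) 0 0 (step_sound _ 130 [rh4bd0022705776518, (rh50fbb5868c909700.shift 2 1)] (by decide +kernel))
noncomputable def rh4326da0e9adbe4a8 : CRef := CRef.mk (Pat.mk 0x1e000000120000000000000000 0x200000006000000070000001e0000001e0000000700000007 6 5) 0 0 (step_sound _ 129 [rh0ff90647ca4cf789, (rh3244c3cc8379b070.shift 0 3)] (by decide +kernel))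
noncomputable def rhcbf7170559ff2e99 : CRef := CRef.mk (Pat.mk 0x280000003800000008000000000000000000000000 0x1c0000001e0000003800000038000000380000001f0000001c00000008 6 6) 0 0 (step_sound _ 100 [(rh3ebc98c19791ad58.shift 3 1), rhf59978a9a6a11423, (rhf833c098ea508add.shift 1 2)] (by decide +kernel))
noncomputable def rh20ea90a00c7f3cf8 : CRef := CRef.mk (Pat.mk 0xe000000060000000400000000 0x8000000080000003f0000003e0000003400000010 6 6) 0 0 (step_sound _ 100 [(rh18965a982d73c794.shift 1 2), rh6c6d07a2e8baec04] (by decide +kernel))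
noncomputable def rhd8d8768d4411e5df : CRef := CRef.mk (Pat.mk 0x7000000030000000200000000 0x40000001c0000001f0000001b0000001e00000018 6 5) 0 0 (step_sound _ 99 [(rh18965a982d73c794.shift 0 2), rheaefec6968dc4847] (by decide +kernel))
noncomputable def rh912fdcc0a898d787 : CRef := CRef.mk (Pat.mk 0x1c0000000c000000080000000000000000 0x10000000300000001f0000007c000000780000002000000020 6 7) 0 0 (step_sound _ 100 [(rh523334f89545e18f.shift 2 0), (rh79b3c29022acbdf3.shift 1 3), (rhbd1085b5879a265a.shift 0 2)] (by decide +kernel))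
noncomputable def rh5f25d710af2de1ad : CRef := CRef.mk (Pat.mk 0x80000001800000018000000100000000000000000 0x2000000024000000ef000000fc000000380000001c0000000c0000000c 6 8) 0 0 (step_sound _ 133 [(rh03765aa183ffec27.shift 2 2), rh05732d937c59a6d1, (rhb762f327c85d41a0.shift 2 3)] (by decide +kernel))
noncomputable def rh9bb3a7f7ff3c303e : CRef := CRef.mk (Pat.mk 0x30000000f0000000000000000 0xc0000001c0000001f0000000f0000001c0000000c 6 5) 0 0 (step_sound _ 99 [rh077a892b2c2a0357, (rh33e738c4ed385b9f.shift 0 2)] (by decide +kernel))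
noncomputable def rh69c9ccc816eba836 : CRef := CRef.mk (Pat.mk 0x300000007000000020000000000000000 0x1c0000001f00000007000000060000000600000006 6 5) 0 0 (step_sound _ 33 [rh350fae61fe0d2331, rh7b1f1fb55310c477] (by decide +kernel))
noncomputable def rh9b115110c04596c4 : CRef := CRef.mk (Pat.mk 0xe0000000c0000000000000000 0x200000002000000770000007e0000003c0000000400000004 6 7) 0 0 (step_sound _ 68 [rh93a4d4c3a547f847, (rhf48373e13d2bc128.shift 1 2)] (by decide +kernel))
noncomputable def rh0947905ceda197d2 : CRef := CRef.mk (Pat.mk 0x700000006000000000000000000000000 0x8000000390000003f0000003e000000060000000600000002 6 6) 0 0 (step_sound _ 65 [(rh0ec3d074a1c4dd03.shift 0 1), rh40241bd608e5be1a] (by decide +kernel))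
noncomputable def rh9843a4c0a37ed17f : CRef := CRef.mk (Pat.mk 0x1c000000180000000000000000 0x4000000040000000f0000003f000000180000000800000008 6 6) 0 0 (step_sound _ 97 [rh0d07b10926dcd0c2, (rhb739f4f82bb681b4.shift 0 2)] (by decide +kernel))
noncomputable def rh7deddedfb8754589 : CRef := CRef.mk (Pat.mk 0x100000001e00000018 0x1c0000003c000000170000003e00000018 6 6) 0 0 (step_sound _ 100 [rh0ea61d18447d2745, (rh5c5e593799055d58.shift 3 0)] (by decide +kernel))
noncomputable def rhd78dfc6313ffeaad : CRef := CRef.mk (Pat.mk 0x80000007800000020 0x1c0000001c0000001f00000038000000f80000002c 6 8) 0 0 (step_sound _ 68 [rha18a36afa84014b3, (rhf48373e13d2bc128.shift 3 1)] (by decide +kernel))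
noncomputable def rh15b1d8741adae73d : CRef := CRef.mk (Pat.mk 0x60000001c0000000800000008 0x140000003e000000360000001f0000003800000008 6 6) 0 0 (step_sound _ 130 [(rh2145e1d24b96a57e.shift 2 1), rha554c4fbc1e2279b] (by decide +kernel))
noncomputable def rh62f7858f5b2ab497 : CRef := CRef.mk (Pat.mk 0x4000000060000001c00000008 0x180000003c0000003e0000001f00000038 6 6) 0 0 (step_sound _ 33 [rh5245f99ce672d8bb, (rh82b9d3707a7a7a5f.shift 1 0), rha03f6e28ea70fc7d] (by decide +kernel))
noncomputable def rhf4c5c814fdb5e540 : CRef := CRef.mk (Pat.mk 0x10000000f0000000c00000000 0xf0000001f000000070000001f0000000e0000000a 6 5) 0 0 (step_sound _ 97 [rhd77fd6f32ccc9db0, (rhf48373e13d2bc128.shift 0 2)] (by decide +kernel))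
noncomputable def rh06ee2d6eaeff1488 : CRef := CRef.mk (Pat.mk 0x1e0000000000000000 0x800000008000000380000001f0000003300000010 6 6) 0 0 (step_sound _ 100 [(rh33e738c4ed385b9f.shift 1 2), rhcaa5c4c939a3b777] (by decide +kernel))
noncomputable def rhfdc19dc23230dc43 : CRef := CRef.mk (Pat.mk 0x1800000078000000000000000000000000 0x380000007f000000ec0000000800000008 6 8) 0 0 (step_sound _ 67 [rh2af4a7c76f687c38, (rheb0810cc63b001d8.shift 2 2)] (by decide +kernel))
noncomputable def rh2ac7abdaafc63216 : CRef := CRef.mk (Pat.mk 0x100000001c000000300000000000000000 0x1c0000001c0000001c0000003c0000003f0000000f0000000c 6 6) 0 0 (step_sound _ 67 [(rh1fae7b04b87de3ff.shift 0 1), (rh503dd4575245365b.shift 3 1), rhc42aea36b73d40d2] (by decide +kernel))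
noncomputable def rh352b82230f693c0c : CRef := CRef.mk (Pat.mk 0x80000000e000000180000000000000000 0x30000000300000007f0000001e0000001f0000003000000030 6 7) 0 0 (step_sound _ 132 [(rh572132728df34c43.shift 1 3), (rh80f90a60d87caa0d.shift 1 3), rh8812465fa2f7a23a] (by decide +kernel))
noncomputable def rhac2001fc0af031bf : CRef := CRef.mk (Pat.mk 0x1e00000018 0x30000000300000003f0000003e00000018 6 6) 0 0 (step_sound _ 68 [(rh33e738c4ed385b9f.shift 1 1), rhd928ee29fce1d19b] (by decide +kernel))
noncomputable def rhbcc9f1b782288df3 : CRef := CRef.mk (Pat.mk 0x8000000080000000e0000000800000000 0x170000001f0000003a0000000e0000000c00000004 6 6) 0 0 (step_sound _ 34 [(rh19f7aa8f14294c50.shift 0 1), (rh932754581e0f4330.shift 2 0)] (by decide +kernel))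
noncomputable def rh5ec954083c4d5411 : CRef := CRef.mk (Pat.mk 0x8000000000000001e0000000800000000 0xe0000000e000000070000003e0000000c00000004 6 6) 0 0 (step_sound _ 97 [(rh3244c3cc8379b070.shift 0 2), (rh9a6336ec530b5904.shift 1 0)] (by decide +kernel))
noncomputable def rh89f667027fd8086a : CRef := CRef.mk (Pat.mk 0x200000000000000030000000600000000 0x100000007000000070000000600000003000000030000000600000004 6 3) 0 0 (step_sound _ 97 [(rh4e2df8342d3b8ae8.shift 0 1), (rh55afc6a59410cf00.shift 1 0)] (by decide +kernel))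
noncomputable def rhbd0ae4c28dad89a6 : CRef := CRef.mk (Pat.mk 0x8000000080000003800000020 0x40000001c0000003c0000001f000000180000003800000028 6 6) 0 0 (step_sound _ 131 [rh59c6c9d9132801ae, (rh5bd4bc0c2c48140c.shift 2 1), (rh74077b621f65b9d0.shift 3 0)] (by decide +kernel))
noncomputable def rhd9053a3100b6d7aa : CRef := CRef.mk (Pat.mk 0x800000008000000380000000000000000 0x140000003c0000000f000000380000001e0000001c 6 6) 0 0 (step_sound _ 35 [rh59c6c9d9132801ae, (rhfbf2eae4035425b6.shift 1 0)] (by decide +kernel))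
noncomputable def rh76224409dcc75616 : CRef := CRef.mk (Pat.mk 0x140000000600000004 0x80000000a0000003f0000003f0000000600000004 6 6) 0 0 (step_sound _ 67 [rh13de50e15465e3c2, (rh18965a982d73c794.shift 1 1)] (by decide +kernel))
noncomputable def rhbc99f7951ec5843a : CRef := CRef.mk (Pat.mk 0x14000000060000001c00000000 0x20000000e0000000e0000000f0000001e0000001e0000001c00000010 6 5) 0 0 (step_sound _ 130 [(rh42ab489a1be3958e.shift 1 1), (rh5bd4bc0c2c48140c.shift 1 1), (rh73f605273a09a9d0.shift 2 1), rhb3038b95fd1cbee8] (by decide +kernel))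
noncomputable def rhce47b66c6431922c : CRef := CRef.mk (Pat.mk 0x14000000040000000c 0xa0000000e0000003e000000370000000c0000000c 6 6) 0 0 (step_sound _ 98 [rh1d90b59f780b588e, (rh5bd4bc0c2c48140c.shift 1 0), (rh73f605273a09a9d0.shift 2 0)] (by decide +kernel))
noncomputable def rh24bdb1a54feeb276 : CRef := CRef.mk (Pat.mk 0x4000000060000001c0000000000000000 0x10000000340000003e0000001f0000000b0000000a 6 6) 0 0 (step_sound _ 65 [rh510d215f94bf1ad4, rh9c40a739b57d6d20] (by decide +kernel))
noncomputable def rhc3b76a815d0c931a : CRef := CRef.mk (Pat.mk 0x70000000e000000000000000000000000 0x40000000e0000001e0000000f0000000e0000000c0000000c00000004 6 5) 0 0 (step_sound _ 66 [(rh1c85c2a954ec6b48.shift 0 2), (rh3cb04db3dd2b6a55.shift 1 0), (rhc6aaf8a5726020ab.shift 1 0)] (by decide +kernel))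
noncomputable def rh568f4272dc12cd1b : CRef := CRef.mk (Pat.mk 0x60000001c0000000000000000 0x400000004000000070000001f0000003b00000002 6 6) 0 0 (step_sound _ 65 [(rh3244c3cc8379b070.shift 0 2), rh9ed26992548b4ebe] (by decide +kernel))
noncomputable def rh07cfee2a2accda0a : CRef := CRef.mk (Pat.mk 0x1c00000018000000000000000000000000 0x400000004000000070000003e0000001f000000070000000200000002 6 6) 0 0 (step_sound _ 97 [(rh076be03eb7063320.shift 0 3), (rh72297cd55a503360.shift 0 3), (rh73f5f7cdf41b5bc9.shift 0 2), rhca585123a0440cc2] (by decide +kernel))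
noncomputable def rhf96016540dee073a : CRef := CRef.mk (Pat.mk 0x1c000000180000000000000000 0x280000007f0000007e000000180000001000000010 6 7) 0 0 (step_sound _ 133 [(rh2fdae9fed29d7d13.shift 1 0), (rhbdcbb3084811bc33.shift 1 0), (rhefa8641932084a4c.shift 0 3)] (by decide +kernel))
noncomputable def rh6e52883474789b18 : CRef := CRef.mk (Pat.mk 0x1c000000180000000000000000 0x2000000028000000780000007c0000001f0000003000000010 6 7) 0 0 (step_sound _ 66 [(rh4d9b034736f6e019.shift 2 0), (rh4dc133ee0ba1420a.shift 0 2), rha8bcb4927b3d3cd5] (by decide +kernel))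
noncomputable def rhf72c82775eeff0a4 : CRef := CRef.mk (Pat.mk 0x100000001c000000180000000800000000 0xc0000000f0000001f0000001c0000001c0000000c00000004 6 5) 0 0 (step_sound _ 131 [(rh7b9fbdf6d2d059e4.shift 2 1), (rh925a1628dd8a50da.shift 2 0), rhf3711a81227b0b0c] (by decide +kernel))
noncomputable def rh8a1ee47490e51e8b : CRef := CRef.mk (Pat.mk 0x18000000180000000800000000 0xc0000001c0000001c000000180000007c0000000f00000004 6 7) 0 0 (step_sound _ 132 [(rh5c5e593799055d58.shift 3 1), rhb68950aa462b9074] (by decide +kernel))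
noncomputable def rh8963c5d57a021cfb : CRef := CRef.mk (Pat.mk 0xe0000000400000000 0x800000008000000380000003f0000003700000010 6 6) 0 0 (step_sound _ 68 [(rhaf9f2efc81a8312b.shift 0 1), rhf41a34b41b8c2138] (by decide +kernel))
noncomputable def rh72d04f14cf3dc58a : CRef := CRef.mk (Pat.mk 0x2000000120000000e0000000400000000 0x80000000b0000001e0000003f0000003400000010 6 6) 0 0 (step_sound _ 99 [(rh53b3c253cb0c65f4.shift 0 2), rhf49ce65645c98f45] (by decide +kernel))
noncomputable def rhfb36e87b6ce297a7 : CRef := CRef.mk (Pat.mk 0x180000001c000000080000000000000000 0x70000001f0000001c0000000c0000000c0000000c 6 5) 0 0 (step_sound _ 35 [(rh71222050f2c63a3a.shift 3 0), rh795a9fa361f5265f] (by decide +kernel))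
noncomputable def rh89ae2f860d1ba99c : CRef := CRef.mk (Pat.mk 0x800000008000000380000001000000000 0x20000000680000007f0000003e0000001600000004 6 7) 0 0 (step_sound _ 98 [(rh8dbe165f3df8eff4.shift 1 0), (rhc02b3aee7ab87ee1.shift 0 2), (rhdbcea10a0fbe5ba6.shift 0 2)] (by decide +kernel))
noncomputable def rh82c7579ea989f300 : CRef := CRef.mk (Pat.mk 0x100000001e0000000a00000000 0x14000000340000001f0000001f0000000a00000002 6 6) 0 0 (step_sound _ 97 [(rh3244c3cc8379b070.shift 0 2), rhb93f5381508b6cd1] (by decide +kernel))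
noncomputable def rhdeb2d76227ba59ec : CRef := CRef.mk (Pat.mk 0x40000000c000000140000000000000000 0xc0000000c0000000c0000000c0000001c0000000f0000000a 6 5) 0 0 (step_sound _ 163 [(rh4dec404a6c0e229a.shift 2 1), (rh5fcbac5b57173fc5.shift 2 1), rh79aadab0206114da] (by decide +kernel))
noncomputable def rhd4818950408b9032 : CRef := CRef.mk (Pat.mk 0x1e00000004 0x2000000030000003f0000003f00000004 6 6) 0 0 (step_sound _ 65 [(rh3244c3cc8379b070.shift 0 1), rhfd9bff258e786a79] (by decide +kernel))
noncomputable def rhb93170b57c0a7296 : CRef := CRef.mk (Pat.mk 0x100000001e00000010 0x3800000038000000f80000001c0000001f00000010 6 8) 0 0 (step_sound _ 67 [(rh53b3c253cb0c65f4.shift 0 1), (rh6e3d62e5dc7de74d.shift 2 0)] (by decide +kernel))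
noncomputable def rh719edbdf4d1c438d : CRef := CRef.mk (Pat.mk 0xf0000000c0000000000000000 0x40000003f0000003f0000000c0000000800000008 6 6) 0 0 (step_sound _ 132 [(rh428265de8cd3cd2d.shift 0 3), rh85aae64a7a5643b5] (by decide +kernel))
noncomputable def rhdbbd848b9b9e5162 : CRef := CRef.mk (Pat.mk 0x400000004000000060000000e00000000 0x80000000c0000000c0000003e0000003f00000030 6 6) 0 0 (step_sound _ 36 [rh6b0255a73ec27639, (rhf48373e13d2bc128.shift 1 1)] (by decide +kernel))
noncomputable def rhb6da716d0b08a401 : CRef := CRef.mk (Pat.mk 0x80000000c0000001c0000000000000000 0x2000000020000000780000007c0000001f0000003000000010 6 7) 0 0 (step_sound _ 100 [rh1357d49ef66cf2d8, (rh4d9b034736f6e019.shift 2 0), (rhf9d36e158778ce35.shift 1 2)] (by decide +kernel))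
noncomputable def rh6ea323944a4cae5f : CRef := CRef.mk (Pat.mk 0x180000001c000000000000000000000000 0x20000001b0000003f000000070000000400000004 6 6) 0 0 (step_sound _ 97 [(rh53b3c253cb0c65f4.shift 0 3), rh5f27e0477c371a96] (by decide +kernel))
noncomputable def rhc6963da140b63c19 : CRef := CRef.mk (Pat.mk 0xc0000000c00000004 0xe0000000e0000000f0000003c0000007c00000006 6 7) 0 0 (step_sound _ 36 [(rha9e1a5d55b907abf.shift 1 0), rhcd220dc001675187] (by decide +kernel))
noncomputable def rhb85dbb7162922801 : CRef := CRef.mk (Pat.mk 0x6000000070000000000000000 0x200000006000000060000003e0000003f0000003900000008 6 6) 0 0 (step_sound _ 129 [rh34acf0675916da21, (rh37d9ceebb86d75d1.shift 0 1)] (by decide +kernel))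
noncomputable def rh91663d743c309e73 : CRef := CRef.mk (Pat.mk 0x180000001c000000000000000000000000 0x800000008000000180000003f0000000f0000000400000004 6 6) 0 0 (step_sound _ 97 [(rh53b3c253cb0c65f4.shift 0 3), rh9cf1eae2eabf38ec] (by decide +kernel))
noncomputable def rhce88d00dd59a0d34 : CRef := CRef.mk (Pat.mk 0x100000001e0000001800000000 0x18000000380000001f0000003e0000001800000010 6 6) 0 0 (step_sound _ 132 [(rh5c5e593799055d58.shift 3 1), rh98566c88551f9101] (by decide +kernel))
noncomputable def rhe4502994a7c11bd0 : CRef := CRef.mk (Pat.mk 0x100000001e00000018000000000000000000000000 0x18000000180000001b0000001e00000018000000300000003000000030 6 6) 0 0 (step_sound _ 161 [(rh3244c3cc8379b070.shift 0 4), (rh94fac57a5d0cb9dd.shift 3 0)] (by decide +kernel))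
noncomputable def rh139c32c7bfcd2045 : CRef := CRef.mk (Pat.mk 0x100000000e000000180000000000000000 0x2000000330000003e0000001f0000000400000004 6 6) 0 0 (step_sound _ 100 [rh32af6e600e16eab8, (rh33e738c4ed385b9f.shift 1 3)] (by decide +kernel))
noncomputable def rh33c7d67c45e8c923 : CRef := CRef.mk (Pat.mk 0x180000000e0000001800000000 0x38000000380000001f0000003e0000001f00000004 6 6) 0 0 (step_sound _ 68 [(rh3ea8001728d608b7.shift 0 1), (rh78b5d49ab0d498b4.shift 0 1), (rh98bfe017ab5fead7.shift 0 1), rhadf021de2743063e, rhc4d33873add69d74] (by decide +kernel))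
noncomputable def rhefd9126b38e83aaf : CRef := CRef.mk (Pat.mk 0x180000000e000000180000000000000000 0x30000000300000001f0000003e0000001f0000003000000010 6 6) 0 0 (step_sound _ 100 [(rh033256a0e285e4c4.shift 0 2), rh1e1fdd334f5b3198, (rh98bfe017ab5fead7.shift 0 2)] (by decide +kernel))
noncomputable def rhb110169d172fb1cb : CRef := CRef.mk (Pat.mk 0x100000001e000000180000000000000000 0x1800000018000000180000001e0000001f0000003000000020 6 6) 0 0 (step_sound _ 65 [(rheb0810cc63b001d8.shift 0 2), (rhfb5158def8c091b2.shift 1 0)] (by decide +kernel))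
noncomputable def rhdeae4272edb7b3d2 : CRef := CRef.mk (Pat.mk 0x1e0000000000000000 0x400000004000000370000003e0000000300000002 6 6) 0 0 (step_sound _ 100 [(rh33e738c4ed385b9f.shift 1 2), rh3cc3e986d9471888] (by decide +kernel))
noncomputable def rh130b7e7bbbad324f : CRef := CRef.mk (Pat.mk 0x8000000180000001e00000000 0xc0000000c0000000c0000001f0000003e0000000a 6 6) 0 0 (step_sound _ 65 [(rh2d6a5ccf7920951b.shift 1 0), (rh3244c3cc8379b070.shift 0 1)] (by decide +kernel))
noncomputable def rhb6d71c5fe463f9eb : CRef := CRef.mk (Pat.mk 0x4000000060000001c0000000000000000 0x80000000c0000003e0000001f0000003300000012 6 6) 0 0 (step_sound _ 65 [rh2fa8a6cd8a03c75c, rh9c40a739b57d6d20] (by decide +kernel))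
noncomputable def rhb2f025f893351004 : CRef := CRef.mk (Pat.mk 0x100000001800000038000000000000000000000000 0x100000001f0000003f0000000f0000000c0000000c 6 6) 0 0 (step_sound _ 35 [rh79a00dda177b905b, (rh9e3edb185cc347de.shift 3 1)] (by decide +kernel))
noncomputable def rh99eb17d4950ad3d0 : CRef := CRef.mk (Pat.mk 0x4000000060000000600000000 0xe0000000f0000003c000000060000000600000004 6 6) 0 0 (step_sound _ 130 [(rh5c5e593799055d58.shift 1 1), rhf149b0c20b930719] (by decide +kernel))
noncomputable def rh290000dba8ae2fed : CRef := CRef.mk (Pat.mk 0x400000004000000060000000c00000000 0xa0000000f0000003c000000060000003c00000004 6 6) 0 0 (step_sound _ 36 [rh305945700f20b255, (rhf48373e13d2bc128.shift 1 1)] (by decide +kernel))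
noncomputable def rh0ca337f75893527a : CRef := CRef.mk (Pat.mk 0x20000000200000002000000000000000000000000 0x50000000700000007000000070000000600000006000000070000000300000001 6 3) 0 0 (step_sound _ 192 [(rh114f4abf4ea101c9.shift 0 2), rh374ae440e8011597, (rh90b558dcae53cbf1.shift 0 2)] (by decide +kernel))
noncomputable def rh92270cf11e05fcc3 : CRef := CRef.mk (Pat.mk 0x8000000080000001800000008 0x8000000180000001c0000003c0000001f0000007800000008 6 7) 0 0 (step_sound _ 66 [(rh4ca5dae25f5c14ff.shift 0 1), rhb37afb3435e351bf, (rhe0416c1b0e2a4508.shift 2 0)] (by decide +kernel))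
noncomputable def rhd172f5ec7811b7c8 : CRef := CRef.mk (Pat.mk 0x400000006000000040000000400000000 0xe0000003e000000070000000c0000000c00000008 6 6) 0 0 (step_sound _ 131 [(rh2f68792b6b779e96.shift 2 1), rhb33330df6f1365b1] (by decide +kernel))
noncomputable def rh2c06bd179751020c : CRef := CRef.mk (Pat.mk 0xc00000008000000080000000c00000000 0x180000001f0000001b000000380000001f00000018 6 6) 0 0 (step_sound _ 132 [(rh2f68792b6b779e96.shift 3 1), rha3865d5fab792e26] (by decide +kernel))
noncomputable def rhd023ec3f5681df44 : CRef := CRef.mk (Pat.mk 0x3000000020000000200000001 0x100000003000000030000000200000003000000070000000700000005 6 3) 0 0 (step_sound _ 129 [rh79877ebd3ef475dd, rhd47ced289c19ecf0] (by decide +kernel))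
noncomputable def rh30b88fd994765492 : CRef := CRef.mk (Pat.mk 0x60000000c0000000400000000 0x80000000c0000000c000000060000003e0000000f0000000a 6 6) 0 0 (step_sound _ 68 [rhaee3a92ea0afaa04, (rhf48373e13d2bc128.shift 1 2)] (by decide +kernel))
noncomputable def rh1b44d8179e582ada : CRef := CRef.mk (Pat.mk 0x200000002000000020000000200000000 0x1000000070000000700000002000000030000000700000005 6 3) 0 0 (step_sound _ 2 [(rhd3458b32566d63f7.shift 1 0), rhf9494122540ecc82] (by decide +kernel))
noncomputable def rh72f7cad78ec6b2fa : CRef := CRef.mk (Pat.mk 0x800000008000000080000000c00000000 0x40000000c0000000c0000003e0000007f00000013 6 7) 0 0 (step_sound _ 36 [(rh55afc6a59410cf00.shift 3 0), rh5b96553652227aff] (by decide +kernel))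
noncomputable def rhf4c23d23830775ba : CRef := CRef.mk (Pat.mk 0x200000002000000020000000200000000 0x4000000070000000700000002000000030000000700000005 6 3) 0 0 (step_sound _ 2 [rh5403d956def82fda, (rhd3458b32566d63f7.shift 1 0)] (by decide +kernel))
noncomputable def rh855706c439125f47 : CRef := CRef.mk (Pat.mk 0x8000000080000000800000008000000040000000000000000 0x8000000080000001800000018000000180000001f0000000c00000008 6 5) 0 0 (step_sound _ 67 [rh62c4dc930f46e8f7, (rh932754581e0f4330.shift 2 1)] (by decide +kernel))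
noncomputable def rh94e5492cee408f62 : CRef := CRef.mk (Pat.mk 0x200000002000000020000000000000000 0x500000007000000070000000300000006000000070000000700000001 6 3) 0 0 (step_sound _ 161 [(rh12461e137161f2e1.shift 0 1), rh6aa5625770489e83, (rhc17b7d8fab3dfe57.shift 0 1), (rhd7cb8ed87e2022d8.shift 0 1)] (by decide +kernel))
noncomputable def rhe3fd10b0286a4407 : CRef := CRef.mk (Pat.mk 0x200000002000000020000000000000000 0x500000007000000070000000600000006000000070000000700000001 6 3) 0 0 (step_sound _ 161 [rh367118e0bf0473e0, (rhc17b7d8fab3dfe57.shift 0 1), (rhd7cb8ed87e2022d8.shift 0 1)] (by decide +kernel))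
noncomputable def rh123fa2d62c07e763 : CRef := CRef.mk (Pat.mk 0x800000008000000080000000c 0x170000003f0000003f0000000c0000000c 6 6) 0 0 (step_sound _ 98 [(rh50fbb5868c909700.shift 2 0), rhef71ad58160ef3a0] (by decide +kernel))
noncomputable def rh2f5945d59b5e0032 : CRef := CRef.mk (Pat.mk 0xc00000008000000080000000800000000 0x130000003f0000003f0000000c0000000c00000004 6 6) 0 0 (step_sound _ 132 [rh07794fa67ad472b2, (rh2f68792b6b779e96.shift 3 1)] (by decide +kernel))
noncomputable def rh688d41eb32e437d3 : CRef := CRef.mk (Pat.mk 0x2000000020000000200000002 0x1000000070000000700000006000000060000000600000006 6 3) 0 0 (step_sound _ 130 [rhb5b123beaf1935eb, (rhbaefcd01e0a8bca3.shift 1 0)] (by decide +kernel))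
noncomputable def rh8a7ef488ab906f98 : CRef := CRef.mk (Pat.mk 0x200000002000000020000000000000000 0x500000007000000070000000600000006000000070000000700000004 6 3) 0 0 (step_sound _ 161 [(rh762a1aeaf83c662a.shift 0 1), (rhc9de03f9731897d4.shift 1 0), (rhd7cb8ed87e2022d8.shift 0 1)] (by decide +kernel))
noncomputable def rhb6d11eef82c88515 : CRef := CRef.mk (Pat.mk 0x600000004000000040000000400000000 0x380000003f0000003f0000000c0000000c00000008 6 6) 0 0 (step_sound _ 131 [(rh2f68792b6b779e96.shift 2 1), rhc5ce58e1919d8f72] (by decide +kernel))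
noncomputable def rhcf348ab2146e05eb : CRef := CRef.mk (Pat.mk 0x6000000060000000200000000 0x2000000060000000600000006000000070000003f0000000d 6 6) 0 0 (step_sound _ 129 [(rh55a1f6c57a317ce6.shift 1 0), rhbd1553ade3ecbf42, rhfd7f936d46f69e7f] (by decide +kernel))
noncomputable def rha93b6ae25da248d1 : CRef := CRef.mk (Pat.mk 0x80000001800000018000000000000000000000000 0x40000001f00000078000000180000001c0000001c00000018 6 7) 0 0 (step_sound _ 67 [(rhea7a1800d6f053bd.shift 3 0), (rhf57bd6481b8b2ca7.shift 3 0), (rhf8c8d962f41a49df.shift 0 1)] (by decide +kernel))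
noncomputable def rha1f50326e07ff5f4 : CRef := CRef.mk (Pat.mk 0xc0000001c000000000000000000000000 0xf0000007f0000001f000000300000001000000010 6 7) 0 0 (step_sound _ 129 [rh324ff6f9d7421747, (rhb739f4f82bb681b4.shift 0 3)] (by decide +kernel))
noncomputable def rhb6ddb87b359715fb : CRef := CRef.mk (Pat.mk 0x80000001800000018000000000000000000000000 0x40000000f0000007c00000018000000180000001800000018 6 7) 0 0 (step_sound _ 36 [(rh9e07f76261b05888.shift 3 1), rhf8ebcda9439dcbb4] (by decide +kernel))
noncomputable def rhddec1f996c39dd6f : CRef := CRef.mk (Pat.mk 0xc0000000c0000000800000000 0xc0000000c0000000c0000000c0000001f0000007c00000014 6 7) 0 0 (step_sound _ 131 [(rh1e309b005ffa1b36.shift 2 0), rh7f81bdf8946a82b0, (rhe97098a026a3bff4.shift 2 0)] (by decide +kernel))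
noncomputable def rha3da2f03e612bf8b : CRef := CRef.mk (Pat.mk 0xc0000000c0000000800000000 0x80000000e0000000f0000003c0000001c0000001c00000014 6 6) 0 0 (step_sound _ 130 [(rh2145e1d24b96a57e.shift 2 1), rha1910e9007d5fcfc] (by decide +kernel))
noncomputable def rh31dab4217e92ec8e : CRef := CRef.mk (Pat.mk 0xe0000000c0000000000000000 0x200000002000000070000007e0000007c0000000400000004 6 7) 0 0 (step_sound _ 69 [(rh2fe78cc5ca4405d8.shift 1 2), rh315295d3498f2211] (by decide +kernel))
noncomputable def rhe71dc05b945402dd : CRef := CRef.mk (Pat.mk 0x18000000180000001000000000 0xc0000000f000000ff0000001f0000001800000008 6 8) 0 0 (step_sound _ 131 [(rh2145e1d24b96a57e.shift 3 1), rhd34d3c3f5780ccdd] (by decide +kernel))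
noncomputable def rhc9e879b5f9ae7269 : CRef := CRef.mk (Pat.mk 0x1000000018000000080000000800000000 0x800000018000000780000003f000000ff00000074 6 8) 0 0 (step_sound _ 131 [(rh1904b52b42aee148.shift 1 0), (rh65a3a4cf67baf828.shift 2 0), (rh97e0e4cadca5618d.shift 1 0), rhc9a8c524b5efcba1, rhd1671c6e88add9be] (by decide +kernel))
noncomputable def rh9d1e47b8a12f627d : CRef := CRef.mk (Pat.mk 0xc0000000e000000000000000000000000 0x4000000040000007c0000007e000000070000000200000002 6 7) 0 0 (step_sound _ 133 [(rh361cc68994bd8a63.shift 1 3), rhdbdcdf99c21cf24d] (by decide +kernel))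
noncomputable def rh65dbe3484f248fde : CRef := CRef.mk (Pat.mk 0x1c00000018000000000000000000000000 0x140000003c0000007f0000000f0000000c0000000c 6 7) 0 0 (step_sound _ 101 [rh620e9bc22f574d81, (rhf48373e13d2bc128.shift 2 3)] (by decide +kernel))
noncomputable def rh76e32e5024c227a5 : CRef := CRef.mk (Pat.mk 0x80000000e000000000000000000000000 0x80000007f0000003e000000730000001000000010 6 7) 0 0 (step_sound _ 100 [(rh3947d1dfff0afc6c.shift 0 2), (rh3fc3a7fb6866dcd4.shift 1 2), (rh98608c6afefa0c7d.shift 0 2), (rhe7d1749390aefb37.shift 1 0)] (by decide +kernel))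
noncomputable def rhc6bca9405e72211a : CRef := CRef.mk (Pat.mk 0x80000000c000000040000000400000000 0x400000006000000060000000e0000000c0000000f0000003e0000003a 6 6) 0 0 (step_sound _ 130 [rh1904b52b42aee148, rh97e0e4cadca5618d, (rhcb5b9f48a2219b5b.shift 1 0), (rhd72a5b150c8b03c9.shift 1 0)] (by decide +kernel))
noncomputable def rh0748c8e7645c4e78 : CRef := CRef.mk (Pat.mk 0x80000000c000000040000000400000000 0x60000000f0000003c000000070000003e0000000a 6 6) 0 0 (step_sound _ 130 [rh1904b52b42aee148, rh5b42d230652d96f8, rha8fd5cfc43aa7576, rhd24778b085d8f6e1] (by decide +kernel))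
noncomputable def rh90ee209c00c31493 : CRef := CRef.mk (Pat.mk 0x10000000100000001800000008000000000000000000000000 0x80000001800000018000000f8000000ff000000370000003000000030 6 8) 0 0 (step_sound _ 100 [(rh2386d7c29ba9e7c7.shift 0 2), (rh4f66b8b299b10e60.shift 3 0), (rh514ffdc208a38878.shift 0 2), (rh783c74fd45f4aff5.shift 0 2), (rhdd11e03a2f8b13b6.shift 3 0)] (by decide +kernel))
noncomputable def rhcf19e0749e6a8585 : CRef := CRef.mk (Pat.mk 0x20000000300000001000000010 0x2800000028000001ef000000fe000001df00000010 6 9) 0 0 (step_sound _ 165 [rh96285023cc78081c, (rhee230b994cc8b773.shift 4 1)] (by decide +kernel))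
noncomputable def rh02a640ff32b26b82 : CRef := CRef.mk (Pat.mk 0x200000003000000010000000100000000000000000 0xc000001ef000000fe000001ff0000001f0000000c00000008 6 9) 0 0 (step_sound _ 131 [(rh5dec5e73a267a1c4.shift 1 3), (rhaf086fbf83221240.shift 2 2), (rhb12ffaec36122c99.shift 0 3), rhc8207e4ebf4fc306] (by decide +kernel))
noncomputable def rh464db189ed94774f : CRef := CRef.mk (Pat.mk 0x100000001000000018000000080000000000000000 0x10000000770000007e000001ff0000002000000020 6 9) 0 0 (step_sound _ 101 [(rh2820ca9a6c4f41b4.shift 0 2), (rh6b86d8f5e6e0aec7.shift 2 0), rha3dc767376265489, (rhf0f55c4504412200.shift 0 2)] (by decide +kernel))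
noncomputable def rh978f72a8ac70948c : CRef := CRef.mk (Pat.mk 0x200000003800000000 0x3f0000007e000000e7 6 8) 0 0 (step_sound _ 34 [rh2591032a0e7f4182, rh775ca1963e850b80, rhc570c09f7c0268b1, (rhc6ebdb02f2c2b584.shift 1 0)] (by decide +kernel))
noncomputable def rhb95719bdc646429a : CRef := CRef.mk (Pat.mk 0x200000003800000000 0x3f0000007e000000f7 6 8) 0 0 (step_sound _ 34 [rh2591032a0e7f4182, (rh2ebbcfe90e0f250d.shift 1 0), rh775ca1963e850b80, (rhc6ebdb02f2c2b584.shift 1 0)] (by decide +kernel))
noncomputable def rh75c81dc2037d8937 : CRef := CRef.mk (Pat.mk 0x80000000e000000000000000000000000 0x2000000070000007f0000003e000000770000000600000006 6 7) 0 0 (step_sound _ 100 [(rh07fc106a6edf0c0a.shift 0 2), rh2395824d1086e2bc, rh617da9caf6645066, (rhb9b9ce08a9b9cf77.shift 0 2)] (by decide +kernel))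
noncomputable def rh22563e4f9a5bf7bd : CRef := CRef.mk (Pat.mk 0x18000000180000000800000000 0x80000001800000018000000180000003c0000001f00000014 6 6) 0 0 (step_sound _ 132 [rh43d1d645e0bc9f3f, (rh5c5e593799055d58.shift 3 1)] (by decide +kernel))
noncomputable def rh27a30a4fe5de8833 : CRef := CRef.mk (Pat.mk 0x600000006000000020000000000000000 0x200000002000000020000000600000006000000070000000700000007 6 3) 0 0 (step_sound _ 33 [rh2fb40929dde8459b, (rh71222050f2c63a3a.shift 1 0)] (by decide +kernel))
noncomputable def rh49025743c1963691 : CRef := CRef.mk (Pat.mk 0x1800000018000000000000000000000000 0x80000003e000000ff000000e60000000400000004 6 8) 0 0 (step_sound _ 98 [(rh82d2d6892f0407f1.shift 1 0), (rhab2ad169e49f9c5e.shift 0 3)] (by decide +kernel))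
noncomputable def rhb3bfb89eeaf21570 : CRef := CRef.mk (Pat.mk 0x80000000c0000000c000000000000000000000000 0x10000000780000001f0000000c0000000c0000000c0000000c 6 7) 0 0 (step_sound _ 34 [rh042b8f0daff4b95b, (rh9e3edb185cc347de.shift 2 1)] (by decide +kernel))
noncomputable def rh65f49a8049171eba : CRef := CRef.mk (Pat.mk 0x80000000c0000000c000000000000000000000000 0x140000003c0000000f0000000c0000001c0000001c00000018 6 6) 0 0 (step_sound _ 67 [(rh3cb04db3dd2b6a55.shift 2 0), (rh820d4e04d5dcd02e.shift 2 0), (rhe499d382a3a4d134.shift 0 1)] (by decide +kernel))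
noncomputable def rh4cf81dc990ea4481 : CRef := CRef.mk (Pat.mk 0xc0000000e000000000000000000000000 0x40000003f0000007e000000070000000200000002 6 7) 0 0 (step_sound _ 132 [(rh18965a982d73c794.shift 1 3), rh7cfb8e71b3247a54] (by decide +kernel))
noncomputable def rh25b58045fb790919 : CRef := CRef.mk (Pat.mk 0xe000000060000000000000000 0x8000000380000003f000000360000001000000010 6 6) 0 0 (step_sound _ 100 [(rh18965a982d73c794.shift 1 2), rh6887ef21f67dd26a] (by decide +kernel))
noncomputable def rh45fbce2672bd03a0 : CRef := CRef.mk (Pat.mk 0x800000018000000100000001000000000 0x10000000180000001e000000fc000000ff0000002e 6 8) 0 0 (step_sound _ 132 [rh850e201bd523cd31, (rhb20dd801f506db0f.shift 1 0), (rhcefbdf9a88ffacc9.shift 2 0), (rhcfbea19f509e11c8.shift 1 0), (rhedf6a18f6f88178e.shift 1 0)] (by decide +kernel))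
noncomputable def rh98c6b1e8b37e025c : CRef := CRef.mk (Pat.mk 0x80000001800000010000000000000000000000000 0x1800000018000000180000003c000000ff0000002c0000000c00000008 6 8) 0 0 (step_sound _ 195 [(rh2145e1d24b96a57e.shift 3 3), rh914a7d01dbee48f8] (by decide +kernel))
noncomputable def rh89165b0126d9b1a9 : CRef := CRef.mk (Pat.mk 0x1800000038000000000000000000000000 0x10000000100000001f0000003f000000700000002000000020 6 7) 0 0 (step_sound _ 129 [(rhab22b5b56e7b3243.shift 1 3), rhae1631282c444918] (by decide +kernel))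
noncomputable def rhbea6b5b7cae5efe0 : CRef := CRef.mk (Pat.mk 0x1c0000000c000000000000000000000000 0x140000001e0000007f000000380000001800000018 6 7) 0 0 (step_sound _ 97 [(rh53b3c253cb0c65f4.shift 0 3), (rhc9f75854f20bbb48.shift 1 0)] (by decide +kernel))
noncomputable def rh9720fe0d7b9416ac : CRef := CRef.mk (Pat.mk 0xc0000001c00000000 0x1800000018000000780000007f0000001f00000014 6 7) 0 0 (step_sound _ 65 [rh4a16138fc970c973, (rhb739f4f82bb681b4.shift 0 1)] (by decide +kernel))
noncomputable def rh5a51951da8feb64f : CRef := CRef.mk (Pat.mk 0x40000001c000000000000000000000000 0x20000000ec0000007e000000f70000001000000010 6 8) 0 0 (step_sound _ 101 [(rh3fc3a7fb6866dcd4.shift 2 2), (rh9997040ee4bbeecd.shift 0 2), (rhf459621b93742302.shift 1 0), (rhfd1bd3840cb177f8.shift 0 2)] (by decide +kernel))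
noncomputable def rhf4eacbbf2f0b2063 : CRef := CRef.mk (Pat.mk 0x40000000c000000080000000800000000 0x800000018000000180000001c0000000c0000003c0000001f00000017 6 6) 0 0 (step_sound _ 131 [(rh9f312cecdd838504.shift 2 0), rhb20dd801f506db0f, (rhbd9473445ac5296e.shift 2 0), rhcfbea19f509e11c8] (by decide +kernel))
noncomputable def rh00606316ba7886d1 : CRef := CRef.mk (Pat.mk 0x8000000080000001800000010000000000000000000000000 0x30000000780000001e000000380000001f0000000c0000000c0000000c 6 7) 0 0 (step_sound _ 99 [(rh5db541dd5138ce50.shift 2 0), (rh6fae963f33cfdfd7.shift 0 2), (rh7b18f3f209f14cd6.shift 2 0), (rhd65b950e17d04dd6.shift 1 2)] (by decide +kernel))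
noncomputable def rhf9b7f71f4cce87e9 : CRef := CRef.mk (Pat.mk 0x40000000c000000080000000800000000 0x180000003c0000000f000000380000001f00000014 6 6) 0 0 (step_sound _ 131 [rh80d10083eb6a67cd, rhb20dd801f506db0f, rhe9a6f79979c06978, rhf843410b9106fcb3] (by decide +kernel))
noncomputable def rh659ec6c97db75505 : CRef := CRef.mk (Pat.mk 0x8000000080000001800000010000000000000000000000000 0x1000000018000000180000001f000000ff000000ec0000000c00000008 6 8) 0 0 (step_sound _ 99 [(rh7b18f3f209f14cd6.shift 2 0), (rhcac45fba302e8108.shift 0 2), (rhd00842dd145db022.shift 2 2), (rhfa88012a51cb806b.shift 2 2)] (by decide +kernel))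
noncomputable def rh310bd5988ea417c6 : CRef := CRef.mk (Pat.mk 0xe00000010000000000000000000000000 0x40000001c0000001c000000780000001f0000001c0000001c0000001c0000001c 6 7) 0 0 (step_sound _ 99 [(rha1283c70eba8adfe.shift 1 0), (rhb739f4f82bb681b4.shift 0 3)] (by decide +kernel))
noncomputable def rhc26bbee07d9e3330 : CRef := CRef.mk (Pat.mk 0x800000038000000000000000000000000 0x280000006f0000003e000000770000001400000014 6 7) 0 0 (step_sound _ 98 [(rh008b05f4778dc30d.shift 0 2), (rh4f129d8f37c2c70a.shift 1 0), (rh775ca1963e850b80.shift 0 2), (rhce71534e51e0a15e.shift 1 0)] (by decide +kernel))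
noncomputable def rh3977fc30f71f0541 : CRef := CRef.mk (Pat.mk 0x800000038000000000000000000000000 0x80000007f0000003f000000670000000400000004 6 7) 0 0 (step_sound _ 98 [(rh4f129d8f37c2c70a.shift 1 0), (rh7654d7b92c96fe12.shift 0 2), (rh775ca1963e850b80.shift 0 2), (rh7930b6a6b862f234.shift 0 2)] (by decide +kernel))
noncomputable def rh8891da6c8c714577 : CRef := CRef.mk (Pat.mk 0x40000000c000000080000000000000000 0x180000003c0000000f0000001c0000001c0000001c 6 6) 0 0 (step_sound _ 35 [(rh7b1f1fb55310c477.shift 2 0), rhd190fac8ae8fca3d] (by decide +kernel))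
noncomputable def rh24dd712f686ee4c5 : CRef := CRef.mk (Pat.mk 0x40000000c0000000c000000000000000000000000 0x180000003c0000000f0000000c0000000c0000000c0000000c 6 6) 0 0 (step_sound _ 66 [(rh253ed3b83993f691.shift 0 1), (rhea7a1800d6f053bd.shift 2 0), (rhf57bd6481b8b2ca7.shift 2 0)] (by decide +kernel))
noncomputable def rhd46c20a0d7607015 : CRef := CRef.mk (Pat.mk 0x100000001800000018000000000000000000000000 0x280000003800000038000000380000001f0000001c00000010 6 6) 0 0 (step_sound _ 67 [(rh71222050f2c63a3a.shift 3 1), rhbf9001043084262c] (by decide +kernel))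
noncomputable def rhb0851615ad6dcedf : CRef := CRef.mk (Pat.mk 0x38000000180000000000000000 0x20000000700000003f0000007e0000001000000010 6 7) 0 0 (step_sound _ 98 [(rh5ec4925c724bae18.shift 1 0), (rh6292bd8784ece55f.shift 1 2), (rhe25191970535449e.shift 0 2)] (by decide +kernel))
noncomputable def rh923f9649b7f6e811 : CRef := CRef.mk (Pat.mk 0x1800000018000000000000000000000000 0x10000000f8000000ff0000007f0000000e0000000c00000004 6 8) 0 0 (step_sound _ 130 [(rh629061bc49d81225.shift 0 1), (rh6292bd8784ece55f.shift 1 3), (rh8e491963971115dd.shift 1 0)] (by decide +kernel))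
noncomputable def rh0078175002d664d8 : CRef := CRef.mk (Pat.mk 0x80000000c0000000c0000000000000000 0x4000000140000003c0000000f0000000e0000000e0000000e 6 6) 0 0 (step_sound _ 34 [(rh71222050f2c63a3a.shift 2 0), rhd1386e0e87f3a399] (by decide +kernel))
noncomputable def rhcdf71513fa30196c : CRef := CRef.mk (Pat.mk 0x800000018000000100000001000000000 0x100000003000000030000000780000001e000000380000001f0000000c 6 7) 0 0 (step_sound _ 132 [(rh028809442a7beef4.shift 3 1), rh850e201bd523cd31, (rhe9a6f79979c06978.shift 1 0)] (by decide +kernel))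
noncomputable def rh25d7d8ad62f7a756 : CRef := CRef.mk (Pat.mk 0x3c00000010 0xe0000000ff0000001f 6 8) 0 0 (step_sound _ 1 [(rh80fcd6d0a18cb2dd.shift 1 0), rh975ca7952424260a] (by decide +kernel))
noncomputable def rh17a918246ca7f37d : CRef := CRef.mk (Pat.mk 0xe00000008000000000000000000000000 0x200000077000000fe0000007f000000070000000600000002 6 8) 0 0 (step_sound _ 132 [(rh07fc106a6edf0c0a.shift 0 3), (rh98608c6afefa0c7d.shift 0 3), (rhc6ebdb02f2c2b584.shift 0 3), rhcbc656813b97618d, (rhe4374866cadc7201.shift 0 3)] (by decide +kernel))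
noncomputable def rh48b9297c75f49b50 : CRef := CRef.mk (Pat.mk 0x8000000080000001800000010000000000000000000000000 0x40000000c0000000f0000007c0000001f0000000c0000000c0000000c 6 7) 0 0 (step_sound _ 99 [(rh6aa5625770489e83.shift 2 1), (rh6fae963f33cfdfd7.shift 0 2), (rh74e2f7e19e462725.shift 0 2), (rha4e48795de5c404c.shift 2 0)] (by decide +kernel))
noncomputable def rhd13609607007aab4 : CRef := CRef.mk (Pat.mk 0x40000000c000000080000000800000000 0x8000000180000001a0000003f0000003f0000000c0000000c00000004 6 6) 0 0 (step_sound _ 131 [(rh028809442a7beef4.shift 2 1), rhe93a1469eabff810, rhe9a6f79979c06978] (by decide +kernel))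
noncomputable def rhc4d4fcb7b793553e : CRef := CRef.mk (Pat.mk 0x4000000040000000c00000008000000000000000000000000 0x3a0000003e0000000f0000000c0000000e000000060000000600000004 6 6) 0 0 (step_sound _ 98 [(rh6aa5625770489e83.shift 1 1), (rh7b18f3f209f14cd6.shift 1 0), (rhd49a209860dedbee.shift 0 3)] (by decide +kernel))
noncomputable def rh6972103228592245 : CRef := CRef.mk (Pat.mk 0x8000000080000001800000010000000000000000000000000 0x140000003c0000000f000000380000001f0000000c0000000c0000000c 6 6) 0 0 (step_sound _ 99 [(rh6aa5625770489e83.shift 2 1), (rh6fae963f33cfdfd7.shift 0 2), (rh900a894640be090c.shift 0 2), (rha4e48795de5c404c.shift 2 0)] (by decide +kernel))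
noncomputable def rhe03df35440e91a03 : CRef := CRef.mk (Pat.mk 0x800000018000000100000001000000000 0x100000003000000037000000ff000000f8000000380000001f0000000c 6 8) 0 0 (step_sound _ 132 [(rh028809442a7beef4.shift 3 1), rh850e201bd523cd31, (rhbd9473445ac5296e.shift 3 0), (rhc65d370c448045aa.shift 1 0), (rhf4466150813eb0fd.shift 0 1)] (by decide +kernel))
noncomputable def rh162f6ec05c42aa92 : CRef := CRef.mk (Pat.mk 0x100000001000000030000000200000000000000000 0x10000001df000000fe000001ef0000002800000028 6 9) 0 0 (step_sound _ 5 [(rh9e07f76261b05888.shift 4 0), rhf34d1365dfc229a8] (by decide +kernel))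
noncomputable def rh718765fe07dab20f : CRef := CRef.mk (Pat.mk 0x100000001000000030000000200000000000000000 0xc0000001e000001fc000000ff000001ee0000000c00000008 6 9) 0 0 (step_sound _ 99 [(rh3ce854f4a795c89f.shift 1 2), (rh7ac07226dc440ec8.shift 2 0), (rh8ee80cc30e93a344.shift 2 2), (rhf3b65d1cfd736f22.shift 0 1)] (by decide +kernel))
noncomputable def rh48f72191ffe27300 : CRef := CRef.mk (Pat.mk 0x8000000180000001000000010 0x2000000020000001ff000001fe000001f700000010 6 9) 0 0 (step_sound _ 69 [(rh38791ac5737ed75e.shift 2 2), rh5520e1e47a87b7aa, (rh727195e107caf84e.shift 2 1), (rh9c94213f6896c74a.shift 2 1), (rhd6ab3b5f6660ff13.shift 1 0)] (by decide +kernel))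
noncomputable def rhc664e3e0e60ed083 : CRef := CRef.mk (Pat.mk 0x38000000200000000000000000 0x20000000ee0000007e000000370000001000000010 6 8) 0 0 (step_sound _ 98 [(rh8859ac061aed93d9.shift 1 0), (rh98608c6afefa0c7d.shift 1 2), (rhdceeca65bdd8095a.shift 0 2)] (by decide +kernel))
noncomputable def rh0ef9a4f0d7e60b8c : CRef := CRef.mk (Pat.mk 0x1e00000008 0xe00000007e0000007f 6 8) 0 0 (step_sound _ 0 [rh80fcd6d0a18cb2dd, (rhe8ab71c4076c7ec8.shift 1 0)] (by decide +kernel))
noncomputable def rh1c17992af819f510 : CRef := CRef.mk (Pat.mk 0x8000000080000000c00000004000000000000000000000000 0x170000003f0000007f0000000c0000000c000000080000000800000008 6 7) 0 0 (step_sound _ 99 [(rh1bd0c14c4de1ef4d.shift 1 2), (rh3502d92c6cce609b.shift 2 0), (rh5ee4dc8825dcefa0.shift 0 2), (rh754ed8af3fcc8232.shift 0 3), (rha10abbb88ab9db0f.shift 0 2)] (by decide +kernel))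
noncomputable def rh2c719962dfef2f7d : CRef := CRef.mk (Pat.mk 0x80000000c000000040000000000000000 0x160000003f0000003f0000000c0000000c0000000c 6 6) 0 0 (step_sound _ 34 [(rh71222050f2c63a3a.shift 2 0), rhdeb7817366061d91] (by decide +kernel))
noncomputable def rh9e7379f8f7f006ad : CRef := CRef.mk (Pat.mk 0xe0000000c0000000000000000 0x200000002000000070000007e0000003f0000000400000004 6 7) 0 0 (step_sound _ 100 [(rh20e6a7af749d3769.shift 0 2), (rh4dc133ee0ba1420a.shift 0 2), rhb0112447139ce8dc] (by decide +kernel))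
noncomputable def rhabe4a5ccd5bbec52 : CRef := CRef.mk (Pat.mk 0x80000000c0000000c000000000000000000000000 0x60000000f0000003c0000000c0000001c0000001c00000018 6 6) 0 0 (step_sound _ 67 [(rh2a6139ed0bfbb5be.shift 0 1), (rh3cb04db3dd2b6a55.shift 2 0), (rh820d4e04d5dcd02e.shift 2 0)] (by decide +kernel))
noncomputable def rh1e588bbbccff7270 : CRef := CRef.mk (Pat.mk 0x1c000000180000000000000000 0x4000000060000007c0000007f0000007800000008 6 7) 0 0 (step_sound _ 69 [rh6e502120a7aa4e3e, (rhf48373e13d2bc128.shift 2 2)] (by decide +kernel))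
noncomputable def rh6fd2858134f5a55b : CRef := CRef.mk (Pat.mk 0xe0000000c000000000000000000000000 0xf0000007e0000003f000000300000001000000010 6 7) 0 0 (step_sound _ 100 [rh324ff6f9d7421747, (rhf48373e13d2bc128.shift 1 3)] (by decide +kernel))
noncomputable def rh9ba8fa0b2676098c : CRef := CRef.mk (Pat.mk 0xc0000000c0000000800000000 0xc0000000c0000000c0000000c0000001f0000007800000010 6 7) 0 0 (step_sound _ 162 [(rh6f1cbe15c631ee70.shift 2 1), rhed62966816666820] (by decide +kernel))
noncomputable def rh6380f61474201577 : CRef := CRef.mk (Pat.mk 0x80000001800000018000000000000000000000000 0x40000001f0000007c00000018000000180000001800000008 6 7) 0 0 (step_sound _ 68 [(rh7b1f1fb55310c477.shift 3 1), rh9f6546627d0f1fd7] (by decide +kernel))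
noncomputable def rhf94ac10d451abddb : CRef := CRef.mk (Pat.mk 0x8000000080000000c00000004000000000000000000000000 0x170000001f0000007c0000000c0000000c000000180000001800000018 6 7) 0 0 (step_sound _ 99 [(rh1bd0c14c4de1ef4d.shift 1 2), (rh3502d92c6cce609b.shift 2 0), (rh754ed8af3fcc8232.shift 0 3), (rhdd11e03a2f8b13b6.shift 2 0)] (by decide +kernel))
noncomputable def rh6eb1b48612f3dd37 : CRef := CRef.mk (Pat.mk 0x80000000c000000040000000400000000 0x60000000f0000003c0000000e0000007c00000018 6 7) 0 0 (step_sound _ 130 [rh5b42d230652d96f8, (rh65a3a4cf67baf828.shift 1 0), (rhcf85c92937975d4d.shift 0 1)] (by decide +kernel))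
noncomputable def rh070f8ce3f7d69489 : CRef := CRef.mk (Pat.mk 0x38000000080000000000000000 0x40000001ce000000ff000001f80000002000000020 6 9) 0 0 (step_sound _ 102 [(rh3fc3a7fb6866dcd4.shift 3 2), (rh47cea386f8da23f0.shift 0 2), (rhf459621b93742302.shift 2 0)] (by decide +kernel))
noncomputable def rh3a095bb8a3397ceb : CRef := CRef.mk (Pat.mk 0x8000000080000000c00000004000000000000000000000000 0x170000001f0000003c0000000c0000001c000000180000001800000008 6 6) 0 0 (step_sound _ 99 [(rh4f66b8b299b10e60.shift 2 0), (rh754ed8af3fcc8232.shift 0 3), (rhc9de03f9731897d4.shift 3 1)] (by decide +kernel))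
noncomputable def rhc4360f3981b11db9 : CRef := CRef.mk (Pat.mk 0x40000000400000006000000020000000000000000 0xa0000000f0000003c000000070000003e0000000c00000008 6 6) 0 0 (step_sound _ 66 [(rh1bd0c14c4de1ef4d.shift 0 1), (rh36d4d92ef3dad5f8.shift 0 1), (rhc9de03f9731897d4.shift 2 0)] (by decide +kernel))
noncomputable def rhe58b45e33cc47ff1 : CRef := CRef.mk (Pat.mk 0x1000000018000000080000000800000000 0x80000000c000000ec000000ff0000001f000000180000001800000010 6 8) 0 0 (step_sound _ 131 [(rh28c8c9661f6daf2b.shift 0 1), (rh933f3ac7d57d09d8.shift 2 1), (rha686ff21d9572f9e.shift 1 0), (rhc49dcbc8b1f304cb.shift 1 0)] (by decide +kernel))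
noncomputable def rhdd03524a82bd8092 : CRef := CRef.mk (Pat.mk 0x100000000e00000000000000000000000000000000 0x140000001c0000001c0000001c0000001f000000780000001c0000001c00000004 6 7) 0 0 (step_sound _ 163 [(rh53b3c253cb0c65f4.shift 0 4), (rh6369b75c5e5b720c.shift 1 0)] (by decide +kernel))
noncomputable def rh0f2a9f1d860f17e3 : CRef := CRef.mk (Pat.mk 0x38000000080000000000000000 0x14000000770000003e0000006f0000002800000028 6 7) 0 0 (step_sound _ 98 [(rh61325f73ebf98108.shift 0 3), (rh6887ef21f67dd26a.shift 1 0), (rha5346060b12b3a35.shift 0 2), (rhc45e7c30a458a522.shift 1 0), (rhd75855c0840bf9dc.shift 0 2)] (by decide +kernel))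
noncomputable def rhf9f4e13edfe56641 : CRef := CRef.mk (Pat.mk 0x1e000000040000000000000000 0x200000002000000070000001e000000370000000400000004 6 6) 0 0 (step_sound _ 64 [rh44cb360f95bc185f, (rh80fcd6d0a18cb2dd.shift 0 2)] (by decide +kernel))
noncomputable def rh7cf90120673b877a : CRef := CRef.mk (Pat.mk 0x3c000000080000000000000000 0x4000000040000000e0000003e0000000f0000000800000008 6 6) 0 0 (step_sound _ 65 [rh019d199c7d44f4ea, (rh80fcd6d0a18cb2dd.shift 1 2)] (by decide +kernel))
noncomputable def rhcd20ef83f10dbe28 : CRef := CRef.mk (Pat.mk 0x400000006000000020000000000000000 0xe0000000e0000000e000000070000003e0000000c00000008 6 6) 0 0 (step_sound _ 162 [(rh5c5e593799055d58.shift 1 2), rh6c41233e4b9e1d83] (by decide +kernel))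
noncomputable def rhb5aaf7648e45b521 : CRef := CRef.mk (Pat.mk 0x800000008000000080000001800000000 0x1000000018000000180000003e0000007f00000064 6 7) 0 0 (step_sound _ 34 [rh74eb86970c84bc0f, (rh932754581e0f4330.shift 2 0)] (by decide +kernel))
noncomputable def rha71f23a3a0eed07d : CRef := CRef.mk (Pat.mk 0xc00000004000000040000000400000000 0x320000003f0000003f0000000c0000000c00000008 6 6) 0 0 (step_sound _ 129 [(rh50fbb5868c909700.shift 1 1), rhc5ce58e1919d8f72] (by decide +kernel))
noncomputable def rh83f678d626105e3c : CRef := CRef.mk (Pat.mk 0x40000000f000000000000000000000000 0x1800000018000000180000001c0000000f0000001c0000000c0000000c 6 5) 0 0 (step_sound _ 67 [(rhe25b0a99195a5d59.shift 0 2), rhee0cdae7a56d461d] (by decide +kernel))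
noncomputable def rhccb39994a505a689 : CRef := CRef.mk (Pat.mk 0x30000000180000000000000000 0x8000000ee000000ff000000f80000001000000010 6 8) 0 0 (step_sound _ 102 [(rh18965a982d73c794.shift 3 2), rh740d94341a3f5d79] (by decide +kernel))
noncomputable def rh1be06df7c2be3227 : CRef := CRef.mk (Pat.mk 0x180000000e000000000000000000000000 0x3000000032000000330000001f000000fe000000fc0000001c00000018 6 8) 0 0 (step_sound _ 100 [(rh16ffcf79af18348f.shift 1 0), (rh41d5a93e35cc8528.shift 0 1), (rhd8a69d8a2039d214.shift 0 2)] (by decide +kernel))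
noncomputable def rhd03be2e0d7fdcda5 : CRef := CRef.mk (Pat.mk 0x180000000e000000000000000000000000 0x3000000030000001f000000fe000000e70000000400000004 6 8) 0 0 (step_sound _ 100 [rh2395824d1086e2bc, (rh3f38de6b95fe6c30.shift 0 1), (rhb447f348b8f2aaa5.shift 0 2), (rhd8a69d8a2039d214.shift 0 2)] (by decide +kernel))
noncomputable def rhb586887773b4122e : CRef := CRef.mk (Pat.mk 0x1c000000060000000000000000 0xa0000003b0000001e0000003e0000003400000034 6 6) 0 0 (step_sound _ 97 [rh38a0850c9fea941e, (rhba719ba7a8fe514a.shift 1 0), rhc298b91816a3bf40] (by decide +kernel))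
noncomputable def rhd6a8478a18f2fc46 : CRef := CRef.mk (Pat.mk 0x180000000e000000000000000000000000 0x3000000030000000300000001c000000fe0000003f0000001800000018 6 8) 0 0 (step_sound _ 100 [(rh16ffcf79af18348f.shift 1 0), (rhb447f348b8f2aaa5.shift 0 2)] (by decide +kernel))
noncomputable def rhf3c6f9e7d3c2063d : CRef := CRef.mk (Pat.mk 0x80000001e000000000000000000000000 0x10000000700000007000000070000000f0000001e000000070000000600000006 6 5) 0 0 (step_sound _ 129 [(rh3244c3cc8379b070.shift 0 3), rh3ce4b70399c80ff1] (by decide +kernel))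
noncomputable def rh9701a83bdb521326 : CRef := CRef.mk (Pat.mk 0x3800000004000000000000000000000000 0x40000000c0000000c0000000f0000007c0000001c0000001c0000001c0000001c 6 7) 0 0 (step_sound _ 99 [(rh18965a982d73c794.shift 2 3), rhe1f3293e3b54dab5] (by decide +kernel))
noncomputable def rhbbf0bb7147ad1dea : CRef := CRef.mk (Pat.mk 0x80000001e00000000 0x1c000000fe0000003f 6 8) 0 0 (step_sound _ 1 [(rh3a20343579a9cdce.shift 1 0), rheb0810cc63b001d8] (by decide +kernel))
noncomputable def rh8dd8cffe5ff2f8c9 : CRef := CRef.mk (Pat.mk 0xc0000001c000000000000000000000000 0x600000006000000060000000f0000001c0000000f0000000e00000006 6 5) 0 0 (step_sound _ 129 [(rhb739f4f82bb681b4.shift 0 3), rhc23e9f090ccbf71d] (by decide +kernel))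
noncomputable def rh89fb70457614ea40 : CRef := CRef.mk (Pat.mk 0x60000000e000000000000000000000000 0x30000000300000003000000060000003e000000070000000600000006 6 6) 0 0 (step_sound _ 100 [rh949a7e17d676d35b, (rhf48373e13d2bc128.shift 1 3)] (by decide +kernel))
noncomputable def rhc554c5f3c96a0ab0 : CRef := CRef.mk (Pat.mk 0x80000001c000000000000000000000000 0x20000000f80000007e000000f70000001000000010 6 8) 0 0 (step_sound _ 101 [(rh008b05f4778dc30d.shift 0 2), (rh07fc106a6edf0c0a.shift 1 2), (rh7654d7b92c96fe12.shift 0 2), (rhce71534e51e0a15e.shift 1 0)] (by decide +kernel))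
noncomputable def rh59f71b98d5d8889a : CRef := CRef.mk (Pat.mk 0x180000000e000000000000000000000000 0x3000000030000000340000001f0000003e0000003b0000001a0000001a 6 6) 0 0 (step_sound _ 100 [(rh16ffcf79af18348f.shift 1 0), rhefd858cfdc5d2964] (by decide +kernel))
noncomputable def rh6d9eec8f2c084cae : CRef := CRef.mk (Pat.mk 0x1800000018000000100000000000000000 0xc0000000c0000001c0000001f000000ff000000ef0000000c 6 8) 0 0 (step_sound _ 67 [(rh6fcb529ae753fa36.shift 0 1), (rhc88c7e49fdbcbc8d.shift 2 0), (rhf09df9fed8c8136d.shift 2 0), rhf556bc1b2b6776a3] (by decide +kernel))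
noncomputable def rh819a15737217fd29 : CRef := CRef.mk (Pat.mk 0x80000001800000018000000000000000000000000 0x8000000380000001f0000003f0000001c0000001c 6 6) 0 0 (step_sound _ 67 [(rhb93921118ecba2c8.shift 0 1), (rhbb83b53687587fb2.shift 2 0), (rhf57bd6481b8b2ca7.shift 3 0)] (by decide +kernel))
noncomputable def rh1e25ec49c59043e4 : CRef := CRef.mk (Pat.mk 0x40000000f000000000000000000000000 0x1800000018000000180000001c0000000f0000001c0000000c0000000c 6 5) 0 0 (step_sound _ 131 [rh16ffcf79af18348f, (rh33e738c4ed385b9f.shift 0 3)] (by decide +kernel))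
noncomputable def rh08a2fa87f2a67926 : CRef := CRef.mk (Pat.mk 0x80000001c000000000000000000000000 0x20000000ec0000007e000000f70000001000000010 6 8) 0 0 (step_sound _ 101 [(rh008b05f4778dc30d.shift 0 2), (rh07fc106a6edf0c0a.shift 1 2), (rh409a9929c04ca2d2.shift 0 2), (rhce71534e51e0a15e.shift 1 0)] (by decide +kernel))
noncomputable def rh477eb990f5bfaaf6 : CRef := CRef.mk (Pat.mk 0x1000000038000000000000000000000000 0x4000000170000007e0000007f0000002800000028 6 7) 0 0 (step_sound _ 98 [(rh008b05f4778dc30d.shift 0 2), rh15b6c72b5f9b306f, (rh2395824d1086e2bc.shift 1 0), (rh775ca1963e850b80.shift 0 2)] (by decide +kernel))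
noncomputable def rh4c2bc612e97d8900 : CRef := CRef.mk (Pat.mk 0x1800000018000000080000000000000000 0x80000001800000018000000380000001f0000001c 6 6) 0 0 (step_sound _ 35 [(rh71222050f2c63a3a.shift 3 0), rhc9a8c524b5efcba1] (by decide +kernel))
noncomputable def rh6dd7e3afac906266 : CRef := CRef.mk (Pat.mk 0x1800000018000000080000000000000000 0x800000018000000780000001f0000000c0000000c 6 7) 0 0 (step_sound _ 35 [(rh71222050f2c63a3a.shift 3 0), rhd1671c6e88add9be] (by decide +kernel))
noncomputable def rhd59edc4b19329902 : CRef := CRef.mk (Pat.mk 0x1800000018000000080000000000000000 0x80000000800000018000000380000003f000000f400000030 6 8) 0 0 (step_sound _ 68 [(rh3cb04db3dd2b6a55.shift 3 0), (rha8244c71b57b4d05.shift 1 0), (rhe2d7daae1577d340.shift 0 1)] (by decide +kernel))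
noncomputable def rh5edefdc92a35b1de : CRef := CRef.mk (Pat.mk 0xe0000000c0000000000000000 0x10000000730000007e0000007c0000000800000008 6 7) 0 0 (step_sound _ 100 [(rh226655e3fe6b4a8a.shift 1 2), rh6104aa46050c048d, (rhf5e124ec5c58a2dd.shift 1 2)] (by decide +kernel))
noncomputable def rhb4ae41c8ba47b884 : CRef := CRef.mk (Pat.mk 0x1800000030000000000000000000000000 0x1000000038000000ff000000ee0000000800000008 6 8) 0 0 (step_sound _ 102 [rh4c3d64c7e4203526, (rhf48373e13d2bc128.shift 3 3)] (by decide +kernel))
noncomputable def rh34eb42c026c91694 : CRef := CRef.mk (Pat.mk 0xe00000018000000000000000000000000 0x40000000f000000fe0000001f000000330000001300000010 6 8) 0 0 (step_sound _ 132 [rh20879249aee603a7, (rh3bbb6459c441914e.shift 0 3), (rh412d230494194d0a.shift 0 3), (rhafa8ad03fb07c74b.shift 0 1), (rhefd858cfdc5d2964.shift 0 1)] (by decide +kernel))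
noncomputable def rhc7e18f4e0f4cac45 : CRef := CRef.mk (Pat.mk 0x60000001c000000000000000000000000 0x30000000340000003e0000001e0000003b0000000a00000002 6 6) 0 0 (step_sound _ 97 [(rh245928b0a8b00d1d.shift 1 1), rh9a011a4d0ec8f646] (by decide +kernel))
noncomputable def rh592a723f16b36aba : CRef := CRef.mk (Pat.mk 0xe00000018000000000000000000000000 0x18000000180000003f000000fe0000001c000000300000003000000030 6 8) 0 0 (step_sound _ 132 [(rh24e5068e31ff08b5.shift 1 0), (rh412d230494194d0a.shift 0 3)] (by decide +kernel))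
noncomputable def rh0db230562ebffc87 : CRef := CRef.mk (Pat.mk 0xf00000004000000000000000000000000 0xc0000000c0000001c0000000f0000001c000000180000001800000018 6 5) 0 0 (step_sound _ 99 [rh24e5068e31ff08b5, (rhe25b0a99195a5d59.shift 0 3)] (by decide +kernel))
noncomputable def rhd7152cf2bcf24eff : CRef := CRef.mk (Pat.mk 0x1c000000100000000000000000 0x10000000330000001f000000380000000800000008 6 6) 0 0 (step_sound _ 97 [rh8859ac061aed93d9, (rhe25b0a99195a5d59.shift 1 2)] (by decide +kernel))
noncomputable def rh059edb3c29340fb2 : CRef := CRef.mk (Pat.mk 0x1e00000008 0xe70000007e0000000f 6 8) 0 0 (step_sound _ 0 [rh80fcd6d0a18cb2dd, rhdce80c6eb7d59202] (by decide +kernel))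
noncomputable def rh6c22c534ca255086 : CRef := CRef.mk (Pat.mk 0x1c0000000c000000000000000000000000 0x60000000e0000000f0000001c0000000f000000060000000600000006 6 5) 0 0 (step_sound _ 97 [(rh53b3c253cb0c65f4.shift 0 3), rhfb5cf6739612f322] (by decide +kernel))
noncomputable def rhf9c31414399bd0ed : CRef := CRef.mk (Pat.mk 0xe000000040000000000000000 0x8000000380000003f000000370000001000000010 6 6) 0 0 (step_sound _ 100 [rh6887ef21f67dd26a, (rhaf9f2efc81a8312b.shift 0 2)] (by decide +kernel))
noncomputable def rh5f36bffb38531c75 : CRef := CRef.mk (Pat.mk 0x1c000000080000000000000000 0x10000000ff000000fe000000780000002000000020 6 8) 0 0 (step_sound _ 101 [(rh61325f73ebf98108.shift 0 3), (rh6887ef21f67dd26a.shift 1 0), (rh761422403972b6ba.shift 1 2), (rhb9b9ce08a9b9cf77.shift 1 2), (rhd75855c0840bf9dc.shift 0 2)] (by decide +kernel))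
noncomputable def rh82a06865da4999c1 : CRef := CRef.mk (Pat.mk 0x1c00000008 0x770000007e0000006e 6 7) 0 0 (step_sound _ 37 [(rhaf9f2efc81a8312b.shift 1 0), rhd75855c0840bf9dc] (by decide +kernel))
noncomputable def rhd02df93cce4e9d29 : CRef := CRef.mk (Pat.mk 0xe00000018000000000000000000000000 0x180000001800000078000000fe0000001f000000300000003000000030 6 8) 0 0 (step_sound _ 132 [rh20879249aee603a7, (rh24e5068e31ff08b5.shift 1 0), (rha64ae85040c3f79e.shift 0 3)] (by decide +kernel))
noncomputable def rhb934803adb845c12 : CRef := CRef.mk (Pat.mk 0x18000000380000000000000000 0x1c0000001c0000001f0000001f0000003f0000002e00000008 6 6) 0 0 (step_sound _ 97 [(rhab22b5b56e7b3243.shift 1 2), rhd32903b2b1e4b4f6] (by decide +kernel))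
noncomputable def rh9f9c8337caa41017 : CRef := CRef.mk (Pat.mk 0x180000001800000008 0x1c0000001c0000003f0000001f0000003800000008 6 6) 0 0 (step_sound _ 99 [(rh90b823c913a425e8.shift 2 0), (rhc0301b400ca2a736.shift 3 0), rhd21762f8710ba4c5] (by decide +kernel))
noncomputable def rh67dc99454506f989 : CRef := CRef.mk (Pat.mk 0x1000000018000000180000000000000000 0xc000000ef000000ff0000001f0000001c0000000c0000000c 6 8) 0 0 (step_sound _ 131 [(rh01ff8e29f1e0af53.shift 0 2), rh349b86a16c32f35d, (rhc88c7e49fdbcbc8d.shift 2 0), (rhee4750e86d347f32.shift 2 0)] (by decide +kernel))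
noncomputable def rh6ac94f79c0722fba : CRef := CRef.mk (Pat.mk 0x3800000018000000000000000000000000 0x4000000140000003e0000003f000000180000000c0000000c0000000c 6 6) 0 0 (step_sound _ 67 [(rh3a54a75d2b2b49ab.shift 0 2), (rhd5ce03d3beb8f535.shift 2 0), (rhea7a1800d6f053bd.shift 3 0)] (by decide +kernel))
noncomputable def rhc0cddc5e68bb8db9 : CRef := CRef.mk (Pat.mk 0x1e00000004000000000000000000000000 0x600000006000000070000003e00000006000000030000000300000003 6 6) 0 0 (step_sound _ 97 [(rh18965a982d73c794.shift 1 3), rh9106cea440f48aab] (by decide +kernel))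
noncomputable def rh756cd74797621855 : CRef := CRef.mk (Pat.mk 0x1e000000040000000000000000 0x8000000380000003f000000360000001000000010 6 6) 0 0 (step_sound _ 65 [(rh18965a982d73c794.shift 1 2), rh6887ef21f67dd26a] (by decide +kernel))
noncomputable def rh3b1dba3afbb30e85 : CRef := CRef.mk (Pat.mk 0x60000000e000000000000000000000000 0x80000003e0000003f000000300000001000000010 6 6) 0 0 (step_sound _ 100 [rh6887ef21f67dd26a, (rhf48373e13d2bc128.shift 1 3)] (by decide +kernel))
noncomputable def rh4892d36a38b44d97 : CRef := CRef.mk (Pat.mk 0xc0000001c000000000000000000000000 0x2000000020000000780000007c0000001f000000300000001000000010 6 7) 0 0 (step_sound _ 132 [(rh4d9b034736f6e019.shift 2 1), rh7fe3849afaeeddfd, (rhab2ad169e49f9c5e.shift 0 3)] (by decide +kernel))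
noncomputable def rhc7acfcf8b3093ca8 : CRef := CRef.mk (Pat.mk 0x18000000180000000800000000 0x1c0000001c0000001f00000078000000180000000c00000004 6 7) 0 0 (step_sound _ 131 [(rh888d8d7ab43e8c54.shift 2 0), (rh90b823c913a425e8.shift 2 1), (rhaf97d21e7fb8f8b8.shift 2 0), (rhcaa080098f0e9e4a.shift 2 0), rhf8c8d962f41a49df] (by decide +kernel))
noncomputable def rhcad4637037ab22d5 : CRef := CRef.mk (Pat.mk 0x100000001000000010000000000000000000000000 0x20000000ef0000007e000000ff00000010000000380000003800000028 6 8) 0 0 (step_sound _ 163 [(rh0a6888916bcef86b.shift 3 0), (rh43d8dfd721575dfb.shift 3 0), (rha06be1b6d9023774.shift 0 3), rhabc582c25c792f36] (by decide +kernel))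
noncomputable def rhadc945aa9d81f4dc : CRef := CRef.mk (Pat.mk 0x200000002000000020000000000000000000000000 0x200000002000000020000001fe000000fe000003df0000005000000050 6 10) 0 0 (step_sound _ 100 [rh08be46cefc6c679d, (rh9b3949a83a0523a7.shift 2 2), (rhe6814bb3ae48d0ee.shift 1 0), (rhfafeb437ceb8396d.shift 4 0)] (by decide +kernel))
end Crest.Agent.S0047.Helper85.Cert
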