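import Crest.Agent.Lib.S0047.Helper85CertPL5F0
import Crest.Agent.Lib.S0047.Helper85CertPL5F1
import Crest.Agent.Lib.S0047.Helper85CertPL5F2
import Crest.Agent.Lib.S0047.Helper85CertPL5F3
import Crest.Agent.Lib.S0047.Helper85CertPL5F4
import Crest.Agent.Lib.S0047.Helper85CertPL5F5
import Crest.Agent.Lib.S0047.Helper85CertPL5F6
import Crest.Agent.Lib.S0047.Helper85CertPL5F7
import Crest.Agent.Lib.S0047.Helper85CertPL5F8
import Crest.Agent.Lib.S0047.Helper85CertPL5F9
import Crest.Agent.Lib.S0047.Helper85CertPL5F10
import Crest.Agent.Lib.S0047.Helper85CertPL5F11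
import Crest.Agent.Lib.S0047.Helper85CertPL5F12
set_option autoImplicit false
set_option linter.all false
set_option Elab.async false
namespace Crest.Agent.S0047.Helper85.Cert
open Crest.Agent.S0047.Helper85

noncomputable def rh7cedcdfcb6c8245c : CRef := CRef.mk (Pat.mk 0x2000000020000000600000006000000000000000000000000 0x500000007000000030000000600000006000000030000000300000003 6 3) 0 0 (step_sound _ 192 [(rh50fbb5868c909700.shift 0 3), rh84f6ed9995a315bc] (by decide +kernel))
noncomputable def rhcbe77670bcba607c : CRef := CRef.mk (Pat.mk 0xc0000003c000000080000000800000000 0xc0000003c0000007c0000001e00000017 6 7) 0 0 (step_sound _ 69 [rh443986bade187874, (rhe25b0a99195a5d59.shift 2 2)] (by decide +kernel))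
noncomputable def rhaac1b8fb8eeb551a : CRef := CRef.mk (Pat.mk 0xe0000001e000000000000000600000000 0xe0000001e0000003a0000001f0000001b 6 6) 0 0 (step_sound _ 68 [rh4b98a2cd7e3a1baa, (rhe25b0a99195a5d59.shift 1 2)] (by decide +kernel))
noncomputable def rhbb2e73e018771099 : CRef := CRef.mk (Pat.mk 0xc0000001e000000000000000600000000 0xc0000001e000000380000001f0000007c 6 7) 0 0 (step_sound _ 68 [rhb52f621a7dbf34d4, (rhe25b0a99195a5d59.shift 1 2)] (by decide +kernel))
noncomputable def rh5e8e0d9b8ece6199 : CRef := CRef.mk (Pat.mk 0x1a00000038000000080000000800000000 0x8000000080000001b0000003f0000006c0000007c00000030 6 7) 0 0 (step_sound _ 98 [(rh408e65ef3e818fe1.shift 2 0), (rh5c36e97be8af272f.shift 0 3)] (by decide +kernel))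
noncomputable def rh838c6906bbfb1786 : CRef := CRef.mk (Pat.mk 0x42000000580000005000000040 0x2800000078000000ef000000780000005000000040 6 8) 0 0 (step_sound _ 99 [(rh23180280a8fd1027.shift 0 2), (rh8fc62e25076e002b.shift 3 0), (rhe606862926198964.shift 2 0)] (by decide +kernel))
noncomputable def rh465486c274b30a6b : CRef := CRef.mk (Pat.mk 0x60000000420000005800000050 0x80000000c8000000f80000004f0000007800000050 6 8) 0 0 (step_sound _ 135 [rh14fa1482f8ff5e1b, (rhbaefcd01e0a8bca3.shift 6 0)] (by decide +kernel))
noncomputable def rh88cf62d867fa8ab1 : CRef := CRef.mk (Pat.mk 0x200000002000000020000000200000000 0x5000000070000000700000002000000020000000700000005 6 3) 0 0 (step_sound _ 32 [rh5c2604daa0330ae7, rh932754581e0f4330] (by decide +kernel))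
noncomputable def rhcc733c6eb332fe88 : CRef := CRef.mk (Pat.mk 0x2000000060000000200000002 0x500000007000000070000000600000006000000060000000600000002 6 3) 0 0 (step_sound _ 129 [(rh14e0829dc73b6804.shift 0 1), (rh14f80659e6313cc6.shift 1 1), (rh44f453b84f013105.shift 1 0), (rhb8566e9a0302f73d.shift 1 0)] (by decide +kernel))
noncomputable def rh92a17d0f3b5f3df9 : CRef := CRef.mk (Pat.mk 0xc00000005 0xf00000007e000000ff 6 8) 0 0 (step_sound _ 36 [rh67e5914ef7f4941c, (rh73defbe0d585e6ce.shift 1 0), rhbb229bad87965364, rhd8c394f6f1cae318] (by decide +kernel))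
noncomputable def rha0d26ad2798b7815 : CRef := CRef.mk (Pat.mk 0x8000000180000000a00000008 0x140000001c0000001c0000000c0000000c0000001c0000001f00000008 6 5) 0 0 (step_sound _ 131 [(rh14e0829dc73b6804.shift 2 1), (rh3ca48e2a6d60153d.shift 2 0), (rh3da62da861143b9a.shift 2 1), (rh835d1fcfe7932847.shift 0 1), (rhe380c42df720a63d.shift 2 1)] (by decide +kernel))
noncomputable def rhcce7d4fbc680ab15 : CRef := CRef.mk (Pat.mk 0x6000000040000000500000004 0x780000003f0000003e0000000f00000004 6 7) 0 0 (step_sound _ 99 [(rh2f68792b6b779e96.shift 2 0), (rh3b262d73dc93b0fc.shift 0 1)] (by decide +kernel))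
noncomputable def rh810e07257826fd42 : CRef := CRef.mk (Pat.mk 0x140000001400000014000000100000000000000000 0x1000000014000000160000001f0000001b0000000a00000002 6 5) 0 0 (step_sound _ 67 [rh1da0f313faee2e88, (rh932754581e0f4330.shift 3 1)] (by decide +kernel))
noncomputable def rh8f1a07e70aac0dcc : CRef := CRef.mk (Pat.mk 0x20000000200000002000000020000000000000000 0x100000003000000030000000200000006000000070000000700000001 6 3) 0 0 (step_sound _ 66 [rh069689bba01d845e, (rh55afc6a59410cf00.shift 1 1)] (by decide +kernel))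
noncomputable def rhb0128545929f00d4 : CRef := CRef.mk (Pat.mk 0x80000000a0000000a0000000000000000 0x140000001c0000001c000000180000000b0000001e0000001c00000010 6 5) 0 0 (step_sound _ 163 [(rh11a243992b58ed44.shift 0 1), (rh1741680720c097b4.shift 2 2), (rh5c2604daa0330ae7.shift 2 1), (rh6c59ce14113da07f.shift 3 0)] (by decide +kernel))
noncomputable def rh0a7c49a46b040134 : CRef := CRef.mk (Pat.mk 0xa0000000a0000000a00000000 0x140000001c0000003c0000001e0000000b0000001e0000000c 6 6) 0 0 (step_sound _ 131 [(rh1741680720c097b4.shift 2 1), rh3792a85d7f7b8435, rh703e1f49b8dbfbee] (by decide +kernel))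
noncomputable def rha4f8126b862f621c : CRef := CRef.mk (Pat.mk 0x20000001800000010000000700000000000000000 0xc0000000f0000001800000018000000f80000000c00000008 6 8) 0 0 (step_sound _ 99 [rh0f06c269910e831e, (rhf48373e13d2bc128.shift 3 2)] (by decide +kernel))
noncomputable def rh7bcbd1b2f206d354 : CRef := CRef.mk (Pat.mk 0xc0000000520000005300000050 0x2800000078000000e80000005e0000005b00000050 6 8) 0 0 (step_sound _ 133 [rh5467f8a7ebddd2d8, (rhffd04209dc8ea796.shift 5 0)] (by decide +kernel))
noncomputable def rhd5a3215efe7d9616 : CRef := CRef.mk (Pat.mk 0x100000000b0000000a0000000a 0x50000001f0000001d0000000b0000000b0000000a 6 5) 0 0 (step_sound _ 99 [(rh2f68792b6b779e96.shift 3 0), rh48bdb31849c83d76] (by decide +kernel))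
noncomputable def rh34841b85007100f7 : CRef := CRef.mk (Pat.mk 0x14000000140000001c000000000000000000000000 0x14000000160000001f0000007b0000002a00000002 6 7) 0 0 (step_sound _ 68 [rh01027f0b9a8d00ba, (rhb379f99078aafa2d.shift 2 1), (rhbdde238153e38af9.shift 1 1)] (by decide +kernel))
noncomputable def rh89319c83de708f3e : CRef := CRef.mk (Pat.mk 0x1e00000000 0xe0000000ff000000fc 6 8) 0 0 (step_sound _ 37 [(rh4ad5fc38f1b69f65.shift 1 0), rh54500e755d88beaf, (rha93a5dd541ab8209.shift 2 0)] (by decide +kernel))
noncomputable def rhe08b3642bf78c2d5 : CRef := CRef.mk (Pat.mk 0x200000002000000030000000200000000000000000000000000000000 0x200000002000000030000000300000007000000070000000700000001 6 3) 0 0 (step_sound _ 97 [(rh54b8034e7f92149e.shift 0 1), (rh6eff4158bb400f47.shift 0 1), (rh7928877f9bf74a91.shift 0 2), rhbaff7ec0fcc038ba] (by decide +kernel))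
noncomputable def rh231ac0f35bf7589d : CRef := CRef.mk (Pat.mk 0x140000001400000014000000100000000000000000 0x1400000016000000ff000000fb0000000a00000002 6 8) 0 0 (step_sound _ 99 [rh01027f0b9a8d00ba, (rh1a33908c8c221aa7.shift 1 1), (rh8ee80cc30e93a344.shift 1 2)] (by decide +kernel))
noncomputable def rhf3bb9b87d8cdeb54 : CRef := CRef.mk (Pat.mk 0x8000000100000001e00000014 0x200000003a0000003e000000130000001e00000014 6 6) 0 0 (step_sound _ 100 [(rh50fbb5868c909700.shift 3 0), rh541d5c471d9e55a7] (by decide +kernel))
noncomputable def rh41f5e9444d299b0b : CRef := CRef.mk (Pat.mk 0x3c0000001400000000000000000000000000000000 0x40000000e0000003c0000001c0000000f0000000e0000000e0000000a 6 6) 0 0 (step_sound _ 98 [(rh09434c5c7c2faa76.shift 1 1), (rh1b9022be4f7af407.shift 1 0), (rh274a837cd7eaa569.shift 1 0), (rh53e2edde17e72ab8.shift 0 2)] (by decide +kernel))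
noncomputable def rh81113ac73e974761 : CRef := CRef.mk (Pat.mk 0x20000000200000002000000020000000200000002 0x50000000700000007000000020000000300000003000000030000000200000002 6 3) 0 0 (step_sound _ 96 [(rh32431e66bbf434a4.shift 0 2), rh50fbb5868c909700] (by decide +kernel))
noncomputable def rhdbbf446b8d94728f : CRef := CRef.mk (Pat.mk 0x2000000020000000a0000001a 0x1000000070000000700000006000000030000000f0000001a 6 5) 0 0 (step_sound _ 130 [rh63e025c26d1b6de3, (rhbaefcd01e0a8bca3.shift 1 0)] (by decide +kernel))
noncomputable def rha156a391623af688 : CRef := CRef.mk (Pat.mk 0x200000002000000020000000200000002 0x50000000700000007000000060000000700000003000000030000000300000002 6 3) 0 0 (step_sound _ 161 [(rh20966da26a1c2ae8.shift 0 1), (rh44f453b84f013105.shift 1 1), (rh613f209fe4f78614.shift 0 1), rhad7f3a7ca7906542] (by decide +kernel))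
noncomputable def rh78b87670118bd863 : CRef := CRef.mk (Pat.mk 0x8000000680000000800000000 0x140000001c0000003c0000000f000000780000001800000010 6 7) 0 0 (step_sound _ 131 [(rh05c024c471721d4f.shift 2 0), (rh1741680720c097b4.shift 2 1), (rh30249f162b4c4903.shift 2 1), (rh5abfc4c9d959be03.shift 2 0), (rh81777994d02217c0.shift 0 1)] (by decide +kernel))
noncomputable def rh4d8612647220b06a : CRef := CRef.mk (Pat.mk 0xd000000018000000000000000000000000 0x1000000010000000d70000007e000000770000002000000020 6 8) 0 0 (step_sound _ 101 [(rh3fc040e777f1679e.shift 3 3), rh5c62ef27abcc04f6] (by decide +kernel))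
noncomputable def rh0cb245e2f9cdfb02 : CRef := CRef.mk (Pat.mk 0x20000001e000000020000000000000000 0x6000000060000001e0000003e0000000700000007 6 6) 0 0 (step_sound _ 68 [(rhe25b0a99195a5d59.shift 1 2), rhf60360c0d4215ec0] (by decide +kernel))
noncomputable def rhd95a7901070c8d04 : CRef := CRef.mk (Pat.mk 0x2000000060000000200000000000000000000000000000000 0x60000000600000006000000060000000600000007000000070000000700000004 6 3) 0 0 (step_sound _ 97 [(rh3820f35d5e705bec.shift 1 0), (rh7ab09f375cd5d482.shift 1 3), rh8a1bd34420cccc7f, (rh91a545eb3be094e3.shift 0 1)] (by decide +kernel))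
noncomputable def rhd263d0a823fe5498 : CRef := CRef.mk (Pat.mk 0x3000000020000000200000003000000000 0x30000000300000007f000000fe0000004e 6 8) 0 0 (step_sound _ 35 [(rh3e0b38310ac09007.shift 0 1), (rh89e4109e269109fd.shift 1 0), (rh93dda9760d3e1fd3.shift 2 0)] (by decide +kernel))
noncomputable def rh15fa72c11eaefdb1 : CRef := CRef.mk (Pat.mk 0x8000000080000006800000008 0x140000007c0000001f0000007800000008 6 7) 0 0 (step_sound _ 66 [rh1b459c1a8e45abea, (rh5419adcd928dba20.shift 2 1)] (by decide +kernel))
noncomputable def rhfd89c2aeff680e18 : CRef := CRef.mk (Pat.mk 0x1a00000002000000000000000000000000 0x10000000300000003000000030000001f00000003000000070000000700000005 6 5) 0 0 (step_sound _ 161 [(rh01e48cd9f335aa73.shift 0 3), rhaf7955adbc1f7ff4, rhb87c81b4d8d5df91, (rhec5c45900e0e4fe3.shift 0 2)] (by decide +kernel))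
noncomputable def rh1624aa51b7d9aa5e : CRef := CRef.mk (Pat.mk 0x2000000060000000200000000000000000000000000000000 0x60000000600000006000000060000000600000007000000070000000700000005 6 3) 0 0 (step_sound _ 97 [rh1b9022be4f7af407, (rh7ab09f375cd5d482.shift 1 3), (rh8cdd36b03d57a2f6.shift 0 1)] (by decide +kernel))
noncomputable def rh9500ee63198d2775 : CRef := CRef.mk (Pat.mk 0x1e000000020000000000000000 0x50000000700000007000000070000001e000000060000000600000004 6 5) 0 0 (step_sound _ 129 [(rh3244c3cc8379b070.shift 0 3), rhdaf51d2c6458409f] (by decide +kernel))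
noncomputable def rhdead230ca8da1ccc : CRef := CRef.mk (Pat.mk 0x3800000010000000100000001000000000 0x70000007e0000007e000000180000001800000008 6 7) 0 0 (step_sound _ 35 [(rh932754581e0f4330.shift 3 0), (rhb69e01359119a9fa.shift 0 1)] (by decide +kernel))
noncomputable def rh5ab91b705c3ba09e : CRef := CRef.mk (Pat.mk 0xc00000068000000080000001c00000000 0x100000001c0000006c0000003f0000003f00000003 6 7) 0 0 (step_sound _ 132 [(rh2f68792b6b779e96.shift 3 1), rhc08bd25093e3450d] (by decide +kernel))
noncomputable def rhe65abab56cd79223 : CRef := CRef.mk (Pat.mk 0xa000000020000004200000042 0x740000007e000000630000004200000042 6 7) 0 0 (step_sound _ 98 [(rh2f68792b6b779e96.shift 1 0), rhe81f52ced7ab21b3] (by decide +kernel))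
noncomputable def rh387bc94acee12862 : CRef := CRef.mk (Pat.mk 0xc0000001a0000000300000000 0x500000007000000070000000f0000001a0000000300000001 6 5) 0 0 (step_sound _ 97 [rh32431e66bbf434a4, (rhb739f4f82bb681b4.shift 0 2)] (by decide +kernel))
noncomputable def rh5c7644baca87de6b : CRef := CRef.mk (Pat.mk 0x10000000b400000006 0xa0000000e0000000f0000001e000000f600000006 6 8) 0 0 (step_sound _ 67 [(rh2fe78cc5ca4405d8.shift 3 1), rh5dfc83794b23ff78] (by decide +kernel))
noncomputable def rh94da6b2630cfcd81 : CRef := CRef.mk (Pat.mk 0x8000000080000000b00000008 0x40000001c0000001c000000180000001c0000000f00000008 6 5) 0 0 (step_sound _ 34 [(rh33e738c4ed385b9f.shift 0 1), (rh42ab489a1be3958e.shift 2 0)] (by decide +kernel))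
noncomputable def rh81decad4585b1e02 : CRef := CRef.mk (Pat.mk 0x1000000018000000080000000800000000 0x1800000018000000180000000f0000003c00000014 6 6) 0 0 (step_sound _ 131 [(rh2f68792b6b779e96.shift 3 1), rhf3d11b058448e968] (by decide +kernel))
noncomputable def rh1ef2fb8c15e0974a : CRef := CRef.mk (Pat.mk 0x36000000260000002200000002 0x160000001f0000001300000037000000360000002200000002 6 6) 0 0 (step_sound _ 128 [(rha86bf47c08392c9e.shift 0 1), rhffd04209dc8ea796] (by decide +kernel))
noncomputable def rheb059b451f22fe4a : CRef := CRef.mk (Pat.mk 0x1400000010000001100000003000000000 0x1400000014000001de000000fe0000000f 6 9) 0 0 (step_sound _ 35 [(rh932754581e0f4330.shift 3 0), rhd507977c021a553a] (by decide +kernel))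
noncomputable def rhbbe36e036f6f77c0 : CRef := CRef.mk (Pat.mk 0x4000000080000000b0000000a0000000a0000001000000000 0x50000000f000000190000001b0000000b0000000a0000001800000010 6 5) 0 0 (step_sound _ 35 [(rh55afc6a59410cf00.shift 3 0), (rh6453855276b3cfdd.shift 0 1)] (by decide +kernel))
noncomputable def rhb90b940b20db718f : CRef := CRef.mk (Pat.mk 0x60000001e00000000000000000000000000000000 0x20000000e0000001e0000003f0000000f0000000f0000000a 6 6) 0 0 (step_sound _ 98 [(rh0a6888916bcef86b.shift 1 0), (rh3cb04db3dd2b6a55.shift 1 1), (rh49aee9455fa90a86.shift 1 0), (rh8cd7ffe18900bf90.shift 0 1)] (by decide +kernel))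
noncomputable def rhbb7a69f31443c624 : CRef := CRef.mk (Pat.mk 0x60000001e000000000000000000000000 0x60000001f0000003f0000000300000003 6 6) 0 0 (step_sound _ 65 [rh30554cc634f864ce, (rheb0810cc63b001d8.shift 0 2)] (by decide +kernel))
noncomputable def rh3682642402808e16 : CRef := CRef.mk (Pat.mk 0x800000000e000000180000000000000000 0x4000000e70000007e0000001f0000000300000003 6 8) 0 0 (step_sound _ 100 [(rh3e2531436cb70ef7.shift 0 3), rhafa8ad03fb07c74b, (rhf0e41d6fe90b727a.shift 0 2)] (by decide +kernel))
noncomputable def rh730c9a9ef26b5f23 : CRef := CRef.mk (Pat.mk 0x1e00000018000000000000000000000000 0x2000000070000001e0000001f000000070000000600000002 6 5) 0 0 (step_sound _ 97 [(rheb0810cc63b001d8.shift 0 3), rhfe82e24163af4047] (by decide +kernel))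
noncomputable def rh5469c60958098454 : CRef := CRef.mk (Pat.mk 0x380000000800000018000000100000000000000000 0x3c0000000f0000007e000000760000001400000010 6 7) 0 0 (step_sound _ 36 [(rh0a6f7b7eb06de4c1.shift 0 1), (rh7b1f1fb55310c477.shift 3 0)] (by decide +kernel))
noncomputable def rh356f8c8f493dbdfb : CRef := CRef.mk (Pat.mk 0x300000001000000038000000000000000000000000 0x340000001e0000007c0000000f0000000800000008 6 7) 0 0 (step_sound _ 130 [rh596def3aae05c2e3, (rh841757f9a76ec410.shift 1 3), (rh8bb330ee5aea9f6b.shift 1 0), (rhbe282b16b2bfbfc7.shift 1 3)] (by decide +kernel))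
noncomputable def rh38101c90a92c7e81 : CRef := CRef.mk (Pat.mk 0x4000000840000000e000000080000000000000000 0x4000000e70000007e0000007b0000000a00000008 6 8) 0 0 (step_sound _ 35 [(rh02dc690356e91745.shift 0 1), (rh7b1f1fb55310c477.shift 2 0)] (by decide +kernel))
noncomputable def rh2b7ce8816b1cc15a : CRef := CRef.mk (Pat.mk 0x1000000000000000700000004000000000 0x18000000180000000f0000007e0000007f00000010 6 7) 0 0 (step_sound _ 67 [(rh0de499e0455c9c14.shift 1 1), (rh3542aec337c58088.shift 2 0), (rh775ca1963e850b80.shift 1 1), (rh88c620441a3a17ea.shift 0 1), (rhd1d05263fabc0227.shift 1 1)] (by decide +kernel))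
noncomputable def rh464b95f0b9f8bbd1 : CRef := CRef.mk (Pat.mk 0x1c00000018000000080000000800000000 0x30000001f0000001f0000000e0000000c00000004 6 5) 0 0 (step_sound _ 129 [rh013b530ea2c4c364, (rhb739f4f82bb681b4.shift 0 3)] (by decide +kernel))
noncomputable def rh9860057cf667bc76 : CRef := CRef.mk (Pat.mk 0x2200000007000000000 0x3bf000001fe0000000e 6 10) 0 0 (step_sound _ 35 [rh1f9701c4cf497514, (rh3e2531436cb70ef7.shift 2 1), (rh592c7139d2c44767.shift 1 0), (rhec0f150ffdda098a.shift 1 0)] (by decide +kernel))
noncomputable def rh6efe76e9eb34ceec : CRef := CRef.mk (Pat.mk 0x100000002000000820000000e00000000 0x100000003000000e20000007e00000073 6 8) 0 0 (step_sound _ 1 [rh963aae9dcd3ec6a5, rhffd04209dc8ea796] (by decide +kernel))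
noncomputable def rh616512b229f01aca : CRef := CRef.mk (Pat.mk 0x4c00000008000000080000001800000000 0x800000008000000080000007c0000000f0000001c0000001800000008 6 7) 0 0 (step_sound _ 98 [(rh76dc740c962f4db7.shift 0 1), (rh7b1f1fb55310c477.shift 2 0)] (by decide +kernel))
noncomputable def rh84c3a09b34faf21e : CRef := CRef.mk (Pat.mk 0x3000000020000000200000004 0x500000007000000070000000600000003000000030000000600000004 6 3) 0 0 (step_sound _ 129 [(rh9d7ed252db961d27.shift 0 1), (rhd3458b32566d63f7.shift 1 0)] (by decide +kernel))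
noncomputable def rha8a621b14643b20d : CRef := CRef.mk (Pat.mk 0x1600000002000000020000000a0000000000000000 0x30000001e00000003000000060000001f0000000300000001 6 5) 0 0 (step_sound _ 163 [rhe740c8e7ff8e968f, (rheb0810cc63b001d8.shift 0 4)] (by decide +kernel))
noncomputable def rh19d5ee887e0eaa44 : CRef := CRef.mk (Pat.mk 0x60000000000000007000000000000000000000000 0x6000000060000000200000007000000070000000700000005 6 3) 0 0 (step_sound _ 129 [(rh70e33bfdf511e144.shift 1 0), (rh734a7d8ffb9b479d.shift 0 1), (rhde10baa3043a2b46.shift 0 2), rhffb8e5993241bf15] (by decide +kernel))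
noncomputable def rhdbc90423906501a3 : CRef := CRef.mk (Pat.mk 0x2000000820000000a000000000000000000000000 0x200000002000000e30000007e000000760000000400000004 6 8) 0 0 (step_sound _ 98 [(rh70e33bfdf511e144.shift 1 0), (rhb0d8db7cceb3a8e2.shift 0 2)] (by decide +kernel))
noncomputable def rhf94791cc9de0af73 : CRef := CRef.mk (Pat.mk 0x200000002000000820000000a00000000 0x200000002000000e30000007e00000074 6 8) 0 0 (step_sound _ 34 [(rh55afc6a59410cf00.shift 1 0), rhb0d8db7cceb3a8e2] (by decide +kernel))
noncomputable def rh2e84606ae67e73ec : CRef := CRef.mk (Pat.mk 0x1a00000002000000020000000000000000 0x1000000050000000f0000001b00000003000000060000000600000004 6 5) 0 0 (step_sound _ 160 [(rh0dbc8abee7ad42d4.shift 0 1), rh42ac638a6bc44305, (rhaf5214748099048e.shift 0 2)] (by decide +kernel))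
noncomputable def rh88c93931e6fd939b : CRef := CRef.mk (Pat.mk 0x2000000020000001e0000000a 0x1d0000001f0000003a0000001e0000000a 6 6) 0 0 (step_sound _ 68 [(rh33e738c4ed385b9f.shift 1 1), rhea52d00ba1b1d8d4] (by decide +kernel))
noncomputable def rh85d61f8c6275c6a3 : CRef := CRef.mk (Pat.mk 0x1000000010000002000000002800000000 0x100000001000000390000001fe000001ff 6 10) 0 0 (step_sound _ 36 [rh61a0202de37988d6, rh8ba946378c076615, (rhbf726fa7097229f2.shift 3 0), (rhcb80472e20cd3872.shift 1 0)] (by decide +kernel))
noncomputable def rh6a45251f2b4f59c9 : CRef := CRef.mk (Pat.mk 0x300000001a00000002000000020000000000000000 0x100000003000000770000003f0000001b00000003000000030000000200000002 6 7) 0 0 (step_sound _ 161 [(rh0f7120a7b28fa607.shift 0 2), (rh2f7aebebd7d680c3.shift 0 2), rhb5e2811106eb513a, (rhd30c856bbcb3617d.shift 0 2)] (by decide +kernel))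
noncomputable def rh8117f18edbd429c4 : CRef := CRef.mk (Pat.mk 0x40000000400000014000000000000000000000000 0x20000000600000006000000370000003e0000000e0000000a 6 6) 0 0 (step_sound _ 66 [(rh8cdd36b03d57a2f6.shift 1 0), (rh8ff3dde5b1c639e0.shift 1 0), (rhc4526fc8abf298b6.shift 1 0), (rhe06c7604aef75ec4.shift 0 1)] (by decide +kernel))
noncomputable def rhc51176d1439d522b : CRef := CRef.mk (Pat.mk 0x20000001e00000000000000000000000000000000 0x200000002000000060000001e0000003f000000070000000700000002 6 6) 0 0 (step_sound _ 97 [rhb388c22bb80b26bb, (rheb0810cc63b001d8.shift 0 3)] (by decide +kernel))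
noncomputable def rhce7416f3334331f9 : CRef := CRef.mk (Pat.mk 0x20000001e00000002000000000000000000000000 0x600000006000000060000001e00000036000000070000000700000005 6 6) 0 0 (step_sound _ 100 [rh8e8119342f154b06, (rhe25b0a99195a5d59.shift 1 3)] (by decide +kernel))
noncomputable def rhdaf7e75b3fe424a4 : CRef := CRef.mk (Pat.mk 0x38000000000000000000000000 0x4000000070000007e0000007f0000000800000008 6 7) 0 0 (step_sound _ 98 [(rh0d378fd9e8917c5a.shift 0 2), (rh185f35b8bd8ec37f.shift 0 2), (rh775ca1963e850b80.shift 0 2), (rhafa5a7051d37b143.shift 1 0)] (by decide +kernel))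
noncomputable def rh4764ee860f69d7ae : CRef := CRef.mk (Pat.mk 0x2000000060000001200000000000000000000000000000000 0x400000006000000060000001e0000000f000000070000000700000004 6 5) 0 0 (step_sound _ 97 [(rh3820f35d5e705bec.shift 1 0), (rh6eff4158bb400f47.shift 0 1), (rh91a940540eb880d4.shift 0 2), (rha707fb719e87fe6e.shift 1 2)] (by decide +kernel))
noncomputable def rh32fd9ea87dd7a68c : CRef := CRef.mk (Pat.mk 0x4000000400000000e0000000000000000 0x600000006000000730000003e0000000700000004 6 7) 0 0 (step_sound _ 68 [(rh45e9dfbd6bd5d256.shift 1 2), rha700292a805d5a54] (by decide +kernel))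
noncomputable def rhc2926a8ff11a918a : CRef := CRef.mk (Pat.mk 0x20000001e00000000000000000000000000000000 0x2000000060000001e0000003f000000070000000700000002 6 6) 0 0 (step_sound _ 97 [rha2f798832db21f6b, (rheb0810cc63b001d8.shift 0 3)] (by decide +kernel))
noncomputable def rhdeacbea313af2ae3 : CRef := CRef.mk (Pat.mk 0x68000000000000003800000000 0x140000001c0000003c000000680000001f0000007c00000014 6 7) 0 0 (step_sound _ 67 [(rhe3fe8fd3078f590f.shift 2 0), (rhe9d6dee13fb537c8.shift 2 0), (rhf60aa8aede119d3b.shift 0 1)] (by decide +kernel))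
noncomputable def rhf741f5489ebbdacc : CRef := CRef.mk (Pat.mk 0xc00000006000000000000000380000000000000000 0xf000000078000000100000007e000001f700000020 6 9) 0 0 (step_sound _ 132 [(rh53b3c253cb0c65f4.shift 3 4), rh64be2b5d11a71c7a] (by decide +kernel))
noncomputable def rhba3f1d00858587a2 : CRef := CRef.mk (Pat.mk 0x18000001080000001c000000000000000000000000 0x1000000018000001cf000000fc000000f80000001800000018 6 9) 0 0 (step_sound _ 130 [(rh3470fcd67ff81181.shift 2 0), (rhb0d8db7cceb3a8e2.shift 1 2), (rhfdd338b587cdea0b.shift 0 3)] (by decide +kernel))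
noncomputable def rh8339330f27a36c38 : CRef := CRef.mk (Pat.mk 0x10000000000000003c00000020 0x10000000100000001c000000ff00000027 6 8) 0 0 (step_sound _ 68 [(rh2145e1d24b96a57e.shift 4 0), rhec0f150ffdda098a] (by decide +kernel))
noncomputable def rh5df3954be8738e5d : CRef := CRef.mk (Pat.mk 0x20000000000000007800000040 0x2000000020000000370000007e0000004e 6 7) 0 0 (step_sound _ 69 [rh1f9701c4cf497514, (rh2145e1d24b96a57e.shift 5 0)] (by decide +kernel))
noncomputable def rha7382a671dd0958b : CRef := CRef.mk (Pat.mk 0xc0000000600000000000000038000000000000000000000000 0xd000000078000000170000003e000000770000002000000020 6 8) 0 0 (step_sound _ 164 [(rh53b3c253cb0c65f4.shift 3 5), rhe2892c72bc3d22be] (by decide +kernel))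
noncomputable def rh56b6ebd7874c373d : CRef := CRef.mk (Pat.mk 0x34000000000000001e 0xe0000001e00000034000000070000003e 6 6) 0 0 (step_sound _ 33 [rh3244c3cc8379b070, (rh7c8b9aa03d3da415.shift 1 0)] (by decide +kernel))
noncomputable def rhe812181c4182cd5b : CRef := CRef.mk (Pat.mk 0x1a000000800000000e00000000 0x50000000f0000001a000000e30000007e00000074 6 8) 0 0 (step_sound _ 65 [rhb0d8db7cceb3a8e2, rhe3fe8fd3078f590f] (by decide +kernel))
noncomputable def rhfaa48b7ccdf5afa0 : CRef := CRef.mk (Pat.mk 0x180000001c000000000000000800000000 0x170000001f0000001c0000000c0000000c00000004 6 5) 0 0 (step_sound _ 67 [(rh2f68792b6b779e96.shift 3 1), rh795a9fa361f5265f] (by decide +kernel))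
noncomputable def rhb70afbf8549e28b5 : CRef := CRef.mk (Pat.mk 0x400000002000000030000000200000000000000000000000000000000 0x400000007000000030000000200000002000000070000000700000005 6 3) 0 0 (step_sound _ 97 [rh56259dd1390eee46, (rhbaefcd01e0a8bca3.shift 1 3)] (by decide +kernel))
noncomputable def rh96b1cb1531b718a3 : CRef := CRef.mk (Pat.mk 0x2000000060000000200000002 0x500000007000000070000000700000003000000060000000600000002 6 3) 0 0 (step_sound _ 129 [(rh14e0829dc73b6804.shift 0 1), (rh14f80659e6313cc6.shift 1 1), rh3ca48e2a6d60153d, (rh7ef5fa5c39f1c762.shift 0 1)] (by decide +kernel))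
noncomputable def rh66228356574b9586 : CRef := CRef.mk (Pat.mk 0xf000000070000000100000003800000000 0x800000008000000180000000f0000000700000003f000000fc000000c0 6 9) 0 0 (step_sound _ 167 [(rh33e738c4ed385b9f.shift 4 4), rh699f2521a4eaa123] (by decide +kernel))
noncomputable def rhee21b7afaeb78fbf : CRef := CRef.mk (Pat.mk 0xa0000000e000000030000000200000000000000000000000000000000 0xa0000000e000000070000000700000006000000070000000700000005 6 4) 0 0 (step_sound _ 97 [(rha171e17c78ad84df.shift 1 2), rhc94dfb5f501cb051, (rhd29a1fb688eae70f.shift 1 2), rhf9611d7b42e43f6f] (by decide +kernel))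
noncomputable def rh8cd6fc04f4bbf7ba : CRef := CRef.mk (Pat.mk 0x2000000060000000200000002 0x500000007000000070000000300000003000000060000000600000006 6 3) 0 0 (step_sound _ 129 [rh3ca48e2a6d60153d, (rhd4b4beefcd67f51e.shift 1 0), (rhfb9fb48a5e63ed80.shift 0 1)] (by decide +kernel))
noncomputable def rh9a98ba466dbb4988 : CRef := CRef.mk (Pat.mk 0x38000000180000001800000000 0x800000008000000380000001f000000ff000000e7 6 8) 0 0 (step_sound _ 37 [rh01ba62302411d9ea, rhd1ccaa590d295a24, (rhfdd338b587cdea0b.shift 1 1)] (by decide +kernel))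
noncomputable def rhb27f859d08a3ceca : CRef := CRef.mk (Pat.mk 0x1c0000000c000000040000000000000000 0x400000004000000040000001c0000000f0000000e0000000600000006 6 5) 0 0 (step_sound _ 97 [(rh4f4c4c1027c971e0.shift 1 0), (rh53b3c253cb0c65f4.shift 0 3)] (by decide +kernel))
noncomputable def rh59884d4b0b1c90ac : CRef := CRef.mk (Pat.mk 0x1800000018000000080000000000000000 0x800000018000000180000000f0000003c0000001c 6 6) 0 0 (step_sound _ 35 [(rh71222050f2c63a3a.shift 3 0), rhf3d11b058448e968] (by decide +kernel))
noncomputable def rh5b74760bafa85373 : CRef := CRef.mk (Pat.mk 0x1800000018000000180000000000000000 0x80000000800000018000000180000007c0000000f0000000c 6 7) 0 0 (step_sound _ 163 [(rh2145e1d24b96a57e.shift 3 2), rha6f802784adb25e2] (by decide +kernel))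
noncomputable def rh5d1a24bc6da008ff : CRef := CRef.mk (Pat.mk 0x1a0000000600000002 0x10000000700000007000000070000001e0000000600000002 6 5) 0 0 (step_sound _ 97 [rh35c5f1c53251aa1b, rh5e05da03898e7023, rh790ac6810732f4da, rhc85cc95794737cf7] (by decide +kernel))
noncomputable def rhd8da32cc45a431bb : CRef := CRef.mk (Pat.mk 0x3000000018000000000000000c00000000 0x4000000040000000f0000003f0000001f000000080000000c0000000c 6 6) 0 0 (step_sound _ 67 [(rh71222050f2c63a3a.shift 3 0), rhce4256d72c6e6180] (by decide +kernel))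
noncomputable def rhbe580a163f5542fd : CRef := CRef.mk (Pat.mk 0x1a000000000000001e00000000 0x50000000f0000001b000000030000001e00000003 6 5) 0 0 (step_sound _ 65 [(rh3244c3cc8379b070.shift 0 1), rhae8e86f5e02127e5] (by decide +kernel))
noncomputable def rh2e92855e544f26b1 : CRef := CRef.mk (Pat.mk 0x1000000010000001000000001800000000 0x1000000010000001d7000000fe000000ef 6 9) 0 0 (step_sound _ 37 [(rh8966ae1067be186a.shift 2 0), (rh8d68598c2ad98dab.shift 1 0), (rhbf726fa7097229f2.shift 3 0), rhc207702f6b85f3c9] (by decide +kernel))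
noncomputable def rh4ec1f0b914bf2e52 : CRef := CRef.mk (Pat.mk 0x200000002000000800000000e00000000 0x200000002000000e30000007e00000074 6 8) 0 0 (step_sound _ 65 [(rh55afc6a59410cf00.shift 1 0), rhb0d8db7cceb3a8e2] (by decide +kernel))
noncomputable def rhfea9dfe705ad94cf : CRef := CRef.mk (Pat.mk 0x1000000001e00000000 0x1c0000000fe000000e7 6 9) 0 0 (step_sound _ 1 [(rh7bdc8fb334803635.shift 1 0), rheb0810cc63b001d8] (by decide +kernel))
noncomputable def rh0944306a90f95858 : CRef := CRef.mk (Pat.mk 0x38000000000000000000000000 0x4000000070000007e0000007f0000000800000008 6 7) 0 0 (step_sound _ 98 [(rh0d378fd9e8917c5a.shift 0 2), (rh185f35b8bd8ec37f.shift 0 2), (rhe6f3c981f45ee7b2.shift 1 0)] (by decide +kernel))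
noncomputable def rh7690377bcf0e6d4d : CRef := CRef.mk (Pat.mk 0x800000200000000380000000000000000 0x40000000c0000000c0000038f000001fc0000001c00000004 6 10) 0 0 (step_sound _ 99 [(rh6dec51b1663754ba.shift 2 1), (rh9c86531250686527.shift 2 0), (rha9fbfd4bb8cf890b.shift 0 2)] (by decide +kernel))
noncomputable def rh55e6ab2924d2cde2 : CRef := CRef.mk (Pat.mk 0x1000000003800000000 0x1c7000000fe000000e7 6 9) 0 0 (step_sound _ 38 [rh13e028aafd6db171, (rh45e9dfbd6bd5d256.shift 3 1)] (by decide +kernel))
noncomputable def rh7892838aec40c3e1 : CRef := CRef.mk (Pat.mk 0x6000000020000000200000000000000000000000000000000 0x400000006000000060000000200000002000000070000000700000005 6 3) 0 0 (step_sound _ 97 [(rh2f68792b6b779e96.shift 1 3), rhc94dfb5f501cb051] (by decide +kernel))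
noncomputable def rh0f2f6c116e4d6a4c : CRef := CRef.mk (Pat.mk 0x38000000080000000800000000 0x100000001c0000001c0000001f000000380000001c0000000c00000004 6 6) 0 0 (step_sound _ 131 [(rh039efe07c35de3d4.shift 1 1), (rh72afbdc90680d7b8.shift 2 1), (rh79905f95cb2d899a.shift 0 1), (rhdd474ad759fb06b7.shift 2 0)] (by decide +kernel))
noncomputable def rh9d9ec9d52fc0b3c5 : CRef := CRef.mk (Pat.mk 0x200000002000000020000000300000002000000000000000000000000 0x20000000200000003000000030000000300000002000000070000000700000005 6 3) 0 0 (step_sound _ 160 [rh56259dd1390eee46, (rh5c5e593799055d58.shift 0 4)] (by decide +kernel))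
noncomputable def rh729470260c134f88 : CRef := CRef.mk (Pat.mk 0x6000000020000000200000001 0x500000007000000070000000300000006000000060000000300000001 6 3) 0 0 (step_sound _ 129 [rh79877ebd3ef475dd, (rhb6f7e56bf89163d9.shift 0 1)] (by decide +kernel))
noncomputable def rhcae287dd1526d47c : CRef := CRef.mk (Pat.mk 0x2000000060000000200000002000000000000000000000000 0x100000003000000060000000600000003000000070000000700000004 6 3) 0 0 (step_sound _ 192 [(rh50fbb5868c909700.shift 0 3), rh8a1bd34420cccc7f] (by decide +kernel))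
noncomputable def rh695e427f644f5b98 : CRef := CRef.mk (Pat.mk 0x20000000200000002000000020000000200000002000000000000000000000000 0x20000000200000003000000030000000300000002000000070000000700000005 6 3) 0 0 (step_sound _ 160 [rh56259dd1390eee46, (rh932754581e0f4330.shift 0 4)] (by decide +kernel))
noncomputable def rh652cb92112dbebe8 : CRef := CRef.mk (Pat.mk 0x4000000840000000c000000020000000000000000 0x4000000e60000007f0000003f0000000800000008 6 8) 0 0 (step_sound _ 100 [(rh0efba8540849bf1a.shift 1 2), (rh4115c02c20bfbac7.shift 1 3), rhd2399dbd2a7b3537] (by decide +kernel))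
noncomputable def rhdbcebbfb906533ca : CRef := CRef.mk (Pat.mk 0x200000003800000018000000080000000800000000 0x20000000380000001e0000007c0000001f00000004 6 7) 0 0 (step_sound _ 98 [(rh53b3c253cb0c65f4.shift 1 3), rhc620e832d7557315] (by decide +kernel))
noncomputable def rh06cd0ef73f9e5beb : CRef := CRef.mk (Pat.mk 0x1000000010000000100000003000000000 0x1000000010000000ff0000007e0000000f 6 8) 0 0 (step_sound _ 35 [rh798451748619462a, (rh932754581e0f4330.shift 3 0)] (by decide +kernel))
noncomputable def rh0b87daf22ffb5bd8 : CRef := CRef.mk (Pat.mk 0x1000000030000000140000003800000000 0x80000001e00000034000000160000003e00000007 6 6) 0 0 (step_sound _ 34 [rh2330dd9b9e514411, (rh3244c3cc8379b070.shift 1 1)] (by decide +kernel))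
noncomputable def rha636f452500de91c : CRef := CRef.mk (Pat.mk 0x800000038000000080000000800000000 0x140000001c0000001c00000008000000380000001f0000001c00000010 6 6) 0 0 (step_sound _ 36 [(rh55afc6a59410cf00.shift 3 0), (rhd1c1bbf10d9d7a4b.shift 0 1)] (by decide +kernel))
noncomputable def rh3fc4dc286091a77d : CRef := CRef.mk (Pat.mk 0x400000006000000000000000300000000 0x300000003000000030000000600000006000000030000000300000003 6 3) 0 0 (step_sound _ 65 [rh4b430f2f69007c97, (rh71222050f2c63a3a.shift 1 0)] (by decide +kernel))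
noncomputable def rhebad513a63d26343 : CRef := CRef.mk (Pat.mk 0x300000011800000018000000000000000000000000 0x38000001df000000ff000000e70000000400000004 6 9) 0 0 (step_sound _ 101 [(rh1f6db40266a7e837.shift 0 2), (rh4115c02c20bfbac7.shift 2 3), rh5e6ca3fc62dd0c14] (by decide +kernel))
noncomputable def rh7b42cdbb1c30cdfc : CRef := CRef.mk (Pat.mk 0xc0000000c000000040000000000000000 0x40000000c0000000c0000003c0000000f0000000e 6 6) 0 0 (step_sound _ 34 [(rh71222050f2c63a3a.shift 2 0), rh85480f11efc1e555] (by decide +kernel))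
noncomputable def rh3ab23b0d0e76c626 : CRef := CRef.mk (Pat.mk 0x1e00000000 0x700000007f0000003e 6 7) 0 0 (step_sound _ 4 [rhbb54e4ea06d58e5e, (rhe25b0a99195a5d59.shift 1 0)] (by decide +kernel))
noncomputable def rh91ad69d3ddda6ae8 : CRef := CRef.mk (Pat.mk 0x4000000000000001e0000000000000000 0x600000006000000030000001e0000003700000004 6 6) 0 0 (step_sound _ 36 [rha700292a805d5a54, (rhe25b0a99195a5d59.shift 1 1)] (by decide +kernel))
noncomputable def rhe3d4e23e717458fe : CRef := CRef.mk (Pat.mk 0x20000001e0000000200000000000000000000000000000000 0x60000001e0000003e0000000f000000070000000700000004 6 6) 0 0 (step_sound _ 132 [rhb13d8951f671c715, (rhe25b0a99195a5d59.shift 1 4)] (by decide +kernel))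
noncomputable def rh77d69f1d64c8a7bf : CRef := CRef.mk (Pat.mk 0x20000000f000000000 0x3f000000fe0000000e 6 8) 0 0 (step_sound _ 35 [(rh0a74f7641db5049f.shift 1 0), rh1f9701c4cf497514, (rh592c7139d2c44767.shift 1 0), (rhd5eb272e07a4e288.shift 2 1)] (by decide +kernel))
noncomputable def rhda8127454e2e6678 : CRef := CRef.mk (Pat.mk 0x3000000018000000060000001c00000000 0xf0000003f0000001c0000000e0000001e00000012 6 6) 0 0 (step_sound _ 131 [(rhab2ae83e2bc2464b.shift 2 0), rhcbe3bcc99153c2ad, rhf7382352fd4148eb] (by decide +kernel))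
noncomputable def rh97f1d29426cb8860 : CRef := CRef.mk (Pat.mk 0x20000000f000000000 0x7f000000fe00000007 6 8) 0 0 (step_sound _ 35 [rha4e887c2a2a0f60b, (rhd5eb272e07a4e288.shift 2 1), (rhf34d7f60b844633c.shift 1 1)] (by decide +kernel))
noncomputable def rha187aed9bd0c6393 : CRef := CRef.mk (Pat.mk 0x4000000030000000f000000000000000000000000 0x4000000060000000600000006000000030000000f0000001b0000000300000003 6 5) 0 0 (step_sound _ 67 [rhab3cdbf75f319587, (rhe25b0a99195a5d59.shift 0 2)] (by decide +kernel))
noncomputable def rhf439ba0521b3ab7b : CRef := CRef.mk (Pat.mk 0x300000001800000038000000000000000000000000 0x380000001f0000003f0000000f0000000c00000004 6 6) 0 0 (step_sound _ 129 [rh1a040d9779a6b5b6, (rh24ae073cf30720c4.shift 1 4)] (by decide +kernel))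
noncomputable def rh810fa74b1681ba9e : CRef := CRef.mk (Pat.mk 0x180000003800000000 0x18000000ff000000e7 6 8) 0 0 (step_sound _ 38 [rh5b460b71d8952ca9, (rhf48373e13d2bc128.shift 3 1)] (by decide +kernel))
noncomputable def rhf7c67434615c489e : CRef := CRef.mk (Pat.mk 0x20000000200000003800000000 0x2000000020000000370000007e000000ce 6 8) 0 0 (step_sound _ 38 [rh1f9701c4cf497514, (rhba04d77b039f69d9.shift 3 0)] (by decide +kernel))
noncomputable def rh53dc8f2a0d03c1bb : CRef := CRef.mk (Pat.mk 0x10000001100000001c00000000 0x1000000010000001dc000000ff000000e7 6 9) 0 0 (step_sound _ 37 [(rh6dd26613a1ae639b.shift 2 0), (rhba04d77b039f69d9.shift 2 0), rhec0f150ffdda098a] (by decide +kernel))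
noncomputable def rh25e345de685d2ea1 : CRef := CRef.mk (Pat.mk 0x6000000020000000380000000000000000 0x8000000680000003f0000003e0000000700000004 6 7) 0 0 (step_sound _ 66 [(rh21d582c147e7e118.shift 0 1), (rh775ca1963e850b80.shift 0 1), (rh7fb660bc21ce4329.shift 0 2), (rhc998c0f565f37bf8.shift 1 0)] (by decide +kernel))
noncomputable def rh4a48bdcac7eb7535 : CRef := CRef.mk (Pat.mk 0x1000000001e00000000 0x1c7000000fe000000e0 6 9) 0 0 (step_sound _ 65 [(rh1c73e70c09a1abf9.shift 1 0), (rh3244c3cc8379b070.shift 0 1)] (by decide +kernel))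
noncomputable def rh004eb042272b171f : CRef := CRef.mk (Pat.mk 0x880000000e000000000000000400000000 0x2000000eb0000007e000000770000000400000004 6 8) 0 0 (step_sound _ 66 [(rh71222050f2c63a3a.shift 2 0), (rhc6a45747c220df1f.shift 0 1)] (by decide +kernel))
noncomputable def rhbbb250e614f2d445 : CRef := CRef.mk (Pat.mk 0x1e00000000000000040000000000000000 0x70000001e00000003000000070000000700000001 6 5) 0 0 (step_sound _ 161 [(rh3244c3cc8379b070.shift 0 4), rh355ef750ac291b8d] (by decide +kernel))
noncomputable def rh3fe692bde8d4167d : CRef := CRef.mk (Pat.mk 0x400000007800000000 0x67000000ff00000038 6 8) 0 0 (step_sound _ 34 [(rh428265de8cd3cd2d.shift 2 1), rh7bf405d4f6ac0e1d] (by decide +kernel))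
noncomputable def rh775f9be0afa413b6 : CRef := CRef.mk (Pat.mk 0x4000000040000000f8000000000000000000000000 0x100000005000000078000000fe000000370000002000000020 6 8) 0 0 (step_sound _ 69 [(rh22deb2b73a579c39.shift 2 1), (rh6cc58692ec716844.shift 3 0), (rhac4dc1e88438ad5d.shift 0 2), (rhf9af042da61fc652.shift 5 0)] (by decide +kernel))
noncomputable def rhb0fbf278214acd23 : CRef := CRef.mk (Pat.mk 0x180000001c00000000 0x1f000000ff000000e0 6 8) 0 0 (step_sound _ 33 [(rh53b3c253cb0c65f4.shift 0 1), rh883451bd3feec117] (by decide +kernel))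
noncomputable def rhaf7f570cb99c5259 : CRef := CRef.mk (Pat.mk 0x400000008000000180000001800000000 0x40000000f0000001f0000003f0000000a 6 6) 0 0 (step_sound _ 98 [(rh7b1f1fb55310c477.shift 2 0), rh97fdc19db3ba12e7] (by decide +kernel))
noncomputable def rhd9dc0eaf263b17a6 : CRef := CRef.mk (Pat.mk 0x100000001a000000060000000400000000 0xa0000001f0000001b0000000e0000003c00000018 6 6) 0 0 (step_sound _ 129 [(rh2145e1d24b96a57e.shift 1 1), rh55dea3d950dac75f] (by decide +kernel))
noncomputable def rhcb6fd9691790be8f : CRef := CRef.mk (Pat.mk 0x100000001800000038000000000000000000000000 0x100000001f0000003f0000000f0000000c0000000c 6 6) 0 0 (step_sound _ 98 [(rh2915b2337146e149.shift 1 0), (rhbe5fc5902345a0b9.shift 0 3), (rhcc2be1f880c5ea3e.shift 0 2)] (by decide +kernel))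
noncomputable def rh5d57dab1f7173156 : CRef := CRef.mk (Pat.mk 0x200000006000000030000000200000000 0x40000000600000006000000070000001f0000001d 6 5) 0 0 (step_sound _ 34 [rh5506525d0b4b5993, (rh55afc6a59410cf00.shift 1 0)] (by decide +kernel))
noncomputable def rh3a85671e22302ca4 : CRef := CRef.mk (Pat.mk 0x60000000180000000c0000000800000000 0x140000001c0000001c00000078000000180000000f0000003c00000014 6 7) 0 0 (step_sound _ 65 [(rh0be5156fc06e855c.shift 1 0), (rh53b3c253cb0c65f4.shift 0 2)] (by decide +kernel))
noncomputable def rh041ec1996439bb76 : CRef := CRef.mk (Pat.mk 0x38000000180000000000000000 0x4000000040000000e0000003f0000001f0000000800000008 6 6) 0 0 (step_sound _ 65 [(rh24ae073cf30720c4.shift 1 2), rhe9f2892de26ba682] (by decide +kernel))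
noncomputable def rh72fb8ac55ef6ed89 : CRef := CRef.mk (Pat.mk 0x8000000180000000a0000000200000004 0x4000000060000000f0000001a0000000b0000000f00000005 6 5) 0 0 (step_sound _ 129 [(rh7846bd5be405bf9f.shift 0 1), rh7ff0088f8b90e433, rh88ae9b09c902c875, (rha760d91229149504.shift 1 0)] (by decide +kernel))
noncomputable def rhc218c754d11d095e : CRef := CRef.mk (Pat.mk 0x40000001c0000000c 0x1e0000003e000000370000001c0000000c 6 6) 0 0 (step_sound _ 98 [rh18833f4945ec6b8e, (rh2145e1d24b96a57e.shift 2 0)] (by decide +kernel))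
noncomputable def rh81373151ca3de7f3 : CRef := CRef.mk (Pat.mk 0x3c00000018000000020000000400000000 0x20000000200000006c0000003f000000180000000f0000000c00000008 6 7) 0 0 (step_sound _ 129 [(rhb739f4f82bb681b4.shift 0 3), rhfe42d4adc6b275a8] (by decide +kernel))
noncomputable def rh266cbad8f74e84fa : CRef := CRef.mk (Pat.mk 0x380000001a0000000200000004 0x500000007000000070000003f0000001b0000000700000005 6 6) 0 0 (step_sound _ 97 [(rh086f6046fa319626.shift 0 2), (rh2e966cc2a51d47f2.shift 0 2), rhaf349dd7709502bf, rhde061a0c3cca9b80] (by decide +kernel))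
noncomputable def rh4d9d9682e91d884e : CRef := CRef.mk (Pat.mk 0xc00000001800000020 0xc70000007e00000067 6 8) 0 0 (step_sound _ 37 [(rh3fc040e777f1679e.shift 3 1), rhc92c11e8da6c894f] (by decide +kernel))
noncomputable def rheee5f5dc5765494d : CRef := CRef.mk (Pat.mk 0x1000000018000000380000000000000000 0x8000000180000001f0000003f0000001700000014 6 6) 0 0 (step_sound _ 131 [rh214b7374472f3bef, (rh3cb04db3dd2b6a55.shift 3 0)] (by decide +kernel))
noncomputable def rh1695fafd431c7bff : CRef := CRef.mk (Pat.mk 0x20000000200000003000000020000000000000000 0x5000000070000000700000003000000030000000300000003000000020000000200000002 6 3) 0 0 (step_sound _ 193 [rh1406cafceeeef6c2, (rh3ca48e2a6d60153d.shift 0 2), (rhb77bfac3e9efecea.shift 0 3)] (by decide +kernel))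
noncomputable def rh53c37329111bf971 : CRef := CRef.mk (Pat.mk 0x1000000018000000380000000800000000 0x40000000c0000001c0000001e0000003c0000001f00000014 6 6) 0 0 (step_sound _ 98 [rh3efdcd2b78015352, (rhb739f4f82bb681b4.shift 1 2)] (by decide +kernel))
noncomputable def rhbc9ae0729794de7d : CRef := CRef.mk (Pat.mk 0x1000000010000000180000003800000000 0x800000018000000180000001f0000003f00000014 6 6) 0 0 (step_sound _ 131 [rh46de63a881c17f6e, (rh50fbb5868c909700.shift 3 1)] (by decide +kernel))
noncomputable def rhbacc36697f2cba81 : CRef := CRef.mk (Pat.mk 0x120000001a0000000300000007000000000000000000000000 0x1000000130000001b0000000b0000001f0000001a0000000200000002 6 5) 0 0 (step_sound _ 192 [(rh50fbb5868c909700.shift 0 3), rh6ed40e55fcec9405] (by decide +kernel))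
noncomputable def rh8d93fadc9adffc0e : CRef := CRef.mk (Pat.mk 0x1e0000000200000000000000000000000000000000 0x600000006000000070000001e0000000600000007000000070000000700000001 6 5) 0 0 (step_sound _ 193 [(rh3244c3cc8379b070.shift 0 5), rh379372817fb3b65e] (by decide +kernel))
noncomputable def rhf10049fd2d4dd6b1 : CRef := CRef.mk (Pat.mk 0x120000001a0000000b000000040000000000000000 0x1000000130000001b0000000b0000001f0000000b00000001 6 5) 0 0 (step_sound _ 67 [rh6ff9a8a9668587b3, (rh71222050f2c63a3a.shift 3 1)] (by decide +kernel))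
noncomputable def rh8ce28dfaf2d27b53 : CRef := CRef.mk (Pat.mk 0x10000000180000001800000000 0x180000001800000018000000380000001f00000014 6 6) 0 0 (step_sound _ 132 [rh2386d7c29ba9e7c7, (rh5c5e593799055d58.shift 3 1)] (by decide +kernel))
noncomputable def rh1f2dad1f0679e95f : CRef := CRef.mk (Pat.mk 0x80000000c000000180000000000000000 0x140000001c0000001c0000000c0000000f0000001c0000000c00000004 6 5) 0 0 (step_sound _ 97 [(rhb739f4f82bb681b4.shift 0 2), (rhee29f156cbe62897.shift 2 0)] (by decide +kernel))
noncomputable def rhac92e73f66399522 : CRef := CRef.mk (Pat.mk 0x120000001a00000002000000000000000000000000 0x4000000040000000d0000001f0000001b0000000a0000000b0000000300000001 6 5) 0 0 (step_sound _ 162 [(rh3883177b4ab4119d.shift 0 4), (rh9d15916a925d4940.shift 0 2), rhd8480aedf4075c15, (rhff22d4451558933b.shift 0 2)] (by decide +kernel))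
noncomputable def rh642c2cb8715e525c : CRef := CRef.mk (Pat.mk 0x2000000020000000200000002 0x500000007000000070000000700000003000000030000000300000002 6 3) 0 0 (step_sound _ 129 [rh3ca48e2a6d60153d, rh7054db60a5a4b771, (rh985c8ee03f02e610.shift 0 1), (rhc85cc95794737cf7.shift 0 1)] (by decide +kernel))
noncomputable def rh52715ed1ec5fe81b : CRef := CRef.mk (Pat.mk 0x10000000180000000a0000000c 0xe0000001f0000001b0000000f0000000c 6 5) 0 0 (step_sound _ 34 [rh2ec5df6bb50c4d4b, (rh53b3c253cb0c65f4.shift 0 1)] (by decide +kernel))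
noncomputable def rhddfb8b3b81b2cb9e : CRef := CRef.mk (Pat.mk 0x1040000001800000000 0x1ce000000fe000000f7 6 9) 0 0 (step_sound _ 37 [(rh06f87a331c7e5d9a.shift 2 1), (rh460c932591a1b2be.shift 1 0), rh4b137110577800fb] (by decide +kernel))
noncomputable def rhec7b72ad0a2982cd : CRef := CRef.mk (Pat.mk 0x4000000060000000000000003800000000 0x4000000060000000270000003e00000067 6 7) 0 0 (step_sound _ 5 [(rh04253f50b6dd0619.shift 5 0), rh3918eeb6c53434d8] (by decide +kernel))
noncomputable def rh520442d8e7209af3 : CRef := CRef.mk (Pat.mk 0x400000006000000000000000700000000 0x300000003000000030000000600000006000000030000000700000006 6 3) 0 0 (step_sound _ 65 [rh168b3c5843250013, (rh71222050f2c63a3a.shift 1 0)] (by decide +kernel))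
noncomputable def rh1868d44f3b0a2c7f : CRef := CRef.mk (Pat.mk 0x10000000180000000a0000000c 0xf0000001f0000001c0000000f0000000c 6 5) 0 0 (step_sound _ 34 [rh168c702fc6e06326, (rh53b3c253cb0c65f4.shift 0 1)] (by decide +kernel))
noncomputable def rh4bc5f8b5e3ffeecc : CRef := CRef.mk (Pat.mk 0x980000001800000000 0x40000000400000007000000ff0000001f00000008 6 8) 0 0 (step_sound _ 69 [(rh361cc68994bd8a63.shift 3 1), rh8e2c76647c3a302a] (by decide +kernel))
noncomputable def rh254f805e0dffb92a : CRef := CRef.mk (Pat.mk 0x1600000002000000020000000600000001000000000000000000000000 0x1e00000003000000070000000600000003000000070000000600000004 6 5) 0 0 (step_sound _ 97 [rh4096e2a223fd659d, (rh932754581e0f4330.shift 0 2)] (by decide +kernel))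
noncomputable def rh0aff501271da77c3 : CRef := CRef.mk (Pat.mk 0x38000000080000000800000000 0x1c0000001e000000380000000f0000003c00000014 6 6) 0 0 (step_sound _ 131 [(rh039efe07c35de3d4.shift 1 1), rhf0d38cf1e7116183] (by decide +kernel))
noncomputable def rhbe286d3cbacab8ee : CRef := CRef.mk (Pat.mk 0x18000000080000001c0000000800000000 0x40000007c0000000e0000001c0000000f00000006 6 7) 0 0 (step_sound _ 34 [rh54db3367ec9757b5, (rh932754581e0f4330.shift 2 0)] (by decide +kernel))
noncomputable def rh72b06522cc100222 : CRef := CRef.mk (Pat.mk 0x1800000018000000080000000000000000 0x800000018000000180000000f0000003c0000001c 6 6) 0 0 (step_sound _ 35 [(rh71222050f2c63a3a.shift 3 0), rhf0d38cf1e7116183] (by decide +kernel))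
noncomputable def rh0bb3bf9cae16a8bf : CRef := CRef.mk (Pat.mk 0xc0000000c000000040000000000000000 0x40000000c0000000c000000070000003e0000000e 6 6) 0 0 (step_sound _ 34 [rh1904b52b42aee148, (rh71222050f2c63a3a.shift 2 0)] (by decide +kernel))
noncomputable def rh2083fbc2d98aa685 : CRef := CRef.mk (Pat.mk 0x10000000180000001c00000004 0x2000000330000001f0000001f00000007 6 6) 0 0 (step_sound _ 33 [rh2f4faa21aafd37ef, (rh53b3c253cb0c65f4.shift 0 1)] (by decide +kernel))
noncomputable def rh265f0a77e2dca644 : CRef := CRef.mk (Pat.mk 0x98000000180000000000000000 0x4000000040000007f000000ff000000180000000800000008 6 8) 0 0 (step_sound _ 101 [(rh361cc68994bd8a63.shift 3 2), rhef9c6260436474bd] (by decide +kernel))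
noncomputable def rhc98fad1a79a18a86 : CRef := CRef.mk (Pat.mk 0x38000000180000000800000000 0xc0000000c0000001f000000380000001e0000000c00000004 6 6) 0 0 (step_sound _ 66 [(rh53b3c253cb0c65f4.shift 1 2), rha5dcd58df6282ff1] (by decide +kernel))
noncomputable def rhcd04d34f768a5155 : CRef := CRef.mk (Pat.mk 0x98000000180000000000000000 0x400000077000000ff0000001e0000000800000008 6 8) 0 0 (step_sound _ 101 [rh2efabce65fe9705f, (rh361cc68994bd8a63.shift 3 2)] (by decide +kernel))
noncomputable def rh9d852b8eae00e3b5 : CRef := CRef.mk (Pat.mk 0x1c00000018000000080000000800000000 0x30000007f0000001e0000000c0000000c00000004 6 7) 0 0 (step_sound _ 34 [(rh1744f7bccf959ee6.shift 0 1), (rh932754581e0f4330.shift 2 0)] (by decide +kernel))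
noncomputable def rh61a70030856c1f8c : CRef := CRef.mk (Pat.mk 0x18000000180000001800000000 0xc0000000f0000007c000000180000001c00000004 6 7) 0 0 (step_sound _ 131 [(rh2145e1d24b96a57e.shift 3 1), rhed310ccdcd6bafd6] (by decide +kernel))
noncomputable def rh07cbab85cc35a077 : CRef := CRef.mk (Pat.mk 0x1800000018000000080000000800000000 0xf0000001f0000001c0000000c0000000c00000004 6 5) 0 0 (step_sound _ 130 [rh4cca7e61d181dcfb, (rh50fbb5868c909700.shift 2 1)] (by decide +kernel))
noncomputable def rh7c36b2cd8f32a503 : CRef := CRef.mk (Pat.mk 0xc00000018000000080000000800000000 0x80000000f000000180000000e0000007c00000014 6 7) 0 0 (step_sound _ 129 [(rh1904b52b42aee148.shift 1 0), (rhb739f4f82bb681b4.shift 0 3)] (by decide +kernel))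
noncomputable def rh2f04d4c3a9ceca15 : CRef := CRef.mk (Pat.mk 0x80000001e0000000c0000000000000000 0x10000000320000003f0000001e0000000c0000000400000004 6 6) 0 0 (step_sound _ 34 [(rh512f4da88209c434.shift 0 1), (rh71222050f2c63a3a.shift 2 0)] (by decide +kernel))
noncomputable def rh243e080bb76095cd : CRef := CRef.mk (Pat.mk 0x80000001e0000000e0000000000000000 0x10000000340000003f0000001e0000000e0000000200000002 6 6) 0 0 (step_sound _ 132 [(rh33e738c4ed385b9f.shift 1 3), rhf95f7282a68dc6ee] (by decide +kernel))
noncomputable def rh9a7561f3bb06436e : CRef := CRef.mk (Pat.mk 0x1c00000098 0xe00000007f000000df 6 8) 0 0 (step_sound _ 33 [rhb739f4f82bb681b4, rhd342afdb03ac995a] (by decide +kernel))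
noncomputable def rhf0c335e105132235 : CRef := CRef.mk (Pat.mk 0x1000000038000000180000000000000000 0x4000000370000003f0000001e0000000800000008 6 6) 0 0 (step_sound _ 66 [(rh53b3c253cb0c65f4.shift 1 2), rhe5529eaf58922dcf] (by decide +kernel))
noncomputable def rh239b462325e93a81 : CRef := CRef.mk (Pat.mk 0x10000000180000001c0000000000000000 0x2000000330000001f0000001f0000000400000004 6 6) 0 0 (step_sound _ 65 [(rh53b3c253cb0c65f4.shift 0 2), rh7e24dc22889eb307] (by decide +kernel))
noncomputable def rhe7fe8f70b95afbf0 : CRef := CRef.mk (Pat.mk 0x400000026000000270000002000000000 0x12000000120000001e0000003e000000370000002300000002 6 6) 0 0 (step_sound _ 100 [rh2c7029d00d8cf8bb, (rh361cc68994bd8a63.shift 0 2)] (by decide +kernel))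
noncomputable def rhf3bc05ddeebb714c : CRef := CRef.mk (Pat.mk 0x2000000020000000600000001 0x500000007000000070000000200000002000000060000000700000001 6 3) 0 0 (step_sound _ 129 [rh79877ebd3ef475dd, (rhba97f7f4ade5e136.shift 0 1)] (by decide +kernel))
noncomputable def rh3eb70c5b9f895cc5 : CRef := CRef.mk (Pat.mk 0x800000008000000480000004c00000040 0x300000007c0000002f000000780000006c00000040 6 7) 0 0 (step_sound _ 69 [rh9f89e1c9a8e3f981, (rhb2a0b9ccfb5cecd5.shift 2 1)] (by decide +kernel))
noncomputable def rhdb9bca0a2a4e189e : CRef := CRef.mk (Pat.mk 0x800000018000000180000001800000000 0x40000000c000000780000001f0000001f00000004 6 7) 0 0 (step_sound _ 130 [(rh50fbb5868c909700.shift 2 1), rhe65c912b02fb04ec] (by decide +kernel))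
noncomputable def rh36d4cec50e06f946 : CRef := CRef.mk (Pat.mk 0x80000001a000000880000000800000000 0x80000001e000000ef0000007e00000014 6 8) 0 0 (step_sound _ 34 [rh33d8875b8d57cf1a, (rh932754581e0f4330.shift 2 0)] (by decide +kernel))
noncomputable def rh53c3c1487463cdcc : CRef := CRef.mk (Pat.mk 0x98000000180000000000000000 0x4000000040000000e000000ff0000001f0000000800000008 6 8) 0 0 (step_sound _ 101 [(rh361cc68994bd8a63.shift 3 2), rh7117490dfabd530d] (by decide +kernel))
noncomputable def rhbaf68cdff4196fb6 : CRef := CRef.mk (Pat.mk 0x9800000018000000080000000000000000 0x4000000ff0000001f000000080000000800000008 6 8) 0 0 (step_sound _ 35 [(rh34d5700d8f1990b7.shift 0 1), (rh71222050f2c63a3a.shift 3 0)] (by decide +kernel))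
noncomputable def rh9563128ea9a89dc1 : CRef := CRef.mk (Pat.mk 0x80000001c0000000e0000000400000000 0x16000000360000003e0000001f0000000e0000000600000002 6 6) 0 0 (step_sound _ 130 [(rh03dfdf12d5937476.shift 1 0), (rh37d9ceebb86d75d1.shift 1 1), rh69663e11985fb7bd, (rh7b9fbdf6d2d059e4.shift 1 1)] (by decide +kernel))
noncomputable def rh18be7d461fd7efc2 : CRef := CRef.mk (Pat.mk 0x10000000f000000070000000200000000 0x80000001e0000001f0000000f000000070000000300000001 6 5) 0 0 (step_sound _ 130 [rh09a9dc9801c17900, (rh5c5e593799055d58.shift 1 1)] (by decide +kernel))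
noncomputable def rh60b3099c9ca0521c : CRef := CRef.mk (Pat.mk 0xf0000000c00000000 0x140000001c0000001c000000180000000f0000000c00000004 6 5) 0 0 (step_sound _ 99 [(rh33e738c4ed385b9f.shift 0 2), (rh68a777751bfeafdf.shift 2 0)] (by decide +kernel))
noncomputable def rh325602aa271c5ff5 : CRef := CRef.mk (Pat.mk 0x1e0000001c0000000000000000 0x18000000180000003b0000001e0000001c0000000400000004 6 6) 0 0 (step_sound _ 129 [(rh1595c39662a666bb.shift 1 0), (rh3244c3cc8379b070.shift 0 3)] (by decide +kernel))
noncomputable def rh48f0f2a388c47970 : CRef := CRef.mk (Pat.mk 0x400000026000000260000002000000000 0x12000000120000001e0000003e000000370000002300000003 6 6) 0 0 (step_sound _ 100 [(rhb2a0b9ccfb5cecd5.shift 1 2), rhe389f45105baff9f] (by decide +kernel))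
noncomputable def rh93be59ca78d88c12 : CRef := CRef.mk (Pat.mk 0x1000000098000000180000000000000000 0x40000000400000036000000ff0000001c0000000800000008 6 8) 0 0 (step_sound _ 101 [(rh361cc68994bd8a63.shift 3 2), rh7095fddf8fde9152] (by decide +kernel))
noncomputable def rh7fb1f249b8cd8048 : CRef := CRef.mk (Pat.mk 0x80000001e0000000c 0x12000000330000003f0000001e0000000c 6 6) 0 0 (step_sound _ 65 [(rh3244c3cc8379b070.shift 0 1), rh9c5cc70afb76e5d9] (by decide +kernel))
noncomputable def rh3a72e7892db5eaa9 : CRef := CRef.mk (Pat.mk 0xc000000480000000c0000000000000000 0x4000000060000000f0000007c0000000f0000000600000004 6 7) 0 0 (step_sound _ 100 [(rh2fe78cc5ca4405d8.shift 2 3), rh39ad1af23eacf258] (by decide +kernel))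
noncomputable def rhec7a26f00502793c : CRef := CRef.mk (Pat.mk 0x80000004c0000000c0000000000000000 0x20000003b0000007f0000000f0000000400000004 6 7) 0 0 (step_sound _ 100 [(rh361cc68994bd8a63.shift 2 2), rh4f8ee7bca979aa45] (by decide +kernel))
noncomputable def rh6c945c1cdecac6d6 : CRef := CRef.mk (Pat.mk 0x10000000380000001c00000000 0x2c0000006f0000007e0000003e0000001c00000004 6 7) 0 0 (step_sound _ 99 [(rh01ff8e29f1e0af53.shift 0 1), (rh37d9ceebb86d75d1.shift 2 0), (rh8e0a1be6c40a7b0d.shift 1 1)] (by decide +kernel))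
noncomputable def rhc25925226433dc1a : CRef := CRef.mk (Pat.mk 0x600000002000000180000001000000010 0x780000003e0000006b000000380000001800000010 6 7) 0 0 (step_sound _ 131 [(rhb559f2e5fcebee8b.shift 0 1), (rhdf6eda84f2eabc48.shift 3 0)] (by decide +kernel))
noncomputable def rhf63ab5befe51cd5f : CRef := CRef.mk (Pat.mk 0x180000001c0000000c00000000 0xe0000000f0000001c0000001c0000000f00000002 6 5) 0 0 (step_sound _ 131 [(rh5c5e593799055d58.shift 2 1), rh5e6fe1ff40cfa896] (by decide +kernel))
noncomputable def rh2ce618d35919ec97 : CRef := CRef.mk (Pat.mk 0x1800000038000000080000000800000000 0x80000001e000000380000000f0000003c00000014 6 6) 0 0 (step_sound _ 130 [(rhb739f4f82bb681b4.shift 1 3), rhf0d38cf1e7116183] (by decide +kernel))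
noncomputable def rhdc16ca0ec7cd960f : CRef := CRef.mk (Pat.mk 0x400000026000000230000002000000000 0x10000000120000001e0000003e000000330000002300000003 6 6) 0 0 (step_sound _ 100 [(rh361cc68994bd8a63.shift 0 2), rh526e4942d02059c6] (by decide +kernel))
noncomputable def rh39da2d08615f02fd : CRef := CRef.mk (Pat.mk 0x10000000180000001c0000000c00000000 0xa0000003f0000001f0000001c0000000f00000002 6 6) 0 0 (step_sound _ 131 [(rh5c5e593799055d58.shift 2 1), rhe3c6626ae9596944] (by decide +kernel))
noncomputable def rh6859698ba935c3fa : CRef := CRef.mk (Pat.mk 0x1000000098000000180000000000000000 0x4000000040000003e000000ff000000180000000800000008 6 8) 0 0 (step_sound _ 101 [(rh361cc68994bd8a63.shift 3 2), rh48db1473ea428b31] (by decide +kernel))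
noncomputable def rhd4ab66dc10ac1e27 : CRef := CRef.mk (Pat.mk 0x1200000006000000020000000000000000 0x200000007000000070000001e00000006000000060000000300000003 6 5) 0 0 (step_sound _ 130 [rh1790ec355e1c8572, (rh6876d7ccbebe604d.shift 0 2), (rh84d1c02a8954c6a8.shift 1 1), (rhadf429772c25fde0.shift 1 0)] (by decide +kernel))
noncomputable def rh2801d38d8ad08eab : CRef := CRef.mk (Pat.mk 0x1800000018000000180000000c00000000 0x40000007c0000003f0000001f0000000f00000002 6 7) 0 0 (step_sound _ 130 [(rh50fbb5868c909700.shift 2 1), rhef8492eafdb94808] (by decide +kernel))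
noncomputable def rh2ff3123b8be10030 : CRef := CRef.mk (Pat.mk 0x1c00000018000000080000000000000000 0x6000000060000003c0000001f0000000f0000000200000002 6 6) 0 0 (step_sound _ 98 [(rh4dc133ee0ba1420a.shift 0 3), rh8f7039354bfc4ec2, (rhee5b01ddcc81cea2.shift 0 1)] (by decide +kernel))
noncomputable def rhb7f898a00bc23973 : CRef := CRef.mk (Pat.mk 0xe00000018000000180000000c00000000 0x30000003e0000001f0000001f0000000f00000002 6 6) 0 0 (step_sound _ 33 [(rh53b3c253cb0c65f4.shift 0 1), rh9008712af596adf2] (by decide +kernel))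
noncomputable def rh03c9bbe2d5dd2dda : CRef := CRef.mk (Pat.mk 0x180000001e000000020000000000000000 0xb0000000f0000001b0000001e0000000e0000000400000004 6 5) 0 0 (step_sound _ 129 [(rh3244c3cc8379b070.shift 0 3), rh8bc8602bc1c4295d] (by decide +kernel))
noncomputable def rh4ec4eb1e6df06e8b : CRef := CRef.mk (Pat.mk 0x4000000000000000c0000000c 0x3e0000003e0000000f0000000c0000000c 6 6) 0 0 (step_sound _ 66 [(rh2145e1d24b96a57e.shift 2 0), rhd49a209860dedbee] (by decide +kernel))
noncomputable def rhd74592151f69e735 : CRef := CRef.mk (Pat.mk 0x4000000000000000e00000006000000000000000000000000 0x600000007000000030000001e00000006000000030000000300000003 6 5) 0 0 (step_sound _ 161 [rh0d923e35326744ed, (rh82bd946b1709a78e.shift 1 3)] (by decide +kernel))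
noncomputable def rh82dab21003612da6 : CRef := CRef.mk (Pat.mk 0x4000000000000000c0000000e00000000 0x3a0000003e0000000f0000000c0000000e00000002 6 6) 0 0 (step_sound _ 98 [(rh932754581e0f4330.shift 1 0), (rhd49a209860dedbee.shift 0 1)] (by decide +kernel))
noncomputable def rh654de5a59a70eb94 : CRef := CRef.mk (Pat.mk 0x180000001a0000000000000000 0x3000000030000003f0000001e0000000700000004 6 6) 0 0 (step_sound _ 66 [(rh33e738c4ed385b9f.shift 1 2), rh3f38de6b95fe6c30] (by decide +kernel))
noncomputable def rhb3ca6e872ccd0f8f : CRef := CRef.mk (Pat.mk 0x40000003400000014000000000000000000000000 0x200000006000000360000001e0000000f0000000e0000000a 6 6) 0 0 (step_sound _ 99 [(rh53b3c253cb0c65f4.shift 1 3), rh7c93112ed7f34066] (by decide +kernel))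
noncomputable def rhfb48a445bef9445e : CRef := CRef.mk (Pat.mk 0x180000001a0000000000000000 0x3000000030000001f0000001f0000000700000004 6 5) 0 0 (step_sound _ 66 [rh3f38de6b95fe6c30, (rh53b3c253cb0c65f4.shift 0 2)] (by decide +kernel))
noncomputable def rhbde52e459be576a4 : CRef := CRef.mk (Pat.mk 0x1c00000018000000080000000800000000 0x30000001f0000001e0000000f0000000c00000004 6 5) 0 0 (step_sound _ 34 [(rh75d162d705c4e52f.shift 0 1), (rh932754581e0f4330.shift 2 0)] (by decide +kernel))
noncomputable def rhaf1889c8c18df41b : CRef := CRef.mk (Pat.mk 0x8000000180000001800000000 0x1c0000001f00000038000000180000001800000008 6 6) 0 0 (step_sound _ 131 [(rh2145e1d24b96a57e.shift 3 1), rh9eba3b0ca80b715c] (by decide +kernel))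
noncomputable def rhc7de75c4f5377b84 : CRef := CRef.mk (Pat.mk 0xa000000180000000c0000000000000000 0x4000000060000000f0000001e0000000f0000000600000006 6 5) 0 0 (step_sound _ 98 [(rh0b63817ffb39ce77.shift 1 0), rh2d37945fbf6eddc9, (rh54c49bb299227e8d.shift 0 3)] (by decide +kernel))
noncomputable def rh29dcecf9522669ed : CRef := CRef.mk (Pat.mk 0x2800000060000000380000000000000000 0x40000003c00000078000000380000001f00000004 6 7) 0 0 (step_sound _ 130 [rh08ed56a5db9e76a2, (rhc10214bf3fe8094a.shift 2 3)] (by decide +kernel))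
noncomputable def rh6cf5fe03388f060f : CRef := CRef.mk (Pat.mk 0xe000000180000000c00000000 0x14000000370000003e0000001a0000000f00000002 6 6) 0 0 (step_sound _ 33 [(rh53b3c253cb0c65f4.shift 0 1), rhe2295c8f6cc1e478] (by decide +kernel))
noncomputable def rh7dba663af48cc318 : CRef := CRef.mk (Pat.mk 0x14000000300000001c000000000000000000000000 0x6000000160000003c0000001c0000000f0000000a00000008 6 6) 0 0 (step_sound _ 67 [(rh0588d2c7f2cab5e9.shift 2 0), (rh92220073c6802d6d.shift 0 1), (rhf9af042da61fc652.shift 3 0)] (by decide +kernel))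
noncomputable def rh3452acf58a5488fb : CRef := CRef.mk (Pat.mk 0x280000002000000038000000000000000000000000 0x1f000000780000003800000038000000180000001000000010 6 7) 0 0 (step_sound _ 68 [(rh0588d2c7f2cab5e9.shift 3 0), (rhe3431944d00189fb.shift 0 2), (rhf9af042da61fc652.shift 4 0)] (by decide +kernel))
noncomputable def rh51b3569eaa51cd94 : CRef := CRef.mk (Pat.mk 0xa0000001800000008 0x400000014000000370000003f0000001c00000008 6 6) 0 0 (step_sound _ 66 [(rhb739f4f82bb681b4.shift 0 1), rhc6e74fd705abae6f] (by decide +kernel))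
noncomputable def rhae4042a4995e2992 : CRef := CRef.mk (Pat.mk 0x160000003000000018000000000000000000000000 0x6000000160000003c0000001e0000000f0000000a00000008 6 6) 0 0 (step_sound _ 67 [(rh62e53aa2fb15efd7.shift 1 0), (rh81c4772705a37b64.shift 0 1), (rhf9af042da61fc652.shift 3 0)] (by decide +kernel))
noncomputable def rh9fb1f33e4a6ee3b7 : CRef := CRef.mk (Pat.mk 0xc00000008000000080000000c 0x130000007f0000003e0000000c0000000c 6 7) 0 0 (step_sound _ 100 [rh0d15d13d9e214c0e, (rh2f68792b6b779e96.shift 3 0)] (by decide +kernel))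
noncomputable def rhf69314032135b7f7 : CRef := CRef.mk (Pat.mk 0x3000000010000000100000001c00000000 0xc000000ff0000003f000000180000001c00000004 6 8) 0 0 (step_sound _ 131 [(rh50fbb5868c909700.shift 3 1), rhe1840b7e700e9b6c] (by decide +kernel))
noncomputable def rhd8bc032dc97ad0aa : CRef := CRef.mk (Pat.mk 0xe000000180000000e00000000 0x500000017000000370000001e0000001b0000000e00000004 6 6) 0 0 (step_sound _ 65 [(rh644d796282c12cc5.shift 0 1), rhfb9fb48a5e63ed80] (by decide +kernel))
noncomputable def rhb2d999c672507e3f : CRef := CRef.mk (Pat.mk 0x2000000060000000300000000 0x100000007000000070000000600000006000000060000000300000001 6 3) 0 0 (step_sound _ 129 [(rh35c5f1c53251aa1b.shift 0 1), rh932754581e0f4330] (by decide +kernel))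
noncomputable def rh7e2cf647d5bdef0f : CRef := CRef.mk (Pat.mk 0x400000004000000240000002700000020 0x16000000160000001e0000003e0000003700000021 6 6) 0 0 (step_sound _ 68 [rh82fed6b8dd95d65f, (rhb2a0b9ccfb5cecd5.shift 1 1)] (by decide +kernel))
noncomputable def rh315e7bad56ea85ff : CRef := CRef.mk (Pat.mk 0x70000000200000000000000010 0xf0000007e000000ff0000001800000010 6 8) 0 0 (step_sound _ 99 [(rh25efc5d5a6c022ff.shift 2 0), (rh3918eeb6c53434d8.shift 0 2), (rh775ca1963e850b80.shift 1 2), (rha03f6e28ea70fc7d.shift 2 2)] (by decide +kernel))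
noncomputable def rh133ec9e97de3d2aa : CRef := CRef.mk (Pat.mk 0xc000000480000000e00000000 0x400000004000000060000000f0000007e0000000e00000002 6 7) 0 0 (step_sound _ 68 [(rh2fe78cc5ca4405d8.shift 2 2), rh742dfdc9bb0c9526] (by decide +kernel))
noncomputable def rhda313e42f0108c9c : CRef := CRef.mk (Pat.mk 0x18000000100000001c00000000 0x80000001c0000001f00000038000000180000001c00000004 6 6) 0 0 (step_sound _ 131 [(rh79a48be3ac30af6a.shift 2 0), rhb968e2603ebae66f, (rhc89253ff58c66167.shift 3 1)] (by decide +kernel))
noncomputable def rh0655918abd82fb57 : CRef := CRef.mk (Pat.mk 0x7000000020000001800000010000000100 0x8f000000fe000000ef000001800000018000000100 6 9) 0 0 (step_sound _ 131 [(rh3918eeb6c53434d8.shift 0 3), (rh6505ba79e939e035.shift 3 0), (rh775ca1963e850b80.shift 1 3), (rha03f6e28ea70fc7d.shift 2 3)] (by decide +kernel))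
noncomputable def rhc11d0f641d3e9ac0 : CRef := CRef.mk (Pat.mk 0x100000003800000020 0x1e0000007f00000067 6 7) 0 0 (step_sound _ 34 [rhafaa61f79143ceed, (rhe25b0a99195a5d59.shift 2 0)] (by decide +kernel))
noncomputable def rh20b6fd84536f847b : CRef := CRef.mk (Pat.mk 0x38000000100000001c00000000 0xc0000000f0000003f0000001f0000001c00000004 6 6) 0 0 (step_sound _ 67 [(rh37d9ceebb86d75d1.shift 2 0), (rh3d0ff1fe86a026fa.shift 0 1), (rhae1e33cc61dbc251.shift 0 1)] (by decide +kernel))
noncomputable def rh8197f6eecd9c93eb : CRef := CRef.mk (Pat.mk 0x380000001c000000000000000000000000 0xc0000000c0000000f0000003c0000001c0000000c0000000c0000000c 6 6) 0 0 (step_sound _ 163 [rh05732d937c59a6d1, (rh0efea48c36e092f0.shift 0 2), (rh37d9ceebb86d75d1.shift 2 2)] (by decide +kernel))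
noncomputable def rhc4f4da6e24bd6bd8 : CRef := CRef.mk (Pat.mk 0xa0000000a000000880000000800000000 0x20000000a0000000a000000ef0000007f00000017 6 8) 0 0 (step_sound _ 34 [rh68bb7d7d8847fb1d, (rh932754581e0f4330.shift 2 0)] (by decide +kernel))
noncomputable def rhd2a1cfc893cf9755 : CRef := CRef.mk (Pat.mk 0x20000001e000000060000000000000000 0x3000000070000003e0000001e000000060000000200000002 6 6) 0 0 (step_sound _ 161 [(rh2145e1d24b96a57e.shift 1 2), rhb8ed21780c0b45e3] (by decide +kernel))
noncomputable def rh6da50ac7bbaa7355 : CRef := CRef.mk (Pat.mk 0x3000000180000000600000000 0x50000000700000007000000030000001e0000000600000004 6 5) 0 0 (step_sound _ 65 [(rh5419adcd928dba20.shift 0 2), rhfb9fb48a5e63ed80] (by decide +kernel))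
noncomputable def rh25e2d6120361da26 : CRef := CRef.mk (Pat.mk 0x3000000180000000c00000000 0x140000001c0000001c0000000f000000180000000c00000004 6 5) 0 0 (step_sound _ 99 [(rh68a777751bfeafdf.shift 2 0), (rhc10214bf3fe8094a.shift 0 2)] (by decide +kernel))
noncomputable def rhfe89c3a4caa75614 : CRef := CRef.mk (Pat.mk 0x8000000080000003800000010000000000000000000000000 0x40000000c0000001f000000380000001e0000000c0000000c0000000c 6 6) 0 0 (step_sound _ 99 [(rha9a9dd876407ae9a.shift 2 0), (rhc4526fc8abf298b6.shift 2 1), (rhd716e2ab31203e19.shift 0 2), (rhf5094ad2a427d4d3.shift 1 2)] (by decide +kernel))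
noncomputable def rh35f20c6ee8cf1dd4 : CRef := CRef.mk (Pat.mk 0x18000000c00000001000000000 0x2000000020000000770000007e000000d70000001000000010 6 8) 0 0 (step_sound _ 101 [(rhd6e447e81774439e.shift 3 2), rhe896bcd1ab03479c] (by decide +kernel))
noncomputable def rh4c1e318a3e15c6b3 : CRef := CRef.mk (Pat.mk 0x30000000000000006000000000000000000000000 0x50000000700000007000000030000000300000006000000060000000400000004 6 3) 0 0 (step_sound _ 129 [(rh70e33bfdf511e144.shift 1 0), (rhf9a6286f1d5377a2.shift 0 2), (rhfb9fb48a5e63ed80.shift 0 2)] (by decide +kernel))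
noncomputable def rh5e576a76cef39ec6 : CRef := CRef.mk (Pat.mk 0xa000000180000000e00000000 0x140000001c0000003c0000000f0000001c0000000e00000002 6 6) 0 0 (step_sound _ 98 [(rha3e7fbcec29f6413.shift 1 0), (rhb739f4f82bb681b4.shift 0 2)] (by decide +kernel))
noncomputable def rh2686054897b4fb10 : CRef := CRef.mk (Pat.mk 0x200000002000000060000000200000000000000000000000000000000 0x200000006000000060000000300000007000000070000000700000005 6 3) 0 0 (step_sound _ 97 [(rh301a6b3a9154ed36.shift 1 1), (rh7928877f9bf74a91.shift 0 2), (rh8cdd36b03d57a2f6.shift 0 1), rhffb8e5993241bf15] (by decide +kernel))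
noncomputable def rh29717898c79560a6 : CRef := CRef.mk (Pat.mk 0x80000000800000038000000000000000000000000 0x140000003c0000000f000000380000001e0000001c00000004 6 6) 0 0 (step_sound _ 67 [(rh900a894640be090c.shift 0 1), (rhc4526fc8abf298b6.shift 2 0), (rhfbf2eae4035425b6.shift 1 1)] (by decide +kernel))
noncomputable def rh50f96170d192f802 : CRef := CRef.mk (Pat.mk 0x1000000018000000080000000800000000 0x1800000018000000180000000f0000003c00000014 6 6) 0 0 (step_sound _ 131 [(rh2f68792b6b779e96.shift 3 1), rhf0d38cf1e7116183] (by decide +kernel))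
noncomputable def rh0356a1c36a679702 : CRef := CRef.mk (Pat.mk 0x20000001e000000000000000000000000 0x50000000700000007000000060000001e000000070000000600000006 6 5) 0 0 (step_sound _ 65 [(rheb0810cc63b001d8.shift 0 2), rhf19810d9c5bffd02] (by decide +kernel))
noncomputable def rhd56823fa0d7fad70 : CRef := CRef.mk (Pat.mk 0xa000000480000000e00000000 0x100000001000000010000000f0000007f0000000e00000002 6 7) 0 0 (step_sound _ 68 [(rh361cc68994bd8a63.shift 2 1), rhba3de35515f04ede] (by decide +kernel))
noncomputable def rhe6bc620139d248f8 : CRef := CRef.mk (Pat.mk 0x20000000000000004000000040000000400000000 0x60000000600000004000000070000003e0000000a 6 6) 0 0 (step_sound _ 130 [rh1904b52b42aee148, (rhffd04209dc8ea796.shift 1 1)] (by decide +kernel))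
noncomputable def rh35bb304cc4309780 : CRef := CRef.mk (Pat.mk 0x280000002000000038000000000000000000000000 0xf0000007c0000003800000038000000180000001000000010 6 7) 0 0 (step_sound _ 68 [(rh0588d2c7f2cab5e9.shift 3 0), (rhe3796014472b2b6d.shift 0 2), (rhf9af042da61fc652.shift 4 0)] (by decide +kernel))
noncomputable def rh204019238208b37f : CRef := CRef.mk (Pat.mk 0x7000000240 0x39f000001fe0000036f 6 10) 0 0 (step_sound _ 35 [(rh0de499e0455c9c14.shift 1 0), rh36eba2a3de447758, (rh592c7139d2c44767.shift 1 0), (rh77357ee3dc978de7.shift 2 0)] (by decide +kernel))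
noncomputable def rh62fb5e3e74b8fb98 : CRef := CRef.mk (Pat.mk 0x28000001200000010000000100 0x80000001cf000000fe000001ef0000018000000100 6 9) 0 0 (step_sound _ 100 [(rh3918eeb6c53434d8.shift 0 2), (rh6a6060c6b6bde3df.shift 4 0), (rhf8e735c4fd37dbb2.shift 1 2)] (by decide +kernel))
noncomputable def rh9d60f8f4abd471d2 : CRef := CRef.mk (Pat.mk 0x1400000090000000180000000000000000 0x40000003e000000ff0000001e0000000800000008 6 8) 0 0 (step_sound _ 101 [(rh361cc68994bd8a63.shift 3 2), rh47d082acf47c2159] (by decide +kernel))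
noncomputable def rh1ead17eef4d77515 : CRef := CRef.mk (Pat.mk 0x3800000120 0x1c7000000fe000001be 6 9) 0 0 (step_sound _ 38 [(rh1a48baf448afc5e7.shift 3 0), rh8aa80d8d90d3223c] (by decide +kernel))
noncomputable def rh5d3dbb2bada46e2e : CRef := CRef.mk (Pat.mk 0x20000001a0000000c00000000 0x50000000700000007000000020000001a0000000f00000004 6 5) 0 0 (step_sound _ 33 [(rh53b3c253cb0c65f4.shift 0 1), rhfb9fb48a5e63ed80] (by decide +kernel))
noncomputable def rh80593a0bb581c8e3 : CRef := CRef.mk (Pat.mk 0xe000000180000000c00000000 0x200000012000000370000001e0000001c0000000f00000004 6 6) 0 0 (step_sound _ 32 [(rh24ae073cf30720c4.shift 0 1), rhce35300b7a9f67e3] (by decide +kernel))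
noncomputable def rh5e1fc33f4431466f : CRef := CRef.mk (Pat.mk 0xa000000180000000c00000000 0x10000000330000001f0000001b0000000f00000004 6 6) 0 0 (step_sound _ 98 [rh75f618e21d4ecb83, (rhb739f4f82bb681b4.shift 0 2)] (by decide +kernel))
noncomputable def rh48f894217152c571 : CRef := CRef.mk (Pat.mk 0x14000000300000001c00000000 0xa0000000e0000000e000000360000003f0000001c00000008 6 6) 0 0 (step_sound _ 66 [(rh38146ff2d053a047.shift 0 1), (rhfb9fb48a5e63ed80.shift 1 0)] (by decide +kernel))
noncomputable def rh71ccc8078d08b03a : CRef := CRef.mk (Pat.mk 0x1e000000180000000800000000 0x400000004000000070000001e0000001f0000000b00000003 6 5) 0 0 (step_sound _ 65 [rh0388ec78313fa2af, (rheb0810cc63b001d8.shift 0 2)] (by decide +kernel))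
noncomputable def rh03dbf7e936d8668c : CRef := CRef.mk (Pat.mk 0x1e0000001800000000 0x200000002000000030000003e0000001f00000007 6 6) 0 0 (step_sound _ 33 [rh9043931d57da4602, (rheb0810cc63b001d8.shift 0 1)] (by decide +kernel))
noncomputable def rhdf3c3df3c13acdf6 : CRef := CRef.mk (Pat.mk 0x3800000120000000100000000000000000 0x1cf000000fe000001b0000000100000001000000010 6 9) 0 0 (step_sound _ 130 [(rh1e68a8f8d4e6068c.shift 1 0), (rh77357ee3dc978de7.shift 1 3), (rhd1d05263fabc0227.shift 0 3)] (by decide +kernel))
noncomputable def rh0a40b623c3b8a909 : CRef := CRef.mk (Pat.mk 0x1e0000000200000008 0x50000000700000007000000070000001e0000000e0000000e 6 5) 0 0 (step_sound _ 97 [(rh3244c3cc8379b070.shift 0 2), rh7c06bf6f59c7c250] (by decide +kernel))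
noncomputable def rh44c9093828af93dc : CRef := CRef.mk (Pat.mk 0x1c0000001800000018 0xc0000000c0000007f0000001f00000018 6 7) 0 0 (step_sound _ 99 [(rh2145e1d24b96a57e.shift 3 0), rhbeb525c07659e885] (by decide +kernel))
noncomputable def rhf5360c6b7f05d39e : CRef := CRef.mk (Pat.mk 0x280000006000000038000000000000000000000000 0x140000005c000000df000000f80000007e00000038000000100000001000000010 6 8) 0 0 (step_sound _ 195 [(rh6d66030781e0eae2.shift 2 2), (rh78e749d40ad93532.shift 3 0), (rhc822135b956a18cd.shift 0 2), (rhe5da2ab9687a85a3.shift 2 3), (rhe5f2d0a876cd34bc.shift 1 2)] (by decide +kernel))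
noncomputable def rh57141caf2f0cd222 : CRef := CRef.mk (Pat.mk 0x800000008000000480000004c00000040 0x240000003f0000003c000000780000006c00000040 6 7) 0 0 (step_sound _ 69 [rh007e5e1797c6396b, (rhb2a0b9ccfb5cecd5.shift 2 1)] (by decide +kernel))
noncomputable def rh62d081be2a6a3205 : CRef := CRef.mk (Pat.mk 0x70000000200000000000000010 0xf0000007e000000fe0000001800000010 6 8) 0 0 (step_sound _ 99 [(rh775ca1963e850b80.shift 1 2), (rha03f6e28ea70fc7d.shift 2 2), (rhb2afcb5db661472f.shift 0 2), (rhcfeedd951c119579.shift 2 0)] (by decide +kernel))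
noncomputable def rh1d8aa7886cae32db : CRef := CRef.mk (Pat.mk 0x3800000000000001000000010000000100 0x1ff000001fe000000c0000001800000018000000100 6 9) 0 0 (step_sound _ 134 [(rh16b92b6fc23cc186.shift 2 0), (rh4c622fddc53a5f99.shift 1 4), (rh875ee7c4c1e718c0.shift 0 4), (rhfa0414344ad6364d.shift 3 1)] (by decide +kernel))
noncomputable def rh16d6d4897ab42222 : CRef := CRef.mk (Pat.mk 0x8000000180000001c000000000000000400000000 0xc0000001f0000001f000000070000000600000002 6 5) 0 0 (step_sound _ 97 [(rh53b3c253cb0c65f4.shift 0 3), rhe6c1ef918b590bde] (by decide +kernel))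
noncomputable def rh958d615da2d117e2 : CRef := CRef.mk (Pat.mk 0x4000000040000000c0000000c 0x1a0000007f0000003e0000000c0000000c 6 7) 0 0 (step_sound _ 97 [(rh50fbb5868c909700.shift 1 0), rhb062de995c5b365e] (by decide +kernel))
noncomputable def rh34854395e5e1cf63 : CRef := CRef.mk (Pat.mk 0x18000000020000001e00000000000000000000000000000000 0x70000001f000000060000001e00000003000000070000000700000005 6 5) 0 0 (step_sound _ 97 [rh84f4520a00546192, (rheb0810cc63b001d8.shift 0 3)] (by decide +kernel))
noncomputable def rh5f9895736d1d367b : CRef := CRef.mk (Pat.mk 0x1c00000098000000180000000c 0xe30000007e000000df0000001f0000000f 6 8) 0 0 (step_sound _ 0 [rh24ae073cf30720c4, rh5c14a59be890f700] (by decide +kernel))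
noncomputable def rh841436541fd29510 : CRef := CRef.mk (Pat.mk 0xc00000018000000180000001800000000 0xf0000003c0000001c0000001f00000007 6 6) 0 0 (step_sound _ 34 [(rh932754581e0f4330.shift 2 0), rhf4404e1f5c482db4] (by decide +kernel))
noncomputable def rhb3c5f0b05ba07098 : CRef := CRef.mk (Pat.mk 0x80000001a0000001a0000000800000000 0x30000000f0000001a0000001f0000000f00000004 6 5) 0 0 (step_sound _ 34 [(rh932754581e0f4330.shift 2 0), (rh98bff1a25a46049b.shift 0 1)] (by decide +kernel))
noncomputable def rh769fd698e9edcb37 : CRef := CRef.mk (Pat.mk 0x1e0000001a000000080000000000000000 0x2000000070000001e0000001e0000000f0000000700000002 6 5) 0 0 (step_sound _ 161 [(rh3244c3cc8379b070.shift 0 4), rhbf28e78a1778010f] (by decide +kernel))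
noncomputable def rhe36e2f3314fdb83a : CRef := CRef.mk (Pat.mk 0x1e00000018000000000000000000000000 0x200000002000000070000001e0000001f000000070000000600000002 6 5) 0 0 (step_sound _ 161 [rh05b44a4ee3038b07, (rh3244c3cc8379b070.shift 0 4)] (by decide +kernel))
noncomputable def rh27b410a82268f20b : CRef := CRef.mk (Pat.mk 0x20000000a0000001a00000008000000000000000000000000 0x500000007000000070000000a0000000a0000001e0000000f000000040000000400000004 6 5) 0 0 (step_sound _ 98 [(rh1148744b53f3df58.shift 0 3), (rh75c7a92d24270dd4.shift 0 2), (rhfafeb437ceb8396d.shift 2 0)] (by decide +kernel))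
noncomputable def rh606b548914e2ab0d : CRef := CRef.mk (Pat.mk 0x100000001a0000001a00000000000000000000000000000000 0x100000001000000130000001b0000001e0000000f0000000e0000000400000004 6 5) 0 0 (step_sound _ 99 [rh5ceae416b9294fb0, (rh71222050f2c63a3a.shift 3 2)] (by decide +kernel))
noncomputable def rhfbd38dbb491b0ac4 : CRef := CRef.mk (Pat.mk 0x100000001a0000000a00000002000000000000000000000000 0x1a0000001a0000000e0000000e0000001f0000000700000005 6 5) 0 0 (step_sound _ 66 [(rh41aed169603b3217.shift 2 0), (rh437765f6ebbbbe0a.shift 1 2), (rh47dece01c1595e79.shift 1 0), rh81156b46702557d3] (by decide +kernel))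
noncomputable def rh9dbc063ae34b2487 : CRef := CRef.mk (Pat.mk 0x80000000c0000000c 0x1f0000001f0000003c0000000c0000000c 6 6) 0 0 (step_sound _ 99 [(rh5c5e593799055d58.shift 2 0), rh754ed8af3fcc8232] (by decide +kernel))
noncomputable def rha6f97900a6b4876d : CRef := CRef.mk (Pat.mk 0x2000000030000000300000001c00000000 0x80000000c0000007f0000003e000000380000001c00000004 6 7) 0 0 (step_sound _ 99 [(rh34517e326ddb5b25.shift 1 2), rhb5ffae6359841451] (by decide +kernel))
noncomputable def rh8bf6e8a1598e06fd : CRef := CRef.mk (Pat.mk 0x1000000018000000180000000c000000000000000000000000 0x3a0000001f0000001a0000000f000000060000000400000004 6 6) 0 0 (step_sound _ 66 [rh4746d5e3ef8a70d4, (rh5c5e593799055d58.shift 2 2)] (by decide +kernel))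
noncomputable def rh1bc53732ee905289 : CRef := CRef.mk (Pat.mk 0x1000000018000000180000000c000000000000000000000000 0x330000001f0000001f0000000f000000060000000400000004 6 6) 0 0 (step_sound _ 97 [(rh53b3c253cb0c65f4.shift 0 3), rhaf5f46506ad5a7b1] (by decide +kernel))
noncomputable def rh4bb2ca7f2be2dd24 : CRef := CRef.mk (Pat.mk 0x2000000060000001a00000000000000000000000000000000 0x6000000060000001e00000003000000070000000700000005 6 5) 0 0 (step_sound _ 97 [rh1b9022be4f7af407, (rh5710f30ba40ee3ec.shift 0 2), (rhf3b0450cbffe4da9.shift 0 1)] (by decide +kernel))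
noncomputable def rhb0124cb552f3e2d3 : CRef := CRef.mk (Pat.mk 0x20000000600000002000000080000000000000000 0x500000007000000070000000200000006000000060000001f0000000700000001 6 5) 0 0 (step_sound _ 66 [(rh390a8df03c6c5a62.shift 1 1), (rh478c4cadbcd4e066.shift 1 1), rhb1385f5583bb96cc, (rhba97f7f4ade5e136.shift 0 2)] (by decide +kernel))
noncomputable def rh1676e7fd68eb4e17 : CRef := CRef.mk (Pat.mk 0xa0000000a000000880000001800000000 0xa0000000a000000ef0000007f000000e7 6 8) 0 0 (step_sound _ 34 [rh8629ced67a9d33d7, (rh932754581e0f4330.shift 2 0)] (by decide +kernel))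
noncomputable def rh6251196c79f66161 : CRef := CRef.mk (Pat.mk 0x1e0000001a00000008 0x10000000f0000000f0000000f0000001e0000001e00000008 6 5) 0 0 (step_sound _ 97 [(rh3244c3cc8379b070.shift 0 2), rhe32db257ab024b3e] (by decide +kernel))
noncomputable def rhc84585e2b14a7734 : CRef := CRef.mk (Pat.mk 0x1e000000180000000000000000 0x4000000040000000c0000001e0000001f0000000f0000000a 6 5) 0 0 (step_sound _ 65 [rh000f0e7b16582d14, (rheb0810cc63b001d8.shift 0 2)] (by decide +kernel))
noncomputable def rhf6c3bf79151a7d58 : CRef := CRef.mk (Pat.mk 0x20000001e000000180000000000000000 0x4000000040000000e0000001e0000001b0000000f0000000f 6 5) 0 0 (step_sound _ 65 [rh4df7560808619a23, (rheb0810cc63b001d8.shift 0 2)] (by decide +kernel))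
noncomputable def rh6a4449f7d7d199d3 : CRef := CRef.mk (Pat.mk 0x1e0000001a0000000000000000 0x50000000700000007000000030000001e0000001e0000000f00000005 6 5) 0 0 (step_sound _ 129 [(rh3244c3cc8379b070.shift 0 3), rh606dd016e7a94696] (by decide +kernel))
noncomputable def rh16ef587e96ed1b35 : CRef := CRef.mk (Pat.mk 0x80000000a0000001e00000000000000000000000000000000 0xc0000000e0000001e00000007000000070000000700000005 6 5) 0 0 (step_sound _ 97 [rhb6109fba24b8cdde, (rheb0810cc63b001d8.shift 0 3)] (by decide +kernel))
noncomputable def rh7f798aadb367bd17 : CRef := CRef.mk (Pat.mk 0x1a0000001e00000000 0x10000000300000003000000030000001e0000001e00000007 6 5) 0 0 (step_sound _ 1 [rh9c16b34c18d1aaff, rheb0810cc63b001d8] (by decide +kernel))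
noncomputable def rhca437ee81bc726c8 : CRef := CRef.mk (Pat.mk 0x1800000008000000020000000200000002000000000000000000000000 0x7c0000000f000000060000000200000002000000070000000700000005 6 7) 0 0 (step_sound _ 194 [rh984bfc6de6c2c524, (rhd69c262cd33b94b3.shift 0 6)] (by decide +kernel))
noncomputable def rh462faa19e337331f : CRef := CRef.mk (Pat.mk 0x80000001a00000018 0x30000000300000003f0000001f00000018 6 6) 0 0 (step_sound _ 34 [rh1973362723cba897, rhb739f4f82bb681b4] (by decide +kernel))
noncomputable def rhae10b161d58eac03 : CRef := CRef.mk (Pat.mk 0x80000001a0000001a0000000000000000 0x4000000070000000f0000001a0000001f0000000700000004 6 5) 0 0 (step_sound _ 66 [(rh53b3c253cb0c65f4.shift 0 2), rh64b8b5e305fadb80] (by decide +kernel))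
noncomputable def rhc24816851c3e72af : CRef := CRef.mk (Pat.mk 0xa0000001a0000001a0000000000000000 0x10000000340000003e0000001e0000001e0000000300000003 6 6) 0 0 (step_sound _ 33 [(rh1a85c6e3088be9ec.shift 1 0), rh5710f30ba40ee3ec] (by decide +kernel))
noncomputable def rhfd97b58967212f9b : CRef := CRef.mk (Pat.mk 0xa0000001a00000002000000000000000000000000 0x40000000f0000001a00000002000000070000000700000005 6 5) 0 0 (step_sound _ 162 [(rhb739f4f82bb681b4.shift 0 4), rhffb8e5993241bf15] (by decide +kernel))
noncomputable def rh1a2d631749e0ac12 : CRef := CRef.mk (Pat.mk 0x80000001a0000001a0000000000000000 0x4000000070000000f0000001b0000001e0000000700000004 6 5) 0 0 (step_sound _ 66 [(rh3244c3cc8379b070.shift 0 2), rh64b8b5e305fadb80] (by decide +kernel))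
noncomputable def rha4c9050b0c06ab77 : CRef := CRef.mk (Pat.mk 0x1c00000018000000180000001c 0x30000001f0000001b0000001f0000001f 6 5) 0 0 (step_sound _ 1 [rh53b3c253cb0c65f4, rh5971009295f75fb0] (by decide +kernel))
noncomputable def rha661e9d3bd2d1b76 : CRef := CRef.mk (Pat.mk 0xe00000002000000400000004000000040 0x270000003e00000033000000600000006000000040 6 7) 0 0 (step_sound _ 132 [rh16b92b6fc23cc186, (rheb0810cc63b001d8.shift 0 3)] (by decide +kernel))
noncomputable def rh4b438368611ab3a7 : CRef := CRef.mk (Pat.mk 0xe00000000000000440000004400000004 0x720000003e00000033000000660000004600000004 6 7) 0 0 (step_sound _ 97 [(rh3df4bc1dee31a5c0.shift 0 1), (rh6da1cd319b2afcb1.shift 1 0)] (by decide +kernel))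
noncomputable def rh4d8df14dca253e3c : CRef := CRef.mk (Pat.mk 0x1e000000000000008000000080 0xe00000007e00000067000000c000000080 6 8) 0 0 (step_sound _ 65 [(rh8e50e2f3eaeb384b.shift 1 0), (rheb0810cc63b001d8.shift 0 2)] (by decide +kernel))
noncomputable def rhfae44cc232ea374e : CRef := CRef.mk (Pat.mk 0xe00000000000000440000004400000040 0x770000003e00000033000000660000006400000040 6 7) 0 0 (step_sound _ 132 [(rh04395309fba550d6.shift 0 1), rh16b92b6fc23cc186, (rhfa0414344ad6364d.shift 1 1)] (by decide +kernel))
noncomputable def rh27a949df68c4b667 : CRef := CRef.mk (Pat.mk 0x20000001e0000000200000000 0x1000000070000000f0000003e0000001e0000000600000004 6 6) 0 0 (step_sound _ 100 [(rh33e738c4ed385b9f.shift 1 2), rhaa0902b9b73b1f16] (by decide +kernel))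
noncomputable def rh19c128d4bc3ca27c : CRef := CRef.mk (Pat.mk 0x1e0000000a000000180000000800000000 0x30000003e0000000e0000001f0000000f00000004 6 6) 0 0 (step_sound _ 133 [rh0820524d33dda8d7, (rh80fcd6d0a18cb2dd.shift 1 3)] (by decide +kernel))
noncomputable def rh063f0d92a3134ed5 : CRef := CRef.mk (Pat.mk 0x4000000060000000700000000 0xe0000003e00000007000000060000000700000001 6 6) 0 0 (step_sound _ 130 [(rh5c5e593799055d58.shift 1 1), rhf5d94ee53bf9d7bc] (by decide +kernel))
noncomputable def rhdd98ce1a2f039f2a : CRef := CRef.mk (Pat.mk 0x1800000008000002000000003000000000 0x1000000018000000080000038f000001fe000001ff 6 10) 0 0 (step_sound _ 35 [rh64425fd874e7768c, (rh807d78fa6ca78542.shift 3 0), (rhb1b17f124f454658.shift 1 0), (rhe8d40476d0dff265.shift 1 0)] (by decide +kernel))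
noncomputable def rhcdcae55ee22826d6 : CRef := CRef.mk (Pat.mk 0x80000000800000200000000300000000000000000 0x40000000c0000000c0000038f000001fe000001ff00000004 6 10) 0 0 (step_sound _ 67 [(rh4c6d4acee4521ac6.shift 0 1), (rh595dea1cb3fa7b59.shift 2 1), (rh5a9c00b5c9c7c66d.shift 0 1), (rh64425fd874e7768c.shift 0 1), (rhb1b17f124f454658.shift 1 1), (rhb5e57d376b469d66.shift 2 0)] (by decide +kernel))
noncomputable def rh4cf1ec5ff1e74e5c : CRef := CRef.mk (Pat.mk 0x8000000380000001a00000008 0x20000000740000007c0000003f0000001b00000008 6 7) 0 0 (step_sound _ 100 [(rh5c5e593799055d58.shift 3 0), rh5d43bc3ef6bc7d44] (by decide +kernel))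
noncomputable def rh73331affe7129e83 : CRef := CRef.mk (Pat.mk 0x600000006000000020000000200000000 0x300000003000000030000000600000006000000030000000700000005 6 3) 0 0 (step_sound _ 32 [rh932754581e0f4330, rha06d11519298828d] (by decide +kernel))
noncomputable def rhc34d16576c8b27db : CRef := CRef.mk (Pat.mk 0x8000000080000003c0000000c 0x170000001e0000007c0000003c0000000c 6 7) 0 0 (step_sound _ 69 [(rh33e738c4ed385b9f.shift 2 1), rhee5481c844b13972] (by decide +kernel))
noncomputable def rh9453752d776069ed : CRef := CRef.mk (Pat.mk 0x6000000000000001e0000000e 0x1b0000001f0000003a0000001e0000000e 6 6) 0 0 (step_sound _ 68 [(rh33e738c4ed385b9f.shift 1 1), rhebde58787eb4d3f8] (by decide +kernel))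
noncomputable def rhb1de0db26c505ab8 : CRef := CRef.mk (Pat.mk 0x6000000000000001e0000000c 0x7c0000001f000000380000001e0000000c 6 7) 0 0 (step_sound _ 68 [(rh33e738c4ed385b9f.shift 1 1), rh992834908b182e85] (by decide +kernel))
noncomputable def rh7d9c9f911e044c94 : CRef := CRef.mk (Pat.mk 0x800000008000000380000001a0000000000000000 0x300000007c0000006c0000003f0000001b0000000800000008 6 7) 0 0 (step_sound _ 98 [(rh6fc70eb8b87295ef.shift 2 0), (rh710860539a4c4362.shift 0 2)] (by decide +kernel))
noncomputable def rh5ab1f3800366eba0 : CRef := CRef.mk (Pat.mk 0x200000032000000180000000000000000 0x5000000070000000700000003000000330000001f0000000300000001 6 6) 0 0 (step_sound _ 65 [(rh24ae073cf30720c4.shift 1 2), rhb3874da3d6cb19a4] (by decide +kernel))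
noncomputable def rh7b38386bee35fd60 : CRef := CRef.mk (Pat.mk 0x20000001a00000000000000000000000000000000 0x2000000030000003e00000007000000060000000400000004 6 6) 0 0 (step_sound _ 130 [(rh3244c3cc8379b070.shift 0 4), rhe810f4074e8af6bf] (by decide +kernel))
noncomputable def rhd97757d230799495 : CRef := CRef.mk (Pat.mk 0x1000000010000000100000001800000000 0x800000018000000180000003e0000007f00000026 6 7) 0 0 (step_sound _ 37 [(rh55afc6a59410cf00.shift 4 0), rhfaefcf42ee69a391] (by decide +kernel))
noncomputable def rhb52e291e718d5fbc : CRef := CRef.mk (Pat.mk 0x1800000010000000100000001000000000 0x260000007f0000003e000000180000001800000008 6 7) 0 0 (step_sound _ 133 [(rh2f68792b6b779e96.shift 4 1), rhb906b8f4b705b0da] (by decide +kernel))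
noncomputable def rhfc7a679450f55fe7 : CRef := CRef.mk (Pat.mk 0x20000001a00000002000000000000000000000000 0x1000000030000001e00000002000000070000000700000005 6 5) 0 0 (step_sound _ 160 [rh0a6888916bcef86b, (rh5419adcd928dba20.shift 0 4)] (by decide +kernel))
noncomputable def rh7a241aa7d09f4fda : CRef := CRef.mk (Pat.mk 0x8000000680000000800000000 0x140000001c0000003c0000000f000000780000001800000010 6 7) 0 0 (step_sound _ 131 [(rh05c024c471721d4f.shift 2 0), (rh5abfc4c9d959be03.shift 2 0), (rh81777994d02217c0.shift 0 1), (rhc85cc95794737cf7.shift 2 1)] (by decide +kernel))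
noncomputable def rh0a60e7220a478b3f : CRef := CRef.mk (Pat.mk 0x20000001a00000002000000000000000000000000 0x600000006000000070000001e00000006000000070000000700000005 6 5) 0 0 (step_sound _ 130 [(rh3244c3cc8379b070.shift 0 4), rh39b326e89ae96813] (by decide +kernel))
noncomputable def rhd4d072bb4184f8a3 : CRef := CRef.mk (Pat.mk 0x18000000300000001a000000020000000000000000 0x1000000030000001f000000330000001b0000000f0000000700000004 6 6) 0 0 (step_sound _ 161 [(rhab22b5b56e7b3243.shift 1 4), rhc4f5889e12d4daa1] (by decide +kernel))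
noncomputable def rh58e0e059454e2e6e : CRef := CRef.mk (Pat.mk 0x78000000000000003000000060 0x70000007e0000000e0000003c00000064 6 7) 0 0 (step_sound _ 34 [(rhab22b5b56e7b3243.shift 2 0), rhc449309dc938f088] (by decide +kernel))
noncomputable def rh09b17521740cf0e8 : CRef := CRef.mk (Pat.mk 0x78000001000000003400000030 0xf000000fe00000187000000360000003e 6 9) 0 0 (step_sound _ 103 [rh890dcec7b7e08996, (rh96851dee118c1ba3.shift 4 2)] (by decide +kernel))
noncomputable def rhc4ee6b3d63e535ab : CRef := CRef.mk (Pat.mk 0x1c000000000000001c00000018000000000000000000000000 0x60000001e000000070000001c0000001f000000070000000200000002 6 5) 0 0 (step_sound _ 162 [(rh2145e1d24b96a57e.shift 2 3), rh7dbf60ac82f2b997] (by decide +kernel))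
noncomputable def rh2385e0661df71a2d : CRef := CRef.mk (Pat.mk 0x4000000020000001a0000001200000010 0x10000000f0000001f0000000a0000001a0000001a00000010 6 5) 0 0 (step_sound _ 129 [(rh2f68792b6b779e96.shift 1 1), rhc88627fee266e570] (by decide +kernel))
noncomputable def rh3a92b2aa79627371 : CRef := CRef.mk (Pat.mk 0x6000000030000000200000000000000000000000000000000 0x400000006000000030000000300000003000000070000000700000004 6 3) 0 0 (step_sound _ 97 [(rh2f68792b6b779e96.shift 1 3), rhcb8436b057c810c0] (by decide +kernel))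
noncomputable def rhdbeb7e8cb2152913 : CRef := CRef.mk (Pat.mk 0x200000003000000020000000000000000 0x50000000700000007000000070000000600000003000000030000000300000001 6 3) 0 0 (step_sound _ 161 [(rh1741680720c097b4.shift 0 2), (rh32431e66bbf434a4.shift 0 2), rh367118e0bf0473e0, (rh769be3fe24eee174.shift 0 2), (rha77f215723363df0.shift 0 2)] (by decide +kernel))
noncomputable def rh7ff002cb0ecfac78 : CRef := CRef.mk (Pat.mk 0x12000000130000001600000000 0x8000000090000000f0000001e0000001b0000001600000004 6 5) 0 0 (step_sound _ 129 [(rh55afc6a59410cf00.shift 1 0), (rhd67b0201b2c3f191.shift 0 1)] (by decide +kernel))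
noncomputable def rhc1dd1d01351c6259 : CRef := CRef.mk (Pat.mk 0x18000000030000001200000000 0x100000003000000030000001e000000030000001f00000004 6 5) 0 0 (step_sound _ 34 [(rh2fe78cc5ca4405d8.shift 0 1), rh895b0a41ee2559ce] (by decide +kernel))
noncomputable def rha29ccca5e36268f0 : CRef := CRef.mk (Pat.mk 0x80000000b0000000a00000000 0x140000001c0000001c000000080000000b0000001e00000010 6 5) 0 0 (step_sound _ 36 [(rh5419adcd928dba20.shift 0 1), (rhfb9fb48a5e63ed80.shift 2 0)] (by decide +kernel))
noncomputable def rh3bf5d743c436b7b8 : CRef := CRef.mk (Pat.mk 0x8000000080000000b00000000000000010000000000000000 0x1000000018000000080000000f0000001c0000001f0000001c00000010 6 5) 0 0 (step_sound _ 99 [(rh1af3d1b618cb15f5.shift 0 1), rh25b3cf3a604f4e4a, (rh4a38b3b3b5efb383.shift 2 1), (rh5f11ee373cbffcaa.shift 0 2)] (by decide +kernel))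
noncomputable def rh58db2d59b08cbe50 : CRef := CRef.mk (Pat.mk 0x80000000800000008000000000000000100000000 0x140000001c0000001c0000000800000008000000180000001c0000001f00000004 6 5) 0 0 (step_sound _ 195 [(rh1741680720c097b4.shift 2 3), (rh5c2604daa0330ae7.shift 2 2), rh7ea56b2bf7210d79] (by decide +kernel))
noncomputable def rhc9dda8a160c77cb5 : CRef := CRef.mk (Pat.mk 0x8000000080000000a0000000b 0x40000001c0000001c000000180000000c0000001e0000000b 6 5) 0 0 (step_sound _ 132 [rh1247bddab16a0de2, (rhbaefcd01e0a8bca3.shift 3 0)] (by decide +kernel))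
noncomputable def rha5edf68cac1cdfda : CRef := CRef.mk (Pat.mk 0x80000000800000008000000080000000100000000 0x10000000180000001800000008000000180000001c0000000f00000004 6 5) 0 0 (step_sound _ 34 [(rh79877ebd3ef475dd.shift 2 1), rhd48b1ade410eab35] (by decide +kernel))
noncomputable def rh7a82be1b187b9ea8 : CRef := CRef.mk (Pat.mk 0xa0000000b0000000900000008000000000000000000000000 0xa0000000b000000090000000d0000001f0000001c00000010 6 5) 0 0 (step_sound _ 64 [rh25b3cf3a604f4e4a, (rh9e3edb185cc347de.shift 0 2)] (by decide +kernel))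
noncomputable def rhf9f763af7314a4a0 : CRef := CRef.mk (Pat.mk 0xa0000000b00000008000000000000000000000000 0x100000001e0000000b000000080000001c0000001c00000014 6 5) 0 0 (step_sound _ 164 [(rh1b9022be4f7af407.shift 2 0), (rhb2a0b9ccfb5cecd5.shift 0 4)] (by decide +kernel))
noncomputable def rhc2db22ad2f1c7e2a : CRef := CRef.mk (Pat.mk 0x2000000120000001200000016000000000000000000000000 0x210000003300000032000000120000001e000000380000003800000028 6 6) 0 0 (step_sound _ 192 [(rh4a8d7897815ccea4.shift 1 0), (rh50fbb5868c909700.shift 0 3)] (by decide +kernel))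
noncomputable def rha08fe74d18864aa5 : CRef := CRef.mk (Pat.mk 0x1000000080000000800000008000000080000000000000000 0x40000000f0000001c0000001800000008000000180000001800000010 6 5) 0 0 (step_sound _ 194 [rh33c1a52a0041c4be, (rhffd04209dc8ea796.shift 2 2)] (by decide +kernel))
noncomputable def rh4dda259e61937cfe : CRef := CRef.mk (Pat.mk 0x8000000090000000b0000000a 0x100000001c0000001f0000000d000000090000000b0000000a 6 5) 0 0 (step_sound _ 128 [rh1efe470493b598b7, rh6f1cbe15c631ee70] (by decide +kernel))
noncomputable def rhe0be7ab05c8f9e7a : CRef := CRef.mk (Pat.mk 0x200000002000000030000000200000000000000000000000000000000 0x200000002000000030000000300000007000000070000000700000001 6 3) 0 0 (step_sound _ 97 [(rh54b8034e7f92149e.shift 0 1), (rh7928877f9bf74a91.shift 0 2), (rh8cdd36b03d57a2f6.shift 0 1), rhbaff7ec0fcc038ba] (by decide +kernel))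
noncomputable def rh7bf07bef293f4f3a : CRef := CRef.mk (Pat.mk 0x18000000130000001200000000 0x80000000b0000000f0000001e0000001b0000001300000001 6 5) 0 0 (step_sound _ 97 [rh570521d157b736d4, (rhb2a0b9ccfb5cecd5.shift 0 2)] (by decide +kernel))
noncomputable def rha5f2eb10f0eebca5 : CRef := CRef.mk (Pat.mk 0x1000000000000000b0000000800000008 0x100000001c0000001f0000001c0000000f0000000800000008 6 5) 0 0 (step_sound _ 99 [rh1da12c82c3218ac1, rh1efe470493b598b7, rhddcd04bb31546311] (by decide +kernel))
noncomputable def rhe3f8113ac7ee77a1 : CRef := CRef.mk (Pat.mk 0x100000000000000080000000800000008000000000000000000000000 0x40000001f0000001c0000001800000008000000080000001c0000001c00000014 6 5) 0 0 (step_sound _ 67 [(rh2ad1eb9d76589cfb.shift 0 2), (rh4a38b3b3b5efb383.shift 2 0), (rh6eff4158bb400f47.shift 2 0)] (by decide +kernel))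
noncomputable def rh375a6ec7f1a70276 : CRef := CRef.mk (Pat.mk 0x120000000300000002 0x5000000070000000f0000001e0000000300000003 6 5) 0 0 (step_sound _ 67 [rh8905b5191ffba9e6, (rhb2a0b9ccfb5cecd5.shift 0 1)] (by decide +kernel))
noncomputable def rhdc1c0c16c2a4b291 : CRef := CRef.mk (Pat.mk 0x1c00000018000000100000001000000000 0x40000001c000000180000007c0000001f0000000c 6 7) 0 0 (step_sound _ 35 [(rh932754581e0f4330.shift 3 0), rhff72182a645569c1] (by decide +kernel))
noncomputable def rhf18b037007c0d324 : CRef := CRef.mk (Pat.mk 0x800000000000000100000003800000000 0x80000000c0000007f0000003e00000007 6 7) 0 0 (step_sound _ 34 [(rh0cfd407e2f78a809.shift 1 0), rh592c7139d2c44767, (rhec46bd5500c722c9.shift 1 1)] (by decide +kernel))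
noncomputable def rhefde87c8814ee837 : CRef := CRef.mk (Pat.mk 0xa00000018000000180000000800000000 0x20000000a0000001b0000003f0000000f00000004 6 6) 0 0 (step_sound _ 34 [(rh932754581e0f4330.shift 2 0), (rha7406972bfcc7521.shift 0 1)] (by decide +kernel))
noncomputable def rh112c643b4089f644 : CRef := CRef.mk (Pat.mk 0x1800000030000000100000003800000000 0x1e0000003e000000770000003e00000007 6 7) 0 0 (step_sound _ 34 [(rh27e2d065a4a374ca.shift 1 0), rh592c7139d2c44767, (rhec46bd5500c722c9.shift 1 1)] (by decide +kernel))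
noncomputable def rhcf9ffc59690f6130 : CRef := CRef.mk (Pat.mk 0xc000000180000000e0000000800000000 0x20000000f0000001b0000003e0000000f00000004 6 6) 0 0 (step_sound _ 34 [(rh932754581e0f4330.shift 2 0), (rhb0499c1a17fb2640.shift 0 1)] (by decide +kernel))
noncomputable def rh9ae9779bc68b4c2d : CRef := CRef.mk (Pat.mk 0x800000018000000080000000800000000000000000000000000000000 0x8000000180000001f0000007c000000180000001c0000001c00000014 6 7) 0 0 (step_sound _ 99 [rh50b7db18287db600, (rh8c3839f9b9075f23.shift 3 1), (rhc94dfb5f501cb051.shift 2 0), (rhd29a1fb688eae70f.shift 3 2)] (by decide +kernel))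
noncomputable def rh7f4a2d2649a1a789 : CRef := CRef.mk (Pat.mk 0x3000000120000000200000002000000000000000000000000 0x30000001e0000000600000006000000070000000700000001 6 5) 0 0 (step_sound _ 162 [(rh2fe78cc5ca4405d8.shift 0 5), rha52e1acf7ed5511e] (by decide +kernel))
noncomputable def rhbed95a687085d398 : CRef := CRef.mk (Pat.mk 0xc000000180000000c000000000000000000000000 0x20000000f0000001e0000000f000000060000000400000004 6 5) 0 0 (step_sound _ 161 [rha2a306de83e488e0, (rhb739f4f82bb681b4.shift 0 4)] (by decide +kernel))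
noncomputable def rh23d2566fce68d118 : CRef := CRef.mk (Pat.mk 0x180000001e000000000000000000000000 0x200000006000000070000001f0000001e000000070000000200000002 6 5) 0 0 (step_sound _ 129 [(rh3244c3cc8379b070.shift 0 3), rh7a18d5e30baf8995] (by decide +kernel))
noncomputable def rh8b2b6866a591d210 : CRef := CRef.mk (Pat.mk 0x1800000018000000180000000800000000 0x40000001f0000001f000000780000000c00000004 6 7) 0 0 (step_sound _ 130 [(rh50fbb5868c909700.shift 2 1), rheeff0f52e54b684a] (by decide +kernel))
noncomputable def rhadd986df07ad7db3 : CRef := CRef.mk (Pat.mk 0x40000003400000010000000000000000000000000 0xa0000000e0000000e00000006000000360000001e0000000f0000000e0000000a 6 6) 0 0 (step_sound _ 98 [(rh168fed7625321222.shift 1 0), (rh242a5e04aa0bbe9c.shift 1 1), (rh5060782f41321f7f.shift 1 2), (rh794501743a61ce18.shift 1 0), rh8acd0d1af0f44b22, (rhb3874da3d6cb19a4.shift 1 1)] (by decide +kernel))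
noncomputable def rh0c3fcaf8777b2140 : CRef := CRef.mk (Pat.mk 0x1800000018000000180000000e 0x60000001f0000001b0000003f0000000e 6 6) 0 0 (step_sound _ 34 [(rh18965a982d73c794.shift 1 0), rh268398b3f32f9821] (by decide +kernel))
noncomputable def rh42c8eabcf66940cd : CRef := CRef.mk (Pat.mk 0x1800000018000000180000000c 0x70000001f0000001c0000003c0000000f 6 6) 0 0 (step_sound _ 1 [rh418bce8a30d18c8f, rh53b3c253cb0c65f4] (by decide +kernel))
noncomputable def rhcc63d3122b927fd8 : CRef := CRef.mk (Pat.mk 0x180000001800000006 0x3000000030000001f0000003f00000006 6 6) 0 0 (step_sound _ 34 [(rh18965a982d73c794.shift 1 0), rh54a65a323a42707d] (by decide +kernel))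
noncomputable def rhb6506ee5fe6cd382 : CRef := CRef.mk (Pat.mk 0x1800000010000000100000001000000000 0x18000000180000003c000000ff0000002e 6 8) 0 0 (step_sound _ 37 [(rh55afc6a59410cf00.shift 4 0), rhcf5ea783a60d2501] (by decide +kernel))
noncomputable def rhdfc34cf075c29d29 : CRef := CRef.mk (Pat.mk 0x10000000030000000200000002000000000000000000000000 0x40000001e000000030000000300000006000000070000000700000001 6 5) 0 0 (step_sound _ 193 [(rh04e571695666b5c1.shift 0 3), rhbaff7ec0fcc038ba] (by decide +kernel))
noncomputable def rh54a034778fbcbb2d : CRef := CRef.mk (Pat.mk 0x100000000300000002000000020000000000000000 0x70000000f0000001e0000000300000003000000070000000600000006 6 5) 0 0 (step_sound _ 161 [(rh04e571695666b5c1.shift 0 2), rh8ff71bc284510f75, (rhe1593724d3f0d843.shift 0 2)] (by decide +kernel))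
noncomputable def rhcc0adc762e1c045d : CRef := CRef.mk (Pat.mk 0x400000000c000000080000000800000000 0x40000001c0000001c000000780000000c0000000f0000003c00000014 6 7) 0 0 (step_sound _ 131 [(rh04e571695666b5c1.shift 2 1), (rh24e7089cea57625c.shift 2 1), rh69d74edc6ed8b1cb] (by decide +kernel))
noncomputable def rhd08f3ad424f34074 : CRef := CRef.mk (Pat.mk 0x180000003200000002000000000000000000000000 0x1000000030000001f0000003300000003000000070000000700000005 6 6) 0 0 (step_sound _ 161 [rh356c5c4886fa2593, (rhab22b5b56e7b3243.shift 1 4)] (by decide +kernel))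
noncomputable def rh171c89cc18d67516 : CRef := CRef.mk (Pat.mk 0x1a0000000200000000 0x40000000400000006000000070000003e0000000300000002 6 6) 0 0 (step_sound _ 66 [(rheb0810cc63b001d8.shift 0 1), rhf6271806d5dafbc1] (by decide +kernel))
noncomputable def rh8049364beae32462 : CRef := CRef.mk (Pat.mk 0x80000006800000008000000000000000000000000 0x1000000018000000780000000f0000003c0000001c00000014 6 7) 0 0 (step_sound _ 67 [(rh1c7a94ff937bfd99.shift 0 1), (rh8cdd36b03d57a2f6.shift 2 0), (rhad85a7675287bf13.shift 2 1), (rhcab3157f7bdcba3e.shift 2 0)] (by decide +kernel))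
noncomputable def rh8043836756913f6b : CRef := CRef.mk (Pat.mk 0x20000001a000000020000000000000000 0x50000000700000007000000060000001e000000070000000600000006 6 5) 0 0 (step_sound _ 98 [rhd01417a01441fe52, (rheb0810cc63b001d8.shift 0 2)] (by decide +kernel))
noncomputable def rhf34e82af65f57427 : CRef := CRef.mk (Pat.mk 0x20000001a00000030000000180000000000000000 0x4000000070000000f0000001b000000330000001f0000000300000001 6 6) 0 0 (step_sound _ 65 [(rh24ae073cf30720c4.shift 1 2), rhf2e2a2960521b070] (by decide +kernel))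
noncomputable def rh867ff9ae5de5a893 : CRef := CRef.mk (Pat.mk 0x6000000030000000000000007800000000 0x640000003c0000000e0000007e00000007 6 7) 0 0 (step_sound _ 98 [(rh24ae073cf30720c4.shift 2 3), rhb23ce12a4334daa8] (by decide +kernel))
noncomputable def rh9b210d4268a50c9a : CRef := CRef.mk (Pat.mk 0x3000000034000001000000007800000000 0x3e0000003600000187000000fe0000000f 6 9) 0 0 (step_sound _ 39 [(rh428265de8cd3cd2d.shift 4 1), rh607b5088031550bc] (by decide +kernel))
noncomputable def rh2917246e824fb13f : CRef := CRef.mk (Pat.mk 0x180000001c000000000000001c00000000 0x200000002000000070000001f0000001c000000070000001e00000006 6 5) 0 0 (step_sound _ 66 [rh4daf1f5057fd0538, (rh71222050f2c63a3a.shift 2 0)] (by decide +kernel))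
noncomputable def rhee79eae8ebe7f943 : CRef := CRef.mk (Pat.mk 0x10000000120000001a00000002000000040000000000000000 0x100000001a0000001a0000000a0000001f0000000f00000001 6 5) 0 0 (step_sound _ 65 [(rh55afc6a59410cf00.shift 1 1), rhb85fd6af28677b4f] (by decide +kernel))
noncomputable def rh9480a1de065ee4cc : CRef := CRef.mk (Pat.mk 0x2000000030000000600000000 0x400000007000000070000000300000003000000030000000600000004 6 3) 0 0 (step_sound _ 129 [(rh55afc6a59410cf00.shift 1 0), (rhd2ab22822575c27c.shift 0 1)] (by decide +kernel))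
noncomputable def rhe754dc2a454cf541 : CRef := CRef.mk (Pat.mk 0x2000000030000000200000000000000000000000000000000 0x10000000300000003000000030000000600000007000000070000000700000005 6 3) 0 0 (step_sound _ 97 [rh0a6888916bcef86b, (rh5192e84255fe3228.shift 0 1), (rh5c651669912fbab1.shift 0 1), (rh6eff4158bb400f47.shift 0 1), (rh7eb4a07d72ad7934.shift 0 2)] (by decide +kernel))
noncomputable def rh35b3e8f23ae0e21b : CRef := CRef.mk (Pat.mk 0x160000001300000012000000000000000000000000 0x4000000160000001b0000001e0000000f0000000900000008 6 5) 0 0 (step_sound _ 65 [(rh2f68792b6b779e96.shift 1 2), rhe8a1e39a5429e85b] (by decide +kernel))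
noncomputable def rhc4e7909b41f8cbd3 : CRef := CRef.mk (Pat.mk 0x120000000300000018000000000000000000000000 0x40000001f000000030000001e000000030000000300000001 6 5) 0 0 (step_sound _ 162 [(rh361cc68994bd8a63.shift 0 4), rh6288ca52aacb84a7] (by decide +kernel))
noncomputable def rh0139f4cea80ee4d7 : CRef := CRef.mk (Pat.mk 0x1000000000000000b000000080000000800000000 0x100000001c0000001f0000001c0000000f000000080000001800000010 6 5) 0 0 (step_sound _ 131 [(rh1da12c82c3218ac1.shift 0 1), (rh1efe470493b598b7.shift 0 1), (rh5c2604daa0330ae7.shift 2 0), (rhddcd04bb31546311.shift 0 1)] (by decide +kernel))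
noncomputable def rhd68fc815edb5ff5a : CRef := CRef.mk (Pat.mk 0xb0000000a0000000800000008000000000000000000000000 0xb0000001e0000000c000000180000001c0000001c00000004 6 5) 0 0 (step_sound _ 68 [rh685d99b57c08e367, (rhd3458b32566d63f7.shift 3 2)] (by decide +kernel))
noncomputable def rha15644caf9258d01 : CRef := CRef.mk (Pat.mk 0x1600000012000000120000000200000000 0x2800000038000000380000001e00000012000000320000003300000021 6 6) 0 0 (step_sound _ 32 [rh932754581e0f4330, (rhb47636cd7eaaed4f.shift 1 0)] (by decide +kernel))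
noncomputable def rh811c6c612ab2329f : CRef := CRef.mk (Pat.mk 0x120000001300000018000000000000000000000000 0x1000000130000001b0000001e0000000f0000000b00000008 6 5) 0 0 (step_sound _ 97 [(rh5419adcd928dba20.shift 0 3), rh6de1388fc1e3922b] (by decide +kernel))
noncomputable def rhb7eb54d18e708ba7 : CRef := CRef.mk (Pat.mk 0x8000000080000000b00000000000000010000000000000000 0x8000000080000000f0000001c0000001f0000001c00000010 6 5) 0 0 (step_sound _ 99 [(rh1af3d1b618cb15f5.shift 0 1), rh25b3cf3a604f4e4a, (rh5f11ee373cbffcaa.shift 0 2)] (by decide +kernel))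
noncomputable def rh241710870b8fdee6 : CRef := CRef.mk (Pat.mk 0x20000000300000012000000000000000000000000 0x3000000030000001e0000000f0000000700000005 6 5) 0 0 (step_sound _ 99 [(rh5419adcd928dba20.shift 0 3), rhd1b013162cd34f94] (by decide +kernel))
noncomputable def rhaaab1dc69d0042f3 : CRef := CRef.mk (Pat.mk 0x1000000010000000180000001c00000000 0xc0000001f0000007c000000180000001c00000004 6 7) 0 0 (step_sound _ 131 [(rh50fbb5868c909700.shift 3 1), rhcee1e6d04cd506ad] (by decide +kernel))
noncomputable def rh87a5821ce4bef39c : CRef := CRef.mk (Pat.mk 0x800000018000000180000000a00000000 0x40000000f0000003f0000001b0000000a00000002 6 6) 0 0 (step_sound _ 130 [rh36d1c55234fd2d57, (rh50fbb5868c909700.shift 2 1)] (by decide +kernel))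
noncomputable def rhf34241641beab060 : CRef := CRef.mk (Pat.mk 0x38000000100000003000000018 0x70000003e000000770000003e0000001e 6 7) 0 0 (step_sound _ 98 [(rh775ca1963e850b80.shift 0 2), (rh7b266c28d89d540a.shift 1 0), (rha03f6e28ea70fc7d.shift 1 2)] (by decide +kernel))
noncomputable def rh51603461bebb16fc : CRef := CRef.mk (Pat.mk 0x80000000e000000180000000c00000000 0x40000000f0000003e0000001b0000000f00000002 6 6) 0 0 (step_sound _ 130 [(rh50fbb5868c909700.shift 2 1), rh6a391396ab07a663] (by decide +kernel))
noncomputable def rhd71949b4d241b552 : CRef := CRef.mk (Pat.mk 0x8000000080000001800000008 0x140000001c0000001c000000180000007c0000001f0000001800000008 6 7) 0 0 (step_sound _ 131 [(rh44f453b84f013105.shift 3 0), rh452fa7d71c21e424, (rh73f605273a09a9d0.shift 3 1), (rhba97f7f4ade5e136.shift 2 1)] (by decide +kernel))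
noncomputable def rhd2ae83612e3f2da5 : CRef := CRef.mk (Pat.mk 0x2000000020000001200000003 0x1000000070000000700000006000000060000001e00000003 6 5) 0 0 (step_sound _ 34 [rh35c5f1c53251aa1b, rh361cc68994bd8a63] (by decide +kernel))
noncomputable def rh472dc02f70ab2ee3 : CRef := CRef.mk (Pat.mk 0xc000000180000000c00000000 0x400000004000000060000000f0000001e0000000f00000002 6 5) 0 0 (step_sound _ 33 [(rh53b3c253cb0c65f4.shift 0 1), rh94ba0a757810b193] (by decide +kernel))
noncomputable def rh481c9ab2c42732be : CRef := CRef.mk (Pat.mk 0x1e00000018000000000000000000000000 0x200000002000000070000001e0000001f000000070000000600000002 6 5) 0 0 (step_sound _ 97 [rh75a203849584b190, (rheb0810cc63b001d8.shift 0 3)] (by decide +kernel))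
noncomputable def rh1f64a4930c5bb5e6 : CRef := CRef.mk (Pat.mk 0x800000018000000180000001800000000 0x40000000c000000780000001f0000001f00000004 6 7) 0 0 (step_sound _ 34 [(rh661a595deb5c2d1b.shift 0 1), (rh932754581e0f4330.shift 2 0)] (by decide +kernel))
noncomputable def rha81f7feb9cc39e5b : CRef := CRef.mk (Pat.mk 0x100000003400000004000000000000000000000000 0xa0000000e0000000f0000001e00000036000000060000000e0000000e0000000a 6 6) 0 0 (step_sound _ 162 [(rh17fd614b617605e1.shift 0 2), (rh356c5c4886fa2593.shift 1 0), (rh5f452f890cbd7cd4.shift 1 1), (rh9b320d1cf11ff356.shift 1 0), (rhbe5703805fd7fa8f.shift 1 2), (rhcb7b4e79ea1cbd08.shift 1 0)] (by decide +kernel))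
noncomputable def rh06767c5de61b05a0 : CRef := CRef.mk (Pat.mk 0xe00000018000000180000001800000000 0xe0000003f0000001b0000001f00000006 6 6) 0 0 (step_sound _ 98 [rh11381261f960340f, (rhf48373e13d2bc128.shift 1 3)] (by decide +kernel))
noncomputable def rha0a1833ab06a3b66 : CRef := CRef.mk (Pat.mk 0xc00000018000000180000001800000000 0xf0000003c0000001c0000001f00000007 6 6) 0 0 (step_sound _ 129 [rh2a52c1abc4d0f2ff, (rhb739f4f82bb681b4.shift 0 3)] (by decide +kernel))
noncomputable def rh29c6f15395667f3f : CRef := CRef.mk (Pat.mk 0x600000018000000180000000000000000 0x60000003f0000001f0000000300000003 6 6) 0 0 (step_sound _ 98 [rh0da2e59bc176bb1b, (rhf48373e13d2bc128.shift 1 3)] (by decide +kernel))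
noncomputable def rh4d1041b6d5f8701f : CRef := CRef.mk (Pat.mk 0x10000000100000001000000018 0x2e000000ff0000003c0000001800000018 6 8) 0 0 (step_sound _ 101 [(rh2f68792b6b779e96.shift 4 0), rhae2458d910ee3ae7] (by decide +kernel))
noncomputable def rhf9b7e8752027f878 : CRef := CRef.mk (Pat.mk 0x200000002000000030000001000000000 0x100000007000000070000000600000003000000030000001e00000004 6 5) 0 0 (step_sound _ 33 [(rh42ab489a1be3958e.shift 0 1), rhf8edb192cdea7ada] (by decide +kernel))
noncomputable def rh5b3539ab434dd2ee : CRef := CRef.mk (Pat.mk 0x20000000200000003000000100000000000000000 0x6000000060000000700000003000000030000001e0000000f00000007 6 5) 0 0 (step_sound _ 65 [rh68980286cfabf004, rhcaa2c1a05e34bcba, (rhf8edb192cdea7ada.shift 0 1)] (by decide +kernel))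
noncomputable def rh46b6ced56a59dc85 : CRef := CRef.mk (Pat.mk 0x8000000080000000c00000040000000000000000000000000 0x140000003c0000000f0000000c000000780000001c0000001c00000004 6 7) 0 0 (step_sound _ 99 [(rh59c6c9d9132801ae.shift 0 2), (rhafd44d417107dbfd.shift 2 0), (rhf8edb192cdea7ada.shift 2 2)] (by decide +kernel))
noncomputable def rhc784ae48e2c4ae7e : CRef := CRef.mk (Pat.mk 0x8000000080000000c00000000 0x140000001c0000001c0000003c0000000f0000000c0000000c00000008 6 6) 0 0 (step_sound _ 131 [rh5ee4dc8825dcefa0, (rh9a369cb82ea472da.shift 2 1), (rhb77bfac3e9efecea.shift 2 1), (rhc85cc95794737cf7.shift 2 1), (rhe62cab2ff5ad6fe2.shift 2 1)] (by decide +kernel))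
noncomputable def rh8613c4d15736e5cc : CRef := CRef.mk (Pat.mk 0x110000001100000011000000010000000000000000 0x100000011000000190000001f0000000f0000000a00000008 6 5) 0 0 (step_sound _ 65 [(rh55afc6a59410cf00.shift 0 1), rhe7a7e420e57ba421] (by decide +kernel))
noncomputable def rha2bd60385bd8b158 : CRef := CRef.mk (Pat.mk 0x20000000600000002000000020000000000000000 0x300000003000000030000000600000006000000030000000300000003 6 3) 0 0 (step_sound _ 32 [rh6f80ed56fb94ab57, (rh79877ebd3ef475dd.shift 0 1)] (by decide +kernel))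
noncomputable def rhc30986a36c402b34 : CRef := CRef.mk (Pat.mk 0x2000000060000000200000002 0x400000006000000070000000300000007000000060000000600000002 6 3) 0 0 (step_sound _ 128 [(rhc5febebb7babee24.shift 0 1), rhffd04209dc8ea796] (by decide +kernel))
noncomputable def rhed4cbeae315c462a : CRef := CRef.mk (Pat.mk 0x40000000700000006000000000000000000000000 0x4000000070000003e0000003e0000000e0000000e 6 6) 0 0 (step_sound _ 66 [(rh1048063cb396e77a.shift 0 1), (rh53e41f96b2b88c97.shift 1 0), (rh820d4e04d5dcd02e.shift 1 0), (rh8cdd36b03d57a2f6.shift 1 0)] (by decide +kernel))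
noncomputable def rh96e69c52941aa1f0 : CRef := CRef.mk (Pat.mk 0x7000000020000000200000000000000000000000000000000 0x100000007000000060000000200000002000000070000000700000005 6 3) 0 0 (step_sound _ 97 [(rh50fbb5868c909700.shift 0 3), rhc94dfb5f501cb051] (by decide +kernel))
noncomputable def rh4f376cda3e556c0e : CRef := CRef.mk (Pat.mk 0x70000000200000001000000010 0xf0000007e0000003e0000001000000010 6 7) 0 0 (step_sound _ 99 [(rh592c7139d2c44767.shift 1 2), (rh8aa80d8d90d3223c.shift 0 2), (rhb84d4101fea63f8a.shift 1 0), (rhea1977e228a6d74a.shift 2 0)] (by decide +kernel))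
noncomputable def rh558945036cb7c9e7 : CRef := CRef.mk (Pat.mk 0x18000000d0000000180000001000000000 0x4000000070000007f000000df000000180000001000000010 6 8) 0 0 (step_sound _ 99 [(rh7b1f1fb55310c477.shift 3 0), (rha4e372968e1ad1d0.shift 0 2)] (by decide +kernel))
noncomputable def rh4fcd7886966ae5d1 : CRef := CRef.mk (Pat.mk 0x10000000180000001c000000100000000000000000 0x3200000032000000370000001f0000001c000000140000001400000010 6 6) 0 0 (step_sound _ 130 [(rh34517e326ddb5b25.shift 0 3), (rh386773c202715e57.shift 3 0), (rhdf91c04362b89133.shift 0 1)] (by decide +kernel))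
noncomputable def rh66bc4a5f9057bd80 : CRef := CRef.mk (Pat.mk 0x180000000300000006000000040000000000000000 0x18000000180000001b0000001e0000001c0000001800000010 6 5) 0 0 (step_sound _ 99 [(rha439a8634b776aa8.shift 2 0), (rhf48373e13d2bc128.shift 0 3)] (by decide +kernel))
noncomputable def rh7c9dc12249790b96 : CRef := CRef.mk (Pat.mk 0x10000000030000001000000002000000000000000000000000 0x1000000050000001f000000030000001e0000000f000000070000000700000005 6 5) 0 0 (step_sound _ 129 [rh56259dd1390eee46, (rh5fcef0471e9e6014.shift 0 2), (rhb1a251d9bff81766.shift 0 2)] (by decide +kernel))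
noncomputable def rh80aa5af20cbeb45b : CRef := CRef.mk (Pat.mk 0x180000000000000006000000070000000000000000 0x1800000018000000180000001e0000001f0000001800000010 6 5) 0 0 (step_sound _ 99 [(rh18965a982d73c794.shift 0 2), (rha439a8634b776aa8.shift 2 0)] (by decide +kernel))
noncomputable def rh50dc3b8792928b74 : CRef := CRef.mk (Pat.mk 0x30000001a000000030000000200000000 0x8000000080000001f0000001a000000130000001e00000014 6 5) 0 0 (step_sound _ 34 [(rh55afc6a59410cf00.shift 1 0), rh96c52f0dd04c065d] (by decide +kernel))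
noncomputable def rh12afe8ba4117ccce : CRef := CRef.mk (Pat.mk 0x200000002000000030000000200000000 0x400000007000000070000000300000003000000030000000600000004 6 3) 0 0 (step_sound _ 160 [rhcb1f65bfb8ab90b7, (rhffd04209dc8ea796.shift 0 1)] (by decide +kernel))
noncomputable def rhd910009bc0757f07 : CRef := CRef.mk (Pat.mk 0x20000001a000000030000000600000000 0x80000000c0000001f0000001a000000130000001e00000010 6 5) 0 0 (step_sound _ 130 [(rh2f68792b6b779e96.shift 1 1), rh47a878e73c9b99fb] (by decide +kernel))
noncomputable def rhad63047958e54ba7 : CRef := CRef.mk (Pat.mk 0x180000000200000012000000060000000100000000 0x8000000180000001a000000120000003e0000003300000021 6 6) 0 0 (step_sound _ 33 [rh932754581e0f4330, rha4cb5ea0f16d4208] (by decide +kernel))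
noncomputable def rh11b4de844050161c : CRef := CRef.mk (Pat.mk 0x100000001300000012000000020000000000000000 0x40000001e0000001b0000001e0000000f0000000900000008 6 5) 0 0 (step_sound _ 99 [(rh5419adcd928dba20.shift 0 3), rhaaf0e2206c1bbaa5] (by decide +kernel))
noncomputable def rhe26705136af96c38 : CRef := CRef.mk (Pat.mk 0x100000001300000012000000020000000000000000 0x40000001e0000001b0000001e0000000f0000000c00000008 6 5) 0 0 (step_sound _ 99 [rh48410b67ea4b661e, (rh5419adcd928dba20.shift 0 3)] (by decide +kernel))
noncomputable def rhdf7e09958d62cff9 : CRef := CRef.mk (Pat.mk 0x20000000260000003400000004000000000000000000000000 0x200000003600000036000000170000003e0000001e0000000a 6 6) 0 0 (step_sound _ 66 [(rh6eff4158bb400f47.shift 1 0), (rha613ffd40b6c9d24.shift 1 0), (rhbf1e57e3ece72e30.shift 0 1), (rhe4441baab75a6f73.shift 1 0)] (by decide +kernel))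
noncomputable def rh5d5da412512b5c20 : CRef := CRef.mk (Pat.mk 0x80000000c000000040000000400000000 0x2000000060000000e0000000c0000000f0000003e0000003a 6 6) 0 0 (step_sound _ 130 [rh42eeeaf8cbfaff8e, (rh5abfc4c9d959be03.shift 1 0), (rh771d065bdc85bf2d.shift 1 0)] (by decide +kernel))
noncomputable def rh7ba4f796140e476c : CRef := CRef.mk (Pat.mk 0x200000002600000026000000020000000000000000 0x30000000300000023000000360000003e0000001e0000001400000010 6 6) 0 0 (step_sound _ 100 [(rh5419adcd928dba20.shift 1 3), rh9879c1889b763495] (by decide +kernel))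
noncomputable def rh0a1fd909c95eb75e : CRef := CRef.mk (Pat.mk 0x8000000080000001800000000 0x140000003c0000000f000000080000001800000018 6 6) 0 0 (step_sound _ 131 [(rh55afc6a59410cf00.shift 3 0), rh5ee4dc8825dcefa0] (by decide +kernel))
noncomputable def rha8dab5843f085d4f : CRef := CRef.mk (Pat.mk 0x200000032000000060000000200000000 0x1d0000001f00000036000000060000000600000004 6 6) 0 0 (step_sound _ 130 [(rh2f68792b6b779e96.shift 1 1), rh59c7e6038592522c] (by decide +kernel))
noncomputable def rhb6c9e90117730448 : CRef := CRef.mk (Pat.mk 0x1000000018000000080000000800000000 0x40000000c0000001c000000180000007c000000ff00000034 6 8) 0 0 (step_sound _ 131 [(rh5abfc4c9d959be03.shift 2 0), (rh771d065bdc85bf2d.shift 2 0), rh7dfca775922f353b, (rhc4ec57a3756c3a6c.shift 2 0)] (by decide +kernel))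
noncomputable def rh80340a4db9fcc46d : CRef := CRef.mk (Pat.mk 0x40000000700000004000000000000000000000000 0x40000000400000004000000070000001f0000003e0000000e00000006 6 6) 0 0 (step_sound _ 97 [(rh121397a93ef3afd3.shift 0 2), (rh1e309b005ffa1b36.shift 1 1), rha72203318594aacf] (by decide +kernel))
noncomputable def rh5fe13ee34fb8fc7c : CRef := CRef.mk (Pat.mk 0x400000007000000040000000400000000 0x400000004000000070000001f0000003e0000000a 6 6) 0 0 (step_sound _ 33 [rh23e2369413be63c2, (rh932754581e0f4330.shift 1 0)] (by decide +kernel))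
noncomputable def rh30a7dac7a448b85d : CRef := CRef.mk (Pat.mk 0xc00000001800000018000000000000000000000000 0x80000000c8000000df000000ff000000c70000000400000004 6 8) 0 0 (step_sound _ 101 [(rh4322abf74e56b92e.shift 3 2), rhbb209563535988dc, (rhe2b63c00a3d7bb73.shift 1 3)] (by decide +kernel))
noncomputable def rh0862652dfa775836 : CRef := CRef.mk (Pat.mk 0x80000000c00000008000000040000000000000000 0xc0000000c000000080000001f0000007c00000010 6 7) 0 0 (step_sound _ 67 [rh6a7842d1b9fdbc66, (rh932754581e0f4330.shift 2 1)] (by decide +kernel))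
noncomputable def rh84cadcd2156b2a3e : CRef := CRef.mk (Pat.mk 0x400000000c0000000f000000000000000000000000 0x10000000780000000c0000000f0000001c0000000c0000000c 6 7) 0 0 (step_sound _ 67 [(rh93fa1e348e3c1468.shift 2 0), (rhe25b0a99195a5d59.shift 0 2)] (by decide +kernel))
noncomputable def rhc3487f4e6044d8e1 : CRef := CRef.mk (Pat.mk 0xa0000000e00000008000000000000000000000000 0x80000000a0000000e0000007c0000001f0000001400000010 6 7) 0 0 (step_sound _ 66 [(rha1462bde2c4a46d6.shift 1 0), (rhac4b4763407a46df.shift 0 1), (rhe7415e1dfa0355bf.shift 1 1), (rhf786b97f357859ff.shift 1 1)] (by decide +kernel))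
noncomputable def rhaa6851079b78433b : CRef := CRef.mk (Pat.mk 0xc0000001a0000000200000000 0x100000003000000030000001f0000001b0000000300000001 6 5) 0 0 (step_sound _ 97 [rh61ed4812ddb14cee, (rhb739f4f82bb681b4.shift 0 2)] (by decide +kernel))
noncomputable def rh144b706311123356 : CRef := CRef.mk (Pat.mk 0x180000000a000000080000000000000000 0x18000000180000000f0000007c0000001800000010 6 7) 0 0 (step_sound _ 98 [(rh53b3c253cb0c65f4.shift 0 3), (rhd1fd8cf6458d03f9.shift 1 0)] (by decide +kernel))
noncomputable def rh2222a27c490588f5 : CRef := CRef.mk (Pat.mk 0x6000000030000000200000000000000000000000000000000 0x400000006000000030000000300000003000000070000000700000004 6 3) 0 0 (step_sound _ 97 [(rh2f68792b6b779e96.shift 1 3), rh89cf5152879421f3] (by decide +kernel))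
noncomputable def rhb0e31650bf9fdb19 : CRef := CRef.mk (Pat.mk 0x880000001a00000018000000100000000000000000 0x24000000ff0000001b000000180000001c0000000c0000000c 6 8) 0 0 (step_sound _ 67 [(rh46530d756bdf8511.shift 2 0), (rh8ca74fa25325e393.shift 3 1), (rh91a545eb3be094e3.shift 2 0), (rheb140202705fca6a.shift 0 2)] (by decide +kernel))
noncomputable def rhcf9c32b1a248df2d : CRef := CRef.mk (Pat.mk 0x10000000130000001a00000000000000000000000000000000 0x1000000050000001f0000001b0000001a0000000f0000000f0000000f00000005 6 5) 0 0 (step_sound _ 97 [rh56259dd1390eee46, (rh8edb78d1f8c506a0.shift 0 2), (rhb1a251d9bff81766.shift 0 2), (rhe3a23512fa7472e8.shift 0 1)] (by decide +kernel))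
noncomputable def rha11eac2590da9e04 : CRef := CRef.mk (Pat.mk 0x20000000200000002000000020000000000000000 0x100000003000000030000000200000002000000070000000700000005 6 3) 0 0 (step_sound _ 192 [rhfdab1fbace7f67ad, (rhffd04209dc8ea796.shift 0 2)] (by decide +kernel))
noncomputable def rh31a24a1e778daf29 : CRef := CRef.mk (Pat.mk 0x20000000600000002000000020000000000000000 0x300000003000000030000000600000006000000030000000300000003 6 3) 0 0 (step_sound _ 192 [rh97d1b0758f72a81e, (rhffd04209dc8ea796.shift 0 2)] (by decide +kernel))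
noncomputable def rh85788be75b83f6c1 : CRef := CRef.mk (Pat.mk 0x10000000030000000200000002000000000000000000000000 0x40000001e000000030000000300000003000000070000000700000004 6 5) 0 0 (step_sound _ 193 [(rh04e571695666b5c1.shift 0 3), rh89cf5152879421f3] (by decide +kernel))
noncomputable def rhf90da4d5e8be4e0d : CRef := CRef.mk (Pat.mk 0x1a0000008e000000000000000000000000 0x8000000080000001b000000fe0000000e0000000400000004 6 8) 0 0 (step_sound _ 100 [(rh3244c3cc8379b070.shift 0 3), (rh4d075da104d1d80d.shift 1 0)] (by decide +kernel))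
noncomputable def rh7a6e0c81de4f203b : CRef := CRef.mk (Pat.mk 0x1a0000008a00000008000000000000000000000000 0x8000000080000001a000000ef0000007e000000370000000400000004 6 8) 0 0 (step_sound _ 98 [(rh488c9ffebf1f8cbb.shift 0 1), (rh4bc4e4c9d04f4699.shift 0 1), (rhae99bfc6b523e672.shift 1 0), (rhbc21ff68c0364fb0.shift 0 2)] (by decide +kernel))
noncomputable def rhd2139603ddb76634 : CRef := CRef.mk (Pat.mk 0x200000002600000026000000070000000000000000 0x20000000360000003e000000170000003c0000001c 6 6) 0 0 (step_sound _ 100 [(rh2a090be7cc26eac9.shift 1 0), (rh361cc68994bd8a63.shift 0 2)] (by decide +kernel))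
noncomputable def rh6bf252b59e461970 : CRef := CRef.mk (Pat.mk 0xc0000000f000000010000000000000000 0xc0000000f0000001f0000001e0000001c 6 5) 0 0 (step_sound _ 67 [rh72123796bae919d9, (rhe25b0a99195a5d59.shift 0 2)] (by decide +kernel))
noncomputable def rhbc6e779f94b51e64 : CRef := CRef.mk (Pat.mk 0xa0000001a000000000000000000000000 0x8000000080000000b0000003e0000000f0000000400000004 6 6) 0 0 (step_sound _ 98 [(rh3244c3cc8379b070.shift 0 3), rh9cf1eae2eabf38ec] (by decide +kernel))
noncomputable def rh4f374e984f0b8821 : CRef := CRef.mk (Pat.mk 0x8800000098000000d8000000100000000000000000 0x88000000d8000000d80000007c0000004f0000004c 6 8) 0 0 (step_sound _ 67 [(rh46530d756bdf8511.shift 2 0), rha6f802784adb25e2, (rhc4713ca36c943a51.shift 3 0)] (by decide +kernel))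
noncomputable def rh76f52380d0bc24e4 : CRef := CRef.mk (Pat.mk 0x400000000c0000001900000000000000000000000000000000 0x4000000140000007c0000000c0000001b0000001f0000001c0000001c00000014 6 7) 0 0 (step_sound _ 99 [(rh56259dd1390eee46.shift 2 0), (rh827ca88e9d7776ba.shift 2 1), (rhb1a251d9bff81766.shift 2 2), (rhde8b278b709ee203.shift 0 2)] (by decide +kernel))
noncomputable def rh67e2e356dd8d269d : CRef := CRef.mk (Pat.mk 0xc0000001c000000080000000000000000 0x80000000c0000001c0000000f0000003c0000001c 6 6) 0 0 (step_sound _ 35 [(rh7b1f1fb55310c477.shift 2 0), rhf3d11b058448e968] (by decide +kernel))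
noncomputable def rh6d4a71cc437835fc : CRef := CRef.mk (Pat.mk 0x1a0000000200000000 0x800000008000000380000001f0000003300000010 6 6) 0 0 (step_sound _ 66 [rh3bc20d0d8c73da06, (rheb0810cc63b001d8.shift 0 1)] (by decide +kernel))
noncomputable def rh4e731fe7f46f063c : CRef := CRef.mk (Pat.mk 0x8000000080000001c0000000c00000000 0x40000000c0000000c0000001c0000007f00000013 6 7) 0 0 (step_sound _ 36 [(rh55afc6a59410cf00.shift 3 0), rhc68b2c2a42ef0b11] (by decide +kernel))
noncomputable def rhc543f3ca5b322b2c : CRef := CRef.mk (Pat.mk 0x8000000080000000c00000000 0x140000001c0000003c0000000f0000000c0000000c00000008 6 6) 0 0 (step_sound _ 131 [(rh1ae8cb0b33fd1844.shift 2 1), rh5ee4dc8825dcefa0, (rhc85cc95794737cf7.shift 2 1), (rhe62cab2ff5ad6fe2.shift 2 1)] (by decide +kernel))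
noncomputable def rh049f1be540f6d415 : CRef := CRef.mk (Pat.mk 0x1a0000001e000000120000001800000000 0x4000000040000001e0000001e0000001a0000003f00000027 6 6) 0 0 (step_sound _ 5 [rhbada8856367645ac, (rhd3458b32566d63f7.shift 4 0)] (by decide +kernel))
noncomputable def rh429e0350fe767c28 : CRef := CRef.mk (Pat.mk 0x20000001a000000020000000000000000 0x50000000700000007000000070000003f0000001b000000030000000200000002 6 6) 0 0 (step_sound _ 161 [(rh08419cdab7183a22.shift 0 2), (rh1741680720c097b4.shift 0 2), rhb5e2811106eb513a, (rhcf95ed618a683c78.shift 0 1)] (by decide +kernel))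
noncomputable def rh8346a7f7bb2c6228 : CRef := CRef.mk (Pat.mk 0x200000002000000020000000200000000000000000000000000000000 0x20000000200000003000000030000000300000007000000070000000700000005 6 3) 0 0 (step_sound _ 97 [(rh5baa46239919fe38.shift 0 1), (rh6eff4158bb400f47.shift 0 1), (rh7928877f9bf74a91.shift 0 2), rhcbfd66965b1220a8] (by decide +kernel))
noncomputable def rhf1e6e4f24c964f4d : CRef := CRef.mk (Pat.mk 0x400000004000000340000002400000000 0x1a0000001f0000003e000000340000002600000002 6 6) 0 0 (step_sound _ 129 [(rh50fbb5868c909700.shift 1 1), rh9962625567047d0d] (by decide +kernel))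
noncomputable def rhc9bb7f1c7c5b38d7 : CRef := CRef.mk (Pat.mk 0x6000000040000001400000000000000000000000000000000 0x400000006000000060000001c0000000f0000000e0000000e0000000a 6 5) 0 0 (step_sound _ 98 [(rh15f443a9a462a99b.shift 0 2), (rha613ffd40b6c9d24.shift 1 1), (rhbba7d23481996066.shift 1 0), (rhe4441baab75a6f73.shift 1 1)] (by decide +kernel))
noncomputable def rhd6dfa91156a57f59 : CRef := CRef.mk (Pat.mk 0x6000000340000001400000000000000000000000000000000 0x6000000360000001e0000000f0000000e0000000e0000000a 6 6) 0 0 (step_sound _ 98 [(rh0fda8aa0520c2046.shift 0 2), (rha613ffd40b6c9d24.shift 1 1), (rhbba7d23481996066.shift 1 0), (rhe4441baab75a6f73.shift 1 1)] (by decide +kernel))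
noncomputable def rhf03fdbb9c2d91097 : CRef := CRef.mk (Pat.mk 0x10000000030000001a00000008000000000000000000000000 0x1000000050000001f000000030000001a0000000f000000070000000700000005 6 5) 0 0 (step_sound _ 97 [(rh3808b57c450de6fc.shift 0 2), rh56259dd1390eee46, (rha83b9947c4b91a20.shift 0 1), (rhb1a251d9bff81766.shift 0 2)] (by decide +kernel))
noncomputable def rh1f1f19069f618dac : CRef := CRef.mk (Pat.mk 0x1e00000002000000000000000000000000 0x400000006000000070000001e00000006000000070000000700000005 6 5) 0 0 (step_sound _ 161 [rh12ed8423659e7f19, (rh3244c3cc8379b070.shift 0 4)] (by decide +kernel))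
noncomputable def rh1ff9a3ead91e5897 : CRef := CRef.mk (Pat.mk 0x2000000020000000200000000000000000000000000000000 0x40000000600000007000000030000000700000007000000070000000700000005 6 3) 0 0 (step_sound _ 97 [(rh20966da26a1c2ae8.shift 0 2), (rh6eff4158bb400f47.shift 0 1), rhcbfd66965b1220a8, (rhced6d86d2069808b.shift 1 2)] (by decide +kernel))
noncomputable def rh9733564398b9b32f : CRef := CRef.mk (Pat.mk 0x1c00000008000000080000000c00000000 0x30000003f0000003f0000000c0000001c00000010 6 6) 0 0 (step_sound _ 36 [(rh55afc6a59410cf00.shift 3 0), (rh769c11a9f69cf74d.shift 0 1)] (by decide +kernel))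
noncomputable def rh481350de478e8d00 : CRef := CRef.mk (Pat.mk 0xc00000007000000030000000200000000 0x20000000a0000000e00000007000000070000001f0000000d 6 5) 0 0 (step_sound _ 129 [rh03dfdf12d5937476, rh0ff7ca71cb891e23, rh228c9e7411cf1f55] (by decide +kernel))
noncomputable def rhc60a0557d50c56bd : CRef := CRef.mk (Pat.mk 0x2000000060000000380000001c00000000 0x1f0000007c00000070000000380000003c00000068 6 7) 0 0 (step_sound _ 132 [(rh0767028e5e81ea83.shift 2 0), (rhb8fddd58ad9026ec.shift 3 0), (rhe50ee3e12503f9e2.shift 0 1), (rhfb0ed1b59f16e7bb.shift 2 0)] (by decide +kernel))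
noncomputable def rh271d1d4e89b457aa : CRef := CRef.mk (Pat.mk 0xc0000001e000000000000000200000000 0x80000000c0000001e000000380000001f0000001c 6 6) 0 0 (step_sound _ 68 [rh287fe7f02e8efeb2, (rhe25b0a99195a5d59.shift 1 2)] (by decide +kernel))
noncomputable def rh61bd16c918fa80c9 : CRef := CRef.mk (Pat.mk 0x40000000c0000000700000002000000000000000000000000 0x20000000e0000000e000000070000001e0000000c0000000c0000000c 6 5) 0 0 (step_sound _ 98 [(rh000637b5a81e86aa.shift 1 1), (rh42afa1af9fffa0e1.shift 0 2), (rhdd11e03a2f8b13b6.shift 1 0)] (by decide +kernel))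
noncomputable def rh7ad1c933821e6e1f : CRef := CRef.mk (Pat.mk 0x400000006000000020000000600000000 0x300000003000000030000000600000006000000030000000700000005 6 3) 0 0 (step_sound _ 129 [rh0ef6c71ce89c1c36, (rh55afc6a59410cf00.shift 1 0)] (by decide +kernel))
noncomputable def rh79db54c268929602 : CRef := CRef.mk (Pat.mk 0x80000000180000003a000000000000000000000000 0x20000000f8000000180000003e000000370000003000000030 6 8) 0 0 (step_sound _ 68 [(rh3cb04db3dd2b6a55.shift 3 0), (rh504e55626661b5b1.shift 3 0), (rhc4d60e5c12185eb6.shift 0 2)] (by decide +kernel))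
noncomputable def rh76046804b1f297d0 : CRef := CRef.mk (Pat.mk 0x1800000038000000000000000000000000 0xc0000000c0000001c000000180000003c0000000f0000000c00000008 6 6) 0 0 (step_sound _ 67 [(rhcab247afad26ba33.shift 0 1), (rhea7a1800d6f053bd.shift 3 0)] (by decide +kernel))
noncomputable def rh75c57c81660d74fc : CRef := CRef.mk (Pat.mk 0xc0000000c000000080000000800000000 0xc0000000c0000003f0000003f00000016 6 6) 0 0 (step_sound _ 34 [(rh932754581e0f4330.shift 2 0), rhdbe623a85527638a] (by decide +kernel))
noncomputable def rhc2689041e310c379 : CRef := CRef.mk (Pat.mk 0x80000008a0000001800000000 0x800000008000000eb0000007e00000077 6 8) 0 0 (step_sound _ 34 [(rh969492b52b32ccec.shift 1 0), rhd9019e070e902b32, (rhde10baa3043a2b46.shift 2 0), rhf0f8f775961e9a33] (by decide +kernel))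
noncomputable def rhfcbb194b8c53153b : CRef := CRef.mk (Pat.mk 0x180000000800000008000000000000000000000000 0x800000018000000180000000f0000003c0000001c00000014 6 6) 0 0 (step_sound _ 67 [(rh641b5241be04eec6.shift 0 1), (rh8c3839f9b9075f23.shift 3 0), (rha8bc3cae4d77a08f.shift 2 0)] (by decide +kernel))
noncomputable def rhe7f98dc58576bb41 : CRef := CRef.mk (Pat.mk 0x88000000180000001c000000100000000000000000 0x20000000f8000000180000001c0000007c0000002f0000000c 6 8) 0 0 (step_sound _ 67 [(rh8c14fac0d659668c.shift 2 1), rha6f802784adb25e2, (rhea7a1800d6f053bd.shift 3 0)] (by decide +kernel))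
noncomputable def rh3a5d716997a41475 : CRef := CRef.mk (Pat.mk 0x440000000c000000090000000000000000 0x100000007c0000000c0000000f0000001e0000001c 6 7) 0 0 (step_sound _ 35 [(rh7b1f1fb55310c477.shift 2 0), rhcff43d2ab56ffd42] (by decide +kernel))
noncomputable def rhfd23c58942077369 : CRef := CRef.mk (Pat.mk 0x80000000a0000000a00000002000000000000000000000000 0x40000000e0000000e0000000a0000000a000000070000000700000005 6 4) 0 0 (step_sound _ 194 [(rh5071b66f3b4bdab7.shift 1 3), rh984bfc6de6c2c524] (by decide +kernel))
noncomputable def rh998d2ca6dcb05b03 : CRef := CRef.mk (Pat.mk 0x180000001a00000012000000100000000000000000 0x20000001f0000001b0000001e000000360000002400000004 6 6) 0 0 (step_sound _ 69 [(rh55afc6a59410cf00.shift 4 1), rhfa443fa422c23000] (by decide +kernel))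
noncomputable def rh79c450e3576a9778 : CRef := CRef.mk (Pat.mk 0x1a0000009a000000000000000000000000 0x8000000080000001b000000fe0000000e0000000400000004 6 8) 0 0 (step_sound _ 98 [(rh3244c3cc8379b070.shift 0 3), (rh4d075da104d1d80d.shift 1 0)] (by decide +kernel))
noncomputable def rhd5d1ae909a3b519c : CRef := CRef.mk (Pat.mk 0x20000000e0000001a000000000000000000000000 0x400000004000000060000000e0000000e0000001a0000000f0000000f00000005 6 5) 0 0 (step_sound _ 162 [rh1b9022be4f7af407, (rh215e11e099257d75.shift 1 2), (rha40d42a2e34c408d.shift 2 1), (rhcb13d5eb0d34c64c.shift 0 1)] (by decide +kernel))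
noncomputable def rh4b89a18dc1079b2f : CRef := CRef.mk (Pat.mk 0x1a0000009200000002000000000000000000000000 0x50000000f0000001b000000f200000003000000070000000700000005 6 8) 0 0 (step_sound _ 134 [rh35967058101b1e1c, (rh5419adcd928dba20.shift 3 4)] (by decide +kernel))
noncomputable def rh3b7aca60d2453a5e : CRef := CRef.mk (Pat.mk 0x3000000120000000200000002000000000000000000000000 0x30000001e0000000600000003000000070000000700000004 6 5) 0 0 (step_sound _ 162 [(rh2fe78cc5ca4405d8.shift 0 5), rh8a1bd34420cccc7f] (by decide +kernel))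
noncomputable def rh23516dd37aa1909b : CRef := CRef.mk (Pat.mk 0x1800000018000000020000000000000000 0xc0000000c0000001c00000018000000180000000f0000000c00000008 6 5) 0 0 (step_sound _ 67 [(rh552e50e5cab5e814.shift 0 1), (rhea7a1800d6f053bd.shift 3 0)] (by decide +kernel))
noncomputable def rh201eba6008f46d7e : CRef := CRef.mk (Pat.mk 0x2000000020000000200000002000000020000000000000000 0x10000000300000003000000020000000200000002000000070000000700000005 6 3) 0 0 (step_sound _ 224 [rhfe4a8670fdff8a5f, (rhffd04209dc8ea796.shift 0 3)] (by decide +kernel))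
noncomputable def rh10a2242b8608ecb8 : CRef := CRef.mk (Pat.mk 0x1a0000009200000002000000000000000000000000 0x120000001a000000fe0000000f0000000b0000000900000001 6 8) 0 0 (step_sound _ 134 [(rh5419adcd928dba20.shift 3 4), rh6fc706adb2aaec4b] (by decide +kernel))
noncomputable def rhd2f0a6b2fd9c671a : CRef := CRef.mk (Pat.mk 0x800000008000000080000001a00000000 0x40000000c0000000e0000000f0000001e00000007 6 5) 0 0 (step_sound _ 34 [rh8a475bde9860f00f, (rh932754581e0f4330.shift 2 0)] (by decide +kernel))
noncomputable def rha95c4cab8259f6d6 : CRef := CRef.mk (Pat.mk 0x80000001a0000001e000000000000000000000000 0x60000001f0000001a0000001e0000001c0000001c00000008 6 5) 0 0 (step_sound _ 68 [(rh7b1f1fb55310c477.shift 3 1), rh7f7aac5d675db3db] (by decide +kernel))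
noncomputable def rh5fce075ec5093e13 : CRef := CRef.mk (Pat.mk 0x80000001a0000001e00000000000000000000000000000000 0x60000001f0000001a0000001e0000000c0000001c0000001c00000014 6 5) 0 0 (step_sound _ 99 [(rh1b9022be4f7af407.shift 2 0), (rh46530d756bdf8511.shift 2 1), (rhd664060a7978cce7.shift 0 2), (rhea7a1800d6f053bd.shift 3 1)] (by decide +kernel))
noncomputable def rh62afa7ee1e580440 : CRef := CRef.mk (Pat.mk 0x8000000180000001e000000000000000000000000 0x30000001f0000001b0000001e0000000f0000000c0000000c 6 5) 0 0 (step_sound _ 65 [rh34dc86014f46ad4d, (rheb0810cc63b001d8.shift 0 2)] (by decide +kernel))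
noncomputable def rhda1ad26c7481a7b4 : CRef := CRef.mk (Pat.mk 0x200000006000000040000000000000000 0x3000000030000000300000006000000070000000700000001 6 3) 0 0 (step_sound _ 161 [(rh2145e1d24b96a57e.shift 1 2), rha822df604b29e217] (by decide +kernel))
noncomputable def rhbd0661dbbdc968c1 : CRef := CRef.mk (Pat.mk 0x30000000140000000c000000180000000000000000 0x2400000034000000140000001f0000001f0000000200000002 6 6) 0 0 (step_sound _ 97 [rh50d67ce69c8914bc, (rhb739f4f82bb681b4.shift 0 2)] (by decide +kernel))
noncomputable def rha6cb224376ae8b6f : CRef := CRef.mk (Pat.mk 0x8000000180000001e000000040000000000000000 0x60000001f0000001b0000001e0000000c0000000800000008 6 5) 0 0 (step_sound _ 129 [(rh3244c3cc8379b070.shift 0 3), rh333ce09d487c5288] (by decide +kernel))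
noncomputable def rha8b850d4880c032d : CRef := CRef.mk (Pat.mk 0x180000001e000000020000000000000000 0xe0000000f0000001b0000001e0000000e0000000400000004 6 5) 0 0 (step_sound _ 129 [(rh3244c3cc8379b070.shift 0 3), rh3d5fda01adc2effe] (by decide +kernel))
noncomputable def rh3b297bacc1df5b7e : CRef := CRef.mk (Pat.mk 0x180000001e00000002 0xb0000000f0000001b0000003e00000006 6 6) 0 0 (step_sound _ 2 [(rh18965a982d73c794.shift 1 0), rh61580cdf1880c62d] (by decide +kernel))
noncomputable def rh6fe0bce197c5095f : CRef := CRef.mk (Pat.mk 0x180000000a0000000800000000000000000000000000000000 0x800000018000000180000000f0000000c0000000c0000000c0000000c00000004 6 5) 0 0 (step_sound _ 162 [(rh53b3c253cb0c65f4.shift 0 5), (rhec34db23bd854706.shift 2 0)] (by decide +kernel))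
noncomputable def rhbf56a814e1b9a1e0 : CRef := CRef.mk (Pat.mk 0x8a0000000c00000000 0xef0000007e00000077 6 8) 0 0 (step_sound _ 36 [(rh508d31626b5d2be8.shift 0 1), (rh54c49bb299227e8d.shift 0 1), rh76259dc848ce737c, rhf0f8f775961e9a33] (by decide +kernel))
noncomputable def rha387558d73ddee7e : CRef := CRef.mk (Pat.mk 0x1000000030000000140000003800000000 0x80000001e00000034000000160000003e00000007 6 6) 0 0 (step_sound _ 34 [rh211b9f24729a4651, (rh3244c3cc8379b070.shift 1 1)] (by decide +kernel))
noncomputable def rh54204b8f3766698a : CRef := CRef.mk (Pat.mk 0x8000000180000001e00000000 0xc0000000c0000000f0000001b0000001e0000000a 6 5) 0 0 (step_sound _ 131 [(rh2145e1d24b96a57e.shift 3 1), rhb2fcc7beba62e5a5] (by decide +kernel))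
noncomputable def rh0980dd66f9b90b69 : CRef := CRef.mk (Pat.mk 0xc00000008000000000000001e00000000 0x10000000f0000001f000000030000001e00000003 6 5) 0 0 (step_sound _ 1 [rh4131384d1d229643, rheb0810cc63b001d8] (by decide +kernel))
noncomputable def rhe51eccc88ff67898 : CRef := CRef.mk (Pat.mk 0x120000003200000002000000000000000000000000 0x50000001f0000003300000002000000030000000300000001 6 6) 0 0 (step_sound _ 162 [(rhc10214bf3fe8094a.shift 1 4), rhd8480aedf4075c15] (by decide +kernel))
noncomputable def rhed94654d85b00a8c : CRef := CRef.mk (Pat.mk 0x120000003200000002000000000000000000000000 0x40000001e0000003200000002000000070000000700000005 6 6) 0 0 (step_sound _ 162 [rh1b9022be4f7af407, (rhc10214bf3fe8094a.shift 1 4)] (by decide +kernel))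
noncomputable def rhc09d0d2956dbf536 : CRef := CRef.mk (Pat.mk 0x3000000060000000200000000000000000000000000000000 0x100000007000000060000000200000002000000070000000700000005 6 3) 0 0 (step_sound _ 97 [rh1b9022be4f7af407, (rh50fbb5868c909700.shift 0 3)] (by decide +kernel))
noncomputable def rhdeaf3e72edc594f6 : CRef := CRef.mk (Pat.mk 0x200000002000000060000000200000000000000000000000000000000 0x200000006000000060000000600000006000000070000000700000005 6 3) 0 0 (step_sound _ 97 [rh1b9022be4f7af407, (rh3820f35d5e705bec.shift 1 0), (rhb1fd7ebb07efd631.shift 1 1), (rhd29a1fb688eae70f.shift 1 2)] (by decide +kernel))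
noncomputable def rh9c074fdba4c4eae4 : CRef := CRef.mk (Pat.mk 0x20000000600000026000000000000000000000000 0x30000000300000007000000060000003e000000020000000200000002 6 6) 0 0 (step_sound _ 99 [(rh2fe78cc5ca4405d8.shift 1 3), rhf7c77fe48087fd5b] (by decide +kernel))
noncomputable def rh7e1ad8cc199b7a39 : CRef := CRef.mk (Pat.mk 0x1a00000007000000000000000000000000 0x70000000f0000001a00000007000000070000000700000005 6 5) 0 0 (step_sound _ 161 [rh281c6819542c66e6, (rh70e33bfdf511e144.shift 1 0), rhb9a02b14ad2280dd, (rhde10baa3043a2b46.shift 0 2)] (by decide +kernel))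
noncomputable def rh777dd4b4667f225f : CRef := CRef.mk (Pat.mk 0xc000000080000000800000000000000000000000000000000 0x80000000c0000000c0000000f0000003c0000001c0000001c00000014 6 6) 0 0 (step_sound _ 99 [(rh641b5241be04eec6.shift 0 2), (rh8cdd36b03d57a2f6.shift 2 1), (rha613ffd40b6c9d24.shift 2 1), (rhc05d451ce3dd5e48.shift 2 0), (rhe4441baab75a6f73.shift 2 1)] (by decide +kernel))
noncomputable def rhb781b7d4512f8b10 : CRef := CRef.mk (Pat.mk 0x100000011000000110000001100000000 0x80000000a0000000f0000001f000000190000001100000001 6 5) 0 0 (step_sound _ 129 [(rh2f68792b6b779e96.shift 0 1), rh37ebee5daa3a4ed9] (by decide +kernel))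
noncomputable def rh52d0d964087343a6 : CRef := CRef.mk (Pat.mk 0x20000000200000006000000020000000000000000 0x300000003000000030000000600000006000000030000000300000003 6 3) 0 0 (step_sound _ 192 [rh857671a640d94bec, (rhffd04209dc8ea796.shift 0 2)] (by decide +kernel))
noncomputable def rh8c6a35ea2bc2943b : CRef := CRef.mk (Pat.mk 0x200000002000000060000000200000000000000000000000000000000 0x200000006000000060000000700000003000000070000000600000004 6 3) 0 0 (step_sound _ 96 [(rh79877ebd3ef475dd.shift 0 3), rhdaf42ef4e57613f8] (by decide +kernel))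
noncomputable def rh84650794c4a98b20 : CRef := CRef.mk (Pat.mk 0x60000000700000004 0xe0000000e0000003e0000003e0000000700000004 6 6) 0 0 (step_sound _ 98 [(rh5fa50b509d4ce753.shift 1 0), (rh7f9f3607ee25a93b.shift 1 0), rha83e7d29d1c20489, (rhc85cc95794737cf7.shift 1 0)] (by decide +kernel))
noncomputable def rh6f7a4f8f6bfef3bf : CRef := CRef.mk (Pat.mk 0x2000000020000000700000000 0x500000007000000070000000200000002000000060000000700000001 6 3) 0 0 (step_sound _ 129 [rh932754581e0f4330, (rhba97f7f4ade5e136.shift 0 1)] (by decide +kernel))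
noncomputable def rh941d1b589138751e : CRef := CRef.mk (Pat.mk 0x1000000010000000200000007000000000 0x10000000100000003e0000007e0000000f 6 7) 0 0 (step_sound _ 35 [(rh316d0c7c5292e4bb.shift 2 0), (rh42dffdfbdd7e3e3a.shift 1 0), rh5b2ce1e5aa4a4edd, (rh775ca1963e850b80.shift 1 0)] (by decide +kernel))
noncomputable def rh3a97b194835b81db : CRef := CRef.mk (Pat.mk 0x1000000018000000d0000000180000000000000000 0x100000001000000018000000df0000007f0000000700000004 6 8) 0 0 (step_sound _ 99 [(rh5c5e593799055d58.shift 3 2), rh77baf8721b75ba21] (by decide +kernel))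
noncomputable def rh3b0ee9e32b5d689f : CRef := CRef.mk (Pat.mk 0x100000001c00000018000000100000000000000000 0x1000000014000000140000001c0000001f000000370000003200000032 6 6) 0 0 (step_sound _ 98 [rhad48fcc809438143, (rhcb7ad7b81770003a.shift 3 0), (rhf56e6bc5d2f7fe77.shift 0 2)] (by decide +kernel))
noncomputable def rh79e618d7c9f70fdf : CRef := CRef.mk (Pat.mk 0x400000006000000030000001800000000 0x10000000180000001c0000001e0000001b0000001800000018 6 5) 0 0 (step_sound _ 99 [(rh18965a982d73c794.shift 0 2), (rhe8d2c0cbd900e2b3.shift 2 0)] (by decide +kernel))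
noncomputable def rhe2f17fec58496afd : CRef := CRef.mk (Pat.mk 0x20000001000000003000000100000000000000000 0x500000007000000070000000f0000001e000000030000001f0000000500000001 6 5) 0 0 (step_sound _ 129 [rh281c6819542c66e6, (rh68a777751bfeafdf.shift 0 2), (rhc90a4a3d68552525.shift 0 1)] (by decide +kernel))
noncomputable def rhdf7605f66559cd8d : CRef := CRef.mk (Pat.mk 0x700000006000000000000001800000000 0x10000000180000001f0000001e000000180000001800000018 6 5) 0 0 (step_sound _ 99 [(rhe8d2c0cbd900e2b3.shift 2 0), (rhf48373e13d2bc128.shift 0 3)] (by decide +kernel))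
noncomputable def rha726b0047bc52e5b : CRef := CRef.mk (Pat.mk 0x2000000030000001a000000030000000000000000 0x140000001e000000130000001a0000001f0000000800000008 6 5) 0 0 (step_sound _ 162 [rh2d2b676a16ddb204, (rh2f68792b6b779e96.shift 1 2)] (by decide +kernel))
noncomputable def rh32218586537ba4bc : CRef := CRef.mk (Pat.mk 0x2000000030000000200000002000000000000000000000000 0x400000006000000030000000300000003000000070000000700000004 6 3) 0 0 (step_sound _ 64 [rh388f6e448205f304, (rh79877ebd3ef475dd.shift 0 2)] (by decide +kernel))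
noncomputable def rhaa9ed1f93c8abb1d : CRef := CRef.mk (Pat.mk 0x6000000030000001a000000020000000000000000 0x100000001e000000130000001a0000001f0000000c00000008 6 5) 0 0 (step_sound _ 66 [(rh55afc6a59410cf00.shift 1 1), rhfc3182ea1e8950f2] (by decide +kernel))
noncomputable def rh3847b328c7136588 : CRef := CRef.mk (Pat.mk 0x10000000600000012000000020000001800000000 0x21000000330000003e000000120000001a0000001800000008 6 6) 0 0 (step_sound _ 161 [rh4aeea1a4f1d6f674, (rh50fbb5868c909700.shift 0 2)] (by decide +kernel))
noncomputable def rh2436336ef7364037 : CRef := CRef.mk (Pat.mk 0x200000012000000130000001000000000 0x8000000090000000f0000001e0000001b0000001e00000004 6 5) 0 0 (step_sound _ 99 [rh212f526f336186b2, (rhb2a0b9ccfb5cecd5.shift 0 2)] (by decide +kernel))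
noncomputable def rh4ff3fe580a147f22 : CRef := CRef.mk (Pat.mk 0x200000012000000130000001000000000 0x80000000c0000000f0000001e0000001b0000001e00000004 6 5) 0 0 (step_sound _ 99 [(rhb2a0b9ccfb5cecd5.shift 0 2), rhcbba4376e303d662] (by decide +kernel))
noncomputable def rh2b6eea9ed34d6f16 : CRef := CRef.mk (Pat.mk 0x4000000340000002600000020 0xa0000001e0000003e00000017000000360000003600000020 6 6) 0 0 (step_sound _ 130 [(rh1741680720c097b4.shift 1 1), (rh9a369cb82ea472da.shift 1 1), rha38c5c11d985b66b, (rhe62cab2ff5ad6fe2.shift 1 1)] (by decide +kernel))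
noncomputable def rh8c3dfb2c06c83e7f : CRef := CRef.mk (Pat.mk 0x4000000040000000c000000080000000000000000 0x3a0000003e0000000f0000000c0000000e0000000600000002 6 6) 0 0 (step_sound _ 66 [(rhc4526fc8abf298b6.shift 1 0), (rhcab3157f7bdcba3e.shift 1 0), (rhd49a209860dedbee.shift 0 2)] (by decide +kernel))
noncomputable def rh766e58797038ea86 : CRef := CRef.mk (Pat.mk 0x20000002600000026000000200000000000000000 0x10000000140000001e0000003e00000036000000230000000300000003 6 6) 0 0 (step_sound _ 132 [rh59e45f966923f969, (rhb2a0b9ccfb5cecd5.shift 1 3)] (by decide +kernel))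
noncomputable def rhe4a6641c5223c44d : CRef := CRef.mk (Pat.mk 0x30000000300000001000000010 0xf0000003e000000770000001000000010 6 7) 0 0 (step_sound _ 99 [(rh50fbb5868c909700.shift 3 0), (rhc92c11e8da6c894f.shift 0 2)] (by decide +kernel))
noncomputable def rhadf1fabc6fd6cde1 : CRef := CRef.mk (Pat.mk 0x400000002000000060000000200000000000000000000000000000000 0x400000006000000060000000600000003000000070000000700000004 6 3) 0 0 (step_sound _ 97 [rh8a1bd34420cccc7f, (rhbaefcd01e0a8bca3.shift 1 3)] (by decide +kernel))
noncomputable def rhe0cbc6fe9ebbddec : CRef := CRef.mk (Pat.mk 0x1800000008000000080000000000000000 0x1800000018000000080000000f0000003c00000014 6 6) 0 0 (step_sound _ 35 [(rh2f68792b6b779e96.shift 3 1), rh641b5241be04eec6] (by decide +kernel))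
noncomputable def rh8f5b4007d3d3476f : CRef := CRef.mk (Pat.mk 0x200000006000000320000000200000000 0x40000000600000006000000360000001f0000001d 6 6) 0 0 (step_sound _ 34 [(rh55afc6a59410cf00.shift 1 0), rhad2a4fefe120cb2b] (by decide +kernel))
noncomputable def rhcdc0e4c2d2002139 : CRef := CRef.mk (Pat.mk 0x80000000800000018000000100000000000000000 0x34000000ff0000007c000000180000001c0000000c00000004 6 8) 0 0 (step_sound _ 67 [(rh290dfe94a41ae790.shift 0 2), (rh373b7625e672cfd8.shift 2 1), (rhc4526fc8abf298b6.shift 2 0), (rhcab3157f7bdcba3e.shift 2 0)] (by decide +kernel))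
noncomputable def rhc66886b1af313c08 : CRef := CRef.mk (Pat.mk 0x400000007000000040000000000000000 0x60000000e0000003e0000001f00000007000000040000000400000004 6 6) 0 0 (step_sound _ 129 [rh4e448da1f2ebc7c7, (rh8058c211c658cc68.shift 0 2), (rhfc7c29d8e65d775f.shift 1 1)] (by decide +kernel))
noncomputable def rh1f9ff3f8f341816d : CRef := CRef.mk (Pat.mk 0x400000004000000070000000400000000 0xa0000003e0000001f000000070000000400000004 6 6) 0 0 (step_sound _ 129 [rh0e1ef73d290b0962, (rh50fbb5868c909700.shift 1 1)] (by decide +kernel))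
noncomputable def rh8ac9fd4904437e8c : CRef := CRef.mk (Pat.mk 0x1800000018000000c000000000 0x400000004000000c7000000ff000000df000000c800000080 6 8) 0 0 (step_sound _ 101 [(rh006cf4540163ec52.shift 3 0), (rh4dc133ee0ba1420a.shift 1 2), (rha92a316f980eef78.shift 0 1)] (by decide +kernel))
noncomputable def rh0f46d994b415db7f : CRef := CRef.mk (Pat.mk 0xf0000000c0000004000000000 0xc0000000c0000001c0000000f0000000c0000007800000010 6 7) 0 0 (step_sound _ 131 [(rh1e358bb15332430b.shift 2 0), (rh33e738c4ed385b9f.shift 0 3)] (by decide +kernel))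
noncomputable def rheb9366e5f6286541 : CRef := CRef.mk (Pat.mk 0x80000000e0000000a00000000 0x10000000140000001f0000007c0000000e0000000a00000008 6 7) 0 0 (step_sound _ 130 [(rh2f33d1d0bcfdca52.shift 1 0), (rh3b86b71807c2e412.shift 1 0), rha5dc83e34999ae02, (rhc4af64a72b206bd6.shift 1 1)] (by decide +kernel))
noncomputable def rh29e6c55c7fc32b32 : CRef := CRef.mk (Pat.mk 0x20000001a0000000c000000000000000000000000 0x1000000030000001b0000001f000000030000000300000001 6 5) 0 0 (step_sound _ 97 [rh01e2de5d84698d24, (rh53b3c253cb0c65f4.shift 0 3)] (by decide +kernel))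
noncomputable def rhc79d8e4c006bb434 : CRef := CRef.mk (Pat.mk 0x80000000a0000001800000000 0x10000000180000007c0000000f0000001800000018 6 7) 0 0 (step_sound _ 66 [(rhb663fcb7c55b19f9.shift 1 0), (rhb739f4f82bb681b4.shift 0 1)] (by decide +kernel))
noncomputable def rhc28deca3165f2c8d : CRef := CRef.mk (Pat.mk 0x2000000030000000600000000 0x400000007000000070000000300000003000000030000000600000004 6 3) 0 0 (step_sound _ 129 [(rh55afc6a59410cf00.shift 1 0), (rh69f0587a21bb077f.shift 0 1)] (by decide +kernel))
noncomputable def rhd740432bdfa71092 : CRef := CRef.mk (Pat.mk 0x10000000180000001a0000008800000000 0xc0000000c0000001c000000180000001b000000ff00000024 6 8) 0 0 (step_sound _ 131 [(rh3da62da861143b9a.shift 2 1), rh669a44fafa146886, (rh7b9fbdf6d2d059e4.shift 2 1), (rhb7ec845def264386.shift 3 0)] (by decide +kernel))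
noncomputable def rh5e25176760049698 : CRef := CRef.mk (Pat.mk 0x1a00000013000000100000000000000000 0x50000000f0000000f0000000f0000001a0000001b0000001f0000000500000001 6 5) 0 0 (step_sound _ 161 [rh281c6819542c66e6, (rh68a777751bfeafdf.shift 0 2), (rh9f841c13ae1bbde2.shift 0 1), (rha27369f7683626ea.shift 0 1)] (by decide +kernel))
noncomputable def rhb106de594f87c71e : CRef := CRef.mk (Pat.mk 0x20000000200000002000000020000000000000000 0x500000007000000070000000200000002000000030000000300000001 6 3) 0 0 (step_sound _ 32 [(rh79877ebd3ef475dd.shift 0 1), rhe18b4ffb6bab0e62] (by decide +kernel))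
noncomputable def rh0d81611e63343d94 : CRef := CRef.mk (Pat.mk 0x20000000200000006000000020000000000000000 0x300000003000000030000000600000006000000030000000300000003 6 3) 0 0 (step_sound _ 32 [rh6448b1f5f279f95e, (rh79877ebd3ef475dd.shift 0 1)] (by decide +kernel))
noncomputable def rh3307a5c61af0074c : CRef := CRef.mk (Pat.mk 0x200000002000000030000001000000000 0x400000007000000070000000300000003000000030000001e00000004 6 5) 0 0 (step_sound _ 33 [(rh69f0587a21bb077f.shift 0 1), rhf8edb192cdea7ada] (by decide +kernel))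
noncomputable def rhe6f05702474da38c : CRef := CRef.mk (Pat.mk 0x20000000f000000000 0x6f000000fe0000001f 6 8) 0 0 (step_sound _ 35 [(rh592c7139d2c44767.shift 1 0), rha4e887c2a2a0f60b, (rheae1728ff4a56756.shift 2 0), (rhedf6b6c69a16cbd5.shift 1 1)] (by decide +kernel))
noncomputable def rheeed1b921dc8de8b : CRef := CRef.mk (Pat.mk 0x8e0000001a0000000000000000 0x4000000040000000e000000fe0000001b0000000800000008 6 8) 0 0 (step_sound _ 100 [(rh1134327336d3a48e.shift 1 0), (rheb0810cc63b001d8.shift 0 2)] (by decide +kernel))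
noncomputable def rh32d0de3ae41474de : CRef := CRef.mk (Pat.mk 0x80000008a0000001a0000000000000000 0x400000004000000370000007e000000ef0000001a0000000800000008 6 8) 0 0 (step_sound _ 130 [(rh0ad651fa2bc3ff07.shift 0 1), (rh3ac9e51cb0e94fa3.shift 1 1), rh697471ba25650f84, (rhf4133b70aedb839d.shift 0 2)] (by decide +kernel))
noncomputable def rh9dc503b9f33e7cb5 : CRef := CRef.mk (Pat.mk 0x7000000260000002600000020 0x1c0000003c000000170000003e0000003600000020 6 6) 0 0 (step_sound _ 68 [(rh2fe78cc5ca4405d8.shift 0 2), (rh6172318484dfaeef.shift 1 0)] (by decide +kernel))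
noncomputable def rh9fe4732cc86e61b3 : CRef := CRef.mk (Pat.mk 0x10000000f0000000c 0x1c0000001e0000001f0000000f0000000c 6 5) 0 0 (step_sound _ 67 [(rh33e738c4ed385b9f.shift 0 1), rhbf1cba0a2c5b3fc1] (by decide +kernel))
noncomputable def rh0891dfdb1cc63347 : CRef := CRef.mk (Pat.mk 0x1a0000000a0000000000000000 0x4000000040000000f0000003e0000000b0000000800000008 6 6) 0 0 (step_sound _ 98 [rh0d07b10926dcd0c2, (rheb0810cc63b001d8.shift 0 2)] (by decide +kernel))
noncomputable def rhacc6e926719af5f7 : CRef := CRef.mk (Pat.mk 0x10000000d80000009800000088 0x4c0000004f0000007c000000d8000000d800000088 6 8) 0 0 (step_sound _ 99 [(rh01ff8e29f1e0af53.shift 0 1), (rh23625f181fa295a9.shift 3 0), (rh7b9fbdf6d2d059e4.shift 2 0)] (by decide +kernel))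
noncomputable def rh84e189f47391ec82 : CRef := CRef.mk (Pat.mk 0x190000000c000000400000000000000000 0x140000001c0000001c0000001f0000001b0000000c0000007c0000001400000004 6 7) 0 0 (step_sound _ 163 [(rh126cf590a5219cd4.shift 2 1), (rh281c6819542c66e6.shift 2 0), (rh68a777751bfeafdf.shift 2 2), (rhe9d5018a7cbc0303.shift 0 1)] (by decide +kernel))
noncomputable def rh609dbf5bba4e4ab9 : CRef := CRef.mk (Pat.mk 0x80000001c0000000c00000000 0x1c0000003c0000000f0000001c0000000c00000008 6 6) 0 0 (step_sound _ 131 [(rh5c5e593799055d58.shift 2 1), rh900a894640be090c] (by decide +kernel))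
noncomputable def rhd77eaed57a9a778b : CRef := CRef.mk (Pat.mk 0x20000001a000000000000000000000000 0x10000000330000001f000000380000000800000008 6 6) 0 0 (step_sound _ 98 [(rh3244c3cc8379b070.shift 0 3), rhc02275ce183c9512] (by decide +kernel))
noncomputable def rhef5ec999f82988a0 : CRef := CRef.mk (Pat.mk 0xc0000001c000000080000000800000000 0x130000007f0000001c0000000c0000000c00000004 6 7) 0 0 (step_sound _ 132 [rh2065ea92d3f7bbc7, (rh2f68792b6b779e96.shift 3 1)] (by decide +kernel))
noncomputable def rhd67a90df60f94eb2 : CRef := CRef.mk (Pat.mk 0xc0000000800000008000000000000000000000000 0x80000000c0000000c0000000f0000003c0000001c00000014 6 6) 0 0 (step_sound _ 67 [(rh257d7200ab2a6828.shift 2 0), (rh641b5241be04eec6.shift 0 1), (rh8cdd36b03d57a2f6.shift 2 0), (rhe4441baab75a6f73.shift 2 0)] (by decide +kernel))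
noncomputable def rh54e3a99bffc15444 : CRef := CRef.mk (Pat.mk 0x18000000120000001e0000001a0000000000000000 0x270000003f0000001a0000001e0000001e0000000400000004 6 6) 0 0 (step_sound _ 197 [rh1998c2c4e75f3c71, (rhbaefcd01e0a8bca3.shift 4 2)] (by decide +kernel))
noncomputable def rhb96a5d92e5ca5e99 : CRef := CRef.mk (Pat.mk 0x20000001a0000000200000000000000000000000000000000 0x200000002000000030000001b0000003f00000007000000070000000700000005 6 6) 0 0 (step_sound _ 97 [(rh09a28663422c2741.shift 0 2), (rh6eff4158bb400f47.shift 0 1), rhe112f6997f8d595f, rhe520c97f67e4a7f2] (by decide +kernel))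
noncomputable def rh0a9e0341336fd6b7 : CRef := CRef.mk (Pat.mk 0x200000002000000020000000200000000 0x50000000700000007000000070000000300000003000000030000000200000002 6 3) 0 0 (step_sound _ 161 [rh0105b2139521f473, (rh1741680720c097b4.shift 0 2), (rh39e8b268fcd19274.shift 0 2), (rh3ca48e2a6d60153d.shift 0 1)] (by decide +kernel))
noncomputable def rhd8a220824b462f0a : CRef := CRef.mk (Pat.mk 0x2400000034000000040000000400000000 0x200000026000000340000003e0000001f0000001a 6 6) 0 0 (step_sound _ 33 [(rh932754581e0f4330.shift 1 0), rhed5613ba5575f932] (by decide +kernel))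
noncomputable def rh730084c02ab4739e : CRef := CRef.mk (Pat.mk 0x20000001a0000000a00000000 0x50000000700000007000000020000001a0000000f00000001 6 5) 0 0 (step_sound _ 32 [(rh1c62b6193297d9e3.shift 0 1), rh68a777751bfeafdf] (by decide +kernel))
noncomputable def rhd343baf2893e63cd : CRef := CRef.mk (Pat.mk 0x14000000040000000600000000 0xa0000000e0000000e0000000f0000001c000000060000000600000004 6 5) 0 0 (step_sound _ 130 [(rh9a369cb82ea472da.shift 1 1), (rh9fb9dc683e09b5f3.shift 1 1), (rhe62cab2ff5ad6fe2.shift 1 1), rhec7a88c6dcaa5d28] (by decide +kernel))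
noncomputable def rhfa2fd044c8b2a1d9 : CRef := CRef.mk (Pat.mk 0x140000003400000006 0xa0000000e0000000e0000000f0000001e0000003600000006 6 6) 0 0 (step_sound _ 98 [rh89fa8203101ec029, (rh9a369cb82ea472da.shift 1 0), (rh9fb9dc683e09b5f3.shift 1 0), (rhe62cab2ff5ad6fe2.shift 1 0)] (by decide +kernel))
noncomputable def rh26933900be93acf0 : CRef := CRef.mk (Pat.mk 0x80000001a00000003000000100000000000000000 0x500000007000000070000000f0000001a000000030000001f0000000500000001 6 5) 0 0 (step_sound _ 161 [rh281c6819542c66e6, (rh454d8ac7255d5acb.shift 0 1), (rh52a14b35399e424a.shift 0 1), (rh68a777751bfeafdf.shift 0 2)] (by decide +kernel))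
noncomputable def rh2aeeb47b5d617fd1 : CRef := CRef.mk (Pat.mk 0x20000001e000000000000000000000000 0x50000000700000007000000060000001e000000070000000600000004 6 5) 0 0 (step_sound _ 65 [rh57885ee46facc399, (rheb0810cc63b001d8.shift 0 2)] (by decide +kernel))
noncomputable def rh12fd6cfd9e568046 : CRef := CRef.mk (Pat.mk 0x200000002000000020000000000000000 0x50000000700000007000000070000000700000003000000070000000600000004 6 3) 0 0 (step_sound _ 161 [(rh1741680720c097b4.shift 0 2), (rh39e8b268fcd19274.shift 0 2), (rh6c59ce14113da07f.shift 1 0), rh8ff3dde5b1c639e0] (by decide +kernel))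
noncomputable def rh435c2c9d2b100be0 : CRef := CRef.mk (Pat.mk 0xc00000008000000080000001c00000000 0x100000001c0000000c0000003f0000003f00000003 6 6) 0 0 (step_sound _ 132 [(rh2f68792b6b779e96.shift 3 1), rh4a9ede85e8f3a7f0] (by decide +kernel))
noncomputable def rh81660f5c36cadd8d : CRef := CRef.mk (Pat.mk 0x20000001e000000000000000000000000 0x50000000700000007000000060000001e000000070000000600000006 6 5) 0 0 (step_sound _ 65 [rh946cb4faf99012cf, (rheb0810cc63b001d8.shift 0 2)] (by decide +kernel))
noncomputable def rh84f80cfcf7302c80 : CRef := CRef.mk (Pat.mk 0x200000003000000060000000200000000000000000000000000000000 0x200000003000000070000000700000003000000070000000600000004 6 3) 0 0 (step_sound _ 96 [rh6692864d249c2590, (rh79877ebd3ef475dd.shift 0 3)] (by decide +kernel))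
noncomputable def rh462c65f345fd800c : CRef := CRef.mk (Pat.mk 0x200000003000000070000000c0000000000000000 0xd0000001f00000007000000070000000e0000000a00000002 6 5) 0 0 (step_sound _ 65 [(rh8dfd472a79f6bb14.shift 0 1), rha327c50ba1fc214e, (rhe286c75f2739cce2.shift 0 1)] (by decide +kernel))
noncomputable def rh5776f502207ae9dd : CRef := CRef.mk (Pat.mk 0x1c00000038000000600000002000000000 0x680000003c00000038000000700000007c0000001f 6 7) 0 0 (step_sound _ 36 [rh604f6c23d074beab, (rhdd1b84382d19bcbb.shift 3 0), (rhe68e60e4fb4ed684.shift 2 0), (rhff637a26715c46ce.shift 2 0)] (by decide +kernel))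
noncomputable def rh46e41f9e19f7f1e1 : CRef := CRef.mk (Pat.mk 0x2000000000000001e0000000c00000000 0x1c0000001f000000380000001e0000000c00000008 6 6) 0 0 (step_sound _ 100 [(rh33e738c4ed385b9f.shift 1 2), rh9f1ab24e80cb7f86] (by decide +kernel))
noncomputable def rhc0ae56bc849bd597 : CRef := CRef.mk (Pat.mk 0x2000000070000000c0000000400000000 0xc0000000c0000000c0000001e000000070000000e0000000e00000002 6 5) 0 0 (step_sound _ 130 [(rh712526e472efe489.shift 0 1), (rhb23658ecdd7ce5df.shift 1 1), (rhbe6a11bbb961c2b9.shift 1 0)] (by decide +kernel))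
noncomputable def rh6b4df1d196e30d4e : CRef := CRef.mk (Pat.mk 0x6000000020000000600000004000000000000000000000000 0x500000007000000030000000600000006000000030000000300000003 6 3) 0 0 (step_sound _ 97 [(rh2f68792b6b779e96.shift 1 3), rha9a9dd876407ae9a] (by decide +kernel))
noncomputable def rh635bdfe0b165ee33 : CRef := CRef.mk (Pat.mk 0x3a000000180000008000000000 0x3000000030000000370000003e00000018000000f800000020 6 8) 0 0 (step_sound _ 132 [(rh503dd4575245365b.shift 3 1), (rha041b287951cc16c.shift 0 3), (rhd9a6eb52cc5f3a98.shift 3 0)] (by decide +kernel))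
noncomputable def rh23853ee76e316c56 : CRef := CRef.mk (Pat.mk 0x3800000018000000000000000000000000 0x80000000c0000000f0000003c000000180000001c0000000c0000000c 6 6) 0 0 (step_sound _ 163 [(rh3e595262c1b737ad.shift 3 2), rh538c3b731f0aff77] (by decide +kernel))
noncomputable def rh20f3be0843e6c4b5 : CRef := CRef.mk (Pat.mk 0x180000008a0000000800000000 0x770000007e000000eb0000000800000008 6 8) 0 0 (step_sound _ 98 [(rh261f868a429ae0e3.shift 2 0), (rh476d140b4637cea8.shift 0 2), (rh675da2bd003e49f9.shift 1 0), rh865f061c75d22c64] (by decide +kernel))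
noncomputable def rh92b58d73f5f21a64 : CRef := CRef.mk (Pat.mk 0x100000001c000000180000008800000000 0xc0000002f0000007c0000001c00000018000000f800000020 6 8) 0 0 (step_sound _ 131 [(rh01ff8e29f1e0af53.shift 0 2), (rh13258c65b626e4cd.shift 2 0), (rh3e595262c1b737ad.shift 3 1)] (by decide +kernel))
noncomputable def rh53feca7c44f9343a : CRef := CRef.mk (Pat.mk 0x90000000c0000004400000000 0x1c0000001e0000000f0000000c0000007c00000010 6 7) 0 0 (step_sound _ 131 [(rh5c5e593799055d58.shift 2 1), rhf2ff3bf44f4202f5] (by decide +kernel))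
noncomputable def rhf0fb01022ad7e877 : CRef := CRef.mk (Pat.mk 0x20000000a0000000a0000000800000000 0x500000007000000070000000a0000000a0000000e0000000e00000004 6 4) 0 0 (step_sound _ 34 [(rh1148744b53f3df58.shift 0 1), (rh7e5ed6e10ba4dd14.shift 1 0)] (by decide +kernel))
noncomputable def rha0e28e837f7a3b8b : CRef := CRef.mk (Pat.mk 0x10000000120000001a0000001800000000 0x400000024000000360000001e0000001b0000001f00000002 6 6) 0 0 (step_sound _ 133 [(rh2f68792b6b779e96.shift 4 1), rhf8c9ba9113a9efbc] (by decide +kernel))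
noncomputable def rh8c2cef739e796b6b : CRef := CRef.mk (Pat.mk 0x9a0000001a0000000000000000 0x4000000040000000e000000fe0000001b0000000800000008 6 8) 0 0 (step_sound _ 98 [(rh1134327336d3a48e.shift 1 0), (rheb0810cc63b001d8.shift 0 2)] (by decide +kernel))
noncomputable def rh88768d57c4328d61 : CRef := CRef.mk (Pat.mk 0x1a0000000e00000002000000000000000000000000 0x50000000f0000000f0000001a0000000e0000000e000000060000000400000004 6 5) 0 0 (step_sound _ 98 [(rh70e33bfdf511e144.shift 1 0), (rh72ec092b6790b150.shift 0 3), (rhadf429772c25fde0.shift 2 1), (rhfb9fb48a5e63ed80.shift 0 2)] (by decide +kernel))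
noncomputable def rh3444fcf5222dba1a : CRef := CRef.mk (Pat.mk 0x2000000920000001a0000000000000000 0x5000000070000000700000003000000f20000001b0000000f00000005 6 8) 0 0 (step_sound _ 102 [rh14bd9034918c1c2f, (rhb2a0b9ccfb5cecd5.shift 3 2)] (by decide +kernel))
noncomputable def rhda751d9f305bb899 : CRef := CRef.mk (Pat.mk 0x2000000020000001200000003 0x4000000070000000700000003000000060000001e00000003 6 5) 0 0 (step_sound _ 34 [rh361cc68994bd8a63, rh64bc0dab78a08b48] (by decide +kernel))
noncomputable def rh7a80e1e4e56d2a53 : CRef := CRef.mk (Pat.mk 0x20000001800000018000000000000000000000000 0x80000000c0000000f00000018000000180000001c0000000c0000000c 6 5) 0 0 (step_sound _ 163 [(rh3e595262c1b737ad.shift 3 2), rhdd26f49f64ab863a] (by decide +kernel))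
noncomputable def rh442e0888e08270bc : CRef := CRef.mk (Pat.mk 0x2000000920000001a00000000 0x1000000090000000b0000000f000000fe0000001a00000012 6 8) 0 0 (step_sound _ 70 [(rhb2a0b9ccfb5cecd5.shift 3 1), rhdfa8712e4a8a2f2d] (by decide +kernel))
noncomputable def rh9f3ce06b6fe18e40 : CRef := CRef.mk (Pat.mk 0x1a00000008000000080000000800000000 0x70000001e0000000f0000000e0000000c00000004 6 5) 0 0 (step_sound _ 130 [rh157256972d1e8796, (rh50fbb5868c909700.shift 2 1)] (by decide +kernel))
noncomputable def rh52af05e4133f7f34 : CRef := CRef.mk (Pat.mk 0x1e0000001a0000000800000000 0x80000001c0000001c0000001e0000001a0000001f00000006 6 5) 0 0 (step_sound _ 132 [rh251fc034e5761d47, (rh5c5e593799055d58.shift 3 1)] (by decide +kernel))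
noncomputable def rh1b1c8ea2e80de220 : CRef := CRef.mk (Pat.mk 0x1e0000001a0000000800000000 0x140000001c0000001c0000000c0000001e0000001a0000001f00000006 6 5) 0 0 (step_sound _ 131 [(rh3e595262c1b737ad.shift 3 1), rh53defbd6160b1c0a, (rh7b9fbdf6d2d059e4.shift 2 1), (rhfb9fb48a5e63ed80.shift 2 1)] (by decide +kernel))
noncomputable def rh0cd10d472d7953df : CRef := CRef.mk (Pat.mk 0x1e000000180000000800000000 0xc0000000c0000000f0000001e0000001b0000001f00000003 6 5) 0 0 (step_sound _ 129 [(rh3244c3cc8379b070.shift 0 3), rh752ba6df8acbf3aa] (by decide +kernel))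
noncomputable def rhe24448ac32e0808b : CRef := CRef.mk (Pat.mk 0x400000006000000020000000000000000 0x1000000070000000700000006000000030000000300000003 6 3) 0 0 (step_sound _ 33 [(rh71222050f2c63a3a.shift 1 0), rh8f3c544a17d1186e] (by decide +kernel))
noncomputable def rh0268664f0c770472 : CRef := CRef.mk (Pat.mk 0x180000000c000000140000003000000000 0x2000000020000001f0000001f000000140000003400000024 6 6) 0 0 (step_sound _ 97 [rh04ec961e463b7d04, (rh53b3c253cb0c65f4.shift 0 3)] (by decide +kernel))
noncomputable def rhe4405640e40fbafe : CRef := CRef.mk (Pat.mk 0x40000001e000000180000000800000000 0x8000000080000000c0000001e0000001b0000001f00000006 6 5) 0 0 (step_sound _ 65 [rh479acb6936ac53a2, (rheb0810cc63b001d8.shift 0 2)] (by decide +kernel))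
noncomputable def rhcb582f2c95f5602c : CRef := CRef.mk (Pat.mk 0x20000001e000000180000000000000000 0x4000000040000000e0000001e0000001b0000000f0000000e 6 5) 0 0 (step_sound _ 65 [rh1b01552d580a4d77, (rheb0810cc63b001d8.shift 0 2)] (by decide +kernel))
noncomputable def rh5b22eb9d3e32ee1b : CRef := CRef.mk (Pat.mk 0x20000001e000000180000000000000000 0x60000003e0000001b0000000f0000000b 6 6) 0 0 (step_sound _ 130 [rh5fdb7bf019cd9eb8, (rhf48373e13d2bc128.shift 1 3)] (by decide +kernel))
noncomputable def rh976cd9b90b304704 : CRef := CRef.mk (Pat.mk 0x80000000a000000180000000000000000 0x40000000c0000000c0000000c0000000c0000000f000000180000001800000008 6 5) 0 0 (step_sound _ 98 [(rh2f41fce678568e15.shift 2 0), (rhb739f4f82bb681b4.shift 0 2)] (by decide +kernel))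
noncomputable def rh6a91e9e3f4b68683 : CRef := CRef.mk (Pat.mk 0xc0000008a 0x770000007e000000ef 6 8) 0 0 (step_sound _ 36 [rh076be03eb7063320, rh476d140b4637cea8, rh72297cd55a503360, rhf20a2e1680da789a] (by decide +kernel))
noncomputable def rh0bc39f2b8c6c889d : CRef := CRef.mk (Pat.mk 0x3800000014000000300000001000000000 0x70000003e00000016000000340000001e00000008 6 6) 0 0 (step_sound _ 130 [rh10beb8edbc9f5a25, (rheb0810cc63b001d8.shift 1 3)] (by decide +kernel))
noncomputable def rhabea66a5c2facc27 : CRef := CRef.mk (Pat.mk 0x1e00000018000000080000000000000000 0xa0000001e0000001b0000000f0000000c0000000c 6 5) 0 0 (step_sound _ 35 [rh4c82cbd1fd94211d, (rh71222050f2c63a3a.shift 3 0)] (by decide +kernel))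
noncomputable def rhc8b4226cd44eea02 : CRef := CRef.mk (Pat.mk 0x1e00000000000000080000000c00000000 0x30000001e000000030000001f0000000f00000001 6 5) 0 0 (step_sound _ 161 [(rh3244c3cc8379b070.shift 0 4), rh68d15d3494574946] (by decide +kernel))
noncomputable def rhecafdd1db1382475 : CRef := CRef.mk (Pat.mk 0x2000000320000001200000000 0x1000000030000000300000002000000330000001f00000005 6 6) 0 0 (step_sound _ 34 [(rh1c62b6193297d9e3.shift 1 1), rhe380c42df720a63d] (by decide +kernel))
noncomputable def rh55777c14eaf54302 : CRef := CRef.mk (Pat.mk 0x2000000060000000300000000 0x500000007000000070000000200000002000000060000000700000001 6 3) 0 0 (step_sound _ 129 [rh932754581e0f4330, (rhfb9fb48a5e63ed80.shift 0 1)] (by decide +kernel))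
noncomputable def rhb1a35c78a7dbba8f : CRef := CRef.mk (Pat.mk 0x2000000060000000200000002 0x500000007000000070000000600000006000000060000000600000002 6 3) 0 0 (step_sound _ 129 [(rh44f453b84f013105.shift 1 0), (rh8599f462953abc6e.shift 1 1), (rhb8566e9a0302f73d.shift 1 0), (rhfb9fb48a5e63ed80.shift 0 1)] (by decide +kernel))
noncomputable def rh6d72c2ff5d6cd0ea : CRef := CRef.mk (Pat.mk 0x2600000006000000020000000000000000 0x200000002000000020000003e00000006000000070000000300000003 6 6) 0 0 (step_sound _ 131 [(rh361cc68994bd8a63.shift 1 3), rh4f4c4c1027c971e0] (by decide +kernel))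
noncomputable def rh9c42111f5cd23023 : CRef := CRef.mk (Pat.mk 0x70000001a0000000000000000 0x50000000700000007000000070000001a0000000f00000007 6 5) 0 0 (step_sound _ 33 [(rh215e11e099257d75.shift 1 0), rh261f868a429ae0e3, rha749589d3479e302, rhb1a251d9bff81766] (by decide +kernel))
noncomputable def rh0de3b1fdcafd3bce : CRef := CRef.mk (Pat.mk 0x1100000003000000120000000200000000 0x600000006000000060000001f000000030000001e0000000600000004 6 5) 0 0 (step_sound _ 66 [(rh2fe78cc5ca4405d8.shift 0 2), rha07bf97b8ad93c2d] (by decide +kernel))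
noncomputable def rh94153e735cd682a7 : CRef := CRef.mk (Pat.mk 0x4000000440000004c00000048000000000000000000000000 0x20000000280000003c0000007e0000006f0000007e000000360000000600000004 6 7) 0 0 (step_sound _ 98 [(rh10956f5078a99dca.shift 2 2), (rhcaf10b0b946a8038.shift 1 2), rhd4e86cf4ea96423e] (by decide +kernel))
noncomputable def rh924fa52133962d12 : CRef := CRef.mk (Pat.mk 0x80000001c00000030000000100000000000000000 0x20000000f0000001c0000003e0000007e0000006600000020 6 7) 0 0 (step_sound _ 66 [(rh01c64533f7878554.shift 1 0), (rh1262bff6bf078212.shift 0 1), (rh1281dba85437d8e6.shift 0 1), (rh53b7e2f1a6a47c7e.shift 1 0), (rh7387ec55ffaa5dc8.shift 1 1), (rh9c167550c44371bd.shift 0 1)] (by decide +kernel))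
noncomputable def rhed22d6b9375844d9 : CRef := CRef.mk (Pat.mk 0x98000000180000000000000000 0x400000007000000ff0000001f0000000800000008 6 8) 0 0 (step_sound _ 101 [(rh361cc68994bd8a63.shift 3 2), rh7958b423eea004f1] (by decide +kernel))
noncomputable def rhf118832667e3e3fa : CRef := CRef.mk (Pat.mk 0x100000000300000006000000000000000000000000 0x4000000050000000f0000001e0000000300000006000000070000000700000005 6 5) 0 0 (step_sound _ 161 [rh3e4a8377ed075629, (rh566659606c8abe04.shift 0 2), (rh70e33bfdf511e144.shift 1 0), rh8508eb63d8feaaff, (rhd835e8b8dc07ccb4.shift 0 2)] (by decide +kernel))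
noncomputable def rh525bad1f554b0755 : CRef := CRef.mk (Pat.mk 0x8000000180000000a0000001c00000000 0x40000000f0000001f0000000b0000001e00000003 6 5) 0 0 (step_sound _ 130 [(rh50fbb5868c909700.shift 2 1), rh6ff3a987813f8140] (by decide +kernel))
noncomputable def rh7796ea604357f216 : CRef := CRef.mk (Pat.mk 0x80000001800000038000000000000000000000000 0x40000000c0000001e0000003c0000000f0000000c0000000c 6 6) 0 0 (step_sound _ 130 [rh78bf3ad049325429, (rhb739f4f82bb681b4.shift 1 3)] (by decide +kernel))
noncomputable def rhef1600c16c85a6e1 : CRef := CRef.mk (Pat.mk 0x98000000180000000000000000 0x4000000040000007f000000ff000000180000000800000008 6 8) 0 0 (step_sound _ 101 [(rh361cc68994bd8a63.shift 3 2), rh608b8581ff33f14f] (by decide +kernel))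
noncomputable def rhc3d16d889472b83a : CRef := CRef.mk (Pat.mk 0x9800000018000000100000000000000000 0xc0000000f000000fc000000180000001c0000000c0000000c 6 8) 0 0 (step_sound _ 133 [(rh361cc68994bd8a63.shift 3 3), rhce40b8e5c6782f7b] (by decide +kernel))
noncomputable def rh82cc46a5a0857fb5 : CRef := CRef.mk (Pat.mk 0x8000000080000000a0000001e00000000 0x50000000f0000001f0000000a0000001e00000003 6 5) 0 0 (step_sound _ 130 [(rh50fbb5868c909700.shift 2 1), rhc28ac7ca760d1989] (by decide +kernel))
noncomputable def rhb2334dead4e9a08c : CRef := CRef.mk (Pat.mk 0x100000002000000060000000200000000000000000000000000000000 0x100000007000000060000000200000002000000070000000700000005 6 3) 0 0 (step_sound _ 97 [rhffb8e5993241bf15, (rhffd04209dc8ea796.shift 0 3)] (by decide +kernel))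
noncomputable def rh1750126b0023a19a : CRef := CRef.mk (Pat.mk 0x200000002000000060000002200000000 0x40000000600000006000000060000003f0000001d 6 6) 0 0 (step_sound _ 34 [(rh55afc6a59410cf00.shift 1 0), rhcaf10b0b946a8038] (by decide +kernel))
noncomputable def rhd8d95ed9ca85f29c : CRef := CRef.mk (Pat.mk 0x3000000030000001200000000 0x6000000070000000700000003000000030000001e00000004 6 5) 0 0 (step_sound _ 128 [(rh2145e1d24b96a57e.shift 0 1), rh36d02af028602191] (by decide +kernel))
noncomputable def rhed37185cb37ac409 : CRef := CRef.mk (Pat.mk 0x38000000180000000000000000 0x2000000020000000770000003f0000001e0000001000000010 6 7) 0 0 (step_sound _ 66 [(rh53b3c253cb0c65f4.shift 1 2), rh91aa8270f8963b2f] (by decide +kernel))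
noncomputable def rha9259a93fca7035f : CRef := CRef.mk (Pat.mk 0x8000000080000000a0000001e00000000 0x140000001f0000000f0000000a0000001e00000003 6 5) 0 0 (step_sound _ 1 [rh61e7afd2819f4ffd, rheb0810cc63b001d8] (by decide +kernel))
noncomputable def rhf802231a6ce9cf4e : CRef := CRef.mk (Pat.mk 0x80000000800000018000000000000000000000000 0x100000001c0000003c0000000f0000001c0000000c0000000c00000004 6 6) 0 0 (step_sound _ 67 [(rh20966da26a1c2ae8.shift 2 1), (rh3a61644a128cd4ab.shift 0 1), (rhc4526fc8abf298b6.shift 2 0)] (by decide +kernel))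
noncomputable def rh40b91cc82dc37777 : CRef := CRef.mk (Pat.mk 0x8000000080000006c0000004c00000040 0x360000007f0000003e0000006c0000006c00000040 6 7) 0 0 (step_sound _ 130 [(rh50fbb5868c909700.shift 2 1), rh8ba4ed1e55de5455] (by decide +kernel))
noncomputable def rh4a116811f6c4f280 : CRef := CRef.mk (Pat.mk 0x8000000080000000c0000000c 0x160000003f0000003f0000000c0000000c 6 6) 0 0 (step_sound _ 98 [(rh50fbb5868c909700.shift 2 0), rhaf5578bcdfcfcc0c] (by decide +kernel))
noncomputable def rhf66252723b30b48e : CRef := CRef.mk (Pat.mk 0x10000000f0000000700000002 0xa0000001e0000001f0000000f0000000700000003 6 5) 0 0 (step_sound _ 98 [(rh5c5e593799055d58.shift 1 0), rhc15182294bbbedcb] (by decide +kernel))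
noncomputable def rh1927734c5e5195cd : CRef := CRef.mk (Pat.mk 0x98000000180000000000000000 0x400000077000000ff0000001e0000000800000008 6 8) 0 0 (step_sound _ 101 [(rh361cc68994bd8a63.shift 3 2), rh75eac9abaceae3c7] (by decide +kernel))
noncomputable def rh3944d7c419508b4a : CRef := CRef.mk (Pat.mk 0x8000000080000000c0000000e00000000 0x160000001f0000003c0000000c0000000e00000002 6 6) 0 0 (step_sound _ 130 [rh4fb38d06c08b3fb5, (rh50fbb5868c909700.shift 2 1)] (by decide +kernel))
noncomputable def rhd74ad36f893673c6 : CRef := CRef.mk (Pat.mk 0x10000000180000001c00000000 0x200000002000000330000001f0000001f00000004 6 6) 0 0 (step_sound _ 33 [(rh53b3c253cb0c65f4.shift 0 1), rh8cdc9a84da84a1a4] (by decide +kernel))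
noncomputable def rh4be75cdc953be108 : CRef := CRef.mk (Pat.mk 0x300000003000000100000000000000000 0x6000000060000000600000003000000030000001f0000000700000003 6 5) 0 0 (step_sound _ 161 [rh20c975f1626143e0, rh281c6819542c66e6, (rh503dd4575245365b.shift 0 2), (rhd9a6eb52cc5f3a98.shift 0 1)] (by decide +kernel))
noncomputable def rh352c178ad9f54c82 : CRef := CRef.mk (Pat.mk 0x380000001c0000000000000000 0x2200000022000000770000003f0000001c0000001400000014 6 7) 0 0 (step_sound _ 98 [(rh6eb76252a9026692.shift 2 0), (rh71f2db6f0f8252e9.shift 0 2), rhaed54c24fb91f24a, (rhe25191970535449e.shift 0 2)] (by decide +kernel))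
noncomputable def rhfc4b544f4b9d4d9e : CRef := CRef.mk (Pat.mk 0x4000000440000000c0000000c 0x7a0000003e0000006f0000000c0000000c 6 7) 0 0 (step_sound _ 99 [(rh2f68792b6b779e96.shift 2 0), rh92945f65719b0d46] (by decide +kernel))
noncomputable def rh0ecdf52cf151ee42 : CRef := CRef.mk (Pat.mk 0x400000000c000000080000000800000000 0x18000000780000000c0000000f0000003c00000014 6 7) 0 0 (step_sound _ 131 [(rh04e571695666b5c1.shift 2 1), rh641b5241be04eec6] (by decide +kernel))
noncomputable def rh2531e9b495f84392 : CRef := CRef.mk (Pat.mk 0x2000000120000000300000011000000000000000000000000 0x4000000060000001e000000030000001f000000060000000600000006 6 5) 0 0 (step_sound _ 162 [(rh361cc68994bd8a63.shift 0 4), rha8947ce6e8473148] (by decide +kernel))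
noncomputable def rh6ffe6ae87b9cb737 : CRef := CRef.mk (Pat.mk 0x480000004c00000044000000040000000000000000 0x400000006000000360000007e0000006f0000007e0000003c0000002800000020 6 7) 0 0 (step_sound _ 162 [(rh6c1ac947f8fc1358.shift 2 0), (rh7e5ab8d5a20f14cd.shift 1 1), (rhf11e9b61fc52dea4.shift 0 2)] (by decide +kernel))
noncomputable def rhe6c5e0a753e2e006 : CRef := CRef.mk (Pat.mk 0x10000000300000001c0000000800000000 0x20000000660000007e0000003e0000001c0000000f00000002 6 7) 0 0 (step_sound _ 130 [(rh016cdad10fac5d9c.shift 1 1), rh2a8aa410140efb3e, rh92220073c6802d6d, (rh9873cc4ce4f39a86.shift 1 1), (rhad3bc24c2bfb5a3c.shift 1 1), rhf2549dc0da66b756] (by decide +kernel))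
noncomputable def rha2235b38e25e7461 : CRef := CRef.mk (Pat.mk 0x18000000980000000000000000 0x8000000080000001f000000ff0000000700000004 6 8) 0 0 (step_sound _ 69 [(rh2fe78cc5ca4405d8.shift 3 2), rh62b7f49d90c71254] (by decide +kernel))
noncomputable def rh4f5443762cd91713 : CRef := CRef.mk (Pat.mk 0x60000000300000010000000000000000000000000 0x5000000070000000700000006000000030000001e0000000f0000000500000004 6 5) 0 0 (step_sound _ 97 [(rh140c261fae91909a.shift 0 2), (rh215e11e099257d75.shift 1 2), (rh32ba97e5134cf6df.shift 0 1), rh4c145d583973abd2, (rh82d79450ff36f4fe.shift 0 2)] (by decide +kernel))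
noncomputable def rhb7f9ab8ba259e4cc : CRef := CRef.mk (Pat.mk 0x1c0000000a000000180000000800000000 0x30000001e0000000b0000001f0000000f00000004 6 5) 0 0 (step_sound _ 34 [(rh932754581e0f4330.shift 2 0), (rhc42d3653746534f7.shift 0 1)] (by decide +kernel))
noncomputable def rh5346ef108eeef606 : CRef := CRef.mk (Pat.mk 0x38000000180000000800000000 0xc0000000c0000000f0000003c0000001e0000000c00000004 6 6) 0 0 (step_sound _ 66 [rh452157582c3e7b95, (rh53b3c253cb0c65f4.shift 1 2)] (by decide +kernel))
noncomputable def rhb39df7ef02226095 : CRef := CRef.mk (Pat.mk 0x1800000098000000000000000000000000 0x80000000800000018000000ff0000007f0000000400000004 6 8) 0 0 (step_sound _ 101 [rh10a871fa1c3089f7, (rh2fe78cc5ca4405d8.shift 3 3)] (by decide +kernel))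
noncomputable def rhe599bec763ba957b : CRef := CRef.mk (Pat.mk 0x1000000018000000980000000000000000 0xc0000000c0000001c00000018000000fc0000000f0000000c 6 8) 0 0 (step_sound _ 69 [(rh2fe78cc5ca4405d8.shift 3 2), rhb0dda779a2aac251] (by decide +kernel))
noncomputable def rh3c20459b161d5bc3 : CRef := CRef.mk (Pat.mk 0x1e0000000a000000080000000800000000 0x30000001e0000000a0000001f0000000f00000005 6 5) 0 0 (step_sound _ 34 [rh1ddec4e30dd9809f, (rh932754581e0f4330.shift 2 0)] (by decide +kernel))
noncomputable def rhe2d59d67e279ddad : CRef := CRef.mk (Pat.mk 0x2200000006000000020000000200000000 0x1d0000003f00000006000000060000000600000004 6 6) 0 0 (step_sound _ 130 [(rh2f68792b6b779e96.shift 1 1), rh7e5ab8d5a20f14cd] (by decide +kernel))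
noncomputable def rh9e2305c8222487ee : CRef := CRef.mk (Pat.mk 0x120000000300000003000000000000000000000000 0x40000001e0000000300000003000000070000000700000006 6 5) 0 0 (step_sound _ 64 [rh17fd23ce851b0345, (rh71222050f2c63a3a.shift 0 1)] (by decide +kernel))
noncomputable def rh4bfa2c7aebb4abe5 : CRef := CRef.mk (Pat.mk 0x1800000038000000000000000000000000 0x10000000100000001e0000003f000000770000002000000020 6 7) 0 0 (step_sound _ 130 [rh71ccff0c01ecdde1, (rhb739f4f82bb681b4.shift 1 3)] (by decide +kernel))
noncomputable def rh32c991378ed0a68b : CRef := CRef.mk (Pat.mk 0x1e0000000a000000080000000800000000 0x30000001e0000000a0000000f0000001f00000014 6 5) 0 0 (step_sound _ 161 [(rh3244c3cc8379b070.shift 0 4), rhcb12a4143fa588a5] (by decide +kernel))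
noncomputable def rh980a0f4b95aa17ea : CRef := CRef.mk (Pat.mk 0x1800000008000000080000000000000000 0x40000000c0000000c0000001c0000000f0000003c0000001c00000010 6 6) 0 0 (step_sound _ 163 [(rh771d065bdc85bf2d.shift 2 1), (rh8ff3dde5b1c639e0.shift 2 0), (rhf0d38cf1e7116183.shift 0 1)] (by decide +kernel))
noncomputable def rhca6510455babf945 : CRef := CRef.mk (Pat.mk 0x400000004c0000006c000000080000000800000000 0x400000006c0000006c0000003e0000007f00000036 6 7) 0 0 (step_sound _ 34 [(rh932754581e0f4330.shift 2 0), rhd4a67986fa73c4fa] (by decide +kernel))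
noncomputable def rh59db4cf184c6a622 : CRef := CRef.mk (Pat.mk 0xc0000000c000000080000000800000000 0xc0000000c0000003f0000003f00000016 6 6) 0 0 (step_sound _ 34 [(rh932754581e0f4330.shift 2 0), rhef8bedd065b9c15d] (by decide +kernel))
noncomputable def rh23ec6c297adff444 : CRef := CRef.mk (Pat.mk 0x18000000980000000000000000 0x8000000080000001e000000ff0000007700000004 6 8) 0 0 (step_sound _ 69 [(rh2fe78cc5ca4405d8.shift 3 2), rh65332554cc68bd31] (by decide +kernel))
noncomputable def rhd23f8f24882fd928 : CRef := CRef.mk (Pat.mk 0xe0000000c000000080000000800000000 0x20000000e0000000c0000003c0000001f00000016 6 6) 0 0 (step_sound _ 34 [rh5ffbd44f21be049e, (rh932754581e0f4330.shift 2 0)] (by decide +kernel))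
noncomputable def rh1aac160392d92428 : CRef := CRef.mk (Pat.mk 0x1c00000018000000100000000000000000 0x40000001f0000001f000000330000000200000002 6 6) 0 0 (step_sound _ 129 [rha6c7f2962be4f617, (rhb739f4f82bb681b4.shift 0 3)] (by decide +kernel))
noncomputable def rhb03350adae46e966 : CRef := CRef.mk (Pat.mk 0x100000000300000003000000000000000000000000 0x3000000070000001f0000000300000003000000060000000600000006 6 5) 0 0 (step_sound _ 65 [rh3cb04db3dd2b6a55, rh504e55626661b5b1, (rhb1a251d9bff81766.shift 0 1), (rhc84abc3b64d5d36a.shift 0 2)] (by decide +kernel))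
noncomputable def rh5b7c7791c4accc28 : CRef := CRef.mk (Pat.mk 0x1c00000038000000000000000000000000 0x14000000140000001c0000003f000000770000002200000022 6 7) 0 0 (step_sound _ 98 [(rh0e1512cbacfbd48b.shift 0 2), (rh84970c2ccb9fe470.shift 2 0), rh8f7039354bfc4ec2, (rhe153806bfe3acc65.shift 0 2)] (by decide +kernel))
noncomputable def rh56b76d33cc0c7fa5 : CRef := CRef.mk (Pat.mk 0xc0000000c000000440000000400000000 0xc0000000c0000006f0000003e0000007a 6 7) 0 0 (step_sound _ 35 [(rh55afc6a59410cf00.shift 2 0), rh56a93a661fcfd449] (by decide +kernel))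
noncomputable def rh64961f51db74bf28 : CRef := CRef.mk (Pat.mk 0x8000000080000000c0000004000000000 0x140000003c0000000f0000000c0000007800000018 6 7) 0 0 (step_sound _ 35 [rh5ee4dc8825dcefa0, (rhf8edb192cdea7ada.shift 2 0)] (by decide +kernel))
noncomputable def rh9e141fa6bc2add05 : CRef := CRef.mk (Pat.mk 0x1800000098000000000000000000000000 0x80000001f000000ff000000070000000400000004 6 8) 0 0 (step_sound _ 101 [(rh2fe78cc5ca4405d8.shift 3 3), rhbb209563535988dc] (by decide +kernel))
noncomputable def rh2993d9d9c7faff3a : CRef := CRef.mk (Pat.mk 0x3000000018000000080000000000000000 0x8000000080000000c0000003f0000001f0000001c0000000c0000000c 6 6) 0 0 (step_sound _ 35 [(rh71222050f2c63a3a.shift 3 0), rh7330e3cb934f8946] (by decide +kernel))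
noncomputable def rh56df763e998d2720 : CRef := CRef.mk (Pat.mk 0x3000000018000000080000001000000000 0x40000003f0000001f000000080000001800000018 6 6) 0 0 (step_sound _ 35 [(rh71222050f2c63a3a.shift 3 0), rhd5336696c99a0473] (by decide +kernel))
noncomputable def rh6610a29b67230cd4 : CRef := CRef.mk (Pat.mk 0x480000000c0000004400000000 0x1800000018000000780000000f0000007c00000018 6 7) 0 0 (step_sound _ 100 [(rh361cc68994bd8a63.shift 2 2), rhccf8561f065d4b1b] (by decide +kernel))
noncomputable def rh37235d0a647eab3b : CRef := CRef.mk (Pat.mk 0x12000000030000001100000000 0x70000000f0000001e000000030000001f00000004 6 5) 0 0 (step_sound _ 129 [(rh5c5e593799055d58.shift 0 1), rh7f0b7dfa09188ce2] (by decide +kernel))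
noncomputable def rhbf976cf9e7c4c817 : CRef := CRef.mk (Pat.mk 0xc0000000c000000440000000400000000 0xc0000000c0000006f0000003e0000007a 6 7) 0 0 (step_sound _ 35 [rh494981b3eec18451, (rh55afc6a59410cf00.shift 2 0)] (by decide +kernel))
noncomputable def rh97db52eb6bf5b8c9 : CRef := CRef.mk (Pat.mk 0x100000000300000003000000000000000000000000 0x70000000f0000001e0000000300000003000000070000000600000006 6 5) 0 0 (step_sound _ 161 [rh17fd23ce851b0345, (rh503dd4575245365b.shift 0 2), (rhf3c3448e0bb57ece.shift 0 3)] (by decide +kernel))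
noncomputable def rhd9786091aae48f60 : CRef := CRef.mk (Pat.mk 0x100000000300000006000000000000000000000000 0x50000000f0000001f0000000300000006000000060000000600000004 6 5) 0 0 (step_sound _ 161 [(rh70288a8bc4f6be88.shift 0 2), (rh70e33bfdf511e144.shift 1 0), rh8508eb63d8feaaff, (rhc47fe1bc6b175f77.shift 0 1)] (by decide +kernel))
noncomputable def rh38b9f7ce4e4d2b02 : CRef := CRef.mk (Pat.mk 0x88000000180000000800000008 0x14000000ff0000001f0000000800000008 6 8) 0 0 (step_sound _ 100 [(rh2f68792b6b779e96.shift 3 0), rh34d5700d8f1990b7] (by decide +kernel))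
noncomputable def rhea8ff04f2dae8ce0 : CRef := CRef.mk (Pat.mk 0x1800000008000000080000000000000000 0x1800000018000000080000000f0000003c00000014 6 6) 0 0 (step_sound _ 35 [rh161c003cd166b8ec, (rh2f68792b6b779e96.shift 3 1)] (by decide +kernel))
noncomputable def rhb580d251323e66a2 : CRef := CRef.mk (Pat.mk 0x10000000030000000300000002 0x70000000f0000001f000000030000000300000002 6 5) 0 0 (step_sound _ 97 [rh04e571695666b5c1, rh5fa50b509d4ce753, rh7f9f3607ee25a93b, (rhf3c3448e0bb57ece.shift 0 1)] (by decide +kernel))
noncomputable def rh0eb1d62610945562 : CRef := CRef.mk (Pat.mk 0xc0000000c000000080000000000000000 0x80000000c0000000c000000380000001f0000001c 6 6) 0 0 (step_sound _ 35 [rh589345da44c3b4b3, (rh7b1f1fb55310c477.shift 2 0)] (by decide +kernel))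
noncomputable def rh3cfde2e5b7de215c : CRef := CRef.mk (Pat.mk 0xc00000008000000080000000000000000 0xc0000000c00000008000000380000001f00000014 6 6) 0 0 (step_sound _ 35 [(rh50fbb5868c909700.shift 2 1), rh589345da44c3b4b3] (by decide +kernel))
noncomputable def rh9d71d70402ef7040 : CRef := CRef.mk (Pat.mk 0x1c00000038000000000000000000000000 0x14000000140000001c0000003f000000770000002200000022 6 7) 0 0 (step_sound _ 98 [(rh84970c2ccb9fe470.shift 2 0), rh8f7039354bfc4ec2, (rhe153806bfe3acc65.shift 0 2)] (by decide +kernel))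
noncomputable def rh38b3b1b375fe87da : CRef := CRef.mk (Pat.mk 0xc0000001e000000000000000000000000 0xa0000000f0000001e000000070000000600000006 6 5) 0 0 (step_sound _ 129 [rh1f026b08538b99bf, (rh3244c3cc8379b070.shift 0 3)] (by decide +kernel))
noncomputable def rhc5d0150e174ac9a0 : CRef := CRef.mk (Pat.mk 0xc0000001e000000120000000200000000 0x20000000e0000001e0000001e0000003f0000001d 6 6) 0 0 (step_sound _ 36 [rh623d34a362cd1de8, (rh7b1f1fb55310c477.shift 3 0)] (by decide +kernel))
noncomputable def rh6e18dc207937a3e2 : CRef := CRef.mk (Pat.mk 0x1800000098000000000000000000000000 0x100000001000000018000000ff000000770000002000000020 6 8) 0 0 (step_sound _ 101 [(rh2fe78cc5ca4405d8.shift 3 3), rh38e9b2b287d8d5ac] (by decide +kernel))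
noncomputable def rh58684884d46a91d4 : CRef := CRef.mk (Pat.mk 0x80000000c0000000c000000040000000000000000 0xc0000000c0000000f0000003f0000007800000018 6 7) 0 0 (step_sound _ 67 [(rh3cb04db3dd2b6a55.shift 2 0), (rh5c651669912fbab1.shift 2 0), (rh820d4e04d5dcd02e.shift 2 0), rhf26139e0ddf2f31b, (rhfe557af9112f51d6.shift 0 1)] (by decide +kernel))
noncomputable def rhe6a4ca5e8e9d3966 : CRef := CRef.mk (Pat.mk 0x80000001c000000080000001800000000 0x60000000f0000001c0000000f0000003c00000004 6 6) 0 0 (step_sound _ 130 [(rh50fbb5868c909700.shift 2 1), rh69e9e5818b2a6b7a] (by decide +kernel))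
noncomputable def rhe8811483cbe1768e : CRef := CRef.mk (Pat.mk 0xc0000001c000000080000000c00000000 0x20000000f0000001c0000001f0000007c00000010 6 7) 0 0 (step_sound _ 36 [(rh4e07029935d11114.shift 0 1), (rh55afc6a59410cf00.shift 3 0)] (by decide +kernel))
noncomputable def rha0c30a8397e11deb : CRef := CRef.mk (Pat.mk 0xc0000001c000000080000000000000000 0x4000000060000000f0000001c0000000f0000000600000006 6 5) 0 0 (step_sound _ 162 [(rh2145e1d24b96a57e.shift 2 2), rh8685978e3e7ace93] (by decide +kernel))
noncomputable def rh26ffcb37093465b4 : CRef := CRef.mk (Pat.mk 0x980000001800000000 0x40000000400000007000000ff0000001f00000008 6 8) 0 0 (step_sound _ 69 [(rh361cc68994bd8a63.shift 3 1), rha92a316f980eef78] (by decide +kernel))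
noncomputable def rh0862e31e2c1b8c55 : CRef := CRef.mk (Pat.mk 0x80000001800000030000000000000000000000000 0xc0000000c0000001c0000001f0000003f0000000c0000000800000008 6 6) 0 0 (step_sound _ 195 [(rh2145e1d24b96a57e.shift 3 3), rh6d939f636fb17a9e] (by decide +kernel))
noncomputable def rhd5007eef8cf1dde8 : CRef := CRef.mk (Pat.mk 0x1000000008000000180000003000000000 0x1800000018000000080000001f0000003f00000004 6 6) 0 0 (step_sound _ 131 [(rh2145e1d24b96a57e.shift 3 1), rh88404dfd45f81dc0] (by decide +kernel))
noncomputable def rh83aef45cdbd4f3ab : CRef := CRef.mk (Pat.mk 0x440000000c000000480000000000000000 0x180000007c0000000f000000780000001800000018 6 7) 0 0 (step_sound _ 68 [(rh2fe78cc5ca4405d8.shift 2 2), rh48101da350c59c19] (by decide +kernel))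
noncomputable def rh990fd10f5c71e5ea : CRef := CRef.mk (Pat.mk 0x1100000003000000120000000000000000 0x40000001f000000030000001e0000000f00000007 6 5) 0 0 (step_sound _ 33 [rh7b1f1fb55310c477, rhfde46ad05629591f] (by decide +kernel))
noncomputable def rh7c8e3cdf6c231320 : CRef := CRef.mk (Pat.mk 0x8000000080000000c0000000e00000000 0x160000001f0000003c0000000c0000000e00000002 6 6) 0 0 (step_sound _ 130 [rh46d5bdedb4ebc2f9, (rh50fbb5868c909700.shift 2 1)] (by decide +kernel))
noncomputable def rh1f7d98a79686c1d4 : CRef := CRef.mk (Pat.mk 0x4000000440000000c0000000c 0x7a0000003e0000006f0000000c0000000c 6 7) 0 0 (step_sound _ 99 [(rh2f68792b6b779e96.shift 2 0), rha2cb941078f8a551] (by decide +kernel))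
noncomputable def rha357caa34b903cbf : CRef := CRef.mk (Pat.mk 0x300000003000000100000000000000000 0x6000000060000000700000003000000030000001e0000000f00000007 6 5) 0 0 (step_sound _ 65 [(rh36d02af028602191.shift 0 1), rh3cb04db3dd2b6a55, rhed415b9bef8c31ec] (by decide +kernel))
noncomputable def rhde89b3e1647f6e21 : CRef := CRef.mk (Pat.mk 0x600000003000000100000000000000000 0x4000000060000000600000006000000030000001f0000000f00000005 6 5) 0 0 (step_sound _ 65 [(rh12452934acb847d5.shift 0 1), (rh215e11e099257d75.shift 1 1), (rh82d79450ff36f4fe.shift 0 1), rhc7890503418409ac] (by decide +kernel))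
noncomputable def rh79e4170ed8274321 : CRef := CRef.mk (Pat.mk 0x800000008000000180000008800000000 0x8000000080000001f000000ff00000014 6 8) 0 0 (step_sound _ 36 [rh0dbd3b11c4ccf994, (rh55afc6a59410cf00.shift 3 0)] (by decide +kernel))
noncomputable def rh55062ee754f0a1e3 : CRef := CRef.mk (Pat.mk 0x8000000080000001800000000 0x140000003c0000000f000000080000001800000018 6 6) 0 0 (step_sound _ 131 [rh245d56c915813f64, (rh55afc6a59410cf00.shift 3 0)] (by decide +kernel))
noncomputable def rhe72619c90b61a3ad : CRef := CRef.mk (Pat.mk 0x20000000300000003000000100000000000000000 0x200000003000000030000001f0000000f00000007 6 5) 0 0 (step_sound _ 65 [rh53e41f96b2b88c97, rh820d4e04d5dcd02e, rhed415b9bef8c31ec, (rhf8edb192cdea7ada.shift 0 1)] (by decide +kernel))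
noncomputable def rhf1c9d6926074991b : CRef := CRef.mk (Pat.mk 0x80000000c0000000c00000000 0x1c0000001f000000380000000c0000000c00000008 6 6) 0 0 (step_sound _ 131 [rh2726962e49a46af1, (rh5c5e593799055d58.shift 2 1)] (by decide +kernel))
noncomputable def rhffc7e7dce479b471 : CRef := CRef.mk (Pat.mk 0x8000000080000000c00000000 0x140000001f00000038000000080000000c0000000c 6 6) 0 0 (step_sound _ 131 [rh2726962e49a46af1, (rh932754581e0f4330.shift 2 0)] (by decide +kernel))
noncomputable def rhc5cf61bfccac3a92 : CRef := CRef.mk (Pat.mk 0x380000001c0000000000000000 0x2200000022000000770000003f0000001c0000001400000014 6 7) 0 0 (step_sound _ 98 [(rh6eb76252a9026692.shift 2 0), rhaed54c24fb91f24a, (rhe25191970535449e.shift 0 2)] (by decide +kernel))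
noncomputable def rhd37d92b1b042c317 : CRef := CRef.mk (Pat.mk 0x2000000120000001e0000000c00000000 0x1d0000003f0000001e0000001e0000000e00000002 6 6) 0 0 (step_sound _ 132 [rh4a5e3b3d46d8da94, (rh5c5e593799055d58.shift 3 1)] (by decide +kernel))
noncomputable def rh5efecdc999974cf1 : CRef := CRef.mk (Pat.mk 0x98000000180000000000000000 0x200000002000000077000000ff000000180000001000000010 6 8) 0 0 (step_sound _ 101 [(rh361cc68994bd8a63.shift 3 2), rh8e056e79f3a940c9] (by decide +kernel))
noncomputable def rha80b12384b650a6d : CRef := CRef.mk (Pat.mk 0x40000000c0000000c00000008 0x18000000780000003f0000000f0000000c0000000c 6 7) 0 0 (step_sound _ 99 [(rh503dd4575245365b.shift 2 0), (rh5fa50b509d4ce753.shift 2 0), (rh769be3fe24eee174.shift 2 0), (rhad590f0693506156.shift 0 1), rhc0ddb33d3a52722b] (by decide +kernel))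
noncomputable def rhd06079d2f7a505aa : CRef := CRef.mk (Pat.mk 0x18000000080000001c0000000800000000 0x40000003c0000000f0000001c0000000f00000006 6 6) 0 0 (step_sound _ 34 [(rh932754581e0f4330.shift 2 0), rhbb6731dccd190410] (by decide +kernel))
noncomputable def rh4be93da98760cfef : CRef := CRef.mk (Pat.mk 0xc000000080000001c0000000c00000000 0x100000007c0000001f0000001c0000000f00000002 6 7) 0 0 (step_sound _ 132 [(rh2f68792b6b779e96.shift 3 1), rh9de1b8e724dda612] (by decide +kernel))
noncomputable def rha2cfccb812f329b8 : CRef := CRef.mk (Pat.mk 0x80000001c0000000c0000000000000000 0x6000000060000000f0000001c0000000f0000000600000004 6 5) 0 0 (step_sound _ 34 [(rh55715cabf57189a9.shift 0 1), (rh71222050f2c63a3a.shift 2 0)] (by decide +kernel))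
noncomputable def rhe055638bb88dfdce : CRef := CRef.mk (Pat.mk 0x98000000180000000000000000 0x200000002000000077000000ff000000180000001000000010 6 8) 0 0 (step_sound _ 101 [(rh361cc68994bd8a63.shift 3 2), rh91aa8270f8963b2f] (by decide +kernel))
noncomputable def rh82ea1a8795b8a307 : CRef := CRef.mk (Pat.mk 0x40000006c0000004c00000048 0x38000000780000003f0000006c0000006c00000048 6 7) 0 0 (step_sound _ 99 [(rh23625f181fa295a9.shift 2 0), (rh5fa50b509d4ce753.shift 2 0), (rh6172318484dfaeef.shift 2 0), (rh8ddb7009c5639c8a.shift 2 0), (rhad590f0693506156.shift 0 1)] (by decide +kernel))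
noncomputable def rh8bfbe5e1ddb7f6a1 : CRef := CRef.mk (Pat.mk 0x380000001800000000000000000000000000000000 0xc0000002f0000003c000000180000001c0000003c0000003c00000028 6 6) 0 0 (step_sound _ 100 [(rh3cb04db3dd2b6a55.shift 3 1), (rhce40b8e5c6782f7b.shift 0 1), (rhffb8e5993241bf15.shift 3 0)] (by decide +kernel))
noncomputable def rhd8abe2cf75b06c77 : CRef := CRef.mk (Pat.mk 0x180000001c000000000000000000000000 0x40000001f0000003f000000030000000200000002 6 6) 0 0 (step_sound _ 97 [(rh53b3c253cb0c65f4.shift 0 3), rh6076add87d5fdaa7] (by decide +kernel))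
noncomputable def rh7f1e2a8cdd2b35c0 : CRef := CRef.mk (Pat.mk 0x40000003c0000001c0000000800000000 0x20000000380000007c0000003c0000001c0000000f00000006 6 7) 0 0 (step_sound _ 132 [rh13137cf09624ee38, (rh5c5e593799055d58.shift 3 1)] (by decide +kernel))
noncomputable def rh00a29b95004a331a : CRef := CRef.mk (Pat.mk 0x3c0000001c0000001000000000 0x80000000e0000003c0000001c0000001f0000000e 6 6) 0 0 (step_sound _ 131 [(rh2145e1d24b96a57e.shift 3 1), rhd356a1540e9e6649] (by decide +kernel))
noncomputable def rhaf81cc574fb323e0 : CRef := CRef.mk (Pat.mk 0x1800000018000000100000001000000000 0x18000000180000003e0000007f0000002c 6 7) 0 0 (step_sound _ 35 [(rh932754581e0f4330.shift 3 0), rha395f170aa68ad4b] (by decide +kernel))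
noncomputable def rheda7d7c9e6e102f6 : CRef := CRef.mk (Pat.mk 0x100000001800000018000000100000000000000000 0x10000000180000001f0000003f0000002f00000004 6 6) 0 0 (step_sound _ 67 [rh4c67b88907bf96e2, (rh932754581e0f4330.shift 3 1)] (by decide +kernel))
noncomputable def rh3995ce22386c1873 : CRef := CRef.mk (Pat.mk 0x1a0000000600000002 0x50000000700000007000000030000001e0000000600000006 6 5) 0 0 (step_sound _ 97 [rh3da62da861143b9a, rh5a1cd893d8c4f41a, rh5e05da03898e7023, rhfb9fb48a5e63ed80] (by decide +kernel))
noncomputable def rh3a9117cb37491a91 : CRef := CRef.mk (Pat.mk 0x180000001e000000000000000000000000 0xb0000000b0000001f0000001e000000070000000400000004 6 5) 0 0 (step_sound _ 129 [(rh3244c3cc8379b070.shift 0 3), rh62cfc7c12632b82d] (by decide +kernel))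
noncomputable def rhc048fe4a2609840b : CRef := CRef.mk (Pat.mk 0x80000000c0000000c000000000000000000000000 0x140000003c0000000f0000000c0000001c0000001c00000018 6 6) 0 0 (step_sound _ 66 [rh535f56b42b556c60, (rh71222050f2c63a3a.shift 2 1)] (by decide +kernel))
noncomputable def rh293b4e34463346d4 : CRef := CRef.mk (Pat.mk 0x4000000000000001c0000000e00000008 0x1e0000001e0000003b0000001e0000000e00000008 6 6) 0 0 (step_sound _ 99 [(rh16567ae718d9fd54.shift 2 1), rh27dd67608abe571a, (rh5fa50b509d4ce753.shift 2 0)] (by decide +kernel))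
noncomputable def rhcc747324ec4b3797 : CRef := CRef.mk (Pat.mk 0x8000000080000001800000018000000000000000000000000 0x40000000c0000001c000000180000001f0000000c0000000800000008 6 5) 0 0 (step_sound _ 98 [(rh932754581e0f4330.shift 2 2), rhc027ac8885eb5463] (by decide +kernel))
noncomputable def rh9c2a72697f2d208f : CRef := CRef.mk (Pat.mk 0x1100000003000000020000000000000000 0x200000006000000060000001f00000003000000070000000600000006 6 5) 0 0 (step_sound _ 33 [rh7b1f1fb55310c477, rh8f345ec23673ea43] (by decide +kernel))
noncomputable def rh1804430689d29a28 : CRef := CRef.mk (Pat.mk 0x8000000180000001a0000001e00000000 0x60000000f0000001b0000001e0000003e00000003 6 6) 0 0 (step_sound _ 66 [(rhf48373e13d2bc128.shift 1 1), rhfb6b7cece388d322] (by decide +kernel))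
noncomputable def rh78ed24c0edb667f3 : CRef := CRef.mk (Pat.mk 0x800000008000000080000000000000000 0x140000001c0000003c0000001f000000080000000c0000000c00000004 6 6) 0 0 (step_sound _ 163 [(rh245d56c915813f64.shift 0 1), (rhc4526fc8abf298b6.shift 2 0), (rhc85cc95794737cf7.shift 2 2), (rhcab3157f7bdcba3e.shift 2 0)] (by decide +kernel))
noncomputable def rh116fb55c07963c63 : CRef := CRef.mk (Pat.mk 0x8000000080000000c0000000c 0x170000001f0000003b0000000e0000000c 6 6) 0 0 (step_sound _ 100 [(rh2f68792b6b779e96.shift 3 0), rh7c6fae2a6884f4f3] (by decide +kernel))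
noncomputable def rh30a583d4be2fd14a : CRef := CRef.mk (Pat.mk 0x4000000360000002600000020 0x1e0000001f0000001e000000360000003600000020 6 6) 0 0 (step_sound _ 130 [(rh5c5e593799055d58.shift 1 1), rhca6ff0b9ac402de6] (by decide +kernel))
noncomputable def rhbb263a0b25b14ec1 : CRef := CRef.mk (Pat.mk 0xc00000008000000180000000800000000 0x800000018000000180000001c0000000f0000001c0000000800000008 6 5) 0 0 (step_sound _ 98 [(rh4c011db1ce950bab.shift 0 1), (rh7b1f1fb55310c477.shift 2 0)] (by decide +kernel))
noncomputable def rh9615f9b8d9accadb : CRef := CRef.mk (Pat.mk 0x800000008000000180000000c00000000 0x40000000c0000000f0000001e0000000f0000000a 6 5) 0 0 (step_sound _ 130 [(rh50fbb5868c909700.shift 2 1), rh9e442e72b44c4fc2] (by decide +kernel))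
noncomputable def rh404813dbdaa3b5a6 : CRef := CRef.mk (Pat.mk 0x800000008000000180000001e00000000 0x140000003c0000000f0000001c0000001e00000003 6 6) 0 0 (step_sound _ 130 [(rh50fbb5868c909700.shift 2 1), rh6c5dbd4f1b7b7bf2] (by decide +kernel))
noncomputable def rh695e4327c06d4c46 : CRef := CRef.mk (Pat.mk 0x1800000098000000000000000000000000 0x100000001000000018000000ff000000770000002000000020 6 8) 0 0 (step_sound _ 101 [(rh2fe78cc5ca4405d8.shift 3 3), rh71ccff0c01ecdde1] (by decide +kernel))
noncomputable def rh68b183541660a5b7 : CRef := CRef.mk (Pat.mk 0x480000004c0000006c000000040000000000000000 0x480000006c0000006c0000003f0000007800000038 6 7) 0 0 (step_sound _ 67 [(rh2a090be7cc26eac9.shift 2 0), (rh820d4e04d5dcd02e.shift 2 0), (rhc4713ca36c943a51.shift 2 0), (rhef77c6b312a36259.shift 2 1), rhf26139e0ddf2f31b] (by decide +kernel))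
noncomputable def rhc0c91c0a1048a80d : CRef := CRef.mk (Pat.mk 0x18000000380000000000000000 0x280000003c0000003c0000001c000000180000003c0000002f0000000c 6 6) 0 0 (step_sound _ 132 [(rh14e0829dc73b6804.shift 3 1), (rh503dd4575245365b.shift 3 1), rhb0dda779a2aac251] (by decide +kernel))
noncomputable def rhf82a4e9f7d8e0938 : CRef := CRef.mk (Pat.mk 0x1c0000001800000000 0x200000002000000030000003f0000001f00000004 6 6) 0 0 (step_sound _ 65 [rh3a69dc315759d1b4, (rhb739f4f82bb681b4.shift 0 1)] (by decide +kernel))
noncomputable def rh361848c5e530bc5b : CRef := CRef.mk (Pat.mk 0x80000001c0000003c000000040000000000000000 0x60000000f0000001c0000003c0000007c0000003800000020 6 7) 0 0 (step_sound _ 68 [(rh7b1f1fb55310c477.shift 3 1), rhf6485e53c27dead8] (by decide +kernel))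
noncomputable def rh1307d6909d5f0ebc : CRef := CRef.mk (Pat.mk 0x100000001c0000003c0000000000000000 0xe0000001f0000001c0000003c0000000e00000008 6 6) 0 0 (step_sound _ 35 [(rh71222050f2c63a3a.shift 3 0), (rh851ba3bb292a7d11.shift 0 1)] (by decide +kernel))
noncomputable def rh2f65ad3ee989cd6f : CRef := CRef.mk (Pat.mk 0x10000000180000001800000010 0x40000002f0000003f0000001f0000001800000010 6 6) 0 0 (step_sound _ 99 [rh1a62a12c8eba3779, (rh50fbb5868c909700.shift 3 0)] (by decide +kernel))
noncomputable def rh960b57e280e30fb6 : CRef := CRef.mk (Pat.mk 0x2000000060000001a00000000000000000000000000000000 0x6000000060000001e00000003000000070000000700000005 6 5) 0 0 (step_sound _ 97 [rh1b9022be4f7af407, (rh5710f30ba40ee3ec.shift 0 2), (rh91a545eb3be094e3.shift 0 1), (rhf3b0450cbffe4da9.shift 0 1)] (by decide +kernel))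
noncomputable def rh080fdc9fb1b3e40d : CRef := CRef.mk (Pat.mk 0x1e000000180000000000000000 0x400000004000000070000001e0000001f0000000b0000000b 6 5) 0 0 (step_sound _ 65 [rhb09f7bd880adef19, (rheb0810cc63b001d8.shift 0 2)] (by decide +kernel))
noncomputable def rh5dce70bad701a129 : CRef := CRef.mk (Pat.mk 0xc0000000c0000000800000000 0x180000001c0000001c0000000c0000000f0000003c00000014 6 6) 0 0 (step_sound _ 130 [(rh2145e1d24b96a57e.shift 2 1), rhf75cf0fbd7efeb71] (by decide +kernel))
noncomputable def rh16d27819d2c713c2 : CRef := CRef.mk (Pat.mk 0x80000000e0000001c000000000000000400000000 0x80000000e0000001e0000003b0000001e0000001e 6 6) 0 0 (step_sound _ 67 [rh3e1a4e50597d43ff, (rh820d4e04d5dcd02e.shift 2 0), (rhe437f081bfcdb831.shift 2 0)] (by decide +kernel))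
noncomputable def rhe2a99da09057dfc6 : CRef := CRef.mk (Pat.mk 0x1800000018000000080000000800000000 0x8000000080000000c0000001f000000180000001c0000000c00000004 6 5) 0 0 (step_sound _ 130 [(rh50fbb5868c909700.shift 2 1), rh766276261768fa70] (by decide +kernel))
noncomputable def rh2dd22f5816e93e8b : CRef := CRef.mk (Pat.mk 0x20000000300000011000000000000000000000000 0x60000000600000007000000030000001f000000060000000600000002 6 5) 0 0 (step_sound _ 193 [(rh5c5e593799055d58.shift 0 3), rhfe1f49b4c4a2a3f6] (by decide +kernel))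
noncomputable def rh40ad02692ae12a97 : CRef := CRef.mk (Pat.mk 0x1e0000001a000000180000000800000000 0x30000003e0000001e0000001b0000000f00000006 6 6) 0 0 (step_sound _ 98 [(rh18965a982d73c794.shift 1 3), rha0b6fd1ae990bd85] (by decide +kernel))
noncomputable def rhd1b756fa266c9133 : CRef := CRef.mk (Pat.mk 0x80000000800000008000000000000000000000000 0x40000000c0000000c000000080000001f0000003c0000001c00000014 6 6) 0 0 (step_sound _ 67 [(rh161c003cd166b8ec.shift 0 1), (rh5abfc4c9d959be03.shift 2 1), (rh771d065bdc85bf2d.shift 2 1), (rh8cdd36b03d57a2f6.shift 2 0)] (by decide +kernel))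
noncomputable def rha4545e55777d4c57 : CRef := CRef.mk (Pat.mk 0xc0000000c000000080000000800000000 0xc0000000e0000003b0000001f00000017 6 6) 0 0 (step_sound _ 36 [rh336601f414fcb0c7, (rh55afc6a59410cf00.shift 3 0)] (by decide +kernel))
noncomputable def rhc7cbf1b986ad1490 : CRef := CRef.mk (Pat.mk 0x200000002600000036000000040000000000000000 0x2000000036000000360000001e0000001f0000001e 6 6) 0 0 (step_sound _ 34 [(rh7b1f1fb55310c477.shift 1 0), rhc9e10ea17a2a6fbe] (by decide +kernel))
noncomputable def rhe7be35e5f4f42eb7 : CRef := CRef.mk (Pat.mk 0x800000018000000080000000c000000000000000000000000 0x8000000080000001c0000000f0000001c000000180000001800000008 6 5) 0 0 (step_sound _ 130 [(rh5c5e593799055d58.shift 2 3), rhd627aa265723db1c] (by decide +kernel))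
noncomputable def rhf870c61901764f57 : CRef := CRef.mk (Pat.mk 0xc00000018000000080000000800000000 0xa0000000f0000001e0000000f0000000c00000004 6 5) 0 0 (step_sound _ 34 [(rh83c61ce9bffbea83.shift 0 1), (rh932754581e0f4330.shift 2 0)] (by decide +kernel))
noncomputable def rh3aa8e3175ad84fc9 : CRef := CRef.mk (Pat.mk 0x1e00000018000000080000000800000000 0x30000001e0000001c0000000f0000003c00000014 6 6) 0 0 (step_sound _ 34 [rh4a84ee6de58f9772, (rh932754581e0f4330.shift 2 0)] (by decide +kernel))
noncomputable def rh07243f0bfbe5a549 : CRef := CRef.mk (Pat.mk 0x80000001a000000880000000800000000 0x8000000080000001b000000ff0000000e00000004 6 8) 0 0 (step_sound _ 34 [(rh524e314e12e28fa7.shift 0 1), (rh932754581e0f4330.shift 2 0)] (by decide +kernel))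
noncomputable def rh31c977c241d2fc8b : CRef := CRef.mk (Pat.mk 0x10000000300000001c0000000800000000 0x20000000660000003e0000003c0000001c0000000f00000002 6 7) 0 0 (step_sound _ 130 [(rh016cdad10fac5d9c.shift 1 1), (rh451d4525c49f74c6.shift 1 1), rh92220073c6802d6d, (rh9873cc4ce4f39a86.shift 1 1), (rhbca44de9c1a665ee.shift 1 1), rhf2549dc0da66b756] (by decide +kernel))
noncomputable def rh68aef7c60be981ca : CRef := CRef.mk (Pat.mk 0x800000004000000040000000400000000 0xc0000000c00000004000000070000003e0000000a 6 6) 0 0 (step_sound _ 130 [rh1904b52b42aee148, (rh2f68792b6b779e96.shift 2 1)] (by decide +kernel))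
noncomputable def rh377e4fdc1b1e4809 : CRef := CRef.mk (Pat.mk 0x120000001300000013 0x80000000e0000000f0000001e0000001b00000013 6 5) 0 0 (step_sound _ 67 [(rhb2a0b9ccfb5cecd5.shift 0 1), rhe1f0e66d0c8c7a86] (by decide +kernel))
noncomputable def rhe8443e1a8f39094e : CRef := CRef.mk (Pat.mk 0x3800000018000000080000000800000000 0x8000000380000001e0000000f0000003c00000014 6 6) 0 0 (step_sound _ 98 [(rh53b3c253cb0c65f4.shift 1 3), rh641b5241be04eec6] (by decide +kernel))
noncomputable def rh795c8a3d80cc284e : CRef := CRef.mk (Pat.mk 0x2000000070000000f000000040000000000000000 0x3000000070000000f0000001f0000001b0000000a 6 5) 0 0 (step_sound _ 64 [(rh71222050f2c63a3a.shift 0 1), rhfcad25e26c92b9e1] (by decide +kernel))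
noncomputable def rh626600d0d66a16d6 : CRef := CRef.mk (Pat.mk 0xc0000001c000000040000000000000000 0x40000000c0000001c0000001f0000007b00000018 6 7) 0 0 (step_sound _ 67 [(rh3cb04db3dd2b6a55.shift 2 0), rh6309ffb16c0441a7, rhf26139e0ddf2f31b] (by decide +kernel))
noncomputable def rh8a56f550f5bf5ccc : CRef := CRef.mk (Pat.mk 0x1e0000001800000010 0x200000002000000030000001e0000001f00000037 6 6) 0 0 (step_sound _ 33 [rh948bbd228a23e81f, (rheb0810cc63b001d8.shift 0 1)] (by decide +kernel))
noncomputable def rh63c4d1dd62b60604 : CRef := CRef.mk (Pat.mk 0x1800000098000000000000000000000000 0x8000000080000001c000000ff000000770000000400000004 6 8) 0 0 (step_sound _ 101 [(rh2fe78cc5ca4405d8.shift 3 3), rhdb26178b865bfe04] (by decide +kernel))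
noncomputable def rh9ecd6e690e10113f : CRef := CRef.mk (Pat.mk 0x80000001c000000180000000800000000 0x60000000f0000001c0000001c0000000f00000006 6 5) 0 0 (step_sound _ 130 [rh2cfa9e9021b09755, (rh50fbb5868c909700.shift 2 1)] (by decide +kernel))
noncomputable def rh6d24fbb6eb9b4726 : CRef := CRef.mk (Pat.mk 0x80000000c0000000c0000000c 0x2000000120000003b0000001f0000000e0000000c 6 6) 0 0 (step_sound _ 100 [(rh2f68792b6b779e96.shift 3 0), rhfc71e6586508b315] (by decide +kernel))
noncomputable def rhd2470a76bbb81f75 : CRef := CRef.mk (Pat.mk 0x120000001300000013 0x80000000e0000000f0000001e0000001b00000013 6 5) 0 0 (step_sound _ 97 [rh151270015baf7fb8, rh5c5e593799055d58] (by decide +kernel))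
noncomputable def rh035774280e268466 : CRef := CRef.mk (Pat.mk 0x180000001a000000180000000000000000 0x30000000300000001f0000001f000000180000001000000010 6 6) 0 0 (step_sound _ 98 [rh18bd90a18596a293, (rhb739f4f82bb681b4.shift 0 2)] (by decide +kernel))
noncomputable def rh81fc4573a4316265 : CRef := CRef.mk (Pat.mk 0x10000000180000001a000000180000001000000000 0x20000000300000001f0000001e0000001f0000003000000020 6 6) 0 0 (step_sound _ 37 [(rh3ef85b3256d22afa.shift 0 1), (rh55afc6a59410cf00.shift 4 0)] (by decide +kernel))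
noncomputable def rh7483439ef78802bd : CRef := CRef.mk (Pat.mk 0x180000001a00000002000000000000000000000000 0x400000005000000070000001f0000001b00000003000000070000000700000005 6 5) 0 0 (step_sound _ 161 [(rh086f6046fa319626.shift 0 4), (rh15def365646b8c1c.shift 0 2), rh847662810e4e0cac, (rhbe5703805fd7fa8f.shift 0 2)] (by decide +kernel))
noncomputable def rh4cb3c08de25487c3 : CRef := CRef.mk (Pat.mk 0x1a000000060000000200000000 0x50000000700000007000000030000001e000000060000000600000004 6 5) 0 0 (step_sound _ 129 [(rh5e05da03898e7023.shift 0 1), (rhd4b4beefcd67f51e.shift 1 0), (rhfb9fb48a5e63ed80.shift 0 1)] (by decide +kernel))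
noncomputable def rh7da831de0c47cf41 : CRef := CRef.mk (Pat.mk 0x1c0000000c0000000c 0x1a0000003b0000001e0000000f0000000c 6 6) 0 0 (step_sound _ 33 [rh244b94be7b9ece43, (rh53b3c253cb0c65f4.shift 0 1)] (by decide +kernel))
noncomputable def rh505916f9d65a01c8 : CRef := CRef.mk (Pat.mk 0x2000000020000000300000002 0x500000007000000070000000600000006000000070000000300000002 6 3) 0 0 (step_sound _ 129 [(rh44f453b84f013105.shift 1 0), rh64a783a8a2534a41, (rh9fb9dc683e09b5f3.shift 0 1)] (by decide +kernel))
noncomputable def rh54b781067fb568cb : CRef := CRef.mk (Pat.mk 0x2000000060000000300000002 0x500000007000000070000000600000006000000070000000300000002 6 3) 0 0 (step_sound _ 129 [rh2d0c94525e3b17c6, (rh44f453b84f013105.shift 1 0), (rh9fb9dc683e09b5f3.shift 0 1)] (by decide +kernel))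
noncomputable def rh013611e4aba9ec43 : CRef := CRef.mk (Pat.mk 0xc00000006000000020000000000000000 0x10000001b0000000f00000006000000070000000700000007 6 5) 0 0 (step_sound _ 33 [(rh71222050f2c63a3a.shift 1 0), rh8ddf6776f98bb77a] (by decide +kernel))
noncomputable def rhcefd35685d0581ea : CRef := CRef.mk (Pat.mk 0x8000000880000001a0000000800000000 0x40000000e000000ff0000001b0000000800000008 6 8) 0 0 (step_sound _ 130 [(rh50fbb5868c909700.shift 2 1), rh6c67488fcbfe5f66] (by decide +kernel))
noncomputable def rh62fb730989be34e8 : CRef := CRef.mk (Pat.mk 0x80000001c00000030000000100000000000000000 0x20000000f0000001c0000003c0000003e0000006600000020 6 7) 0 0 (step_sound _ 66 [(rh01c64533f7878554.shift 1 0), (rh1262bff6bf078212.shift 0 1), (rh1281dba85437d8e6.shift 0 1), (rh29e5722a7f50ef34.shift 1 0), (rh3d6a8c4d38e31ddd.shift 1 1), (rh53b7e2f1a6a47c7e.shift 1 0)] (by decide +kernel))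
noncomputable def rh5d5d0bbe75ea7ea8 : CRef := CRef.mk (Pat.mk 0x400000004000000040000000800000000 0xa0000003e00000007000000040000000c0000000c 6 6) 0 0 (step_sound _ 34 [(rh55afc6a59410cf00.shift 2 0), rh895c5375da59f765] (by decide +kernel))
noncomputable def rh9b8fd965d90bc724 : CRef := CRef.mk (Pat.mk 0x130000001300000012000000000000000000000000 0x130000001b0000001e0000000f0000000e00000008 6 5) 0 0 (step_sound _ 99 [(rh5419adcd928dba20.shift 0 3), rh8c6f76a968dca36a] (by decide +kernel))
noncomputable def rhc005cfcf61da3d30 : CRef := CRef.mk (Pat.mk 0x800000008000000180000003800000000 0x140000003c0000000f0000001e0000003800000008 6 6) 0 0 (step_sound _ 66 [rh5ee4dc8825dcefa0, (rhb739f4f82bb681b4.shift 1 1)] (by decide +kernel))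
noncomputable def rhf10f208b209f3b08 : CRef := CRef.mk (Pat.mk 0x40000000f0000000700000002 0xa0000001b0000001f0000000f0000000700000003 6 5) 0 0 (step_sound _ 96 [rh2145e1d24b96a57e, rhc15182294bbbedcb] (by decide +kernel))
noncomputable def rhce297e260b3dcf12 : CRef := CRef.mk (Pat.mk 0x40000001c0000000c00000000 0x180000007b0000001f0000001c0000000c00000004 6 7) 0 0 (step_sound _ 99 [(rh503dd4575245365b.shift 2 0), (rhad590f0693506156.shift 0 1), rhf9c595df43fc9926] (by decide +kernel))
noncomputable def rh99ec4d08f376f074 : CRef := CRef.mk (Pat.mk 0x98000000180000000000000000 0x40000000400000077000000ff0000001c0000000800000008 6 8) 0 0 (step_sound _ 101 [(rh361cc68994bd8a63.shift 3 2), rhb20aac79f1149244] (by decide +kernel))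
noncomputable def rh5e9a0708c51a799a : CRef := CRef.mk (Pat.mk 0x8000000180000001c0000000800000000 0x60000000f0000001c0000001c0000000f00000006 6 5) 0 0 (step_sound _ 34 [(rh932754581e0f4330.shift 2 0), rhb4ba3c23d367a717] (by decide +kernel))
noncomputable def rhe26c97eb20232dfe : CRef := CRef.mk (Pat.mk 0xc0000000c0000000c000000080000000000000000 0xc0000000e0000001f0000003b0000001200000002 6 6) 0 0 (step_sound _ 68 [(rh55afc6a59410cf00.shift 3 1), rhff013096d521b805] (by decide +kernel))
noncomputable def rh7e598db8ad366140 : CRef := CRef.mk (Pat.mk 0x130000001300000012000000000000000000000000 0x130000001b0000001e0000000f0000000e00000008 6 5) 0 0 (step_sound _ 65 [(rh7b1f1fb55310c477.shift 0 1), rhb074b82648017cfe] (by decide +kernel))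
noncomputable def rh58fdead755fbff10 : CRef := CRef.mk (Pat.mk 0x180000001a000000180000000000000000 0x1000000010000000180000001f0000001f0000003000000030 6 6) 0 0 (step_sound _ 98 [rh30631fb4c08bb71f, (rh53b3c253cb0c65f4.shift 0 3)] (by decide +kernel))
noncomputable def rh02065ea4937a4962 : CRef := CRef.mk (Pat.mk 0x10000000180000001a000000180000001000000000 0x20000000300000001f0000001e0000001f0000003000000020 6 6) 0 0 (step_sound _ 165 [(rh2f68792b6b779e96.shift 4 2), rhd1136665720b30d1] (by decide +kernel))
noncomputable def rha510b14be4c4ab8b : CRef := CRef.mk (Pat.mk 0x20000001a00000018000000000000000000000000 0x50000000700000007000000030000001b0000001f000000070000000500000004 6 5) 0 0 (step_sound _ 97 [(rh6e1685e3533aff0e.shift 0 3), rh794501743a61ce18, (rha19b78461a10c4a2.shift 0 1), rhede225ed38d90938] (by decide +kernel))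
noncomputable def rhafa404f0038a85a1 : CRef := CRef.mk (Pat.mk 0x2000000060000001a00000000000000000000000000000000 0x400000006000000060000001e00000003000000070000000700000005 6 5) 0 0 (step_sound _ 97 [rh1b9022be4f7af407, (rh5710f30ba40ee3ec.shift 0 2), (rha707fb719e87fe6e.shift 1 2)] (by decide +kernel))
noncomputable def rhff0dee619d5f33bf : CRef := CRef.mk (Pat.mk 0xc0000000c0000001c0000000000000000 0xc0000000f0000001e0000003b0000001a 6 6) 0 0 (step_sound _ 97 [(rhb739f4f82bb681b4.shift 0 2), rhfe01ebbf471ed921] (by decide +kernel))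
noncomputable def rh2da232b9d4227eef : CRef := CRef.mk (Pat.mk 0x200000003000000020000000200000000000000000000000000000000 0x200000003000000070000000600000006000000070000000700000005 6 3) 0 0 (step_sound _ 97 [rha6e4ed44f7b6a7de, rhbba7d23481996066, (rhd29a1fb688eae70f.shift 1 2)] (by decide +kernel))
noncomputable def rhf70fa7932a4faeed : CRef := CRef.mk (Pat.mk 0x200000003000000060000000200000000000000000000000000000000 0x200000003000000070000000600000006000000070000000700000005 6 3) 0 0 (step_sound _ 97 [(rh2953ec462d4703b9.shift 0 1), rhbba7d23481996066, (rhd29a1fb688eae70f.shift 1 2)] (by decide +kernel))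
noncomputable def rh1395ac5902e14444 : CRef := CRef.mk (Pat.mk 0x2000000060000000c0000000000000000 0x70000000700000007000000060000000f0000001b00000001 6 5) 0 0 (step_sound _ 161 [rh0166d187857817ec, (rh2145e1d24b96a57e.shift 1 2)] (by decide +kernel))
noncomputable def rhee8ec45b00c034e3 : CRef := CRef.mk (Pat.mk 0x80000001c000000100000003800000000 0x60000000f0000001c0000001e0000007c00000004 6 7) 0 0 (step_sound _ 66 [rh36c29ac27f6c11e6, (rh508d31626b5d2be8.shift 1 1), (rh74d6a2245e6f2e47.shift 1 0)] (by decide +kernel))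
noncomputable def rh7092979a6fa62a90 : CRef := CRef.mk (Pat.mk 0x380000001c000000000000000000000000 0xc0000000c0000000f0000003c0000001c0000000c0000000c0000000c 6 6) 0 0 (step_sound _ 163 [(rh0efea48c36e092f0.shift 0 2), (rh37d9ceebb86d75d1.shift 2 2), rh771633e495961670] (by decide +kernel))
noncomputable def rh597cffcd6974aab4 : CRef := CRef.mk (Pat.mk 0x30000001a000000130000001200000000 0xe0000001e0000000b0000001b0000001b0000001200000002 6 5) 0 0 (step_sound _ 96 [(rh6172318484dfaeef.shift 0 1), rh7b1f1fb55310c477] (by decide +kernel))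
noncomputable def rhfa3205aafd2af0b3 : CRef := CRef.mk (Pat.mk 0x2000000030000000600000000 0x500000007000000070000000200000002000000030000000700000004 6 3) 0 0 (step_sound _ 129 [(rh55afc6a59410cf00.shift 1 0), (rh68a777751bfeafdf.shift 0 1)] (by decide +kernel))
noncomputable def rh6b195deb0fa6a088 : CRef := CRef.mk (Pat.mk 0xc0000000e000000180000000800000000 0x80000003c0000000e0000001b0000001f00000006 6 6) 0 0 (step_sound _ 133 [(rh361cc68994bd8a63.shift 1 3), rha4f1f1600994d031] (by decide +kernel))
noncomputable def rhcb4ab007ccdac052 : CRef := CRef.mk (Pat.mk 0x8000000080000001c0000001000000000 0x40000000c0000000c0000001c0000001f00000017 6 5) 0 0 (step_sound _ 35 [(rh55afc6a59410cf00.shift 3 0), rhfbb399d9cc55fe51] (by decide +kernel))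
noncomputable def rh6c6f85a177009b4b : CRef := CRef.mk (Pat.mk 0x8000000080000001c00000010000000000000000000000000 0x140000001c0000001c0000001c0000001f0000000f0000000c0000000c 6 5) 0 0 (step_sound _ 99 [(rhb1c562e40ee61608.shift 2 0), (rhc4526fc8abf298b6.shift 2 1), (rhdbafaf79daddd1d6.shift 2 0), (rhfbb399d9cc55fe51.shift 0 2)] (by decide +kernel))
noncomputable def rhc9ea4589562d850a : CRef := CRef.mk (Pat.mk 0xc0000000c000000180000000800000000 0x3c0000000f0000001e0000000f00000006 6 6) 0 0 (step_sound _ 97 [rh3fa593463b88cf42, (rhb739f4f82bb681b4.shift 0 2)] (by decide +kernel))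
noncomputable def rha1aceac9a0d82655 : CRef := CRef.mk (Pat.mk 0x90000000180000001800000010 0x40000000f000000ff0000001f0000001800000010 6 8) 0 0 (step_sound _ 99 [(rh50fbb5868c909700.shift 3 0), (rhb7d54fcdc47cf41f.shift 0 1)] (by decide +kernel))
noncomputable def rh4e80d67744da9df5 : CRef := CRef.mk (Pat.mk 0x180000001a000000080000000800000000 0xa0000001f0000001b0000000f0000000c00000004 6 5) 0 0 (step_sound _ 34 [(rh932754581e0f4330.shift 2 0), (rhb4a6e18e02a1acb7.shift 0 1)] (by decide +kernel))
noncomputable def rhb7b53f5f7612a74b : CRef := CRef.mk (Pat.mk 0xc0000000c000000180000000800000000 0xc0000000f0000001b0000001f00000016 6 5) 0 0 (step_sound _ 97 [rhafa64ccf0e3427d1, (rhb739f4f82bb681b4.shift 0 2)] (by decide +kernel))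
noncomputable def rhcf04c05685bc15f0 : CRef := CRef.mk (Pat.mk 0x100000001c000000180000000800000000 0xc0000000c0000000f0000001f0000001c0000001c0000000c00000004 6 5) 0 0 (step_sound _ 131 [(rh0ef6c71ce89c1c36.shift 2 0), (rh7b9fbdf6d2d059e4.shift 2 1), (rhbd1553ade3ecbf42.shift 2 0), rhf3711a81227b0b0c] (by decide +kernel))
noncomputable def rh6cb812f95378008a : CRef := CRef.mk (Pat.mk 0x10000000130000001200000002000000000000000000000000 0x120000001b0000001e0000000f0000000b0000000900000001 6 5) 0 0 (step_sound _ 131 [(rh5419adcd928dba20.shift 0 4), rhf964fc5b57a9619f] (by decide +kernel))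
noncomputable def rh078748749203f420 : CRef := CRef.mk (Pat.mk 0x8000000480000000c00000000 0x800000008000000680000003e000000f7 6 8) 0 0 (step_sound _ 36 [(rh3482cb456adc9d7f.shift 1 0), (rhd5979d9ced4acd89.shift 1 0), (rhde10baa3043a2b46.shift 2 0), rhefb19ffaaa7a0748] (by decide +kernel))
noncomputable def rh59bb51e777297d1c : CRef := CRef.mk (Pat.mk 0x2000000030000000200000002 0x500000007000000070000000300000003000000030000000300000002 6 3) 0 0 (step_sound _ 129 [rh3ca48e2a6d60153d, (rh69f0587a21bb077f.shift 0 1), (rh7a7e08304268422e.shift 0 1), (rh976a48eb1c80a12f.shift 0 1), (rhd2c74283b7b6e6b8.shift 0 1)] (by decide +kernel))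
noncomputable def rh8df7e1e14f0bb9c4 : CRef := CRef.mk (Pat.mk 0xc000000080000000800000000000000000000000000000000 0x80000000c0000000c000000380000001f0000001c0000001c00000014 6 6) 0 0 (step_sound _ 99 [(rh1f3a6ba70a310ab1.shift 2 1), (rh589345da44c3b4b3.shift 0 2), (rha613ffd40b6c9d24.shift 2 1), (rhbba7d23481996066.shift 2 0)] (by decide +kernel))
noncomputable def rhc927244dbbe9195e : CRef := CRef.mk (Pat.mk 0x1800000018000000080000001e00000000 0x40000001f0000001f0000000b0000001e00000003 6 5) 0 0 (step_sound _ 130 [(rh50fbb5868c909700.shift 2 1), rh8e4aaa8b9991ee54] (by decide +kernel))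
noncomputable def rhf2fbcf7dfa5cfb3d : CRef := CRef.mk (Pat.mk 0x180000003800000008000000000000000000000000 0x140000001c0000001c000000180000003c0000000f000000040000000400000004 6 6) 0 0 (step_sound _ 228 [rh12bc4b4b0585d7de, (rhee230b994cc8b773.shift 3 3)] (by decide +kernel))
noncomputable def rhdc1def09f65ff79b : CRef := CRef.mk (Pat.mk 0xc000000180000000800000000000000000000000000000000 0x80000000c0000001c0000000f0000003c0000001c0000001c00000014 6 6) 0 0 (step_sound _ 99 [(rh1f3a6ba70a310ab1.shift 2 1), (rh8cdd36b03d57a2f6.shift 2 1), (rha613ffd40b6c9d24.shift 2 1), (rhbba7d23481996066.shift 2 0), (rhf3d11b058448e968.shift 0 2)] (by decide +kernel))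
noncomputable def rhb9f3cc448b32aeb0 : CRef := CRef.mk (Pat.mk 0x10000000130000001200000002000000000000000000000000 0x120000001b0000001e0000000f0000000e0000000c00000004 6 5) 0 0 (step_sound _ 131 [rh2f5ba7da041e58be, (rh5419adcd928dba20.shift 0 4)] (by decide +kernel))
noncomputable def rh6e335ff7b9d335b5 : CRef := CRef.mk (Pat.mk 0x40000000480000004800000008000000000000000000000000 0x800000048000000680000007f0000003c000000340000002400000004 6 7) 0 0 (step_sound _ 98 [(rh0fbbb92589a12005.shift 2 1), (rh18e23c62acf1522d.shift 2 0), (rh6dba9c436c8cba71.shift 0 2)] (by decide +kernel))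
noncomputable def rha3b12b0ea0faee33 : CRef := CRef.mk (Pat.mk 0xe0000001c000000080000000000000000 0x20000000e0000001e0000003f0000003700000016 6 6) 0 0 (step_sound _ 66 [(rh40241bd608e5be1a.shift 1 0), rhfae2c36ff9126203] (by decide +kernel))
noncomputable def rhb3931bc9328fa679 : CRef := CRef.mk (Pat.mk 0x200000002600000026000000040000000000000000 0x200000022000000360000003e0000001f0000001300000013 6 6) 0 0 (step_sound _ 100 [(rh5419adcd928dba20.shift 1 3), rhfff9defbf7ff258e] (by decide +kernel))
noncomputable def rh572ca3a101cda4a1 : CRef := CRef.mk (Pat.mk 0xc0000000c00000018000000080000000000000000 0xc0000000c0000001c0000001f0000003700000010 6 6) 0 0 (step_sound _ 66 [rh8679df43b0b72e47, (rh932754581e0f4330.shift 2 1)] (by decide +kernel))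
noncomputable def rhaad2a28ad6e78ef9 : CRef := CRef.mk (Pat.mk 0x38000000100000001c0000000800000000 0x40000007c0000001e0000001c0000000f00000006 6 7) 0 0 (step_sound _ 98 [(rh72297cd55a503360.shift 1 3), (rh77ad944900f11431.shift 1 1), rha9c0814f47694856] (by decide +kernel))
noncomputable def rhb3089d8e3a82a7bf : CRef := CRef.mk (Pat.mk 0x1c00000038000000000000000000000000 0xc0000000c0000000c0000001c0000003c0000000f0000000c0000000c 6 6) 0 0 (step_sound _ 67 [(rh40241bd608e5be1a.shift 2 0), rh609c5f22d4c52017, (rhf45ab07dedff8e50.shift 0 1)] (by decide +kernel))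
noncomputable def rh3eb5e220367b6a11 : CRef := CRef.mk (Pat.mk 0x12000000130000001a000000030000000000000000 0x2000000120000001b0000001b0000000b0000001e0000000e 6 5) 0 0 (step_sound _ 96 [rh2a090be7cc26eac9, (rh5c5e593799055d58.shift 0 2)] (by decide +kernel))
noncomputable def rhe8826dab31f3e5a9 : CRef := CRef.mk (Pat.mk 0x6000000030000000200000000000000000000000000000000 0x400000007000000030000000200000002000000070000000700000005 6 3) 0 0 (step_sound _ 97 [(rh2f68792b6b779e96.shift 1 3), rh56259dd1390eee46] (by decide +kernel))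
noncomputable def rh7b56876222bf9c8a : CRef := CRef.mk (Pat.mk 0x8000000180000000e0000000c00000000 0x60000001f0000001b0000000e0000003c00000008 6 6) 0 0 (step_sound _ 37 [(rh2fe78cc5ca4405d8.shift 1 1), rh8cdc95fa188c33b6] (by decide +kernel))
noncomputable def rh21a27eae1cb3b40f : CRef := CRef.mk (Pat.mk 0x100000001c000000080000000800000000 0x170000001f0000001c0000000c0000000c00000004 6 5) 0 0 (step_sound _ 131 [(rh2f68792b6b779e96.shift 3 1), rh795a9fa361f5265f] (by decide +kernel))
noncomputable def rhd471147a3d11f4dd : CRef := CRef.mk (Pat.mk 0x100000001c000000080000000800000000 0xc0000000c0000000f0000001f0000001c0000001c0000001c00000014 6 5) 0 0 (step_sound _ 131 [(rh257cac3f88c56b7b.shift 2 0), (rh771d065bdc85bf2d.shift 2 0), rh795a9fa361f5265f, (rhcbaa34959f85e2ef.shift 2 0)] (by decide +kernel))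
noncomputable def rh488a92b50de4e3ef : CRef := CRef.mk (Pat.mk 0x8000000180000000c0000000c 0x60000000f0000001e0000000f0000003c 6 6) 0 0 (step_sound _ 33 [(rh53b3c253cb0c65f4.shift 0 1), rh7a0689dcfeca7b5f] (by decide +kernel))
noncomputable def rhbe59e18e48858fcd : CRef := CRef.mk (Pat.mk 0x100000001800000018000000900000000000000000 0x10000000180000001f000000ff0000000f00000004 6 8) 0 0 (step_sound _ 67 [rh3f27d278502c088f, (rh932754581e0f4330.shift 3 1)] (by decide +kernel))
noncomputable def rh4b2a93d088820e67 : CRef := CRef.mk (Pat.mk 0x8000000080000001a0000001800000000 0x40000000c0000000f0000001b0000001f0000000a 6 5) 0 0 (step_sound _ 130 [rh33c668f4fe8f4f75, (rh50fbb5868c909700.shift 2 1)] (by decide +kernel))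
noncomputable def rh66c079c7210c772f : CRef := CRef.mk (Pat.mk 0x8000000180000000c0000000c 0x160000001f0000001b0000000f0000000c 6 5) 0 0 (step_sound _ 33 [(rh53b3c253cb0c65f4.shift 0 1), rh5e69dbad49dccf4d] (by decide +kernel))
noncomputable def rh3f10dcc50ed1f7e1 : CRef := CRef.mk (Pat.mk 0x8000000180000001c00000010000000000000000000000000 0x40000000c0000001c0000001c0000001f0000000f0000000c0000000c 6 5) 0 0 (step_sound _ 99 [(rh2b2a2906262d769a.shift 0 2), (rh46530d756bdf8511.shift 2 1), (rh674dd4f5f6cca5c0.shift 2 1), (rha9a9dd876407ae9a.shift 2 0)] (by decide +kernel))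
noncomputable def rhdb1409eef7bb21d4 : CRef := CRef.mk (Pat.mk 0x2000000120000001300000010 0x1000000090000000b0000000f0000001e0000001b00000012 6 5) 0 0 (step_sound _ 67 [rh55b21ec330c97154, (rhb2a0b9ccfb5cecd5.shift 0 1)] (by decide +kernel))
noncomputable def rhbf60266ed9688b86 : CRef := CRef.mk (Pat.mk 0x1800000030000000180000000800000000 0xc0000001e000000340000001e0000000f00000002 6 6) 0 0 (step_sound _ 66 [rh2de1ac2dd8f67323, (rh53b3c253cb0c65f4.shift 1 2)] (by decide +kernel))
noncomputable def rh266421fe7753c52f : CRef := CRef.mk (Pat.mk 0xc000000480000000800000000 0xf70000003e000000680000000800000008 6 8) 0 0 (step_sound _ 100 [(rh261f868a429ae0e3.shift 2 0), (rh6ae1d99a9b0058f4.shift 1 0), (rhadc58f335021d7cb.shift 0 2), (rhbd509d74dbfff2f5.shift 1 0)] (by decide +kernel))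
noncomputable def rhca1e5f2f2b4e1c3d : CRef := CRef.mk (Pat.mk 0x200000002000000030000000200000000000000000000000000000000 0x200000003000000030000000300000003000000070000000700000005 6 3) 0 0 (step_sound _ 97 [rh01483ff9cba2f6ac, (rh24b4f41f846cb1d8.shift 0 1), (rh7928877f9bf74a91.shift 0 2), rh89cf5152879421f3, rhd1779d7de7f8215b] (by decide +kernel))
noncomputable def rhc8cdf55a7120aa2f : CRef := CRef.mk (Pat.mk 0x8000000080000000c00000000 0x140000001c0000001c0000001f000000380000000c0000000c00000008 6 6) 0 0 (step_sound _ 131 [rh2726962e49a46af1, (rh9a369cb82ea472da.shift 2 1), (rh9fb9dc683e09b5f3.shift 2 1), (rha54302d5ccf5246c.shift 2 1)] (by decide +kernel))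
noncomputable def rh8a3c897e1d701e23 : CRef := CRef.mk (Pat.mk 0x1e00000008000000180000001800000000 0x30000001e0000000b0000001f0000001f00000004 6 5) 0 0 (step_sound _ 34 [(rh932754581e0f4330.shift 2 0), (rhaad95b9346d86229.shift 0 1)] (by decide +kernel))
noncomputable def rhb81f4abb6875afa9 : CRef := CRef.mk (Pat.mk 0x80000003800000018000000000000000000000000 0x400000004000000040000000f0000003c000000180000001c0000001c00000014 6 6) 0 0 (step_sound _ 36 [rh7ee1c75dce3a3561, (rh9e07f76261b05888.shift 3 1)] (by decide +kernel))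
noncomputable def rh5ec2fda876f82206 : CRef := CRef.mk (Pat.mk 0x8000000180000000c00000000 0x140000001c0000001c0000003c0000000f0000001c0000000c00000008 6 6) 0 0 (step_sound _ 131 [rh900a894640be090c, (rh9a369cb82ea472da.shift 2 1), (rh9fb9dc683e09b5f3.shift 2 1), (rha54302d5ccf5246c.shift 2 1), (rhc85cc95794737cf7.shift 2 1)] (by decide +kernel))
noncomputable def rh14f5373c7ef20f8d : CRef := CRef.mk (Pat.mk 0x2000000120000001300000010 0x40000000c0000000e0000000f0000001e0000001b00000012 6 5) 0 0 (step_sound _ 67 [rh05980c2b2d00dd5b, (rhb2a0b9ccfb5cecd5.shift 0 1)] (by decide +kernel))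
noncomputable def rh233bb3747d706553 : CRef := CRef.mk (Pat.mk 0x800000048000000480000004000000000 0x400000024000000340000003c0000007f000000680000004800000008 6 7) 0 0 (step_sound _ 130 [(rh2df3579b0972037c.shift 2 1), (rh6a6060c6b6bde3df.shift 2 1), rhc189904a255ed82e] (by decide +kernel))
noncomputable def rh962431b152c02687 : CRef := CRef.mk (Pat.mk 0x80000001c0000000e00000000 0x16000000370000003f0000001e0000000e00000002 6 6) 0 0 (step_sound _ 98 [(rh37d9ceebb86d75d1.shift 1 0), (rhf5aa101e97eaeba7.shift 0 1)] (by decide +kernel))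
noncomputable def rh0c21e182c3fcca9c : CRef := CRef.mk (Pat.mk 0x400000026000000260000002000000000 0x13000000130000001f0000003e000000360000002200000002 6 6) 0 0 (step_sound _ 100 [(rhb2a0b9ccfb5cecd5.shift 1 2), rhb91f6b1a39f94152] (by decide +kernel))
noncomputable def rh64458eeee53982bb : CRef := CRef.mk (Pat.mk 0x8000000180000000c0000000c 0x10000000370000001f0000001c0000000c0000000c 6 6) 0 0 (step_sound _ 98 [(rh50fbb5868c909700.shift 2 0), rh7f8afeb5f6471ba5] (by decide +kernel))
noncomputable def rh259e765a2b0bd3ea : CRef := CRef.mk (Pat.mk 0x180000001a000000300000001000000000 0x40000001f0000001b0000003e0000007800000028 6 7) 0 0 (step_sound _ 37 [(rh55afc6a59410cf00.shift 4 0), rh90b15400f7b44aed] (by decide +kernel))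
noncomputable def rh2db95101849a4233 : CRef := CRef.mk (Pat.mk 0x80000000c00000018000000180000000000000000 0xc0000000c0000001f0000001f0000000700000002 6 5) 0 0 (step_sound _ 66 [rh5e91a96fc1f60bcc, (rh932754581e0f4330.shift 2 1)] (by decide +kernel))
noncomputable def rh1d82f5e3bed0039b : CRef := CRef.mk (Pat.mk 0x80000001c00000030000000100000000000000000 0x180000001c0000003f0000007f0000002400000020 6 7) 0 0 (step_sound _ 69 [(rh55a1f6c57a317ce6.shift 4 0), (rhe4d62d9bfc5272a9.shift 0 1)] (by decide +kernel))
noncomputable def rh0eaff7d6d074fe7c : CRef := CRef.mk (Pat.mk 0x180000003800000008 0x1c0000001c0000001f0000001f0000003800000008 6 6) 0 0 (step_sound _ 65 [(rhab22b5b56e7b3243.shift 1 1), rhb4a935b107fe5a63] (by decide +kernel))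
noncomputable def rh86a283f715bd0e9f : CRef := CRef.mk (Pat.mk 0x1000000018000000380000000000000000 0xc0000000c0000001c000000180000003c0000000f0000000c 6 6) 0 0 (step_sound _ 35 [(rh71222050f2c63a3a.shift 3 0), rhd6168162da46a2b8] (by decide +kernel))
noncomputable def rha983290539995bec : CRef := CRef.mk (Pat.mk 0x2000000060000000200000001 0x400000007000000070000000300000006000000060000000300000001 6 3) 0 0 (step_sound _ 129 [(rh64bc0dab78a08b48.shift 0 1), rh79877ebd3ef475dd] (by decide +kernel))
noncomputable def rh947bd97204899808 : CRef := CRef.mk (Pat.mk 0x80000000800000008000000000000000000000000 0xc0000000c0000000c0000000f0000003c0000001c00000014 6 6) 0 0 (step_sound _ 67 [(rh161c003cd166b8ec.shift 0 1), (rh8ff3dde5b1c639e0.shift 2 0), (rhc4526fc8abf298b6.shift 2 0)] (by decide +kernel))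
noncomputable def rh91070992a7b3efa7 : CRef := CRef.mk (Pat.mk 0xc0000001c000000000000000000000000 0x800000008000000080000000c0000001f0000003c0000001c0000001c 6 6) 0 0 (step_sound _ 163 [rh0f03938129f8e8f4, (rh1e309b005ffa1b36.shift 2 1), (rh503dd4575245365b.shift 2 2), (rh571950d89739e871.shift 2 2)] (by decide +kernel))
noncomputable def rhfdc4ff01115abbc4 : CRef := CRef.mk (Pat.mk 0x480000004c0000006c000000040000000000000000 0x480000006c0000006c0000003f0000007800000038 6 7) 0 0 (step_sound _ 67 [(rh2a090be7cc26eac9.shift 2 0), (rh820d4e04d5dcd02e.shift 2 0), (rhc4713ca36c943a51.shift 2 0), rhf26139e0ddf2f31b] (by decide +kernel))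
noncomputable def rh5fb6b1e208ec7050 : CRef := CRef.mk (Pat.mk 0x2000000060000001a00000008000000000000000000000000 0x400000006000000060000001a0000000f000000070000000700000005 6 5) 0 0 (step_sound _ 97 [rh1b9022be4f7af407, (rh301a6b3a9154ed36.shift 1 1), (rh5d5b9b56c19874f2.shift 0 2), (rh6eff4158bb400f47.shift 0 1), (rha707fb719e87fe6e.shift 1 2)] (by decide +kernel))
noncomputable def rheef8823181f1d3a6 : CRef := CRef.mk (Pat.mk 0x1000000010000000100000001000000000 0x1000000010000000100000001f0000007c00000028 6 7) 0 0 (step_sound _ 35 [rh1497ac4ca43cbe79, (rh932754581e0f4330.shift 3 0)] (by decide +kernel))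
noncomputable def rh67b7f9f28f679738 : CRef := CRef.mk (Pat.mk 0x80000000c000000080000000000000000 0x180000001c0000003c0000000f0000000c0000000c0000000800000008 6 6) 0 0 (step_sound _ 162 [(rh0588d2c7f2cab5e9.shift 2 0), (rh41b8be278618af7d.shift 2 2), (rh442d1893a81a9bcd.shift 0 1), (rh616c75d1b5542aee.shift 2 2)] (by decide +kernel))
noncomputable def rh3039a3476aa31630 : CRef := CRef.mk (Pat.mk 0x1e00000002000000100000003000000000 0x4000000070000001e000000020000001f0000003700000005 6 6) 0 0 (step_sound _ 161 [(rh3244c3cc8379b070.shift 0 4), rh5a5da67778bbb555] (by decide +kernel))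
noncomputable def rh3f7a0e9543d49a96 : CRef := CRef.mk (Pat.mk 0x1e00000010000000300000001000000000 0x200000002000000070000001e000000140000003e0000007400000020 6 7) 0 0 (step_sound _ 37 [(rh55afc6a59410cf00.shift 4 0), (rhcde2915409311e5b.shift 0 1)] (by decide +kernel))
noncomputable def rh2fa3ea750dceac9b : CRef := CRef.mk (Pat.mk 0x1c000000180000003000000000 0x200000002000000070000001f0000001e0000003400000004 6 6) 0 0 (step_sound _ 97 [rh3e2c52bdd461fe2b, (rhb739f4f82bb681b4.shift 0 2)] (by decide +kernel))
noncomputable def rh4605e053324a4351 : CRef := CRef.mk (Pat.mk 0x1c00000038000000000000000000000000 0xc0000000c0000000c0000001c000000380000001f0000000c0000000c 6 6) 0 0 (step_sound _ 67 [(rh40241bd608e5be1a.shift 2 0), rhaf10d9b96b28ff65, (rhfc563ba998ba7564.shift 0 1)] (by decide +kernel))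
noncomputable def rh27b28d6035436051 : CRef := CRef.mk (Pat.mk 0x2000000030000000200000000000000000000000000000000 0x4000000070000000700000003000000030000000300000006000000070000000700000005 6 3) 0 0 (step_sound _ 97 [(rh1dffa6d8a02b5f3a.shift 0 3), rh4ed972033d0a12ff, rhd1779d7de7f8215b, (rhe286c75f2739cce2.shift 0 2)] (by decide +kernel))
noncomputable def rh3f6099629722ac7c : CRef := CRef.mk (Pat.mk 0x80000001c000000080000000800000000 0x170000001f0000001c0000000c0000000c00000004 6 5) 0 0 (step_sound _ 130 [(rh50fbb5868c909700.shift 2 1), rhe78d1101279a7d9f] (by decide +kernel))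
noncomputable def rhe828f8f061fc5c62 : CRef := CRef.mk (Pat.mk 0x3800000100 0x1ff000000fe00000187 6 9) 0 0 (step_sound _ 34 [(rh4c622fddc53a5f99.shift 0 1), (rh77357ee3dc978de7.shift 1 0), rh775ca1963e850b80, rh9e97bba44c1b13e4] (by decide +kernel))
noncomputable def rh63230689a38bd388 : CRef := CRef.mk (Pat.mk 0x38000000000000001800000010 0x40000007f0000003e0000000f0000001800000010 6 7) 0 0 (step_sound _ 67 [(rh1852bd031f8b7240.shift 0 1), (rh2145e1d24b96a57e.shift 3 0)] (by decide +kernel))
noncomputable def rhc188b957360716f7 : CRef := CRef.mk (Pat.mk 0x18000000380000000800000000 0xc0000000c0000000f00000018000000380000001f00000004 6 6) 0 0 (step_sound _ 131 [(rh7b9fbdf6d2d059e4.shift 2 1), rh852e818bc8629e77, rhc5265e13fb4e13b1] (by decide +kernel))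
noncomputable def rh2ec50dcf2b8ea916 : CRef := CRef.mk (Pat.mk 0x10000000300000001a0000001800000000 0x28000000780000003e0000001b0000001f00000004 6 7) 0 0 (step_sound _ 133 [rh2d81f90b996d1e34, (rh2f68792b6b779e96.shift 4 1)] (by decide +kernel))
noncomputable def rh9ee4c2ff49028927 : CRef := CRef.mk (Pat.mk 0x18000000180000000c00000008 0x2000000070000001f0000001f0000000c0000000c 6 5) 0 0 (step_sound _ 98 [rh0d071f617d02f283, (rh50fbb5868c909700.shift 2 0)] (by decide +kernel))
noncomputable def rh63162ed89804a093 : CRef := CRef.mk (Pat.mk 0x10000000300000001c00000008 0x20000000240000007f0000003f0000001c00000018 6 7) 0 0 (step_sound _ 101 [rh01d53bca8422fea1, (rh84d1c02a8954c6a8.shift 4 0)] (by decide +kernel))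
noncomputable def rh1d57a823387b5ddc : CRef := CRef.mk (Pat.mk 0x80000003800000018000000000000000000000000 0x8000000380000001f0000001f0000001c0000001c 6 6) 0 0 (step_sound _ 97 [(rh24ae073cf30720c4.shift 1 3), rh5850826491fb52fa] (by decide +kernel))
noncomputable def rh5beea0fb2d52a06b : CRef := CRef.mk (Pat.mk 0x3800000018000000100000000000000000 0xc0000000f0000003c000000180000001c0000000c0000000c 6 6) 0 0 (step_sound _ 163 [(rh2145e1d24b96a57e.shift 3 2), rh39fceb362813fb34] (by decide +kernel))
noncomputable def rhb924b9c6aabed5c6 : CRef := CRef.mk (Pat.mk 0x100000002000000060000000200000000000000000000000000000000 0x100000003000000060000000600000003000000070000000700000004 6 3) 0 0 (step_sound _ 97 [rh8a1bd34420cccc7f, (rhffd04209dc8ea796.shift 0 3)] (by decide +kernel))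
noncomputable def rh8f0f977dc5aee7e7 : CRef := CRef.mk (Pat.mk 0x8000000080000000800000000 0x140000001c0000003c0000000f0000000c0000000c0000000c 6 6) 0 0 (step_sound _ 131 [(rh20966da26a1c2ae8.shift 2 0), rh245d56c915813f64, (rh771d065bdc85bf2d.shift 2 0)] (by decide +kernel))
noncomputable def rh82822065305e0cde : CRef := CRef.mk (Pat.mk 0x1c0000000c000000000000000000000000 0x1c0000001c0000003c0000001f0000000c000000080000000800000008 6 6) 0 0 (step_sound _ 67 [(rh1f6906e1df2fe86a.shift 0 2), (rh3cb04db3dd2b6a55.shift 2 0), (rhb0c1e7919d9be92d.shift 2 0), (rhfc7c29d8e65d775f.shift 2 1)] (by decide +kernel))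
noncomputable def rh96cdada151fb258c : CRef := CRef.mk (Pat.mk 0x40000006c0000004c00000048 0x38000000780000003f0000006c0000006c00000048 6 7) 0 0 (step_sound _ 99 [(rh23625f181fa295a9.shift 2 0), (rh5fa50b509d4ce753.shift 2 0), (rh6172318484dfaeef.shift 2 0), (rhad590f0693506156.shift 0 1)] (by decide +kernel))
noncomputable def rhfc7f38e06c8a2116 : CRef := CRef.mk (Pat.mk 0x80000001a000000060000000200000000 0x500000007000000070000000f0000001a000000060000000600000004 6 5) 0 0 (step_sound _ 129 [(rh14f80659e6313cc6.shift 1 1), (rh1741680720c097b4.shift 0 1), (rhd4b4beefcd67f51e.shift 1 0), (rhe8ba100882c6d16d.shift 0 1), (rhfb9fb48a5e63ed80.shift 0 1)] (by decide +kernel))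
noncomputable def rh509475ff030b1703 : CRef := CRef.mk (Pat.mk 0x100000002000000030000000200000000000000000000000000000000 0x100000003000000030000000300000006000000070000000700000001 6 3) 0 0 (step_sound _ 97 [rhbaff7ec0fcc038ba, (rhffd04209dc8ea796.shift 0 3)] (by decide +kernel))
noncomputable def rha254bef914f3e162 : CRef := CRef.mk (Pat.mk 0x80000000c00000008000000000000000000000000 0x8000000080000000c0000000c0000000f0000003c0000001c00000018 6 6) 0 0 (step_sound _ 66 [(rh00d6a6e3c7e3bb40.shift 2 1), (rh24475f7678211b71.shift 2 0), (rh5ddbeed5d869bf16.shift 2 1), rhb1284ebed76b39cf] (by decide +kernel))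
noncomputable def rh71942ddb032e78b7 : CRef := CRef.mk (Pat.mk 0x3000000010000000020000001e0000000000000000 0x5000000370000001f000000020000001e0000000700000004 6 6) 0 0 (step_sound _ 33 [rh41cd93bb737276ca, (rheb0810cc63b001d8.shift 0 1)] (by decide +kernel))
noncomputable def rhb96ca1f08ca97ac8 : CRef := CRef.mk (Pat.mk 0x1000000030000000100000001e000000000000000000000000 0x20000000740000003e000000140000001e000000070000000200000002 6 7) 0 0 (step_sound _ 197 [(rh2f68792b6b779e96.shift 4 3), rhb4e3276becb3cc4c] (by decide +kernel))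
noncomputable def rh9c15e487984ef507 : CRef := CRef.mk (Pat.mk 0x30000000180000001c000000000000000000000000 0x4000000340000001e0000001f000000070000000200000002 6 6) 0 0 (step_sound _ 97 [rh3c79f2e28e37e346, (rh53b3c253cb0c65f4.shift 0 3)] (by decide +kernel))
noncomputable def rhf162961ae74e187b : CRef := CRef.mk (Pat.mk 0x380000001c000000000000000000000000 0xc0000000c0000001f000000380000001c0000000c0000000c0000000c 6 6) 0 0 (step_sound _ 163 [rh1204b827b0674525, (rh37d9ceebb86d75d1.shift 2 2), (rhbdade720c6084246.shift 0 2)] (by decide +kernel))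
noncomputable def rh30538429c83531ce : CRef := CRef.mk (Pat.mk 0x20000000300000002000000000000000000000000 0x5000000070000000700000006000000030000000300000003000000070000000700000004 6 3) 0 0 (step_sound _ 193 [(rh03dfdf12d5937476.shift 0 2), (rh4e2df8342d3b8ae8.shift 0 3), (rh7a7e08304268422e.shift 0 3), rhed841d9ebc5dd0e1] (by decide +kernel))
noncomputable def rhc071260090cea32e : CRef := CRef.mk (Pat.mk 0x8000000080000001c0000000800000000 0x40000000c0000000c0000001c0000001f00000017 6 5) 0 0 (step_sound _ 34 [(rh932754581e0f4330.shift 2 0), rhef4765d4d6b5afde] (by decide +kernel))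
noncomputable def rh998cbc5b6e0cfcf4 : CRef := CRef.mk (Pat.mk 0x1000000003800000000 0x187000000fe000001ff 6 9) 0 0 (step_sound _ 34 [rh0d378fd9e8917c5a, rh185f35b8bd8ec37f, rh592c7139d2c44767, (rhf88acd9bc70b9c5f.shift 1 0)] (by decide +kernel))
noncomputable def rhf7e90babfc9f1a61 : CRef := CRef.mk (Pat.mk 0x100000001800000000000000380000000000000000 0x10000000180000000f0000003e0000007f00000004 6 7) 0 0 (step_sound _ 99 [rh6360f76fc69b77dd, (rh71222050f2c63a3a.shift 3 1)] (by decide +kernel))
noncomputable def rh7dc69ad41d6e660d : CRef := CRef.mk (Pat.mk 0x80000003800000018000000000000000000000000 0x40000001f00000038000000180000000f0000000c0000000c 6 6) 0 0 (step_sound _ 67 [(rh46530d756bdf8511.shift 2 0), (rh79905f95cb2d899a.shift 0 2), (rhbb02371da2437aab.shift 0 1)] (by decide +kernel))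
noncomputable def rhf7873b924bf29a31 : CRef := CRef.mk (Pat.mk 0x1a0000001300000012 0x50000000f0000000f0000000f0000001b0000001b00000012 6 5) 0 0 (step_sound _ 97 [rh42ab489a1be3958e, rh4ebd90bd92772a20, rh69f0587a21bb077f, rhb2aa47935e7ef7cb, rhc85cc95794737cf7] (by decide +kernel))
noncomputable def rhe24554d2123fca38 : CRef := CRef.mk (Pat.mk 0x1000000003000000060000000200000000 0x500000007000000070000001e00000003000000060000000600000004 6 5) 0 0 (step_sound _ 129 [(rh04e571695666b5c1.shift 0 1), (rh14e0829dc73b6804.shift 0 1), (rhd4b4beefcd67f51e.shift 1 0)] (by decide +kernel))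
noncomputable def rh8fb113ee94ec2fe7 : CRef := CRef.mk (Pat.mk 0x60000000000000006000000000000000000000000 0x50000000700000007000000060000000200000006000000070000000700000005 6 3) 0 0 (step_sound _ 129 [(rh215e11e099257d75.shift 1 2), (rh70e33bfdf511e144.shift 1 0), (rhfb9fb48a5e63ed80.shift 0 2), rhffb8e5993241bf15] (by decide +kernel))
noncomputable def rhaa60f8cd4547d74b : CRef := CRef.mk (Pat.mk 0x60000000000000006000000000000000000000000 0x50000000700000007000000070000000300000006000000060000000600000004 6 3) 0 0 (step_sound _ 129 [(rh215e11e099257d75.shift 1 2), (rh70e33bfdf511e144.shift 1 0), rhf849c8472bff4b9d, (rhfb9fb48a5e63ed80.shift 0 2)] (by decide +kernel))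
noncomputable def rh5f735fc1ebd219f8 : CRef := CRef.mk (Pat.mk 0x38000000300000000000000038 0x60000003e000000380000000f0000007c 6 7) 0 0 (step_sound _ 98 [rh3d83d7b9f4117746, (rhb739f4f82bb681b4.shift 1 2)] (by decide +kernel))
noncomputable def rh4a68914b8a155f3e : CRef := CRef.mk (Pat.mk 0x6000000020000000200000000000000000000000000000000 0x500000007000000030000000300000002000000070000000700000005 6 3) 0 0 (step_sound _ 97 [(rh2f68792b6b779e96.shift 1 3), rhbbf61c9933a527e1] (by decide +kernel))
noncomputable def rhb740cefa1088d8c7 : CRef := CRef.mk (Pat.mk 0x80000008800000018000000000000000000000000 0x8000001ef0000007e000000770000000400000004 6 9) 0 0 (step_sound _ 101 [(rh1f36686c55693598.shift 2 3), (rh241ddf12d4fc9298.shift 2 3), rh57e826f46a6fd887] (by decide +kernel))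
noncomputable def rh92c9e5adf8770209 : CRef := CRef.mk (Pat.mk 0x800000008000000180000000c00000000 0x40000000c0000000f0000001e0000000f0000000a 6 5) 0 0 (step_sound _ 130 [rh42a454947b14c367, (rh50fbb5868c909700.shift 2 1)] (by decide +kernel))
noncomputable def rh1f996174fe04e4c4 : CRef := CRef.mk (Pat.mk 0x4000000000000001e0000000000000000 0x600000006000000330000001e0000000700000004 6 6) 0 0 (step_sound _ 100 [(rh33e738c4ed385b9f.shift 1 2), rha700292a805d5a54] (by decide +kernel))
noncomputable def rhc53719b0b756b83a : CRef := CRef.mk (Pat.mk 0x20000000600000012000000000000000000000000 0x400000006000000060000001e0000000f0000000700000005 6 5) 0 0 (step_sound _ 65 [rh6eff4158bb400f47, (rh91a940540eb880d4.shift 0 1), (rha707fb719e87fe6e.shift 1 1)] (by decide +kernel))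
noncomputable def rhc3deac9be89f03d7 : CRef := CRef.mk (Pat.mk 0x100000000300000002000000020000000000000000 0x60000001e0000000300000003000000070000000700000006 6 5) 0 0 (step_sound _ 161 [(rh04e571695666b5c1.shift 0 2), rh2840436db7424bdf] (by decide +kernel))
noncomputable def rh36b93069b258c830 : CRef := CRef.mk (Pat.mk 0x400000000c000000480000000800000000 0x18000000780000000f0000007c0000001c00000004 6 7) 0 0 (step_sound _ 68 [(rh2fe78cc5ca4405d8.shift 2 2), rh727d23dbdb14369d] (by decide +kernel))
noncomputable def rh091653ab65163ab0 : CRef := CRef.mk (Pat.mk 0x400000000c0000004000000008000000000000000000000000 0x40000001c0000007c0000000f0000007c00000018000000180000001800000010 6 7) 0 0 (step_sound _ 131 [(rh612f35418d67476f.shift 0 2), (rh8bde8539a28334ec.shift 2 0), (rhb1a251d9bff81766.shift 2 2), (rhfc6b69bb98114330.shift 2 2)] (by decide +kernel))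
noncomputable def rh3e51582bc5cbc7e1 : CRef := CRef.mk (Pat.mk 0x30000001200000002000000000000000000000000 0x1000000030000001e00000002000000070000000700000005 6 5) 0 0 (step_sound _ 130 [rh0a6888916bcef86b, (rh2fe78cc5ca4405d8.shift 0 4)] (by decide +kernel))
noncomputable def rhe9a9a103bf583c4b : CRef := CRef.mk (Pat.mk 0x400000000c0000004000000008000000000000000000000000 0x180000007c0000000f0000007c000000180000001c0000001c00000014 6 7) 0 0 (step_sound _ 131 [(rh43d8dfd721575dfb.shift 2 0), (rh612f35418d67476f.shift 0 2), (rh8bde8539a28334ec.shift 2 0), (rhd1779d7de7f8215b.shift 2 0)] (by decide +kernel))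
noncomputable def rh9eeba1f74c32861b : CRef := CRef.mk (Pat.mk 0xa000000180000000a000000000000000000000000 0x20000000a0000001b0000001f000000360000001400000004 6 6) 0 0 (step_sound _ 98 [(rh53b3c253cb0c65f4.shift 0 3), rhe16d83a3918c75e2] (by decide +kernel))
noncomputable def rh10443167fce1c74b : CRef := CRef.mk (Pat.mk 0x1c0000003000000014000000000000000000000000 0x80000001c0000003f000000360000000e0000000e0000000a 6 6) 0 0 (step_sound _ 130 [(rh70eb00692e28eccb.shift 0 3), (rhffb8e5993241bf15.shift 1 0)] (by decide +kernel))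
noncomputable def rh8e8f5415199bdb7b : CRef := CRef.mk (Pat.mk 0x4000000000000001e00000002000000000000000000000000 0x4000000070000001e00000002000000070000000700000005 6 5) 0 0 (step_sound _ 161 [(rh3244c3cc8379b070.shift 0 4), rh984bfc6de6c2c524] (by decide +kernel))
noncomputable def rh45565fd35a914bd1 : CRef := CRef.mk (Pat.mk 0x20000001e00000002000000000000000000000000 0x4000000060000001e0000003e0000000f0000000700000005 6 6) 0 0 (step_sound _ 100 [rhbbcefddbd626d322, (rhe25b0a99195a5d59.shift 1 3)] (by decide +kernel))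
noncomputable def rh2415a65b4bc54724 : CRef := CRef.mk (Pat.mk 0x80000000000000038000000000000000000000000 0x8000000080000000c0000003e0000007f0000001400000014 6 7) 0 0 (step_sound _ 98 [(rh185f35b8bd8ec37f.shift 0 2), (rh190607c0dc91f39b.shift 1 0), (rhf3caf215570e71a5.shift 1 0)] (by decide +kernel))
noncomputable def rh355dcdb377faff3b : CRef := CRef.mk (Pat.mk 0x8000000480000000c0000004000000000 0x40000001c0000007c0000000f0000007800000018 6 7) 0 0 (step_sound _ 100 [(rh361cc68994bd8a63.shift 2 2), rh46714a5ccfa33816] (by decide +kernel))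
noncomputable def rhf57a75ab07f13e68 : CRef := CRef.mk (Pat.mk 0x8000000400000000c000000400000000000000000 0x100000001800000018000000180000007c0000000f0000007c0000001c00000004 6 7) 0 0 (step_sound _ 131 [(rh281c6819542c66e6.shift 2 0), (rh2f51ab36adc3e505.shift 0 1), (rha670ede437c3112f.shift 2 0), (rhd58048618f3d6a40.shift 2 2)] (by decide +kernel))
noncomputable def rh37f183b9ca321db4 : CRef := CRef.mk (Pat.mk 0x2000000120000000300000000 0x50000000700000007000000020000001e0000000300000001 6 5) 0 0 (step_sound _ 66 [rh32431e66bbf434a4, (rh361cc68994bd8a63.shift 0 1)] (by decide +kernel))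
noncomputable def rheb114806437765d2 : CRef := CRef.mk (Pat.mk 0x8000000400000000c0000004000000000 0x140000001c0000001c000000180000007c0000000f0000007c00000018 6 7) 0 0 (step_sound _ 99 [rh2f51ab36adc3e505, (rh7a7e08304268422e.shift 2 1), (rhc9b7a010d6829066.shift 2 1), (rhd58048618f3d6a40.shift 2 1)] (by decide +kernel))
noncomputable def rh4aa02f388b72c018 : CRef := CRef.mk (Pat.mk 0xa000000180000000a00000000 0x400000014000000360000001f0000001b0000000a00000002 6 6) 0 0 (step_sound _ 98 [(rhb739f4f82bb681b4.shift 0 2), rhca9a2d88b9539d0b] (by decide +kernel))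
noncomputable def rheb4cd2959ba52ce2 : CRef := CRef.mk (Pat.mk 0x14000000300000001c00000000 0xa0000000e0000000e000000360000003f0000001c00000008 6 6) 0 0 (step_sound _ 66 [(rh14e0829dc73b6804.shift 1 0), (rh38146ff2d053a047.shift 0 1)] (by decide +kernel))
noncomputable def rh2eb9f452dc71df4a : CRef := CRef.mk (Pat.mk 0x2000000020000000600000000 0x500000007000000070000000200000003000000030000000700000005 6 3) 0 0 (step_sound _ 129 [(rh55afc6a59410cf00.shift 1 0), rhe5a43f9bb67c23ec] (by decide +kernel))
noncomputable def rh92123a3e6d6b5380 : CRef := CRef.mk (Pat.mk 0x20000001e0000000200000000 0x5000000070000000f0000003e0000001e0000000600000004 6 6) 0 0 (step_sound _ 100 [rh32799b6a7926a032, (rh33e738c4ed385b9f.shift 1 2)] (by decide +kernel))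
noncomputable def rhfc6bab299c41ac3e : CRef := CRef.mk (Pat.mk 0x180000008800000008 0x400000004000000770000007e000001ef00000008 6 9) 0 0 (step_sound _ 69 [rh0f7b94108a361189, (rhe80c67fb403a51c5.shift 2 1), (rhf1af73716833b731.shift 2 1)] (by decide +kernel))
noncomputable def rh756af6152439a71d : CRef := CRef.mk (Pat.mk 0x38000000000000000800000000 0x14000000140000007f0000003e0000000c0000000800000008 6 7) 0 0 (step_sound _ 98 [(rh1ed635f5a7ab102e.shift 1 0), (rh29b60c546f1f465c.shift 1 0), (rh4c622fddc53a5f99.shift 0 3)] (by decide +kernel))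
noncomputable def rh1479f73ca65829fa : CRef := CRef.mk (Pat.mk 0x1e000000000000000400000000 0x4000000070000001e000000330000000600000006 6 6) 0 0 (step_sound _ 68 [rh43ca58b80ff240ff, (rhe25b0a99195a5d59.shift 1 2)] (by decide +kernel))
noncomputable def rh3be1632435ad53f6 : CRef := CRef.mk (Pat.mk 0x12000000060000000200000000 0x5000000070000000f0000001e000000060000000600000004 6 5) 0 0 (step_sound _ 129 [(rh1741680720c097b4.shift 0 1), rh486eb7c8c2e9ae71, (rhd4b4beefcd67f51e.shift 1 0)] (by decide +kernel))
noncomputable def rhdc3240ee6a15acf7 : CRef := CRef.mk (Pat.mk 0x1a0000001300000012 0x50000000f0000000f0000000f0000001b0000001b00000012 6 5) 0 0 (step_sound _ 97 [rh330a005829cdd297, rh42ab489a1be3958e, rh4ebd90bd92772a20, rh69f0587a21bb077f, rhb2aa47935e7ef7cb, rhc85cc95794737cf7] (by decide +kernel))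
noncomputable def rhb7239909d9910172 : CRef := CRef.mk (Pat.mk 0x580000004300000040 0xa0000000e0000000e00000007e0000004300000040 6 8) 0 0 (step_sound _ 66 [(rh91ae312c4f82eb01.shift 2 0), (rhca9569cc80abfe76.shift 0 1)] (by decide +kernel))
noncomputable def rh0bb018cd1de4a9bc : CRef := CRef.mk (Pat.mk 0x58000000130000001a00000000 0x80000000e0000000f0000007a0000001b0000001b00000001 6 7) 0 0 (step_sound _ 131 [(rh1c3674258eec14b2.shift 0 1), rh8559b62e8d6d80e6, (rhe072fffdd2fccf38.shift 3 1)] (by decide +kernel))
noncomputable def rh431466a3f3503f68 : CRef := CRef.mk (Pat.mk 0x10000000120000005a00000000000000000000000000000000 0x120000001a0000007a0000000f0000000e0000000c00000004 6 7) 0 0 (step_sound _ 99 [rh99cd86723e95b124, (rhf9af042da61fc652.shift 3 1)] (by decide +kernel))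
noncomputable def rh799d78890a57c35d : CRef := CRef.mk (Pat.mk 0x10000000130000005a000000000000000000000000 0x100000001000000110000001b0000007b0000000f0000000a00000008 6 7) 0 0 (step_sound _ 67 [(rh63bb98ea5485828f.shift 0 1), (rhf9af042da61fc652.shift 3 0)] (by decide +kernel))
noncomputable def rh61cb6653771d0d75 : CRef := CRef.mk (Pat.mk 0x10000000030000001a00000008000000000000000000000000 0x40000001f000000030000001a0000000f000000070000000700000005 6 5) 0 0 (step_sound _ 97 [rh0a6888916bcef86b, rhde5b474548b482d7, (rhfa6702f91f12be96.shift 0 2)] (by decide +kernel))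
noncomputable def rh10fb76e373fe1580 : CRef := CRef.mk (Pat.mk 0x2000000030000000200000000000000000000000000000000 0x30000000300000003000000030000000300000003000000070000000700000005 6 3) 0 0 (step_sound _ 97 [rh0a6888916bcef86b, (rh79bf920132cab629.shift 0 3), rh89cf5152879421f3, (rhf9a6286f1d5377a2.shift 0 2)] (by decide +kernel))
noncomputable def rh387519ea8780f7e9 : CRef := CRef.mk (Pat.mk 0x200000003000000020000000000000000 0x50000000700000007000000070000000300000003000000030000000300000001 6 3) 0 0 (step_sound _ 161 [(rh03dfdf12d5937476.shift 0 1), rh63dc2b656e521f0a, (rh68a777751bfeafdf.shift 0 2), (rh7a7e08304268422e.shift 0 2), (rhb71a391a0ebc5b57.shift 0 1)] (by decide +kernel))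
noncomputable def rha0c8bf950112835c : CRef := CRef.mk (Pat.mk 0x60000001400000016000000000000000000000000 0x2a0000003a0000003b0000003e000000160000003e0000001b0000000a00000002 6 6) 0 0 (step_sound _ 164 [rh1d3c4bb267bf41a3, (rh6da38dbe36491ba4.shift 0 2), (rh83a4c5c0feb85724.shift 0 1), (rhb962b7a2607f856f.shift 3 1)] (by decide +kernel))
noncomputable def rhb54ac9c83303b741 : CRef := CRef.mk (Pat.mk 0x12000000030000001200000000 0x50000000f0000001e000000030000001e00000004 6 5) 0 0 (step_sound _ 34 [(rh2fe78cc5ca4405d8.shift 0 1), rh811ecdc7d5521ac8] (by decide +kernel))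
noncomputable def rh5789cbc359d40240 : CRef := CRef.mk (Pat.mk 0x200000003000000020000000400000000 0x50000000700000007000000070000000200000003000000030000000700000005 6 3) 0 0 (step_sound _ 161 [rh087a8def662fd0b5, (rh68a777751bfeafdf.shift 0 2), (rh769be3fe24eee174.shift 0 2), (rha77f215723363df0.shift 0 2), (rhc85cc95794737cf7.shift 0 2)] (by decide +kernel))
noncomputable def rha5e4328302fe4bfa : CRef := CRef.mk (Pat.mk 0x6000000140000001c00000000 0x280000003a0000003b0000003e000000160000003c00000008 6 6) 0 0 (step_sound _ 100 [(rh32431e66bbf434a4.shift 3 0), (rhb8af8f259fde3659.shift 0 1), (rhe47b8b48749ef978.shift 1 0)] (by decide +kernel))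
noncomputable def rh8618d060f83f4227 : CRef := CRef.mk (Pat.mk 0x60000000000000006000000040000000000000000 0x7000000070000000300000006000000070000000300000001 6 3) 0 0 (step_sound _ 129 [(rh2145e1d24b96a57e.shift 1 2), rhd8480aedf4075c15] (by decide +kernel))
noncomputable def rhf69c3ee1f17ba239 : CRef := CRef.mk (Pat.mk 0xa00000018000000500000005000000000 0xa0000000e0000000ef0000007800000058000000f0000000a0 6 8) 0 0 (step_sound _ 102 [(rh23180280a8fd1027.shift 0 3), (rh32650d1bea17c2f2.shift 3 0)] (by decide +kernel))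
noncomputable def rhce03627ab37d97fb : CRef := CRef.mk (Pat.mk 0x200000000000000030000000600000000 0x100000007000000070000000600000003000000030000000600000004 6 3) 0 0 (step_sound _ 97 [(rh42ab489a1be3958e.shift 0 1), (rh55afc6a59410cf00.shift 1 0)] (by decide +kernel))
noncomputable def rhffcca2d88016c230 : CRef := CRef.mk (Pat.mk 0x300000006000000140000001400000000 0x28000000380000003b0000001e000000160000003c00000028 6 6) 0 0 (step_sound _ 100 [(rh2fe78cc5ca4405d8.shift 0 3), (rh32650d1bea17c2f2.shift 1 0)] (by decide +kernel))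
noncomputable def rh3a8aeafbd4c5a8f0 : CRef := CRef.mk (Pat.mk 0x2000000030000000200000000000000000000000000000000 0x50000000700000007000000030000000200000007000000070000000700000005 6 3) 0 0 (step_sound _ 97 [rh0a6888916bcef86b, (rh8cdd36b03d57a2f6.shift 0 1), (rhc85cc95794737cf7.shift 0 3)] (by decide +kernel))
noncomputable def rh9ea6a2e90ec08d42 : CRef := CRef.mk (Pat.mk 0x100000002000000030000000200000000000000000000000000000000 0x100000003000000030000000300000006000000070000000700000001 6 3) 0 0 (step_sound _ 97 [rh4ed972033d0a12ff, (rhffd04209dc8ea796.shift 0 3)] (by decide +kernel))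
noncomputable def rh248783b885999ea2 : CRef := CRef.mk (Pat.mk 0x100000002000000020000000300000000000000000000000000000000 0x100000003000000030000000300000006000000070000000700000001 6 3) 0 0 (step_sound _ 97 [rhafd44d417107dbfd, (rhffd04209dc8ea796.shift 0 3)] (by decide +kernel))
noncomputable def rh71ef8619d44923d6 : CRef := CRef.mk (Pat.mk 0x160000001400000014000000000000000000000000 0x2000000020000000b0000001e0000001600000014000000380000003800000028 6 6) 0 0 (step_sound _ 163 [(rh56259dd1390eee46.shift 3 0), (rh768a472a1ebe455c.shift 0 3)] (by decide +kernel))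
noncomputable def rh615872fc71fadb08 : CRef := CRef.mk (Pat.mk 0xb0000000800000008000000000000000000000000 0x10000000180000001f00000008000000180000001c0000001c00000014 6 5) 0 0 (step_sound _ 67 [(rh4a38b3b3b5efb383.shift 2 0), (rh6eff4158bb400f47.shift 2 0), (rhced6d86d2069808b.shift 3 1), (rhd444dcb48ef11957.shift 0 2)] (by decide +kernel))
noncomputable def rh0c80f618bc7e666c : CRef := CRef.mk (Pat.mk 0x20000000200000003000000100000000000000000 0x6000000060000000700000003000000030000001e0000000600000002 6 5) 0 0 (step_sound _ 65 [rhcaa2c1a05e34bcba, (rhf8edb192cdea7ada.shift 0 1)] (by decide +kernel))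
noncomputable def rhbaa60a195ba1244c : CRef := CRef.mk (Pat.mk 0x200000002000000030000001200000000000000000000000000000000 0x200000003000000030000001f00000003000000070000000700000005 6 5) 0 0 (step_sound _ 97 [rh43d8dfd721575dfb, (rh5192e84255fe3228.shift 0 1), (rh7928877f9bf74a91.shift 0 2), rh89cf5152879421f3, rhb7c0505f48595f23, rhd1779d7de7f8215b] (by decide +kernel))
noncomputable def rhe4628cb10e78390b : CRef := CRef.mk (Pat.mk 0x200000002000000030000000200000000000000000000000000000000 0x200000002000000030000000300000007000000070000000700000005 6 3) 0 0 (step_sound _ 97 [rh4ed972033d0a12ff, (rh54b8034e7f92149e.shift 0 1), (rh7928877f9bf74a91.shift 0 2), rh89cf5152879421f3, (rh8cdd36b03d57a2f6.shift 0 1)] (by decide +kernel))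
noncomputable def rha71d9c0c1280d0ef : CRef := CRef.mk (Pat.mk 0x160000001400000014 0x2a0000003a0000003b0000001f0000001600000014 6 6) 0 0 (step_sound _ 100 [rh27d0a1dca773eab9, rhc7d27719f4944644, (rhc85cc95794737cf7.shift 3 0)] (by decide +kernel))
noncomputable def rh9f44c5443aa17efa : CRef := CRef.mk (Pat.mk 0x800000008000000180000000100000000000000000000000000000000 0x800000018000000180000001f0000001c0000001c0000001c00000004 6 5) 0 0 (step_sound _ 131 [(rh669c503fc29231eb.shift 0 3), (rh6eff4158bb400f47.shift 2 2), (rh9de8c9e57f051075.shift 2 0), (rhb72c6d3b8f00eaae.shift 2 1)] (by decide +kernel))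
noncomputable def rh92758c3412962234 : CRef := CRef.mk (Pat.mk 0x80000000b0000000800000000 0x140000001c0000001c000000080000000f0000001800000010 6 5) 0 0 (step_sound _ 36 [(rhc10214bf3fe8094a.shift 0 1), (rhfb9fb48a5e63ed80.shift 2 0)] (by decide +kernel))
noncomputable def rh6a198d064322c53a : CRef := CRef.mk (Pat.mk 0x80000000800000008000000010000000000000000 0x140000001c0000001c000000080000000c0000000c0000001f0000001c00000010 6 5) 0 0 (step_sound _ 195 [(rh1741680720c097b4.shift 2 3), (rh20966da26a1c2ae8.shift 2 2), rh25b3cf3a604f4e4a, (rh771d065bdc85bf2d.shift 2 2)] (by decide +kernel))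
noncomputable def rhcc771d4fee9aee1c : CRef := CRef.mk (Pat.mk 0x500000005800000041000000600000000000000000 0x50000000780000004f000000f8000000c800000080 6 8) 0 0 (step_sound _ 39 [rh815c100185d6096d, (rhd3458b32566d63f7.shift 6 1)] (by decide +kernel))
noncomputable def rhc6fcfba5efa2f321 : CRef := CRef.mk (Pat.mk 0x50000000c00000000 0xff0000007e000000f0 6 8) 0 0 (step_sound _ 36 [(rh20bb281e5d030845.shift 1 0), (rh4b858afe2cb38247.shift 0 1), (rh71b175d56e26c10e.shift 0 1), (rhc23b2dfc9c6ae24a.shift 0 1)] (by decide +kernel))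
noncomputable def rh5efaf85ec96fcaef : CRef := CRef.mk (Pat.mk 0x2000000030000001200000000 0x5000000070000000700000002000000030000001e00000004 6 5) 0 0 (step_sound _ 34 [rh14e0829dc73b6804, (rh2fe78cc5ca4405d8.shift 0 1)] (by decide +kernel))
noncomputable def rha01615737b922ae1 : CRef := CRef.mk (Pat.mk 0x10000000100000000000000007c00000000 0x10000000180000000c0000000fe000001c7 6 9) 0 0 (step_sound _ 1 [(rh80fcd6d0a18cb2dd.shift 1 0), rhb8616a564591756f] (by decide +kernel))
noncomputable def rh24354257e43b4196 : CRef := CRef.mk (Pat.mk 0x100000000300000003000000010000000000000000 0x60000001e0000000300000003000000070000000600000006 6 5) 0 0 (step_sound _ 161 [rh17fd23ce851b0345, (rh5c5e593799055d58.shift 0 2)] (by decide +kernel))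
noncomputable def rhe215ced92e20fd8a : CRef := CRef.mk (Pat.mk 0x100000001300000019000000090000000000000000 0x60000001e000000130000001b0000000f0000001e0000000e 6 5) 0 0 (step_sound _ 65 [(rh1c62b6193297d9e3.shift 0 2), rhb61fb6ff04036efb] (by decide +kernel))
noncomputable def rhf997647dd5bbd972 : CRef := CRef.mk (Pat.mk 0x8000001c8000000280000000000000000 0x8000001ef0000003e0000007700000004 6 9) 0 0 (step_sound _ 68 [rhb63f02ba8de5f733, (rhca9569cc80abfe76.shift 4 2)] (by decide +kernel))
noncomputable def rh77808b39ab8a0cac : CRef := CRef.mk (Pat.mk 0x18000000080000000800000000000000000000000000000000 0x800000018000000180000000f0000003c0000001c0000001c00000014 6 6) 0 0 (step_sound _ 99 [(rh161c003cd166b8ec.shift 0 2), (rh6eff4158bb400f47.shift 2 1), (rh8c3839f9b9075f23.shift 3 1), (rha8bc3cae4d77a08f.shift 2 1), (rhc94dfb5f501cb051.shift 2 0)] (by decide +kernel))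
noncomputable def rh77e5f4ef6e9d04a2 : CRef := CRef.mk (Pat.mk 0x1000000003000000020000000700000000 0x50000000f0000001e00000003000000030000000700000004 6 5) 0 0 (step_sound _ 129 [(rh55afc6a59410cf00.shift 1 0), (rhe8571d7c96142376.shift 0 1)] (by decide +kernel))
noncomputable def rh2d7b0b458848c264 : CRef := CRef.mk (Pat.mk 0x8000001c000000028000000000000000000000000 0x800000008000001ef0000003e000000770000000400000004 6 9) 0 0 (step_sound _ 100 [rhb72551ddef00dd2f, (rhca9569cc80abfe76.shift 4 3)] (by decide +kernel))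
noncomputable def rh67df99a59361b45d : CRef := CRef.mk (Pat.mk 0x4000000040000000c000000280000000000000000 0x4000000060000000f0000007a0000001f0000000a 6 7) 0 0 (step_sound _ 68 [rh8a734cfb59a2414c, (rhf48373e13d2bc128.shift 2 2)] (by decide +kernel))
noncomputable def rh226a323aaa2d8e76 : CRef := CRef.mk (Pat.mk 0x100000000300000000000000030000000a00000000 0x60000001e0000000300000003000000030000001e00000006 6 5) 0 0 (step_sound _ 34 [rh1f77421b0c693600, (rhf48373e13d2bc128.shift 0 1)] (by decide +kernel))
noncomputable def rha97eafd389ee3ce1 : CRef := CRef.mk (Pat.mk 0x80000000800000008000000010000000000000000 0x140000001c0000001c00000008000000080000000c0000001f0000001c00000010 6 5) 0 0 (step_sound _ 195 [(rh1741680720c097b4.shift 2 3), rh25b3cf3a604f4e4a] (by decide +kernel))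
noncomputable def rhe67f3053ba5f819b : CRef := CRef.mk (Pat.mk 0x800000008000000180000000100000000 0x140000001c0000001c0000001c00000008000000180000001c0000000f00000004 6 5) 0 0 (step_sound _ 163 [(rh1741680720c097b4.shift 2 2), rh2fac48111f756bf7, (rhba97f7f4ade5e136.shift 2 2)] (by decide +kernel))
noncomputable def rhf5becaca8d13cfd1 : CRef := CRef.mk (Pat.mk 0x200000002000000060000000200000000000000000000000000000000 0x200000006000000060000000600000006000000070000000700000005 6 3) 0 0 (step_sound _ 97 [(rhb1fd7ebb07efd631.shift 1 1), (rhd29a1fb688eae70f.shift 1 2), rhffb8e5993241bf15] (by decide +kernel))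
noncomputable def rhcdc097cce0d90129 : CRef := CRef.mk (Pat.mk 0x1e00000008000000080000001800000000 0x30000001e0000000b0000000f0000001f00000004 6 5) 0 0 (step_sound _ 34 [(rh54d147a1c45b3ccb.shift 0 1), (rh932754581e0f4330.shift 2 0)] (by decide +kernel))
noncomputable def rh57c9f7722111bedd : CRef := CRef.mk (Pat.mk 0x2000000060000000200000002 0x500000007000000070000000700000007000000060000000200000002 6 3) 0 0 (step_sound _ 129 [(rh35c5f1c53251aa1b.shift 0 1), rh3ca48e2a6d60153d, (rh44f453b84f013105.shift 1 0), (rh64bc0dab78a08b48.shift 0 1), (rhc85cc95794737cf7.shift 0 1)] (by decide +kernel))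
noncomputable def rheb58cd9086bf9207 : CRef := CRef.mk (Pat.mk 0x2000000020000000200000006000000000 0x2000000020000001fe000001fe0000001f 6 9) 0 0 (step_sound _ 36 [(rh932754581e0f4330.shift 4 0), rhf0ac6d9d623f5fa8] (by decide +kernel))
noncomputable def rha9f0a90eae30720a : CRef := CRef.mk (Pat.mk 0x4000000000000000c000000380000000000000000 0x400000004000000060000000f0000003a0000001f0000000a 6 6) 0 0 (step_sound _ 130 [(rh2145e1d24b96a57e.shift 2 2), rh8a734cfb59a2414c] (by decide +kernel))
noncomputable def rh841553787619cd75 : CRef := CRef.mk (Pat.mk 0xc00000001800000000 0xe70000007e00000070 6 8) 0 0 (step_sound _ 37 [(rh3fc040e777f1679e.shift 3 1), rha2e182fd6274be10] (by decide +kernel))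
noncomputable def rh5465040e47158a83 : CRef := CRef.mk (Pat.mk 0x10000000030000000200000001000000000000000000000000 0x1000000050000001f000000030000000200000003000000070000000700000005 6 5) 0 0 (step_sound _ 97 [rh0a6888916bcef86b, rh281c6819542c66e6, (rh8ca74fa25325e393.shift 0 2), (rhb1a251d9bff81766.shift 0 2)] (by decide +kernel))
noncomputable def rh03ba50a68dc25bae : CRef := CRef.mk (Pat.mk 0x400000005000000058000000410000000000000000 0x400000005000000078000000ef0000007800000028 6 8) 0 0 (step_sound _ 67 [(rh6a63694b978e6cfd.shift 0 2), (rhc37667a07b8b8963.shift 2 0), (rhfb187e564bf2ca3f.shift 3 0)] (by decide +kernel))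
noncomputable def rh347ddf50cadeb605 : CRef := CRef.mk (Pat.mk 0x10000000030000000200000001000000000000000000000000 0x5000000070000001f000000030000000200000003000000070000000700000005 6 5) 0 0 (step_sound _ 97 [rh0a6888916bcef86b, (rh32431e66bbf434a4.shift 0 2), (rh8ca74fa25325e393.shift 0 2), (rhb1a251d9bff81766.shift 0 2)] (by decide +kernel))
noncomputable def rhdcc9e41eff6e2938 : CRef := CRef.mk (Pat.mk 0x400000006000000100000003800000000 0x400000006000000fa000000fe000001c7 6 9) 0 0 (step_sound _ 34 [(rh096767d96a1b3292.shift 2 0), rh88911ce725f0794c, (rhec46bd5500c722c9.shift 1 1)] (by decide +kernel))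
noncomputable def rh3ec3bdfe76766f99 : CRef := CRef.mk (Pat.mk 0x2000000060000000200000004000000000000000000000000 0x7000000070000000300000006000000070000000300000001 6 3) 0 0 (step_sound _ 97 [(rh55afc6a59410cf00.shift 1 2), rhd8480aedf4075c15] (by decide +kernel))
noncomputable def rh36ba5421c6344682 : CRef := CRef.mk (Pat.mk 0xa0000000800000008000000080000000000000000 0x1f0000007c000000080000000c0000000c00000004 6 7) 0 0 (step_sound _ 34 [(rh79877ebd3ef475dd.shift 2 1), rh9b23d4ea40a77713] (by decide +kernel))
noncomputable def rh419bf8da7067186a : CRef := CRef.mk (Pat.mk 0x2200000006000000020000000200000000 0x1d0000003f00000006000000060000000600000004 6 6) 0 0 (step_sound _ 130 [(rh2f68792b6b779e96.shift 1 1), rhf923c04afa70894d] (by decide +kernel))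
noncomputable def rh96d52616c08cd483 : CRef := CRef.mk (Pat.mk 0x1800000008000000080000000000000000 0x100000001c0000001c0000000c000000180000001f0000003c0000001c00000014 6 6) 0 0 (step_sound _ 163 [(rh641b5241be04eec6.shift 0 1), (rh6eff4158bb400f47.shift 2 0), (rh72afbdc90680d7b8.shift 2 2), (rh771d065bdc85bf2d.shift 2 1)] (by decide +kernel))
noncomputable def rh2d3cd0799cc460f5 : CRef := CRef.mk (Pat.mk 0x20000000200000002000000000000000000000000 0x400000006000000060000000200000007000000070000000700000005 6 3) 0 0 (step_sound _ 65 [(rh20966da26a1c2ae8.shift 0 1), rh4a38b3b3b5efb383, rh6eff4158bb400f47, (rhced6d86d2069808b.shift 1 1)] (by decide +kernel))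
noncomputable def rhc9b40e78a993a2ef : CRef := CRef.mk (Pat.mk 0xa0000000a0000000a000000000000000000000000 0x40000000c0000001e0000000b0000001e0000001c0000001c00000014 6 5) 0 0 (step_sound _ 67 [(rh5abfc4c9d959be03.shift 2 1), (rh6841182e24ff097b.shift 0 1), (rh6eff4158bb400f47.shift 2 0)] (by decide +kernel))
noncomputable def rh7de3bcb9295995b8 : CRef := CRef.mk (Pat.mk 0xa0000000a0000000a00000000 0x140000001c0000003c0000001e0000000b0000001e0000000c 6 6) 0 0 (step_sound _ 131 [rh3792a85d7f7b8435, rh900d8766da5c1ea5, (rhc85cc95794737cf7.shift 2 1)] (by decide +kernel))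
noncomputable def rh65a6f61db85a7574 : CRef := CRef.mk (Pat.mk 0x100000000300000002000000000000000000000000 0x70000000f0000001f0000000300000003000000070000000700000005 6 5) 0 0 (step_sound _ 161 [rh6892b8f6cd97ee11, (rh6c1e14971d560b91.shift 0 2), rh840822eea913cb57, (rhc47fe1bc6b175f77.shift 0 1)] (by decide +kernel))
noncomputable def rh5ba6f16b7fda75b7 : CRef := CRef.mk (Pat.mk 0x1000000003000000180000000c000000000000000000000000 0x40000001f000000030000001b0000000f000000070000000300000001 6 5) 0 0 (step_sound _ 97 [(rh53b3c253cb0c65f4.shift 0 3), rhdbcee09a3a0a9a82] (by decide +kernel))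
noncomputable def rh9867bd140e7f6515 : CRef := CRef.mk (Pat.mk 0xf00000004 0xf80000007f000000e7 6 8) 0 0 (step_sound _ 36 [(rh352b7f91eba0c81f.shift 1 0), (rh9890f9d77740bbed.shift 0 1), rhaf9f2efc81a8312b] (by decide +kernel))
noncomputable def rh00447bb1c7c2959a : CRef := CRef.mk (Pat.mk 0x1c00000018000000080000000000000000 0x4000000060000007c0000001f0000000f0000000200000002 6 7) 0 0 (step_sound _ 98 [(rh0f936b2c74e7b815.shift 1 2), (rh4dc133ee0ba1420a.shift 0 3), rh8f7039354bfc4ec2, (rhf9d36e158778ce35.shift 1 3)] (by decide +kernel))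
noncomputable def rh1a7eb5e396bb8c9b : CRef := CRef.mk (Pat.mk 0x1000000018000000080000001000000000 0x800000018000000180000000f0000003c0000001c 6 6) 0 0 (step_sound _ 35 [rh1779f98266d6b43c, (rh71222050f2c63a3a.shift 3 0)] (by decide +kernel))
noncomputable def rha18a0865670cd0c9 : CRef := CRef.mk (Pat.mk 0x90000000180000008c00000004 0xf00000001f000000ff00000006 6 8) 0 0 (step_sound _ 101 [(rh361cc68994bd8a63.shift 3 2), rhf73822d951402eec] (by decide +kernel))
noncomputable def rh75868a9e50128894 : CRef := CRef.mk (Pat.mk 0x180000008e00000004 0x3000000030000001f000000fe00000007 6 8) 0 0 (step_sound _ 36 [(rh7a89dccc93a85add.shift 1 0), rh9cf50a99ea0d1827, (rhc88bd8ef876df7ce.shift 0 1)] (by decide +kernel))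
noncomputable def rh977f273f77c6f2be : CRef := CRef.mk (Pat.mk 0x1800000018000000080000000000000000 0x800000018000000180000000f0000003c0000001c 6 6) 0 0 (step_sound _ 35 [rh161c003cd166b8ec, (rh71222050f2c63a3a.shift 3 0)] (by decide +kernel))
noncomputable def rh622c01dda223eab7 : CRef := CRef.mk (Pat.mk 0x38000000100000001800000000 0x80000000c0000001f000000380000001f0000001f00000004 6 6) 0 0 (step_sound _ 131 [(rha3df16ea9c8576c8.shift 3 1), (rhc89253ff58c66167.shift 3 1), rhd09ca09ec644202f, (rhe072fffdd2fccf38.shift 3 1)] (by decide +kernel))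
noncomputable def rhcb74c5356c5222da : CRef := CRef.mk (Pat.mk 0x100000001e0000000000000000 0x200000007000000070000001f0000001e0000000700000002 6 5) 0 0 (step_sound _ 33 [rhd36d4a8e4624e168, (rheb0810cc63b001d8.shift 0 1)] (by decide +kernel))
noncomputable def rhd33e7d4e73f2717f : CRef := CRef.mk (Pat.mk 0x9000000018000000080000000c00000000 0x4000000ff0000001f000000080000000c00000004 6 8) 0 0 (step_sound _ 131 [(rh34d5700d8f1990b7.shift 0 1), (rh932754581e0f4330.shift 2 0)] (by decide +kernel))
noncomputable def rh935c211bcea6f07b : CRef := CRef.mk (Pat.mk 0x2c0000002700000026000000000000000000000000 0x80000002c000000370000003e0000001e0000001200000010 6 6) 0 0 (step_sound _ 100 [(rh2fe78cc5ca4405d8.shift 0 3), (rhf2d7eac35964e1f3.shift 1 0)] (by decide +kernel))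
noncomputable def rha069e29cc8d9dd6b : CRef := CRef.mk (Pat.mk 0x100000001a000000380000000000000000 0x40000001f0000001b0000003c0000000f0000000c 6 6) 0 0 (step_sound _ 35 [(rh71222050f2c63a3a.shift 3 0), rh73f0dabaeeedad6d] (by decide +kernel))
noncomputable def rhbe729c04bbd91ea3 : CRef := CRef.mk (Pat.mk 0x90000000180000008e00000000 0xf00000001f000000fe00000007 6 8) 0 0 (step_sound _ 101 [(rh361cc68994bd8a63.shift 3 2), rhaf41f0584532b69f] (by decide +kernel))
noncomputable def rhc4e1d4dad1b26723 : CRef := CRef.mk (Pat.mk 0x10000000300000001c0000008e00000000 0x20000000740000003e0000001c000000fe00000023 6 8) 0 0 (step_sound _ 36 [rhaa28b8c701868628, (rhf8edb192cdea7ada.shift 3 0)] (by decide +kernel))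
noncomputable def rh1f520a9b16a837d1 : CRef := CRef.mk (Pat.mk 0x1000000090000000180000001e000000000000000000000000 0x2000000074000000fe0000001c0000001e000000070000000200000002 6 8) 0 0 (step_sound _ 65 [(rh846e8b4aebc3e3e0.shift 1 0), (rheb0810cc63b001d8.shift 0 2)] (by decide +kernel))
noncomputable def rh8726170846d6d67a : CRef := CRef.mk (Pat.mk 0x60000000380000001c000000000000000000000000 0xc0000000c0000007f000000380000001c0000000c0000000c0000000c 6 7) 0 0 (step_sound _ 163 [rh2979266e3fdf211e, (rh37d9ceebb86d75d1.shift 2 2), (rh9dc6f17ef8893ffe.shift 2 3)] (by decide +kernel))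
noncomputable def rh9c93fb6e6b33f62b : CRef := CRef.mk (Pat.mk 0x600000003800000018000000000000000000000000 0xc0000000c00000078000000380000003e0000000f0000000c00000008 6 7) 0 0 (step_sound _ 98 [rh20264b3a54b954e4, (rh53b3c253cb0c65f4.shift 1 3)] (by decide +kernel))
noncomputable def rh97f2b2d2f7d0ce77 : CRef := CRef.mk (Pat.mk 0x180000001e00000000 0x5000000070000000f0000001b0000001e00000007 6 5) 0 0 (step_sound _ 65 [rh18038d47ab4cd7b4, (rh3244c3cc8379b070.shift 0 1)] (by decide +kernel))
noncomputable def rh2a57b76fa718e9ce : CRef := CRef.mk (Pat.mk 0x10000000100000001c0000008e000000000000000000000000 0x100000001c0000001c000000fe000000270000000600000006 6 8) 0 0 (step_sound _ 100 [rhee46f363a617db69, (rhf8edb192cdea7ada.shift 3 2)] (by decide +kernel))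
noncomputable def rh3fda782e653ad606 : CRef := CRef.mk (Pat.mk 0x800000088000000180000000000000000 0x8000001ef0000007e0000007700000004 6 9) 0 0 (step_sound _ 69 [(rh1f36686c55693598.shift 2 2), (rh241ddf12d4fc9298.shift 2 2), rh3eed729d5e4e6a62, (rha9fbfd4bb8cf890b.shift 0 2)] (by decide +kernel))
noncomputable def rhbc19a59b7772b8df : CRef := CRef.mk (Pat.mk 0x100000000300000003000000000000000000000000 0x400000004000000060000001e0000000300000003000000070000000700000006 6 5) 0 0 (step_sound _ 161 [rh17fd23ce851b0345, (rh1e309b005ffa1b36.shift 0 1), (rh566659606c8abe04.shift 0 2)] (by decide +kernel))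
noncomputable def rh73c8d186d16263ed : CRef := CRef.mk (Pat.mk 0x180000001c000000080000000000000000 0x180000001f0000003f0000003000000030 6 6) 0 0 (step_sound _ 97 [(rh53b3c253cb0c65f4.shift 0 3), rhd3114851a34382be] (by decide +kernel))
noncomputable def rhd301bf5e6d0f77b5 : CRef := CRef.mk (Pat.mk 0xc0000001e000000040000000000000000 0xc0000001e0000003f0000003300000012 6 6) 0 0 (step_sound _ 65 [rh7d56e8d224b77559, (rheb0810cc63b001d8.shift 0 2)] (by decide +kernel))
noncomputable def rh1705b5bddb0730dc : CRef := CRef.mk (Pat.mk 0xc0000001c000000040000000000000000 0xc0000001c000000170000003e0000003e 6 6) 0 0 (step_sound _ 34 [rh5d7cb07254d911d1, (rh71222050f2c63a3a.shift 2 0)] (by decide +kernel))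
noncomputable def rh031d69212e73bc3d : CRef := CRef.mk (Pat.mk 0x100000000300000007000000000000000000000000 0x400000006000000060000001e0000000300000007000000060000000600000006 6 5) 0 0 (step_sound _ 161 [rh17fd23ce851b0345, (rh566659606c8abe04.shift 0 2), (rh571950d89739e871.shift 0 2)] (by decide +kernel))
noncomputable def rh7881bba1e7287282 : CRef := CRef.mk (Pat.mk 0x170000001300000011000000010000000000000000 0x4000000170000001b0000001f0000000f0000000a00000008 6 5) 0 0 (step_sound _ 65 [(rh55afc6a59410cf00.shift 0 1), rh97c0bb1b783a0a3e] (by decide +kernel))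
noncomputable def rh06ff295b6d86d646 : CRef := CRef.mk (Pat.mk 0x30000000180000000800000000 0x14000000170000003f0000001f0000000800000008 6 6) 0 0 (step_sound _ 132 [(rh5c5e593799055d58.shift 3 1), rh94cc295130127ea4] (by decide +kernel))
noncomputable def rh27855273df6c2703 : CRef := CRef.mk (Pat.mk 0x1e00000000000000080000000c00000000 0x30000001e000000030000001f0000000f00000001 6 5) 0 0 (step_sound _ 97 [rh1ddec4e30dd9809f, (rheb0810cc63b001d8.shift 0 3)] (by decide +kernel))
noncomputable def rh4bf6b1e7eedfffec : CRef := CRef.mk (Pat.mk 0x980000009800000088000000180000000000000000 0x98000000d8000000fe0000007f0000006400000040 6 8) 0 0 (step_sound _ 66 [(rh932754581e0f4330.shift 2 1), rhb5c5a84caed5313f] (by decide +kernel))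
noncomputable def rh2a3410f35ae37ac3 : CRef := CRef.mk (Pat.mk 0x3800000010000000100000001000000000 0x70000003e0000007f0000001c0000001800000008 6 7) 0 0 (step_sound _ 35 [(rh470da441c69304ab.shift 0 1), (rh932754581e0f4330.shift 3 0)] (by decide +kernel))
noncomputable def rh7b652c76862f91c0 : CRef := CRef.mk (Pat.mk 0x1a0000001a00000000 0x5000000070000000f0000001b0000001e00000007 6 5) 0 0 (step_sound _ 34 [rh18038d47ab4cd7b4, (rh3244c3cc8379b070.shift 0 1)] (by decide +kernel))
noncomputable def rhd7614075a314ac03 : CRef := CRef.mk (Pat.mk 0x80000000c0000000d00000000000000000000000000000000 0xc0000000c0000000f000000180000001c0000001c00000014 6 5) 0 0 (step_sound _ 99 [(rh0a6888916bcef86b.shift 2 0), (rh2d65c91b9f714cee.shift 0 2), (rh3cb04db3dd2b6a55.shift 2 1), (rh820d4e04d5dcd02e.shift 2 1)] (by decide +kernel))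
noncomputable def rhd060b3d5e535238f : CRef := CRef.mk (Pat.mk 0x900000001a0000000e000000000000000000000000 0x20000000f00000001b0000001e000000300000003000000030 6 8) 0 0 (step_sound _ 100 [(rh17fd23ce851b0345.shift 3 0), (rh3244c3cc8379b070.shift 0 3)] (by decide +kernel))
noncomputable def rh4375175ccf5b7eff : CRef := CRef.mk (Pat.mk 0x300000001c000000080000000800000000 0x4000000670000003f0000001c0000001c0000001c00000014 6 7) 0 0 (step_sound _ 130 [rh4a6d9446b9c372e1, (rhc89253ff58c66167.shift 2 1), (rhe072fffdd2fccf38.shift 2 1)] (by decide +kernel))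
noncomputable def rhb5cbc1e91eff6b9d : CRef := CRef.mk (Pat.mk 0x180000000c0000004c000000000000000000000000 0x10000000180000000f0000007c000000180000001800000018 6 7) 0 0 (step_sound _ 100 [(rh2fe78cc5ca4405d8.shift 2 3), rha3902abeb940fc5f] (by decide +kernel))
noncomputable def rh0492a7d5283b4883 : CRef := CRef.mk (Pat.mk 0x90000000180000000e000000000000000000000000 0x3000000030000000f8000000180000003e000000370000001000000010 6 8) 0 0 (step_sound _ 196 [(rh5c5e593799055d58.shift 3 3), rhd0dc6b68d4309584] (by decide +kernel))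
noncomputable def rh28b3bf37c937e8c2 : CRef := CRef.mk (Pat.mk 0x120000001a0000000a000000000000000000000000 0x1100000013000000130000001b0000000b000000070000000700000005 6 5) 0 0 (step_sound _ 196 [(rh5c5e593799055d58.shift 3 3), rhe95a2e51b0ee5fdb] (by decide +kernel))
noncomputable def rh65ced04ba907505c : CRef := CRef.mk (Pat.mk 0x10000000030000000140000001c000000020000000000000000 0x2000000020000001f40000003c000000140000001e000000030000000200000002 6 9) 0 0 (step_sound _ 97 [(rha16436d1a6b5a15a.shift 1 0), (rheb0810cc63b001d8.shift 0 2)] (by decide +kernel))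
noncomputable def rh8669cd65c4e7d87e : CRef := CRef.mk (Pat.mk 0x100000000300000003000000000000000000000000 0x2000000060000001f0000000300000007000000060000000600000006 6 5) 0 0 (step_sound _ 65 [rh3cb04db3dd2b6a55, rh504e55626661b5b1, (rhbe0f45732cd1136c.shift 0 1)] (by decide +kernel))
noncomputable def rh56d57b1e31de0a32 : CRef := CRef.mk (Pat.mk 0xc0000004d0000000800000000 0x1800000018000000180000000c0000007f0000001800000010 6 7) 0 0 (step_sound _ 68 [(rh2fe78cc5ca4405d8.shift 2 2), rha4276a768bedc78f] (by decide +kernel))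
noncomputable def rh21364e90c6c8326e : CRef := CRef.mk (Pat.mk 0x1800000018000000100000001800000000 0x180000001c000000770000003e00000027 6 7) 0 0 (step_sound _ 37 [(rh55afc6a59410cf00.shift 4 0), rh8732e2b9fb7196fd] (by decide +kernel))
noncomputable def rh560217ebcccc098c : CRef := CRef.mk (Pat.mk 0x1a0000001a0000000000000000 0x4000000070000000f0000001b0000001e0000000700000004 6 5) 0 0 (step_sound _ 66 [(rh3244c3cc8379b070.shift 0 2), rhad48d9bf8f1ee86a] (by decide +kernel))
noncomputable def rh8dd3cf5188c481bd : CRef := CRef.mk (Pat.mk 0x180000001e0000000000000000 0x4000000070000000f0000001b0000001e0000000700000004 6 5) 0 0 (step_sound _ 97 [(rh3244c3cc8379b070.shift 0 2), rhad48d9bf8f1ee86a] (by decide +kernel))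
noncomputable def rhae268b90781990cd : CRef := CRef.mk (Pat.mk 0x20000001a00000002000000000000000000000000 0x4000000060000000f0000001b00000003000000070000000700000005 6 5) 0 0 (step_sound _ 65 [(rh20966da26a1c2ae8.shift 0 1), rh8cdd36b03d57a2f6, rhda307489dc5a66df] (by decide +kernel))
noncomputable def rhbfb085386a0300a6 : CRef := CRef.mk (Pat.mk 0x100000001e0000001a00000000 0x34000000340000001f0000001e0000001a00000002 6 6) 0 0 (step_sound _ 97 [(rh3244c3cc8379b070.shift 0 2), (rh66ceed8bf3248660.shift 1 0)] (by decide +kernel))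
noncomputable def rh323c3e782ab9eec1 : CRef := CRef.mk (Pat.mk 0x1800000010000000180000001800000000 0x240000003f0000001f000000180000001800000010 6 6) 0 0 (step_sound _ 99 [(rh6aa3e7e8646654a4.shift 0 1), (rh7b1f1fb55310c477.shift 3 0)] (by decide +kernel))
end Crest.Agent.S0047.Helper85.Cert
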