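import Crest.Agent.Lib.S0047.Helper85CertPL5F0
import Crest.Agent.Lib.S0047.Helper85CertPL5F1
import Crest.Agent.Lib.S0047.Helper85CertPL5F2
import Crest.Agent.Lib.S0047.Helper85CertPL5F3
import Crest.Agent.Lib.S0047.Helper85CertPL5F4
import Crest.Agent.Lib.S0047.Helper85CertPL5F5
import Crest.Agent.Lib.S0047.Helper85CertPL5F6
import Crest.Agent.Lib.S0047.Helper85CertPL5F7
import Crest.Agent.Lib.S0047.Helper85CertPL5F8
import Crest.Agent.Lib.S0047.Helper85CertPL5F9
import Crest.Agent.Lib.S0047.Helper85CertPL5F10
import Crest.Agent.Lib.S0047.Helper85CertPL5F11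
import Crest.Agent.Lib.S0047.Helper85CertPL5F12
set_option autoImplicit false
set_option linter.all false
set_option Elab.async false
namespace Crest.Agent.S0047.Helper85.Cert
open Crest.Agent.S0047.Helper85

noncomputable def rh8a1dec1aefe40e23 : CRef := CRef.mk (Pat.mk 0x18000000d0000000180000000800000000 0x80000000c0000007f000000df0000001c0000000c00000004 6 8) 0 0 (step_sound _ 133 [rh90a0cf1c31118684, (rhd6e447e81774439e.shift 3 3)] (by decide +kernel))
noncomputable def rh154b848d22aa446a : CRef := CRef.mk (Pat.mk 0x3800000010000000180000000800000000 0x240000003f0000001f000000180000001800000010 6 6) 0 0 (step_sound _ 36 [(rh2f68792b6b779e96.shift 4 1), rh6b142fe5f73d4798] (by decide +kernel))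
noncomputable def rh488868f7fba40c60 : CRef := CRef.mk (Pat.mk 0x1e00000018000000000000000000000000 0x2000000020000000f0000001e0000001f000000340000001400000010 6 6) 0 0 (step_sound _ 97 [(rheb0810cc63b001d8.shift 0 3), rhf5f0dba94bc921f7] (by decide +kernel))
noncomputable def rh8da403d76f906cad : CRef := CRef.mk (Pat.mk 0x200000002700000026000000000000000000000000 0x23000000370000003e0000001e0000001600000016 6 6) 0 0 (step_sound _ 100 [(rh2fe78cc5ca4405d8.shift 0 3), rh7377ea77f49f58b2] (by decide +kernel))
noncomputable def rh75d4fd59e4d145ad : CRef := CRef.mk (Pat.mk 0x1e000000180000000000000000 0x4000000040000000f0000001e0000001f0000000b0000000b 6 5) 0 0 (step_sound _ 65 [rh98585738a0acbd68, (rheb0810cc63b001d8.shift 0 2)] (by decide +kernel))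
noncomputable def rh4dee3fdaf4de46c6 : CRef := CRef.mk (Pat.mk 0x3800000018000000100000000000000000 0xc0000001f00000038000000180000001c0000000c0000000c 6 6) 0 0 (step_sound _ 163 [(rh2145e1d24b96a57e.shift 3 2), rhe97cde4106ffba59] (by decide +kernel))
noncomputable def rhe68d15c665397540 : CRef := CRef.mk (Pat.mk 0x8000000180000001c0000000000000000 0x2000000020000000f0000001f0000007c0000000600000004 6 7) 0 0 (step_sound _ 98 [(rh6292bd8784ece55f.shift 1 2), rhaed54c24fb91f24a, (rhe2b63c00a3d7bb73.shift 0 2), (rhf32f861d69cb038f.shift 1 0)] (by decide +kernel))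
noncomputable def rh0fa1ea53a9bfe99c : CRef := CRef.mk (Pat.mk 0x1000000008000000180000001000000000 0x1c0000003c0000000f000000180000001800000008 6 6) 0 0 (step_sound _ 131 [(rh2145e1d24b96a57e.shift 3 1), rh6bc015b9268c8423] (by decide +kernel))
noncomputable def rh36977a2b8622bef5 : CRef := CRef.mk (Pat.mk 0x40000008c0000001800000090 0x6000000ff0000001f000000f0 6 8) 0 0 (step_sound _ 5 [(rh2fe78cc5ca4405d8.shift 3 0), rh4809bac70b018c84] (by decide +kernel))
noncomputable def rhe898db53b4b114be : CRef := CRef.mk (Pat.mk 0x40000008e000000180000000000000000 0x7000000fe0000001f0000000300000003 6 8) 0 0 (step_sound _ 100 [(rh8ce3cabf63226892.shift 1 2), rh90b3399dfa71cac9, (rhec97714989e1f650.shift 0 2)] (by decide +kernel))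
noncomputable def rh1cf393a818e1cca8 : CRef := CRef.mk (Pat.mk 0x8000000180000001800000000 0x1c0000003c0000000f000000180000001800000008 6 6) 0 0 (step_sound _ 131 [(rh2145e1d24b96a57e.shift 3 1), rh245d56c915813f64] (by decide +kernel))
noncomputable def rh34fc9dbd5bc3b2df : CRef := CRef.mk (Pat.mk 0x180000001000000038000000000000000000000000 0x40000001f0000001f000000380000001f0000000c00000008 6 6) 0 0 (step_sound _ 67 [(rh42548283029e2a39.shift 3 0), (rh465ff67eb4af07a7.shift 0 1), (rhd64d7be5d7225cce.shift 3 1), (rhf9af042da61fc652.shift 3 0)] (by decide +kernel))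
noncomputable def rhbb9fa87427d0f17b : CRef := CRef.mk (Pat.mk 0x1e00000010000000000000000000000000 0x2000000070000001e0000001f000000070000000700000002 6 5) 0 0 (step_sound _ 161 [(rh3244c3cc8379b070.shift 0 4), rha7736fc44ab3d547] (by decide +kernel))
noncomputable def rh02812f49083e4b14 : CRef := CRef.mk (Pat.mk 0xc00000008000000180000009000000000 0x40000000c000000080000001f000000ff00000004 6 8) 0 0 (step_sound _ 35 [rh0dbd3b11c4ccf994, (rh50fbb5868c909700.shift 2 1)] (by decide +kernel))
noncomputable def rh4e516b2484174def : CRef := CRef.mk (Pat.mk 0x26000000270000002c00000000 0x10000000120000001e0000003e000000370000002c00000008 6 6) 0 0 (step_sound _ 100 [(rh361cc68994bd8a63.shift 0 2), (rh3ca07d9a9386ae9f.shift 1 0)] (by decide +kernel))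
noncomputable def rha5673595b8209775 : CRef := CRef.mk (Pat.mk 0x380000001a0000001000000000 0xc0000000f0000003c0000001b0000001f00000004 6 6) 0 0 (step_sound _ 131 [(rh2145e1d24b96a57e.shift 3 1), rh5b34d951e5a5ce6e] (by decide +kernel))
noncomputable def rh9cfb2c644ad64779 : CRef := CRef.mk (Pat.mk 0x8e0000001800000090 0x7000000fe0000001f000000f0 6 8) 0 0 (step_sound _ 5 [rh2361c33c60746140, (rh2fe78cc5ca4405d8.shift 3 0)] (by decide +kernel))
noncomputable def rhb76c55424e788e85 : CRef := CRef.mk (Pat.mk 0x8e0000001c000000300000001000000000 0x23000000fe0000001c0000003e0000007400000020 6 8) 0 0 (step_sound _ 132 [(rh04e571695666b5c1.shift 3 1), rh895c833186b12ce8] (by decide +kernel))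
noncomputable def rh06db59202ed77879 : CRef := CRef.mk (Pat.mk 0x1e00000018000000900000001000000000 0x200000002000000070000001e0000001c000000fe0000007400000020 6 8) 0 0 (step_sound _ 161 [(rh3244c3cc8379b070.shift 0 4), (rheac63212b8ca318a.shift 1 0)] (by decide +kernel))
noncomputable def rh4c81e2c2f587c163 : CRef := CRef.mk (Pat.mk 0x1c00000038000000600000000000000000 0xc0000000c0000000c0000001c000000380000007f0000000c0000000c 6 7) 0 0 (step_sound _ 67 [(rh08714bc0cbbade30.shift 0 1), (rh40241bd608e5be1a.shift 2 0), (rhe58a7845769190f3.shift 2 0)] (by decide +kernel))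
noncomputable def rhe108e6229bd24660 : CRef := CRef.mk (Pat.mk 0x1800000038000000600000000000000000 0x80000000c0000000f0000003e00000038000000780000000c0000000c 6 7) 0 0 (step_sound _ 130 [rh3b36c3ab6ac31419, (rhb739f4f82bb681b4.shift 1 3)] (by decide +kernel))
noncomputable def rh6b9ebbe3865fa35c : CRef := CRef.mk (Pat.mk 0x1e00000018000000000000000000000000 0x70000001e0000001b0000000f0000000700000005 6 5) 0 0 (step_sound _ 97 [rh8610c4c735bf7740, (rheb0810cc63b001d8.shift 0 3)] (by decide +kernel))
noncomputable def rh219e53d99be77634 : CRef := CRef.mk (Pat.mk 0x8e0000001c0000001000000010 0x60000000600000027000000fe0000001c0000001c00000010 6 8) 0 0 (step_sound _ 100 [(rh04e571695666b5c1.shift 3 0), (rhd69105b122185076.shift 0 1)] (by decide +kernel))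
noncomputable def rh18f8164b15c92bf2 : CRef := CRef.mk (Pat.mk 0x180000008800000008 0x4000000770000007e000001ef00000008 6 9) 0 0 (step_sound _ 69 [(rh2820ca9a6c4f41b4.shift 0 1), rh50de79483cb23e8a, (rhe80c67fb403a51c5.shift 2 1), (rhf1af73716833b731.shift 2 1)] (by decide +kernel))
noncomputable def rhf95abc4b8f36a2a2 : CRef := CRef.mk (Pat.mk 0x30000000300000010000000000000000000000000 0x6000000070000000700000003000000030000001e000000060000000400000004 6 5) 0 0 (step_sound _ 97 [(rh36d02af028602191.shift 0 2), rh4c145d583973abd2, (rhfc7c29d8e65d775f.shift 0 2)] (by decide +kernel))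
noncomputable def rh2048d06f84da4daa : CRef := CRef.mk (Pat.mk 0x80000001c00000018 0x30000000300000003f0000001f00000018 6 6) 0 0 (step_sound _ 33 [rh1973362723cba897, rhb739f4f82bb681b4] (by decide +kernel))
noncomputable def rhcd519a09ec6258d6 : CRef := CRef.mk (Pat.mk 0x40000001e0000000c 0x12000000330000003f0000001e0000000c 6 6) 0 0 (step_sound _ 65 [(rh3244c3cc8379b070.shift 0 1), rh3ee0f9ff4219760a] (by decide +kernel))
noncomputable def rh4e6823d394bf7bfe : CRef := CRef.mk (Pat.mk 0x70000000300000010000000000000000000000000 0x6000000060000000600000007000000030000001e000000060000000600000004 6 5) 0 0 (step_sound _ 97 [(rh36d02af028602191.shift 0 2), rh4c145d583973abd2, (rhb0c1e7919d9be92d.shift 0 1)] (by decide +kernel))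
noncomputable def rh6fe090fbac8927f0 : CRef := CRef.mk (Pat.mk 0x100000011000000130000001700000000 0x80000000a0000000f0000001f0000001b0000001700000004 6 5) 0 0 (step_sound _ 129 [(rh2f68792b6b779e96.shift 0 1), rha61bfc5754658db7] (by decide +kernel))
noncomputable def rhf3b59606dd37b422 : CRef := CRef.mk (Pat.mk 0x800000018000000300000000000000000 0x8000000080000001f0000003f0000001700000014 6 6) 0 0 (step_sound _ 36 [rh4b2b880cbb34d314, (rh7b1f1fb55310c477.shift 3 0)] (by decide +kernel))
noncomputable def rh5077d2cacf8e5f3c : CRef := CRef.mk (Pat.mk 0x1800000008000000080000001e00000000 0x40000001f0000000f0000000b0000001e00000003 6 5) 0 0 (step_sound _ 130 [(rh50fbb5868c909700.shift 2 1), rhcf6ec0c8f6d8b380] (by decide +kernel))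
noncomputable def rh3bc8ed1d6b1c7272 : CRef := CRef.mk (Pat.mk 0xc00000008000000000000001e00000000 0x10000000f0000001f000000030000001e00000003 6 5) 0 0 (step_sound _ 65 [(rh3244c3cc8379b070.shift 0 1), rhc28ac7ca760d1989] (by decide +kernel))
noncomputable def rhcf11c0eee73f9cda : CRef := CRef.mk (Pat.mk 0x18000000880000009800000098 0x40000000640000007f000000fe000000d800000098 6 8) 0 0 (step_sound _ 98 [(rh50fbb5868c909700.shift 2 0), rh9c2f02d95e60a8a4] (by decide +kernel))
noncomputable def rhe37fdd2e3b95777f : CRef := CRef.mk (Pat.mk 0x1000000010000000100000003800000000 0x8000000180000001c0000007f0000003e00000007 6 7) 0 0 (step_sound _ 131 [(rh50fbb5868c909700.shift 3 1), rh9990f05971d35594] (by decide +kernel))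
noncomputable def rhba2d13ad16ecf2cf : CRef := CRef.mk (Pat.mk 0x1a0000001a000000000000000000000000 0x70000001e0000001b0000000f0000000700000005 6 5) 0 0 (step_sound _ 130 [rh8610c4c735bf7740, (rheb0810cc63b001d8.shift 0 3)] (by decide +kernel))
noncomputable def rh14b51fa663a18e28 : CRef := CRef.mk (Pat.mk 0xd0000000c00000008 0x140000001c0000001c000000180000000f0000000c0000000c 6 5) 0 0 (step_sound _ 99 [(rh32431e66bbf434a4.shift 2 0), (rh503dd4575245365b.shift 2 0), (rh5fa50b509d4ce753.shift 2 0), rh7e143111a189f2ad] (by decide +kernel))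
noncomputable def rh3efefa0de97aa889 : CRef := CRef.mk (Pat.mk 0xe0000001a0000009000000000 0x3000000030000000300000001e0000001b000000f000000020 6 8) 0 0 (step_sound _ 100 [(rh36d02af028602191.shift 3 0), (rheb0810cc63b001d8.shift 0 2)] (by decide +kernel))
noncomputable def rh8ad0d95ce80b5906 : CRef := CRef.mk (Pat.mk 0x8000000080000001c000000300000000000000000 0x140000001c0000001c0000001c0000003f0000006700000004 6 7) 0 0 (step_sound _ 66 [(rh42548283029e2a39.shift 2 0), (rh57695cac46126e0c.shift 0 1), (rhf9af042da61fc652.shift 2 0)] (by decide +kernel))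
noncomputable def rhac82796e88eaef19 : CRef := CRef.mk (Pat.mk 0x4c0000000c0000001800000000 0x1800000018000000180000007c0000000f0000001800000010 6 7) 0 0 (step_sound _ 100 [(rh361cc68994bd8a63.shift 2 2), rh3b4bdb2e53b9db1d] (by decide +kernel))
noncomputable def rh3f6a0d21a471d3b0 : CRef := CRef.mk (Pat.mk 0xe00000018000000900000000000000000 0x1000000010000000370000003e00000018000000f80000003000000030 6 8) 0 0 (step_sound _ 36 [rh294869150c1d2661, (rh7b1f1fb55310c477.shift 3 0)] (by decide +kernel))
noncomputable def rh8cb865a95958292c : CRef := CRef.mk (Pat.mk 0xa0000001a000000120000000000000000 0x500000007000000070000000b0000001b000000130000001300000011 6 5) 0 0 (step_sound _ 36 [rh04bc0bc315096e76, (rh7b1f1fb55310c477.shift 3 0)] (by decide +kernel))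
noncomputable def rh320f78b6c3fe0fef : CRef := CRef.mk (Pat.mk 0x20000001c0000001400000030000001000000000000000000 0x200000002000000030000001e000000140000003c000001f40000002000000020 6 9) 0 0 (step_sound _ 161 [(rh240a2edace813db7.shift 1 0), (rh3244c3cc8379b070.shift 0 5)] (by decide +kernel))
noncomputable def rh15835a07a070a5f0 : CRef := CRef.mk (Pat.mk 0x300000003000000100000000000000000 0x6000000060000000600000007000000030000001f0000000600000002 6 5) 0 0 (step_sound _ 161 [(rh503dd4575245365b.shift 0 2), rh6060dcef09fac923, (rhd9a6eb52cc5f3a98.shift 0 1)] (by decide +kernel))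
noncomputable def rhd53de04377ff6328 : CRef := CRef.mk (Pat.mk 0x80000004d0000000c000000000000000000000000 0x10000000180000007f0000000c000000180000001800000018 6 7) 0 0 (step_sound _ 132 [(rh361cc68994bd8a63.shift 2 3), rha7a7a4080eeb7f2d] (by decide +kernel))
noncomputable def rh49663d23d79e1275 : CRef := CRef.mk (Pat.mk 0x18000000100000001800000018 0x270000003e000000770000001c00000018 6 7) 0 0 (step_sound _ 101 [(rh2f68792b6b779e96.shift 4 0), rha8f3a6d482590fcb] (by decide +kernel))
noncomputable def rh96485093a74f94a7 : CRef := CRef.mk (Pat.mk 0x1a0000001a000000000000000000000000 0x4000000070000001e0000001b0000000f0000000700000004 6 5) 0 0 (step_sound _ 130 [rh980cc48aac6ae371, (rheb0810cc63b001d8.shift 0 3)] (by decide +kernel))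
noncomputable def rh80b5a57fbf7b06c1 : CRef := CRef.mk (Pat.mk 0x1e00000018000000000000000000000000 0x4000000070000001e0000001b0000000f0000000700000004 6 5) 0 0 (step_sound _ 97 [rh980cc48aac6ae371, (rheb0810cc63b001d8.shift 0 3)] (by decide +kernel))
noncomputable def rha9112902e137cb97 : CRef := CRef.mk (Pat.mk 0x20000001a000000020000000000000000 0x50000000700000007000000030000001b0000000f0000000600000004 6 5) 0 0 (step_sound _ 161 [(rh715961018179cca5.shift 0 1), rh8ff3dde5b1c639e0, (rhc85cc95794737cf7.shift 0 2)] (by decide +kernel))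
noncomputable def rh86208607df960e92 : CRef := CRef.mk (Pat.mk 0x1a0000001e000000100000000000000000 0x20000001a0000001e0000001f0000003400000034 6 6) 0 0 (step_sound _ 65 [(rh385dc01d7d54bc00.shift 1 0), (rheb0810cc63b001d8.shift 0 2)] (by decide +kernel))
noncomputable def rhdb7366e899be568e : CRef := CRef.mk (Pat.mk 0x1800000018000000100000001800000000 0x1000000018000000180000001f0000003f00000024 6 6) 0 0 (step_sound _ 67 [(rh5c5e593799055d58.shift 3 1), rhb4a8657f7183e509] (by decide +kernel))
noncomputable def rh9fd413f270802756 : CRef := CRef.mk (Pat.mk 0x800000018000000d0000000180000000000000000 0x40000000c0000001c000000df0000007f0000000c00000008 6 8) 0 0 (step_sound _ 69 [(rh3fc040e777f1679e.shift 3 2), rh69b67d1e07472fd8] (by decide +kernel))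
noncomputable def rh4ca8a533ceecb91e : CRef := CRef.mk (Pat.mk 0x800000018000000100000003800000000 0x1000000018000000180000001f0000003f00000024 6 6) 0 0 (step_sound _ 132 [(rh55afc6a59410cf00.shift 4 0), rh6937bef01fa5402a] (by decide +kernel))
noncomputable def rh9b358d6df03b7a78 : CRef := CRef.mk (Pat.mk 0x180000001e000000000000000000000000 0x1000000014000000340000001f0000001e0000000f0000000200000002 6 6) 0 0 (step_sound _ 129 [(rh3244c3cc8379b070.shift 0 3), rh635897fbf6909edf] (by decide +kernel))
noncomputable def rhb416dfc5ec7431cf : CRef := CRef.mk (Pat.mk 0x260000002700000020 0x16000000160000001e0000003e0000003700000023 6 6) 0 0 (step_sound _ 68 [(rh361cc68994bd8a63.shift 0 1), rhcbad41ef5983d2bf] (by decide +kernel))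
noncomputable def rhdafec236139b0749 : CRef := CRef.mk (Pat.mk 0x180000001e000000000000000000000000 0xb0000000b0000001f0000001e0000000f0000000400000004 6 5) 0 0 (step_sound _ 129 [(rh3244c3cc8379b070.shift 0 3), rhd9065bd6a2155289] (by decide +kernel))
noncomputable def rh430f88a88b46a7ba : CRef := CRef.mk (Pat.mk 0x1000000018000000380000000000000000 0xc0000000c0000001c00000018000000380000001f0000000c 6 6) 0 0 (step_sound _ 35 [rh548739421888b317, (rh71222050f2c63a3a.shift 3 0)] (by decide +kernel))
noncomputable def rh4d454a15dbca0df6 : CRef := CRef.mk (Pat.mk 0x400000005300000052000000000000000000000000 0x40000000400000005b000000fe000001e0000000a0000000a0 6 9) 0 0 (step_sound _ 99 [(rh5021f0ed06b32c6c.shift 3 0), (rh5419adcd928dba20.shift 0 3)] (by decide +kernel))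
noncomputable def rh7b484aeed5870a8c : CRef := CRef.mk (Pat.mk 0x400000004300000052000000000000000000000000 0x80000000c0000000c000000043000000fe000000e0000000e0000000a0 6 8) 0 0 (step_sound _ 99 [(rh5419adcd928dba20.shift 0 3), (rh6ad057e4a6aad04e.shift 5 0)] (by decide +kernel))
noncomputable def rh1be76180e9077aa8 : CRef := CRef.mk (Pat.mk 0x30000000200000003000000030 0x4f0000007e000000700000003000000030 6 7) 0 0 (step_sound _ 102 [rh16731e6ce3e36f95, (rh2f68792b6b779e96.shift 5 0)] (by decide +kernel))
noncomputable def rhee5a55b6a9ac5cd2 : CRef := CRef.mk (Pat.mk 0x5a000000130000001200000000 0x80000000e0000000e0000007a0000001b0000001300000001 6 7) 0 0 (step_sound _ 129 [rh03dfdf12d5937476, (rh2ad107ca13ef818e.shift 1 1), rh68f6161c1b5a0308] (by decide +kernel))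
noncomputable def rhfafc9946dfd6dc3e : CRef := CRef.mk (Pat.mk 0xa000000180000000a0000000000000000 0x20000000a0000001b0000003f0000003700000014 6 6) 0 0 (step_sound _ 66 [(rh53b3c253cb0c65f4.shift 0 2), rhe436b7f65189426c] (by decide +kernel))
noncomputable def rh9f8446916da6a443 : CRef := CRef.mk (Pat.mk 0xe00000008000000080000001800000000 0x20000000e0000000c0000003f0000003f00000006 6 6) 0 0 (step_sound _ 34 [rh41907c1b6e1a3ddf, (rh932754581e0f4330.shift 2 0)] (by decide +kernel))
noncomputable def rhbac8aa6e1bfd49be : CRef := CRef.mk (Pat.mk 0x80000000c000000180000000c0000000000000000 0x80000000c0000001f0000003f0000001300000002 6 6) 0 0 (step_sound _ 65 [rh250e13faf4d4ab6c, (rh53b3c253cb0c65f4.shift 0 2)] (by decide +kernel))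
noncomputable def rh78d78d3e585dd69b : CRef := CRef.mk (Pat.mk 0x200000003000000060000000200000000000000000000000000000000 0x200000003000000070000000700000003000000070000000700000005 6 3) 0 0 (step_sound _ 97 [rh56575223a49d4aff, (rh7928877f9bf74a91.shift 0 2), rhde32e0b5ff3be9cc, (rhe4441baab75a6f73.shift 0 1)] (by decide +kernel))
noncomputable def rh410c4b99ba6e975c : CRef := CRef.mk (Pat.mk 0x200000003000000060000000200000000000000000000000000000000 0x200000003000000070000000600000006000000070000000700000005 6 3) 0 0 (step_sound _ 97 [(rha613ffd40b6c9d24.shift 0 1), rhbba7d23481996066, (rhd29a1fb688eae70f.shift 1 2), rhde32e0b5ff3be9cc] (by decide +kernel))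
noncomputable def rh0527261f5bf37bd1 : CRef := CRef.mk (Pat.mk 0xc000000480000000b000000090000000000000000 0x120000003e0000006e0000000b0000000b0000000100000001 6 7) 0 0 (step_sound _ 164 [(rh2f68792b6b779e96.shift 3 2), rh60ae556da352f7f4] (by decide +kernel))
noncomputable def rhf1723c31a25c5768 : CRef := CRef.mk (Pat.mk 0x1000000080000000800000008000000000000000000000000 0x100000001c0000001f0000000c00000008000000080000001c0000001c00000014 6 5) 0 0 (step_sound _ 67 [(rh1efe470493b598b7.shift 0 2), (rh6eff4158bb400f47.shift 2 0)] (by decide +kernel))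
noncomputable def rh9609e3246e00889e : CRef := CRef.mk (Pat.mk 0x200000016000000140000000400000000 0x80000003b0000001e000000160000003c00000038 6 6) 0 0 (step_sound _ 99 [(rh3244c3cc8379b070.shift 0 3), (rh8ff7de88444805b5.shift 1 0)] (by decide +kernel))
noncomputable def rh62825c4dfa6be415 : CRef := CRef.mk (Pat.mk 0x120000000300000002000000000000000000000000 0x40000001e0000000300000002000000070000000700000005 6 5) 0 0 (step_sound _ 162 [(rh361cc68994bd8a63.shift 0 4), rhffb8e5993241bf15] (by decide +kernel))
noncomputable def rhde0753a2d00007af : CRef := CRef.mk (Pat.mk 0x80000001c0000000c00000008 0x2000000170000003f0000001e0000000c00000008 6 6) 0 0 (step_sound _ 98 [(rh50fbb5868c909700.shift 2 0), rheecd95c732ca68e2] (by decide +kernel))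
noncomputable def rhfb551547993b9852 : CRef := CRef.mk (Pat.mk 0x9800000018000000100000000000000000 0xc0000000f000000fc000000180000001c0000000c0000000c 6 8) 0 0 (step_sound _ 163 [(rh2145e1d24b96a57e.shift 3 2), rhe5aa548e129c1977] (by decide +kernel))
noncomputable def rha6edc2b4e7852b08 : CRef := CRef.mk (Pat.mk 0x1c0000000e0000000800000000 0x180000001a0000003b0000001e0000000e0000000c00000004 6 6) 0 0 (step_sound _ 131 [(rh03dfdf12d5937476.shift 2 0), rh469e75c0bcd6e2dd, (rh5fa50b509d4ce753.shift 2 1)] (by decide +kernel))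
noncomputable def rhf265e7da73faf003 : CRef := CRef.mk (Pat.mk 0x2000000260000000600000004000000000000000000000000 0xd0000001f000000370000000600000006000000030000000300000003 6 6) 0 0 (step_sound _ 97 [(rh1e309b005ffa1b36.shift 1 1), rha9a9dd876407ae9a, (rhdef75d31131e4a4a.shift 0 3)] (by decide +kernel))
noncomputable def rhe7d5a6c106c98797 : CRef := CRef.mk (Pat.mk 0x8000000180000001800000010000000000000000000000000 0x140000001f0000003c00000018000000180000000c0000000c0000000c 6 6) 0 0 (step_sound _ 99 [(rh1e309b005ffa1b36.shift 3 1), (rh675eb0a114259074.shift 0 3), (rha9a9dd876407ae9a.shift 2 0)] (by decide +kernel))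
noncomputable def rh539625230f89d59c : CRef := CRef.mk (Pat.mk 0xe00000018000000180000000000000000 0x200000002000000020000000e0000001f0000003f0000003400000014 6 6) 0 0 (step_sound _ 36 [rh67ab0ed5680cc347, (rh7b1f1fb55310c477.shift 3 0)] (by decide +kernel))
noncomputable def rh90c14c1814f819fd : CRef := CRef.mk (Pat.mk 0x60000001a00000018000000000000000000000000 0x4000000060000001b0000001f000000070000000700000005 6 5) 0 0 (step_sound _ 97 [(rh6e1685e3533aff0e.shift 0 3), rhffb8e5993241bf15] (by decide +kernel))
noncomputable def rh1677df1397bc1b54 : CRef := CRef.mk (Pat.mk 0x1800000018000000300000000000000000 0x180000001e0000007c0000000f0000000c 6 7) 0 0 (step_sound _ 98 [rh35654f37e19da3f5, (rhb739f4f82bb681b4.shift 1 2)] (by decide +kernel))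
noncomputable def rhe66321c6c4aa8b56 : CRef := CRef.mk (Pat.mk 0x200000003000000020000000000000000 0x50000000700000007000000070000000300000003000000030000000300000001 6 3) 0 0 (step_sound _ 161 [rh63dc2b656e521f0a, (rh68a777751bfeafdf.shift 0 2), (rhc85cc95794737cf7.shift 0 2), rhfafeb437ceb8396d] (by decide +kernel))
noncomputable def rh67f9c2f7f3af6244 : CRef := CRef.mk (Pat.mk 0x1000000003000000060000000000000000 0x4000000070000000f0000001f00000003000000070000000700000002 6 5) 0 0 (step_sound _ 129 [(rh8ba2aa402370793e.shift 0 1), (rhb23658ecdd7ce5df.shift 0 1), rhc47fe1bc6b175f77] (by decide +kernel))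
noncomputable def rh417f8031ed7a64e9 : CRef := CRef.mk (Pat.mk 0x40000000c0000001c0000000c0000000000000000 0x2000000060000000c0000001f0000003e0000007200000010 6 7) 0 0 (step_sound _ 161 [rh07409ef0f2eebd8c, (rh50fbb5868c909700.shift 1 2)] (by decide +kernel))
noncomputable def rheb0f8008138d7607 : CRef := CRef.mk (Pat.mk 0x1c00000038000000100000000000000000 0xc0000001c000000380000003e0000006f0000002c 6 7) 0 0 (step_sound _ 67 [rh1e9fd2dbd43d0fe3, (rh40241bd608e5be1a.shift 2 0), (rh6309ffb16c0441a7.shift 1 0)] (by decide +kernel))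
noncomputable def rh5ae3a6fca53165c1 : CRef := CRef.mk (Pat.mk 0x180000001e000000100000000000000000 0x180000001e0000001f0000003c00000038 6 6) 0 0 (step_sound _ 36 [(rh7b1f1fb55310c477.shift 3 0), rhb958eb30ef1f06a3] (by decide +kernel))
noncomputable def rh1a65eda28804ac2d : CRef := CRef.mk (Pat.mk 0x80000001000000018000000980000000000000000 0x8000000180000001f000000ff0000001700000004 6 8) 0 0 (step_sound _ 131 [(rh7b1f1fb55310c477.shift 3 1), rha42314f78429cd32] (by decide +kernel))
noncomputable def rhd2077ac7a4ba6e2a : CRef := CRef.mk (Pat.mk 0x10000000100000001800000018000000000000000000000000 0x10000000180000001f0000003f000000270000000400000004 6 6) 0 0 (step_sound _ 101 [(rh55afc6a59410cf00.shift 4 2), rhbb209563535988dc] (by decide +kernel))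
noncomputable def rh5e5fbea24e363f90 : CRef := CRef.mk (Pat.mk 0xc0000000c000000440000000400000000 0xc0000000c0000007f0000003f0000001a 6 7) 0 0 (step_sound _ 35 [(rh55afc6a59410cf00.shift 2 0), rhf01e4155faa90c45] (by decide +kernel))
noncomputable def rh14f0436b20a74f24 : CRef := CRef.mk (Pat.mk 0x60000000000000003000000000000000000000000 0x50000000700000007000000060000000300000003000000070000000700000005 6 3) 0 0 (step_sound _ 129 [(rh215e11e099257d75.shift 1 2), rh281c6819542c66e6, (rh976a48eb1c80a12f.shift 0 2), rhffb8e5993241bf15] (by decide +kernel))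
noncomputable def rh6cc58adde51746b5 : CRef := CRef.mk (Pat.mk 0x12000000130000001a000000010000000000000000 0x130000001b0000001a0000000b0000001f0000000c 6 5) 0 0 (step_sound _ 65 [rh553e48a42c517c15, (rh932754581e0f4330.shift 0 1)] (by decide +kernel))
noncomputable def rhdd4dec6046f57be9 : CRef := CRef.mk (Pat.mk 0x80000005a0000000300000000 0x100000003000000030000000f0000007b0000000300000001 6 7) 0 0 (step_sound _ 98 [(rh2fe78cc5ca4405d8.shift 2 2), rh456de6100f6c0f2c] (by decide +kernel))
noncomputable def rhbf341b4d3d4c4d22 : CRef := CRef.mk (Pat.mk 0x400000002000000020000000300000000000000000000000000000000 0x400000006000000030000000300000006000000070000000700000001 6 3) 0 0 (step_sound _ 97 [rhafd44d417107dbfd, (rhbaefcd01e0a8bca3.shift 1 3)] (by decide +kernel))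
noncomputable def rhe83dfcda1ee8ff4e : CRef := CRef.mk (Pat.mk 0x140000001400000016000000000000000000000000 0x28000000380000003800000014000000160000001e0000000b0000000200000002 6 6) 0 0 (step_sound _ 99 [(rh32431e66bbf434a4.shift 3 2), rhd1474a84c69f0140] (by decide +kernel))
noncomputable def rhec28cf51d6e2ae71 : CRef := CRef.mk (Pat.mk 0x8000000380000001a0000009000000000 0x400000004000000040000000f0000003c0000001b000000ff00000004 6 8) 0 0 (step_sound _ 37 [(rh2fe78cc5ca4405d8.shift 3 1), rhe70b17d2dd399670] (by decide +kernel))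
noncomputable def rhb6ca4aefb06773a6 : CRef := CRef.mk (Pat.mk 0x800000008000000300000001c00000000 0x300000007c0000003f000000380000001c00000004 6 7) 0 0 (step_sound _ 67 [(rh932754581e0f4330.shift 2 0), (rhde7259b95586fcff.shift 0 1)] (by decide +kernel))
noncomputable def rh76bd02b8ba6c79ea : CRef := CRef.mk (Pat.mk 0x8000000880000001c0000003400000000 0x340000007c000000fc0000001c0000003f00000023 6 8) 0 0 (step_sound _ 35 [rh2c477938a297ae1a, (rhdd036ac67064a872.shift 3 0)] (by decide +kernel))
noncomputable def rheb4809ecc664799d : CRef := CRef.mk (Pat.mk 0x8000000080000001800000030000000000000000000000000 0x40000000c0000001c0000001f0000003f0000000f0000000c0000000c 6 6) 0 0 (step_sound _ 99 [(rh66308995486c6adc.shift 0 1), (rh75ffebe3a69e9e2f.shift 1 0), (rha9a9dd876407ae9a.shift 2 0)] (by decide +kernel))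
noncomputable def rh95259f4ed0444d48 : CRef := CRef.mk (Pat.mk 0x10000000100000001000000002000000020000000000000000 0x20000000300000003000000010000000300000003b0000003e0000003800000020 6 6) 0 0 (step_sound _ 100 [(rh25b3cf3a604f4e4a.shift 1 0), (rh4a38b3b3b5efb383.shift 3 1), (rh769475dd0d42f086.shift 0 1), (rhced6d86d2069808b.shift 4 2)] (by decide +kernel))
noncomputable def rhe52695b087e24906 : CRef := CRef.mk (Pat.mk 0x100000001000000006000000030000000000000000 0x280000003800000038000000100000001e0000003b0000003800000028 6 6) 0 0 (step_sound _ 100 [(rh361cc68994bd8a63.shift 0 2), (rhe1dedbc5846086f4.shift 3 0)] (by decide +kernel))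
noncomputable def rh0f7282f9ea8e6b7a : CRef := CRef.mk (Pat.mk 0x4000000050000000180000000a0000000000000000 0xa0000000e0000000e0000000e000000050000000f8000000ef000000e0000000a0 6 8) 0 0 (step_sound _ 102 [(rh4ee5698776d7e75c.shift 3 1), (rh6ad057e4a6aad04e.shift 5 0), (rhb962b7a2607f856f.shift 5 1), (rhcf26ab340e90aa4c.shift 0 2), (rhe1dedbc5846086f4.shift 5 0), (rhf4944603f7a2747c.shift 2 0)] (by decide +kernel))
noncomputable def rhd645d6ebdb059d1b : CRef := CRef.mk (Pat.mk 0x100000001400000016000000030000000000000000 0x20000000300000003000000014000000360000003b0000003e0000002a 6 6) 0 0 (step_sound _ 33 [(rh71222050f2c63a3a.shift 1 0), rhf1f3fd02045b4e82] (by decide +kernel))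
noncomputable def rh7be476d398110fee : CRef := CRef.mk (Pat.mk 0x800000048000000080000000800000008000000000000000000000000 0x8000000780000001f0000007c000000180000000c0000000c00000004 6 7) 0 0 (step_sound _ 162 [(rh40989ba3e5d7f38b.shift 2 0), (rh42e615827c8908b1.shift 0 3), (rhaf814fc0f93b4041.shift 0 3)] (by decide +kernel))
noncomputable def rh1878d6b3c451fc5c : CRef := CRef.mk (Pat.mk 0x300000012000000020000000200000002000000000000000000000000 0x30000001e000000060000000200000002000000070000000700000005 6 5) 0 0 (step_sound _ 194 [(rh2fe78cc5ca4405d8.shift 0 6), rhc94dfb5f501cb051] (by decide +kernel))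
noncomputable def rh1b97b2f963979f38 : CRef := CRef.mk (Pat.mk 0x1000000003000000020000000200000000000000000000000000000000 0x40000001e00000003000000030000000600000007000000070000000700000005 6 5) 0 0 (step_sound _ 97 [(rh09234555bd5e60c4.shift 0 2), rhbba7d23481996066, (rhe4441baab75a6f73.shift 0 1)] (by decide +kernel))
noncomputable def rh71acfb0c109ec4cb : CRef := CRef.mk (Pat.mk 0x20000000200000002000000000000000000000000 0x50000000700000007000000070000000200000002000000070000000700000005 6 3) 0 0 (step_sound _ 65 [(rh3104b646103ca68e.shift 0 2), rh6eff4158bb400f47] (by decide +kernel))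
noncomputable def rhc7572ca658ffdacf : CRef := CRef.mk (Pat.mk 0x1000000020000000300000010000000000000000000000000 0x10000000300000003000000030000001e000000070000000700000005 6 5) 0 0 (step_sound _ 97 [rhc05d451ce3dd5e48, (rhc17a6a02773cc5f6.shift 0 2), (rhcdc0c198dda5e9b9.shift 0 2)] (by decide +kernel))
noncomputable def rhf8c9e5238c66a6f2 : CRef := CRef.mk (Pat.mk 0x1000000006000000000000000600000000 0x7000000070000003f00000007000000070000000700000005 6 6) 0 0 (step_sound _ 129 [(rh935da622f8ebc962.shift 1 0), (rh95a80f84f48ac358.shift 1 0), rhc180a3bbf5f31bf4, (rhe9bd7fe2ad6d1ae9.shift 0 1)] (by decide +kernel))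
noncomputable def rhe7f7a271ea9f2620 : CRef := CRef.mk (Pat.mk 0x10000000090000001800000008 0x40000000c0000001c000000180000000f0000001c00000018 6 5) 0 0 (step_sound _ 99 [(rh2f68792b6b779e96.shift 3 0), rhdacab380e925b3d1] (by decide +kernel))
noncomputable def rh4063c4745695c9fd : CRef := CRef.mk (Pat.mk 0xc00000005 0xf00000007e000000ff 6 8) 0 0 (step_sound _ 36 [rh67e5914ef7f4941c, rh9c0ab0af19c4d8a6, rhbb229bad87965364, (rhf5b4dacfe43fd0b9.shift 1 0)] (by decide +kernel))
noncomputable def rh88cd52b629aea10f : CRef := CRef.mk (Pat.mk 0x60000000410000005800000050 0x80000000c8000000f80000004f0000007800000050 6 8) 0 0 (step_sound _ 135 [rh77379433184b537c, (rhbaefcd01e0a8bca3.shift 6 0)] (by decide +kernel))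
noncomputable def rhbbe3da937dfc0637 : CRef := CRef.mk (Pat.mk 0x1800000008000000180000009800000000 0x40000001c0000001800000018000000ff00000064 6 8) 0 0 (step_sound _ 130 [(rh50fbb5868c909700.shift 2 1), rhac3c0059638ae378] (by decide +kernel))
noncomputable def rh653563a5bd605855 : CRef := CRef.mk (Pat.mk 0x2000000030000001200000002000000000000000000000000 0x2000000030000001f00000006000000070000000700000001 6 5) 0 0 (step_sound _ 130 [(rh2fe78cc5ca4405d8.shift 0 4), rh4ed972033d0a12ff] (by decide +kernel))
noncomputable def rh8bd30f11bd9c01da : CRef := CRef.mk (Pat.mk 0x4000000180000000c00000004 0x100000003b0000001f0000001c0000000c00000004 6 6) 0 0 (step_sound _ 99 [(rh5c5e593799055d58.shift 2 0), rh7f8afeb5f6471ba5] (by decide +kernel))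
noncomputable def rh183fd3c76fc48792 : CRef := CRef.mk (Pat.mk 0x80000003000000018000000080000000000000000 0x40000000f0000003c0000001e000000180000001800000018 6 6) 0 0 (step_sound _ 35 [(rh71222050f2c63a3a.shift 3 0), rhe92a3e815aa67267] (by decide +kernel))
noncomputable def rh7c7020abee36df62 : CRef := CRef.mk (Pat.mk 0x300000001800000098000000000000000000000000 0x380000001f000000ff000000070000000400000004 6 8) 0 0 (step_sound _ 98 [(rh46a6e9a4a08f20b3.shift 0 2), (rh56a07936c914825e.shift 0 3), (rhe825340878a3dad7.shift 1 0)] (by decide +kernel))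
noncomputable def rh1f59f5d74b39fa96 : CRef := CRef.mk (Pat.mk 0x100000001800000038000000000000000000000000 0x100000001f0000003f0000000f0000000c0000000c 6 6) 0 0 (step_sound _ 35 [rh57aaaf0352f46bc0, (rh9e3edb185cc347de.shift 3 1)] (by decide +kernel))
noncomputable def rh6284c016c6647ae5 : CRef := CRef.mk (Pat.mk 0x100000001800000098000000000000000000000000 0x100000001e000000ff000000770000002000000020 6 8) 0 0 (step_sound _ 101 [(rh2fe78cc5ca4405d8.shift 3 3), rh7eff2141d7589b9f] (by decide +kernel))
noncomputable def rhcb677da7e76f9c96 : CRef := CRef.mk (Pat.mk 0x100000002000000030000000200000000000000000000000000000000 0x100000003000000030000000300000003000000070000000700000005 6 3) 0 0 (step_sound _ 97 [rh697eeeab831b09b3, (rhffd04209dc8ea796.shift 0 3)] (by decide +kernel))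
noncomputable def rh92a0e219f2d8e32e : CRef := CRef.mk (Pat.mk 0x60000000300000010000000000000000000000000 0x4000000060000000600000006000000030000001f000000070000000700000005 6 5) 0 0 (step_sound _ 97 [(rh12452934acb847d5.shift 0 2), rh1b9022be4f7af407, (rh215e11e099257d75.shift 1 2), (rh82d79450ff36f4fe.shift 0 2)] (by decide +kernel))
noncomputable def rhb1fea747c0d350a3 : CRef := CRef.mk (Pat.mk 0x2000000020000000600000026000000000000000000000000 0x10000000300000003000000060000003e000000030000000300000003 6 6) 0 0 (step_sound _ 99 [(rh2fe78cc5ca4405d8.shift 1 3), rha9a9dd876407ae9a] (by decide +kernel))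
noncomputable def rh316b6b6d74d07d5d : CRef := CRef.mk (Pat.mk 0x8000000080000000800000000 0x140000001c0000003c0000000f0000000c0000000c0000000c 6 6) 0 0 (step_sound _ 131 [(rh1741680720c097b4.shift 2 1), rh245d56c915813f64, (rh402d223d12d7377d.shift 2 0), (rh771d065bdc85bf2d.shift 2 0)] (by decide +kernel))
noncomputable def rh9aaf446f9e8f864a : CRef := CRef.mk (Pat.mk 0x4000000440000000c0000000000000000 0xa0000000e0000000e0000000c0000000c0000007e0000000f0000000600000002 6 7) 0 0 (step_sound _ 162 [(rh3ba31b4b8ec53b11.shift 0 1), (rh402d223d12d7377d.shift 1 1), (rhba97f7f4ade5e136.shift 1 2), (rhcab3157f7bdcba3e.shift 1 0)] (by decide +kernel))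
noncomputable def rh2324c23ad34f40cb : CRef := CRef.mk (Pat.mk 0x80000009800000018000000000000000000000000 0x40000000f000000fc000000180000000c0000000c0000000c 6 8) 0 0 (step_sound _ 133 [(rh361cc68994bd8a63.shift 3 3), rh39fceb362813fb34] (by decide +kernel))
noncomputable def rh6c16936c4dc9af2e : CRef := CRef.mk (Pat.mk 0x10000000200000003000000100000000000000000 0x500000007000000070000000300000002000000030000001f0000000500000001 6 5) 0 0 (step_sound _ 161 [rh281c6819542c66e6, (rh68a777751bfeafdf.shift 0 2), (rhb7ec845def264386.shift 0 1)] (by decide +kernel))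
noncomputable def rha9462dc5b36b8c9b : CRef := CRef.mk (Pat.mk 0x38000000100000000400000004 0x1c7000000fe000000fb0000000600000004 6 9) 0 0 (step_sound _ 70 [rhc3d3db0c6b4d5662, (rhdaae84b65b246d22.shift 3 2)] (by decide +kernel))
noncomputable def rh984d8ac0eeb3ca6d : CRef := CRef.mk (Pat.mk 0x800000008000000080000000800000008 0x1000000018000000180000000c0000001f0000007c0000001800000008 6 7) 0 0 (step_sound _ 98 [(rh50fbb5868c909700.shift 2 0), (rh7fb2d759e6ef648b.shift 0 1)] (by decide +kernel))
noncomputable def rhdf31d1055d6a4415 : CRef := CRef.mk (Pat.mk 0x800000008000000080000000a 0x40000000c0000000c000000080000007c0000001f 6 7) 0 0 (step_sound _ 130 [rhd204e232ef94685e, (rhffd04209dc8ea796.shift 2 0)] (by decide +kernel))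
noncomputable def rheeb2dab003104552 : CRef := CRef.mk (Pat.mk 0x800000008000000080000000a 0x140000001c0000001c00000008000000180000007c0000001f 6 7) 0 0 (step_sound _ 131 [(rh5abfc4c9d959be03.shift 2 0), rhbc8795828c047a54, (rhc85cc95794737cf7.shift 2 1), (rhced6d86d2069808b.shift 3 0)] (by decide +kernel))
noncomputable def rh8d317a59902f7b3f : CRef := CRef.mk (Pat.mk 0x400000008000000080000000a 0x100000001c0000001c000000080000001c0000001f 6 5) 0 0 (step_sound _ 99 [(rh50fbb5868c909700.shift 2 0), rhb7e554dc0df58ef3] (by decide +kernel))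
noncomputable def rh5d4b444c031b391d : CRef := CRef.mk (Pat.mk 0xa0000000a00000002000000000000000000000000 0x140000001c0000001c0000001e0000000b0000001e0000003c0000001c00000014 6 6) 0 0 (step_sound _ 99 [(rh32650d1bea17c2f2.shift 0 2), rh5021f0ed06b32c6c, rh9b578cfc7d2906a4, (rhb962b7a2607f856f.shift 2 1), (rhd03d0c8aad655629.shift 2 1)] (by decide +kernel))
noncomputable def rh02aea0b077e71238 : CRef := CRef.mk (Pat.mk 0x52000000530000004000000000 0xa0000000a0000001e0000000fe0000005b0000004000000040 6 9) 0 0 (step_sound _ 99 [(rhb2057938e92e7d47.shift 3 0), (rhb2a0b9ccfb5cecd5.shift 0 2)] (by decide +kernel))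
noncomputable def rh3367652502228d5c : CRef := CRef.mk (Pat.mk 0x5200000043000000400000000000000000 0xa0000000e0000000e0000000fe00000043000000c0000000c000000080 6 8) 0 0 (step_sound _ 131 [(rh3193d494772eaa23.shift 5 0), (rhb2a0b9ccfb5cecd5.shift 0 3)] (by decide +kernel))
noncomputable def rh74bd69f167712e70 : CRef := CRef.mk (Pat.mk 0x3000000030000000200000003000000000 0x3000000030000000700000007e0000004f 6 7) 0 0 (step_sound _ 38 [(rh55afc6a59410cf00.shift 5 0), rha805d199fb9ff167] (by decide +kernel))
noncomputable def rh374717c1c8c7bbcf : CRef := CRef.mk (Pat.mk 0x12000000130000005a000000000000000000000000 0x1000000130000001b0000007a0000000e0000000e00000008 6 7) 0 0 (step_sound _ 65 [rh4eff25e82d73a1d2, (rh74f00d2c2e35345d.shift 1 0), (rhe286c75f2739cce2.shift 0 1)] (by decide +kernel))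
noncomputable def rhe9f3ae4f7b80396d : CRef := CRef.mk (Pat.mk 0x200000003000000020000000000000000 0x50000000700000007000000030000000300000003000000030000000300000003 6 3) 0 0 (step_sound _ 161 [(rh32431e66bbf434a4.shift 0 2), (rh69f0587a21bb077f.shift 0 2), rhd1fa8140a3eb151f, rhfafeb437ceb8396d] (by decide +kernel))
noncomputable def rh1bc81710c92c3767 : CRef := CRef.mk (Pat.mk 0x2000000030000000200000000000000000000000000000000 0x10000000300000003000000030000000300000007000000070000000700000005 6 3) 0 0 (step_sound _ 97 [(rh2840436db7424bdf.shift 0 1), rh56259dd1390eee46, rhd1779d7de7f8215b, (rhe286c75f2739cce2.shift 0 2), (rhfbd142acd04e79a5.shift 0 2)] (by decide +kernel))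
noncomputable def rh4de08abd31d9ffe6 : CRef := CRef.mk (Pat.mk 0xa000000180000000a00000000 0x14000000370000003f0000001b0000000a00000002 6 6) 0 0 (step_sound _ 98 [(rhb739f4f82bb681b4.shift 0 2), rhbb5dc09a29d1f147] (by decide +kernel))
noncomputable def rhc262b482c18ba545 : CRef := CRef.mk (Pat.mk 0x1800000008000000080000000e00000000 0x60000003f0000003f0000000c0000000e00000002 6 6) 0 0 (step_sound _ 130 [(rh50fbb5868c909700.shift 2 1), rhf571f68a33e22dc6] (by decide +kernel))
noncomputable def rhf0d450b4a047dd83 : CRef := CRef.mk (Pat.mk 0xc000000180000000c00000008 0x2000000130000003f0000001f0000000c00000008 6 6) 0 0 (step_sound _ 97 [rh879100b70082b4a9, (rhb739f4f82bb681b4.shift 0 2)] (by decide +kernel))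
noncomputable def rh3e6987732fdd2dca : CRef := CRef.mk (Pat.mk 0x2000000060000000300000002 0x500000007000000070000000300000007000000070000000300000002 6 3) 0 0 (step_sound _ 129 [rh3ca48e2a6d60153d, rh94d66c2effe5fb8c, (rhdf9f2056a37121a5.shift 0 1), (rhe62cab2ff5ad6fe2.shift 0 1)] (by decide +kernel))
noncomputable def rh09670c84f0ed1150 : CRef := CRef.mk (Pat.mk 0x2000000060000000300000002 0x500000007000000070000000600000006000000070000000300000002 6 3) 0 0 (step_sound _ 129 [(rh44f453b84f013105.shift 1 0), (rh9a369cb82ea472da.shift 0 1), (rh9fb9dc683e09b5f3.shift 0 1), (rhdf9f2056a37121a5.shift 0 1)] (by decide +kernel))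
noncomputable def rha76e3b45fbe0b1a4 : CRef := CRef.mk (Pat.mk 0x1a0000001300000058000000000000000000000000 0x10000001b0000001b0000007a0000000f0000000e00000008 6 7) 0 0 (step_sound _ 67 [(rhb86390622f7cdb9c.shift 0 1), (rhedf5c1b0f11c602f.shift 0 1), (rhf9af042da61fc652.shift 3 0)] (by decide +kernel))
noncomputable def rhb20c0fd23f48ed10 : CRef := CRef.mk (Pat.mk 0x12000000130000001a00000000000000000000000000000000 0x120000001b0000001b0000000f0000000f0000000f00000005 6 5) 0 0 (step_sound _ 97 [(rh22f11455a56364ec.shift 0 1), (rh36e6bb6cca6188da.shift 0 2), (rh5c735efb546c43d8.shift 0 1), rh89cf5152879421f3, (rh8cdd36b03d57a2f6.shift 0 1), rhbaff7ec0fcc038ba] (by decide +kernel))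
noncomputable def rhdeca60fa266bf297 : CRef := CRef.mk (Pat.mk 0x90000000b000000480000000c00000000 0x1000000010000000b0000000b0000006e0000003e00000012 6 7) 0 0 (step_sound _ 36 [rh03cbb3fc6034ad65, (rh55afc6a59410cf00.shift 3 0)] (by decide +kernel))
noncomputable def rhedfee947f5d4a3b8 : CRef := CRef.mk (Pat.mk 0x400000014000000160000000200000000 0x380000003c000000160000001e0000003b00000008 6 6) 0 0 (step_sound _ 67 [(rh84cba109f4747302.shift 1 0), (rheb0810cc63b001d8.shift 0 1)] (by decide +kernel))
noncomputable def rha6ffec1eb8a5a97d : CRef := CRef.mk (Pat.mk 0x80000000c0000001c000000080000000000000000 0x80000000c0000001e0000003f0000001700000002 6 6) 0 0 (step_sound _ 66 [rh3dc762ecee405e19, (rh932754581e0f4330.shift 2 1)] (by decide +kernel))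
noncomputable def rh64129c8b2639a558 : CRef := CRef.mk (Pat.mk 0x1000000018000000980000000000000000 0xc0000000c0000001c00000018000000fc0000000f0000000c 6 8) 0 0 (step_sound _ 35 [(rh71222050f2c63a3a.shift 3 0), rhfbdab12e12655bfc] (by decide +kernel))
noncomputable def rh454426a7f2bb43e8 : CRef := CRef.mk (Pat.mk 0x80000000e0000001c000000000000000000000000 0x40000000c0000000e0000001e0000003b0000001a00000018 6 6) 0 0 (step_sound _ 67 [(rh52b8dcc4d7ff63e5.shift 0 1), (rh820d4e04d5dcd02e.shift 2 0), (rhe286c75f2739cce2.shift 2 1)] (by decide +kernel))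
noncomputable def rh418d0f54bcf582da : CRef := CRef.mk (Pat.mk 0x400000006000000260000000200000000 0x300000003000000030000000600000006000000370000001f0000000d 6 6) 0 0 (step_sound _ 129 [rh0ef6c71ce89c1c36, rhe7bcbfb0035c90e7, (rhfc7c29d8e65d775f.shift 1 1)] (by decide +kernel))
noncomputable def rhacf07efdde0e084a : CRef := CRef.mk (Pat.mk 0x1000000018000000180000000800000000 0xc0000000c0000000c00000018000000180000003c0000001f00000014 6 6) 0 0 (step_sound _ 131 [(rh0ef6c71ce89c1c36.shift 2 0), rh21cc983f04d25e46, (rhfc7c29d8e65d775f.shift 3 1)] (by decide +kernel))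
noncomputable def rhf94ec4fbe378eb86 : CRef := CRef.mk (Pat.mk 0x18000000180000000e000000000000000000000000 0x14000000340000003f0000001f0000000e000000020000000200000002 6 6) 0 0 (step_sound _ 196 [rh1ed54d24d83d08b6, (rh5c5e593799055d58.shift 3 3)] (by decide +kernel))
noncomputable def rh0f1707c9c461f41c : CRef := CRef.mk (Pat.mk 0x180000001a0000000600000000 0x500000007000000070000001f0000001b0000000600000004 6 5) 0 0 (step_sound _ 97 [(rh086f6046fa319626.shift 0 2), rh14e0829dc73b6804] (by decide +kernel))
noncomputable def rh90daca178e8688a7 : CRef := CRef.mk (Pat.mk 0x300000001800000018 0xc0000000f0000007c0000001e00000018 6 7) 0 0 (step_sound _ 34 [(rh53b3c253cb0c65f4.shift 1 1), rhad364f8145a59bd3] (by decide +kernel))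
noncomputable def rhb53c85f6c35ef756 : CRef := CRef.mk (Pat.mk 0x70000000200000001000000010 0xf0000007e0000003e0000001000000010 6 7) 0 0 (step_sound _ 99 [(rh775ca1963e850b80.shift 1 2), (rh8aa80d8d90d3223c.shift 0 2), (rhb84d4101fea63f8a.shift 1 0), (rhea1977e228a6d74a.shift 2 0)] (by decide +kernel))
noncomputable def rhffc2ace432eaf8f3 : CRef := CRef.mk (Pat.mk 0x2000000030000000200000000000000000000000000000000 0x10000000300000003000000030000000300000007000000070000000700000005 6 3) 0 0 (step_sound _ 97 [rh56259dd1390eee46, (rh8cdd36b03d57a2f6.shift 0 1), (rhf9a6286f1d5377a2.shift 0 2), (rhfbd142acd04e79a5.shift 0 2)] (by decide +kernel))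
noncomputable def rhc4c6d4ea5c72a97a : CRef := CRef.mk (Pat.mk 0x60000000300000010000000000000000000000000 0x20000000700000007000000030000001f0000000f0000000700000004 6 5) 0 0 (step_sound _ 97 [(rh000637b5a81e86aa.shift 0 1), (rh12452934acb847d5.shift 0 2), rh4c4f1f8a139336b8] (by decide +kernel))
noncomputable def rh2d5278bf8bdc5a58 : CRef := CRef.mk (Pat.mk 0xc0000001c0000000c0000000400000000 0x10000000720000003e0000001f0000000c0000000600000002 6 7) 0 0 (step_sound _ 33 [(rh932754581e0f4330.shift 1 0), (rhfc9f240c24cca6f3.shift 0 1)] (by decide +kernel))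
noncomputable def rh084f753cabdc1c40 : CRef := CRef.mk (Pat.mk 0x10000000380000001c00000000 0x2c0000006f0000003e000000380000001c0000000c 6 7) 0 0 (step_sound _ 99 [(rh37d9ceebb86d75d1.shift 2 0), rhf12614039854d837, (rhf9c595df43fc9926.shift 1 0)] (by decide +kernel))
noncomputable def rheb1b5fffd7fe33b9 : CRef := CRef.mk (Pat.mk 0x98000000180000001000000008 0x400000017000000ff0000001f0000001800000008 6 8) 0 0 (step_sound _ 35 [(rh5c5e593799055d58.shift 3 0), (rhf8011fcd879816a5.shift 0 1)] (by decide +kernel))
noncomputable def rh46babd95cd71d0e0 : CRef := CRef.mk (Pat.mk 0x4000000440000000c0000000c 0x1a0000003f0000007f0000000c0000000c 6 7) 0 0 (step_sound _ 99 [(rh2f68792b6b779e96.shift 2 0), rh81fd61964a6f58db] (by decide +kernel))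
noncomputable def rh703272b452d174e2 : CRef := CRef.mk (Pat.mk 0x30000000000000006000000000000000000000000 0x50000000700000007000000030000000300000006000000070000000700000005 6 3) 0 0 (step_sound _ 129 [rh01483ff9cba2f6ac, (rh14e0829dc73b6804.shift 0 2), (rh70e33bfdf511e144.shift 1 0), (rhb1a251d9bff81766.shift 0 2)] (by decide +kernel))
noncomputable def rh7a467b4f421baab8 : CRef := CRef.mk (Pat.mk 0x10000001a0000001300000012 0xc0000001f0000000b0000001a0000001b00000013 6 5) 0 0 (step_sound _ 97 [rh50fbb5868c909700, rhff8c8e8c37d692c3] (by decide +kernel))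
noncomputable def rhc048c9c38d5163f2 : CRef := CRef.mk (Pat.mk 0x30000005a00000008000000000000000000000000 0x1000000030000007b0000000f000000030000000300000001 6 7) 0 0 (step_sound _ 98 [(rh361cc68994bd8a63.shift 2 3), rh8a5fe1dd9bb6066e] (by decide +kernel))
noncomputable def rhd507afbfddef8731 : CRef := CRef.mk (Pat.mk 0x3000000020000000200000004 0x100000007000000070000000600000003000000030000000600000004 6 3) 0 0 (step_sound _ 129 [(rh24e7089cea57625c.shift 0 1), (rhd3458b32566d63f7.shift 1 0)] (by decide +kernel))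
noncomputable def rhafc826b821ea4cd4 : CRef := CRef.mk (Pat.mk 0x160000001400000014000000000000000000000000 0x2000000020000000b0000001e0000001600000014000000380000003800000028 6 6) 0 0 (step_sound _ 163 [(rh0a6888916bcef86b.shift 3 0), (rh768a472a1ebe455c.shift 0 3)] (by decide +kernel))
noncomputable def rh22b94898f8611d9b : CRef := CRef.mk (Pat.mk 0x900000001a0000003800000008000000000000000000000000 0x4000000ff0000001b0000003c0000000f000000040000000400000004 6 8) 0 0 (step_sound _ 197 [rh25af20831f12ea3c, (rh361cc68994bd8a63.shift 3 5)] (by decide +kernel))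
noncomputable def rhc615861594ff27b5 : CRef := CRef.mk (Pat.mk 0x1c00000030000000080000000800000000 0x40000001c000000380000003f0000007c00000030 6 7) 0 0 (step_sound _ 99 [(rh50fbb5868c909700.shift 2 1), rh83816445271df0ea] (by decide +kernel))
noncomputable def rhcce5b447ba70f1dc : CRef := CRef.mk (Pat.mk 0x340000001c000000880000000800000000 0x230000003f0000001c000000fc0000007c00000034 6 8) 0 0 (step_sound _ 131 [rh4edb157f09354d7e, (rhec45253cfaab2d6a.shift 3 0)] (by decide +kernel))
noncomputable def rh0c88e85bf1a33774 : CRef := CRef.mk (Pat.mk 0x3000000018000000080000000800000000 0xc0000000c0000000f0000003f0000001f0000001c0000000c00000004 6 6) 0 0 (step_sound _ 131 [(rh0c1b433c053746b9.shift 1 0), (rh0ef6c71ce89c1c36.shift 2 0), (rh20595ccdccbf31d9.shift 0 2)] (by decide +kernel))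
noncomputable def rhb55c49f93d2c23ee : CRef := CRef.mk (Pat.mk 0x2000000020000001000000010000000100000000000000000 0x20000000380000003e0000003b0000003000000010000000300000003000000020 6 6) 0 0 (step_sound _ 164 [(rh1efe470493b598b7.shift 1 2), (rh5c2604daa0330ae7.shift 3 1), (rh6c59ce14113da07f.shift 4 0), (rha566c92c412176c9.shift 0 2)] (by decide +kernel))
noncomputable def rh2b437ef9c6ee466e : CRef := CRef.mk (Pat.mk 0x30000000600000010000000100000000000000000 0x28000000380000003b0000001e00000010000000380000003800000028 6 6) 0 0 (step_sound _ 132 [(rh2fe78cc5ca4405d8.shift 0 4), (rhabc5919e4ae81192.shift 3 0)] (by decide +kernel))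
noncomputable def rh2be649ff8a02be3b : CRef := CRef.mk (Pat.mk 0xa000000180000005000000040000000000000000000000000 0xa0000000e0000000ef000000f800000050000000e0000000e0000000e0000000a0 6 8) 0 0 (step_sound _ 166 [(rh0229df9e8c2b8e28.shift 5 0), (rh221fe539b29f7cc4.shift 2 2), (rh23180280a8fd1027.shift 0 5), (rh3193d494772eaa23.shift 5 1), (rh3debde4db4905e50.shift 3 1), (rhabc5919e4ae81192.shift 5 1)] (by decide +kernel))
noncomputable def rh6e2d469336402966 : CRef := CRef.mk (Pat.mk 0x30000001600000014000000100000000000000000 0x2a0000003e0000003b0000003600000014000000300000003000000020 6 6) 0 0 (step_sound _ 193 [(rh2145e1d24b96a57e.shift 1 3), rha0580894fb78b9fa] (by decide +kernel))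
noncomputable def rha509a499af01cca2 : CRef := CRef.mk (Pat.mk 0x800000008000000080000004800000008 0x40000000c0000000c000000180000007c0000001f0000007800000008 6 7) 0 0 (step_sound _ 66 [rh32e98766b8fccedc, rhc9613fc5bab58382, (rhd1cd6acd6635dd49.shift 2 1)] (by decide +kernel))
noncomputable def rh80227680f2ba8044 : CRef := CRef.mk (Pat.mk 0x200000002000000020000001200000003 0x500000007000000070000000200000002000000060000001e00000003 6 5) 0 0 (step_sound _ 34 [rh361cc68994bd8a63, (rhba97f7f4ade5e136.shift 0 1)] (by decide +kernel))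
noncomputable def rhd537020f8e30946a : CRef := CRef.mk (Pat.mk 0x200000002000000030000001000000000 0x50000000700000007000000070000000600000003000000030000001e00000004 6 5) 0 0 (step_sound _ 161 [(rh9fb9dc683e09b5f3.shift 0 2), rhb4ad15d6999021c8, (rhe62cab2ff5ad6fe2.shift 0 2)] (by decide +kernel))
noncomputable def rhf6a455fd2a498193 : CRef := CRef.mk (Pat.mk 0x20000000200000002000000000000000000000000 0x50000000700000007000000020000000200000007000000070000000700000005 6 3) 0 0 (step_sound _ 193 [(rh1741680720c097b4.shift 0 3), rhbaa2aa7a431bd100] (by decide +kernel))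
noncomputable def rhc084efbae32225ae : CRef := CRef.mk (Pat.mk 0x1000000003000000020000000100000000 0x500000007000000070000001e00000003000000030000000300000001 6 5) 0 0 (step_sound _ 129 [rh0db119afefb5ebc7, (rhb77bfac3e9efecea.shift 0 1), rhb8fabe28d4babe66] (by decide +kernel))
noncomputable def rh94e0d577f2e89218 : CRef := CRef.mk (Pat.mk 0x60000000000000006000000100000000000000000 0x50000000700000007000000070000003f0000000700000007 6 6) 0 0 (step_sound _ 65 [(rh02ef15e22aa7db92.shift 1 0), rh309256767465bfda, (rh7d7eaefe27cdd7b0.shift 1 2), rhaa02dd547a368cc9] (by decide +kernel))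
noncomputable def rhf2da57fb5deb4fef : CRef := CRef.mk (Pat.mk 0x8000000180000000900000010000000000000000000000000 0x180000001c0000000f000000180000001c0000000c00000004 6 5) 0 0 (step_sound _ 99 [(rh55afc6a59410cf00.shift 3 2), rhda0cd6b78000b5c8] (by decide +kernel))
noncomputable def rhcee971db22aaadb1 : CRef := CRef.mk (Pat.mk 0x50000000c00000000 0xff0000007e000000f0 6 8) 0 0 (step_sound _ 36 [(rh08c8fb8e65451dc8.shift 1 0), (rh4b858afe2cb38247.shift 0 1), (rh71b175d56e26c10e.shift 0 1), (rhc23b2dfc9c6ae24a.shift 0 1)] (by decide +kernel))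
noncomputable def rh5bb19c578143c761 : CRef := CRef.mk (Pat.mk 0x9800000018000000080000001800000000 0x64000000ff00000018000000180000001c00000004 6 8) 0 0 (step_sound _ 34 [(rh932754581e0f4330.shift 2 0), (rh99cda801d841c0b1.shift 0 1)] (by decide +kernel))
noncomputable def rh51662fbf082f281d : CRef := CRef.mk (Pat.mk 0x2000000120000000300000002 0x10000000700000007000000060000001f0000000300000002 6 5) 0 0 (step_sound _ 66 [(rh361cc68994bd8a63.shift 0 1), rh4e2df8342d3b8ae8] (by decide +kernel))
noncomputable def rh78e4e141d0a4a072 : CRef := CRef.mk (Pat.mk 0x40000000c00000018000000040000000000000000 0x40000000c0000001c0000001f0000003b00000010 6 6) 0 0 (step_sound _ 67 [(rh7b1f1fb55310c477.shift 2 1), rh8679df43b0b72e47] (by decide +kernel))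
noncomputable def rh8d6197d4d36e3ee0 : CRef := CRef.mk (Pat.mk 0x800000018000000300000000800000000 0x1800000018000000180000001e0000003c0000000f00000004 6 6) 0 0 (step_sound _ 163 [(rh2145e1d24b96a57e.shift 3 2), rh82a5444e3a46de27] (by decide +kernel))
noncomputable def rhff6c3bb58100dc1f : CRef := CRef.mk (Pat.mk 0x980000001800000030 0x40000000400000007000000ff0000001f00000038 6 8) 0 0 (step_sound _ 66 [(rh6777e7960e5db32a.shift 1 0), rh85f589451634aebd, (rhbd3a02da2ec9d25f.shift 0 1)] (by decide +kernel))
noncomputable def rhab6aa8ed407f942a : CRef := CRef.mk (Pat.mk 0x380000001800000010 0xc0000000c0000000f0000003f0000001f00000010 6 6) 0 0 (step_sound _ 131 [(rh6f1cbe15c631ee70.shift 3 0), (rheb4bed7d7070d6f7.shift 0 1)] (by decide +kernel))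
noncomputable def rhce3d0c4a4ebee03d : CRef := CRef.mk (Pat.mk 0x980000001800000010 0x200000002000000077000000ff0000001e00000010 6 8) 0 0 (step_sound _ 69 [rh21aa0be521da3da9, (rh361cc68994bd8a63.shift 3 1)] (by decide +kernel))
noncomputable def rhaa5f50da654bc74e : CRef := CRef.mk (Pat.mk 0x2000000030000000200000001 0x500000007000000070000000300000003000000030000000300000001 6 3) 0 0 (step_sound _ 129 [(rh10e19c4a59f04b1a.shift 0 1), rh79877ebd3ef475dd] (by decide +kernel))
noncomputable def rh6cd6126d37d9f4d1 : CRef := CRef.mk (Pat.mk 0x100000000300000006000000000000000000000000 0x500000007000000070000001f0000000300000006000000060000000600000004 6 5) 0 0 (step_sound _ 161 [(rh70e33bfdf511e144.shift 1 0), rh8508eb63d8feaaff, (rhc47fe1bc6b175f77.shift 0 1), (rhfb9fb48a5e63ed80.shift 0 2)] (by decide +kernel))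
noncomputable def rh79f75d8a7a9cec99 : CRef := CRef.mk (Pat.mk 0x2600000006000000020000000200000000 0x300000003000000030000003e00000006000000030000000300000001 6 6) 0 0 (step_sound _ 131 [rh0ef6c71ce89c1c36, (rh361cc68994bd8a63.shift 1 3)] (by decide +kernel))
noncomputable def rh8f92f7677da05d19 : CRef := CRef.mk (Pat.mk 0x80000000800000008000000000000000000000000 0xc0000000c0000000c0000000f0000003c0000001c00000014 6 6) 0 0 (step_sound _ 67 [(rh161c003cd166b8ec.shift 0 1), (rh6eff4158bb400f47.shift 2 0), (rhc4526fc8abf298b6.shift 2 0), (rhcae87bda2c3c01d2.shift 2 0)] (by decide +kernel))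
noncomputable def rh36d16ef21c97d036 : CRef := CRef.mk (Pat.mk 0xc000000440000000400000000000000000000000000000000 0x2000000060000000f0000007e0000000c0000000c0000000e0000000e0000000a 6 7) 0 0 (step_sound _ 98 [(rh0e265529ce57de43.shift 0 2), (rh5abfc4c9d959be03.shift 1 2), (rhc94dfb5f501cb051.shift 1 0), (rhcae87bda2c3c01d2.shift 1 1)] (by decide +kernel))
noncomputable def rh172b7aa8e8689743 : CRef := CRef.mk (Pat.mk 0x18000000980000000800000000 0xc0000000c0000000c00000018000000fc0000000f00000004 6 8) 0 0 (step_sound _ 69 [(rh2fe78cc5ca4405d8.shift 3 2), rhd6168162da46a2b8] (by decide +kernel))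
noncomputable def rhb409b9d107623f9e : CRef := CRef.mk (Pat.mk 0x10000000030000000200000001000000000000000000000000 0x1000000050000001f000000030000000200000003000000070000000700000005 6 5) 0 0 (step_sound _ 97 [rh56259dd1390eee46, (rh8ca74fa25325e393.shift 0 2), (rhb1a251d9bff81766.shift 0 2)] (by decide +kernel))
noncomputable def rh33ea71149fb82ea9 : CRef := CRef.mk (Pat.mk 0x400000004000000100000003800000000 0x400000006000000fb000000fe000001c7 6 9) 0 0 (step_sound _ 70 [(rh6e96e90a79333766.shift 3 0), rh7df12c1217453361] (by decide +kernel))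
noncomputable def rh7a999d2919930dd0 : CRef := CRef.mk (Pat.mk 0x800000008000000080000000800000008000000000000000000000000 0x8000000180000007c0000001f0000000c000000180000001800000010 6 7) 0 0 (step_sound _ 130 [(rh932754581e0f4330.shift 2 3), rhe71255cabd85b222] (by decide +kernel))
noncomputable def rh6ee9fa4b4eeaa53a : CRef := CRef.mk (Pat.mk 0xa000000080000000800000008000000000000000000000000 0x1f0000007c00000018000000080000001c0000001c00000014 6 7) 0 0 (step_sound _ 67 [(rh6c59ce14113da07f.shift 3 0), (rh8cdd36b03d57a2f6.shift 2 0), (rhcab3157f7bdcba3e.shift 2 0), (rheb348af029e35c61.shift 0 1)] (by decide +kernel))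
noncomputable def rh692530de3a1d6b81 : CRef := CRef.mk (Pat.mk 0xa0000000800000008000000040000000000000000 0x1f0000001c000000080000001c0000001c00000010 6 5) 0 0 (step_sound _ 67 [rh929cf1c202877a71, (rh932754581e0f4330.shift 2 1)] (by decide +kernel))
noncomputable def rhc58b374b830e7987 : CRef := CRef.mk (Pat.mk 0x20000000a0000000a000000000000000000000000 0x140000001c0000003c0000001e0000000b0000001e0000001c0000001c00000014 6 6) 0 0 (step_sound _ 163 [(rh0229df9e8c2b8e28.shift 2 0), rh2b829fc43539fe53, (rh4c461be7b7b39b2d.shift 0 2), (rh895960a8d60b102d.shift 2 0), (rhb2057938e92e7d47.shift 0 2)] (by decide +kernel))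
noncomputable def rh53a57142eebd4e25 : CRef := CRef.mk (Pat.mk 0x4000000440000000c00000000 0x40000000400000004000000770000003e0000000a 6 7) 0 0 (step_sound _ 130 [(rh55afc6a59410cf00.shift 2 0), rh6803dd6780f09921] (by decide +kernel))
noncomputable def rh7ea0d7ff5cde5e75 : CRef := CRef.mk (Pat.mk 0x100000001300000013000000030000000000000000 0x100000001b0000001f0000000b0000001e0000000e 6 5) 0 0 (step_sound _ 99 [rh2a090be7cc26eac9, (rhb2a0b9ccfb5cecd5.shift 0 2)] (by decide +kernel))
noncomputable def rh12ac2879b80238e4 : CRef := CRef.mk (Pat.mk 0x1a000000130000001000000001 0x80000000b0000000f0000001b0000001b0000001f00000005 6 5) 0 0 (step_sound _ 129 [rh06181a2dc624c6f8, rh212f526f336186b2, rh319673309b7ac683] (by decide +kernel))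
noncomputable def rh7462485274e30943 : CRef := CRef.mk (Pat.mk 0x800000008000000080000001800000000 0x800000008000000ff0000007f000000e4 6 8) 0 0 (step_sound _ 34 [(rh932754581e0f4330.shift 2 0), rh982e4da1b73360b0] (by decide +kernel))
noncomputable def rh99c2f6734bf49fc3 : CRef := CRef.mk (Pat.mk 0x7000000020 0xf000000fe000001ff 6 9) 0 0 (step_sound _ 35 [(rh592c7139d2c44767.shift 1 0), (rha03f6e28ea70fc7d.shift 2 0), (rha55e9a51d19a998f.shift 2 0), rhc92c11e8da6c894f] (by decide +kernel))
noncomputable def rh6572bbe90580e1b8 : CRef := CRef.mk (Pat.mk 0x1e00000004000000000000000400000000 0x30000001e0000003f000000030000000700000006 6 6) 0 0 (step_sound _ 97 [rh28c1b45380c0c693, (rheb0810cc63b001d8.shift 0 3)] (by decide +kernel))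
noncomputable def rh7ca3d4e8f52679c9 : CRef := CRef.mk (Pat.mk 0x1000000010000000800000000c00000008 0x1000000010000000f00000007e000000ff 6 8) 0 0 (step_sound _ 36 [(rh3c88ce959c0e423f.shift 3 0), rh40789fe01e004519] (by decide +kernel))
noncomputable def rh67f82fe108bf7836 : CRef := CRef.mk (Pat.mk 0x4000000440000000c000000000000000000000000 0x400000004000000f60000003f000000fb0000000200000002 6 8) 0 0 (step_sound _ 100 [(rh1f36686c55693598.shift 1 3), (rh241ddf12d4fc9298.shift 1 3), rh9d1adc2f6da05dba, rhe50bbcfb92a78773] (by decide +kernel))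
noncomputable def rh2020cb9c932ab11c : CRef := CRef.mk (Pat.mk 0x10000000100000003800000000 0x1000000010000000170000003e00000067 6 7) 0 0 (step_sound _ 5 [(rh2145e1d24b96a57e.shift 4 0), rh3918eeb6c53434d8] (by decide +kernel))
noncomputable def rhc91c6dd516df9bb2 : CRef := CRef.mk (Pat.mk 0x6000000030000000000000007800000000 0x640000003c0000000e0000007e00000007 6 7) 0 0 (step_sound _ 66 [rh261a8866d59fca2f, (rh3f8766e6ecb455ce.shift 2 1)] (by decide +kernel))
noncomputable def rhe0103a30a4bb50ef : CRef := CRef.mk (Pat.mk 0xc0000000400000004000000000000000000000000 0x60000000e0000000e0000003c0000000f0000000e0000000a 6 6) 0 0 (step_sound _ 66 [(rh3ca4c10fdf355329.shift 0 1), (rh8cdd36b03d57a2f6.shift 1 0), (rhffd0ff6f60fa3c9a.shift 1 1)] (by decide +kernel))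
noncomputable def rh96a3fd28e59a7563 : CRef := CRef.mk (Pat.mk 0x400000000c0000000c0000000400000000 0x18000000780000000c0000000f0000003c00000010 6 7) 0 0 (step_sound _ 131 [(rh5c5e593799055d58.shift 2 1), rh969aa2cf75ad5e0c] (by decide +kernel))
noncomputable def rh7f7574ca10c8e804 : CRef := CRef.mk (Pat.mk 0x2000000070000000200000002 0x500000007000000070000000600000006000000070000000300000002 6 3) 0 0 (step_sound _ 129 [(rh19425efbd4f76f8f.shift 0 1), (rh32431e66bbf434a4.shift 0 1), (rh44f453b84f013105.shift 1 0)] (by decide +kernel))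
noncomputable def rhe136ab24ac343574 : CRef := CRef.mk (Pat.mk 0xc000000180000000e000000000000000000000000 0x20000000f0000001e0000000e0000001e0000001c00000014 6 5) 0 0 (step_sound _ 161 [(rh29b6b9a476013994.shift 1 0), (rhb739f4f82bb681b4.shift 0 4)] (by decide +kernel))
noncomputable def rh687f2995eaa03e13 : CRef := CRef.mk (Pat.mk 0x12000000130000001200000003000000000000000000000000 0x2000000120000001b0000001f0000000b0000001e0000000e00000004 6 5) 0 0 (step_sound _ 65 [(rh94660f4c13544bba.shift 0 1), rha613ffd40b6c9d24, (rhb2ad334fef123198.shift 0 1)] (by decide +kernel))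
noncomputable def rh2fbd74d470c0ae14 : CRef := CRef.mk (Pat.mk 0x2400000006000000200000000600000000 0xc0000003c00000006000000370000001e00000008 6 6) 0 0 (step_sound _ 131 [(rh361cc68994bd8a63.shift 1 3), rh84b06d935020790e] (by decide +kernel))
noncomputable def rh308b49319f98adbd : CRef := CRef.mk (Pat.mk 0x80000000800000038000000100000000000000000 0x80000000f0000003e000000770000001400000010 6 7) 0 0 (step_sound _ 36 [(rh7b1f1fb55310c477.shift 3 0), (rh98b7e41768c72bda.shift 0 1)] (by decide +kernel))
noncomputable def rhd2f2d96a91c29b51 : CRef := CRef.mk (Pat.mk 0x1e00000000000000040000000000000000 0x70000001e00000003000000070000000700000001 6 5) 0 0 (step_sound _ 97 [rh443525415d159627, (rheb0810cc63b001d8.shift 0 3)] (by decide +kernel))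
noncomputable def rh610a03db0201f82e : CRef := CRef.mk (Pat.mk 0x4000000078000000000000002000000000 0x4e0000007e000000370000002000000020 6 7) 0 0 (step_sound _ 69 [(rh71222050f2c63a3a.shift 5 0), (rheaad777ed634577b.shift 0 2)] (by decide +kernel))
noncomputable def rh43c7de430cdb33b9 : CRef := CRef.mk (Pat.mk 0xc000000180000000e000000000000000000000000 0x20000000f0000001b0000001e0000003c0000001400000004 6 6) 0 0 (step_sound _ 161 [rh75157e015ab5bf2f, (rhb739f4f82bb681b4.shift 0 4)] (by decide +kernel))
noncomputable def rh8c0ecb871746fad8 : CRef := CRef.mk (Pat.mk 0x400000000c000000180000000c0000000000000000 0x18000000780000000f000000180000001f0000003000000010 6 7) 0 0 (step_sound _ 65 [rh36d9ba0affc5ce9e, (rh53b3c253cb0c65f4.shift 0 2)] (by decide +kernel))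
noncomputable def rhbf47a77fd9b79932 : CRef := CRef.mk (Pat.mk 0x1800000010000000180000001000000000 0x18000000180000001f0000003f0000002e 6 6) 0 0 (step_sound _ 35 [(rh932754581e0f4330.shift 3 0), rhbfaa91fc901ba0ec] (by decide +kernel))
noncomputable def rhc6a25c33e77daf0c : CRef := CRef.mk (Pat.mk 0x800000008000000180000000800000000 0x40000000c0000000f0000007c0000001800000018 6 7) 0 0 (step_sound _ 36 [(rh55afc6a59410cf00.shift 3 0), rhb9ea9cf5d1b0852e] (by decide +kernel))
noncomputable def rh70bea776869aa1a2 : CRef := CRef.mk (Pat.mk 0x2000000020000000200000002000000000000000000000000 0x3000000030000000300000003000000070000000700000004 6 3) 0 0 (step_sound _ 64 [rh72a2a0258c45220e, (rh79877ebd3ef475dd.shift 0 2)] (by decide +kernel))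
noncomputable def rha00addd61e2d7f53 : CRef := CRef.mk (Pat.mk 0x100000001000000038000000000000000000000000 0x180000001f000000ff0000000f0000000c00000004 6 8) 0 0 (step_sound _ 131 [rhcf9f19377a1b8271, (rhe2b63c00a3d7bb73.shift 1 3), (rhf32f861d69cb038f.shift 2 1)] (by decide +kernel))
noncomputable def rh84dce1e038e43808 : CRef := CRef.mk (Pat.mk 0x4000000040000000f8000000000000000000000000 0x100000005000000078000000fe000000370000002000000020 6 8) 0 0 (step_sound _ 69 [(rh6cc58692ec716844.shift 3 0), (rhac4dc1e88438ad5d.shift 0 2), (rhd5889c99d29bf7d6.shift 3 0), (rhf9af042da61fc652.shift 5 0)] (by decide +kernel))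
noncomputable def rh9b28d65c4d3621f4 : CRef := CRef.mk (Pat.mk 0x18000000020000001e00000002000000000000000000000000 0x70000001f000000060000001e00000032000000070000000700000005 6 6) 0 0 (step_sound _ 100 [(rhe25b0a99195a5d59.shift 1 3), rhe7b42330235301f6] (by decide +kernel))
noncomputable def rh4761db200490dd80 : CRef := CRef.mk (Pat.mk 0xc000000180000000e0000000000000000 0xf0000001f0000003e0000003300000012 6 6) 0 0 (step_sound _ 129 [(rhb739f4f82bb681b4.shift 0 3), rhca7b093a94043019] (by decide +kernel))
noncomputable def rh0744e453cf6aca14 : CRef := CRef.mk (Pat.mk 0x18000000080000000c 0x140000001c0000001c0000001f000000380000000c0000000c 6 6) 0 0 (step_sound _ 99 [(rh1741680720c097b4.shift 2 0), rh5aa5e9dc84124dd6, (rh9a369cb82ea472da.shift 2 0), (rh9fb9dc683e09b5f3.shift 2 0), (rhe62cab2ff5ad6fe2.shift 2 0)] (by decide +kernel))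
noncomputable def rh8e0db32d4f9056c0 : CRef := CRef.mk (Pat.mk 0x18000000000000003800000000 0x100000001000000018000000180000000f0000007e000000ef 6 8) 0 0 (step_sound _ 34 [(rh0edd3afef6b5d7e0.shift 1 0), (rh186400995b27b60f.shift 1 0), rh775ca1963e850b80, (rhd52e3929053d9d5f.shift 1 0)] (by decide +kernel))
noncomputable def rh3f890e09e1d46e97 : CRef := CRef.mk (Pat.mk 0x1c000000000000000c000000000000000000000000 0x80000000a0000000f0000001c000000040000000c0000000e0000000e0000000a 6 5) 0 0 (step_sound _ 130 [(rh215e11e099257d75.shift 2 2), (rh70e33bfdf511e144.shift 2 0), (rhcc60a17a1a87c612.shift 0 2), (rhffb8e5993241bf15.shift 1 0)] (by decide +kernel))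
noncomputable def rh4ba787857d60c373 : CRef := CRef.mk (Pat.mk 0xc000000180000000c000000000000000000000000 0x40000000c0000001e0000001f000000330000001200000002 6 6) 0 0 (step_sound _ 97 [(rh53b3c253cb0c65f4.shift 0 3), rhc3aa69e923ba2d93] (by decide +kernel))
noncomputable def rhe184d9d1d9eef659 : CRef := CRef.mk (Pat.mk 0x2000000120000000300000002 0x40000000700000007000000030000001f0000000300000002 6 5) 0 0 (step_sound _ 66 [(rh361cc68994bd8a63.shift 0 1), rh69f0587a21bb077f] (by decide +kernel))
noncomputable def rh94470bca029251c1 : CRef := CRef.mk (Pat.mk 0x20000000060000000c000000070000000000000000 0xa0000000e0000003e000000060000000c0000000f0000001800000008 6 6) 0 0 (step_sound _ 67 [(rh14e0829dc73b6804.shift 1 1), rh78974448101547fe, (rhb0ec3bbf712aa524.shift 1 2)] (by decide +kernel))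
noncomputable def rh7ec5b706618793d0 : CRef := CRef.mk (Pat.mk 0x38000000180000000000000018 0x700000003f0000001f0000001800000018 6 7) 0 0 (step_sound _ 132 [(rh9e3edb185cc347de.shift 3 0), rhb91ae9be76ad097d] (by decide +kernel))
noncomputable def rhc7197e2aaab726ce : CRef := CRef.mk (Pat.mk 0x3800000018000000000000001800000000 0x18000000380000001e0000000f0000003c00000004 6 6) 0 0 (step_sound _ 67 [rh2eb4be0e9b885cc5, (rh2f68792b6b779e96.shift 3 1)] (by decide +kernel))
noncomputable def rh1aff61c112ea49b0 : CRef := CRef.mk (Pat.mk 0x20000000040000007800000000 0x2000000020000000360000007e00000057 6 7) 0 0 (step_sound _ 34 [(rh3244c3cc8379b070.shift 1 1), rh88355e241289722f] (by decide +kernel))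
noncomputable def rh91fad976292bf08d : CRef := CRef.mk (Pat.mk 0x18000000020000000e000000000000000000000000 0x3a0000001f0000000e0000000e000000060000000400000004 6 6) 0 0 (step_sound _ 66 [(rh16cbd58a1619e6a8.shift 2 0), (rh5d54cb79a67f97ab.shift 1 0), (rhab05d356ba034c33.shift 0 2), (rhc2c7bae8f445c890.shift 1 0)] (by decide +kernel))
noncomputable def rh52653674b3dd49db : CRef := CRef.mk (Pat.mk 0x9800000018000000080000000c00000000 0x8000000f80000001e0000000f0000003c00000010 6 8) 0 0 (step_sound _ 133 [rh2df446ca63b97b60, (rh361cc68994bd8a63.shift 3 3)] (by decide +kernel))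
noncomputable def rhd9fae7311b79059f : CRef := CRef.mk (Pat.mk 0x3000000010000000180000001800000000 0x8000000380000001e000000380000001f00000014 6 6) 0 0 (step_sound _ 131 [(rh50fbb5868c909700.shift 3 1), rhdaae011bf01303a8] (by decide +kernel))
noncomputable def rh66fcade2f8a95582 : CRef := CRef.mk (Pat.mk 0x60000000000000003000000000000000000000000 0x40000000400000006000000060000000300000003000000070000000700000005 6 3) 0 0 (step_sound _ 129 [(rh215e11e099257d75.shift 1 2), rhfafeb437ceb8396d, rhffb8e5993241bf15] (by decide +kernel))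
noncomputable def rhfb1645681424094f : CRef := CRef.mk (Pat.mk 0x4000000400000000e000000000000000000000000 0x400000004000000740000003f0000003c0000000800000008 6 7) 0 0 (step_sound _ 100 [rh190607c0dc91f39b, (rh45e9dfbd6bd5d256.shift 1 3)] (by decide +kernel))
noncomputable def rh4bfdfe52a9dc64a7 : CRef := CRef.mk (Pat.mk 0x12000000030000000040000003800000000 0x1e40000003c000000060000003e00000007 6 9) 0 0 (step_sound _ 34 [(rh3244c3cc8379b070.shift 1 1), rhd939195c223196af] (by decide +kernel))
noncomputable def rh7e7f4b7b9e2d5423 : CRef := CRef.mk (Pat.mk 0x2000000020000000600000002000000000000000000000000 0x100000003000000030000000600000006000000070000000300000003 6 3) 0 0 (step_sound _ 98 [(rh55afc6a59410cf00.shift 1 2), rha9a9dd876407ae9a] (by decide +kernel))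
noncomputable def rh5fcbc303396a64dc : CRef := CRef.mk (Pat.mk 0x2000000060000000300000002 0x500000007000000070000000600000006000000070000000300000002 6 3) 0 0 (step_sound _ 129 [rh32e4c2b7fb2cffba, (rh44f453b84f013105.shift 1 0), (rh9fb9dc683e09b5f3.shift 0 1)] (by decide +kernel))
noncomputable def rh406a63d33438bd46 : CRef := CRef.mk (Pat.mk 0x8000000800000001c0000000000000000 0xc0000000c000000e70000007e0000000f00000008 6 8) 0 0 (step_sound _ 69 [(rh45e9dfbd6bd5d256.shift 2 2), (rh592c7139d2c44767.shift 0 1), (rha700292a805d5a54.shift 1 0)] (by decide +kernel))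
noncomputable def rh0d461b43f68071be : CRef := CRef.mk (Pat.mk 0x20000001e0000000200000000000000000000000000000000 0x6000000060000001e0000003e00000007000000070000000300000001 6 6) 0 0 (step_sound _ 132 [rh8e5eabe41d677c66, (rhe25b0a99195a5d59.shift 1 4)] (by decide +kernel))
noncomputable def rhe0854b0923e42e2d : CRef := CRef.mk (Pat.mk 0x20000000600000012000000000000000000000000 0x30000000300000006000000060000001e000000070000000300000002 6 5) 0 0 (step_sound _ 98 [rh37e540d481210cc1, (rh3e595262c1b737ad.shift 1 2), rh708738f1a30da4fa] (by decide +kernel))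
noncomputable def rh3544b13ee1fe4ab3 : CRef := CRef.mk (Pat.mk 0xc000000480000000c0000000000000000 0x40000000c000000780000000f0000007c00000010 6 7) 0 0 (step_sound _ 100 [rh2aa1a308bf84e445, (rh361cc68994bd8a63.shift 2 2)] (by decide +kernel))
noncomputable def rh0627db7446bbd39d : CRef := CRef.mk (Pat.mk 0x10000000030000000000000003000000000000000000000000 0x1000000050000001f000000030000000200000003000000070000000700000005 6 5) 0 0 (step_sound _ 129 [rh0a6888916bcef86b, (rh8ca74fa25325e393.shift 0 2), (rhb1a251d9bff81766.shift 0 2)] (by decide +kernel))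
noncomputable def rhe734b770c481feb3 : CRef := CRef.mk (Pat.mk 0x18000000020000001e000000000000000000000000 0x70000001f000000060000001e000000070000000600000004 6 5) 0 0 (step_sound _ 65 [rh5a6fa080392d885b, (rheb0810cc63b001d8.shift 0 2)] (by decide +kernel))
noncomputable def rhc66e181dd76dbde1 : CRef := CRef.mk (Pat.mk 0x30000001800000002000000000000000000000000 0x1000000030000001e00000002000000070000000700000005 6 5) 0 0 (step_sound _ 129 [rh0a6888916bcef86b, (rh5419adcd928dba20.shift 0 4)] (by decide +kernel))
noncomputable def rhe98693832be5a47a : CRef := CRef.mk (Pat.mk 0x80000001800000048000000000000000000000000 0xc0000000c0000001800000018000000780000001f0000001c0000000c 6 7) 0 0 (step_sound _ 100 [(rh55a1f6c57a317ce6.shift 3 1), (rh708738f1a30da4fa.shift 2 0), rhd7636438a52c39de] (by decide +kernel))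
noncomputable def rh3d9a98e0965b8696 : CRef := CRef.mk (Pat.mk 0x1a0000001e00000000000000000000000000000000 0x1000000030000001e0000001e00000007000000070000000700000001 6 5) 0 0 (step_sound _ 97 [rhaf5dcbbedda62b0c, (rheb0810cc63b001d8.shift 0 3)] (by decide +kernel))
noncomputable def rh262ed0982878f4e9 : CRef := CRef.mk (Pat.mk 0x80000000c0000000e00000000 0xe0000000f0000003c0000000c0000000e00000002 6 6) 0 0 (step_sound _ 131 [(rh5c5e593799055d58.shift 2 1), rh6e7f58010cf0b92d] (by decide +kernel))
noncomputable def rh004ff21326bfb526 : CRef := CRef.mk (Pat.mk 0x1000000010000000180000001c000000000000000800000000 0x8000000180000001a0000001f0000001c000000040000000c0000000c 6 5) 0 0 (step_sound _ 195 [(rh50fbb5868c909700.shift 3 3), rhc4db719bbbd0a0e1] (by decide +kernel))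
noncomputable def rh7334c7bf7e4debda : CRef := CRef.mk (Pat.mk 0x8000000090000000b000000090000000400000000 0x10000000190000000f0000000b0000000b0000000700000007 6 5) 0 0 (step_sound _ 164 [(rh2f68792b6b779e96.shift 3 2), rh9940bcd15fda4f3d] (by decide +kernel))
noncomputable def rhf7483e85ec31d66e : CRef := CRef.mk (Pat.mk 0x1e0000001000000008000000000000000000000000 0x100000001f00000018000000080000001c0000001c00000014 6 5) 0 0 (step_sound _ 131 [(rhb739f4f82bb681b4.shift 0 4), (rhffb8e5993241bf15.shift 2 0)] (by decide +kernel))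
noncomputable def rh70c84d92cd1e9a1d : CRef := CRef.mk (Pat.mk 0x40000003400000014000000100000000000000000 0x200000006000000360000001f0000001e0000000e0000000a 6 6) 0 0 (step_sound _ 97 [(rh1c62b6193297d9e3.shift 1 3), rh59a39ce2032fa257] (by decide +kernel))
noncomputable def rh8080e17d593dc7a8 : CRef := CRef.mk (Pat.mk 0x1a00000002000000080000000c00000000 0x30000001e000000030000001f0000000f00000001 6 5) 0 0 (step_sound _ 130 [rh1ddec4e30dd9809f, (rheb0810cc63b001d8.shift 0 3)] (by decide +kernel))
noncomputable def rh56b7333c87c56aab : CRef := CRef.mk (Pat.mk 0x30000001a00000008000000000000000000000000 0x10000000300000003000000030000001b0000000f000000030000000300000001 6 5) 0 0 (step_sound _ 97 [rh01483ff9cba2f6ac, (rh7183d73c74feafce.shift 0 2), (rhb1a251d9bff81766.shift 0 2), rhde5b474548b482d7] (by decide +kernel))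
noncomputable def rh4cd7deaf53231997 : CRef := CRef.mk (Pat.mk 0x180000000800000008000000000000000000000000 0x800000018000000180000000f0000003c0000001c00000014 6 6) 0 0 (step_sound _ 67 [(rh161c003cd166b8ec.shift 0 1), (rh8c3839f9b9075f23.shift 3 0), (rha8bc3cae4d77a08f.shift 2 0)] (by decide +kernel))
noncomputable def rh144efba816aea87b : CRef := CRef.mk (Pat.mk 0x10000000130000001000000003000000000000000000000000 0x110000001b0000001e0000000f0000000f0000000f00000005 6 5) 0 0 (step_sound _ 129 [rh0a6888916bcef86b, (rh0fbbb92589a12005.shift 0 1)] (by decide +kernel))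
noncomputable def rhf94cb91b71961ad4 : CRef := CRef.mk (Pat.mk 0x20000000000000003800000004 0x2000000020000000370000003e00000036 6 6) 0 0 (step_sound _ 34 [rh44ec1ee362871af7, (rheb0810cc63b001d8.shift 1 0)] (by decide +kernel))
noncomputable def rh12d39b366bc064ff : CRef := CRef.mk (Pat.mk 0x1000000010000000100000000380000000000000000 0x10000000180000001ff000000fe000001c700000080 6 9) 0 0 (step_sound _ 66 [(rh592c7139d2c44767.shift 0 1), (rh61bb5761f33eeb27.shift 1 1), rha0508b537a31e81b] (by decide +kernel))
noncomputable def rh77dde8fce463d17d : CRef := CRef.mk (Pat.mk 0x4000000400000000e000000000000000000000000 0x400000006000000770000003e000000070000000600000006 6 7) 0 0 (step_sound _ 100 [(rh45e9dfbd6bd5d256.shift 1 3), rhbbcfe94caeb60d51, rhe6f3c981f45ee7b2] (by decide +kernel))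
noncomputable def rh3fdc563b3a4fa77c : CRef := CRef.mk (Pat.mk 0x8000000020000001e00000000000000000000000000000000 0xe0000000e0000001e00000007000000070000000700000005 6 5) 0 0 (step_sound _ 97 [rhc6e365d89b27af5e, (rheb0810cc63b001d8.shift 0 3)] (by decide +kernel))
noncomputable def rh5344fb6eab389bb7 : CRef := CRef.mk (Pat.mk 0x30000000000000003000000000000000000000000 0x1000000030000000300000003000000070000000700000007 6 3) 0 0 (step_sound _ 65 [rh0588d2c7f2cab5e9, rhab082d0eddee63da, rhbe4b6aad05318df6, (rhdb2909ac5c854515.shift 0 2)] (by decide +kernel))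
noncomputable def rhaf73bef71e4379aa : CRef := CRef.mk (Pat.mk 0xc00000044000000040000000000000000 0xa0000003e00000077000000040000000400000004 6 7) 0 0 (step_sound _ 34 [rh0835b06c06c97f13, (rh2f68792b6b779e96.shift 2 1)] (by decide +kernel))
noncomputable def rh536a742fa1fb43a4 : CRef := CRef.mk (Pat.mk 0x3000000130000001300000010 0xe0000001e0000000b0000001f0000001b00000010 6 5) 0 0 (step_sound _ 67 [(rh5419adcd928dba20.shift 0 2), rh6172318484dfaeef] (by decide +kernel))
noncomputable def rh968e694ddb785ebe : CRef := CRef.mk (Pat.mk 0x100000010000000130000001a000000000000000000000000 0x50000001f0000001b0000001b0000000f0000000b00000008 6 5) 0 0 (step_sound _ 65 [(rh3a1cc22ead2eadb0.shift 0 1), (rh92d527fd57e151ef.shift 0 2), rhaaf0e2206c1bbaa5] (by decide +kernel))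
noncomputable def rh2b54d5a05a791b0a : CRef := CRef.mk (Pat.mk 0x200000007000000000 0x1ff000000fe0000000f 6 9) 0 0 (step_sound _ 35 [(rh0cc4c691701426ad.shift 2 1), (rh775ca1963e850b80.shift 1 0), rhb12ffaec36122c99, (rhec46bd5500c722c9.shift 2 1)] (by decide +kernel))
noncomputable def rhef58e7552e82967d : CRef := CRef.mk (Pat.mk 0x400000000000000040000001e00000000 0x600000007000000030000003f0000001e00000003 6 6) 0 0 (step_sound _ 65 [rh10a52875d9e07b4e, (rh3244c3cc8379b070.shift 0 1)] (by decide +kernel))
noncomputable def rh92473603100bcf5b : CRef := CRef.mk (Pat.mk 0x20000000f800000000 0x37000000fe0000018e 6 9) 0 0 (step_sound _ 7 [rh1f9701c4cf497514, (rhe25b0a99195a5d59.shift 4 0)] (by decide +kernel))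
noncomputable def rh442da0cb64270d5f : CRef := CRef.mk (Pat.mk 0x80000000c000000800000001000000010 0xff0000007e000000f00000001000000010 6 8) 0 0 (step_sound _ 100 [(rh2613c889e411427e.shift 3 0), (rh9a42f4164057f645.shift 0 2)] (by decide +kernel))
noncomputable def rh4a791d5257ad6011 : CRef := CRef.mk (Pat.mk 0xc000000440000000400000000 0x200000002000000fb0000003f000000f60000000400000004 6 8) 0 0 (step_sound _ 100 [(rh033bc28c6fd34a2a.shift 0 1), rh66d77eebe2839fad, (rhe80c67fb403a51c5.shift 1 2), (rhf1af73716833b731.shift 1 2)] (by decide +kernel))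
noncomputable def rh3750db7c0e07a4f5 : CRef := CRef.mk (Pat.mk 0x38000000100000001000000000 0x670000003e000000170000001000000010 6 7) 0 0 (step_sound _ 133 [(rh71222050f2c63a3a.shift 4 0), (rha4e887c2a2a0f60b.shift 0 2)] (by decide +kernel))
noncomputable def rha47cb51b81f70185 : CRef := CRef.mk (Pat.mk 0x78000000000000003000000060 0x70000007e0000000e0000003c00000064 6 7) 0 0 (step_sound _ 66 [rh02b4797a253dc82b, (rh80fcd6d0a18cb2dd.shift 2 2)] (by decide +kernel))
noncomputable def rh99eb8e58ea308aac : CRef := CRef.mk (Pat.mk 0x4000000040000000c00000000 0xa0000000e0000000f0000003c0000000e0000000e00000006 6 6) 0 0 (step_sound _ 130 [rh305945700f20b255, (rh50fc3837f5e8c53a.shift 1 0), (rhc85cc95794737cf7.shift 1 1)] (by decide +kernel))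
noncomputable def rhda69328782527ce9 : CRef := CRef.mk (Pat.mk 0x40000000c0000000c0000004000000000 0x100000003c0000000f0000000c0000007800000018 6 7) 0 0 (step_sound _ 35 [rh2e9314e21fe2be69, (rh7b1f1fb55310c477.shift 2 0)] (by decide +kernel))
noncomputable def rh209146e9a4cc10a8 : CRef := CRef.mk (Pat.mk 0x200000002000000070000000200000000000000000000000000000000 0x200000003000000070000000600000006000000070000000700000005 6 3) 0 0 (step_sound _ 97 [rh0a6888916bcef86b, rh78def76628ab8d9a, (rhd29a1fb688eae70f.shift 1 2)] (by decide +kernel))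
noncomputable def rhd330b68ae4da22da : CRef := CRef.mk (Pat.mk 0xe000000180000000c00000000 0x140000001c0000001e0000000e0000001e0000000f00000002 6 5) 0 0 (step_sound _ 33 [(rh3815fd1a783094e5.shift 1 0), (rh53b3c253cb0c65f4.shift 0 1)] (by decide +kernel))
noncomputable def rhc62a0f6f354fb64a : CRef := CRef.mk (Pat.mk 0x300000012000000130000001200000000 0x40000000e0000001e0000000b0000001f0000001b0000001200000002 6 5) 0 0 (step_sound _ 161 [rh94660f4c13544bba, (rh9a369cb82ea472da.shift 0 2), (rhc3be7fe9a39320ed.shift 0 1)] (by decide +kernel))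
noncomputable def rhd8e82e684d0b5684 : CRef := CRef.mk (Pat.mk 0x600000020000000060000002400000000 0x80000001e00000037000000060000003c0000000c 6 6) 0 0 (step_sound _ 35 [(rh2fe78cc5ca4405d8.shift 1 1), rhceba72cf96d2e7d7] (by decide +kernel))
noncomputable def rhf6c1be9d65ff8773 : CRef := CRef.mk (Pat.mk 0x10000000380000000800000008 0x1000000014000000770000003e0000000f00000008 6 7) 0 0 (step_sound _ 132 [(rh5c5e593799055d58.shift 3 1), rhfbfbbdfd65bc3555] (by decide +kernel))
noncomputable def rh87863097b6e41cbf : CRef := CRef.mk (Pat.mk 0x4000000000000001e00000000 0x10000000700000007000000030000001e00000007 6 5) 0 0 (step_sound _ 65 [rh25517351e1959913, (rh3244c3cc8379b070.shift 0 1)] (by decide +kernel))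
noncomputable def rh3d71f62bbb3749ab : CRef := CRef.mk (Pat.mk 0x20000000000000007800000040 0x2000000020000000370000007e0000004e 6 7) 0 0 (step_sound _ 69 [(rh2145e1d24b96a57e.shift 5 0), rhf0dcb8af34d9ea65] (by decide +kernel))
noncomputable def rh67abd3c8ad4c71cd : CRef := CRef.mk (Pat.mk 0x180000000c 0x770000007e0000000e 6 7) 0 0 (step_sound _ 37 [(rh18965a982d73c794.shift 2 0), rha0f541aa9ffae9a1] (by decide +kernel))
noncomputable def rh4f743d23e8539ca2 : CRef := CRef.mk (Pat.mk 0xe000000180000000c00000000 0x4000000140000003c0000001e0000001b0000000f00000002 6 6) 0 0 (step_sound _ 33 [(rh53b3c253cb0c65f4.shift 0 1), rhd9f2f493214e61cd] (by decide +kernel))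
noncomputable def rhbce87b457901278b : CRef := CRef.mk (Pat.mk 0xc000000180000000c0000004000000000 0x10000000300000001f000000180000000f0000007800000018 6 7) 0 0 (step_sound _ 129 [rh778fb1caa5103fdb, (rhb739f4f82bb681b4.shift 0 3)] (by decide +kernel))
noncomputable def rh16c06fcd9214b8a6 : CRef := CRef.mk (Pat.mk 0x10000000180000001000000018 0x2e0000003f0000001f0000001800000018 6 6) 0 0 (step_sound _ 99 [(rh50fbb5868c909700.shift 3 0), rhbbe093cf23a1f744] (by decide +kernel))
noncomputable def rh84209ff6d6eb5fc2 : CRef := CRef.mk (Pat.mk 0x800000018000000080000000800000000 0x18000000180000007c0000000f0000000c00000004 6 7) 0 0 (step_sound _ 132 [(rh2f68792b6b779e96.shift 3 1), rh7efff25179d37ffa] (by decide +kernel))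
noncomputable def rhb86ed18ea7f07181 : CRef := CRef.mk (Pat.mk 0x2000000020000000200000002 0x4000000070000000700000003000000030000000300000003 6 3) 0 0 (step_sound _ 128 [rhbef286b43898cec8, rhffd04209dc8ea796] (by decide +kernel))
noncomputable def rh699f7f0fd337dfda : CRef := CRef.mk (Pat.mk 0x380000001000000010 0x40000000c0000000f000000ff0000001f00000018 6 8) 0 0 (step_sound _ 35 [(rh0f936b2c74e7b815.shift 2 0), (rh4dc133ee0ba1420a.shift 1 1), rha4147bca450a28fa] (by decide +kernel))
noncomputable def rh0c63d79b2c046ce4 : CRef := CRef.mk (Pat.mk 0xf8000000400000004000000000 0x200000002000000037000000fe000000780000005000000010 6 8) 0 0 (step_sound _ 133 [(rh46a18fdc02aaa967.shift 0 2), (rh50e736ca27d8bdbd.shift 3 0), (rhcfde16a7ff36af03.shift 3 0), (rhe072fffdd2fccf38.shift 5 1)] (by decide +kernel))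
noncomputable def rh8e4e59df125f891a : CRef := CRef.mk (Pat.mk 0xf000000040 0x3f000000fe00000067 6 8) 0 0 (step_sound _ 35 [rh36eba2a3de447758, rh9f06256b9143186d, (rhd5eb272e07a4e288.shift 2 1)] (by decide +kernel))
noncomputable def rhf4fe2a9a61c0466a : CRef := CRef.mk (Pat.mk 0x20000001e000000020000001800000000 0x50000000700000007000000320000001e000000060000001f00000007 6 6) 0 0 (step_sound _ 132 [(rh33e738c4ed385b9f.shift 1 3), rh6c49cebc50373930] (by decide +kernel))
noncomputable def rh55213f7a88ba4f48 : CRef := CRef.mk (Pat.mk 0xe000000180000000c 0x12000000330000003e0000001f0000000f 6 6) 0 0 (step_sound _ 1 [rh53b3c253cb0c65f4, rhba5b50064c74d6ff] (by decide +kernel))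
noncomputable def rh5df54b300623b540 : CRef := CRef.mk (Pat.mk 0xc000000080000001800000000000000000000000000000000 0xc0000000c000000380000001f0000001c0000001c00000014 6 6) 0 0 (step_sound _ 99 [(rh2c5a6414b11f54f4.shift 0 2), (rh6eff4158bb400f47.shift 2 1), (rha613ffd40b6c9d24.shift 2 1), (rhbba7d23481996066.shift 2 0), (rhe4441baab75a6f73.shift 2 1)] (by decide +kernel))
noncomputable def rhd8938fa7040a21a4 : CRef := CRef.mk (Pat.mk 0x380000000000000018000000000000000000000000 0xef0000007e0000000f00000018000000180000001000000010 6 8) 0 0 (step_sound _ 162 [(rh22b38309c56a80eb.shift 1 5), (rh592c7139d2c44767.shift 0 4), (rhaeebc73f5a9c796a.shift 1 4), (rhf9ab2d41f5effb32.shift 1 0)] (by decide +kernel))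
noncomputable def rhf68d87a9cc7d7e5d : CRef := CRef.mk (Pat.mk 0xc000000000000001c000000000000000000000000 0xa0000000e0000000e0000000c000000040000001c0000000f0000000a00000008 6 5) 0 0 (step_sound _ 130 [(rh14e0829dc73b6804.shift 1 2), (rh215e11e099257d75.shift 2 2), (rh70e33bfdf511e144.shift 2 0), (rhb2bdfbd0153d3403.shift 0 1)] (by decide +kernel))
noncomputable def rhff5a5327b891f055 : CRef := CRef.mk (Pat.mk 0xc000000180000000c00000000 0x200000012000000330000001f0000001e0000000c00000004 6 6) 0 0 (step_sound _ 97 [rh698846d908adeb0e, (rhb739f4f82bb681b4.shift 0 2)] (by decide +kernel))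
noncomputable def rh1b2ef21da274e605 : CRef := CRef.mk (Pat.mk 0x2000000030000001200000002000000000000000000000000 0x2000000030000001f00000003000000070000000700000004 6 5) 0 0 (step_sound _ 130 [(rh2fe78cc5ca4405d8.shift 0 4), rh89cf5152879421f3] (by decide +kernel))
noncomputable def rh9f048d6dc58fc190 : CRef := CRef.mk (Pat.mk 0x70000000c00000006000000200000000000000000 0x8000000180000000f0000000c000000060000003e0000000e0000000a 6 6) 0 0 (step_sound _ 163 [(rh5421160f8e9bcf07.shift 0 3), (rh8288d9644328b41d.shift 1 1), (rhffb8e5993241bf15.shift 1 0)] (by decide +kernel))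
noncomputable def rhb56de53d787cbb34 : CRef := CRef.mk (Pat.mk 0x1800000000000000180000003800000000 0x18000000180000001f0000003f00000070 6 7) 0 0 (step_sound _ 4 [(rh6f1cbe15c631ee70.shift 3 0), rh9be40762d589c2e0] (by decide +kernel))
noncomputable def rh770788b133c39947 : CRef := CRef.mk (Pat.mk 0x1800000000000000180000003800000000 0x40000003c0000000f0000001e0000003800000018 6 6) 0 0 (step_sound _ 99 [(rh55afc6a59410cf00.shift 3 0), rh62f6060799044659] (by decide +kernel))
noncomputable def rh9d95baa02eac1fb8 : CRef := CRef.mk (Pat.mk 0x78000000040000002000000000 0x570000007e000000360000002000000020 6 7) 0 0 (step_sound _ 98 [rh4086e2efec01ea9b, (rheb0810cc63b001d8.shift 1 2)] (by decide +kernel))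
noncomputable def rhe82d2562c7d49447 : CRef := CRef.mk (Pat.mk 0xe000000020000001800000000 0x400000004000000060000000e0000000e0000001f0000003a 6 6) 0 0 (step_sound _ 130 [(rh4821dcf828b9d7bf.shift 1 0), rh81702334eca0f14b, (rhb11d41c808e1ab4d.shift 2 0), (rhcf80391c5046a495.shift 1 0)] (by decide +kernel))
noncomputable def rh9840ff601bb1a122 : CRef := CRef.mk (Pat.mk 0xc00000008000000180000009800000000 0x100000003c0000000f0000001e000000f800000008 6 8) 0 0 (step_sound _ 37 [rh1d74563a2cff12f8, (rh2fe78cc5ca4405d8.shift 3 1)] (by decide +kernel))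
noncomputable def rh476bae6b91c61d68 : CRef := CRef.mk (Pat.mk 0x1800000018000000100000003000000000 0x140000001f000000380000001e0000003800000008 6 6) 0 0 (step_sound _ 35 [(rh085af16cc259d3ea.shift 0 1), (rh932754581e0f4330.shift 3 0)] (by decide +kernel))
noncomputable def rh1bff1f399b2df189 : CRef := CRef.mk (Pat.mk 0x30000000000000006000000000000000000000000 0x50000000700000007000000030000000300000006000000060000000400000004 6 3) 0 0 (step_sound _ 129 [(rh14e0829dc73b6804.shift 0 2), (rh70e33bfdf511e144.shift 1 0), (rhf9a6286f1d5377a2.shift 0 2)] (by decide +kernel))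
noncomputable def rhdfff079651de7409 : CRef := CRef.mk (Pat.mk 0xe000000400000000400000000 0x8000000080000003c0000003f000000740000000400000004 6 7) 0 0 (step_sound _ 100 [rh29b60c546f1f465c, (rheaa91b92daf0efc8.shift 1 2)] (by decide +kernel))
noncomputable def rhd309f0d3b6387b09 : CRef := CRef.mk (Pat.mk 0x38000000040000003000000120 0x70000003e000000060000003c000001e4 6 9) 0 0 (step_sound _ 98 [(rheb0810cc63b001d8.shift 1 2), rhffdbb2ece4796ebe] (by decide +kernel))
noncomputable def rh5d0e630d7c825104 : CRef := CRef.mk (Pat.mk 0x200000006000000020000000200000000 0x300000003000000070000000600000006000000030000000300000001 6 3) 0 0 (step_sound _ 130 [rh0ef6c71ce89c1c36, (rh2f68792b6b779e96.shift 1 1)] (by decide +kernel))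
noncomputable def rhe283c5d1853bfe2a : CRef := CRef.mk (Pat.mk 0x200000003000000060000000200000000000000000000000000000000 0x200000003000000070000000600000006000000070000000700000005 6 3) 0 0 (step_sound _ 97 [rhbba7d23481996066, (rhd29a1fb688eae70f.shift 1 2), (rhfd7377672b47fd2b.shift 0 1)] (by decide +kernel))
noncomputable def rhd3d466ce98008df6 : CRef := CRef.mk (Pat.mk 0x1c000000800000000800000000 0x80000000f0000007e000000e70000000c0000000c 6 8) 0 0 (step_sound _ 101 [(rh43ca58b80ff240ff.shift 1 0), (rh775ca1963e850b80.shift 0 2), (rheaa91b92daf0efc8.shift 2 2)] (by decide +kernel))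
noncomputable def rh6cfcf701ed458a3a : CRef := CRef.mk (Pat.mk 0x1200000006000000020000000000000000 0x200000003000000070000001e00000006000000060000000300000003 6 5) 0 0 (step_sound _ 130 [rh1790ec355e1c8572, (rh8e4d738d72204634.shift 0 2), (rhea7a1800d6f053bd.shift 1 0)] (by decide +kernel))
noncomputable def rh91dea0178d2e1c92 : CRef := CRef.mk (Pat.mk 0xc000000480000000c00000000 0x100000007c0000000f000000780000000c00000004 6 7) 0 0 (step_sound _ 68 [rh27cc7357819ad907, (rh2fe78cc5ca4405d8.shift 2 2)] (by decide +kernel))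
noncomputable def rh93264c6399d0006d : CRef := CRef.mk (Pat.mk 0x30000000000000003000000100000000000000000 0x500000007000000070000000300000002000000030000001f0000000500000001 6 5) 0 0 (step_sound _ 129 [rh281c6819542c66e6, (rh32431e66bbf434a4.shift 0 2), (rhb7ec845def264386.shift 0 1)] (by decide +kernel))
noncomputable def rh995c9236cf723fc5 : CRef := CRef.mk (Pat.mk 0x1e000000020000001800000000 0x400000006000000070000001e000000060000001f00000007 6 5) 0 0 (step_sound _ 129 [rh2339925e6738bb5e, (rh3244c3cc8379b070.shift 0 3)] (by decide +kernel))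
noncomputable def rh86b03a2164139a93 : CRef := CRef.mk (Pat.mk 0x2000000180000000300000000 0x50000000700000007000000020000001e0000000300000001 6 5) 0 0 (step_sound _ 65 [rh32431e66bbf434a4, (rhb2a0b9ccfb5cecd5.shift 0 1)] (by decide +kernel))
noncomputable def rh99f5f813586d9e41 : CRef := CRef.mk (Pat.mk 0x4800000018000000080000000000000000 0xc0000001c0000001f0000007800000018000000180000000c0000000c 6 7) 0 0 (step_sound _ 132 [(rh018f5bd7478045d2.shift 0 2), (rh1790ec355e1c8572.shift 2 0), (rh84d1c02a8954c6a8.shift 3 1)] (by decide +kernel))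
noncomputable def rh09c9e89936164a5e : CRef := CRef.mk (Pat.mk 0x1e0000001a0000000000000000 0x10000000700000007000000070000001e0000001e0000000300000001 6 5) 0 0 (step_sound _ 129 [(rh3244c3cc8379b070.shift 0 3), rhe70edb2d7c8b3d3c] (by decide +kernel))
noncomputable def rhb372e42a3e002988 : CRef := CRef.mk (Pat.mk 0xe0000000c000000080000000000000000 0x20000000e0000000c0000003c0000000f0000000e 6 6) 0 0 (step_sound _ 35 [rh271712a0bce3e10b, (rh7b1f1fb55310c477.shift 2 0)] (by decide +kernel))
noncomputable def rhb81b2b905d9e54de : CRef := CRef.mk (Pat.mk 0x8000000000000001c00000018000000100000001000000000 0xc0000000c000000040000001c0000001f0000001a0000001800000008 6 5) 0 0 (step_sound _ 35 [(rh079487f62b141205.shift 0 1), (rh932754581e0f4330.shift 3 0)] (by decide +kernel))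
noncomputable def rh11b3c84d1c0edb27 : CRef := CRef.mk (Pat.mk 0x4000000090000000b000000090000000800000000 0x7000000070000000b0000000b0000000f0000001900000010 6 5) 0 0 (step_sound _ 36 [(rh55afc6a59410cf00.shift 3 0), (rhe6d61bc26c9b4387.shift 0 1)] (by decide +kernel))
noncomputable def rh1b505036c10d5a3b : CRef := CRef.mk (Pat.mk 0x8000000100000001e00000000 0x140000001c0000001c00000008000000180000001f00000010 6 5) 0 0 (step_sound _ 67 [(rh14e0829dc73b6804.shift 2 0), (rh53b3c253cb0c65f4.shift 0 1)] (by decide +kernel))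
noncomputable def rhd9730e0c6a9c266d : CRef := CRef.mk (Pat.mk 0x1000000014000000340000000400000000 0xa0000000e0000001e0000001f000000360000000600000002 6 6) 0 0 (step_sound _ 97 [rha847f0e62bb0a16a, (rhc10214bf3fe8094a.shift 1 2)] (by decide +kernel))
noncomputable def rh56deb74d5b879a67 : CRef := CRef.mk (Pat.mk 0xc00000008000000020000001a00000000 0x10000000f0000001f000000030000001e00000003 6 5) 0 0 (step_sound _ 34 [(rh3244c3cc8379b070.shift 0 1), rhc28ac7ca760d1989] (by decide +kernel))
noncomputable def rh9ddfd3dc5a9f3434 : CRef := CRef.mk (Pat.mk 0x80000001a00000003000000000000000000000000 0x100000003000000030000000f0000001b00000003000000030000000300000001 6 5) 0 0 (step_sound _ 161 [rh281c6819542c66e6, (rh46990448042cc692.shift 0 2), (rh976a48eb1c80a12f.shift 0 2), rhf2eb0d5b8c248a4e] (by decide +kernel))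
noncomputable def rhce61442b3bb72f68 : CRef := CRef.mk (Pat.mk 0x8000000080000001800000000 0x140000001c0000003c0000000f000000180000001800000008 6 6) 0 0 (step_sound _ 131 [rh245d56c915813f64, (rh5bd4bc0c2c48140c.shift 2 1), (rh73f605273a09a9d0.shift 3 1)] (by decide +kernel))
noncomputable def rh0e6bb57ffa8c4a2c : CRef := CRef.mk (Pat.mk 0x3000000100000001300000010 0x50000000f0000000f0000000f0000001e0000001b00000011 6 5) 0 0 (step_sound _ 65 [rh32431e66bbf434a4, rh6a6060c6b6bde3df] (by decide +kernel))
noncomputable def rh145e6d9246a42c98 : CRef := CRef.mk (Pat.mk 0x400000038000000000000002000000000 0x360000003e000000370000002000000020 6 6) 0 0 (step_sound _ 98 [rh23f950cc6aa2698d, (rh3244c3cc8379b070.shift 1 3)] (by decide +kernel))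
noncomputable def rhf4f365312b20189e : CRef := CRef.mk (Pat.mk 0x38000001000000010000000100 0x80000001c7000000fe000001ff0000018000000100 6 9) 0 0 (step_sound _ 98 [(rh775ca1963e850b80.shift 0 2), (rhd342afdb03ac995a.shift 1 2), rhecf366b0ef44fd1e] (by decide +kernel))
noncomputable def rh4d84294bee8b0a94 : CRef := CRef.mk (Pat.mk 0xe000000400000000400000000 0x600000006000000070000003e000000770000000600000004 6 7) 0 0 (step_sound _ 100 [rh2cc921f22fbb479c, (rh43dc67402634d54f.shift 0 1), (rheaa91b92daf0efc8.shift 1 2)] (by decide +kernel))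
noncomputable def rh015128f9dcb2c5e8 : CRef := CRef.mk (Pat.mk 0x1e0000000200000008 0x50000000700000007000000070000001e0000000e0000000e 6 5) 0 0 (step_sound _ 97 [(rh3244c3cc8379b070.shift 0 2), rh7ae2656473691b63] (by decide +kernel))
noncomputable def rhdfaef89462a27ee3 : CRef := CRef.mk (Pat.mk 0x3000000000000000300000000 0x7000000070000000700000003000000030000000300000001 6 3) 0 0 (step_sound _ 129 [rh00d6a6e3c7e3bb40, rh6299d1722b6e1507, (rh649d6608ffe40c31.shift 0 1), rhecb97fed8c7f1286] (by decide +kernel))
noncomputable def rhba495c25097cce55 : CRef := CRef.mk (Pat.mk 0x10000000200000003000000000000000000000000 0x50000000700000007000000030000000200000003000000070000000700000005 6 3) 0 0 (step_sound _ 161 [rh0a6888916bcef86b, rh281c6819542c66e6, (rh32431e66bbf434a4.shift 0 2), (rhb1a251d9bff81766.shift 0 2)] (by decide +kernel))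
noncomputable def rha3737a00c5f32574 : CRef := CRef.mk (Pat.mk 0x200000000000000060000001400000000 0x60000000600000006000000060000003f0000000b 6 6) 0 0 (step_sound _ 35 [rh62fc971919903bd8, (rhf48373e13d2bc128.shift 1 1)] (by decide +kernel))
noncomputable def rh01f1789c6f1ad086 : CRef := CRef.mk (Pat.mk 0x4000000000000000c000000280000000000000000 0xc0000000c000000080000000c0000007c0000001f00000004 6 7) 0 0 (step_sound _ 68 [rhf2d517384a41edd4, (rhf48373e13d2bc128.shift 2 2)] (by decide +kernel))
noncomputable def rhd0373a56eff86ca6 : CRef := CRef.mk (Pat.mk 0xc0000003800000018000000100000000000000000 0xc0000003c0000001e0000001f0000000f0000000c 6 6) 0 0 (step_sound _ 98 [rh33251c41cc9e2c76, (rh53b3c253cb0c65f4.shift 1 3)] (by decide +kernel))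
noncomputable def rh734c3cc43485f2d2 : CRef := CRef.mk (Pat.mk 0x4000000200000000c000000380000000000000000 0x40000001c000000780000000c0000003c0000001f00000004 6 7) 0 0 (step_sound _ 131 [(rh6196b452c518de56.shift 2 1), rhcd26bed8ba81c3c5] (by decide +kernel))
noncomputable def rh98bb8091976abc32 : CRef := CRef.mk (Pat.mk 0x20000000000000006000000040000000000000000 0x3000000030000000300000006000000070000000700000001 6 3) 0 0 (step_sound _ 129 [(rh2145e1d24b96a57e.shift 1 2), rha822df604b29e217] (by decide +kernel))
noncomputable def rhcf4f251a01a4e3e0 : CRef := CRef.mk (Pat.mk 0x2000000000000001e00000000 0x50000000700000007000000030000001e00000003 6 5) 0 0 (step_sound _ 65 [(rh3244c3cc8379b070.shift 0 1), rhe4d178048650bd5f] (by decide +kernel))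
noncomputable def rh0c6383e421efd5d5 : CRef := CRef.mk (Pat.mk 0x6000000300000000a00000000 0x400000004000000060000000f0000003e0000000a0000000a 6 6) 0 0 (step_sound _ 67 [rh039c4a02c473f947, (rh09d4dfe75d4407d6.shift 1 2)] (by decide +kernel))
noncomputable def rh980372d35ac49691 : CRef := CRef.mk (Pat.mk 0x3000000180000000d00000008 0x20000000200000007000000070000001f0000000d0000000d 6 5) 0 0 (step_sound _ 66 [(rh09d4dfe75d4407d6.shift 0 2), rh9daac14231a2f461] (by decide +kernel))
noncomputable def rh8ad9036f89f58782 : CRef := CRef.mk (Pat.mk 0x1e000000120000000800000000 0x4000000040000000f0000001e0000001e0000000b0000000b 6 5) 0 0 (step_sound _ 129 [(rh3244c3cc8379b070.shift 0 3), rhf333ecde551d43a5] (by decide +kernel))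
noncomputable def rh20ae9580083b2056 : CRef := CRef.mk (Pat.mk 0x3000000000000000180000001000000010 0xff0000007e0000000f000000180000001800000010 6 8) 0 0 (step_sound _ 131 [(rh22d326bdf3fdc35e.shift 0 3), (rh5463fb2f987f55b9.shift 0 3), (rhdf6eda84f2eabc48.shift 3 0)] (by decide +kernel))
noncomputable def rhd0303f9e15e24ff8 : CRef := CRef.mk (Pat.mk 0x200000000000000030000000200000002 0x500000007000000070000000700000006000000030000000300000002 6 3) 0 0 (step_sound _ 97 [(rh32431e66bbf434a4.shift 0 1), (rh44f453b84f013105.shift 1 0), (rha77f215723363df0.shift 0 1)] (by decide +kernel))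
noncomputable def rhc49681b28f5f311d : CRef := CRef.mk (Pat.mk 0xf000000040 0xf000000fe0000007f 6 8) 0 0 (step_sound _ 35 [rh88c620441a3a17ea, (rhd1d05263fabc0227.shift 1 0), (rheae1728ff4a56756.shift 2 0)] (by decide +kernel))
noncomputable def rhb08642453d869133 : CRef := CRef.mk (Pat.mk 0x1e0000000a00000008 0x100000007000000070000000f0000001e0000000e0000000a 6 5) 0 0 (step_sound _ 97 [(rh3244c3cc8379b070.shift 0 2), rhec6cd0f1d037e60d] (by decide +kernel))
noncomputable def rhaab1c7ecf389e307 : CRef := CRef.mk (Pat.mk 0x20000001e000000000000000000000000 0x200000003000000070000003e0000001e000000070000000200000002 6 6) 0 0 (step_sound _ 65 [rh61da67344f1f2f17, (rheb0810cc63b001d8.shift 0 2)] (by decide +kernel))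
noncomputable def rh7ebe43b541af2bd4 : CRef := CRef.mk (Pat.mk 0x400000007000000020 0xc70000007e00000067 6 8) 0 0 (step_sound _ 35 [(rh33e738c4ed385b9f.shift 3 1), rhc92c11e8da6c894f] (by decide +kernel))
noncomputable def rh252d91a4ec30bcff : CRef := CRef.mk (Pat.mk 0x38000000000000001000000000 0x2800000028000000780000003e000000370000001000000010 6 7) 0 0 (step_sound _ 68 [(rh215e11e099257d75.shift 4 0), (rh261f868a429ae0e3.shift 3 0), (rhb1a251d9bff81766.shift 3 0), (rhc21b0f56bc7051a9.shift 0 1)] (by decide +kernel))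
noncomputable def rhd1385c88100839fc : CRef := CRef.mk (Pat.mk 0x30000000800000001000000000 0x2800000028000000ff0000007e000000df0000001000000010 6 8) 0 0 (step_sound _ 99 [(rh31d55dd32e48ae3d.shift 1 2), (rh774f189fc47e55b9.shift 2 0), rh8c786e1f2e764b93, (rhadc58f335021d7cb.shift 1 2)] (by decide +kernel))
noncomputable def rh20eecdbbd9297f8b : CRef := CRef.mk (Pat.mk 0x2000000300000001800000010 0x8000000ef000000ff0000001800000010 6 8) 0 0 (step_sound _ 70 [(rh18965a982d73c794.shift 3 1), rh63971396f42d36e6] (by decide +kernel))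
noncomputable def rh4df22c7f38e9da92 : CRef := CRef.mk (Pat.mk 0x1000000180000002c00000008 0x1000000014000000770000007e0000002c00000028 6 7) 0 0 (step_sound _ 69 [(rh18965a982d73c794.shift 2 1), rh4c29853053063dd6] (by decide +kernel))
noncomputable def rhaf7cfbda5497da77 : CRef := CRef.mk (Pat.mk 0x700000002000000000 0x8000000080000000f000000fe000000ff00000010 6 8) 0 0 (step_sound _ 67 [(rh3918eeb6c53434d8.shift 0 1), (rh3a69dc315759d1b4.shift 2 0), (rh775ca1963e850b80.shift 1 1), (rha03f6e28ea70fc7d.shift 2 1), (rhb2afcb5db661472f.shift 0 1)] (by decide +kernel))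
noncomputable def rhadd3d436cf3306c8 : CRef := CRef.mk (Pat.mk 0xf000000020 0xe000000fe0000003f 6 8) 0 0 (step_sound _ 35 [rh2efad3051cff7df1, (rh592c7139d2c44767.shift 1 0), (rhc8d5c9136610b7ff.shift 1 0), (rheae1728ff4a56756.shift 2 0)] (by decide +kernel))
noncomputable def rhd801faf61c02b86f : CRef := CRef.mk (Pat.mk 0x2000000120000001a00000010 0xc000000ef000000ff0000001a0000001a 6 8) 0 0 (step_sound _ 67 [(rh7a1e396defbf2429.shift 0 1), rha6e03927a90d6449, (rhb7674d85f64945d6.shift 0 1), rhc0f16577d60c5686] (by decide +kernel))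
noncomputable def rhf87c372b50bebde7 : CRef := CRef.mk (Pat.mk 0x20000001800000018000000100000000000000000 0xc0000000f00000018000000180000001c0000000c0000000c 6 5) 0 0 (step_sound _ 163 [(rh2145e1d24b96a57e.shift 3 2), rhdd26f49f64ab863a] (by decide +kernel))
noncomputable def rh28777d918bf71cd7 : CRef := CRef.mk (Pat.mk 0x4000000160000001e000000180000001000000000 0x4000000160000001e0000001a0000003f0000002f 6 6) 0 0 (step_sound _ 35 [(rh7b1f1fb55310c477.shift 2 0), rha5ef04f8d2e642d4] (by decide +kernel))
noncomputable def rh3a8915bcf3615c60 : CRef := CRef.mk (Pat.mk 0x80000000e0000000800000000 0x140000001c0000001c000000080000000f0000001800000010 6 5) 0 0 (step_sound _ 36 [(rhb739f4f82bb681b4.shift 0 1), (rhfb9fb48a5e63ed80.shift 2 0)] (by decide +kernel))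
noncomputable def rh8da83cdfdd3e606a : CRef := CRef.mk (Pat.mk 0x4000000160000000c000000000000000000000000 0x14000000160000003f0000003b0000000a00000008 6 6) 0 0 (step_sound _ 100 [rhce574153cd9a0ee4, (rhf48373e13d2bc128.shift 1 3)] (by decide +kernel))
noncomputable def rh0483d77324b29e63 : CRef := CRef.mk (Pat.mk 0xc00000048000000000000001e00000000 0xf0000007f000000030000001e00000003 6 7) 0 0 (step_sound _ 100 [rh27e2d065a4a374ca, (rh2fe78cc5ca4405d8.shift 2 3)] (by decide +kernel))
noncomputable def rhc13e0e232ea6d223 : CRef := CRef.mk (Pat.mk 0x2000000020000000200000002 0x500000007000000070000000700000003000000030000000300000002 6 3) 0 0 (step_sound _ 129 [rh3ca48e2a6d60153d, (rh6fa8dd4bf0561bd9.shift 0 1), (rhc85cc95794737cf7.shift 0 1), rhdb609d5a257501df] (by decide +kernel))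
noncomputable def rh3f5e5eabc9ddfd8e : CRef := CRef.mk (Pat.mk 0x20000000200000006000000000000000000000000 0x3000000030000000300000006000000070000000700000001 6 3) 0 0 (step_sound _ 66 [(rh2145e1d24b96a57e.shift 1 2), rha822df604b29e217] (by decide +kernel))
noncomputable def rh5081f157185e0b65 : CRef := CRef.mk (Pat.mk 0x40000000e00000006 0x3000000030000003f0000003e00000006 6 6) 0 0 (step_sound _ 36 [(rh18965a982d73c794.shift 1 0), rh2e2af70cc0a250e3] (by decide +kernel))
noncomputable def rhd43d4066ff54649c : CRef := CRef.mk (Pat.mk 0x10000000380000000000000030000000a0 0xff0000007e0000000700000030000001e0 6 9) 0 0 (step_sound _ 6 [(rh63e3305009f2fc66.shift 0 2), (rhf48373e13d2bc128.shift 4 0)] (by decide +kernel))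
noncomputable def rhb98c3efd0afc4d49 : CRef := CRef.mk (Pat.mk 0x80000001c000000000000000000000000 0x4000000040000003e0000003f000000070000000200000002 6 6) 0 0 (step_sound _ 97 [rhddee6100c3f018ca, (rhec46bd5500c722c9.shift 0 3)] (by decide +kernel))
noncomputable def rhcc060b63639cd8ff : CRef := CRef.mk (Pat.mk 0x1a0000001e00000000 0x40000000700000007000000030000001e0000001e00000007 6 5) 0 0 (step_sound _ 1 [rhbea055beafeecaa1, rheb0810cc63b001d8] (by decide +kernel))
noncomputable def rh2ecf1942118628b6 : CRef := CRef.mk (Pat.mk 0x10000000380000000000000030000000a0 0xf70000007e0000000f00000030000001e0 6 9) 0 0 (step_sound _ 6 [(rh163c9d803bc08f96.shift 0 2), (rhf48373e13d2bc128.shift 4 0)] (by decide +kernel))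
noncomputable def rhe724c6b9921c5a8a : CRef := CRef.mk (Pat.mk 0x1c0000001c0000000000000000 0x1c0000001e0000001f0000001c0000001c0000000c00000004 6 5) 0 0 (step_sound _ 131 [(rh37d9ceebb86d75d1.shift 2 1), (rh637bb93ed3388f6f.shift 2 1), rhd1e32e33403ffb70] (by decide +kernel))
noncomputable def rhd1b2b8205149f44b : CRef := CRef.mk (Pat.mk 0x8000000180000001800000000 0xc0000000c0000001f000000780000001800000008 6 7) 0 0 (step_sound _ 131 [(rh2145e1d24b96a57e.shift 3 1), rh613b00708c318de9] (by decide +kernel))
noncomputable def rhf4c158652ae61942 : CRef := CRef.mk (Pat.mk 0xc00000018 0x770000003f00000038 6 7) 0 0 (step_sound _ 33 [rhb739f4f82bb681b4, rhef4876f9e7eb0bda] (by decide +kernel))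
noncomputable def rh00a765398df477be : CRef := CRef.mk (Pat.mk 0x20000001200000012000000100000000000000000 0x5000000070000000700000002000000360000001e000000340000000400000004 6 6) 0 0 (step_sound _ 98 [(rh046c5eb18e55a239.shift 1 0), (rh14e0829dc73b6804.shift 0 2), (rhabf575676fe0ef70.shift 1 2)] (by decide +kernel))
noncomputable def rh91ff65f5b7ea8129 : CRef := CRef.mk (Pat.mk 0x2000000120000001200000010 0x5000000070000000700000002000000330000001e00000034 6 6) 0 0 (step_sound _ 34 [(rh12d50e65fdd458b1.shift 0 1), rh14e0829dc73b6804, rh665fa2b016ee28ae, (rhabf575676fe0ef70.shift 1 0)] (by decide +kernel))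
noncomputable def rh52727595f5cdd972 : CRef := CRef.mk (Pat.mk 0x100000003000000030000000800000000 0x6000000060000000700000003000000030000001e00000006 6 5) 0 0 (step_sound _ 33 [rh7b1f1fb55310c477, rh7dea84c185fa7892] (by decide +kernel))
noncomputable def rh22a2cda2d822a778 : CRef := CRef.mk (Pat.mk 0x8000000180000000800000000 0x800000008000000080000007c0000001f00000014 6 7) 0 0 (step_sound _ 131 [rh0b00b38df847f9f6, rhb0de455c382c5b1c, (rhd4b4beefcd67f51e.shift 3 0)] (by decide +kernel))
noncomputable def rh62ae98124b601fcf : CRef := CRef.mk (Pat.mk 0x1000000010000000100000003800000000 0x200000003000000010000000ff0000007e00000007 6 8) 0 0 (step_sound _ 133 [(rh2f68792b6b779e96.shift 4 1), rh63e3305009f2fc66] (by decide +kernel))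
noncomputable def rh3d8d68a896ef6211 : CRef := CRef.mk (Pat.mk 0x400000004000000040000000400000000 0x600000006000000040000003c0000000f0000000a 6 6) 0 0 (step_sound _ 129 [(rh50fbb5868c909700.shift 1 1), rh7133a7a78d762f91] (by decide +kernel))
noncomputable def rh59c45728c1ba2cdf : CRef := CRef.mk (Pat.mk 0x2000000020000000200000002 0x50000000700000007000000070000000700000003000000030000000300000002 6 3) 0 0 (step_sound _ 129 [rh3ca48e2a6d60153d, (rh6fa8dd4bf0561bd9.shift 0 1), rh73b2afd5bddb11b8, (rhc85cc95794737cf7.shift 0 1)] (by decide +kernel))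
noncomputable def rh87919bd563354cbc : CRef := CRef.mk (Pat.mk 0x200000004000000040000000400000000 0x600000006000000040000003c0000000f0000000a 6 6) 0 0 (step_sound _ 130 [(rh50fbb5868c909700.shift 1 1), rh7133a7a78d762f91] (by decide +kernel))
noncomputable def rh189b8e8517d2f5f2 : CRef := CRef.mk (Pat.mk 0x700000002000000000 0x8000000080000000f000000fe000000ff00000010 6 8) 0 0 (step_sound _ 67 [(rh3a69dc315759d1b4.shift 2 0), (rha03f6e28ea70fc7d.shift 2 1), (rha0ae8adeb1dbcf8d.shift 0 1), (rhb2afcb5db661472f.shift 0 1)] (by decide +kernel))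
noncomputable def rh4435914d744d4f96 : CRef := CRef.mk (Pat.mk 0x800000008000000080000000800000008 0x1000000018000000180000000c0000007f0000003e0000001c00000008 6 7) 0 0 (step_sound _ 163 [(rh7133a7a78d762f91.shift 1 1), rh7ad3b45b40d96ddf, (rh8c2882964e1b5136.shift 2 0), (rhced6d86d2069808b.shift 3 1)] (by decide +kernel))
noncomputable def rhdd20ae54af0f25e9 : CRef := CRef.mk (Pat.mk 0x700000002000000000 0x8000000080000000f000000fe000000ff00000010 6 8) 0 0 (step_sound _ 67 [(rh3918eeb6c53434d8.shift 0 1), (rh3a69dc315759d1b4.shift 2 0), (rh775ca1963e850b80.shift 1 1), (rha03f6e28ea70fc7d.shift 2 1), (rha0ae8adeb1dbcf8d.shift 0 1)] (by decide +kernel))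
noncomputable def rh643e8380decb1b24 : CRef := CRef.mk (Pat.mk 0x800000008000000080000000800000008 0x40000000c0000000c000000180000007c0000001f0000001c00000008 6 7) 0 0 (step_sound _ 100 [(rh0b1f78eb7e8c5b6e.shift 0 1), (rh2f68792b6b779e96.shift 3 0)] (by decide +kernel))
noncomputable def rhaab55db13a11b26c : CRef := CRef.mk (Pat.mk 0x20000001200000012000000100000000000000000 0x8000000090000000f0000001f0000001a0000001f0000000700000001 6 5) 0 0 (step_sound _ 65 [(rh6290225f7e481854.shift 0 1), rh9aa6ac2fc87719f2, (rh9bb2bee4114890af.shift 0 2), rhc4526fc8abf298b6] (by decide +kernel))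
noncomputable def rh4d9dd426a7f2bd20 : CRef := CRef.mk (Pat.mk 0x20000001200000012000000100000000000000000 0x80000000d0000000f0000001e0000001a000000170000000700000005 6 5) 0 0 (step_sound _ 65 [(rh6c59ce14113da07f.shift 1 0), rh6eff4158bb400f47, (rh9bb2bee4114890af.shift 0 2)] (by decide +kernel))
noncomputable def rh2e8c37f65ed14456 : CRef := CRef.mk (Pat.mk 0x2000000120000000600000002 0x5000000070000000700000003000000030000001e0000000600000002 6 5) 0 0 (step_sound _ 129 [rh3ca48e2a6d60153d, (rh5bd4bc0c2c48140c.shift 0 1), rha0f972adb232e2e8, (rhba97f7f4ade5e136.shift 0 1)] (by decide +kernel))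
noncomputable def rhfde29145e43e3241 : CRef := CRef.mk (Pat.mk 0x2000000160000001e00000002 0x30000000340000003f0000001e0000001e00000002 6 6) 0 0 (step_sound _ 98 [(rh2675c308c7cb7d60.shift 0 1), (rh5c5e593799055d58.shift 1 0)] (by decide +kernel))
noncomputable def rh56d5dded4a3ed926 : CRef := CRef.mk (Pat.mk 0x20000001e0000000200000000 0x10000000700000007000000070000003e0000001e0000000600000002 6 6) 0 0 (step_sound _ 100 [rh2f79f1e5a92dfc25, (rh33e738c4ed385b9f.shift 1 2)] (by decide +kernel))
noncomputable def rha8b3e1c22cfbc3a8 : CRef := CRef.mk (Pat.mk 0x60000000800000009000000080000000000000000 0x6000000060000003c0000000f0000001e0000000600000006 6 6) 0 0 (step_sound _ 98 [(rh2512363493965159.shift 1 0), (rh3190281b00d47fa9.shift 0 2), (rhc924e5f7a4031fcc.shift 0 2)] (by decide +kernel))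
noncomputable def rh754e1d71ee5f2d0f : CRef := CRef.mk (Pat.mk 0x30000000000000003000000000000000000000000 0x50000000700000007000000030000000200000003000000070000000700000005 6 3) 0 0 (step_sound _ 129 [rh0a6888916bcef86b, rh281c6819542c66e6, (rh32431e66bbf434a4.shift 0 2), (rhb1a251d9bff81766.shift 0 2)] (by decide +kernel))
noncomputable def rh840e77d6e39d0784 : CRef := CRef.mk (Pat.mk 0xc000000000000000c000000200000000000000000 0x140000003c0000000f000000080000000c0000007c0000001c00000014 6 7) 0 0 (step_sound _ 131 [(rh0a6888916bcef86b.shift 2 0), (rh281c6819542c66e6.shift 2 0), (rh951e08a274632323.shift 2 1), (rha83495199c8d8363.shift 0 2)] (by decide +kernel))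
noncomputable def rh7e26fc757017dc21 : CRef := CRef.mk (Pat.mk 0x70000000b000000020000000000000000 0x40000001c0000001f0000000b0000001e0000001c00000010 6 5) 0 0 (step_sound _ 131 [(rh18965a982d73c794.shift 0 3), rh6cb9d992867f2897] (by decide +kernel))
noncomputable def rh0d2de1b76a94234f : CRef := CRef.mk (Pat.mk 0x30000000a00000002000000000000000000000000 0x1000000030000001e00000002000000070000000700000005 6 5) 0 0 (step_sound _ 132 [rh0a6888916bcef86b, (rh5419adcd928dba20.shift 0 4)] (by decide +kernel))
noncomputable def rh626cbed1c0a2a8da : CRef := CRef.mk (Pat.mk 0x200000012000000060000001000000000 0x50000000f0000003f000000060000003f0000000f 6 6) 0 0 (step_sound _ 33 [rh486eb7c8c2e9ae71, (rhd5185c56d3f10740.shift 1 0), rhd5ec21d099a93ebd, rhd63e3e773ff55fc0, rhfc0fa269c989ad37] (by decide +kernel))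
noncomputable def rh2e9e98bf9a2cd69e : CRef := CRef.mk (Pat.mk 0x1800000008000000580000001800000000 0x240000003f00000038000000f80000001800000008 6 8) 0 0 (step_sound _ 100 [(rh932754581e0f4330.shift 3 0), (rhefeb7aa590e27c5b.shift 0 1)] (by decide +kernel))
noncomputable def rh7d729e50619ec0c6 : CRef := CRef.mk (Pat.mk 0x20000001200000002000000100000000000000000 0x10000000300000003000000070000003f000000060000001f0000000700000001 6 6) 0 0 (step_sound _ 65 [(rh6290225f7e481854.shift 0 1), rh9aa6ac2fc87719f2, rhc4526fc8abf298b6, (rhd5ec21d099a93ebd.shift 0 1), (rhd7562faea1633866.shift 0 2)] (by decide +kernel))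
noncomputable def rh6b3163142a66df09 : CRef := CRef.mk (Pat.mk 0x20000001200000002000000100000000000000000 0x50000000f0000001f000000020000001f0000000700000001 6 5) 0 0 (step_sound _ 65 [(rh486eb7c8c2e9ae71.shift 0 1), (rhc3115e0f4b0bf27b.shift 0 2), rhcab3157f7bdcba3e, (rhd5ec21d099a93ebd.shift 0 1)] (by decide +kernel))
noncomputable def rh87770a5d796454cb : CRef := CRef.mk (Pat.mk 0x1c0000000e00000060 0x200000002000000030000001f0000003e00000067 6 7) 0 0 (step_sound _ 36 [rh7fcd588089ecd0df, (rhd6e447e81774439e.shift 2 0)] (by decide +kernel))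
noncomputable def rh7071b6be0fb639f1 : CRef := CRef.mk (Pat.mk 0x200000012000000020000001000000000 0x4000000070000000f0000001f000000060000001f00000007 6 5) 0 0 (step_sound _ 33 [rh486eb7c8c2e9ae71, (rhc3115e0f4b0bf27b.shift 0 1), (rhced6d86d2069808b.shift 1 0), rhd5ec21d099a93ebd] (by decide +kernel))
noncomputable def rh8929e57de7e5ccc8 : CRef := CRef.mk (Pat.mk 0x1800000038000000600000000000000000 0xc0000000c0000000c00000018000000780000007f0000000c0000000c 6 7) 0 0 (step_sound _ 67 [(rh779f81b5d898c236.shift 0 1), (rh8ad626b30f15c88f.shift 2 1), (rhe58a7845769190f3.shift 2 0), (rhf0f55c4504412200.shift 0 2)] (by decide +kernel))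
noncomputable def rh0f7c042760344783 : CRef := CRef.mk (Pat.mk 0x1800000038000000600000000000000000 0xc0000000c0000000c0000001e000000380000007f0000000c0000000c 6 7) 0 0 (step_sound _ 130 [rh5404ac421cbdf612, (rhb739f4f82bb681b4.shift 1 3)] (by decide +kernel))
noncomputable def rha58dc15cc172d020 : CRef := CRef.mk (Pat.mk 0x1c0000004800000008 0x1000000010000000380000003e0000006f00000008 6 7) 0 0 (step_sound _ 69 [(rh96851dee118c1ba3.shift 2 1), rh96c19045eef85d9d] (by decide +kernel))
noncomputable def rh2f13d6c59e90a428 : CRef := CRef.mk (Pat.mk 0x1600000006000000020000000000000000 0x300000003000000030000001e00000006000000060000000300000003 6 5) 0 0 (step_sound _ 33 [rh5ffb111d46ce21f9, (rh71222050f2c63a3a.shift 1 0)] (by decide +kernel))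
noncomputable def rh6c43e63ebc8747e1 : CRef := CRef.mk (Pat.mk 0x1e000000120000000800000000 0x400000004000000070000001e0000001e0000000b0000000b 6 5) 0 0 (step_sound _ 129 [(rh3244c3cc8379b070.shift 0 3), rhf500948df83d6194] (by decide +kernel))
noncomputable def rh3236c2c4c26f25c0 : CRef := CRef.mk (Pat.mk 0x1c0000008000000000 0x8000000080000000f0000007e000000e700000004 6 8) 0 0 (step_sound _ 69 [(rh21460d2d48a35cb8.shift 1 0), (rh592c7139d2c44767.shift 0 1), (rheaa91b92daf0efc8.shift 2 1)] (by decide +kernel))
noncomputable def rh2db5051668d34374 : CRef := CRef.mk (Pat.mk 0x1c0000008000000000 0x800000008000000ff0000007e000000ee00000004 6 8) 0 0 (step_sound _ 69 [(rh21460d2d48a35cb8.shift 1 0), (rh338840d5137dcab7.shift 1 1), (rh4c622fddc53a5f99.shift 0 2), (rheaa91b92daf0efc8.shift 2 1)] (by decide +kernel))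
noncomputable def rha97ebd84de2b6644 : CRef := CRef.mk (Pat.mk 0xe0000001a000000d00000009000000080 0x100000001400000077000000fe0000005a000000df000000d700000080 6 8) 0 0 (step_sound _ 132 [(rh16d3dd7868847644.shift 0 1), (rh30725b089a36a09f.shift 3 0), (rh5ba2d67652840f34.shift 1 2), (rh763788a68c67bc0c.shift 1 1)] (by decide +kernel))
noncomputable def rhd5ff80da70fdb659 : CRef := CRef.mk (Pat.mk 0xa0000001a000000900000009000000080 0x140000001400000077000000fe0000005b000000fa000000d000000080 6 8) 0 0 (step_sound _ 132 [(rh50c9a591b6085b12.shift 0 2), (rha88074a3111006bb.shift 0 2), (rhc3be7fe9a39320ed.shift 3 0)] (by decide +kernel))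
noncomputable def rh31ca4cd81de4c439 : CRef := CRef.mk (Pat.mk 0x20000001a000000920000000000000000 0x50000000700000007000000030000001a000000ff0000000700000001 6 8) 0 0 (step_sound _ 70 [rh47eeeb670fa7f266, (rh5419adcd928dba20.shift 3 2)] (by decide +kernel))
noncomputable def rh43b5f59df03a9217 : CRef := CRef.mk (Pat.mk 0x20000001a0000009200000000 0x50000000700000007000000020000001b000000ff00000004 6 8) 0 0 (step_sound _ 38 [(rh5419adcd928dba20.shift 3 1), rh9d066feed1c0b143] (by decide +kernel))
noncomputable def rhfbe0dda884cb6bbf : CRef := CRef.mk (Pat.mk 0x2000000020000000200000016 0x100000007000000070000000600000003000000030000001e 6 5) 0 0 (step_sound _ 32 [rh2fe78cc5ca4405d8, rh42ab489a1be3958e] (by decide +kernel))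
noncomputable def rhf219bc518455ff5f : CRef := CRef.mk (Pat.mk 0xa0000001a00000000000000000000000000000000 0x500000007000000070000000f0000001b0000000f000000070000000600000004 6 5) 0 0 (step_sound _ 97 [(rh487cf11878390cb2.shift 0 2), rh9b320d1cf11ff356, (rhbe5703805fd7fa8f.shift 0 2)] (by decide +kernel))
noncomputable def rhbafbfed6b08feb21 : CRef := CRef.mk (Pat.mk 0xe000000180000000000000000 0x40000000600000007000000fe0000001f0000000700000007 6 8) 0 0 (step_sound _ 100 [(rh412d230494194d0a.shift 0 2), (rh44dd78dd79fc4e0b.shift 0 1), rhafa5a7051d37b143, rhafa8ad03fb07c74b, rhe1b350e936a4b1aa] (by decide +kernel))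
noncomputable def rhbb0cdf0279d98a0c : CRef := CRef.mk (Pat.mk 0xe000000180000000000000000 0x1000000014000000f4000000fe0000001f0000000b00000002 6 8) 0 0 (step_sound _ 100 [(rh5ba2d67652840f34.shift 1 1), (rh9115c4bb33f193b6.shift 0 2), rhe1b350e936a4b1aa] (by decide +kernel))
noncomputable def rh0e3d5f92838cb078 : CRef := CRef.mk (Pat.mk 0xe000000180000000000000000 0x6000000e7000000fe0000001f0000000700000007 6 8) 0 0 (step_sound _ 100 [(rh36095876875a1ad2.shift 0 2), (rh412d230494194d0a.shift 0 2), (rh9115c4bb33f193b6.shift 0 2), rhafa5a7051d37b143, rhafa8ad03fb07c74b] (by decide +kernel))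
noncomputable def rh535c343e8d5d4019 : CRef := CRef.mk (Pat.mk 0xe000000180000000000000000 0x400000006000000e7000000fe0000001f0000000f00000007 6 8) 0 0 (step_sound _ 100 [(rh36095876875a1ad2.shift 0 2), (rh412d230494194d0a.shift 0 2), (rh9115c4bb33f193b6.shift 0 2), rhafa5a7051d37b143, rhafa8ad03fb07c74b, (rhb6524700ef1c9b0c.shift 1 1)] (by decide +kernel))
noncomputable def rh95a83982027b0798 : CRef := CRef.mk (Pat.mk 0xe0000001800000000 0x1000000010000000f7000000fe0000001c00000008 6 8) 0 0 (step_sound _ 68 [(rh36095876875a1ad2.shift 0 1), (rh412d230494194d0a.shift 0 1), (rh5ba2d67652840f34.shift 1 0)] (by decide +kernel))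
noncomputable def rha51c438bc5171201 : CRef := CRef.mk (Pat.mk 0xe000000180000000000000000 0x1000000012000000f3000000fe0000001f0000000c00000004 6 8) 0 0 (step_sound _ 100 [(rh5ba2d67652840f34.shift 1 1), (rh9115c4bb33f193b6.shift 0 2), rhafa5a7051d37b143] (by decide +kernel))
noncomputable def rhcbf8fb04cabf3ba4 : CRef := CRef.mk (Pat.mk 0x800000018000000300000000000000000 0x1c0000001c0000001c0000001f0000003f0000000f00000004 6 6) 0 0 (step_sound _ 67 [(rh1c3f47bb179c7b94.shift 2 0), (rh21e4a49dbe82aa73.shift 2 1), rh66308995486c6adc] (by decide +kernel))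
noncomputable def rh5a0870ca5698f657 : CRef := CRef.mk (Pat.mk 0x180000001c00000010 0x2000000020000000770000007f0000001c00000010 6 7) 0 0 (step_sound _ 69 [(rh18965a982d73c794.shift 2 1), rh3dd876177ab7bbf3] (by decide +kernel))
noncomputable def rhda59c0a26ce799ec : CRef := CRef.mk (Pat.mk 0x180000001c0000001000000000 0x670000007f0000001c0000001000000010 6 7) 0 0 (step_sound _ 101 [(rh18965a982d73c794.shift 2 2), rhaeb0794a361d0e77] (by decide +kernel))
noncomputable def rh2d88b668e01fb7c5 : CRef := CRef.mk (Pat.mk 0x8000000180000003000000000 0x800000008000000080000001f0000003f00000014 6 6) 0 0 (step_sound _ 131 [(rh2145e1d24b96a57e.shift 3 1), rh789325fa9e448664] (by decide +kernel))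
noncomputable def rh79ab994228e1f405 : CRef := CRef.mk (Pat.mk 0x1000000000000000300000007000000000 0x1000000010000000770000007e0000000f 6 7) 0 0 (step_sound _ 35 [(rh55c4ed4acec0f063.shift 1 0), (rh981be6707e4d9088.shift 2 0), rha4e887c2a2a0f60b, (rhab2ad169e49f9c5e.shift 1 1), (rhcc2be1f880c5ea3e.shift 1 0)] (by decide +kernel))
noncomputable def rh12d62920e2962a1a : CRef := CRef.mk (Pat.mk 0x1e000000080000000000000000 0x400000004000000070000003e0000000b0000000a00000008 6 6) 0 0 (step_sound _ 129 [(rh3244c3cc8379b070.shift 0 3), rhd9ad9bf6025c735f] (by decide +kernel))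
noncomputable def rh6b7258f8de49d45f : CRef := CRef.mk (Pat.mk 0x60000000e00000004 0x3000000030000003e0000003e00000007 6 6) 0 0 (step_sound _ 36 [rh7a298803a9043391, (rhf48373e13d2bc128.shift 1 1)] (by decide +kernel))
noncomputable def rh88996b46eb4d8258 : CRef := CRef.mk (Pat.mk 0x80000000c000000080000000000000000 0x1c0000003c0000001f0000000c0000000c0000000c00000004 6 6) 0 0 (step_sound _ 163 [(rh03dfdf12d5937476.shift 2 1), (rh5ee4dc8825dcefa0.shift 0 1), (rh82ca4d13b15beb50.shift 2 0)] (by decide +kernel))
noncomputable def rhad39c119dd984724 : CRef := CRef.mk (Pat.mk 0xe0000001800000000 0x1400000014000000f7000000fe0000001b0000000a 6 8) 0 0 (step_sound _ 68 [(rh36095876875a1ad2.shift 0 1), rh44dd78dd79fc4e0b, (rh5ba2d67652840f34.shift 1 0)] (by decide +kernel))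
noncomputable def rh3e4e9f5e09ce5b9e : CRef := CRef.mk (Pat.mk 0x1000000018000000380000000000000000 0xc0000000c0000001c00000018000000380000001f0000000c 6 6) 0 0 (step_sound _ 35 [rh064bf7c4d77d22b8, (rh71222050f2c63a3a.shift 3 0)] (by decide +kernel))
noncomputable def rh6609c8b2261018fb : CRef := CRef.mk (Pat.mk 0x80000000c0000000c00000000 0x1c0000003c0000000f0000000c0000000c00000008 6 6) 0 0 (step_sound _ 131 [(rh5c5e593799055d58.shift 2 1), rh5ee4dc8825dcefa0] (by decide +kernel))
noncomputable def rh09ab1a7b5872167b : CRef := CRef.mk (Pat.mk 0xc0000001800000000 0x1000000010000000370000003f0000001f00000008 6 6) 0 0 (step_sound _ 65 [rh38eb5c9c20ef4abf, (rhb739f4f82bb681b4.shift 0 1)] (by decide +kernel))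
noncomputable def rha8070c63b88805cd : CRef := CRef.mk (Pat.mk 0x200000000c00000018000000000000000000000000 0x10000000140000001f0000007c0000000e00000018000000180000001000000010 6 7) 0 0 (step_sound _ 163 [(rh70e33bfdf511e144.shift 3 0), (rh9ab0ed084d168e00.shift 2 2), (rh9d93f454eec0442c.shift 0 2), (rha7eccd7931365243.shift 1 2)] (by decide +kernel))
noncomputable def rh8897986f936f289a : CRef := CRef.mk (Pat.mk 0x1800000018000000180000001000000000 0x240000003f0000001f000000180000001800000008 6 6) 0 0 (step_sound _ 35 [(rh6aa3e7e8646654a4.shift 0 1), (rh932754581e0f4330.shift 3 0)] (by decide +kernel))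
noncomputable def rh6793437a59e53157 : CRef := CRef.mk (Pat.mk 0xa000000030000000200000000000000000000000000000000 0x40000001f000000030000000300000002000000030000000300000001 6 5) 0 0 (step_sound _ 194 [(rh18965a982d73c794.shift 0 5), rh327f7ec535f2dea9] (by decide +kernel))
noncomputable def rhca96e4283eec034c : CRef := CRef.mk (Pat.mk 0x800000008000000180000001c00000000 0x40000000c0000000c0000001f0000003f00000003 6 6) 0 0 (step_sound _ 33 [rh3d4b412f1939576c, (rh53b3c253cb0c65f4.shift 0 1)] (by decide +kernel))
noncomputable def rh5a7c51847e517cc5 : CRef := CRef.mk (Pat.mk 0x200000000c00000028000000000000000000000000 0x80000007c0000000f00000078000000180000001000000010 6 7) 0 0 (step_sound _ 100 [rh1bb3d8bf661367fc, (rhf48373e13d2bc128.shift 2 3)] (by decide +kernel))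
noncomputable def rh05ccb7e19c2e6b1b : CRef := CRef.mk (Pat.mk 0x1c00000018000000080000000800000000 0x30000003f0000001f0000000c0000000c00000004 6 6) 0 0 (step_sound _ 129 [rh61c422903d1b2f65, (rhb739f4f82bb681b4.shift 0 3)] (by decide +kernel))
noncomputable def rh3fc2f55984029a22 : CRef := CRef.mk (Pat.mk 0x2000000030000000a00000000 0x100000003000000030000000200000003000000030000001f00000004 6 5) 0 0 (step_sound _ 34 [rh7a15f36fd17e0a6b, (rhf48373e13d2bc128.shift 0 1)] (by decide +kernel))
noncomputable def rhb86a83a899c7d395 : CRef := CRef.mk (Pat.mk 0x280000000c0000002000000000 0x100000001000000018000000780000000f0000007c00000008 6 7) 0 0 (step_sound _ 100 [(rh18965a982d73c794.shift 2 2), rhe0938477a56c1517] (by decide +kernel))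
noncomputable def rhe2588b4180893417 : CRef := CRef.mk (Pat.mk 0x20000000300000002000000000000000000000000 0x1000000070000000700000006000000030000000300000003000000070000000700000004 6 3) 0 0 (step_sound _ 193 [(rh42ab489a1be3958e.shift 0 3), (rh769be3fe24eee174.shift 0 3), (rh976a48eb1c80a12f.shift 0 3), rhed841d9ebc5dd0e1] (by decide +kernel))
noncomputable def rh3f9b03d6a459e876 : CRef := CRef.mk (Pat.mk 0x2000000030000000200000000000000000000000000000000 0x4000000070000000700000003000000030000000300000006000000070000000700000001 6 3) 0 0 (step_sound _ 97 [rh01483ff9cba2f6ac, (rh1dffa6d8a02b5f3a.shift 0 3), (rh5c651669912fbab1.shift 0 1), rhbaff7ec0fcc038ba] (by decide +kernel))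
noncomputable def rhc157c8e4aa5f9578 : CRef := CRef.mk (Pat.mk 0x380000000e00000020000000000000000000000000 0xa0000001f0000003a0000000e0000003e0000001c0000001c00000018 6 6) 0 0 (step_sound _ 98 [(rh45c32b87073902ff.shift 1 0), (rha3a1dc91c27a6c7a.shift 0 1), (rhcf80391c5046a495.shift 2 1)] (by decide +kernel))
noncomputable def rh2239e14ef000e4ff : CRef := CRef.mk (Pat.mk 0x7000000018000000480000000800000000 0x8000000080000000c0000007c000000180000007f0000003c00000014 6 7) 0 0 (step_sound _ 131 [rh641b5241be04eec6, (rha25c0e62bb8d55c9.shift 2 1), (rhc0693af77a9e9811.shift 2 0), (rhea90e7358341a1a4.shift 2 0), (rhec708e6f46cad756.shift 2 0)] (by decide +kernel))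
noncomputable def rhd89d4df18650b4c4 : CRef := CRef.mk (Pat.mk 0x280000000c0000000400000000 0x1c0000001f0000007c0000000c0000000c00000008 6 7) 0 0 (step_sound _ 131 [(rh5c5e593799055d58.shift 2 1), rh7e3e2f91db1b1e70] (by decide +kernel))
noncomputable def rh4a20a06433d492e0 : CRef := CRef.mk (Pat.mk 0x1000000018000000480000000800000000 0x80000000c0000000c0000001c000000180000007f0000003c00000014 6 7) 0 0 (step_sound _ 131 [rh641b5241be04eec6, (rhbad6ff9bdc3f8001.shift 2 0), (rhc0693af77a9e9811.shift 2 0), (rhea90e7358341a1a4.shift 2 0), (rhec708e6f46cad756.shift 2 0)] (by decide +kernel))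
noncomputable def rhc1ef5d4f9e205127 : CRef := CRef.mk (Pat.mk 0x1800000018000000080000001e00000000 0x40000001f0000001f0000000b0000001e00000003 6 5) 0 0 (step_sound _ 65 [(rh3244c3cc8379b070.shift 0 1), rhfb7f43b538a8978d] (by decide +kernel))
noncomputable def rh5c63837a42bd238e : CRef := CRef.mk (Pat.mk 0x200000000e000000380000000000000000 0x180000001c0000001c0000003e0000000e0000003a0000001f0000000a 6 6) 0 0 (step_sound _ 130 [rh83f766c2f871221d, (rh8f777744d5e66334.shift 1 1), (rhc2c7bae8f445c890.shift 2 0)] (by decide +kernel))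
noncomputable def rha6d00b03b1fbd172 : CRef := CRef.mk (Pat.mk 0x8000000480000001800000070000000000000000000000000 0x140000003c0000007f000000180000007c0000000c0000000800000008 6 7) 0 0 (step_sound _ 99 [(rh544fd3f279a4d968.shift 2 0), (rh5ee4dc8825dcefa0.shift 0 2), (rh6290225f7e481854.shift 2 2), (rh996a7e870a3e3226.shift 2 3), (rha37779f9238271b6.shift 2 2)] (by decide +kernel))
noncomputable def rh6bc83c419fddbefd : CRef := CRef.mk (Pat.mk 0x40000000c000000280000000000000000 0x80000000c0000000c0000007c0000001f0000001c 6 7) 0 0 (step_sound _ 35 [rh6b02a24a9ce55b94, (rh7b1f1fb55310c477.shift 2 0)] (by decide +kernel))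
noncomputable def rh3928431b5e859835 : CRef := CRef.mk (Pat.mk 0x8000000480000001800000010000000000000000000000000 0x140000003c0000007f000000180000001c0000000c0000000c00000008 6 7) 0 0 (step_sound _ 99 [(rh544fd3f279a4d968.shift 2 0), (rh5ee4dc8825dcefa0.shift 0 2), (rh6290225f7e481854.shift 2 2), (rh996a7e870a3e3226.shift 2 3), (rhc86e08a1a4264962.shift 2 1)] (by decide +kernel))
noncomputable def rhcfd46bd877dcc179 : CRef := CRef.mk (Pat.mk 0x1e00000008000000180000001800000000 0x30000001e0000000b0000001f0000001f00000004 6 5) 0 0 (step_sound _ 97 [rha5fed430121b5eb8, (rheb0810cc63b001d8.shift 0 3)] (by decide +kernel))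
noncomputable def rh7b379c970561687c : CRef := CRef.mk (Pat.mk 0x800000008000000180000001c00000000 0x40000000c0000000c0000001f0000001f0000000b 6 5) 0 0 (step_sound _ 33 [(rh53b3c253cb0c65f4.shift 0 1), rhc7326dcf0db7b159] (by decide +kernel))
noncomputable def rh56f07decfb4aa036 : CRef := CRef.mk (Pat.mk 0x1000000018000000180000001e00000000 0x20000000310000001f0000001f0000001e00000003 6 6) 0 0 (step_sound _ 65 [(rh3244c3cc8379b070.shift 0 1), rh37fc16c4e5393ad6] (by decide +kernel))
noncomputable def rhbcfe8b514a771277 : CRef := CRef.mk (Pat.mk 0x8000000180000001800000000 0x1c0000001f00000038000000180000001800000008 6 6) 0 0 (step_sound _ 131 [(rh2145e1d24b96a57e.shift 3 1), rh2726962e49a46af1] (by decide +kernel))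
noncomputable def rh161e32243bff89f3 : CRef := CRef.mk (Pat.mk 0x8000000180000001800000018 0x340000003f0000001f0000001800000018 6 6) 0 0 (step_sound _ 100 [(rh5c5e593799055d58.shift 3 0), rh6aa3e7e8646654a4] (by decide +kernel))
noncomputable def rh2dc561e49bec8d67 : CRef := CRef.mk (Pat.mk 0x200000012000000060000000000000000 0x50000000700000007000000030000003f000000070000000300000001 6 6) 0 0 (step_sound _ 98 [rh04bc0bc315096e76, (rh51246ab843efda05.shift 0 2), (rh6493ceb007f59211.shift 0 2), (rhd11dc6dd83191698.shift 0 2)] (by decide +kernel))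
noncomputable def rh05153283f94893c9 : CRef := CRef.mk (Pat.mk 0x1800000008000000180000000e00000000 0x60000007f0000003f0000001c0000000e00000002 6 7) 0 0 (step_sound _ 130 [rh4c7f12f685c4ec3d, (rh50fbb5868c909700.shift 2 1)] (by decide +kernel))
noncomputable def rh2049923f665ae8d1 : CRef := CRef.mk (Pat.mk 0x2000000020000001200000010 0x5000000070000000700000002000000030000001e00000034 6 6) 0 0 (step_sound _ 34 [rh14e0829dc73b6804, rh665fa2b016ee28ae] (by decide +kernel))
noncomputable def rhd58a1db5f0b480d4 : CRef := CRef.mk (Pat.mk 0x1000000010000000100000003800000000 0x800000018000000180000003f0000007e00000007 6 7) 0 0 (step_sound _ 131 [(rh50fbb5868c909700.shift 3 1), rh55438bf355f7f1e0] (by decide +kernel))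
noncomputable def rhea50028c004cdae8 : CRef := CRef.mk (Pat.mk 0xc0000002000000024000000200000000000000000 0x80000001f000000780000003e0000006f0000000400000004 6 7) 0 0 (step_sound _ 99 [rh7701132f4c18061f, (rha3fd83893c3ef42f.shift 0 2), (rhabf575676fe0ef70.shift 2 2), (rhc8450956778d39a6.shift 0 2)] (by decide +kernel))
noncomputable def rh1dbae68ba0c9a230 : CRef := CRef.mk (Pat.mk 0x30000000800000003000000000000000000000000 0x50000000700000007000000070000001e00000003000000030000000300000001 6 5) 0 0 (step_sound _ 129 [rh4331da5e27ad89d1, (rh5aa55c7caa2ef26f.shift 0 1), (rh68a777751bfeafdf.shift 0 2)] (by decide +kernel))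
noncomputable def rh4289945f12cd42bb : CRef := CRef.mk (Pat.mk 0xe000000200000000400000000 0x4000000070000001e000000330000000600000006 6 6) 0 0 (step_sound _ 100 [rh46b8273c9da31a19, (rh96851dee118c1ba3.shift 1 2)] (by decide +kernel))
noncomputable def rh7a88106dc30ace7c : CRef := CRef.mk (Pat.mk 0x20000001200000012000000100000000000000000 0xd0000000f0000000f0000003f0000001b000000160000000600000004 6 6) 0 0 (step_sound _ 65 [(rh1741680720c097b4.shift 0 2), (rh31d8278b7e19baad.shift 0 1), (rh6290225f7e481854.shift 0 1), rh8ff3dde5b1c639e0, (rh9bb2bee4114890af.shift 0 2)] (by decide +kernel))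
noncomputable def rh6b639d2e6d6507ed : CRef := CRef.mk (Pat.mk 0x20000001200000002000000000000000000000000 0x50000000f0000001f00000002000000070000000700000005 6 5) 0 0 (step_sound _ 65 [(rh486eb7c8c2e9ae71.shift 0 1), rh8cdd36b03d57a2f6, rh8ff3dde5b1c639e0, (rhc3115e0f4b0bf27b.shift 0 2)] (by decide +kernel))
noncomputable def rh52da0a4b82c097b2 : CRef := CRef.mk (Pat.mk 0x7000000020000000200000002000000000 0xf000000fe000000fc000000300000003000000010 6 8) 0 0 (step_sound _ 36 [(rh0ab8704dd5a38897.shift 0 1), (rh932754581e0f4330.shift 4 0)] (by decide +kernel))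
noncomputable def rh56b522415e590c1b : CRef := CRef.mk (Pat.mk 0x80000000800000038000000100000000000000000 0x80000000f0000003e000000370000001400000010 6 6) 0 0 (step_sound _ 36 [(rh7b1f1fb55310c477.shift 3 0), (rhd94c7fa29448f08c.shift 0 1)] (by decide +kernel))
noncomputable def rhcafea7e010a7d58d : CRef := CRef.mk (Pat.mk 0x1000000000000000700000002000000000 0x18000000180000000e0000007e0000007f00000010 6 7) 0 0 (step_sound _ 67 [(rh4f8edb321cf5b49d.shift 1 1), (rh592c7139d2c44767.shift 1 1), (rha0ae8adeb1dbcf8d.shift 0 1), (rha700292a805d5a54.shift 2 0)] (by decide +kernel))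
noncomputable def rhad04ba821d7b8f41 : CRef := CRef.mk (Pat.mk 0x4000000000000001e00000002000000000000000000000000 0x4000000070000001e00000002000000070000000700000005 6 5) 0 0 (step_sound _ 161 [(rh3244c3cc8379b070.shift 0 4), rhc94dfb5f501cb051] (by decide +kernel))
noncomputable def rh0edeea44351ef76d : CRef := CRef.mk (Pat.mk 0x18000000c0 0x70000007e000000e7 6 8) 0 0 (step_sound _ 37 [rh88c620441a3a17ea, (rhd6e447e81774439e.shift 3 0)] (by decide +kernel))
noncomputable def rh17be463b1ba4b67e : CRef := CRef.mk (Pat.mk 0xc00000008000000180000000c00000000 0xc0000000e0000001f0000001f00000013 6 5) 0 0 (step_sound _ 36 [rh0f98f872afc8859e, (rh55afc6a59410cf00.shift 3 0)] (by decide +kernel))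
noncomputable def rh3aec07aa190a18dd : CRef := CRef.mk (Pat.mk 0x180000008000000030000000000000000000000000 0x4000000040000000ef0000007e000001ef00000030000000300000001000000010 6 9) 0 0 (step_sound _ 165 [(rh31d55dd32e48ae3d.shift 1 4), (rh392de456d218632d.shift 3 2), (rh39d6bb11efda4c42.shift 2 0), (rhb1b5db3d9517e810.shift 1 4), (rhe1afa9ace3a7e2de.shift 0 4), (rhf1af73716833b731.shift 2 4)] (by decide +kernel))
noncomputable def rhdf0908344ce03366 : CRef := CRef.mk (Pat.mk 0xe000000180000000800000000 0x12000000330000003e0000001f0000000c00000004 6 6) 0 0 (step_sound _ 100 [(rh5421160f8e9bcf07.shift 1 1), rhe6f3c981f45ee7b2] (by decide +kernel))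
noncomputable def rh08fc6c71bae64452 : CRef := CRef.mk (Pat.mk 0x800000008000000080000000000000000 0x140000001c0000001f0000003c000000080000000c0000000c00000004 6 6) 0 0 (step_sound _ 163 [(rh2726962e49a46af1.shift 0 1), (rhc4526fc8abf298b6.shift 2 0), (rhc85cc95794737cf7.shift 2 2), (rhcab3157f7bdcba3e.shift 2 0)] (by decide +kernel))
noncomputable def rh26ed837772191e44 : CRef := CRef.mk (Pat.mk 0x1c00000018000000080000000800000000 0xb0000001f0000001f0000000c0000000c00000004 6 5) 0 0 (step_sound _ 129 [rh77335f126eb6c32e, (rhb739f4f82bb681b4.shift 0 3)] (by decide +kernel))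
noncomputable def rh7144ca2961b89b79 : CRef := CRef.mk (Pat.mk 0x1e00000018000000180000001000000000 0x30000001e0000001f0000001f0000003100000020 6 6) 0 0 (step_sound _ 97 [rhd8740cf9f9029425, (rheb0810cc63b001d8.shift 0 3)] (by decide +kernel))
noncomputable def rhbf85a2209f4b6e6e : CRef := CRef.mk (Pat.mk 0x1800000018000000080000000000000000 0x80000001800000018000000380000001f0000001c 6 6) 0 0 (step_sound _ 35 [rh589345da44c3b4b3, (rh71222050f2c63a3a.shift 3 0)] (by decide +kernel))
noncomputable def rh6575a3502d20688c : CRef := CRef.mk (Pat.mk 0x1e0000000000000002000000000000000000000000 0x40000001e0000000300000002000000070000000700000005 6 5) 0 0 (step_sound _ 129 [(rheb0810cc63b001d8.shift 0 4), rhffb8e5993241bf15] (by decide +kernel))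
noncomputable def rh2daa9eb87d6bf46c : CRef := CRef.mk (Pat.mk 0x1800000018000000180000000800000000 0x18000000180000001f0000003f00000034 6 6) 0 0 (step_sound _ 36 [(rh7b1f1fb55310c477.shift 3 0), rhb4a8657f7183e509] (by decide +kernel))
noncomputable def rhbc1988a7f05b7ccd : CRef := CRef.mk (Pat.mk 0x60000001200000002000000000000000000000000 0x100000003000000070000003f00000003000000070000000700000005 6 6) 0 0 (step_sound _ 130 [(rh51246ab843efda05.shift 0 3), (rhb7616ccf0736ebbe.shift 0 3), rhe95a2e51b0ee5fdb, (rhfd0f316c42bbba52.shift 0 4)] (by decide +kernel))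
noncomputable def rh0138e92724967df6 : CRef := CRef.mk (Pat.mk 0xe00000018000000080000001800000000 0x20000000e0000001c0000003f0000007f00000006 6 7) 0 0 (step_sound _ 34 [(rh932754581e0f4330.shift 2 0), rhcae42670d5f3e5ea] (by decide +kernel))
noncomputable def rh06a249db0ec2b074 : CRef := CRef.mk (Pat.mk 0x10000000120000000200000002000000000000000000000000 0x340000001e0000000300000002000000070000000700000005 6 6) 0 0 (step_sound _ 162 [(rh1dc3e866f7ab4752.shift 0 4), rhffb8e5993241bf15] (by decide +kernel))
noncomputable def rhe631362f3397b4df : CRef := CRef.mk (Pat.mk 0x3800000010000000100000001000000000 0x70000007e0000003f000000180000001800000008 6 7) 0 0 (step_sound _ 35 [(rh147596d73417c89a.shift 0 1), (rh932754581e0f4330.shift 3 0)] (by decide +kernel))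
noncomputable def rhd1e1a14f2f3c5ae8 : CRef := CRef.mk (Pat.mk 0x2000000024000000200000000c00000000 0x4000000040000006f0000003e000000780000001f00000008 6 7) 0 0 (step_sound _ 99 [(rh499fe0919994f2c0.shift 0 2), (rhabf575676fe0ef70.shift 2 2), (rhc8ffc5931fd66d8a.shift 0 2), rhfe55220a6e86d829] (by decide +kernel))
noncomputable def rh31615b1785c2b9a4 : CRef := CRef.mk (Pat.mk 0x30000000800000003000000000000000000000000 0x10000000300000003000000030000001e00000007000000070000000700000005 6 5) 0 0 (step_sound _ 129 [rh56259dd1390eee46, (rh5af195974a0ec195.shift 0 2), (rh75e158ceab9afbd9.shift 0 2)] (by decide +kernel))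
noncomputable def rh85e15437377fb5e9 : CRef := CRef.mk (Pat.mk 0x4000000200000000e0000000000000000 0x600000006000000330000001e0000000700000004 6 6) 0 0 (step_sound _ 68 [rh3542aec337c58088, (rh428265de8cd3cd2d.shift 1 2)] (by decide +kernel))
noncomputable def rh1458d64dfab1e1fa : CRef := CRef.mk (Pat.mk 0x100000001200000012000000020000000000000000 0x400000006000000160000001b0000003f0000000f0000000f0000000d 6 6) 0 0 (step_sound _ 161 [(rh20966da26a1c2ae8.shift 0 1), (rh43903eb41aa6ae4c.shift 0 1), rh6eff4158bb400f47, rh7d6bd9522969cc3e, (rhc0693af77a9e9811.shift 0 1)] (by decide +kernel))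
noncomputable def rhf1bf3d0f19e115bc : CRef := CRef.mk (Pat.mk 0x2000000120000000200000000 0x50000000700000007000000020000001f0000000f00000005 6 5) 0 0 (step_sound _ 129 [rh20966da26a1c2ae8, rh91a940540eb880d4, (rhc85cc95794737cf7.shift 0 1), rhdb57bcbe4a84bd4b] (by decide +kernel))
noncomputable def rhaca7daf06cc997a3 : CRef := CRef.mk (Pat.mk 0x2000000020000000200000007000000000 0x100000003000000030000000fc000000fe0000000f 6 8) 0 0 (step_sound _ 132 [(rh50fbb5868c909700.shift 4 1), rh72058a08ebab8fdb] (by decide +kernel))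
noncomputable def rha6dfe1edc6ae80dd : CRef := CRef.mk (Pat.mk 0x2000000020000000300000000 0x500000007000000070000000200000002000000030000000300000001 6 3) 0 0 (step_sound _ 129 [rh932754581e0f4330, (rhb77bfac3e9efecea.shift 0 1)] (by decide +kernel))
noncomputable def rh3b811bc68ae5ecc7 : CRef := CRef.mk (Pat.mk 0x10000000380000000800000008 0x1000000014000000370000003e0000000f00000008 6 6) 0 0 (step_sound _ 132 [rh05f5b8cf9ecbc46c, (rh5c5e593799055d58.shift 3 1)] (by decide +kernel))
noncomputable def rhbefa7713f4dea7fd : CRef := CRef.mk (Pat.mk 0x2000000070000000000000001000000000 0x100000007f0000007e0000000e0000001800000018 6 7) 0 0 (step_sound _ 99 [(rh3e0b38310ac09007.shift 0 3), (rh43ca58b80ff240ff.shift 2 0), (rh55c4ed4acec0f063.shift 1 2), (rh775ca1963e850b80.shift 1 2)] (by decide +kernel))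
noncomputable def rh9cb8c3063250d63b : CRef := CRef.mk (Pat.mk 0x20000001e0000000000000004 0x50000000700000007000000020000001e0000000700000004 6 5) 0 0 (step_sound _ 33 [rhba97f7f4ade5e136, (rheb0810cc63b001d8.shift 0 1)] (by decide +kernel))
noncomputable def rh4ebc50eb75d04575 : CRef := CRef.mk (Pat.mk 0xc00000001800000000 0xe70000007e00000007 6 8) 0 0 (step_sound _ 37 [(rh3fc040e777f1679e.shift 3 1), rh551591afa7e9bd9a] (by decide +kernel))
noncomputable def rh558856eec88e5eda : CRef := CRef.mk (Pat.mk 0xc00000018000000080000000c 0x130000001f0000001f0000000e0000000c 6 5) 0 0 (step_sound _ 100 [rh2444968c807a2d98, (rh2f68792b6b779e96.shift 3 0)] (by decide +kernel))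
noncomputable def rh42735e3053477178 : CRef := CRef.mk (Pat.mk 0x300000008000000018000000000000000000000000 0x10000000100000003000000030000001ef0000007e000000ef0000004000000040 6 9) 0 0 (step_sound _ 101 [(rh1f36686c55693598.shift 2 3), (rh5882fccdd3a3ae99.shift 0 2), (rh6fba981bb8ec7da0.shift 1 2), (rh798ce58a419a7c26.shift 2 2), (rh88787d6e86cfe4c3.shift 3 0), (rh8886afe3c5704de8.shift 1 2)] (by decide +kernel))
noncomputable def rh7f094f845c26c09d : CRef := CRef.mk (Pat.mk 0x8000000180000000e0000000000000000 0x40000000c0000001f0000003e0000003300000012 6 6) 0 0 (step_sound _ 68 [rh43dc67402634d54f, (rh78974448101547fe.shift 1 0)] (by decide +kernel))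
noncomputable def rh27049bd1b050d014 : CRef := CRef.mk (Pat.mk 0x80000000800000008000000000000000000000000 0x40000000c0000000c000000080000003c0000001f0000001c00000014 6 6) 0 0 (step_sound _ 67 [(rh589345da44c3b4b3.shift 0 1), (rh5abfc4c9d959be03.shift 2 1), (rh771d065bdc85bf2d.shift 2 1), (rh8cdd36b03d57a2f6.shift 2 0)] (by decide +kernel))
noncomputable def rh710ea07bce94546b : CRef := CRef.mk (Pat.mk 0x1c000000340000000400000000 0xa0000000e0000000f0000001c000000f60000000600000002 6 8) 0 0 (step_sound _ 71 [(rh2fe78cc5ca4405d8.shift 3 2), rheeff411d9539be1f] (by decide +kernel))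
noncomputable def rhd8dd8d719dd9d3ad : CRef := CRef.mk (Pat.mk 0x20000000200000006800000008000000000000000000000000 0x140000001c0000007c0000003f0000006c0000000c0000000c0000000c00000004 6 7) 0 0 (step_sound _ 163 [(rh02a62d0f950f92c9.shift 0 2), (rh04bc0bc315096e76.shift 2 1), (rh5f452f890cbd7cd4.shift 2 1), (rhbe5703805fd7fa8f.shift 2 2), (rhf2eb0d5b8c248a4e.shift 2 0)] (by decide +kernel))
noncomputable def rhbd2ff28a4a1671c5 : CRef := CRef.mk (Pat.mk 0x200000007000000080 0x670000007e000000c7 6 8) 0 0 (step_sound _ 35 [(rh96851dee118c1ba3.shift 3 0), rhb12ffaec36122c99] (by decide +kernel))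
noncomputable def rh56b3da42fd9f0d97 : CRef := CRef.mk (Pat.mk 0x200000006000000020000000200000000000000000000000000000000 0x200000006000000060000000300000007000000070000000700000005 6 3) 0 0 (step_sound _ 97 [(rh7928877f9bf74a91.shift 0 2), (rh8c3839f9b9075f23.shift 1 1), (rh8cdd36b03d57a2f6.shift 0 1), rhc94dfb5f501cb051] (by decide +kernel))
noncomputable def rhcb2f1be182b9fec3 : CRef := CRef.mk (Pat.mk 0x4000000300000002400000020 0x800000008000000180000001e0000003f0000003e00000070 6 7) 0 0 (step_sound _ 36 [(rh0f6f02996735c9a5.shift 1 0), (rh39f426ebe0691969.shift 1 0), rhf762bcda196c9e5f] (by decide +kernel))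
noncomputable def rh57c98ee9455ff0af : CRef := CRef.mk (Pat.mk 0x200000000800000060000000680000000000000000 0x140000001c0000007c0000000f0000007c0000006c0000000c00000004 6 7) 0 0 (step_sound _ 99 [(rh01e48cd9f335aa73.shift 2 2), (rh02a62d0f950f92c9.shift 0 1), (rh04bc0bc315096e76.shift 2 0), (rh086f6046fa319626.shift 2 2), (rhb7674d85f64945d6.shift 2 2)] (by decide +kernel))
noncomputable def rhd6978727f3267641 : CRef := CRef.mk (Pat.mk 0x7000000020000000200000002000000000 0xf000000fe0000007c000000380000003000000010 6 8) 0 0 (step_sound _ 36 [(rh932754581e0f4330.shift 4 0), (rhb9d54c641577230c.shift 0 1)] (by decide +kernel))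
noncomputable def rh19bf93c71b92b699 : CRef := CRef.mk (Pat.mk 0x20000000a0000001a00000012 0x1000000070000001f0000000e0000000a0000001a00000012 6 5) 0 0 (step_sound _ 130 [rh3d51e934f233df12, (rhbaefcd01e0a8bca3.shift 1 0)] (by decide +kernel))
noncomputable def rha1bb7b9a3b189997 : CRef := CRef.mk (Pat.mk 0x20000000a0000000a0000001a00000000 0x300000003000000070000000e0000000f0000001a0000000a 6 5) 0 0 (step_sound _ 160 [rh2d89bf0155d72363, (rhffd04209dc8ea796.shift 0 1)] (by decide +kernel))
noncomputable def rhfb179d972138044b : CRef := CRef.mk (Pat.mk 0x2000000020000000a0000001a 0x4000000070000000700000003000000060000000f0000001a 6 5) 0 0 (step_sound _ 128 [rh434f1ba6302e16e4, rhffd04209dc8ea796] (by decide +kernel))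
noncomputable def rhb5fbce76d1ba6e14 : CRef := CRef.mk (Pat.mk 0x2000000180000001200000010 0x1000000090000000b0000000f0000001e0000001a00000012 6 5) 0 0 (step_sound _ 99 [(rhe072fffdd2fccf38.shift 3 0), rhf2190df6e018e61d] (by decide +kernel))
noncomputable def rhfc11ff2e3821322c : CRef := CRef.mk (Pat.mk 0x4000000300000002400000020 0x800000008000000180000001e000000380000003e00000077 6 7) 0 0 (step_sound _ 36 [(rh0f6f02996735c9a5.shift 1 0), (rh39f426ebe0691969.shift 1 0), rh473b2f7acaa88f87] (by decide +kernel))
noncomputable def rha7650242991e43d9 : CRef := CRef.mk (Pat.mk 0x2000000180000001a00000010 0x4000000040000000e0000000f0000001a0000001a0000001a 6 5) 0 0 (step_sound _ 99 [(rh2145e1d24b96a57e.shift 3 0), rhaf5cd423ca055650] (by decide +kernel))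
noncomputable def rh7adc09e52b0de0c6 : CRef := CRef.mk (Pat.mk 0x300000002400000020 0x8000000180000001e0000007f0000003e00000070 6 7) 0 0 (step_sound _ 36 [(rh39f426ebe0691969.shift 1 0), (rh6cff4b8fb39cab72.shift 1 0), (rh6d571b54e8dd9e33.shift 1 1), rhc19018457b391e9a, (rhc924e5f7a4031fcc.shift 2 0)] (by decide +kernel))
noncomputable def rh39b752ec3e03e928 : CRef := CRef.mk (Pat.mk 0x4000000340000001c000000000000000000000000 0x200000006000000f60000001c0000000f0000000e0000000a 6 8) 0 0 (step_sound _ 135 [(rh361cc68994bd8a63.shift 3 3), rh3e2c9a93a47040f2] (by decide +kernel))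
noncomputable def rhbc760808bb3cf655 : CRef := CRef.mk (Pat.mk 0x80000006800000020000000200000000000000000 0x40000000c0000000c0000000c0000006c0000003f0000007c0000001c00000014 6 7) 0 0 (step_sound _ 99 [(rh168fed7625321222.shift 2 0), (rh7183d73c74feafce.shift 2 2), (rh794501743a61ce18.shift 2 0), rhcd834955861e3abc, (rhe95a2e51b0ee5fdb.shift 2 0)] (by decide +kernel))
noncomputable def rh262f33c15d188304 : CRef := CRef.mk (Pat.mk 0x800000007000000020 0xc70000007e00000067 6 8) 0 0 (step_sound _ 35 [(rh428265de8cd3cd2d.shift 3 1), rhc92c11e8da6c894f] (by decide +kernel))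
noncomputable def rhf348a8440bec9afc : CRef := CRef.mk (Pat.mk 0x2000000020000000600000002 0x500000007000000070000000700000003000000060000000600000002 6 3) 0 0 (step_sound _ 129 [rh3ca48e2a6d60153d, (rh73f605273a09a9d0.shift 1 1), (rhba97f7f4ade5e136.shift 0 1), (rhc85cc95794737cf7.shift 0 1)] (by decide +kernel))
noncomputable def rhaadd6f0b24129975 : CRef := CRef.mk (Pat.mk 0x20000000240000003000000004000000000000000000000000 0x700000003e0000003f0000001e000000180000000800000008 6 7) 0 0 (step_sound _ 164 [(rh6b20c526ec8deffc.shift 0 4), (rh7dcc577706dd2abd.shift 1 4), (rhd2a448c9bc642ac8.shift 1 0)] (by decide +kernel))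
noncomputable def rh008ca0c4b9b8c196 : CRef := CRef.mk (Pat.mk 0x680000006000000008000000200000000000000000 0x40000000c0000006c0000007c0000000f0000007c0000001c00000014 6 7) 0 0 (step_sound _ 131 [(rh01e48cd9f335aa73.shift 2 3), (rh6e1685e3533aff0e.shift 2 4), (rhb3425fba9db279e9.shift 2 3), rhcd834955861e3abc, (rhe95a2e51b0ee5fdb.shift 2 0)] (by decide +kernel))
noncomputable def rh20afe66d95bdac90 : CRef := CRef.mk (Pat.mk 0x2000000020000000200000007000000000 0x1000000030000000380000007c000000fe0000000f 6 8) 0 0 (step_sound _ 132 [(rh50fbb5868c909700.shift 4 1), rhe24f71dc03673300] (by decide +kernel))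
noncomputable def rh5afc3ee6276cd6e5 : CRef := CRef.mk (Pat.mk 0x120000001a0000000a00000002000000000000000000000000 0x120000001a0000000a0000000e0000001f0000000700000001 6 5) 0 0 (step_sound _ 66 [rh81156b46702557d3, (rhd3458b32566d63f7.shift 1 2)] (by decide +kernel))
noncomputable def rh0b62d136262e8d56 : CRef := CRef.mk (Pat.mk 0x1a0000000a0000000a000000020000000000000000 0xa0000001a0000000f0000000e000000070000000300000003 6 5) 0 0 (step_sound _ 32 [(rh79877ebd3ef475dd.shift 0 1), rh9f7291656644d9f1] (by decide +kernel))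
noncomputable def rh5127e7c97837a809 : CRef := CRef.mk (Pat.mk 0x1a0000000a0000000200000002000000000000000000000000 0x1a0000000f0000000600000003000000070000000700000004 6 5) 0 0 (step_sound _ 64 [(rh79877ebd3ef475dd.shift 0 2), rhf4abd55e7dd18847] (by decide +kernel))
noncomputable def rh64b016e03edb64f4 : CRef := CRef.mk (Pat.mk 0x10000000120000001800000002000000000000000000000000 0x120000001a0000001e0000000f0000000b0000000900000001 6 5) 0 0 (step_sound _ 99 [rh205cfa7c6d243a73, (rhf9af042da61fc652.shift 3 1)] (by decide +kernel))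
noncomputable def rhad6fcbf32ac23b81 : CRef := CRef.mk (Pat.mk 0x20000000240000003000000004000000000000000000000000 0x770000003e000000380000001e000000180000000800000008 6 7) 0 0 (step_sound _ 164 [(rh0109c1f5b269e043.shift 0 5), (rh7dcc577706dd2abd.shift 1 4), (rhd2a448c9bc642ac8.shift 1 0)] (by decide +kernel))
noncomputable def rhba76486610caf785 : CRef := CRef.mk (Pat.mk 0x100000001a0000001800000002000000000000000000000000 0x1a0000001a0000001a0000000f0000000e0000000400000004 6 5) 0 0 (step_sound _ 99 [rh0bab0b19dbffbcbc, (rh71222050f2c63a3a.shift 3 2)] (by decide +kernel))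
noncomputable def rh4d36457838fe3655 : CRef := CRef.mk (Pat.mk 0x200000002400000030000000000000000000000000 0x700000003e0000007f0000001e0000001800000008 6 7) 0 0 (step_sound _ 132 [(rh59eead8bb005fdc6.shift 1 0), (rh7dcc577706dd2abd.shift 1 3), (rh97e8acde19298b21.shift 0 3), (rhc924e5f7a4031fcc.shift 2 3), (rhcd6baf37b3e5de21.shift 1 3)] (by decide +kernel))
noncomputable def rh9513dabc3e7f6f28 : CRef := CRef.mk (Pat.mk 0x600000003000000100000000000000000 0x5000000070000000700000007000000070000001f0000000700000003 6 5) 0 0 (step_sound _ 65 [rh000637b5a81e86aa, (rh215e11e099257d75.shift 1 1), (rh2f4077820d6815e0.shift 0 1), rhee29f156cbe62897] (by decide +kernel))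
noncomputable def rhf2bd11c507e23bae : CRef := CRef.mk (Pat.mk 0x100000001e0000000e0000000200000000 0x3000000070000001f0000001e0000000e0000000a00000008 6 5) 0 0 (step_sound _ 130 [rh5819c50225755edf, (rh5c5e593799055d58.shift 1 1)] (by decide +kernel))
noncomputable def rh514fa485ecc97095 : CRef := CRef.mk (Pat.mk 0xd0000000c000000080000000000000000 0x1800000018000000180000000f0000000c0000000c0000001800000018 6 5) 0 0 (step_sound _ 35 [(rh7b1f1fb55310c477.shift 2 0), rhe08f8c3511b74955] (by decide +kernel))
noncomputable def rh83f064ef56050fe8 : CRef := CRef.mk (Pat.mk 0x180000001e000000100000000000000000 0x3c0000003c0000001f0000001e000000180000000800000008 6 6) 0 0 (step_sound _ 163 [(rh2145e1d24b96a57e.shift 3 2), rh3fe7114d6bc3d64c] (by decide +kernel))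
noncomputable def rh2b942c42ac6e0661 : CRef := CRef.mk (Pat.mk 0x1a0000001e0000000000000000 0x10000000700000007000000070000001e0000001e0000000700000004 6 5) 0 0 (step_sound _ 33 [rh6dfb376ebf9b442b, (rheb0810cc63b001d8.shift 0 1)] (by decide +kernel))
noncomputable def rha6c40cd2c88be7b9 : CRef := CRef.mk (Pat.mk 0x180000001e000000100000000000000000 0x20000000300000001f0000001e000000180000001800000018 6 6) 0 0 (step_sound _ 36 [rh221b511e29b67f08, (rh7b1f1fb55310c477.shift 3 0)] (by decide +kernel))
noncomputable def rh5e665549157bf15b : CRef := CRef.mk (Pat.mk 0x1a00000016000000120000001000000000 0x3000000030000001e00000016000000160000003c00000028 6 6) 0 0 (step_sound _ 35 [(rh932754581e0f4330.shift 3 0), rhb29a0c87b6dc9700] (by decide +kernel))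
noncomputable def rh571324f3faacc069 : CRef := CRef.mk (Pat.mk 0x180000001e000000000000000000000000 0xb0000000b0000001f0000001e000000070000000400000004 6 5) 0 0 (step_sound _ 129 [(rh3244c3cc8379b070.shift 0 3), rh9a0f4239b7590e5d] (by decide +kernel))
noncomputable def rhbf1253774c14558a : CRef := CRef.mk (Pat.mk 0x180000001c000000100000001000000000 0x40000001f0000003c0000001e0000007800000028 6 7) 0 0 (step_sound _ 37 [(rh55afc6a59410cf00.shift 4 0), rhec8c889d2743abb7] (by decide +kernel))
noncomputable def rhb2c24aa65dd14528 : CRef := CRef.mk (Pat.mk 0x2000000030000001200000000 0x400000006000000060000000200000003000000030000001f00000004 6 5) 0 0 (step_sound _ 34 [(rh2fe78cc5ca4405d8.shift 0 1), rhdae9388eef521f76] (by decide +kernel))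
noncomputable def rhd3d458da9b6d39df : CRef := CRef.mk (Pat.mk 0x180000000e00000004 0x4000000040000000e0000000f0000001e0000000e0000000e 6 5) 0 0 (step_sound _ 99 [(rh5c5e593799055d58.shift 2 0), rhba61bb40e316aa10] (by decide +kernel))
noncomputable def rhb7fa30b750bea7ea : CRef := CRef.mk (Pat.mk 0x2000000030000001400000000 0x400000006000000060000000200000003000000030000001f00000004 6 5) 0 0 (step_sound _ 33 [(rh2fe78cc5ca4405d8.shift 0 1), rhdae9388eef521f76] (by decide +kernel))
noncomputable def rh370e4f27ca237734 : CRef := CRef.mk (Pat.mk 0x600000003000000040000000000000000 0x3000000030000000700000007000000070000000700000001 6 3) 0 0 (step_sound _ 161 [rh08c75accbceac6f3, (rh390a8df03c6c5a62.shift 1 1), (rh85a605aac6183f28.shift 0 2)] (by decide +kernel))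
noncomputable def rh50ab1db514048e8b : CRef := CRef.mk (Pat.mk 0x100000000300000006000000000000000000000000 0x3000000070000001f0000000700000007000000070000000700000005 6 5) 0 0 (step_sound _ 161 [rh6ef0c00f4cfeb141, (rh70e33bfdf511e144.shift 1 0), rh9c4169708e16af39, (rhb23658ecdd7ce5df.shift 0 2)] (by decide +kernel))
noncomputable def rhf2c2afe0a2201c94 : CRef := CRef.mk (Pat.mk 0x20000000e0000001e000000100000000000000000 0x80000000a0000000e0000001e0000001f0000000700000003 6 5) 0 0 (step_sound _ 66 [(rh7b1f1fb55310c477.shift 1 1), rhcc98a87cde199059] (by decide +kernel))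
noncomputable def rh550e3b0136cfc468 : CRef := CRef.mk (Pat.mk 0x80000000c0000000d000000000000000000000000 0x18000000180000000c0000000c0000000f000000180000001800000018 6 5) 0 0 (step_sound _ 195 [(rh5c5e593799055d58.shift 2 3), rhab950eb696986900] (by decide +kernel))
noncomputable def rhc567d49310d9b615 : CRef := CRef.mk (Pat.mk 0x100000001e000000180000000000000000 0x800000008000000180000001e0000001f0000003c0000003c 6 6) 0 0 (step_sound _ 35 [(rh71222050f2c63a3a.shift 3 0), rhf157e03fe27adc5d] (by decide +kernel))
noncomputable def rh19f1e3ad90798091 : CRef := CRef.mk (Pat.mk 0x1e0000001a00000000000000000000000000000000 0x4000000070000001e0000001e00000007000000070000000700000001 6 5) 0 0 (step_sound _ 193 [(rh3244c3cc8379b070.shift 0 5), rhe13578c189c582ed] (by decide +kernel))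
noncomputable def rh17707bfb73998a57 : CRef := CRef.mk (Pat.mk 0x100000001e000000180000000000000000 0x1800000018000000180000001e0000001f0000003000000020 6 6) 0 0 (step_sound _ 164 [(rh5c5e593799055d58.shift 3 2), rhe954a79959057e62] (by decide +kernel))
noncomputable def rhec7d9ad151910e77 : CRef := CRef.mk (Pat.mk 0x1000000012000000160000001a0000000000000000 0x280000003c00000016000000160000001e0000000300000003 6 6) 0 0 (step_sound _ 163 [(rh50fbb5868c909700.shift 3 2), rhefff3f4846c03ebb] (by decide +kernel))
noncomputable def rh4e0e32e3c9a864dd : CRef := CRef.mk (Pat.mk 0x1e000000180000000000000000 0x400000004000000070000001e0000001f0000000b0000000b 6 5) 0 0 (step_sound _ 65 [rhc6d5474ff13d52c5, (rheb0810cc63b001d8.shift 0 2)] (by decide +kernel))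
noncomputable def rhff9ae35b09d46fb0 : CRef := CRef.mk (Pat.mk 0x10000000100000001c0000001800000000 0x28000000780000001e0000003c0000001f00000004 6 7) 0 0 (step_sound _ 133 [(rh2f68792b6b779e96.shift 4 1), rh8da4497394892813] (by decide +kernel))
noncomputable def rh807a3fca9b5109b0 : CRef := CRef.mk (Pat.mk 0x12000000030000000200000000000000000000000000000000 0x40000001f000000030000000300000002000000060000000600000004 6 5) 0 0 (step_sound _ 194 [(rh361cc68994bd8a63.shift 0 5), rh63aae37a5ea11039] (by decide +kernel))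
noncomputable def rh8b1a4197a7bd1ecb : CRef := CRef.mk (Pat.mk 0x40000000e0000001800000000000000000000000000000000 0xe0000000e0000001e0000000f0000000e0000000400000004 6 5) 0 0 (step_sound _ 99 [rh77fd1ef2a0a169ee, (rh7b1f1fb55310c477.shift 2 2)] (by decide +kernel))
noncomputable def rhf80c84dcd34c16d6 : CRef := CRef.mk (Pat.mk 0x14000000030000000200000000000000000000000000000000 0x40000001f000000030000000300000002000000060000000600000004 6 5) 0 0 (step_sound _ 193 [(rh361cc68994bd8a63.shift 0 5), rh63aae37a5ea11039] (by decide +kernel))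
noncomputable def rhd0961db51271b5fd : CRef := CRef.mk (Pat.mk 0x400000003000000060000000000000000 0x1000000070000000700000007000000070000000300000003 6 3) 0 0 (step_sound _ 33 [rh2d5442cbf338480d, (rh5fcbac5b57173fc5.shift 1 0), rha1ee609811ef0ede] (by decide +kernel))
noncomputable def rh683cfd9f29dd7e3a : CRef := CRef.mk (Pat.mk 0x100000001c00000030000000000000000000000000 0x80000001800000018000000180000003c0000003f0000000e0000000400000004 6 6) 0 0 (step_sound _ 196 [(rh03dfdf12d5937476.shift 3 2), (rh5bd4bc0c2c48140c.shift 3 3), rhfda18578e77e957e] (by decide +kernel))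
noncomputable def rha5a06d4841a09a6e : CRef := CRef.mk (Pat.mk 0x10000000f000000070000000100000000 0x80000001e0000001f0000000f000000070000000300000002 6 5) 0 0 (step_sound _ 33 [(rh19bab24bff12af71.shift 0 1), rh7b1f1fb55310c477] (by decide +kernel))
noncomputable def rhe0ff8ca01c27513c : CRef := CRef.mk (Pat.mk 0x10000000f0000000f000000010000000000000000 0xc0000000c0000001d0000000f0000000f000000030000000300000001 6 5) 0 0 (step_sound _ 65 [rh4dbc5144a11ac8d6, (rh7b1f1fb55310c477.shift 0 1)] (by decide +kernel))
noncomputable def rha700c09e3935e1ca : CRef := CRef.mk (Pat.mk 0x100000001c00000030000000000000000000000000 0x10000000180000003c0000003f0000002e0000000400000004 6 6) 0 0 (step_sound _ 196 [(rh55afc6a59410cf00.shift 4 2), rhfda18578e77e957e] (by decide +kernel))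
noncomputable def rh249043d60780d0bb : CRef := CRef.mk (Pat.mk 0x1800000010000000100000001000000000 0x18000000180000003e0000007f0000002e 6 7) 0 0 (step_sound _ 35 [rh2504670ad45ec1e5, (rh932754581e0f4330.shift 3 0)] (by decide +kernel))
noncomputable def rh9dc2dfda8ecb5642 : CRef := CRef.mk (Pat.mk 0x3800000030000000180000001800000000 0x7e0000003e000000380000001f00000004 6 7) 0 0 (step_sound _ 130 [rh94f43f6d3c38e93e, (rhb739f4f82bb681b4.shift 1 3)] (by decide +kernel))
noncomputable def rh7e5a7567e85f199e : CRef := CRef.mk (Pat.mk 0x1a0000000e000000120000000800000000 0x4000000070000001e0000000e0000001a0000000f00000007 6 5) 0 0 (step_sound _ 130 [(rh14496ca70edf5ece.shift 1 1), (rh84d1c02a8954c6a8.shift 1 1), rhd5f5e764651cb542, (rhea7a1800d6f053bd.shift 1 0)] (by decide +kernel))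
noncomputable def rh394d64c8549e0ae5 : CRef := CRef.mk (Pat.mk 0x1a0000001e000000180000000800000000 0x70000001e0000001e0000001b0000000f00000006 6 5) 0 0 (step_sound _ 130 [(rh50fbb5868c909700.shift 2 1), rha0b6fd1ae990bd85] (by decide +kernel))
noncomputable def rh5f0341571c3af442 : CRef := CRef.mk (Pat.mk 0x1a0000001e000000000000000000000000 0x10000000100000003c0000001e0000001e0000000b0000000a00000002 6 6) 0 0 (step_sound _ 65 [(rh17d8eb0392ab8477.shift 1 0), (rheb0810cc63b001d8.shift 0 2)] (by decide +kernel))
noncomputable def rh6fd0b617f255f89c : CRef := CRef.mk (Pat.mk 0x80000000c0000004c000000000000000000000000 0x40000000c0000000c0000007f000000380000001800000018 6 7) 0 0 (step_sound _ 100 [(rh2fe78cc5ca4405d8.shift 2 3), rh99019e750b4c895e] (by decide +kernel))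
noncomputable def rh63f9635ea15ac146 : CRef := CRef.mk (Pat.mk 0x1000000018000000880000000800000000 0xc0000001f00000038000000f80000001e00000014 6 8) 0 0 (step_sound _ 131 [(rhbb00e3681d5eb8f8.shift 1 0), (rhc647a25a08ddf0ec.shift 0 1)] (by decide +kernel))
noncomputable def rhf48f79d922f223b7 : CRef := CRef.mk (Pat.mk 0x180000001e000000100000001800000000 0x140000001c0000001e0000001b0000001f00000006 6 5) 0 0 (step_sound _ 67 [rh292171eb41eea2cc, (rh5c5e593799055d58.shift 3 1)] (by decide +kernel))
noncomputable def rh2d4cc8be52fdcdaf : CRef := CRef.mk (Pat.mk 0x1a0000001e0000000200000000000000000000000000000000 0x40000001e0000001e0000001e0000000a0000000f0000000f0000000700000005 6 5) 0 0 (step_sound _ 97 [rh1b9022be4f7af407, (rh8cdd36b03d57a2f6.shift 0 1), (rhe9d1bf37bafa27f9.shift 1 2)] (by decide +kernel))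
noncomputable def rh294d952f834204d8 : CRef := CRef.mk (Pat.mk 0x300000001c00000010000000000000000000000000 0x4000000040000000e0000003f0000003c00000018000000180000001800000008 6 6) 0 0 (step_sound _ 68 [(rh481f6151603b093c.shift 0 2), (rha8bc3cae4d77a08f.shift 3 0), (rhe286c75f2739cce2.shift 3 1)] (by decide +kernel))
noncomputable def rh543e9b01594ab558 : CRef := CRef.mk (Pat.mk 0x1000000070000000f000000010000000000000000 0x200000003000000070000000f0000001f0000001e00000008 6 5) 0 0 (step_sound _ 161 [rh1898d98e81abdb9a, (rh5c5e593799055d58.shift 0 2)] (by decide +kernel))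
noncomputable def rhefe6d67f6f3567a4 : CRef := CRef.mk (Pat.mk 0x10000000f0000000f000000010000000000000000 0x100000003000000030000000f0000000f0000001d0000000c0000000c 6 5) 0 0 (step_sound _ 161 [(rh5c5e593799055d58.shift 0 2), rhf7330f0ed55e2683] (by decide +kernel))
noncomputable def rh234d3faffc55fe0d : CRef := CRef.mk (Pat.mk 0xc0000000f00000000000000000000000000000000 0x40000000c0000000f000000180000001c0000001c00000014 6 5) 0 0 (step_sound _ 99 [(rh0a6888916bcef86b.shift 2 0), (rhe25b0a99195a5d59.shift 0 3)] (by decide +kernel))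
noncomputable def rh42366ffcc503224f : CRef := CRef.mk (Pat.mk 0x300000001c0000001000000000 0x4000000040000002e0000003f0000003c0000001800000010 6 6) 0 0 (step_sound _ 4 [(rh2f68792b6b779e96.shift 4 0), rh481f6151603b093c] (by decide +kernel))
noncomputable def rh596b207bc053b644 : CRef := CRef.mk (Pat.mk 0x10000000100000001000000018 0x2e0000007f0000003e0000001800000018 6 7) 0 0 (step_sound _ 99 [(rh50fbb5868c909700.shift 3 0), rh8ad8d47dabe45cb0] (by decide +kernel))
noncomputable def rhb790acdeea333cb6 : CRef := CRef.mk (Pat.mk 0x18000000180000003000000038 0x40000001f000000380000003e0000007e 6 7) 0 0 (step_sound _ 2 [(rh53b3c253cb0c65f4.shift 1 0), rhffc3417a99d99833] (by decide +kernel))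
noncomputable def rh7b31600d6ae92eeb : CRef := CRef.mk (Pat.mk 0x8000000120000000e0000001a0000000000000000 0x70000000f0000001a0000000e0000001e0000000700000004 6 5) 0 0 (step_sound _ 66 [(rh02784299519ddbbc.shift 0 1), (rh3d9ea522a568e981.shift 1 0), (rh3e595262c1b737ad.shift 1 1), (rh55a1f6c57a317ce6.shift 1 0)] (by decide +kernel))
noncomputable def rh36b52a1cac65ff98 : CRef := CRef.mk (Pat.mk 0x8000000180000001e0000001a00000000 0x60000000f0000001b0000001e0000001e00000007 6 5) 0 0 (step_sound _ 34 [(rh932754581e0f4330.shift 2 0), rhfb6b7cece388d322] (by decide +kernel))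
noncomputable def rhd610dfe3801a7382 : CRef := CRef.mk (Pat.mk 0x10000000120000001600000010 0x2f0000003e000000160000001600000014 6 6) 0 0 (step_sound _ 99 [(rh50fbb5868c909700.shift 3 0), rhbde60aa2768df8a4] (by decide +kernel))
noncomputable def rh984eab48e45c588f : CRef := CRef.mk (Pat.mk 0x1e0000001a000000000000000000000000 0x20000000a0000000b0000001e0000001e0000003c0000001000000010 6 6) 0 0 (step_sound _ 161 [(rh3244c3cc8379b070.shift 0 4), (rh7426e3451835402b.shift 1 0)] (by decide +kernel))
noncomputable def rha9f47b3d592a5ca2 : CRef := CRef.mk (Pat.mk 0x4c0000000c0000000800000000 0x1800000018000000380000007f0000000c0000000c00000004 6 7) 0 0 (step_sound _ 100 [(rh361cc68994bd8a63.shift 2 2), rh5e169f0a5c154f5c] (by decide +kernel))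
noncomputable def rh381769bac8eef29e : CRef := CRef.mk (Pat.mk 0x800000088000000180000001000000000 0x140000001e000000f8000000380000001f0000000c 6 8) 0 0 (step_sound _ 35 [rh6fae963f33cfdfd7, (rhd4b54dd7a1b064a8.shift 1 0)] (by decide +kernel))
noncomputable def rh443f7b03c05ed95c : CRef := CRef.mk (Pat.mk 0x18000000100000001e0000001800000000 0x60000001f0000001b0000001e0000001c00000014 6 5) 0 0 (step_sound _ 99 [(rh7b1f1fb55310c477.shift 3 0), rhe537a55726f74dba] (by decide +kernel))
noncomputable def rh7a92e08bc72fce3e : CRef := CRef.mk (Pat.mk 0x20000001e0000001a0000000000000000 0x5000000070000000f0000000f0000000a0000001e0000001e0000001e00000004 6 5) 0 0 (step_sound _ 161 [(rhc85cc95794737cf7.shift 0 2), (rhcd9e747d03f909d8.shift 1 0), (rhfb9fb48a5e63ed80.shift 0 2)] (by decide +kernel))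
noncomputable def rh5d56d46834d1bb87 : CRef := CRef.mk (Pat.mk 0x80000001c000000180000000800000000 0x40000000c0000001c0000001c0000001f00000017 6 5) 0 0 (step_sound _ 36 [rh554e79eb2e884be1, (rh7b1f1fb55310c477.shift 3 0)] (by decide +kernel))
noncomputable def rh9b6d7c3a28947468 : CRef := CRef.mk (Pat.mk 0x1e000000180000000000000000 0x4000000040000000c0000001e0000001f0000000f0000000a 6 5) 0 0 (step_sound _ 65 [rh11e9fe313df7f22f, (rheb0810cc63b001d8.shift 0 2)] (by decide +kernel))
noncomputable def rh93dd27b7c6d53f09 : CRef := CRef.mk (Pat.mk 0x1e00000018000000000000000000000000 0x20000000b0000001e0000001f000000340000001400000010 6 6) 0 0 (step_sound _ 97 [rh10ba0ca25c006d5b, (rheb0810cc63b001d8.shift 0 3)] (by decide +kernel))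
noncomputable def rh3b2fa748bdf0f301 : CRef := CRef.mk (Pat.mk 0x20000001e000000180000000000000000 0x4000000040000000e0000001e0000001b0000000f0000000f 6 5) 0 0 (step_sound _ 65 [rhe9b056c20f541b16, (rheb0810cc63b001d8.shift 0 2)] (by decide +kernel))
noncomputable def rhe3fe393f1305e60f : CRef := CRef.mk (Pat.mk 0x20000001e0000001a000000000000000000000000 0x4000000040000000e0000001e0000001e0000003b0000001a00000010 6 6) 0 0 (step_sound _ 162 [rh5f12238356841f88, (rhc2c7bae8f445c890.shift 2 1), (rhea7a1800d6f053bd.shift 1 1)] (by decide +kernel))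
noncomputable def rh28226889eac7c211 : CRef := CRef.mk (Pat.mk 0x8000000120000001600000010 0x2f0000003e000000160000001600000014 6 6) 0 0 (step_sound _ 100 [(rh50fbb5868c909700.shift 3 0), rhbde60aa2768df8a4] (by decide +kernel))
noncomputable def rh50fe5c6ab81d2d57 : CRef := CRef.mk (Pat.mk 0x9000000090000000900000008 0x170000001f0000000f000000090000000900000008 6 5) 0 0 (step_sound _ 130 [(rh7d940291e15217aa.shift 0 1), (rhffd04209dc8ea796.shift 2 0)] (by decide +kernel))
noncomputable def rhc6af8d8605f72e5d : CRef := CRef.mk (Pat.mk 0x80000001c0000003000000010000000000000000000000000 0x60000000f0000001c0000003e0000003e0000006e0000002200000002 6 7) 0 0 (step_sound _ 98 [(rh0b03ce87d609fb4f.shift 1 1), (rh0b4b7ae5c383f530.shift 1 2), (rh1281dba85437d8e6.shift 0 2), (rh21f157abb00787f3.shift 1 2), (rh53b7e2f1a6a47c7e.shift 1 1), (rhc5a0d29a3b12ff5f.shift 1 0)] (by decide +kernel))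
noncomputable def rh0b52421c2a44901b : CRef := CRef.mk (Pat.mk 0x1000000038000000600000002000000000 0xc0000001e00000038000000780000007c0000001f 6 7) 0 0 (step_sound _ 35 [(rh0b4b7ae5c383f530.shift 2 0), (rh1262bff6bf078212.shift 1 0), (rh1281dba85437d8e6.shift 1 0), (rh21f157abb00787f3.shift 2 0), (rh4a76b395f69947c6.shift 1 0), rhb5d844c5457b41c6] (by decide +kernel))
noncomputable def rh3b4b3ba7dd7b33b1 : CRef := CRef.mk (Pat.mk 0x8000000080000001800000030000000000000000000000000 0x100000001800000018000000380000003f0000002c0000000c0000000c 6 6) 0 0 (step_sound _ 99 [(rh6fae963f33cfdfd7.shift 0 2), (rhb1c562e40ee61608.shift 2 0), (rhb32faae6e8187273.shift 3 2)] (by decide +kernel))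
noncomputable def rh31777fc800f41966 : CRef := CRef.mk (Pat.mk 0x1800000018000000100000001000000000 0x180000001c000000370000003e0000002f 6 6) 0 0 (step_sound _ 37 [(rh55afc6a59410cf00.shift 4 0), rha4eb035c392bca11] (by decide +kernel))
noncomputable def rh0cf8255394ebb291 : CRef := CRef.mk (Pat.mk 0x80000000800000018000000100000000000000000 0x140000003c0000000f000000380000001f0000000c00000004 6 6) 0 0 (step_sound _ 67 [(rh5ee4dc8825dcefa0.shift 0 1), (rh6fae963f33cfdfd7.shift 0 1), (rhc4526fc8abf298b6.shift 2 0)] (by decide +kernel))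
noncomputable def rh1e97d325738011eb : CRef := CRef.mk (Pat.mk 0x8000000180000001c0000000800000000 0x170000001f0000001c0000001c0000000c00000004 6 5) 0 0 (step_sound _ 132 [(rh5c5e593799055d58.shift 3 1), rh7dff6100fdafddab] (by decide +kernel))
noncomputable def rh1d3c84db45283e6c : CRef := CRef.mk (Pat.mk 0x180000001e000000000000000000000000 0xa0000000f0000001f0000001e0000000c0000000400000004 6 5) 0 0 (step_sound _ 129 [(rh3244c3cc8379b070.shift 0 3), rha0048ef622af61c6] (by decide +kernel))
noncomputable def rh8e53d4e5cc04c5ec : CRef := CRef.mk (Pat.mk 0x180000001e0000000000000000 0x1000000014000000340000001f0000001e0000000b00000002 6 6) 0 0 (step_sound _ 97 [(rh3244c3cc8379b070.shift 0 2), rh80505a500302d925] (by decide +kernel))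
noncomputable def rhdc1db1323929c554 : CRef := CRef.mk (Pat.mk 0x180000001e000000020000000000000000 0xf0000000f0000001b0000001e0000000e0000000400000004 6 5) 0 0 (step_sound _ 129 [(rh3244c3cc8379b070.shift 0 3), rhc9c9cc5de4597856] (by decide +kernel))
noncomputable def rh95ba05a4bb49d34e : CRef := CRef.mk (Pat.mk 0x1a0000001e000000020000000000000000 0x100000001a0000003b0000001e0000001e0000000e0000000400000004 6 6) 0 0 (step_sound _ 66 [(rh3c35c3c11535b0fc.shift 0 2), (rh3e595262c1b737ad.shift 1 1), (rhcf80391c5046a495.shift 2 0)] (by decide +kernel))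
noncomputable def rhc179ebda0b7a1178 : CRef := CRef.mk (Pat.mk 0x1000000016000000120000000800000000 0x1400000016000000160000003e0000002f 6 6) 0 0 (step_sound _ 36 [rh2f5f07d1769e5d01, (rh932754581e0f4330.shift 3 0)] (by decide +kernel))
noncomputable def rh1b6e981516bdbed0 : CRef := CRef.mk (Pat.mk 0x80000000900000009000000090000000000000000 0x800000009000000090000000f0000001f00000017 6 5) 0 0 (step_sound _ 34 [(rh79877ebd3ef475dd.shift 2 1), rh8a5fa899b79410ad] (by decide +kernel))
noncomputable def rh451d90438770a4a9 : CRef := CRef.mk (Pat.mk 0xc000000180000000c 0x12000000330000003f0000001f0000000c 6 6) 0 0 (step_sound _ 65 [(rhb739f4f82bb681b4.shift 0 1), rhba5b50064c74d6ff] (by decide +kernel))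
noncomputable def rhd648c8885de03ee4 : CRef := CRef.mk (Pat.mk 0x10000000300000001c0000000800000000 0x2000000220000006e0000003e0000003e0000001c0000000f00000006 6 7) 0 0 (step_sound _ 130 [(rh016cdad10fac5d9c.shift 1 1), (rh5e0187cc6a14f9db.shift 1 1), (rh8a473ec674e844c5.shift 1 0), rh92220073c6802d6d, (rhba3de35515f04ede.shift 1 1), (rhbac2358fc36e5851.shift 1 1)] (by decide +kernel))
noncomputable def rhbd21bd15481995cd : CRef := CRef.mk (Pat.mk 0x2000000060000000380000001000000000 0x1f0000007c00000078000000380000001e0000000c 6 7) 0 0 (step_sound _ 131 [(rh8a473ec674e844c5.shift 2 0), (rh92220073c6802d6d.shift 1 0), (rhbac2358fc36e5851.shift 2 1), (rhe3431944d00189fb.shift 0 1), (rheebe454d9244459d.shift 1 0), (rhf2549dc0da66b756.shift 1 0)] (by decide +kernel))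
noncomputable def rhdc75b37da3483bfa : CRef := CRef.mk (Pat.mk 0x1000000008000000080000000800000000 0x1800000018000000080000000f0000003c00000014 6 6) 0 0 (step_sound _ 131 [(rh2f68792b6b779e96.shift 3 1), rh641b5241be04eec6] (by decide +kernel))
noncomputable def rhb79eea4e197e174f : CRef := CRef.mk (Pat.mk 0x3000000018000000080000000800000000 0xc0000000c0000002c0000003f00000038000000180000001800000010 6 6) 0 0 (step_sound _ 131 [(rh62be5c716da4c399.shift 3 0), (rhc647a25a08ddf0ec.shift 0 1), (rhcbaa34959f85e2ef.shift 2 0)] (by decide +kernel))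
noncomputable def rh5e76a8fd2325dee9 : CRef := CRef.mk (Pat.mk 0x10000000100000001800000018 0x2f0000003e000000370000001c00000018 6 6) 0 0 (step_sound _ 101 [(rh2f68792b6b779e96.shift 4 0), rhef4920713d1aef64] (by decide +kernel))
noncomputable def rh1b9a634cf8a7451d : CRef := CRef.mk (Pat.mk 0x1000000018000000080000000800000000 0x40000000c0000001f000000380000000f0000003c00000014 6 6) 0 0 (step_sound _ 131 [rh641b5241be04eec6, (rh771d065bdc85bf2d.shift 2 0), (rhc647a25a08ddf0ec.shift 0 1)] (by decide +kernel))
noncomputable def rha8817013b2dd87d2 : CRef := CRef.mk (Pat.mk 0x180000001c000000080000000800000000 0x180000003c0000007f0000007e00000034 6 7) 0 0 (step_sound _ 68 [rh2b577870cede931c, (rh4f7c000fb666917c.shift 1 0), rh9ab78d78ade9eb20, (rhccd1134496526620.shift 1 0)] (by decide +kernel))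
noncomputable def rhff7afa03e29fb171 : CRef := CRef.mk (Pat.mk 0x100000001c000000880000000800000000 0x8000000080000000f0000001f0000001c000000fe0000007e00000034 6 8) 0 0 (step_sound _ 131 [rh795a9fa361f5265f, (rhb5e460c23702b783.shift 1 0), (rhd802bb8339359eae.shift 1 0), (rhea90e7358341a1a4.shift 2 0)] (by decide +kernel))
noncomputable def rhe5d09daf39286758 : CRef := CRef.mk (Pat.mk 0x180000001e000000000000000000000000 0x200000006000000070000001f0000001e000000070000000200000002 6 5) 0 0 (step_sound _ 129 [(rh3244c3cc8379b070.shift 0 3), rhb0ac4faa0637eb2b] (by decide +kernel))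
noncomputable def rh76b7d3c0dfd139e2 : CRef := CRef.mk (Pat.mk 0x1a000000060000000200000000000000000000000000000000 0x500000007000000070000001e000000060000000200000007000000070000000700000005 6 5) 0 0 (step_sound _ 97 [rh1b9022be4f7af407, (rh89b861083a18eae7.shift 0 3), (rh8cdd36b03d57a2f6.shift 0 1)] (by decide +kernel))
noncomputable def rh09d7039791c52acf : CRef := CRef.mk (Pat.mk 0xc0000001c000000480000000800000000 0xc0000001c0000007c0000001f00000017 6 7) 0 0 (step_sound _ 68 [(rh2fe78cc5ca4405d8.shift 2 2), rhe1b9efe4ccac0d8a] (by decide +kernel))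
noncomputable def rh3b378c797f77d469 : CRef := CRef.mk (Pat.mk 0x1000000010000000f0000000f000000300000000000000000 0x200000003000000030000000f0000000f000000340000001e0000000e 6 6) 0 0 (step_sound _ 193 [(rh2f68792b6b779e96.shift 0 3), (rh2f7db7f7aed1b41e.shift 1 0)] (by decide +kernel))
noncomputable def rh24a8265e54870ed0 : CRef := CRef.mk (Pat.mk 0x1e0000000600000000 0x50000000700000007000000030000001e0000000600000004 6 5) 0 0 (step_sound _ 97 [rh14e0829dc73b6804, (rh3244c3cc8379b070.shift 0 2)] (by decide +kernel))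
noncomputable def rhb9fb05152355d6d8 : CRef := CRef.mk (Pat.mk 0x8000000080000001c00000018 0x340000007e0000007f0000003c00000018 6 7) 0 0 (step_sound _ 68 [rh1eb520e6f2e56a5a, (rh293859eed95ff14f.shift 1 0), rhb8339f1826889938, (rhbcb524b1b314fc79.shift 1 0)] (by decide +kernel))
noncomputable def rh865494be64574309 : CRef := CRef.mk (Pat.mk 0x8000000880000001c00000010000000000000000000000000 0x340000007e000000fe0000001c0000001f0000000f0000000800000008 6 8) 0 0 (step_sound _ 99 [(rh19a1649a669da04d.shift 1 2), (rh544fd3f279a4d968.shift 2 0), (rhcee506e245b5cffc.shift 1 2), (rhfbb399d9cc55fe51.shift 0 2)] (by decide +kernel))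
noncomputable def rha89c43eb2e8e4595 : CRef := CRef.mk (Pat.mk 0x1e00000018000000000000000000000000 0x200000002000000070000001e0000001f000000070000000600000002 6 5) 0 0 (step_sound _ 97 [(rheb0810cc63b001d8.shift 0 3), rhf86d54117f60b237] (by decide +kernel))
noncomputable def rh844e37eade03c7fc : CRef := CRef.mk (Pat.mk 0x2000000060000001a000000000000000000000000 0x500000007000000070000000700000002000000060000001e000000070000000700000005 6 5) 0 0 (step_sound _ 193 [(rhc85cc95794737cf7.shift 0 3), rhde2e18f2e1e64515, (rhfb9fb48a5e63ed80.shift 0 3)] (by decide +kernel))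
noncomputable def rh4568d4730e611012 : CRef := CRef.mk (Pat.mk 0x8000000480000001c0000000c 0x170000001f0000007c0000001c0000000c 6 7) 0 0 (step_sound _ 68 [(rh361cc68994bd8a63.shift 2 1), rhd444fbf007a660e7] (by decide +kernel))
noncomputable def rh493833c91216b60d : CRef := CRef.mk (Pat.mk 0x300000000f0000000f000000010000000100000000 0xe0000001e000000340000000f0000000f000000030000000300000002 6 6) 0 0 (step_sound _ 33 [rh55afc6a59410cf00, (rh8dc52d3ebe36c0ba.shift 1 1)] (by decide +kernel))
noncomputable def rh368d6c923f096099 : CRef := CRef.mk (Pat.mk 0x60000001e00000000000000000000000000000000 0x4000000060000001e00000003000000070000000700000005 6 5) 0 0 (step_sound _ 97 [(rheb0810cc63b001d8.shift 0 3), rhffb8e5993241bf15] (by decide +kernel))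
noncomputable def rhb1592c93b9263262 : CRef := CRef.mk (Pat.mk 0x1000000010000000880000001800000000 0x1000000030000001ef0000007e00000067 6 9) 0 0 (step_sound _ 37 [(rh1f36686c55693598.shift 2 1), (rh241ddf12d4fc9298.shift 2 1), (rha9fbfd4bb8cf890b.shift 0 1), rhc318c00060e6cd76] (by decide +kernel))
noncomputable def rhf3232538870e86ed : CRef := CRef.mk (Pat.mk 0x3000000010000000800000001800000000 0x3000000030000001e70000007e000000ff 6 9) 0 0 (step_sound _ 37 [(rh1f36686c55693598.shift 2 1), (rha6089b5cf406d762.shift 3 0), rhc318c00060e6cd76, rhd53c56968a9322a5, (rhefb19ffaaa7a0748.shift 1 0)] (by decide +kernel))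
noncomputable def rh65192658d2813781 : CRef := CRef.mk (Pat.mk 0x3000000010000000800000001800000000 0x3000000030000001ef0000007e000000f7 6 9) 0 0 (step_sound _ 37 [(rh1f36686c55693598.shift 2 1), (rh6fba981bb8ec7da0.shift 1 0), (rha6089b5cf406d762.shift 3 0), rhacc9bbdc1b978c29, rhc318c00060e6cd76] (by decide +kernel))
noncomputable def rhc401206b143aa231 : CRef := CRef.mk (Pat.mk 0x100000001800000000000000380000000000000000 0x10000000180000000f0000003e0000007f00000004 6 7) 0 0 (step_sound _ 99 [rh3eed729d5e4e6a62, (rh71222050f2c63a3a.shift 3 1)] (by decide +kernel))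
noncomputable def rh87871ba89f4f33c8 : CRef := CRef.mk (Pat.mk 0x400000006000000000000000600000000 0x1000000030000000700000006000000030000000700000007 6 3) 0 0 (step_sound _ 65 [(rh71222050f2c63a3a.shift 1 0), rhe380c42df720a63d] (by decide +kernel))
noncomputable def rh688bceba44b52bbe : CRef := CRef.mk (Pat.mk 0x1000000018000000800000001800000000 0x1000000038000001ff0000007e000001f7 6 9) 0 0 (step_sound _ 37 [(rh1f36686c55693598.shift 2 1), rhacc9bbdc1b978c29, rhc318c00060e6cd76, (rhe9937ce8bcea713a.shift 2 0), (rheed5583e9debe2b0.shift 3 1)] (by decide +kernel))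
noncomputable def rh1b97119e12aa0c95 : CRef := CRef.mk (Pat.mk 0x2000000060000000380000001000000000 0x40000000480000007c0000007f000000780000003000000020 6 7) 0 0 (step_sound _ 134 [(rh2da0ea28af51d92c.shift 0 1), rh307c93154498e148, (rh84d1c02a8954c6a8.shift 5 1)] (by decide +kernel))
noncomputable def rh6e1072559409c527 : CRef := CRef.mk (Pat.mk 0x18000000880000001000000010 0x670000007e000001ef0000003000000010 6 9) 0 0 (step_sound _ 101 [(rh2820ca9a6c4f41b4.shift 0 2), (rhe80c67fb403a51c5.shift 2 2), rhe883adbd60e3e4d2, (rhf1af73716833b731.shift 2 2)] (by decide +kernel))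
noncomputable def rh356b76fdcfed491c : CRef := CRef.mk (Pat.mk 0x18000000800000001000000030 0xff0000007e000001e70000003000000030 6 9) 0 0 (step_sound _ 101 [(rh10c6be5f2a093ad1.shift 3 0), (rh8927aeb4da307d73.shift 0 2), (rhadc58f335021d7cb.shift 1 2), rhe883adbd60e3e4d2, (rhf1af73716833b731.shift 2 2)] (by decide +kernel))
noncomputable def rh1b556319d3519010 : CRef := CRef.mk (Pat.mk 0x18000000800000001000000030 0xf70000007e000001ef0000003000000030 6 9) 0 0 (step_sound _ 101 [(rh10c6be5f2a093ad1.shift 3 0), (rh31d55dd32e48ae3d.shift 1 2), (rh93f0e85e241a7ddc.shift 0 2), rhe883adbd60e3e4d2, (rhf1af73716833b731.shift 2 2)] (by decide +kernel))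
noncomputable def rh5b69042dbaf8379a : CRef := CRef.mk (Pat.mk 0x38000000000000001800000010 0x40000007f0000003e0000000f0000001800000010 6 7) 0 0 (step_sound _ 67 [(rh2145e1d24b96a57e.shift 3 0), (rh50de79483cb23e8a.shift 0 1)] (by decide +kernel))
noncomputable def rhf65d4b9d155f6aed : CRef := CRef.mk (Pat.mk 0x18000000800000001800000010 0x1f70000007e000001ff0000003800000010 6 9) 0 0 (step_sound _ 101 [(rh1826fdc27fceaec0.shift 3 1), (rh93f0e85e241a7ddc.shift 0 2), (rhb610a44bb7d47cab.shift 2 0), rhe883adbd60e3e4d2, (rhf1af73716833b731.shift 2 2)] (by decide +kernel))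
noncomputable def rh4601f3d70c217f76 : CRef := CRef.mk (Pat.mk 0x100000003800000060000000200000000000000000 0x2000000030000000780000007f0000007c0000004800000040 6 7) 0 0 (step_sound _ 70 [(rh55a1f6c57a317ce6.shift 5 0), (rhaccc902a020a0df3.shift 0 1), (rhd186de56a721691f.shift 0 1)] (by decide +kernel))
noncomputable def rh71f5c72563106717 : CRef := CRef.mk (Pat.mk 0x180000001a00000002000000000000000000000000 0x1000000030000001f0000003b00000003000000070000000700000005 6 6) 0 0 (step_sound _ 161 [rhaf7955adbc1f7ff4, (rhbf14f049e425ac01.shift 0 4), (rhcd6baf37b3e5de21.shift 0 4)] (by decide +kernel))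
noncomputable def rhcf494ec0779d352f : CRef := CRef.mk (Pat.mk 0x1800000098000000000000000000000000 0x8000000080000001f000000ff000000070000000400000004 6 8) 0 0 (step_sound _ 101 [rh285e6585a4c5ed96, (rh2fe78cc5ca4405d8.shift 3 3)] (by decide +kernel))
noncomputable def rh74852c0f35221dd6 : CRef := CRef.mk (Pat.mk 0x20000001a000000180000000000000000 0x50000000700000007000000030000003b0000001f0000000300000001 6 6) 0 0 (step_sound _ 65 [(rh6d571b54e8dd9e33.shift 0 2), (rh9ce9666211d7d662.shift 0 2), rhceb5f5a915f974ce] (by decide +kernel))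
noncomputable def rh81b7b4d5d31559c0 : CRef := CRef.mk (Pat.mk 0x98000000180000000000000000 0x40000000400000007000000ff0000001f0000000800000008 6 8) 0 0 (step_sound _ 101 [rh0df6af711ad51250, (rh361cc68994bd8a63.shift 3 2)] (by decide +kernel))
noncomputable def rhfc2bf04274467006 : CRef := CRef.mk (Pat.mk 0x1e000000180000000000000000 0x400000004000000070000001e0000001f0000000b0000000b 6 5) 0 0 (step_sound _ 65 [rh4963face8a6af525, (rheb0810cc63b001d8.shift 0 2)] (by decide +kernel))
noncomputable def rhbd83b70a67e7f1bf : CRef := CRef.mk (Pat.mk 0x100000000300000006000000000000000000000000 0x40000000600000006000000070000001f0000000300000007000000060000000600000004 6 5) 0 0 (step_sound _ 161 [(rh70e33bfdf511e144.shift 1 0), (rhc47fe1bc6b175f77.shift 0 1), (rhdae9388eef521f76.shift 0 2)] (by decide +kernel))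
noncomputable def rh44d259ae29f7fee5 : CRef := CRef.mk (Pat.mk 0x40000000e0000001a000000000000000000000000 0x80000000c0000001e0000001e000000330000001200000010 6 6) 0 0 (step_sound _ 65 [(rh71222050f2c63a3a.shift 1 1), rh85d92d383ef6d439] (by decide +kernel))
noncomputable def rhac87745fc25574dc : CRef := CRef.mk (Pat.mk 0xa0000000300000003000000000000000000000000 0x2000000060000001e0000000300000003000000060000000600000006 6 5) 0 0 (step_sound _ 193 [rh19164014fbbda9ed, (rh5c5e593799055d58.shift 0 3)] (by decide +kernel))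
noncomputable def rhc89c6bee8350f561 : CRef := CRef.mk (Pat.mk 0x10000000100000001e00000012 0x2e0000003e000000170000001e00000012 6 6) 0 0 (step_sound _ 65 [(rh3244c3cc8379b070.shift 0 1), (rhf9fc304f11ec8ad5.shift 1 0)] (by decide +kernel))
noncomputable def rh035797bacd70b8d7 : CRef := CRef.mk (Pat.mk 0x80000000300000003000000000000000000000000 0x400000004000000060000001e0000000300000003000000070000000700000006 6 5) 0 0 (step_sound _ 161 [rh19164014fbbda9ed, (rh1e309b005ffa1b36.shift 0 1), (rh9ab0ed084d168e00.shift 0 2)] (by decide +kernel))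
noncomputable def rhfdb013c4d9a1c697 : CRef := CRef.mk (Pat.mk 0x400000003000000020000000200000000000000000000000000000000 0x400000007000000030000000200000002000000070000000700000005 6 3) 0 0 (step_sound _ 97 [(rhbaefcd01e0a8bca3.shift 1 3), rhc05d451ce3dd5e48] (by decide +kernel))
noncomputable def rh82a8149108180a6c : CRef := CRef.mk (Pat.mk 0x1000000003000000020000000200000000000000000000000000000000 0x40000001e00000007000000030000000200000002000000070000000700000005 6 5) 0 0 (step_sound _ 97 [(rh0458c62fd03c11b7.shift 0 3), rhc05d451ce3dd5e48] (by decide +kernel))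
noncomputable def rh4fc6dceda52f0a93 : CRef := CRef.mk (Pat.mk 0x1000000120000000300000002 0x40000000600000007000000030000001e0000000700000003 6 5) 0 0 (step_sound _ 97 [rh296152109c81e19c, rh50fbb5868c909700] (by decide +kernel))
noncomputable def rha6b931bd9de5a194 : CRef := CRef.mk (Pat.mk 0x400000000c00000018000000000000000000000000 0x10000000180000001c0000007c0000001f00000018000000180000001800000010 6 7) 0 0 (step_sound _ 129 [(rh60cc88978761733d.shift 2 0), (rhb739f4f82bb681b4.shift 0 3)] (by decide +kernel))
noncomputable def rhc6a9ed8537595237 : CRef := CRef.mk (Pat.mk 0x180000001e000000000000000000000000 0xb0000000b0000001f0000001e000000070000000400000004 6 5) 0 0 (step_sound _ 129 [rh247b9e8583f59695, (rh3244c3cc8379b070.shift 0 3)] (by decide +kernel))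
noncomputable def rhdae02db131b4ef8f : CRef := CRef.mk (Pat.mk 0x6000000030000001000000000000000000000000000000000 0x4000000060000000600000007000000030000001f00000007000000060000000600000004 6 5) 0 0 (step_sound _ 129 [(rh12452934acb847d5.shift 0 3), (rh215e11e099257d75.shift 1 3), rh63aae37a5ea11039] (by decide +kernel))
noncomputable def rh61a7a430091acda3 : CRef := CRef.mk (Pat.mk 0x1a0000000e0000000400000000 0x1000000012000000330000001e0000001e0000000c00000008 6 6) 0 0 (step_sound _ 129 [rh09ba32f78f358d5d, (rh2145e1d24b96a57e.shift 1 1)] (by decide +kernel))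
noncomputable def rha4834afc06b6b8b3 : CRef := CRef.mk (Pat.mk 0x3000000030000000a0000000000000000 0x6000000060000000600000003000000030000001e0000000600000002 6 5) 0 0 (step_sound _ 33 [rh7b1f1fb55310c477, (rh7dea84c185fa7892.shift 0 1)] (by decide +kernel))
noncomputable def rh8e2847f7c49fbe0d : CRef := CRef.mk (Pat.mk 0x120000001e000000100000001000000000 0x120000001e000000170000003e0000002e 6 6) 0 0 (step_sound _ 65 [(rhd69d31ad6b6c8ab3.shift 1 0), (rheb0810cc63b001d8.shift 0 2)] (by decide +kernel))
noncomputable def rh1e331d1fbd537005 : CRef := CRef.mk (Pat.mk 0x30000000300000008000000000000000000000000 0x6000000070000000700000003000000030000001e000000060000000400000004 6 5) 0 0 (step_sound _ 97 [rh2af0210ad3cd0058, (rh7dea84c185fa7892.shift 0 2), (rhfc7c29d8e65d775f.shift 0 2)] (by decide +kernel))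
noncomputable def rh06938129f11756c8 : CRef := CRef.mk (Pat.mk 0x2000000020000000300000004 0x500000007000000070000000200000002000000030000000700000004 6 3) 0 0 (step_sound _ 129 [(rhb77bfac3e9efecea.shift 0 1), (rhd3458b32566d63f7.shift 1 0)] (by decide +kernel))
noncomputable def rhab1f77ed1bed3389 : CRef := CRef.mk (Pat.mk 0x200000002000000030000001000000000 0x50000000700000007000000020000000200000003000000070000001e00000004 6 5) 0 0 (step_sound _ 161 [rh89810a54557d14e5, (rhb77bfac3e9efecea.shift 0 2)] (by decide +kernel))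
noncomputable def rh8dbb9abd5915952f : CRef := CRef.mk (Pat.mk 0x2000000030000001200000001000000000000000000000000 0x3000000070000001e00000003000000070000000600000004 6 5) 0 0 (step_sound _ 97 [(rh932754581e0f4330.shift 0 2), rhede4072b136292bc] (by decide +kernel))
noncomputable def rh7a90e0713d3777eb : CRef := CRef.mk (Pat.mk 0x180000000c00000040000000000000000000000000 0x100000001800000018000000180000001f0000007c0000001c0000001800000010 6 7) 0 0 (step_sound _ 129 [(rh53b3c253cb0c65f4.shift 0 4), (rhf5231395bafb7692.shift 2 0)] (by decide +kernel))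
noncomputable def rh402ff2dc9138d2da : CRef := CRef.mk (Pat.mk 0x180000001e000000000000000000000000 0x1000000010000000340000001f0000001e0000000b0000000200000002 6 6) 0 0 (step_sound _ 129 [(rh3244c3cc8379b070.shift 0 3), rh4145f0fcd95ceabb] (by decide +kernel))
noncomputable def rh0f58a5049a5936ae : CRef := CRef.mk (Pat.mk 0xd0000000f000000090000000000000000 0x8000000080000001a0000000f0000000f0000000d0000001900000019 6 5) 0 0 (step_sound _ 35 [(rh7b1f1fb55310c477.shift 2 0), rhc251f793feb12098] (by decide +kernel))
noncomputable def rhb21789aa77e9eb60 : CRef := CRef.mk (Pat.mk 0x8000000180000000c0000000800000000 0x170000001f0000001c0000000c0000000c00000004 6 5) 0 0 (step_sound _ 130 [(rh50fbb5868c909700.shift 2 1), rhbf4d29647f58797d] (by decide +kernel))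
noncomputable def rhbca219ebd2747681 : CRef := CRef.mk (Pat.mk 0x60000000200000006000000060 0x9e000000fe000000ff0000006000000060 6 8) 0 0 (step_sound _ 100 [(rh50fbb5868c909700.shift 4 0), rhb6f2e3f7b174d9e9] (by decide +kernel))
noncomputable def rh7777759922bb04a8 : CRef := CRef.mk (Pat.mk 0x1a0000001e000000000000000000000000 0x100000001a0000003b0000001e0000001e0000000e0000000400000004 6 6) 0 0 (step_sound _ 66 [(rh3c35c3c11535b0fc.shift 0 2), (rh5d54cb79a67f97ab.shift 1 0), (rha40d42a2e34c408d.shift 1 0), (rhf9366b6a121593ef.shift 2 0)] (by decide +kernel))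
noncomputable def rh0e3aca0ad74d67e6 : CRef := CRef.mk (Pat.mk 0xa0000000e0000000200000000000000000000000000000000 0x4000000040000000c0000000e0000000e0000000e0000000a00000007000000070000000700000005 6 4) 0 0 (step_sound _ 97 [(rh16f92f1c149db50f.shift 1 3), rh1b9022be4f7af407, (rh6eff4158bb400f47.shift 0 1), (rha707fb719e87fe6e.shift 1 2)] (by decide +kernel))
noncomputable def rh33ef193380107b8e : CRef := CRef.mk (Pat.mk 0x8000000020000000600000002000000000000000000000000 0x1000000070000001f000000060000000600000002000000070000000700000005 6 5) 0 0 (step_sound _ 194 [(rh3bde0bd801823f5c.shift 0 3), (rh93edfa1f77289b62.shift 1 3), rh984bfc6de6c2c524] (by decide +kernel))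
noncomputable def rh7fb5948e0ac9c193 : CRef := CRef.mk (Pat.mk 0x3400000018000000000000000000000000 0x4000000070000003f0000001f0000000c0000000800000008 6 6) 0 0 (step_sound _ 131 [(rhba89ab7cb81bcc90.shift 0 3), (rhbba28ad09dff246e.shift 0 3), (rhe9b01306f46aa92a.shift 1 0)] (by decide +kernel))
noncomputable def rh3f986f585475a861 : CRef := CRef.mk (Pat.mk 0x80000003800000010000000100000000000000000 0x1000000018000000780000003e0000001f0000000c0000000c 6 7) 0 0 (step_sound _ 99 [(rh4dc133ee0ba1420a.shift 1 3), rh6e228c0cf7dffd66] (by decide +kernel))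
noncomputable def rh761153be89256d1a : CRef := CRef.mk (Pat.mk 0x4000000140000001c00000008000000000000000000000000 0xa0000000f0000001c0000001c0000000f000000060000000600000006 6 5) 0 0 (step_sound _ 98 [(rh367118e0bf0473e0.shift 1 1), (rhb1c562e40ee61608.shift 1 0), (rhe41d0219d4e1df88.shift 0 2), (rhf5094ad2a427d4d3.shift 0 2)] (by decide +kernel))
noncomputable def rh7c9725a9459931bc : CRef := CRef.mk (Pat.mk 0x1e00000018000000000000000000000000 0x2000000070000001e0000001f000000070000000600000002 6 5) 0 0 (step_sound _ 97 [(rheb0810cc63b001d8.shift 0 3), rhfc68f6ba95bed7ca] (by decide +kernel))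
noncomputable def rh0b25d87d9089c6f0 : CRef := CRef.mk (Pat.mk 0x94000000180000000000000000 0x4000000040000000e000000ff000000380000000800000008 6 8) 0 0 (step_sound _ 101 [rh208da5df98f813fb, (rh361cc68994bd8a63.shift 3 2)] (by decide +kernel))
noncomputable def rh1bdd005d5e40569b : CRef := CRef.mk (Pat.mk 0x10000000100000001800000018 0x2c0000007f0000003f0000001800000018 6 7) 0 0 (step_sound _ 99 [(rh50fbb5868c909700.shift 3 0), rhc07527035a259674] (by decide +kernel))
noncomputable def rh18fd8eaa7240b2d4 : CRef := CRef.mk (Pat.mk 0x1000000018000000080000000800000000 0xc0000000c0000000c0000001f000000380000001c0000000c00000004 6 6) 0 0 (step_sound _ 131 [(rh0ef6c71ce89c1c36.shift 2 0), (rhc647a25a08ddf0ec.shift 0 1), (rhea90e7358341a1a4.shift 2 0)] (by decide +kernel))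
noncomputable def rhc8d1e3cf02b68856 : CRef := CRef.mk (Pat.mk 0x1800000090000000180000001800000000 0x2000000078000000dc000000380000001f00000004 6 8) 0 0 (step_sound _ 133 [(rh2f68792b6b779e96.shift 4 1), rh41cad92fb773e697] (by decide +kernel))
noncomputable def rh2a5d240361e75206 : CRef := CRef.mk (Pat.mk 0x18000000180000001c0000000800000000 0x40000003c0000001f0000001c0000000f00000006 6 6) 0 0 (step_sound _ 34 [rh54f9d0577c5559f1, (rh932754581e0f4330.shift 2 0)] (by decide +kernel))
noncomputable def rhaa7d9c57c9fc55cd : CRef := CRef.mk (Pat.mk 0x80000001c0000000c0000000000000000 0x6000000060000000f0000001c0000000f0000000600000004 6 5) 0 0 (step_sound _ 65 [(rh53b3c253cb0c65f4.shift 0 2), rhf62485a8243ef8a5] (by decide +kernel))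
noncomputable def rhb23d8a720469abba : CRef := CRef.mk (Pat.mk 0x10000000380000001c0000000800000000 0x200000006000000370000003f0000001c0000000c00000004 6 6) 0 0 (step_sound _ 98 [(rh309fd0c3d364cd61.shift 1 1), (rh34517e326ddb5b25.shift 0 2), rhdf91c04362b89133] (by decide +kernel))
noncomputable def rhe4bee344425a8921 : CRef := CRef.mk (Pat.mk 0x10000000380000001c0000000800000000 0xc0000000f0000007e000000380000001c0000000c00000004 6 7) 0 0 (step_sound _ 131 [(rh01ff8e29f1e0af53.shift 0 2), (rh03dfdf12d5937476.shift 2 0), (rh277b01412deaec89.shift 1 1)] (by decide +kernel))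
noncomputable def rh7041bb97b1a8f4cc : CRef := CRef.mk (Pat.mk 0x1e00000018000000000000000000000000 0x2000000020000000b0000001e0000001f000000340000001000000010 6 6) 0 0 (step_sound _ 97 [rh6f213118fac78571, (rheb0810cc63b001d8.shift 0 3)] (by decide +kernel))
noncomputable def rhb4b820fcf4dfcf3d : CRef := CRef.mk (Pat.mk 0x90000000f0000000d000000000000000000000000 0x19000000190000000d0000000f0000000f0000001a0000000800000008 6 5) 0 0 (step_sound _ 195 [(rh5c5e593799055d58.shift 2 3), rh72be6bcc04568e70] (by decide +kernel))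
noncomputable def rha7f1df9541b640ab : CRef := CRef.mk (Pat.mk 0x80000000c000000180000000800000000 0x40000000c0000000c0000001c0000001f00000017 6 5) 0 0 (step_sound _ 34 [rh88aad7333dd59a4c, (rh932754581e0f4330.shift 2 0)] (by decide +kernel))
noncomputable def rhf25a1fd1f43e3d41 : CRef := CRef.mk (Pat.mk 0x6000000060000000200000006000000000 0x6000000060000000ff000000fe0000009e 6 8) 0 0 (step_sound _ 36 [rh0ce73f754f1e4b4e, (rh932754581e0f4330.shift 4 0)] (by decide +kernel))
noncomputable def rha11b6cd6fcd3a9f8 : CRef := CRef.mk (Pat.mk 0x1e0000001a000000000000000000000000 0x4000000040000000e0000001e0000001e0000003b0000001a00000010 6 6) 0 0 (step_sound _ 162 [(rh4821dcf828b9d7bf.shift 1 1), rh5f12238356841f88, (rhadf429772c25fde0.shift 1 1), (rhc38f566cab2818e5.shift 2 1)] (by decide +kernel))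
noncomputable def rhd10111d26217aee9 : CRef := CRef.mk (Pat.mk 0x20000000e0000000a00000000000000000000000000000000 0x50000000700000007000000070000000a0000000e0000000e0000000e0000000c0000000400000004 6 4) 0 0 (step_sound _ 225 [(rh1741680720c097b4.shift 0 4), (rh605ef5a5ae48f4b0.shift 1 0), (rhd4b4beefcd67f51e.shift 1 3), (rhfb9fb48a5e63ed80.shift 0 4)] (by decide +kernel))
noncomputable def rheee68653d3479b41 : CRef := CRef.mk (Pat.mk 0x20000000600000002000000080000000000000000 0x500000007000000070000000200000006000000060000001f0000000700000001 6 5) 0 0 (step_sound _ 66 [(rh1148744b53f3df58.shift 0 2), (rh478c4cadbcd4e066.shift 1 1), rhb1385f5583bb96cc] (by decide +kernel))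
noncomputable def rh42df28ac82255d23 : CRef := CRef.mk (Pat.mk 0x18000000340000000000000000 0x8000000080000000c0000001f0000003f0000000700000004 6 6) 0 0 (step_sound _ 67 [(rhb8dadbda1e6900cb.shift 1 0), (rhcc2be1f880c5ea3e.shift 0 1), (rhcda410b351c20b9b.shift 0 2)] (by decide +kernel))
noncomputable def rhead6ea60363c78e5 : CRef := CRef.mk (Pat.mk 0x1000000010000000380000000800000000 0xc0000000c0000001f0000003e000000780000001800000010 6 7) 0 0 (step_sound _ 99 [(rhe2b63c00a3d7bb73.shift 1 2), rhff79817f8acb9dbc] (by decide +kernel))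
noncomputable def rh5085c5a1c613113b : CRef := CRef.mk (Pat.mk 0x80000001c000000140000000400000000 0x600000006000000060000000f0000001c0000001c0000000f0000000a 6 5) 0 0 (step_sound _ 130 [(rh277b01412deaec89.shift 0 1), rh5196894f25ccb47b, (rh7eb4a07d72ad7934.shift 1 0), (rhcbaa34959f85e2ef.shift 1 0)] (by decide +kernel))
noncomputable def rhf8810ee27d69252f : CRef := CRef.mk (Pat.mk 0x180000001e0000000000000000 0x200000006000000070000001f0000001e0000000700000002 6 5) 0 0 (step_sound _ 97 [rh11791c5106f385d4, (rh3244c3cc8379b070.shift 0 2)] (by decide +kernel))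
noncomputable def rh1a842b6634f135c1 : CRef := CRef.mk (Pat.mk 0x1800000094000000000000000000000000 0x80000000800000038000000ff0000000e0000000400000004 6 8) 0 0 (step_sound _ 101 [rh04ec0e3e879a82c9, (rh2fe78cc5ca4405d8.shift 3 3)] (by decide +kernel))
noncomputable def rhe6ef61fbdfe1a05d : CRef := CRef.mk (Pat.mk 0x1800000018000000100000001000000000 0x18000000180000003f0000007f0000002c 6 7) 0 0 (step_sound _ 35 [rh00b128e5327f842d, (rh932754581e0f4330.shift 3 0)] (by decide +kernel))
noncomputable def rh37a366f51b0427a3 : CRef := CRef.mk (Pat.mk 0x8000000080000001800000010000000000000000000000000 0x40000000c0000001c000000380000001f0000000c0000000c0000000c 6 6) 0 0 (step_sound _ 99 [(rh544fd3f279a4d968.shift 2 0), (rh6fae963f33cfdfd7.shift 0 2), (rha9a9dd876407ae9a.shift 2 0)] (by decide +kernel))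
noncomputable def rh35b3774a5fdad35f : CRef := CRef.mk (Pat.mk 0x1800000018000000900000001800000000 0x40000001f00000038000000dc0000007800000020 6 8) 0 0 (step_sound _ 37 [(rh2996c918ab290eba.shift 0 1), (rh55afc6a59410cf00.shift 4 0)] (by decide +kernel))
noncomputable def rhb16ff3a9326c3f7f : CRef := CRef.mk (Pat.mk 0x80000001c000000180000001800000000 0x60000000f0000001c0000001f0000003c00000004 6 6) 0 0 (step_sound _ 130 [(rh50fbb5868c909700.shift 2 1), rha1986d8efd0220d4] (by decide +kernel))
noncomputable def rha2e41cc1c66f1e65 : CRef := CRef.mk (Pat.mk 0xc0000001c000000080000000000000000 0x4000000060000000f0000001c0000000f0000000600000006 6 5) 0 0 (step_sound _ 129 [rha10c01fc3b19786f, (rhb739f4f82bb681b4.shift 0 3)] (by decide +kernel))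
noncomputable def rh19b44777cf142372 : CRef := CRef.mk (Pat.mk 0x80000001c00000038000000100000000000000000 0x40000000c0000001c0000003f000000370000000600000002 6 6) 0 0 (step_sound _ 98 [(rh9c40a739b57d6d20.shift 1 1), rhad48fcc809438143, (rhf56e6bc5d2f7fe77.shift 0 2)] (by decide +kernel))
noncomputable def rh45046051ad81b0dd : CRef := CRef.mk (Pat.mk 0x80000001c00000038000000100000000000000000 0x40000000c0000001c000000380000007e0000000f0000000c 6 7) 0 0 (step_sound _ 67 [rha6f802784adb25e2, (rhe286c75f2739cce2.shift 2 1), (rhf5094ad2a427d4d3.shift 1 1)] (by decide +kernel))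
noncomputable def rh42f97d50d39764e3 : CRef := CRef.mk (Pat.mk 0x200000003000000060000000000000000 0x50000000700000007000000030000000300000007000000070000000300000001 6 3) 0 0 (step_sound _ 161 [(rh7a7e08304268422e.shift 0 2), (rh85a605aac6183f28.shift 0 2), (rhba97f7f4ade5e136.shift 0 2), rhc4526fc8abf298b6] (by decide +kernel))
noncomputable def rhe03ee404dc074495 : CRef := CRef.mk (Pat.mk 0x80000000e000000180000000800000000 0x40000000c0000000e0000001b0000001f00000016 6 5) 0 0 (step_sound _ 36 [rh292171eb41eea2cc, (rh55afc6a59410cf00.shift 3 0)] (by decide +kernel))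
noncomputable def rhc0f24196ecce55d5 : CRef := CRef.mk (Pat.mk 0x1800000010000000180000001800000000 0x240000003f00000038000000380000001f00000004 6 6) 0 0 (step_sound _ 133 [rh29c980e47971e951, (rh2f68792b6b779e96.shift 4 1)] (by decide +kernel))
noncomputable def rh5fc1fef39b1b7115 : CRef := CRef.mk (Pat.mk 0x900000001a00000038000000000000000000000000 0xf00000003b0000003f000000680000002800000020 6 8) 0 0 (step_sound _ 67 [(rh71222050f2c63a3a.shift 3 1), rh9c44363eb86cbb4e] (by decide +kernel))
noncomputable def rhb377ae37fe053066 : CRef := CRef.mk (Pat.mk 0x8000000480000000c0000000c 0x170000001f0000007c0000000c0000000c 6 7) 0 0 (step_sound _ 68 [(rh361cc68994bd8a63.shift 2 1), rh774f423c1ba487ce] (by decide +kernel))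
noncomputable def rh3b2a2a3ab01d5482 : CRef := CRef.mk (Pat.mk 0x22000000060000000600000002 0x8000000080000001d0000003f0000000e0000000600000002 6 6) 0 0 (step_sound _ 98 [(rh5c5e593799055d58.shift 1 0), rh63239ceb15919636] (by decide +kernel))
noncomputable def rh6322238a7b5bb05e : CRef := CRef.mk (Pat.mk 0x3000000018000000180000000800000000 0x2c0000002c0000006f0000003c000000380000001f0000000c00000004 6 7) 0 0 (step_sound _ 131 [(rh0ef6c71ce89c1c36.shift 2 0), (rh7b9fbdf6d2d059e4.shift 2 1), (rhdfed4ebb0eb54f43.shift 0 2), (rhe2d7daae1577d340.shift 0 1), (rhe7e9fb0f2608dd2e.shift 2 1)] (by decide +kernel))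
noncomputable def rh5f30f0c59d95945e : CRef := CRef.mk (Pat.mk 0x1800000098000000000000000000000000 0x100000001000000038000000ff000000670000002000000020 6 8) 0 0 (step_sound _ 101 [(rh2fe78cc5ca4405d8.shift 3 3), rhe48d7094086cc06c] (by decide +kernel))
noncomputable def rh3ecae443342617e2 : CRef := CRef.mk (Pat.mk 0x80000000300000003000000010000000000000000 0x60000001e0000000300000003000000070000000600000006 6 5) 0 0 (step_sound _ 161 [rh19164014fbbda9ed, (rh5c5e593799055d58.shift 0 2)] (by decide +kernel))
noncomputable def rhe5fce868e21152e4 : CRef := CRef.mk (Pat.mk 0x8000000180000000c0000000800000000 0x170000001f0000001c0000000c0000000c00000004 6 5) 0 0 (step_sound _ 34 [(rh774f423c1ba487ce.shift 0 1), (rh932754581e0f4330.shift 2 0)] (by decide +kernel))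
noncomputable def rh7717b903295fcb36 : CRef := CRef.mk (Pat.mk 0xc0000000e000000480000000800000000 0xc0000000e0000006f0000003e00000016 6 7) 0 0 (step_sound _ 34 [(rh932754581e0f4330.shift 2 0), rhdaa5115eb3bc72b1] (by decide +kernel))
noncomputable def rh132431c72dcbe68c : CRef := CRef.mk (Pat.mk 0x600000003000000060000000000000000000000000000000000000000 0x40000000600000007000000070000000700000003000000030000000300000001 6 3) 0 0 (step_sound _ 129 [(rh2f68792b6b779e96.shift 1 4), rh3d03da2ecc0e0d56] (by decide +kernel))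
noncomputable def rh9af8c15d140c9390 : CRef := CRef.mk (Pat.mk 0x140000000300000006000000000000000000000000 0x80000003e00000007000000060000000c0000000c0000000c 6 6) 0 0 (step_sound _ 163 [(rh8f9f937ac6e23a17.shift 1 0), (rhca9569cc80abfe76.shift 0 4)] (by decide +kernel))
noncomputable def rha540469dc7c409e4 : CRef := CRef.mk (Pat.mk 0x140000000300000002000000000000000000000000 0x40000001e0000000300000002000000070000000700000005 6 5) 0 0 (step_sound _ 161 [rh1b9022be4f7af407, (rh361cc68994bd8a63.shift 0 4)] (by decide +kernel))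
noncomputable def rhdf68472e7f05d839 : CRef := CRef.mk (Pat.mk 0xa0000000100000003000000000000000000000000 0x400000004000000060000001e0000000300000003000000070000000700000006 6 5) 0 0 (step_sound _ 129 [rh19164014fbbda9ed, (rh1e309b005ffa1b36.shift 0 1), (rh9ab0ed084d168e00.shift 0 2)] (by decide +kernel))
noncomputable def rh406ea608ecb6dcfc : CRef := CRef.mk (Pat.mk 0x6000000030000000200000000000000000000000000000000 0x10000000300000007000000070000000300000003000000070000000700000005 6 3) 0 0 (step_sound _ 97 [(rh2d5442cbf338480d.shift 0 2), (rh771d065bdc85bf2d.shift 0 2), rhc94dfb5f501cb051, rhd1779d7de7f8215b] (by decide +kernel))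
noncomputable def rhaffe2788911e208f : CRef := CRef.mk (Pat.mk 0x8000000180000000e0000000800000000 0x160000001f0000001b0000000e0000000c00000004 6 5) 0 0 (step_sound _ 132 [(rh2f68792b6b779e96.shift 3 1), rhe537a55726f74dba] (by decide +kernel))
noncomputable def rh3d412c1829b6ae43 : CRef := CRef.mk (Pat.mk 0x1800000018000000100000001800000000 0x40000001f00000038000000380000003f00000024 6 6) 0 0 (step_sound _ 37 [(rh55afc6a59410cf00.shift 4 0), rhd4222e50469a44ed] (by decide +kernel))
noncomputable def rh202f73f5918c85f1 : CRef := CRef.mk (Pat.mk 0x380000001a00000090 0x2000000028000000680000003f0000003b000000f0 6 8) 0 0 (step_sound _ 99 [(rh2145e1d24b96a57e.shift 3 0), rhf5e5e3a405349eae] (by decide +kernel))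
noncomputable def rhd2168cf9106a7ba7 : CRef := CRef.mk (Pat.mk 0xc0000000c000000480000000800000000 0xc0000000c0000007c0000001f00000017 6 7) 0 0 (step_sound _ 68 [(rh2fe78cc5ca4405d8.shift 2 2), rhaa67d8b4f8d9d1da] (by decide +kernel))
noncomputable def rh0107c0ad5e24ada2 : CRef := CRef.mk (Pat.mk 0x2000000060000000600000022000000000000000000000000 0x2000000060000000e0000003f0000001d0000000800000008 6 6) 0 0 (step_sound _ 98 [rh59c73cf74f4586a4, (rh7b1f1fb55310c477.shift 1 2)] (by decide +kernel))
noncomputable def rhc092c8f90e895b07 : CRef := CRef.mk (Pat.mk 0x8000000180000001800000030000000000000000000000000 0x40000000c0000001f000000380000003c0000006f0000002c0000002c 6 7) 0 0 (step_sound _ 99 [(rh41eb4a13b78c152f.shift 0 1), (rh46530d756bdf8511.shift 2 1), (rha9a9dd876407ae9a.shift 2 0), (rhc24ef288f4895ae7.shift 0 1), (rhcf0be5240bb46a0d.shift 2 0)] (by decide +kernel))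
noncomputable def rh0df4b899cb5e42d9 : CRef := CRef.mk (Pat.mk 0x98000000180000000000000000 0x200000002000000067000000ff000000380000001000000010 6 8) 0 0 (step_sound _ 101 [(rh361cc68994bd8a63.shift 3 2), rh4436203d7d59d0ac] (by decide +kernel))
noncomputable def rhad4642d129d01d74 : CRef := CRef.mk (Pat.mk 0x80000000c000000180000000800000000 0x40000000c0000000c0000001c0000001f00000017 6 5) 0 0 (step_sound _ 130 [(rh50fbb5868c909700.shift 2 1), rhaa67d8b4f8d9d1da] (by decide +kernel))
noncomputable def rhf9d197ceef248ae8 : CRef := CRef.mk (Pat.mk 0x8000000480000000e0000000c 0x160000003e0000006f0000000e0000000c 6 7) 0 0 (step_sound _ 98 [(rh50fbb5868c909700.shift 2 0), rh709bd562b634883d] (by decide +kernel))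
noncomputable def rha22bc776e3a426e7 : CRef := CRef.mk (Pat.mk 0x6000000030000000600000000 0x10000000300000003000000030000000700000007000000070000000600000004 6 3) 0 0 (step_sound _ 129 [(rh0bc01cf9be945ea6.shift 0 1), (rh55afc6a59410cf00.shift 1 0)] (by decide +kernel))
noncomputable def rh6bcb812d7d11b8a6 : CRef := CRef.mk (Pat.mk 0x6000000030000001400000000 0xc0000000c0000000c00000006000000070000003e00000008 6 6) 0 0 (step_sound _ 35 [(rh09d4dfe75d4407d6.shift 0 1), (rh9f5e9b86f8715b6b.shift 1 0)] (by decide +kernel))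
noncomputable def rha29a958fa1e630e5 : CRef := CRef.mk (Pat.mk 0x2000000030000001400000000 0x5000000070000000700000002000000030000001e00000004 6 5) 0 0 (step_sound _ 33 [(rh2fe78cc5ca4405d8.shift 0 1), rhfb9fb48a5e63ed80] (by decide +kernel))
noncomputable def rh6551b5e52cd4047b : CRef := CRef.mk (Pat.mk 0x3000000010000000a000000000000000000000000 0x6000000070000000700000003000000030000001e000000060000000400000004 6 5) 0 0 (step_sound _ 129 [rh2af0210ad3cd0058, (rh7dea84c185fa7892.shift 0 2), (rhfc7c29d8e65d775f.shift 0 2)] (by decide +kernel))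
noncomputable def rh55dbdc333f43e763 : CRef := CRef.mk (Pat.mk 0x800000008000000180000001000000000 0x140000003c0000000f000000380000001f0000000c 6 6) 0 0 (step_sound _ 35 [rh3a61644a128cd4ab, rh6fae963f33cfdfd7] (by decide +kernel))
noncomputable def rhd0bee3ce7d34c07a : CRef := CRef.mk (Pat.mk 0x1800000018000000300000001000000000 0x40000001f00000038000000380000001e0000000c 6 6) 0 0 (step_sound _ 35 [(rh932754581e0f4330.shift 3 0), rhc172be51b136f13d] (by decide +kernel))
noncomputable def rh54a4ef39e3c35e0a : CRef := CRef.mk (Pat.mk 0x200000002000000060000000c000000000000000000000000 0x50000000700000007000000060000000f0000001b0000000300000003 6 5) 0 0 (step_sound _ 97 [(rh2ba2f6ef2c217e2c.shift 0 2), rh544fd3f279a4d968, rha9a9dd876407ae9a, (rhb32faae6e8187273.shift 1 2)] (by decide +kernel))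
noncomputable def rhb95e88f925966fd5 : CRef := CRef.mk (Pat.mk 0xc0000001800000038000000000000001000000000 0xf0000003c0000003e000000600000003000000030 6 7) 0 0 (step_sound _ 161 [(rh71880b0bbb2c1814.shift 1 0), (rhb739f4f82bb681b4.shift 0 4)] (by decide +kernel))
noncomputable def rh93b9d3daba2bb1cf : CRef := CRef.mk (Pat.mk 0xc0000001e000000120000001000000000 0x100000001c0000001e0000001e0000003f0000002e 6 6) 0 0 (step_sound _ 33 [rh4887a71e4858694e, (rh71222050f2c63a3a.shift 1 0)] (by decide +kernel))
noncomputable def rhdeb87edc1918de6d : CRef := CRef.mk (Pat.mk 0x400000007800000080 0x67000000fe00000187 6 9) 0 0 (step_sound _ 39 [rh5e601430b8bc2e39, (rhe25b0a99195a5d59.shift 4 0)] (by decide +kernel))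
noncomputable def rhed896ebca2d92c8e : CRef := CRef.mk (Pat.mk 0x2000000060000001200000008000000000000000000000000 0x400000006000000060000001a0000000f000000070000000700000005 6 5) 0 0 (step_sound _ 97 [rh1b9022be4f7af407, (rh24fb4bd02f51debc.shift 0 2), (rh6eff4158bb400f47.shift 0 1), (rha707fb719e87fe6e.shift 1 2)] (by decide +kernel))
noncomputable def rhcb0013984dfabc36 : CRef := CRef.mk (Pat.mk 0x2000000060000000200000008000000080000000000000000 0x40000000600000006000000020000000f0000001f0000000700000005 6 5) 0 0 (step_sound _ 97 [rh1b9022be4f7af407, (rh1d829167b917eec6.shift 0 2), (rh6eff4158bb400f47.shift 0 1), (rha707fb719e87fe6e.shift 1 2)] (by decide +kernel))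
noncomputable def rhdb6279ff7e71d3d7 : CRef := CRef.mk (Pat.mk 0x20000001e000000100000000800000000 0x4000000040000000e0000001e0000001b0000000f0000000e 6 5) 0 0 (step_sound _ 65 [rh3e79539001ea6c8f, (rheb0810cc63b001d8.shift 0 2)] (by decide +kernel))
noncomputable def rhe7ffeb0eae699482 : CRef := CRef.mk (Pat.mk 0x120000001e000000180000000000000000 0x4000000040000001e0000001e0000001b0000000f0000000e 6 5) 0 0 (step_sound _ 35 [(rh71222050f2c63a3a.shift 3 0), rhb669767e3551d260] (by decide +kernel))
noncomputable def rh06a9ffedb62b3336 : CRef := CRef.mk (Pat.mk 0x120000001e000000180000000000000000 0x30000000340000001e0000001e0000001b0000000200000002 6 6) 0 0 (step_sound _ 164 [rh1077f1a13a8edc72, (rh5c5e593799055d58.shift 3 2)] (by decide +kernel))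
noncomputable def rh4b4ed3d4487f9b3e : CRef := CRef.mk (Pat.mk 0x12000000120000001200000002 0x1d0000001f0000001e000000120000001200000002 6 5) 0 0 (step_sound _ 130 [(rh02d5e373d09155a6.shift 0 1), (rhbaefcd01e0a8bca3.shift 1 0)] (by decide +kernel))
noncomputable def rh8ec9b3b7d4e51fee : CRef := CRef.mk (Pat.mk 0x90000000b00000009000000040000000000000000 0x20000000b0000000b000000090000001f0000001d00000010 6 5) 0 0 (step_sound _ 67 [rh0acabac089cc1c4a, (rh932754581e0f4330.shift 2 1)] (by decide +kernel))
noncomputable def rh2da470d4e7282b1b : CRef := CRef.mk (Pat.mk 0x4000000120000001a00000002 0x3d0000001f0000001a0000001a0000000a 6 6) 0 0 (step_sound _ 97 [(rh2f68792b6b779e96.shift 1 0), rh57d33fa649f849f2] (by decide +kernel))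
noncomputable def rh2201daf3cceb057f : CRef := CRef.mk (Pat.mk 0x6000000020000001a000000120000000000000000 0x10000000b0000001f0000000a0000001a0000001a0000001000000010 6 5) 0 0 (step_sound _ 192 [rhd0d7463848f3c801, (rhffd04209dc8ea796.shift 0 2)] (by decide +kernel))
noncomputable def rhe8b9d1056c263a08 : CRef := CRef.mk (Pat.mk 0x80000000f000000000000000000000000 0x40000001c0000001c0000001c0000000c0000000f0000001c0000000c0000000c 6 5) 0 0 (step_sound _ 67 [(rhc0ec0a10a6479237.shift 2 0), (rhe25b0a99195a5d59.shift 0 2)] (by decide +kernel))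
noncomputable def rh7eb3727eb367fa5a : CRef := CRef.mk (Pat.mk 0x800000007800000040 0x187000000fe00000067 6 9) 0 0 (step_sound _ 39 [(rh33e738c4ed385b9f.shift 4 1), rh36eba2a3de447758] (by decide +kernel))
noncomputable def rh164370e2998a741e : CRef := CRef.mk (Pat.mk 0x800000012000000060000000200000000 0x500000007000000070000000f0000001a000000060000000600000004 6 5) 0 0 (step_sound _ 129 [(rh1741680720c097b4.shift 0 1), rh389259316771c07b, (rhd4b4beefcd67f51e.shift 1 0), (rhfb9fb48a5e63ed80.shift 0 1)] (by decide +kernel))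
noncomputable def rh974652345d249a5d : CRef := CRef.mk (Pat.mk 0x80000000800000002000000060000000200000000 0x5000000070000001f0000000f00000002000000060000000600000004 6 5) 0 0 (step_sound _ 129 [(rh1741680720c097b4.shift 0 1), (rhd4b4beefcd67f51e.shift 1 0), rhf2e85560d03275a7, (rhfb9fb48a5e63ed80.shift 0 1)] (by decide +kernel))
noncomputable def rhd6d70ceadd0c5c29 : CRef := CRef.mk (Pat.mk 0x8000000100000001e000000020000000000000000 0xe0000000f0000001b0000001e0000000e0000000400000004 6 5) 0 0 (step_sound _ 129 [(rh3244c3cc8379b070.shift 0 3), rh758b55b34ff82bc0] (by decide +kernel))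
noncomputable def rhf2a4c806acdb958d : CRef := CRef.mk (Pat.mk 0x180000001e000000120000000000000000 0xe0000000f0000001b0000001e0000001e0000000400000004 6 5) 0 0 (step_sound _ 163 [(rh2145e1d24b96a57e.shift 3 2), rh5888b0eb65bead35] (by decide +kernel))
noncomputable def rh0f34aa0857dd05ce : CRef := CRef.mk (Pat.mk 0x180000001e000000120000000000000000 0x2000000020000001b0000001e0000001e0000003400000030 6 6) 0 0 (step_sound _ 36 [(rh7b1f1fb55310c477.shift 3 0), rh931d41a338b3027c] (by decide +kernel))
noncomputable def rh1d7501508b9f88fc : CRef := CRef.mk (Pat.mk 0x20000001200000012000000120000000000000000 0x200000012000000120000001e0000001f0000001d 6 5) 0 0 (step_sound _ 34 [rh74af583fb9ace204, (rhd3458b32566d63f7.shift 1 1)] (by decide +kernel))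
noncomputable def rh7520cd7877e2d351 : CRef := CRef.mk (Pat.mk 0x4000000090000000b0000000900000000 0x100000001d0000001f000000090000000b0000000b00000002 6 5) 0 0 (step_sound _ 131 [(rh50fbb5868c909700.shift 2 1), rh8d5812547e561489] (by decide +kernel))
noncomputable def rhab00c3182c831267 : CRef := CRef.mk (Pat.mk 0x20000001a000000120000000400000000 0xa0000001a0000001a0000001f0000003d 6 6) 0 0 (step_sound _ 33 [rh319c8019a5c49c0c, (rh55afc6a59410cf00.shift 1 0)] (by decide +kernel))
noncomputable def rh69dbe9c61334d67e : CRef := CRef.mk (Pat.mk 0x120000001a00000002000000060000000000000000 0x10000000100000001a0000001a0000000a0000001f0000000b00000001 6 5) 0 0 (step_sound _ 32 [rh1f763070d77a940a, (rh79877ebd3ef475dd.shift 0 1)] (by decide +kernel))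
noncomputable def rha3c546beb8829d15 : CRef := CRef.mk (Pat.mk 0xf0000000800000000000000000000000000000000 0xc0000000c0000001c0000000f0000000c0000001c0000001c0000001c00000004 6 5) 0 0 (step_sound _ 195 [(rh33e738c4ed385b9f.shift 0 5), (rhbf955a2da84e0c42.shift 2 0)] (by decide +kernel))
noncomputable def rh8d974fece6b46dee : CRef := CRef.mk (Pat.mk 0x9000000018000000380000000800000000 0xc0000000f000000fc000000180000003c0000000f00000004 6 8) 0 0 (step_sound _ 133 [(rh361cc68994bd8a63.shift 3 3), rhd51074e9d61c62cf] (by decide +kernel))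
noncomputable def rh4304caa7aaf5d23c : CRef := CRef.mk (Pat.mk 0x18000000380000000000000000 0x8000000080000000c0000001f0000003f0000000700000004 6 6) 0 0 (step_sound _ 66 [(rhb8dadbda1e6900cb.shift 1 0), (rhbe5fc5902345a0b9.shift 0 2), (rhcc2be1f880c5ea3e.shift 0 1)] (by decide +kernel))
noncomputable def rh8e01103cadbef439 : CRef := CRef.mk (Pat.mk 0x240000000600000006 0xe0000001f0000007c0000000600000006 6 7) 0 0 (step_sound _ 98 [(rh5c5e593799055d58.shift 1 0), rhabdbb7b1b8dee9d0] (by decide +kernel))
noncomputable def rhe5b61e8fde75b4bb : CRef := CRef.mk (Pat.mk 0x400000027000000060000000400000000 0x80000000c0000003f0000001e0000003c00000018 6 6) 0 0 (step_sound _ 99 [(rh361cc68994bd8a63.shift 1 2), rhf03d4961c2903eaa] (by decide +kernel))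
noncomputable def rhcc8330cbf5c4e703 : CRef := CRef.mk (Pat.mk 0x4c0000000c000000440000000400000000 0x100000007c0000000c0000007c0000000f0000000a 6 7) 0 0 (step_sound _ 35 [rh1e835f861cabf4f4, (rh55afc6a59410cf00.shift 2 0)] (by decide +kernel))
noncomputable def rhac7d353a5474aff9 : CRef := CRef.mk (Pat.mk 0x400000000000001100000003800000000 0x4000000040000019e000000fe000001c7 6 9) 0 0 (step_sound _ 38 [(rh241ddf12d4fc9298.shift 3 1), rh845e6931135b38f6, (rhbb2385dc95a6af82.shift 3 0), (rhe3060b190bc0bc78.shift 2 1)] (by decide +kernel))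
noncomputable def rhad2a1708d0e22f9c : CRef := CRef.mk (Pat.mk 0x2000000020000002200000006 0x5000000070000000700000002000000020000007e0000001f 6 7) 0 0 (step_sound _ 36 [rhba97f7f4ade5e136, rhc13ae28137ba9813] (by decide +kernel))
noncomputable def rh88ce08a2b2376755 : CRef := CRef.mk (Pat.mk 0x300000001800000008000000080000000000000000 0x2c0000003f0000003800000018000000180000001000000010 6 6) 0 0 (step_sound _ 68 [(rh03264f17a10985c1.shift 3 1), (rh0694f8284f216183.shift 0 2), (rh5a7dce561d0bf78d.shift 3 1), (rh626cca2d83e6311d.shift 0 1), (rh828fef42727e7be2.shift 3 0)] (by decide +kernel))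
noncomputable def rhfd47a67dda6ef9cc : CRef := CRef.mk (Pat.mk 0x8800000018000000100000003000000000 0x200000002000000067000000ff00000038000000100000003000000020 6 8) 0 0 (step_sound _ 132 [(rh55afc6a59410cf00.shift 4 0), (rhfc65d810a86f213b.shift 0 2)] (by decide +kernel))
noncomputable def rha4b3d7bb7b89ac40 : CRef := CRef.mk (Pat.mk 0x20000000040000000c0000000a0000000000000000 0x10000000780000000c0000000c0000001f0000007c00000018 6 7) 0 0 (step_sound _ 35 [(rh7b1f1fb55310c477.shift 2 0), rh9834449445821d84] (by decide +kernel))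
noncomputable def rh3a3748708a2a2417 : CRef := CRef.mk (Pat.mk 0x200000003000000070000000000000000000000000 0x20000000770000007e000000cf0000004000000040 6 8) 0 0 (step_sound _ 99 [(rha4e887c2a2a0f60b.shift 0 2), (rhab2ad169e49f9c5e.shift 1 3), (rhcc2be1f880c5ea3e.shift 1 2), (rhd132b680030c88e0.shift 3 0)] (by decide +kernel))
noncomputable def rh4a54b5ea173d09f9 : CRef := CRef.mk (Pat.mk 0x300000006000000010000000000000000 0x50000000700000007000000020000000300000007000000070000000500000004 6 3) 0 0 (step_sound _ 161 [(rh5ddbeed5d869bf16.shift 0 1), (rh70e33bfdf511e144.shift 1 0), (rhb77bfac3e9efecea.shift 0 2)] (by decide +kernel))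
noncomputable def rh1a724b3b6a917092 : CRef := CRef.mk (Pat.mk 0x1800000010000000380000000000000000 0x180000001e0000007c0000000f0000000c 6 7) 0 0 (step_sound _ 99 [rh41eb4a13b78c152f, rh6daa1d4df6027665, (rh98dcf83e06bbd9f9.shift 2 0), (rhe2b63c00a3d7bb73.shift 1 2)] (by decide +kernel))
noncomputable def rhc839fc910549cb4e : CRef := CRef.mk (Pat.mk 0x130000001a0000000b000000000000000000000000 0x130000001b0000000b0000001f0000000f00000005 6 5) 0 0 (step_sound _ 67 [(rh71222050f2c63a3a.shift 3 1), rh924fb014e1a1c7d0] (by decide +kernel))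
noncomputable def rh5d7a1789ccad5d1e : CRef := CRef.mk (Pat.mk 0x8000000480000000c000000000000000000000000 0x1000000018000000780000001f000000780000001800000010 6 7) 0 0 (step_sound _ 132 [(rh361cc68994bd8a63.shift 2 3), rh8548980f61e57ddc] (by decide +kernel))
noncomputable def rh334b688aefa48318 : CRef := CRef.mk (Pat.mk 0x100000000200000006000000070000000000000000 0xc0000003c00000006000000060000000f0000003c0000000c 6 6) 0 0 (step_sound _ 34 [rh36b6fdd991e5b57a, (rh7b1f1fb55310c477.shift 1 0)] (by decide +kernel))
noncomputable def rhfb882c9c6b5528d7 : CRef := CRef.mk (Pat.mk 0x8000000180000000c0000000000000000 0x80000001f0000003f0000003700000010 6 6) 0 0 (step_sound _ 65 [rh10fdb3bfa6ad1047, (rh53b3c253cb0c65f4.shift 0 2)] (by decide +kernel))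
noncomputable def rhe3428b1e8a82e7f2 : CRef := CRef.mk (Pat.mk 0x1000000120000000300000002 0x40000000600000007000000030000001e0000000700000003 6 5) 0 0 (step_sound _ 97 [rh1637493862bfe25b, rh50fbb5868c909700] (by decide +kernel))
noncomputable def rh927c870b1977d574 : CRef := CRef.mk (Pat.mk 0x240000000600000004 0x20000000e0000000e0000001f0000007e0000000e00000004 6 7) 0 0 (step_sound _ 98 [(rh42ab489a1be3958e.shift 1 0), (rh7b980c7c0840b6b8.shift 1 0), (rha03aae38ff55f8d6.shift 1 0), rhabdbb7b1b8dee9d0, (rhc85cc95794737cf7.shift 1 0)] (by decide +kernel))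
noncomputable def rh528e10b975a602fe : CRef := CRef.mk (Pat.mk 0x400000000c0000001800000004000000000000000000000000 0x40000001c0000007c0000001c000000180000001f000000780000001800000010 6 7) 0 0 (step_sound _ 99 [(rh626f0c57fbc458b6.shift 0 1), (rh6a7842d1b9fdbc66.shift 0 1), rh8548980f61e57ddc, (rhb1a251d9bff81766.shift 2 2)] (by decide +kernel))
noncomputable def rh7f9f39a172544465 : CRef := CRef.mk (Pat.mk 0x18000000880000001000000030 0x770000007e000001ef0000003000000030 6 9) 0 0 (step_sound _ 101 [(rh10c6be5f2a093ad1.shift 3 0), (rh2820ca9a6c4f41b4.shift 0 2), (rhe80c67fb403a51c5.shift 2 2), rhe883adbd60e3e4d2, (rhf1af73716833b731.shift 2 2)] (by decide +kernel))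
noncomputable def rh92c1d6daf3e537bf : CRef := CRef.mk (Pat.mk 0x200000000000000020000000600000000 0x500000007000000070000000200000002000000060000000600000004 6 3) 0 0 (step_sound _ 97 [(rh55afc6a59410cf00.shift 1 0), (rhba97f7f4ade5e136.shift 0 1)] (by decide +kernel))
noncomputable def rh4fd328685a9042c0 : CRef := CRef.mk (Pat.mk 0x1800000018000000100000001800000000 0x1000000018000000380000001f0000003f00000004 6 6) 0 0 (step_sound _ 67 [(rh5c5e593799055d58.shift 3 1), rh941438cd61fd788b] (by decide +kernel))
noncomputable def rh410b2d5cb6d6cca6 : CRef := CRef.mk (Pat.mk 0x180000000c00000008000000040000000000000000 0x100000001c0000000c000000080000001f0000007800000010 6 7) 0 0 (step_sound _ 67 [(rh2f68792b6b779e96.shift 3 2), rh6a7842d1b9fdbc66] (by decide +kernel))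
noncomputable def rhd0ff9ecf40c804b3 : CRef := CRef.mk (Pat.mk 0x18000000080000000800000000 0x1c0000001f000000380000000f0000003c00000014 6 6) 0 0 (step_sound _ 131 [(rh5aa5e9dc84124dd6.shift 0 1), rh641b5241be04eec6] (by decide +kernel))
noncomputable def rhe9b49dd16e8c84ca : CRef := CRef.mk (Pat.mk 0x1000000010000000100000003000000000 0x1000000010000000ff000000fe0000000f 6 8) 0 0 (step_sound _ 35 [(rh932754581e0f4330.shift 3 0), rhe320e40b24390c6b] (by decide +kernel))
noncomputable def rhe592aca24e1e4cb2 : CRef := CRef.mk (Pat.mk 0x400000000c000000480000000c0000000000000000 0x18000000780000000c000000780000001f0000003000000010 6 7) 0 0 (step_sound _ 100 [(rh361cc68994bd8a63.shift 2 2), rh626f0c57fbc458b6] (by decide +kernel))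
noncomputable def rh400ee49dd4ebac3a : CRef := CRef.mk (Pat.mk 0x100000009000000018000000000000000000000000 0x10000001f70000007e000000ef0000002000000020 6 9) 0 0 (step_sound _ 101 [(rh1f36686c55693598.shift 2 3), rh85b25c6bf3d8761a, (rhefb19ffaaa7a0748.shift 1 2), (rhfbf320ca8ea44173.shift 3 3)] (by decide +kernel))
noncomputable def rh34ce3ceebcf9b29a : CRef := CRef.mk (Pat.mk 0x2000000004000000000000000f00000000 0x100000007c0000000c000000180000000f0000001c 6 7) 0 0 (step_sound _ 67 [(rh33e738c4ed385b9f.shift 0 1), rhf054c5595ccdec97] (by decide +kernel))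
noncomputable def rh0a0f710953c43ccf : CRef := CRef.mk (Pat.mk 0x8000000010000000200000003000000000000000000000000 0x1000000050000001f000000030000000200000003000000070000000700000005 6 5) 0 0 (step_sound _ 161 [rh56259dd1390eee46, (rhb1a251d9bff81766.shift 0 2), (rhd4803e9ceb634242.shift 0 2)] (by decide +kernel))
noncomputable def rhcf8583fad85285df : CRef := CRef.mk (Pat.mk 0x2000000060000000200000002 0x500000007000000070000000700000003000000060000000600000006 6 3) 0 0 (step_sound _ 129 [(rh14e0829dc73b6804.shift 0 1), (rh1741680720c097b4.shift 0 1), rh3ca48e2a6d60153d, (rhd4b4beefcd67f51e.shift 1 0)] (by decide +kernel))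
noncomputable def rha40fbb241e27bfba : CRef := CRef.mk (Pat.mk 0x1000000010000000300000003000000000 0x1000000010000000770000003e0000000f 6 7) 0 0 (step_sound _ 35 [(rh932754581e0f4330.shift 3 0), rha4e887c2a2a0f60b] (by decide +kernel))
noncomputable def rhade21cda799c6fdb : CRef := CRef.mk (Pat.mk 0x18000000380000000800000000 0xc0000000c0000000c000000380000003f0000000e00000004 6 6) 0 0 (step_sound _ 66 [(rh6f15502fd9441cc3.shift 1 0), (rhab2ad169e49f9c5e.shift 0 2)] (by decide +kernel))
noncomputable def rhf7affe3579d99523 : CRef := CRef.mk (Pat.mk 0x1800000038000000080000000400000000 0x380000003f0000007f0000006600000020 6 7) 0 0 (step_sound _ 98 [(rh2f5450d4aa1a981a.shift 1 0), (rhab2ad169e49f9c5e.shift 0 3), (rhcc2be1f880c5ea3e.shift 0 2)] (by decide +kernel))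
noncomputable def rhdf7dab140f58ecc7 : CRef := CRef.mk (Pat.mk 0x2000000000000000100000003800000000 0x20000000200000007f0000007e000000c7 6 8) 0 0 (step_sound _ 34 [(rh09d7fc707019ddec.shift 1 0), rh592c7139d2c44767, (rhec46bd5500c722c9.shift 1 1)] (by decide +kernel))
noncomputable def rh1171055e7581798b : CRef := CRef.mk (Pat.mk 0x18000000080000000800000010 0x140000001c0000001c0000000c000000380000001f0000001c00000010 6 6) 0 0 (step_sound _ 131 [(rh26ae4e741e976c04.shift 0 1), (rhd3458b32566d63f7.shift 3 0)] (by decide +kernel))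
noncomputable def rh1c636b43a8f687ef : CRef := CRef.mk (Pat.mk 0x1800000098000000080000001800000000 0x38000000ff0000006e0000007800000020 6 8) 0 0 (step_sound _ 101 [(rh2fe78cc5ca4405d8.shift 3 3), rh811599e0338b4db9] (by decide +kernel))
noncomputable def rh67b54a9440e7e5d6 : CRef := CRef.mk (Pat.mk 0x18000000080000000800000000 0x100000001c0000001f000000380000001f0000003c00000014 6 6) 0 0 (step_sound _ 131 [(rh3b734c5288922837.shift 2 0), rh805914b67d25f947, (rhced6d86d2069808b.shift 3 0), rhf3d11b058448e968] (by decide +kernel))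
noncomputable def rh64727f5681d9c3cc : CRef := CRef.mk (Pat.mk 0x200000001c000000000000000000000000 0x200000002000000370000003e000000060000000400000004 6 6) 0 0 (step_sound _ 97 [rh01d49d2eea03de7d, (rh428265de8cd3cd2d.shift 1 3)] (by decide +kernel))
noncomputable def rhc7e5ab9102d7be76 : CRef := CRef.mk (Pat.mk 0x20000000600000002000000000000000000000000 0x600000006000000060000000600000006000000070000000700000005 6 3) 0 0 (step_sound _ 194 [(rh02ef15e22aa7db92.shift 1 1), (rh4dec404a6c0e229a.shift 1 2), rhc94dfb5f501cb051] (by decide +kernel))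
noncomputable def rhd3105106a854c430 : CRef := CRef.mk (Pat.mk 0x200000001c000000000000000000000000 0x400000004000000360000003e000000070000000200000002 6 6) 0 0 (step_sound _ 97 [rh05fadc0638981c34, (rh428265de8cd3cd2d.shift 1 3)] (by decide +kernel))
noncomputable def rh04cebd6aea8322c4 : CRef := CRef.mk (Pat.mk 0x1400000003 0xee0000007e00000007 6 8) 0 0 (step_sound _ 35 [(rhc083815ec94cd2b2.shift 1 0), rhca9569cc80abfe76] (by decide +kernel))
noncomputable def rh4ecd82622bb2807a : CRef := CRef.mk (Pat.mk 0x20000001e00000000000000000000000000000000 0x600000006000000060000001e00000007000000070000000700000005 6 5) 0 0 (step_sound _ 97 [rh66d8a35d318c3215, (rheb0810cc63b001d8.shift 0 3)] (by decide +kernel))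
noncomputable def rh7a421bfe33f4f6db : CRef := CRef.mk (Pat.mk 0x100000001c000000080000000800000000 0xc0000000c0000000f0000001f0000001c0000001f0000003c00000014 6 6) 0 0 (step_sound _ 131 [rh795a9fa361f5265f, (rhcbaa34959f85e2ef.shift 2 0), rhf0d38cf1e7116183] (by decide +kernel))
noncomputable def rhe363d1375c84c1f2 : CRef := CRef.mk (Pat.mk 0x38000000100000001000000000 0x670000003e000000170000001000000010 6 7) 0 0 (step_sound _ 133 [(rh71222050f2c63a3a.shift 4 0), (rhb12ffaec36122c99.shift 0 2)] (by decide +kernel))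
noncomputable def rh7d830273a9d6bf55 : CRef := CRef.mk (Pat.mk 0x20000000e00000002000000000000000000000000 0x1000000030000001e00000002000000070000000700000005 6 5) 0 0 (step_sound _ 160 [rh0a6888916bcef86b, (rhf48373e13d2bc128.shift 0 4)] (by decide +kernel))
noncomputable def rh681b3d5c394e141d : CRef := CRef.mk (Pat.mk 0x40000001c000000080000000800000000 0x8000000180000001b0000001f0000001c0000001f0000003c00000014 6 6) 0 0 (step_sound _ 131 [(rh028809442a7beef4.shift 2 1), rha4dd4a1058feb62e, (rhc82d36bfb2f35839.shift 2 1), rhf0d38cf1e7116183] (by decide +kernel))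
noncomputable def rh20c60a9e737030c6 : CRef := CRef.mk (Pat.mk 0x4000000040000001c00000008000000000000000000000000 0x180000003c0000000f0000001c0000000f000000060000000600000006 6 6) 0 0 (step_sound _ 98 [(rhb1c562e40ee61608.shift 1 0), (rhcee506e245b5cffc.shift 0 2), (rhf5094ad2a427d4d3.shift 0 2)] (by decide +kernel))
noncomputable def rh3f10543b05decd5c : CRef := CRef.mk (Pat.mk 0x200000006000000030000000200000000 0x40000000600000006000000070000001f0000001d 6 5) 0 0 (step_sound _ 32 [rh67a3ed1dbca4285b, rh932754581e0f4330] (by decide +kernel))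
noncomputable def rh45aad2296a582ddd : CRef := CRef.mk (Pat.mk 0x8000000180000000c000000000000000000000000 0x1000000018000000180000000f0000003c0000001c00000014 6 6) 0 0 (step_sound _ 97 [(rh4edad24428732978.shift 1 0), (rh53b3c253cb0c65f4.shift 0 3)] (by decide +kernel))
noncomputable def rhd4806b0cf9dc8d58 : CRef := CRef.mk (Pat.mk 0x4000000040000001c00000008000000000000000000000000 0x80000000c0000000c0000003c0000000f000000060000000600000006 6 6) 0 0 (step_sound _ 98 [(rh4dc133ee0ba1420a.shift 0 3), (rhb1c562e40ee61608.shift 1 0), (rhf5094ad2a427d4d3.shift 0 2)] (by decide +kernel))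
noncomputable def rh4d9d3700d6aa3a24 : CRef := CRef.mk (Pat.mk 0x1800000003 0xee0000007e00000007 6 8) 0 0 (step_sound _ 34 [(rhc083815ec94cd2b2.shift 1 0), rhca9569cc80abfe76] (by decide +kernel))
noncomputable def rha7620454f0e91e91 : CRef := CRef.mk (Pat.mk 0x180000001c000000080000000000000000 0x70000001e0000003c0000000c0000000c0000000c 6 6) 0 0 (step_sound _ 35 [(rh71222050f2c63a3a.shift 3 0), rhb1df27f77dd26d05] (by decide +kernel))
noncomputable def rh29f8a89728dbb0f4 : CRef := CRef.mk (Pat.mk 0x10000000180000001c0000000800000000 0xc0000000f0000001f0000001c0000001c0000000c00000004 6 5) 0 0 (step_sound _ 131 [rh33e591d1663cc4bf, (rh37d9ceebb86d75d1.shift 2 1), (rh7b9fbdf6d2d059e4.shift 2 1)] (by decide +kernel))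
noncomputable def rhf0404cb07e588b21 : CRef := CRef.mk (Pat.mk 0x1c000000200000000000000000 0x400000004000000060000003e000000370000000200000002 6 6) 0 0 (step_sound _ 97 [rh05fadc0638981c34, (rh96851dee118c1ba3.shift 1 2)] (by decide +kernel))
noncomputable def rhec171c2521398518 : CRef := CRef.mk (Pat.mk 0x200000006000000020000000000000000 0x500000007000000070000000600000006000000060000000600000006 6 3) 0 0 (step_sound _ 34 [(rh8f4050c06a082165.shift 1 0), (rh95a80f84f48ac358.shift 1 0), (rhba97f7f4ade5e136.shift 0 1)] (by decide +kernel))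
noncomputable def rh411655eae4bb2b7f : CRef := CRef.mk (Pat.mk 0x1c000000200000000000000000 0x200000002000000070000003e000000360000000400000004 6 6) 0 0 (step_sound _ 97 [rh01d49d2eea03de7d, (rh96851dee118c1ba3.shift 1 2)] (by decide +kernel))
noncomputable def rh576627fa4a25cc06 : CRef := CRef.mk (Pat.mk 0x30000001400000000 0x70000007e000000ee 6 8) 0 0 (step_sound _ 35 [(rh09d4dfe75d4407d6.shift 0 1), (rhe79590487a395ecc.shift 1 0)] (by decide +kernel))
noncomputable def rhe68f38a5f56f26d7 : CRef := CRef.mk (Pat.mk 0x8000000080000001c00000010000000000000000000000000 0x140000003c0000001f0000001c0000001f0000000f0000000c0000000c 6 6) 0 0 (step_sound _ 99 [(rh3a61644a128cd4ab.shift 0 2), (rhb1c562e40ee61608.shift 2 0), (rhfbb399d9cc55fe51.shift 0 2)] (by decide +kernel))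
noncomputable def rh506caafe38f6a489 : CRef := CRef.mk (Pat.mk 0x10000000100000003800000000 0x1000000010000000170000003e00000067 6 7) 0 0 (step_sound _ 5 [(rh2145e1d24b96a57e.shift 4 0), rhc92c11e8da6c894f] (by decide +kernel))
noncomputable def rh921d4a762d8c7ba0 : CRef := CRef.mk (Pat.mk 0x8000000080000001c00000004000000000000000000000000 0x140000003c0000001f0000001c0000001f0000001b0000001800000008 6 6) 0 0 (step_sound _ 99 [(rh2af7ee4a33cab254.shift 0 2), (rh3a61644a128cd4ab.shift 0 2), (rh4f66b8b299b10e60.shift 2 0), (rhdaa34f01e5e560a1.shift 2 0)] (by decide +kernel))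
noncomputable def rh32485817747f77f3 : CRef := CRef.mk (Pat.mk 0x80000001c000000040000000400000000 0x600000006000000060000000f0000001c0000000f0000003c00000018 6 6) 0 0 (step_sound _ 130 [(rh277b01412deaec89.shift 0 1), (rhcbaa34959f85e2ef.shift 1 0), rhd802bb8339359eae] (by decide +kernel))
noncomputable def rh21abbb0076c5bdaf : CRef := CRef.mk (Pat.mk 0x200000003000000060000000200000000 0x1d0000001f00000007000000060000000600000004 6 5) 0 0 (step_sound _ 128 [rh16f8da415b48e1e4, (rh50fbb5868c909700.shift 0 1)] (by decide +kernel))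
noncomputable def rha538c21b219771ff : CRef := CRef.mk (Pat.mk 0xc000000180000000800000000 0x140000001c0000003c0000000f000000180000001800000010 6 6) 0 0 (step_sound _ 97 [(rh8e90cc8cb769eb3e.shift 1 0), (rhb739f4f82bb681b4.shift 0 2)] (by decide +kernel))
noncomputable def rhb539ad84d0c044ca : CRef := CRef.mk (Pat.mk 0x80000001c000000040000000400000000 0x600000006000000060000000f0000003c0000000c0000000c00000008 6 6) 0 0 (step_sound _ 130 [(rh277b01412deaec89.shift 0 1), (rhcbaa34959f85e2ef.shift 1 0), (rhe2b63c00a3d7bb73.shift 0 3)] (by decide +kernel))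
noncomputable def rh4b191874dca901c6 : CRef := CRef.mk (Pat.mk 0x30000001800000000 0x70000007e000000ee 6 8) 0 0 (step_sound _ 34 [(rh09d4dfe75d4407d6.shift 0 1), (rhe79590487a395ecc.shift 1 0)] (by decide +kernel))
noncomputable def rh6c92adc4b31fcdd5 : CRef := CRef.mk (Pat.mk 0x7800000000 0x770000007e000000e0 6 8) 0 0 (step_sound _ 6 [rhc88dbad8567ff01b, (rhe25b0a99195a5d59.shift 3 0)] (by decide +kernel))
noncomputable def rh2a9d29ebdff1d0ae : CRef := CRef.mk (Pat.mk 0x80000001c0000001800000000 0xc0000000c0000000c0000003c0000001e00000007 6 6) 0 0 (step_sound _ 131 [(rh2145e1d24b96a57e.shift 3 1), rh88212fff6465e7ff] (by decide +kernel))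
noncomputable def rh5fbbeb39a5c0f570 : CRef := CRef.mk (Pat.mk 0x80000001c00000018000000100000000000000000 0x40000000c0000001c0000001c0000001f0000000f0000000c 6 5) 0 0 (step_sound _ 67 [(rh40241bd608e5be1a.shift 2 0), (rh46530d756bdf8511.shift 2 0), (rhd204a504bad0f148.shift 0 1)] (by decide +kernel))
noncomputable def rh707bc8304f381931 : CRef := CRef.mk (Pat.mk 0x90000000b000000080000000c0000000000000000 0x1000000010000000b0000000b0000000a0000001f0000001a00000010 6 5) 0 0 (step_sound _ 36 [(rhd3458b32566d63f7.shift 3 1), rhddb11ac9167652cc] (by decide +kernel))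
noncomputable def rh679c9954ea153950 : CRef := CRef.mk (Pat.mk 0x8000000000000001e00000018000000000000000000000000 0x8000000080000000c0000001e0000001f000000070000000200000002 6 5) 0 0 (step_sound _ 163 [(rh2145e1d24b96a57e.shift 3 3), rh75451e2a9db82819] (by decide +kernel))
noncomputable def rh031be943a81a99cb : CRef := CRef.mk (Pat.mk 0x80000000300000003000000000000000000000000 0x400000006000000060000001e0000000300000003000000030000000300000003 6 5) 0 0 (step_sound _ 161 [rh28e11d0ded1008f1, (rh503dd4575245365b.shift 0 2), (rh9ab0ed084d168e00.shift 0 2)] (by decide +kernel))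
noncomputable def rh2d6f15a43321faad : CRef := CRef.mk (Pat.mk 0x1000000003000000060000000000000000 0x40000000600000006000000060000001f00000007000000070000000600000002 6 5) 0 0 (step_sound _ 129 [rh51698cea9087386d, (rh566659606c8abe04.shift 0 1), (rhdae9388eef521f76.shift 0 1)] (by decide +kernel))
noncomputable def rh2522513f6d2b3ea4 : CRef := CRef.mk (Pat.mk 0x400000000c000000180000000000000000 0x140000001c0000001c0000007c0000001f000000180000001800000008 6 7) 0 0 (step_sound _ 97 [(rh658da1315278d932.shift 2 0), (rhb739f4f82bb681b4.shift 0 2)] (by decide +kernel))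
noncomputable def rh0b7c1a0dcee7575e : CRef := CRef.mk (Pat.mk 0x480000000e0000001a000000000000000000000000 0x7c0000001e0000001e000000370000001600000012 6 7) 0 0 (step_sound _ 164 [(rh361cc68994bd8a63.shift 2 4), rha6fbe20a9136f9eb] (by decide +kernel))
noncomputable def rhc5bc17d30c73a29c : CRef := CRef.mk (Pat.mk 0x1000000010000000200000007000000000 0x10000000180000003e0000007e0000000f 6 7) 0 0 (step_sound _ 35 [(rh316d0c7c5292e4bb.shift 2 0), (rh42dffdfbdd7e3e3a.shift 1 0), rh5b2ce1e5aa4a4edd, (rhc93f3ad81bc3b393.shift 2 0)] (by decide +kernel))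
noncomputable def rhbf16b676fa95bcc8 : CRef := CRef.mk (Pat.mk 0x1e00000010000000000000000000000000 0x80000003f0000001f000000300000001000000010 6 6) 0 0 (step_sound _ 97 [rha183e8f14f5410fd, (rheb0810cc63b001d8.shift 0 3)] (by decide +kernel))
noncomputable def rh8aeb7f9031bede11 : CRef := CRef.mk (Pat.mk 0xa0000000300000002000000000000000000000000 0x40000001e0000000300000002000000070000000700000005 6 5) 0 0 (step_sound _ 162 [(rh18965a982d73c794.shift 0 4), rhffb8e5993241bf15] (by decide +kernel))
noncomputable def rh49e937fef83925ff : CRef := CRef.mk (Pat.mk 0x8000000180000000a000000000000000000000000 0x1000000018000000180000001f0000007c0000001c00000014 6 7) 0 0 (step_sound _ 98 [(rh53b3c253cb0c65f4.shift 0 3), (rhc1ad2708dfcb0927.shift 1 0)] (by decide +kernel))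
noncomputable def rh0d47e576336a2f79 : CRef := CRef.mk (Pat.mk 0x1800000094000000000000000000000000 0x80000000800000018000000ff0000007e0000000400000004 6 8) 0 0 (step_sound _ 101 [rh2d74bb40630ceb5e, (rh2fe78cc5ca4405d8.shift 3 3)] (by decide +kernel))
noncomputable def rh4f4bb60af547fd11 : CRef := CRef.mk (Pat.mk 0x80000001c000000180000000800000000 0x40000000c0000001c0000001c0000001f00000017 6 5) 0 0 (step_sound _ 36 [(rh7b1f1fb55310c477.shift 3 0), rhfcbcce6cd1649a3a] (by decide +kernel))
noncomputable def rh26fb2f4b1c5a5c83 : CRef := CRef.mk (Pat.mk 0x180000001e000000000000000800000000 0x200000002000000070000001f0000001e0000000c0000000800000008 6 5) 0 0 (step_sound _ 67 [(rh71222050f2c63a3a.shift 3 0), (rh7696ae8b0f0f5a20.shift 0 1)] (by decide +kernel))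
noncomputable def rh6f9d00e5064ce68a : CRef := CRef.mk (Pat.mk 0x30000000300000008000000000000000000000000 0x3000000030000000300000003000000030000001e000000060000000600000004 6 5) 0 0 (step_sound _ 97 [rh2af0210ad3cd0058, (rh3cb04db3dd2b6a55.shift 0 1), (rh5a8b53a05d264a39.shift 0 2)] (by decide +kernel))
noncomputable def rha9059ac5164f5966 : CRef := CRef.mk (Pat.mk 0x6000000030000001000000000000000000000000000000000 0x20000000600000007000000070000001f00000006000000060000000600000004 6 5) 0 0 (step_sound _ 129 [(rh4c145d583973abd2.shift 0 1), rh63aae37a5ea11039, (rh9c2924c8c4127d86.shift 0 3)] (by decide +kernel))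
noncomputable def rh56d43b3c08d854f8 : CRef := CRef.mk (Pat.mk 0x180000000c00000040000000000000000000000000 0x800000018000000180000001f0000007c0000001c0000001c00000014 6 7) 0 0 (step_sound _ 129 [(rh53b3c253cb0c65f4.shift 0 4), (rhbcfcf1634b9b9a7c.shift 2 0)] (by decide +kernel))
noncomputable def rh4b7eb34d46dea33a : CRef := CRef.mk (Pat.mk 0x1a0000000e00000048 0x1200000016000000370000001e0000001e0000007c 6 7) 0 0 (step_sound _ 4 [(rh2fe78cc5ca4405d8.shift 2 0), rh37ba1e39df53a012] (by decide +kernel))
noncomputable def rh9cef20c64a0ddc04 : CRef := CRef.mk (Pat.mk 0x70000000200000001000000010 0xf0000007e0000003e0000001800000010 6 7) 0 0 (step_sound _ 99 [(rh483fbfd538e8380f.shift 2 0), (rh8aa80d8d90d3223c.shift 0 2), (rhb84d4101fea63f8a.shift 1 0), (rhea1977e228a6d74a.shift 2 0)] (by decide +kernel))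
noncomputable def rh6b7fca735142933a : CRef := CRef.mk (Pat.mk 0x2000000030000000a00000000 0x5000000070000000700000002000000030000001e00000004 6 5) 0 0 (step_sound _ 34 [rh14e0829dc73b6804, (rhf48373e13d2bc128.shift 0 1)] (by decide +kernel))
noncomputable def rhbe4c8798541a44ad : CRef := CRef.mk (Pat.mk 0xa000000180000000800000000 0x140000001c0000007c0000001f000000180000001800000010 6 7) 0 0 (step_sound _ 98 [(rh8bd9bc34f1d6ae5f.shift 1 0), (rhb739f4f82bb681b4.shift 0 2)] (by decide +kernel))
noncomputable def rhd447f8f18bc0d94a : CRef := CRef.mk (Pat.mk 0x20000001e00000006 0x70000000f0000003e0000001e00000006 6 6) 0 0 (step_sound _ 97 [(rh2145e1d24b96a57e.shift 1 0), rhc3022ec33709db8f] (by decide +kernel))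
noncomputable def rh46f7899a9ef89b59 : CRef := CRef.mk (Pat.mk 0x94000000180000000000000000 0x4000000040000007e000000ff000000180000000800000008 6 8) 0 0 (step_sound _ 101 [rh2c45203dfbb050be, (rh361cc68994bd8a63.shift 3 2)] (by decide +kernel))
noncomputable def rhcc0b998e30e606a0 : CRef := CRef.mk (Pat.mk 0x8000000180000001c0000000800000000 0x170000001f0000001c0000001c0000000c00000004 6 5) 0 0 (step_sound _ 132 [rh33e591d1663cc4bf, (rh5c5e593799055d58.shift 3 1)] (by decide +kernel))
noncomputable def rhba638d1b68590935 : CRef := CRef.mk (Pat.mk 0x80000001c000000180000000800000000 0x40000000c0000001c0000001c0000001f00000017 6 5) 0 0 (step_sound _ 36 [(rh7b1f1fb55310c477.shift 3 0), rhd204a504bad0f148] (by decide +kernel))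
noncomputable def rh991cf53549871a3b : CRef := CRef.mk (Pat.mk 0x80000000c0000000800000000 0x1c0000003c0000000f0000000c0000000c0000000c 6 6) 0 0 (step_sound _ 131 [(rh03dfdf12d5937476.shift 2 0), rh5ee4dc8825dcefa0] (by decide +kernel))
noncomputable def rh71683d90e5140b28 : CRef := CRef.mk (Pat.mk 0x80000000c000000080000000000000000 0xc0000000c0000000c0000000f0000003c0000001c 6 6) 0 0 (step_sound _ 35 [rh641b5241be04eec6, (rhe286c75f2739cce2.shift 2 0)] (by decide +kernel))
noncomputable def rhb20c3bbfde65aed4 : CRef := CRef.mk (Pat.mk 0xe000000020000000000000000 0x8000000780000003f000000760000001000000010 6 7) 0 0 (step_sound _ 100 [(rh3f9c2fb96516703c.shift 1 2), rh5dffc5561274dae0, (rha93a5dd541ab8209.shift 1 2), (rhf3baec4a0a3dd35e.shift 1 2)] (by decide +kernel))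
noncomputable def rh242e36d95db5aaa2 : CRef := CRef.mk (Pat.mk 0xf000000020 0x1c000000fe00000077 6 8) 0 0 (step_sound _ 67 [(rh3f8766e6ecb455ce.shift 3 1), rh72041aff5aa454b7] (by decide +kernel))
noncomputable def rhd402b3e5c025c443 : CRef := CRef.mk (Pat.mk 0x400000038000000100000000000000000 0x400000004000000060000003e000000370000000200000002 6 6) 0 0 (step_sound _ 98 [(rh3244c3cc8379b070.shift 1 3), rhf8430021531fa0bc] (by decide +kernel))
noncomputable def rhccb787986ef413a0 : CRef := CRef.mk (Pat.mk 0x2000000020000000200000007000000000 0x100000003000000020000001fe000000fe0000000f 6 9) 0 0 (step_sound _ 132 [(rh50fbb5868c909700.shift 4 1), rh6769b3640dc74d75] (by decide +kernel))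
noncomputable def rhd3511a1ffe3d351e : CRef := CRef.mk (Pat.mk 0x4000000000000000400000007800000000 0x40000000400000004e0000007e00000037 6 7) 0 0 (step_sound _ 5 [rh2efad3051cff7df1, (rhee230b994cc8b773.shift 5 0)] (by decide +kernel))
noncomputable def rh0ec2382b32a42144 : CRef := CRef.mk (Pat.mk 0x80000000a000000080000000c00000000 0x80000000f0000007c0000007e000000f0 6 8) 0 0 (step_sound _ 36 [(rh55afc6a59410cf00.shift 3 0), rhd99fbc0a21de7bce] (by decide +kernel))
noncomputable def rh82dbb2a811ff8735 : CRef := CRef.mk (Pat.mk 0x1e0000001000000010000000180000001000000000 0x70000003e00000013000000120000001e0000003000000020 6 6) 0 0 (step_sound _ 37 [(rh173fe9f1e12a7e5a.shift 0 1), (rh55afc6a59410cf00.shift 4 0)] (by decide +kernel))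
noncomputable def rh4cadbc20473cb535 : CRef := CRef.mk (Pat.mk 0x1e00000000000000000000003000000018 0x4000000070000003e0000000300000002000000f200000018 6 8) 0 0 (step_sound _ 161 [(rh3244c3cc8379b070.shift 0 4), rh82930c995aff0ed0] (by decide +kernel))
noncomputable def rh78bf3dca3f0ef968 : CRef := CRef.mk (Pat.mk 0x400000007000000040000000600000000 0x4000000070000003e0000003f00000078 6 7) 0 0 (step_sound _ 35 [rh35766ea1bac3b566, (rh55afc6a59410cf00.shift 2 0)] (by decide +kernel))
noncomputable def rh0e0726b30f9aa72d : CRef := CRef.mk (Pat.mk 0x180000000a0000000800000008000000000000000000000000 0x180000000f0000000c0000000c0000001c0000001c00000010 6 5) 0 0 (step_sound _ 162 [(rh53b3c253cb0c65f4.shift 0 5), (rh89cf5152879421f3.shift 2 0)] (by decide +kernel))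
noncomputable def rh874890f1e023bbfc : CRef := CRef.mk (Pat.mk 0x80000000e000000080000000800000000000000000000000000000000 0x80000000e0000007c0000001f0000000c0000001c0000001c00000014 6 7) 0 0 (step_sound _ 164 [(rh89ade209b3e28f13.shift 1 5), (rhc8f3dfa4c364df16.shift 2 0), (rhfea49f007ffffe7c.shift 0 3)] (by decide +kernel))
noncomputable def rhf86335e9ec8a1938 : CRef := CRef.mk (Pat.mk 0x10000000180000001c00000000 0x10000000100000001c000000ff000000e3 6 8) 0 0 (step_sound _ 33 [(rh53b3c253cb0c65f4.shift 0 1), rhb47dd2ce8212fe68] (by decide +kernel))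
noncomputable def rhbacce1a49aabf8ab : CRef := CRef.mk (Pat.mk 0x70000000a0000000000000000 0x1000000010000000380000001f0000001b0000000800000008 6 6) 0 0 (step_sound _ 99 [rhd8b43b15431aaa50, (rhe25b0a99195a5d59.shift 0 2)] (by decide +kernel))
noncomputable def rh1cab97c6889177df : CRef := CRef.mk (Pat.mk 0x100000001e000000080000001c00000000 0x130000001e000001dc000000fc000000e0 6 9) 0 0 (step_sound _ 128 [(rh05bdeb7a18a8d59a.shift 2 0), (rh3f8766e6ecb455ce.shift 0 3)] (by decide +kernel))
noncomputable def rh7e021f606e96b058 : CRef := CRef.mk (Pat.mk 0x400000004000000020000000700000000 0x40000000c0000007b0000003f00000078 6 7) 0 0 (step_sound _ 35 [rh4a0cb3a9508b05dd, rh6797c410c820e91e, rh75c6fff53e4cbd6e, (rhb0716bb49afa8156.shift 0 1)] (by decide +kernel))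
noncomputable def rh45c45079fb1e92ed : CRef := CRef.mk (Pat.mk 0x1000000000000000180000001c00000000 0x10000000100000001c000000ff000000e3 6 8) 0 0 (step_sound _ 33 [rh3e07e3f880744420, (rh53b3c253cb0c65f4.shift 0 1)] (by decide +kernel))
noncomputable def rhd538ee43c30aba29 : CRef := CRef.mk (Pat.mk 0x600000002000000020000000600000000 0x60000000e0000003f0000001f00000039 6 6) 0 0 (step_sound _ 32 [rh932754581e0f4330, rhde2cb0e22ff15b58] (by decide +kernel))
noncomputable def rhe29fb5dfd03cc063 : CRef := CRef.mk (Pat.mk 0xf00000004 0xe00000007f000000fe 6 8) 0 0 (step_sound _ 36 [(rh352b7f91eba0c81f.shift 1 0), rh4ad5fc38f1b69f65, rh5cd2ac611390945c, (rhb02f9c2bd63f56db.shift 1 0)] (by decide +kernel))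
noncomputable def rh59be2eaa5a68484e : CRef := CRef.mk (Pat.mk 0x4000000000000000000000003800000020 0x4000000040000000ce0000007e00000037 6 8) 0 0 (step_sound _ 38 [rh2efad3051cff7df1, (rhfca48bdea898f94b.shift 3 0)] (by decide +kernel))
noncomputable def rhe96f1330dd5e50ac : CRef := CRef.mk (Pat.mk 0x4000000000000000000000003800000000 0x4000000040000000e7000000fe000001c7 6 9) 0 0 (step_sound _ 34 [rh592c7139d2c44767, (rh8b60d5d3a74f8e56.shift 2 0)] (by decide +kernel))
noncomputable def rh27a98746c8065cd1 : CRef := CRef.mk (Pat.mk 0x80000001c00000000 0x1ff000000fe000001e0 6 9) 0 0 (step_sound _ 37 [(rh4c622fddc53a5f99.shift 0 1), (rha1f05977cb30c9d7.shift 2 0), (rha93a5dd541ab8209.shift 2 0), (rhae8d21abc86b555a.shift 2 0), (rhf5fa5e48e0784de2.shift 2 0)] (by decide +kernel))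
noncomputable def rh81378a1316c60854 : CRef := CRef.mk (Pat.mk 0x100000001e0000001e000000000000000000000000 0x100000001e0000001e0000003f0000000b00000003 6 6) 0 0 (step_sound _ 67 [(rh71222050f2c63a3a.shift 3 1), rha9b45fc165e16ab9] (by decide +kernel))
noncomputable def rhd37b5d59e7e30cba : CRef := CRef.mk (Pat.mk 0x2000000060000000200000000000000000000000000000000 0x60000000600000006000000060000000600000007000000070000000700000005 6 3) 0 0 (step_sound _ 97 [(rh6eff4158bb400f47.shift 0 1), (rh7ab09f375cd5d482.shift 1 3), (rha707fb719e87fe6e.shift 1 2), rhffb8e5993241bf15] (by decide +kernel))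
noncomputable def rhe4f40abe6faedc45 : CRef := CRef.mk (Pat.mk 0x180000000a0000000800000008000000000000000000000000 0x180000000f0000000c000000180000001c0000001c00000004 6 5) 0 0 (step_sound _ 162 [(rh4ed972033d0a12ff.shift 2 0), (rh53b3c253cb0c65f4.shift 0 5)] (by decide +kernel))
noncomputable def rhab683638ce7ac4bc : CRef := CRef.mk (Pat.mk 0x1800000038000000100000000800000000 0x180000003f000000770000001e00000014 6 7) 0 0 (step_sound _ 98 [(rh2d14f7c82e276711.shift 1 0), (rhcc2be1f880c5ea3e.shift 0 2), (rhf56e6bc5d2f7fe77.shift 0 2)] (by decide +kernel))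
noncomputable def rh9c72a5ad9ea74698 : CRef := CRef.mk (Pat.mk 0x300000001c00000018000000100000000800000000 0xf00000001c0000007f000000370000000c0000000c 6 8) 0 0 (step_sound _ 101 [rhbd444a4206cf258b, (rhf48373e13d2bc128.shift 2 3)] (by decide +kernel))
noncomputable def rhb792ca9aa5a506c2 : CRef := CRef.mk (Pat.mk 0x80000000c000000080000000800000000000000000000000000000000 0x80000000c0000000f0000007c000000180000001c0000001c00000014 6 7) 0 0 (step_sound _ 99 [(rh943bffb3c35a4e10.shift 0 2), (rhc05d451ce3dd5e48.shift 2 0), (rhd29a1fb688eae70f.shift 3 2)] (by decide +kernel))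
noncomputable def rhd599edade4065ea1 : CRef := CRef.mk (Pat.mk 0x40000000f0000000c0000000000000000 0x1c0000000f0000000e0000007c0000001c 6 7) 0 0 (step_sound _ 35 [rh109fab1c4964c4b6, (rh7b1f1fb55310c477.shift 2 0)] (by decide +kernel))
noncomputable def rh3b979dd43a4ef322 : CRef := CRef.mk (Pat.mk 0x40000000f000000050000000000000000 0x1c0000001f000000070000001e0000000e 6 5) 0 0 (step_sound _ 65 [(rh18965a982d73c794.shift 0 2), rh1b73ce5f18a31d55] (by decide +kernel))
noncomputable def rh529aad0c391f6c52 : CRef := CRef.mk (Pat.mk 0x2000000000000000000000003e0000001c000000000000000800000000 0x2000000020000000230000003e0000001c0000001c0000001c00000014 6 6) 0 0 (step_sound _ 161 [(rh3244c3cc8379b070.shift 0 4), (rhef8793fac5c2f564.shift 1 0)] (by decide +kernel))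
noncomputable def rhd9099c0fcccab693 : CRef := CRef.mk (Pat.mk 0x40000000c00000008000000000000003000000000 0x40000000c000000080000000f0000007e000000ff 6 8) 0 0 (step_sound _ 35 [(rh9e07f76261b05888.shift 2 1), rhfa6156345f526d69] (by decide +kernel))
noncomputable def rh36bee48b13d0f906 : CRef := CRef.mk (Pat.mk 0x100000003800000000 0xff000000fe000001c7 6 9) 0 0 (step_sound _ 34 [(rh096767d96a1b3292.shift 2 0), rh775ca1963e850b80, (rhec46bd5500c722c9.shift 1 1)] (by decide +kernel))
noncomputable def rh739d9af03f816b0b : CRef := CRef.mk (Pat.mk 0xc00000008000000200000003c00000000000000000000000000000000 0xf0000007c000000300000003c00000060000000700000007000000050 6 7) 0 0 (step_sound _ 101 [rhbc8e10d82669204c, (rhe25b0a99195a5d59.shift 2 3)] (by decide +kernel))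
noncomputable def rhc0cfff9cca2e2ae2 : CRef := CRef.mk (Pat.mk 0xf00000008000000000000000000000000 0x40000000c0000001c0000000f0000000c0000001c0000001c00000014 6 5) 0 0 (step_sound _ 163 [(rh33e738c4ed385b9f.shift 0 4), (rhb770b474263682d9.shift 2 0)] (by decide +kernel))
noncomputable def rh118a82f34281509b : CRef := CRef.mk (Pat.mk 0x100000002000000020000000200000000000000000000000000000000 0x100000007000000060000000600000003000000070000000700000004 6 3) 0 0 (step_sound _ 97 [rh0be2a4256982885c, (rhffd04209dc8ea796.shift 0 3)] (by decide +kernel))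
noncomputable def rh04890f807bcd6f7c : CRef := CRef.mk (Pat.mk 0x80000000c0000000800000000000000000000000000000000 0x100000007c0000001f00000008000000080000001c0000001c00000014 6 7) 0 0 (step_sound _ 99 [(rh0a6888916bcef86b.shift 2 0), (rhe9f9259b2da8d967.shift 0 3)] (by decide +kernel))
noncomputable def rh648066be61c98290 : CRef := CRef.mk (Pat.mk 0x3000000030000000200000003000000000 0xf0000003e000000ff000000700000003e00000008 6 8) 0 0 (step_sound _ 131 [(rh3918eeb6c53434d8.shift 0 3), (rhdeca8db941583de2.shift 1 3), (rhff9c0a7688d5638d.shift 1 0)] (by decide +kernel))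
noncomputable def rh41cd4512e521788a : CRef := CRef.mk (Pat.mk 0x800000000000000100000003800000000 0x8000000080000003e000000ff000000c6 6 8) 0 0 (step_sound _ 67 [rh6e71b3129cd4e324, rhc9162a6e1c6e1eb8, (rhe2b63c00a3d7bb73.shift 1 1)] (by decide +kernel))
noncomputable def rhd9722cb2c16a04f3 : CRef := CRef.mk (Pat.mk 0x1000000010000000100000001800000000 0x1000000010000000ff000000fe00000027 6 8) 0 0 (step_sound _ 37 [rh21ed6c3662740d12, (rh55afc6a59410cf00.shift 4 0)] (by decide +kernel))
noncomputable def rh1ffd366bc23a24b3 : CRef := CRef.mk (Pat.mk 0x1c00000038000000100000000000000000 0x1c0000003f0000007f0000000600000006 6 7) 0 0 (step_sound _ 98 [(rha03f6e28ea70fc7d.shift 1 2), (rha9b45fc165e16ab9.shift 1 0), (rhcc2be1f880c5ea3e.shift 0 2)] (by decide +kernel))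
noncomputable def rh101b69d24224c63e : CRef := CRef.mk (Pat.mk 0x8000000080000000800000008000000080000000000000000 0x80000001c0000001f0000007c000000180000000800000008 6 7) 0 0 (step_sound _ 100 [(rh55afc6a59410cf00.shift 3 2), rhf136b1eef1b05665] (by decide +kernel))
noncomputable def rh521093436c3d21b6 : CRef := CRef.mk (Pat.mk 0x40000000400000000000000080000000e000000000000000000000000 0x40000001c00000018000000180000000f000000180000001800000010 6 5) 0 0 (step_sound _ 163 [rh583145506b38834f, (rhcfdf45280693d3da.shift 2 3)] (by decide +kernel))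
noncomputable def rh26b719545cf81053 : CRef := CRef.mk (Pat.mk 0x50000000100000000000000028000000280000001c 0x400000005000000070000000600000003f0000003c0000003e 6 7) 0 0 (step_sound _ 36 [(rh53b3c253cb0c65f4.shift 1 0), rh9468838130472af7] (by decide +kernel))
noncomputable def rh5545ba46bce0adc6 : CRef := CRef.mk (Pat.mk 0x80000001a0000000600000002 0x500000007000000070000000f0000001a0000000600000006 6 5) 0 0 (step_sound _ 97 [rh14e0829dc73b6804, rh1741680720c097b4, rhb43b15493b096632, rhe8ba100882c6d16d] (by decide +kernel))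
noncomputable def rh647faed73cd07a03 : CRef := CRef.mk (Pat.mk 0x400000007000000000 0x7f000000fe000001cf 6 9) 0 0 (step_sound _ 35 [(rh1a9922713ba80f42.shift 2 0), (rh21d582c147e7e118.shift 1 0), rh551591afa7e9bd9a, (rh592c7139d2c44767.shift 1 0), (rhfdf52a061710c7fa.shift 1 0)] (by decide +kernel))
noncomputable def rhb72fb263fa9dc0ad : CRef := CRef.mk (Pat.mk 0x180000000e00000000 0x38000000fe000000e7 6 8) 0 0 (step_sound _ 36 [(rh33e738c4ed385b9f.shift 1 1), rha1eb337eeb07c2e7] (by decide +kernel))
noncomputable def rh7414e988019ffba0 : CRef := CRef.mk (Pat.mk 0x20000000e00000004 0xe30000007e0000007c 6 8) 0 0 (step_sound _ 36 [(rh3244c3cc8379b070.shift 0 1), (rhb8de41a89a9d4634.shift 1 0)] (by decide +kernel))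
noncomputable def rhdf4d6f1e644f86a2 : CRef := CRef.mk (Pat.mk 0x2000000000000000020000000e00000000 0x2000000020000000730000007e000000e0 6 8) 0 0 (step_sound _ 36 [(rh3244c3cc8379b070.shift 0 1), (rh8b60d5d3a74f8e56.shift 1 0)] (by decide +kernel))
noncomputable def rh653dd416ea360d58 : CRef := CRef.mk (Pat.mk 0x2000000000000000020000000e00000004 0x2000000020000000730000007e000000cc 6 8) 0 0 (step_sound _ 36 [(rh3244c3cc8379b070.shift 0 1), (rhb0f6945cf1c2fac0.shift 1 0)] (by decide +kernel))
noncomputable def rh26b7f40eec588933 : CRef := CRef.mk (Pat.mk 0x80000000a0000000800000008000000100000000000000000 0x180000001f0000000c000000080000001c0000001c00000004 6 5) 0 0 (step_sound _ 67 [(rh55afc6a59410cf00.shift 3 1), rh8a7e9eb2fb0a2ffa] (by decide +kernel))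
noncomputable def rhe97eb6ba8dbeba1c : CRef := CRef.mk (Pat.mk 0x4000000040000000d0000000400000000 0x4000000040000003f0000007f00000078 6 7) 0 0 (step_sound _ 35 [rh21786a1828e613d9, (rh55afc6a59410cf00.shift 2 0)] (by decide +kernel))
noncomputable def rh578bea06d7421f4f : CRef := CRef.mk (Pat.mk 0xa0000000200000000000000010000000f0000000000000000 0xa0000001e0000001c0000001f0000000f0000001800000008 6 5) 0 0 (step_sound _ 99 [(rh33e738c4ed385b9f.shift 0 2), rhaaeed4b7d5e79e0e] (by decide +kernel))
noncomputable def rhc3fe8bc0649644d1 : CRef := CRef.mk (Pat.mk 0x8000000080000001e0000000000000000 0x80000003c000000fe0000001700000010 6 8) 0 0 (step_sound _ 100 [rh2b4d53f3413265fb, (rh33e738c4ed385b9f.shift 1 2)] (by decide +kernel))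
noncomputable def rh6e9177f6985b9407 : CRef := CRef.mk (Pat.mk 0x7000000040 0x1f000001fe0000007f 6 9) 0 0 (step_sound _ 35 [(rh0de499e0455c9c14.shift 1 0), rh36eba2a3de447758, (rh592c7139d2c44767.shift 1 0), (rhaeebc73f5a9c796a.shift 2 0), (rhf80ea7a5258c6cb1.shift 2 0)] (by decide +kernel))
noncomputable def rh55c3f0c47362bbf8 : CRef := CRef.mk (Pat.mk 0x1800000038000000040000000000000000 0x2000000020000001f0000003f000000060000000400000004 6 6) 0 0 (step_sound _ 98 [rh885066b7bd8b27f9, (rheb0810cc63b001d8.shift 1 2)] (by decide +kernel))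
noncomputable def rh08b442d520f588b0 : CRef := CRef.mk (Pat.mk 0x180000001c000000000000000000000000 0x20000001b0000003f000000070000000400000004 6 6) 0 0 (step_sound _ 97 [(rh53b3c253cb0c65f4.shift 0 3), rhafa5a7051d37b143] (by decide +kernel))
noncomputable def rh949976fa5cb15df0 : CRef := CRef.mk (Pat.mk 0x180000001e0000000000000000 0x200000002000000070000001f0000003e0000000400000004 6 6) 0 0 (step_sound _ 97 [rh2d604e8bba40a4c7, (rh3244c3cc8379b070.shift 0 2)] (by decide +kernel))
noncomputable def rhcf68ae70d2549fb7 : CRef := CRef.mk (Pat.mk 0x8000000100000001c000000100000000000000000 0x80000001c0000003f000000170000001400000004 6 6) 0 0 (step_sound _ 131 [(rh7b1f1fb55310c477.shift 3 1), rha8bc06e5ccb21da0] (by decide +kernel))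
noncomputable def rhe703915caf390f05 : CRef := CRef.mk (Pat.mk 0x18000000180000001c0000000000000000 0x2000000020000001f0000001f0000007c0000000600000004 6 7) 0 0 (step_sound _ 98 [(rh7478433a598f2371.shift 1 0), rh885066b7bd8b27f9, (rhe2b63c00a3d7bb73.shift 0 2), rhf4e4690e1d4c3fc6] (by decide +kernel))
noncomputable def rhb9a14cc2bf7ca41b : CRef := CRef.mk (Pat.mk 0x80000001c000000040000001400000000 0x600000006000000060000000f0000001c000000070000003e00000002 6 6) 0 0 (step_sound _ 130 [(rh0ef6c71ce89c1c36.shift 1 0), (rh277b01412deaec89.shift 0 1), rh64d324585ca865ad, (rh771d065bdc85bf2d.shift 1 0)] (by decide +kernel))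
noncomputable def rh88d29e99557eedac : CRef := CRef.mk (Pat.mk 0x10000000000000000000000002000000020000000600000000 0x40000001f000000070000000300000002000000020000000600000004 6 5) 0 0 (step_sound _ 129 [(rh55afc6a59410cf00.shift 1 0), (rhb9471a58a9808ccb.shift 0 1)] (by decide +kernel))
noncomputable def rhe5e73707e1570203 : CRef := CRef.mk (Pat.mk 0x1800000038000000140000000000000000 0x2000000020000001f0000003f0000007c0000000600000006 6 7) 0 0 (step_sound _ 98 [rh885066b7bd8b27f9, (rha03f6e28ea70fc7d.shift 1 2), (rhba96ef4af3ed81bd.shift 1 0), rhf4e4690e1d4c3fc6] (by decide +kernel))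
noncomputable def rhcad1dfe4834d1fd2 : CRef := CRef.mk (Pat.mk 0x8000000080000001a0000000800000000 0x80000000f0000003e0000003f00000010 6 6) 0 0 (step_sound _ 36 [(rh55afc6a59410cf00.shift 3 0), (rhe9aedd59d420df23.shift 0 1)] (by decide +kernel))
noncomputable def rhb1d4c672c39fd791 : CRef := CRef.mk (Pat.mk 0x4000000000000000000000000e00000002 0x4000000040000000e00000007e00000073 6 8) 0 0 (step_sound _ 36 [(rh39e359e67ba44962.shift 1 0), rheb0810cc63b001d8] (by decide +kernel))
noncomputable def rhd361a1b8e258f449 : CRef := CRef.mk (Pat.mk 0x180000001c00000004 0xa0000000b0000001f0000003f00000004 6 6) 0 0 (step_sound _ 99 [(rh5c5e593799055d58.shift 2 0), rh8e1882cafcba546f] (by decide +kernel))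
noncomputable def rhcd88eeeeb8d03df1 : CRef := CRef.mk (Pat.mk 0x180000001c000000140000001000000000 0x200000002000000070000001f0000007c000000740000001e00000006 6 7) 0 0 (step_sound _ 34 [rh5225c68e0882bb34, (rh71222050f2c63a3a.shift 2 0)] (by decide +kernel))
noncomputable def rh40da458a77534118 : CRef := CRef.mk (Pat.mk 0x10000000000000000200000002000000020000000200000000 0x40000001f000000070000000200000002000000030000000300000001 6 5) 0 0 (step_sound _ 32 [rh932754581e0f4330, (rhd51647489ee32045.shift 0 1)] (by decide +kernel))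
noncomputable def rh11db82d3f08a1900 : CRef := CRef.mk (Pat.mk 0x100000000000000002000000020000000200000001 0x1000000070000001f0000000600000002000000020000000300000001 6 5) 0 0 (step_sound _ 129 [rh79877ebd3ef475dd, (rhc41618070c712993.shift 0 1)] (by decide +kernel))
noncomputable def rhf1e8c1c297cb0416 : CRef := CRef.mk (Pat.mk 0x28000000280000002800000000 0x170000003e0000006f0000002800000028 6 7) 0 0 (step_sound _ 100 [(rh3918eeb6c53434d8.shift 0 2), (rhb1e85508c6bcb2d1.shift 1 0), (rhd8a13c7f042cc6ea.shift 3 0)] (by decide +kernel))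
noncomputable def rh93b19dc363914c10 : CRef := CRef.mk (Pat.mk 0x10000000000000000200000002000000020000000200000000 0x1000000070000001f000000060000000200000002000000030000000300000001 6 5) 0 0 (step_sound _ 161 [rh7928877f9bf74a91, (rhc41618070c712993.shift 0 2)] (by decide +kernel))
noncomputable def rh55988728ed5b324a : CRef := CRef.mk (Pat.mk 0x28000000280000000000000000 0x14000000140000001e000000fc000001ef0000000800000008 6 9) 0 0 (step_sound _ 100 [(rh2820ca9a6c4f41b4.shift 0 2), (rh480231ab31e80384.shift 2 1), (rh8ee80cc30e93a344.shift 2 2), (rhf4e4690e1d4c3fc6.shift 1 0)] (by decide +kernel))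
noncomputable def rhd36a7d89ca14714c : CRef := CRef.mk (Pat.mk 0x80000001e000000000000000000000000 0x200000006000000070000003f0000001e000000070000000200000002 6 6) 0 0 (step_sound _ 130 [(rh04029d7e2e3adf1c.shift 0 1), (rh0e97c78c975ab610.shift 0 2), rh9878baaeb09e5ca9] (by decide +kernel))
noncomputable def rhfa9ddc4fd7f1eb21 : CRef := CRef.mk (Pat.mk 0x80000000800000000000000040000001e00000000 0x800000038000000300000003f0000001e00000030 6 6) 0 0 (step_sound _ 68 [(rh33e738c4ed385b9f.shift 1 1), rh3d5d7415de6cd1b9] (by decide +kernel))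
noncomputable def rhcf2f6ec456840809 : CRef := CRef.mk (Pat.mk 0x80000001a0000000600000002 0x100000007000000070000000f0000001e0000000600000002 6 5) 0 0 (step_sound _ 97 [rh35c5f1c53251aa1b, rh5e05da03898e7023, rhb43b15493b096632, (rhd8be3b7ca6adb62f.shift 0 2)] (by decide +kernel))
noncomputable def rha553dc0c8b2a30f4 : CRef := CRef.mk (Pat.mk 0x40000001f00000000 0x1dc000000ff000001f0 6 9) 0 0 (step_sound _ 37 [(rh167fff566cb27b75.shift 2 0), (rh2c7793d85148f0f9.shift 0 1), (rh4ad5fc38f1b69f65.shift 1 0)] (by decide +kernel))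
noncomputable def rh3b51734cfd5ac5ac : CRef := CRef.mk (Pat.mk 0x1000000010000000100000003800000000 0x80000001800000010000000ff000000fe00000007 6 8) 0 0 (step_sound _ 131 [(rh50fbb5868c909700.shift 3 1), rhe320e40b24390c6b] (by decide +kernel))
noncomputable def rh5357a77916d7d836 : CRef := CRef.mk (Pat.mk 0xc00000008000000200000003c00000000 0x2f0000007c000000200000007c000000e0 6 8) 0 0 (step_sound _ 6 [rh8faed0f84649b9fd, (rh96851dee118c1ba3.shift 2 0)] (by decide +kernel))
noncomputable def rh9d28402fdf0c02f9 : CRef := CRef.mk (Pat.mk 0x4000000000000001e00000006000000000000000000000000 0x4000000370000001e00000006000000030000000300000003 6 6) 0 0 (step_sound _ 164 [(rh33e738c4ed385b9f.shift 1 4), rh3d1f2e9b220d3b59] (by decide +kernel))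
noncomputable def rh3ca01cbd5ed32c8b : CRef := CRef.mk (Pat.mk 0x1800000018000000180000000c 0x70000001f0000001e0000007c0000000c 6 7) 0 0 (step_sound _ 37 [(rh18965a982d73c794.shift 2 0), rh8e633c2d019e1dd0] (by decide +kernel))
noncomputable def rha82d1bb5d88b22d5 : CRef := CRef.mk (Pat.mk 0x30000000300000001000000010 0xf0000003e000000770000001000000010 6 7) 0 0 (step_sound _ 99 [(rh3918eeb6c53434d8.shift 0 2), (rh50fbb5868c909700.shift 3 0)] (by decide +kernel))
noncomputable def rh605f94335facc945 : CRef := CRef.mk (Pat.mk 0x1800000010000000180000001c 0x40000001e000000770000007f0000001c 6 7) 0 0 (step_sound _ 37 [(rh18965a982d73c794.shift 2 0), rhcf7f3ebb9bd2f7e0] (by decide +kernel))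
noncomputable def rh4f71e1691a03ef23 : CRef := CRef.mk (Pat.mk 0x10000000380000001c 0x6000000060000007f0000003f0000001c 6 7) 0 0 (step_sound _ 34 [(rh98d92ab9dd718be9.shift 1 0), rhba89ab7cb81bcc90, (rhec46bd5500c722c9.shift 1 1)] (by decide +kernel))
noncomputable def rh010ba7c809afa7e3 : CRef := CRef.mk (Pat.mk 0x8000000080000001e00000004 0x70000000f0000001b0000001e00000007 6 5) 0 0 (step_sound _ 1 [rheb0810cc63b001d8, rhfdb2696429ffb75e] (by decide +kernel))
noncomputable def rh4134bf0d9a53ff6e : CRef := CRef.mk (Pat.mk 0x20000000f00000000 0xfe0000007f000000f0 6 8) 0 0 (step_sound _ 36 [(rh167fff566cb27b75.shift 1 0), (rh2aac33c566332a8c.shift 1 0), (rh790acd67f4fffd04.shift 1 1), (rh9890f9d77740bbed.shift 0 1), (rha93a5dd541ab8209.shift 1 0)] (by decide +kernel))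
noncomputable def rh330e51e681702a60 : CRef := CRef.mk (Pat.mk 0x8000000380000001800000010000000000000000000000000 0x40000000f0000003c000000180000001c0000000c0000000c0000000c 6 6) 0 0 (step_sound _ 99 [(rh46530d756bdf8511.shift 2 1), (rh53509d91ff78ed56.shift 0 3), (rh8292e11cff743ce0.shift 0 2), (rha9a9dd876407ae9a.shift 2 0)] (by decide +kernel))
noncomputable def rh3fe88affbb7e4f13 : CRef := CRef.mk (Pat.mk 0x280000000800000000000000040000001e00000000 0x200000002800000038000000300000003f0000001e00000010 6 6) 0 0 (step_sound _ 68 [(rh33e738c4ed385b9f.shift 1 1), rh554acc53d3682fd3] (by decide +kernel))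
noncomputable def rhaa3beb7004a1e218 : CRef := CRef.mk (Pat.mk 0x80000001e00000004 0x3000000030000003f0000001e00000007 6 6) 0 0 (step_sound _ 1 [rhb71cbc9f55456523, rheb0810cc63b001d8] (by decide +kernel))
noncomputable def rhb602a1e03e9f071f : CRef := CRef.mk (Pat.mk 0x100000001000000030000000200000000800000000 0x100000001f0000003e0000006f0000000800000008 6 7) 0 0 (step_sound _ 99 [(rh3918eeb6c53434d8.shift 0 2), (rhdebc43b768884653.shift 3 0)] (by decide +kernel))
noncomputable def rh0ab14ab40c5eb319 : CRef := CRef.mk (Pat.mk 0x400000005800000000 0xe70000007e00000007 6 8) 0 0 (step_sound _ 37 [(rh33e738c4ed385b9f.shift 3 1), rh551591afa7e9bd9a] (by decide +kernel))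
noncomputable def rhaa8109a4d5c525e9 : CRef := CRef.mk (Pat.mk 0x100000001400000000000000080000000a0000000000000000 0x100000001c0000000c000000080000001f0000007800000010 6 7) 0 0 (step_sound _ 131 [(rh1006c02ae4212ff0.shift 3 2), rh5ebe1f01a1ccbf88] (by decide +kernel))
noncomputable def rh7109e54bdd9169dc : CRef := CRef.mk (Pat.mk 0x100000001e00000000000000080000000e 0x170000003e00000060000000780000003e 6 7) 0 0 (step_sound _ 129 [(rh3244c3cc8379b070.shift 0 3), (rh4e8039a854d8b8c6.shift 1 0)] (by decide +kernel))
noncomputable def rh60cf39b278dc3bb4 : CRef := CRef.mk (Pat.mk 0x3800000000 0xf0000007e000000ef 6 8) 0 0 (step_sound _ 34 [(rh0edd3afef6b5d7e0.shift 1 0), (rh1a9922713ba80f42.shift 1 0), rh592c7139d2c44767, rhfdf52a061710c7fa] (by decide +kernel))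
noncomputable def rh4a9181fbc826c4de : CRef := CRef.mk (Pat.mk 0x20000001c00000000000000000000000400000000 0x30000001e00000003000000070000000700000005 6 5) 0 0 (step_sound _ 129 [(rh3244c3cc8379b070.shift 0 4), rh89a76264ab73ceb7] (by decide +kernel))
noncomputable def rh36a1ae055c31ee25 : CRef := CRef.mk (Pat.mk 0x3c00000000000000100000001400000000 0x80000003c00000006000000370000003e00000002 6 6) 0 0 (step_sound _ 98 [rhbdb56950f477f96c, (rheb0810cc63b001d8.shift 1 3)] (by decide +kernel))
noncomputable def rhfb7b2b7f3800d903 : CRef := CRef.mk (Pat.mk 0x400000007000000100000000e00000000 0x3c0000001f000000300000003e00000070 6 7) 0 0 (step_sound _ 36 [(rh33e738c4ed385b9f.shift 1 1), rhece426e6d87926cf] (by decide +kernel))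
noncomputable def rh38694c9c324ce88b : CRef := CRef.mk (Pat.mk 0x1400000000000000020000001e00000000 0x1000000070000001f00000006000000020000001e00000003 6 5) 0 0 (step_sound _ 1 [rhe4cfd34388ff6f8d, rheb0810cc63b001d8] (by decide +kernel))
noncomputable def rh30c4671047d46b83 : CRef := CRef.mk (Pat.mk 0x18000000180000001c0000000000000000 0x2000000020000001f0000001f0000007c0000000600000004 6 7) 0 0 (step_sound _ 98 [rhaed54c24fb91f24a, (rhf32f861d69cb038f.shift 1 0), (rhf56e6bc5d2f7fe77.shift 0 2)] (by decide +kernel))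
noncomputable def rhd9a687a3b8533857 : CRef := CRef.mk (Pat.mk 0x80000000a0000000a00000002000000000000000000000000 0x400000004000000040000000e0000000e0000000a0000000a000000070000000700000005 6 4) 0 0 (step_sound _ 194 [(rh5071b66f3b4bdab7.shift 1 3), rh984bfc6de6c2c524, (rhf9a6286f1d5377a2.shift 2 3)] (by decide +kernel))
noncomputable def rhef312a387b1fa939 : CRef := CRef.mk (Pat.mk 0x4000000040000000700000002000000000000000000000000 0x80000000c0000003c0000000f0000003e0000000c0000000c0000000c 6 6) 0 0 (step_sound _ 98 [(rh42afa1af9fffa0e1.shift 0 2), (rh6c59ce14113da07f.shift 2 1), (rh82c6aec0c6f8e399.shift 1 0), (rhd9397e4126e81439.shift 0 2), (rhe475cc0d4c0164b1.shift 0 2)] (by decide +kernel))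
noncomputable def rhf897c94d76815c4b : CRef := CRef.mk (Pat.mk 0x40000000700000002000000000000000000000000 0xc0000000c0000000e000000070000001e0000000c0000000400000004 6 5) 0 0 (step_sound _ 194 [(rh5c5e593799055d58.shift 1 3), rh9f0925e996c8e61d] (by decide +kernel))
noncomputable def rhf16f1e9a0c5b1487 : CRef := CRef.mk (Pat.mk 0x40000000500000007000000020000000000000000 0x4000000770000003f0000007f0000000800000008 6 7) 0 0 (step_sound _ 99 [(rh352b7f91eba0c81f.shift 0 2), (rh795d3e5d420177aa.shift 0 2), (rh9ab60d74117ac343.shift 0 2), rhc7b95363f9049b11] (by decide +kernel))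
noncomputable def rh0ed2b89c713d047f : CRef := CRef.mk (Pat.mk 0x8000000000000000400000004000000070000000000000000 0x8000000080000000c0000003e0000000f0000003c0000000c 6 6) 0 0 (step_sound _ 99 [rh4c1a60fb3c028022, (rh80f90a60d87caa0d.shift 0 2)] (by decide +kernel))
noncomputable def rh8125f50c3313160d : CRef := CRef.mk (Pat.mk 0x3c00000000 0xe0000000ff0000003c 6 8) 0 0 (step_sound _ 70 [(rh428265de8cd3cd2d.shift 2 1), rh9bac737f852d529a] (by decide +kernel))
noncomputable def rh03d3b9cf18584b40 : CRef := CRef.mk (Pat.mk 0x8000000000000000e0000000000000000 0x1800000018000000700000003e0000007f00000008 6 7) 0 0 (step_sound _ 68 [(rh06db8ceda6269a47.shift 0 1), (rh3b00e9e9432b8f40.shift 0 1), (rh65dc9ac2eea86f24.shift 1 0), (rha93a5dd541ab8209.shift 1 1)] (by decide +kernel))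
noncomputable def rhaed03d8d807cdb25 : CRef := CRef.mk (Pat.mk 0x40000000c000000000000000f00000000 0x2e0000003c000000300000001f00000038 6 6) 0 0 (step_sound _ 4 [rh96851dee118c1ba3, (rh9e5463d5e5ab9743.shift 1 0)] (by decide +kernel))
noncomputable def rh3b162f1e2e6dc291 : CRef := CRef.mk (Pat.mk 0x1000000010000000000000003000000000 0x100000001000000017000000fe000001ff 6 9) 0 0 (step_sound _ 35 [rh61a0202de37988d6, (rh9075e8e077f682b0.shift 2 0), (rhe9937ce8bcea713a.shift 2 0), rhfa6156345f526d69] (by decide +kernel))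
noncomputable def rhae50a5d81c334da4 : CRef := CRef.mk (Pat.mk 0x40000000f0000000000000002800000028 0x40000000f000000180000000fc000001ef 6 9) 0 0 (step_sound _ 71 [rhac236a24191623c6, (rhe25b0a99195a5d59.shift 4 2)] (by decide +kernel))
noncomputable def rh782390efafb02da2 : CRef := CRef.mk (Pat.mk 0x7800000000000000200000000800000000 0x10000000780000000c0000007c0000000f00000004 6 7) 0 0 (step_sound _ 99 [rhe6f7f99eaf67a1bb, (rheb0810cc63b001d8.shift 2 3)] (by decide +kernel))
noncomputable def rh104645e12aaa51da : CRef := CRef.mk (Pat.mk 0x100000000000000028000000280000000000000000 0x10000000100000001f0000007e000001ef0000000800000008 6 9) 0 0 (step_sound _ 100 [(rh16cbd58a1619e6a8.shift 3 0), (rh2820ca9a6c4f41b4.shift 0 2), (rh3918eeb6c53434d8.shift 0 2), (rh8ee80cc30e93a344.shift 2 2)] (by decide +kernel))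
noncomputable def rh818f9895cd65703b : CRef := CRef.mk (Pat.mk 0x200000002000000020000000200000000000000000000000000000000 0x200000006000000060000000600000007000000070000000700000004 6 3) 0 0 (step_sound _ 97 [rh0be2a4256982885c, (rh8cdd36b03d57a2f6.shift 0 1), (rhb15406c68698f062.shift 0 1), (rhd29a1fb688eae70f.shift 1 2)] (by decide +kernel))
noncomputable def rhdb27c4c84f54592d : CRef := CRef.mk (Pat.mk 0xe0000000f000000000000000000000000 0x200000002000000020000000e0000000f0000001d0000000c0000000c 6 5) 0 0 (step_sound _ 67 [rh6cce14c2ca471d6f, (rhe25b0a99195a5d59.shift 0 2)] (by decide +kernel))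
noncomputable def rh9d78cdd9e94f7075 : CRef := CRef.mk (Pat.mk 0x180000001e000000080000001800000000 0x1b0000001e000000f80000007c000001e4 6 9) 0 0 (step_sound _ 37 [(rh8ab1f3ada911ff43.shift 2 0), rhb607629adf202b8c, (rhdf679b8c5117b23d.shift 1 0), (rhfc7222e14a194fa6.shift 2 0)] (by decide +kernel))
noncomputable def rh35750271219aea01 : CRef := CRef.mk (Pat.mk 0x10000000000000001e0000000e00000008 0x1000000070000001f000000070000001e0000000e00000008 6 5) 0 0 (step_sound _ 130 [(rh6f1cbe15c631ee70.shift 2 0), (rha4da17fee09321fe.shift 0 1)] (by decide +kernel))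
noncomputable def rh6950163afae95e32 : CRef := CRef.mk (Pat.mk 0x4000000070000000000000000000000000 0x80000006f000000fe0000001f0000001000000010 6 8) 0 0 (step_sound _ 99 [(rh21d582c147e7e118.shift 1 2), (rh551591afa7e9bd9a.shift 0 2), (rh592c7139d2c44767.shift 1 2), (rh7fb660bc21ce4329.shift 1 3), (rhafa5a7051d37b143.shift 2 0)] (by decide +kernel))
noncomputable def rh808eed30ff57b018 : CRef := CRef.mk (Pat.mk 0x1c00000038000000100000001800000000 0x4000000040000001c0000003f000000770000001e00000006 6 7) 0 0 (step_sound _ 98 [(rh4dee6a4c2358bafa.shift 1 0), rh8f7039354bfc4ec2, (rha03f6e28ea70fc7d.shift 1 2)] (by decide +kernel))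
noncomputable def rh6bcbe5f517d76cf6 : CRef := CRef.mk (Pat.mk 0x800000018000000100000000800000000 0xc0000000c0000000c000000180000007c0000000f00000004 6 7) 0 0 (step_sound _ 163 [(rh2145e1d24b96a57e.shift 3 2), rheef32db46643edcf] (by decide +kernel))
noncomputable def rh1296427888b5b913 : CRef := CRef.mk (Pat.mk 0x60000001c0000000800000004 0x30000000300000003000000060000001f0000003f00000004 6 6) 0 0 (step_sound _ 65 [rh9013baa11ce24040, (rha03f6e28ea70fc7d.shift 0 1)] (by decide +kernel))
noncomputable def rh0c222878d2803007 : CRef := CRef.mk (Pat.mk 0x2000000000000000000000000e00000005 0x2000000020000000700000007e000000cf 6 8) 0 0 (step_sound _ 36 [rh80fcd6d0a18cb2dd, (rhb0f6945cf1c2fac0.shift 1 0)] (by decide +kernel))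
noncomputable def rh5bcc6748607a38fd : CRef := CRef.mk (Pat.mk 0x1e0000001a0000001000000000 0x40000000c0000000f0000001e0000001e0000001b00000003 6 5) 0 0 (step_sound _ 131 [(rh2145e1d24b96a57e.shift 3 1), rh4807bcad8a8ae332] (by decide +kernel))
noncomputable def rhb188102cff6c29c3 : CRef := CRef.mk (Pat.mk 0xc00000018000000180000001800000000 0xc0000007c0000001e0000001f00000007 6 7) 0 0 (step_sound _ 101 [rh091502fdd5147abf, (rhf48373e13d2bc128.shift 2 3)] (by decide +kernel))
noncomputable def rh5435e11e57d4e802 : CRef := CRef.mk (Pat.mk 0x3000000030000000200000001000000000 0xf0000003e000000f7000000f80000001e00000008 6 8) 0 0 (step_sound _ 131 [(rh3918eeb6c53434d8.shift 0 3), (rh5048d0f92f1a3960.shift 1 0), (rh6292bd8784ece55f.shift 2 3), (rhad5d8fc3675c15dd.shift 1 3)] (by decide +kernel))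
noncomputable def rhddc2a751cbad2852 : CRef := CRef.mk (Pat.mk 0x1e0000001a000000000000000000000000 0x4000000070000001e0000001e000000070000000700000005 6 5) 0 0 (step_sound _ 161 [(rh3244c3cc8379b070.shift 0 4), rhd1d8d37faf96da44] (by decide +kernel))
noncomputable def rh6e3f880f2b60b02f : CRef := CRef.mk (Pat.mk 0x20000000280000001800000018000000100000000000000000 0x2000000068000000df000000ff000000df0000000400000004 6 8) 0 0 (step_sound _ 101 [rh17796d2018aef083, (rh37aed1c9caf4a2d8.shift 2 2), (rh51e1c6fcf00b5e70.shift 3 2), (rh79b3c29022acbdf3.shift 2 3)] (by decide +kernel))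
noncomputable def rh66634620e9620dc6 : CRef := CRef.mk (Pat.mk 0x100000000000000002000000020000000200000002 0x1000000070000001f0000000700000003000000020000000200000002 6 5) 0 0 (step_sound _ 129 [rh3ca48e2a6d60153d, rh8ad27d4aa4fb1329, (rh9dbf587d2da5af8d.shift 0 1), (rhc41618070c712993.shift 0 1)] (by decide +kernel))
noncomputable def rh408575947030aee3 : CRef := CRef.mk (Pat.mk 0x5000000010000000000000001800000008000000080000000800000008 0x400000005000000070000001e0000000fc000001ef000000280000000800000008 6 9) 0 0 (step_sound _ 133 [(rh2820ca9a6c4f41b4.shift 0 3), (rh7ec3a7c6f0b8dc0f.shift 2 3), (rhf2db13b4493c546c.shift 2 2), (rhfa0fe087be6464ae.shift 2 0)] (by decide +kernel))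
noncomputable def rh9ec7ecdaaa77c3cb : CRef := CRef.mk (Pat.mk 0x1e00000002 0xe0000000ff0000003e 6 8) 0 0 (step_sound _ 4 [rh50cff516d4a16873, (rhe25b0a99195a5d59.shift 1 0)] (by decide +kernel))
noncomputable def rh0809abc0fbb36fcd : CRef := CRef.mk (Pat.mk 0x20000000e00000000 0xfe0000007f000000f8 6 8) 0 0 (step_sound _ 36 [(rh167fff566cb27b75.shift 1 0), (rh2aac33c566332a8c.shift 1 0), rh3e1b7b343686dca1, (rh790acd67f4fffd04.shift 1 1), (rha93a5dd541ab8209.shift 1 0)] (by decide +kernel))
noncomputable def rh2975d6e2987e3771 : CRef := CRef.mk (Pat.mk 0x7000000020000000200000000000000000000000000000000 0x400000007000000030000000200000002000000070000000700000005 6 3) 0 0 (step_sound _ 97 [(rh2f68792b6b779e96.shift 1 3), rhbba7d23481996066] (by decide +kernel))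
noncomputable def rh8941baf23665e2f6 : CRef := CRef.mk (Pat.mk 0xf800000020 0xe000000fe000001b7 6 9) 0 0 (step_sound _ 7 [rh2efad3051cff7df1, (rhe25b0a99195a5d59.shift 4 0)] (by decide +kernel))
noncomputable def rhd1e6aefb3fed7420 : CRef := CRef.mk (Pat.mk 0x200000002000000000000000400000007c00000010 0x200000006000000040000000470000007f000000dc 6 8) 0 0 (step_sound _ 102 [rh60ca9ad3e90a2511, (rhcfdf45280693d3da.shift 5 1)] (by decide +kernel))
noncomputable def rhb9f1da0846113dec : CRef := CRef.mk (Pat.mk 0x1a0000001e00000000 0x10000000300000003000000030000001e0000001e00000007 6 5) 0 0 (step_sound _ 1 [rhe717f931aca9c60b, rheb0810cc63b001d8] (by decide +kernel))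
noncomputable def rhc6fce18dad12aa73 : CRef := CRef.mk (Pat.mk 0x10000000e00000004 0xe30000007e000000e6 6 8) 0 0 (step_sound _ 36 [(rh3f8766e6ecb455ce.shift 0 1), (rhfa35e196e150edb4.shift 1 0)] (by decide +kernel))
noncomputable def rha50afdf6813e44b3 : CRef := CRef.mk (Pat.mk 0x1000000010000000100000003000000000 0x800000018000000180000003e000000ff0000000e 6 8) 0 0 (step_sound _ 35 [(rh932754581e0f4330.shift 3 0), rhacd1abfe38c938b7] (by decide +kernel))
noncomputable def rhd0203f94a1262055 : CRef := CRef.mk (Pat.mk 0x1800000000000000020000001e000000000000000000000000 0x40000001e00000007000000060000001e000000070000000600000006 6 5) 0 0 (step_sound _ 65 [rh34ff750a29d4d0e1, (rheb0810cc63b001d8.shift 0 2)] (by decide +kernel))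
noncomputable def rh366c9071b1db2055 : CRef := CRef.mk (Pat.mk 0x120000001e000000100000001000000000 0x120000001e000000170000003e0000002e 6 6) 0 0 (step_sound _ 65 [(rh2e48f15827b65a79.shift 1 0), (rheb0810cc63b001d8.shift 0 2)] (by decide +kernel))
noncomputable def rh1ebc468ecb90f73c : CRef := CRef.mk (Pat.mk 0xe00000002 0xf00000007e000000f3 6 8) 0 0 (step_sound _ 36 [(rh5dce78d28c627f6b.shift 1 0), rheb0810cc63b001d8] (by decide +kernel))
noncomputable def rh71dceadd0e07b1ae : CRef := CRef.mk (Pat.mk 0x40000000f800000000 0x67000000fe00000187 6 9) 0 0 (step_sound _ 34 [(rh428265de8cd3cd2d.shift 2 1), rh748ea6775b7f9a50] (by decide +kernel))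
noncomputable def rhb40fe8c4ac8565bb : CRef := CRef.mk (Pat.mk 0x80000001e00000000 0x1ef000000fe000001e0 6 9) 0 0 (step_sound _ 37 [(rh5dce78d28c627f6b.shift 2 0), (rh9c94213f6896c74a.shift 2 0), (rhd5eb272e07a4e288.shift 0 1), (rhe3060b190bc0bc78.shift 1 1)] (by decide +kernel))
noncomputable def rh2cecd1f20da9622e : CRef := CRef.mk (Pat.mk 0x40000000e00000001 0xe60000007e000000e3 6 8) 0 0 (step_sound _ 36 [rh80fcd6d0a18cb2dd, (rh9c94213f6896c74a.shift 1 0)] (by decide +kernel))
noncomputable def rhadbf54074ee49c40 : CRef := CRef.mk (Pat.mk 0x40000000f00000000 0xe70000007f000000f8 6 8) 0 0 (step_sound _ 36 [rh4ad5fc38f1b69f65, (rh9c94213f6896c74a.shift 1 0), (rhe3060b190bc0bc78.shift 0 1)] (by decide +kernel))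
noncomputable def rhad5dd1d4c96935a7 : CRef := CRef.mk (Pat.mk 0x2000000038000000000000000000000000 0x4000000370000007e0000000f0000000800000008 6 7) 0 0 (step_sound _ 98 [(rh21d582c147e7e118.shift 0 2), (rh7fb660bc21ce4329.shift 0 3), (rhafa5a7051d37b143.shift 1 0)] (by decide +kernel))
noncomputable def rh2564f7cee2121f35 : CRef := CRef.mk (Pat.mk 0x120000001e000000000000000000000000 0x7000000070000001e0000001e000000070000000600000006 6 5) 0 0 (step_sound _ 65 [rh6d475d0ca04f2880, (rheb0810cc63b001d8.shift 0 2)] (by decide +kernel))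
noncomputable def rh983ee6ed91d00a12 : CRef := CRef.mk (Pat.mk 0x20000001c000000020000000000000000 0x50000000700000007000000070000001e000000060000000600000006 6 5) 0 0 (step_sound _ 97 [(rh3244c3cc8379b070.shift 0 3), rhd01417a01441fe52] (by decide +kernel))
noncomputable def rh8542a544f803cbf0 : CRef := CRef.mk (Pat.mk 0x2000000020000000080000001c000000140000000000000000 0x22000000320000001f0000001f000000140000000400000004 6 6) 0 0 (step_sound _ 132 [(rh1006c02ae4212ff0.shift 4 2), rh885066b7bd8b27f9] (by decide +kernel))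
noncomputable def rhaca2be09f5621c86 : CRef := CRef.mk (Pat.mk 0x3000000000000000160000000e00000000 0x60000003e000000070000001e0000000f00000008 6 6) 0 0 (step_sound _ 67 [rh3d783b671815c934, (rheb0810cc63b001d8.shift 0 1)] (by decide +kernel))
noncomputable def rh5dcfc86e76340f97 : CRef := CRef.mk (Pat.mk 0x100000000000000018000000020000000200000002 0x40000001f000000070000001f000000030000000200000002 6 5) 0 0 (step_sound _ 97 [rh0102e0f3a8fa944d, rh32019bf1263c37aa, rhb9471a58a9808ccb, rhc85cc95794737cf7] (by decide +kernel))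
noncomputable def rh0e80cf0ae8f04b90 : CRef := CRef.mk (Pat.mk 0x18000000020000000200000002000000000000000000000000 0x70000001f000000060000000200000002000000070000000700000005 6 5) 0 0 (step_sound _ 194 [(rh11db11650236b5ac.shift 0 3), rh984bfc6de6c2c524] (by decide +kernel))
noncomputable def rhd1170f0b06c28221 : CRef := CRef.mk (Pat.mk 0x100000000000000018000000020000000200000002 0x40000001f000000070000003f000000070000000200000002 6 6) 0 0 (step_sound _ 97 [rh0102e0f3a8fa944d, rh32019bf1263c37aa, (rha4116840cc282390.shift 0 2), rhb9471a58a9808ccb, rhc85cc95794737cf7] (by decide +kernel))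
noncomputable def rhd1eaabbbb651379a : CRef := CRef.mk (Pat.mk 0x10000000000000001e0000000200000002 0x1000000070000001f000000070000001e0000000200000002 6 5) 0 0 (step_sound _ 97 [(rh3244c3cc8379b070.shift 0 2), rhc41618070c712993] (by decide +kernel))
noncomputable def rh4bf563342507cf12 : CRef := CRef.mk (Pat.mk 0x5000000058000000000000000000000000 0x8000000080000001c0000007f0000007e0000001f0000000800000008 6 7) 0 0 (step_sound _ 101 [(rh21d582c147e7e118.shift 1 2), (rh551591afa7e9bd9a.shift 0 2), (rh88129595a1b18399.shift 2 0), (rh89dce623fa74f28c.shift 2 2), (rh96a08700f8ae5abb.shift 1 2)] (by decide +kernel))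
noncomputable def rh50917131082a6d3c : CRef := CRef.mk (Pat.mk 0x140000003c0000000800000000 0xe0000000f0000001c0000003c0000000e00000004 6 6) 0 0 (step_sound _ 34 [rhb139f9b8439fa6f2, (rheb0810cc63b001d8.shift 1 1)] (by decide +kernel))
noncomputable def rhf7db6ab2f71011ce : CRef := CRef.mk (Pat.mk 0x20000000380000000000000000 0x8000000080000003f0000007e0000000700000004 6 7) 0 0 (step_sound _ 66 [(rh21460d2d48a35cb8.shift 1 0), (rh21d582c147e7e118.shift 0 1), (rh592c7139d2c44767.shift 0 1), (rh7fb660bc21ce4329.shift 0 2)] (by decide +kernel))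
noncomputable def rh7b5944e255a6a1fe : CRef := CRef.mk (Pat.mk 0xe0000000200000000 0x40000000400000006000000070000003e0000000300000002 6 6) 0 0 (step_sound _ 68 [(rheb0810cc63b001d8.shift 0 1), rhf6271806d5dafbc1] (by decide +kernel))
noncomputable def rh9a42962339040345 : CRef := CRef.mk (Pat.mk 0x400000007000000040 0x670000007e000000c7 6 8) 0 0 (step_sound _ 35 [rh551591afa7e9bd9a, (rhe25b0a99195a5d59.shift 3 0)] (by decide +kernel))
noncomputable def rh22bc9d46c0dc19ea : CRef := CRef.mk (Pat.mk 0x2000000020000000000000001e000000140000000000000000 0x28000000380000001c0000001f000000170000000400000004 6 6) 0 0 (step_sound _ 65 [rh0e8fac34037298f5, (rheb0810cc63b001d8.shift 0 2)] (by decide +kernel))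
end Crest.Agent.S0047.Helper85.Cert
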