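import Crest.Agent.Lib.S0047.Helper85CertPL5F0
import Crest.Agent.Lib.S0047.Helper85CertPL5F1
import Crest.Agent.Lib.S0047.Helper85CertPL5F2
import Crest.Agent.Lib.S0047.Helper85CertPL5F3
import Crest.Agent.Lib.S0047.Helper85CertPL5F4
import Crest.Agent.Lib.S0047.Helper85CertPL5F5
import Crest.Agent.Lib.S0047.Helper85CertPL5F6
import Crest.Agent.Lib.S0047.Helper85CertPL5F7
import Crest.Agent.Lib.S0047.Helper85CertPL5F8
import Crest.Agent.Lib.S0047.Helper85CertPL5F9
import Crest.Agent.Lib.S0047.Helper85CertPL5F10
import Crest.Agent.Lib.S0047.Helper85CertPL5F11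
import Crest.Agent.Lib.S0047.Helper85CertPL5F12
set_option autoImplicit false
set_option linter.all false
set_option Elab.async false
namespace Crest.Agent.S0047.Helper85.Cert
open Crest.Agent.S0047.Helper85

noncomputable def rhdfe0d210c70a591a : CRef := CRef.mk (Pat.mk 0x2800000008000000000000000f00000004 0x2800000038000000f00000007f000000fc 6 8) 0 0 (step_sound _ 36 [(rh3dc35a93621e0713.shift 1 0), rh4ad5fc38f1b69f65, (rh9ca629c497d227ee.shift 1 0), (rhb677d5483aaebfd8.shift 1 0), (rhdbe30b89b8872db3.shift 1 0)] (by decide +kernel))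
noncomputable def rh62011783c31e649e : CRef := CRef.mk (Pat.mk 0x1000000010000000020000000a0000000a00000000 0x5000000170000001f0000000b0000000b0000000b00000001 6 5) 0 0 (step_sound _ 131 [(rh04253f50b6dd0619.shift 3 1), rhf9d2abd7dfa4b4aa] (by decide +kernel))
noncomputable def rh66db805c0bbd1611 : CRef := CRef.mk (Pat.mk 0x3800000010000000100000001000000000 0x70000003e0000003f0000001c0000001800000008 6 6) 0 0 (step_sound _ 35 [(rh932754581e0f4330.shift 3 0), (rh9b03693b5fc008ff.shift 0 1)] (by decide +kernel))
noncomputable def rh040b22608c41e90d : CRef := CRef.mk (Pat.mk 0x100000000000000018000000020000000200000002 0x40000001f000000070000001f000000030000000200000002 6 5) 0 0 (step_sound _ 97 [rh0102e0f3a8fa944d, rh32019bf1263c37aa, rhb9471a58a9808ccb] (by decide +kernel))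
noncomputable def rh4c3b4a849b1027d2 : CRef := CRef.mk (Pat.mk 0x1000000010000000020000000a0000000a000000000000000000000000 0x100000001d0000000f0000001b0000000a000000070000000700000005 6 5) 0 0 (step_sound _ 163 [(rh1006c02ae4212ff0.shift 3 3), rh288d5a0b571ff598] (by decide +kernel))
noncomputable def rhaac76420fb8862c0 : CRef := CRef.mk (Pat.mk 0x40000000400000000000000028000000280000000000000000 0x44000000c40000018e000000fc000001ef0000000800000008 6 9) 0 0 (step_sound _ 100 [(rh2820ca9a6c4f41b4.shift 0 2), (rh4162d37c21748ae0.shift 2 2), (rhf4e4690e1d4c3fc6.shift 1 0)] (by decide +kernel))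
noncomputable def rh75797a307df00655 : CRef := CRef.mk (Pat.mk 0x80000000000000000000000090000000c00000008000000000000000000000000 0x8000000180000001c0000000f0000000c000000080000001c0000001c00000014 6 5) 0 0 (step_sound _ 162 [(rh0a6888916bcef86b.shift 2 0), (rha72bf666c45f9c99.shift 0 3)] (by decide +kernel))
noncomputable def rh25df610afc8a06c4 : CRef := CRef.mk (Pat.mk 0x80000000a0000001a0000000000000000 0x2000000020000000b0000003e0000003e0000007400000010 6 7) 0 0 (step_sound _ 66 [(rh2aac33c566332a8c.shift 1 1), (rh625dde73e665edc8.shift 1 0), (rhb24f99e7c4735939.shift 0 1)] (by decide +kernel))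
noncomputable def rh3be70ec8769870df : CRef := CRef.mk (Pat.mk 0x20000001e000000000000000000000000 0x50000000700000007000000060000001e000000070000000600000004 6 5) 0 0 (step_sound _ 65 [rh937147bc63260665, (rheb0810cc63b001d8.shift 0 2)] (by decide +kernel))
noncomputable def rh1d884ac29e11c21e : CRef := CRef.mk (Pat.mk 0x140000000c000000040000002000000000 0xe0000000f0000001c0000000c0000000c0000007c0000001c 6 7) 0 0 (step_sound _ 67 [(rh55a1f6c57a317ce6.shift 2 0), (rha40d42a2e34c408d.shift 2 0), (rhb139f9b8439fa6f2.shift 0 1), (rhe0495e46ff6fc22b.shift 2 0)] (by decide +kernel))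
noncomputable def rh3d628e1523de5159 : CRef := CRef.mk (Pat.mk 0x3800000000000000140000003400000000 0x60000007e0000000f0000001e000000f400000004 6 8) 0 0 (step_sound _ 67 [rh8b7c9f592041d36d, (rhb739f4f82bb681b4.shift 1 1)] (by decide +kernel))
noncomputable def rha4d4c393798a804f : CRef := CRef.mk (Pat.mk 0x2000000038000000000000000000000000 0x80000003f0000007e000000070000000400000004 6 7) 0 0 (step_sound _ 98 [(rh21d582c147e7e118.shift 0 2), (rh6076add87d5fdaa7.shift 1 0), (rh7fb660bc21ce4329.shift 0 3)] (by decide +kernel))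
noncomputable def rhb6ffd38297a2b0a4 : CRef := CRef.mk (Pat.mk 0x2000000020000000200000000000000000000000000000000 0x10000000300000007000000060000000700000007000000070000000700000001 6 3) 0 0 (step_sound _ 97 [(rh565a0c22519f57e9.shift 0 2), (rh8065c10b3cae6218.shift 0 2), rhf62e0bde5b9f0689] (by decide +kernel))
noncomputable def rha66aedb5034a3914 : CRef := CRef.mk (Pat.mk 0x80000000800000008000000180000000000000000 0x80000001c0000001f0000007c000000180000000800000008 6 7) 0 0 (step_sound _ 100 [(rh2145e1d24b96a57e.shift 3 2), rhf04e99053436d749] (by decide +kernel))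
noncomputable def rha77f4270ff83068f : CRef := CRef.mk (Pat.mk 0x20000000f000000020 0x1f0000000fe00000067 6 9) 0 0 (step_sound _ 71 [rh0ed5a7dfaa0ce6c5, (rh33e738c4ed385b9f.shift 4 1)] (by decide +kernel))
noncomputable def rhed7672605ccf0247 : CRef := CRef.mk (Pat.mk 0x8000000180000000e0000000000000000 0x40000000c0000001f0000003e0000003300000012 6 6) 0 0 (step_sound _ 68 [rh21460d2d48a35cb8, (rh78974448101547fe.shift 1 0)] (by decide +kernel))
noncomputable def rh86a3d2e7b95db50e : CRef := CRef.mk (Pat.mk 0x100000007000000008 0x3c0000007f000000ec 6 8) 0 0 (step_sound _ 35 [rh724886eb9c465b0a, (rheb0810cc63b001d8.shift 2 0)] (by decide +kernel))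
noncomputable def rhd64a9a9603ddda18 : CRef := CRef.mk (Pat.mk 0x10000000000000001a0000001e0000000000000000 0x40000001f000000070000001e0000001e0000000700000004 6 5) 0 0 (step_sound _ 33 [rhd4904aee7a311794, (rheb0810cc63b001d8.shift 0 1)] (by decide +kernel))
noncomputable def rh73981df1da71b7b1 : CRef := CRef.mk (Pat.mk 0x90000000b000000080000000800000000 0x1000000010000000b0000000b0000000f0000003e00000016 6 6) 0 0 (step_sound _ 34 [(rh932754581e0f4330.shift 2 0), rhd8cbf4a778a40184] (by decide +kernel))
noncomputable def rhba4fc5b8738de410 : CRef := CRef.mk (Pat.mk 0x90000000b000000080000000e00000000 0x1000000010000000b0000000b000000ee0000007e000000f0 6 8) 0 0 (step_sound _ 36 [rh25ed62f4e62fba3b, (rh55afc6a59410cf00.shift 3 0)] (by decide +kernel))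
noncomputable def rh8e7b04f0bc1aed42 : CRef := CRef.mk (Pat.mk 0xc0000000f000000000000000200000000 0xc0000000f0000001c0000001e0000001f 6 5) 0 0 (step_sound _ 67 [rh71da28ba1c72137c, (rhe25b0a99195a5d59.shift 0 2)] (by decide +kernel))
noncomputable def rh9dfedc27f05bd608 : CRef := CRef.mk (Pat.mk 0x30000000300000000000000000 0x80000000e000000fe0000007e000000f700000010 6 8) 0 0 (step_sound _ 67 [(rh0568b7ab013f43a7.shift 0 1), (rh2b0b4f8fe0be8394.shift 1 1), (rh3c5e373b2fb94698.shift 1 0), (rh8522c6bc3a1a8270.shift 1 1), (rhab2ad169e49f9c5e.shift 1 2)] (by decide +kernel))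
noncomputable def rhe7aff87fd8558c86 : CRef := CRef.mk (Pat.mk 0x20000000000000001800000018000000000000000000000000 0xc0000003c0000000f0000007c000000180000001c0000001c0000000c 6 7) 0 0 (step_sound _ 163 [(rh4bf8c03067d58b2e.shift 0 2), (rh55a1f6c57a317ce6.shift 3 1), rh7392609c29b4875a] (by decide +kernel))
noncomputable def rh22236f6a88f34b3d : CRef := CRef.mk (Pat.mk 0x2000000000000000180000001c000000000000000000000000 0xc0000003c0000000f000000180000003c0000001f0000001c0000001c 6 6) 0 0 (step_sound _ 163 [(rh37d9ceebb86d75d1.shift 2 2), rh3f50d483717e304c, (rh4bf8c03067d58b2e.shift 0 2), (rh55a1f6c57a317ce6.shift 3 1)] (by decide +kernel))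
noncomputable def rh0aec30edcdcfd7b2 : CRef := CRef.mk (Pat.mk 0x180000001c000000000000000000000000 0x800000008000000180000003f0000000f0000000400000004 6 6) 0 0 (step_sound _ 97 [(rh53b3c253cb0c65f4.shift 0 3), rh7841066313475086] (by decide +kernel))
noncomputable def rh700ceab276ec67cf : CRef := CRef.mk (Pat.mk 0x380000001c0000000000000000 0x200000006000000070000003f0000003c0000000c0000000c 6 6) 0 0 (step_sound _ 98 [(rh38a0850c9fea941e.shift 1 0), (rhad5d8fc3675c15dd.shift 0 2), (rhba89ab7cb81bcc90.shift 0 2), rhf4e4690e1d4c3fc6] (by decide +kernel))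
noncomputable def rh6ae21157da276552 : CRef := CRef.mk (Pat.mk 0x180000001e000000000000000000000000 0x180000003e0000003f0000003000000030 6 6) 0 0 (step_sound _ 68 [rhba4acffaa2641870, (rhe25b0a99195a5d59.shift 1 2)] (by decide +kernel))
noncomputable def rh9bfd2ebd00fee012 : CRef := CRef.mk (Pat.mk 0x180000000e0000000a0000000000000000 0x1b0000001e0000003f0000003000000030 6 6) 0 0 (step_sound _ 100 [rh7013de74b17af9c7, (rheb0810cc63b001d8.shift 0 2)] (by decide +kernel))
noncomputable def rhf4cb22eed2bebbf5 : CRef := CRef.mk (Pat.mk 0x80000001800000018000000000000000000000000 0x40000000c0000001f000000380000001f0000001c00000008 6 6) 0 0 (step_sound _ 68 [(rh7b1f1fb55310c477.shift 3 1), rhe59d6e78b3a0b690] (by decide +kernel))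
noncomputable def rhf01bbe3337a5d489 : CRef := CRef.mk (Pat.mk 0x1000000010000000000000000e0000000c0000000000000000 0x1200000032000000670000007e0000006c0000000400000004 6 7) 0 0 (step_sound _ 129 [(rh5e1cce6794b94189.shift 0 2), (rhc2c7bae8f445c890.shift 1 0)] (by decide +kernel))
noncomputable def rh8418a79b79046e93 : CRef := CRef.mk (Pat.mk 0x20000000000000001800000018000000000000000000000000 0xc0000003c0000000f00000018000000780000001e0000001c0000001c 6 7) 0 0 (step_sound _ 163 [(rh4bf8c03067d58b2e.shift 0 2), (rh55a1f6c57a317ce6.shift 3 1), (rha7360cc2d941309a.shift 1 0)] (by decide +kernel))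
noncomputable def rh6d7e602c7b52fbbc : CRef := CRef.mk (Pat.mk 0x80000000800000000000000060000001600000000 0x800000038000000300000003f0000001e00000030 6 6) 0 0 (step_sound _ 35 [(rh3244c3cc8379b070.shift 0 1), (rh7cf4cc65f89ff878.shift 1 0)] (by decide +kernel))
noncomputable def rh0f0b5086ab56197a : CRef := CRef.mk (Pat.mk 0x40000000400000000000000030000000b00000000 0x40000001c000000180000001f0000001f00000018 6 5) 0 0 (step_sound _ 34 [rh7cf4cc65f89ff878, (rhf48373e13d2bc128.shift 0 1)] (by decide +kernel))
noncomputable def rhe673baf37e340621 : CRef := CRef.mk (Pat.mk 0x40000000400000000000000080000000b000000000000000000000000 0x40000001c00000018000000180000000b0000001e0000001c00000014 6 5) 0 0 (step_sound _ 163 [rh2323bf9026c6ba06, (rhcfdf45280693d3da.shift 2 3)] (by decide +kernel))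
noncomputable def rh11dc80fa34316fed : CRef := CRef.mk (Pat.mk 0x600000006000000030000000200000000 0x60000000e0000001b0000001f0000001d 6 5) 0 0 (step_sound _ 32 [rh0c24fd1f6e8beccc, rh932754581e0f4330] (by decide +kernel))
noncomputable def rh5a97d4715e8dc358 : CRef := CRef.mk (Pat.mk 0x80000000800000000000000000000000e0000000200000000 0x80000001800000010000000700000003f0000007e00000008 6 7) 0 0 (step_sound _ 68 [rh1e62cc755ec1c18b, (rhd584a578337d0023.shift 1 1), (rhf3baec4a0a3dd35e.shift 1 1)] (by decide +kernel))
noncomputable def rh431713d3d1936f8e : CRef := CRef.mk (Pat.mk 0x80000000800000000000000000000000e0000000200000000 0x80000001800000010000000300000001f0000003b00000008 6 6) 0 0 (step_sound _ 68 [rh1e62cc755ec1c18b, (rheb0810cc63b001d8.shift 0 1)] (by decide +kernel))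
noncomputable def rhfac3e0d9c2cfdf19 : CRef := CRef.mk (Pat.mk 0x1c00000018000000000000001c 0x30000001f0000001b000000070000001f 6 5) 0 0 (step_sound _ 97 [rh54d147a1c45b3ccb, (rhb739f4f82bb681b4.shift 0 2)] (by decide +kernel))
noncomputable def rhecab8d346317b143 : CRef := CRef.mk (Pat.mk 0x1000000018000000080000000800000000 0x40000000c0000001f00000078000000780000001e00000014 6 7) 0 0 (step_sound _ 131 [(rh85480f11efc1e555.shift 1 0), (rhbad6ff9bdc3f8001.shift 2 0), (rhc647a25a08ddf0ec.shift 0 1), (rhcf85c92937975d4d.shift 1 1)] (by decide +kernel))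
noncomputable def rhdb59abeef17dd46c : CRef := CRef.mk (Pat.mk 0x100000003c0000000c00000000 0xe0000000f0000001e0000003c0000000c00000004 6 6) 0 0 (step_sound _ 98 [(rh3244c3cc8379b070.shift 1 2), rhb139f9b8439fa6f2] (by decide +kernel))
noncomputable def rh0a6f9830ab03c5c4 : CRef := CRef.mk (Pat.mk 0x10000000180000000e000000000000000000000000 0x80000001a0000001b0000003e000000370000001400000004 6 6) 0 0 (step_sound _ 100 [(rh78667e4559992c20.shift 1 1), rhafa5a7051d37b143] (by decide +kernel))
noncomputable def rh88f9eb48151f238a : CRef := CRef.mk (Pat.mk 0x80000000c000000040000000000000000 0x2000000060000000f0000003c0000000e0000000e0000000e 6 6) 0 0 (step_sound _ 34 [(rh71222050f2c63a3a.shift 2 0), rh906e4d41718d774b] (by decide +kernel))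
noncomputable def rhc4a6c2d92e402008 : CRef := CRef.mk (Pat.mk 0x1000000018000000080000000000000000 0x40000000c0000001f000000380000001c0000001c0000001c 6 6) 0 0 (step_sound _ 35 [rh41e1b03fec3d34e4, (rh71222050f2c63a3a.shift 3 0)] (by decide +kernel))
noncomputable def rh7e3346c07b3f20fa : CRef := CRef.mk (Pat.mk 0x100000001c000000000000000000000000 0x4000000170000007e000000fe0000000800000008 6 8) 0 0 (step_sound _ 101 [(rh06db8ceda6269a47.shift 1 2), (rh0d378fd9e8917c5a.shift 0 2), (rh2395824d1086e2bc.shift 1 0)] (by decide +kernel))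
noncomputable def rhabd0c20440242261 : CRef := CRef.mk (Pat.mk 0x1c000000180000000000000000 0x4000000040000003f0000001f0000000300000002 6 6) 0 0 (step_sound _ 97 [(rhb739f4f82bb681b4.shift 0 2), rhe1b350e936a4b1aa] (by decide +kernel))
noncomputable def rh998d2346b51187bd : CRef := CRef.mk (Pat.mk 0x1c000000180000000000000000 0x2000000030000003f0000001f0000000400000004 6 6) 0 0 (step_sound _ 97 [rhafa5a7051d37b143, (rhb739f4f82bb681b4.shift 0 2)] (by decide +kernel))
noncomputable def rhf30efa8202c91a19 : CRef := CRef.mk (Pat.mk 0x2000000020000000000000001e00000018 0x2000000060000000c7000000fe000000d8 6 8) 0 0 (step_sound _ 65 [(rh3244c3cc8379b070.shift 0 1), (rhdd74c1683d4052f6.shift 1 0)] (by decide +kernel))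
noncomputable def rh02442741c13cb048 : CRef := CRef.mk (Pat.mk 0x20000001c00000002000000000000000000000000 0x600000006000000060000001e00000007000000070000000700000005 6 5) 0 0 (step_sound _ 129 [rh66d8a35d318c3215, (rheb0810cc63b001d8.shift 0 3)] (by decide +kernel))
noncomputable def rh499173a6d02e3ca5 : CRef := CRef.mk (Pat.mk 0x20000000200000000000000018000000180000000000000000 0x2400000064000000c7000000ff000000df0000000800000008 6 8) 0 0 (step_sound _ 101 [(rh2612b4f73ba7c3b3.shift 2 2), (rh4ab6fb4bdbc94f50.shift 3 2), rh7ba9e957e91459b3] (by decide +kernel))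
noncomputable def rh02f58afa5e3b8441 : CRef := CRef.mk (Pat.mk 0x200000006000000120000001000000000 0x60000000600000006000000060000001e0000003f00000005 6 6) 0 0 (step_sound _ 66 [(rh44db075ab2be56d3.shift 1 0), (rh55a1f6c57a317ce6.shift 1 0), rh987b83cff2edc5a1] (by decide +kernel))
noncomputable def rhf0fe7b2d87944c7e : CRef := CRef.mk (Pat.mk 0xc0000000e0000000000000000 0x4000000040000003f0000007e0000007300000002 6 7) 0 0 (step_sound _ 101 [(rh361cc68994bd8a63.shift 1 2), rh4342d2711953e832] (by decide +kernel))
noncomputable def rh1a2aab9c32dc0480 : CRef := CRef.mk (Pat.mk 0x200000002000000000000000400000007000000000000000000000000 0x20000000e0000000c0000000c000000070000001e0000000e0000000a 6 5) 0 0 (step_sound _ 162 [rh917636203298f252, (rhcfdf45280693d3da.shift 1 3)] (by decide +kernel))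
noncomputable def rhc203e8da3b660c3b : CRef := CRef.mk (Pat.mk 0x80000000800000000000000060000000e0000000000000000 0x80000001800000010000000360000003f0000003800000008 6 6) 0 0 (step_sound _ 68 [rh1e62cc755ec1c18b, (rhf48373e13d2bc128.shift 1 2)] (by decide +kernel))
noncomputable def rheb18e89817c02915 : CRef := CRef.mk (Pat.mk 0xd0000000d000000090000000000000000 0xd0000000d0000000b0000001f0000001f 6 5) 0 0 (step_sound _ 35 [(rh7b1f1fb55310c477.shift 2 0), rhd69d31ad6b6c8ab3] (by decide +kernel))
noncomputable def rh89bc7773e58984ce : CRef := CRef.mk (Pat.mk 0x20000000200000000000000070000000180000000000000000 0x2400000064000000ce0000007f000000f80000000800000008 6 8) 0 0 (step_sound _ 99 [(rh0d378fd9e8917c5a.shift 1 2), (rh15a2b73944acc7e4.shift 0 2), (rh6797c410c820e91e.shift 3 2), (rh8c4334def4dd9d2b.shift 1 0)] (by decide +kernel))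
noncomputable def rh82090ec55eeaade9 : CRef := CRef.mk (Pat.mk 0x2000000020000000600000006000000000000000000000000 0x2000000060000001f0000003f000000390000000800000008 6 6) 0 0 (step_sound _ 96 [(rh932754581e0f4330.shift 0 2), rhe05f7033153303be] (by decide +kernel))
noncomputable def rh8435f16c73c7f2d9 : CRef := CRef.mk (Pat.mk 0x200000002000000060000000200000000000000000000000000000000 0x200000002000000060000000600000007000000070000000700000004 6 3) 0 0 (step_sound _ 97 [(rh6eff4158bb400f47.shift 0 1), rh8a1bd34420cccc7f, (rh96f119fce01cb5f6.shift 0 1), (rhd29a1fb688eae70f.shift 1 2)] (by decide +kernel))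
noncomputable def rh4ba4898ba561af3f : CRef := CRef.mk (Pat.mk 0x20000000f000000040000000000000000 0x10000000100000003e0000003f0000001e0000000800000008 6 6) 0 0 (step_sound _ 67 [(rh68246db50bae41b7.shift 1 0), (rhe25b0a99195a5d59.shift 0 2)] (by decide +kernel))
noncomputable def rh245a574770208525 : CRef := CRef.mk (Pat.mk 0x100000000000000002000000020000001e00000004 0x10000000180000003b0000003e0000001f00000004 6 6) 0 0 (step_sound _ 68 [rh255ff363607cf503, (rh33e738c4ed385b9f.shift 1 1)] (by decide +kernel))
noncomputable def rhaa03c26b0cd09fca : CRef := CRef.mk (Pat.mk 0xe0000001c000000000000000000000000 0x80000000c0000003e0000001e0000003b0000001200000012 6 6) 0 0 (step_sound _ 97 [(rh1ef20da3c41534a7.shift 1 0), rh9a011a4d0ec8f646] (by decide +kernel))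
noncomputable def rhf530a7b6dc94bfc6 : CRef := CRef.mk (Pat.mk 0x700000006000000020000000000000000 0xc0000003c0000000f0000001e0000000e0000000c0000000c 6 6) 0 0 (step_sound _ 99 [rhb601f94d4be73af1, (rhf48373e13d2bc128.shift 0 3)] (by decide +kernel))
noncomputable def rh1c110b532cc33039 : CRef := CRef.mk (Pat.mk 0x7000000060000000000000000 0x8000000080000007c0000003f000000770000000400000004 6 7) 0 0 (step_sound _ 99 [(rh2612b4f73ba7c3b3.shift 0 2), (rh352b7f91eba0c81f.shift 0 2), rhf60cdf71a14eca6b] (by decide +kernel))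
noncomputable def rh73d91be13d4f0de7 : CRef := CRef.mk (Pat.mk 0x8000000080000000e00000000000000000000000000000000 0x80000000c0000000f0000007c0000001c0000001c00000010 6 7) 0 0 (step_sound _ 99 [(rhb0c6196f710d9a93.shift 1 2), (rhbdde238153e38af9.shift 0 2), (rhc21a95c499b3efdb.shift 0 3), (rhed841d9ebc5dd0e1.shift 2 0)] (by decide +kernel))
noncomputable def rh904a690f3c54c5f2 : CRef := CRef.mk (Pat.mk 0x8000000000000000400000004000000070000000000000000 0x800000008000000080000000c0000003e000000070000003e0000000c 6 6) 0 0 (step_sound _ 131 [rh1df732f43dde5891, (rha5c1ac488360e009.shift 2 1), (rhb009278fdd334770.shift 2 2)] (by decide +kernel))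
noncomputable def rh725cc2ef7c09644d : CRef := CRef.mk (Pat.mk 0x100000000000000008000000080000000e0000000000000000 0x100000001000000018000000180000000f0000007c00000018 6 7) 0 0 (step_sound _ 100 [(rh53b3c253cb0c65f4.shift 0 2), (rhb9099e001c81485c.shift 1 0)] (by decide +kernel))
noncomputable def rhb3f7266c124d38dc : CRef := CRef.mk (Pat.mk 0x40000000400000000000000020000000e0000000000000000 0x40000000c00000008000000fe0000007f000000f000000010 6 8) 0 0 (step_sound _ 68 [(rh167fff566cb27b75.shift 1 1), (rh2aac33c566332a8c.shift 1 1), (rh790acd67f4fffd04.shift 1 2), (rha93a5dd541ab8209.shift 1 1), rhadeaccf665c08ecc] (by decide +kernel))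
noncomputable def rhc88e6b4a72a51381 : CRef := CRef.mk (Pat.mk 0x20000000e000000000000000000000000 0x10000000f60000007f000000f80000000800000008 6 8) 0 0 (step_sound _ 100 [(rh167fff566cb27b75.shift 1 2), (rh2aac33c566332a8c.shift 1 2), (rh790acd67f4fffd04.shift 1 3), rhc02275ce183c9512] (by decide +kernel))
noncomputable def rhb4a1cc4adbbc454a : CRef := CRef.mk (Pat.mk 0x1000000010000000380000001000000000 0x10000000170000003e0000007700000020 6 7) 0 0 (step_sound _ 37 [(rh55afc6a59410cf00.shift 4 0), (rhc92c11e8da6c894f.shift 0 1)] (by decide +kernel))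
noncomputable def rh819b3a811858306f : CRef := CRef.mk (Pat.mk 0x4000000040000000e000000040000000000000000 0x4000000740000003e0000007f0000001c00000008 6 7) 0 0 (step_sound _ 100 [(rh35e918dd76851f8c.shift 1 2), (rhaf9f2efc81a8312b.shift 0 2), (rhe9663b50e1aef87e.shift 1 0)] (by decide +kernel))
noncomputable def rh46ee5e638df64166 : CRef := CRef.mk (Pat.mk 0x100000007000000080 0x370000007e000000ce 6 8) 0 0 (step_sound _ 35 [rh3960f63bb99cbbd9, (rh96851dee118c1ba3.shift 3 0)] (by decide +kernel))
noncomputable def rh61cd35dd66dff74b : CRef := CRef.mk (Pat.mk 0x200000002000000000000000400000007800000000 0x200000006000000040000000670000007e00000070 6 7) 0 0 (step_sound _ 134 [(rh2613c889e411427e.shift 5 1), rha2e182fd6274be10] (by decide +kernel))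
noncomputable def rhff7cad73b215a905 : CRef := CRef.mk (Pat.mk 0x800000007000000000 0xc70000007e0000007f 6 8) 0 0 (step_sound _ 35 [(rh428265de8cd3cd2d.shift 3 1), rh43410a0e2beb6677] (by decide +kernel))
noncomputable def rhb3900a4f3f103126 : CRef := CRef.mk (Pat.mk 0x100000000000000002000000020000000e00000004 0x100000001000000033000000fe0000007f000000ec 6 8) 0 0 (step_sound _ 36 [(rh167fff566cb27b75.shift 1 0), (rh468b3601873f3f2a.shift 0 1), (rh6d3439b2ebcbd624.shift 1 0), (rh790acd67f4fffd04.shift 1 1), (rhda98f5cded33c272.shift 1 0)] (by decide +kernel))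
noncomputable def rhf87103f77a8c33b0 : CRef := CRef.mk (Pat.mk 0x8000000080000000f00000000000000000000000000000000 0x80000000c0000000f0000001c0000001c0000001c00000010 6 5) 0 0 (step_sound _ 99 [(rhe25b0a99195a5d59.shift 0 3), (rhed841d9ebc5dd0e1.shift 2 0)] (by decide +kernel))
noncomputable def rh02c7cdbf40b73d2c : CRef := CRef.mk (Pat.mk 0x200000007000000080 0x670000007e000000c7 6 8) 0 0 (step_sound _ 35 [(rh96851dee118c1ba3.shift 3 0), rha4e887c2a2a0f60b] (by decide +kernel))
noncomputable def rhf2802af942290794 : CRef := CRef.mk (Pat.mk 0x20000000f00000000 0xe60000007f000000fc 6 8) 0 0 (step_sound _ 36 [(rh167fff566cb27b75.shift 1 0), rh213232d4567b81f0, (rh2aac33c566332a8c.shift 1 0), rh4ad5fc38f1b69f65] (by decide +kernel))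
noncomputable def rh00884b217a316448 : CRef := CRef.mk (Pat.mk 0xa0000000200000000000000010000000f0000000000000000 0xa0000001e0000001c0000001f0000000f0000001800000008 6 5) 0 0 (step_sound _ 35 [rh9b086622e277d2b1, (rhe25b0a99195a5d59.shift 0 1)] (by decide +kernel))
noncomputable def rhbf97bb6b2e703b2d : CRef := CRef.mk (Pat.mk 0x100000001000000000000000200000002000000040000000000000000 0x100000007000000060000000600000002000000070000000700000001 6 3) 0 0 (step_sound _ 161 [rh0fd65e3cf503e830, (rhcfdf45280693d3da.shift 0 3)] (by decide +kernel))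
noncomputable def rhe8fcc31ecfba8be9 : CRef := CRef.mk (Pat.mk 0x4000000040000000e000000000000000000000000 0x4000000f40000007e000000f70000000200000002 6 8) 0 0 (step_sound _ 100 [rh1e8d6e1ef30e2d92, (rh5dce78d28c627f6b.shift 1 2)] (by decide +kernel))
noncomputable def rh41e5c97375b3cd26 : CRef := CRef.mk (Pat.mk 0x8000000080000001e0000000000000000 0x30000000f0000003b0000001e0000000700000004 6 6) 0 0 (step_sound _ 100 [rh01189eed50c532bc, (rh33e738c4ed385b9f.shift 1 2)] (by decide +kernel))
noncomputable def rh338f617d6242140e : CRef := CRef.mk (Pat.mk 0x80000000c00000004000000000000001800000000 0x80000000c00000004000000e40000007e000000ff 6 8) 0 0 (step_sound _ 34 [rh025cec19fe93d2d3, (rh9e3edb185cc347de.shift 2 1)] (by decide +kernel))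
noncomputable def rheed68bb0bdc20193 : CRef := CRef.mk (Pat.mk 0x100000001e00000000000000000000000800000000 0x180000001f00000030000000380000003800000028 6 6) 0 0 (step_sound _ 128 [(rh1add32ffe2dfe2e6.shift 1 0), (rh428265de8cd3cd2d.shift 0 4)] (by decide +kernel))
noncomputable def rh506f97418b5b70f4 : CRef := CRef.mk (Pat.mk 0x1c0000000c000000000000000000000000 0x80000001f0000007f000000700000001000000010 6 7) 0 0 (step_sound _ 97 [(rh53b3c253cb0c65f4.shift 0 3), rhe264bf233beab467] (by decide +kernel))
noncomputable def rh808de112c023e0ce : CRef := CRef.mk (Pat.mk 0xe0000000600000000 0x800000008000000380000003f0000003600000010 6 6) 0 0 (step_sound _ 68 [(rh18965a982d73c794.shift 1 1), rhf41a34b41b8c2138] (by decide +kernel))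
noncomputable def rhb26aa499191ff890 : CRef := CRef.mk (Pat.mk 0x10000000380000000000000000 0x400000004000000370000007e0000007f00000008 6 7) 0 0 (step_sound _ 66 [(rh0d378fd9e8917c5a.shift 0 1), (rh185f35b8bd8ec37f.shift 0 1), (rh3a69dc315759d1b4.shift 1 0), (rhedf6b6c69a16cbd5.shift 0 2)] (by decide +kernel))
noncomputable def rh577620d1eea9f9a1 : CRef := CRef.mk (Pat.mk 0x1c00000000 0x1e0000000fe000001ff 6 9) 0 0 (step_sound _ 37 [(rh3b00e9e9432b8f40.shift 1 0), rh41140eaa67c26838, (rh5dce78d28c627f6b.shift 2 0)] (by decide +kernel))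
noncomputable def rhc0020215ee234fd7 : CRef := CRef.mk (Pat.mk 0x100000001e00000010000000000000000200000000 0x180000001e000000170000003c0000003e00000028 6 6) 0 0 (step_sound _ 97 [(rh16e913c2fbd3f70f.shift 1 0), (rheb0810cc63b001d8.shift 0 3)] (by decide +kernel))
noncomputable def rh363d6dadaacff30a : CRef := CRef.mk (Pat.mk 0x140000001c0000001000000000000000020000000000000000 0x1c0000001c000000140000003e0000003f0000003800000028 6 6) 0 0 (step_sound _ 100 [(rh0a6888916bcef86b.shift 3 0), (rh5192e84255fe3228.shift 3 1), (rh5c651669912fbab1.shift 3 1), (rh8cdd36b03d57a2f6.shift 3 1), (rhfd45b41051000f6e.shift 0 2)] (by decide +kernel))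
noncomputable def rh65042eab28345ed2 : CRef := CRef.mk (Pat.mk 0x140000001e00000000000000020000000200000000 0x1c0000001e000000340000003e0000003b00000020 6 6) 0 0 (step_sound _ 66 [(rh3c88ce959c0e423f.shift 1 1), rhf701bc9b9d058f63] (by decide +kernel))
noncomputable def rhcf6f93d5748779eb : CRef := CRef.mk (Pat.mk 0x1000000010000000140000001c00000002 0x280000007c0000001e000000140000001e00000003 6 7) 0 0 (step_sound _ 33 [(rh45b8cde2679da0c7.shift 1 0), rheb0810cc63b001d8] (by decide +kernel))
noncomputable def rhaa239a5c5fd20f51 : CRef := CRef.mk (Pat.mk 0x200000007000000000 0x1ff000001fe0000000f 6 9) 0 0 (step_sound _ 35 [(rh4c063b89d42a2070.shift 1 0), (rh592c7139d2c44767.shift 1 0), rha4e887c2a2a0f60b, (rhe6bdd62e1711df0b.shift 3 1), (rhec46bd5500c722c9.shift 2 1)] (by decide +kernel))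
noncomputable def rha56fa34c07554be9 : CRef := CRef.mk (Pat.mk 0x1000000000000000200000007000000000 0x1000000018000000ff0000007e0000000f 6 8) 0 0 (step_sound _ 35 [(rh0cfd407e2f78a809.shift 2 0), (rh4c063b89d42a2070.shift 1 0), (rh592c7139d2c44767.shift 1 0), rha4e887c2a2a0f60b, (rhec46bd5500c722c9.shift 2 1)] (by decide +kernel))
noncomputable def rha36f754ee4f9dbee : CRef := CRef.mk (Pat.mk 0x20000000080000001c00000000 0x2000000020000001ff000000fe000000e0 6 9) 0 0 (step_sound _ 37 [(rh38791ac5737ed75e.shift 2 1), (rh7618364b9b53dd13.shift 2 0), (rhb9d63ffe7f077fd8.shift 0 1), (rhe3060b190bc0bc78.shift 1 1), (rhf5fa5e48e0784de2.shift 2 0)] (by decide +kernel))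
noncomputable def rh236a20d1044f1152 : CRef := CRef.mk (Pat.mk 0x1000000018000000200000007000000000 0x1000000018000000ef0000007e0000000f 6 8) 0 0 (step_sound _ 35 [(rh4c063b89d42a2070.shift 1 0), (rh592c7139d2c44767.shift 1 0), (rh70e209139a9acc4a.shift 2 0), rha4e887c2a2a0f60b, (rhec46bd5500c722c9.shift 2 1)] (by decide +kernel))
noncomputable def rhbea7e280301f311a : CRef := CRef.mk (Pat.mk 0xf0000000a000000020000000200000000 0x180000000f0000000a0000001e0000001f00000005 6 5) 0 0 (step_sound _ 163 [(rh33e738c4ed385b9f.shift 0 4), rh4fad32147ec52d84] (by decide +kernel))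
noncomputable def rhf10162167d847a18 : CRef := CRef.mk (Pat.mk 0x100000001a0000000a000000020000000200000000 0x100000001a0000000a0000007f0000003e00000004 6 7) 0 0 (step_sound _ 34 [(rh436e0bc1a0f34f52.shift 0 1), (rh55afc6a59410cf00.shift 1 0)] (by decide +kernel))
noncomputable def rh4bdfd85a5cd1beb0 : CRef := CRef.mk (Pat.mk 0x40000000c00000008000000200000003000000000 0x40000000c000000080000006f0000003e00000007 6 7) 0 0 (step_sound _ 35 [(rh9e07f76261b05888.shift 2 1), rha4e887c2a2a0f60b] (by decide +kernel))
noncomputable def rh55af133cf0e2e320 : CRef := CRef.mk (Pat.mk 0x400000003800000028000000080000000800000000 0xc000000078000000280000007c0000002f00000004 6 8) 0 0 (step_sound _ 134 [(rh33e738c4ed385b9f.shift 3 4), rhc90aa78e377a83db] (by decide +kernel))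
noncomputable def rh9056f0156915f869 : CRef := CRef.mk (Pat.mk 0x20000000a0000000a000000020000000400000000 0x140000001c0000001e0000000b0000001a0000001a0000001e00000004 6 5) 0 0 (step_sound _ 67 [(rh04f36b18797890ec.shift 0 1), (rhe38ad39d05c44887.shift 1 0)] (by decide +kernel))
noncomputable def rh4d92d1ba39d47cac : CRef := CRef.mk (Pat.mk 0x8000000080000002800000008000000080000000000000000 0x80000000f0000007c000000180000001c0000000c0000000c 6 7) 0 0 (step_sound _ 34 [(rh79877ebd3ef475dd.shift 2 1), rh9c29c6d6aa3762fe] (by decide +kernel))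
noncomputable def rh794ff21983719ec9 : CRef := CRef.mk (Pat.mk 0x8000000280000000800000008000000080000000000000000 0xf0000007c0000001800000008000000180000001800000010 6 7) 0 0 (step_sound _ 36 [rh58f712b768d789e3, (rhd3458b32566d63f7.shift 3 1)] (by decide +kernel))
noncomputable def rh834c98cbe36c4eeb : CRef := CRef.mk (Pat.mk 0xa0000000a0000000a0000000200000000 0x10000000380000001e0000000b0000000e0000000e00000004 6 6) 0 0 (step_sound _ 34 [(rh2c6371a59e1d4038.shift 0 1), (rh55afc6a59410cf00.shift 1 0)] (by decide +kernel))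
noncomputable def rhe6fa192f79d3524d : CRef := CRef.mk (Pat.mk 0x500000005000000050000000100000000 0xa0000000e0000000e0000000500000005000000070000000300000002 6 4) 0 0 (step_sound _ 33 [rh55afc6a59410cf00, (rh9fb9dc683e09b5f3.shift 1 1)] (by decide +kernel))
noncomputable def rh3032f6e811053f1f : CRef := CRef.mk (Pat.mk 0xe00000002000000020000000200000002000000000000000000000000 0x1e00000003000000070000000600000006000000030000000300000001 6 5) 0 0 (step_sound _ 192 [(rh18965a982d73c794.shift 0 6), rha6e4ed44f7b6a7de] (by decide +kernel))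
noncomputable def rh5738351d3e2847d7 : CRef := CRef.mk (Pat.mk 0x180000000c000000080000000800000008000000000000000000000000 0x180000000f0000000c00000008000000080000001c0000001c00000014 6 5) 0 0 (step_sound _ 67 [rh1a1746eefc40a0ae, (rhffd04209dc8ea796.shift 2 2)] (by decide +kernel))
noncomputable def rhfe5bd5d2691602a3 : CRef := CRef.mk (Pat.mk 0x20000000a0000000a000000020000001200000002 0xc0000001e0000000b0000001b0000001a0000001200000012 6 5) 0 0 (step_sound _ 162 [(rh2f68792b6b779e96.shift 1 2), rh61b1a130a089ea81] (by decide +kernel))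
noncomputable def rh823c71de927b23dc : CRef := CRef.mk (Pat.mk 0xa0000000a0000001a000000040000000000000000 0x80000000b0000000f0000001a000000170000000700000001 6 5) 0 0 (step_sound _ 65 [rh22eaacbc9acc2d10, (rh55afc6a59410cf00.shift 1 1)] (by decide +kernel))
noncomputable def rhb20d3951e6be7214 : CRef := CRef.mk (Pat.mk 0x500000005000000050000000100000000 0xa0000000e0000000f000000050000000d0000000d00000008 6 4) 0 0 (step_sound _ 161 [(rh21ffa27e82a77d78.shift 1 0), (rhbaefcd01e0a8bca3.shift 0 1)] (by decide +kernel))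
noncomputable def rh0919b6bf5df06643 : CRef := CRef.mk (Pat.mk 0x80000000a0000000a000000020000000600000000 0x8000000080000000b0000001e0000003a0000001f00000039 6 6) 0 0 (step_sound _ 32 [rh932754581e0f4330, rhf6db93400df2b42b] (by decide +kernel))
noncomputable def rh939cd600b90fdeba : CRef := CRef.mk (Pat.mk 0x80000000a0000000a000000020000000600000000 0x140000001c0000001c000000180000000a0000001a0000001a0000001f00000001 6 5) 0 0 (step_sound _ 32 [(rh742a1c5bea3ca6eb.shift 0 1), rh932754581e0f4330] (by decide +kernel))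
noncomputable def rh327e561a6d0abcde : CRef := CRef.mk (Pat.mk 0xa0000000a0000000a0000000000000000 0x140000001e0000000b0000001f0000007800000010 6 7) 0 0 (step_sound _ 35 [rh373844673fdf6d00, (rh9258736a7488cc35.shift 0 1), rhc247f2d7a10544ae, rhc486ae0fcc44be52] (by decide +kernel))
noncomputable def rhe9850e9c4b0c5c3d : CRef := CRef.mk (Pat.mk 0x8000000080000000a0000000a000000020000000200000000 0x1000000018000000080000000a0000001a0000001a0000001f00000005 6 5) 0 0 (step_sound _ 196 [rh23b335396a05fb5c, (rh2f68792b6b779e96.shift 3 3)] (by decide +kernel))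
noncomputable def rh7b39b303bf913754 : CRef := CRef.mk (Pat.mk 0x20000000b0000000a000000020000000000000000 0xc0000001e0000000b0000001e0000001a0000001000000010 6 5) 0 0 (step_sound _ 100 [(rh5419adcd928dba20.shift 0 3), rh9785273b4055cdd3] (by decide +kernel))
noncomputable def rhd869aaa1cdd1f6cb : CRef := CRef.mk (Pat.mk 0x50000000500000005000000010000000200000000 0x20000000600000007000000050000000d0000000d0000000f00000002 6 4) 0 0 (step_sound _ 193 [rh5b8b3fce1b5a17d1, (rhbaefcd01e0a8bca3.shift 0 2)] (by decide +kernel))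
noncomputable def rh5db26f6f12bd6d22 : CRef := CRef.mk (Pat.mk 0x200000002800000028000000000000000000000000 0x20000000200000002f0000007c000000f00000007000000050 6 8) 0 0 (step_sound _ 69 [(rh526c73b5678bd6b8.shift 0 1), (rh6eff4158bb400f47.shift 4 0), (rhc247f2d7a10544ae.shift 2 1)] (by decide +kernel))
noncomputable def rh321876ff67f5d513 : CRef := CRef.mk (Pat.mk 0x8000000080000000a000000000000000400000004 0x40000000c000000080000001f000000780000001c00000004 6 7) 0 0 (step_sound _ 67 [(rh373844673fdf6d00.shift 0 1), (rheea67dfebd0f8008.shift 2 0)] (by decide +kernel))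
noncomputable def rh373b9bc2ea39d754 : CRef := CRef.mk (Pat.mk 0xa0000000a0000000200000002 0x10000000100000003c0000001e0000000b0000000a0000000a 6 6) 0 0 (step_sound _ 98 [(rh2f68792b6b779e96.shift 1 0), rhd8b43b15431aaa50] (by decide +kernel))
noncomputable def rh17f9e15738026036 : CRef := CRef.mk (Pat.mk 0x40000000500000005000000010000000200000000 0x80000000c0000000c000000050000000d0000000d0000000f00000002 6 4) 0 0 (step_sound _ 1 [(rh89dcbdf5731fbcab.shift 1 0), rhbe0e43a3bc50a43f] (by decide +kernel))
noncomputable def rh332efe8daf6103fe : CRef := CRef.mk (Pat.mk 0x80000000a0000000a000000020000000400000000 0x80000000b0000001f0000003a0000001e00000004 6 6) 0 0 (step_sound _ 2 [rh477e5092e5aa7c7d, (rhbe0e43a3bc50a43f.shift 1 0)] (by decide +kernel))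
noncomputable def rh155e8352b4111ea7 : CRef := CRef.mk (Pat.mk 0x14000000140000001c0000000c00000000 0x200000003c000000170000001f0000007f00000070 6 7) 0 0 (step_sound _ 33 [rh23bcbb5fea951416, (rh53b3c253cb0c65f4.shift 0 1)] (by decide +kernel))
noncomputable def rhb2ee0bd2da7f4612 : CRef := CRef.mk (Pat.mk 0xa0000000a0000000a0000000000000000 0x40000001c0000001e0000000b0000001f0000007800000010 6 7) 0 0 (step_sound _ 35 [rh373844673fdf6d00, (rh5abfc4c9d959be03.shift 2 0), (rh9258736a7488cc35.shift 0 1), rhc486ae0fcc44be52] (by decide +kernel))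
noncomputable def rh549c735a133989e6 : CRef := CRef.mk (Pat.mk 0x20000000380000000000000000 0x400000004000000370000007e0000000f00000008 6 7) 0 0 (step_sound _ 66 [(rh21d582c147e7e118.shift 0 1), (rh3a69dc315759d1b4.shift 1 0), (rh7fb660bc21ce4329.shift 0 2)] (by decide +kernel))
noncomputable def rh5ff1674700f1ef3f : CRef := CRef.mk (Pat.mk 0xe00000016000000060000000700000000 0x300000003e000000160000003e0000003f00000020 6 6) 0 0 (step_sound _ 68 [(rh35cba1369d902f5e.shift 1 0), (rh361cc68994bd8a63.shift 0 1)] (by decide +kernel))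
noncomputable def rh39772980ce4fcd0d : CRef := CRef.mk (Pat.mk 0x1a0000001a0000000000000000 0x4000000070000001e0000001b0000000f00000007 6 5) 0 0 (step_sound _ 98 [rha789cb63a6382c65, (rheb0810cc63b001d8.shift 0 2)] (by decide +kernel))
noncomputable def rh1ddb7ed2ca8fdb13 : CRef := CRef.mk (Pat.mk 0x20000001a0000001200000000 0x50000000700000007000000020000001b0000001f00000005 6 5) 0 0 (step_sound _ 129 [(rh1741680720c097b4.shift 0 1), rh36e6bb6cca6188da, rh771d065bdc85bf2d, rhd2a6aa75971f4bc3] (by decide +kernel))
noncomputable def rhf391ed3221202f88 : CRef := CRef.mk (Pat.mk 0x1a0000001a0000000000000000 0x4000000070000001f0000001a0000000f00000007 6 5) 0 0 (step_sound _ 98 [rha789cb63a6382c65, (rhb739f4f82bb681b4.shift 0 2)] (by decide +kernel))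
noncomputable def rhb04ebd012d5de17f : CRef := CRef.mk (Pat.mk 0x1a0000001e0000000000000000 0x500000007000000070000001e0000001e0000000700000004 6 5) 0 0 (step_sound _ 33 [rhd7da1bf6c5c2a4ea, (rheb0810cc63b001d8.shift 0 1)] (by decide +kernel))
noncomputable def rh6ca00577e7bd8bb4 : CRef := CRef.mk (Pat.mk 0x800000008000000080000000a0000000000000000 0x100000001800000018000000080000000f0000007c00000010 6 7) 0 0 (step_sound _ 164 [rh0397897514f61d0d, (rh2f68792b6b779e96.shift 3 2)] (by decide +kernel))
noncomputable def rh8eae7edef4456675 : CRef := CRef.mk (Pat.mk 0x1000000000000000800000008000000080000000000000000 0x100000001c0000001f0000001c0000001800000008000000180000001800000010 6 5) 0 0 (step_sound _ 163 [(rh1741680720c097b4.shift 2 2), (rh1efe470493b598b7.shift 0 2), rh499afd1279f0702e, (rh6c59ce14113da07f.shift 3 0)] (by decide +kernel))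
noncomputable def rh4d903ee13bce1e8f : CRef := CRef.mk (Pat.mk 0x1800000018000000100000000000000000 0xc0000000f0000007c000000180000001c0000000c0000000c 6 7) 0 0 (step_sound _ 163 [(rh2145e1d24b96a57e.shift 3 2), rhe29607107df9456e] (by decide +kernel))
noncomputable def rha429d218761cf231 : CRef := CRef.mk (Pat.mk 0xc0000001c000000180000001800000000 0x20000000f0000001f0000001f0000003c00000004 6 6) 0 0 (step_sound _ 97 [rh3b0beb5a51087500, (rhb739f4f82bb681b4.shift 0 2)] (by decide +kernel))
noncomputable def rh576d812308835c7e : CRef := CRef.mk (Pat.mk 0xc00000018000000180000001800000000 0xf0000001c0000001c0000001f0000000f 6 5) 0 0 (step_sound _ 34 [rh261cda20a097f1bf, (rh932754581e0f4330.shift 2 0)] (by decide +kernel))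
noncomputable def rhbf7d7f94858df2aa : CRef := CRef.mk (Pat.mk 0xc00000018000000180000000800000000 0xc0000001f0000001b0000000f0000000e 6 5) 0 0 (step_sound _ 34 [rh6d106ad5c54e5064, (rh932754581e0f4330.shift 2 0)] (by decide +kernel))
noncomputable def rh535107619cc5e4dc : CRef := CRef.mk (Pat.mk 0x3c00000010 0x2000000020000000670000003e00000017 6 7) 0 0 (step_sound _ 69 [(rh33e738c4ed385b9f.shift 2 1), rh7a8df48d9000e0ad] (by decide +kernel))
noncomputable def rhd05bb961106909ef : CRef := CRef.mk (Pat.mk 0x20000000000000001e00000000 0x2000000020000000670000007e000000e0 6 8) 0 0 (step_sound _ 65 [(rh3244c3cc8379b070.shift 0 1), (rhc816843aa549a9f1.shift 1 0)] (by decide +kernel))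
noncomputable def rhae61128d65827350 : CRef := CRef.mk (Pat.mk 0x2000000000000001e00000000 0x5000000070000000700000002000000030000001e00000004 6 5) 0 0 (step_sound _ 65 [(rh3244c3cc8379b070.shift 0 1), rhfb9fb48a5e63ed80] (by decide +kernel))
noncomputable def rhb38c8bb3d8951b09 : CRef := CRef.mk (Pat.mk 0x3000000020000000200000000400000000 0x100000003000000020000000700000003e00000017 6 7) 0 0 (step_sound _ 37 [(rh50fbb5868c909700.shift 4 1), rhaceeea179a1cf127] (by decide +kernel))
noncomputable def rheb1bf0ecafcea10d : CRef := CRef.mk (Pat.mk 0x1000000010000000100000001200000000 0x1000000010000000370000003e0000000f 6 6) 0 0 (step_sound _ 35 [(rh932754581e0f4330.shift 3 0), rhebe7dfbad636764a] (by decide +kernel))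
noncomputable def rhd06c0cb1e0ae426f : CRef := CRef.mk (Pat.mk 0x1c00000012000000100000000200000000 0x80000001e00000013000000330000001e0000000c 6 6) 0 0 (step_sound _ 36 [(rh50fbb5868c909700.shift 3 1), rh9962b72f78e1c2b2] (by decide +kernel))
noncomputable def rh2ed268add170536d : CRef := CRef.mk (Pat.mk 0x1c00000002000000100000000200000000 0x40000001e000000030000001e0000000f00000005 6 5) 0 0 (step_sound _ 129 [rhc3e6b56a8a6c7f06, (rheb0810cc63b001d8.shift 0 3)] (by decide +kernel))
noncomputable def rhcaba53e52965ee65 : CRef := CRef.mk (Pat.mk 0x1a000000120000001200000002000000000000000000000000 0x80000001a00000012000000120000003b0000001f0000000f00000005 6 6) 0 0 (step_sound _ 65 [(rh7928877f9bf74a91.shift 0 1), rh8cdd36b03d57a2f6, (rh8ce1ba4f6ed0f31c.shift 0 1)] (by decide +kernel))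
noncomputable def rh6aa0009fd8cb10a9 : CRef := CRef.mk (Pat.mk 0x1c0000000200000000000000020000000000000000 0x40000001e0000000300000002000000070000000700000005 6 5) 0 0 (step_sound _ 161 [rhc69ed8b8b451ca9a, (rheb0810cc63b001d8.shift 0 4)] (by decide +kernel))
noncomputable def rhcb32b102917df4ae : CRef := CRef.mk (Pat.mk 0x7000000020 0x1cf000001fe0000003f 6 9) 0 0 (step_sound _ 35 [(rh3b00e9e9432b8f40.shift 2 0), (rh592c7139d2c44767.shift 1 0), (rh74f48645dd37c94b.shift 1 0), rha149fcb7fc0c2899, rheaad777ed634577b] (by decide +kernel))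
noncomputable def rh55e086f2250aee3a : CRef := CRef.mk (Pat.mk 0x20000002600000024000000200000002000000000 0x20000002600000024000000740000003e00000017 6 7) 0 0 (step_sound _ 34 [(rh9e07f76261b05888.shift 1 1), rhaceeea179a1cf127] (by decide +kernel))
noncomputable def rh5170608212d8a888 : CRef := CRef.mk (Pat.mk 0xc000000000000000a0000000800000000 0x140000001c000000780000001f0000000800000008 6 7) 0 0 (step_sound _ 99 [(rh50fbb5868c909700.shift 2 1), rha041a1d41fc5a8bd] (by decide +kernel))
noncomputable def rh890e40963ccca8ae : CRef := CRef.mk (Pat.mk 0x100000001e000000000000000000000000 0x1000000038000000380000001f0000001e000000380000001000000010 6 6) 0 0 (step_sound _ 68 [rh094108defb577481, (rhe25b0a99195a5d59.shift 1 2)] (by decide +kernel))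
noncomputable def rh0e6429627e90a91f : CRef := CRef.mk (Pat.mk 0x400000007000000000000000200000002 0xa0000000e0000000e000000040000000f0000003c0000000e00000002 6 6) 0 0 (step_sound _ 66 [(rhb25d7d955cc10542.shift 0 1), (rheea67dfebd0f8008.shift 1 0)] (by decide +kernel))
noncomputable def rheb6c4c823865ce70 : CRef := CRef.mk (Pat.mk 0x18000000020000000a0000000a000000020000000000000000 0x10000000180000001a0000000a0000000a0000001f0000001900000010 6 5) 0 0 (step_sound _ 163 [(rh2f68792b6b779e96.shift 3 3), rh68cfacebbf1789b8] (by decide +kernel))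
noncomputable def rh349d0d447f8dfad7 : CRef := CRef.mk (Pat.mk 0x300000000c00000008000000200000001c00000000 0x50000000700000006f0000007c000000200000007c00000060 6 7) 0 0 (step_sound _ 101 [(rh8c25cb665ab79ec0.shift 0 3), (rhf1aa5d1d707e3985.shift 2 0)] (by decide +kernel))
noncomputable def rh3c74cf66486b6bd2 : CRef := CRef.mk (Pat.mk 0x20000000300000002000000020 0x10000000300000003000000030000000770000003e0000007000000020 6 7) 0 0 (step_sound _ 67 [(rh79752504a420f2c3.shift 4 0), (rhb2afcb5db661472f.shift 0 1), (rhcf86d050071af9b3.shift 2 1)] (by decide +kernel))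
noncomputable def rh41a3dc34bd4cc3e2 : CRef := CRef.mk (Pat.mk 0x4000000000000000f00000008000000000000000000000000 0x40000001c0000000f000000080000001c0000001c00000014 6 5) 0 0 (step_sound _ 163 [(rh33e738c4ed385b9f.shift 0 4), (rhbba7d23481996066.shift 2 0)] (by decide +kernel))
noncomputable def rhfe79dc477dd9ca37 : CRef := CRef.mk (Pat.mk 0x80000000c000000040000001000000000 0xf80000007f0000007e0000001000000010 6 8) 0 0 (step_sound _ 100 [rh324391d1b082787f, (rh619bcc8fbfd1202d.shift 1 0), (rhdc1641106d7e5aa2.shift 1 2)] (by decide +kernel))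
noncomputable def rh077a9a4cc924c930 : CRef := CRef.mk (Pat.mk 0x700000001000000040000000000000002000000000 0x70000007e000000fe00000040000000e0000000e0000000a0 6 8) 0 0 (step_sound _ 163 [(rhd1ff8027c4c86c76.shift 0 4), (rhddcd4384bee63015.shift 3 0)] (by decide +kernel))
noncomputable def rh62074cd7b56e426f : CRef := CRef.mk (Pat.mk 0x100000002000000020000000000000001800000000 0x100000003000000020000000e70000007e000000ff 6 8) 0 0 (step_sound _ 37 [rh392d7678b3ef63ac, (rh697635bb38aebc39.shift 4 0), rhdc6ecbaaaf37a6e5] (by decide +kernel))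
noncomputable def rhe1e9f6ee72e9a15d : CRef := CRef.mk (Pat.mk 0x1e00000000000000000000003c00000000 0x70000001e00000003000000070000003e00000060 6 7) 0 0 (step_sound _ 6 [(rh96851dee118c1ba3.shift 2 0), (rhc516a8c8b3fd042e.shift 0 1)] (by decide +kernel))
noncomputable def rh6a5e123be6984ba7 : CRef := CRef.mk (Pat.mk 0x40000001e000000080000000000000000 0x70000001e0000003f0000000300000003 6 6) 0 0 (step_sound _ 129 [(rh3244c3cc8379b070.shift 0 3), rha9b45fc165e16ab9] (by decide +kernel))
noncomputable def rh0b165e1f1f0bec12 : CRef := CRef.mk (Pat.mk 0x1c00000008 0x1e0000000fe0000007f 6 9) 0 0 (step_sound _ 37 [rh41140eaa67c26838, (rhaf9f2efc81a8312b.shift 1 0), (rhd542320a7a4dc2c4.shift 1 0), (rhdc1641106d7e5aa2.shift 2 0)] (by decide +kernel))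
noncomputable def rh36e2fcb0dd4ce465 : CRef := CRef.mk (Pat.mk 0x1e00000012000000000000000000000000 0x4000000040000003f0000001e000000070000000200000002 6 6) 0 0 (step_sound _ 99 [rh5e097eb24f5b8367, (rhb739f4f82bb681b4.shift 0 3)] (by decide +kernel))
noncomputable def rhffe65ed05f55816a : CRef := CRef.mk (Pat.mk 0x1e00000010000000100000000000000000 0x7000000ff0000001c000000100000001000000010 6 8) 0 0 (step_sound _ 99 [rh8d415a1d004e8408, (rhb739f4f82bb681b4.shift 0 3)] (by decide +kernel))
noncomputable def rh5702fadd08d395d2 : CRef := CRef.mk (Pat.mk 0x60000001400000010000000000000000800000000 0x200000003e0000003700000010000000380000003800000028 6 6) 0 0 (step_sound _ 164 [(rh5e4e7266ca016e80.shift 0 4), (rh97bd62662717f3a7.shift 3 0), (rhebbfc1325fb53d6f.shift 3 0)] (by decide +kernel))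
noncomputable def rh72b7cc29ba0bd614 : CRef := CRef.mk (Pat.mk 0x1000000010000000000000003800000000 0x1000000010000000170000003e00000067 6 7) 0 0 (step_sound _ 5 [rh3918eeb6c53434d8, (rhff0f29cb645b05f7.shift 4 0)] (by decide +kernel))
noncomputable def rhf0a84a98dc27822a : CRef := CRef.mk (Pat.mk 0x20000000600000012000000000000000000000000 0x30000000300000006000000060000001e000000070000000700000002 6 5) 0 0 (step_sound _ 98 [rh37e540d481210cc1, (rh55a1f6c57a317ce6.shift 1 1), rh708738f1a30da4fa] (by decide +kernel))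
noncomputable def rhd0e7f0fbf0cb2aca : CRef := CRef.mk (Pat.mk 0xa000000020000000200000002 0x740000003e000000730000000200000002 6 7) 0 0 (step_sound _ 98 [(rh2f68792b6b779e96.shift 1 0), (rh352b7f91eba0c81f.shift 0 2)] (by decide +kernel))
noncomputable def rh5377db1926b2bfc6 : CRef := CRef.mk (Pat.mk 0xa0000000a0000000a000000000000000000000000 0x4000000040000000e0000000e0000000e0000000a000000070000000700000005 6 4) 0 0 (step_sound _ 194 [(rh5890386c1f942fa1.shift 1 3), (rh8b14df1b185c100a.shift 1 3), rhc94dfb5f501cb051] (by decide +kernel))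
noncomputable def rh17ba7f593d7135d4 : CRef := CRef.mk (Pat.mk 0x80000000a0000000a00000000000000060000000000000000 0x80000000a0000000a0000007a0000003f0000007700000001 6 7) 0 0 (step_sound _ 67 [(rh7611754620ec4708.shift 1 1), (rh90c4546f59aef0d0.shift 1 1), rhf84ca43ee1ffbf7f] (by decide +kernel))
noncomputable def rha2ed0b3a86580fd5 : CRef := CRef.mk (Pat.mk 0x280000002800000028000000000000001800000000 0x280000002800000028000001ef000000fe000001e7 6 9) 0 0 (step_sound _ 37 [rh392d7678b3ef63ac, rh5b9e259bbcd4c97a, (rh7611754620ec4708.shift 3 0)] (by decide +kernel))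
noncomputable def rhf22ba9234414e769 : CRef := CRef.mk (Pat.mk 0x50000000500000005000000000000000000000000 0x2000000070000000700000005000000050000000e0000000e0000000a 6 4) 0 0 (step_sound _ 193 [(rh8b14df1b185c100a.shift 0 3), (rhbba7d23481996066.shift 1 0)] (by decide +kernel))
noncomputable def rh4932cdc401d7c9a3 : CRef := CRef.mk (Pat.mk 0x90000000f0000000000000000 0x1c0000001c0000000f0000000f0000001c0000000c 6 5) 0 0 (step_sound _ 35 [rh3bc29805fee9d8b6, (rhe25b0a99195a5d59.shift 0 1)] (by decide +kernel))
noncomputable def rh0eaa6b7299c40cdd : CRef := CRef.mk (Pat.mk 0x600000002000000080000000800000008 0x700000003e0000007b000000180000001800000008 6 7) 0 0 (step_sound _ 132 [(rh185c6e3748bd1404.shift 0 3), (rh4d477abd4f690b79.shift 0 1), (rh9c1db2c8967fb481.shift 3 0), rhcaee4f794cf1cb22] (by decide +kernel))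
noncomputable def rhc18964af595cbd54 : CRef := CRef.mk (Pat.mk 0x20000000a0000000200000002 0x40000001f0000007e0000007700000002 6 7) 0 0 (step_sound _ 98 [(rh2f68792b6b779e96.shift 1 0), (rh7521335df5013644.shift 0 1)] (by decide +kernel))
noncomputable def rhc46dd1b6ef9e4434 : CRef := CRef.mk (Pat.mk 0x20000000a0000000200000002 0x50000000700000007000000730000003e0000007700000002 6 7) 0 0 (step_sound _ 66 [(rh352b7f91eba0c81f.shift 0 1), rhb47955ff731f7614, (rhd9106766b9ff53c0.shift 0 1)] (by decide +kernel))
noncomputable def rh1b0ca7176473ea92 : CRef := CRef.mk (Pat.mk 0x200000002000000020000000a00000002 0x200000002000000720000003e00000077 6 7) 0 0 (step_sound _ 34 [rh352b7f91eba0c81f, (rh55afc6a59410cf00.shift 1 0)] (by decide +kernel))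
noncomputable def rhc7cb99f69e3fab20 : CRef := CRef.mk (Pat.mk 0x180000000200000008000000000000000000000000 0x10000000780000001f000000080000001c0000001c00000014 6 7) 0 0 (step_sound _ 131 [(rh0b786d94a31538a6.shift 0 4), (rhffb8e5993241bf15.shift 2 0)] (by decide +kernel))
noncomputable def rh7ae033213d92c77b : CRef := CRef.mk (Pat.mk 0xd000000010000000400000000 0x800000008000000780000003f0000007f0000000400000004 6 7) 0 0 (step_sound _ 97 [rhceed0e29dfbc434b, (rhf2b3bcf1454375d8.shift 0 2), (rhf3baec4a0a3dd35e.shift 0 2)] (by decide +kernel))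
noncomputable def rhd1b3471765a9f135 : CRef := CRef.mk (Pat.mk 0x1a00000002 0xe00000007e000000e7 6 8) 0 0 (step_sound _ 34 [rheb0810cc63b001d8, (rhf2b3bcf1454375d8.shift 1 0)] (by decide +kernel))
noncomputable def rhc584af121433e43a : CRef := CRef.mk (Pat.mk 0x380000001000000000 0x400000004000000070000007e000000ff00000008 6 8) 0 0 (step_sound _ 66 [(rh06db8ceda6269a47.shift 1 1), (rh592c7139d2c44767.shift 0 1), (rh9977a3a78b1c0a5f.shift 1 0), (rha03f6e28ea70fc7d.shift 1 1)] (by decide +kernel))
noncomputable def rhbb0650a008116cff : CRef := CRef.mk (Pat.mk 0x200000004000000040000000400000000 0x600000006000000040000003c0000000f0000000a 6 6) 0 0 (step_sound _ 130 [rh3ca4c10fdf355329, (rh50fbb5868c909700.shift 1 1)] (by decide +kernel))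
noncomputable def rh02a67351009626f5 : CRef := CRef.mk (Pat.mk 0x20000000e00000000 0xf30000007e000000f0 6 8) 0 0 (step_sound _ 36 [(rh3244c3cc8379b070.shift 0 1), (rh87681ba6c867709f.shift 1 0)] (by decide +kernel))
noncomputable def rh3ab37a18b1a0f297 : CRef := CRef.mk (Pat.mk 0x80000000c0000000800000000 0x140000001c0000001c00000008000000080000001f0000007c00000014 6 7) 0 0 (step_sound _ 131 [(rh03dfdf12d5937476.shift 2 0), (rh32431e66bbf434a4.shift 2 1), rhcc2a2baa9246395a] (by decide +kernel))
noncomputable def rh21b0f5113d9663bc : CRef := CRef.mk (Pat.mk 0x1e000000180000000800000000 0x40000000400000006000000070000001e0000001f0000000b00000003 6 5) 0 0 (step_sound _ 65 [rhe7e56187b4834028, (rheb0810cc63b001d8.shift 0 2)] (by decide +kernel))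
noncomputable def rh4303adad090fabf2 : CRef := CRef.mk (Pat.mk 0xe00000002 0xe70000007e000000e3 6 8) 0 0 (step_sound _ 36 [rh427b18cb5af6a3d8, rheb0810cc63b001d8] (by decide +kernel))
noncomputable def rhdc39098b8e9acfc7 : CRef := CRef.mk (Pat.mk 0x200000007000000040000000000000000 0x8000000080000007f0000003f000000740000000400000004 6 7) 0 0 (step_sound _ 99 [rh6eb76252a9026692, (rh9c94213f6896c74a.shift 0 2), (rhae8d21abc86b555a.shift 0 2)] (by decide +kernel))
noncomputable def rh5af6af1857824b11 : CRef := CRef.mk (Pat.mk 0x120000003800000008 0x1c0000001c0000001f0000001f0000003800000008 6 6) 0 0 (step_sound _ 67 [rh00715ddcf8ecd76b, (rhab22b5b56e7b3243.shift 1 1)] (by decide +kernel))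
noncomputable def rh039962d58f508af9 : CRef := CRef.mk (Pat.mk 0x1a00000018 0xe7000000ff00000018 6 8) 0 0 (step_sound _ 34 [rh36095876875a1ad2, rhb739f4f82bb681b4] (by decide +kernel))
noncomputable def rhe8bdd1a43498df4e : CRef := CRef.mk (Pat.mk 0x100000000200000002000000000000000600000000 0x2000000060000001f0000000300000003000000030000000600000006 6 5) 0 0 (step_sound _ 65 [(rh55afc6a59410cf00.shift 1 0), rhae2b00f358a32051] (by decide +kernel))
noncomputable def rh930bea2852767afe : CRef := CRef.mk (Pat.mk 0x6000000000000000e0000000b0000000000000000 0x300000003000000070000000e0000000e0000000b0000000900000008 6 4) 0 0 (step_sound _ 129 [(rh932754581e0f4330.shift 0 1), rha4af4eafa49db91d] (by decide +kernel))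
noncomputable def rhbfec9fb548803dd2 : CRef := CRef.mk (Pat.mk 0x1800000022000000300000002600000020 0x40000007e000001e3000000320000002600000024 6 9) 0 0 (step_sound _ 102 [rh0956dae0e4638e81, (rh2f68792b6b779e96.shift 5 0)] (by decide +kernel))
noncomputable def rhe3e50c3fc6f4d709 : CRef := CRef.mk (Pat.mk 0x7000000000000000e00000008000000000000000000000000 0x180000001f0000007c0000000e000000080000001c0000001c00000014 6 7) 0 0 (step_sound _ 163 [(rh2900058440e8ae56.shift 1 0), (rhbba7d23481996066.shift 2 0), (rheb90acdf362e49d3.shift 0 3)] (by decide +kernel))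
noncomputable def rh7ea8e52a3ea3a261 : CRef := CRef.mk (Pat.mk 0x3800000002 0x1ff000000fe000001c3 6 9) 0 0 (step_sound _ 38 [rh145442cd3bdfda18, (rha93a5dd541ab8209.shift 3 0), (rhb18e6c78a554867d.shift 2 1), (rhe401600d466b97cd.shift 2 0)] (by decide +kernel))
noncomputable def rhb60df880055ffe7d : CRef := CRef.mk (Pat.mk 0x6000000000000000200000002000000000000000000000000 0x400000006000000060000000200000002000000070000000700000005 6 3) 0 0 (step_sound _ 161 [(rh2f68792b6b779e96.shift 1 3), rhc94dfb5f501cb051] (by decide +kernel))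
noncomputable def rhd439dca3540591af : CRef := CRef.mk (Pat.mk 0x80000001c00000000 0x1ff000000fe000000e0 6 9) 0 0 (step_sound _ 37 [(rh67fc5628a4cda3d1.shift 0 1), (rhe3060b190bc0bc78.shift 1 1), (rhf5fa5e48e0784de2.shift 2 0)] (by decide +kernel))
noncomputable def rhc09148393168e59a : CRef := CRef.mk (Pat.mk 0x200000003000000004 0x1e0000000fc000001cf 6 9) 0 0 (step_sound _ 35 [(rh2ee61895a6499355.shift 1 0), rh3cc5c7fb74c49f61, (rhf2b3bcf1454375d8.shift 2 0)] (by decide +kernel))
noncomputable def rhf4b1430de81ad04d : CRef := CRef.mk (Pat.mk 0x200000000c000000600000004400000000000000000000000000000000 0x800000088000000fc000000ef0000006400000044000000e4000000e0000000e0000000a0 6 8) 0 0 (step_sound _ 102 [(rh0a6888916bcef86b.shift 5 0), (rh50a14b5cf38c0cd7.shift 5 2), (rhc98fbc63d71763af.shift 0 1), (rhe16b0a92c8da5228.shift 0 3)] (by decide +kernel))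
noncomputable def rhdec4381b3919a2c7 : CRef := CRef.mk (Pat.mk 0x30000000d000000050 0x2000000020000000700000007e000000d700000050 6 8) 0 0 (step_sound _ 101 [(rh01c2cbc35a6b8288.shift 0 1), (rh7611adaca421689a.shift 3 0), (rhbfb5770941270498.shift 4 0)] (by decide +kernel))
noncomputable def rh5f81ea591ca03fb3 : CRef := CRef.mk (Pat.mk 0x30000003a0000002a0000000200000000 0x140000001e000000370000003a0000002a0000002200000020 6 6) 0 0 (step_sound _ 162 [rh5837a57d7c97da75, (rhbaefcd01e0a8bca3.shift 1 1)] (by decide +kernel))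
noncomputable def rh2e3bbba8b789075e : CRef := CRef.mk (Pat.mk 0x6000000020000003a0000002a0000000000000000 0x1000000130000001f000000320000003a0000002a0000002000000020 6 6) 0 0 (step_sound _ 192 [rh9d164480263af76b, (rhffd04209dc8ea796.shift 0 2)] (by decide +kernel))
noncomputable def rhb8515492ef94bfe4 : CRef := CRef.mk (Pat.mk 0xe000000180000000a00000000 0x14000000f7000000fe0000001a0000000a00000002 6 8) 0 0 (step_sound _ 100 [(rh36095876875a1ad2.shift 0 2), (rh5421160f8e9bcf07.shift 1 1), rhaa4aab183877d995] (by decide +kernel))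
noncomputable def rh7e999be08f7321fe : CRef := CRef.mk (Pat.mk 0xa000000080000000c00000000 0x140000001f0000003b000000080000000c00000004 6 6) 0 0 (step_sound _ 131 [(rh018f2ebb4d91ad9d.shift 0 1), (rh932754581e0f4330.shift 2 0)] (by decide +kernel))
noncomputable def rhe959701115a78cea : CRef := CRef.mk (Pat.mk 0xe0000001800000008 0x400000014000000ff000000fe0000001800000008 6 8) 0 0 (step_sound _ 68 [(rh36095876875a1ad2.shift 0 1), rh3e34a007a92efc93, (rh5421160f8e9bcf07.shift 1 0)] (by decide +kernel))
noncomputable def rhbdf6848831d495e5 : CRef := CRef.mk (Pat.mk 0x10000001c00000017000000000000000000000000 0x80000002d0000007f0000001d00000017000000130000001200000002 6 7) 0 0 (step_sound _ 163 [rha54777067a2f7b62, (rha7e239a8204be023.shift 2 1), (rhf71cb1a94bedb48c.shift 2 1)] (by decide +kernel))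
noncomputable def rhe0c93a5b6f773f75 : CRef := CRef.mk (Pat.mk 0x30000000c000000100000000000000000 0x2000000020000000770000003e000000100000001000000010 6 7) 0 0 (step_sound _ 100 [(rh09d4dfe75d4407d6.shift 0 3), (rh4e5819726101ea31.shift 1 0)] (by decide +kernel))
noncomputable def rh2a206bbe534d73c6 : CRef := CRef.mk (Pat.mk 0xe000000180000000800000000 0x14000000f4000000fe0000001f0000000b00000002 6 8) 0 0 (step_sound _ 100 [(rh3b00e9e9432b8f40.shift 0 2), (rh5421160f8e9bcf07.shift 1 1), (rh9115c4bb33f193b6.shift 0 2), rhf92edbcf3d10063c] (by decide +kernel))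
noncomputable def rh79c9bc473f84654d : CRef := CRef.mk (Pat.mk 0x18000000c0 0x770000007e000000e0 6 8) 0 0 (step_sound _ 37 [rhc88dbad8567ff01b, (rhd6e447e81774439e.shift 3 0)] (by decide +kernel))
noncomputable def rh6ac673da74501ff1 : CRef := CRef.mk (Pat.mk 0x180000000b000000180000000800000000 0x2000000020000001e0000000b0000001b0000000f00000005 6 5) 0 0 (step_sound _ 129 [rh4113266305f7f513, (rhb2a0b9ccfb5cecd5.shift 0 3)] (by decide +kernel))
noncomputable def rh2cb9eae81fef5e13 : CRef := CRef.mk (Pat.mk 0x30000001a00000008000000000000000000000000 0x3000000030000001b0000000f000000070000000700000005 6 5) 0 0 (step_sound _ 97 [rh0a6888916bcef86b, rh794501743a61ce18, rhe4e4efb231e692a9] (by decide +kernel))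
noncomputable def rhdbcc872b2f0a9d52 : CRef := CRef.mk (Pat.mk 0x10000000e000000140000000000000000 0x2000000020000000730000003e000000160000001000000010 6 7) 0 0 (step_sound _ 100 [(rh3f8766e6ecb455ce.shift 0 3), (rhd8b43b15431aaa50.shift 1 0)] (by decide +kernel))
noncomputable def rha0cf86d215cf873e : CRef := CRef.mk (Pat.mk 0x20000001e0000000200000000 0x50000000700000007000000020000003e0000000600000004 6 6) 0 0 (step_sound _ 34 [(rh18965a982d73c794.shift 1 1), rhfb9fb48a5e63ed80] (by decide +kernel))
noncomputable def rh92c4f675c4878534 : CRef := CRef.mk (Pat.mk 0x4000000300000001c000000000000000000000000 0x6000000760000003f0000001c0000000f0000000e0000000a 6 7) 0 0 (step_sound _ 130 [rh3e2c9a93a47040f2, (rh7035f48ce7c5b210.shift 0 3), (rh70e33bfdf511e144.shift 2 0)] (by decide +kernel))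
noncomputable def rh140d987a8619920f : CRef := CRef.mk (Pat.mk 0x100000001c0000001000000010 0x8000000380000003800000038000000180000001f0000001000000010 6 6) 0 0 (step_sound _ 132 [rh30a6383b9d7a72fd, (rh3ca48e2a6d60153d.shift 3 0), (rh4e2df8342d3b8ae8.shift 3 1), (rhc85cc95794737cf7.shift 3 1)] (by decide +kernel))
noncomputable def rh32b4338b512b3613 : CRef := CRef.mk (Pat.mk 0x40000000c0000001c000000000000000000000000 0x80000000c0000000f0000001c0000000f0000000e00000006 6 5) 0 0 (step_sound _ 67 [(rh7b1f1fb55310c477.shift 2 1), rhe936c95feb74ead4] (by decide +kernel))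
noncomputable def rh799c2a8eb59f74ab : CRef := CRef.mk (Pat.mk 0x80000000c0000001800000010000000000000000000000000 0x40000000c0000000c0000001c0000001f0000000f0000000c00000008 6 5) 0 0 (step_sound _ 99 [(rh1c214b98c27a159d.shift 2 0), (rhd204a504bad0f148.shift 0 2), (rhe286c75f2739cce2.shift 2 2)] (by decide +kernel))
noncomputable def rh325ea5cd28395dbe : CRef := CRef.mk (Pat.mk 0x2000000030000000600000004 0x80000001f0000003f0000001f00000004 6 6) 0 0 (step_sound _ 35 [rh5a29fa061ccd508c, (rhf48373e13d2bc128.shift 0 1)] (by decide +kernel))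
noncomputable def rhfcae9c72d230969d : CRef := CRef.mk (Pat.mk 0xc000000180000001000000000 0xc0000000c0000000f000000780000001e0000000c 6 7) 0 0 (step_sound _ 131 [(rh2145e1d24b96a57e.shift 3 1), rh2d066ac7b6f55303] (by decide +kernel))
noncomputable def rh1de9db2225e22019 : CRef := CRef.mk (Pat.mk 0x4000000060000000c0000000800000000 0x100000003c0000003e0000003e0000000b00000002 6 6) 0 0 (step_sound _ 68 [rha15abe97501c09ac, (rhf48373e13d2bc128.shift 1 2)] (by decide +kernel))
noncomputable def rh0dc9f4d294ed682f : CRef := CRef.mk (Pat.mk 0x40000000f0000000c000000280000000000000000 0x3c0000007f0000006c0000002e0000002600000006 6 7) 0 0 (step_sound _ 66 [(rh1e309b005ffa1b36.shift 2 0), (rh46530d756bdf8511.shift 1 0), (rhc31e1a2727346e0c.shift 0 1)] (by decide +kernel))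
noncomputable def rh80221fea40f98679 : CRef := CRef.mk (Pat.mk 0x60000001c00000008000000000000000000000000 0x40000000e0000000e0000001c0000000f000000060000000600000006 6 5) 0 0 (step_sound _ 194 [(rh2145e1d24b96a57e.shift 2 3), rh81337db91e26ab5b] (by decide +kernel))
noncomputable def rh7b9389c532b951ca : CRef := CRef.mk (Pat.mk 0x8000000180000001c0000000000000000 0x2000000020000000f0000001f0000007c0000000600000004 6 7) 0 0 (step_sound _ 98 [(rh79b3c29022acbdf3.shift 1 2), rhaed54c24fb91f24a, (rhf32f861d69cb038f.shift 1 0)] (by decide +kernel))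
noncomputable def rh86c3f9e6585921a3 : CRef := CRef.mk (Pat.mk 0xc0000000e000000180000001000000000 0x3c0000000e0000001b0000001f0000000e 6 6) 0 0 (step_sound _ 132 [(rh18965a982d73c794.shift 1 3), rhe03933d511c256c8] (by decide +kernel))
noncomputable def rh3b475951de9e34d0 : CRef := CRef.mk (Pat.mk 0xe00000010 0x370000003e00000037 6 6) 0 0 (step_sound _ 36 [(rhe25b0a99195a5d59.shift 1 0), rhe75cb24bf19af6cd] (by decide +kernel))
noncomputable def rh49e9842bc3ff8239 : CRef := CRef.mk (Pat.mk 0x20000001e0000000200000000 0x500000007000000070000003e0000001e0000000600000002 6 6) 0 0 (step_sound _ 100 [rh1a54bde169c54e1b, (rh33e738c4ed385b9f.shift 1 2)] (by decide +kernel))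
noncomputable def rh5e726a38d4303980 : CRef := CRef.mk (Pat.mk 0x100000001e000000100000001000000000 0x400000004000000170000003e000000130000001a00000008 6 6) 0 0 (step_sound _ 35 [(rh21460d2d48a35cb8.shift 0 1), (rh932754581e0f4330.shift 3 0)] (by decide +kernel))
noncomputable def rhfb0a9e5ef18cc3a1 : CRef := CRef.mk (Pat.mk 0x2000000060000001a00000008000000000000000000000000 0x6000000060000001e0000000f000000070000000700000005 6 5) 0 0 (step_sound _ 97 [rh1b9022be4f7af407, rha52e1acf7ed5511e, (rhda02c4ce0b224328.shift 0 3)] (by decide +kernel))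
noncomputable def rhb4abaed4bcb3a58d : CRef := CRef.mk (Pat.mk 0x1e000000180000001000000000 0x400000004000000370000003e0000001c0000001800000008 6 6) 0 0 (step_sound _ 132 [rh2f4264054a10d1fa, (rh33e738c4ed385b9f.shift 1 3)] (by decide +kernel))
noncomputable def rh0c2a3049bbbc63ad : CRef := CRef.mk (Pat.mk 0x40000000e000000180000000000000000 0xe7000000fe0000001f0000000300000003 6 8) 0 0 (step_sound _ 100 [rh90b3399dfa71cac9, (rh9f93e2b24091a43d.shift 1 2), (rha477348e8890404e.shift 0 2), (rhcb054c600a87078d.shift 1 2)] (by decide +kernel))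
noncomputable def rh42c09a3e6911bec1 : CRef := CRef.mk (Pat.mk 0x8000000180000001c000000300000000000000000 0x4000000060000000f000001de000001fc0000003e0000000800000008 6 9) 0 0 (step_sound _ 101 [(rh08d8da6ad145b4e8.shift 0 1), (rh2395824d1086e2bc.shift 1 0), (rh546551bfa61a8651.shift 2 2), (rh9115c4bb33f193b6.shift 1 2)] (by decide +kernel))
noncomputable def rh2dd82c7e81af44a6 : CRef := CRef.mk (Pat.mk 0x60000000c00000008000000000000000000000000 0x20000000200000006000000060000003e0000000f000000060000000600000006 6 6) 0 0 (step_sound _ 132 [rh4ea61d91c7b45512, (rhf48373e13d2bc128.shift 1 4)] (by decide +kernel))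
noncomputable def rh504df99a2451d493 : CRef := CRef.mk (Pat.mk 0xe000000020000000000000020 0xe00000007e000000730000002000000020 6 8) 0 0 (step_sound _ 100 [(rh66c438da7fa185e0.shift 1 0), (rheb0810cc63b001d8.shift 0 2)] (by decide +kernel))
noncomputable def rhe1b5f1db90aa7cc3 : CRef := CRef.mk (Pat.mk 0x4000000070000000c00000008000000000000000000000000 0x80000003c0000000f0000000e0000000e000000060000000600000006 6 6) 0 0 (step_sound _ 195 [(rh4563b2e7153378e8.shift 1 0), (rh572132728df34c43.shift 0 5), (rh6ffdc9b6760f019c.shift 1 0)] (by decide +kernel))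
noncomputable def rh2032190e18cdd245 : CRef := CRef.mk (Pat.mk 0x4000000070000000c00000008000000000000000000000000 0x80000003e000000070000003c0000000f000000060000000600000006 6 6) 0 0 (step_sound _ 132 [rh0d7a0838762d3de4, (rhf48373e13d2bc128.shift 1 4)] (by decide +kernel))
noncomputable def rhd2b2ab44e2921d07 : CRef := CRef.mk (Pat.mk 0x4000000070000000c00000008000000000000000000000000 0x80000003e0000000f0000000c0000000c000000060000000600000006 6 6) 0 0 (step_sound _ 195 [(rh572132728df34c43.shift 0 5), (rh80f90a60d87caa0d.shift 0 5), (rhfc686f2c325d1902.shift 1 0)] (by decide +kernel))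
noncomputable def rhdf2dbf5dfcc0ac60 : CRef := CRef.mk (Pat.mk 0x80000000e0000001800000010 0x3000000030000000ff000000fe0000001f00000010 6 8) 0 0 (step_sound _ 68 [(rh47c07cd0cc865f65.shift 0 1), (rha477348e8890404e.shift 0 1), (rhaa4f5ada35419d37.shift 2 0), (rhd283a685d2618d5b.shift 0 1)] (by decide +kernel))
noncomputable def rh42957523712ad798 : CRef := CRef.mk (Pat.mk 0x80000000c000000180000001c0000000000000000 0x100000001c0000000c0000001f0000001f0000000300000002 6 5) 0 0 (step_sound _ 65 [(rh53b3c253cb0c65f4.shift 0 2), rha9e19554bd711938] (by decide +kernel))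
noncomputable def rh0eebd43ba3f029a2 : CRef := CRef.mk (Pat.mk 0xc000000180000001000000000 0x10000000370000003f0000001f0000001800000008 6 6) 0 0 (step_sound _ 97 [(rhb739f4f82bb681b4.shift 0 2), rhe60dfcd57baa5bc1] (by decide +kernel))
noncomputable def rhe72119375f8d0613 : CRef := CRef.mk (Pat.mk 0x100000001c0000001000000010 0x80000001f0000003f0000001700000010 6 6) 0 0 (step_sound _ 99 [(rh50fbb5868c909700.shift 3 0), (rh9a07ed6d8ab07e0b.shift 0 1)] (by decide +kernel))
noncomputable def rhff761a6166dce01f : CRef := CRef.mk (Pat.mk 0xe0000000a0000000000000000 0x4000000040000000f0000003e0000000b0000000800000008 6 6) 0 0 (step_sound _ 100 [rh487e398f2023ec8e, (rheb0810cc63b001d8.shift 0 2)] (by decide +kernel))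
noncomputable def rh50c124f5b0ef979f : CRef := CRef.mk (Pat.mk 0x4000000070000000400000000000000000000000000000000 0x80000003e00000007000000040000000e0000000e0000000e0000000a 6 6) 0 0 (step_sound _ 98 [(rh0a6888916bcef86b.shift 1 0), (rh1eeec04e73117746.shift 0 3), (rh8cdd36b03d57a2f6.shift 1 1)] (by decide +kernel))
noncomputable def rh8ae707ccbbf43205 : CRef := CRef.mk (Pat.mk 0xc0000006800000028000000000000000000000000 0xc0000006c0000003c0000001f0000001c00000014 6 7) 0 0 (step_sound _ 100 [(rh53b3c253cb0c65f4.shift 2 3), rhe344085bcd0133c7] (by decide +kernel))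
noncomputable def rhfbe9be5cc827e16c : CRef := CRef.mk (Pat.mk 0x10000000f000000310000001000000000 0x8000000090000001d0000000f000000370000001e00000006 6 6) 0 0 (step_sound _ 131 [(rh33e738c4ed385b9f.shift 0 3), rh6ad33c5cad3d45f3] (by decide +kernel))
noncomputable def rh43887acd5536933c : CRef := CRef.mk (Pat.mk 0x8000000080000000a00000018 0x40000001c0000001c000000180000000c0000000f00000018 6 5) 0 0 (step_sound _ 132 [rh05154ecd4be11f67, (rhbaefcd01e0a8bca3.shift 3 0)] (by decide +kernel))
noncomputable def rhae1dd4283bf2190f : CRef := CRef.mk (Pat.mk 0x10000000100000007000000050000000000000000 0x200000003000000030000000b0000001f00000007000000050000000400000004 6 5) 0 0 (step_sound _ 192 [(rh44f453b84f013105.shift 0 2), (rh73f605273a09a9d0.shift 0 3), rhc6e7c4c6d98d37ba] (by decide +kernel))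
noncomputable def rhed808ce57f454405 : CRef := CRef.mk (Pat.mk 0x100000002000000020000000e000000080000000000000000 0x300000003000000160000003e0000000e000000080000000800000008 6 6) 0 0 (step_sound _ 193 [(rh50fbb5868c909700.shift 0 3), (rhc6e7c4c6d98d37ba.shift 1 0)] (by decide +kernel))
noncomputable def rh940a891607560725 : CRef := CRef.mk (Pat.mk 0x1e0000001800000008 0x180000001c0000001f0000003e0000001800000008 6 6) 0 0 (step_sound _ 132 [rh181f5bebce65a136, (rhee230b994cc8b773.shift 3 0)] (by decide +kernel))
noncomputable def rh6339d2ba5ee7f374 : CRef := CRef.mk (Pat.mk 0x380000000c000000000000000400000000 0xa0000001f0000003a0000000f000000060000000400000004 6 6) 0 0 (step_sound _ 66 [(rh536fe968b822c28b.shift 0 1), (rh71222050f2c63a3a.shift 2 0)] (by decide +kernel))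
noncomputable def rha555648cd7e21296 : CRef := CRef.mk (Pat.mk 0x2000000180000000c000000000000000000000000 0xa0000001f0000007a0000000f000000060000000400000004 6 7) 0 0 (step_sound _ 97 [rh4c48a68e1f06589f, (rh53b3c253cb0c65f4.shift 0 3)] (by decide +kernel))
noncomputable def rhd0b9f788349388ba : CRef := CRef.mk (Pat.mk 0x1000000008000000080000001800000008 0x180000001c0000000f0000007c0000001800000008 6 7) 0 0 (step_sound _ 131 [(rh2f68792b6b779e96.shift 3 1), rhdaf597e0539ea0b7] (by decide +kernel))
noncomputable def rh1d1d8b956a9c8d38 : CRef := CRef.mk (Pat.mk 0x100000001800000002000000000000000600000000 0x50000003f0000001f00000003000000020000000600000004 6 6) 0 0 (step_sound _ 129 [rh66d6a627e69b735a, (rh760717e835f8c2f3.shift 0 3)] (by decide +kernel))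
noncomputable def rhf7c9c3af28796251 : CRef := CRef.mk (Pat.mk 0x7000000000000000e00000008000000000000000000000000 0x10000000180000001f0000007c0000000e000000080000001c0000001c00000014 6 7) 0 0 (step_sound _ 163 [(rh64210d62cede1278.shift 1 2), (rhbba7d23481996066.shift 2 0), (rheb90acdf362e49d3.shift 0 3)] (by decide +kernel))
noncomputable def rh589757d5078cba71 : CRef := CRef.mk (Pat.mk 0xf0000000800000004 0x140000001c0000001c000000180000000f0000000c00000004 6 5) 0 0 (step_sound _ 99 [(rh33e738c4ed385b9f.shift 0 2), (rh9fb9dc683e09b5f3.shift 2 0)] (by decide +kernel))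
noncomputable def rh12b1d0190104f169 : CRef := CRef.mk (Pat.mk 0x100000003800000002 0x3ff000001fe000003c3 6 10) 0 0 (step_sound _ 38 [rh145442cd3bdfda18, (rh9c94213f6896c74a.shift 3 0), (rha93a5dd541ab8209.shift 3 0), (rhe3060b190bc0bc78.shift 2 1)] (by decide +kernel))
noncomputable def rh072588235e8cf92a : CRef := CRef.mk (Pat.mk 0x180000001e00000000 0x1800000038000000380000001f0000001e00000030 6 6) 0 0 (step_sound _ 4 [rh8bd8cf717677b3e2, (rhe25b0a99195a5d59.shift 1 0)] (by decide +kernel))
noncomputable def rh2200ebeb76adc7be : CRef := CRef.mk (Pat.mk 0x100000001e00000000 0x1f000000ff000000e0 6 8) 0 0 (step_sound _ 65 [(rh3244c3cc8379b070.shift 0 1), rha3a3aa2a7b3a9dc0] (by decide +kernel))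
noncomputable def rh0ea0561bec56852c : CRef := CRef.mk (Pat.mk 0x18000000c0 0x700000007e000000e7 6 8) 0 0 (step_sound _ 37 [rh943cbf2d38755a25, (rhd6e447e81774439e.shift 3 0)] (by decide +kernel))
noncomputable def rhe01325f52d40a444 : CRef := CRef.mk (Pat.mk 0x200000003000000020000000000000000 0x50000000700000007000000070000000600000003000000030000000300000001 6 3) 0 0 (step_sound _ 161 [(rh03dfdf12d5937476.shift 0 1), (rh1741680720c097b4.shift 0 2), (rh32431e66bbf434a4.shift 0 2), rh367118e0bf0473e0] (by decide +kernel))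
noncomputable def rh36a3d6b491ba0447 : CRef := CRef.mk (Pat.mk 0x8000000080000000c0000000c 0x170000001f0000007c0000000f0000000c 6 7) 0 0 (step_sound _ 98 [rh0f845378ca896b13, (rh50fbb5868c909700.shift 2 0)] (by decide +kernel))
noncomputable def rh46aa441443c6e3d0 : CRef := CRef.mk (Pat.mk 0xb0000001c0000000800000000 0x140000001c0000001c0000001e0000001b0000001c0000000c00000004 6 5) 0 0 (step_sound _ 131 [(rh03dfdf12d5937476.shift 2 0), (rh4a57183b91ec83ec.shift 0 1), (rh64bc0dab78a08b48.shift 2 1), (rhc85cc95794737cf7.shift 2 1), (rhccb3a79fd989e123.shift 2 1)] (by decide +kernel))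
noncomputable def rh784eb864b6890e43 : CRef := CRef.mk (Pat.mk 0x60000000000000006000000000000000000000000 0x50000000700000007000000060000000200000006000000070000000700000005 6 3) 0 0 (step_sound _ 129 [(rh215e11e099257d75.shift 1 2), (rh70e33bfdf511e144.shift 1 0), (rhc0f6fe06378683f4.shift 0 2), rhffb8e5993241bf15] (by decide +kernel))
noncomputable def rhf1733c1efd9afc2f : CRef := CRef.mk (Pat.mk 0xa0000001800000006000000040000000000000000 0x30000000f0000001b00000006000000070000000300000001 6 5) 0 0 (step_sound _ 129 [(rh2145e1d24b96a57e.shift 1 2), rhf2eb0d5b8c248a4e] (by decide +kernel))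
noncomputable def rhe28105107b36988f : CRef := CRef.mk (Pat.mk 0x200000002000000020000000200000000 0x200000006000000070000000700000003000000030000000200000002 6 3) 0 0 (step_sound _ 128 [(rh50fbb5868c909700.shift 0 1), rh7f8cdc644ba9beee] (by decide +kernel))
noncomputable def rh4af9117a15c443e9 : CRef := CRef.mk (Pat.mk 0xf000000000000000800000008000000000000000000000000 0xf0000001c00000008000000080000001c0000001c00000014 6 5) 0 0 (step_sound _ 163 [(rhbba7d23481996066.shift 2 0), (rhe25b0a99195a5d59.shift 0 5)] (by decide +kernel))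
noncomputable def rhe28f41f5056d178e : CRef := CRef.mk (Pat.mk 0x3000000044000000400000004400000040 0x7000000fe000000c6000000440000004400000040 6 8) 0 0 (step_sound _ 103 [(rh2f68792b6b779e96.shift 6 0), (rh6484df2a4870bee6.shift 0 1)] (by decide +kernel))
noncomputable def rheed4a7151102a91c : CRef := CRef.mk (Pat.mk 0x3800000002 0x1ff000000fe000001c3 6 9) 0 0 (step_sound _ 38 [rh145442cd3bdfda18, (rh3fc3a7fb6866dcd4.shift 3 0), (rhb18e6c78a554867d.shift 2 1), (rhe401600d466b97cd.shift 2 0)] (by decide +kernel))
noncomputable def rh66a9169e95403dec : CRef := CRef.mk (Pat.mk 0x80000000c000000000000001000000010 0xff0000007e000000f00000001000000010 6 8) 0 0 (step_sound _ 100 [(rh2613c889e411427e.shift 3 0), (rh3d36087d3a7e0089.shift 0 2)] (by decide +kernel))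
noncomputable def rh093db254d29e43d1 : CRef := CRef.mk (Pat.mk 0x18000000040000000000000004 0x1c7000000fe000001ce0000000400000004 6 9) 0 0 (step_sound _ 101 [rhee37d230d297e9fd, (rhf2b3bcf1454375d8.shift 2 2)] (by decide +kernel))
noncomputable def rh465bb582b4677232 : CRef := CRef.mk (Pat.mk 0x1800000004 0x1ff000000fe000001ce 6 9) 0 0 (step_sound _ 37 [(rh0f4a0920b9f47778.shift 2 0), rh8fcf2ee879e273f8, (rhc083815ec94cd2b2.shift 2 0), (rhf2b3bcf1454375d8.shift 2 0)] (by decide +kernel))
noncomputable def rh0d68ff94aba0a9dc : CRef := CRef.mk (Pat.mk 0x130000001c00000015000000000000000000000000 0x20000000a0000001f0000001b0000001d00000015000000390000003800000028 6 6) 0 0 (step_sound _ 195 [(rh6f2b0bd460f46bca.shift 0 2), (rhbba7d23481996066.shift 3 0), (rhc4af64a72b206bd6.shift 2 3)] (by decide +kernel))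
noncomputable def rh5e39eb1b2a64ac26 : CRef := CRef.mk (Pat.mk 0x600000002000000020000000200000000 0x40000000700000007000000030000000600000006000000030000000300000001 6 3) 0 0 (step_sound _ 32 [rh932754581e0f4330, (rh9e660d2b90c4f6db.shift 0 1)] (by decide +kernel))
noncomputable def rh12097de59e7578ec : CRef := CRef.mk (Pat.mk 0x190000001c00000004 0xe0000000e0000000e0000007f0000001c00000004 6 7) 0 0 (step_sound _ 66 [(rha502044e6132b15f.shift 1 0), (rhab22b5b56e7b3243.shift 0 1)] (by decide +kernel))
noncomputable def rhf242f03e812e9753 : CRef := CRef.mk (Pat.mk 0x1000000036000000380000002c00000000 0x64000000640000007e000000360000003a0000002f00000002 6 7) 0 0 (step_sound _ 33 [(rh53b3c253cb0c65f4.shift 0 1), (rhe68a8af67b9b7089.shift 1 0)] (by decide +kernel))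
noncomputable def rhfba1d3a0b8bf2136 : CRef := CRef.mk (Pat.mk 0xe000000000000000c00000004 0x100000007f0000003e000000780000000c00000004 6 7) 0 0 (step_sound _ 67 [(rh4772b2e4db6bb7c0.shift 0 1), (rh5c5e593799055d58.shift 2 0)] (by decide +kernel))
noncomputable def rhcb73ea1a13188283 : CRef := CRef.mk (Pat.mk 0x260000003800000020000000000000000000000000 0x50000000780000006f0000003800000020000000700000007000000050 6 7) 0 0 (step_sound _ 163 [(rhb739f4f82bb681b4.shift 0 4), (rhde3576515f6fb0bd.shift 2 0)] (by decide +kernel))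
noncomputable def rh3eebddc798fcd9a0 : CRef := CRef.mk (Pat.mk 0x10000001c000000160000000000000000 0x60000000e0000000e0000001f0000001c000000160000001200000010 6 5) 0 0 (step_sound _ 131 [(rhf71cb1a94bedb48c.shift 2 0), (rhfda22eb3ba441088.shift 0 1)] (by decide +kernel))
noncomputable def rhe11afaf67790b1c8 : CRef := CRef.mk (Pat.mk 0xe000000180000000a00000000 0x10000000f7000000fe0000001b0000000a00000002 6 8) 0 0 (step_sound _ 100 [(rh36095876875a1ad2.shift 0 2), (rh5421160f8e9bcf07.shift 1 1), rhef766b8fed2451e2] (by decide +kernel))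
noncomputable def rh9464e17000dc04a8 : CRef := CRef.mk (Pat.mk 0x10000001c00000017000000000000000000000000 0x80000000d0000001f0000001d00000017000000130000001200000002 6 5) 0 0 (step_sound _ 163 [rha54777067a2f7b62, (rhf71cb1a94bedb48c.shift 2 1)] (by decide +kernel))
noncomputable def rh8b09ffbbab21f854 : CRef := CRef.mk (Pat.mk 0x200000006000000020000000000000000 0x50000000700000007000000070000000600000006000000060000000600000006 6 3) 0 0 (step_sound _ 161 [(rh1741680720c097b4.shift 0 2), (rhca18712e5e5c7b8f.shift 1 0), (rhd4b4beefcd67f51e.shift 1 1), (rhfb9fb48a5e63ed80.shift 0 2)] (by decide +kernel))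
noncomputable def rha2893642700f4b17 : CRef := CRef.mk (Pat.mk 0x3c000000000000000000000000 0x1000000018000000380000007f0000000e0000000c00000004 6 7) 0 0 (step_sound _ 66 [rhd463eba807e70b5c, (rheb0810cc63b001d8.shift 1 2)] (by decide +kernel))
noncomputable def rhac5c31cf0dc9561b : CRef := CRef.mk (Pat.mk 0xc0000001c000000000000000000000000 0x8000000080000000c0000001c0000001f0000003c0000001c00000018 6 6) 0 0 (step_sound _ 163 [(rh046c5eb18e55a239.shift 3 0), rhf548895766fc3a93, (rhf9366b6a121593ef.shift 2 1)] (by decide +kernel))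
noncomputable def rhf15a311d14bd0c9a : CRef := CRef.mk (Pat.mk 0x40000001c0000000400000000 0xa0000000e0000000e0000000e000000040000001c0000000f0000000a 6 5) 0 0 (step_sound _ 130 [(rh14e0829dc73b6804.shift 1 1), (rh14f80659e6313cc6.shift 2 1), (rhc85cc95794737cf7.shift 1 1), (rhd4b4beefcd67f51e.shift 2 0), rhfbf2eae4035425b6] (by decide +kernel))
noncomputable def rh49905bd3aa3e7134 : CRef := CRef.mk (Pat.mk 0x80000003800000018000000000000000000000000 0x8000000380000003e0000001f0000001c0000001c 6 6) 0 0 (step_sound _ 36 [rh007694a9b1ccf5be, (rh9e07f76261b05888.shift 3 1)] (by decide +kernel))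
noncomputable def rh4c793daa798ff822 : CRef := CRef.mk (Pat.mk 0x180000003800000008 0xc0000001c0000001f0000003e0000003800000018 6 6) 0 0 (step_sound _ 100 [rh4baf89b8c0b8562a, (rh5c5e593799055d58.shift 3 0)] (by decide +kernel))
noncomputable def rh80094d3ea1f96b2c : CRef := CRef.mk (Pat.mk 0x38000000080000000000000000 0x140000001c0000001c0000001f00000078000000180000001800000018 6 7) 0 0 (step_sound _ 131 [(rhb5ba847c57864cbc.shift 2 1), (rhc252441a73d811a8.shift 2 0), (rhf60aa8aede119d3b.shift 0 3)] (by decide +kernel))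
noncomputable def rhd65929238cebfd33 : CRef := CRef.mk (Pat.mk 0x200000018000000280000000000000000 0x4000000040000000ef0000007e0000002f0000002000000020 6 8) 0 0 (step_sound _ 101 [(rh128e27bbf904bd5d.shift 0 3), (rh6e70543a8654da20.shift 1 2), (rh876086c78aa9d0e6.shift 0 2), (rhd8b43b15431aaa50.shift 2 0)] (by decide +kernel))
noncomputable def rhf929396ede32b50f : CRef := CRef.mk (Pat.mk 0x1e000000020000000000000000 0x1000000070000000700000007000000070000001e000000060000000600000006 6 5) 0 0 (step_sound _ 129 [(rh3244c3cc8379b070.shift 0 3), rhebc741fc23f3edc5] (by decide +kernel))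
noncomputable def rhda5bd266f468b314 : CRef := CRef.mk (Pat.mk 0x400000007000000020 0xce0000007e00000037 6 8) 0 0 (step_sound _ 35 [rh2efad3051cff7df1, (rh33e738c4ed385b9f.shift 3 1)] (by decide +kernel))
noncomputable def rh3328f225994057f8 : CRef := CRef.mk (Pat.mk 0x90000001c00000007000000000000000000000000 0x80000000d0000000f0000001d00000007000000030000000200000002 6 5) 0 0 (step_sound _ 195 [(rh5c5e593799055d58.shift 2 3), rha54777067a2f7b62] (by decide +kernel))
noncomputable def rhb01f3306af473012 : CRef := CRef.mk (Pat.mk 0x90000001c0000000600000000 0xa0000000f0000003f0000001c0000000600000002 6 6) 0 0 (step_sound _ 131 [rh3e188b388f427a5c, (rh5c5e593799055d58.shift 2 1)] (by decide +kernel))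
noncomputable def rh6cf81d183966688f : CRef := CRef.mk (Pat.mk 0x700000002000000000 0x8000000080000000e000000fe0000007f00000010 6 8) 0 0 (step_sound _ 67 [(rh3a69dc315759d1b4.shift 2 0), (rh4f8edb321cf5b49d.shift 1 1), (rheaad777ed634577b.shift 0 1), (rhfcb55d5dc3b78d1f.shift 1 1)] (by decide +kernel))
noncomputable def rha630d6fa3d151299 : CRef := CRef.mk (Pat.mk 0x80000000e000000180000001000000000 0x3000000032000000fb000000fe0000001f0000001c0000000c 6 8) 0 0 (step_sound _ 100 [(rh1b158c3433386da7.shift 2 0), rh2395824d1086e2bc, (rh7ff601fc6d1f05ff.shift 1 0), (rh803d662a23946203.shift 1 1), (rh9115c4bb33f193b6.shift 0 2)] (by decide +kernel))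
noncomputable def rh7b79ce6adb6f344d : CRef := CRef.mk (Pat.mk 0x1e000000020000000000000000 0x50000000700000007000000070000001e000000060000000600000006 6 5) 0 0 (step_sound _ 129 [(rh3244c3cc8379b070.shift 0 3), rhc252441a73d811a8] (by decide +kernel))
noncomputable def rhc9fa261013a99723 : CRef := CRef.mk (Pat.mk 0xe0000000800000008 0x14000000140000003f0000003e0000001b00000008 6 6) 0 0 (step_sound _ 68 [rh3e34a007a92efc93, (rh94246470f0e6fdf7.shift 1 0), rha8e0a75650f27cc7] (by decide +kernel))
noncomputable def rhb755a5fd28b8da30 : CRef := CRef.mk (Pat.mk 0x180000000a0000002800000028 0x640000007e0000007b0000002800000028 6 7) 0 0 (step_sound _ 98 [rh2e1e8f7eff233e39, (rh50fbb5868c909700.shift 2 0)] (by decide +kernel))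
noncomputable def rhe238cad3f5c33294 : CRef := CRef.mk (Pat.mk 0x2000000020000000e0000000a0000000000000000 0x5000000070000000700000006000000160000003e0000000e0000000a0000000800000008 6 6) 0 0 (step_sound _ 193 [(rh1148744b53f3df58.shift 0 3), (rh44f453b84f013105.shift 1 2), (rhc6e7c4c6d98d37ba.shift 1 0)] (by decide +kernel))
noncomputable def rh5dfebfbc3a1b96b4 : CRef := CRef.mk (Pat.mk 0x180000000b000000180000000800000000 0x2000000020000001e0000000b0000001b0000000f00000005 6 5) 0 0 (step_sound _ 34 [(rh932754581e0f4330.shift 2 0), rhb948f9e11cc344dd] (by decide +kernel))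
noncomputable def rhec0ae968bf34fbee : CRef := CRef.mk (Pat.mk 0xc0000000b000000180000000800000000 0x2000000020000001e0000000b0000001b0000000f00000005 6 5) 0 0 (step_sound _ 129 [(rh18965a982d73c794.shift 0 3), rh4113266305f7f513] (by decide +kernel))
noncomputable def rh352c504ad40db03f : CRef := CRef.mk (Pat.mk 0x30000000200000000c0000000400000004 0x4000000040000000f0000003e0000006b0000000e0000000c00000004 6 7) 0 0 (step_sound _ 131 [(rhb009278fdd334770.shift 2 0), (rhb852e51028e2230d.shift 1 1), (rhfaed7a8ddd08c10d.shift 0 1)] (by decide +kernel))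
noncomputable def rhbc75d58fe242baed : CRef := CRef.mk (Pat.mk 0x3800000010000000100000001000000000 0x70000003e0000003f0000001c0000001800000008 6 6) 0 0 (step_sound _ 35 [(rh41d56736f60b370d.shift 0 1), (rh932754581e0f4330.shift 3 0)] (by decide +kernel))
noncomputable def rh717fdb4ad97a9d8f : CRef := CRef.mk (Pat.mk 0x6000000000000000200000002000000000000000000000000 0x400000006000000060000000200000002000000070000000700000005 6 3) 0 0 (step_sound _ 161 [(rh2f68792b6b779e96.shift 1 3), rh984bfc6de6c2c524] (by decide +kernel))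
noncomputable def rhf77e75462fdb7efe : CRef := CRef.mk (Pat.mk 0x400000000000000060000000200000000000000000000000000000000 0x400000007000000070000000700000007000000070000000700000005 6 3) 0 0 (step_sound _ 97 [rh2fdd0b9c391ae134, (rh514fa720804abbca.shift 1 2), (rh7451f34b061ea69b.shift 1 3), rhffb8e5993241bf15] (by decide +kernel))
noncomputable def rh05b3631c53a5580a : CRef := CRef.mk (Pat.mk 0x4000000080000000b0000000900000001 0x100000001e0000001f0000000a0000000b0000000b00000001 6 5) 0 0 (step_sound _ 131 [(rh50fbb5868c909700.shift 2 1), rh9094d17f6beeebe0] (by decide +kernel))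
noncomputable def rh108d4fcec14f4028 : CRef := CRef.mk (Pat.mk 0x300000002000000020000000200000000 0x10000000700000007000000060000000300000003000000030000000300000001 6 3) 0 0 (step_sound _ 32 [(rh74cbd60fdcb32646.shift 0 1), rh932754581e0f4330] (by decide +kernel))
noncomputable def rh8eb5866e4932a1e4 : CRef := CRef.mk (Pat.mk 0x180000001c000000000000000400000000 0x40000001f0000001f000000030000000600000006 6 5) 0 0 (step_sound _ 97 [rh43ca58b80ff240ff, (rh53b3c253cb0c65f4.shift 0 3)] (by decide +kernel))
noncomputable def rh5704e001fbc70110 : CRef := CRef.mk (Pat.mk 0x1000000038000000000000006800000000 0xc0000001e000000380000000f0000007c0000000c 6 7) 0 0 (step_sound _ 67 [(rh71222050f2c63a3a.shift 3 0), rhcae3a3c87db277b3] (by decide +kernel))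
noncomputable def rh61257be8a2a27e51 : CRef := CRef.mk (Pat.mk 0x2000000020000000600000001 0x500000007000000070000000200000002000000060000000700000001 6 3) 0 0 (step_sound _ 129 [(rh1148744b53f3df58.shift 0 1), rh79877ebd3ef475dd] (by decide +kernel))
noncomputable def rh9a87973712d297f3 : CRef := CRef.mk (Pat.mk 0x80000000c0000001800000010000000000000000000000000 0x140000001c0000001c0000001c0000001f0000000f0000000c0000000c 6 5) 0 0 (step_sound _ 99 [(rh1152aee0afa96cae.shift 2 0), (rhaeecc7287588a69b.shift 2 0), (rhb1c562e40ee61608.shift 2 0), (rhd204a504bad0f148.shift 0 2)] (by decide +kernel))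
noncomputable def rh156eb79819174918 : CRef := CRef.mk (Pat.mk 0x30000000c000000140000000000000000 0x2000000020000000730000003e000000160000001000000010 6 7) 0 0 (step_sound _ 100 [(rh09d4dfe75d4407d6.shift 0 3), (rhd8b43b15431aaa50.shift 1 0)] (by decide +kernel))
noncomputable def rh1d76a6b8d8527f39 : CRef := CRef.mk (Pat.mk 0x2000000030000000e00000004000000000000000000000000 0xd0000001f0000001b0000000f00000007000000030000000300000003 6 5) 0 0 (step_sound _ 97 [rh1152aee0afa96cae, rh46d6183566ef1216, (rhd6bc10e2a6aa5684.shift 0 3)] (by decide +kernel))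
noncomputable def rhe0dedc17f8e95fbb : CRef := CRef.mk (Pat.mk 0x180000001800000030 0x40000000c0000000e000000ff0000001f00000038 6 8) 0 0 (step_sound _ 69 [(rh0f936b2c74e7b815.shift 2 0), rh2a8986bfcf51cd35, (rh2ed427353258d8dd.shift 1 0)] (by decide +kernel))
noncomputable def rhe21597e8277096ec : CRef := CRef.mk (Pat.mk 0x2000000030000000e00000006 0xc0000001e0000007f0000000f00000006 6 7) 0 0 (step_sound _ 98 [(rh2f68792b6b779e96.shift 1 0), rhdf4e16e660edac6b] (by decide +kernel))
noncomputable def rhef99170d83932e11 : CRef := CRef.mk (Pat.mk 0x160000001c0000000800000000 0x200000012000000330000001e0000001e0000000c00000004 6 6) 0 0 (step_sound _ 132 [(rh5c5e593799055d58.shift 3 1), rhdc8faaa3c70cb170] (by decide +kernel))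
noncomputable def rh6844e411fefe99c7 : CRef := CRef.mk (Pat.mk 0x2000000030000000600000004000000000000000000000000 0x1d0000001f000000070000000600000006000000030000000300000003 6 5) 0 0 (step_sound _ 97 [rhb1c562e40ee61608, (rhe286c75f2739cce2.shift 0 2), (rhe443475c6fff10d6.shift 0 1), (rhf1a474528309ec68.shift 0 3)] (by decide +kernel))
noncomputable def rhd138e8d26baecac9 : CRef := CRef.mk (Pat.mk 0x1e000000180000004000000000 0x73000000fe000000d80000004000000040 6 8) 0 0 (step_sound _ 129 [(rh3244c3cc8379b070.shift 0 3), (rhc31e1a2727346e0c.shift 1 0)] (by decide +kernel))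
noncomputable def rhc1743faf47b80a48 : CRef := CRef.mk (Pat.mk 0xe000000180000001000000000 0x400000014000000f7000000fe0000001c0000001800000008 6 8) 0 0 (step_sound _ 100 [(rh36095876875a1ad2.shift 0 2), rh4b1755f8285e3534, (rh7ff601fc6d1f05ff.shift 1 0)] (by decide +kernel))
noncomputable def rh5101caf89bac367c : CRef := CRef.mk (Pat.mk 0x180000001e0000000000000000 0x200000002000000070000001f0000003e0000000400000004 6 6) 0 0 (step_sound _ 97 [(rh3244c3cc8379b070.shift 0 2), rh6a17cdff47514499] (by decide +kernel))
noncomputable def rh4e57dd92c4f29827 : CRef := CRef.mk (Pat.mk 0x1e0000000800000008 0x400000004000000060000000f0000003e0000000a0000000a 6 6) 0 0 (step_sound _ 97 [(rh3244c3cc8379b070.shift 0 2), (rh42a1045e8e0be4df.shift 1 0)] (by decide +kernel))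
noncomputable def rh38b56bf623cf94fc : CRef := CRef.mk (Pat.mk 0x80000001c000000080000000800000000 0x170000001f0000001c0000000c0000000c00000004 6 5) 0 0 (step_sound _ 130 [(rh50fbb5868c909700.shift 2 1), rha4dd4a1058feb62e] (by decide +kernel))
noncomputable def rh85a64421afca52cf : CRef := CRef.mk (Pat.mk 0x1000000038000000180000001800000000 0x240000003e000000380000001f0000001f00000004 6 6) 0 0 (step_sound _ 65 [(rh24ae073cf30720c4.shift 1 2), rh5a079197757c06bc] (by decide +kernel))
noncomputable def rh8265abadb17c30c5 : CRef := CRef.mk (Pat.mk 0x600000007000000020000000200000000 0x300000003000000030000001e00000007000000030000000300000001 6 5) 0 0 (step_sound _ 132 [rh0ef6c71ce89c1c36, (rh361cc68994bd8a63.shift 0 3)] (by decide +kernel))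
noncomputable def rh5466715ca68519b4 : CRef := CRef.mk (Pat.mk 0x3000000180000000c000000000000000000000000 0x1000000030000001f0000000f000000030000000300000001 6 5) 0 0 (step_sound _ 129 [(rh5419adcd928dba20.shift 0 4), rh8a5fe1dd9bb6066e] (by decide +kernel))
noncomputable def rhcf679b661722e5f7 : CRef := CRef.mk (Pat.mk 0x180000000b000000180000000800000000 0x2000000020000001f0000000b000000190000000f00000005 6 5) 0 0 (step_sound _ 34 [(rh932754581e0f4330.shift 2 0), rha4ddb8f0ec247c95] (by decide +kernel))
noncomputable def rh6cae0ab134e00e2b : CRef := CRef.mk (Pat.mk 0x10000000160000001000000010 0x2000000020000000b0000003e000000360000001400000010 6 6) 0 0 (step_sound _ 99 [(rh50fbb5868c909700.shift 3 0), (rhfc45e8cb23cac674.shift 0 1)] (by decide +kernel))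
noncomputable def rh61c2eaf59dd95fac : CRef := CRef.mk (Pat.mk 0x30000001a00000008000000000000000000000000 0x10000000100000003000000030000001b0000000f000000070000000700000005 6 5) 0 0 (step_sound _ 97 [rh0a6888916bcef86b, (rhb1a251d9bff81766.shift 0 2), rhe4e4efb231e692a9] (by decide +kernel))
noncomputable def rhdb0129b6c42b3c14 : CRef := CRef.mk (Pat.mk 0x80000000b0000001a0000000800000000 0x110000001f0000000b0000001a0000000f00000006 6 5) 0 0 (step_sound _ 132 [(rh2f68792b6b779e96.shift 3 1), rh53dc07c2de49cbb7] (by decide +kernel))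
noncomputable def rhcebf3869a7708aac : CRef := CRef.mk (Pat.mk 0x1000000018000000100000001000000000 0x2e0000003f00000038000000180000001800000008 6 6) 0 0 (step_sound _ 131 [rh1df241f7a941b841, (rh50fbb5868c909700.shift 3 1)] (by decide +kernel))
noncomputable def rh21173ca47143c81e : CRef := CRef.mk (Pat.mk 0x100000000e000000100000001800000000 0x200000002000000130000003e000000170000001c00000008 6 6) 0 0 (step_sound _ 100 [(rh3a69dc315759d1b4.shift 0 1), (rh932754581e0f4330.shift 3 0)] (by decide +kernel))
noncomputable def rh1843059052e72e4b : CRef := CRef.mk (Pat.mk 0xe000000180000001000000000 0x3400000034000000f7000000fe0000001f0000001800000008 6 8) 0 0 (step_sound _ 100 [(rh0d1ab260d4dd6524.shift 1 1), (rh47c07cd0cc865f65.shift 0 2), (rh58be10f3c1c4917e.shift 2 0), (rh7ff601fc6d1f05ff.shift 1 0), (rhaf82daf3f22b29cf.shift 1 1)] (by decide +kernel))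
noncomputable def rh4f417a11c3e94663 : CRef := CRef.mk (Pat.mk 0x1e000000080000000800000000 0x6000000070000003e0000000f0000000c00000004 6 6) 0 0 (step_sound _ 65 [rh30bfb683562752ca, (rheb0810cc63b001d8.shift 0 2)] (by decide +kernel))
noncomputable def rhb1e79d2c1c402a60 : CRef := CRef.mk (Pat.mk 0x180000001c000000100000000800000000 0x170000001f0000001c0000001c0000000c00000004 6 5) 0 0 (step_sound _ 67 [(rh5c5e593799055d58.shift 3 1), rh795a9fa361f5265f] (by decide +kernel))
noncomputable def rhf30e2499254ddf23 : CRef := CRef.mk (Pat.mk 0x180000001c000000180000000800000000 0x70000001f0000001c0000007c0000000c00000004 6 7) 0 0 (step_sound _ 130 [(rh50fbb5868c909700.shift 2 1), rh87602db817253040] (by decide +kernel))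
noncomputable def rh7f48f6abbcfebac4 : CRef := CRef.mk (Pat.mk 0x400000007000000040000000400000000 0xc0000003e000000070000001e0000000600000002 6 6) 0 0 (step_sound _ 33 [(rh86843d30e3111f67.shift 0 1), (rh932754581e0f4330.shift 1 0)] (by decide +kernel))
noncomputable def rh559a0cc70401df55 : CRef := CRef.mk (Pat.mk 0x2000000030000000200000002 0x100000007000000070000000700000003000000030000000200000002 6 3) 0 0 (step_sound _ 129 [(rh1741680720c097b4.shift 0 1), rh3ca48e2a6d60153d, (rh42ab489a1be3958e.shift 0 1), rh6bf886c167578650] (by decide +kernel))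
noncomputable def rh07db138bb9ba6c42 : CRef := CRef.mk (Pat.mk 0x1c00000020 0x670000003e00000067 6 7) 0 0 (step_sound _ 37 [rh2a10de59957b9e43, (rhe25b0a99195a5d59.shift 2 0)] (by decide +kernel))
noncomputable def rhc294d3f3f0a2ded0 : CRef := CRef.mk (Pat.mk 0x70000001c00000008000000000000000000000000 0x20000000a0000001e000000070000001c0000000f000000060000000600000006 6 5) 0 0 (step_sound _ 98 [(rh46d6183566ef1216.shift 1 0), rh5f4ebaa0ad71bbd5, (rh82d90cade0b08c2c.shift 0 2), (rhb1a251d9bff81766.shift 1 2)] (by decide +kernel))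
noncomputable def rh40cd4612b7ed25ec : CRef := CRef.mk (Pat.mk 0x2000000120000001a0000001a 0x50000003700000037000000120000001a0000001a 6 6) 0 0 (step_sound _ 100 [rh56cc3e1ac19432a5, (rh5c5e593799055d58.shift 3 0)] (by decide +kernel))
noncomputable def rhbd1d999d8c40bf86 : CRef := CRef.mk (Pat.mk 0xa0000000e0000000a0000000000000000 0x500000007000000070000000a0000000e0000000e0000000e00000004 6 4) 0 0 (step_sound _ 34 [(rhba97f7f4ade5e136.shift 0 1), (rhe38ad39d05c44887.shift 1 0), (rhe7415e1dfa0355bf.shift 1 0)] (by decide +kernel))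
noncomputable def rh9646ef012e4a1424 : CRef := CRef.mk (Pat.mk 0x80000000e0000001a 0x30000000300000003f0000001e0000001b 6 6) 0 0 (step_sound _ 36 [rhd283a685d2618d5b, rheb0810cc63b001d8] (by decide +kernel))
noncomputable def rh14c4c0066d15855e : CRef := CRef.mk (Pat.mk 0x180000001c000000340000000000000000 0x60000001f0000001c0000003c0000000e0000000c 6 6) 0 0 (step_sound _ 34 [(rh71222050f2c63a3a.shift 2 0), rh9268484a68aeb700] (by decide +kernel))
noncomputable def rhfa937ba1294516fe : CRef := CRef.mk (Pat.mk 0x100000001c000000340000000400000000 0xe0000001f0000001c0000003c0000000e00000008 6 6) 0 0 (step_sound _ 67 [rhb2bddacb8295035d, (rheb0810cc63b001d8.shift 1 1)] (by decide +kernel))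
noncomputable def rhf708d9c22d38334b : CRef := CRef.mk (Pat.mk 0x1c0000001e000000060000000000000000 0x180000001a0000003b0000001e0000001e000000060000000200000002 6 6) 0 0 (step_sound _ 195 [(rhee230b994cc8b773.shift 2 2), rhf14b1e043008d8da] (by decide +kernel))
noncomputable def rh409bd042928aed17 : CRef := CRef.mk (Pat.mk 0x1800000018000000200000003000000000 0x18000000180000006f0000003e0000001f 6 7) 0 0 (step_sound _ 35 [(rh8556ce617a451e36.shift 3 0), (rh872d4931201b889e.shift 1 0), rha4e887c2a2a0f60b] (by decide +kernel))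
noncomputable def rhe24336dbfafa70a5 : CRef := CRef.mk (Pat.mk 0x80000002000000030000000100000001000000000 0x8000000080000006f0000003e0000001f0000001400000004 6 7) 0 0 (step_sound _ 99 [(rh3190ddce5a11f5a8.shift 1 0), (rha4e887c2a2a0f60b.shift 0 2), (rhdf6eda84f2eabc48.shift 3 1)] (by decide +kernel))
noncomputable def rh903bd2c25264cc4a : CRef := CRef.mk (Pat.mk 0x1e000000020000000000000000 0x200000007000000070000003f0000001e000000060000000200000002 6 6) 0 0 (step_sound _ 129 [(rh3244c3cc8379b070.shift 0 3), rh564e267758468e04] (by decide +kernel))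
noncomputable def rhc0d8439f31654470 : CRef := CRef.mk (Pat.mk 0x100000001e000000100000000800000000 0x14000000140000003e0000001f0000000b00000002 6 6) 0 0 (step_sound _ 67 [(rh5c5e593799055d58.shift 3 1), rhf92edbcf3d10063c] (by decide +kernel))
noncomputable def rha3138e2669583714 : CRef := CRef.mk (Pat.mk 0x6000000180000000e000000040000000000000000 0x100000003a0000001e0000001b0000000e000000040000000400000004 6 6) 0 0 (step_sound _ 129 [rh1e91a951ee12cbbd, (rh2145e1d24b96a57e.shift 1 2)] (by decide +kernel))
noncomputable def rh8c6d16ddf90b9295 : CRef := CRef.mk (Pat.mk 0x30000000c00000007000000000000000000000000 0x10000000d0000001f0000000f0000000e00000007000000030000000300000003 6 5) 0 0 (step_sound _ 129 [rh281c6819542c66e6, rh46d6183566ef1216, (rh4b61a811a4171636.shift 0 2), (rhb1a251d9bff81766.shift 0 2)] (by decide +kernel))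
noncomputable def rha8b407a04468a08a : CRef := CRef.mk (Pat.mk 0x60000001a0000000e000000000000000000000000 0x100000003a0000001e0000001b0000000e000000040000000400000004 6 6) 0 0 (step_sound _ 66 [rh1e91a951ee12cbbd, (rh2145e1d24b96a57e.shift 1 2)] (by decide +kernel))
noncomputable def rhc9935fd27f471a52 : CRef := CRef.mk (Pat.mk 0x4000000060000001a0000000a 0x130000003f0000003e0000001b0000000a 6 6) 0 0 (step_sound _ 68 [(rh8aeae207ef4e32d0.shift 0 1), rhb67fb61e5a664ab5, (rhc7fbeba8b6af5dd2.shift 1 0)] (by decide +kernel))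
noncomputable def rhf33fda90a6bde5dd : CRef := CRef.mk (Pat.mk 0x2000000060000001c0000000c 0x18000000ff000000fe0000001f0000000c 6 8) 0 0 (step_sound _ 67 [(rh0346294028c2baab.shift 0 1), rh2103f37c1c4a3564, (rh9f93e2b24091a43d.shift 0 1), (rha8849b2c5e97fde1.shift 1 0)] (by decide +kernel))
noncomputable def rhd1ee94638bebaa95 : CRef := CRef.mk (Pat.mk 0x6000000180000000c000000000000000000000000 0x2000000060000001e0000000f000000060000000600000006 6 5) 0 0 (step_sound _ 97 [(rh53b3c253cb0c65f4.shift 0 3), (rhb347705e89406b9c.shift 1 0)] (by decide +kernel))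
noncomputable def rh47f6ce8608325cf5 : CRef := CRef.mk (Pat.mk 0x2000000060000000e0000000a0000000000000000 0x30000000300000003000000360000003e0000000a0000000800000008 6 6) 0 0 (step_sound _ 100 [rh276b92895cffadbb, (rhf48373e13d2bc128.shift 1 3)] (by decide +kernel))
noncomputable def rhbd7ded1b1990b870 : CRef := CRef.mk (Pat.mk 0x8000000090000001c00000010 0x20000000780000007f0000007c00000010 6 7) 0 0 (step_sound _ 66 [(rhab22b5b56e7b3243.shift 0 1), (rhcaea2482bc503952.shift 2 0)] (by decide +kernel))
noncomputable def rh818b972a3796a3cb : CRef := CRef.mk (Pat.mk 0x90000001c000000100000000000000000 0x20000000200000007f0000007c000000100000001000000010 6 7) 0 0 (step_sound _ 130 [(rh8b2d36c28c390ec0.shift 2 0), (rhab22b5b56e7b3243.shift 0 3)] (by decide +kernel))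
noncomputable def rhfb12d2db40e4b3eb : CRef := CRef.mk (Pat.mk 0x400000006000000300000001200000000 0x1000000070000000700000006000000360000001e00000004 6 6) 0 0 (step_sound _ 34 [rh0f23d8f768c4ff38, (rh1c62b6193297d9e3.shift 1 1)] (by decide +kernel))
noncomputable def rh5274bdb88bc355e1 : CRef := CRef.mk (Pat.mk 0x20000000000000006000000300000001000000000 0x50000000700000007000000030000000700000007000000370000001f00000005 6 6) 0 0 (step_sound _ 129 [rh0892c6e71c888aa7, (rh1e6400bd70fa042e.shift 0 1), (rh8599f462953abc6e.shift 1 2), (rh9fecc968bced2cac.shift 0 2)] (by decide +kernel))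
noncomputable def rh439fe184282dd11d : CRef := CRef.mk (Pat.mk 0x1e0000000000000006000000300000001000000000 0x1e0000000700000006000000370000001f00000005 6 6) 0 0 (step_sound _ 129 [rh0892c6e71c888aa7, (rheb0810cc63b001d8.shift 0 4)] (by decide +kernel))
noncomputable def rh4779e9e3b0ddb607 : CRef := CRef.mk (Pat.mk 0x10000000140000001000000010 0x2f0000003e000000360000001000000010 6 6) 0 0 (step_sound _ 101 [(rh2f68792b6b779e96.shift 4 0), rhf38f9b555022e2b2] (by decide +kernel))
noncomputable def rhd74abf47eb7c129d : CRef := CRef.mk (Pat.mk 0x30000001a00000008000000000000000000000000 0x10000000300000003000000030000001b0000000f000000030000000300000001 6 5) 0 0 (step_sound _ 97 [rh01483ff9cba2f6ac, (rh7183d73c74feafce.shift 0 2), rhde5b474548b482d7, (rhf9a6286f1d5377a2.shift 0 2)] (by decide +kernel))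
noncomputable def rh00043dc59e018c55 : CRef := CRef.mk (Pat.mk 0x1200000006000000020000000000000000 0x200000007000000070000001e00000006000000060000000300000003 6 5) 0 0 (step_sound _ 130 [rh1790ec355e1c8572, (rh84d1c02a8954c6a8.shift 1 1), (rh8e4d738d72204634.shift 0 2)] (by decide +kernel))
noncomputable def rh50c225b5fb366cec : CRef := CRef.mk (Pat.mk 0xc0000001c000000180000000000000000 0xc0000001f0000001b0000000f0000000e 6 5) 0 0 (step_sound _ 35 [rh74d27e3a5c195e59, (rh7b1f1fb55310c477.shift 2 0)] (by decide +kernel))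
noncomputable def rh4b9a459a2de6a13c : CRef := CRef.mk (Pat.mk 0x3000000040 0x1f000000fe000001ff 6 9) 0 0 (step_sound _ 35 [(rh188dd7f519d15d21.shift 2 0), rh36eba2a3de447758, (rh6aa0ed61cce1493b.shift 2 0)] (by decide +kernel))
noncomputable def rh6d7c2c041b8746bb : CRef := CRef.mk (Pat.mk 0xc0000000e000000180000000000000000 0xf0000007e0000001f0000000300000003 6 7) 0 0 (step_sound _ 100 [rh0445f8aec485ed09, (rhe3060b190bc0bc78.shift 0 3), (rhf10fa853c2693a25.shift 0 2)] (by decide +kernel))
noncomputable def rheb9a1268b7ab304c : CRef := CRef.mk (Pat.mk 0x8000000180000001c0000000000000000 0x2000000020000000f0000001f0000007c0000000600000004 6 7) 0 0 (step_sound _ 98 [(rh7478433a598f2371.shift 1 0), rhaed54c24fb91f24a, (rhe2b63c00a3d7bb73.shift 0 2)] (by decide +kernel))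
noncomputable def rh6173e9a931e5114a : CRef := CRef.mk (Pat.mk 0xa000000020000001e0000000e000000020000000000000000 0x3d0000001f000000120000001e0000000e000000020000000200000002 6 6) 0 0 (step_sound _ 33 [(rh71222050f2c63a3a.shift 1 0), (rh9373d57ffb5050cd.shift 0 3)] (by decide +kernel))
noncomputable def rhb93ea0e21248128a : CRef := CRef.mk (Pat.mk 0xc0000000c0000001800000010 0x34000000360000007f0000007c0000001800000010 6 7) 0 0 (step_sound _ 130 [(rh2145e1d24b96a57e.shift 2 1), rh7fde2ea56181695b] (by decide +kernel))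
noncomputable def rhff60e4c5a2b76c5f : CRef := CRef.mk (Pat.mk 0x1e0000000800000008 0x6000000060000000f0000001e0000000f0000000c 6 5) 0 0 (step_sound _ 33 [rh4f1d2714fadf1c02, (rheb0810cc63b001d8.shift 0 1)] (by decide +kernel))
noncomputable def rhab3233772ef8317a : CRef := CRef.mk (Pat.mk 0x7000000040 0xf0000007e000000cf 6 8) 0 0 (step_sound _ 35 [(rhe25b0a99195a5d59.shift 3 0), rhf114f5dffdef7549] (by decide +kernel))
noncomputable def rh37fcd83deb12c4fe : CRef := CRef.mk (Pat.mk 0x80000000c0000003800000010000000000000000000000000 0x340000007f0000003c00000038000000180000000c0000000c0000000c 6 7) 0 0 (step_sound _ 99 [(rh04a831af7322b636.shift 2 3), (rh46d6183566ef1216.shift 2 0), (rh9eba3b0ca80b715c.shift 0 2), (rhb1c562e40ee61608.shift 2 0)] (by decide +kernel))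
noncomputable def rhd338c361a7c5fdfe : CRef := CRef.mk (Pat.mk 0x60000001e00000000000000000000000000000000 0x4000000060000001e00000003000000070000000700000005 6 5) 0 0 (step_sound _ 97 [rh1b9022be4f7af407, (rheb0810cc63b001d8.shift 0 3)] (by decide +kernel))
noncomputable def rh152d3b71cd350273 : CRef := CRef.mk (Pat.mk 0x100000007800000000 0xfc0000007f00000007 6 8) 0 0 (step_sound _ 67 [(rh3244c3cc8379b070.shift 2 1), rh81eabc3f853e2700] (by decide +kernel))
noncomputable def rhd4c726bfd72d2183 : CRef := CRef.mk (Pat.mk 0x18000000380000002000000000 0xc0000001c0000001c000000180000003c0000002f0000000c 6 6) 0 0 (step_sound _ 132 [(rh2145e1d24b96a57e.shift 4 1), rhc42aea36b73d40d2] (by decide +kernel))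
noncomputable def rh284d90cd4d03bd85 : CRef := CRef.mk (Pat.mk 0x1e0000001a000000000000000000000000 0x200000006000000070000001e0000001e000000070000000600000002 6 5) 0 0 (step_sound _ 161 [(rh3244c3cc8379b070.shift 0 4), rh914a225e7f44ad68] (by decide +kernel))
noncomputable def rhb5186f50b3db3c21 : CRef := CRef.mk (Pat.mk 0x40000003c00000018000000080000000000000000 0x80000006c0000003c0000001e0000000f0000000600000002 6 7) 0 0 (step_sound _ 98 [rhbb1543cc4473c6fc, (rheb0810cc63b001d8.shift 1 3)] (by decide +kernel))
noncomputable def rh56faab813ac4ea9f : CRef := CRef.mk (Pat.mk 0x800000008000000380000001800000000 0x140000001f00000038000000f80000001800000008 6 8) 0 0 (step_sound _ 132 [(rh2f68792b6b779e96.shift 3 1), rha4a9f577d73d1e7e] (by decide +kernel))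
noncomputable def rha57c53c41ccc94ae : CRef := CRef.mk (Pat.mk 0x1e00000018000000000000000000000000 0x4000000040000003e0000001f000000070000000200000002 6 6) 0 0 (step_sound _ 97 [rhca585123a0440cc2, (rheb0810cc63b001d8.shift 0 3)] (by decide +kernel))
noncomputable def rh76f4b5735e9ab88e : CRef := CRef.mk (Pat.mk 0x1c00000018000000180000000000000000 0x4000000060000007c0000001f0000001f0000000200000002 6 7) 0 0 (step_sound _ 98 [(rh0f936b2c74e7b815.shift 1 2), (rh34517e326ddb5b25.shift 0 2), rh65c2583394a2e78b, rh8f7039354bfc4ec2] (by decide +kernel))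
noncomputable def rh361578be98b9df5c : CRef := CRef.mk (Pat.mk 0x80000001c0000001c0000000000000000 0x6000000060000000f0000001c0000007c0000000c0000000c 6 7) 0 0 (step_sound _ 34 [rh366c0b18dd5bd32d, (rh71222050f2c63a3a.shift 2 0)] (by decide +kernel))
noncomputable def rhe8d9b24dfad10bda : CRef := CRef.mk (Pat.mk 0x80000007800000028000000000000000000000000 0x8000000f8000000380000001f0000001c0000001c 6 8) 0 0 (step_sound _ 100 [(rh18965a982d73c794.shift 3 3), rh1f4b58e63a85b455] (by decide +kernel))
noncomputable def rhececc2ee7da1d4c6 : CRef := CRef.mk (Pat.mk 0x10000000e000000140000000000000000 0x2000000020000000730000003e000000160000001000000010 6 7) 0 0 (step_sound _ 100 [(rh3396620b077b8c20.shift 1 0), (rh3f8766e6ecb455ce.shift 0 3)] (by decide +kernel))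
noncomputable def rhf5925d064fbfae9a : CRef := CRef.mk (Pat.mk 0x40000001c000000100000000000000000 0x400000014000000340000001f0000001f0000000a0000000a 6 6) 0 0 (step_sound _ 67 [rh0693a0ad7c8af654, rh4342dbbe6d26394a, (rh5d54cb79a67f97ab.shift 2 0)] (by decide +kernel))
noncomputable def rh8b99f5a3eacfe558 : CRef := CRef.mk (Pat.mk 0x60000001e0000000000000000 0x200000002000000070000003e0000001f0000000400000004 6 6) 0 0 (step_sound _ 100 [(rh33e738c4ed385b9f.shift 1 2), rh918500d067a35dc5] (by decide +kernel))
noncomputable def rhe0be4fc57991ca79 : CRef := CRef.mk (Pat.mk 0x40000001c00000018 0x30000000300000003f0000001f00000018 6 6) 0 0 (step_sound _ 33 [rh8b10c04bde622b78, rhb739f4f82bb681b4] (by decide +kernel))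
noncomputable def rh8e19e50581375996 : CRef := CRef.mk (Pat.mk 0x140000003c0000001c0000000800000000 0x20000000600000007c0000003c0000001c0000000f00000006 6 7) 0 0 (step_sound _ 133 [(rh33e738c4ed385b9f.shift 2 3), rh648fbca10c851b74] (by decide +kernel))
noncomputable def rhe091ed77919be4bd : CRef := CRef.mk (Pat.mk 0x80000003800000000 0x1f8000000ff0000000e 6 9) 0 0 (step_sound _ 38 [rh59c238fb0cb9f9a7, (rh790acd67f4fffd04.shift 3 1), (rh9e97bba44c1b13e4.shift 1 0)] (by decide +kernel))
noncomputable def rhe9df01bc5609bcc4 : CRef := CRef.mk (Pat.mk 0x20000001a0000000e000000000000000000000000 0xa0000001f0000007a0000000e000000040000000400000004 6 7) 0 0 (step_sound _ 66 [(rh2145e1d24b96a57e.shift 1 2), rh2513590599929ea5] (by decide +kernel))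
noncomputable def rh364cb9946f5256ab : CRef := CRef.mk (Pat.mk 0x4000000040000000700000000000000000 0x10000000d00000007f000000fe0000000f00000008 6 8) 0 0 (step_sound _ 67 [(rh21460d2d48a35cb8.shift 2 0), (rh21d582c147e7e118.shift 1 1), (rh551591afa7e9bd9a.shift 0 1), (rh947d1a4ef379615e.shift 2 2)] (by decide +kernel))
noncomputable def rh88dba4532714a535 : CRef := CRef.mk (Pat.mk 0x4000000160000001200000000 0x30000000300000003f0000001e0000001b00000008 6 6) 0 0 (step_sound _ 67 [rh14ebe618fe80128a, (rheb0810cc63b001d8.shift 0 1)] (by decide +kernel))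
noncomputable def rh0ce05fa10fc4a611 : CRef := CRef.mk (Pat.mk 0x10000000180000001800000000 0x1c0000001f00000038000000180000001800000010 6 6) 0 0 (step_sound _ 132 [(rh5c5e593799055d58.shift 3 1), rha06847d8752fa06c] (by decide +kernel))
noncomputable def rh1c1654fb32da0aaa : CRef := CRef.mk (Pat.mk 0x8000000280000003800000010 0x200000007c000001ef0000003c00000010 6 9) 0 0 (step_sound _ 66 [(rh9a6a47785262299f.shift 2 0), (rhdbcea10a0fbe5ba6.shift 0 1), rhe5a8a2bc75f52c7a] (by decide +kernel))
noncomputable def rh67ad2f8b2370a0fa : CRef := CRef.mk (Pat.mk 0x140000001400000004000000040000000000000000 0x360000001e000000070000000c0000000c0000000c 6 6) 0 0 (step_sound _ 35 [rh253d98dfae48753b, (rhd3458b32566d63f7.shift 2 1)] (by decide +kernel))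
noncomputable def rhd989e035f19a6306 : CRef := CRef.mk (Pat.mk 0x20000000a0000000a00000002000000020000000000000000 0x20000001b0000000f00000006000000070000000300000003 6 5) 0 0 (step_sound _ 32 [(rh79877ebd3ef475dd.shift 0 1), rhf41c85bbc6304092] (by decide +kernel))
noncomputable def rh9628481f97abdc76 : CRef := CRef.mk (Pat.mk 0x80000000a0000000200000002000000010000000000000000 0x190000000f0000000600000002000000070000000700000004 6 5) 0 0 (step_sound _ 65 [rh320dd554fcba184c, (rh932754581e0f4330.shift 0 1)] (by decide +kernel))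
noncomputable def rh56a849381c68f45f : CRef := CRef.mk (Pat.mk 0x3c00000018000000300000000000000000 0x70000003f00000018000000f00000001800000018 6 8) 0 0 (step_sound _ 36 [(rh7b1f1fb55310c477.shift 3 0), rhc6361d3b88f12f56] (by decide +kernel))
noncomputable def rh9ecea4e1d309003f : CRef := CRef.mk (Pat.mk 0x180000001c000000000000000000000000 0x20000001b0000003f000000070000000400000004 6 6) 0 0 (step_sound _ 97 [rh2395824d1086e2bc, (rh53b3c253cb0c65f4.shift 0 3)] (by decide +kernel))
noncomputable def rh9e3adcad829ae77e : CRef := CRef.mk (Pat.mk 0x200000002000000030000000200000000000000000000000000000000 0x200000003000000030000000300000003000000070000000700000005 6 3) 0 0 (step_sound _ 97 [rh0a6888916bcef86b, (rh7928877f9bf74a91.shift 0 2), rhd1779d7de7f8215b] (by decide +kernel))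
noncomputable def rh5106c0b40a5f6a25 : CRef := CRef.mk (Pat.mk 0xb00000006000000060000000000000000 0x2000000020000001b0000001f000000070000000300000003 6 5) 0 0 (step_sound _ 99 [rhafe4c4d156f2098b, (rhf48373e13d2bc128.shift 0 3)] (by decide +kernel))
noncomputable def rh1d1b54d50877cc52 : CRef := CRef.mk (Pat.mk 0x160000000c0000000800000000 0x6000000070000003e0000000f0000000c00000004 6 6) 0 0 (step_sound _ 130 [(rh2145e1d24b96a57e.shift 2 1), rhf7e82b189815bb81] (by decide +kernel))
noncomputable def rhfb3b6c205e1924b6 : CRef := CRef.mk (Pat.mk 0x160000001c00000008 0x200000016000000370000001e0000001c0000000c 6 6) 0 0 (step_sound _ 100 [rh0f68c1a65530806c, (rh5c5e593799055d58.shift 3 0)] (by decide +kernel))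
noncomputable def rh6b07ea3b6822fafc : CRef := CRef.mk (Pat.mk 0x60000000000000006000000000000000000000000 0x50000000700000007000000060000000300000007000000070000000700000005 6 3) 0 0 (step_sound _ 129 [rh1b9022be4f7af407, (rh215e11e099257d75.shift 1 2), (rhe380c42df720a63d.shift 0 2)] (by decide +kernel))
noncomputable def rh16d76f90f0fb4f0a : CRef := CRef.mk (Pat.mk 0x60000001c00000008000000000000000000000000 0x600000006000000060000001c0000000f000000060000000600000006 6 5) 0 0 (step_sound _ 194 [(rh2145e1d24b96a57e.shift 2 3), rh8888040e550be6b5] (by decide +kernel))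
noncomputable def rh57de502f033bde6e : CRef := CRef.mk (Pat.mk 0x30000000c000000140000000000000000 0x2000000020000000730000003e000000160000001000000010 6 7) 0 0 (step_sound _ 100 [(rh09d4dfe75d4407d6.shift 0 3), (rh3396620b077b8c20.shift 1 0)] (by decide +kernel))
noncomputable def rh90110b2d98f1ac91 : CRef := CRef.mk (Pat.mk 0x200000006000000020000000000000000 0x500000007000000070000000600000006000000060000000600000006 6 3) 0 0 (step_sound _ 34 [(rh390a8df03c6c5a62.shift 1 0), (rh8f4050c06a082165.shift 1 0), (rhba97f7f4ade5e136.shift 0 1)] (by decide +kernel))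
noncomputable def rha691650621101090 : CRef := CRef.mk (Pat.mk 0x1c000000020000000000000000 0x1000000010000000380000001f0000001b0000000800000008 6 6) 0 0 (step_sound _ 97 [rh2a57291e548d51d9, (rheb0810cc63b001d8.shift 0 2)] (by decide +kernel))
noncomputable def rh52d439a3c8fba5f2 : CRef := CRef.mk (Pat.mk 0x40000000c0000003800000018 0x20000000e6000000fc0000003f0000001f 6 8) 0 0 (step_sound _ 1 [(rh24ae073cf30720c4.shift 1 0), rhe26bcf15b0854b47] (by decide +kernel))
noncomputable def rh09c4dd60b8271d2d : CRef := CRef.mk (Pat.mk 0x1000000018000000700000002000000000 0x40000000d0000000f80000007f0000002f00000008 6 8) 0 0 (step_sound _ 67 [(rh4d6ff7d31d8220d4.shift 2 1), (rh81eabc3f853e2700.shift 0 1), (rh9c40a739b57d6d20.shift 2 0), (rh9e97bba44c1b13e4.shift 1 1)] (by decide +kernel))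
noncomputable def rh606342497c588657 : CRef := CRef.mk (Pat.mk 0x20000000f000000040 0x37000000fe0000007c 6 8) 0 0 (step_sound _ 3 [rh4d4c77594d83f4b7, (rh80fcd6d0a18cb2dd.shift 3 0)] (by decide +kernel))
noncomputable def rha73466a95de71388 : CRef := CRef.mk (Pat.mk 0xf0000000400000000000000000 0x10000000100000001f000000fe000000770000002000000020 6 8) 0 0 (step_sound _ 99 [(rh36eba2a3de447758.shift 0 2), (rhc1222ba7dce1c980.shift 2 0), (rhd1d05263fabc0227.shift 1 2), (rhd5eb272e07a4e288.shift 2 3)] (by decide +kernel))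
noncomputable def rh427e4468d3dec80a : CRef := CRef.mk (Pat.mk 0xe0000000800000008 0x1400000014000000370000003e0000001b0000000a 6 6) 0 0 (step_sound _ 68 [rh21460d2d48a35cb8, (rh94246470f0e6fdf7.shift 1 0)] (by decide +kernel))
noncomputable def rh9485f2cc7a45dbe6 : CRef := CRef.mk (Pat.mk 0x2000000060000000a00000008 0x500000007000000070000000600000006000000060000000e0000000c 6 4) 0 0 (step_sound _ 129 [(rh14e0829dc73b6804.shift 0 1), (rh35c5f1c53251aa1b.shift 0 1), (rh6c80b8fccd5bb0e1.shift 1 0), (rhd4b4beefcd67f51e.shift 1 0)] (by decide +kernel))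
noncomputable def rhd5ee933379a05b11 : CRef := CRef.mk (Pat.mk 0x160000001000000000 0x400000004000000070000003e0000003300000002 6 6) 0 0 (step_sound _ 67 [rh21460d2d48a35cb8, (rhe25b0a99195a5d59.shift 1 1)] (by decide +kernel))
noncomputable def rhb3a7ae187078b962 : CRef := CRef.mk (Pat.mk 0x400000004000000050000000400000004 0x4000000060000000e0000003c0000000f0000000c00000004 6 6) 0 0 (step_sound _ 99 [(rh2f68792b6b779e96.shift 2 0), (rh74285ec58778426b.shift 0 1)] (by decide +kernel))
noncomputable def rhd9d86b1ebb024656 : CRef := CRef.mk (Pat.mk 0x1000000008000000080000000800000000 0x1800000018000000080000007c0000001f00000004 6 7) 0 0 (step_sound _ 131 [(rh2f68792b6b779e96.shift 3 1), rhed240bfa98a6b61b] (by decide +kernel))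
noncomputable def rhf43b8b58324dbb47 : CRef := CRef.mk (Pat.mk 0x1000000008000000080000000a00000008 0x40000001c0000001c000000080000000c0000001f00000018 6 5) 0 0 (step_sound _ 131 [(rh2f68792b6b779e96.shift 3 1), rhae5afef65312aeb4] (by decide +kernel))
noncomputable def rha9863b04be8991ce : CRef := CRef.mk (Pat.mk 0x1000000008000000080000000a00000000 0x1800000018000000080000000f0000003e00000014 6 6) 0 0 (step_sound _ 131 [(rh2f68792b6b779e96.shift 3 1), rh9eada03944b465a1] (by decide +kernel))
noncomputable def rhcefc26e4f41f33a2 : CRef := CRef.mk (Pat.mk 0x400000008000000080000000800000000 0xc0000000c000000080000007c0000001f00000004 6 7) 0 0 (step_sound _ 131 [(rh50fbb5868c909700.shift 2 1), rhed240bfa98a6b61b] (by decide +kernel))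
noncomputable def rhdba4da4e151cbcc5 : CRef := CRef.mk (Pat.mk 0x700000004000000000 0x10000000100000007f000000fe0000006f00000008 6 8) 0 0 (step_sound _ 67 [(rh21460d2d48a35cb8.shift 2 0), (rh36eba2a3de447758.shift 0 1), (rh988050a6fa3e9d04.shift 0 1), (rhc88dbad8567ff01b.shift 0 1)] (by decide +kernel))
noncomputable def rh234b9e8903310361 : CRef := CRef.mk (Pat.mk 0x80000000a000000080000002800000000 0x10000000380000003f000000780000002800000020 6 7) 0 0 (step_sound _ 132 [(rh2f68792b6b779e96.shift 3 1), rhe5001a5658bb5f8e] (by decide +kernel))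
noncomputable def rh468167f18c831be9 : CRef := CRef.mk (Pat.mk 0x20000001e000000180000000800000000 0xc0000000f0000003e0000001e0000001c0000000c00000004 6 6) 0 0 (step_sound _ 132 [(rh33e738c4ed385b9f.shift 1 3), rh473f2e90fe253860] (by decide +kernel))
noncomputable def rh19ed158a9234409d : CRef := CRef.mk (Pat.mk 0x180000001c000000100000001000000000 0x40000001f0000007c000000780000001e0000000c 6 7) 0 0 (step_sound _ 35 [(rh932754581e0f4330.shift 3 0), rha3951ca8e2244732] (by decide +kernel))
noncomputable def rh6d0251c83a5cc406 : CRef := CRef.mk (Pat.mk 0x2000000030000000200000002 0x500000007000000070000000700000003000000030000000200000002 6 3) 0 0 (step_sound _ 129 [(rh1741680720c097b4.shift 0 1), rh3ca48e2a6d60153d, (rh42ab489a1be3958e.shift 0 1), rhbd5b7e268e60d8c7] (by decide +kernel))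
noncomputable def rh655011c4a5930d25 : CRef := CRef.mk (Pat.mk 0x1c0000000a000000080000002c00000000 0x30000001f000000fe000001fe0000002e00000020 6 9) 0 0 (step_sound _ 100 [(rh6292bd8784ece55f.shift 1 3), (rh80c83de2fe7e7c81.shift 1 0), (rh9da83f2bc1f368ec.shift 0 1)] (by decide +kernel))
noncomputable def rh642c8b3c131e8fa1 : CRef := CRef.mk (Pat.mk 0x100000001400000038000000180000000000000000 0x40000001e0000007c0000003f0000001f0000000200000002 6 7) 0 0 (step_sound _ 98 [(rh34517e326ddb5b25.shift 0 2), (rh4da05acc337b0fd1.shift 1 2), rh65c2583394a2e78b, (rhb14e2588a8d71db8.shift 0 2)] (by decide +kernel))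
noncomputable def rhcbbf5c25ee45f545 : CRef := CRef.mk (Pat.mk 0x180000001c000000100000001800000000 0x200000002000000070000001f0000007c000000760000001e00000004 6 7) 0 0 (step_sound _ 130 [(rh79b3c29022acbdf3.shift 1 3), (rha65de3b2416ea90c.shift 1 0), (rhaed54c24fb91f24a.shift 0 1)] (by decide +kernel))
noncomputable def rh80d83ff8d448048f : CRef := CRef.mk (Pat.mk 0x80000000c000000040000001600000000 0x2000000020000000f80000007c000000ff0000001700000010 6 8) 0 0 (step_sound _ 100 [(rh1a6590498224160a.shift 1 0), rh584d90930a979f99, (rh8963eeeb48e2c8aa.shift 1 0), (rhb02f9c2bd63f56db.shift 1 2), (rhfa35e196e150edb4.shift 1 2)] (by decide +kernel))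
noncomputable def rh483532e42617465d : CRef := CRef.mk (Pat.mk 0x400000004000000040000001000000018000000000000000000000000 0x400000004000000040000003e0000001e000000070000000200000002 6 6) 0 0 (step_sound _ 130 [(rhd3458b32566d63f7.shift 2 3), rhd45855be12dc6f72] (by decide +kernel))
noncomputable def rhae24df79ba37fbee : CRef := CRef.mk (Pat.mk 0x180000001e0000000000000004 0x1000000030000001f0000001e0000003700000004 6 6) 0 0 (step_sound _ 36 [rh382daa379089707c, (rhe25b0a99195a5d59.shift 1 1)] (by decide +kernel))
noncomputable def rh00f58009bf555daa : CRef := CRef.mk (Pat.mk 0x40000000e00000001 0xe60000007e000000e3 6 8) 0 0 (step_sound _ 36 [(rh4a0cb3a9508b05dd.shift 1 0), rh80fcd6d0a18cb2dd] (by decide +kernel))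
noncomputable def rha75e3ef8be8f45f1 : CRef := CRef.mk (Pat.mk 0x1c00000005000000040000001600000000 0x1c0000007f000000ff0000001700000010 6 8) 0 0 (step_sound _ 99 [(rh24ae073cf30720c4.shift 0 3), rh80c83de2fe7e7c81] (by decide +kernel))
noncomputable def rha734d7cf2092a913 : CRef := CRef.mk (Pat.mk 0x7000000010000000000000004 0x780000003f0000007f0000000c00000004 6 7) 0 0 (step_sound _ 99 [rh2859277a9ebbf43c, (rh3fc3a7fb6866dcd4.shift 0 2), (rhd584a578337d0023.shift 0 2), (rhf2b3bcf1454375d8.shift 0 2), (rhf3baec4a0a3dd35e.shift 0 2)] (by decide +kernel))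
noncomputable def rh8206d63bc204c22e : CRef := CRef.mk (Pat.mk 0x2000000060000001a00000008000000000000000000000000 0x6000000060000001a0000000f000000070000000700000005 6 5) 0 0 (step_sound _ 97 [(rh5d5b9b56c19874f2.shift 0 2), (rhabf42db7287f8a50.shift 0 2), rhffb8e5993241bf15] (by decide +kernel))
noncomputable def rhf354c969246683f2 : CRef := CRef.mk (Pat.mk 0x80000001a000000080000002800000000 0x100000003f0000003e000000680000002800000020 6 7) 0 0 (step_sound _ 132 [(rh2f68792b6b779e96.shift 3 1), rh326f2850607190c2] (by decide +kernel))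
noncomputable def rh683cbe238d57cb1e : CRef := CRef.mk (Pat.mk 0x2000000060000001a00000000000000000000000000000000 0x6000000060000001e00000003000000070000000700000005 6 5) 0 0 (step_sound _ 97 [(rh5710f30ba40ee3ec.shift 0 2), (rhf3b0450cbffe4da9.shift 0 1), rhffb8e5993241bf15] (by decide +kernel))
noncomputable def rh180189161c72bada : CRef := CRef.mk (Pat.mk 0x1a000000080000002000000000 0x4000000040000001e0000000fe000001ff0000002000000020 6 9) 0 0 (step_sound _ 101 [(rh1a6590498224160a.shift 2 0), (rh4118f86c89bdf296.shift 3 0), (rh6902d1f2e59e31e0.shift 0 2), (rhb02f9c2bd63f56db.shift 2 2)] (by decide +kernel))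
noncomputable def rhc8c2b2987ae7c66d : CRef := CRef.mk (Pat.mk 0x40000001c000000180000000000000000 0x40000003f0000001f0000000b0000000a 6 6) 0 0 (step_sound _ 35 [rh0c4c62bc983d23eb, (rh7b1f1fb55310c477.shift 2 0)] (by decide +kernel))
noncomputable def rhd7558310e3540a8c : CRef := CRef.mk (Pat.mk 0x10000000140000001c00000018000000000000000000000000 0x8000000180000001c0000003c0000001f000000070000000600000006 6 6) 0 0 (step_sound _ 195 [(rh50fbb5868c909700.shift 3 3), rh81fbcce0c8195beb] (by decide +kernel))
noncomputable def rhacf582b6743d2a8e : CRef := CRef.mk (Pat.mk 0x400000007000000040 0xc70000007e00000067 6 8) 0 0 (step_sound _ 35 [(rh33e738c4ed385b9f.shift 3 1), rh36eba2a3de447758] (by decide +kernel))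
noncomputable def rhc8d1fd3270b20169 : CRef := CRef.mk (Pat.mk 0x140000001c00000018000000000000000000000000 0x6000000060000007c0000007c0000001f000000070000000200000002 6 7) 0 0 (step_sound _ 194 [(rh2145e1d24b96a57e.shift 2 3), rh78f34ce0795c94e2] (by decide +kernel))
noncomputable def rh1d3acc7ad13ec9d0 : CRef := CRef.mk (Pat.mk 0x1e0000000a0000000800000000 0x4000000040000000f0000001e0000003e0000000b00000003 6 6) 0 0 (step_sound _ 68 [(rhe25b0a99195a5d59.shift 1 2), rhead841a7dcb4c25d] (by decide +kernel))
noncomputable def rh47fb02839486912c : CRef := CRef.mk (Pat.mk 0x80000001800000008000000040000000000000000 0x1800000018000000080000001f0000007c00000010 6 7) 0 0 (step_sound _ 67 [rh479f5df3c533e71f, (rh932754581e0f4330.shift 2 1)] (by decide +kernel))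
noncomputable def rh3dcdcfe4c801f3b6 : CRef := CRef.mk (Pat.mk 0xa0000000a0000000a000000000000000000000000 0x4000000040000000e0000000e0000000e0000000a000000070000000700000005 6 4) 0 0 (step_sound _ 194 [(rh87d5e4118780fa3b.shift 1 2), (rh8b14df1b185c100a.shift 1 3), rhc94dfb5f501cb051] (by decide +kernel))
noncomputable def rhcb2c396347eb9181 : CRef := CRef.mk (Pat.mk 0xa0000000a00000002000000020000000200000000 0x500000007000000070000007a0000001f00000006000000060000000200000002 6 7) 0 0 (step_sound _ 193 [(rh1741680720c097b4.shift 0 3), rh3d5005cdd53aa835, (rh5abfc4c9d959be03.shift 0 2), (rh5ef66011045fb859.shift 1 2)] (by decide +kernel))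
noncomputable def rh747a2bb84ca9c3b2 : CRef := CRef.mk (Pat.mk 0x400000005800000040 0xc70000007e00000067 6 8) 0 0 (step_sound _ 37 [(rh33e738c4ed385b9f.shift 3 1), rh36eba2a3de447758] (by decide +kernel))
noncomputable def rh0af1044008953213 : CRef := CRef.mk (Pat.mk 0xa0000000b000000080 0xe7000000fe000000df 6 8) 0 0 (step_sound _ 35 [(rh4096d66cfc0478fc.shift 3 0), rhb12ffaec36122c99, (rhcaa5fac0e2741756.shift 2 0)] (by decide +kernel))
noncomputable def rhfb80c57477bc0b95 : CRef := CRef.mk (Pat.mk 0x2000000030000000200000002 0x500000007000000070000000300000003000000030000000300000002 6 3) 0 0 (step_sound _ 129 [(rh32431e66bbf434a4.shift 0 1), rh3ca48e2a6d60153d, rhded9635978cce9d0] (by decide +kernel))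
noncomputable def rh63083e557184b0c1 : CRef := CRef.mk (Pat.mk 0x4000000070000001400000010000000000000000000000000 0x200000003c0000003f0000003700000010000000380000003800000028 6 6) 0 0 (step_sound _ 164 [(rh5e4e7266ca016e80.shift 0 4), (rh87cc7ac0bbadee52.shift 0 4), (rhd8860d03bca57844.shift 1 0)] (by decide +kernel))
noncomputable def rhf9d5db2f6187735c : CRef := CRef.mk (Pat.mk 0x1a000000080000002800000000 0x400000014000000f70000007e0000007c0000002800000020 6 8) 0 0 (step_sound _ 98 [(rhbbda3e5cf400e6dd.shift 1 1), (rhc3bb0f1b2af200a9.shift 0 1), (rhff137c455409f0e3.shift 1 0)] (by decide +kernel))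
noncomputable def rhbedb750d2144541e : CRef := CRef.mk (Pat.mk 0x1e0000000200000000 0x40000000400000006000000070000003e0000003200000002 6 6) 0 0 (step_sound _ 36 [(rhe25b0a99195a5d59.shift 1 1), rhf6271806d5dafbc1] (by decide +kernel))
noncomputable def rhde0eeac45a6b82c8 : CRef := CRef.mk (Pat.mk 0x80000001c000000140000000000000000 0x2000000060000000f0000001c0000001c0000000f0000000e 6 5) 0 0 (step_sound _ 34 [rh42a34b9871040516, (rh71222050f2c63a3a.shift 2 0)] (by decide +kernel))
noncomputable def rh17b9bac2912e389a : CRef := CRef.mk (Pat.mk 0x80000002800000028000000000000000000000000 0x8000000080000006f0000003e0000001f0000001000000010 6 7) 0 0 (step_sound _ 100 [(rh70e33bfdf511e144.shift 3 0), (rhb12ffaec36122c99.shift 0 2)] (by decide +kernel))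
noncomputable def rh501dec27d23193f4 : CRef := CRef.mk (Pat.mk 0x10000000500000003800000000 0x2800000038000000380000003800000010000000770000003e00000007 6 7) 0 0 (step_sound _ 132 [rh551591afa7e9bd9a, (rh5bd4bc0c2c48140c.shift 3 1), (rhba97f7f4ade5e136.shift 3 1), (rhc85cc95794737cf7.shift 3 1)] (by decide +kernel))
noncomputable def rh5dfa61fd702a77cf : CRef := CRef.mk (Pat.mk 0x8000000280000002800000000 0x140000001c0000001c00000008000000780000003e00000007 6 7) 0 0 (step_sound _ 34 [(rh68a777751bfeafdf.shift 2 0), (rh9f2591205204f08d.shift 2 1), rha3fd83893c3ef42f] (by decide +kernel))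
noncomputable def rhad2380584ffc4aaa : CRef := CRef.mk (Pat.mk 0x100000001e00000006 0xe0000000f0000001b0000001f00000006 6 5) 0 0 (step_sound _ 65 [(rh3244c3cc8379b070.shift 0 1), rhbdd9d44a3e9d459c] (by decide +kernel))
noncomputable def rhf2bc2a6bfd2b0b71 : CRef := CRef.mk (Pat.mk 0xa000000030000000600000004 0x7c0000000f0000000f0000001e00000004 6 7) 0 0 (step_sound _ 35 [rhe0449c67592e3a1c, (rhf48373e13d2bc128.shift 0 1)] (by decide +kernel))
noncomputable def rhf89b21a9648a5248 : CRef := CRef.mk (Pat.mk 0x14000000060000000c00000008 0x2000000330000003e000000160000003c00000008 6 6) 0 0 (step_sound _ 36 [rhbf51b21ad2a91570, (rhf48373e13d2bc128.shift 1 1)] (by decide +kernel))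
noncomputable def rh1f25b33bbea643f0 : CRef := CRef.mk (Pat.mk 0x2000000020000000200000002 0x4000000070000000700000003000000030000000300000003 6 3) 0 0 (step_sound _ 128 [rhf153d2af6b144509, rhffd04209dc8ea796] (by decide +kernel))
noncomputable def rh48b6caf271765322 : CRef := CRef.mk (Pat.mk 0x200000002000000020000000200000000 0x400000006000000060000000200000006000000070000000700000001 6 3) 0 0 (step_sound _ 32 [rh932754581e0f4330, (rhc23ec26ef2c84235.shift 0 1)] (by decide +kernel))
noncomputable def rh078dca784307230c : CRef := CRef.mk (Pat.mk 0x14000000060000000c00000008 0xa0000001b0000003f0000003e0000000c00000008 6 6) 0 0 (step_sound _ 99 [(rh18965a982d73c794.shift 1 2), rha8f711fd6ba989f1] (by decide +kernel))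
noncomputable def rh843b897eb249eed2 : CRef := CRef.mk (Pat.mk 0xc00000018 0x770000003f00000038 6 7) 0 0 (step_sound _ 33 [rhb739f4f82bb681b4, rhf6218b33ee453c67] (by decide +kernel))
noncomputable def rhdbe23968eb6350bb : CRef := CRef.mk (Pat.mk 0xe000000180000005000000000 0x38000000380000007c000000fe000000df0000005000000040 6 8) 0 0 (step_sound _ 100 [(rh6876f05cc9661702.shift 2 1), (rh85decd6eb89b75a1.shift 0 1), (rhc31e1a2727346e0c.shift 1 0)] (by decide +kernel))
noncomputable def rh69c8fbaabdde5141 : CRef := CRef.mk (Pat.mk 0x1000000018000000700000002000000000 0x40000000d0000000f80000007f0000002f00000008 6 8) 0 0 (step_sound _ 67 [(rh4d6ff7d31d8220d4.shift 2 1), (rh81eabc3f853e2700.shift 0 1), (rh9c40a739b57d6d20.shift 2 0)] (by decide +kernel))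
noncomputable def rh87a538dae2f64ca0 : CRef := CRef.mk (Pat.mk 0xe0000001000000010 0x2000000020000000700000003e0000003700000010 6 7) 0 0 (step_sound _ 68 [(rhe25b0a99195a5d59.shift 1 1), rhe9878a50aac0bd7a] (by decide +kernel))
noncomputable def rh34b97fbe6a82fc2c : CRef := CRef.mk (Pat.mk 0x1e000000180000001000000000 0xa0000000b0000003e0000001f0000001400000004 6 6) 0 0 (step_sound _ 65 [rh98e04801e6916a8f, (rheb0810cc63b001d8.shift 0 2)] (by decide +kernel))
noncomputable def rh7815b7de1084ee95 : CRef := CRef.mk (Pat.mk 0x3000000010000000300000002000000000 0x80000007c0000001f000000700000003e00000018 6 7) 0 0 (step_sound _ 36 [(rh6fae963f33cfdfd7.shift 1 0), rha50144a89c1d346d] (by decide +kernel))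
noncomputable def rh60077372923b2654 : CRef := CRef.mk (Pat.mk 0xe00000004000000040000000400000000 0x700000003e00000077000000040000000400000004 6 7) 0 0 (step_sound _ 97 [(rh7b1f1fb55310c477.shift 1 0), (rhfa35e196e150edb4.shift 0 3)] (by decide +kernel))
noncomputable def rh5e24aed2f56c790f : CRef := CRef.mk (Pat.mk 0x3800000000000000100000003000000020 0x700000007e000000e7000000300000003000000020 6 8) 0 0 (step_sound _ 101 [(rh585a8b6fb97a57de.shift 2 0), (rhda9c0827c24abf7d.shift 4 1), (rhf7f30f4125541383.shift 0 3), (rhfdbd5f9423960d3a.shift 4 0)] (by decide +kernel))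
noncomputable def rh50466f969e689d1a : CRef := CRef.mk (Pat.mk 0x1e000000000000000000000008 0x370000003e000000780000000800000008 6 7) 0 0 (step_sound _ 132 [(rh33e738c4ed385b9f.shift 1 3), rh82fea9a9cb14f153] (by decide +kernel))
noncomputable def rhc68493420210c224 : CRef := CRef.mk (Pat.mk 0x300000004000000040 0x20000001ff000000fe000000e700000040 6 9) 0 0 (step_sound _ 67 [(rh36eba2a3de447758.shift 0 1), (rh6f9f6dd84423ca40.shift 2 0), (rhf6218b33ee453c67.shift 2 1)] (by decide +kernel))
noncomputable def rhb218ed1e2f167f52 : CRef := CRef.mk (Pat.mk 0x1e0000000000000000 0x400000004000000370000003e0000000300000002 6 6) 0 0 (step_sound _ 100 [rh21460d2d48a35cb8, (rh33e738c4ed385b9f.shift 1 2)] (by decide +kernel))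
noncomputable def rhb2f2527392337ea6 : CRef := CRef.mk (Pat.mk 0x90000000f0000000d0000000000000000 0x1a0000001a0000000f0000000f0000000f0000000100000001 6 5) 0 0 (step_sound _ 163 [(rh5c5e593799055d58.shift 2 2), rh754572ce95ba782b] (by decide +kernel))
noncomputable def rh89ec074dda02b318 : CRef := CRef.mk (Pat.mk 0x1e00000018 0x100000001000000037000000fe0000001c 6 8) 0 0 (step_sound _ 68 [(rh33e738c4ed385b9f.shift 1 1), rh67ebf2f1a2e5fb04] (by decide +kernel))
noncomputable def rhd09545dc360ca017 : CRef := CRef.mk (Pat.mk 0x1e0000000000000000 0x400000004000000370000003e0000000300000002 6 6) 0 0 (step_sound _ 100 [(rh33e738c4ed385b9f.shift 1 2), rh43dc67402634d54f] (by decide +kernel))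
noncomputable def rhe3ea9236aab91452 : CRef := CRef.mk (Pat.mk 0x180000003800000020000000000000000000000000 0x180000001800000018000000180000003c0000002f0000001c0000001c00000014 6 6) 0 0 (step_sound _ 99 [(rh0b199c894ef542c0.shift 0 2), (rh609c5f22d4c52017.shift 0 1), (rhea7a1800d6f053bd.shift 3 1), (rhffb8e5993241bf15.shift 2 0)] (by decide +kernel))
noncomputable def rhaeed8d909fdb031b : CRef := CRef.mk (Pat.mk 0x18000000000000001c0000001800000000 0x140000001c0000000c0000001c0000001f00000007 6 5) 0 0 (step_sound _ 99 [rh2b2a2906262d769a, (rh2f68792b6b779e96.shift 3 1)] (by decide +kernel))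
noncomputable def rhc41d5f6871c3db72 : CRef := CRef.mk (Pat.mk 0x8000000000000001c0000001800000000 0xc0000000c0000000c0000001c0000001f00000007 6 5) 0 0 (step_sound _ 99 [(rh2145e1d24b96a57e.shift 3 1), rh2b2a2906262d769a] (by decide +kernel))
noncomputable def rh6b33e5464215409a : CRef := CRef.mk (Pat.mk 0x38000000000000000000000004 0x1c7000000fe000001ce0000000400000004 6 9) 0 0 (step_sound _ 66 [(rh3d54e7f933686048.shift 2 2), rhee37d230d297e9fd] (by decide +kernel))
noncomputable def rha558c51478c0acbd : CRef := CRef.mk (Pat.mk 0x5800000018 0xe7000000ff00000018 6 8) 0 0 (step_sound _ 37 [(rh18965a982d73c794.shift 3 0), rha58ddf8813c4b875] (by decide +kernel))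
noncomputable def rhdda86859723ff859 : CRef := CRef.mk (Pat.mk 0x180000001800000008 0x140000001c0000001c0000000f0000007c0000001800000018 6 7) 0 0 (step_sound _ 99 [(rh14e0829dc73b6804.shift 2 0), (rh3e595262c1b737ad.shift 3 0), rhca405e350c462817] (by decide +kernel))
noncomputable def rh20454a86987f297a : CRef := CRef.mk (Pat.mk 0x18000000100000001000000018 0x270000007e0000007e0000001800000018 6 7) 0 0 (step_sound _ 101 [(rh2f68792b6b779e96.shift 4 0), rhb69e01359119a9fa] (by decide +kernel))
noncomputable def rh81bce9c9b9373a54 : CRef := CRef.mk (Pat.mk 0x180000002800000008000000000000000000000000 0x8000000180000007c0000000f0000001c0000001c00000014 6 7) 0 0 (step_sound _ 67 [(rh8c3839f9b9075f23.shift 3 0), (rh8cdd36b03d57a2f6.shift 2 0), (rha8bc3cae4d77a08f.shift 2 0), (rhac09afe906154c2a.shift 0 1)] (by decide +kernel))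
noncomputable def rhfe60da947a37e2e0 : CRef := CRef.mk (Pat.mk 0x1e000000180000000800000000 0x4000000040000000f0000001e0000001f0000000b00000003 6 5) 0 0 (step_sound _ 65 [rhead841a7dcb4c25d, (rheb0810cc63b001d8.shift 0 2)] (by decide +kernel))
noncomputable def rh33dce1b509d116b7 : CRef := CRef.mk (Pat.mk 0x1e000000000000000600000000 0x500000007000000070000001e000000030000000600000004 6 5) 0 0 (step_sound _ 65 [rh14e0829dc73b6804, (rheb0810cc63b001d8.shift 0 2)] (by decide +kernel))
noncomputable def rh9160444072d48ad3 : CRef := CRef.mk (Pat.mk 0x78000000040000006000000000 0xc70000007e000000c60000006000000020 6 8) 0 0 (step_sound _ 98 [(rheb0810cc63b001d8.shift 1 2), rheb4b7551e6a9833a] (by decide +kernel))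
noncomputable def rh8aaf7c5b6807cf9b : CRef := CRef.mk (Pat.mk 0x1c0000003c00000000 0x60000000e0000000f0000001c0000003c0000000e 6 6) 0 0 (step_sound _ 2 [rhb14d08584ebcace2, (rheb0810cc63b001d8.shift 1 0)] (by decide +kernel))
noncomputable def rha47ad9c55360c4d5 : CRef := CRef.mk (Pat.mk 0x80000000e000000180000000000000000 0x3000000034000000ff000000fe0000001f0000000300000002 6 8) 0 0 (step_sound _ 100 [(rh8ebf9530de0f8ca7.shift 0 2), (rh9115c4bb33f193b6.shift 0 2), (rhd283a685d2618d5b.shift 0 2), rhe1b350e936a4b1aa] (by decide +kernel))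
noncomputable def rhc912496193655f67 : CRef := CRef.mk (Pat.mk 0x4000000060000000c0000000800000000 0x10000000340000003e0000003f0000000b00000002 6 6) 0 0 (step_sound _ 68 [rh26da688a7a703678, (rhf48373e13d2bc128.shift 1 2)] (by decide +kernel))
noncomputable def rhbc0e90b77070df91 : CRef := CRef.mk (Pat.mk 0x40000001c0000001800000008000000000000000000000000 0x20000000f0000001f0000001e0000000f000000060000000400000004 6 5) 0 0 (step_sound _ 161 [rh9e058bc8848e85c8, (rhb739f4f82bb681b4.shift 0 4)] (by decide +kernel))
noncomputable def rh313b5cccb090c944 : CRef := CRef.mk (Pat.mk 0x100000001800000038000000280000000000000000 0x2c0000003f0000003800000038000000380000001000000010 6 6) 0 0 (step_sound _ 68 [(rh3cb04db3dd2b6a55.shift 3 0), (rh3fa326a9ffc81fa1.shift 0 2), (rhbed9438b9f08807f.shift 3 0)] (by decide +kernel))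
noncomputable def rhfde2c6903cc051ad : CRef := CRef.mk (Pat.mk 0x1000000070000000400000000000000000 0x1000000010000000170000007e0000007f0000002800000028 6 7) 0 0 (step_sound _ 99 [(rh31edea79c38d604a.shift 2 0), (rh36eba2a3de447758.shift 0 2), (rhcfde16a7ff36af03.shift 2 0)] (by decide +kernel))
noncomputable def rha305005416dc176a : CRef := CRef.mk (Pat.mk 0x1800000032000000020000000000000000 0x500000007000000070000001f00000033000000030000000300000001 6 6) 0 0 (step_sound _ 129 [(rhab22b5b56e7b3243.shift 1 3), rhceb5f5a915f974ce] (by decide +kernel))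
noncomputable def rh5829879cea92bf55 : CRef := CRef.mk (Pat.mk 0x20000001e00000002 0x5000000070000000700000007000000720000003e00000006 6 7) 0 0 (step_sound _ 97 [rhc85cc95794737cf7, (rhd584a578337d0023.shift 1 0), rhfb9fb48a5e63ed80] (by decide +kernel))
noncomputable def rh11606b78da0fc79b : CRef := CRef.mk (Pat.mk 0x10000000f000000040 0x37000000fe0000007c 6 8) 0 0 (step_sound _ 3 [rh03d5bca85b7d2a12, (rh80fcd6d0a18cb2dd.shift 3 0)] (by decide +kernel))
noncomputable def rh7a743960f07e8d7c : CRef := CRef.mk (Pat.mk 0x60000001e000000100000000000000000 0x2000000060000001e0000001f0000000700000007 6 5) 0 0 (step_sound _ 65 [rhdd1706b7405ed6b5, (rheb0810cc63b001d8.shift 0 2)] (by decide +kernel))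
noncomputable def rh23010d3b92cc2194 : CRef := CRef.mk (Pat.mk 0x2000000020000000600000002000000000000000000000000 0x400000006000000060000000600000006000000070000000300000003 6 3) 0 0 (step_sound _ 98 [(rh55afc6a59410cf00.shift 1 2), rhb1c562e40ee61608] (by decide +kernel))
noncomputable def rhf6332433d186e82a : CRef := CRef.mk (Pat.mk 0x21000000110000001700000014 0x80000003e0000003b000000130000001700000015 6 6) 0 0 (step_sound _ 100 [rh1128d50c553b7342, (rh2f68792b6b779e96.shift 4 0)] (by decide +kernel))
noncomputable def rh9af5d2cb94dbca4f : CRef := CRef.mk (Pat.mk 0x6000000220000000600000026 0x390000003f000000760000002600000026 6 7) 0 0 (step_sound _ 96 [rh50fbb5868c909700, rha1696439d43aff92] (by decide +kernel))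
noncomputable def rhd14aaaca395abbb6 : CRef := CRef.mk (Pat.mk 0x40000001c0000000400000000 0xa0000000e0000000e0000000e000000040000001c0000000f0000000a 6 5) 0 0 (step_sound _ 130 [(rhc85cc95794737cf7.shift 1 1), (rhfb9fb48a5e63ed80.shift 1 1), rhfbf2eae4035425b6] (by decide +kernel))
noncomputable def rh33bdfe6074083fee : CRef := CRef.mk (Pat.mk 0x80000003800000028000000000000000000000000 0x800000008000000380000003e0000001f0000001c0000001c 6 6) 0 0 (step_sound _ 100 [rh1f4b58e63a85b455, (rh55a1f6c57a317ce6.shift 3 1), (rh70e33bfdf511e144.shift 3 0), (rhbd0b832b6a6e272b.shift 1 0)] (by decide +kernel))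
noncomputable def rh244b57623c129d1a : CRef := CRef.mk (Pat.mk 0x800000008000000080000003800000020 0x140000001f0000007c000000180000003800000020 6 7) 0 0 (step_sound _ 132 [(rh2f68792b6b779e96.shift 3 1), rh942b6aa83c4ea981] (by decide +kernel))
noncomputable def rh339a606530f5a062 : CRef := CRef.mk (Pat.mk 0x100000002000000020000000600000002000000000000000000000000 0x4000000070000000700000002000000060000000600000002000000070000000700000005 6 3) 0 0 (step_sound _ 225 [(rh50fbb5868c909700.shift 0 4), rh93835cc399b8fd6d] (by decide +kernel))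
noncomputable def rh5cafc4a102b34bd9 : CRef := CRef.mk (Pat.mk 0x8000000080000001800000010000000000000000000000000 0x740000007e0000007f0000001800000018000000080000000800000008 6 7) 0 0 (step_sound _ 99 [(rh23abe14e4c828fd9.shift 1 2), (rh544fd3f279a4d968.shift 2 0), (rh900a894640be090c.shift 0 2), (rhcee506e245b5cffc.shift 1 2), (rhd49a209860dedbee.shift 1 3)] (by decide +kernel))
noncomputable def rhc5f0f10b8f3beb69 : CRef := CRef.mk (Pat.mk 0x8000000080000001800000010000000000000000000000000 0x30000000780000001e000000380000001f0000000c0000000c0000000c 6 7) 0 0 (step_sound _ 99 [(rh6fae963f33cfdfd7.shift 0 2), (rhb1c562e40ee61608.shift 2 0), (rhcee506e245b5cffc.shift 1 2)] (by decide +kernel))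
noncomputable def rh823cf6f3fa122233 : CRef := CRef.mk (Pat.mk 0x8000000080000001800000010000000000000000000000000 0x740000007e0000007f00000018000000180000000c0000000c0000000c 6 7) 0 0 (step_sound _ 99 [(rh23abe14e4c828fd9.shift 1 2), (rh544fd3f279a4d968.shift 2 0), (rh900a894640be090c.shift 0 2), (rhb1c562e40ee61608.shift 2 0), (rhd49a209860dedbee.shift 1 3)] (by decide +kernel))
noncomputable def rh1ad717749cad4966 : CRef := CRef.mk (Pat.mk 0x8000000080000001800000010000000000000000000000000 0x140000001e00000078000000380000001f0000000c0000000c0000000c 6 7) 0 0 (step_sound _ 99 [(rh23abe14e4c828fd9.shift 1 2), (rh6fae963f33cfdfd7.shift 0 2), (rhb1c562e40ee61608.shift 2 0)] (by decide +kernel))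
noncomputable def rhe2180cc9169987c7 : CRef := CRef.mk (Pat.mk 0x1c000000060000000c00000008 0xa0000001b0000001f0000003e0000000f00000008 6 6) 0 0 (step_sound _ 67 [(rh2f68792b6b779e96.shift 3 0), (rha0a96f1317818711.shift 0 1)] (by decide +kernel))
noncomputable def rh7620edc7277206dc : CRef := CRef.mk (Pat.mk 0x1000000018000000380000000000000000 0xc0000000c0000001c000000180000003c0000000f0000000c 6 6) 0 0 (step_sound _ 35 [rh4c7c0cea13ff91e8, (rh71222050f2c63a3a.shift 3 0)] (by decide +kernel))
noncomputable def rh3dcbad35de31d504 : CRef := CRef.mk (Pat.mk 0x4000000060000000e0000000000000000 0x30000000300000007000000060000001e0000000300000003 6 5) 0 0 (step_sound _ 33 [(rh71222050f2c63a3a.shift 1 0), rh8ad626b30f15c88f] (by decide +kernel))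
noncomputable def rh3b471f90e4c861d8 : CRef := CRef.mk (Pat.mk 0x1e0000000800000000 0x400000004000000370000003e0000000b00000002 6 6) 0 0 (step_sound _ 100 [(rh33e738c4ed385b9f.shift 1 2), rh44dd78dd79fc4e0b] (by decide +kernel))
noncomputable def rh8953c8370edd8f8e : CRef := CRef.mk (Pat.mk 0x8000000080000001800000010000000000000000000000000 0x140000003c0000000f000000380000001f0000000c0000000c0000000c 6 6) 0 0 (step_sound _ 99 [(rh6fae963f33cfdfd7.shift 0 2), (rh900a894640be090c.shift 0 2), (rha9a9dd876407ae9a.shift 2 0)] (by decide +kernel))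
noncomputable def rh2b53232dd95bba35 : CRef := CRef.mk (Pat.mk 0x80000001800000018000000000000000000000000 0x140000001f0000003c0000001f000000080000000800000008 6 6) 0 0 (step_sound _ 67 [(rh5aa5e9dc84124dd6.shift 0 2), rh6bc015b9268c8423, (rh84d1c02a8954c6a8.shift 3 1), (rhdf997f77704b6375.shift 2 0)] (by decide +kernel))
noncomputable def rh26bd48145358d107 : CRef := CRef.mk (Pat.mk 0x200000007000000040 0x1ff000000fe00000067 6 9) 0 0 (step_sound _ 35 [rh36eba2a3de447758, (rhb18e6c78a554867d.shift 2 1), (rhd1d05263fabc0227.shift 1 0), (rhec46bd5500c722c9.shift 2 1)] (by decide +kernel))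
noncomputable def rh458bb13bb93083a8 : CRef := CRef.mk (Pat.mk 0x80000001c0000000000000000 0x4000000040000007f0000003f0000000300000002 6 7) 0 0 (step_sound _ 65 [rh21460d2d48a35cb8, (rhb18e6c78a554867d.shift 0 2), (rhec46bd5500c722c9.shift 0 2)] (by decide +kernel))
noncomputable def rhfb42b3948e71e89a : CRef := CRef.mk (Pat.mk 0x200000007000000040 0x1e7000000fe0000007f 6 9) 0 0 (step_sound _ 35 [rh36eba2a3de447758, (rh3b00e9e9432b8f40.shift 2 0), (rhec46bd5500c722c9.shift 2 1)] (by decide +kernel))
noncomputable def rh690c804819e68196 : CRef := CRef.mk (Pat.mk 0xe0000001c00000010000000000000000000000000 0x1200000032000000f70000003e0000001c0000001c0000000c0000000c0000000c 6 8) 0 0 (step_sound _ 164 [(rh5ba2d67652840f34.shift 1 3), (rh733e490633d2cf51.shift 2 0), (rhe1ef59f9ff87186c.shift 0 2)] (by decide +kernel))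
noncomputable def rh8400558b5bfb8d38 : CRef := CRef.mk (Pat.mk 0x8000000180000001000000000 0x1c0000001c0000001c000000380000001f0000000c 6 6) 0 0 (step_sound _ 131 [(rh2145e1d24b96a57e.shift 3 1), rh713d46511b2e7d9f] (by decide +kernel))
noncomputable def rhc323cfa1a624f679 : CRef := CRef.mk (Pat.mk 0x60000001c000000180000000000000000 0x60000001f0000001b0000000f00000007 6 5) 0 0 (step_sound _ 97 [rh9bf74640ed06f161, (rhb739f4f82bb681b4.shift 0 2)] (by decide +kernel))
noncomputable def rh5b6fcd83eee5cd7a : CRef := CRef.mk (Pat.mk 0x400000004000000140000001c00000000 0x600000006000000070000001f0000001f00000004 6 5) 0 0 (step_sound _ 67 [(rh2145e1d24b96a57e.shift 2 1), rh2a95c5e23937f5c7] (by decide +kernel))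
noncomputable def rhc8ac18dd48df12ce : CRef := CRef.mk (Pat.mk 0x4000000040000001c0000001c00000000 0x180000003c0000000f0000001f0000001c00000004 6 6) 0 0 (step_sound _ 131 [rh18aea9f31a87285f, (rh2f68792b6b779e96.shift 2 1)] (by decide +kernel))
noncomputable def rh4a557f7005e7111a : CRef := CRef.mk (Pat.mk 0x3800000010000000100000001000000000 0x70000007e0000003f000000180000001800000008 6 7) 0 0 (step_sound _ 35 [(rh408428b2447a6de6.shift 0 1), (rh932754581e0f4330.shift 3 0)] (by decide +kernel))
noncomputable def rh2a387b8752161036 : CRef := CRef.mk (Pat.mk 0x600000002000000020000000200000000 0x300000003000000030000000600000006000000060000000600000006 6 3) 0 0 (step_sound _ 98 [(rh71222050f2c63a3a.shift 1 0), rhcbaa34959f85e2ef] (by decide +kernel))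
noncomputable def rh97519811245bffa8 : CRef := CRef.mk (Pat.mk 0x20000000a0000000a000000000000000000000000 0x50000000700000007000000020000001f0000000f000000030000000100000001 6 5) 0 0 (step_sound _ 96 [rh281c6819542c66e6, (rh68a777751bfeafdf.shift 0 2), (rh7a7e08304268422e.shift 0 2), (rh976a48eb1c80a12f.shift 0 2), (rh9f2591205204f08d.shift 0 3)] (by decide +kernel))
noncomputable def rhdd24bc396a0443d1 : CRef := CRef.mk (Pat.mk 0x40000001c000000180000000000000000 0xc000000ff0000001f0000000800000008 6 8) 0 0 (step_sound _ 35 [(rh7b1f1fb55310c477.shift 2 0), (rhb5fa49299cd36f0b.shift 0 2)] (by decide +kernel))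
noncomputable def rh1b8a60a3380156d8 : CRef := CRef.mk (Pat.mk 0x20000000e0000000100000000 0x50000000700000007000000020000001e0000000300000001 6 5) 0 0 (step_sound _ 33 [(rh18965a982d73c794.shift 0 1), rh68a777751bfeafdf] (by decide +kernel))
noncomputable def rhb4409d12de3f3be0 : CRef := CRef.mk (Pat.mk 0xc00000004000000040000001400000010 0x200000003c0000003e0000003e0000003700000012 6 6) 0 0 (step_sound _ 33 [(rh932754581e0f4330.shift 1 0), rhe49a27a008617f76] (by decide +kernel))
noncomputable def rh6c4a572e054eb6de : CRef := CRef.mk (Pat.mk 0x2000000020000000200000001 0x400000007000000070000000300000006000000060000000700000001 6 3) 0 0 (step_sound _ 129 [(rh2ed2555faa788df9.shift 0 1), rh79877ebd3ef475dd] (by decide +kernel))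
noncomputable def rh8529fe9f47ce3d5b : CRef := CRef.mk (Pat.mk 0x2000000020000000200000002 0x400000007000000070000000700000006000000060000000600000002 6 3) 0 0 (step_sound _ 129 [rh0cc9c0ca431601b8, (rh1741680720c097b4.shift 0 1), (rh2ed2555faa788df9.shift 0 1), (rh44f453b84f013105.shift 1 0)] (by decide +kernel))
noncomputable def rhd754f15233c89ee9 : CRef := CRef.mk (Pat.mk 0x1800000008000000280000000800000000 0x1f000000ff000001e80000000800000008 6 9) 0 0 (step_sound _ 100 [(rh51a14c77eb5c4f4a.shift 0 2), (rh71222050f2c63a3a.shift 3 0)] (by decide +kernel))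
noncomputable def rh12b188d0719d20c0 : CRef := CRef.mk (Pat.mk 0xc00000007000000040000001000000010 0x4000000240000003c000000370000003e0000003200000010 6 6) 0 0 (step_sound _ 133 [(rh361cc68994bd8a63.shift 1 3), rha709efe122825888] (by decide +kernel))
noncomputable def rh733de04018e11237 : CRef := CRef.mk (Pat.mk 0x6000000020000000a0000000a00000000 0x60000003f0000003a0000000f00000003 6 6) 0 0 (step_sound _ 32 [rh354553c19270c214, rh932754581e0f4330] (by decide +kernel))
noncomputable def rh070036782196e57a : CRef := CRef.mk (Pat.mk 0xe00000004000000040000001400000010 0x700000003f0000003c000000140000001600000012 6 7) 0 0 (step_sound _ 33 [rh2b619d8e8ea743ad, (rh932754581e0f4330.shift 1 0)] (by decide +kernel))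
noncomputable def rh00aee29d00007ae9 : CRef := CRef.mk (Pat.mk 0x70000000300000000000000010 0xf0000007e000000770000001000000010 6 7) 0 0 (step_sound _ 99 [(rh0da3f8d18d3a0dfd.shift 2 0), (rh3918eeb6c53434d8.shift 0 2), (rh4f8edb321cf5b49d.shift 1 2), (rhad5d8fc3675c15dd.shift 1 2), (rhba89ab7cb81bcc90.shift 1 2)] (by decide +kernel))
noncomputable def rh163bfaf424edf86a : CRef := CRef.mk (Pat.mk 0x8000000080000001e0000000e000000000000000000000000 0x40000000c0000000f0000001e0000000e000000030000000300000003 6 5) 0 0 (step_sound _ 194 [(rh50fbb5868c909700.shift 2 3), rhfb4b4a93a91a3796] (by decide +kernel))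
noncomputable def rh8388090a3990ce94 : CRef := CRef.mk (Pat.mk 0x8000000080000000c0000000c 0x60000000f0000007e0000001f0000000c 6 7) 0 0 (step_sound _ 98 [rh122d54edc929fd49, (rh50fbb5868c909700.shift 2 0)] (by decide +kernel))
noncomputable def rhca73c83edd3db24f : CRef := CRef.mk (Pat.mk 0x30000000200000001800000010 0xf0000003e0000007f0000001800000010 6 7) 0 0 (step_sound _ 99 [(rh3918eeb6c53434d8.shift 0 2), (rhdb2909ac5c854515.shift 3 0)] (by decide +kernel))
noncomputable def rh4e4bc1c77b0b80a8 : CRef := CRef.mk (Pat.mk 0x1800000010000000380000000c00000000 0x70000001f0000001e0000003c0000000c00000004 6 6) 0 0 (step_sound _ 99 [(rh8e633c2d019e1dd0.shift 0 1), (rh932754581e0f4330.shift 2 0)] (by decide +kernel))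
noncomputable def rhad893ead5c50c724 : CRef := CRef.mk (Pat.mk 0x10000000380000001c0000000000000000 0x6000000060000007f0000003f0000001c0000000400000004 6 7) 0 0 (step_sound _ 98 [rh37ed05a0c9e74c8f, (rh98d92ab9dd718be9.shift 1 2), rhaed54c24fb91f24a, (rhec46bd5500c722c9.shift 1 3)] (by decide +kernel))
noncomputable def rhc7d892247a348c3c : CRef := CRef.mk (Pat.mk 0x1a0000000600000002 0x50000000700000007000000030000001e0000000600000006 6 5) 0 0 (step_sound _ 97 [rh3da62da861143b9a, rh5e05da03898e7023, rhd58eabc66e969816, rhfb9fb48a5e63ed80] (by decide +kernel))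
noncomputable def rh76f25d919876a11c : CRef := CRef.mk (Pat.mk 0x3800000010000000100000001000000000 0x70000003e0000007f0000001c0000001800000008 6 7) 0 0 (step_sound _ 35 [(rh69458e32707aa8ef.shift 0 1), (rh932754581e0f4330.shift 3 0)] (by decide +kernel))
noncomputable def rhbffb53deaed7117e : CRef := CRef.mk (Pat.mk 0x1c00000008000000080000002400000020 0x30000003f000000ff0000002c0000002400000020 6 8) 0 0 (step_sound _ 100 [(rh5f8fb1ce5bff7d7f.shift 2 0), (rh754d6cc2f12d32fd.shift 0 1), (rhdeca8db941583de2.shift 0 3)] (by decide +kernel))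
noncomputable def rhb106b9e77bf11152 : CRef := CRef.mk (Pat.mk 0x1a0000000a0000000a0000000800000000 0x7e0000003e0000007b0000000c00000004 6 7) 0 0 (step_sound _ 34 [(rh6e82f132e469e0c0.shift 0 2), (rh932754581e0f4330.shift 2 0)] (by decide +kernel))
noncomputable def rh2407651670d70208 : CRef := CRef.mk (Pat.mk 0x4000000140000001400000010 0x2c0000003c0000003e0000001e0000003700000012 6 6) 0 0 (step_sound _ 130 [(rh69d3f1aa6a1df641.shift 1 0), rh9f0212359c7333ba] (by decide +kernel))
noncomputable def rh17efe654bd2155ff : CRef := CRef.mk (Pat.mk 0x80000002800000028 0xf0000007e000001ef 6 9) 0 0 (step_sound _ 36 [rh3918eeb6c53434d8, (rh8ee80cc30e93a344.shift 2 0), (rhd9106766b9ff53c0.shift 2 0)] (by decide +kernel))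
noncomputable def rh884748027da7bf6a : CRef := CRef.mk (Pat.mk 0x100000007000000040 0x3e0000007e000000c7 6 8) 0 0 (step_sound _ 35 [rh14ee58c1672e9101, (rhe25b0a99195a5d59.shift 3 0)] (by decide +kernel))
noncomputable def rh1e85c14727cd8249 : CRef := CRef.mk (Pat.mk 0x20000000e000000000000002000000000 0xe30000007e000000700000002000000020 6 8) 0 0 (step_sound _ 100 [(rh3244c3cc8379b070.shift 0 3), (rhff137c455409f0e3.shift 1 0)] (by decide +kernel))
noncomputable def rh19b91d2603a55eca : CRef := CRef.mk (Pat.mk 0xc00000004000000040000001400000010 0x720000003f0000003c000000140000001400000010 6 7) 0 0 (step_sound _ 129 [rh2b619d8e8ea743ad, (rh50fbb5868c909700.shift 1 1)] (by decide +kernel))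
noncomputable def rhbb5e192b91ed84bd : CRef := CRef.mk (Pat.mk 0x10000000300000001c000000480000000000000000 0x8000000080000000c0000003e00000038000001fc000000df0000003400000010 6 9) 0 0 (step_sound _ 66 [(rh42dd8871f50eb7a6.shift 0 1), (rh4dc133ee0ba1420a.shift 0 2), (rh66f5103bde2adfa6.shift 1 2), (rhb8ffbf35a11bdd4d.shift 1 0)] (by decide +kernel))
noncomputable def rhdd2c4cce7eb00991 : CRef := CRef.mk (Pat.mk 0x1000000058000000480000004800000000 0x80000000f0000000780000004f0000007800000020 6 8) 0 0 (step_sound _ 66 [(rh361cc68994bd8a63.shift 2 2), rhf66813553e85d54a] (by decide +kernel))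
noncomputable def rh1ddd5c1789a1e32b : CRef := CRef.mk (Pat.mk 0x1000000018000000380000000800000000 0xc0000000c0000001f0000001f000000380000001800000010 6 6) 0 0 (step_sound _ 97 [rh6d5e3fbe353ee59f, (rhab22b5b56e7b3243.shift 1 2)] (by decide +kernel))
noncomputable def rhbe62e74046a9b706 : CRef := CRef.mk (Pat.mk 0x18000000380000000800000000 0xc0000000c0000000f0000003e000000380000001800000010 6 6) 0 0 (step_sound _ 98 [rh9c5ba952d4c81738, (rhb739f4f82bb681b4.shift 1 2)] (by decide +kernel))
noncomputable def rhad84e3c1ca240422 : CRef := CRef.mk (Pat.mk 0x1000000018000000480000004800000000 0xc0000000c0000000f0000007e00000078000000d80000007800000030 6 8) 0 0 (step_sound _ 131 [(rhc3b618ba71007413.shift 0 2), (rhcbaa34959f85e2ef.shift 2 0), (rhcf85c92937975d4d.shift 1 1), (rhfa078ba4eef4f432.shift 3 0)] (by decide +kernel))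
noncomputable def rhf8e4c4b8101f31dd : CRef := CRef.mk (Pat.mk 0x1e00000018000000180000000800000000 0x3e0000001f0000001b0000000f00000006 6 6) 0 0 (step_sound _ 97 [rh4ee102729e8c628b, (rheb0810cc63b001d8.shift 0 3)] (by decide +kernel))
noncomputable def rh3cd9e1181e6e57dd : CRef := CRef.mk (Pat.mk 0xe00000018000000180000000800000000 0xe0000003f0000001b0000000f00000006 6 6) 0 0 (step_sound _ 34 [(rh932754581e0f4330.shift 2 0), rhf36cb9f0914cf800] (by decide +kernel))
noncomputable def rhe75eb9eee25e96a4 : CRef := CRef.mk (Pat.mk 0x1a000000060000000200000000000000000000000000000000 0x500000007000000070000001e000000060000000200000007000000070000000700000005 6 5) 0 0 (step_sound _ 97 [(rh6eff4158bb400f47.shift 0 1), (rh89b861083a18eae7.shift 0 3), (rha707fb719e87fe6e.shift 1 2), rhffb8e5993241bf15] (by decide +kernel))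
noncomputable def rh50d2da62f206e6c0 : CRef := CRef.mk (Pat.mk 0x1000000030000000200000001800000010 0x1f0000003e0000006f0000001800000018 6 7) 0 0 (step_sound _ 99 [(rh140eeb6c74fee009.shift 3 0), (rh3918eeb6c53434d8.shift 0 2)] (by decide +kernel))
noncomputable def rhf733c2a41d57dd22 : CRef := CRef.mk (Pat.mk 0x7800000008 0xe7000000ff00000018 6 8) 0 0 (step_sound _ 70 [(rh33e738c4ed385b9f.shift 3 1), rhe311094826532d65] (by decide +kernel))
noncomputable def rh1ebcceca75f2a414 : CRef := CRef.mk (Pat.mk 0x8000000080000001e00000004 0x60000000f0000003b0000001e00000007 6 6) 0 0 (step_sound _ 1 [rh38588a875586d108, rheb0810cc63b001d8] (by decide +kernel))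
noncomputable def rh957f73c257a5d6a9 : CRef := CRef.mk (Pat.mk 0x8000000180000001e00000004 0x400000004000000060000000f0000001f0000001e0000000c 6 5) 0 0 (step_sound _ 65 [(rh3244c3cc8379b070.shift 0 1), rhe69abdd71ef0eff8] (by decide +kernel))
noncomputable def rh9d735a830e772e74 : CRef := CRef.mk (Pat.mk 0x380000002c000000200000003000000000 0x8000000080000003c0000006c0000006f0000003e00000007 6 7) 0 0 (step_sound _ 34 [(rh0ea1e9572398c6d8.shift 1 1), rh2b75b59b91c70173, (rh4657d6bf491c09a2.shift 1 0), (rh580df77fe152422b.shift 2 0), (rh5e875562af6c1594.shift 1 0)] (by decide +kernel))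
noncomputable def rh60758b663ec2c6b4 : CRef := CRef.mk (Pat.mk 0xa000000060000000200000020000000000000000000000000 0xc0000000e00000006000000060000003f0000000f0000000700000005 6 6) 0 0 (step_sound _ 97 [(rh251123ccb92f46c0.shift 1 2), (rh6eff4158bb400f47.shift 0 1), (rha707fb719e87fe6e.shift 1 2), rhffb8e5993241bf15] (by decide +kernel))
noncomputable def rhe0454b13325e59a8 : CRef := CRef.mk (Pat.mk 0x480000007000000000 0x6c0000007e00000077 6 7) 0 0 (step_sound _ 35 [(rh3244c3cc8379b070.shift 2 1), rhb61ade19d028b468] (by decide +kernel))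
noncomputable def rh9e2f6857846924b3 : CRef := CRef.mk (Pat.mk 0x40000000e000000100000001000000000 0x2400000024000000770000003e000000170000001200000002 6 7) 0 0 (step_sound _ 100 [rh89b5f90df49b86fa, (rhc3a62e1d6ae06e0b.shift 1 1), (rhe3060b190bc0bc78.shift 0 3)] (by decide +kernel))
noncomputable def rhb6101abbe89640ef : CRef := CRef.mk (Pat.mk 0x40000000e000000100000000000000000 0x400000004000000340000001e000000370000000200000002 6 6) 0 0 (step_sound _ 100 [rh89b5f90df49b86fa, (rhe25b0a99195a5d59.shift 1 2)] (by decide +kernel))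
noncomputable def rh5f9246af2c22b38b : CRef := CRef.mk (Pat.mk 0x80000000d0000000c 0xc0000001f000000780000000f0000000c 6 7) 0 0 (step_sound _ 99 [rh2f3cad69fdd8054a, (rh5c5e593799055d58.shift 2 0)] (by decide +kernel))
noncomputable def rh738eaa4bd2350cbd : CRef := CRef.mk (Pat.mk 0x1400000016000000030000000800000008 0x300000003000000030000001e00000037000000130000001900000008 6 6) 0 0 (step_sound _ 68 [(rhd0011a5e4f42f723.shift 0 1), (rheea67dfebd0f8008.shift 3 0)] (by decide +kernel))
noncomputable def rhfd05fbbb8e83e61b : CRef := CRef.mk (Pat.mk 0x20000000800000008000000000000000400000004 0x140000001c0000001f0000003800000018000000180000001c00000004 6 6) 0 0 (step_sound _ 67 [(rheea67dfebd0f8008.shift 2 0), (rhfaee95439ef8385a.shift 0 1)] (by decide +kernel))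
noncomputable def rh53890bdb671992e3 : CRef := CRef.mk (Pat.mk 0xa0000000b0000000800000000 0x140000001c0000003c0000001e0000001b0000001800000010 6 6) 0 0 (step_sound _ 98 [(rh18965a982d73c794.shift 0 2), (rh7128c5124d01767c.shift 1 0)] (by decide +kernel))
noncomputable def rh85f6559bb0eefa7b : CRef := CRef.mk (Pat.mk 0x180000001e000000000000000000000000 0xb0000000b0000001f0000001e0000000f0000000400000004 6 5) 0 0 (step_sound _ 129 [(rh3244c3cc8379b070.shift 0 3), rhb4dd944c95a9c0e2] (by decide +kernel))
noncomputable def rhb062f1af0f56487d : CRef := CRef.mk (Pat.mk 0x20000000f0000000800000008 0x400000004000000060000000e0000001e0000000f0000000a00000008 6 5) 0 0 (step_sound _ 99 [(rh33e738c4ed385b9f.shift 0 2), (rh93f702319e6412c4.shift 1 0)] (by decide +kernel))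
noncomputable def rh6c095cf38d67439e : CRef := CRef.mk (Pat.mk 0x10000000380000000800000008 0x1000000014000000770000003e0000000f00000008 6 7) 0 0 (step_sound _ 132 [(rh5c5e593799055d58.shift 3 1), rh95fc87f9297d7a59] (by decide +kernel))
noncomputable def rh8fb0084491a57a54 : CRef := CRef.mk (Pat.mk 0x80000001e0000000000000004 0x80000000a0000003b0000001e0000000f00000004 6 6) 0 0 (step_sound _ 100 [(rh33e738c4ed385b9f.shift 1 2), rh465444efcb51b496] (by decide +kernel))
noncomputable def rhccf89c9ffd5d0082 : CRef := CRef.mk (Pat.mk 0x1a0000001a00000002000000040000000000000000 0x100000001a0000001a0000000a0000001f0000000f00000001 6 5) 0 0 (step_sound _ 65 [rh0eada5cfcca5be9d, (rh55afc6a59410cf00.shift 1 1)] (by decide +kernel))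
noncomputable def rh6ca7559e65528c0d : CRef := CRef.mk (Pat.mk 0x1c0000003800000008 0x2000000024000000660000003c0000003f0000001f 6 7) 0 0 (step_sound _ 34 [(rhb5fa927ebe54187b.shift 1 0), rhcc2be1f880c5ea3e] (by decide +kernel))
noncomputable def rh2fcaff2b3056f25c : CRef := CRef.mk (Pat.mk 0x4000000400000005800000000 0x400000004000000ce0000007e00000007 6 8) 0 0 (step_sound _ 37 [(rh33e738c4ed385b9f.shift 3 1), rhb23ce12a4334daa8] (by decide +kernel))
noncomputable def rh68cef6500c03b622 : CRef := CRef.mk (Pat.mk 0x80000001e00000004 0x3000000030000003f0000001e00000007 6 6) 0 0 (step_sound _ 1 [rh98d92ab9dd718be9, rheb0810cc63b001d8] (by decide +kernel))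
noncomputable def rh2702d5c822338de9 : CRef := CRef.mk (Pat.mk 0x1000000008000000180000000800000020 0x1800000018000000080000001f000000ff000001e0 6 9) 0 0 (step_sound _ 36 [rh51a14c77eb5c4f4a, (rh82bd946b1709a78e.shift 3 1)] (by decide +kernel))
noncomputable def rh4cf2b58529def11d : CRef := CRef.mk (Pat.mk 0x2000000060000000200000002 0x500000007000000070000000700000006000000060000000600000002 6 3) 0 0 (step_sound _ 129 [(rh14e0829dc73b6804.shift 0 1), (rh44f453b84f013105.shift 1 0), (rhb8566e9a0302f73d.shift 1 0), (rhc85cc95794737cf7.shift 0 1)] (by decide +kernel))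
noncomputable def rhd775e363b5918508 : CRef := CRef.mk (Pat.mk 0x1e000000040000000000000000 0x200000002000000070000001f0000003c0000000400000004 6 6) 0 0 (step_sound _ 68 [rhb4380df2e2db088b, (rhe25b0a99195a5d59.shift 1 2)] (by decide +kernel))
noncomputable def rh5566a094057828e6 : CRef := CRef.mk (Pat.mk 0x40000000e000000000000000800000028 0xff0000007e000000f00000003800000028 6 8) 0 0 (step_sound _ 100 [(rh67d0180ef0585f3c.shift 1 2), (rh78864f9e980aced1.shift 1 0), (rh9c9de8a82d5e4ca8.shift 1 0), (rhe3060b190bc0bc78.shift 0 3)] (by decide +kernel))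
noncomputable def rh2fa29ea9c0c7b7e2 : CRef := CRef.mk (Pat.mk 0x2000000030000000b0 0x670000003e000000f7 6 8) 0 0 (step_sound _ 35 [(rh2fe78cc5ca4405d8.shift 3 0), rhb12ffaec36122c99] (by decide +kernel))
noncomputable def rhebf7c2c85cb31197 : CRef := CRef.mk (Pat.mk 0x20000000600000003800000010 0x80000007c0000007f0000007800000010 6 7) 0 0 (step_sound _ 67 [(rh2f32edc41b016dfb.shift 2 0), (rh441f3098d3a9709b.shift 2 0), rhb6147e185b794d59, (rhf60aa8aede119d3b.shift 0 1)] (by decide +kernel))
noncomputable def rhe3ef2a7310fcd076 : CRef := CRef.mk (Pat.mk 0x800000007000000010 0xce0000007e00000037 6 8) 0 0 (step_sound _ 35 [(rh428265de8cd3cd2d.shift 3 1), rhc7e8e87a0b43237b] (by decide +kernel))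
noncomputable def rh8a8d47c6b76fa957 : CRef := CRef.mk (Pat.mk 0x40000000700000002000000000 0x10000000100000007f000000fe0000006f00000008 6 8) 0 0 (step_sound _ 67 [(rh21460d2d48a35cb8.shift 2 0), (rh21d582c147e7e118.shift 1 1), (rh3918eeb6c53434d8.shift 0 1), (rh592c7139d2c44767.shift 1 1), (rhe3dc93746cbe6e7c.shift 2 1)] (by decide +kernel))
noncomputable def rh45d804d194928a22 : CRef := CRef.mk (Pat.mk 0xe000000040000001400000010 0x200000002000000770000003e000000640000003400000010 6 7) 0 0 (step_sound _ 129 [(rhc89253ff58c66167.shift 1 1), rhfd3737a6223fa3ef] (by decide +kernel))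
noncomputable def rhc79afbbc1a481a0d : CRef := CRef.mk (Pat.mk 0x400000007000000020 0xc70000007e00000067 6 8) 0 0 (step_sound _ 35 [(rh33e738c4ed385b9f.shift 3 1), rh3918eeb6c53434d8] (by decide +kernel))
noncomputable def rhdf6ae5b985679189 : CRef := CRef.mk (Pat.mk 0x40000000e000000020000000800000008 0x20000000300000003000000370000003e000000360000001a0000000a 6 6) 0 0 (step_sound _ 33 [rh18ad902315d4a7c6, (rh71222050f2c63a3a.shift 1 0)] (by decide +kernel))
noncomputable def rh671f95d70ac3c7e5 : CRef := CRef.mk (Pat.mk 0x400000006000000020000000800000028 0x340000003e0000007b0000002800000028 6 7) 0 0 (step_sound _ 99 [(rh2613c889e411427e.shift 2 0), rhccfa7b3c02894528] (by decide +kernel))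
noncomputable def rhb4f98c2fffd2babf : CRef := CRef.mk (Pat.mk 0x180000003800000008 0x1c0000001c0000001f0000001f0000003800000008 6 6) 0 0 (step_sound _ 99 [(rh1741680720c097b4.shift 2 0), (rh2ddd6c94c59240f8.shift 3 0), (rh7b9fbdf6d2d059e4.shift 2 0), rhfc67fece3ec14ad5] (by decide +kernel))
noncomputable def rhaa816b3dadb2f4ea : CRef := CRef.mk (Pat.mk 0x10000000180000003c00000008 0xf0000001f0000001c0000003c0000000e 6 6) 0 0 (step_sound _ 2 [rh168c702fc6e06326, (rheb0810cc63b001d8.shift 1 0)] (by decide +kernel))
noncomputable def rhe11335e247051b3b : CRef := CRef.mk (Pat.mk 0x1a0000000600000002 0x500000007000000070000000f0000001a0000000600000006 6 5) 0 0 (step_sound _ 97 [(rh22cde4a1aed087ae.shift 1 0), rh330a005829cdd297, rh3da62da861143b9a, rhfb9fb48a5e63ed80] (by decide +kernel))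
noncomputable def rh5946445507e063ae : CRef := CRef.mk (Pat.mk 0x100000001a0000001c00000028 0xc0000001f0000001b0000003c0000006e 6 7) 0 0 (step_sound _ 37 [rh00321360533dfee0, (rhe25b0a99195a5d59.shift 2 0)] (by decide +kernel))
noncomputable def rh6c59de89e64dec72 : CRef := CRef.mk (Pat.mk 0x1000000018000000180000002000000000 0x1000000018000000ff000001ef00000008 6 9) 0 0 (step_sound _ 35 [(rh3163cc19a88bdc18.shift 0 1), (rh71222050f2c63a3a.shift 3 0)] (by decide +kernel))
noncomputable def rhb27d3b17c8b08638 : CRef := CRef.mk (Pat.mk 0xe00000006000000000000000800000008 0x8000000380000003f00000036000000100000001800000008 6 6) 0 0 (step_sound _ 132 [rh0076f4b8af27f5af, (rh18965a982d73c794.shift 1 3)] (by decide +kernel))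
noncomputable def rhef175cb31fa13d0d : CRef := CRef.mk (Pat.mk 0x2000000020000001600000016000000100000001000000000 0x40000000600000002000000160000001e000000330000001e0000000a 6 6) 0 0 (step_sound _ 194 [rh083d55aa7a465bcb, (rh2f68792b6b779e96.shift 1 3)] (by decide +kernel))
noncomputable def rhdc104defcae90311 : CRef := CRef.mk (Pat.mk 0x1e00000016000000100000000000000000 0x4000000340000001e0000001e000000370000000200000002 6 6) 0 0 (step_sound _ 164 [rh12863910bbd550ea, (rh33e738c4ed385b9f.shift 1 4)] (by decide +kernel))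
noncomputable def rh068804ff0f603c7f : CRef := CRef.mk (Pat.mk 0x400000006000000120000001200000000 0x300000003000000030000000600000006000000370000001f00000005 6 6) 0 0 (step_sound _ 129 [rh571d9c498ff3c718, rhcbaa34959f85e2ef, rhea90e7358341a1a4] (by decide +kernel))
noncomputable def rh32779693f241304f : CRef := CRef.mk (Pat.mk 0xc000000060000001000000000 0x200000002000000070000003f0000003e0000003400000004 6 6) 0 0 (step_sound _ 100 [(rh18965a982d73c794.shift 1 2), rh85797ea7e03930ab] (by decide +kernel))
noncomputable def rh3eb5fd478d936ea3 : CRef := CRef.mk (Pat.mk 0x1a0000001e000000000000000000000000 0x500000007000000070000001e0000001e000000070000000600000004 6 5) 0 0 (step_sound _ 65 [rh17e80ddbe75641a6, (rheb0810cc63b001d8.shift 0 2)] (by decide +kernel))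
noncomputable def rhbd1f8aa5902e0373 : CRef := CRef.mk (Pat.mk 0x3000000010000000040000003c00000000 0xf40000003e000000040000003e00000007 6 8) 0 0 (step_sound _ 1 [rh490f5a1345100298, (rh80fcd6d0a18cb2dd.shift 1 0)] (by decide +kernel))
noncomputable def rha3e495edc4c73dc5 : CRef := CRef.mk (Pat.mk 0x38000000400000004000000040 0x270000007e000000670000004000000040 6 7) 0 0 (step_sound _ 102 [(rh36eba2a3de447758.shift 0 2), (rh50fbb5868c909700.shift 5 0)] (by decide +kernel))
noncomputable def rh3198499b55aeb80d : CRef := CRef.mk (Pat.mk 0x1c000000080000000000000000 0x1400000014000000370000003e0000001b0000000a00000008 6 6) 0 0 (step_sound _ 97 [(rh21460d2d48a35cb8.shift 0 1), (rhd039e5a02ea548e4.shift 1 0)] (by decide +kernel))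
noncomputable def rhb10afc25474bb052 : CRef := CRef.mk (Pat.mk 0x1c00000018000000200000003000000000 0x40000001c000000180000006f0000003e0000000f 6 7) 0 0 (step_sound _ 35 [rhb12ffaec36122c99, (rhc93583770a36d0f1.shift 2 0)] (by decide +kernel))
noncomputable def rh2fb92adb4aec8fcd : CRef := CRef.mk (Pat.mk 0x70000000200000000000000000 0x4000000040000000cf0000007e000000ef0000002000000020 6 8) 0 0 (step_sound _ 99 [(rh3918eeb6c53434d8.shift 0 2), (rh592c7139d2c44767.shift 1 2), (rha03f6e28ea70fc7d.shift 2 2), (rhd039e5a02ea548e4.shift 3 0), (rhfcb55d5dc3b78d1f.shift 1 2)] (by decide +kernel))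
noncomputable def rh60cc2984a877d824 : CRef := CRef.mk (Pat.mk 0x38000000100000000000000000 0x2000000020000000770000003e000000170000001000000010 6 7) 0 0 (step_sound _ 133 [(rh4821dcf828b9d7bf.shift 4 0), (rhb12ffaec36122c99.shift 0 2)] (by decide +kernel))
noncomputable def rh74715872e40c4514 : CRef := CRef.mk (Pat.mk 0x100000000c00000008000000200000002000000000 0x100000007c0000000f000000080000006c0000003c00000014 6 7) 0 0 (step_sound _ 163 [(rhbc9b81ce56be4903.shift 2 0), (rhd69c262cd33b94b3.shift 0 4)] (by decide +kernel))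
noncomputable def rhfbf0ff5aea53edb6 : CRef := CRef.mk (Pat.mk 0x100000001e00000018 0x380000003c0000001f0000001e00000018 6 6) 0 0 (step_sound _ 100 [(rh5c5e593799055d58.shift 3 0), rhef5b717c3c78b399] (by decide +kernel))
noncomputable def rh258776cefd9add5d : CRef := CRef.mk (Pat.mk 0x38000000000000001800000010 0x40000007f0000003e0000000f0000001800000010 6 7) 0 0 (step_sound _ 67 [(rh2145e1d24b96a57e.shift 3 0), (rhb34d56df7f1a8739.shift 0 1)] (by decide +kernel))
noncomputable def rhc52c029bf82e7b5b : CRef := CRef.mk (Pat.mk 0x2000000020000000200000002000000080000000800000000 0x1000000030000000300000002000000020000001b0000000f00000005 6 5) 0 0 (step_sound _ 192 [rh03901d6887da191b, (rh50fbb5868c909700.shift 0 3)] (by decide +kernel))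
noncomputable def rh57b70c9de7763e02 : CRef := CRef.mk (Pat.mk 0x8000000080000000e0000000400000010 0x160000001f0000003b0000000e0000001c00000010 6 6) 0 0 (step_sound _ 35 [(rh922ed1c4e0d2a3bb.shift 0 1), (rhd3458b32566d63f7.shift 3 0)] (by decide +kernel))
noncomputable def rh44cf2675fd1e2f52 : CRef := CRef.mk (Pat.mk 0x20000001e000000180000000000000000 0x4000000040000000e0000001e0000001b0000000f0000000f 6 5) 0 0 (step_sound _ 65 [rhde5356d54ed23098, (rheb0810cc63b001d8.shift 0 2)] (by decide +kernel))
noncomputable def rhf9118c658e74b389 : CRef := CRef.mk (Pat.mk 0x70000000200000008000000080 0x18f000001fe000001ef0000008000000080 6 9) 0 0 (step_sound _ 99 [(rh3918eeb6c53434d8.shift 0 2), (rh775ca1963e850b80.shift 1 2), (rha3bc93d59a5021b5.shift 3 0), (rhfcb55d5dc3b78d1f.shift 1 2)] (by decide +kernel))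
noncomputable def rh69f414f97ce48269 : CRef := CRef.mk (Pat.mk 0x2000000020000000200000002000000080000000800000000 0x4000000060000000600000002000000020000001b0000000f00000005 6 5) 0 0 (step_sound _ 194 [(rh2f68792b6b779e96.shift 1 3), rh5d10ff9e1b1f2a5e] (by decide +kernel))
noncomputable def rhb92050df94e34733 : CRef := CRef.mk (Pat.mk 0x20000000e000000000000002000000000 0xe70000007e000000600000002000000020 6 8) 0 0 (step_sound _ 100 [(rh1e8e6803c5e9654f.shift 1 0), (rh3244c3cc8379b070.shift 0 3)] (by decide +kernel))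
noncomputable def rh1eff84344f7c427b : CRef := CRef.mk (Pat.mk 0x1800000002000000020000000a00000018 0x50000000f0000001b00000002000000020000000f00000019 6 5) 0 0 (step_sound _ 32 [rh383d5ebc74711a0c, rhc10214bf3fe8094a] (by decide +kernel))
noncomputable def rh093d7bbb7554fd96 : CRef := CRef.mk (Pat.mk 0xa0000000b0000000800000008 0x170000001e0000001b0000000b0000000900000008 6 5) 0 0 (step_sound _ 132 [(rh1868744840f45f38.shift 0 1), (rhbaefcd01e0a8bca3.shift 3 0)] (by decide +kernel))
noncomputable def rh747a45730e394d78 : CRef := CRef.mk (Pat.mk 0x7000000010000000400000000 0x800000008000000780000003f0000007f0000000400000004 6 7) 0 0 (step_sound _ 99 [(rh3fc3a7fb6866dcd4.shift 0 2), rhceed0e29dfbc434b, (rhf2b3bcf1454375d8.shift 0 2), (rhf3baec4a0a3dd35e.shift 0 2)] (by decide +kernel))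
noncomputable def rh335bf86fb600ffc2 : CRef := CRef.mk (Pat.mk 0x20000001a000000000000002000000000 0xe70000007e000000600000002000000020 6 8) 0 0 (step_sound _ 98 [(rh1e8e6803c5e9654f.shift 1 0), (rh3244c3cc8379b070.shift 0 3)] (by decide +kernel))
noncomputable def rh60bd3f42939d7877 : CRef := CRef.mk (Pat.mk 0x1a000000020000000000000020 0xe00000007e000000730000002000000020 6 8) 0 0 (step_sound _ 98 [(rh66c438da7fa185e0.shift 1 0), (rheb0810cc63b001d8.shift 0 2)] (by decide +kernel))
noncomputable def rhbff1c37a6b1c783f : CRef := CRef.mk (Pat.mk 0x8000000280000002000000020 0x4000000040000000cf0000007e000001e700000020 6 9) 0 0 (step_sound _ 68 [(rh3918eeb6c53434d8.shift 0 1), (rh8ee80cc30e93a344.shift 2 1), (rha9fbfd4bb8cf890b.shift 0 2), (rhf60085a7356fb2fe.shift 2 0)] (by decide +kernel))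
noncomputable def rhd51457dc271c2009 : CRef := CRef.mk (Pat.mk 0x30000000140000001600000010 0xa0000001e0000003a000000170000001e00000034 6 6) 0 0 (step_sound _ 65 [(rh4723afaf4d1af126.shift 1 0), rh665fa2b016ee28ae] (by decide +kernel))
noncomputable def rh9f39e957047c5ac5 : CRef := CRef.mk (Pat.mk 0x80000000a0000000b000000090000000800000000 0x40000000c0000000c0000000a0000000f000000190000000f00000005 6 5) 0 0 (step_sound _ 194 [rh9088861d4a508c53, (rhffd04209dc8ea796.shift 2 2)] (by decide +kernel))
noncomputable def rhaf0ae2f35a821bc4 : CRef := CRef.mk (Pat.mk 0x2000000020000000200000002400000000 0x2000000020000000670000003e00000017 6 7) 0 0 (step_sound _ 36 [rh2b75b59b91c70173, (rh932754581e0f4330.shift 4 0)] (by decide +kernel))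
noncomputable def rh014b1660a666b506 : CRef := CRef.mk (Pat.mk 0x400000006000000000000001e00000000 0x300000003000000030000000600000006000000070000001e00000004 6 5) 0 0 (step_sound _ 65 [(rh3244c3cc8379b070.shift 0 1), rh5efb70d687a431f8] (by decide +kernel))
noncomputable def rh7cf58e13f0654539 : CRef := CRef.mk (Pat.mk 0x1c00000014000000100000001000000000 0x3c0000001e000000330000001e0000000a 6 6) 0 0 (step_sound _ 97 [rh083d55aa7a465bcb, (rh18965a982d73c794.shift 1 3)] (by decide +kernel))
noncomputable def rha61d37f119958567 : CRef := CRef.mk (Pat.mk 0x8000000080000001e00000004 0x60000000f0000003b0000001e00000007 6 6) 0 0 (step_sound _ 68 [(rh33e738c4ed385b9f.shift 1 1), rh3d9e209d9d128a84] (by decide +kernel))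
noncomputable def rhedb6065a2c9ab664 : CRef := CRef.mk (Pat.mk 0x400000007000000020 0xce0000007e00000037 6 8) 0 0 (step_sound _ 35 [(rh33e738c4ed385b9f.shift 3 1), rheaad777ed634577b] (by decide +kernel))
noncomputable def rhc3bf89be2f37886f : CRef := CRef.mk (Pat.mk 0x100000001c00000014000000100000001000000000 0x10000000100000001c0000007f000000f70000001800000008 6 8) 0 0 (step_sound _ 35 [(rh3b66d3b4b6a37611.shift 0 2), (rh932754581e0f4330.shift 3 0)] (by decide +kernel))
noncomputable def rha7872a8894fb7e25 : CRef := CRef.mk (Pat.mk 0x800000008000000080000000a000000180000000800000000 0x40000000c0000000c000000080000000c0000000f000000780000000c00000004 6 7) 0 0 (step_sound _ 98 [(rh4048f5aed7cbf858.shift 2 0), (rhb739f4f82bb681b4.shift 0 2)] (by decide +kernel))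
noncomputable def rhd5a9d40479a44184 : CRef := CRef.mk (Pat.mk 0x2000000020000000200000002800000000 0x2000000020000000670000003e00000017 6 7) 0 0 (step_sound _ 36 [(rh932754581e0f4330.shift 4 0), rhb12ffaec36122c99] (by decide +kernel))
noncomputable def rhcb03ecba11fbd411 : CRef := CRef.mk (Pat.mk 0x100000000b0000000a0000000800000002 0x50000001f000000190000000b0000001e0000001a00000002 6 5) 0 0 (step_sound _ 128 [rh9e07f76261b05888, (rhbda2c8ada58e8e5d.shift 0 1)] (by decide +kernel))
noncomputable def rh977c32a871ba3673 : CRef := CRef.mk (Pat.mk 0xf000000020 0x7000000fe0000007f 6 8) 0 0 (step_sound _ 35 [(rh257f8d8b94d7754a.shift 1 0), rh3918eeb6c53434d8, (rheae1728ff4a56756.shift 2 0), (rhfcb55d5dc3b78d1f.shift 1 0)] (by decide +kernel))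
noncomputable def rh7cd0853d3996bbd1 : CRef := CRef.mk (Pat.mk 0x78000000480000002000000020 0x67000000ff000000580000006000000020 6 8) 0 0 (step_sound _ 134 [(rhe311094826532d65.shift 0 2), (rheea67dfebd0f8008.shift 5 0)] (by decide +kernel))
noncomputable def rh6ad36dcc9e0282b1 : CRef := CRef.mk (Pat.mk 0x400000014000000040000000400000000 0xa0000003e00000037000000040000000600000002 6 6) 0 0 (step_sound _ 33 [(rh1d90b59f780b588e.shift 0 1), (rh932754581e0f4330.shift 1 0)] (by decide +kernel))
noncomputable def rhe29bdd3b0182f363 : CRef := CRef.mk (Pat.mk 0x38000000100000000000000008 0xc6000000ff0000003e0000000800000008 6 8) 0 0 (step_sound _ 67 [(rh4dc133ee0ba1420a.shift 1 2), (rh574fdbf07bdd18b9.shift 1 2), rh99958e6426785a6d, rh9d018c92315c0fd0] (by decide +kernel))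
noncomputable def rh6f23c9f62b90bad8 : CRef := CRef.mk (Pat.mk 0x40000001400000004000000000000000000000000 0xa0000003e00000037000000040000000e0000000e0000000a 6 6) 0 0 (step_sound _ 66 [(rh1d90b59f780b588e.shift 0 2), (rh8cdd36b03d57a2f6.shift 1 0), (rh8ff3dde5b1c639e0.shift 1 0)] (by decide +kernel))
noncomputable def rh854ebce8547817ad : CRef := CRef.mk (Pat.mk 0x60000001e000000100000000000000000 0x2000000060000001e0000001f0000000700000007 6 5) 0 0 (step_sound _ 65 [rh553bd5a9701a40ae, (rheb0810cc63b001d8.shift 0 2)] (by decide +kernel))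
noncomputable def rh205fa186fd02054c : CRef := CRef.mk (Pat.mk 0x40000001e00000010 0x40000000400000074000000ff0000001c 6 8) 0 0 (step_sound _ 3 [rhb739f4f82bb681b4, (rhf4f7005066521a98.shift 1 0)] (by decide +kernel))
noncomputable def rheebcee348b34f65b : CRef := CRef.mk (Pat.mk 0x60000001e00000010 0x1c0000003c000000360000001f00000018 6 6) 0 0 (step_sound _ 3 [(rh7978888d4cf2503f.shift 1 0), rhb739f4f82bb681b4] (by decide +kernel))
noncomputable def rhbb7c18cfa355d63d : CRef := CRef.mk (Pat.mk 0x40000001e00000018 0x1c0000003c000000370000001e00000018 6 6) 0 0 (step_sound _ 65 [(rh3244c3cc8379b070.shift 0 1), (rh7978888d4cf2503f.shift 1 0)] (by decide +kernel))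
noncomputable def rh20cabb80a58b6fe1 : CRef := CRef.mk (Pat.mk 0x40000001c000000100000000000000000 0x400000014000000f4000000ff0000001c0000000800000008 6 8) 0 0 (step_sound _ 67 [rh0693a0ad7c8af654, (rh5d54cb79a67f97ab.shift 2 0), (rhb9516e665db18134.shift 0 2)] (by decide +kernel))
noncomputable def rh88b5be9ac1a0817d : CRef := CRef.mk (Pat.mk 0x2000000020000000a0000000800000000 0x500000007000000070000003e0000000b0000001e0000000f00000005 6 6) 0 0 (step_sound _ 161 [(rh1741680720c097b4.shift 0 2), (rh187733abe5006915.shift 0 1), rh971dc3c4871dc881] (by decide +kernel))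
noncomputable def rhd0167e7a885ccd61 : CRef := CRef.mk (Pat.mk 0x800000008000000080000000c00000018 0x800000018000000780000001f0000000f00000018 6 7) 0 0 (step_sound _ 33 [rh452791d275eb5af4, rhb739f4f82bb681b4] (by decide +kernel))
noncomputable def rh5dc3ee573a52504d : CRef := CRef.mk (Pat.mk 0x800000008000000080000000c00000018 0x140000001c0000001c00000008000000080000000c0000000f00000018 6 5) 0 0 (step_sound _ 33 [(rh9fb9dc683e09b5f3.shift 2 1), rhb739f4f82bb681b4] (by decide +kernel))
noncomputable def rhac9541fb68ca21da : CRef := CRef.mk (Pat.mk 0x2000000020000000a0000000a00000000 0x200000002000000730000007e0000000e00000004 6 7) 0 0 (step_sound _ 34 [(rh2fc523ad27ad4fcb.shift 0 1), (rh55afc6a59410cf00.shift 1 0)] (by decide +kernel))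
noncomputable def rh72db19c50fa261a5 : CRef := CRef.mk (Pat.mk 0x800000008000000080000000800000000 0x140000003c0000000f000000080000001800000018 6 6) 0 0 (step_sound _ 36 [(rh55afc6a59410cf00.shift 3 0), rh5ee4dc8825dcefa0] (by decide +kernel))
noncomputable def rhdb32b4d1dc4da50a : CRef := CRef.mk (Pat.mk 0x300000007000000000 0x8000000080000000c000000ff0000007e0000001f 6 8) 0 0 (step_sound _ 35 [(rh0e97c78c975ab610.shift 2 0), (rh592c7139d2c44767.shift 1 0), rhb12ffaec36122c99, (rhd69c262cd33b94b3.shift 1 1)] (by decide +kernel))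
noncomputable def rh01e09ab0562d142b : CRef := CRef.mk (Pat.mk 0x1000000070000000400000000000000000 0x40000001d7000000fe0000007f0000002000000020 6 9) 0 0 (step_sound _ 99 [(rh6cc0f305be0098c0.shift 2 2), (rh88c620441a3a17ea.shift 0 2), (rha4c1d69345b99268.shift 2 0)] (by decide +kernel))
noncomputable def rhccc24bb617e02ce7 : CRef := CRef.mk (Pat.mk 0x400000004000000140000001000000000 0xc0000000c0000007c000000170000003e0000001600000002 6 7) 0 0 (step_sound _ 162 [(rh187733abe5006915.shift 1 1), (rh367118e0bf0473e0.shift 1 0), (rh64d324585ca865ad.shift 0 1)] (by decide +kernel))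
noncomputable def rhfe620314540a5b2f : CRef := CRef.mk (Pat.mk 0x700000002000000000 0x8000000080000000f000000fe0000007f00000010 6 8) 0 0 (step_sound _ 67 [(rh3918eeb6c53434d8.shift 0 1), (rh3a69dc315759d1b4.shift 2 0), (rh4f8edb321cf5b49d.shift 1 1), (rhb4f5b1f88c9a7c13.shift 1 1)] (by decide +kernel))
noncomputable def rha23e0f40d5cd8b20 : CRef := CRef.mk (Pat.mk 0x8000000280000002800000000 0x140000001c0000001c000000080000003f0000003e00000014 6 6) 0 0 (step_sound _ 131 [(rh1741680720c097b4.shift 2 1), rh905e10946450bea1] (by decide +kernel))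
noncomputable def rh0648a2b7eb0fb17b : CRef := CRef.mk (Pat.mk 0x80000002800000028000000000000000000000000 0x80000007f0000003f0000000f0000000400000004 6 7) 0 0 (step_sound _ 98 [(rh5bc5f4ab1822bc0a.shift 0 2), (rh9f2591205204f08d.shift 2 3), rha9cfee431e742090, (rhe33d9496e10d8eb0.shift 0 3)] (by decide +kernel))
noncomputable def rh3711227b7a3d6ab4 : CRef := CRef.mk (Pat.mk 0x70000000800000005000000160000000000000000 0x2f000000780000003f000000160000001000000010 6 7) 0 0 (step_sound _ 132 [rh20681cf92e735565, (rhd6e447e81774439e.shift 0 4)] (by decide +kernel))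
noncomputable def rhb8b65a59fce570ba : CRef := CRef.mk (Pat.mk 0x2000000020000000a00000008 0x500000007000000070000003e0000000b0000000b0000000b 6 6) 0 0 (step_sound _ 129 [(rh1741680720c097b4.shift 0 1), rh187733abe5006915, rh3b734c5288922837, rh771d065bdc85bf2d] (by decide +kernel))
noncomputable def rh2dadb5131a148eed : CRef := CRef.mk (Pat.mk 0x40000000400000014000000140000000000000000 0x400000006000000070000001f0000001c0000000c00000004 6 5) 0 0 (step_sound _ 67 [rh0542e41926acc11d, (rh55afc6a59410cf00.shift 2 1)] (by decide +kernel))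
noncomputable def rh5f524f80c0fc524a : CRef := CRef.mk (Pat.mk 0x8000000080000000800000000 0x140000001c0000003c0000000f0000000c0000000c0000000c 6 6) 0 0 (step_sound _ 131 [(rh20966da26a1c2ae8.shift 2 0), rh59c6c9d9132801ae, (rh771d065bdc85bf2d.shift 2 0)] (by decide +kernel))
noncomputable def rh79943c3c334ec884 : CRef := CRef.mk (Pat.mk 0x40000001400000014000000040000000000000000 0x400000006000000370000001e0000000c0000000c00000004 6 6) 0 0 (step_sound _ 67 [rh547cec784bc51b1f, (rh55afc6a59410cf00.shift 2 1)] (by decide +kernel))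
noncomputable def rhfc993a6ca5f5731c : CRef := CRef.mk (Pat.mk 0x80000000a0000000a0000000800000000 0x170000001e0000000b0000000e0000000c00000004 6 5) 0 0 (step_sound _ 34 [(rh932754581e0f4330.shift 2 0), (rh9b7ecf44d0378a7a.shift 0 1)] (by decide +kernel))
noncomputable def rhd16607741342cf53 : CRef := CRef.mk (Pat.mk 0x2000000028000000280000002000000000 0x20000001ef000001fe0000003000000010 6 9) 0 0 (step_sound _ 36 [(rh2adfa7d64de7d454.shift 0 1), (rh932754581e0f4330.shift 4 0)] (by decide +kernel))
noncomputable def rh6c07ada285d9d93d : CRef := CRef.mk (Pat.mk 0x20000000280000002800000030 0x1000000030000001ef000001fe00000030 6 9) 0 0 (step_sound _ 100 [rh2adfa7d64de7d454, (rh50fbb5868c909700.shift 4 0)] (by decide +kernel))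
noncomputable def rh694eb410966dc463 : CRef := CRef.mk (Pat.mk 0x80000000a0000000a0000000c 0x170000001f0000007a0000001f0000000c 6 7) 0 0 (step_sound _ 100 [(rh2f68792b6b779e96.shift 3 0), rh6754acae50f1b04b] (by decide +kernel))
noncomputable def rh417b883f66a983e4 : CRef := CRef.mk (Pat.mk 0x80000000a0000000a0000000800000000 0x8000000080000007b0000007e0000000c00000004 6 7) 0 0 (step_sound _ 34 [(rh80a1e2f8672ea264.shift 0 1), (rh932754581e0f4330.shift 2 0)] (by decide +kernel))
noncomputable def rhdb6284af14052c8a : CRef := CRef.mk (Pat.mk 0x100000001400000014000000080000000000000000 0x1400000014000000360000001e0000000b0000000200000002 6 6) 0 0 (step_sound _ 99 [(rh5c5e593799055d58.shift 3 2), rhb722ed1e6c374d20] (by decide +kernel))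
noncomputable def rh634dd84b0dfe0b3b : CRef := CRef.mk (Pat.mk 0x8000000020000000e0000000800000000 0x8000000080000007b0000007e0000000c00000004 6 7) 0 0 (step_sound _ 68 [(rh3244c3cc8379b070.shift 0 2), (rh36c0bbd879682cdd.shift 1 0)] (by decide +kernel))
noncomputable def rhb951d5ce9350f387 : CRef := CRef.mk (Pat.mk 0x10000000040000001c000000100000000000000000 0x1400000014000000160000001f0000001b0000000a00000002 6 5) 0 0 (step_sound _ 67 [rhb011648b02524118, (rhb8fddd58ad9026ec.shift 3 1)] (by decide +kernel))
noncomputable def rh5025e20943aa4aff : CRef := CRef.mk (Pat.mk 0xc00000000000000040000001400000000 0x8000000080000001f0000007c0000001c0000001400000010 6 7) 0 0 (step_sound _ 163 [(rh04253f50b6dd0619.shift 2 1), rh776abe170e2140ff] (by decide +kernel))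
noncomputable def rh461c4729b5292881 : CRef := CRef.mk (Pat.mk 0x30000000040000001400000010 0x8000001df000000fe000000760000001400000010 6 9) 0 0 (step_sound _ 99 [(rh065c71259074db46.shift 0 2), (rh0d65a1675d5ec7ba.shift 1 0), (rh6393c571f5ee53ef.shift 1 1), (rhd74d37817ec9d4e4.shift 2 0)] (by decide +kernel))
noncomputable def rhfa8da77ce9e49723 : CRef := CRef.mk (Pat.mk 0x10000000070000000c00000000 0xa0000000e0000000e0000003e000000070000000c00000008 6 6) 0 0 (step_sound _ 98 [(rh14e0829dc73b6804.shift 1 0), (rh4fd54f6717f3e7ac.shift 0 2)] (by decide +kernel))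
noncomputable def rha752d1d096a00cb4 : CRef := CRef.mk (Pat.mk 0x380000000c0000000800000000 0x140000001c0000001e000000380000000f0000000c00000004 6 6) 0 0 (step_sound _ 65 [(rh2c31585bcf1fa334.shift 1 0), (rh53b3c253cb0c65f4.shift 0 2)] (by decide +kernel))
noncomputable def rhd39fc3ffd9767cf5 : CRef := CRef.mk (Pat.mk 0x14000000060000000400000000 0x20000000e0000000e0000003e00000037000000060000000600000002 6 6) 0 0 (step_sound _ 130 [(rh03dfdf12d5937476.shift 1 0), (rh1741680720c097b4.shift 1 1), (rh1d90b59f780b588e.shift 0 1), (rh976a48eb1c80a12f.shift 1 1)] (by decide +kernel))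
noncomputable def rhd19737f19714ab5f : CRef := CRef.mk (Pat.mk 0x10000000060000000600000002 0x70000003f0000003f000000060000000600000002 6 6) 0 0 (step_sound _ 97 [(rh2ddd6c94c59240f8.shift 1 0), rh5dc21415ee553144, rh7b9fbdf6d2d059e4] (by decide +kernel))
noncomputable def rhac68cbb3d18114bc : CRef := CRef.mk (Pat.mk 0x40000001c000000100000000000000000 0x1400000014000000340000001f0000001f0000000a0000000a 6 6) 0 0 (step_sound _ 67 [rh4342dbbe6d26394a, (rh5d54cb79a67f97ab.shift 2 0), (rhc04bdb4f52da4841.shift 0 1)] (by decide +kernel))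
noncomputable def rh064fce833c9f3a5a : CRef := CRef.mk (Pat.mk 0x1000000070000000400000000000000000 0x10000000100000001f0000007e0000007f0000000800000008 6 7) 0 0 (step_sound _ 99 [(rh0de499e0455c9c14.shift 1 2), (rh36eba2a3de447758.shift 0 2), (rh775ca1963e850b80.shift 1 2), (rhcfde16a7ff36af03.shift 2 0), (rhd1d05263fabc0227.shift 1 2)] (by decide +kernel))
noncomputable def rh510121e41792eb88 : CRef := CRef.mk (Pat.mk 0x2000000030000000200000002 0x500000007000000070000000600000006000000030000000300000003 6 3) 0 0 (step_sound _ 129 [rh03dfdf12d5937476, (rh32431e66bbf434a4.shift 0 1), (rh44f453b84f013105.shift 1 0)] (by decide +kernel))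
noncomputable def rh07f76501df229635 : CRef := CRef.mk (Pat.mk 0xc0000000a 0xe00000007f000000ff 6 8) 0 0 (step_sound _ 36 [rh0b786d94a31538a6, (rh3d54e7f933686048.shift 1 0), rhd526f9b20c752965] (by decide +kernel))
noncomputable def rh655414e0374007e5 : CRef := CRef.mk (Pat.mk 0x1c0000000e00000000 0x200000002000000030000001f0000007e00000007 6 7) 0 0 (step_sound _ 36 [(rh79b3c29022acbdf3.shift 1 1), rh7fcd588089ecd0df, rh8a88abf038d31fd2, (rhe3060b190bc0bc78.shift 0 1)] (by decide +kernel))
noncomputable def rh055d33eb93b36aee : CRef := CRef.mk (Pat.mk 0x1e00000012000000000000000000000000 0x4000000040000003f0000001e000000070000000200000002 6 6) 0 0 (step_sound _ 98 [(rh18965a982d73c794.shift 1 3), rh842fd840c3363927] (by decide +kernel))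
noncomputable def rhe3b9ae591612b554 : CRef := CRef.mk (Pat.mk 0x100000001c0000000000000000 0x400000004000000370000003e0000000300000002 6 6) 0 0 (step_sound _ 65 [rh21460d2d48a35cb8, (rh33e738c4ed385b9f.shift 1 2)] (by decide +kernel))
noncomputable def rh8c7a82c9de025ae8 : CRef := CRef.mk (Pat.mk 0x1c00000018000000180000000000000000 0x4000000060000007c0000001f0000001f0000000200000002 6 7) 0 0 (step_sound _ 98 [(rh0f936b2c74e7b815.shift 1 2), (rh34517e326ddb5b25.shift 0 2), rh8f7039354bfc4ec2] (by decide +kernel))
noncomputable def rha427bd58acc14c87 : CRef := CRef.mk (Pat.mk 0x2000000060000001a000000180000000000000000 0x1000000070000000700000006000000060000001e0000001f0000000700000005 6 5) 0 0 (step_sound _ 65 [(rh5a860b5057e1e4c5.shift 0 2), rh6eff4158bb400f47, (rhda02c4ce0b224328.shift 0 2), (rhf8cb4ab9f0c1a0ef.shift 0 1)] (by decide +kernel))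
noncomputable def rh10340a1d28fd3da3 : CRef := CRef.mk (Pat.mk 0x100000001c0000001000000008 0x400000014000000170000003f0000001c00000008 6 6) 0 0 (step_sound _ 35 [rh20a16ea490d845a0, (rh5c5e593799055d58.shift 3 0)] (by decide +kernel))
noncomputable def rhed24867bc10f35b7 : CRef := CRef.mk (Pat.mk 0x1c000000180000000800000000 0x4000000040000003f0000001f0000000b00000002 6 6) 0 0 (step_sound _ 97 [(rhb739f4f82bb681b4.shift 0 2), rhf92edbcf3d10063c] (by decide +kernel))
noncomputable def rh9dc7e8e1df225de3 : CRef := CRef.mk (Pat.mk 0x100000001c0000001000000008 0x4000000140000001f0000003f0000001800000008 6 6) 0 0 (step_sound _ 35 [(rh5c5e593799055d58.shift 3 0), rhfa84e23ffa1d661f] (by decide +kernel))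
noncomputable def rhee36ccb3677e6390 : CRef := CRef.mk (Pat.mk 0x180000001c0000000000000000 0x4000000040000001f0000003f0000000300000002 6 6) 0 0 (step_sound _ 65 [rh21460d2d48a35cb8, (rh53b3c253cb0c65f4.shift 0 2)] (by decide +kernel))
noncomputable def rhd5bde4325e7bac79 : CRef := CRef.mk (Pat.mk 0xc0000001c000000100000000800000000 0x40000000c0000007c0000001e0000000f00000006 6 7) 0 0 (step_sound _ 67 [(rh50fbb5868c909700.shift 2 1), rhe3c49a1585cb7bbc] (by decide +kernel))
noncomputable def rh690464ee11ae899c : CRef := CRef.mk (Pat.mk 0xe0000000800000008 0x12000000120000003b0000003e0000000f0000000c 6 6) 0 0 (step_sound _ 68 [rh3a69dc315759d1b4, (rh49606a42a30c7ac4.shift 1 0)] (by decide +kernel))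
noncomputable def rhe633900e171dcc2a : CRef := CRef.mk (Pat.mk 0xa000000080000000800000000 0x140000001c0000001f0000003b0000000c0000000c00000004 6 6) 0 0 (step_sound _ 131 [(rh009db477ebccb70b.shift 0 1), (rh1741680720c097b4.shift 2 1), (rh3b734c5288922837.shift 2 0), (rh771d065bdc85bf2d.shift 2 0)] (by decide +kernel))
noncomputable def rh0da643aa182714f1 : CRef := CRef.mk (Pat.mk 0x1c0000001800000010 0x80000000c000000ff0000001f00000010 6 8) 0 0 (step_sound _ 99 [(rh2145e1d24b96a57e.shift 3 0), (rhe09a1d865a4cb93c.shift 0 1)] (by decide +kernel))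
noncomputable def rhdb0606d5a4991774 : CRef := CRef.mk (Pat.mk 0x80000001e0000001a000000100000000000000000 0x80000003e0000001e0000001f0000000700000003 6 6) 0 0 (step_sound _ 98 [(rh18965a982d73c794.shift 1 3), rh69c97e361bfcdb15] (by decide +kernel))
noncomputable def rhdc8b228a734a5e78 : CRef := CRef.mk (Pat.mk 0x80000001c000000180000001800000000 0x140000001c0000001c0000001c0000001f00000007 6 5) 0 0 (step_sound _ 132 [(rh5c5e593799055d58.shift 3 1), rhd204a504bad0f148] (by decide +kernel))
noncomputable def rh70096abdef94190e : CRef := CRef.mk (Pat.mk 0x80000001e0000001a0000000800000000 0x140000001c0000007e0000001a0000000f00000006 6 7) 0 0 (step_sound _ 132 [(rh5c5e593799055d58.shift 3 1), rhc26225327d1162a4] (by decide +kernel))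
noncomputable def rhc8b3295883d30083 : CRef := CRef.mk (Pat.mk 0xa0000001c000000100000001000000000 0x3200000032000000370000001e0000003c0000001c0000001c00000008 6 6) 0 0 (step_sound _ 132 [(rh2d604e8bba40a4c7.shift 0 1), (rhbe6a11bbb961c2b9.shift 3 0)] (by decide +kernel))
noncomputable def rh04af1d3cd8afeaa3 : CRef := CRef.mk (Pat.mk 0xe0000001c0000001000000010000000000000000000000000 0x200000002000000070000001e0000001c0000001c0000001f0000000f0000000800000008 6 5) 0 0 (step_sound _ 99 [(rh8acac059f21cef1b.shift 0 2), (rh8e438c67e09d6bf9.shift 0 2), (rhfafeb437ceb8396d.shift 3 0)] (by decide +kernel))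
noncomputable def rh925c7fab5e04aef5 : CRef := CRef.mk (Pat.mk 0x20000000700000004000000000 0x10000000100000007f000000fe0000006f00000008 6 8) 0 0 (step_sound _ 67 [(rh21460d2d48a35cb8.shift 2 0), (rh36eba2a3de447758.shift 0 1), (rh6765e7960b108c8d.shift 2 1), (rhb103f40a53fe1424.shift 0 1)] (by decide +kernel))
noncomputable def rhde8b74c1da6a450d : CRef := CRef.mk (Pat.mk 0x1000000038000000200000003000000000 0x1000000078000001ff0000003c00000008 6 9) 0 0 (step_sound _ 70 [(rh4a0b10776449c3e9.shift 3 2), rhbcf64eb0eb8de728, (rhc3c694226a015fc3.shift 3 1)] (by decide +kernel))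
noncomputable def rh1610c4f7bb2681f8 : CRef := CRef.mk (Pat.mk 0x80000000e00000018000000000000000000000000 0x40000000c0000000e0000001e0000001f0000001e00000014 6 5) 0 0 (step_sound _ 67 [(rh6eff4158bb400f47.shift 2 0), (rh9754e95fae27c0d6.shift 0 1), (rhe286c75f2739cce2.shift 2 1)] (by decide +kernel))
noncomputable def rh588456ce1c48765f : CRef := CRef.mk (Pat.mk 0x300000001a00000002000000020000000000000000 0x500000007000000f70000001b00000003000000030000000300000001 6 8) 0 0 (step_sound _ 166 [(rh18965a982d73c794.shift 3 4), rh1e6400bd70fa042e] (by decide +kernel))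
noncomputable def rh1a618833940cef6c : CRef := CRef.mk (Pat.mk 0x180000000d000000090000000b000000080000000800000000 0x780000000d000000090000001b0000001b0000000f00000006 6 7) 0 0 (step_sound _ 197 [(rh18965a982d73c794.shift 2 5), rh6c5881e4d980ef3f] (by decide +kernel))
noncomputable def rhb4fabf2d9b95b5f0 : CRef := CRef.mk (Pat.mk 0xd000000080000000800000000 0x140000001c0000001c000000180000000f000000180000001800000010 6 5) 0 0 (step_sound _ 131 [(rh39fd5b98275e7a9f.shift 2 0), (rh7e143111a189f2ad.shift 0 1), (rhc924e5f7a4031fcc.shift 0 2)] (by decide +kernel))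
noncomputable def rh329337374d1d8c20 : CRef := CRef.mk (Pat.mk 0x1e000000180000000800000000 0x4000000040000003c0000001e0000001f0000000f00000002 6 6) 0 0 (step_sound _ 65 [rh278f3f3c65acfd2f, (rheb0810cc63b001d8.shift 0 2)] (by decide +kernel))
noncomputable def rh3c4770c49b8e92c5 : CRef := CRef.mk (Pat.mk 0x18000000180000001000000000 0x18000000180000001800000018000000380000001f0000000c 6 6) 0 0 (step_sound _ 132 [(rh03dfdf12d5937476.shift 3 0), rh3a99070759187e21, (rh7f9f3607ee25a93b.shift 3 1)] (by decide +kernel))
noncomputable def rhd9a3ab7bed17fe4f : CRef := CRef.mk (Pat.mk 0x30000000700000006 0xe0000001e0000001b0000001f00000006 6 5) 0 0 (step_sound _ 35 [rhb1bbbb7f7c6b3e67, (rhf48373e13d2bc128.shift 0 1)] (by decide +kernel))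
noncomputable def rh29ffae73d09c0c67 : CRef := CRef.mk (Pat.mk 0x20000000540000001000000058000000000000000000000000 0x2000000076000000ff0000005e000000e0000000e0000000a0 6 8) 0 0 (step_sound _ 134 [(rhab4211a9db6632d8.shift 0 3), (rhbba7d23481996066.shift 5 0), (rhe33d9496e10d8eb0.shift 1 3)] (by decide +kernel))
noncomputable def rhebdd6227b409bb96 : CRef := CRef.mk (Pat.mk 0xe000000080000000800000000 0x1000000012000000330000003e0000001f0000000c00000004 6 6) 0 0 (step_sound _ 100 [(rh94246470f0e6fdf7.shift 1 1), rhafa5a7051d37b143] (by decide +kernel))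
noncomputable def rhda7d1e246a276c6f : CRef := CRef.mk (Pat.mk 0x1e000000080000000000000000 0x4000000070000001e0000003f0000000300000003 6 6) 0 0 (step_sound _ 68 [rhafa8ad03fb07c74b, (rhe25b0a99195a5d59.shift 1 2)] (by decide +kernel))
noncomputable def rhe7fefc1c2b0ff176 : CRef := CRef.mk (Pat.mk 0xa000000080000000800000000 0x140000001c0000001f0000003b0000000c0000000c00000004 6 6) 0 0 (step_sound _ 131 [(rh018f2ebb4d91ad9d.shift 0 1), (rh1741680720c097b4.shift 2 1), (rh20966da26a1c2ae8.shift 2 0), (rh771d065bdc85bf2d.shift 2 0)] (by decide +kernel))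
noncomputable def rh44c10e244ce712f2 : CRef := CRef.mk (Pat.mk 0xe000000080000000800000000 0x12000000330000003e0000003f0000000c00000004 6 6) 0 0 (step_sound _ 100 [(rh1e66368eb2587cec.shift 0 1), rhafa5a7051d37b143, (rhbbda3e5cf400e6dd.shift 1 1)] (by decide +kernel))
noncomputable def rhaa53783adb99887e : CRef := CRef.mk (Pat.mk 0x7800000020 0xce0000007e00000037 6 8) 0 0 (step_sound _ 70 [(rh33e738c4ed385b9f.shift 3 1), rheaad777ed634577b] (by decide +kernel))
noncomputable def rhc1ae80ce1be37e6c : CRef := CRef.mk (Pat.mk 0x1800000018000000100000001000000000 0x40000001f000000380000001e0000007800000028 6 7) 0 0 (step_sound _ 35 [(rh932754581e0f4330.shift 3 0), rha50298191b6883d3] (by decide +kernel))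
noncomputable def rhab45d626ac459a2e : CRef := CRef.mk (Pat.mk 0x3800000010000000100000001000000000 0x7000000fe000000ff000000100000003000000020 6 8) 0 0 (step_sound _ 37 [(rh55afc6a59410cf00.shift 4 0), (rh6f5b630944e294cc.shift 0 3)] (by decide +kernel))
noncomputable def rhed9f5db7123fd789 : CRef := CRef.mk (Pat.mk 0x1800000018000000100000001000000000 0x18000000180000003e000000ff0000002c 6 8) 0 0 (step_sound _ 35 [(rh932754581e0f4330.shift 3 0), rhd9ee1a92da06e1cf] (by decide +kernel))
noncomputable def rh57145416ab811738 : CRef := CRef.mk (Pat.mk 0x800000008000000080000000000000000 0x140000001c0000003c0000000f000000180000001800000018 6 6) 0 0 (step_sound _ 35 [rh5ee4dc8825dcefa0, (rh7eb4a07d72ad7934.shift 2 0), (rhced6d86d2069808b.shift 3 0)] (by decide +kernel))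
noncomputable def rh22a0b3f5b8bb0d7e : CRef := CRef.mk (Pat.mk 0x80000000800000008000000000000000000000000 0x100000001c0000003c0000000f0000000c0000000c0000000c00000004 6 6) 0 0 (step_sound _ 67 [(rh20966da26a1c2ae8.shift 2 1), (rh5ee4dc8825dcefa0.shift 0 1), (rhc4526fc8abf298b6.shift 2 0)] (by decide +kernel))
noncomputable def rhaa071fee0731719f : CRef := CRef.mk (Pat.mk 0x400000004000000040000000000000000 0xa0000000e0000000f0000003e00000004000000060000000600000002 6 6) 0 0 (step_sound _ 162 [(rh305945700f20b255.shift 0 1), (rhc4526fc8abf298b6.shift 1 0), (rhc85cc95794737cf7.shift 1 2), (rhcab3157f7bdcba3e.shift 1 0)] (by decide +kernel))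
noncomputable def rh435dd3dd0bf07b3a : CRef := CRef.mk (Pat.mk 0x20000000200000002000000020000000000000000 0x200000006000000070000000700000003000000030000000200000002 6 3) 0 0 (step_sound _ 162 [(rh2f68792b6b779e96.shift 1 2), rh7746dfa1e2da3663] (by decide +kernel))
noncomputable def rhd109c93c943daa25 : CRef := CRef.mk (Pat.mk 0x60000000400000004000000040000000400000000 0x4000000040000000e0000003c0000000f000000060000000400000004 6 6) 0 0 (step_sound _ 131 [(rh2f68792b6b779e96.shift 2 1), rhc577279713bfdb0a] (by decide +kernel))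
noncomputable def rh9e8fb6c307c2a9fc : CRef := CRef.mk (Pat.mk 0x400000002000000020000000200000000 0x1000000070000000700000002000000030000000700000005 6 3) 0 0 (step_sound _ 129 [(rh2f68792b6b779e96.shift 1 1), rh675b172a473bb1e9] (by decide +kernel))
noncomputable def rhbbba7c5f25d753b7 : CRef := CRef.mk (Pat.mk 0x1800000018000000280000001800000000 0x4000000040000000fe0000007c0000002f0000007800000020 6 8) 0 0 (step_sound _ 101 [(rh2820ca9a6c4f41b4.shift 0 2), rhc3147fe3ea6a289f, (rhd8b43b15431aaa50.shift 2 0), (rhe2b63c00a3d7bb73.shift 1 3), rhff1c89e479683fce] (by decide +kernel))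
noncomputable def rh880676d5de68d76b : CRef := CRef.mk (Pat.mk 0x1800000008000000080000000800000000 0x8000000180000007c0000000f0000000c0000000c 6 7) 0 0 (step_sound _ 100 [(rh71222050f2c63a3a.shift 3 0), rh9dfe7bbd9d986933] (by decide +kernel))
noncomputable def rh60d0184bbcb57e23 : CRef := CRef.mk (Pat.mk 0xc000000080000002800000008 0xf00000007f0000007f0000002800000028 6 8) 0 0 (step_sound _ 100 [(rh2f68792b6b779e96.shift 3 0), rhfb8d6d010fff3768] (by decide +kernel))
noncomputable def rh39d5114717aca7de : CRef := CRef.mk (Pat.mk 0x1e00000000000000000000001c 0x30000001e00000033000000070000001f 6 6) 0 0 (step_sound _ 68 [rh9f6e793a35d9cbd3, (rhe25b0a99195a5d59.shift 1 2)] (by decide +kernel))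
noncomputable def rhfdda4826a9361970 : CRef := CRef.mk (Pat.mk 0x800000008000000080000000000000000 0x140000001c0000001c000000080000000f0000003c0000001c00000014 6 6) 0 0 (step_sound _ 163 [(rh641b5241be04eec6.shift 0 1), (rh771d065bdc85bf2d.shift 2 1), (rh8cdd36b03d57a2f6.shift 2 0), (rhc85cc95794737cf7.shift 2 2)] (by decide +kernel))
noncomputable def rha481642b2d2b8cd9 : CRef := CRef.mk (Pat.mk 0x80000002800000008000000100000000000000000 0x20000000280000002f0000007c000000380000001000000010 6 7) 0 0 (step_sound _ 36 [(rhbe0e43a3bc50a43f.shift 3 1), rhe632d5b9111c8a1f] (by decide +kernel))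
noncomputable def rh4ef7f14991e09906 : CRef := CRef.mk (Pat.mk 0x3c00000000000000000000001c 0x30000003e00000007000000070000001f 6 6) 0 0 (step_sound _ 65 [(rh80fcd6d0a18cb2dd.shift 1 2), rh88b0df90eb7f6196] (by decide +kernel))
noncomputable def rh751d00eed2838c47 : CRef := CRef.mk (Pat.mk 0x2000000020000000a0000000f00000000 0x140000001e0000001f0000000a0000000f00000018 6 5) 0 0 (step_sound _ 130 [rh27464db141f90703, (rh2f68792b6b779e96.shift 1 1)] (by decide +kernel))
noncomputable def rh3532d91cf13339ef : CRef := CRef.mk (Pat.mk 0x2000000020000000a0000001a00000010 0x740000003e0000000f0000000a0000001a00000010 6 7) 0 0 (step_sound _ 130 [(rh2f68792b6b779e96.shift 1 1), rhb7339408cab94302] (by decide +kernel))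
noncomputable def rhbb8e511c88a569cf : CRef := CRef.mk (Pat.mk 0xe000000040000001400000000 0x730000003e000000340000001400000014 6 7) 0 0 (step_sound _ 129 [(rh7b1f1fb55310c477.shift 1 0), rhe2f93f751a1b2a86] (by decide +kernel))
noncomputable def rh26d04e8003f98805 : CRef := CRef.mk (Pat.mk 0xc000000040000001400000000 0x20000000a0000007a0000003f0000003f0000001400000014 6 7) 0 0 (step_sound _ 97 [(rh261f868a429ae0e3.shift 1 0), rhdfe7000ec9dadd15, (rhf9a6286f1d5377a2.shift 1 0)] (by decide +kernel))
noncomputable def rh8e7a0f2310eb9682 : CRef := CRef.mk (Pat.mk 0x40000000e00000002 0x3c0000007f00000073 6 7) 0 0 (step_sound _ 36 [rh58f7607681416282, rheb0810cc63b001d8] (by decide +kernel))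
noncomputable def rh62d88e678e46ad09 : CRef := CRef.mk (Pat.mk 0x100000001000000018000000280000000000000000 0x4000000050000000f00000007c0000002f0000002000000020 6 8) 0 0 (step_sound _ 101 [(rh08edf065357d68e5.shift 4 0), (rh2820ca9a6c4f41b4.shift 0 2), (rhd8b43b15431aaa50.shift 2 0)] (by decide +kernel))
noncomputable def rh37e797645f9ca3ee : CRef := CRef.mk (Pat.mk 0x6000000020000000b0000000700000000 0x100000001e0000001f0000000b0000001f00000018 6 5) 0 0 (step_sound _ 35 [rh27464db141f90703, (rhf48373e13d2bc128.shift 0 1)] (by decide +kernel))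
noncomputable def rh9a9b8043eb934358 : CRef := CRef.mk (Pat.mk 0x40000000400000004000000000000000000000000 0x20000000600000006000000040000003e0000000f0000000e0000000a 6 6) 0 0 (step_sound _ 66 [(rh3ca4c10fdf355329.shift 0 1), (rh565a0c22519f57e9.shift 1 1), (rh7eb4a07d72ad7934.shift 1 1), (rh8cdd36b03d57a2f6.shift 1 0)] (by decide +kernel))
noncomputable def rh385a6fcc245c4e4f : CRef := CRef.mk (Pat.mk 0x7000000040000000400000014 0x780000003f0000003c0000001400000014 6 7) 0 0 (step_sound _ 99 [(rh2f68792b6b779e96.shift 2 0), rh66c438da7fa185e0] (by decide +kernel))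
noncomputable def rh2f6bf0f82896aaba : CRef := CRef.mk (Pat.mk 0x1c00000008000000080000000800000000 0xe00000007f000000ff000000080000001800000010 6 8) 0 0 (step_sound _ 36 [(rh55afc6a59410cf00.shift 3 0), (rhf38e37b591928a0c.shift 0 3)] (by decide +kernel))
noncomputable def rh7f2806f42fc916f0 : CRef := CRef.mk (Pat.mk 0x400000004000000080000000a0000000a0000000800000000 0x4000000060000000a0000000a0000000b0000001f00000017 6 5) 0 0 (step_sound _ 129 [(rh1006c02ae4212ff0.shift 1 2), rhfe85ef6f8dfaf75c] (by decide +kernel))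
noncomputable def rh0d93f4ad69411906 : CRef := CRef.mk (Pat.mk 0x3000000020000000280000002800000000 0x4c000000f80000007c0000002f0000002c0000000c 6 8) 0 0 (step_sound _ 134 [(rh2f68792b6b779e96.shift 5 1), rh5526a220ac54978b] (by decide +kernel))
noncomputable def rh583ebdaf0a266cbf : CRef := CRef.mk (Pat.mk 0x40000000400000007000000050000000000000000 0xa0000000e0000000e00000006000000060000000700000007000000050000000100000001 6 4) 0 0 (step_sound _ 194 [(rh3ca48e2a6d60153d.shift 1 2), (rh9fb9dc683e09b5f3.shift 1 3), (rhe62cab2ff5ad6fe2.shift 1 3), rhe842e6b8415de155] (by decide +kernel))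
noncomputable def rhaf1ec2635341a594 : CRef := CRef.mk (Pat.mk 0xf000000020 0xe000000fe0000003f 6 8) 0 0 (step_sound _ 35 [(rh592c7139d2c44767.shift 1 0), (rh70543c5e7e75eabe.shift 1 0), rheaad777ed634577b, (rheae1728ff4a56756.shift 2 0)] (by decide +kernel))
noncomputable def rh9db89375629314b2 : CRef := CRef.mk (Pat.mk 0x8000000080000000c00000008 0x140000001c0000001c000000180000007c0000000f0000000c00000008 6 7) 0 0 (step_sound _ 131 [rh352c008da27471f6, (rh44f453b84f013105.shift 3 0), (rh9fb9dc683e09b5f3.shift 2 1)] (by decide +kernel))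
noncomputable def rh11bf24d715040742 : CRef := CRef.mk (Pat.mk 0x40000000f00000004 0x800000008000000fc0000007f00000074 6 8) 0 0 (step_sound _ 36 [rh15db54bc2689044c, (rh3fc3a7fb6866dcd4.shift 1 0), (rh9890f9d77740bbed.shift 0 1), (rhf5fa5e48e0784de2.shift 1 0)] (by decide +kernel))
noncomputable def rhd1f7d1941fcbb79d : CRef := CRef.mk (Pat.mk 0x2000000020000000280000002800000000 0x10000000300000007c0000002f0000002800000028 6 7) 0 0 (step_sound _ 132 [(rh50fbb5868c909700.shift 4 1), rha8c35d1fee16d66d] (by decide +kernel))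
noncomputable def rhabd31e8dc559760d : CRef := CRef.mk (Pat.mk 0x80000001e000000040000000000000000 0x40000000c0000000f0000001e000000070000000600000004 6 5) 0 0 (step_sound _ 34 [(rh71222050f2c63a3a.shift 2 0), (rhdee1cae16728eb1d.shift 0 1)] (by decide +kernel))
noncomputable def rh0e886c4273f7d3b6 : CRef := CRef.mk (Pat.mk 0x20000000200000002000000038000000080000000000000000 0x2000000020000000300000003f0000007c000000080000000800000008 6 7) 0 0 (step_sound _ 132 [(rh5c5e593799055d58.shift 4 3), rhb840177570df9f91] (by decide +kernel))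
noncomputable def rh46d3d3952d361273 : CRef := CRef.mk (Pat.mk 0x2000000020000000200000002800000008 0x10000000300000003000000020000000300000007c0000000f 6 7) 0 0 (step_sound _ 164 [rhcf581ac93b19c3d8, (rhffd04209dc8ea796.shift 4 1)] (by decide +kernel))
noncomputable def rhd14a7ad9d9585f99 : CRef := CRef.mk (Pat.mk 0x80000000a0000000a000000000000000000000000 0x140000001c0000001e0000007e0000000b000000180000001800000010 6 7) 0 0 (step_sound _ 67 [(rh450121a3f4d9068b.shift 0 1), (rh6c59ce14113da07f.shift 3 0), (rh8ff3dde5b1c639e0.shift 2 0), (rhc85cc95794737cf7.shift 2 2)] (by decide +kernel))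
noncomputable def rh556f0db4a0ac0500 : CRef := CRef.mk (Pat.mk 0x60000000700000005 0xe0000000e0000003e0000003e0000000700000005 6 6) 0 0 (step_sound _ 98 [rh402529d67626cf53, (rh5fa50b509d4ce753.shift 1 0), (rhc85cc95794737cf7.shift 1 0), rhe2031cd839b38d08] (by decide +kernel))
noncomputable def rhb205823628854a5f : CRef := CRef.mk (Pat.mk 0x180000001c00000014 0x2000000028000000780000007f0000003c00000014 6 7) 0 0 (step_sound _ 99 [(rh5c5e593799055d58.shift 2 0), rha90e4b52a00c05d4] (by decide +kernel))
noncomputable def rh9708bf10ec0e21c3 : CRef := CRef.mk (Pat.mk 0x180000001c000000140000000000000000 0x2000000020000000700000007f0000003c000000140000000400000004 6 7) 0 0 (step_sound _ 133 [(rh18965a982d73c794.shift 2 3), rhcaf505fa9ad5ce67] (by decide +kernel))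
noncomputable def rhc4df6499ac7f19aa : CRef := CRef.mk (Pat.mk 0x2000000020000000380000002800000000 0x50000000f00000003f0000007c0000002800000008 6 8) 0 0 (step_sound _ 132 [rh468125cf94f4baa8, (rh50fbb5868c909700.shift 4 1)] (by decide +kernel))
noncomputable def rhd6a9dfc31771a11e : CRef := CRef.mk (Pat.mk 0x800000010000000100000001c 0x1800000018000000300000001f0000003f 6 6) 0 0 (step_sound _ 100 [rh3ba16f9fa558cacb, (rh50fbb5868c909700.shift 3 0)] (by decide +kernel))
noncomputable def rh342674f15b21836f : CRef := CRef.mk (Pat.mk 0xe0000000600000000 0x1000000010000000300000003f0000003e00000008 6 6) 0 0 (step_sound _ 68 [(rh18965a982d73c794.shift 1 1), rha4cf9251629f1722] (by decide +kernel))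
noncomputable def rh50cefcd0dfdf7d49 : CRef := CRef.mk (Pat.mk 0x1000000008000000080000000a00000002 0x40000001c0000001c000000080000001c0000001e00000003 6 5) 0 0 (step_sound _ 131 [(rh2f68792b6b779e96.shift 3 1), rhec4b306e34797369] (by decide +kernel))
noncomputable def rh20e456cc76827105 : CRef := CRef.mk (Pat.mk 0xa0000000a0000000a000000000000000000000000 0x4000000040000000e0000000e0000000a0000000a000000070000000700000005 6 4) 0 0 (step_sound _ 194 [(rh08d50fe567eb1045.shift 1 2), (rh8b14df1b185c100a.shift 1 3), rh984bfc6de6c2c524] (by decide +kernel))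
noncomputable def rh8a6915b555c86462 : CRef := CRef.mk (Pat.mk 0x280000002800000020 0x10000001f0000000fe000001ef00000020 6 9) 0 0 (step_sound _ 68 [(rh2820ca9a6c4f41b4.shift 0 1), (rh907ed7275486ec25.shift 1 0), (rhfa35e196e150edb4.shift 2 1)] (by decide +kernel))
noncomputable def rhaead5e75ca7c79d2 : CRef := CRef.mk (Pat.mk 0x6000000020000000a0000000a00000008 0x1000000130000001f0000001a0000001a0000001a00000008 6 5) 0 0 (step_sound _ 160 [rh3cbdc783c5e34997, (rhffd04209dc8ea796.shift 0 1)] (by decide +kernel))
noncomputable def rhcb7169f2aa9399ef : CRef := CRef.mk (Pat.mk 0x280000000800000008000000000000000000000000 0x100000007c0000000f000000080000001c0000001c00000014 6 7) 0 0 (step_sound _ 164 [(rh1b9022be4f7af407.shift 2 0), (rh2820ca9a6c4f41b4.shift 0 4)] (by decide +kernel))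
noncomputable def rhed1434e9a6adf44a : CRef := CRef.mk (Pat.mk 0x1c00000018000000180000001800000000 0x1f000000180000001f0000003f00000024 6 6) 0 0 (step_sound _ 129 [rhb4a8657f7183e509, (rhb739f4f82bb681b4.shift 0 3)] (by decide +kernel))
noncomputable def rh3b7aa82f3989f392 : CRef := CRef.mk (Pat.mk 0xe0000000200000000 0x400000004000000370000003e0000000300000002 6 6) 0 0 (step_sound _ 68 [rhba01141a274d7327, (rheb0810cc63b001d8.shift 0 1)] (by decide +kernel))
noncomputable def rhb1c71edfb25a22b9 : CRef := CRef.mk (Pat.mk 0x200000002800000028000000200000000000000000 0x300000007c0000002f000000600000006000000040 6 7) 0 0 (step_sound _ 38 [(rhd3458b32566d63f7.shift 5 1), rhda28a80288d8f77d] (by decide +kernel))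
noncomputable def rhc9691855023d17bc : CRef := CRef.mk (Pat.mk 0x200000002800000028000000200000000000000000 0x300000007c0000002f000000300000003000000010 6 7) 0 0 (step_sound _ 36 [rh35bd33d792fa23af, (rh79877ebd3ef475dd.shift 4 1)] (by decide +kernel))
noncomputable def rhe1fbe113516bd430 : CRef := CRef.mk (Pat.mk 0x40000000000000003800000000 0x4000000040000000e7000000fe000001c7 6 9) 0 0 (step_sound _ 34 [rh592c7139d2c44767, (rh6f5644ad7e5af09d.shift 2 0)] (by decide +kernel))
noncomputable def rh12e9a12cef189c2b : CRef := CRef.mk (Pat.mk 0x40000000100000003800000000 0x4000000040000000f7000000fe000001c7 6 9) 0 0 (step_sound _ 34 [rh592c7139d2c44767, (rh6f5644ad7e5af09d.shift 2 0), (rhec46bd5500c722c9.shift 1 1)] (by decide +kernel))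
noncomputable def rh96a34bc8041ea8c5 : CRef := CRef.mk (Pat.mk 0x40000000400000004000000000000000000000000 0x80000000e0000003e0000000700000006000000060000000600000002 6 6) 0 0 (step_sound _ 66 [(rh20966da26a1c2ae8.shift 1 1), (rhc4526fc8abf298b6.shift 1 0), (rhe1bcd80b5c7d4f4c.shift 0 1)] (by decide +kernel))
noncomputable def rh30d9c62d6504241b : CRef := CRef.mk (Pat.mk 0x1000000010000000700000002000000000 0x100000001f0000007e000000ef00000008 6 8) 0 0 (step_sound _ 67 [(rha03f6e28ea70fc7d.shift 2 1), (rhae036cc4ef671676.shift 2 0), (rhc6563beaa1184505.shift 1 1), (rhc92c11e8da6c894f.shift 0 1)] (by decide +kernel))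
noncomputable def rh5fde9fdec4039881 : CRef := CRef.mk (Pat.mk 0x100000001000000038000000000000000000000000 0x180000001f000000ff0000000f0000000c00000004 6 8) 0 0 (step_sound _ 131 [(rh7478433a598f2371.shift 2 1), (rhe2b63c00a3d7bb73.shift 1 3), rhe6df117360faba60] (by decide +kernel))
noncomputable def rh57b15866aebf44bb : CRef := CRef.mk (Pat.mk 0x40000000100000001c0000001c0000000000000000 0x30000000780000003e0000001c0000001f0000000400000004 6 7) 0 0 (step_sound _ 164 [(rh5c5e593799055d58.shift 3 2), rh627d17823611e302] (by decide +kernel))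
noncomputable def rh77c9a0243504b4cb : CRef := CRef.mk (Pat.mk 0x40000000f000000000 0x7f000000fe0000000f 6 8) 0 0 (step_sound _ 35 [rh551591afa7e9bd9a, (rh592c7139d2c44767.shift 1 0), (rh70d2b48204a32adc.shift 1 0), (rhd5eb272e07a4e288.shift 2 1)] (by decide +kernel))
noncomputable def rh883caa96f023ff35 : CRef := CRef.mk (Pat.mk 0x400000002000000020000000280000002800000020 0x600000006000000030000000300000007c0000002f00000020 6 7) 0 0 (step_sound _ 165 [(rh2f68792b6b779e96.shift 5 2), rhb767badef42bee6e] (by decide +kernel))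
noncomputable def rh82d36ba703c98abc : CRef := CRef.mk (Pat.mk 0x1a0000001a0000000a0000000000000000 0x1a0000001a0000000b0000001f0000001f 6 5) 0 0 (step_sound _ 35 [(rh71222050f2c63a3a.shift 3 0), rhfe85ef6f8dfaf75c] (by decide +kernel))
noncomputable def rhe8834493b7818ca1 : CRef := CRef.mk (Pat.mk 0x10000000f0000000f00000000 0xd0000000d0000001d0000000f0000000f00000018 6 5) 0 0 (step_sound _ 128 [(rh2145e1d24b96a57e.shift 0 1), rh4fca681c74044791] (by decide +kernel))
noncomputable def rhdda46eaef4f805d4 : CRef := CRef.mk (Pat.mk 0x200000002000000020000000400000000 0x200000002000000030000000300000003000000070000000600000006 6 3) 0 0 (step_sound _ 161 [rh1599a3ed570439c7, (rhd3458b32566d63f7.shift 1 1)] (by decide +kernel))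
noncomputable def rh399605dbb4cb20a8 : CRef := CRef.mk (Pat.mk 0x80000000a0000000a000000020000000400000000 0x80000000a0000000a0000001f0000001f00000013 6 5) 0 0 (step_sound _ 67 [(rh79877ebd3ef475dd.shift 2 1), rhda41b958fb05cbda] (by decide +kernel))
noncomputable def rh9c5cbaddc92e2ce0 : CRef := CRef.mk (Pat.mk 0x100000006000000020000000a0000000a00000008 0x1000000130000001e0000001a0000001b0000000f00000008 6 5) 0 0 (step_sound _ 161 [(rh50fbb5868c909700.shift 0 2), rhaf5d24a4617fbb0a] (by decide +kernel))
noncomputable def rh06b15449b0ac06f8 : CRef := CRef.mk (Pat.mk 0x28000000080000000800000010 0x8000000080000007c0000000f0000001c00000014 6 7) 0 0 (step_sound _ 131 [rhac09afe906154c2a, (rhd3458b32566d63f7.shift 3 0)] (by decide +kernel))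
noncomputable def rh6575f618e82f1fce : CRef := CRef.mk (Pat.mk 0x20000000a0000000000000006000000000000000000000000 0x10000000b0000000b0000007b0000003e0000007f0000001400000014 6 7) 0 0 (step_sound _ 99 [rh461712fcc4c9a13b, (rh595dea1cb3fa7b59.shift 0 2), (rh87cae43ec75ccfe5.shift 1 0), rhcdbd27adafa32905] (by decide +kernel))
noncomputable def rh217cb361f47ce7d1 : CRef := CRef.mk (Pat.mk 0x2000000008000000280000000000000018000000000000000000000000 0x80000002c0000002c0000002c000000ef0000007e000000ef0000004000000040 6 8) 0 0 (step_sound _ 101 [(rh461712fcc4c9a13b.shift 2 0), (rh5eaf526b3de431bb.shift 1 2), (rh97196c20c5ef9c43.shift 1 0), (rhb8ca21b366a5c349.shift 1 2), (rhcf5fb7a6a9341cf4.shift 0 2)] (by decide +kernel))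
noncomputable def rh5e28859c83254139 : CRef := CRef.mk (Pat.mk 0x800000008000000080000001800000000 0xc0000000c0000000f0000007c0000001800000008 6 7) 0 0 (step_sound _ 130 [(rh50fbb5868c909700.shift 2 1), rh9438b73543c8ddb2] (by decide +kernel))
noncomputable def rh30648cc896830bae : CRef := CRef.mk (Pat.mk 0x800000008000000000000001e0000000000000000 0x1f0000000f000000030000001e0000000700000004 6 5) 0 0 (step_sound _ 33 [rh6ef61bec27256daf, (rheb0810cc63b001d8.shift 0 1)] (by decide +kernel))
noncomputable def rh22732e6ac76c7ebf : CRef := CRef.mk (Pat.mk 0x800000008000000020000001e000000120000000000000000 0x80000000e000000360000001e0000001e0000000700000007 6 6) 0 0 (step_sound _ 132 [(rh33e738c4ed385b9f.shift 1 3), rh520aed8758f330c1] (by decide +kernel))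
noncomputable def rhc0a1c169924b4cc9 : CRef := CRef.mk (Pat.mk 0x20000000080000002800000008000000100000000000000000 0x28000000280000002f0000007c000000100000001000000010 6 7) 0 0 (step_sound _ 100 [(rh2145e1d24b96a57e.shift 3 2), rh8776f6af86de2cb0] (by decide +kernel))
noncomputable def rh775bb3fee3edcf79 : CRef := CRef.mk (Pat.mk 0x2000000008000000080000000800000000 0x10000001d8000000f80000001c0000000f0000003c00000014 6 9) 0 0 (step_sound _ 131 [(rh20966da26a1c2ae8.shift 2 0), rh641b5241be04eec6, (rhd0d766e96107943c.shift 2 1)] (by decide +kernel))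
noncomputable def rh32e96a374054b520 : CRef := CRef.mk (Pat.mk 0x300000002800000008000000000000001000000000 0x3e0000007f000000080000001e0000007c00000014 6 7) 0 0 (step_sound _ 67 [(rh5c7be1d0230fde9b.shift 0 1), (rhb6e11cfc959c8a3c.shift 1 0), (rhf48d93cb7a9e42c5.shift 3 0)] (by decide +kernel))
noncomputable def rhdd9e55ff3fbee3a6 : CRef := CRef.mk (Pat.mk 0x200000003800000000 0x670000003e00000067 6 7) 0 0 (step_sound _ 34 [(rh33e738c4ed385b9f.shift 2 1), rh6db5e6cb937903bb] (by decide +kernel))
noncomputable def rhd6792861bc511454 : CRef := CRef.mk (Pat.mk 0x80000000a0000000a0000000800000000 0x40000000c0000001e0000000b0000001e0000001a 6 5) 0 0 (step_sound _ 130 [(rh50fbb5868c909700.shift 2 1), rh54857c10ff9bad11] (by decide +kernel))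
noncomputable def rhf733ca0802c38b05 : CRef := CRef.mk (Pat.mk 0x8000000080000000a0000000a0000000800000000 0x18000000180000001c0000000c0000001e0000000b0000001e00000014 6 5) 0 0 (step_sound _ 196 [rh53d0f8ff7afbda32, (rhbaefcd01e0a8bca3.shift 3 2)] (by decide +kernel))
noncomputable def rh8cc5cea920eb6bbb : CRef := CRef.mk (Pat.mk 0x40000000800000008000000080000000a0000000a0000000800000000 0x40000000c00000008000000080000000c0000001e0000000b0000001e00000014 6 5) 0 0 (step_sound _ 227 [(rh50fbb5868c909700.shift 2 4), rh878b43a0db44d428] (by decide +kernel))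
noncomputable def rha3ef673b7a16e49f : CRef := CRef.mk (Pat.mk 0x100000000800000008000000080000000a0000000a0000000800000000 0x10000000180000000800000008000000180000001e0000000b0000001e00000014 6 5) 0 0 (step_sound _ 227 [(rh2f68792b6b779e96.shift 3 4), rh93f6ce9209129340] (by decide +kernel))
noncomputable def rh5f8414d437761990 : CRef := CRef.mk (Pat.mk 0x180000000200000002000000020000000800000018 0x50000000f0000001b0000000200000002000000030000000f00000019 6 5) 0 0 (step_sound _ 32 [(rh6ef020bad9500726.shift 0 1), rh874f68213ad35b69] (by decide +kernel))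
noncomputable def rh58e8f8705795e950 : CRef := CRef.mk (Pat.mk 0xc000000080000000a0000000a0000000200000000 0x10000000190000001f0000000b0000000b0000000a0000000200000002 6 5) 0 0 (step_sound _ 196 [rh48778d98e4513c80, (rhbaefcd01e0a8bca3.shift 3 2)] (by decide +kernel))
noncomputable def rhb9cfe1a7cf1b8051 : CRef := CRef.mk (Pat.mk 0x78000000000000003000000018 0x70000007e0000000e000000340000001e 6 7) 0 0 (step_sound _ 66 [(rh80fcd6d0a18cb2dd.shift 2 2), rh8617431b725a4363] (by decide +kernel))
noncomputable def rhb91f4bb19a3798b5 : CRef := CRef.mk (Pat.mk 0x3800000020 0x670000003e00000067 6 7) 0 0 (step_sound _ 34 [rhb004f31ace285408, (rhe25b0a99195a5d59.shift 2 0)] (by decide +kernel))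
noncomputable def rh8eac6cac8aa6544c : CRef := CRef.mk (Pat.mk 0x80000000800000008000000280000000000000000 0x100000001800000018000000080000007c0000000f00000004 6 7) 0 0 (step_sound _ 164 [(rh2f68792b6b779e96.shift 3 2), rh91a39d28c58a3b7c] (by decide +kernel))
noncomputable def rhde91081c935620f3 : CRef := CRef.mk (Pat.mk 0x4000000140000001c0000000c 0x780000003c000000160000001c0000001f 6 7) 0 0 (step_sound _ 1 [rh53b3c253cb0c65f4, (rha5713126c949d9f0.shift 1 0)] (by decide +kernel))
noncomputable def rh408d9c02bfde272a : CRef := CRef.mk (Pat.mk 0x20000000a0000000a00000006000000020000000200000000 0x3c0000001e0000000b0000000e0000000e000000020000000200000002 6 6) 0 0 (step_sound _ 130 [(rh71222050f2c63a3a.shift 1 0), (rha5713126c949d9f0.shift 0 3)] (by decide +kernel))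
noncomputable def rhecd2b5754911b5ae : CRef := CRef.mk (Pat.mk 0x20000000a0000000a00000000000000000000000000000000 0x500000007000000070000003e0000000a0000000e0000000e0000000c0000000400000004 6 6) 0 0 (step_sound _ 225 [(rh1741680720c097b4.shift 0 4), (rh605ef5a5ae48f4b0.shift 1 0), (rh9ad50898512442c9.shift 0 3)] (by decide +kernel))
noncomputable def rh4c569ff3b1c25a45 : CRef := CRef.mk (Pat.mk 0x50000000500000004000000000000000000000000 0x20000000200000003000000070000000700000005000000050000000e0000000e0000000a 6 4) 0 0 (step_sound _ 66 [(rh8cdd36b03d57a2f6.shift 1 0), (rh93f702319e6412c4.shift 0 2)] (by decide +kernel))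
noncomputable def rh97287192a614633b : CRef := CRef.mk (Pat.mk 0x500000005000000040000000800000000 0x20000000200000003000000070000000700000005000000050000000c00000008 6 4) 0 0 (step_sound _ 34 [(rh55afc6a59410cf00.shift 2 0), (rh93f702319e6412c4.shift 0 1)] (by decide +kernel))
noncomputable def rh6bbbfef548c00c6a : CRef := CRef.mk (Pat.mk 0x400000004000000040000000e00000000 0x80000000c0000000c0000003f0000003f00000030 6 6) 0 0 (step_sound _ 131 [(rh2f68792b6b779e96.shift 2 1), rh6f3acaee2877f0f7] (by decide +kernel))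
noncomputable def rh19012990bb6c478a : CRef := CRef.mk (Pat.mk 0x280000002000000004000000040000000000000000 0xef0000007e0000006600000004000000060000000600000002 6 8) 0 0 (step_sound _ 162 [(rh2caa8bc7256d61dc.shift 0 2), (rh43cd89aa810ffaaa.shift 1 2), (rha5310f58c1684c0e.shift 1 0), (rhf4317fc85b709fa6.shift 1 4)] (by decide +kernel))
noncomputable def rh615166cbf48a3aed : CRef := CRef.mk (Pat.mk 0xc000000080000000800000008 0xf00000007f000000ff0000000800000008 6 8) 0 0 (step_sound _ 100 [(rh2f68792b6b779e96.shift 3 0), (rhf38e37b591928a0c.shift 0 2)] (by decide +kernel))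
noncomputable def rhbf1563c9c0fdc8af : CRef := CRef.mk (Pat.mk 0x20000000a0000000a000000080000000800000000 0x50000000700000007000000020000000a0000000b0000000f0000001900000010 6 5) 0 0 (step_sound _ 36 [(rh3ce4e5eccb50e64c.shift 0 1), (rh55afc6a59410cf00.shift 3 0)] (by decide +kernel))
noncomputable def rh0242566a19512c31 : CRef := CRef.mk (Pat.mk 0x20000001a0000000a0000000800000008000000080000000000000000 0x10000000100000003000000030000001e0000000a0000000a00000008000000180000001800000010 6 5) 0 0 (step_sound _ 36 [rh219dc98a1667201a, (rhd3458b32566d63f7.shift 3 1)] (by decide +kernel))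
noncomputable def rhcc15f543ceaced74 : CRef := CRef.mk (Pat.mk 0x400000004000000040000000400000000000000000000003800000000 0x400000004000000040000000600000006000000070000003e00000007 6 6) 0 0 (step_sound _ 97 [(rh79877ebd3ef475dd.shift 1 3), rhda575d679ceba1ef] (by decide +kernel))
noncomputable def rh3ade51fed27d2662 : CRef := CRef.mk (Pat.mk 0x1a0000000a0000000a000000080000000800000000 0x1000000030000001f0000000a0000000b0000000f0000001900000010 6 5) 0 0 (step_sound _ 36 [(rh55afc6a59410cf00.shift 3 0), (rhfce4a538e8f0f025.shift 0 1)] (by decide +kernel))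
noncomputable def rh6abefeae38a49414 : CRef := CRef.mk (Pat.mk 0x100000005000000050000000400000004000000040000000800000000 0x20000000f0000000f0000000d000000050000000400000004000000040000000c00000008 6 4) 0 0 (step_sound _ 34 [(rh55afc6a59410cf00.shift 2 0), (rh8a9bfb0eaa48994c.shift 0 3)] (by decide +kernel))
noncomputable def rhd707860b378e173b : CRef := CRef.mk (Pat.mk 0x20000000a0000000a000000080000000c0000000000000000 0x20000000b0000000b0000000b0000001f0000001900000010 6 5) 0 0 (step_sound _ 36 [rhb4c7c992adbc75d8, (rhd3458b32566d63f7.shift 3 1)] (by decide +kernel))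
noncomputable def rhc141ced936e58bb7 : CRef := CRef.mk (Pat.mk 0xa0000000a0000000a00000008 0x1000000110000001b0000001f0000000a0000000a0000000a 6 5) 0 0 (step_sound _ 132 [rh089787bbe8ceab32, (rhbaefcd01e0a8bca3.shift 3 0)] (by decide +kernel))
noncomputable def rha85fa825b683a638 : CRef := CRef.mk (Pat.mk 0xa0000000a0000000a00000008 0x170000001f0000001b0000000a0000000a00000008 6 5) 0 0 (step_sound _ 132 [(rhbaefcd01e0a8bca3.shift 3 0), (rhd4da447d1d0bfc0a.shift 0 1)] (by decide +kernel))
noncomputable def rhc7a1226f1611f14e : CRef := CRef.mk (Pat.mk 0x100000006000000020000000a0000000a00000008 0x1000000130000001e0000003a0000001e0000000b00000008 6 6) 0 0 (step_sound _ 161 [(rh50fbb5868c909700.shift 0 2), rhf199a375668542ba] (by decide +kernel))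
noncomputable def rhddd4f794ddae41ad : CRef := CRef.mk (Pat.mk 0x20000001a00000002 0xe60000007e000000e3 6 8) 0 0 (step_sound _ 34 [(rh167fff566cb27b75.shift 1 0), rheb0810cc63b001d8] (by decide +kernel))
noncomputable def rhe50e98fcb446d38b : CRef := CRef.mk (Pat.mk 0x8000000380000000800000000000000000000000000000000 0x40000000c0000001f000000380000000c0000000c0000001c0000001c00000014 6 6) 0 0 (step_sound _ 99 [(rh771d065bdc85bf2d.shift 2 2), (rh79905f95cb2d899a.shift 0 3), (rhffb8e5993241bf15.shift 2 0)] (by decide +kernel))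
noncomputable def rh7274c92c9430072f : CRef := CRef.mk (Pat.mk 0x20000000a0000000200000002000000000000000000000000 0x70000003e0000000300000002000000070000000700000005 6 6) 0 0 (step_sound _ 162 [rh1b9022be4f7af407, (rh3ade0f75e2ed3b80.shift 0 2), (rhd9106766b9ff53c0.shift 0 4)] (by decide +kernel))
noncomputable def rhda2de025f631d460 : CRef := CRef.mk (Pat.mk 0x2000000030000000a0000000a000000080 0x140000001e7000001be000001e7000000a000000080 6 9) 0 0 (step_sound _ 99 [(rh3918eeb6c53434d8.shift 0 2), (rh779ab7e47f6f4eaf.shift 4 0), (rhcf86d050071af9b3.shift 2 2), (rhdab32775f5c78fcf.shift 2 1)] (by decide +kernel))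
noncomputable def rh05d27bef815d92ea : CRef := CRef.mk (Pat.mk 0x1600000002 0x730000003e00000073 6 7) 0 0 (step_sound _ 35 [rhb71c7e7a31ed093c, rheb0810cc63b001d8] (by decide +kernel))
noncomputable def rh86da5a55c7218468 : CRef := CRef.mk (Pat.mk 0x400000003000000020000000a00000008000000080000000800000000 0x40000001e0000001b0000001a0000000a00000008000000180000001800000010 6 5) 0 0 (step_sound _ 225 [(rh2f68792b6b779e96.shift 1 4), rhf9f0ae03fdf57981] (by decide +kernel))
noncomputable def rh299c5ef2b8c8848b : CRef := CRef.mk (Pat.mk 0x20000000a0000000a0000000100000000 0xa0000000a0000001a0000001f0000003d 6 6) 0 0 (step_sound _ 33 [rh932754581e0f4330, rhfa9ccb087666240d] (by decide +kernel))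
noncomputable def rh772b308f12cf7c50 : CRef := CRef.mk (Pat.mk 0x30000000a0000000800000008000000030000000000000000 0x130000001e00000008000000080000001b0000001e00000014 6 5) 0 0 (step_sound _ 164 [(rh5419adcd928dba20.shift 0 5), rhfa8023826fe7b1bf] (by decide +kernel))
noncomputable def rhb39d9c63ded617d1 : CRef := CRef.mk (Pat.mk 0x300000008000000080000000a00000003 0x140000001e0000001b00000008000000080000001e00000013 6 5) 0 0 (step_sound _ 36 [rh5c947b54f4d0097d, rhb2a0b9ccfb5cecd5] (by decide +kernel))
noncomputable def rhcbe07625d92ce41f : CRef := CRef.mk (Pat.mk 0x20000000a0000000a0000000a000000000000000000000000 0xa0000000a0000000a0000001f0000001b0000001100000010 6 5) 0 0 (step_sound _ 64 [(rh79877ebd3ef475dd.shift 0 2), rhb9b453157177bd8c] (by decide +kernel))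
noncomputable def rh958169f2fe31a0b3 : CRef := CRef.mk (Pat.mk 0x400000004000000140000001c00000020 0xa0000001f0000003c000000140000003c00000060 6 7) 0 0 (step_sound _ 37 [rh894bdf4266525d20, (rhe25b0a99195a5d59.shift 2 0)] (by decide +kernel))
noncomputable def rh52609c77cd8a1cdc : CRef := CRef.mk (Pat.mk 0x400000002000000020000000a00000008000000080000000000000000 0x40000001e0000003b0000001a0000000a000000180000001c0000001c00000014 6 6) 0 0 (step_sound _ 225 [(rh2f68792b6b779e96.shift 1 4), rhb82fcb3b2924a7af] (by decide +kernel))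
noncomputable def rhed30245d9ad59a8c : CRef := CRef.mk (Pat.mk 0x80000002800000028000000200000001000000000 0x8000000280000007c0000002f0000003c00000010 6 7) 0 0 (step_sound _ 4 [rhd5bbd9bcabbd1fe8, (rheea67dfebd0f8008.shift 4 0)] (by decide +kernel))
noncomputable def rh8cb8b486b69e3808 : CRef := CRef.mk (Pat.mk 0x200000002000000020000001a 0x500000007000000070000000200000002000000030000001f 6 5) 0 0 (step_sound _ 32 [rh5419adcd928dba20, rh68a777751bfeafdf] (by decide +kernel))
noncomputable def rhb4e7b166f44d575d : CRef := CRef.mk (Pat.mk 0x20000000a0000000a000000080000001000000000 0x50000000700000007000000020000000a0000000b0000000f0000001900000010 6 5) 0 0 (step_sound _ 35 [(rh3ce4e5eccb50e64c.shift 0 1), (rh55afc6a59410cf00.shift 3 0)] (by decide +kernel))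
noncomputable def rh3d8f670373730b7b : CRef := CRef.mk (Pat.mk 0x80000001c000000040000001000000000 0x2000000060000000f0000001c000000070000003e00000006 6 6) 0 0 (step_sound _ 34 [(rh71222050f2c63a3a.shift 2 0), rhbbfcc591b762eafb] (by decide +kernel))
noncomputable def rhaee146a5ed47b762 : CRef := CRef.mk (Pat.mk 0x80000001c000000140000001000000000 0x20000000320000007f0000007c000000140000001400000004 6 7) 0 0 (step_sound _ 34 [(rh71222050f2c63a3a.shift 2 0), (rha574586d9d791c7f.shift 0 1)] (by decide +kernel))
noncomputable def rhf7dc14cf7727ed27 : CRef := CRef.mk (Pat.mk 0x20000000a0000001a00000012 0x1000000070000001f0000000e0000000a0000001a00000012 6 5) 0 0 (step_sound _ 130 [rh628a2f28ef3eef31, (rhbaefcd01e0a8bca3.shift 1 0)] (by decide +kernel))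
noncomputable def rhaa60b5f8e34f770e : CRef := CRef.mk (Pat.mk 0x20000000a0000001a00000012000000000000000000000000 0x20000000a0000001a00000013000000170000001f00000004 6 5) 0 0 (step_sound _ 64 [rh6f14d93378a2f415, (rh79877ebd3ef475dd.shift 0 2)] (by decide +kernel))
noncomputable def rh41fabc94a01ab69f : CRef := CRef.mk (Pat.mk 0x8000000280000003800000018 0x30000000780000002f0000003c0000001e 6 7) 0 0 (step_sound _ 1 [(rh24ae073cf30720c4.shift 1 0), rh439ccc96f56dcc68] (by decide +kernel))
noncomputable def rh54686e43d847ebb4 : CRef := CRef.mk (Pat.mk 0x30000000a000000020000000200000002000000000000000000000000 0x30000001e000000060000000200000002000000070000000700000005 6 5) 0 0 (step_sound _ 194 [rhc94dfb5f501cb051, (rhf48373e13d2bc128.shift 0 6)] (by decide +kernel))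
noncomputable def rh0baba60cfcfd994b : CRef := CRef.mk (Pat.mk 0x20000000a0000000e000000020000000000000000 0x20000000a0000003f0000003e0000003400000010 6 6) 0 0 (step_sound _ 66 [(rh55afc6a59410cf00.shift 1 1), rhf57052375c38e6f0] (by decide +kernel))
noncomputable def rhfb66006ff6847edf : CRef := CRef.mk (Pat.mk 0xa0000000a0000000200000010000000100000000000000000 0xa0000000a0000000a0000003f0000003f0000000700000001 6 6) 0 0 (step_sound _ 97 [(rh056788732addd150.shift 0 2), (rh4471cbf1bd975995.shift 0 1), (rh6eff4158bb400f47.shift 0 1), (rh8070539ee69ae688.shift 0 1), (rhb285483e710ade42.shift 1 2), rhef3ba3c62dc7a15c] (by decide +kernel))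
noncomputable def rh12c3a9649a480f2c : CRef := CRef.mk (Pat.mk 0x2000000020000000200000002000000000000001000000000 0x400000006000000020000000200000003000000070000001f00000004 6 5) 0 0 (step_sound _ 226 [rh1659a3368b863534, (rhbaefcd01e0a8bca3.shift 1 3)] (by decide +kernel))
noncomputable def rhbb800f924649866f : CRef := CRef.mk (Pat.mk 0x1a0000001e000000020000000200000000 0x1a0000001e0000003a0000001f0000001d 6 6) 0 0 (step_sound _ 34 [(rh55afc6a59410cf00.shift 1 0), rhd3536adda881a931] (by decide +kernel))
noncomputable def rha0acaf2f21dde3aa : CRef := CRef.mk (Pat.mk 0x60000001e000000100000000000000000 0x60000001e0000001f0000000f00000007 6 5) 0 0 (step_sound _ 65 [rh870ee18c5531e0c7, (rheb0810cc63b001d8.shift 0 2)] (by decide +kernel))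
noncomputable def rhaf419aa03ea3c470 : CRef := CRef.mk (Pat.mk 0x100000001000000000000000200000002000000000000000000000000 0x100000007000000070000000600000002000000030000000300000001 6 3) 0 0 (step_sound _ 161 [rh374ae440e8011597, (rhcfdf45280693d3da.shift 0 3)] (by decide +kernel))
noncomputable def rhd65f9de7d8e6151f : CRef := CRef.mk (Pat.mk 0x2000000020000000a0000000a00000002000000030000001000000000 0x2000000020000000a0000000e0000001e0000001b0000001e00000014 6 5) 0 0 (step_sound _ 98 [rh5a061bab3d3fcfa7, (rhd3458b32566d63f7.shift 1 3)] (by decide +kernel))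
noncomputable def rhde8c4aee66591e82 : CRef := CRef.mk (Pat.mk 0x400000004000000040000000000000030000000200000000000000000 0x40000000400000044000001cf000000fe000001ff0000002000000020 6 9) 0 0 (step_sound _ 99 [(rh51bfe298bc083c54.shift 2 0), (rhc92c11e8da6c894f.shift 0 2), (rhff763b75cad9671b.shift 1 2)] (by decide +kernel))
noncomputable def rh97ac5ea29f7dcf5a : CRef := CRef.mk (Pat.mk 0x200000002000000020000000a0000000a000000020000001000000010 0x4000000060000000600000002000000020000000a0000001a0000001f0000001c00000010 6 5) 0 0 (step_sound _ 258 [rh3c9160ed20de1e36, (rhbaefcd01e0a8bca3.shift 1 4)] (by decide +kernel))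
noncomputable def rh4861e76cdfa18fc9 : CRef := CRef.mk (Pat.mk 0x4000000040000001400000000000000000000002000000000 0x80000000c0000000c000000040000003c0000000f0000000e0000003e00000008 6 6) 0 0 (step_sound _ 98 [(rh15f443a9a462a99b.shift 0 2), (rh1659a3368b863534.shift 1 0), (rh4f71fa61affe4b7c.shift 0 2), (rhced6d86d2069808b.shift 2 2)] (by decide +kernel))
noncomputable def rh75896e0eb776b05e : CRef := CRef.mk (Pat.mk 0x1000000010000000200000003000000020 0x1000000018000001ef000000fe000001ff 6 9) 0 0 (step_sound _ 35 [(rh50b0c7316c11de9c.shift 2 0), rha4e887c2a2a0f60b, (rhc21a95c499b3efdb.shift 2 0)] (by decide +kernel))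
noncomputable def rh0ae9dbd79e2b7480 : CRef := CRef.mk (Pat.mk 0x50000000f000000020000000800000008 0x350000003f000000360000001e0000000a 6 6) 0 0 (step_sound _ 1 [(rh911c64f8d4e4daed.shift 1 0), rh9e07f76261b05888] (by decide +kernel))
noncomputable def rh8a10ecec20eaf28b : CRef := CRef.mk (Pat.mk 0x40000001400000014000000100000001000000000 0x4000000040000001400000016000000370000001e0000000b 6 6) 0 0 (step_sound _ 35 [(rh932754581e0f4330.shift 3 0), rh9a7487265ea70a1b] (by decide +kernel))
noncomputable def rhd3679f2cfde2c4d9 : CRef := CRef.mk (Pat.mk 0x20000000a0000000a000000000000000000000000 0xa0000000a0000000b0000001e0000003e0000001400000014 6 6) 0 0 (step_sound _ 98 [rh53a9eca71b4a4b8f, (rh70e33bfdf511e144.shift 1 0), (rh9e5f12e1f97a0f3d.shift 1 0)] (by decide +kernel))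
noncomputable def rh5dac8f4ce31c0fc3 : CRef := CRef.mk (Pat.mk 0x4000000140000001c000000080000000000000000 0x1000000014000000140000001f0000007f0000002200000002 6 7) 0 0 (step_sound _ 164 [(rh5c5e593799055d58.shift 3 2), rha98a6168219b6d22] (by decide +kernel))
noncomputable def rh221772e2b326a855 : CRef := CRef.mk (Pat.mk 0x10000000020000000a0000000a00000002000000000000000000000000 0x10000000100000001a0000001a0000000b0000001e0000003c0000001000000010 6 6) 0 0 (step_sound _ 98 [(rh55afc6a59410cf00.shift 1 2), rh6b11b2d2a18bfc09] (by decide +kernel))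
noncomputable def rhfa476e6ebf1b515f : CRef := CRef.mk (Pat.mk 0x180000001a00000002000000000000000000000000 0x1000000070000003f0000001b00000003000000070000000700000005 6 6) 0 0 (step_sound _ 161 [(rh086f6046fa319626.shift 0 4), rhaf7955adbc1f7ff4, (rhe4d90ce7a82e1a53.shift 0 2), (rhf6cc3bca7fd67107.shift 0 2)] (by decide +kernel))
noncomputable def rhb7211bccc90b854a : CRef := CRef.mk (Pat.mk 0x4000000140000001e0000000c0000000000000000 0x300000003c000000170000001e0000003c0000000400000004 6 6) 0 0 (step_sound _ 68 [(rhf48373e13d2bc128.shift 1 2), rhf8d87058ddb1fee0] (by decide +kernel))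
noncomputable def rh399f1274c7f8ecf2 : CRef := CRef.mk (Pat.mk 0xc0000001e000000180000000000000000 0xf0000001e0000001b0000000f0000000e 6 5) 0 0 (step_sound _ 129 [(rh3244c3cc8379b070.shift 0 3), rh7e2ac6222c5947be] (by decide +kernel))
noncomputable def rh70c3cc26fb1bda1f : CRef := CRef.mk (Pat.mk 0x2c0000001e000000180000000800000000 0x20000000200000002c0000007e0000001b0000000f00000006 6 7) 0 0 (step_sound _ 101 [rh16490e0418fe8c8f, (rhf48373e13d2bc128.shift 2 3)] (by decide +kernel))
noncomputable def rh28ede77979bfd713 : CRef := CRef.mk (Pat.mk 0x8000000060000000e000000000000000000000000 0x8000000080000000e0000003e0000003b0000001000000010 6 6) 0 0 (step_sound _ 100 [rhb0a52b65c733066e, (rhf48373e13d2bc128.shift 1 3)] (by decide +kernel))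
noncomputable def rha02c15ad071161bb : CRef := CRef.mk (Pat.mk 0x8000000280000001c000000180000000000000000 0x200000007c0000002f0000007c000000180000000800000008 6 7) 0 0 (step_sound _ 130 [(rh3cb04db3dd2b6a55.shift 2 0), (rh79b3c29022acbdf3.shift 1 3), (rh990e24f2bdbde144.shift 0 2)] (by decide +kernel))
noncomputable def rha69556eb144a89cb : CRef := CRef.mk (Pat.mk 0x10000000180000001c000000180000000000000000 0x340000001f0000001f0000001b0000000200000002 6 6) 0 0 (step_sound _ 97 [rha9a6de82616c6f35, (rhb739f4f82bb681b4.shift 0 2)] (by decide +kernel))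
noncomputable def rhd7483c1bb63893da : CRef := CRef.mk (Pat.mk 0xc0000000c0000000c000000000000000000000000 0x40000000f0000007e0000000f000000020000000200000002 6 7) 0 0 (step_sound _ 132 [(rh2612b4f73ba7c3b3.shift 1 3), rh85c5326329b0be3a, (rhb762f327c85d41a0.shift 1 3)] (by decide +kernel))
noncomputable def rh62c0fa2be6c1eeaa : CRef := CRef.mk (Pat.mk 0x140000001c0000000e0000000000000000 0x1000000012000000170000001f0000003e0000003400000004 6 6) 0 0 (step_sound _ 164 [(rh5c5e593799055d58.shift 3 2), rh719711b65900de9e] (by decide +kernel))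
noncomputable def rhe749b27bf08cfb1f : CRef := CRef.mk (Pat.mk 0x1000000010000000180000001c00000000 0xc0000001f0000007c000000180000001c00000004 6 7) 0 0 (step_sound _ 131 [(rh50fbb5868c909700.shift 3 1), rhd7735cdefe2cab75] (by decide +kernel))
noncomputable def rhdc58577e8661f30f : CRef := CRef.mk (Pat.mk 0x10000000100000001c00000000 0x10000000100000001c000000ff00000067 6 8) 0 0 (step_sound _ 37 [(rhba04d77b039f69d9.shift 2 0), rhec0f150ffdda098a] (by decide +kernel))
noncomputable def rh8254970f63d795d3 : CRef := CRef.mk (Pat.mk 0x8000000080000000e000000000000000000000000 0x80000000c0000000f0000003e000000730000000200000002 6 7) 0 0 (step_sound _ 100 [rh6076add87d5fdaa7, (rhba04d77b039f69d9.shift 1 2), (rhe401600d466b97cd.shift 0 2)] (by decide +kernel))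
noncomputable def rhdb8c22d4d1cd9346 : CRef := CRef.mk (Pat.mk 0x4000000040000000700000000000000000 0x10000000d00000007f000000fe0000000f00000008 6 8) 0 0 (step_sound _ 67 [(rh21460d2d48a35cb8.shift 2 0), (rh38347c51c779f6ed.shift 2 2), (rh40896d209052dfa8.shift 1 0), (rh551591afa7e9bd9a.shift 0 1), (rh592c7139d2c44767.shift 1 1)] (by decide +kernel))
noncomputable def rh917c6b25c671e42d : CRef := CRef.mk (Pat.mk 0x18000000180000001c0000000c 0x60000001f0000001b0000007f0000000c 6 7) 0 0 (step_sound _ 33 [(rh53b3c253cb0c65f4.shift 0 1), rhfa15404860802f7f] (by decide +kernel))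
noncomputable def rh106bb650dfae2043 : CRef := CRef.mk (Pat.mk 0x180000001c0000000000000000 0x2000000030000001f0000003f0000000400000004 6 6) 0 0 (step_sound _ 65 [rh41d5a93e35cc8528, (rh53b3c253cb0c65f4.shift 0 2)] (by decide +kernel))
noncomputable def rhc9228e7c1522daa3 : CRef := CRef.mk (Pat.mk 0x10000000180000001c000000080000000000000000 0xc0000000f0000001f0000001c0000001c0000000c0000000400000004 6 5) 0 0 (step_sound _ 163 [(rh33e591d1663cc4bf.shift 0 1), (rh7b9fbdf6d2d059e4.shift 2 2), (rhfafeb437ceb8396d.shift 2 0)] (by decide +kernel))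
noncomputable def rhfb6ae56749c07bd5 : CRef := CRef.mk (Pat.mk 0x10000000100000001e000000000000000000000000 0x18000000180000003f0000000f0000000c00000004 6 6) 0 0 (step_sound _ 131 [(rh53b3c253cb0c65f4.shift 0 3), rh6440edebbe24f467] (by decide +kernel))
noncomputable def rh8abd09d8de48e907 : CRef := CRef.mk (Pat.mk 0x10000000100000001e000000000000000000000000 0x180000001b0000007f0000000e0000000c00000004 6 7) 0 0 (step_sound _ 131 [(rh53b3c253cb0c65f4.shift 0 3), rhbe20df636d5ddf58] (by decide +kernel))
noncomputable def rh69c7d98448d875c4 : CRef := CRef.mk (Pat.mk 0x8000000080000001e000000000000000000000000 0xc0000000f0000003e000000070000000600000002 6 6) 0 0 (step_sound _ 129 [rh2d14051f7b72607c, (rh3244c3cc8379b070.shift 0 3)] (by decide +kernel))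
noncomputable def rhbb29e4eea572ef31 : CRef := CRef.mk (Pat.mk 0x140000000e000000010000000000000000 0x1000000010000000160000003e000000730000002000000020 6 7) 0 0 (step_sound _ 100 [(rh53a9eca71b4a4b8f.shift 1 0), (rh80fcd6d0a18cb2dd.shift 0 2)] (by decide +kernel))
noncomputable def rh240362b9f63323a5 : CRef := CRef.mk (Pat.mk 0x200000006000000020000000000000000 0x300000007000000070000000600000006000000060000000600000006 6 3) 0 0 (step_sound _ 161 [(rh4726b755b8eb397c.shift 0 1), (rhca18712e5e5c7b8f.shift 1 0), (rhd4b4beefcd67f51e.shift 1 1)] (by decide +kernel))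
noncomputable def rh7b6333edc09db234 : CRef := CRef.mk (Pat.mk 0x200000002000000038000000000000000000000000 0x28000000280000002f0000007c000000180000001000000010 6 7) 0 0 (step_sound _ 68 [(rh5c5e593799055d58.shift 4 2), rhcef3d925888649c4] (by decide +kernel))
noncomputable def rh9a457372ae2c6b7e : CRef := CRef.mk (Pat.mk 0x3c000000120000000000000000 0x4000000040000000e0000003f0000001b0000000800000008 6 6) 0 0 (step_sound _ 97 [rhde42a819192f6b8f, (rheb0810cc63b001d8.shift 0 2)] (by decide +kernel))
noncomputable def rhbcbf9ccfe9127848 : CRef := CRef.mk (Pat.mk 0x80000003c000000140000000000000000 0x40000000e0000003c0000001c0000000f0000000e 6 6) 0 0 (step_sound _ 130 [rh0e054aa93492fc22, (rh3244c3cc8379b070.shift 1 3)] (by decide +kernel))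
noncomputable def rhb2c2c1a50ada0724 : CRef := CRef.mk (Pat.mk 0x10000000040000001e0000000800000000 0xe0000003e000000070000001e0000000c00000004 6 6) 0 0 (step_sound _ 97 [(rh3244c3cc8379b070.shift 0 2), (rh6922718344f6b9d7.shift 1 0)] (by decide +kernel))
noncomputable def rhd3776d0743605ca1 : CRef := CRef.mk (Pat.mk 0x2000000008000000180000001400000000 0xc0000003c0000000f000000180000001c0000000c 6 6) 0 0 (step_sound _ 131 [(rh2145e1d24b96a57e.shift 3 1), rh8d777e2844f54ae8] (by decide +kernel))
noncomputable def rh419a9adb3eb18e1a : CRef := CRef.mk (Pat.mk 0x4000000078000000200000000000000000 0x470000007e0000003e0000002000000020 6 7) 0 0 (step_sound _ 66 [rh0ad370c36509e360, (rh80fcd6d0a18cb2dd.shift 2 2)] (by decide +kernel))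
noncomputable def rha6f8243219ccc849 : CRef := CRef.mk (Pat.mk 0x4000000078000000200000000000000000 0x4e0000007e000000370000002000000020 6 7) 0 0 (step_sound _ 37 [(rh71222050f2c63a3a.shift 5 0), (rheaad777ed634577b.shift 0 2)] (by decide +kernel))
noncomputable def rh3c8941c6523087bc : CRef := CRef.mk (Pat.mk 0x200000003e000000100000000000000000 0x4000000040000002e0000003f000000180000001800000018 6 6) 0 0 (step_sound _ 36 [rh077c06cd11c82473, (rh71222050f2c63a3a.shift 4 0)] (by decide +kernel))
noncomputable def rhc7e126711c4875af : CRef := CRef.mk (Pat.mk 0x8000000080000000f800000000 0x800000008000000087000000fe00000067 6 8) 0 0 (step_sound _ 6 [rh36eba2a3de447758, (rh5c5e593799055d58.shift 6 0)] (by decide +kernel))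
noncomputable def rhbcda507247a7aa0a : CRef := CRef.mk (Pat.mk 0x20000000f8000000400000000000000000 0x37000000fe000000780000004000000040 6 8) 0 0 (step_sound _ 38 [(rh46a18fdc02aaa967.shift 0 2), (rh7b1f1fb55310c477.shift 5 0)] (by decide +kernel))
noncomputable def rh7ce97328e7142564 : CRef := CRef.mk (Pat.mk 0x10000000100000001c00000000 0x1000000010000000170000003e0000002f 6 6) 0 0 (step_sound _ 132 [rh46e3a0b5139d36a4, (rh932754581e0f4330.shift 3 0)] (by decide +kernel))
noncomputable def rhe07e4e3e516a3829 : CRef := CRef.mk (Pat.mk 0x1000000010000000100000001800000000 0x180000001800000018000000380000001f00000014 6 6) 0 0 (step_sound _ 131 [rh44740f30b68f7b40, (rh50fbb5868c909700.shift 3 1)] (by decide +kernel))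
noncomputable def rh66690f18a041f2bc : CRef := CRef.mk (Pat.mk 0x180000001400000010 0x2000000020000001f0000000fc000001df00000010 6 9) 0 0 (step_sound _ 69 [(rh3cc5c7fb74c49f61.shift 0 1), (rhaa2146dcdc353af5.shift 1 0), (rhf2b3bcf1454375d8.shift 2 1)] (by decide +kernel))
noncomputable def rh1eaf351f621cd348 : CRef := CRef.mk (Pat.mk 0x180000001c000000140000000000000000 0x180000001f000000170000003c00000034 6 6) 0 0 (step_sound _ 97 [(rh53b3c253cb0c65f4.shift 0 3), rhf4dcbaaad31e06e2] (by decide +kernel))
noncomputable def rh2fc35fe4a1bb10a3 : CRef := CRef.mk (Pat.mk 0x7000000008000000280000000800000000 0x4000000040000000ec00000078000000280000002f0000003c00000014 6 8) 0 0 (step_sound _ 131 [rh641b5241be04eec6, (rhb705031692dfe65f.shift 3 1), (rhd9048603f1912b39.shift 2 0)] (by decide +kernel))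
noncomputable def rh30f8ed8165fc88d4 : CRef := CRef.mk (Pat.mk 0x200000003800000058000000100000000000000000 0x10000000300000007800000058000000fc000000ef0000000c 6 8) 0 0 (step_sound _ 67 [(rh503dd4575245365b.shift 3 1), (rhc639dc7153afe576.shift 3 1), (rhea7a1800d6f053bd.shift 3 0), rhf556bc1b2b6776a3] (by decide +kernel))
noncomputable def rh6943e289cc8cb8e0 : CRef := CRef.mk (Pat.mk 0x180000001c000000100000000000000000 0x1000000010000000180000001c0000007c0000002f0000000c 6 7) 0 0 (step_sound _ 67 [(rh121397a93ef3afd3.shift 2 1), (rhea7a1800d6f053bd.shift 3 0), rhf556bc1b2b6776a3] (by decide +kernel))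
noncomputable def rhb1706090587d9c69 : CRef := CRef.mk (Pat.mk 0xe000000020000000800000000 0x10000000100000003b0000001e0000000b0000000800000008 6 6) 0 0 (step_sound _ 100 [rh42e9f17f3e464759, (rheb0810cc63b001d8.shift 0 2)] (by decide +kernel))
noncomputable def rh2bbf631c2b2f8857 : CRef := CRef.mk (Pat.mk 0x40000000c000000020000000a0000000200000000 0x40000007c0000007e0000000b0000000a00000002 6 7) 0 0 (step_sound _ 98 [(rh0806e2f3769fbf31.shift 0 1), (rh71222050f2c63a3a.shift 1 0)] (by decide +kernel))
noncomputable def rhe5ac811fba7144a3 : CRef := CRef.mk (Pat.mk 0x40000000c000000020000000a00000000 0x4000000040000007c0000007e0000000b00000008 6 7) 0 0 (step_sound _ 66 [rh0806e2f3769fbf31, (rh5c5e593799055d58.shift 1 1)] (by decide +kernel))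
noncomputable def rh3d2341c1a30e083f : CRef := CRef.mk (Pat.mk 0x100000003000000008000000280000000000000000 0x10000000380000007c0000002f0000002800000008 6 7) 0 0 (step_sound _ 35 [(rh1006c02ae4212ff0.shift 3 1), rhe9a35cdc95cd81c6] (by decide +kernel))
noncomputable def rh382710c7f3ad1f47 : CRef := CRef.mk (Pat.mk 0x70000000080000002800000000 0x1000000010000000f00000007c0000002f00000020 6 8) 0 0 (step_sound _ 68 [(rh18965a982d73c794.shift 3 2), rh229bd1055374460a] (by decide +kernel))
noncomputable def rh782e3b29f3c9405d : CRef := CRef.mk (Pat.mk 0xd0000000c000000080000000000000000 0x1800000018000000180000000f0000000c0000000c0000001800000018 6 5) 0 0 (step_sound _ 35 [rh23ccc1cad8eb0d41, (rh7b1f1fb55310c477.shift 2 0)] (by decide +kernel))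
noncomputable def rh869c9696bcd1f865 : CRef := CRef.mk (Pat.mk 0x28000000000000001000000010 0x1ff000000fc000001d00000001000000010 6 9) 0 0 (step_sound _ 100 [(rh4d8114ee4aff13cc.shift 1 2), (rh5a4df29f20c07a62.shift 3 0), rh687076296dd60842, (rhb610a44bb7d47cab.shift 2 0)] (by decide +kernel))
noncomputable def rh3c5c66640c6fec02 : CRef := CRef.mk (Pat.mk 0x18000000040000001000000000 0x2000000020000001e0000000fc000001ff0000001000000010 6 9) 0 0 (step_sound _ 101 [(rh3cc5c7fb74c49f61.shift 0 2), (rh54138ccbdc55d5fe.shift 1 0), (rhf2b3bcf1454375d8.shift 2 2)] (by decide +kernel))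
noncomputable def rh9306682ccbce1f31 : CRef := CRef.mk (Pat.mk 0x30000000080000000800000000 0x140000001c000001df000000f8000001cc0000000c0000000c 6 9) 0 0 (step_sound _ 99 [(rh215e11e099257d75.shift 3 0), (rh352b7f91eba0c81f.shift 2 2), rh78d31f6353731921] (by decide +kernel))
noncomputable def rh58143bc52b108d9e : CRef := CRef.mk (Pat.mk 0xc000000060000000800000000 0x1000000010000000300000003e0000001f0000000800000008 6 6) 0 0 (step_sound _ 100 [(rh18965a982d73c794.shift 1 2), rh54138ccbdc55d5fe] (by decide +kernel))
noncomputable def rh5d014c1f02ddef8a : CRef := CRef.mk (Pat.mk 0x1e000000040000000800000000 0x200000012000000330000001e0000003c0000000800000008 6 6) 0 0 (step_sound _ 129 [(rh3244c3cc8379b070.shift 0 3), (rh34b7a8bb1c09b7f8.shift 1 0)] (by decide +kernel))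
noncomputable def rh4cba6bdef69ccb76 : CRef := CRef.mk (Pat.mk 0xe000000060000000a0000000200000000 0x20000000e0000001e0000000b0000001f00000019 6 5) 0 0 (step_sound _ 32 [rh932754581e0f4330, rhd6db2877315f5352] (by decide +kernel))
noncomputable def rhe5c1e6a1be67b92c : CRef := CRef.mk (Pat.mk 0xc0000000200000002000000000000000000000000 0x740000003e0000007300000002000000070000000700000005 6 7) 0 0 (step_sound _ 161 [rh1b9022be4f7af407, (rh352b7f91eba0c81f.shift 0 4)] (by decide +kernel))
noncomputable def rh428cb39c95118ca8 : CRef := CRef.mk (Pat.mk 0xe0000000400000000 0x1000000010000000f00000007f000000fe00000008 6 8) 0 0 (step_sound _ 68 [(rh352b7f91eba0c81f.shift 1 1), rha4cf9251629f1722, (rhb02f9c2bd63f56db.shift 1 1), (rhdc1641106d7e5aa2.shift 1 1)] (by decide +kernel))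
noncomputable def rhe34ab5f3d374db8d : CRef := CRef.mk (Pat.mk 0x400000008000000080000000a00000002 0x100000001c0000001c000000080000001c0000001e00000003 6 5) 0 0 (step_sound _ 131 [(rh50fbb5868c909700.shift 2 1), rh98773c5047527181] (by decide +kernel))
noncomputable def rhe9f7dd1bfae76340 : CRef := CRef.mk (Pat.mk 0xc00000006000000020000000000000000 0x70000003e00000006000000030000000300000003 6 6) 0 0 (step_sound _ 132 [(rh18965a982d73c794.shift 1 3), rh37e255e89a8e4f95] (by decide +kernel))
noncomputable def rhc66073bed5be7c9c : CRef := CRef.mk (Pat.mk 0x20000000a000000020000000a 0x3d0000001f0000001a0000000a0000000a 6 6) 0 0 (step_sound _ 98 [rh2669bb97c83f8432, (rh2f68792b6b779e96.shift 1 0)] (by decide +kernel))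
noncomputable def rhf4a57ab87671329b : CRef := CRef.mk (Pat.mk 0x30000000a0000000200000002000000000000000000000000 0x30000001e0000000600000003000000070000000700000004 6 5) 0 0 (step_sound _ 162 [rh5bb331872301d326, (rhf48373e13d2bc128.shift 0 5)] (by decide +kernel))
noncomputable def rh886f06451707b754 : CRef := CRef.mk (Pat.mk 0x20000000a0000000200000002 0x50000000700000007000000730000003e0000007700000002 6 7) 0 0 (step_sound _ 66 [(rh352b7f91eba0c81f.shift 0 1), rhb6f7e56bf89163d9] (by decide +kernel))
noncomputable def rh46c37df404c3dbe4 : CRef := CRef.mk (Pat.mk 0x180000000200000008000000000000000000000000 0x100000001000000018000000780000001f000000080000001c0000001c00000014 6 7) 0 0 (step_sound _ 131 [(rh0b786d94a31538a6.shift 0 4), (rh215e11e099257d75.shift 3 2), (rhffb8e5993241bf15.shift 2 0)] (by decide +kernel))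
noncomputable def rh81a28bb442b3acab : CRef := CRef.mk (Pat.mk 0x100000003800000000 0x3be000001fe000001c7 6 10) 0 0 (step_sound _ 38 [rh14ee58c1672e9101, (rhe3060b190bc0bc78.shift 2 1), (rhf5fa5e48e0784de2.shift 3 0)] (by decide +kernel))
noncomputable def rh832d53b0c7150d1d : CRef := CRef.mk (Pat.mk 0x2000000020000000200000002000000000000000000000000 0x3000000030000000300000003000000070000000700000004 6 3) 0 0 (step_sound _ 64 [rh789c9a411e1469bc, (rh79877ebd3ef475dd.shift 0 2)] (by decide +kernel))
noncomputable def rh1fa6f7f8cdcb4cc4 : CRef := CRef.mk (Pat.mk 0x3000000008000000280000000800000000 0x1000000010000000300000007c0000002f0000002800000008 6 7) 0 0 (step_sound _ 100 [(rh229bd1055374460a.shift 0 1), (rh71222050f2c63a3a.shift 3 0)] (by decide +kernel))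
noncomputable def rh828844083f058f18 : CRef := CRef.mk (Pat.mk 0x3000000018000000280000000800000004 0x20000003a0000007e0000002f0000007e00000064 6 7) 0 0 (step_sound _ 66 [rh3529c7a56f1336bf, (rhaf11573d62e172ac.shift 2 0), (rhd69c262cd33b94b3.shift 0 2)] (by decide +kernel))
noncomputable def rhb76f73ba1b17dc0a : CRef := CRef.mk (Pat.mk 0x180000001e0000000000000000 0x6000000070000001f0000001e0000000700000006 6 5) 0 0 (step_sound _ 97 [(rh3244c3cc8379b070.shift 0 2), rhf16290babf6fbb3f] (by decide +kernel))
noncomputable def rhfdf5a1538ca00658 : CRef := CRef.mk (Pat.mk 0x2000000020000000200000004000000000000000000000000 0x20000000200000003000000030000000300000007000000070000000300000001 6 3) 0 0 (step_sound _ 97 [(rh55afc6a59410cf00.shift 1 2), rhe520c97f67e4a7f2] (by decide +kernel))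
noncomputable def rhd0a81469ef1007b4 : CRef := CRef.mk (Pat.mk 0xa0000000a0000000a00000000 0x50000001f0000001f0000001a0000000b0000000b00000001 6 5) 0 0 (step_sound _ 129 [rh3b734c5288922837, rh771d065bdc85bf2d, (rhc85cc95794737cf7.shift 0 1), (rhdc0d6a1e31bca9d6.shift 0 1)] (by decide +kernel))
noncomputable def rhf74786dbfa21d64d : CRef := CRef.mk (Pat.mk 0x28000000080000001000000010 0x140000001c0000001c000000080000007c0000000f0000001c00000010 6 7) 0 0 (step_sound _ 131 [(rhbaa925a569a63dce.shift 0 1), (rhbe0e43a3bc50a43f.shift 3 0)] (by decide +kernel))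
noncomputable def rhe6b1d044815b204b : CRef := CRef.mk (Pat.mk 0x1000000010000000000000003800000008000000000000000000000000 0x100000001c0000000f0000003c000000080000001c0000001c00000014 6 6) 0 0 (step_sound _ 163 [(rh1006c02ae4212ff0.shift 3 3), rh348b23f78b157909] (by decide +kernel))
noncomputable def rh635b90fca20971c4 : CRef := CRef.mk (Pat.mk 0x400000038000000200000000000000000 0x400000004000000060000003e000000370000000200000002 6 6) 0 0 (step_sound _ 98 [(rh3244c3cc8379b070.shift 1 3), rhbc0d8dfa38e316eb] (by decide +kernel))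
noncomputable def rh4c3e5a718d5ddd53 : CRef := CRef.mk (Pat.mk 0x2000000020000000100000001 0x500000007000000070000000200000002000000030000000300000001 6 3) 0 0 (step_sound _ 129 [(rh9fb9dc683e09b5f3.shift 0 1), rheea67dfebd0f8008] (by decide +kernel))
noncomputable def rh4f446cd745a6b96f : CRef := CRef.mk (Pat.mk 0x1000000010000000000000003000000000 0x1000000010000000100000001f0000007c00000028 6 7) 0 0 (step_sound _ 68 [rh0515b5377c905995, (rh55afc6a59410cf00.shift 4 0)] (by decide +kernel))
noncomputable def rh994d16f2e8192ea2 : CRef := CRef.mk (Pat.mk 0x8000000000000000e000000000000000000000000 0x800000008000000e80000007e000000ff0000001400000014 6 8) 0 0 (step_sound _ 100 [(rh03a6f79dca3226c9.shift 1 0), (rh06db8ceda6269a47.shift 0 2), (rh0ca78fa50e8f84f7.shift 1 0), rhe346f8ad04f50e47] (by decide +kernel))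
noncomputable def rha2d3b83e56e59afa : CRef := CRef.mk (Pat.mk 0xc00000004000000040000000c00000000 0xc0000000c0000003f0000003f00000032 6 6) 0 0 (step_sound _ 33 [rh6f3acaee2877f0f7, (rh932754581e0f4330.shift 1 0)] (by decide +kernel))
noncomputable def rh474ecc789a925947 : CRef := CRef.mk (Pat.mk 0x80000000c000000080000000000000000 0x140000007e0000007f000000080000000800000008 6 7) 0 0 (step_sound _ 35 [(rh0e92bd01241e1bdc.shift 0 1), (rh305945700f20b255.shift 1 0), (rhe286c75f2739cce2.shift 2 0), (rhe9f9259b2da8d967.shift 0 1)] (by decide +kernel))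
noncomputable def rhf9ddebef867b462a : CRef := CRef.mk (Pat.mk 0x400000004000000040000000c000000000000000000000000 0x40000000e0000000f0000003e0000000c000000040000000400000004 6 6) 0 0 (step_sound _ 131 [(rh2145e1d24b96a57e.shift 2 3), rh8cbf056d9aefcc9c] (by decide +kernel))
noncomputable def rh2d43008dadbc4acf : CRef := CRef.mk (Pat.mk 0x1e0000001a000000000000000000000000 0x30000003e0000001e000000070000000600000006 6 6) 0 0 (step_sound _ 98 [(rh18965a982d73c794.shift 1 3), rh5c94dc9b5c97753e] (by decide +kernel))
noncomputable def rha05d7c12731de695 : CRef := CRef.mk (Pat.mk 0x1000000010000000100000002000000000 0x1000000010000000100000001f0000007c00000028 6 7) 0 0 (step_sound _ 36 [rh0515b5377c905995, (rh55afc6a59410cf00.shift 4 0)] (by decide +kernel))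
noncomputable def rh2d9f8128359127b8 : CRef := CRef.mk (Pat.mk 0xc000000020000000200000002 0x740000003e000000730000000200000002 6 7) 0 0 (step_sound _ 97 [(rh2f68792b6b779e96.shift 1 0), (rhfa35e196e150edb4.shift 0 2)] (by decide +kernel))
noncomputable def rhfeb0a7f75f9f287a : CRef := CRef.mk (Pat.mk 0x80000001c00000000 0x7f000000ff000000e0 6 8) 0 0 (step_sound _ 37 [(rh58f7607681416282.shift 1 0), (rh915c3ff3d4fe3a39.shift 0 1), (rhe3060b190bc0bc78.shift 1 1)] (by decide +kernel))
noncomputable def rhfc37059f5f5176b7 : CRef := CRef.mk (Pat.mk 0x1c00000038000000100000000000000000 0x1c0000003f0000007f0000000600000006 6 7) 0 0 (step_sound _ 98 [(rh70e772a26670f58d.shift 1 0), (rha03f6e28ea70fc7d.shift 1 2), (rhcc2be1f880c5ea3e.shift 0 2)] (by decide +kernel))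
noncomputable def rh36f0456bc7c41cd2 : CRef := CRef.mk (Pat.mk 0x4000000000000000200000002000000000000000000000000 0x50000000700000007000000060000000300000003000000070000000700000005 6 3) 0 0 (step_sound _ 161 [(rh09801475d705d836.shift 1 2), rh984bfc6de6c2c524, (rhb7f088ebf5701d6e.shift 0 2)] (by decide +kernel))
noncomputable def rh69b437885e194d7f : CRef := CRef.mk (Pat.mk 0x40000000a000000020000000200000000 0x740000003e000000730000000200000002 6 7) 0 0 (step_sound _ 98 [(rh352b7f91eba0c81f.shift 0 2), (rh71222050f2c63a3a.shift 1 0)] (by decide +kernel))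
noncomputable def rh8d5c3997adedfe0d : CRef := CRef.mk (Pat.mk 0x40000000c000000020000000200000000 0x740000003e000000730000000200000002 6 7) 0 0 (step_sound _ 97 [(rh352b7f91eba0c81f.shift 0 2), (rh71222050f2c63a3a.shift 1 0)] (by decide +kernel))
noncomputable def rh558e5df511d3e813 : CRef := CRef.mk (Pat.mk 0x3000000040 0x1df000000fe000001e7 6 9) 0 0 (step_sound _ 35 [rh36eba2a3de447758, (rh7b93e260e30176fc.shift 2 0), (rhf6218b33ee453c67.shift 2 0)] (by decide +kernel))
noncomputable def rhfe6c30340ff9103a : CRef := CRef.mk (Pat.mk 0x60000001a0000000a0000000a00000000 0x11000000130000001e0000001a0000001b0000000b00000001 6 5) 0 0 (step_sound _ 32 [rh932754581e0f4330, (rhe294f6ba4160fa12.shift 0 1)] (by decide +kernel))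
noncomputable def rhd642a642013659de : CRef := CRef.mk (Pat.mk 0x30000000c00000000 0xe70000007e000000e0 6 8) 0 0 (step_sound _ 36 [(rh09d4dfe75d4407d6.shift 0 1), (rh167fff566cb27b75.shift 1 0)] (by decide +kernel))
noncomputable def rh2731b22c42e90b73 : CRef := CRef.mk (Pat.mk 0x100000001e0000001000000000 0x2800000038000000380000001f0000001e0000001800000018 6 6) 0 0 (step_sound _ 97 [(rh3244c3cc8379b070.shift 0 2), (rhe2aff24b08d7ba4b.shift 1 0)] (by decide +kernel))
noncomputable def rh7de6c1e888eaa7e0 : CRef := CRef.mk (Pat.mk 0x4000000070000000200000000 0xe0000000e0000000e000000070000001e0000000c 6 5) 0 0 (step_sound _ 130 [(rh5c5e593799055d58.shift 1 1), rhad2c2adf635d6f3b] (by decide +kernel))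
noncomputable def rh685154626316017f : CRef := CRef.mk (Pat.mk 0xe000000040000000000000004 0x730000003e000000740000000400000004 6 7) 0 0 (step_sound _ 129 [(rh9c94213f6896c74a.shift 0 2), (rh9e07f76261b05888.shift 1 0)] (by decide +kernel))
noncomputable def rhdb56e91014969ee5 : CRef := CRef.mk (Pat.mk 0x40000001e00000008 0x30000000300000003f0000001e00000038 6 6) 0 0 (step_sound _ 65 [(rh3244c3cc8379b070.shift 0 1), (rh5f26c28b8010d14d.shift 1 0)] (by decide +kernel))
noncomputable def rh5a56401f87eda0cc : CRef := CRef.mk (Pat.mk 0xa000000020000000a0000000200000002 0x1000000010000000300000001e0000001f0000000a0000000a00000002 6 6) 0 0 (step_sound _ 130 [(rhbaefcd01e0a8bca3.shift 1 0), (rhce7b5ca4f9e88074.shift 0 1)] (by decide +kernel))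
noncomputable def rh3cb77bd56c2f3c9d : CRef := CRef.mk (Pat.mk 0xa000000020000000a000000000000000000000000 0x1400000014000000360000001e0000001f0000000a0000000e0000000600000004 6 6) 0 0 (step_sound _ 162 [(rh215e11e099257d75.shift 1 2), (rhac917a7a6fd43377.shift 1 0), (rhce7b5ca4f9e88074.shift 0 2)] (by decide +kernel))
noncomputable def rh673c15db04a3ea08 : CRef := CRef.mk (Pat.mk 0x200000002000000020000000a000000020000000800000000 0x1200000012000000320000001e0000001f0000000800000008 6 6) 0 0 (step_sound _ 98 [(rh55afc6a59410cf00.shift 1 2), rhce7b5ca4f9e88074] (by decide +kernel))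
noncomputable def rhb88d7b326ba58a0e : CRef := CRef.mk (Pat.mk 0xa0000000200000002000000000000000000000000 0x400000004000000740000003e0000000700000002000000070000000700000005 6 7) 0 0 (step_sound _ 162 [(rhb730ba14aa32bdb3.shift 1 2), (rhdc1641106d7e5aa2.shift 0 4), rhffb8e5993241bf15] (by decide +kernel))
noncomputable def rh7278af142b268e60 : CRef := CRef.mk (Pat.mk 0x20000001e0000000200000000000000000000000000000000 0x10000000700000007000000060000001e0000003600000003000000070000000700000004 6 6) 0 0 (step_sound _ 132 [rh1ee964fdf0bdaa22, (rhe25b0a99195a5d59.shift 1 4)] (by decide +kernel))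
noncomputable def rhb2147935ca93e326 : CRef := CRef.mk (Pat.mk 0x20000000600000002000000000000000000000000 0x4000000070000000700000007000000060000000600000002000000070000000700000005 6 3) 0 0 (step_sound _ 65 [rh8cdd36b03d57a2f6, (rha707fb719e87fe6e.shift 1 1), (rhf83cf15f19111834.shift 0 2)] (by decide +kernel))
noncomputable def rha8673eb57f4f7b1f : CRef := CRef.mk (Pat.mk 0x180000000e000000000000000000000000 0x30000000b0000001f0000001e000000370000001400000010 6 6) 0 0 (step_sound _ 100 [rh2fb7851f2066c386, (rh3f38de6b95fe6c30.shift 0 1), (rhbbe16ff26f7822db.shift 1 0)] (by decide +kernel))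
noncomputable def rhbc3cfe4edfdf514b : CRef := CRef.mk (Pat.mk 0x600000003800000020000000000000000000000000 0x40000001c0000001c0000001c0000007f000000780000007e0000001e0000001c00000008 6 7) 0 0 (step_sound _ 163 [(rha9439441fc578113.shift 1 1), (rhbc63f51351b61326.shift 1 0), (rhd98ec74f6eefb291.shift 2 1), (rhf60aa8aede119d3b.shift 0 4)] (by decide +kernel))
noncomputable def rh6661a04aba01afe6 : CRef := CRef.mk (Pat.mk 0x8000000580000000800000000 0x1c0000003c0000000f000000780000001800000010 6 7) 0 0 (step_sound _ 98 [(rh2fe78cc5ca4405d8.shift 2 2), rh5493ec200a1c795d] (by decide +kernel))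
noncomputable def rh4d6a2612ebfeb13d : CRef := CRef.mk (Pat.mk 0x20000000600000002000000000000000000000000 0x400000006000000060000000600000006000000070000000700000005 6 3) 0 0 (step_sound _ 65 [(rh12461e137161f2e1.shift 0 1), rh8cdd36b03d57a2f6, (rha707fb719e87fe6e.shift 1 1)] (by decide +kernel))
noncomputable def rh92b03e8c4eb7c7b3 : CRef := CRef.mk (Pat.mk 0x60000000200000002000000000000000000000000 0x100000003000000070000000700000006000000070000000700000001 6 3) 0 0 (step_sound _ 65 [rh8aec56c4ee12918c, (rhd7cb8ed87e2022d8.shift 0 1), (rhffd0ff6f60fa3c9a.shift 0 1)] (by decide +kernel))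
noncomputable def rh7297d7527063f333 : CRef := CRef.mk (Pat.mk 0x40000000c000000040000000400000000 0x80000000c0000000c0000000f0000003e0000003a 6 6) 0 0 (step_sound _ 33 [(rh932754581e0f4330.shift 1 0), rhf542f7e2121becc5] (by decide +kernel))
noncomputable def rhaa63cbda9c59dd98 : CRef := CRef.mk (Pat.mk 0x20000001e000000020000000000000000 0x50000000700000007000000360000001e000000060000000600000006 6 6) 0 0 (step_sound _ 161 [(rha4326e66fbf32eaa.shift 0 2), (rhca18712e5e5c7b8f.shift 1 0), (rhd4b4beefcd67f51e.shift 1 1)] (by decide +kernel))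
noncomputable def rh88be999d08c58ca0 : CRef := CRef.mk (Pat.mk 0x1e000000020000000000000000 0x6000000070000001e0000003e0000000700000007 6 6) 0 0 (step_sound _ 129 [(rh3244c3cc8379b070.shift 0 3), rh4b85549a7e035e7e] (by decide +kernel))
noncomputable def rh79ab5936b19702e1 : CRef := CRef.mk (Pat.mk 0x2000000030000000200000000000000000000000000000000 0x5000000070000000700000002000000030000000300000007000000070000000700000001 6 3) 0 0 (step_sound _ 225 [(rh03dfdf12d5937476.shift 0 3), rh10b8df1e8cc681c2, (rhc85cc95794737cf7.shift 0 4)] (by decide +kernel))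
noncomputable def rh76ec80d0911a63d7 : CRef := CRef.mk (Pat.mk 0x1e000000000000000000000000 0x10000000330000001f000000380000000800000008 6 6) 0 0 (step_sound _ 68 [rh8859ac061aed93d9, (rhe25b0a99195a5d59.shift 1 2)] (by decide +kernel))
noncomputable def rh6e548e70b89cae82 : CRef := CRef.mk (Pat.mk 0x1e0000000200000002000000000000000000000000 0x20000001f0000003e00000003000000030000000100000001 6 6) 0 0 (step_sound _ 132 [rha5438ee0a39b0a04, (rhe25b0a99195a5d59.shift 1 4)] (by decide +kernel))
noncomputable def rhcba374b5fac35fcd : CRef := CRef.mk (Pat.mk 0x78000000080000000800000000 0x100000001c0000001c0000001c000000180000007c000000f80000001f00000014 6 8) 0 0 (step_sound _ 131 [(rh12461e137161f2e1.shift 2 0), (rh7ee010839f9a53c0.shift 2 0), rhb20dd801f506db0f, (rhf83cf15f19111834.shift 2 1)] (by decide +kernel))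
noncomputable def rh89813eb7e46c5c2d : CRef := CRef.mk (Pat.mk 0x180000001e0000000000000000 0x2000000030000001f0000003e0000003400000004 6 6) 0 0 (step_sound _ 36 [rh41d5a93e35cc8528, (rhe25b0a99195a5d59.shift 1 1)] (by decide +kernel))
noncomputable def rh8a6cff9a235067f2 : CRef := CRef.mk (Pat.mk 0x200000006000000020000000200000000 0x100000007000000070000000600000006000000060000000600000004 6 3) 0 0 (step_sound _ 2 [(rhc3a1f24d2f0571cd.shift 0 1), (rhd3458b32566d63f7.shift 1 0)] (by decide +kernel))
noncomputable def rh1499e3bb759f633b : CRef := CRef.mk (Pat.mk 0x800000058000000080000001800000000 0x100000005800000058000001f8000000ff000001e4 6 9) 0 0 (step_sound _ 132 [rh144b5a8063f73299, (rh2f68792b6b779e96.shift 3 1)] (by decide +kernel))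
noncomputable def rh4e200292c7fdb9e6 : CRef := CRef.mk (Pat.mk 0x200000006000000020000000200000000 0x40000000700000007000000070000000600000006000000020000000600000004 6 3) 0 0 (step_sound _ 34 [(rh55afc6a59410cf00.shift 1 0), (rhf83cf15f19111834.shift 0 1)] (by decide +kernel))
noncomputable def rh7893e6c45bc3445b : CRef := CRef.mk (Pat.mk 0x200000006000000020000000200000000 0x100000007000000070000000600000006000000060000000300000001 6 3) 0 0 (step_sound _ 0 [rh79877ebd3ef475dd, (rhc3a1f24d2f0571cd.shift 0 1)] (by decide +kernel))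
noncomputable def rhb43ebe5b1a298e1f : CRef := CRef.mk (Pat.mk 0x16000000020000000000000000 0x10000000300000001f0000003b0000000800000008 6 6) 0 0 (step_sound _ 99 [(rheb0810cc63b001d8.shift 0 2), rhf459621b93742302] (by decide +kernel))
noncomputable def rha98a7604d83e09e2 : CRef := CRef.mk (Pat.mk 0x1e000000180000000000000000 0x30000000380000003f0000001e000000180000001000000010 6 6) 0 0 (step_sound _ 132 [(rh33e738c4ed385b9f.shift 1 3), rhe97d82b9ae46fe32] (by decide +kernel))
noncomputable def rhf560572d1bf302d3 : CRef := CRef.mk (Pat.mk 0x1e000000180000000000000000 0x40000000f0000001e0000001f0000000b0000000b 6 5) 0 0 (step_sound _ 65 [rh2448df75ad4314f1, (rheb0810cc63b001d8.shift 0 2)] (by decide +kernel))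
noncomputable def rh0e49c6479123d39e : CRef := CRef.mk (Pat.mk 0x1e00000018000000000000000000000000 0xc0000001e0000001f000000330000001200000012 6 6) 0 0 (step_sound _ 97 [rh74417eabe941dcf3, (rheb0810cc63b001d8.shift 0 3)] (by decide +kernel))
noncomputable def rhe34a1c258d6aede1 : CRef := CRef.mk (Pat.mk 0x1e00000018000000000000000000000000 0x3b0000001e0000001f000000300000003000000010 6 6) 0 0 (step_sound _ 97 [(rheb0810cc63b001d8.shift 0 3), rhedf2c855198032d4] (by decide +kernel))
noncomputable def rh13b0e6b5298d4cfa : CRef := CRef.mk (Pat.mk 0x40000000c0000001800000008000000000000000000000000 0x80000000c0000000f0000001c0000001f000000370000001400000004 6 6) 0 0 (step_sound _ 160 [rh3f0f89eee57caff3, (rhab22b5b56e7b3243.shift 0 4)] (by decide +kernel))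
noncomputable def rh8f0056e2861f9709 : CRef := CRef.mk (Pat.mk 0x2000000020000001600000014000000000000000000000000 0x3c0000003e000000360000001e000000360000003b0000003b0000002b 6 6) 0 0 (step_sound _ 194 [rh2145de25d74fb5e2, (rhebd2fcccf9a55120.shift 1 0)] (by decide +kernel))
noncomputable def rhc13b8275d62a523b : CRef := CRef.mk (Pat.mk 0x2000000020000001600000014000000000000000000000000 0x400000036000000360000001f0000001e0000003b0000000b0000000b 6 6) 0 0 (step_sound _ 97 [(rh3e333d00765b42b7.shift 0 1), rh5db541dd5138ce50, rh9bb455da33111465, rhdd239d5a9dc63633] (by decide +kernel))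
noncomputable def rhea6a3e1acb4dff2b : CRef := CRef.mk (Pat.mk 0x4000000040000000c00000008000000000000000000000000 0x3a0000003e0000000f0000000c0000000c000000060000000600000006 6 6) 0 0 (step_sound _ 98 [(rh5db541dd5138ce50.shift 1 0), (rha4e48795de5c404c.shift 1 0), (rhd49a209860dedbee.shift 0 3)] (by decide +kernel))
noncomputable def rhfe3da786f6345b6b : CRef := CRef.mk (Pat.mk 0x300000003000000020000000200000000 0x600000006000000060000000300000003000000030000000700000005 6 3) 0 0 (step_sound _ 2 [rh929981d1a150078c, (rhd3458b32566d63f7.shift 1 0)] (by decide +kernel))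
noncomputable def rh37ee672a86f8c995 : CRef := CRef.mk (Pat.mk 0x1800000018000000100000001000000000 0x140000001f0000001f000000780000001e00000008 6 7) 0 0 (step_sound _ 35 [(rh1b289b628cdeb774.shift 0 1), (rh932754581e0f4330.shift 3 0)] (by decide +kernel))
noncomputable def rhd742e99cd55c0932 : CRef := CRef.mk (Pat.mk 0xc0000000c000000080000000800000000 0xc0000000f0000007c0000001f00000017 6 7) 0 0 (step_sound _ 34 [rh4ec7f64548b13075, (rh932754581e0f4330.shift 2 0)] (by decide +kernel))
noncomputable def rh2e613271d4582ec0 : CRef := CRef.mk (Pat.mk 0x300000003000000020000000200000000 0x600000006000000060000000300000003000000060000000700000005 6 3) 0 0 (step_sound _ 0 [rh1adc8391535f5fb2, rh79877ebd3ef475dd] (by decide +kernel))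
noncomputable def rhc57c8f3f7683b4a8 : CRef := CRef.mk (Pat.mk 0x200000016000000000000000000000000 0x10000000330000001f000000380000000800000008 6 6) 0 0 (step_sound _ 99 [(rh3244c3cc8379b070.shift 0 3), rhf459621b93742302] (by decide +kernel))
noncomputable def rha591e3158bca7b02 : CRef := CRef.mk (Pat.mk 0x200000003800000010000000000000000000000000 0x80000003c000000f80000003e0000001f0000001c00000008 6 8) 0 0 (step_sound _ 68 [(rh71222050f2c63a3a.shift 4 1), rhd45868133f938a97] (by decide +kernel))
noncomputable def rh60a6f7364c9801a6 : CRef := CRef.mk (Pat.mk 0x180000000e0000000400000000 0x1e0000001f0000001e0000000e0000000c00000008 6 5) 0 0 (step_sound _ 131 [rh40c3209ac2338041, (rh5c5e593799055d58.shift 2 1)] (by decide +kernel))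
noncomputable def rhe1d6434dd39ac9e4 : CRef := CRef.mk (Pat.mk 0x180000001e000000000000000000000000 0x180000003e0000003f0000003000000030 6 6) 0 0 (step_sound _ 65 [(rheb0810cc63b001d8.shift 0 2), (rhf04153631299154e.shift 1 0)] (by decide +kernel))
noncomputable def rh947561ae8c5c3f87 : CRef := CRef.mk (Pat.mk 0x600000002000000020000000000000000 0x1000000070000000700000002000000060000000700000005 6 3) 0 0 (step_sound _ 33 [(rh2f68792b6b779e96.shift 1 1), rhd7cb8ed87e2022d8] (by decide +kernel))
noncomputable def rhfa50cc73c689e7d7 : CRef := CRef.mk (Pat.mk 0x60000000200000002000000000000000000000000 0x100000003000000070000000600000006000000070000000700000005 6 3) 0 0 (step_sound _ 65 [rh8aec56c4ee12918c, (rh8c3839f9b9075f23.shift 1 0), (rhd7cb8ed87e2022d8.shift 0 1)] (by decide +kernel))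
noncomputable def rh61dc55d5e9fb84f4 : CRef := CRef.mk (Pat.mk 0x40000000c000000040000000400000000 0x80000000c0000000c0000000f0000003e0000003a 6 6) 0 0 (step_sound _ 35 [(rh55afc6a59410cf00.shift 2 0), rh93c987d47c2856ef] (by decide +kernel))
noncomputable def rhf5f21a325060f1ca : CRef := CRef.mk (Pat.mk 0x200000006000000020000000200000000 0x200000003000000070000000700000006000000060000000600000004 6 3) 0 0 (step_sound _ 2 [(rh2d81c31c55e8d97c.shift 0 1), (rhd3458b32566d63f7.shift 1 0)] (by decide +kernel))
noncomputable def rh0a1276863f86678c : CRef := CRef.mk (Pat.mk 0x200000006000000020000000200000000 0x200000003000000070000000700000006000000060000000300000001 6 3) 0 0 (step_sound _ 0 [(rh2d81c31c55e8d97c.shift 0 1), rh79877ebd3ef475dd] (by decide +kernel))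
noncomputable def rh91429c40af715d36 : CRef := CRef.mk (Pat.mk 0x200000002000000020000000200000000 0x5000000070000000700000002000000020000000700000005 6 3) 0 0 (step_sound _ 0 [rh79877ebd3ef475dd, rhc17b7d8fab3dfe57] (by decide +kernel))
noncomputable def rh80b840f1d7bf53f7 : CRef := CRef.mk (Pat.mk 0x7000000090 0xe0000007e000000f7 6 8) 0 0 (step_sound _ 35 [(rh96851dee118c1ba3.shift 3 0), rh9d47ef67f175c917] (by decide +kernel))
noncomputable def rh29f6d70517a8f684 : CRef := CRef.mk (Pat.mk 0x5800000048000000080000000800000000 0x58000000580000007e0000007f00000074 6 7) 0 0 (step_sound _ 36 [rh540c51830ff2205d, (rh55afc6a59410cf00.shift 3 0)] (by decide +kernel))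
noncomputable def rhd549a60e320760ae : CRef := CRef.mk (Pat.mk 0x2000000000000000b00000009000000000000000000000000 0x10000000170000001f0000003a0000000f000000190000001c0000001c00000014 6 6) 0 0 (step_sound _ 163 [(rh12dd4d4aafc8095c.shift 0 2), rh9765e413c7f50252, (rhabf575676fe0ef70.shift 0 3), rhfd9ce5d439ef298d] (by decide +kernel))
noncomputable def rh5d1d9d64721da87c : CRef := CRef.mk (Pat.mk 0xb000000090000000100000000000000000000000000000000 0x1000000018000000180000000f0000001b0000001f0000001e0000001e0000001e00000014 6 5) 0 0 (step_sound _ 131 [(rh14d820639f9764e1.shift 0 3), (rh214983f80040bfe3.shift 0 1), rh27b7d2676e8f485b, (rh71c398ad724b656b.shift 0 3), (rhab54d7693715f4a7.shift 0 1), (rhc8bc5b18e9090b3a.shift 0 2)] (by decide +kernel))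
noncomputable def rh928e5cb30776da25 : CRef := CRef.mk (Pat.mk 0x1e0000004800000000000000000000000000000000 0x170000001e0000007b0000000f0000000f0000000700000005 6 7) 0 0 (step_sound _ 129 [rhbede8c0349d303e3, (rheb0810cc63b001d8.shift 0 4)] (by decide +kernel))
noncomputable def rh8033e608fcf93d08 : CRef := CRef.mk (Pat.mk 0x1700000010000000020000000000000000 0x280000003800000038000000300000001f000000180000003e0000003800000020 6 6) 0 0 (step_sound _ 164 [(rh4464085f947ee3b7.shift 1 0), (rh7e5e46e67f13cbaa.shift 0 3), (rh9548c07d1d1f2a1b.shift 1 2)] (by decide +kernel))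
noncomputable def rhcc517403f4f0e756 : CRef := CRef.mk (Pat.mk 0x38000000100000000000000000 0x80000000f0000007e000000370000000400000004 6 7) 0 0 (step_sound _ 98 [(rh4f8edb321cf5b49d.shift 0 2), (rhb2432c16363a7e8d.shift 0 2), (rhefd858cfdc5d2964.shift 1 0)] (by decide +kernel))
noncomputable def rhdf47b082306c38f4 : CRef := CRef.mk (Pat.mk 0x600000006000000040000000000000000 0x40000000600000006000000070000003e0000000e 6 6) 0 0 (step_sound _ 34 [(rh7b1f1fb55310c477.shift 1 0), rhcefbdf9a88ffacc9] (by decide +kernel))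
noncomputable def rh2cf03e78a38b582d : CRef := CRef.mk (Pat.mk 0x1800000018000000100000000000000000 0x100000001800000018000000380000001f0000001c 6 6) 0 0 (step_sound _ 36 [(rh7b1f1fb55310c477.shift 3 0), rh850e201bd523cd31] (by decide +kernel))
noncomputable def rh45c941cb0a464635 : CRef := CRef.mk (Pat.mk 0x1800000058000000100000000000000000 0x100000001000000018000000d8000000fc0000002f0000000c 6 8) 0 0 (step_sound _ 67 [(rhea7a1800d6f053bd.shift 3 0), rhf556bc1b2b6776a3, (rhfc60cf662bc146cb.shift 3 1)] (by decide +kernel))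
noncomputable def rh170dcf5697840e6b : CRef := CRef.mk (Pat.mk 0xb0000000b000000020000000000000000 0xa0000000b0000000b0000001e0000000700000007 6 5) 0 0 (step_sound _ 33 [rh7b1f1fb55310c477, rhfed5f9874f32b472] (by decide +kernel))
noncomputable def rh8ab69222bbebc4df : CRef := CRef.mk (Pat.mk 0x100000001800000018000000080000000000000000 0x100000001f000000ff0000007c0000002000000020 6 8) 0 0 (step_sound _ 101 [rh587754def69877c5, (rh79b3c29022acbdf3.shift 2 3), (rha9e1a5d55b907abf.shift 2 2)] (by decide +kernel))
noncomputable def rh9ec62b339c14daaf : CRef := CRef.mk (Pat.mk 0x1e000000180000000000000000 0x400000004000000070000001e0000001f0000000b0000000b 6 5) 0 0 (step_sound _ 65 [rhacce40025cbed492, (rheb0810cc63b001d8.shift 0 2)] (by decide +kernel))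
noncomputable def rh9cd95bcddc4e1dd1 : CRef := CRef.mk (Pat.mk 0x60000000e000000000000000000000000 0x40000000400000004000000060000000f0000003e0000000e00000006 6 6) 0 0 (step_sound _ 162 [rh161ea59de19ab76f, (rh1e309b005ffa1b36.shift 1 1), (rh571950d89739e871.shift 1 2)] (by decide +kernel))
noncomputable def rh84c02a25cd68aeb0 : CRef := CRef.mk (Pat.mk 0x1a000000180000000800000000 0x4000000070000001f0000001f0000000f00000002 6 5) 0 0 (step_sound _ 98 [(rhb739f4f82bb681b4.shift 0 2), rhd4a8ecd7841d7788] (by decide +kernel))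
noncomputable def rh408238d137f14a18 : CRef := CRef.mk (Pat.mk 0x1a0000001800000008000000000000000000000000 0x100000001000000030000001b0000003f0000001f000000070000000700000005 6 6) 0 0 (step_sound _ 129 [rh2453aa0099afe4ee, (rh2cb17276bcd8a24a.shift 0 1), rh6445d0e636881b95, (rh6e1685e3533aff0e.shift 0 4)] (by decide +kernel))
noncomputable def rh01672ff4d11ff85a : CRef := CRef.mk (Pat.mk 0xc0000001e000000000000000000000000 0xa0000000f0000001e000000070000000600000006 6 5) 0 0 (step_sound _ 65 [rh83231b3804ecceaa, (rheb0810cc63b001d8.shift 0 2)] (by decide +kernel))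
noncomputable def rh740b007b6bf97667 : CRef := CRef.mk (Pat.mk 0x100000005800000018000000000000000800000000 0x100000005c000000f8000001f7000000fe000001ff 6 9) 0 0 (step_sound _ 36 [(rh072ce4b569e16e7a.shift 3 0), (rh25b3b9713b65f362.shift 3 0), rh93a2dd5542dcaa66, (rhbcedfca2885d6e85.shift 3 0)] (by decide +kernel))
noncomputable def rh57916e7191924ec0 : CRef := CRef.mk (Pat.mk 0x1c00000038000000000000000000000000 0x600000006000000060000001c0000003f0000007f0000000c0000000c 6 7) 0 0 (step_sound _ 98 [(rh0e1512cbacfbd48b.shift 0 2), (rh949a7e17d676d35b.shift 1 0), (rhf56dc6c929980f59.shift 0 2)] (by decide +kernel))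
noncomputable def rh96ec8fd8c493d17a : CRef := CRef.mk (Pat.mk 0x1800000018000000080000000800000000 0x180000003c0000001f0000007c00000074 6 7) 0 0 (step_sound _ 36 [rh37c6ba3aff7a6041, (rh55afc6a59410cf00.shift 3 0)] (by decide +kernel))
noncomputable def rh87207d5568a8053d : CRef := CRef.mk (Pat.mk 0x580000001800000008000000000000000000000000 0x4000000058000000ff000001ff000000f70000003400000024 6 9) 0 0 (step_sound _ 101 [rh0194c58051fc8def, rh2f4dd891ca29b508, rh71f16056f22f7a01, (rh84d54765cfa4c621.shift 2 1), (rh92d6a0d0ebe016be.shift 0 1), (rhd2fa225b16cdb3f7.shift 2 0), rhd73276c8f8b799ca] (by decide +kernel))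
noncomputable def rhe718d6eb78dbc521 : CRef := CRef.mk (Pat.mk 0xc0000000c000000040000000400000000 0x20000000e0000000c0000000f0000003e0000003a 6 6) 0 0 (step_sound _ 35 [(rh55afc6a59410cf00.shift 2 0), rhf2278debbcfe84a8] (by decide +kernel))
noncomputable def rh33fb4d581ffdedf3 : CRef := CRef.mk (Pat.mk 0x3000000038000000000000001000000000 0x240000003e00000038000001ef000000fe000001ff 6 9) 0 0 (step_sound _ 37 [(rh4be0604a6732ae30.shift 2 0), rh92f59d3fbfedeb32, (rhbcedfca2885d6e85.shift 4 0), (rhcecb4141388722bc.shift 2 0)] (by decide +kernel))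
noncomputable def rhde9b6ff2a9fa0924 : CRef := CRef.mk (Pat.mk 0x1a00000038000000000000000000000000 0x10000000100000001b0000003f000000760000002000000020 6 7) 0 0 (step_sound _ 98 [(rh5c36e97be8af272f.shift 0 3), (rh8e02147a0e3a306e.shift 1 0)] (by decide +kernel))
noncomputable def rha17e700762ae999e : CRef := CRef.mk (Pat.mk 0x3800000008000000000000000000000000 0x1c0000001f000000780000000c0000001c0000001c00000014 6 7) 0 0 (step_sound _ 163 [(rh19b19bf0872cfe73.shift 2 0), rhcd1b121f5a8f5b16, (rhd9106766b9ff53c0.shift 2 3)] (by decide +kernel))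
end Crest.Agent.S0047.Helper85.Cert
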