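import Crest.Agent.Lib.S0047.Helper85CertPL5F0
import Crest.Agent.Lib.S0047.Helper85CertPL5F1
import Crest.Agent.Lib.S0047.Helper85CertPL5F2
import Crest.Agent.Lib.S0047.Helper85CertPL5F3
import Crest.Agent.Lib.S0047.Helper85CertPL5F4
import Crest.Agent.Lib.S0047.Helper85CertPL5F5
import Crest.Agent.Lib.S0047.Helper85CertPL5F6
import Crest.Agent.Lib.S0047.Helper85CertPL5F7
import Crest.Agent.Lib.S0047.Helper85CertPL5F8
import Crest.Agent.Lib.S0047.Helper85CertPL5F9
import Crest.Agent.Lib.S0047.Helper85CertPL5F10
import Crest.Agent.Lib.S0047.Helper85CertPL5F11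
import Crest.Agent.Lib.S0047.Helper85CertPL5F12
set_option autoImplicit false
set_option linter.all false
set_option Elab.async false
namespace Crest.Agent.S0047.Helper85.Cert
open Crest.Agent.S0047.Helper85

noncomputable def rhc516de0a53f15488 : CRef := CRef.mk (Pat.mk 0x60000001a00000000000000000000000000000000 0x6000000060000001f00000003000000070000000700000005 6 5) 0 0 (step_sound _ 97 [rh5c8c873042790be0, rh712b6e7d90bff97a, (rhf3b0450cbffe4da9.shift 0 1), rhffb8e5993241bf15] (by decide +kernel))
noncomputable def rh3818acfe606469fd : CRef := CRef.mk (Pat.mk 0xe0000001a00000000000000000000000000000000 0x1000000070000001e0000001e00000003000000070000000700000005 6 5) 0 0 (step_sound _ 97 [(rh442739a4e83bb21b.shift 0 2), rh5c8c873042790be0, (rhf3b0450cbffe4da9.shift 0 1), rhffb8e5993241bf15] (by decide +kernel))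
noncomputable def rh581c3e0ee06c10ae : CRef := CRef.mk (Pat.mk 0x100000007000000080 0x370000007e000000ce 6 8) 0 0 (step_sound _ 35 [(rh96851dee118c1ba3.shift 3 0), rhab6f55bc99585f19] (by decide +kernel))
noncomputable def rhfcaeb045b834dc3c : CRef := CRef.mk (Pat.mk 0x2000000020000000600000000 0x5000000070000000700000002000000020000000700000005 6 3) 0 0 (step_sound _ 129 [(rh55afc6a59410cf00.shift 1 0), rh762a1aeaf83c662a] (by decide +kernel))
noncomputable def rh02a9e283a01f6ce3 : CRef := CRef.mk (Pat.mk 0x160000001000000004000000000000000000000000 0x2000000030000000300000001e000000f00000003f000000780000002800000008 6 8) 0 0 (step_sound _ 100 [(rh685f0a4a3f72dbad.shift 1 0), (rh71c398ad724b656b.shift 1 2), (rhc8bc5b18e9090b3a.shift 1 1), rhd872a5f23f7fe890, (rhe57df5fd7b63fb6b.shift 1 3)] (by decide +kernel))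
noncomputable def rhcd84dddaa7d402a3 : CRef := CRef.mk (Pat.mk 0x80000000b00000008000000000000000000000000 0x10000000180000000f000000080000001c0000001c00000014 6 5) 0 0 (step_sound _ 164 [(rh1c62b6193297d9e3.shift 0 4), (rhffb8e5993241bf15.shift 2 0)] (by decide +kernel))
noncomputable def rhcbfc68714a7b5008 : CRef := CRef.mk (Pat.mk 0x4000000240000002c000000200000000000000000 0x40000000700000007c0000002c0000003f000000380000001800000008 6 7) 0 0 (step_sound _ 165 [(rh23891cd3704c2248.shift 2 2), (rh503f15990ff61102.shift 2 1), rh579a00e893aa4b82, (rh58ca6c8485b5d441.shift 1 1)] (by decide +kernel))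
noncomputable def rh18d535efac7ae8c3 : CRef := CRef.mk (Pat.mk 0x1000000090000000b00000008000000000000000000000000 0x140000001f0000001b0000000b0000000e0000001f0000001e00000014 6 5) 0 0 (step_sound _ 66 [(rhb01ac4982a11ea27.shift 2 0), rhe4c75d1475f5bdf6, (rhe66e3ffc83ba6b92.shift 0 2)] (by decide +kernel))
noncomputable def rhb9b22c29b5c4bbe2 : CRef := CRef.mk (Pat.mk 0x200000002000000160000001000000010000000000000000000000000 0x20000001600000016000000340000003f000000fc0000003800000028 6 8) 0 0 (step_sound _ 68 [(rh54cac8ead568c377.shift 1 1), (rh8cdd36b03d57a2f6.shift 3 0), (rhe4be5f1af82d453f.shift 0 1)] (by decide +kernel))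
noncomputable def rh7d87331220ddfdae : CRef := CRef.mk (Pat.mk 0x10000000b0000000800000008000000000000000000000000 0x90000000b0000000e0000003f0000007f0000001400000004 6 7) 0 0 (step_sound _ 66 [(rh3078dcb1ae78659a.shift 0 1), (rh3743dbe66b959104.shift 2 0), (rh544d3caba1e1e2bb.shift 2 0), (rhac4b4763407a46df.shift 0 1)] (by decide +kernel))
noncomputable def rhdd92da0b921c6b75 : CRef := CRef.mk (Pat.mk 0x20000000200000016000000100000001000000000000000000000000000000000 0x1200000016000000160000003c0000001f0000007c000000380000003800000008 6 7) 0 0 (step_sound _ 100 [(rh8cdd36b03d57a2f6.shift 3 1), (rhdbf7c67174e7e538.shift 1 0), (rhe4be5f1af82d453f.shift 0 2), (rhfc12baaa10e8a2be.shift 1 2), (rhfcb054872419dc65.shift 1 1)] (by decide +kernel))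
noncomputable def rh354ce0c995277d71 : CRef := CRef.mk (Pat.mk 0x1000000010000000b000000080000000800000000 0x140000001f0000001b0000000b0000003e0000001f00000006 6 6) 0 0 (step_sound _ 131 [rh5b65229484f94404, rh75520277f0252f5f, rhf3383b322ac20d5a, rhfd93a82337eaafc8] (by decide +kernel))
noncomputable def rh9601c39a822121e4 : CRef := CRef.mk (Pat.mk 0x1000000010000000b0000000800000008000000000000000000000000 0x10000000b0000000b0000001e0000007e0000001a0000001000000010 6 7) 0 0 (step_sound _ 129 [(rh08edf065357d68e5.shift 0 2), rh3bcd2f17d79dc1fe] (by decide +kernel))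
noncomputable def rh114a8dd312f9ed17 : CRef := CRef.mk (Pat.mk 0x1000000010000000b000000080000000800000000000000000000000000000000 0x90000000b0000000b0000001e0000003a0000001f0000001c0000001c00000010 6 6) 0 0 (step_sound _ 99 [rh25f77205fe61837a, (rh40f5d94dcc483e45.shift 0 1), (rh8cdd36b03d57a2f6.shift 2 1), rha86c014d0f248484, (rhb20dd801f506db0f.shift 0 2)] (by decide +kernel))
noncomputable def rhb315a85a512e425b : CRef := CRef.mk (Pat.mk 0x1000000010000000b000000080000000800000000 0x40000001f0000001b0000000b0000003e0000001f00000016 6 6) 0 0 (step_sound _ 131 [rh85ad93d1f902b0de, rhf3383b322ac20d5a, rhfd93a82337eaafc8, rhfff035b10f7889d6] (by decide +kernel))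
noncomputable def rh082d3a3a549ef919 : CRef := CRef.mk (Pat.mk 0x1000000000000000800000008000000080000000000000000 0x40000001f00000018000000080000001c0000001c0000001c00000014 6 5) 0 0 (step_sound _ 163 [(rh8cdd36b03d57a2f6.shift 2 0), (rhfd93a82337eaafc8.shift 0 1), (rhfff035b10f7889d6.shift 0 1)] (by decide +kernel))
noncomputable def rhf33c3346852eb168 : CRef := CRef.mk (Pat.mk 0x1000000010000000b00000008000000080000000000000000000000000000000000000000 0x1000000030000000b0000001e0000001f0000007e0000001c0000001c0000001c00000014 6 7) 0 0 (step_sound _ 131 [(rh54cac8ead568c377.shift 0 3), (rh6be0a3daf9aa0c59.shift 0 1), (rh8cdd36b03d57a2f6.shift 2 2), rh9bcfdb3c2e34957d] (by decide +kernel))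
noncomputable def rh901f36cd51f6ab01 : CRef := CRef.mk (Pat.mk 0x1000000010000000b00000008000000080000000000000000 0x90000000b0000000b0000001e0000001e0000001e00000014 6 5) 0 0 (step_sound _ 163 [(rh438032f53814e5e0.shift 0 1), (rh85ad93d1f902b0de.shift 0 1), (rh8cdd36b03d57a2f6.shift 2 0)] (by decide +kernel))
noncomputable def rh079294ef3843c9e4 : CRef := CRef.mk (Pat.mk 0xe0000001a000000000000000000000000 0x1800000018000000380000001e0000001b000000300000003000000030 6 6) 0 0 (step_sound _ 132 [(rh24e5068e31ff08b5.shift 1 0), (rheb0810cc63b001d8.shift 0 3)] (by decide +kernel))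
noncomputable def rhbcde27d809ea301f : CRef := CRef.mk (Pat.mk 0x1a0000001a000000000000000000000000 0x1800000018000000380000001e0000001b000000300000003000000030 6 6) 0 0 (step_sound _ 130 [(rh24e5068e31ff08b5.shift 1 0), (rheb0810cc63b001d8.shift 0 3)] (by decide +kernel))
noncomputable def rh2571e002cf8ced3e : CRef := CRef.mk (Pat.mk 0xc0000000d000000000000000000000000 0x18000000180000001c0000000c0000000f000000180000001800000008 6 5) 0 0 (step_sound _ 67 [(rh3cb04db3dd2b6a55.shift 2 0), (rha4276a768bedc78f.shift 0 1)] (by decide +kernel))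
noncomputable def rhd6bdafc111df190e : CRef := CRef.mk (Pat.mk 0x200000002000000028000000600000000000000000 0x58000000f80000007c0000003f0000006c0000000400000004 6 8) 0 0 (step_sound _ 98 [rh411c4efb1591d0f3, (rhc10214bf3fe8094a.shift 2 2)] (by decide +kernel))
noncomputable def rh2f3de69418e6adca : CRef := CRef.mk (Pat.mk 0x8000000000000000a0000001800000000 0x140000001c0000001c000000080000000f0000001800000010 6 5) 0 0 (step_sound _ 64 [(rhc10214bf3fe8094a.shift 0 1), (rhc531e8994caba2c3.shift 2 0)] (by decide +kernel))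
noncomputable def rhbcc9cf275db873ab : CRef := CRef.mk (Pat.mk 0x30000000000000002800000060 0x1000000010000000ff000000fe000001df0000003c00000068 6 9) 0 0 (step_sound _ 36 [rh8cd4fc32f07f3297, (rhb739f4f82bb681b4.shift 2 0)] (by decide +kernel))
noncomputable def rh7edd4704d75d1850 : CRef := CRef.mk (Pat.mk 0x180000000000000014000000b0 0xff000000fe000001e8000000be000000b0 6 9) 0 0 (step_sound _ 101 [(rh399759fca26c53b2.shift 1 0), rh3a2323034bc2f1d5, rh95336c3bcd924844, (rhb3f8dba7964b5551.shift 1 0), rhb4636f5a42ca1c70] (by decide +kernel))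
noncomputable def rh5af38850ce216c33 : CRef := CRef.mk (Pat.mk 0x300000000000000028000000600000000000000000 0x1ff000000fe000001cf0000007c0000006c0000000400000004 6 9) 0 0 (step_sound _ 98 [rh9345c5be6e556df3, (rhc10214bf3fe8094a.shift 2 2)] (by decide +kernel))
noncomputable def rh8349f4d047af5f60 : CRef := CRef.mk (Pat.mk 0xc000000000000000a000000180000000000000000 0x1c0000001c000000360000001f0000001b0000000200000002 6 6) 0 0 (step_sound _ 98 [rh9da2a786c218fa98, (rhb739f4f82bb681b4.shift 0 2)] (by decide +kernel))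
noncomputable def rh9bebfcd90360ae12 : CRef := CRef.mk (Pat.mk 0x30000000000000002800000060 0x1000000010000000180000003c0000001f0000007c00000068 6 7) 0 0 (step_sound _ 36 [rh3a9c84b23f04b4f0, (rhb739f4f82bb681b4.shift 2 0)] (by decide +kernel))
noncomputable def rh34cc191a9b026198 : CRef := CRef.mk (Pat.mk 0x18000000000000001400000030 0x1f7000000fe000001ef0000003e00000030 6 9) 0 0 (step_sound _ 35 [rh2870786bbecb2858, (rhb739f4f82bb681b4.shift 1 0)] (by decide +kernel))
noncomputable def rhe4c0edfad7684a5c : CRef := CRef.mk (Pat.mk 0x180000000000000014000000b0 0x8000001ff000000fe000001ef000000bc000000b4 6 9) 0 0 (step_sound _ 101 [(rh12524785b30b1657.shift 1 0), rh13ac0e7c7f31df36, (rh399759fca26c53b2.shift 1 0), rh424ce6916ae9e2a4, (rha014aa500fe50780.shift 2 0), rha66e331763703726] (by decide +kernel))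
noncomputable def rh2236d678346e41a4 : CRef := CRef.mk (Pat.mk 0x300000000000000028000000600000000000000000 0x10000000ff000000fe000001df0000006c0000006c0000000c00000004 6 9) 0 0 (step_sound _ 163 [(rh0fd20643e3ec60d9.shift 1 2), (rh423a8879f6f528ba.shift 2 2), (rh4cd8f4c78eeb160a.shift 0 2), (rh727ea29793012239.shift 1 2), rha530269137d2ade8, (rhe5a184dd5d8db946.shift 2 1)] (by decide +kernel))
noncomputable def rha1e349017fbd7d29 : CRef := CRef.mk (Pat.mk 0xc000000000000000a00000018 0x1c0000001e000000370000001f0000001b 6 6) 0 0 (step_sound _ 34 [rhadff88a3dc6e8566, rhb739f4f82bb681b4] (by decide +kernel))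
noncomputable def rhc304f60073899960 : CRef := CRef.mk (Pat.mk 0x8000000000000000a0000001800000000 0x100000001c0000001c000000080000001f0000001800000010 6 5) 0 0 (step_sound _ 64 [(rhc10214bf3fe8094a.shift 0 1), (rhfc47edda64480bc1.shift 2 0)] (by decide +kernel))
noncomputable def rh63cac7fc6e8da7e7 : CRef := CRef.mk (Pat.mk 0x20000000e00000018000000000000000000000000 0x18000000180000003b0000001e00000018000000300000003000000030 6 6) 0 0 (step_sound _ 132 [(rh24e5068e31ff08b5.shift 1 0), (rh3244c3cc8379b070.shift 0 4)] (by decide +kernel))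
noncomputable def rh08975c65ea0b4b7d : CRef := CRef.mk (Pat.mk 0x800000038000000600000000000000000 0x140000001c0000007c0000007c0000003f00000038000000700000005000000010 6 7) 0 0 (step_sound _ 165 [(rha7e5b30d6e5612d1.shift 4 1), (rhc3398408e0481e70.shift 2 1), rhd1bd6ca92b8c9f64] (by decide +kernel))
noncomputable def rh003009ba70030ade : CRef := CRef.mk (Pat.mk 0x20000000e00000018000000000000000000000000 0x100000001a0000003b0000007e0000001e0000001c000000140000001000000010 6 7) 0 0 (step_sound _ 163 [(rh046c5eb18e55a239.shift 3 0), (rh709c50146feb745a.shift 0 2), (rhb23658ecdd7ce5df.shift 2 2)] (by decide +kernel))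
noncomputable def rhda25147164b63d92 : CRef := CRef.mk (Pat.mk 0xc0000000800000000000000000000000000000000 0x40000001c0000001c0000003c0000000f0000000c0000001c0000001c0000001c00000014 6 6) 0 0 (step_sound _ 99 [(rh0a6888916bcef86b.shift 2 0), (rh43d8dfd721575dfb.shift 2 0), (rh9b68a071bbd4e433.shift 0 2), (rhcdfce487f0c0b445.shift 2 1), (rhd1779d7de7f8215b.shift 2 0)] (by decide +kernel))
noncomputable def rhd4c1ba04cb92d80b : CRef := CRef.mk (Pat.mk 0x200000002800000008000000000000000000000000 0x140000001c0000001f0000007c0000006f0000000c0000001c0000001c00000014 6 7) 0 0 (step_sound _ 163 [(rh555e2cce0553c0ff.shift 0 1), (rh62a5264c40f98dc4.shift 2 0), (rh6f909042bbcc6aa2.shift 2 0), (rhdf09ea05f3c28a98.shift 0 2), (rhe71984e1e06c53b9.shift 0 2)] (by decide +kernel))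
noncomputable def rh06fff1f39171959d : CRef := CRef.mk (Pat.mk 0xa0000001a00000010000000000000000000000000 0x500000007000000070000000a0000001e000000370000003f0000001500000004 6 6) 0 0 (step_sound _ 97 [(rh7a3105e5f8daf74a.shift 0 1), (rhbf14f049e425ac01.shift 0 3), (rhf1a6d15e9f61098a.shift 1 0)] (by decide +kernel))
noncomputable def rh1f3457966fbb2589 : CRef := CRef.mk (Pat.mk 0x140000003c000000000000000000000000 0x40000000c0000001c0000003e0000006f0000002c0000002c 6 7) 0 0 (step_sound _ 69 [rh9cdfc3b899cc501f, (rhe25b0a99195a5d59.shift 2 2)] (by decide +kernel))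
noncomputable def rh904a68b3af65663a : CRef := CRef.mk (Pat.mk 0x40000000f000000000 0xe7000000fe00000187 6 9) 0 0 (step_sound _ 7 [rh17c7c2eb5b27d0b6, (rhe25b0a99195a5d59.shift 4 0)] (by decide +kernel))
noncomputable def rh399e9b75af826177 : CRef := CRef.mk (Pat.mk 0xa0000001e000000000000000000000000 0x3000000070000001e0000001e000000370000000600000002 6 6) 0 0 (step_sound _ 65 [rh31b99b2da73d5d96, (rheb0810cc63b001d8.shift 0 2)] (by decide +kernel))
noncomputable def rhc4a4d2ad9cd68f45 : CRef := CRef.mk (Pat.mk 0xa0000001a000000100000000000000000 0x80000000e0000000e0000001e000000370000000600000006 6 6) 0 0 (step_sound _ 98 [rh00b1ceac624c7325, (rhe25b0a99195a5d59.shift 1 2)] (by decide +kernel))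
noncomputable def rh663eda5194fae33c : CRef := CRef.mk (Pat.mk 0xa0000001a000000100000000000000000 0x3000000070000001e0000001e000000370000000600000002 6 6) 0 0 (step_sound _ 98 [rh267f714fcd1ba847, (rhe25b0a99195a5d59.shift 1 2)] (by decide +kernel))
noncomputable def rhad3b8c8d5ef4cf3e : CRef := CRef.mk (Pat.mk 0xa0000001a00000002000000000000000000000000 0x80000000c0000000e0000001e00000037000000070000000700000005 6 6) 0 0 (step_sound _ 130 [rh76ec5b3fd9f357de, (rheb0810cc63b001d8.shift 0 3)] (by decide +kernel))
noncomputable def rh8bd96f5b419af924 : CRef := CRef.mk (Pat.mk 0x200000002000000020000000000000000 0x500000007000000070000000600000002000000070000000700000005 6 3) 0 0 (step_sound _ 161 [rh367118e0bf0473e0, rh8cdd36b03d57a2f6, (rhc17b7d8fab3dfe57.shift 0 1), (rhc9de03f9731897d4.shift 1 0)] (by decide +kernel))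
noncomputable def rh090b4962a8ea1743 : CRef := CRef.mk (Pat.mk 0xa0000001e00000000000000000000000000000000 0xe0000000e0000000e0000001e00000007000000070000000700000003 6 5) 0 0 (step_sound _ 97 [rh4302daa16ca6f7fa, (rheb0810cc63b001d8.shift 0 3)] (by decide +kernel))
noncomputable def rhb7d3270c0e378e75 : CRef := CRef.mk (Pat.mk 0xa0000001e000000000000000000000000 0xb0000000f0000001e0000001e000000070000000600000006 6 5) 0 0 (step_sound _ 65 [rh3ee89685af341f9e, (rheb0810cc63b001d8.shift 0 2)] (by decide +kernel))
noncomputable def rh52da073bee7ff9eb : CRef := CRef.mk (Pat.mk 0x40000001400000034000000000000000000000000 0x80000000e0000002e0000007f0000007f0000003c00000036000000240000002400000020 6 7) 0 0 (step_sound _ 131 [(rh44d5e83f543a0c94.shift 1 0), (rh6b2056358919a283.shift 0 1), (rhd9106766b9ff53c0.shift 1 3)] (by decide +kernel))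
noncomputable def rh3b715f2a33042916 : CRef := CRef.mk (Pat.mk 0x800000028000000680000000000000000 0x140000007c0000007c0000006f000000780000006c0000004c00000004 6 7) 0 0 (step_sound _ 163 [(rh3525a029a4aa95b6.shift 2 1), (rh5ee4dc8825dcefa0.shift 0 1), (rh6aa5625770489e83.shift 2 0), (rh762a1aeaf83c662a.shift 2 1)] (by decide +kernel))
noncomputable def rh659eb6aa1e5d49ed : CRef := CRef.mk (Pat.mk 0x20000000200000002000000000000000000000000 0x400000006000000060000000600000003000000070000000700000005 6 3) 0 0 (step_sound _ 65 [rh367118e0bf0473e0, (rh55a026e6f690bbaf.shift 0 1), rh8cdd36b03d57a2f6, (rhc9de03f9731897d4.shift 1 0)] (by decide +kernel))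
noncomputable def rh1fbeb11103e992d8 : CRef := CRef.mk (Pat.mk 0x80000002800000008000000000000000000000000 0x40000001f000000780000000c0000001c0000001c00000014 6 7) 0 0 (step_sound _ 67 [(rh8cdd36b03d57a2f6.shift 2 0), (rha65ae0be40b35f74.shift 0 1), (rhd43bc1c0d9c1d29b.shift 2 0)] (by decide +kernel))
noncomputable def rhd8b25551300d05b1 : CRef := CRef.mk (Pat.mk 0x20000000200000002000000000000000000000000 0x500000007000000070000000200000002000000070000000700000005 6 3) 0 0 (step_sound _ 65 [(rh762a1aeaf83c662a.shift 0 1), rh8cdd36b03d57a2f6, (rhc17b7d8fab3dfe57.shift 0 1)] (by decide +kernel))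
noncomputable def rh754b3e9140074007 : CRef := CRef.mk (Pat.mk 0x80000002800000068000000000000000000000000 0x140000003c0000007f0000007f000000780000006c000000440000004000000040 6 7) 0 0 (step_sound _ 195 [(rh2a2ea9f7b3504ddc.shift 0 2), rh3430679422da95f1, (rh762a1aeaf83c662a.shift 2 2)] (by decide +kernel))
noncomputable def rh45fc2747d8f982ed : CRef := CRef.mk (Pat.mk 0x80000002800000008000000000000000000000000 0x140000001f00000078000000080000001c0000001c00000014 6 7) 0 0 (step_sound _ 67 [(rh367118e0bf0473e0.shift 2 0), (rh8cdd36b03d57a2f6.shift 2 0), (rha65ae0be40b35f74.shift 0 1), (rhc9de03f9731897d4.shift 3 0)] (by decide +kernel))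
noncomputable def rh29ced3c447a99b4d : CRef := CRef.mk (Pat.mk 0x800000018000000180000000800000000 0x140000001f0000001f000000780000001e00000010 6 7) 0 0 (step_sound _ 36 [(rh78aae0a423eb3410.shift 0 1), (rh7b1f1fb55310c477.shift 3 0)] (by decide +kernel))
noncomputable def rh929e5eb1290a5668 : CRef := CRef.mk (Pat.mk 0x600000006000000040000000000000000 0x70000000700000007000000070000003e0000000a00000002 6 6) 0 0 (step_sound _ 161 [(rh2145e1d24b96a57e.shift 1 2), rh3f557c91aa6d495c] (by decide +kernel))
noncomputable def rh7117344086adf9af : CRef := CRef.mk (Pat.mk 0x80000000c000000080000000800000000 0x8000000080000000f0000007c0000001c00000014 6 7) 0 0 (step_sound _ 2 [(rh79877ebd3ef475dd.shift 2 0), rhedf6a18f6f88178e] (by decide +kernel))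
noncomputable def rh19e0ed46435ffa08 : CRef := CRef.mk (Pat.mk 0x40000000600000006000000020000000000000000 0x6000000070000003e0000003f0000000c0000000c 6 6) 0 0 (step_sound _ 66 [(rh3cb04db3dd2b6a55.shift 1 0), (rh820d4e04d5dcd02e.shift 1 0), (rhac43f9d0116938b1.shift 0 1)] (by decide +kernel))
noncomputable def rh95b1b627a42fdd18 : CRef := CRef.mk (Pat.mk 0xc0000000c000000080000000800000000 0x20000000f0000003c0000000e0000007c00000014 6 7) 0 0 (step_sound _ 34 [(rh932754581e0f4330.shift 2 0), rhb03095447baca671] (by decide +kernel))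
noncomputable def rh5b43b97f0bb60d71 : CRef := CRef.mk (Pat.mk 0xc0000000c000000080000000000000000 0x20000000f0000007e0000007f0000003400000014 6 7) 0 0 (step_sound _ 100 [(rh6e18dbbfa959deb2.shift 0 2), (rh79b3c29022acbdf3.shift 1 3), rhc307d54b589df09b] (by decide +kernel))
noncomputable def rh6923ec868440dab3 : CRef := CRef.mk (Pat.mk 0x40000002c0000000c00000008000000000000000000000000 0x8000000080000002c0000002c0000002f0000007c000000300000001000000010 6 7) 0 0 (step_sound _ 100 [(rha95b171f77e3178a.shift 2 0), (rhc1bb45faee7822b9.shift 0 2), (rhdeca8db941583de2.shift 0 3)] (by decide +kernel))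
noncomputable def rh746067a60ac8ead7 : CRef := CRef.mk (Pat.mk 0x2000000000000000380000003000000000 0xff0000007e0000001f000000380000003e00000014 6 8) 0 0 (step_sound _ 132 [(rh2d55c6a7f1c1aeb9.shift 1 0), rh6c65a162245a0214, (rh705aa4457925a0e4.shift 1 0), (rhd727bb41309b6841.shift 4 1)] (by decide +kernel))
noncomputable def rh832214c8bfb029d7 : CRef := CRef.mk (Pat.mk 0x800000018000000080000000800000000 0x8000000080000003c0000001f0000001c00000014 6 6) 0 0 (step_sound _ 4 [rh9282155052eec39d, (rhd3458b32566d63f7.shift 3 0)] (by decide +kernel))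
noncomputable def rh36a6df2b3dd177a0 : CRef := CRef.mk (Pat.mk 0xc0000000c000000080000000000000000 0x80000000c0000000c000000380000001f0000001c 6 6) 0 0 (step_sound _ 35 [(rh7b1f1fb55310c477.shift 2 0), rhb20dd801f506db0f] (by decide +kernel))
noncomputable def rhd901206d497fba4d : CRef := CRef.mk (Pat.mk 0x1800000018000000100000000000000000 0x1800000018000000180000003c000000ff0000002c00000008 6 8) 0 0 (step_sound _ 163 [(rh2145e1d24b96a57e.shift 3 2), rh9e2ba21e438793f4] (by decide +kernel))
noncomputable def rhf612971067a4160f : CRef := CRef.mk (Pat.mk 0x600000006000000020000000200000000 0x20000000600000006000000070000003f0000000d 6 6) 0 0 (step_sound _ 0 [rh65a3a4cf67baf828, rh79877ebd3ef475dd] (by decide +kernel))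
noncomputable def rh513c0b2cf11728aa : CRef := CRef.mk (Pat.mk 0x1800000038000000000000000000000000 0x80000001f0000003f000000670000002400000024 6 7) 0 0 (step_sound _ 98 [(rh0e1512cbacfbd48b.shift 0 2), (rh4f129d8f37c2c70a.shift 1 0), rh64b325a235d46f0c] (by decide +kernel))
noncomputable def rhffde72ddfd4a3747 : CRef := CRef.mk (Pat.mk 0x200000000000000038000000100000001000000000 0xff0000007e0000001f0000003e000000760000003000000020 6 8) 0 0 (step_sound _ 163 [(rh7003bb3e107c4a7a.shift 3 0), (rh93c9b17a318f9035.shift 1 2), rha3fdb91a72ff80e1, (rhf4bcdf19b6922e31.shift 3 1)] (by decide +kernel))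
noncomputable def rhbdcb5b8b4bf6b62d : CRef := CRef.mk (Pat.mk 0x80000000000000030000000100000001000000000 0xff0000007e0000003700000030000000300000003000000020 6 8) 0 0 (step_sound _ 165 [(rh7451f34b061ea69b.shift 4 1), rha3fdb91a72ff80e1, (rhb009278fdd334770.shift 4 1), (rhd932d223c9e56252.shift 4 1)] (by decide +kernel))
noncomputable def rh6e43e9887ec6e5de : CRef := CRef.mk (Pat.mk 0x10000000380000001000000010 0x4000000040000002e0000003e0000003f0000001f00000010 6 6) 0 0 (step_sound _ 99 [rh07a661e9f0498fb1, (rh50fbb5868c909700.shift 3 0)] (by decide +kernel))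
noncomputable def rhd41c4688bb1ee153 : CRef := CRef.mk (Pat.mk 0x200000003000000020000000200000000 0x400000007000000070000000300000003000000030000000600000004 6 3) 0 0 (step_sound _ 2 [(rh1dffa6d8a02b5f3a.shift 0 1), (rhd3458b32566d63f7.shift 1 0)] (by decide +kernel))
noncomputable def rh870e4c10eb76f448 : CRef := CRef.mk (Pat.mk 0x2000000070000000200000002 0x400000006000000070000000300000007000000070000000300000002 6 3) 0 0 (step_sound _ 128 [(rhaab5ceba66f0fc15.shift 0 1), rhffd04209dc8ea796] (by decide +kernel))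
noncomputable def rh54e71fcb58017c89 : CRef := CRef.mk (Pat.mk 0x2000000030000000200000002 0x100000003000000070000000600000007000000030000000300000002 6 3) 0 0 (step_sound _ 130 [(rhb60f7b5f106dc778.shift 0 1), (rhbaefcd01e0a8bca3.shift 1 0)] (by decide +kernel))
noncomputable def rhdeff9f7901b67b7d : CRef := CRef.mk (Pat.mk 0x200000003000000020000000200000000 0x100000007000000070000000600000003000000030000000600000004 6 3) 0 0 (step_sound _ 2 [(rh65e8eebd79bda951.shift 0 1), (rhd3458b32566d63f7.shift 1 0)] (by decide +kernel))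
noncomputable def rhd45fa81d5cfb9751 : CRef := CRef.mk (Pat.mk 0x200000003000000020000000200000000 0x200000006000000070000000700000003000000030000000600000004 6 3) 0 0 (step_sound _ 2 [(rhb5031467c3cb5c4f.shift 0 1), (rhd3458b32566d63f7.shift 1 0)] (by decide +kernel))
noncomputable def rhe6aacfe85f7225f3 : CRef := CRef.mk (Pat.mk 0x1c00000018000000080000000000000000 0x10000000180000001f0000001c000000f80000003000000030 6 8) 0 0 (step_sound _ 129 [(rh96d738d39e190647.shift 2 0), (rhb739f4f82bb681b4.shift 0 3)] (by decide +kernel))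
noncomputable def rhcb3e6598d67b4132 : CRef := CRef.mk (Pat.mk 0x700000006000000020000000000000000 0x400000006000000070000003e0000003e0000000c0000000c 6 6) 0 0 (step_sound _ 162 [(rh5c5e593799055d58.shift 1 2), rhc611a624598d8969] (by decide +kernel))
noncomputable def rhad40e145b6fd70d7 : CRef := CRef.mk (Pat.mk 0x800000018000000080000000c 0x170000001f0000001e0000000f0000000c 6 5) 0 0 (step_sound _ 98 [(rh50fbb5868c909700.shift 2 0), rhbb8a0041df42662e] (by decide +kernel))
noncomputable def rh3316f66cb55958ee : CRef := CRef.mk (Pat.mk 0xc000000180000000800000008 0x800000018000000180000001f0000001c0000001c00000008 6 5) 0 0 (step_sound _ 96 [(rhab22b5b56e7b3243.shift 0 2), (rhf8e4a04a5e3060b7.shift 2 0)] (by decide +kernel))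
noncomputable def rhdc06da1b963e9d53 : CRef := CRef.mk (Pat.mk 0x200000006000000020000000200000000 0x400000007000000070000000300000006000000060000000300000001 6 3) 0 0 (step_sound _ 0 [(rh72afbdc90680d7b8.shift 0 1), rh79877ebd3ef475dd] (by decide +kernel))
noncomputable def rh0f5b52d4c767672f : CRef := CRef.mk (Pat.mk 0x60000000200000002000000000000000000000000 0x100000003000000070000000600000003000000070000000700000005 6 3) 0 0 (step_sound _ 65 [rh8aec56c4ee12918c, (rh8c3839f9b9075f23.shift 1 0), (rhaba26d7b21102469.shift 0 1)] (by decide +kernel))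
noncomputable def rhe9e3efd86885797f : CRef := CRef.mk (Pat.mk 0xc00000018000000080000000800000000 0x130000001f0000001e0000000f0000000c00000004 6 5) 0 0 (step_sound _ 129 [rh5a3b80cf9d16256e, (rhb739f4f82bb681b4.shift 0 3)] (by decide +kernel))
noncomputable def rh48a009774cd40bae : CRef := CRef.mk (Pat.mk 0x20000000600000002000000020000000400000000 0x40000000700000007000000030000000600000006000000020000000600000004 6 3) 0 0 (step_sound _ 2 [(rh72afbdc90680d7b8.shift 0 2), (rhbe0e43a3bc50a43f.shift 1 0)] (by decide +kernel))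
noncomputable def rhe70151e18210dfbc : CRef := CRef.mk (Pat.mk 0x20000000600000002000000020000000100000000 0x40000000700000007000000030000000600000006000000020000000300000001 6 3) 0 0 (step_sound _ 0 [(rh72afbdc90680d7b8.shift 0 2), rheea67dfebd0f8008] (by decide +kernel))
noncomputable def rhad0934b22b37e0cb : CRef := CRef.mk (Pat.mk 0x800000008000000180000000c00000000 0x1000000018000000180000001c000000ff00000070 6 8) 0 0 (step_sound _ 33 [(rh53b3c253cb0c65f4.shift 0 1), (rhff509b783c9e6633.shift 2 0)] (by decide +kernel))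
noncomputable def rh47b14c8d210e4def : CRef := CRef.mk (Pat.mk 0x2000000020000000600000002 0x2000000060000000700000007000000070000000700000002 6 3) 0 0 (step_sound _ 96 [rh0ce3bf25da4d5c0a, rh50fbb5868c909700] (by decide +kernel))
noncomputable def rh4e2da8ffde709d9e : CRef := CRef.mk (Pat.mk 0x20000000200000006000000020000000100000000 0x10000000700000007000000060000000600000006000000020000000300000001 6 3) 0 0 (step_sound _ 0 [(rhccb3a79fd989e123.shift 0 2), rheea67dfebd0f8008] (by decide +kernel))
noncomputable def rh5f29f14eb2f496c3 : CRef := CRef.mk (Pat.mk 0x20000000200000006000000020000000100000000 0x40000000700000007000000030000000600000006000000020000000300000001 6 3) 0 0 (step_sound _ 0 [(rh64bc0dab78a08b48.shift 0 2), rheea67dfebd0f8008] (by decide +kernel))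
noncomputable def rh022945335250c898 : CRef := CRef.mk (Pat.mk 0x40000000c000000040000000400000000 0x80000000c0000000c0000000f0000003e0000003a 6 6) 0 0 (step_sound _ 131 [(rh2f68792b6b779e96.shift 2 1), rh42eeeaf8cbfaff8e] (by decide +kernel))
noncomputable def rh0bb2428119dee8d7 : CRef := CRef.mk (Pat.mk 0x1800000010000000100000001000000000 0x18000000180000003c000000ff0000002e 6 8) 0 0 (step_sound _ 35 [rh842017b23bb03699, (rh932754581e0f4330.shift 3 0)] (by decide +kernel))
noncomputable def rha8a3898ade1058e7 : CRef := CRef.mk (Pat.mk 0xe00000018000000080000000000000000 0x10000000330000001e0000001f0000000f0000000f00000004 6 6) 0 0 (step_sound _ 132 [rh20ee7b632330955c, (rh5421160f8e9bcf07.shift 1 2), (rhd4d36b4007f546b1.shift 1 1)] (by decide +kernel))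
noncomputable def rh8edd840e5450c0b9 : CRef := CRef.mk (Pat.mk 0xe000000180000000800000000 0x14000000370000001e0000001f0000000f00000002 6 6) 0 0 (step_sound _ 100 [(rh5421160f8e9bcf07.shift 1 1), rhd4a8ecd7841d7788] (by decide +kernel))
noncomputable def rhc585ea5d686b41f1 : CRef := CRef.mk (Pat.mk 0xc00000018000000080000000800000000 0x130000001f0000001c0000000e0000007c00000014 6 7) 0 0 (step_sound _ 129 [(rhb739f4f82bb681b4.shift 0 3), rhec871e9bfd489625] (by decide +kernel))
noncomputable def rhf723baab40601734 : CRef := CRef.mk (Pat.mk 0x1800000058000000080000000800000000 0x5800000058000001f8000000ff000001f4 6 9) 0 0 (step_sound _ 36 [rh144b5a8063f73299, (rh55afc6a59410cf00.shift 3 0)] (by decide +kernel))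
noncomputable def rh31baa31b3d46af04 : CRef := CRef.mk (Pat.mk 0x2c0000000c000000000000000c00000000 0x2e0000007e000000f00000007e000000ff 6 8) 0 0 (step_sound _ 36 [(rh2c6e93c037a514db.shift 1 0), (rh5536604e9c50a79c.shift 1 0), rh7ce203c1e71b4ea1, (rh9541b3c1842526a9.shift 1 0), rha01174d4cecfbc58] (by decide +kernel))
noncomputable def rh9edbaaacd1949fa9 : CRef := CRef.mk (Pat.mk 0x80000001800000018000000000000000000000000 0x40000000c0000001c000000380000001f0000001c00000008 6 6) 0 0 (step_sound _ 68 [(rh7b1f1fb55310c477.shift 3 1), rhdf196a46f536507f] (by decide +kernel))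
noncomputable def rhdb891aab85de5d49 : CRef := CRef.mk (Pat.mk 0x20000000600000006000000000000000000000000 0x300000003000000030000000600000006000000030000000300000003 6 3) 0 0 (step_sound _ 193 [(rh2145e1d24b96a57e.shift 1 3), rha4e48795de5c404c] (by decide +kernel))
noncomputable def rhe35afae26fd02320 : CRef := CRef.mk (Pat.mk 0x80000001800000018000000100000000000000000 0x40000000c0000001c0000001f000000ff000000ec0000000c 6 8) 0 0 (step_sound _ 67 [(rhbb83b53687587fb2.shift 2 0), (rhcac45fba302e8108.shift 0 1), (rhdf997f77704b6375.shift 2 0)] (by decide +kernel))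
noncomputable def rhc20bf614dbad47bf : CRef := CRef.mk (Pat.mk 0x80000001800000018000000100000000000000000 0x800000018000000ff000000ff0000000400000004 6 8) 0 0 (step_sound _ 98 [rh258665fe1049a1a5, (rheb789f57fbd90551.shift 1 0), (rhf56e6bc5d2f7fe77.shift 0 2)] (by decide +kernel))
noncomputable def rh5aca1e19d8013396 : CRef := CRef.mk (Pat.mk 0x800000008000000180000001800000000 0x40000000c0000000c0000001f0000003f00000007 6 6) 0 0 (step_sound _ 34 [rh045a5418e2d5f1d8, (rh932754581e0f4330.shift 2 0)] (by decide +kernel))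
noncomputable def rhe04da3bc8ca60902 : CRef := CRef.mk (Pat.mk 0x800000018000000180000001000000000 0x2000000020000000f0000001f0000003f0000003600000006 6 6) 0 0 (step_sound _ 66 [rh7beb69f9f9f1fe21, (rhf56e6bc5d2f7fe77.shift 0 1)] (by decide +kernel))
noncomputable def rh1d2317d9f1994660 : CRef := CRef.mk (Pat.mk 0xc0000000c000000040000000000000000 0x20000000f0000003c000000040000000e0000000e 6 6) 0 0 (step_sound _ 34 [(rh71222050f2c63a3a.shift 2 0), rha8fd5cfc43aa7576] (by decide +kernel))
noncomputable def rh020140c103c93fec : CRef := CRef.mk (Pat.mk 0x20000000200000002000000000000000000000000 0x100000003000000030000000300000006000000070000000700000005 6 3) 0 0 (step_sound _ 65 [rh46baee19951a66e7, rh6aa5625770489e83, rh8cdd36b03d57a2f6, (rhd7cb8ed87e2022d8.shift 0 1)] (by decide +kernel))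
noncomputable def rh52e1e841d02c25bb : CRef := CRef.mk (Pat.mk 0x200000006000000020000000200000000 0x300000003000000070000000600000006000000030000000300000001 6 3) 0 0 (step_sound _ 32 [(rh11c33b0a4bfc4293.shift 0 1), rh932754581e0f4330] (by decide +kernel))
noncomputable def rhb74aedd3e0c8c30a : CRef := CRef.mk (Pat.mk 0x80000001a00000018000000000000000000000000 0x500000015000000370000001f0000001b0000003f000000070000000700000005 6 6) 0 0 (step_sound _ 97 [rh1319ede34a3dc0f5, rh2cb17276bcd8a24a, rh56e90c12f0808c38, (rh6e1685e3533aff0e.shift 0 3)] (by decide +kernel))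
noncomputable def rh190f50f8cfe53995 : CRef := CRef.mk (Pat.mk 0x1800000000000000580000001800000000 0x20000001ff000001fe000003c70000005c000000f800000020 6 10) 0 0 (step_sound _ 133 [(rh060926ecec842035.shift 2 0), (rh0c51f2671b23acf3.shift 0 1), (rh1f4e743b7f07a4a4.shift 1 1), (rh4e20d05abc66f09b.shift 1 0), (rh7dae0897ea8d3610.shift 2 1), (rhdbc7f04602ef2d62.shift 2 1)] (by decide +kernel))
noncomputable def rhc7cd2e91d7001867 : CRef := CRef.mk (Pat.mk 0x280000000c00000008000000000000000000000000 0x28000000280000003f00000078000000300000001000000010 6 7) 0 0 (step_sound _ 100 [(rh046c5eb18e55a239.shift 3 0), (rh4ca5dae25f5c14ff.shift 0 3), (rha95b171f77e3178a.shift 2 0)] (by decide +kernel))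
noncomputable def rhca6605344f7259cc : CRef := CRef.mk (Pat.mk 0x280000000d00000008000000000000000000000000 0x28000000280000002f00000078000000300000001000000010 6 7) 0 0 (step_sound _ 100 [(rha95b171f77e3178a.shift 2 0), (rhab22b5b56e7b3243.shift 0 3)] (by decide +kernel))
noncomputable def rh0c01d91ba3e46555 : CRef := CRef.mk (Pat.mk 0x1a0000001a0000000000000000 0x4000000140000003e0000001f0000001f0000001a0000001200000010 6 6) 0 0 (step_sound _ 131 [(rh55a1f6c57a317ce6.shift 3 0), (rh76075b560bca37bd.shift 0 1)] (by decide +kernel))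
noncomputable def rhd4adaf48c529f632 : CRef := CRef.mk (Pat.mk 0x1a0000001a000000000000000000000000 0x500000007000000070000000f0000001e0000001b000000130000001100000011 6 5) 0 0 (step_sound _ 68 [(rh3cb04db3dd2b6a55.shift 3 0), rh98b6c5c3bad437de] (by decide +kernel))
noncomputable def rhe8099882995c63f6 : CRef := CRef.mk (Pat.mk 0x1a0000001a000000000000000000000000 0x5000000150000003f0000001f0000001b0000001b000000170000001700000005 6 6) 0 0 (step_sound _ 161 [(rh0198bbeb35668834.shift 0 1), (rh0e69f10a19d6b0e6.shift 0 1), rh5a31c14f96fd41e0, (rh94cc00a2780e308c.shift 0 1), (rh95efdbea5db7765e.shift 0 1)] (by decide +kernel))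
noncomputable def rh5741ae92e0aa0f9c : CRef := CRef.mk (Pat.mk 0x800000008000000180000001800000000 0x1000000018000000180000001c000000ff00000064 6 8) 0 0 (step_sound _ 34 [(rh932754581e0f4330.shift 2 0), rhcb123f2d6e948dd6] (by decide +kernel))
noncomputable def rha3bc8fde1705ddca : CRef := CRef.mk (Pat.mk 0x80000001800000018000000100000000000000000 0x2000000020000001f0000001f0000007f000000f40000002400000020 6 8) 0 0 (step_sound _ 130 [(rh486e5a86147aba03.shift 2 0), (rh6292bd8784ece55f.shift 1 3), (rh6a5e957f480db0a7.shift 0 1)] (by decide +kernel))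
noncomputable def rh517c20dc31e3a4b6 : CRef := CRef.mk (Pat.mk 0x20000001e000000020000000000000000 0x50000000700000007000000060000001e000000360000000600000006 6 6) 0 0 (step_sound _ 161 [(rh8d034e937ee609e9.shift 0 2), (rhca18712e5e5c7b8f.shift 1 0), (rhd4b4beefcd67f51e.shift 1 1)] (by decide +kernel))
noncomputable def rhf33a8cb4f24bd80f : CRef := CRef.mk (Pat.mk 0x20000001e000000020000000200000000 0x4000000070000000700000007000000060000001e000000320000000600000004 6 6) 0 0 (step_sound _ 68 [rh676bc3459355ec3c, (rhe25b0a99195a5d59.shift 1 2)] (by decide +kernel))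
noncomputable def rh0e503157379b1584 : CRef := CRef.mk (Pat.mk 0x180000001e000000000000000000000000 0x10000000180000001e0000003f0000003800000038 6 6) 0 0 (step_sound _ 68 [rhdf67e59260b106ea, (rhe25b0a99195a5d59.shift 1 2)] (by decide +kernel))
noncomputable def rh899d6420917dc49f : CRef := CRef.mk (Pat.mk 0x180000001e000000000000000000000000 0x30000000b0000001f0000001e0000000f0000000400000004 6 5) 0 0 (step_sound _ 129 [(rh3244c3cc8379b070.shift 0 3), rh7fb78e11efdf8624] (by decide +kernel))
noncomputable def rh94aac3870eca1fed : CRef := CRef.mk (Pat.mk 0x800000038000000000000000000000000 0x40000000c0000000c0000000f000000780000001f0000001c00000004 6 7) 0 0 (step_sound _ 67 [(rh7316ea91192e5cd6.shift 0 1), (rhca55a751ad914d51.shift 2 0), (rhd9106766b9ff53c0.shift 2 2), (rhf0f55c4504412200.shift 0 2)] (by decide +kernel))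
noncomputable def rh12eb4baa7f87f3d6 : CRef := CRef.mk (Pat.mk 0x1a0000000e000000000000000000000000 0x3000000030000001f0000000e000000070000000700000005 6 5) 0 0 (step_sound _ 161 [(rh235edbdf3bbc6c03.shift 1 0), (rha768b229dc254047.shift 1 0), rhfd0e11092a1ca0cb] (by decide +kernel))
noncomputable def rheb7fec5f3ca5d1b7 : CRef := CRef.mk (Pat.mk 0x1a0000000e000000000000000000000000 0x2000000070000001f0000001e000000070000000600000002 6 5) 0 0 (step_sound _ 100 [rh1ac601acf5196957, (rh3244c3cc8379b070.shift 0 3)] (by decide +kernel))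
noncomputable def rh85815cf6b58664df : CRef := CRef.mk (Pat.mk 0x20000001e000000020000000200000000 0x400000006000000060000001e000000360000000700000005 6 6) 0 0 (step_sound _ 0 [rh79877ebd3ef475dd, (rhb506524ff5b0c9bd.shift 1 0)] (by decide +kernel))
noncomputable def rhf5c5d32370337121 : CRef := CRef.mk (Pat.mk 0x20000000200000002000000020000000000000000 0x100000003000000030000000200000006000000070000000700000001 6 3) 0 0 (step_sound _ 32 [(rh79877ebd3ef475dd.shift 0 1), rhbcd04d4e71cbf5ce] (by decide +kernel))
noncomputable def rh1a7f387949e50f60 : CRef := CRef.mk (Pat.mk 0x1800000008000000080000001800000000 0x18000000180000003e0000007f00000064 6 7) 0 0 (step_sound _ 34 [(rh932754581e0f4330.shift 2 0), rhd6e3221d42ba1ef3] (by decide +kernel))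
noncomputable def rh68290b7da9a13d8b : CRef := CRef.mk (Pat.mk 0x1e000000020000000000000000 0x3000000070000003f0000001e000000060000000600000002 6 6) 0 0 (step_sound _ 129 [(rh3244c3cc8379b070.shift 0 3), rh6053027cb5016fff] (by decide +kernel))
noncomputable def rh2b95ce330a9b3a2e : CRef := CRef.mk (Pat.mk 0x20000000300000002000000000000000000000000 0x1000000070000000700000007000000030000000300000002000000070000000700000005 6 3) 0 0 (step_sound _ 65 [(rh27d70429fd5018e0.shift 0 2), rh8cdd36b03d57a2f6, (rhe286c75f2739cce2.shift 0 1)] (by decide +kernel))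
noncomputable def rh7a01b931a6db6519 : CRef := CRef.mk (Pat.mk 0x2000000020000001e00000000 0x10000000100000003000000030000003e0000001f00000002 6 6) 0 0 (step_sound _ 68 [(rh33e738c4ed385b9f.shift 1 1), rhe08e8dcf58cbb11c] (by decide +kernel))
noncomputable def rh0bbbe720dc07bd9a : CRef := CRef.mk (Pat.mk 0x800000008000000780000000000000000000000000000000000000000 0x140000001f000000f80000007c000000180000001c0000001c0000001c00000010 6 8) 0 0 (step_sound _ 131 [(rh60e0e47507e03bc9.shift 2 3), (rhb569fc3d362b7913.shift 0 3), (rhe501f2514eb92025.shift 2 0)] (by decide +kernel))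
noncomputable def rh3139076b15d8b071 : CRef := CRef.mk (Pat.mk 0x90000000c00000008000000000000000000000000 0x40000001c0000001c0000001c0000000f0000000c000000080000001c0000001c00000014 6 5) 0 0 (step_sound _ 67 [(rh8cdd36b03d57a2f6.shift 2 0), (rhd3c0f549cae29c91.shift 0 1), (rhe286c75f2739cce2.shift 2 1)] (by decide +kernel))
noncomputable def rh3ab16a0ea989f385 : CRef := CRef.mk (Pat.mk 0xe00000018000000000000000000000000 0x14000000770000003e0000001f0000000b0000000b00000002 6 7) 0 0 (step_sound _ 132 [rh38944da09e6b0442, (rhafa8ad03fb07c74b.shift 0 1), (rhb18e6c78a554867d.shift 0 4), (rhc0fc7017c0a08396.shift 0 1)] (by decide +kernel))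
noncomputable def rh96d1baa65b121e84 : CRef := CRef.mk (Pat.mk 0x8000000180000001800000000 0x4000000040000000e000000ff0000001f00000008 6 8) 0 0 (step_sound _ 69 [rh044527a986b46360, (rh4dc133ee0ba1420a.shift 1 1), (rhb762f327c85d41a0.shift 2 1)] (by decide +kernel))
noncomputable def rh7db208d87386469c : CRef := CRef.mk (Pat.mk 0x4000000060000000600000000 0xe0000000f0000003c000000060000000600000004 6 6) 0 0 (step_sound _ 130 [rh1bd0c14c4de1ef4d, (rh5c5e593799055d58.shift 1 1)] (by decide +kernel))
noncomputable def rh2d62db8bd1705ece : CRef := CRef.mk (Pat.mk 0x2000000060000000600000004 0x40000000c0000003f0000003e0000000700000006 6 6) 0 0 (step_sound _ 98 [rh3e07fa29f3ba9ea5, (rh84d1c02a8954c6a8.shift 1 0)] (by decide +kernel))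
noncomputable def rh08cbe09bc716bf6c : CRef := CRef.mk (Pat.mk 0x80000000c0000002c000000000000000000000000 0x1000000010000000300000007c0000002f0000002c000000280000000800000008 6 7) 0 0 (step_sound _ 164 [(rh8379dda7bed67b0f.shift 2 0), (rhd69c262cd33b94b3.shift 0 4), (rhf2e67599fbee60ee.shift 2 2)] (by decide +kernel))
noncomputable def rh16ad2d6c8dc616da : CRef := CRef.mk (Pat.mk 0x380000001a0000000000000000 0x2000000020000000760000003f0000001b0000001000000010 6 7) 0 0 (step_sound _ 98 [(rh710860539a4c4362.shift 0 2), (rhc76e5e57485f4c6b.shift 1 0)] (by decide +kernel))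
noncomputable def rh4fc2683d0f08f33c : CRef := CRef.mk (Pat.mk 0x800000008000000180000000800000000 0x140000003c0000000f000000780000000800000008 6 7) 0 0 (step_sound _ 130 [(rh50fbb5868c909700.shift 2 1), rh6f1063697b70fc38] (by decide +kernel))
noncomputable def rha3efcb708b50b020 : CRef := CRef.mk (Pat.mk 0x400000004000000040000000c00000000 0x1c0000003c0000000f0000000c0000000c00000004 6 6) 0 0 (step_sound _ 67 [(rh2145e1d24b96a57e.shift 2 1), rhd65b950e17d04dd6] (by decide +kernel))
noncomputable def rh9839decae94601ac : CRef := CRef.mk (Pat.mk 0x2000000020000001600000006 0x1d0000001f0000003e0000001f00000006 6 6) 0 0 (step_sound _ 98 [rh241c297a462ebedb, (rh2f68792b6b779e96.shift 1 0)] (by decide +kernel))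
noncomputable def rh61d1bb5ba34a3d1f : CRef := CRef.mk (Pat.mk 0x200000002000000060000000200000000000000000000000000000000 0x40000000600000002000000060000000600000007000000070000000700000004 6 3) 0 0 (step_sound _ 226 [(rh2f68792b6b779e96.shift 1 4), rhe501f2514eb92025] (by decide +kernel))
noncomputable def rh3e0abc328d6ecece : CRef := CRef.mk (Pat.mk 0x200000016000000000000000000000000 0x80000003b0000001f000000300000001000000010 6 6) 0 0 (step_sound _ 99 [(rh3244c3cc8379b070.shift 0 3), rh6887ef21f67dd26a] (by decide +kernel))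
noncomputable def rhc86f4fd2698ba85a : CRef := CRef.mk (Pat.mk 0x180000001e0000000000000000 0x12000000330000001f0000001e0000000c0000000c 6 6) 0 0 (step_sound _ 97 [(rh3244c3cc8379b070.shift 0 2), rhb86d69afdb8af463] (by decide +kernel))
noncomputable def rhe93df55a4201268e : CRef := CRef.mk (Pat.mk 0x180000001e0000000000000000 0x30000000300000001f0000001e0000003b00000008 6 6) 0 0 (step_sound _ 97 [(rh3244c3cc8379b070.shift 0 2), rhe0b504e410382307] (by decide +kernel))
noncomputable def rh32c2fef5aa348c66 : CRef := CRef.mk (Pat.mk 0x8000000080000000c0000000c 0x170000001f0000007c0000000f0000000c 6 7) 0 0 (step_sound _ 98 [(rh50fbb5868c909700.shift 2 0), rh665a1177b3fbf9b1] (by decide +kernel))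
noncomputable def rhd9164732ba75fd1b : CRef := CRef.mk (Pat.mk 0x2000000020000000300000003000000000000000000000000 0x500000007000000060000000300000003000000060000000600000006 6 3) 0 0 (step_sound _ 192 [(rh50fbb5868c909700.shift 0 3), rh82c6aec0c6f8e399] (by decide +kernel))
noncomputable def rha31cdc86c9c772cb : CRef := CRef.mk (Pat.mk 0x80000000b0000000100000001000000000000000000000000 0x100000001000000018000000190000000f0000001b0000001f0000001e0000001200000002 6 5) 0 0 (step_sound _ 97 [rh046c5eb18e55a239, (rh86f295e06796dd35.shift 0 1)] (by decide +kernel))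
noncomputable def rhdbad845edadf662c : CRef := CRef.mk (Pat.mk 0x1400000016000000020000000200000000 0x30000000b0000003b0000001e0000001f000000360000003700000005 6 6) 0 0 (step_sound _ 129 [rh5c46ef0f4f914245, (rh5e3088e1089ccf0d.shift 0 1), rha515645b871f569d, rhd092206b36911859, rhe056292ef7f1dc7c] (by decide +kernel))
noncomputable def rhf18a21e6e7a6c73d : CRef := CRef.mk (Pat.mk 0xc0000000c000000040000000400000000 0x140000003c0000000f0000000c0000001c00000018 6 6) 0 0 (step_sound _ 35 [rh07dae989fc205014, (rh55afc6a59410cf00.shift 2 0)] (by decide +kernel))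
noncomputable def rh43f7aebc74997e86 : CRef := CRef.mk (Pat.mk 0x600000006000000020000000200000000 0x300000003000000030000000600000006000000030000000700000005 6 3) 0 0 (step_sound _ 2 [rh030c4742f34cb5b5, (rhd3458b32566d63f7.shift 1 0)] (by decide +kernel))
noncomputable def rh3b0a6875af7e446e : CRef := CRef.mk (Pat.mk 0x16000000020000000000000000 0x8000000380000001f000000330000001000000010 6 6) 0 0 (step_sound _ 99 [rh6887ef21f67dd26a, (rheb0810cc63b001d8.shift 0 2)] (by decide +kernel))
noncomputable def rhae796c826032a322 : CRef := CRef.mk (Pat.mk 0x20000001e000000020000000200000000 0x4000000070000000700000003000000060000001e000000360000000700000005 6 6) 0 0 (step_sound _ 68 [rhdd74802d7c55916c, (rhe25b0a99195a5d59.shift 1 2)] (by decide +kernel))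
noncomputable def rh0429c9071f066fc7 : CRef := CRef.mk (Pat.mk 0x20000001e000000020000000200000000 0x50000000700000007000000020000001e000000360000000600000004 6 6) 0 0 (step_sound _ 34 [(rh55afc6a59410cf00.shift 1 0), (rhf0cb8f078e674223.shift 0 1)] (by decide +kernel))
noncomputable def rh07962527c61356c4 : CRef := CRef.mk (Pat.mk 0x80000001800000010000000000000000000000000 0xc0000000c0000001c000000380000001f0000000c0000000c00000008 6 6) 0 0 (step_sound _ 195 [(rh2145e1d24b96a57e.shift 3 3), rhafadb018ec21fcf6] (by decide +kernel))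
noncomputable def rh840a50ebb9b65cf8 : CRef := CRef.mk (Pat.mk 0x40000000e000000180000000000000000 0x80000000c0000000e0000001e0000001f0000001e 6 5) 0 0 (step_sound _ 35 [rh2481afafbbadd3f7, (rh7b1f1fb55310c477.shift 2 0)] (by decide +kernel))
noncomputable def rh3df0e85aff8338af : CRef := CRef.mk (Pat.mk 0x2000000060000000200000000000000000000000000000000 0x5000000070000000700000002000000060000000600000007000000070000000700000004 6 3) 0 0 (step_sound _ 225 [(rhc85cc95794737cf7.shift 0 4), (rhd4b4beefcd67f51e.shift 1 3), rhe501f2514eb92025] (by decide +kernel))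
noncomputable def rhbcdfbe15be8b72fd : CRef := CRef.mk (Pat.mk 0x1e000000180000000000000000 0x2000000030000003e0000001f0000000700000004 6 6) 0 0 (step_sound _ 65 [rhc0e04fdc028e9630, (rheb0810cc63b001d8.shift 0 2)] (by decide +kernel))
noncomputable def rh99fe19aac3024111 : CRef := CRef.mk (Pat.mk 0x800000008000000180000000c00000000 0x1800000018000000380000001f0000000f00000008 6 6) 0 0 (step_sound _ 32 [(rh24ae073cf30720c4.shift 0 1), rhef62ddac988aa3fb] (by decide +kernel))
noncomputable def rh403db54d92b08bb3 : CRef := CRef.mk (Pat.mk 0x40000000c00000007000000000000000000000000 0x80000000c0000000c0000000f0000003e0000000e00000002 6 6) 0 0 (step_sound _ 66 [rh77073e867a5829ab, (rha707fb719e87fe6e.shift 2 1), (rhb6683bf8ce83f2d6.shift 0 1)] (by decide +kernel))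
noncomputable def rha3746fa128f08036 : CRef := CRef.mk (Pat.mk 0x200000006000000020000000200000000 0x60000000600000006000000070000003e0000000c 6 6) 0 0 (step_sound _ 34 [rh09dad20d86921cc4, (rh55afc6a59410cf00.shift 1 0)] (by decide +kernel))
noncomputable def rhd530ff4f3feedadc : CRef := CRef.mk (Pat.mk 0x20000000200000002000000060000000000000000 0x400000007000000070000000200000006000000070000000300000001 6 3) 0 0 (step_sound _ 32 [rh39a8414770f6bcd8, (rh79877ebd3ef475dd.shift 0 1)] (by decide +kernel))
noncomputable def rh398538c89d4a7d72 : CRef := CRef.mk (Pat.mk 0x4000000040000000c0000000400000000 0x3a0000003e0000000f0000000c0000000c00000008 6 6) 0 0 (step_sound _ 131 [(rh2f68792b6b779e96.shift 2 1), rh7978d5716d83e85d] (by decide +kernel))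
noncomputable def rhab013d21b440909a : CRef := CRef.mk (Pat.mk 0x20000000380000006000000000000000000000000000000000 0x180000001e000000fe000000780000007f0000001c0000000c0000000c00000004 6 8) 0 0 (step_sound _ 131 [(rh037b047add8f6e37.shift 1 1), (rh03f76bc4015e94e6.shift 1 2), (rh968e200210144407.shift 2 0), (rhf0f55c4504412200.shift 0 4)] (by decide +kernel))
noncomputable def rh709711d5cb9c893d : CRef := CRef.mk (Pat.mk 0x2000000020000001e00000000 0x5000000070000000700000002000000020000001e00000034 6 6) 0 0 (step_sound _ 4 [rh14e0829dc73b6804, (rhe25b0a99195a5d59.shift 1 0)] (by decide +kernel))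
noncomputable def rhc2588e0111bba9c1 : CRef := CRef.mk (Pat.mk 0x200000002000000120000001600000000 0x5000000070000000700000002000000320000001f00000001 6 6) 0 0 (step_sound _ 0 [rh79877ebd3ef475dd, (rhebccaad30396f3e6.shift 0 1)] (by decide +kernel))
noncomputable def rhd62cc330e8a28dc8 : CRef := CRef.mk (Pat.mk 0x200000002000000120000001600000000 0x4000000060000000600000002000000360000001f00000031 6 6) 0 0 (step_sound _ 0 [(rh5de63b8c7724a744.shift 1 0), rh79877ebd3ef475dd] (by decide +kernel))
noncomputable def rh9869829a310d6961 : CRef := CRef.mk (Pat.mk 0x400000004000000240000002c 0x3a0000003f0000007f0000002c0000002c 6 7) 0 0 (step_sound _ 99 [(rh2f68792b6b779e96.shift 2 0), rh9a90d2b1ba862de9] (by decide +kernel))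
noncomputable def rh5af6eb118e13ffba : CRef := CRef.mk (Pat.mk 0x200000002000000120000001600000000 0x1000000030000000300000002000000360000001f00000031 6 6) 0 0 (step_sound _ 0 [rh79877ebd3ef475dd, rhedb40a12501d6daa] (by decide +kernel))
noncomputable def rh9eb2e97fc3aff560 : CRef := CRef.mk (Pat.mk 0x90000000b000000000000000200000000 0x140000001c0000001c000000190000000f0000003a0000001f00000017 6 6) 0 0 (step_sound _ 67 [(rhabf575676fe0ef70.shift 0 2), rhb850a36145626bbb, rhe4ef8610c997b0c6] (by decide +kernel))
noncomputable def rh8ff571457df3cf13 : CRef := CRef.mk (Pat.mk 0x1000000090000000b000000000000000000000000 0x140000001e0000001e0000003e0000001f0000001b0000000f000000180000001800000010 6 6) 0 0 (step_sound _ 163 [rh00e3ec32f621d1eb, (rh351e1775897306ef.shift 0 1), (rh3f1a57e395db3dc0.shift 0 2), (rh4a1b6efc1cdcd820.shift 0 3), (rh5a5f24d107771550.shift 0 1), (rhfd6ec4c8579a04e7.shift 0 1)] (by decide +kernel))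
noncomputable def rh37526e112293ad37 : CRef := CRef.mk (Pat.mk 0xd0000000b000000000000000000000000 0x4000000140000001c0000000f0000000f0000001a0000001a00000002 6 5) 0 0 (step_sound _ 162 [rh3110541e74b7acc2, (rh7e1a74a5227c2cdc.shift 0 1), rh8f10bb8289885fc6, (rha40d42a2e34c408d.shift 2 1), (rhb66ec419a6d128ce.shift 0 1)] (by decide +kernel))
noncomputable def rh799d8dd471fa94d2 : CRef := CRef.mk (Pat.mk 0x80000000c0000000c00000000 0xe0000000f0000003c0000000c0000000c00000008 6 6) 0 0 (step_sound _ 131 [(rh5c5e593799055d58.shift 2 1), rha10abbb88ab9db0f] (by decide +kernel))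
noncomputable def rhc6901b4ecc8a474f : CRef := CRef.mk (Pat.mk 0x1000000058000000180000000000000000 0xc0000002f000000fc000000d8000000180000001000000010 6 8) 0 0 (step_sound _ 131 [(rh01ff8e29f1e0af53.shift 0 2), (rh253d435fa1031887.shift 3 0), (rh3cb04db3dd2b6a55.shift 3 0)] (by decide +kernel))
noncomputable def rhb97e6206a97a2a48 : CRef := CRef.mk (Pat.mk 0x1c0000000c000000000000000000000000 0xc0000001c0000003c0000001f0000000c000000080000000800000008 6 6) 0 0 (step_sound _ 67 [(rh3cb04db3dd2b6a55.shift 2 0), (rhb0c1e7919d9be92d.shift 2 0), (rhdb54ba94a80dc88f.shift 0 2)] (by decide +kernel))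
noncomputable def rh3310823be38a730e : CRef := CRef.mk (Pat.mk 0x8000000180000001a000000000000000000000000 0x500000015000000370000001f0000007f0000001b000000170000001700000005 6 7) 0 0 (step_sound _ 129 [(rh086f6046fa319626.shift 0 3), rha3c23f12701b0ffc, (rhb677462e6b309c2e.shift 0 1), rhbde66912cb91526b] (by decide +kernel))
noncomputable def rh0f1a4de7adb62776 : CRef := CRef.mk (Pat.mk 0x1e0000000c000000000000000000000000 0x600000006000000070000001e0000000f000000030000000300000003 6 5) 0 0 (step_sound _ 97 [(rh53b3c253cb0c65f4.shift 0 3), rh9106cea440f48aab] (by decide +kernel))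
noncomputable def rh8d7882870c6327ed : CRef := CRef.mk (Pat.mk 0xc0000000c000000080000000000000000 0x100000003c0000000f000000080000001c0000001c 6 6) 0 0 (step_sound _ 35 [(rh7b1f1fb55310c477.shift 2 0), rhf843410b9106fcb3] (by decide +kernel))
noncomputable def rhee020b5f44b073d3 : CRef := CRef.mk (Pat.mk 0x800000000000000180000005800000010 0x1ff000000fe000001f7000000f80000005e00000010 6 9) 0 0 (step_sound _ 132 [(rh11c908474401bff1.shift 3 0), (rh4c61a8d65f05c464.shift 3 1), (rh85fdf627cabc37cf.shift 0 1), (rha799fda0b978792d.shift 3 0)] (by decide +kernel))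
noncomputable def rh76e0c6a262c63c20 : CRef := CRef.mk (Pat.mk 0x380000001c000000000000000000000000 0xc0000000c0000007e0000003f0000001c000000060000000600000006 6 7) 0 0 (step_sound _ 130 [(rh9106cea440f48aab.shift 1 0), (rhe25191970535449e.shift 0 3)] (by decide +kernel))
noncomputable def rhe59f1345ef823739 : CRef := CRef.mk (Pat.mk 0x8000000080000001800000018 0x740000007c0000001f0000007c00000018 6 7) 0 0 (step_sound _ 100 [(rh2f68792b6b779e96.shift 3 0), rh385d72c5ef37be10] (by decide +kernel))
noncomputable def rh48a1075465f85a8c : CRef := CRef.mk (Pat.mk 0x8000000180000005800000000 0x34000000f7000000ff000000ff0000005800000040 6 8) 0 0 (step_sound _ 101 [(rh2f0aa03ccf0e6806.shift 2 0), rh50a900181204f7e7, (rh659c529936a77dd0.shift 0 1), rh6ad5d74f467e265c, (rh8fe7170401fd2add.shift 0 1), (rhfa1081766c226f16.shift 1 1)] (by decide +kernel))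
noncomputable def rhdb5cb1654c05ec60 : CRef := CRef.mk (Pat.mk 0x4000000040000000c0000000c00000000 0x3a0000003e0000000f0000000c0000000e00000002 6 6) 0 0 (step_sound _ 131 [(rh2f68792b6b779e96.shift 2 1), rhe703c8505854daa7] (by decide +kernel))
noncomputable def rh47a88073edc5a79c : CRef := CRef.mk (Pat.mk 0x1000000000000000380000003000000000 0x1ff000000fe000001ef000000380000003e00000024 6 9) 0 0 (step_sound _ 133 [(rh31e6ad3683c68b2e.shift 3 0), (rh4c61a8d65f05c464.shift 4 1), rh8cf0b8cbd1c9c6c0, (rhfc714aa8878fdb73.shift 3 0)] (by decide +kernel))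
noncomputable def rhaf6a81b3e08a0cbc : CRef := CRef.mk (Pat.mk 0x8000000000000001c00000018 0x1800000018000000330000001f0000001b 6 6) 0 0 (step_sound _ 33 [rhb739f4f82bb681b4, rhee83cf6805d08263] (by decide +kernel))
noncomputable def rh00cd90bbe5c9cc68 : CRef := CRef.mk (Pat.mk 0x8000000180000001800000010 0x20000000200000007c000000ff0000001f00000010 6 8) 0 0 (step_sound _ 69 [rh1c44f819ea18af04, (rh4dc133ee0ba1420a.shift 1 1), (rhb762f327c85d41a0.shift 2 1)] (by decide +kernel))
noncomputable def rhab5eeb9ff42099e0 : CRef := CRef.mk (Pat.mk 0x180000001e000000000000000000000000 0x20000000300000001f0000001e000000380000001800000018 6 6) 0 0 (step_sound _ 68 [(rhe25b0a99195a5d59.shift 1 2), rheed30e75f61270a8] (by decide +kernel))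
noncomputable def rh985b564f2c18451d : CRef := CRef.mk (Pat.mk 0x180000001e000000000000000000000000 0x2000000070000001f0000001e000000070000000600000002 6 5) 0 0 (step_sound _ 129 [rh1ac601acf5196957, (rh3244c3cc8379b070.shift 0 3)] (by decide +kernel))
noncomputable def rh6e6b50710d33e3c7 : CRef := CRef.mk (Pat.mk 0x800000007000000010 0xce0000007e00000037 6 8) 0 0 (step_sound _ 35 [(rh428265de8cd3cd2d.shift 3 1), rh9d47ef67f175c917] (by decide +kernel))
noncomputable def rha1f97258f66dad78 : CRef := CRef.mk (Pat.mk 0x2000000080000000b000000000000000000000000 0x4000000140000001c0000001f000000780000000f000000180000001800000010 6 7) 0 0 (step_sound _ 163 [rh00e3ec32f621d1eb, (rh61afa6d7bed914c4.shift 0 3), (rh7f15fa011d28c2cf.shift 0 2), (rh81ffcb7ffeb30006.shift 0 2), (rh8d6d39585aa62640.shift 0 1), (rhe83083a0b9ea5815.shift 0 1)] (by decide +kernel))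
noncomputable def rhe039d27f63c82531 : CRef := CRef.mk (Pat.mk 0x80000000b0000000800000000 0x140000001c0000001c000000080000000f0000001800000010 6 5) 0 0 (step_sound _ 36 [(rh14e0829dc73b6804.shift 2 0), (rhc10214bf3fe8094a.shift 0 1)] (by decide +kernel))
noncomputable def rhd3489b46d8aacf69 : CRef := CRef.mk (Pat.mk 0x80000000b00000009000000010000000000000000 0x100000001e0000001f0000000e0000000b0000000b0000001d0000001c00000014 6 5) 0 0 (step_sound _ 194 [(rh16cef82952087e3f.shift 0 2), (rhbba7d23481996066.shift 2 0)] (by decide +kernel))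
noncomputable def rh0dd8ec4eca3d0437 : CRef := CRef.mk (Pat.mk 0x1000000010000000160000000200000002 0x2800000038000000fc0000003f00000034000000160000001600000002 6 8) 0 0 (step_sound _ 164 [(rh0b063257b0af5352.shift 0 1), (rhc85cc95794737cf7.shift 3 2), (rhd06ce55d14e03f0f.shift 1 0)] (by decide +kernel))
noncomputable def rh85a479b3b29d2fea : CRef := CRef.mk (Pat.mk 0x8000000080000000b00000001 0x4000000140000003f0000007f0000000e0000000b00000009 6 7) 0 0 (step_sound _ 130 [(rh041e4d25099758bc.shift 2 0), (rh0dbc8abee7ad42d4.shift 2 0), rh663264680379580a, (rhbab796f6dafe9186.shift 2 1), (rhbec796c3ea7a32e6.shift 1 0)] (by decide +kernel))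
noncomputable def rh14731c9d267d89b5 : CRef := CRef.mk (Pat.mk 0x1000000010000000160000000200000002 0x800000038000000380000003c0000001f0000003c000000160000001600000012 6 6) 0 0 (step_sound _ 164 [(rh0b063257b0af5352.shift 0 1), (rh196fb5a7fa564d15.shift 1 0), (rhc85cc95794737cf7.shift 3 2), (rhc929e02a5b6e9526.shift 0 1), (rhd29ab6c03998dfa3.shift 1 0)] (by decide +kernel))
noncomputable def rh2c2ec980cbdd966d : CRef := CRef.mk (Pat.mk 0x8000000080000000b000000010000000100000000 0x60000001f0000007e0000000b0000001b0000001900000010 6 7) 0 0 (step_sound _ 67 [(rh46baee19951a66e7.shift 2 0), rh5e9756a408d0dd9b, (rhe628ebbbd21aa988.shift 0 1)] (by decide +kernel))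
noncomputable def rh4c4098e8a4e70532 : CRef := CRef.mk (Pat.mk 0x8000000080000000b0000000100000001 0x10000000100000001a0000007e0000001e0000000b0000000b00000001 6 7) 0 0 (step_sound _ 97 [(rh63cdba9bf27276ad.shift 0 1), rh69755ef358ebfd54] (by decide +kernel))
noncomputable def rhdcfee4e2b4c66533 : CRef := CRef.mk (Pat.mk 0x8000000080000000b0000000100000001 0x100000001c0000001c0000001e0000007a0000001e0000000b0000000b00000009 6 7) 0 0 (step_sound _ 163 [(rh1bd0c14c4de1ef4d.shift 1 1), rhbc5d78a8148e8419, (rhc85cc95794737cf7.shift 2 2), rhd5095feff1af5e55, rhfded4d983eb5f62a] (by decide +kernel))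
noncomputable def rh7e07827f2e342b81 : CRef := CRef.mk (Pat.mk 0x8000000080000000b000000010000000100000000 0x160000007e0000001e0000000b0000001b0000001900000010 6 7) 0 0 (step_sound _ 67 [(rh46baee19951a66e7.shift 2 0), (rhc9de03f9731897d4.shift 3 0), (rhf18bb985e040fc9e.shift 0 1)] (by decide +kernel))
noncomputable def rh91e89503dcfa7603 : CRef := CRef.mk (Pat.mk 0x20000000200000002000000000000000000000000 0x500000007000000070000000700000002000000060000000600000004 6 3) 0 0 (step_sound _ 65 [rh46baee19951a66e7, (rhc17b7d8fab3dfe57.shift 0 1), (rhc4055b4872d6fb38.shift 0 1), (rhc9de03f9731897d4.shift 1 0)] (by decide +kernel))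
noncomputable def rhda9a8b0efdf7c575 : CRef := CRef.mk (Pat.mk 0x8000000080000000b0000000100000001 0x140000001c0000001c0000001c0000007e0000001f0000001e0000000b0000000300000001 6 7) 0 0 (step_sound _ 163 [rh60ba89758ecc1ca1, (rhc85cc95794737cf7.shift 2 2), (rhcb3f1f25da09c743.shift 0 2), rhd06ce55d14e03f0f] (by decide +kernel))
noncomputable def rha1abe84bb644bbad : CRef := CRef.mk (Pat.mk 0x8000000080000000b000000010000000100000000 0x140000001e0000007e0000001e0000000b0000001b0000001900000010 6 7) 0 0 (step_sound _ 67 [(rh46baee19951a66e7.shift 2 0), (rhc17b7d8fab3dfe57.shift 2 1), (rhc9de03f9731897d4.shift 3 0), (rhf18bb985e040fc9e.shift 0 1)] (by decide +kernel))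
noncomputable def rh5c6d4e4b6729a1f0 : CRef := CRef.mk (Pat.mk 0x1a0000000e000000000000000000000000 0x3000000030000000300000001b0000001e000000380000001800000018 6 6) 0 0 (step_sound _ 100 [(rh16ffcf79af18348f.shift 1 0), (rh3244c3cc8379b070.shift 0 3)] (by decide +kernel))
noncomputable def rh2447edb8dfa9fe34 : CRef := CRef.mk (Pat.mk 0x1a0000001a000000000000000000000000 0x3000000030000000300000001b0000001e000000380000001800000018 6 6) 0 0 (step_sound _ 98 [(rh16ffcf79af18348f.shift 1 0), (rh3244c3cc8379b070.shift 0 3)] (by decide +kernel))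
noncomputable def rh687fb10dc768ee8c : CRef := CRef.mk (Pat.mk 0xd0000000c000000000000000000000000 0x18000000180000000f0000000c0000001c0000001c00000018 6 5) 0 0 (step_sound _ 163 [(rh1e309b005ffa1b36.shift 2 1), rha7a7a4080eeb7f2d] (by decide +kernel))
noncomputable def rhbdb23743a00d1810 : CRef := CRef.mk (Pat.mk 0x40000000600000000000000000000000000000000 0xa0000000e0000000e00000006000000070000003e0000000e0000000e00000002 6 6) 0 0 (step_sound _ 194 [(rh281c6819542c66e6.shift 1 1), (rh852eadb4da3f1beb.shift 1 3), rhe1a2cced5a4a5e54, (rhe8ec433c232d8867.shift 1 0), (rhfafeb437ceb8396d.shift 1 1)] (by decide +kernel))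
noncomputable def rh7bf73640d3b2e540 : CRef := CRef.mk (Pat.mk 0x300000001400000010000000100000000000000000 0x2000000360000003f0000003e0000007c0000002c00000008 6 7) 0 0 (step_sound _ 129 [(rh1c62b6193297d9e3.shift 1 4), rh4f096db12cc0d3e0] (by decide +kernel))
noncomputable def rh4bad496999be50c9 : CRef := CRef.mk (Pat.mk 0x60000000280000000000000030000000000000000000000000 0x680000003c000001df000000fe000000ff0000001000000010 6 9) 0 0 (step_sound _ 164 [(rh53b3c253cb0c65f4.shift 2 5), rhce0b7bc5682e74c8] (by decide +kernel))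
noncomputable def rheacd287c8bd0b14d : CRef := CRef.mk (Pat.mk 0xb000000014000000000000001800000000 0xb0000000be000001e8000000fe000000ff 6 9) 0 0 (step_sound _ 37 [rh12ab84cc799fd787, (rh2ed1aaebcaddbf85.shift 1 0), (rh344e262adf822b5a.shift 1 0), rh53994c51e2dce3fa, rhd63d7a9459e9dc55] (by decide +kernel))
noncomputable def rh5ce578ce227ae3d3 : CRef := CRef.mk (Pat.mk 0x600000002800000000000000300000000000000000 0x6c0000007c000001cf000000fe000001ff00000010 6 9) 0 0 (step_sound _ 130 [rh06c267ef35e51e85, (rh1c62b6193297d9e3.shift 2 4)] (by decide +kernel))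
noncomputable def rhe6af401aa1f6ed0e : CRef := CRef.mk (Pat.mk 0x180000000a000000000000000c00000000 0x20000001b0000001f000000370000001c0000001c 6 6) 0 0 (step_sound _ 98 [(rh53b3c253cb0c65f4.shift 0 3), rhef1b4acf7bbfd4ed] (by decide +kernel))
noncomputable def rh33c34a2d9c908f91 : CRef := CRef.mk (Pat.mk 0x60000000280000000000000030000000000000000000000000 0x680000007c0000001f0000003c000000180000001000000010 6 7) 0 0 (step_sound _ 164 [rh16c56d9010d6e661, (rh53b3c253cb0c65f4.shift 2 5)] (by decide +kernel))
noncomputable def rhc13aa18277e2876c : CRef := CRef.mk (Pat.mk 0x6000000028000000000000003000000000 0x600000007c000003df000001fc000003ee 6 10) 0 0 (step_sound _ 100 [(rh53b3c253cb0c65f4.shift 2 3), rhf9726e4489c7bdd9] (by decide +kernel))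
noncomputable def rh437efb4df994e945 : CRef := CRef.mk (Pat.mk 0x20000000280000000000000030000000000000000000000000 0x2800000068000001df000000fe000000ff0000001400000010 6 9) 0 0 (step_sound _ 99 [(rh02026f7327161663.shift 1 0), (rh41aa95197e245b8e.shift 2 0), (rh5a9b633495f36ee3.shift 1 2), (rh6fda775fe6b56251.shift 2 1), (rh7ef906ef8614ae01.shift 1 2), (rhdb2077881d7b7bf4.shift 0 1)] (by decide +kernel))
noncomputable def rh71fbd2f94e25c40e : CRef := CRef.mk (Pat.mk 0x180000000a000000000000000c00000000 0x1b0000001f000000370000001e0000001c 6 6) 0 0 (step_sound _ 98 [(rh53b3c253cb0c65f4.shift 0 3), rhcc3f17434fb9b3cf] (by decide +kernel))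
noncomputable def rhf43f79ca50336d91 : CRef := CRef.mk (Pat.mk 0x180000000e000000020000000000000000 0x300000003000000030000000180000001e0000003b0000001800000018 6 6) 0 0 (step_sound _ 100 [(rh16ffcf79af18348f.shift 1 0), (rheb0810cc63b001d8.shift 0 2)] (by decide +kernel))
noncomputable def rhdb6537c5dbb0c8d8 : CRef := CRef.mk (Pat.mk 0x60000000380000000800000000000000000000000000000000 0x5000000070000000380000003f0000007c0000007c0000005c00000014 6 7) 0 0 (step_sound _ 101 [(rh5a7dce561d0bf78d.shift 4 2), rh8690857bca43a8d3, (rhaf2c70f7ec9f2a7d.shift 2 2), (rhb6f6cd8dc083632c.shift 4 1)] (by decide +kernel))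
noncomputable def rhb0328bf92ef38aef : CRef := CRef.mk (Pat.mk 0x180000000e00000002000000000000000000000000 0x100000001c0000001e0000007e0000003f0000001e00000016 6 7) 0 0 (step_sound _ 99 [(rh15590a39afd9a120.shift 2 0), rhe436d0bcd01a172d, (rhffb8e5993241bf15.shift 2 0)] (by decide +kernel))
noncomputable def rh1d5bfa1bd10682c5 : CRef := CRef.mk (Pat.mk 0x40000001400000010000000000000000000000000 0xa0000000e0000000e00000006000000370000003e0000000f0000000e0000000a 6 6) 0 0 (step_sound _ 98 [rh28aca3f80a7edfeb, (rh5a31c14f96fd41e0.shift 1 0), (rh5e9a10d60d9e84e3.shift 1 1), (rhb2ccde93dbf90856.shift 0 1), (rhf16850b0428fad7c.shift 1 2), rhfbcf3eec14d270a5] (by decide +kernel))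
noncomputable def rha1c9c4ff6128330d : CRef := CRef.mk (Pat.mk 0x100000001a0000000a000000000000000000000000 0x4000000150000003f000000370000001e0000000a0000000f0000000f00000005 6 6) 0 0 (step_sound _ 161 [rh4668f7b1f0342830, (rh84fb934de447321f.shift 1 2), (rh9ce9666211d7d662.shift 0 4)] (by decide +kernel))
noncomputable def rh8541c1118a66360a : CRef := CRef.mk (Pat.mk 0x3c00000014000000000000000000000000 0xc0000000c0000000e0000003c0000001c0000000f0000000e00000006 6 6) 0 0 (step_sound _ 162 [rh0332afaeb918a29c, (rh3244c3cc8379b070.shift 1 4)] (by decide +kernel))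
noncomputable def rhf6ae01779605d33d : CRef := CRef.mk (Pat.mk 0x1e0000000a0000000000000000 0x6000000370000001e0000001e0000000700000007 6 6) 0 0 (step_sound _ 129 [(rh3244c3cc8379b070.shift 0 3), rhd4a0b197dd825127] (by decide +kernel))
noncomputable def rh35ebc9b0ff9fdc9f : CRef := CRef.mk (Pat.mk 0x100000001a0000000a0000000000000000 0x600000006000000370000001e0000000e0000000e00000008 6 6) 0 0 (step_sound _ 98 [(rh33e738c4ed385b9f.shift 1 3), rh6c102e47c7c1db51] (by decide +kernel))
noncomputable def rh07993ee57ad7f2d1 : CRef := CRef.mk (Pat.mk 0x100000001a0000000a0000000000000000 0x6000000370000001e0000001e0000000700000007 6 6) 0 0 (step_sound _ 98 [rh25d7f9f6acba8cab, (rh33e738c4ed385b9f.shift 1 3)] (by decide +kernel))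
noncomputable def rh4fb505962e0453a1 : CRef := CRef.mk (Pat.mk 0x20000001a0000000a000000000000000000000000 0x50000000700000007000000170000001e0000000e0000000c0000000800000008 6 5) 0 0 (step_sound _ 130 [(rh3244c3cc8379b070.shift 0 4), rhbef3c6defa7e81af] (by decide +kernel))
noncomputable def rhfb24f9e5e729af53 : CRef := CRef.mk (Pat.mk 0x20000000200000002000000000000000000000000 0x400000006000000060000000600000006000000070000000700000005 6 3) 0 0 (step_sound _ 65 [(rh12461e137161f2e1.shift 0 1), rh367118e0bf0473e0, rh8cdd36b03d57a2f6, (rhc9de03f9731897d4.shift 1 0)] (by decide +kernel))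
noncomputable def rh40ab251310aa27c7 : CRef := CRef.mk (Pat.mk 0x20000001a0000000a0000000000000000 0x30000000700000007000000070000001e0000000e0000000e0000000e 6 5) 0 0 (step_sound _ 98 [(rh3244c3cc8379b070.shift 0 3), rh76ed575b1d8b1ecb] (by decide +kernel))
noncomputable def rh7aa33ac17843d981 : CRef := CRef.mk (Pat.mk 0x1e0000000a0000000000000000 0x30000000700000007000000070000001e0000000e0000000e0000000e 6 5) 0 0 (step_sound _ 129 [(rh3244c3cc8379b070.shift 0 3), rh76ed575b1d8b1ecb] (by decide +kernel))
noncomputable def rh87ca7af6d3ad336e : CRef := CRef.mk (Pat.mk 0x1e0000000a0000000000000000 0x400000006000000070000001e0000001e0000000f0000000f 6 5) 0 0 (step_sound _ 129 [(rh3244c3cc8379b070.shift 0 3), rhf09609036bc2fea4] (by decide +kernel))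
noncomputable def rh9a1fa2eb22a2ccf9 : CRef := CRef.mk (Pat.mk 0x34000000140000000400000000000000000000000000000000 0x400000024000000360000003c0000007f0000007f0000003e0000000e0000000a 6 7) 0 0 (step_sound _ 163 [(rh839031215f33689d.shift 0 2), (rhd9106766b9ff53c0.shift 1 4), (rhe90bd37150c599ac.shift 1 0)] (by decide +kernel))
noncomputable def rhdb02979a25b3f450 : CRef := CRef.mk (Pat.mk 0x1a0000000a00000002000000000000000000000000 0x1000000130000001b0000001e0000001b0000001f0000001f00000005 6 5) 0 0 (step_sound _ 65 [(rh565a0c22519f57e9.shift 0 1), rh8cdd36b03d57a2f6, (rhbcb84ffbabf39323.shift 0 1)] (by decide +kernel))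
noncomputable def rh13953f598edca916 : CRef := CRef.mk (Pat.mk 0x200000002000000020000000000000000 0x500000007000000070000000300000002000000070000000700000005 6 3) 0 0 (step_sound _ 161 [rh46baee19951a66e7, rh6aa5625770489e83, (rh762a1aeaf83c662a.shift 0 1), rh8cdd36b03d57a2f6] (by decide +kernel))
noncomputable def rhb79014dc6adecfdf : CRef := CRef.mk (Pat.mk 0x4000000140000000400000000 0xa0000000e0000000e000000040000003c0000000f0000000a 6 6) 0 0 (step_sound _ 130 [(rh12461e137161f2e1.shift 1 0), (rh762a1aeaf83c662a.shift 1 0), rh9235486165d5c3a8, (rhc17b7d8fab3dfe57.shift 1 0), (rhd7cb8ed87e2022d8.shift 1 0)] (by decide +kernel))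
noncomputable def rh09e068874c118f83 : CRef := CRef.mk (Pat.mk 0x680000002800000008000000000000000000000000 0x4000000040000000440000006c000000780000007f0000007f000000fc00000014 6 8) 0 0 (step_sound _ 67 [(rh10343b5299c79027.shift 0 1), (rh14dcbc8835b858fa.shift 0 1), (rh3c3f8d0d524b5925.shift 0 1), (rh8cdd36b03d57a2f6.shift 2 0), (rha7e3fae51f690a4d.shift 0 1)] (by decide +kernel))
noncomputable def rhfdc52892caee784c : CRef := CRef.mk (Pat.mk 0x200000002000000020000000000000000 0x100000003000000030000000300000006000000070000000700000005 6 3) 0 0 (step_sound _ 161 [rh46baee19951a66e7, rh6aa5625770489e83, rh8cdd36b03d57a2f6, (rhd7cb8ed87e2022d8.shift 0 1)] (by decide +kernel))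
noncomputable def rh1a328f92c0781375 : CRef := CRef.mk (Pat.mk 0x3c0000000400000000000000000000000000000000 0x80000000c0000006f0000003e0000000c0000000c0000000e0000000600000002 6 7) 0 0 (step_sound _ 197 [(rh33e738c4ed385b9f.shift 2 5), rh92024f138ce01414] (by decide +kernel))
noncomputable def rha93e53e7ff5202e5 : CRef := CRef.mk (Pat.mk 0x1e0000000a0000000000000000 0x4000000370000001f0000001e0000000300000003 6 6) 0 0 (step_sound _ 68 [rh40298740c3651092, (rhb739f4f82bb681b4.shift 0 2)] (by decide +kernel))
noncomputable def rh3ba93e79b93c080b : CRef := CRef.mk (Pat.mk 0x40000001600000000000000000000000000000000 0xa0000000e0000000e00000006000000370000001e0000000e0000000e00000002 6 6) 0 0 (step_sound _ 194 [rh26f99b722e27bd97, (rh281c6819542c66e6.shift 1 1), (rh852eadb4da3f1beb.shift 1 3), (rhe8ec433c232d8867.shift 1 0), (rhfafeb437ceb8396d.shift 1 1)] (by decide +kernel))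
noncomputable def rha211d01cabb9a959 : CRef := CRef.mk (Pat.mk 0x800000018000000180000000800000000 0x100000001c000000f80000001f0000001f00000014 6 8) 0 0 (step_sound _ 36 [(rh7b1f1fb55310c477.shift 3 0), rha7451a8ecb577f80] (by decide +kernel))
noncomputable def rh3ff576ab9a9b8a15 : CRef := CRef.mk (Pat.mk 0x1000000010000000180000001800000000 0x28000000780000001e000000380000001f00000004 6 7) 0 0 (step_sound _ 131 [(rh50fbb5868c909700.shift 3 1), rha13a6da1e2f8085f] (by decide +kernel))
noncomputable def rh2c2746d59b8ec4d9 : CRef := CRef.mk (Pat.mk 0x1000000018000000180000000800000000 0x20000000680000007e000000ff0000001e0000000c00000004 6 8) 0 0 (step_sound _ 101 [(rh289ecae4755589bd.shift 1 0), (rh4dc133ee0ba1420a.shift 1 2), (rh69602a44db1e010c.shift 0 2)] (by decide +kernel))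
noncomputable def rha6dcf5687a38bd63 : CRef := CRef.mk (Pat.mk 0x180000001c000000000000000800000000 0x70000001f0000001c0000000c0000000c0000000c 6 5) 0 0 (step_sound _ 67 [rh3b662b2ea330721d, (rh71222050f2c63a3a.shift 3 0)] (by decide +kernel))
noncomputable def rhafa0e2b379956f4b : CRef := CRef.mk (Pat.mk 0x180000001c000000000000000800000000 0x670000007f0000001c0000001c0000001c00000014 6 7) 0 0 (step_sound _ 133 [(rh18965a982d73c794.shift 2 3), rh1d5026a339399fcd] (by decide +kernel))
noncomputable def rh715031eb40333aa9 : CRef := CRef.mk (Pat.mk 0x3000000038000000000000001000000000 0x40000003e000000380000002f000000fe000001ff 6 9) 0 0 (step_sound _ 37 [rhad070f151b7e7a58, rhaff668af9c8a6ce9, (rhbcedfca2885d6e85.shift 4 0), rhf30f215daa914238] (by decide +kernel))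
noncomputable def rh482b9df9feb8e193 : CRef := CRef.mk (Pat.mk 0x400000004000000040000000c00000000 0xe0000000f0000003c0000000c0000000c00000004 6 6) 0 0 (step_sound _ 67 [rh1bd0c14c4de1ef4d, (rh2145e1d24b96a57e.shift 2 1)] (by decide +kernel))
noncomputable def rh39a4e8b4b1f70048 : CRef := CRef.mk (Pat.mk 0x2000000020000000600000006000000000000000000000000 0x500000007000000060000000600000006000000030000000300000003 6 3) 0 0 (step_sound _ 192 [(rh50fbb5868c909700.shift 0 3), rh5db541dd5138ce50] (by decide +kernel))
noncomputable def rhf904c19540491c53 : CRef := CRef.mk (Pat.mk 0x20000000200000002000000060000000100000000 0x50000000700000007000000020000000200000006000000060000000300000001 6 3) 0 0 (step_sound _ 0 [(rhba97f7f4ade5e136.shift 0 2), rheea67dfebd0f8008] (by decide +kernel))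
noncomputable def rh301e6376417e4da4 : CRef := CRef.mk (Pat.mk 0x100000001000000038000000000000002000000000 0x30000000760000003e0000001f0000007e000001ff 6 9) 0 0 (step_sound _ 35 [rh199808e307c02453, (rha403a4e563d891f5.shift 1 0), (rhd3e77c93b93b67fe.shift 3 0), (rhd5b92086fe7b06e3.shift 3 0)] (by decide +kernel))
noncomputable def rhfbac4fd0c7870155 : CRef := CRef.mk (Pat.mk 0x80000001e0000000000000000 0x3000000030000003f0000001e0000000700000004 6 6) 0 0 (step_sound _ 100 [(rh33e738c4ed385b9f.shift 1 2), rh3f38de6b95fe6c30] (by decide +kernel))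
noncomputable def rh9df5639c5a1265a8 : CRef := CRef.mk (Pat.mk 0x100000001000000030000000000000000800000000 0x100000003000000030000000370000007e000001ff 6 9) 0 0 (step_sound _ 37 [rh199808e307c02453, (rh3b5346b2e316d790.shift 4 0), (rhc140869848ea0f2e.shift 4 1)] (by decide +kernel))
noncomputable def rh577e507722c77691 : CRef := CRef.mk (Pat.mk 0x10000000100000003800000010000000000000000000000000 0x100000001f0000003f0000003e0000002e0000000400000004 6 6) 0 0 (step_sound _ 99 [(rh932754581e0f4330.shift 3 2), rha8377cca6b5dc795] (by decide +kernel))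
noncomputable def rh42c1819b1f4b9e1d : CRef := CRef.mk (Pat.mk 0x200000002000000070000000200000000000000000000000000000000 0x200000003000000070000000700000003000000070000000600000004 6 3) 0 0 (step_sound _ 96 [rh6d59a1bde1e1183a, (rh79877ebd3ef475dd.shift 0 3)] (by decide +kernel))
noncomputable def rh79c32624aec606d0 : CRef := CRef.mk (Pat.mk 0x200000002000000030000000200000000000000000000000000000000 0x200000003000000030000000700000006000000070000000300000001 6 3) 0 0 (step_sound _ 98 [rh7c2dc7bafddb5695, (rhd3458b32566d63f7.shift 1 3)] (by decide +kernel))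
noncomputable def rhef81ec4f7e7c38d9 : CRef := CRef.mk (Pat.mk 0x8000000080000001c0000000000000000 0x30000000780000003e0000001f0000001800000018 6 7) 0 0 (step_sound _ 100 [(rha2519db0d4b124fa.shift 1 0), (rhab2ad169e49f9c5e.shift 0 2)] (by decide +kernel))
noncomputable def rh4349017c02dcea3a : CRef := CRef.mk (Pat.mk 0x2000000020000000200000006 0x6000000060000000700000003000000030000000700000006 6 3) 0 0 (step_sound _ 96 [rh50fbb5868c909700, rhaf5d76e4debe5402] (by decide +kernel))
noncomputable def rh36e0b3802883f1b2 : CRef := CRef.mk (Pat.mk 0x8000000080000000800000018000000000000000000000000 0x80000000800000018000000180000001c0000000f0000000c00000008 6 5) 0 0 (step_sound _ 66 [rh359d600c8c0a658c, (rh79877ebd3ef475dd.shift 2 2)] (by decide +kernel))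
noncomputable def rhebe75bec992bebde : CRef := CRef.mk (Pat.mk 0x800000008000000180000000c00000000 0x40000000c0000000f0000001e0000001f00000013 6 5) 0 0 (step_sound _ 33 [(rh53b3c253cb0c65f4.shift 0 1), rhd31ddecccbf31bec] (by decide +kernel))
noncomputable def rha8aad234cebf975b : CRef := CRef.mk (Pat.mk 0x800000008000000080000001800000000 0xc0000000c0000000f0000007c0000001800000008 6 7) 0 0 (step_sound _ 68 [(rh2145e1d24b96a57e.shift 3 1), rh74e2f7e19e462725] (by decide +kernel))
noncomputable def rhf298b62e627925a7 : CRef := CRef.mk (Pat.mk 0x2000000020000000200000006000000000000000000000000 0x300000003000000030000000600000006000000030000000300000003 6 3) 0 0 (step_sound _ 130 [(rh2145e1d24b96a57e.shift 1 3), rha4e48795de5c404c] (by decide +kernel))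
noncomputable def rh6da970b254f0bfd9 : CRef := CRef.mk (Pat.mk 0x200000002000000060000000000000000 0x400000007000000070000000700000006000000070000000300000001 6 3) 0 0 (step_sound _ 161 [rh6aa5625770489e83, rh8eb288e2ea66037a, (rhc4055b4872d6fb38.shift 0 1), (rhd0d01d2b9e5cc624.shift 0 1)] (by decide +kernel))
noncomputable def rhcbe8238e6f04ca48 : CRef := CRef.mk (Pat.mk 0x800000038000000180000000000000000 0x4000000040000007f0000003f0000001e0000000c00000004 6 7) 0 0 (step_sound _ 66 [(rh53b3c253cb0c65f4.shift 1 2), rhb8965bb9fd4dadbc] (by decide +kernel))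
noncomputable def rha452e263956ae924 : CRef := CRef.mk (Pat.mk 0x800000038000000180000000000000000 0x20000000200000007f0000003f0000001e0000001000000010 6 7) 0 0 (step_sound _ 66 [(rh53b3c253cb0c65f4.shift 1 2), rhd448f29221d838ce] (by decide +kernel))
noncomputable def rh8b2b55e75e843554 : CRef := CRef.mk (Pat.mk 0x200000002000000060000000000000000 0x400000006000000060000000200000006000000070000000700000001 6 3) 0 0 (step_sound _ 161 [(rh55afc6a59410cf00.shift 1 1), rh8eb288e2ea66037a] (by decide +kernel))
noncomputable def rhe3f2c9eb0dc0ad22 : CRef := CRef.mk (Pat.mk 0x800000008000000080000000c 0x170000003f0000003f0000000c0000000c 6 6) 0 0 (step_sound _ 98 [(rh50fbb5868c909700.shift 2 0), rh801aed72d6bb142d] (by decide +kernel))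
noncomputable def rha887bdf71aec8413 : CRef := CRef.mk (Pat.mk 0x20000000200000006000000000000000000000000 0x500000007000000070000000700000006000000030000000300000003 6 3) 0 0 (step_sound _ 65 [rh6aa5625770489e83, rh6ed5e6501b92e21f, (rh762a1aeaf83c662a.shift 0 1), rheacedd262407fad2] (by decide +kernel))
noncomputable def rhb8d2236ec74c0423 : CRef := CRef.mk (Pat.mk 0x20000000600000002000000000000000000000000 0x500000007000000070000000700000002000000060000000600000004 6 3) 0 0 (step_sound _ 65 [rh46baee19951a66e7, (rha707fb719e87fe6e.shift 1 1), (rhc17b7d8fab3dfe57.shift 0 1)] (by decide +kernel))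
noncomputable def rhc03111fc4bc0ceb1 : CRef := CRef.mk (Pat.mk 0x20000000600000002000000000000000000000000 0x500000007000000070000000700000002000000030000000300000001 6 3) 0 0 (step_sound _ 65 [rh6aa5625770489e83, (rh762a1aeaf83c662a.shift 0 1), (rha707fb719e87fe6e.shift 1 1)] (by decide +kernel))
noncomputable def rhf079d9b1acc1f1f8 : CRef := CRef.mk (Pat.mk 0x8000000180000000800000018 0x74000000ff0000001f0000001800000018 6 8) 0 0 (step_sound _ 98 [(rh50fbb5868c909700.shift 2 0), rhba85218b18b64260] (by decide +kernel))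
noncomputable def rhb7d8082d486d6fd1 : CRef := CRef.mk (Pat.mk 0x4000000040000000c0000000400000000 0x3a0000003e0000000f0000000c0000000c00000008 6 6) 0 0 (step_sound _ 35 [(rh55afc6a59410cf00.shift 2 0), (rhd49a209860dedbee.shift 0 1)] (by decide +kernel))
noncomputable def rh5a9ae117bfed00c8 : CRef := CRef.mk (Pat.mk 0x8000000180000000e0000000000000000 0x40000000f0000000f0000001f0000001e0000003300000010 6 6) 0 0 (step_sound _ 68 [(rh78974448101547fe.shift 1 0), (rheaf00f0e081d45c0.shift 0 1)] (by decide +kernel))
noncomputable def rhf36cf5923d964e09 : CRef := CRef.mk (Pat.mk 0x8000000180000000e0000000000000000 0x20000000f0000001f0000001e0000003700000014 6 6) 0 0 (step_sound _ 68 [(rh78974448101547fe.shift 1 0), rha2fbbc6fb37049c7] (by decide +kernel))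
noncomputable def rh8f9c0fcc27beee9a : CRef := CRef.mk (Pat.mk 0x4000000040000002c0000000c00000000 0xfa0000007f000000fc0000002c0000002e00000002 6 8) 0 0 (step_sound _ 131 [(rh2f68792b6b779e96.shift 2 1), rh47457fbda21366bc] (by decide +kernel))
noncomputable def rhfaa5ddb4cc1d0f4a : CRef := CRef.mk (Pat.mk 0x600000006000000020000000000000000 0x1000000030000000700000006000000030000000700000007 6 3) 0 0 (step_sound _ 33 [(rh71222050f2c63a3a.shift 1 0), rhaba26d7b21102469] (by decide +kernel))
noncomputable def rhf157fa2dc52b918d : CRef := CRef.mk (Pat.mk 0x80000000c0000000c0000000400000000 0x16000000360000003e0000003f0000000e0000000600000002 6 6) 0 0 (step_sound _ 130 [(rhbd1553ade3ecbf42.shift 1 0), (rhc0262270108109a4.shift 0 1), (rhcaa080098f0e9e4a.shift 1 0)] (by decide +kernel))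
noncomputable def rhbff59b534bbe1f21 : CRef := CRef.mk (Pat.mk 0x8000000000000000c0000000e00000000 0x60000000f0000003c0000000c0000000e00000006 6 6) 0 0 (step_sound _ 99 [rh6e7f58010cf0b92d, (rh932754581e0f4330.shift 2 0)] (by decide +kernel))
noncomputable def rhb203019bae8de18f : CRef := CRef.mk (Pat.mk 0x8000000000000000c0000002e00000000 0xff0000007e000000f40000003e0000002e00000002 6 8) 0 0 (step_sound _ 130 [(rh7cfdedf9ac90c120.shift 0 1), (rhcddd2712883fd9b7.shift 1 0), (rhd727bb41309b6841.shift 2 1), (rhe908f39dd8d66be2.shift 1 0)] (by decide +kernel))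
noncomputable def rh53d4641f2998f402 : CRef := CRef.mk (Pat.mk 0x180000001c0000000000000000 0x4000000760000007f0000001c0000000800000008 6 7) 0 0 (step_sound _ 101 [(rh18965a982d73c794.shift 2 2), rhab277cac14a482ea] (by decide +kernel))
noncomputable def rh59834db082677d75 : CRef := CRef.mk (Pat.mk 0xc0000000c0000000400000000 0x40000000e0000000f0000003c0000000e0000000600000002 6 6) 0 0 (step_sound _ 131 [(rh5c5e593799055d58.shift 2 1), rhb554e3cc3c2faa7f] (by decide +kernel))
noncomputable def rhc2bff1c878ebe3d0 : CRef := CRef.mk (Pat.mk 0x1000000018000000180000000800000000 0xc000000ec000000ff0000001f0000001c0000000c00000004 6 8) 0 0 (step_sound _ 131 [(rh28c8c9661f6daf2b.shift 0 1), (rhbd1553ade3ecbf42.shift 2 0), (rhcaa080098f0e9e4a.shift 2 0)] (by decide +kernel))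
noncomputable def rh968d01191fff519f : CRef := CRef.mk (Pat.mk 0x8000000080000000c0000000c 0x170000001f0000007c0000001f0000000c 6 7) 0 0 (step_sound _ 98 [(rh50fbb5868c909700.shift 2 0), rh674e4845ec93594d] (by decide +kernel))
noncomputable def rh13057205fd3efed5 : CRef := CRef.mk (Pat.mk 0x10000000180000001800000008 0x400000004000000ff000000ff0000001800000008 6 8) 0 0 (step_sound _ 66 [(rh02d73a9c4c979b97.shift 1 0), (rh34517e326ddb5b25.shift 0 1), rhfa84e23ffa1d661f] (by decide +kernel))
noncomputable def rh3e53d14085adc43a : CRef := CRef.mk (Pat.mk 0x200000002000000020000000000000000 0x500000007000000070000000700000002000000030000000300000001 6 3) 0 0 (step_sound _ 161 [rh367118e0bf0473e0, rh6aa5625770489e83, (rh762a1aeaf83c662a.shift 0 1), (rhc4055b4872d6fb38.shift 0 1)] (by decide +kernel))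
noncomputable def rhfc7b9948b3a4379e : CRef := CRef.mk (Pat.mk 0x800000008000000180000000c00000000 0x140000003c0000000f0000001e0000001f00000013 6 6) 0 0 (step_sound _ 33 [(rh53b3c253cb0c65f4.shift 0 1), rh78ba73d213f63d2b] (by decide +kernel))
noncomputable def rh3ae91ce563ba88aa : CRef := CRef.mk (Pat.mk 0x180000001a00000008000000000000000000000000 0x5000000070000003f0000001b0000001f000000370000001700000005 6 6) 0 0 (step_sound _ 161 [(rh086f6046fa319626.shift 0 4), (rhb677462e6b309c2e.shift 0 2), rhbe8811a1b425e9ec, (rhd5899e89efce0709.shift 0 2)] (by decide +kernel))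
noncomputable def rhaee65c54031a7fa5 : CRef := CRef.mk (Pat.mk 0x30000000b000000000000000300000000000000000 0x1f0000000be0000078f000003fe000003ff00000040 6 11) 0 0 (step_sound _ 70 [(rh282f2b17b4049d00.shift 3 0), (rh81cdc8ec0ad9b917.shift 2 0), (rh90f2e854ac43aacc.shift 3 0), (rhb40177a4de76b5c2.shift 2 1), (rhbbdf1a8d73728313.shift 0 1), (rhbeb790e6600f9fb5.shift 1 1)] (by decide +kernel))
noncomputable def rh040ae2d8f1f84987 : CRef := CRef.mk (Pat.mk 0x1a0000001a00000000000000000000000000000000 0x120000001a0000001f0000001f0000003e0000001c00000004 6 6) 0 0 (step_sound _ 99 [rha671bdfe65e63a7a, (rhea7a1800d6f053bd.shift 3 1)] (by decide +kernel))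
noncomputable def rh87252bc7942497eb : CRef := CRef.mk (Pat.mk 0x1a0000001a00000000000000000000000000000000 0x100000011000000130000001b0000001e0000000f0000000f0000000700000005 6 5) 0 0 (step_sound _ 196 [(rh1e309b005ffa1b36.shift 3 2), rhd4676f382faeb335] (by decide +kernel))
noncomputable def rh5ecefeb66d11f988 : CRef := CRef.mk (Pat.mk 0x1a0000001a00000000000000000000000000000000 0x100000003000000130000001b0000001b0000001f0000003f0000001f00000005 6 6) 0 0 (step_sound _ 97 [(rh37c05aa62684ff00.shift 0 1), (rh589e42ae1fd0e887.shift 0 1), rh5a31c14f96fd41e0, rh7711e065098a197f, rhab9ac4d3ef67f316, rhfd6d0f89e87eacc4] (by decide +kernel))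
noncomputable def rh9b7caa8798118208 : CRef := CRef.mk (Pat.mk 0x1a000000180000000000000000 0x10000000330000001f0000001b0000000800000008 6 6) 0 0 (step_sound _ 98 [(rhb739f4f82bb681b4.shift 0 2), rhc0fc7017c0a08396] (by decide +kernel))
noncomputable def rhfed23893d36f9371 : CRef := CRef.mk (Pat.mk 0x1800000018000000080000000800000000 0x64000000ff0000001f000000180000001800000010 6 8) 0 0 (step_sound _ 130 [(rh50fbb5868c909700.shift 2 1), rh79755ed5ace25782] (by decide +kernel))
noncomputable def rh5d93c7c5fb04bc9e : CRef := CRef.mk (Pat.mk 0x100000001800000018000000080000000000000000 0x24000000740000007f0000001f0000001f0000001200000002 6 7) 0 0 (step_sound _ 98 [rh364d4be8345879b5, (rhab2ad169e49f9c5e.shift 0 3), (rhed3612245a510f53.shift 1 1)] (by decide +kernel))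
noncomputable def rhc96087dad1ccd54e : CRef := CRef.mk (Pat.mk 0x20000001e000000000000000000000000 0x3000000070000003e0000001e000000070000000600000002 6 6) 0 0 (step_sound _ 65 [rh6053027cb5016fff, (rheb0810cc63b001d8.shift 0 2)] (by decide +kernel))
noncomputable def rhb565d0cffe6f0c90 : CRef := CRef.mk (Pat.mk 0x100000001e000000100000000000000000 0x280000003800000038000000180000001e0000001b0000001800000008 6 6) 0 0 (step_sound _ 65 [(rhc60193633cb79fe1.shift 3 0), (rheb0810cc63b001d8.shift 0 2)] (by decide +kernel))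
noncomputable def rhc9a466d3e0d91ee1 : CRef := CRef.mk (Pat.mk 0x90000000c0000000800000000 0x140000001c0000001e0000000f0000000c0000000c00000004 6 5) 0 0 (step_sound _ 131 [(rh03dfdf12d5937476.shift 2 0), rh2f876e4fc3367f92, (rhc85cc95794737cf7.shift 2 1)] (by decide +kernel))
noncomputable def rhe108b6074a952d08 : CRef := CRef.mk (Pat.mk 0x1e00000000000000000000000000000000 0x400000006000000070000001e00000007000000070000000700000005 6 5) 0 0 (step_sound _ 97 [rh5f98c730fe6e8cd8, (rheb0810cc63b001d8.shift 0 3)] (by decide +kernel))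
noncomputable def rh01821f6b6ba98ec9 : CRef := CRef.mk (Pat.mk 0x1e000000100000000000000000 0x18000000380000001e0000001f0000003800000038 6 6) 0 0 (step_sound _ 132 [(rh33e738c4ed385b9f.shift 1 3), rhe464da70454d0625] (by decide +kernel))
noncomputable def rh5b72d0d5571147ef : CRef := CRef.mk (Pat.mk 0x1e00000012000000000000000000000000 0x200000002000000070000001e0000001e000000070000000700000002 6 5) 0 0 (step_sound _ 161 [(rh3244c3cc8379b070.shift 0 4), rhe672270fa40df460] (by decide +kernel))
noncomputable def rhbae0aeb1f0e9a1bd : CRef := CRef.mk (Pat.mk 0x80000001800000008000000000000000000000000 0x180000001800000018000000380000001f0000001c00000014 6 6) 0 0 (step_sound _ 67 [(rh8cdd36b03d57a2f6.shift 2 0), (rha707fb719e87fe6e.shift 3 1), (rhb20dd801f506db0f.shift 0 1)] (by decide +kernel))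
noncomputable def rh43669ae820463571 : CRef := CRef.mk (Pat.mk 0x100000001e000000000000000000000000 0x30000000380000001f0000001e000000380000001800000010 6 6) 0 0 (step_sound _ 68 [rh6c80195fef350824, (rhe25b0a99195a5d59.shift 1 2)] (by decide +kernel))
noncomputable def rh191ae820961aeaf1 : CRef := CRef.mk (Pat.mk 0x8000000180000000800000000 0x1c0000001f00000038000000180000001800000018 6 6) 0 0 (step_sound _ 131 [rhb569fc3d362b7913, (rhd4b4beefcd67f51e.shift 3 0)] (by decide +kernel))
noncomputable def rh39df8526cb5ca735 : CRef := CRef.mk (Pat.mk 0x20000001e000000020000000000000000 0x200000007000000070000003e0000001e000000060000000200000002 6 6) 0 0 (step_sound _ 132 [(rh33e738c4ed385b9f.shift 1 3), rhb4a20ca15a0eed30] (by decide +kernel))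
noncomputable def rh296a8dd78651da26 : CRef := CRef.mk (Pat.mk 0x380000004800000008000000000000000000000000 0x2000000038000000780000003e0000007f0000001c00000014 6 7) 0 0 (step_sound _ 67 [(rh113f5a71904a5f1d.shift 0 1), (rh8aec56c4ee12918c.shift 2 0), (rh8c3839f9b9075f23.shift 3 0), (rh8cdd36b03d57a2f6.shift 2 0)] (by decide +kernel))
noncomputable def rh0c020da8b72242dd : CRef := CRef.mk (Pat.mk 0x1e00000012000000020000000000000000 0x1c0000001c0000003c0000001e0000001e0000000f0000000800000008 6 6) 0 0 (step_sound _ 99 [(rh34b1188e635efc8d.shift 1 1), (rh68955bc0e47a6cbe.shift 0 2), rha4d87ea3a5548f50, rhea202aa5ec9b8810] (by decide +kernel))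
noncomputable def rh01fea88d0d58a3f3 : CRef := CRef.mk (Pat.mk 0x20000001e00000002000000000000000000000000 0x200000002000000060000001e0000003e000000070000000700000002 6 6) 0 0 (step_sound _ 100 [(rhe25b0a99195a5d59.shift 1 3), rhe672270fa40df460] (by decide +kernel))
noncomputable def rhfbad94e780eb7ada : CRef := CRef.mk (Pat.mk 0x20000000600000002000000000000000000000000 0x4000000070000000700000003000000060000000600000006000000070000000700000001 6 3) 0 0 (step_sound _ 66 [(rh478c4cadbcd4e066.shift 1 1), (rh631f4906f01fb4fd.shift 0 2), rh78aec13dcd8fd007] (by decide +kernel))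
noncomputable def rhe2f98bffcd2d6845 : CRef := CRef.mk (Pat.mk 0x2000000060000000200000000000000000000000000000000 0x1000000070000000700000006000000060000000600000003000000070000000700000004 6 3) 0 0 (step_sound _ 226 [rh115342055bfc8090, (rh4c2adb5bda817a45.shift 0 4), (rh5fcbac5b57173fc5.shift 1 3)] (by decide +kernel))
noncomputable def rh2359abd9b7180a4d : CRef := CRef.mk (Pat.mk 0x100000001e00000010000000000000000000000000 0x280000003800000038000000180000001e0000001f000000380000003000000010 6 6) 0 0 (step_sound _ 97 [(rh06be213cee4d6033.shift 1 0), (rheb0810cc63b001d8.shift 0 3)] (by decide +kernel))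
noncomputable def rhd83b9a0f765e124b : CRef := CRef.mk (Pat.mk 0x100000001e00000010000000000000000000000000 0x1000000010000000180000001e0000001f000000380000003800000010 6 6) 0 0 (step_sound _ 97 [(rheb0810cc63b001d8.shift 0 3), (rhf2f5837f8a023c75.shift 1 0)] (by decide +kernel))
noncomputable def rh31b47a8106da7745 : CRef := CRef.mk (Pat.mk 0x20000000300000002000000000000000000000000 0x1000000070000000700000006000000030000000300000003000000070000000700000004 6 3) 0 0 (step_sound _ 64 [rh24475f7678211b71, (rh5ddbeed5d869bf16.shift 0 1), (rh66bf57636bbc5c37.shift 0 2)] (by decide +kernel))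
noncomputable def rh0b72c516991819a0 : CRef := CRef.mk (Pat.mk 0x100000001e000000100000000000000000 0x1000000038000000380000001f0000001e000000180000001000000010 6 6) 0 0 (step_sound _ 129 [(rh3244c3cc8379b070.shift 0 3), (rhe01b6ee543e82e29.shift 1 0)] (by decide +kernel))
noncomputable def rh309ab5bf421da4ab : CRef := CRef.mk (Pat.mk 0x2000000030000000200000000000000000000000000000000 0x4000000070000000700000003000000030000000300000006000000070000000700000001 6 3) 0 0 (step_sound _ 224 [(rh41b8be278618af7d.shift 0 4), rha7be07c68086ab00, (rhc17a6a02773cc5f6.shift 0 3)] (by decide +kernel))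
noncomputable def rh6dfe11bc271bc1a3 : CRef := CRef.mk (Pat.mk 0x8000000080000001c00000010000000000000000000000000 0x40000000c0000001c0000001c0000001f0000000f0000000c00000008 6 5) 0 0 (step_sound _ 99 [(rh544fd3f279a4d968.shift 2 0), (rh7b18f3f209f14cd6.shift 2 0), (rha0b07cf10a24615f.shift 0 2)] (by decide +kernel))
noncomputable def rh831308d8f3ed6f7c : CRef := CRef.mk (Pat.mk 0x80000001c0000000e00000000 0x1c0000003c0000000f0000001c0000000e00000002 6 6) 0 0 (step_sound _ 131 [(rh5c5e593799055d58.shift 2 1), rh64d618d94720dd56] (by decide +kernel))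
noncomputable def rhe747072653adbf64 : CRef := CRef.mk (Pat.mk 0x80000003800000018000000000000000000000000 0x40000000f0000003c000000180000000c0000000c0000000c 6 6) 0 0 (step_sound _ 67 [rh576fe90dac99d593, (rhbb83b53687587fb2.shift 2 0), rhd781f8ab1742369d, (rhf0eae3109e9a967c.shift 0 1)] (by decide +kernel))
noncomputable def rh362d0a5ceb7baa4f : CRef := CRef.mk (Pat.mk 0x3c000000180000000000000000 0x2000000020000000760000003f000000180000001000000010 6 7) 0 0 (step_sound _ 96 [(rhab22b5b56e7b3243.shift 0 2), (rhc76e5e57485f4c6b.shift 1 0)] (by decide +kernel))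
noncomputable def rh3f5f851240f54d80 : CRef := CRef.mk (Pat.mk 0x40000000c0000000c0000000400000000 0x180000003c0000000f0000000c0000000e0000000a 6 6) 0 0 (step_sound _ 1 [rh253ed3b83993f691, (rh79877ebd3ef475dd.shift 1 0)] (by decide +kernel))
noncomputable def rhc7de2f8c5681fc94 : CRef := CRef.mk (Pat.mk 0xe00000006000000020000000000000000 0x190000000f00000006000000060000000700000007 6 5) 0 0 (step_sound _ 33 [(rh71222050f2c63a3a.shift 1 0), rh90dddd288e248eba] (by decide +kernel))
noncomputable def rh42efa1d0574f5be1 : CRef := CRef.mk (Pat.mk 0x40000000c0000000c000000080000000000000000 0x180000003c0000000f0000000c0000000e0000000600000006 6 6) 0 0 (step_sound _ 66 [(rhbb83b53687587fb2.shift 1 0), (rhea7a1800d6f053bd.shift 2 0), (rhf768b09893299f3c.shift 0 1)] (by decide +kernel))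
noncomputable def rh820f62b2d8f36d59 : CRef := CRef.mk (Pat.mk 0x120000000600000002000000000000000000000000 0x40000000700000007000000070000001e0000000600000002000000070000000700000005 6 5) 0 0 (step_sound _ 65 [rh8cdd36b03d57a2f6, (rha508198170d670f6.shift 0 1), (rha707fb719e87fe6e.shift 1 1)] (by decide +kernel))
noncomputable def rh73bdb5ca643225c4 : CRef := CRef.mk (Pat.mk 0x1c0000003c000000000000000000000000 0xe0000000f0000001c0000003c0000001e0000001800000018 6 6) 0 0 (step_sound _ 66 [rhcc60cd38215e891b, (rheb0810cc63b001d8.shift 1 2)] (by decide +kernel))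
noncomputable def rha24a115af3ff1fc7 : CRef := CRef.mk (Pat.mk 0x1c00000018000000000000001000000000 0xc0000001c00000018000000380000001f0000000c 6 6) 0 0 (step_sound _ 68 [rh0aec459be4e44b95, (rh50fbb5868c909700.shift 3 1)] (by decide +kernel))
noncomputable def rh1070a7b780452bab : CRef := CRef.mk (Pat.mk 0xe0000001c000000000000000800000000 0x20000000e0000001e000000f40000007e000000ff 6 8) 0 0 (step_sound _ 34 [(rh80c59fdbc00f388c.shift 1 0), (rhc93583770a36d0f1.shift 1 0), rhd16b9781aa9a0a16] (by decide +kernel))
noncomputable def rh7c4e28a233c466a7 : CRef := CRef.mk (Pat.mk 0x700000006000000040000000000000000 0x10000000700000006000000070000003e0000000e 6 6) 0 0 (step_sound _ 34 [(rh7b1f1fb55310c477.shift 1 0), rhc9940826c464062e] (by decide +kernel))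
noncomputable def rh36b2f586494ff929 : CRef := CRef.mk (Pat.mk 0x1800000038000000080000000000000000 0x8000000180000003c0000000f0000001c0000001c 6 6) 0 0 (step_sound _ 35 [(rh71222050f2c63a3a.shift 3 0), rhb9c4a59b6c5ec2b4] (by decide +kernel))
noncomputable def rh1cd8c68b5f96ad28 : CRef := CRef.mk (Pat.mk 0xe0000001e000000000000000000000000 0x20000000e0000001e0000003f0000000700000007 6 6) 0 0 (step_sound _ 65 [rh59259e1d46f1b35b, (rheb0810cc63b001d8.shift 0 2)] (by decide +kernel))
noncomputable def rh61d8d420d44ab10c : CRef := CRef.mk (Pat.mk 0x80000001c00000018000000100000000000000000 0x40000000c0000001c0000001c0000001f0000000f0000000c 6 5) 0 0 (step_sound _ 67 [(rh40241bd608e5be1a.shift 2 0), (rh73d2ea13284eaf15.shift 0 1), (rhbb83b53687587fb2.shift 2 0)] (by decide +kernel))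
noncomputable def rh563cd3ca6e93896e : CRef := CRef.mk (Pat.mk 0x1c00000010000000100000001800000000 0x40000001c000000180000003c000000ff00000024 6 8) 0 0 (step_sound _ 37 [(rh55afc6a59410cf00.shift 4 0), rh6ee037cf87d85b0c] (by decide +kernel))
noncomputable def rh6e924361a5088852 : CRef := CRef.mk (Pat.mk 0x1e00000002000000000000000000000000 0x4000000070000000700000007000000070000001e00000002000000070000000700000005 6 5) 0 0 (step_sound _ 161 [(rh3244c3cc8379b070.shift 0 4), rhaf437ea1f7c5e5c5] (by decide +kernel))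
noncomputable def rh8b67a0833dc46f16 : CRef := CRef.mk (Pat.mk 0x380000002c00000020000000000000000000000000 0x100000001800000018000000380000002f0000007c0000001c0000001c00000014 6 7) 0 0 (step_sound _ 128 [(rh0d04efe78add800a.shift 2 0), (rh24ae073cf30720c4.shift 0 4)] (by decide +kernel))
noncomputable def rhcea5a3bedae87f2e : CRef := CRef.mk (Pat.mk 0x1c00000012000000100000000000000000 0x80000000e0000000f0000001e0000001e0000003f0000000e00000006 6 6) 0 0 (step_sound _ 98 [(rh4b4a2336dfb4aa01.shift 0 1), (rh7139650279fa5463.shift 1 0), (rhd655e2196287538d.shift 1 0), rhefadd466d496907b] (by decide +kernel))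
noncomputable def rh587bfbc385af09d2 : CRef := CRef.mk (Pat.mk 0x3c0000001c0000000000000000 0x18000000180000001e0000003c0000001c0000000f0000000e 6 6) 0 0 (step_sound _ 130 [(rh3244c3cc8379b070.shift 1 3), rhfa863233f97c04cc] (by decide +kernel))
noncomputable def rh06b854ab7059fd5b : CRef := CRef.mk (Pat.mk 0x8000000000000001c0000000e00000000 0xff0000007e000000f40000001e0000000e00000002 6 8) 0 0 (step_sound _ 130 [(rh0460644cd2e699ff.shift 0 1), (rhcddd2712883fd9b7.shift 1 0), (rhd727bb41309b6841.shift 2 1), (rhe908f39dd8d66be2.shift 1 0)] (by decide +kernel))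
noncomputable def rhfbd5fa067492bff7 : CRef := CRef.mk (Pat.mk 0x600000007000000020000000200000000 0x200000003000000030000000700000007000000030000000700000005 6 3) 0 0 (step_sound _ 0 [rh79877ebd3ef475dd, rhf300a53e5a3ab46f] (by decide +kernel))
noncomputable def rh2d6fc3d8efd85437 : CRef := CRef.mk (Pat.mk 0x10000000180000001c0000000800000000 0xc0000000f0000001f0000001c0000001c0000000c00000004 6 5) 0 0 (step_sound _ 131 [(rh03dfdf12d5937476.shift 2 0), rh33e591d1663cc4bf, (rh90b823c913a425e8.shift 2 1)] (by decide +kernel))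
noncomputable def rh55c4d0b17faeacbd : CRef := CRef.mk (Pat.mk 0x1e000000060000000000000000 0x3000000070000003f0000001e000000060000000200000002 6 6) 0 0 (step_sound _ 129 [(rh3244c3cc8379b070.shift 0 3), rh96a8e3aa7cb4a75e] (by decide +kernel))
noncomputable def rh3f524fb401a83858 : CRef := CRef.mk (Pat.mk 0x6000000020000000200000001 0x400000007000000070000000300000006000000060000000300000001 6 3) 0 0 (step_sound _ 129 [(rh72afbdc90680d7b8.shift 0 1), rh79877ebd3ef475dd] (by decide +kernel))
noncomputable def rha1b992466a55d538 : CRef := CRef.mk (Pat.mk 0xc00000008000000080000000e00000000 0x120000003f0000003f0000000c0000000e00000002 6 6) 0 0 (step_sound _ 132 [(rh2f68792b6b779e96.shift 3 1), rh641e2b15d506f91f] (by decide +kernel))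
noncomputable def rhe0b077d6405bd16f : CRef := CRef.mk (Pat.mk 0x800000008000000080000000e00000000 0xe0000000f0000003c0000000c0000000e00000002 6 6) 0 0 (step_sound _ 66 [(rh5c5e593799055d58.shift 2 1), rh6e7f58010cf0b92d] (by decide +kernel))
noncomputable def rhcee0247e05a0be3b : CRef := CRef.mk (Pat.mk 0x20000001e0000000000000000000000000000000000000000 0x50000000700000007000000020000001e0000000700000007000000070000000700000004 6 5) 0 0 (step_sound _ 129 [rh0f4621604a17ae35, (rheb0810cc63b001d8.shift 0 4)] (by decide +kernel))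
noncomputable def rhb7f08d0e6f84cafc : CRef := CRef.mk (Pat.mk 0x200000002c00000038000000000000000000000000 0x140000001c0000001c0000007c0000002f00000038000000180000001800000010 6 7) 0 0 (step_sound _ 128 [(rh5676fbbac1e212fc.shift 2 0), (rhab22b5b56e7b3243.shift 0 3)] (by decide +kernel))
noncomputable def rh4222f06ebc2fd935 : CRef := CRef.mk (Pat.mk 0x10000000160000000c0000000000000000 0x200000002000000330000001e0000000e0000000c0000000c 6 6) 0 0 (step_sound _ 99 [(rh33e738c4ed385b9f.shift 1 3), rhc66e933371c9d2bf] (by decide +kernel))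
noncomputable def rh053434308e1163f5 : CRef := CRef.mk (Pat.mk 0x200000007000000060000000200000000 0xd0000001f000000070000001e0000000600000004 6 5) 0 0 (step_sound _ 34 [(rh386b429084a6382d.shift 0 1), (rh7b1f1fb55310c477.shift 1 0)] (by decide +kernel))
noncomputable def rh37fd54ce9fd14e76 : CRef := CRef.mk (Pat.mk 0x700000006000000000000000000000000 0x60000000600000006000000070000001f0000003e0000000c00000008 6 6) 0 0 (step_sound _ 99 [rha3395121a238dad0, (rhf48373e13d2bc128.shift 0 3)] (by decide +kernel))
noncomputable def rh964d1dd2be92866d : CRef := CRef.mk (Pat.mk 0x200000000000000038000000300000000000000000 0x1ff000000fe000001df00000038000000380000001000000010 6 9) 0 0 (step_sound _ 164 [(rh2d55c6a7f1c1aeb9.shift 1 1), (rh705aa4457925a0e4.shift 1 1), (rhd727bb41309b6841.shift 4 2), rhe2e0721fd429a583] (by decide +kernel))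
noncomputable def rhd9ec48444d9640a1 : CRef := CRef.mk (Pat.mk 0x700000006000000000000000000000000 0x40000000700000007000000070000003e0000000e00000006 6 6) 0 0 (step_sound _ 65 [rh40241bd608e5be1a, rha9a97750e5fc6c7d, (rhea7a1800d6f053bd.shift 1 0)] (by decide +kernel))
noncomputable def rh5ec3cce39d96cbd0 : CRef := CRef.mk (Pat.mk 0x80000001c000000100000001000000000 0x30000000780000001c000000380000001f0000000c 6 7) 0 0 (step_sound _ 132 [(rh712526e472efe489.shift 2 1), rh850e201bd523cd31] (by decide +kernel))
noncomputable def rh9719862407c339b6 : CRef := CRef.mk (Pat.mk 0x1800000038000000000000000000000000 0x1000000010000000180000003f000000770000002000000020 6 7) 0 0 (step_sound _ 98 [(rh0e1512cbacfbd48b.shift 0 2), (rh8e02147a0e3a306e.shift 1 0), (rhf56dc6c929980f59.shift 0 2)] (by decide +kernel))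
noncomputable def rh09b7e12dd0eecb61 : CRef := CRef.mk (Pat.mk 0x180000003800000008000000000000000000000000 0x180000001800000018000000180000003c0000000f000000040000000400000004 6 6) 0 0 (step_sound _ 228 [rhb7daa8e6a81d78c1, (rhee230b994cc8b773.shift 3 3)] (by decide +kernel))
noncomputable def rhd118b43a97c4b0ee : CRef := CRef.mk (Pat.mk 0x60000000e000000000000000000000000 0x60000000600000006000000060000000f0000003d0000000c00000008 6 6) 0 0 (step_sound _ 161 [(rh1e178c901be7c8bc.shift 0 2), (rh55a1f6c57a317ce6.shift 1 1), rh59ea434ed71c4dba] (by decide +kernel))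
noncomputable def rh238a9bffe3d423e0 : CRef := CRef.mk (Pat.mk 0x8000000080000001c0000001800000000 0x140000003c0000000f0000001c0000007800000008 6 7) 0 0 (step_sound _ 37 [rh900a894640be090c, (rhf48373e13d2bc128.shift 2 1)] (by decide +kernel))
noncomputable def rhf2cf2b04bfc2f1fb : CRef := CRef.mk (Pat.mk 0x4000000040000000e0000000c00000000 0xa0000000f0000003c0000000e0000003c00000010 6 6) 0 0 (step_sound _ 36 [rh32f7e4ccc3a38f2a, (rhf48373e13d2bc128.shift 1 1)] (by decide +kernel))
noncomputable def rh771a36149ae58414 : CRef := CRef.mk (Pat.mk 0x8000000080000001c0000001800000000 0x1000000018000000180000001c0000007f00000064 6 7) 0 0 (step_sound _ 34 [rh45a632aef0aafcc1, (rh932754581e0f4330.shift 2 0)] (by decide +kernel))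
noncomputable def rh32d39563b68b3960 : CRef := CRef.mk (Pat.mk 0x200000007000000040000000000000000 0xc0000001e000000070000003e0000000c0000000c 6 6) 0 0 (step_sound _ 34 [rh30b07c451fbc56c5, (rh7b1f1fb55310c477.shift 1 0)] (by decide +kernel))
noncomputable def rha24fe6418644f33f : CRef := CRef.mk (Pat.mk 0x14000000100000001000000018 0x1400000014000000360000007f0000001e 6 7) 0 0 (step_sound _ 35 [(rh5c5e593799055d58.shift 3 0), rhe448aa5a21b08262] (by decide +kernel))
noncomputable def rh2d5581c417ad61f3 : CRef := CRef.mk (Pat.mk 0xc0000000800000008000000000000000000000000 0x80000000c0000000c000000380000001f0000001c00000014 6 6) 0 0 (step_sound _ 67 [(rh1f3a6ba70a310ab1.shift 2 0), (rh8cdd36b03d57a2f6.shift 2 0), (rha613ffd40b6c9d24.shift 2 0), (rhb20dd801f506db0f.shift 0 1)] (by decide +kernel))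
noncomputable def rh162ee7212e7034bb : CRef := CRef.mk (Pat.mk 0x7000000040000000400000000 0xc0000000c0000003e000000070000003e0000000e0000000a 6 6) 0 0 (step_sound _ 130 [(rh1728b446c037fdbd.shift 1 1), rh6a4c6f03f15f9cc5, (rhced6d86d2069808b.shift 2 0), rhe930f9bd1231db69] (by decide +kernel))
noncomputable def rh3f6151f079472441 : CRef := CRef.mk (Pat.mk 0x40000000700000014000000000000000000000000 0x140000003e000000170000003c000000180000000800000008 6 6) 0 0 (step_sound _ 99 [rh47ab38d0c678eec1, (rhf48373e13d2bc128.shift 1 3)] (by decide +kernel))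
noncomputable def rh85768bfcc3505b3d : CRef := CRef.mk (Pat.mk 0x140000000700000014000000000000000000000000 0x800000008000000180000001e000000370000003c000000380000003800000028 6 6) 0 0 (step_sound _ 101 [(rh5419adcd928dba20.shift 1 3), rha9341be56f59e852] (by decide +kernel))
noncomputable def rh2d96a2b65e99bc6c : CRef := CRef.mk (Pat.mk 0x8000000030000000a000000000000000000000000 0x140000001c0000001c000000180000001b0000001e0000003c0000001c00000014 6 6) 0 0 (step_sound _ 131 [rh0becfb987d6e48b6, (rh3c3f298f7c7bf5e0.shift 0 2), rh63e3e58eda49bb28, (rh97c32cd2dcfac0dc.shift 2 0), (rhf35367dac2e963a8.shift 1 0), rhf6c8321d25f29619] (by decide +kernel))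
noncomputable def rh38d4dfd7f23f3412 : CRef := CRef.mk (Pat.mk 0x8000000080000000e00000008 0x140000001c0000001c0000000c0000001f0000007c0000000e00000008 6 7) 0 0 (step_sound _ 68 [(rh08b1131eaeee9b79.shift 2 0), rh3b5c42403893e747, (rh80f90a60d87caa0d.shift 1 1)] (by decide +kernel))
noncomputable def rhe20250c4be3cf124 : CRef := CRef.mk (Pat.mk 0x8000000080000000e00000008 0x140000001c0000001c00000018000000380000003f0000000e00000008 6 6) 0 0 (step_sound _ 131 [(rh44f453b84f013105.shift 3 0), (rh9fb9dc683e09b5f3.shift 2 1), rhd57990d61f0ee15f] (by decide +kernel))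
noncomputable def rh7ea825414409ee7b : CRef := CRef.mk (Pat.mk 0x4000000040000000700000004 0x7a0000003e0000007f0000000700000004 6 7) 0 0 (step_sound _ 97 [(rh50fbb5868c909700.shift 1 0), rh92d2c9b6274fb015] (by decide +kernel))
noncomputable def rh3155e4e09b62f080 : CRef := CRef.mk (Pat.mk 0x6000000000000000700000004000000000000000000000000 0x600000006000000030000000700000007000000030000000300000002 6 3) 0 0 (step_sound _ 161 [(rh2145e1d24b96a57e.shift 1 3), rhe28967695f128dc4] (by decide +kernel))
noncomputable def rhe6be12c3e0a80949 : CRef := CRef.mk (Pat.mk 0x6000000000000000700000004000000000000000000000000 0x400000006000000070000000700000007000000030000000300000002 6 3) 0 0 (step_sound _ 97 [(rh7d7eaefe27cdd7b0.shift 1 3), rh9cffb0e013efb94e, (rhb8fddd58ad9026ec.shift 1 2), rhd9907c6fa023d767] (by decide +kernel))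
noncomputable def rhbc15097ef6099017 : CRef := CRef.mk (Pat.mk 0x300000000000000030000000a0 0x1ff000000fe000001d7000000b0000000b0 6 9) 0 0 (step_sound _ 99 [(rh04ad4b925d0ba6cd.shift 3 0), rh1d935cc3168d8435, (rh399759fca26c53b2.shift 1 0), rh8c8de597d5332263, (rh99e2251b4930b5a4.shift 2 0)] (by decide +kernel))
noncomputable def rh121af72e99f723ec : CRef := CRef.mk (Pat.mk 0x600000000000000070000000400000000 0x7c0000003f0000007e000000070000000600000002 6 7) 0 0 (step_sound _ 98 [(rh03dfdf12d5937476.shift 1 0), (rh44854c611e41413d.shift 0 1)] (by decide +kernel))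
noncomputable def rhc6e8905996d73eef : CRef := CRef.mk (Pat.mk 0x800000008000000000000001400000010 0x8000001ff000000ff000001f70000001400000010 6 9) 0 0 (step_sound _ 100 [(rh2613c889e411427e.shift 3 0), (rh4725a1bdc8f56e14.shift 0 1)] (by decide +kernel))
noncomputable def rhcd0345b64343403d : CRef := CRef.mk (Pat.mk 0x1800000000000000380000002000000000 0x340000007f0000001f000000380000003f0000001c 6 7) 0 0 (step_sound _ 100 [(rh2145e1d24b96a57e.shift 4 1), rh368294304359af37] (by decide +kernel))
noncomputable def rh0b3c48131f2f4114 : CRef := CRef.mk (Pat.mk 0x180000000000000030000000a0 0x1ff000000fe000001d7000000b0000000b0 6 9) 0 0 (step_sound _ 101 [(rh04ad4b925d0ba6cd.shift 3 0), rh1d935cc3168d8435, (rh399759fca26c53b2.shift 1 0), rh8c8de597d5332263, (rh99e2251b4930b5a4.shift 2 0)] (by decide +kernel))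
noncomputable def rh6c67473eb51e5e68 : CRef := CRef.mk (Pat.mk 0x300000000000000070000000000000000000000000 0x1f0000007e0000003f00000070000000380000003800000028 6 7) 0 0 (step_sound _ 132 [(rh046c5eb18e55a239.shift 4 0), (rh70e33bfdf511e144.shift 4 0), rh7d104da50b66fe53] (by decide +kernel))
noncomputable def rhfde6efd0081da9b8 : CRef := CRef.mk (Pat.mk 0x60000000000000006000000000000000000000000 0x50000000700000007000000070000000300000006000000070000000700000005 6 3) 0 0 (step_sound _ 129 [(rh14e0829dc73b6804.shift 0 2), (rh70e33bfdf511e144.shift 1 0), rhb8c18aeece372d98, (rhe8f9550119ab603c.shift 1 1), rhffb8e5993241bf15] (by decide +kernel))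
noncomputable def rh88ad93b4d994e412 : CRef := CRef.mk (Pat.mk 0x3000000000000000600000004000000000000000000000000 0x300000003000000030000000600000006000000030000000300000003 6 3) 0 0 (step_sound _ 161 [(rh2145e1d24b96a57e.shift 1 3), rh3633eb8b8a93c2d7] (by decide +kernel))
noncomputable def rhcba44d7234f960dc : CRef := CRef.mk (Pat.mk 0x3000000000000000380000002000000000 0x3cf000001fe000003ff000000380000003000000010 6 10) 0 0 (step_sound _ 101 [rh1158de7400dea4a7, rh450a0c5e414c4eff, (rh92d2c9b6274fb015.shift 3 1), (rha473a7a7061f2b4c.shift 2 0), (rhc4a2110ed7df5cb7.shift 2 0)] (by decide +kernel))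
noncomputable def rh9b372e84da0147fa : CRef := CRef.mk (Pat.mk 0x300000000000000018000000800000000000000000 0xef000000fe000001df00000098000000980000001800000018 6 9) 0 0 (step_sound _ 163 [(rh1d935cc3168d8435.shift 0 2), (rh51b4cbeb971739fc.shift 3 0), (rh720d63dff00d31f5.shift 2 2), (rhec7a24dc1a6ec7fb.shift 1 1)] (by decide +kernel))
noncomputable def rhd6fee5195dc50d27 : CRef := CRef.mk (Pat.mk 0x18000000000000001c00000050 0x4000001f7000000fe000001ff0000005c00000050 6 9) 0 0 (step_sound _ 101 [rh189dac5cd8bb6a8f, (rh4f925707db002786.shift 2 0), rh67fdeea0bed00be5, (rh831bf7125f17e581.shift 0 1), (rhb520e1b2b9f1389b.shift 2 0)] (by decide +kernel))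
noncomputable def rh7269453adb3a6f3b : CRef := CRef.mk (Pat.mk 0x18000000000000001c0000005000000000 0x760000007e000000f70000005c0000005800000008 6 8) 0 0 (step_sound _ 133 [(rh14360537f9290c54.shift 1 1), (rh189dac5cd8bb6a8f.shift 0 1), rh5c57c690b329638d, (rh7522337cc24a4bff.shift 3 0)] (by decide +kernel))
noncomputable def rh472b9f06ce865e42 : CRef := CRef.mk (Pat.mk 0xc000000000000000e0000000800000000 0x160000001f0000003b0000000e0000000c00000004 6 6) 0 0 (step_sound _ 99 [(rh50fbb5868c909700.shift 2 1), rha473a7a7061f2b4c] (by decide +kernel))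
noncomputable def rh1f801de833242f93 : CRef := CRef.mk (Pat.mk 0x30000000000000002800000020 0x1000000010000001fe000000fe000001ef0000002800000028 6 9) 0 0 (step_sound _ 132 [(rh2613c889e411427e.shift 4 0), rhc50ad2998920b0b0] (by decide +kernel))
noncomputable def rh0b404ca790f0043f : CRef := CRef.mk (Pat.mk 0x3000000000000000180000008000000000 0x1000000014000000ff000000fe000001cf000000980000009800000018 6 9) 0 0 (step_sound _ 131 [(rh399759fca26c53b2.shift 1 1), (rh720d63dff00d31f5.shift 2 1), rha123979ab022622e, (rhb4b78effd13985fe.shift 0 1), (rhd18700aee66f7fa3.shift 2 1), rhe134d12ce6b641a1] (by decide +kernel))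
noncomputable def rhc44c1820a4d8567b : CRef := CRef.mk (Pat.mk 0xc0000001800000018000000000000000000000000 0xc000000ff000000ff000000070000000400000004 6 8) 0 0 (step_sound _ 134 [(rh2fe78cc5ca4405d8.shift 2 4), rh33e086b63a29e45b] (by decide +kernel))
noncomputable def rh7fda8096b055b8b2 : CRef := CRef.mk (Pat.mk 0x1800000038000000100000000000000000 0x180000003f000000770000001e0000001c 6 7) 0 0 (step_sound _ 36 [rh7302035b23d3a375, (rh7b1f1fb55310c477.shift 3 0)] (by decide +kernel))
noncomputable def rhee28a5c2ec10673f : CRef := CRef.mk (Pat.mk 0x1c00000038000000100000000000000000 0x1c0000003f0000007f0000001600000016 6 7) 0 0 (step_sound _ 98 [rh4e1785f2d3eab0e1, (rha03f6e28ea70fc7d.shift 1 2), (rhda6d489f414960da.shift 1 0)] (by decide +kernel))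
noncomputable def rh38de7e82c779277e : CRef := CRef.mk (Pat.mk 0x1c00000010000000100000001000000000 0x140000001c0000003c0000001f0000001800000008 6 6) 0 0 (step_sound _ 35 [(rh932754581e0f4330.shift 3 0), (rhd753d0ecdc56c4ad.shift 0 1)] (by decide +kernel))
noncomputable def rh288be84e59575f22 : CRef := CRef.mk (Pat.mk 0x600000003000000020000000200000000000000000000000000000000 0x1e00000003000000070000000600000006000000070000000700000005 6 5) 0 0 (step_sound _ 228 [(rh361cc68994bd8a63.shift 0 6), rh7bad8ed7fb4739ae] (by decide +kernel))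
noncomputable def rhe893c18461f246bc : CRef := CRef.mk (Pat.mk 0x80000000e000000080000000c00000000 0x80000000e0000007f000000ff000000f0 6 8) 0 0 (step_sound _ 36 [(rh55afc6a59410cf00.shift 3 0), rhcc98a93f80e0f8e0] (by decide +kernel))
noncomputable def rh03e3279400e9ede1 : CRef := CRef.mk (Pat.mk 0x200000003000000020000000200000000 0x100000007000000070000000600000003000000030000000300000001 6 3) 0 0 (step_sound _ 0 [(rh65e8eebd79bda951.shift 0 1), rh79877ebd3ef475dd] (by decide +kernel))
noncomputable def rhe5bb2adb50749edc : CRef := CRef.mk (Pat.mk 0x600000004000000040000000c000000000000000000000000 0x4000000060000007c0000007e0000007f000000300000001000000010 6 7) 0 0 (step_sound _ 131 [rh01797f8244ce6d9f, (rh2145e1d24b96a57e.shift 2 3)] (by decide +kernel))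
noncomputable def rhd0638bd6fe8b58b9 : CRef := CRef.mk (Pat.mk 0x200000003000000020000000200000000 0x600000006000000070000000300000003000000060000000600000004 6 3) 0 0 (step_sound _ 34 [(rh55afc6a59410cf00.shift 1 0), (rh9deb5ea359911d73.shift 0 1)] (by decide +kernel))
noncomputable def rh8c616c4ebdf3ee57 : CRef := CRef.mk (Pat.mk 0x60000000e000000000000000000000000 0x40000000400000006000000060000000f0000003e0000000e0000000c 6 6) 0 0 (step_sound _ 162 [(rh1e309b005ffa1b36.shift 1 1), (rh571950d89739e871.shift 1 2), rh80b30311976dcd5f] (by decide +kernel))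
noncomputable def rhd8346fd56ce86e26 : CRef := CRef.mk (Pat.mk 0x1c00000038000000000000000000000000 0xc0000001c0000001c0000001c0000003c0000000f0000000c00000008 6 6) 0 0 (step_sound _ 67 [(rh40241bd608e5be1a.shift 2 0), (rh4fd420858ccab8d0.shift 0 1), (rhea7a1800d6f053bd.shift 3 0)] (by decide +kernel))
noncomputable def rhdd4ba812df0fca9a : CRef := CRef.mk (Pat.mk 0x7000000060000000200000000 0x60000000f0000001f00000007000000060000000700000005 6 5) 0 0 (step_sound _ 129 [(rh55a1f6c57a317ce6.shift 1 0), rh7250cfd3db0ef070, rh888d8d7ab43e8c54] (by decide +kernel))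
noncomputable def rh46332abad5027c18 : CRef := CRef.mk (Pat.mk 0x1e000000000000000000000000 0x1000000070000000700000007000000070000001e000000070000000600000006 6 5) 0 0 (step_sound _ 129 [(rh3244c3cc8379b070.shift 0 3), rh4402653d75ffe56a] (by decide +kernel))
noncomputable def rhbc53cbf6dcd83651 : CRef := CRef.mk (Pat.mk 0x200000007000000040000000000000000 0x70000000700000007000000070000001f0000001b00000001 6 5) 0 0 (step_sound _ 161 [(rh2145e1d24b96a57e.shift 1 2), rh8be92a317b3a5c88] (by decide +kernel))
noncomputable def rh7e6f91393ca98373 : CRef := CRef.mk (Pat.mk 0x200000007000000040000000000000000 0xc0000000c0000000c0000001e000000070000003e0000000c0000000c 6 6) 0 0 (step_sound _ 34 [rh36c1eac2acc7c645, (rh7b1f1fb55310c477.shift 1 0)] (by decide +kernel))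
noncomputable def rh4368217ec1272ce6 : CRef := CRef.mk (Pat.mk 0x1e000000100000000000000000 0x6000000070000001e0000001f0000000700000007 6 5) 0 0 (step_sound _ 129 [(rh3244c3cc8379b070.shift 0 3), rhb7bc43de8b306739] (by decide +kernel))
noncomputable def rhb04145dc3da226a5 : CRef := CRef.mk (Pat.mk 0x16000000100000000000000000 0x10000000330000001f000000380000000800000008 6 6) 0 0 (step_sound _ 99 [rh8859ac061aed93d9, (rhe25b0a99195a5d59.shift 1 2)] (by decide +kernel))
noncomputable def rha45bcd1a02ddba08 : CRef := CRef.mk (Pat.mk 0x1600000014000000000000000000000000 0x1600000016000000160000003c0000001f0000000e00000008 6 6) 0 0 (step_sound _ 99 [rh3648c04e4793fbd2, (rhf48373e13d2bc128.shift 1 3)] (by decide +kernel))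
noncomputable def rhe09cfcd5f84c47cb : CRef := CRef.mk (Pat.mk 0x1600000014000000000000000000000000 0x400000016000000170000001f0000003f0000000f0000000f 6 6) 0 0 (step_sound _ 97 [rh048d0bc650a6bbc1, rh5dc5071a19a64e2e, rhaf17d7ce619e136e] (by decide +kernel))
noncomputable def rh10e632a752ee89b7 : CRef := CRef.mk (Pat.mk 0x160000001400000000000000000000000000000000 0x2000000060000001600000016000000370000003e0000001f0000000e0000000a 6 6) 0 0 (step_sound _ 98 [(rh0a6888916bcef86b.shift 1 0), (rh406bfc4f631a2f4f.shift 1 0), (rh7b24c4ccc068b0b2.shift 1 2), rhc5701ad72fdbcf81] (by decide +kernel))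
noncomputable def rh78289852fc6942a8 : CRef := CRef.mk (Pat.mk 0x7000000040000000400000000 0xa0000000e0000001e000000070000000c0000000e0000000a 6 5) 0 0 (step_sound _ 130 [(rh4017de503635a93b.shift 0 1), (rh426f403fa814630c.shift 2 0), (rhd7cb8ed87e2022d8.shift 1 0)] (by decide +kernel))
noncomputable def rhcd4ff5e74873e18b : CRef := CRef.mk (Pat.mk 0x80000000800000008000000000000000000000000 0x800000008000000380000001f000000fc0000001400000014 6 8) 0 0 (step_sound _ 68 [rh1dc8cc9ca9c9e629, (rh475253e964ed1313.shift 3 0), (rh47dece01c1595e79.shift 3 0), (rhb6e11cfc959c8a3c.shift 1 1)] (by decide +kernel))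
noncomputable def rhdd654bbc0781e67b : CRef := CRef.mk (Pat.mk 0xc0000002800000000000000000000000000000000 0x40000000c0000000c0000000c0000007c0000001f0000001c0000000c00000004 6 7) 0 0 (step_sound _ 132 [rh50b6a74b66019ea1, (rhf48373e13d2bc128.shift 2 4)] (by decide +kernel))
noncomputable def rhbb2258de3c9392a8 : CRef := CRef.mk (Pat.mk 0x2c00000028000000000000000000000000 0x140000001c0000001c0000007c0000002f000000780000001f0000001c00000010 6 7) 0 0 (step_sound _ 100 [rh8a188d2dc4ab869e, (rhf48373e13d2bc128.shift 2 3)] (by decide +kernel))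
noncomputable def rh84940e8be3cf8fb1 : CRef := CRef.mk (Pat.mk 0xc0000000800000000000000000000000000000000 0x40000001c0000001c0000003c0000000f0000000c0000001c0000001c0000001c00000014 6 6) 0 0 (step_sound _ 99 [(rh0a6888916bcef86b.shift 2 0), (rh406bfc4f631a2f4f.shift 2 0), (rh7b24c4ccc068b0b2.shift 2 2), (rh9b68a071bbd4e433.shift 0 2), (rhf9a6286f1d5377a2.shift 2 2)] (by decide +kernel))
noncomputable def rh482d647aab4b93ee : CRef := CRef.mk (Pat.mk 0x20000000200000002000000020000000000000000 0x500000007000000070000000200000002000000060000000600000004 6 3) 0 0 (step_sound _ 34 [rh28c8f707ed5ca26c, (rhd3458b32566d63f7.shift 1 1)] (by decide +kernel))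
noncomputable def rh15f0ce6ac32bde25 : CRef := CRef.mk (Pat.mk 0x80000000a0000000800000008000000000000000000000000 0x10000000180000000f0000000c000000180000001c0000001c00000004 6 5) 0 0 (step_sound _ 196 [(rh2f68792b6b779e96.shift 3 3), rh5738f4b9ccd4f1f9] (by decide +kernel))
noncomputable def rh9925428958c3c857 : CRef := CRef.mk (Pat.mk 0x80000000a00000008000000080000000000000000 0x140000001e0000000f00000008000000180000001800000010 6 5) 0 0 (step_sound _ 36 [rh30932638aee112e0, (rhd3458b32566d63f7.shift 3 1)] (by decide +kernel))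
noncomputable def rhb61eb019e882de17 : CRef := CRef.mk (Pat.mk 0x80000000a000000080000000800000000 0x100000007c0000000f000000080000001c00000014 6 7) 0 0 (step_sound _ 2 [rh430794f3738601d0, (rh79877ebd3ef475dd.shift 2 0)] (by decide +kernel))
noncomputable def rh0ac77ce6e22e19ad : CRef := CRef.mk (Pat.mk 0x80000000a00000008000000080000000000000000 0x100000007c0000000f000000080000000c0000000c00000004 6 7) 0 0 (step_sound _ 34 [(rh79877ebd3ef475dd.shift 2 1), rhf884ace1e129bdf1] (by decide +kernel))
noncomputable def rhcda1c8ee340e0d2d : CRef := CRef.mk (Pat.mk 0x80000000a00000008000000080000000000000000 0x100000007c0000000f00000008000000180000001800000010 6 7) 0 0 (step_sound _ 36 [rh52953df648ff3398, (rhd3458b32566d63f7.shift 3 1)] (by decide +kernel))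
noncomputable def rhbdbc38e9704037ba : CRef := CRef.mk (Pat.mk 0x80000000a000000080000000800000000 0x140000001e0000000f000000080000001c00000014 6 5) 0 0 (step_sound _ 2 [rh50381b1ee12ee04f, (rh79877ebd3ef475dd.shift 2 0)] (by decide +kernel))
noncomputable def rhdd4416e6ec31cff9 : CRef := CRef.mk (Pat.mk 0x80000000a00000008000000080000000000000000 0x140000001e0000000f000000080000000c0000000c00000004 6 5) 0 0 (step_sound _ 34 [rh0d873266c2eb5bec, (rh79877ebd3ef475dd.shift 2 1)] (by decide +kernel))
noncomputable def rhee3e780382d15f79 : CRef := CRef.mk (Pat.mk 0x8000000080000000a00000008 0x140000003f0000007f0000000b00000008 6 7) 0 0 (step_sound _ 98 [(rh50fbb5868c909700.shift 2 0), rh7e1c982f8a27525e] (by decide +kernel))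
noncomputable def rhc78f887c66795e5a : CRef := CRef.mk (Pat.mk 0x28000000280000000000000000 0x4000000040000000f0000003f0000007f0000000800000008 6 7) 0 0 (step_sound _ 98 [(rh1f7cdca6e3e06448.shift 0 2), rh32f6ebe012bbda71, (rh8c25cb665ab79ec0.shift 0 2), (rha6816dee951f7ee6.shift 2 2)] (by decide +kernel))
noncomputable def rh3645b78449801401 : CRef := CRef.mk (Pat.mk 0x28000000380000000000000000 0x6000000060000003f0000003e0000007f00000008 6 7) 0 0 (step_sound _ 66 [(rh2cc7d62e70c02209.shift 0 1), (rh2ebbcfe90e0f250d.shift 1 1), (rh43715a9a1b5d459f.shift 1 0)] (by decide +kernel))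
noncomputable def rhd18d4b378d20653d : CRef := CRef.mk (Pat.mk 0x8000000380000000000000000000000000000000000000000 0x140000001c0000001c00000008000000780000001f0000001c0000001c0000001c00000010 6 7) 0 0 (step_sound _ 131 [(rh19b19bf0872cfe73.shift 2 1), (rh86c002bec37c9c8c.shift 2 0), (rhf0f55c4504412200.shift 0 4)] (by decide +kernel))
noncomputable def rh18e52402a635c204 : CRef := CRef.mk (Pat.mk 0x2800000038000000000000000000000000 0x140000001c0000001c0000003c000000380000001f0000001c0000001c 6 6) 0 0 (step_sound _ 163 [(rh235edbdf3bbc6c03.shift 3 0), (rh5bbc0f892859fdc5.shift 2 0), (rha768b229dc254047.shift 3 0), rhb8a5325c9f5d88c8] (by decide +kernel))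
noncomputable def rhfe93ff8f121320b2 : CRef := CRef.mk (Pat.mk 0x2800000038000000000000000000000000 0x800000018000000380000007e000001f70000003000000030 6 9) 0 0 (step_sound _ 36 [(rh39e87aa729298fee.shift 2 0), (rh6612f1eec9752ffc.shift 2 0), rha2db8c1c9bcadc52, (rhe41145ee6040fe45.shift 3 0)] (by decide +kernel))
noncomputable def rhd5b4e0a5c05f6439 : CRef := CRef.mk (Pat.mk 0x5000000058000000000000000000000000 0x180000007c0000007f0000003c0000001800000018 6 7) 0 0 (step_sound _ 131 [rh897d573130d49112, (rhaf17d7ce619e136e.shift 2 0)] (by decide +kernel))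
noncomputable def rh0b4c800e40daca93 : CRef := CRef.mk (Pat.mk 0x280000002c000000000000000000000000 0x4000000160000003f0000003e000000780000002800000020 6 7) 0 0 (step_sound _ 100 [(rh2ba551de881ca4cd.shift 0 2), (rh2ebbcfe90e0f250d.shift 1 2), (rh7fb660bc21ce4329.shift 0 3), (rhfd0d5dfa741eea06.shift 1 0)] (by decide +kernel))
noncomputable def rhe4a6d2255d83faf5 : CRef := CRef.mk (Pat.mk 0x80000002c000000000000000000000000 0x8000000080000000f0000003e0000007e0000000400000004 6 7) 0 0 (step_sound _ 66 [(rha7dfeceabd3f28a3.shift 0 2), (rhcf80391c5046a495.shift 2 0), (rhf91b1398c815afd2.shift 2 0)] (by decide +kernel))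
noncomputable def rh2fa164ba5c06bb6d : CRef := CRef.mk (Pat.mk 0x1400000016000000000000000000000000 0x60000000f0000001f0000001e000000370000001600000012 6 6) 0 0 (step_sound _ 99 [rh3423e5ac208fb65b, rh4f129d8f37c2c70a, rhfd0d5dfa741eea06] (by decide +kernel))
noncomputable def rh751bd15d29e3f2b1 : CRef := CRef.mk (Pat.mk 0x5000000018000000000000000000000000 0x300000003c0000003e0000007f0000001f000000fc0000003c0000003c 6 8) 0 0 (step_sound _ 131 [(rh26fad6f28aba9fb5.shift 0 1), (rh2da7bb8ee8429194.shift 2 0), (rh5dc5071a19a64e2e.shift 2 0), rh897d573130d49112, (rhdf5876b222a4c700.shift 1 0)] (by decide +kernel))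
noncomputable def rh35c1cdedc435622b : CRef := CRef.mk (Pat.mk 0x8000000380000000000000000000000000000000000000000 0x140000001c0000001c000000080000007c0000001f0000001c0000001c0000001c00000010 6 7) 0 0 (step_sound _ 131 [(rh2820ca9a6c4f41b4.shift 0 4), (rh86c002bec37c9c8c.shift 2 0), (rhf0f55c4504412200.shift 0 4)] (by decide +kernel))
noncomputable def rha13423141a6dee87 : CRef := CRef.mk (Pat.mk 0x2800000038000000000000000000000000 0xc0000001c0000001f00000038000000fe000000f80000003800000038 6 8) 0 0 (step_sound _ 132 [rh1085b9e5159d0f8c, (rh2ed4ea5d5088228d.shift 1 2), (rhc7748ec1e18e652f.shift 1 1), (rhcb68da4f2dc5e7fd.shift 1 0)] (by decide +kernel))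
noncomputable def rh406170d06d2e1040 : CRef := CRef.mk (Pat.mk 0x200000002000000020000000000000000 0x10000000700000007000000070000000300000003000000070000000600000004 6 3) 0 0 (step_sound _ 161 [(rh1d02867ed80f91bc.shift 0 1), rhae22d6cdf819408b, (rhc85cc95794737cf7.shift 0 2), rhcae87bda2c3c01d2] (by decide +kernel))
noncomputable def rh7fd74e6b1fad4415 : CRef := CRef.mk (Pat.mk 0xa0000000a00000002000000000000000000000000 0x4000000060000000f0000001b00000006000000070000000700000005 6 5) 0 0 (step_sound _ 65 [(rh12461e137161f2e1.shift 0 1), rh3181373a30ceb9e3, rh686dda116d7c0588, rha453be73bb897994] (by decide +kernel))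
noncomputable def rhfdee0034602635ef : CRef := CRef.mk (Pat.mk 0x4000000140000000400000000 0xa0000000e0000000e00000004000000370000003e0000000a 6 6) 0 0 (step_sound _ 130 [(rh0fd870c734e6c513.shift 1 0), (rh20966da26a1c2ae8.shift 1 0), (rhc85cc95794737cf7.shift 1 1), rhe06c7604aef75ec4] (by decide +kernel))
noncomputable def rh7ff2fcb04e113733 : CRef := CRef.mk (Pat.mk 0x2800000028000000000000000000000000 0x8000000080000003f000000fe0000007f0000001400000014 6 8) 0 0 (step_sound _ 100 [(rh24e72371d7873615.shift 2 0), rha2cb1977398e6365, (rha9fbfd4bb8cf890b.shift 0 3)] (by decide +kernel))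
noncomputable def rh9865b7dd8cc00fe1 : CRef := CRef.mk (Pat.mk 0x20000000200000002000000000000000000000000 0x100000003000000030000000300000003000000070000000700000005 6 3) 0 0 (step_sound _ 65 [rh0c1c1b53bc5a1510, rh3181373a30ceb9e3, (rhaba26d7b21102469.shift 0 1), rhcae87bda2c3c01d2] (by decide +kernel))
noncomputable def rh4692eec48c60ad82 : CRef := CRef.mk (Pat.mk 0x20000000200000002000000000000000000000000 0x100000003000000030000000300000006000000070000000700000005 6 3) 0 0 (step_sound _ 65 [rh0c1c1b53bc5a1510, rh3181373a30ceb9e3, rhcae87bda2c3c01d2, (rhd7cb8ed87e2022d8.shift 0 1)] (by decide +kernel))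
noncomputable def rhd2a508818eb3867e : CRef := CRef.mk (Pat.mk 0x80000000a000000080000000800000000 0x140000003c0000000e0000007e0000001f00000016 6 7) 0 0 (step_sound _ 34 [(rh932754581e0f4330.shift 2 0), rhff4e40cbaaa9bd20] (by decide +kernel))
noncomputable def rhaced9bf34d7f5960 : CRef := CRef.mk (Pat.mk 0x1000000010000000100000001000000000 0x1000000010000000ff0000007e0000002f 6 8) 0 0 (step_sound _ 35 [rh3af75113d91dca31, (rh932754581e0f4330.shift 3 0)] (by decide +kernel))
noncomputable def rh25ced0b4575960fe : CRef := CRef.mk (Pat.mk 0x2800000038000000000000000000000000 0x2c0000002c0000002f0000003c0000003e0000001c00000010 6 6) 0 0 (step_sound _ 68 [(rhade0f4c81793f68e.shift 3 0), (rhcf80391c5046a495.shift 4 0), (rhecf880a541f44578.shift 0 1)] (by decide +kernel))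
noncomputable def rh23bfd094535a79e0 : CRef := CRef.mk (Pat.mk 0x5000000070000000000000000000000000 0x500000005000000050000001fe0000007f0000002800000028 6 9) 0 0 (step_sound _ 69 [rh58a25cf2c9a98a75, (rhade0f4c81793f68e.shift 4 0), (rhcf80391c5046a495.shift 5 0)] (by decide +kernel))
noncomputable def rh850bd2b83b86d6a2 : CRef := CRef.mk (Pat.mk 0x2800000038000000000000000000000000 0x38000000780000002f0000003c000000f80000005000000010 6 8) 0 0 (step_sound _ 68 [(rhade0f4c81793f68e.shift 3 0), (rhb67cee603ec67fa4.shift 0 1), (rhcf80391c5046a495.shift 4 0)] (by decide +kernel))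
noncomputable def rhf9580640a27249ea : CRef := CRef.mk (Pat.mk 0x140000001c000000000000000000000000 0x140000001400000014000000ff000001fc0000002800000028 6 9) 0 0 (step_sound _ 67 [(rhade0f4c81793f68e.shift 2 0), rhcf613377bd5ecfc2, (rhcf80391c5046a495.shift 3 0)] (by decide +kernel))
noncomputable def rh53567e131628b92e : CRef := CRef.mk (Pat.mk 0xa0000001a000000000000000000000000 0x80000000a0000000a0000003e0000003f0000001400000014 6 6) 0 0 (step_sound _ 68 [rh1cdc1db8736d27d8, (rh5d54cb79a67f97ab.shift 3 0)] (by decide +kernel))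
noncomputable def rh66fdee857a24091f : CRef := CRef.mk (Pat.mk 0x2800000068000000000000000000000000 0x50000000740000007c0000007c0000002f000000680000007c0000007c00000054 6 7) 0 0 (step_sound _ 165 [(rh14e0829dc73b6804.shift 4 2), rh32e81ba04a706b5a, (rh70e33bfdf511e144.shift 5 0), rh7ffc77cf4c1fd48e] (by decide +kernel))
noncomputable def rh384816bea6041b97 : CRef := CRef.mk (Pat.mk 0x80000002800000028000000000000000000000000 0x18000000380000007c0000002f0000007c0000006c0000004c00000048 6 7) 0 0 (step_sound _ 130 [(rh328f7f103cdcc067.shift 2 0), rh6d9be37e846df60d, (rh8c25cb665ab79ec0.shift 0 3), rheb66a64178367915] (by decide +kernel))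
noncomputable def rh6d3fabaf7ec9c89d : CRef := CRef.mk (Pat.mk 0x80000002800000028000000000000000000000000 0x10000000140000003c0000003f0000002c000000280000002c0000000c00000004 6 6) 0 0 (step_sound _ 196 [(rh1a77efeddae3962a.shift 2 0), (rh22d86f446f3de558.shift 0 2), (rhee04577b5ae6061f.shift 3 2)] (by decide +kernel))
noncomputable def rha98a27a39ca716f5 : CRef := CRef.mk (Pat.mk 0x80000002800000028000000000000000000000000 0x40000000c0000000c0000002c0000007c0000002f0000007c0000006c0000004c00000040 6 7) 0 0 (step_sound _ 130 [rh6d9be37e846df60d, (rh8c25cb665ab79ec0.shift 0 3), (rh8d0044aeb7947d10.shift 2 1)] (by decide +kernel))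
noncomputable def rh1aab93d8dd87c147 : CRef := CRef.mk (Pat.mk 0x8000000280000002800000000 0x100000001c0000001c0000001f000000fc0000002c0000002c00000028 6 8) 0 0 (step_sound _ 131 [(rh7086929b0e17680e.shift 2 0), (rh7ef5fa5c39f1c762.shift 2 1), rhc8e5a5606908e7d0, (rhfeb565e3642a0443.shift 2 1)] (by decide +kernel))
noncomputable def rh144c921ae3171e1e : CRef := CRef.mk (Pat.mk 0x4000000140000001400000000 0xa0000002e0000003f0000007e000000160000001600000012 6 7) 0 0 (step_sound _ 130 [(rh0fd870c734e6c513.shift 1 0), (rh402d223d12d7377d.shift 1 0), (rh7ef5fa5c39f1c762.shift 1 1), rh8830d6e5bb9cc2ee] (by decide +kernel))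
noncomputable def rh65d01379fd6ff22b : CRef := CRef.mk (Pat.mk 0x80000000800000028000000000000000000000000 0x140000003c0000000f0000007c0000000f0000000c00000004 6 7) 0 0 (step_sound _ 67 [(rh5ee4dc8825dcefa0.shift 0 1), (rh6aa5625770489e83.shift 2 0), (rhc8fd50c44a2112a0.shift 0 1)] (by decide +kernel))
noncomputable def rh1dbd5905aef3dade : CRef := CRef.mk (Pat.mk 0x20000000a0000000a00000000000000000000000000000000 0x500000007000000070000000a0000000a0000000e0000000e0000000c0000000400000004 6 4) 0 0 (step_sound _ 225 [(rh605ef5a5ae48f4b0.shift 1 0), (rh7ef5fa5c39f1c762.shift 0 4)] (by decide +kernel))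
noncomputable def rh9d84eae4e5650c9b : CRef := CRef.mk (Pat.mk 0x8000000280000002800000000000000000000000000000000 0x140000001c0000005c000000780000002f0000003e00000077000000740000005400000040 6 7) 0 0 (step_sound _ 130 [(rh7f2f2b6d79618b4d.shift 2 3), (rhaf5b8d1057d4a0f3.shift 0 1), (rhe2f3f827d59cc8c1.shift 1 0), (rhfafeb437ceb8396d.shift 2 1)] (by decide +kernel))
noncomputable def rh2b6ecd6b948e770d : CRef := CRef.mk (Pat.mk 0x80000002800000028000000000000000000000000 0xf40000007c0000002f000000380000003c0000001c00000014 6 8) 0 0 (step_sound _ 67 [(rh3181373a30ceb9e3.shift 2 0), (rh45fda7233c8d0aaa.shift 0 1), (rh6aa5625770489e83.shift 2 0), (rhcae87bda2c3c01d2.shift 2 0)] (by decide +kernel))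
noncomputable def rh69c6c37a1cdfd058 : CRef := CRef.mk (Pat.mk 0xa0000000e000000000000000000000000000000000 0x2000000030000000bf000000fe0000007e000000700000007000000070 6 8) 0 0 (step_sound _ 132 [(rh0164c9b7a48fd11e.shift 0 3), (rh2cc7d62e70c02209.shift 2 3), (rh3423e5ac208fb65b.shift 3 1), (rh85810b7a5dd036d6.shift 2 0)] (by decide +kernel))
noncomputable def rh7a593c64f6eb9643 : CRef := CRef.mk (Pat.mk 0x80000000e0000000000000000000000000000000000000000 0x140000001c0000001c000000080000000f0000007c0000001c0000001c0000001c00000004 6 7) 0 0 (step_sound _ 131 [(rh5a8abb721f11b584.shift 0 1), (rhc21a95c499b3efdb.shift 0 4), (rhcfcb4c4d97355708.shift 2 0)] (by decide +kernel))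
noncomputable def rh4a605cc958097ade : CRef := CRef.mk (Pat.mk 0xa0000000a00000002000000000000000000000000 0x140000001c0000001e0000000a0000001f0000007e0000003e0000001400000014 6 7) 0 0 (step_sound _ 99 [rh0092c88cb1cbef18, (rh17784775315af99f.shift 0 2), (rh1c365c76821ab000.shift 1 1), rhba111a450e2cdcf3] (by decide +kernel))
noncomputable def rh2c9824e3d3e9dab7 : CRef := CRef.mk (Pat.mk 0x280000002800000008000000000000000000000000 0x500000007000000070000000280000007c000001ff000000780000005000000040 6 9) 0 0 (step_sound _ 132 [(rh155bfc9769007f58.shift 2 0), (rh1613b331b579ff71.shift 2 1), (rh2820ca9a6c4f41b4.shift 0 3), (rhf0f55c4504412200.shift 0 3)] (by decide +kernel))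
noncomputable def rha7c1da122ef3c297 : CRef := CRef.mk (Pat.mk 0x80000000e0000000000000000000000000000000000000000 0x140000001c0000001c000000080000001f0000007c0000001c0000001c0000001c00000004 6 7) 0 0 (step_sound _ 131 [(rh8ee80cc30e93a344.shift 0 4), (rhc21a95c499b3efdb.shift 0 4), (rhcfcb4c4d97355708.shift 2 0)] (by decide +kernel))
noncomputable def rh5c5fc92a22ce9407 : CRef := CRef.mk (Pat.mk 0x200000002000000020000000000000000 0x500000007000000070000000300000002000000070000000700000005 6 3) 0 0 (step_sound _ 161 [rh3181373a30ceb9e3, rh6aa5625770489e83, (rh762a1aeaf83c662a.shift 0 1), rhcae87bda2c3c01d2] (by decide +kernel))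
noncomputable def rh0aae1ee34b51faa6 : CRef := CRef.mk (Pat.mk 0xa0000000a000000020000000000000000 0x140000003e0000001e0000000b0000001b0000001f0000001f00000005 6 6) 0 0 (step_sound _ 161 [(rh20966da26a1c2ae8.shift 0 1), rh3181373a30ceb9e3, rh31af36bbc0ef7d14] (by decide +kernel))
noncomputable def rhd24db5edf9fa939b : CRef := CRef.mk (Pat.mk 0x800000008000000080000000000000000 0x40000001c0000001c0000003c0000000f0000000c0000001c0000001800000010 6 6) 0 0 (step_sound _ 163 [(rh1d02867ed80f91bc.shift 2 1), (rh5ee4dc8825dcefa0.shift 0 1), (rhae22d6cdf819408b.shift 2 0), (rhc17b7d8fab3dfe57.shift 2 1), (rhcae87bda2c3c01d2.shift 2 0)] (by decide +kernel))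
noncomputable def rhe8a7723f405835bc : CRef := CRef.mk (Pat.mk 0x8000000080000000800000000 0x140000001c0000003c0000000f0000000c0000000c0000000c 6 6) 0 0 (step_sound _ 131 [(rh0fd870c734e6c513.shift 2 0), (rh20966da26a1c2ae8.shift 2 0), rh5ee4dc8825dcefa0] (by decide +kernel))
noncomputable def rh72ef61a7f3630de0 : CRef := CRef.mk (Pat.mk 0x4000000140000000400000000 0xa0000000e0000000e00000004000000370000003e0000000a 6 6) 0 0 (step_sound _ 130 [(rh0fd870c734e6c513.shift 1 0), (rh55a026e6f690bbaf.shift 1 0), (rhc17b7d8fab3dfe57.shift 1 0), rhe06c7604aef75ec4] (by decide +kernel))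
noncomputable def rh30afbeb9a1894893 : CRef := CRef.mk (Pat.mk 0x140000001400000004000000000000000000000000 0x1200000016000000160000007e0000003f0000002e0000000a 6 7) 0 0 (step_sound _ 66 [(rh0c1c1b53bc5a1510.shift 1 0), (rh3181373a30ceb9e3.shift 1 0), (rhcae87bda2c3c01d2.shift 1 0), (rhd58cef73aa1047b3.shift 0 1)] (by decide +kernel))
noncomputable def rh26788f4d5e86a140 : CRef := CRef.mk (Pat.mk 0x2800000028000000000000000000000000 0x28000000280000002f000000fe000001ff0000001400000014 6 9) 0 0 (step_sound _ 100 [(rh1561ff1fafeb7917.shift 2 2), rh26e1017678d9da1f, (rh4dfabd725d1e89ab.shift 1 0), (rha9fbfd4bb8cf890b.shift 0 3)] (by decide +kernel))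
noncomputable def rh2028f4b509227053 : CRef := CRef.mk (Pat.mk 0x2800000020000000000000000000000000 0x5000000070000000f70000003e000001f7000000700000007000000050 6 9) 0 0 (step_sound _ 132 [rh10b07ed0c820d236, (rh3918eeb6c53434d8.shift 0 3), (rhb018a7c71ce35183.shift 3 0), (rhc21a95c499b3efdb.shift 2 3)] (by decide +kernel))
noncomputable def rh6e77a5b8b75aaf3d : CRef := CRef.mk (Pat.mk 0x8000000080000000a00000008 0x140000001f0000007f0000000f00000008 6 7) 0 0 (step_sound _ 98 [rh4a081f9eee6e8eac, (rh50fbb5868c909700.shift 2 0)] (by decide +kernel))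
noncomputable def rh151909bcb9d9a03a : CRef := CRef.mk (Pat.mk 0x20000000200000002000000020000000000000000 0x600000006000000070000000300000003000000030000000300000003 6 3) 0 0 (step_sound _ 32 [rh49c6724c8f708504, (rh79877ebd3ef475dd.shift 0 1)] (by decide +kernel))
noncomputable def rh8ff3268104e8d133 : CRef := CRef.mk (Pat.mk 0x8000000080000000a0000000800000000 0x60000001f0000007e0000000e0000003c00000014 6 7) 0 0 (step_sound _ 130 [(rh50fbb5868c909700.shift 2 1), rh7f9dcf5deeab39bd] (by decide +kernel))
noncomputable def rh3bc796a2f66ab682 : CRef := CRef.mk (Pat.mk 0x2800000068000000000000000000000000 0x50000000740000007c0000007c0000002f000000680000007c0000007c00000054 6 7) 0 0 (step_sound _ 163 [rh3308f7430b387c3e, (rh33d7f1bee8f3d95a.shift 2 0), rh65b04519e93422b5, (rh86ce21cd54c503f9.shift 2 0), (rh8838f10d399c2b5a.shift 2 1), (rhabf31ee2c115f09b.shift 2 0)] (by decide +kernel))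
noncomputable def rhba6f39dd02c7788d : CRef := CRef.mk (Pat.mk 0x2800000020000000000000000000000000 0x500000007000000070000000f70000003e000001f7000000700000007000000050 6 9) 0 0 (step_sound _ 132 [(rh31daeb9c98e8a40c.shift 0 1), (rh3918eeb6c53434d8.shift 0 3), (rh6fe45633282bb629.shift 3 0), (rhc21a95c499b3efdb.shift 2 3)] (by decide +kernel))
noncomputable def rhfd51c958ce1d79dd : CRef := CRef.mk (Pat.mk 0x1e0000000000000000000000000000000000000000 0x400000006000000070000001e0000000700000007000000070000000700000005 6 5) 0 0 (step_sound _ 129 [rh65acf64cde1abad0, (rheb0810cc63b001d8.shift 0 4)] (by decide +kernel))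
noncomputable def rh0cf53d437c440c03 : CRef := CRef.mk (Pat.mk 0x400000007000000020000000000000000 0x10000001b0000001f00000007000000070000000700000007 6 5) 0 0 (step_sound _ 33 [rh0baae917dbe7d89c, (rh71222050f2c63a3a.shift 1 0)] (by decide +kernel))
noncomputable def rhf57cfb5f52aead4a : CRef := CRef.mk (Pat.mk 0x14000000160000000000000000 0x80000000e0000001f0000003c000000160000001600000016 6 6) 0 0 (step_sound _ 99 [(rh18965a982d73c794.shift 1 2), rhf64932fa6159614b] (by decide +kernel))
noncomputable def rh07d54b51c8be62f5 : CRef := CRef.mk (Pat.mk 0x280000002c000000000000000000000000 0x40000001e0000007e0000003f0000002e0000002e0000002e00000004 6 7) 0 0 (step_sound _ 130 [(rh131b734881692307.shift 1 1), rh2dc0d1bb6a473626, (rh49fa14cb88fd0e82.shift 1 1), rh9d5f2c7f40783907] (by decide +kernel))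
noncomputable def rh24d90485bf1981a1 : CRef := CRef.mk (Pat.mk 0x280000002c000000000000000000000000 0x140000001c0000007e0000007c0000006f0000002c0000002c0000000c0000000c 6 7) 0 0 (step_sound _ 163 [rh0b7efbb8957237ea, (rh281c6819542c66e6.shift 2 0), (rhf3a34eed4ff8d16f.shift 2 2), (rhfafeb437ceb8396d.shift 2 0)] (by decide +kernel))
noncomputable def rh6ac22178ec706494 : CRef := CRef.mk (Pat.mk 0x4000000040000000600000000 0xa0000000e0000000f0000003c000000060000000600000004 6 6) 0 0 (step_sound _ 130 [rh1bd0c14c4de1ef4d, (rh9a369cb82ea472da.shift 1 1), (rha54302d5ccf5246c.shift 1 1), (rhc85cc95794737cf7.shift 1 1)] (by decide +kernel))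
noncomputable def rh6c84404f6a75cadc : CRef := CRef.mk (Pat.mk 0x280000000c000000000000000000000000 0x1c0000001f0000007c0000000c0000000c0000000c00000004 6 7) 0 0 (step_sound _ 132 [(rh18965a982d73c794.shift 2 3), rh97ffe42461bbb2bf] (by decide +kernel))
noncomputable def rhc38d58193208e5c2 : CRef := CRef.mk (Pat.mk 0x280000000c00000000000000000000000000000000 0xc0000001f000000780000000f0000007c0000001c0000001c00000014 6 7) 0 0 (step_sound _ 164 [(rh18965a982d73c794.shift 2 4), rhffca781e4180dbbd] (by decide +kernel))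
noncomputable def rha17f83b3b05a65d6 : CRef := CRef.mk (Pat.mk 0x400000006000000000000000000000000 0xa0000000e0000000e0000000e00000006000000070000003e0000000e0000000e 6 6) 0 0 (step_sound _ 162 [(rh281c6819542c66e6.shift 1 0), rh42f24e810e046db0, (rhf3a34eed4ff8d16f.shift 1 2), (rhfafeb437ceb8396d.shift 1 0)] (by decide +kernel))
noncomputable def rha13779e2c22604e1 : CRef := CRef.mk (Pat.mk 0x8000000080000000800000000 0x14000000140000007c0000001f000000780000000800000008 6 7) 0 0 (step_sound _ 132 [rh22d86f446f3de558, (rh5890386c1f942fa1.shift 3 1), (rh87d5e4118780fa3b.shift 3 0), rhba347e0d6180832a, (rhcd6e8ab92f0a4103.shift 3 0)] (by decide +kernel))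
noncomputable def rhdc5323e082b408b8 : CRef := CRef.mk (Pat.mk 0x8000000080000000a0000000800000000 0x40000001c0000001c000000180000000c0000000f0000001800000010 6 5) 0 0 (step_sound _ 164 [rh6984ff30f2891baa, (rhbaefcd01e0a8bca3.shift 3 1)] (by decide +kernel))
noncomputable def rh923f68e4cf0626c3 : CRef := CRef.mk (Pat.mk 0x80000000a000000080000000800000000 0x80000000f0000007f0000007f00000014 6 7) 0 0 (step_sound _ 34 [rh266acc31b27627f0, (rh932754581e0f4330.shift 2 0)] (by decide +kernel))
noncomputable def rhc815848d08250cb6 : CRef := CRef.mk (Pat.mk 0x2800000028000000000000000000000000 0x80000007f0000003f000000070000000400000004 6 7) 0 0 (step_sound _ 98 [(rh5bc5f4ab1822bc0a.shift 0 2), (rh9f2591205204f08d.shift 2 3), rhb5435f2d0b8e10aa, (rhe33d9496e10d8eb0.shift 0 3)] (by decide +kernel))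
noncomputable def rhcebe5d5b9be60371 : CRef := CRef.mk (Pat.mk 0x3800000028000000000000000000000000 0x7f0000003e0000003f000000060000000600000004 6 7) 0 0 (step_sound _ 130 [(rh00f1bb10334541e3.shift 0 4), (rh2c273f8387611dfa.shift 1 0), (rhdceeca65bdd8095a.shift 0 3)] (by decide +kernel))
noncomputable def rh7d7c2155600e215e : CRef := CRef.mk (Pat.mk 0xe000000020000000000000000 0x50000000700000007000000770000003e000000060000000600000006 6 7) 0 0 (step_sound _ 100 [rh341c1a47eff525d3, (rhd584a578337d0023.shift 1 2), (rhf94411b389c3e54c.shift 0 3)] (by decide +kernel))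
noncomputable def rh084ec929f0f0926d : CRef := CRef.mk (Pat.mk 0x380000002800000000000000000000000000000000 0x140000001c0000001f000000380000003c0000001e0000001c0000001c00000014 6 6) 0 0 (step_sound _ 99 [(rh020a5117575b5020.shift 0 2), (rh7f36f639160ea2c8.shift 3 2), (rhc03cff2a3b597cd9.shift 2 1), (rhfa40f754f1f7b88f.shift 2 0)] (by decide +kernel))
noncomputable def rhee32d14a79acfe9f : CRef := CRef.mk (Pat.mk 0x38000000280000000000000000 0x20000003f7000003fe000003b80000001000000010 6 10) 0 0 (step_sound _ 102 [(rh3e2feece716c384b.shift 2 2), (rh97c673cedfbd3c23.shift 1 0), (rhca1e4df97f377a88.shift 3 2), (rhd584a578337d0023.shift 3 2), (rhf01b8fb4e8ab9fa8.shift 0 2)] (by decide +kernel))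
noncomputable def rh3b9897bf704265bb : CRef := CRef.mk (Pat.mk 0x2c00000028000000000000000000000000 0x20000000780000003e0000003f000000160000001400000004 6 7) 0 0 (step_sound _ 132 [(rh2c1baeadcd4b32f5.shift 0 3), (rhba50fd7aca570c30.shift 1 1), (rhdceeca65bdd8095a.shift 0 3), (rhe1f5cc6b756e4e3e.shift 1 0)] (by decide +kernel))
noncomputable def rhbd8b8b0dfd357853 : CRef := CRef.mk (Pat.mk 0x2c000000080000000000000000 0x4000000040000007e0000003e0000000f0000000800000008 6 7) 0 0 (step_sound _ 130 [(rh7e1098702e50f2b0.shift 2 0), (rha40d42a2e34c408d.shift 2 0), (rhbe3726e66c56311c.shift 0 2)] (by decide +kernel))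
noncomputable def rhf83a33c32555a52c : CRef := CRef.mk (Pat.mk 0x1600000014000000000000000000000000 0x200000012000000370000001e0000001f0000000f0000000e00000002 6 6) 0 0 (step_sound _ 131 [(rhb9dd680bb9375a9f.shift 0 1), (rhd5889c99d29bf7d6.shift 0 1), rhe1f5cc6b756e4e3e] (by decide +kernel))
noncomputable def rhb4c4946b6e5fa766 : CRef := CRef.mk (Pat.mk 0x180000005000000000000000000000000000000000 0x3800000038000000780000001f0000007f0000003e0000003c0000003c00000004 6 7) 0 0 (step_sound _ 131 [(rh0411a296d05ffda8.shift 2 0), (rh2dc0d1bb6a473626.shift 1 1), (rh73469f26b4405fc6.shift 0 1), (rh81509ac7bb69ba5a.shift 0 1), (rh9bb455da33111465.shift 2 1)] (by decide +kernel))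
noncomputable def rhfe49780146593f50 : CRef := CRef.mk (Pat.mk 0x3800000008000000000000000000000000 0x100000001c0000001c0000001c000001df000000fc000000080000001c0000001c00000014 6 9) 0 0 (step_sound _ 163 [(rh38791ac5737ed75e.shift 2 4), (rh8d2de5fb85abf742.shift 2 0), (rha9fbfd4bb8cf890b.shift 0 4)] (by decide +kernel))
noncomputable def rhb26705bd62baab27 : CRef := CRef.mk (Pat.mk 0x1c000000140000000000000000 0xa0000000a0000001f000000ff000001dc0000000400000004 6 9) 0 0 (step_sound _ 131 [(rh32f6277f14b47a8f.shift 2 0), rh6d3f72594fd02f06, (rh9e5aed21cb094c64.shift 0 2), (rhdabfcd0659c2d3c8.shift 2 0)] (by decide +kernel))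
noncomputable def rh9c5992181d577b14 : CRef := CRef.mk (Pat.mk 0x3800000028000000000000000000000000 0x1800000038000000f8000000fe000000380000001f0000001c0000001c 6 8) 0 0 (step_sound _ 100 [rh92679c2c5050e8ed, (rh97d7d5a6f82c94ae.shift 1 3), (rhb00c6cda7b230383.shift 1 1), (rhf41f91314d5f8034.shift 1 0)] (by decide +kernel))
noncomputable def rh1c12bdae631f7254 : CRef := CRef.mk (Pat.mk 0x38000000280000000000000000 0x1400000014000000ff000000fe000000380000000800000008 6 8) 0 0 (step_sound _ 132 [(rh32f6277f14b47a8f.shift 3 0), (rh6d3f72594fd02f06.shift 1 0), (rh85955cfc01e7031b.shift 0 2), (rhdabfcd0659c2d3c8.shift 3 0)] (by decide +kernel))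
noncomputable def rh85bb52c012d18ab3 : CRef := CRef.mk (Pat.mk 0x40000001400000004000000000000000000000000 0xa0000003e00000037000000040000000e0000000e0000000a 6 6) 0 0 (step_sound _ 66 [(rh1d90b59f780b588e.shift 0 2), (rh3181373a30ceb9e3.shift 1 0), (rh46baee19951a66e7.shift 1 0), (rh6aa5625770489e83.shift 1 0)] (by decide +kernel))
noncomputable def rhc60bbf045c33e4fa : CRef := CRef.mk (Pat.mk 0x20000000200000002000000000000000000000000 0x400000006000000060000000600000003000000070000000700000005 6 3) 0 0 (step_sound _ 65 [rh3181373a30ceb9e3, rh367118e0bf0473e0, (rh55a026e6f690bbaf.shift 0 1), (rhc9de03f9731897d4.shift 1 0)] (by decide +kernel))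
noncomputable def rh7c535310c8d3106b : CRef := CRef.mk (Pat.mk 0x10000000100000001000000010 0x2f0000007e000000ff0000001000000010 6 8) 0 0 (step_sound _ 99 [(rh50fbb5868c909700.shift 3 0), rha4d03d47fef3bcc4] (by decide +kernel))
noncomputable def rhcec2806aff8d87ce : CRef := CRef.mk (Pat.mk 0x38000000280000000000000000 0x100000001c0000003e0000003c0000002f0000002c0000002c 6 6) 0 0 (step_sound _ 132 [(rh32f6277f14b47a8f.shift 3 0), (rha40d42a2e34c408d.shift 4 0), rhbe4eed7268c588df] (by decide +kernel))
noncomputable def rh356e051385f78584 : CRef := CRef.mk (Pat.mk 0x70000000500000000000000000 0x20000000280000007f000000fe000000570000005000000050 6 8) 0 0 (step_sound _ 133 [(rh32f6277f14b47a8f.shift 4 0), (rh7d0322e2c55dccc0.shift 4 0), (rha40d42a2e34c408d.shift 5 0), rhe97c1db7e6c13c5b] (by decide +kernel))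
noncomputable def rhfdb38b8b144f4169 : CRef := CRef.mk (Pat.mk 0x38000000280000000000000000 0x1000000050000000f80000003c0000002f0000007800000038 6 8) 0 0 (step_sound _ 132 [(rh32f6277f14b47a8f.shift 3 0), rh4d89eb2216983038, (rha40d42a2e34c408d.shift 4 0)] (by decide +kernel))
noncomputable def rh179ae2230e9c7ec4 : CRef := CRef.mk (Pat.mk 0xe0000000a0000000000000000 0x4000000140000007e0000007f000000ea0000000a0000000a 6 8) 0 0 (step_sound _ 130 [(rh32f6277f14b47a8f.shift 1 0), (rha40d42a2e34c408d.shift 2 0), rhc43122d9acfd94c3] (by decide +kernel))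
noncomputable def rh1fa33a0369aa1fc6 : CRef := CRef.mk (Pat.mk 0x140000001400000004000000000000000000000000 0x2000000060000001600000014000000160000001f0000003e0000000a00000008 6 6) 0 0 (step_sound _ 67 [(rh3ae32833f6db8739.shift 2 0), (rhb6e11cfc959c8a3c.shift 0 1), (rhe3b05a7bd5ea0632.shift 1 2)] (by decide +kernel))
noncomputable def rh006baf7432b3c33d : CRef := CRef.mk (Pat.mk 0x280000002800000008000000000000000000000000 0x4000000040000000680000007c0000002f0000007c000000380000001000000010 6 7) 0 0 (step_sound _ 130 [rh10e6f057ab9524f8, (rhda5817032ce38b35.shift 2 1), (rhe33d9496e10d8eb0.shift 0 4)] (by decide +kernel))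
noncomputable def rh536ca930aa551413 : CRef := CRef.mk (Pat.mk 0x28000000280000000800000000000000000000000000000000 0x40000000440000006c0000007c0000002f0000007c0000002c0000001c0000001c00000010 6 7) 0 0 (step_sound _ 162 [(rh9eaf497289a6ff86.shift 0 3), (rhd3d30d4418744b61.shift 2 0), (rhe33d9496e10d8eb0.shift 0 5)] (by decide +kernel))
noncomputable def rh87584bec0b8bcb7b : CRef := CRef.mk (Pat.mk 0x28000000280000000800000000000000000000000000000000 0x280000002c0000002c000000fc0000001f0000001c0000001c00000010 6 8) 0 0 (step_sound _ 99 [(rh3181373a30ceb9e3.shift 2 1), (rh7b6911d49691f535.shift 2 2), (rhc324b959c2cd5e2b.shift 2 0), (rhde5e2dbef132bb26.shift 0 2)] (by decide +kernel))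
noncomputable def rh9c2a11983e75daf2 : CRef := CRef.mk (Pat.mk 0x140000001400000004000000000000000000000000 0x1200000016000000160000007e0000003f0000002e0000000a 6 7) 0 0 (step_sound _ 66 [(rh0c1c1b53bc5a1510.shift 1 0), (rh3181373a30ceb9e3.shift 1 0), (rh7450607f508aa28c.shift 0 1), (rhcae87bda2c3c01d2.shift 1 0)] (by decide +kernel))
noncomputable def rh8858cbf1ab06cf1d : CRef := CRef.mk (Pat.mk 0x28000000080000000800000000 0x40000000c0000000f0000007c0000000e0000007c00000014 6 7) 0 0 (step_sound _ 131 [(rh0fd870c734e6c513.shift 2 0), (rh1904b52b42aee148.shift 1 0), rh2059d5709eedf008] (by decide +kernel))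
noncomputable def rhe5944c0a1e5f3c0d : CRef := CRef.mk (Pat.mk 0x1a0000000a0000000000000000 0x10000000140000003f0000003e0000000a0000000a0000000a 6 6) 0 0 (step_sound _ 132 [rh85e2ed48ed1d6443, (rhf9366b6a121593ef.shift 3 0)] (by decide +kernel))
noncomputable def rh3d8d5ae2a0985453 : CRef := CRef.mk (Pat.mk 0x680000002800000000000000000000000000000000 0x540000007c0000007c000000680000002f0000007c0000007c0000007400000050 6 7) 0 0 (step_sound _ 101 [rh0830676886a15456, (rh215e11e099257d75.shift 5 2), rh37d3858b80d3f6eb, (rhffb8e5993241bf15.shift 4 0)] (by decide +kernel))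
noncomputable def rhfc60e486baaa63e2 : CRef := CRef.mk (Pat.mk 0x200000002000000020000000000000000 0x500000007000000070000000700000002000000060000000600000004 6 3) 0 0 (step_sound _ 161 [rh46baee19951a66e7, (rhc17b7d8fab3dfe57.shift 0 1), (rhc4055b4872d6fb38.shift 0 1), (rhc9de03f9731897d4.shift 1 0)] (by decide +kernel))
noncomputable def rh1b7e89f239630456 : CRef := CRef.mk (Pat.mk 0xa0000000a00000002000000000000000000000000 0x40000000e0000000e0000000b0000003f000000070000000700000005 6 6) 0 0 (step_sound _ 65 [(rh20966da26a1c2ae8.shift 0 1), rh3181373a30ceb9e3, (rh7b6911d49691f535.shift 0 1)] (by decide +kernel))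
noncomputable def rhb415ded3d287f8bf : CRef := CRef.mk (Pat.mk 0x280000002800000008000000000000000000000000 0x5000000070000000740000003c0000002e0000007c0000007f0000005c00000014 6 7) 0 0 (step_sound _ 101 [rh1dc2c8063d155c48, (rh60b6109efe8d290f.shift 1 0), (rh6d22e4af4868beec.shift 2 2), rh8823574dbfdce1d9, (rh946643a1609713ab.shift 2 0), (rhc8ca1e2272b2483b.shift 2 0), (rhdfb2bc6cc6712b39.shift 2 0)] (by decide +kernel))
noncomputable def rh524a571044b20901 : CRef := CRef.mk (Pat.mk 0x1400000014000000040000000000000000 0xa0000000e0000001e0000001c000000170000003e0000007a00000020 6 7) 0 0 (step_sound _ 162 [(rh0fd870c734e6c513.shift 1 1), (rh20966da26a1c2ae8.shift 1 1), rhbde866a46bb4dda2, (rhc17b7d8fab3dfe57.shift 1 1)] (by decide +kernel))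
noncomputable def rh303ea2e9680ab5ed : CRef := CRef.mk (Pat.mk 0xe0000000200000000000000000 0x7000000070000000700000007e000000fe0000003f0000003000000030 6 8) 0 0 (step_sound _ 100 [(rh1419d6e22745bfdb.shift 0 2), (rh2cc7d62e70c02209.shift 2 2), (rh6afae9917edde40f.shift 2 0), (rhd5889c99d29bf7d6.shift 3 0)] (by decide +kernel))
noncomputable def rh3eff855c7aeefff9 : CRef := CRef.mk (Pat.mk 0x1c00000014000000000000000000000000 0x20000002b000000ff0000003f00000014000000380000003800000028 6 8) 0 0 (step_sound _ 164 [(rh0cbba39200b2b22d.shift 2 0), (rh2718c7c17af2d85a.shift 0 1), (rha11dfd15f08f96e3.shift 1 4), (rhff7d63dcb3cf9f74.shift 1 4)] (by decide +kernel))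
noncomputable def rh337c55446936fb0b : CRef := CRef.mk (Pat.mk 0x3800000020000000000000000000000000 0x10000000700000007000000070000001f70000003e00000027000000700000007000000050 6 9) 0 0 (step_sound _ 165 [(rh5fae5c1f330fb984.shift 4 0), (rhb12ffaec36122c99.shift 0 3), (rhff7d63dcb3cf9f74.shift 2 4)] (by decide +kernel))
noncomputable def rha227599e268fa8fa : CRef := CRef.mk (Pat.mk 0x20000000200000002000000000000000000000000 0x500000007000000070000000600000002000000070000000700000005 6 3) 0 0 (step_sound _ 65 [rh3181373a30ceb9e3, rh367118e0bf0473e0, (rhc17b7d8fab3dfe57.shift 0 1)] (by decide +kernel))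
noncomputable def rhf07c37d590073593 : CRef := CRef.mk (Pat.mk 0x20000000200000002000000000000000000000000 0x500000007000000070000000300000002000000070000000700000005 6 3) 0 0 (step_sound _ 65 [rh3181373a30ceb9e3, rh46baee19951a66e7, rh6aa5625770489e83, (rh762a1aeaf83c662a.shift 0 1)] (by decide +kernel))
noncomputable def rhc8a70f7698454acc : CRef := CRef.mk (Pat.mk 0x80000002800000028000000000000000000000000 0x1000000078000001f80000007f00000028000000780000007000000050 6 9) 0 0 (step_sound _ 165 [(rh3ac5868c153fd914.shift 0 2), (rh424984f5923fd3fa.shift 0 2), (rh6c4ee2841c58aba2.shift 2 0), (rhe27f3a99d34d0525.shift 3 2)] (by decide +kernel))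
noncomputable def rh33f9ebfa742987aa : CRef := CRef.mk (Pat.mk 0x80000002800000008000000000000000000000000 0x40000000f0000007c000000080000001c0000001c00000014 6 7) 0 0 (step_sound _ 67 [(rh3181373a30ceb9e3.shift 2 0), (rh3190167e459b66bb.shift 0 1), (rh46baee19951a66e7.shift 2 0), (rh6aa5625770489e83.shift 2 0)] (by decide +kernel))
noncomputable def rh6f263787295a39a9 : CRef := CRef.mk (Pat.mk 0x80000002800000028000000000000000000000000 0x400000005000000078000001ff000000fe00000028000000700000007000000050 6 9) 0 0 (step_sound _ 132 [(rh38791ac5737ed75e.shift 2 4), (rh971ea4bfd67f71c1.shift 2 0), rh975bec0bf4b14e1c, (rha9fbfd4bb8cf890b.shift 0 4)] (by decide +kernel))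
noncomputable def rh6511b207f262c31a : CRef := CRef.mk (Pat.mk 0xe00000008000000000000000000000000 0x40000001c0000001c0000001c0000007c0000001f000000080000001c0000001c00000014 6 7) 0 0 (step_sound _ 163 [(rh5fae5c1f330fb984.shift 2 0), (rha11dfd15f08f96e3.shift 0 4), (rhff7d63dcb3cf9f74.shift 0 4)] (by decide +kernel))
noncomputable def rhc1a03c4521ecfdbb : CRef := CRef.mk (Pat.mk 0x20000000200000002000000000000000000000000 0x500000007000000070000000200000003000000070000000700000005 6 3) 0 0 (step_sound _ 65 [(rh0fd870c734e6c513.shift 0 1), rh3181373a30ceb9e3, (rhc17b7d8fab3dfe57.shift 0 1)] (by decide +kernel))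
noncomputable def rh02894e155672fd94 : CRef := CRef.mk (Pat.mk 0x40000001400000014000000000000000000000000 0xa0000003e0000003e00000037000000160000003c0000007c00000028 6 7) 0 0 (step_sound _ 66 [(rh1d90b59f780b588e.shift 0 2), (rh46baee19951a66e7.shift 1 0), (rhb9c51c07b8a16895.shift 1 0), (rhc17b7d8fab3dfe57.shift 1 1)] (by decide +kernel))
noncomputable def rh4df310a8d4595483 : CRef := CRef.mk (Pat.mk 0x2000000020000000200000000000000000000000000000000 0x60000000600000007000000030000000300000007000000070000000700000001 6 3) 0 0 (step_sound _ 97 [(rh20966da26a1c2ae8.shift 0 2), (rh3181373a30ceb9e3.shift 0 1), rh639d3f65570d8682, (rhae22d6cdf819408b.shift 0 1)] (by decide +kernel))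
noncomputable def rh04f4875e911c5ad0 : CRef := CRef.mk (Pat.mk 0x4000000140000001400000000 0xa0000002e0000003f0000007e000000160000001600000012 6 7) 0 0 (step_sound _ 130 [(rh0fd870c734e6c513.shift 1 0), (rh402d223d12d7377d.shift 1 0), rh4bfdf6bbb76c5f5b, (rh7ef5fa5c39f1c762.shift 1 1)] (by decide +kernel))
noncomputable def rh7e9b475ca71f914a : CRef := CRef.mk (Pat.mk 0x28000000280000000000000000 0x1000000014000001ff000000fe0000002f0000002800000028 6 9) 0 0 (step_sound _ 100 [(rh2820ca9a6c4f41b4.shift 0 2), (rh5024bbfb5139b661.shift 2 2), (rha35439c92b7394e0.shift 1 0), rhb55ee1177cf584c3] (by decide +kernel))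
noncomputable def rh0b68681544688b10 : CRef := CRef.mk (Pat.mk 0x200000002800000000000000000000000000000000 0x500000007000000070000001f00000003e000001f7000000700000007000000050 6 9) 0 0 (step_sound _ 132 [(rh25e7d7f9c8fca227.shift 3 1), (rh46f4e32c661b103a.shift 0 3), (rh5dea461492720ed7.shift 2 0), (rhff7d63dcb3cf9f74.shift 2 4)] (by decide +kernel))
noncomputable def rhe34313b7a8d78dc3 : CRef := CRef.mk (Pat.mk 0x80000000800000008000000000000000000000000 0x800000008000000380000003f0000007c0000001400000014 6 7) 0 0 (step_sound _ 68 [rh3383004461349baf, (rh475253e964ed1313.shift 3 0), (rh47dece01c1595e79.shift 3 0), (rhb6e11cfc959c8a3c.shift 1 1)] (by decide +kernel))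
noncomputable def rh3e26abbf947d0cd9 : CRef := CRef.mk (Pat.mk 0x20000000e00000000000000000000000000000000 0x400000006000000060000003e00000077000000070000000700000005 6 7) 0 0 (step_sound _ 132 [(rh60e95adc726bb530.shift 1 3), rh76ed7ba3604996d3, (rh8db7f7558b75b2b1.shift 0 3)] (by decide +kernel))
noncomputable def rhc533220966fcc36e : CRef := CRef.mk (Pat.mk 0x280000003800000000 0x3b8000003fe000003f7 6 10) 0 0 (step_sound _ 38 [(rh1136b81d2c6924ee.shift 3 0), (rh12d819e6fd96fe24.shift 2 0), (rh60e95adc726bb530.shift 3 0), rh876d00253a2d8335, (rha68ac53db4c136d7.shift 2 0)] (by decide +kernel))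
noncomputable def rh171be9558c14d951 : CRef := CRef.mk (Pat.mk 0x7000000040000000400000000 0xc0000000e0000000e0000001e000000070000003e0000000c00000008 6 6) 0 0 (step_sound _ 129 [rh36c1eac2acc7c645, (rha3df16ea9c8576c8.shift 1 1), (rhc89253ff58c66167.shift 1 1), (rhe072fffdd2fccf38.shift 1 1)] (by decide +kernel))
noncomputable def rh939679518c416c3b : CRef := CRef.mk (Pat.mk 0x80000000a0000000800000008000000000000000000000000 0x10000000180000000f0000000c000000180000001c0000001c00000004 6 5) 0 0 (step_sound _ 68 [rh760d321a7e1d34d3, (rhd3458b32566d63f7.shift 3 2)] (by decide +kernel))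
noncomputable def rh0374d8adcfd7cffe : CRef := CRef.mk (Pat.mk 0x8000000080000000a00000008 0x140000003f0000003f0000000b00000008 6 6) 0 0 (step_sound _ 98 [rh2c14799b1a47e112, (rh50fbb5868c909700.shift 2 0)] (by decide +kernel))
noncomputable def rh13bc39fad46ed7d3 : CRef := CRef.mk (Pat.mk 0x280000003800000000 0x3b8000003fe000003f7 6 10) 0 0 (step_sound _ 38 [(rh1136b81d2c6924ee.shift 3 0), (rh12d819e6fd96fe24.shift 2 0), rh876d00253a2d8335, (rha68ac53db4c136d7.shift 2 0)] (by decide +kernel))
noncomputable def rh381608151d5e97bd : CRef := CRef.mk (Pat.mk 0x2800000028000000000000000000000000 0x8000000080000003f000000fe000001ff0000000400000004 6 9) 0 0 (step_sound _ 100 [(rh1561ff1fafeb7917.shift 2 2), rha2cb1977398e6365, (rha9fbfd4bb8cf890b.shift 0 3)] (by decide +kernel))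
noncomputable def rhd9be8f849f24c328 : CRef := CRef.mk (Pat.mk 0x2800000068000000000000000000000000 0x50000000740000007c0000007c0000002f000000680000007c0000007c00000054 6 7) 0 0 (step_sound _ 165 [(rh14e0829dc73b6804.shift 4 2), rh32e81ba04a706b5a, (rh70e33bfdf511e144.shift 5 0), rh7e5d733a74497077] (by decide +kernel))
noncomputable def rhdcf15acb697cf72f : CRef := CRef.mk (Pat.mk 0x8000000280000002800000000 0x100000001c0000001c0000001f000000fc0000002c0000002c00000028 6 8) 0 0 (step_sound _ 131 [(rh7086929b0e17680e.shift 2 0), (rh7ef5fa5c39f1c762.shift 2 1), rhc133ade3dd5796c3, (rhfeb565e3642a0443.shift 2 1)] (by decide +kernel))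
noncomputable def rha36af0df88df322f : CRef := CRef.mk (Pat.mk 0x400000014000000140000000000000000 0xa0000002e0000003f0000003e000000160000001e0000001a00000008 6 6) 0 0 (step_sound _ 162 [(rh0fd870c734e6c513.shift 1 1), (rh402d223d12d7377d.shift 1 1), (rh7ef5fa5c39f1c762.shift 1 2), rha4d952a9d575d83d] (by decide +kernel))
noncomputable def rhd1a746367486dcd3 : CRef := CRef.mk (Pat.mk 0x28000000380000000000000000 0x6000000060000003f0000003e0000007f00000008 6 7) 0 0 (step_sound _ 66 [(rh2ebbcfe90e0f250d.shift 1 1), (rh43715a9a1b5d459f.shift 1 0), (rh775ca1963e850b80.shift 0 1)] (by decide +kernel))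
noncomputable def rh73140a58ca03d7d7 : CRef := CRef.mk (Pat.mk 0x280000002c0000000000000000 0x6000000060000003f0000003e0000007f00000008 6 7) 0 0 (step_sound _ 68 [(rh2ebbcfe90e0f250d.shift 1 1), (rh43715a9a1b5d459f.shift 1 0), (rh775ca1963e850b80.shift 0 1)] (by decide +kernel))
noncomputable def rh8ab9e83f5f23c419 : CRef := CRef.mk (Pat.mk 0x280000002c000000000000000000000000 0xc0000001e0000003f0000003e000000780000003800000030 6 7) 0 0 (step_sound _ 100 [(rh2ebbcfe90e0f250d.shift 1 2), (rh2eed2c61e5cda634.shift 1 0), (rh7fb660bc21ce4329.shift 0 3), (rhfd0d5dfa741eea06.shift 1 0)] (by decide +kernel))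
noncomputable def rheac2252718eeeedc : CRef := CRef.mk (Pat.mk 0xa0000000e000000000000000000000000000000000 0x2000000030000000bf000000fe0000007e000000700000007000000070 6 8) 0 0 (step_sound _ 132 [(rh0164c9b7a48fd11e.shift 0 3), (rh3423e5ac208fb65b.shift 3 1), (rh775ca1963e850b80.shift 2 3), (rh85810b7a5dd036d6.shift 2 0)] (by decide +kernel))
noncomputable def rhd4242b064a82e02d : CRef := CRef.mk (Pat.mk 0x4000000050000000500000000000000000000000000000000 0xa0000000e0000000e00000007000000050000000700000007000000030000000200000002 6 4) 0 0 (step_sound _ 226 [(rh0c1c1b53bc5a1510.shift 1 2), rh66d93aa3738235ba, (rh7ef5fa5c39f1c762.shift 1 4)] (by decide +kernel))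
noncomputable def rheb3e6ecc315d169c : CRef := CRef.mk (Pat.mk 0x80000000a0000000a000000000000000000000000 0x8000000080000000b0000003e0000003f0000001c00000014 6 6) 0 0 (step_sound _ 67 [(rh3181373a30ceb9e3.shift 2 0), (rh358c231171d2d7ca.shift 0 1), (rhec02ae23b557d978.shift 0 1)] (by decide +kernel))
noncomputable def rh6284786a844ed091 : CRef := CRef.mk (Pat.mk 0x200000002800000028000000000000000000000000 0x180000007c0000002f000000f8000000fc0000005000000050 6 8) 0 0 (step_sound _ 100 [(rh24e72371d7873615.shift 2 0), (rh2d71bfb3e5699952.shift 2 0), rh4aef1cebdb447306, (rh61fb4e95a41a6d28.shift 2 0), (rh97f6e1d6b763a53e.shift 2 0)] (by decide +kernel))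
noncomputable def rhb14e74a010f67f0b : CRef := CRef.mk (Pat.mk 0x2800000028000000000000000000000000 0x28000000280000002f000000fe0000007f0000001400000014 6 8) 0 0 (step_sound _ 100 [(rh24e72371d7873615.shift 2 0), (rh4dfabd725d1e89ab.shift 1 0), rha709a225f5cf9b55, (rha9fbfd4bb8cf890b.shift 0 3)] (by decide +kernel))
noncomputable def rh178f93a87db8ff18 : CRef := CRef.mk (Pat.mk 0x80000000a000000080000000800000000 0x80000000b0000003f0000003f00000014 6 6) 0 0 (step_sound _ 34 [rh3fcc4eac7e2ca31f, (rh932754581e0f4330.shift 2 0)] (by decide +kernel))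
noncomputable def rh15ada884f00148c0 : CRef := CRef.mk (Pat.mk 0x28000000280000000000000000 0x2c0000007f000000fe0000003f0000001800000018 6 8) 0 0 (step_sound _ 100 [(rh2820ca9a6c4f41b4.shift 0 2), (rh3aab2036ca4e8d0a.shift 1 0), rhb55ee1177cf584c3, (rhf0f55c4504412200.shift 0 2)] (by decide +kernel))
noncomputable def rh76523ba3d06e7b78 : CRef := CRef.mk (Pat.mk 0x680000002800000000000000000000000000000000 0x540000007c0000007c000000680000002f0000007c0000007c0000007400000050 6 7) 0 0 (step_sound _ 101 [(rh215e11e099257d75.shift 5 2), (rhd679a937e73684e3.shift 0 1), rhe2b9b03911fbddc8, (rhfa40f754f1f7b88f.shift 4 0)] (by decide +kernel))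
noncomputable def rh3139c52f41037bb3 : CRef := CRef.mk (Pat.mk 0x2000000020000000200000000000000000000000000000000 0x40000000600000007000000030000000300000007000000070000000700000001 6 3) 0 0 (step_sound _ 97 [(rh20966da26a1c2ae8.shift 0 2), (rh3181373a30ceb9e3.shift 0 1), rh639d3f65570d8682, (rh6e45e27f08a88cc3.shift 0 1)] (by decide +kernel))
noncomputable def rh653433433bcbb5b8 : CRef := CRef.mk (Pat.mk 0x200000002800000000000000000000000000000000 0x500000007000000070000001f00000003e000000f7000000700000007000000040 6 9) 0 0 (step_sound _ 132 [(rh25e7d7f9c8fca227.shift 3 1), (rh46f4e32c661b103a.shift 0 3), (rhf9162ccae55470ab.shift 1 0), (rhff7d63dcb3cf9f74.shift 2 4)] (by decide +kernel))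
noncomputable def rhc771cebdf788c766 : CRef := CRef.mk (Pat.mk 0x1e0000000000000000000000000000000000000000 0x400000006000000070000001e0000000700000007000000070000000700000005 6 5) 0 0 (step_sound _ 129 [rh9a36fd13628cdbd4, (rheb0810cc63b001d8.shift 0 4)] (by decide +kernel))
noncomputable def rh250144064dd83c8d : CRef := CRef.mk (Pat.mk 0x8000000080000000a0000000800000000 0x40000001c0000001c000000180000000c0000000f0000001800000010 6 5) 0 0 (step_sound _ 36 [(rh55afc6a59410cf00.shift 3 0), (rhc09d31e553d886f2.shift 0 1)] (by decide +kernel))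
noncomputable def rh7feaeaf47287cc9f : CRef := CRef.mk (Pat.mk 0x280000002800000008000000000000000000000000 0x400000005400000074000000770000003e0000002f000000380000003c0000001c00000014 6 7) 0 0 (step_sound _ 162 [(rh0a6888916bcef86b.shift 2 0), (rhc29588fd6f7d4f24.shift 0 3), rhd251017f7460bb22, (rhf9a6286f1d5377a2.shift 2 2)] (by decide +kernel))
noncomputable def rh5de6ebd4d6f0e719 : CRef := CRef.mk (Pat.mk 0x200000002800000000000000000000000000000000 0x500000007000000070000001f00000003e000001f7000000700000007000000040 6 9) 0 0 (step_sound _ 132 [(rh25e7d7f9c8fca227.shift 3 1), (rh46f4e32c661b103a.shift 0 3), (rha59926334038a75d.shift 2 0), (rhff7d63dcb3cf9f74.shift 2 4)] (by decide +kernel))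
noncomputable def rh3560e6006ecf6db1 : CRef := CRef.mk (Pat.mk 0xe0000000800000000000000000000000000000000 0x40000001c0000003c0000000f000000780000001f0000001c0000001c00000014 6 7) 0 0 (step_sound _ 132 [rh3f78654b8fbb4546, (rhb739f4f82bb681b4.shift 0 4)] (by decide +kernel))
noncomputable def rh1bd8920d2f14b810 : CRef := CRef.mk (Pat.mk 0x1c0000001000000010000000000000000000000000 0x2000000030000000340000001c000000f60000007f0000003e0000002800000008 6 8) 0 0 (step_sound _ 67 [rha05d440814eaa5d0, (rhac4b4763407a46df.shift 1 1), (rhac79635ca9d536ac.shift 3 2), (rhb01ac4982a11ea27.shift 3 0)] (by decide +kernel))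
noncomputable def rh2c2fe6833255506f : CRef := CRef.mk (Pat.mk 0x400000005000000040000000400000000 0x4000000070000003f0000003f0000000a 6 6) 0 0 (step_sound _ 33 [rh8cfb0b4e21dbd60c, (rh932754581e0f4330.shift 1 0)] (by decide +kernel))
noncomputable def rhef97ea8c1586b0ec : CRef := CRef.mk (Pat.mk 0x2800000068000000000000000000000000 0x50000000740000007c0000007c0000002f000000680000007c0000007c00000054 6 7) 0 0 (step_sound _ 163 [rh3308f7430b387c3e, (rh33d7f1bee8f3d95a.shift 2 0), rh45bf0f944f9b93a3, (rh86ce21cd54c503f9.shift 2 0), (rhd54f54c67c34be5f.shift 2 1), (rhec3d587ac0c763c5.shift 2 0)] (by decide +kernel))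
noncomputable def rh0c7e05f9815f99a4 : CRef := CRef.mk (Pat.mk 0x80000002800000028000000000000000000000000 0x140000005c0000007f0000007c0000002e0000003c000000740000007000000050 6 7) 0 0 (step_sound _ 165 [(rh08ff1a9078a560c4.shift 2 0), (rh544e2c0a0031f388.shift 2 2), (rh882d3ed95d304c0b.shift 2 1), (rh88d585697eacf27f.shift 0 2), (rh9662bf6098426902.shift 0 2), (rhaa04cb697e71a31b.shift 0 1), (rhbdf7da801bd7795d.shift 2 2)] (by decide +kernel))
noncomputable def rh7548188f20d42b3e : CRef := CRef.mk (Pat.mk 0x160000001400000000000000000000000000000000 0x2000000060000001600000016000000370000003e0000001f0000000e0000000a 6 6) 0 0 (step_sound _ 98 [(rh369225b5d41e1569.shift 1 1), (rh406bfc4f631a2f4f.shift 1 0), (rh7b24c4ccc068b0b2.shift 1 2), rhc5701ad72fdbcf81, (rhf9a6286f1d5377a2.shift 1 2)] (by decide +kernel))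
noncomputable def rh3e82642b6dbefbe8 : CRef := CRef.mk (Pat.mk 0x2c00000028000000000000000000000000 0x140000001c0000001c0000007c0000002f000000780000001f0000001c00000010 6 7) 0 0 (step_sound _ 100 [rhacc41bd028ea8b1f, (rhf48373e13d2bc128.shift 2 3)] (by decide +kernel))
noncomputable def rh1478c2e2940ca327 : CRef := CRef.mk (Pat.mk 0xc0000000800000000000000000000000000000000 0x40000001c0000001c0000003c0000000f0000000c0000001c0000001c0000001c00000014 6 6) 0 0 (step_sound _ 99 [(rh369225b5d41e1569.shift 2 1), (rh406bfc4f631a2f4f.shift 2 0), (rh7b24c4ccc068b0b2.shift 2 2), (rh9b68a071bbd4e433.shift 0 2), (rhf9a6286f1d5377a2.shift 2 2)] (by decide +kernel))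
noncomputable def rh522c06da44453fc0 : CRef := CRef.mk (Pat.mk 0x28000000380000000000000000 0x6000000060000003f0000003e0000000f00000008 6 6) 0 0 (step_sound _ 66 [(rh2591032a0e7f4182.shift 0 1), (rh2cc7d62e70c02209.shift 0 1), (rh43715a9a1b5d459f.shift 1 0), (rh7fb660bc21ce4329.shift 0 2)] (by decide +kernel))
noncomputable def rhb2e5cbe21dba9d63 : CRef := CRef.mk (Pat.mk 0x2800000038000000000000000000000000 0x800000008000000380000007e000000ff0000001400000014 6 8) 0 0 (step_sound _ 68 [(rhade0f4c81793f68e.shift 3 0), (rhbe707112c53dab40.shift 3 0), rhca881b8854706db1, (rhd8e66b35e5f82302.shift 1 0)] (by decide +kernel))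
noncomputable def rhcaa03f6b6d88a321 : CRef := CRef.mk (Pat.mk 0x280000003800000000000000000000000000000000 0x5000000078000000780000002f0000003c000001f8000000700000005000000040 6 9) 0 0 (step_sound _ 101 [(rh0aea810a1a2d0444.shift 3 1), (rh5a8abb721f11b584.shift 2 0), (rh8a3ff239fd7555ea.shift 0 2), (rhc21a95c499b3efdb.shift 2 3)] (by decide +kernel))
noncomputable def rh5b886a982931d73f : CRef := CRef.mk (Pat.mk 0x2800000068000000000000000000000000 0x50000000740000007e0000007c0000002f000000680000007c0000007c00000054 6 7) 0 0 (step_sound _ 165 [rh0c38b268f4d2f149, rh3bbc8911e77ee223, (rh70e33bfdf511e144.shift 5 0), (rhc0f6fe06378683f4.shift 4 2)] (by decide +kernel))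
noncomputable def rh51bc613c74b3f827 : CRef := CRef.mk (Pat.mk 0x80000002800000028000000000000000000000000 0x1000000018000000180000007c0000002f0000007c0000002c0000000c00000008 6 7) 0 0 (step_sound _ 130 [(rh051ce29bab37842a.shift 0 2), (rh41c8493a2b321634.shift 2 2), (rh8c25cb665ab79ec0.shift 0 3), rheb66a64178367915] (by decide +kernel))
noncomputable def rh34591e096d65cc60 : CRef := CRef.mk (Pat.mk 0x8000000280000002800000000 0x1c0000001c0000001c0000001f000000fc0000002c0000002800000028 6 8) 0 0 (step_sound _ 131 [(rh5e727940cea29a80.shift 2 0), (rh7086929b0e17680e.shift 2 0), (rh7ef5fa5c39f1c762.shift 2 1), rhc133ade3dd5796c3] (by decide +kernel))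
noncomputable def rh70938405051a0d86 : CRef := CRef.mk (Pat.mk 0x8000000280000002800000000000000000000000000000000 0x5400000074000000740000007c0000002f0000003c0000007c0000007c0000001400000010 6 7) 0 0 (step_sound _ 100 [(rh08c75accbceac6f3.shift 2 1), (rh0db24d183fcfcaaa.shift 3 0), (rh4a9fefd04bcda26a.shift 0 2), (rhabdb6d910d016b71.shift 2 1)] (by decide +kernel))
noncomputable def rh07742a86ca09bcc6 : CRef := CRef.mk (Pat.mk 0xa0000000a000000020000000000000000 0x140000001e0000001e0000000b0000001b0000001f0000001f00000005 6 5) 0 0 (step_sound _ 161 [(rh20966da26a1c2ae8.shift 0 1), rh3181373a30ceb9e3, rh8c1a34bbbb07568e] (by decide +kernel))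
noncomputable def rhd786ce554ecf645a : CRef := CRef.mk (Pat.mk 0x1e00000000000000000000000000000000 0x400000006000000070000001e00000007000000070000000700000005 6 5) 0 0 (step_sound _ 161 [(rh3244c3cc8379b070.shift 0 4), rh76ed7ba3604996d3] (by decide +kernel))
noncomputable def rhc705035edf4ae2a3 : CRef := CRef.mk (Pat.mk 0x700000006000000000000000000000000 0x400000006000000070000001f0000003e0000000e0000000c 6 6) 0 0 (step_sound _ 99 [rhab1282e188a12349, (rhf48373e13d2bc128.shift 0 3)] (by decide +kernel))
noncomputable def rh8264b42a4ddd37d8 : CRef := CRef.mk (Pat.mk 0x1c00000018000000000000000000000000 0xc0000001c0000001c0000001c000000780000001f0000001c00000014 6 7) 0 0 (step_sound _ 101 [rha0ccee1f8d5d0621, (rhf48373e13d2bc128.shift 2 3)] (by decide +kernel))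
noncomputable def rh15f7074b5d96251a : CRef := CRef.mk (Pat.mk 0x1c000000180000000000000000 0xc0000001c0000001c0000001c0000007c0000000f0000000c 6 7) 0 0 (step_sound _ 69 [rh9774045784feb0eb, (rhf48373e13d2bc128.shift 2 2)] (by decide +kernel))
noncomputable def rh476c2d497c3f6c9c : CRef := CRef.mk (Pat.mk 0x1c00000018000000000000000000000000 0x10000000100000001c0000007f000000770000002000000020 6 7) 0 0 (step_sound _ 101 [rh1504310e6f8cf9b4, (rhf48373e13d2bc128.shift 2 3)] (by decide +kernel))
noncomputable def rh1b5ec731c1fabe5b : CRef := CRef.mk (Pat.mk 0x7000000060000000000000000 0x3000000070000000700000007000000070000003f0000000f 6 6) 0 0 (step_sound _ 129 [rh1ca57632399d2034, rh2f62287b5dff1f41, (rh55a1f6c57a317ce6.shift 1 0)] (by decide +kernel))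
noncomputable def rhb211e7a32c656713 : CRef := CRef.mk (Pat.mk 0xe0000000800000008000000000000000000000000 0xc0000000c0000000e0000000e0000003f0000007f000000120000001200000010 6 7) 0 0 (step_sound _ 100 [(rh046c5eb18e55a239.shift 3 0), (rh0cb0ce5aaafea7db.shift 0 1), (rhd314563542fc18aa.shift 2 2)] (by decide +kernel))
noncomputable def rhfb0ed49cb7581ad4 : CRef := CRef.mk (Pat.mk 0x3000000020000000200000000000000000000000000000000 0x6000000060000000600000003000000070000000700000006000000070000000700000005 6 3) 0 0 (step_sound _ 225 [(rh1728b446c037fdbd.shift 0 4), (rh426f403fa814630c.shift 1 3), rh7bad8ed7fb4739ae] (by decide +kernel))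
noncomputable def rhb439e3a99860a0b2 : CRef := CRef.mk (Pat.mk 0x80000000c000000080000000000000000 0x80000001c0000003c0000001f0000000c0000000c0000000800000008 6 6) 0 0 (step_sound _ 130 [(rh3cb04db3dd2b6a55.shift 2 0), (rh78870ebe8fae8ff5.shift 0 2), (rhb28dff842a7744c7.shift 2 0)] (by decide +kernel))
noncomputable def rh8dd419aa8bce8f44 : CRef := CRef.mk (Pat.mk 0x200000002000000020000000200000000 0x200000006000000070000000700000003000000030000000200000002 6 3) 0 0 (step_sound _ 128 [(rh50fbb5868c909700.shift 0 1), rh54ffa536b1c19b81] (by decide +kernel))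
noncomputable def rhfab07166472d707d : CRef := CRef.mk (Pat.mk 0x80000000b0000000800000000 0x140000001c0000001c000000080000000f0000001e00000010 6 5) 0 0 (step_sound _ 36 [(rhc10214bf3fe8094a.shift 0 1), rhe567c03fd4c9db57] (by decide +kernel))
noncomputable def rhcd2d26f17ddb0f95 : CRef := CRef.mk (Pat.mk 0x200000002c000000200000000000000000 0x540000007c0000007c0000007c0000002f0000007c0000004c0000000c 6 7) 0 0 (step_sound _ 67 [(rh715b8de3cdd9ada7.shift 2 1), (rh8c25cb665ab79ec0.shift 0 2), rhb9bfd9844c0245bf] (by decide +kernel))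
noncomputable def rh197dcd1a04c8a0da : CRef := CRef.mk (Pat.mk 0x30000000280000002000000000 0x1000000010000000180000007c0000002f0000002800000028 6 7) 0 0 (step_sound _ 132 [(rh7b1f1fb55310c477.shift 4 0), rh98f323ae0446cabd] (by decide +kernel))
noncomputable def rh69992c4b09a3cb9e : CRef := CRef.mk (Pat.mk 0x80000000800000008000000000000000000000000 0x800000008000000380000003f000000fc0000001400000014 6 8) 0 0 (step_sound _ 68 [rh08af29ed3eb2fc37, (rh475253e964ed1313.shift 3 0), (rh47dece01c1595e79.shift 3 0), (rhb6e11cfc959c8a3c.shift 1 1)] (by decide +kernel))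
noncomputable def rhb8b890bb8fcd9db6 : CRef := CRef.mk (Pat.mk 0x380000002000000020000000000000000000000000 0x50000000700000007800000038000001ef000000fe000003df0000005400000040 6 10) 0 0 (step_sound _ 100 [(rh32431e66bbf434a4.shift 4 2), (rh54a11c8c6848d893.shift 4 2), (rh6a2abf98d2f26bd0.shift 4 2), rh6a990e8028be488d, (rhea7affbf1185219a.shift 2 0)] (by decide +kernel))
noncomputable def rh1da89da88f0aef66 : CRef := CRef.mk (Pat.mk 0x200000002000000020000000000000000 0x10000000700000007000000070000000700000003000000070000000600000004 6 3) 0 0 (step_sound _ 161 [(rh1d02867ed80f91bc.shift 0 1), (rhc85cc95794737cf7.shift 0 2), (rhc9de03f9731897d4.shift 1 0), rhcae87bda2c3c01d2] (by decide +kernel))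
noncomputable def rh89037ab695e73e6b : CRef := CRef.mk (Pat.mk 0xa0000000a0000000200000000000000000000000000000000 0x4000000060000000f0000001b0000000700000007000000070000000700000004 6 5) 0 0 (step_sound _ 97 [(rh12461e137161f2e1.shift 0 2), (rh3181373a30ceb9e3.shift 0 1), (rh686dda116d7c0588.shift 0 1), (rha453be73bb897994.shift 0 1), rhc324b959c2cd5e2b] (by decide +kernel))
noncomputable def rh97e17cf4ec142309 : CRef := CRef.mk (Pat.mk 0x2000000020000000280000002000000000 0x5c0000007e0000007f0000003e0000003000000010 6 7) 0 0 (step_sound _ 132 [(rh50fbb5868c909700.shift 4 1), rh820ef164ecc161a3] (by decide +kernel))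
noncomputable def rh950167ce9f0ab7e5 : CRef := CRef.mk (Pat.mk 0x200000002000000020000000200000000 0x6000000070000000700000003000000030000000300000002 6 3) 0 0 (step_sound _ 128 [(rh50fbb5868c909700.shift 0 1), rhfc458d5f7de4fdc7] (by decide +kernel))
noncomputable def rhb5bcfa420a8616b3 : CRef := CRef.mk (Pat.mk 0x80000002800000028000000000000000000000000 0x18000000380000007c0000002f0000007c0000006c0000004c00000048 6 7) 0 0 (step_sound _ 130 [(rh41c8493a2b321634.shift 2 2), rh6d9be37e846df60d, (rh8c25cb665ab79ec0.shift 0 3), rheb66a64178367915] (by decide +kernel))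
noncomputable def rh6b29f88553ee0391 : CRef := CRef.mk (Pat.mk 0x8000000280000002800000000 0x100000001c0000001c0000001f0000007c0000002f0000007c00000028 6 7) 0 0 (step_sound _ 131 [(rh7ef5fa5c39f1c762.shift 2 1), rhc2cba4bd083dd63c, rhc8e5a5606908e7d0, (rhfeb565e3642a0443.shift 2 1)] (by decide +kernel))
noncomputable def rh17080b283a524d90 : CRef := CRef.mk (Pat.mk 0x4000000140000001400000000 0xa0000002e0000003f0000003e000000160000001600000012 6 6) 0 0 (step_sound _ 130 [(rh0fd870c734e6c513.shift 1 0), (rh402d223d12d7377d.shift 1 0), (rh7ef5fa5c39f1c762.shift 1 1), rhe8a9da99cb351580] (by decide +kernel))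
noncomputable def rhc1f052d0ca33f741 : CRef := CRef.mk (Pat.mk 0x2800000020000000000000000000000000 0x5000000070000000700000007f0000003f0000007f000000700000007000000050 6 7) 0 0 (step_sound _ 130 [rh1905f57c8c5bda76, (rh4a61241014f169a4.shift 2 0), rh889773dbc2d2b171, (rhb34a67f8847d128f.shift 0 3), (rhbf5d9e90d56c2a5f.shift 0 3)] (by decide +kernel))
noncomputable def rh905ff86a2bb85556 : CRef := CRef.mk (Pat.mk 0x1e000000000000000000000000 0x50000000700000007000000070000001e000000070000000600000006 6 5) 0 0 (step_sound _ 65 [rh341c1a47eff525d3, (rheb0810cc63b001d8.shift 0 2)] (by decide +kernel))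
noncomputable def rh7087ed749937888b : CRef := CRef.mk (Pat.mk 0x100000001c0000000800000000 0x3c0000007e0000007f0000001c0000001c00000014 6 7) 0 0 (step_sound _ 132 [rh20049749834de6c1, (rh5c5e593799055d58.shift 3 1)] (by decide +kernel))
noncomputable def rh386728ae1dca1cd9 : CRef := CRef.mk (Pat.mk 0x8000000080000000e000000000000000000000000 0x1000000010000000120000007f0000003f0000000e0000001e0000001c00000014 6 7) 0 0 (step_sound _ 164 [rhab67d5979711d49b, (rhb730ba14aa32bdb3.shift 3 2), (rhffb8e5993241bf15.shift 2 0)] (by decide +kernel))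
noncomputable def rhde837af223c7be82 : CRef := CRef.mk (Pat.mk 0x20000000200000003000000000000000000000000 0x5000000070000000700000006000000070000000700000003000000060000000600000006 6 3) 0 0 (step_sound _ 65 [rh2c9da192bea44cf6, (rh3d157ffef0299bc3.shift 0 2), (rhec588a0d7783acc6.shift 1 0)] (by decide +kernel))
noncomputable def rh2df306c35767f720 : CRef := CRef.mk (Pat.mk 0x200000002c00000020000000000000000000000000 0x40000004c0000007c0000002f0000007c0000007c0000007c00000054 6 7) 0 0 (step_sound _ 163 [rh52b086d6744b905e, (rhe33d9496e10d8eb0.shift 0 4), (rhe38180d86604e375.shift 2 0)] (by decide +kernel))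
noncomputable def rh8712594ed9a95de5 : CRef := CRef.mk (Pat.mk 0x200000002800000030000000000000000000000000 0x28000000280000002f0000007c000000180000001000000010 6 7) 0 0 (step_sound _ 68 [(rh5c5e593799055d58.shift 4 2), rhc4ded0c484487ad9] (by decide +kernel))
noncomputable def rha941fbe02a9fc7be : CRef := CRef.mk (Pat.mk 0x800000008000000080000000000000000 0x14000000140000007c0000001f00000078000000080000001800000010 6 7) 0 0 (step_sound _ 164 [(rh22d86f446f3de558.shift 0 1), (rh5781dcb8517fa76d.shift 2 0), (rh5890386c1f942fa1.shift 3 2), (rh87d5e4118780fa3b.shift 3 1), (rhba347e0d6180832a.shift 0 1)] (by decide +kernel))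
noncomputable def rhab1ab5d50a69c413 : CRef := CRef.mk (Pat.mk 0x200000002000000038000000000000000000000000 0x40000003df000000fe000001ef00000038000000780000007000000050 6 10) 0 0 (step_sound _ 164 [(rh128f16072158e86e.shift 2 0), (rh2374e63bf3225ade.shift 0 1), (rh93de45030b92d2cb.shift 4 0), (rhe181d564227a886f.shift 4 0)] (by decide +kernel))
noncomputable def rh13dc8681036f6cec : CRef := CRef.mk (Pat.mk 0x80000000a000000080000000000000000 0x140000001c0000001c0000000c0000000f0000001c0000001800000010 6 5) 0 0 (step_sound _ 163 [(rh46baee19951a66e7.shift 2 0), (rhaa416cf737c33e91.shift 0 1), (rhc85cc95794737cf7.shift 2 2)] (by decide +kernel))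
noncomputable def rh515ccbe73c543f8d : CRef := CRef.mk (Pat.mk 0x80000000a0000000800000000 0x140000001c0000001c000000080000000f0000001e00000014 6 5) 0 0 (step_sound _ 131 [(rh55a026e6f690bbaf.shift 2 0), (rhaba26d7b21102469.shift 2 0), rhc32899ca69d8b859, (rhc85cc95794737cf7.shift 2 1)] (by decide +kernel))
noncomputable def rh212ae97a1e81d8b4 : CRef := CRef.mk (Pat.mk 0x2000000028000000200000002000000000 0x10000000300000003e000000780000007e0000005f 6 7) 0 0 (step_sound _ 36 [rh37b3d91fe7703d38, (rh932754581e0f4330.shift 4 0)] (by decide +kernel))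
noncomputable def rhca4d5fc3d95c8c8e : CRef := CRef.mk (Pat.mk 0x20000000200000002000000000000000000000000 0x100000003000000030000000300000003000000070000000700000005 6 3) 0 0 (step_sound _ 65 [rh46baee19951a66e7, rh6aa5625770489e83, rh8cdd36b03d57a2f6, (rhaba26d7b21102469.shift 0 1)] (by decide +kernel))
noncomputable def rhd9aacc676827eb17 : CRef := CRef.mk (Pat.mk 0x8000000080000000a00000008 0x140000007e0000007f0000000e00000008 6 7) 0 0 (step_sound _ 98 [(rh50fbb5868c909700.shift 2 0), rh7b4715d650f74bd7] (by decide +kernel))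
noncomputable def rhbc0439490fae6931 : CRef := CRef.mk (Pat.mk 0x3800000028000000000000000000000000 0x400000005000000070000001f80000003c0000002f000000780000007800000050 6 9) 0 0 (step_sound _ 165 [rh1d97c1fcc757f1f7, (rh66ed3053cf458f43.shift 3 1), (rh878c03cc42e824bf.shift 2 2), (rhff7d63dcb3cf9f74.shift 2 4)] (by decide +kernel))
noncomputable def rh46f80f8d9cc63279 : CRef := CRef.mk (Pat.mk 0x280000002800000008000000000000000000000000 0x2c0000007c0000002f0000007c000000180000001800000010 6 7) 0 0 (step_sound _ 130 [rh10e6f057ab9524f8, (rhc851bb61617a701b.shift 2 0), (rhe33d9496e10d8eb0.shift 0 4)] (by decide +kernel))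
noncomputable def rh5d36b47b985a7d21 : CRef := CRef.mk (Pat.mk 0x28000000280000000800000000000000000000000000000000 0x280000007c0000002e0000007c0000001f0000001c0000001c00000010 6 7) 0 0 (step_sound _ 99 [(rh3181373a30ceb9e3.shift 2 1), (rha74b5e0d2a214331.shift 1 2), (rhc324b959c2cd5e2b.shift 2 0), (rhde5e2dbef132bb26.shift 0 2)] (by decide +kernel))
noncomputable def rhdbcbf2c6dc03437b : CRef := CRef.mk (Pat.mk 0x140000001400000004000000000000000000000000 0x1200000016000000160000003e0000003f0000002e0000000a 6 6) 0 0 (step_sound _ 66 [(rh0c1c1b53bc5a1510.shift 1 0), (rh3181373a30ceb9e3.shift 1 0), (rh414d961cb701a913.shift 0 1), (rhcae87bda2c3c01d2.shift 1 0)] (by decide +kernel))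
noncomputable def rh168f9a1bb6140d4e : CRef := CRef.mk (Pat.mk 0x8000000280000002800000000 0x100000001c0000001c0000001f000000fc0000006c0000002c00000028 6 8) 0 0 (step_sound _ 131 [rh079ffb1985424a66, (rh7086929b0e17680e.shift 2 0), (rh7ef5fa5c39f1c762.shift 2 1), (rhfeb565e3642a0443.shift 2 1)] (by decide +kernel))
noncomputable def rheb142accb6b81502 : CRef := CRef.mk (Pat.mk 0x200000002800000000000000000000000000000000 0x500000007000000070000000780000003f0000007f000000700000007000000050 6 7) 0 0 (step_sound _ 130 [rh947d04826da878ce, (rh9c8051de5501896f.shift 1 0), (rhd19bdf9ae8463a32.shift 0 3), (rhe7a687206514a34a.shift 0 3), (rhf6ba8bfc46afa9f4.shift 2 0)] (by decide +kernel))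
noncomputable def rh5d3d0992644e4a00 : CRef := CRef.mk (Pat.mk 0x80000000a000000080000000800000000 0x80000000f0000007f0000001f00000014 6 7) 0 0 (step_sound _ 34 [rh01703e7bf430506e, (rh932754581e0f4330.shift 2 0)] (by decide +kernel))
noncomputable def rh9985cb2751e2c788 : CRef := CRef.mk (Pat.mk 0x3800000008000000000000000000000000 0x100000001c0000001c0000001c0000001f0000007c000000080000001c0000001c00000014 6 7) 0 0 (step_sound _ 163 [(rh8d2de5fb85abf742.shift 2 0), (rha9fbfd4bb8cf890b.shift 0 4)] (by decide +kernel))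
noncomputable def rh8ad3b3eea71ee9d9 : CRef := CRef.mk (Pat.mk 0x28000000280000000800000000000000000000000000000000 0x28000000280000002c000000fc0000001f0000001c0000001c0000001c 6 8) 0 0 (step_sound _ 99 [(rh3181373a30ceb9e3.shift 2 1), (rh74c844ac8d17dfcb.shift 2 0), (rh7b6911d49691f535.shift 2 2), (rhde5e2dbef132bb26.shift 0 2)] (by decide +kernel))
noncomputable def rh530ff0566bf34ee5 : CRef := CRef.mk (Pat.mk 0x200000002000000020000000000000000 0x500000007000000070000000200000003000000070000000700000005 6 3) 0 0 (step_sound _ 161 [(rh0fd870c734e6c513.shift 0 1), rh3181373a30ceb9e3, (rhc17b7d8fab3dfe57.shift 0 1)] (by decide +kernel))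
noncomputable def rh3955d9d081834282 : CRef := CRef.mk (Pat.mk 0x280000002800000008000000000000000000000000 0x10000000140000007c0000007c0000003c0000002f0000007c000000740000007400000054 6 7) 0 0 (step_sound _ 196 [rh02c1c16a5398de61, (rh04ff14ccb3eb0c5e.shift 3 3), (rh1a83e0c648dae7ce.shift 2 2), (rh818f152a9176359c.shift 2 0)] (by decide +kernel))
noncomputable def rh950f2b1f5ec1da91 : CRef := CRef.mk (Pat.mk 0x80000002800000028000000000000000000000000 0x400000005000000078000001ff000000fe00000028000000700000007000000050 6 9) 0 0 (step_sound _ 132 [(rh38791ac5737ed75e.shift 2 4), (rh56d58d1a7a5daae0.shift 2 0), rh975bec0bf4b14e1c, (rha9fbfd4bb8cf890b.shift 0 4)] (by decide +kernel))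
noncomputable def rh9ba8dda0c49168a8 : CRef := CRef.mk (Pat.mk 0x40000001400000014000000000000000000000000 0xa0000007e0000003e00000037000000160000003c0000003c00000028 6 7) 0 0 (step_sound _ 66 [(rh1d90b59f780b588e.shift 0 2), (rh46baee19951a66e7.shift 1 0), (rh7077269e4a84c22a.shift 1 0), (rhc17b7d8fab3dfe57.shift 1 1)] (by decide +kernel))
noncomputable def rh89d33329aa1df15f : CRef := CRef.mk (Pat.mk 0xc000000080000000800000000000000000000000000000000 0x80000000c0000001c000000380000001f0000001c0000001c0000001c 6 6) 0 0 (step_sound _ 99 [(rh1f3a6ba70a310ab1.shift 2 1), (rha613ffd40b6c9d24.shift 2 1), (rhb20dd801f506db0f.shift 0 2), (rhb54b82c12f7629a6.shift 2 0)] (by decide +kernel))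
noncomputable def rh5be5f024049b4c91 : CRef := CRef.mk (Pat.mk 0x140000001c00000000000000000000000000000000 0x4000000040000001c0000007c0000007f0000003f0000003e00000016 6 7) 0 0 (step_sound _ 99 [rh064294976d75ab1c, (rhade0f4c81793f68e.shift 2 1), (rhbe707112c53dab40.shift 2 1), rhc8576895ac2c4303] (by decide +kernel))
noncomputable def rha6c6b35a4cac7389 : CRef := CRef.mk (Pat.mk 0x2800000068000000000000000000000000 0x50000000740000007c0000007c0000002f000000680000007c0000007c00000054 6 7) 0 0 (step_sound _ 165 [(rh14e0829dc73b6804.shift 4 2), rh19f09df0e806ca66, rh30624223b17d0632, (rh70e33bfdf511e144.shift 5 0)] (by decide +kernel))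
noncomputable def rh6b2bbeb9119b2e5f : CRef := CRef.mk (Pat.mk 0x280000002800000008000000000000000000000000 0x500000007000000078000000280000007f000001f8000000780000001000000010 6 9) 0 0 (step_sound _ 101 [(rh17784775315af99f.shift 2 2), (rh1c365c76821ab000.shift 3 1), rh2569de4d91a2a4f2, (rhe8aa5379acc38eb0.shift 0 2)] (by decide +kernel))
noncomputable def rh301fcb69ccf8eba1 : CRef := CRef.mk (Pat.mk 0x200000002000000020000000000000000 0x10000000700000007000000070000000300000003000000070000000600000006 6 3) 0 0 (step_sound _ 161 [rh6e45e27f08a88cc3, (rh6fa8dd4bf0561bd9.shift 0 2), (rhc17b7d8fab3dfe57.shift 0 1), rhcae87bda2c3c01d2] (by decide +kernel))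
noncomputable def rha6cb21b2fb04c262 : CRef := CRef.mk (Pat.mk 0xc0000000800000000000000000000000000000000 0x140000001c0000003c0000000f0000000c0000001c0000001c0000001c00000014 6 6) 0 0 (step_sound _ 99 [(rh0a6888916bcef86b.shift 2 0), (rh406bfc4f631a2f4f.shift 2 0), (rh54a3cb6d4bbcf7e3.shift 0 2), (rh7b24c4ccc068b0b2.shift 2 2), (rhf9a6286f1d5377a2.shift 2 2)] (by decide +kernel))
noncomputable def rhca85590e660df518 : CRef := CRef.mk (Pat.mk 0x2000000020000000200000002 0x1000000070000000700000006000000030000000300000003 6 3) 0 0 (step_sound _ 130 [rh1a83e0c648dae7ce, (rhbaefcd01e0a8bca3.shift 1 0)] (by decide +kernel))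
noncomputable def rhf0d3d56665a66f10 : CRef := CRef.mk (Pat.mk 0x20000000a0000000a000000000000000000000000 0xa0000000a0000000b0000001e0000003e0000001400000014 6 6) 0 0 (step_sound _ 98 [rh35a02af777b98683, (rha768b229dc254047.shift 1 0)] (by decide +kernel))
noncomputable def rhfc9d5bf70d19cb30 : CRef := CRef.mk (Pat.mk 0x800000028000000280000000000000000 0x140000001c0000001c0000007f000000fc0000002c00000078000000f000000010 6 8) 0 0 (step_sound _ 163 [(rh3eb865f5bd2ec544.shift 2 1), (rh47abcd311ee680a4.shift 2 0), rh5df63ea7800b1e33, (rh7ef5fa5c39f1c762.shift 2 2), (rhdc10509d6bd8db87.shift 2 1)] (by decide +kernel))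
noncomputable def rhdda7f48404af4796 : CRef := CRef.mk (Pat.mk 0xa0000000a00000002000000000000000000000000 0x140000001c0000001e0000000a0000001f0000007e0000003e0000001400000014 6 7) 0 0 (step_sound _ 99 [(rh1c365c76821ab000.shift 1 1), (rh968da411be743cad.shift 0 2), rhba111a450e2cdcf3] (by decide +kernel))
noncomputable def rh5cb113ea6983ec6d : CRef := CRef.mk (Pat.mk 0x100000001e00000010000000000000000000000000 0x8000000180000001b0000001e00000018000000380000003800000028 6 6) 0 0 (step_sound _ 161 [(rh3244c3cc8379b070.shift 0 4), (rh88da100a432618b3.shift 3 0)] (by decide +kernel))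
noncomputable def rh78c4cb5ceaf301e1 : CRef := CRef.mk (Pat.mk 0x100000001e00000010000000000000000000000000 0x8000000180000001e0000001f0000003c0000003800000028 6 6) 0 0 (step_sound _ 97 [(rhb51a3de674c9d31e.shift 1 0), (rheb0810cc63b001d8.shift 0 3)] (by decide +kernel))
noncomputable def rh10abf77857e48c9b : CRef := CRef.mk (Pat.mk 0x100000001e000000100000000000000000 0x120000003b0000001f0000001e0000001c0000001c00000010 6 6) 0 0 (step_sound _ 129 [(rh3244c3cc8379b070.shift 0 3), rhab752694ba6afb92] (by decide +kernel))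
noncomputable def rh7fb468035c33dc4f : CRef := CRef.mk (Pat.mk 0x1000000018000000080000000800000000 0x80000000c000000ec000000ff0000001f0000001c000000f800000030 6 8) 0 0 (step_sound _ 131 [(rh28c8c9661f6daf2b.shift 0 1), (rh65a3a4cf67baf828.shift 2 0), (rhd72a5b150c8b03c9.shift 2 0)] (by decide +kernel))
noncomputable def rh46f034e72fa045cf : CRef := CRef.mk (Pat.mk 0x1000000018000000080000000800000000 0x8000000080000000800000018000000180000003e000000ff00000074 6 8) 0 0 (step_sound _ 131 [(rh1904b52b42aee148.shift 1 0), (rh2cfc8c34bad4c294.shift 2 0), (rh42eeeaf8cbfaff8e.shift 1 0), (rh65a3a4cf67baf828.shift 2 0), rhc9a8c524b5efcba1, (rhea90e7358341a1a4.shift 2 0)] (by decide +kernel))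
noncomputable def rh5dc9c50b7e723b33 : CRef := CRef.mk (Pat.mk 0x8000000080000000c0000000400000000 0x170000001f0000003c0000000e0000007c00000010 6 7) 0 0 (step_sound _ 35 [(rh36d4d92ef3dad5f8.shift 1 0), (rh754ed8af3fcc8232.shift 0 1)] (by decide +kernel))
noncomputable def rh337999ac749b422d : CRef := CRef.mk (Pat.mk 0x1000000018000000080000000800000000 0xc0000000c000000ec000000ff0000001f0000001c0000000c00000004 6 8) 0 0 (step_sound _ 131 [(rh0fd870c734e6c513.shift 2 0), (rh28c8c9661f6daf2b.shift 0 1), (rh5a576f4aa77ac87c.shift 2 0), (rhea90e7358341a1a4.shift 2 0)] (by decide +kernel))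
noncomputable def rh3bb32a08be27ba1a : CRef := CRef.mk (Pat.mk 0x8000000180000000800000008 0xf4000000ff0000001f0000000800000008 6 8) 0 0 (step_sound _ 98 [(rh50fbb5868c909700.shift 2 0), rha28b1ce8ec9cd72a] (by decide +kernel))
noncomputable def rh07249198eaf44783 : CRef := CRef.mk (Pat.mk 0x800000058000000080000000800000000 0x4800000058000001ff000000ff000001f4 6 9) 0 0 (step_sound _ 36 [rh2da17dbb088e7746, (rh55afc6a59410cf00.shift 3 0)] (by decide +kernel))
noncomputable def rhf0a3430645296b5d : CRef := CRef.mk (Pat.mk 0x1000000018000000080000000800000000 0xec000000ff0000001f000000380000001f00000014 6 8) 0 0 (step_sound _ 131 [(rh28c8c9661f6daf2b.shift 0 1), rhc9a8c524b5efcba1] (by decide +kernel))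
noncomputable def rh815da42dccf39976 : CRef := CRef.mk (Pat.mk 0x18000000080000000800000000 0x40000001c0000001c000000180000003c000000ff00000034 6 8) 0 0 (step_sound _ 131 [(rh0fd870c734e6c513.shift 2 0), (rh29dd5384d80ecb1e.shift 2 0), rh9b45786b9da7cdb6, (rhabedd109a9a37101.shift 2 0)] (by decide +kernel))
noncomputable def rhc6808eb77c7d6462 : CRef := CRef.mk (Pat.mk 0x40000000600000006000000000000000000000000 0x4000000070000003e0000003f0000000e0000000e 6 6) 0 0 (step_sound _ 66 [(rh270456d76d3aaf8f.shift 0 1), (rh820d4e04d5dcd02e.shift 1 0), (rhbdf73b26f73f8159.shift 1 0)] (by decide +kernel))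
noncomputable def rhfde2cf49c157a50f : CRef := CRef.mk (Pat.mk 0x1800000038000000000000000000000000 0x140000001f0000003f0000000f0000000c0000000c 6 6) 0 0 (step_sound _ 98 [(rh0e1512cbacfbd48b.shift 0 2), (rhcda410b351c20b9b.shift 0 3), (rhe1cd74cc13b9d3fa.shift 1 0)] (by decide +kernel))
noncomputable def rh621f9dad2317f9f5 : CRef := CRef.mk (Pat.mk 0x1c00000018000000000000000000000000 0x600000006000000060000001c0000007f0000007f0000000e0000000e 6 7) 0 0 (step_sound _ 98 [rhad48fcc809438143, (rhd77a2562cd16a2fc.shift 1 0), (rhe3e8c074aa83e8bd.shift 0 2)] (by decide +kernel))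
noncomputable def rhdf5750bf31eb091d : CRef := CRef.mk (Pat.mk 0x5800000018000000000000000000000000 0x10000000500000005f000000ff000001f00000002000000020 6 9) 0 0 (step_sound _ 101 [rh30b12604329aefc7, (rh70c6b6c826784699.shift 2 0), (rh79b3c29022acbdf3.shift 2 3)] (by decide +kernel))
noncomputable def rh3941d6c00e40acd6 : CRef := CRef.mk (Pat.mk 0x1800000018000000080000000000000000 0x10000000100000001c000000ff0000007f0000002000000020 6 8) 0 0 (step_sound _ 164 [rh4f74172d2dc96fd8, (rh5c5e593799055d58.shift 3 2)] (by decide +kernel))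
noncomputable def rh614de177cf40a880 : CRef := CRef.mk (Pat.mk 0x8000000180000000800000008 0xf4000000ff0000001f0000000800000008 6 8) 0 0 (step_sound _ 100 [rh28c8c9661f6daf2b, (rh2f68792b6b779e96.shift 3 0)] (by decide +kernel))
noncomputable def rh4e809e967fee0c23 : CRef := CRef.mk (Pat.mk 0x800000018000000180000000000000000 0x80000001e000000ff000000f700000014 6 8) 0 0 (step_sound _ 36 [(rh7b1f1fb55310c477.shift 3 0), rhc62fc4a345b42249] (by decide +kernel))
noncomputable def rh5dba61aca9974608 : CRef := CRef.mk (Pat.mk 0x8000000180000001800000000 0x800000008000000080000001f000000ff000000e4 6 8) 0 0 (step_sound _ 131 [(rh2145e1d24b96a57e.shift 3 1), rhcac45fba302e8108] (by decide +kernel))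
noncomputable def rhdb9dc36888886841 : CRef := CRef.mk (Pat.mk 0x8000000180000000800000000 0x1c0000003c0000000f000000180000001800000018 6 6) 0 0 (step_sound _ 131 [rh900a894640be090c, (rhd4b4beefcd67f51e.shift 3 0)] (by decide +kernel))
noncomputable def rh38df1b28238fed11 : CRef := CRef.mk (Pat.mk 0x2000000020000000600000002000000000000000000000000 0x300000003000000030000000600000006000000030000000300000003 6 3) 0 0 (step_sound _ 98 [(rh2145e1d24b96a57e.shift 1 3), rha4e48795de5c404c] (by decide +kernel))
noncomputable def rhf0b5ccff1e42bf98 : CRef := CRef.mk (Pat.mk 0x800000008000000180000000800000000 0x1c0000003c0000000f000000180000001800000008 6 6) 0 0 (step_sound _ 36 [(rh2145e1d24b96a57e.shift 3 1), rh900a894640be090c] (by decide +kernel))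
noncomputable def rh615cf76a657a45f3 : CRef := CRef.mk (Pat.mk 0x800000008000000180000000800000000 0x8000000080000001f000000ff000000f4 6 8) 0 0 (step_sound _ 36 [(rh55afc6a59410cf00.shift 3 0), rhcac45fba302e8108] (by decide +kernel))
noncomputable def rh65b9c6b05020ace6 : CRef := CRef.mk (Pat.mk 0x180000001c000000000000000000000000 0x40000001f0000003f000000030000000200000002 6 6) 0 0 (step_sound _ 97 [(rh53b3c253cb0c65f4.shift 0 3), rhefd858cfdc5d2964] (by decide +kernel))
noncomputable def rh57b34b9423012fc8 : CRef := CRef.mk (Pat.mk 0xc0000000c000000000000000000000000 0x1c0000001c0000003c0000000f0000000c000000180000001800000018 6 6) 0 0 (step_sound _ 67 [(rh375e854711fbb968.shift 0 1), (rh3cb04db3dd2b6a55.shift 2 0), (rhafe37d5adc3b334b.shift 2 0)] (by decide +kernel))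
noncomputable def rh8e683bd0fb707dca : CRef := CRef.mk (Pat.mk 0x5800000018000000000000000000000000 0x480000005f000000ff000000e70000002400000024 6 8) 0 0 (step_sound _ 101 [(rh70c6b6c826784699.shift 2 0), (rh79b3c29022acbdf3.shift 2 3), rhff00a37c088eb8b8] (by decide +kernel))
noncomputable def rh1643904ba7964336 : CRef := CRef.mk (Pat.mk 0xc0000000c00000000000000000000000000000000 0xc0000000c0000000c0000000c0000001f00000078000000180000001800000010 6 7) 0 0 (step_sound _ 99 [(rh3cb04db3dd2b6a55.shift 2 1), rh76ada1f435681e68, (rhd2a574e1de43a9dd.shift 0 1)] (by decide +kernel))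
noncomputable def rhef8a1d4f1a172648 : CRef := CRef.mk (Pat.mk 0x40000000c000000040000000400000000 0x3a0000003e0000000f0000000c0000000c00000008 6 6) 0 0 (step_sound _ 35 [(rh55afc6a59410cf00.shift 2 0), (rhb8e884e4f9e6ab04.shift 0 1)] (by decide +kernel))
noncomputable def rhfa115591a5f2305c : CRef := CRef.mk (Pat.mk 0x1000000018000000080000000800000000 0x80000000c0000006c0000007c0000001f0000001c000000f800000030 6 8) 0 0 (step_sound _ 131 [(rh65a3a4cf67baf828.shift 2 0), (rh933f3ac7d57d09d8.shift 2 1), (rhf64b95b851ba719b.shift 1 0), (rhf9b7d1c72024a10a.shift 0 1)] (by decide +kernel))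
noncomputable def rhc8b60a163c9af22d : CRef := CRef.mk (Pat.mk 0x10000000580000000800000008000000000000000000000000 0x20000000f80000005e000000df000000fe000001f70000001400000014 6 9) 0 0 (step_sound _ 100 [(rh046c5eb18e55a239.shift 3 0), (rh05f2b8e5ed672507.shift 0 2), rh46ba074702fe2b03, (rhe470cb632b6fd33f.shift 1 2)] (by decide +kernel))
noncomputable def rh44848ccd4bf41c7f : CRef := CRef.mk (Pat.mk 0x200000003800000010000000000000000000000000 0x40000003e0000003e0000007f0000000e0000000c00000004 6 7) 0 0 (step_sound _ 130 [(rh2591032a0e7f4182.shift 0 3), (rha03f6e28ea70fc7d.shift 1 3), (rhcbc656813b97618d.shift 1 0)] (by decide +kernel))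
noncomputable def rhf0da364da79b80de : CRef := CRef.mk (Pat.mk 0x100000001c000000080000000000000000 0x80000000c0000000f0000007f0000001c0000001c0000000c0000000c 6 7) 0 0 (step_sound _ 131 [(rh42318ac00affc0c4.shift 0 1), (rh4f4c4c1027c971e0.shift 2 0), (rh7bee4587ac150c6b.shift 2 0), (rh830e25469542e51a.shift 2 0), rhe091fe2805d11b7c] (by decide +kernel))
noncomputable def rhabf568d27e722346 : CRef := CRef.mk (Pat.mk 0x1000000018000000080000000800000000 0x80000000c0000006c000000ff0000001f000000380000001f00000014 6 8) 0 0 (step_sound _ 131 [(rh47d11d87cdd3fa9f.shift 2 0), (rh7616a56158d144bf.shift 0 1), (rha686ff21d9572f9e.shift 1 0), rhc9a8c524b5efcba1, (rhcb5b9f48a2219b5b.shift 2 0)] (by decide +kernel))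
noncomputable def rh0a6e80f3a222113c : CRef := CRef.mk (Pat.mk 0x800000018000000080000000800000000 0x160000003f0000001f0000000e0000007c00000014 6 7) 0 0 (step_sound _ 34 [rh45827a7148f70086, (rh932754581e0f4330.shift 2 0)] (by decide +kernel))
noncomputable def rh3fa2e5343739d8d2 : CRef := CRef.mk (Pat.mk 0x1e00000018000000000000000000000000 0x100000001f0000001e0000001c000000f80000003800000018 6 8) 0 0 (step_sound _ 67 [rh0119243fb9485312, (rh40241bd608e5be1a.shift 2 0), (rhea7a1800d6f053bd.shift 3 0)] (by decide +kernel))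
noncomputable def rhefd12c9646cafdd8 : CRef := CRef.mk (Pat.mk 0x7800000000 0x700000007e000000e7 6 8) 0 0 (step_sound _ 6 [rh943cbf2d38755a25, (rhe25b0a99195a5d59.shift 3 0)] (by decide +kernel))
noncomputable def rh61f67514e83c550d : CRef := CRef.mk (Pat.mk 0x1c000000020000000000000000 0x10000000380000001f0000001b0000000800000008 6 6) 0 0 (step_sound _ 97 [rh81a41ea69e635b09, (rheb0810cc63b001d8.shift 0 2)] (by decide +kernel))
noncomputable def rh3a4c2fa90903ce01 : CRef := CRef.mk (Pat.mk 0x1e000000000000000000000000 0x8000000180000001f0000003b0000001000000010 6 6) 0 0 (step_sound _ 65 [rh1971f672aa6c5663, (rheb0810cc63b001d8.shift 0 2)] (by decide +kernel))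
noncomputable def rh2fa4d48c9e158234 : CRef := CRef.mk (Pat.mk 0x7800000000 0x770000007e000000e0 6 8) 0 0 (step_sound _ 6 [rh31c9b5d27f8466b9, (rhe25b0a99195a5d59.shift 3 0)] (by decide +kernel))
noncomputable def rhdb28074621c820e8 : CRef := CRef.mk (Pat.mk 0x40000000f0000000800000000000000000 0x50000000500000007c000000fe000000b7000000a0000000a0 6 8) 0 0 (step_sound _ 69 [(rh6659910ff6ab1d98.shift 3 0), (rh82ef742646ff04c8.shift 5 0), (rhe60ae3abb9a3467b.shift 3 0), (rhfb96b64500851c99.shift 0 2)] (by decide +kernel))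
noncomputable def rhf2ca161a4bd417de : CRef := CRef.mk (Pat.mk 0x40000000f000000080 0x400000004000000067000000fe000000bf 6 8) 0 0 (step_sound _ 102 [rh0d4e08d404fac75a, (rh2145e1d24b96a57e.shift 6 0)] (by decide +kernel))
noncomputable def rh6be42290c0a9ae3c : CRef := CRef.mk (Pat.mk 0x20000001e0000000200000000000000000000000000000000 0x50000000700000007000000020000001e0000003e00000007000000070000000700000004 6 6) 0 0 (step_sound _ 132 [rh9187755d978ec37b, (rhe25b0a99195a5d59.shift 1 4)] (by decide +kernel))
noncomputable def rhed7c663b6774791d : CRef := CRef.mk (Pat.mk 0x1e0000001200000000000000000000000000000000 0x40000001c0000001c0000001e0000001e0000003f0000003f0000001f00000005 6 6) 0 0 (step_sound _ 97 [(rh02cfe0eb8b6cb52e.shift 0 1), (rh04e56cd0f82e58e9.shift 0 1), (rhb730ba14aa32bdb3.shift 1 2), rhffb8e5993241bf15] (by decide +kernel))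
noncomputable def rh77e12996a058a8b5 : CRef := CRef.mk (Pat.mk 0x1e0000001000000010000000000000000000000000 0xa0000000a0000001f0000001e0000001e000000fc000000ee0000000800000008 6 8) 0 0 (step_sound _ 99 [rh3c88a1ca6cb21e54, (rh50be0e7efbc698e2.shift 0 2), (rhbccf8045da50f23d.shift 0 1), (rhfafeb437ceb8396d.shift 3 0)] (by decide +kernel))
noncomputable def rhc67e6f105424d25d : CRef := CRef.mk (Pat.mk 0x1e0000001000000010000000000000000000000000 0x130000001e0000001800000038000000380000003800000028 6 6) 0 0 (step_sound _ 193 [(rh3244c3cc8379b070.shift 0 5), (rhf770a1ddfcf5c7ee.shift 3 0)] (by decide +kernel))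
noncomputable def rh4cf8cadacd839b9e : CRef := CRef.mk (Pat.mk 0x7800000000 0xe00000007e00000077 6 8) 0 0 (step_sound _ 70 [(rh33e738c4ed385b9f.shift 3 1), rh3e5f8e21a521f7e9] (by decide +kernel))
noncomputable def rhb3765993bdc3f23b : CRef := CRef.mk (Pat.mk 0x20000001e00000002000000000000000000000000 0x4000000070000000700000007000000060000001e00000032000000070000000700000005 6 6) 0 0 (step_sound _ 100 [rhaf437ea1f7c5e5c5, (rhe25b0a99195a5d59.shift 1 3)] (by decide +kernel))
noncomputable def rh81d3afc9f864974b : CRef := CRef.mk (Pat.mk 0x20000001e000000020000000000000000 0x20000000b0000000f0000001e0000001e0000003e0000001200000012 6 6) 0 0 (step_sound _ 68 [rh55a94fde4830e12e, (rhe25b0a99195a5d59.shift 1 2)] (by decide +kernel))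
noncomputable def rh7b67f6e1d3dafcf9 : CRef := CRef.mk (Pat.mk 0x20000001e00000002000000000000000000000000 0xa0000000a0000001e0000001e0000003e0000003f0000001700000012 6 6) 0 0 (step_sound _ 100 [rh9573539cdeea4765, (rhe25b0a99195a5d59.shift 1 3)] (by decide +kernel))
noncomputable def rh6cb9eb74187b2f11 : CRef := CRef.mk (Pat.mk 0x10000000f00000001000000000000000000000000 0x7000000070000000f0000000f0000001f0000001e0000000e0000000c 6 5) 0 0 (step_sound _ 97 [rh4ed43ab66a32d86b, (rh55a1f6c57a317ce6.shift 0 1), rhb843f35fc6e51d22] (by decide +kernel))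
noncomputable def rh281d4b89732a50ac : CRef := CRef.mk (Pat.mk 0x180000000e000000000000000000000000 0x3000000030000000320000001b0000003e0000007f0000001c0000001c 6 7) 0 0 (step_sound _ 100 [(rh16ffcf79af18348f.shift 1 0), rh2395824d1086e2bc, (rh8db7f7558b75b2b1.shift 0 2)] (by decide +kernel))
noncomputable def rh6d471084eb8ecbbb : CRef := CRef.mk (Pat.mk 0xc000000180000000800000000 0x140000001c0000003c0000000f000000180000001800000010 6 6) 0 0 (step_sound _ 131 [rh55d726e3c1c0ab46, (rh9125e60af3c3566b.shift 0 1), (rhd4b4beefcd67f51e.shift 3 0)] (by decide +kernel))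
noncomputable def rh20f75641c483f9d7 : CRef := CRef.mk (Pat.mk 0x3800000000 0xf70000007e000000e7 6 8) 0 0 (step_sound _ 34 [(rh07fc106a6edf0c0a.shift 1 0), rh2cc7d62e70c02209, rhc37ac25399000c0e, rhd75855c0840bf9dc] (by decide +kernel))
noncomputable def rh829b7701c19c2a8f : CRef := CRef.mk (Pat.mk 0x1000000018000000080000000800000000 0x80000000c0000006c0000007c0000001f0000001c000000f800000030 6 8) 0 0 (step_sound _ 131 [(rh65a3a4cf67baf828.shift 2 0), (rh933f3ac7d57d09d8.shift 2 1), (rha686ff21d9572f9e.shift 1 0), (rhf9b7d1c72024a10a.shift 0 1)] (by decide +kernel))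
noncomputable def rhf167e9f78adeab0a : CRef := CRef.mk (Pat.mk 0xc0000000c000000000000000000000000 0x80000001c0000003c0000000f0000007c0000001c0000000c0000000c 6 7) 0 0 (step_sound _ 163 [(rh1e309b005ffa1b36.shift 2 1), rh7c1bdb80a3fb96e2, (rhf7ac44032989c9ef.shift 1 2)] (by decide +kernel))
noncomputable def rhdd2314dd178bca80 : CRef := CRef.mk (Pat.mk 0x1800000018000000000000000000000000 0x10000000100000001f000000ff000001fc0000002800000028 6 9) 0 0 (step_sound _ 101 [rh30b12604329aefc7, (rh79b3c29022acbdf3.shift 2 3), (rh92e8f86a47ca4f2b.shift 2 0)] (by decide +kernel))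
noncomputable def rha05fd917b3463a4b : CRef := CRef.mk (Pat.mk 0x18000000180000001000000000 0x8000000080000001e000000ff000000f700000004 6 8) 0 0 (step_sound _ 131 [(rh2145e1d24b96a57e.shift 3 1), rhc62fc4a345b42249] (by decide +kernel))
noncomputable def rh48281dc8cbf5ef73 : CRef := CRef.mk (Pat.mk 0x1800000038000000000000000000000000 0x8000000080000001f0000003f0000000e0000000400000004 6 6) 0 0 (step_sound _ 129 [rha36710fe0a7398ca, (rhab22b5b56e7b3243.shift 1 3)] (by decide +kernel))
noncomputable def rh3bc8615634375375 : CRef := CRef.mk (Pat.mk 0x8000000080000000c0000000400000000 0x140000001f000000380000000e0000007c00000018 6 7) 0 0 (step_sound _ 35 [(rh36d4d92ef3dad5f8.shift 1 0), rhb569fc3d362b7913] (by decide +kernel))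
noncomputable def rh1aeacaaf2356723d : CRef := CRef.mk (Pat.mk 0x100000005800000008000000080000000000000000 0xc0000006c0000007f0000005f000000ff000000ff0000002400000020 6 8) 0 0 (step_sound _ 100 [rh19f2f681cd245645, (rh441b81ce688f6450.shift 1 1), rh4f74172d2dc96fd8, (rh9d1c3304f402138e.shift 0 2), (rhca9febac227b7e92.shift 1 1), (rhf2d75c0e8e62038c.shift 0 1)] (by decide +kernel))
noncomputable def rh5ba3863413fb0f21 : CRef := CRef.mk (Pat.mk 0x380000001000000010 0x2000000020000000700000003e0000007700000010 6 7) 0 0 (step_sound _ 66 [rh196f385e5341ff1b, (rha03f6e28ea70fc7d.shift 1 1), (rhbbda3e5cf400e6dd.shift 2 0)] (by decide +kernel))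
noncomputable def rhf1a716fbdbfb465a : CRef := CRef.mk (Pat.mk 0x3800000010000000000000000000000000 0x40000000f0000003e0000007f0000000e0000000c00000004 6 7) 0 0 (step_sound _ 130 [(rh2cc7d62e70c02209.shift 0 3), (rha03f6e28ea70fc7d.shift 1 3), (rhcbc656813b97618d.shift 1 0)] (by decide +kernel))
noncomputable def rh2b552bdc3eb82778 : CRef := CRef.mk (Pat.mk 0x1c000000080000000800000000 0x1e0000003f0000001f0000000c0000000c00000004 6 6) 0 0 (step_sound _ 131 [(rhccf6c53fa88468fc.shift 0 1), rhe923cdd51c3dccd8] (by decide +kernel))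
noncomputable def rh0e9fdacc9af40542 : CRef := CRef.mk (Pat.mk 0x1c000000080000000800000000 0x1c0000001f0000001f0000001c0000001c0000000c00000004 6 5) 0 0 (step_sound _ 131 [(rh2f767d906d07892b.shift 2 0), (rh2fa564b32b3c078f.shift 2 0), rh3ef0442e17deb1ad, (rh762a1aeaf83c662a.shift 2 0), (rh9d8f1a558a05bf73.shift 2 1)] (by decide +kernel))
noncomputable def rhfa0e244302729efd : CRef := CRef.mk (Pat.mk 0x40000000c000000040000000400000000 0x3a0000003e0000000f0000000c0000000c00000008 6 6) 0 0 (step_sound _ 131 [(rh2f68792b6b779e96.shift 2 1), rha686ff21d9572f9e] (by decide +kernel))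
noncomputable def rhdb70e0edf4b7e7f8 : CRef := CRef.mk (Pat.mk 0x600000006000000000000000000000000 0xc0000000c0000000c00000006000000070000003e0000000e0000000e 6 6) 0 0 (step_sound _ 162 [(rh1e309b005ffa1b36.shift 1 1), (rh56928d1b8674ed26.shift 1 0), rhd8f429786e6ff0e8] (by decide +kernel))
noncomputable def rhe1b4214f6e8fdc8a : CRef := CRef.mk (Pat.mk 0x1e000000000000000000000000 0x100000003b0000001f000000180000000800000008 6 6) 0 0 (step_sound _ 129 [(rh3244c3cc8379b070.shift 0 3), rh81a41ea69e635b09] (by decide +kernel))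
noncomputable def rh29818f2fc83bf9d5 : CRef := CRef.mk (Pat.mk 0x3e000000000000000000000000 0x4000000040000000e0000003f000000380000000800000008 6 6) 0 0 (step_sound _ 68 [rh077c06cd11c82473, (rhe25b0a99195a5d59.shift 1 2)] (by decide +kernel))
noncomputable def rhc483bf534335932e : CRef := CRef.mk (Pat.mk 0x1e000000000000000000000000 0x10000000380000001f0000001b0000000800000008 6 6) 0 0 (step_sound _ 65 [rh81a41ea69e635b09, (rheb0810cc63b001d8.shift 0 2)] (by decide +kernel))
noncomputable def rh53432ec86ad5a7fa : CRef := CRef.mk (Pat.mk 0x4000000078000000000000000000000000 0x670000007e000000700000002000000020 6 7) 0 0 (step_sound _ 98 [rh41167a0af4298ccc, (rh428265de8cd3cd2d.shift 2 3)] (by decide +kernel))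
noncomputable def rh9a61dc0f685e3a67 : CRef := CRef.mk (Pat.mk 0x7800000000 0x70000007e0000007e 6 7) 0 0 (step_sound _ 2 [(rh80fcd6d0a18cb2dd.shift 2 0), rhe5e0e80426b689b9] (by decide +kernel))
noncomputable def rh908d844581a044b8 : CRef := CRef.mk (Pat.mk 0x80000000f0000000400000000000000000 0x2000000020000000b7000000fe0000007f0000005000000050 6 8) 0 0 (step_sound _ 133 [(rh5699e2261b666753.shift 0 2), (rh59d8f484e1d7be5e.shift 3 0), (rhade0f4c81793f68e.shift 5 0), (rhbdb7f022733e1f8d.shift 3 0)] (by decide +kernel))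
noncomputable def rh6f387ceca0086065 : CRef := CRef.mk (Pat.mk 0x80000000f0000000400000000000000000 0xbf000000fe000000670000004000000040 6 8) 0 0 (step_sound _ 38 [(rh07cd6e35c8558e6a.shift 0 2), (rh71222050f2c63a3a.shift 6 0)] (by decide +kernel))
noncomputable def rh219021521bf409aa : CRef := CRef.mk (Pat.mk 0x7800000000 0xe0000007e00000077 6 7) 0 0 (step_sound _ 66 [(rh3f8766e6ecb455ce.shift 2 1), rhbc11a3baf4586684] (by decide +kernel))
noncomputable def rh952919b1bd67b801 : CRef := CRef.mk (Pat.mk 0x120000001e00000000000000000000000000000000 0x40000000700000007000000070000001e0000001e00000003000000070000000700000005 6 5) 0 0 (step_sound _ 97 [rh9044cbc003153871, (rheb0810cc63b001d8.shift 0 3)] (by decide +kernel))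
noncomputable def rh481d5bf5f33bfc06 : CRef := CRef.mk (Pat.mk 0x780000000800000008000000000000000000000000 0x5000000050000000f800000078000000780000003f000000770000001000000010 6 8) 0 0 (step_sound _ 100 [(rh046c5eb18e55a239.shift 3 0), rh3d592dd16c5ad541, (rh45ea06df3a5c4087.shift 0 2), (rh99500c2866f1c8d6.shift 1 1)] (by decide +kernel))
noncomputable def rhf5a4a453d58828d7 : CRef := CRef.mk (Pat.mk 0x1e0000000200000002000000000000000000000000 0x320000001e0000000600000007000000070000000700000005 6 6) 0 0 (step_sound _ 196 [(rh33e738c4ed385b9f.shift 1 5), rhb44fbf6bd2c6418e] (by decide +kernel))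
noncomputable def rhf4c49681b6e3aad9 : CRef := CRef.mk (Pat.mk 0x120000001e000000000000000000000000 0x50000001f0000003f0000003f0000001e0000001e0000001c0000001c0000001c 6 6) 0 0 (step_sound _ 161 [(rh046c5eb18e55a239.shift 1 0), rh05f4deae9793c14e, (rh14e0829dc73b6804.shift 0 2), rh19e8e224ad8f65bc] (by decide +kernel))
noncomputable def rhf723f4240e80a77c : CRef := CRef.mk (Pat.mk 0x20000001c000000000000000000000000 0x80000001b0000001f000000380000001000000010 6 6) 0 0 (step_sound _ 97 [rh1971f672aa6c5663, (rh3244c3cc8379b070.shift 0 3)] (by decide +kernel))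
noncomputable def rhdda67831a13fb045 : CRef := CRef.mk (Pat.mk 0x20000001e0000000200000000000000000000000000000000 0x50000000700000007000000320000001e0000000600000007000000070000000700000004 6 6) 0 0 (step_sound _ 196 [rh0f4621604a17ae35, (rh33e738c4ed385b9f.shift 1 5)] (by decide +kernel))
noncomputable def rhe8b94c6a311d9e90 : CRef := CRef.mk (Pat.mk 0x20000001e00000002000000000000000000000000 0x10000000120000003e0000001e0000001e0000000f0000000f00000002 6 6) 0 0 (step_sound _ 164 [(rh33e738c4ed385b9f.shift 1 4), rh63d9ad613ec162da] (by decide +kernel))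
noncomputable def rh7394ec0f8fc13ec8 : CRef := CRef.mk (Pat.mk 0x20000001e00000002000000000000000000000000 0x40000000700000007000000070000003e0000001e00000002000000070000000700000005 6 6) 0 0 (step_sound _ 164 [(rh33e738c4ed385b9f.shift 1 4), rh9044cbc003153871] (by decide +kernel))
noncomputable def rhd533863fa566e5c8 : CRef := CRef.mk (Pat.mk 0x20000001e0000000200000000 0x5000000070000000f0000003e0000001e0000000600000004 6 6) 0 0 (step_sound _ 100 [rh00bada3c4eecf833, (rh33e738c4ed385b9f.shift 1 2)] (by decide +kernel))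
noncomputable def rh01393017d91aa7cb : CRef := CRef.mk (Pat.mk 0x40000000c0000000400000000 0xe0000000f0000003c0000000c0000000c0000000c 6 6) 0 0 (step_sound _ 130 [rh1bd0c14c4de1ef4d, (rhd4b4beefcd67f51e.shift 2 0)] (by decide +kernel))
noncomputable def rh0c894822215ce91f : CRef := CRef.mk (Pat.mk 0x5c00000000 0xe70000007e0000007c 6 8) 0 0 (step_sound _ 37 [(rh9890f9d77740bbed.shift 2 1), rha6bdadbcb806d604] (by decide +kernel))
noncomputable def rh0b752ad3b931b588 : CRef := CRef.mk (Pat.mk 0x1e00000000 0x770000003e00000033 6 7) 0 0 (step_sound _ 0 [rh80fcd6d0a18cb2dd, rhb9b9ce08a9b9cf77] (by decide +kernel))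
noncomputable def rh46a43a5218625ceb : CRef := CRef.mk (Pat.mk 0x1e00000002000000000000000000000000 0x400000006000000070000001e00000006000000070000000700000005 6 5) 0 0 (step_sound _ 161 [(rh3244c3cc8379b070.shift 0 4), rh6b6742b0b99cf85c] (by decide +kernel))
noncomputable def rh2898fd652f81d8cd : CRef := CRef.mk (Pat.mk 0x4000000040000000c00000008000000000000000000000000 0x180000003c0000000f0000000f0000003e000000360000000600000006 6 6) 0 0 (step_sound _ 98 [(rh5db541dd5138ce50.shift 1 0), rh8632f4c87bc35ed4, (rhd65b950e17d04dd6.shift 0 2), (rhea45a8c4a0b14621.shift 0 2), (rhf5e15cdcea0762c2.shift 1 0)] (by decide +kernel))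
noncomputable def rhadc61cfcc7429541 : CRef := CRef.mk (Pat.mk 0xc0000000c000000000000000000000000 0x1800000018000000780000001f0000000c0000000c0000000c0000000c 6 7) 0 0 (step_sound _ 163 [(rh1e309b005ffa1b36.shift 2 1), (rh32783a770c97e15b.shift 0 2), rh6d680d8523a6ef9a] (by decide +kernel))
noncomputable def rhe8891aabb16e2b7c : CRef := CRef.mk (Pat.mk 0xc0000000c000000000000000000000000 0x1800000018000000180000000c0000000f0000003c0000001c0000001c 6 6) 0 0 (step_sound _ 163 [(rh1e309b005ffa1b36.shift 2 1), (rh56928d1b8674ed26.shift 2 0), rh68a367426c9cdf58] (by decide +kernel))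
noncomputable def rhc880b74d04bc5a1e : CRef := CRef.mk (Pat.mk 0x18000000180000000000000000 0x20000000280000007c000000ff0000001f0000001000000010 6 8) 0 0 (step_sound _ 101 [(rh073589708c2d81a3.shift 2 0), (rh4dc133ee0ba1420a.shift 1 2), rh7d6a3df37e3824be] (by decide +kernel))
noncomputable def rha1af3e7c1e51cd7a : CRef := CRef.mk (Pat.mk 0x1000000018000000180000000000000000 0x4000000f7000000ff0000001e0000000800000008 6 8) 0 0 (step_sound _ 35 [(rh537260fbff338b7d.shift 0 1), (rh71222050f2c63a3a.shift 3 0)] (by decide +kernel))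
noncomputable def rh66419705dbbb198b : CRef := CRef.mk (Pat.mk 0x40000000c000000080000000800000000 0x100000003c0000000f0000003c0000001f00000017 6 6) 0 0 (step_sound _ 131 [(rhc0ddb33d3a52722b.shift 0 1), rhcfbea19f509e11c8] (by decide +kernel))
noncomputable def rh45370cb373bfffbe : CRef := CRef.mk (Pat.mk 0x1000000038000000200000000000000000 0x40000000e0000007e0000003e0000003f0000000c00000004 6 7) 0 0 (step_sound _ 98 [(rh617da9caf6645066.shift 1 0), (rh6765e7960b108c8d.shift 1 2), (rhdceeca65bdd8095a.shift 0 2)] (by decide +kernel))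
noncomputable def rha0b2b5b4c345bc63 : CRef := CRef.mk (Pat.mk 0x80000001c00000010000000000000000000000000 0xc0000000c0000001c0000001c0000007f0000000f0000000c00000008 6 7) 0 0 (step_sound _ 99 [(rh39a83bd891d985d7.shift 2 0), (rhae95f6c6d8667a95.shift 0 1), rhaff6a19889f90fa8, (rhb83c12541a772d12.shift 2 0)] (by decide +kernel))
noncomputable def rh81b70e6efbd764d4 : CRef := CRef.mk (Pat.mk 0x20000000200000006000000000000000000000000 0x300000003000000070000000600000006000000060000000200000002 6 3) 0 0 (step_sound _ 193 [(rh55afc6a59410cf00.shift 1 2), rhdfd10cc9da38ede8] (by decide +kernel))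
noncomputable def rh2b775b10f113273e : CRef := CRef.mk (Pat.mk 0x20000000200000006000000000000000000000000 0x300000003000000070000000700000007000000030000000300000002 6 3) 0 0 (step_sound _ 193 [(rh6aa5625770489e83.shift 0 1), (rh7b60db5db6f7d331.shift 0 2), rhdfd10cc9da38ede8] (by decide +kernel))
noncomputable def rhbda9af480f89050a : CRef := CRef.mk (Pat.mk 0x800000008000000480000000800000000 0x740000007f000001ff000000480000004c00000004 6 9) 0 0 (step_sound _ 132 [(rh2f68792b6b779e96.shift 3 1), rh417dc6e4101dd16a] (by decide +kernel))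
noncomputable def rh1b790f999d554695 : CRef := CRef.mk (Pat.mk 0x80000000800000018000000000000000000000000 0x140000001c0000003c0000001f000000180000000c0000000c0000000c 6 6) 0 0 (step_sound _ 67 [(rh2d94e8e3c3d1054b.shift 2 0), (rh6aa5625770489e83.shift 2 0), (rh762a1aeaf83c662a.shift 2 1), (rh900a894640be090c.shift 0 1)] (by decide +kernel))
noncomputable def rh31760aef3abb176a : CRef := CRef.mk (Pat.mk 0x4000000040000000c0000000400000000 0x80000000c0000000c0000000f0000003e0000003a 6 6) 0 0 (step_sound _ 35 [(rh55afc6a59410cf00.shift 2 0), rhea45a8c4a0b14621] (by decide +kernel))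
noncomputable def rh6a4f66854d91c743 : CRef := CRef.mk (Pat.mk 0x4000000040000000c000000000000000000000000 0x1a0000003f0000003f0000000c0000000e0000000e0000000e 6 6) 0 0 (step_sound _ 66 [(rh20d817f00f392cc7.shift 0 1), (rh2d94e8e3c3d1054b.shift 1 0), (rh3181373a30ceb9e3.shift 1 0)] (by decide +kernel))
noncomputable def rh566e1f306155a94a : CRef := CRef.mk (Pat.mk 0x380000001800000000 0xc0000000c0000000f0000003f0000001f00000014 6 6) 0 0 (step_sound _ 66 [(rh2fc34ac75dd5edad.shift 1 0), (rh583cd2949503eb8f.shift 0 1), (rhba89ab7cb81bcc90.shift 0 1)] (by decide +kernel))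
noncomputable def rh1b0b1befef42088f : CRef := CRef.mk (Pat.mk 0x60000000600000004 0xe0000000e0000003f0000003e0000000700000004 6 6) 0 0 (step_sound _ 98 [rh34cad8b38627e761, (rh5fa50b509d4ce753.shift 1 0), (rh7f9f3607ee25a93b.shift 1 0)] (by decide +kernel))
noncomputable def rh7acac268a102e4c1 : CRef := CRef.mk (Pat.mk 0x180000001c000000000000000000000000 0xe0000000e0000007f0000007f0000001c000000060000000600000006 6 7) 0 0 (step_sound _ 130 [(rh1b80270a8621e059.shift 0 3), (rhaed54c24fb91f24a.shift 0 1), (rhe83c758efd62460e.shift 1 0)] (by decide +kernel))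
noncomputable def rh50397eaf15e17c6a : CRef := CRef.mk (Pat.mk 0xc0000000c000000000000000000000000 0x1c0000001c0000003c0000000f0000000c000000180000001800000018 6 6) 0 0 (step_sound _ 67 [(rh3cb04db3dd2b6a55.shift 2 0), (rhafe37d5adc3b334b.shift 2 0), (rhde037d886ade9647.shift 0 2)] (by decide +kernel))
noncomputable def rh15028c999a56c13a : CRef := CRef.mk (Pat.mk 0x18000000580000000000000000 0x2000000020000000f0000000ff0000005f0000005000000050 6 8) 0 0 (step_sound _ 101 [(rh4dc133ee0ba1420a.shift 1 2), rh7d6a3df37e3824be, (rhbc44751b7121178e.shift 2 0)] (by decide +kernel))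
noncomputable def rh8485f1f04fd3766f : CRef := CRef.mk (Pat.mk 0x800000018000000180000000000000000 0x20000000200000007f000000ff0000001f0000001000000010 6 8) 0 0 (step_sound _ 36 [(rh7b1f1fb55310c477.shift 3 0), (rh9cae21c2333af47f.shift 0 1)] (by decide +kernel))
noncomputable def rhcf21b3e7bebf7c23 : CRef := CRef.mk (Pat.mk 0x800000008000000180000000800000000 0x140000003c0000000f0000001e0000007f00000016 6 7) 0 0 (step_sound _ 130 [(rh50fbb5868c909700.shift 2 1), rhca70629a2fd9457a] (by decide +kernel))
noncomputable def rh9c662c243f96fdba : CRef := CRef.mk (Pat.mk 0x180000001800000008 0x14000000f7000000ff0000001e00000008 6 8) 0 0 (step_sound _ 100 [rh537260fbff338b7d, (rh5c5e593799055d58.shift 3 0)] (by decide +kernel))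
noncomputable def rh3e55c59cf5da8412 : CRef := CRef.mk (Pat.mk 0x1800000018000000080000000000000000 0xe4000000ff0000001f000000080000000800000008 6 8) 0 0 (step_sound _ 35 [(rh28c8c9661f6daf2b.shift 0 1), (rh71222050f2c63a3a.shift 3 0)] (by decide +kernel))
noncomputable def rh2eff739f764ba3f2 : CRef := CRef.mk (Pat.mk 0x20000000600000002000000000000000000000000 0x400000006000000060000000600000003000000070000000700000005 6 3) 0 0 (step_sound _ 65 [rh3181373a30ceb9e3, (rh55a026e6f690bbaf.shift 0 1), (rha707fb719e87fe6e.shift 1 1)] (by decide +kernel))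
noncomputable def rh4433d9e97bd63e9f : CRef := CRef.mk (Pat.mk 0x800000018000000080000000000000000 0x140000001c0000003c0000000f0000001c0000000f0000000c00000004 6 6) 0 0 (step_sound _ 163 [(rh580c6d6212ed1b86.shift 0 1), (rh6aa5625770489e83.shift 2 0), (rh762a1aeaf83c662a.shift 2 1), (rh900a894640be090c.shift 0 1)] (by decide +kernel))
noncomputable def rh9e32231d7004bb35 : CRef := CRef.mk (Pat.mk 0x1c00000018000000000000000000000000 0x40000003f0000001f000000030000000200000002 6 6) 0 0 (step_sound _ 129 [rh38944da09e6b0442, (rhb739f4f82bb681b4.shift 0 3)] (by decide +kernel))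
noncomputable def rh915f6511d37f58de : CRef := CRef.mk (Pat.mk 0x1c000000180000000000000000 0x2000000030000003f0000001f0000000400000004 6 6) 0 0 (step_sound _ 97 [rh32af6e600e16eab8, (rhb739f4f82bb681b4.shift 0 2)] (by decide +kernel))
noncomputable def rh7160d4f3bced5753 : CRef := CRef.mk (Pat.mk 0x1c000000180000000000000000 0x4000000070000003f0000001b0000000200000002 6 6) 0 0 (step_sound _ 97 [(rhb739f4f82bb681b4.shift 0 2), rhefd858cfdc5d2964] (by decide +kernel))
noncomputable def rh2913f65f8e032e38 : CRef := CRef.mk (Pat.mk 0x18000000580000000000000000 0x24000000e7000000ff0000005f0000004800000048 6 8) 0 0 (step_sound _ 101 [(rh4dc133ee0ba1420a.shift 1 2), rh5b7bf26d9fd76ab6, (rhbc44751b7121178e.shift 2 0)] (by decide +kernel))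
noncomputable def rh805b7d85b33a7d22 : CRef := CRef.mk (Pat.mk 0x1e000000000000000000000000 0x1000000070000000700000007000000070000001e000000070000000600000006 6 5) 0 0 (step_sound _ 129 [(rh3244c3cc8379b070.shift 0 3), rh33930b07695aec11] (by decide +kernel))
noncomputable def rh1f07261a2822ff7a : CRef := CRef.mk (Pat.mk 0x100000001e000000100000000000000000 0x280000003800000038000000180000001e0000001b0000001800000018 6 6) 0 0 (step_sound _ 65 [(rh31b679a2a3cca353.shift 3 0), (rheb0810cc63b001d8.shift 0 2)] (by decide +kernel))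
noncomputable def rh88409021de502b9a : CRef := CRef.mk (Pat.mk 0x200000002000000060000000200000000 0x40000000600000006000000070000003f0000001d 6 6) 0 0 (step_sound _ 32 [rh932754581e0f4330, rhff509b783c9e6633] (by decide +kernel))
noncomputable def rhac39cc2fe5786742 : CRef := CRef.mk (Pat.mk 0x4000000040000000c00000008000000000000000000000000 0x80000000c0000000e0000000f0000007e000000360000000600000006 6 7) 0 0 (step_sound _ 98 [(rh22fa1117f605cb3f.shift 1 2), (rh5db541dd5138ce50.shift 1 0), rh8632f4c87bc35ed4, (rhd00842dd145db022.shift 1 2), (rhf5e15cdcea0762c2.shift 1 0)] (by decide +kernel))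
noncomputable def rh3f1653f301dd3d43 : CRef := CRef.mk (Pat.mk 0x800000008000000180000001000000000 0x1400000014000001f70000007e0000001f0000001e000000f800000020 6 9) 0 0 (step_sound _ 132 [(rh423d2fc50cedcfc3.shift 1 0), (rh5d2b57813791eada.shift 0 1), (rhb730ba14aa32bdb3.shift 3 1), (rhe5279eb8d40f52fb.shift 0 1)] (by decide +kernel))
noncomputable def rhe54427593657c895 : CRef := CRef.mk (Pat.mk 0x80000001c00000010000000000000000000000000 0xc0000000c0000001c0000001c0000007f0000000f0000000c00000008 6 7) 0 0 (step_sound _ 99 [(rh361a2c760188f4e3.shift 2 0), (rhae95f6c6d8667a95.shift 0 1), rhaff6a19889f90fa8, (rhb83c12541a772d12.shift 2 0)] (by decide +kernel))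
noncomputable def rh61581b1d35e4d20e : CRef := CRef.mk (Pat.mk 0x200000002000000060000000200000000 0x100000007000000070000000600000006000000060000000300000001 6 3) 0 0 (step_sound _ 0 [rh79877ebd3ef475dd, (rhccb3a79fd989e123.shift 0 1)] (by decide +kernel))
noncomputable def rh42781a027659b1e8 : CRef := CRef.mk (Pat.mk 0x8000000080000001800000010000000000000000000000000 0x140000001e000000780000001f000000ff0000006c0000000c00000008 6 8) 0 0 (step_sound _ 99 [(rh1bd0c14c4de1ef4d.shift 1 2), (rh69e20f42df147d70.shift 0 1), (rhd00842dd145db022.shift 2 2), (rhf5e15cdcea0762c2.shift 2 0)] (by decide +kernel))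
noncomputable def rh44ab657570803899 : CRef := CRef.mk (Pat.mk 0x180000001c000000000000000000000000 0xe0000000e0000007f0000007f0000001c000000060000000600000006 6 7) 0 0 (step_sound _ 130 [(rh1b80270a8621e059.shift 0 3), (rh484d81bfaf6acc0d.shift 1 0), (rhaed54c24fb91f24a.shift 0 1)] (by decide +kernel))
noncomputable def rh7c40871a28f8de66 : CRef := CRef.mk (Pat.mk 0x800000008000000180000000800000000 0x140000003c0000000f0000001e0000007f00000016 6 7) 0 0 (step_sound _ 130 [(rh50fbb5868c909700.shift 2 1), rhc64f717e76c41463] (by decide +kernel))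
noncomputable def rhd73f8d8555bd7ce9 : CRef := CRef.mk (Pat.mk 0x20000000600000002000000000000000000000000 0x400000006000000060000000600000003000000070000000700000005 6 3) 0 0 (step_sound _ 65 [(rh55a026e6f690bbaf.shift 0 1), rh8cdd36b03d57a2f6, (rha707fb719e87fe6e.shift 1 1)] (by decide +kernel))
noncomputable def rh60527afd12d1479d : CRef := CRef.mk (Pat.mk 0x100000001e000000100000000000000000 0x2800000038000000380000001b0000001e0000001b0000001800000018 6 6) 0 0 (step_sound _ 65 [rh75af7e66cfc8f4d2, (rheb0810cc63b001d8.shift 0 2)] (by decide +kernel))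
noncomputable def rhb4874387b3c96687 : CRef := CRef.mk (Pat.mk 0x100000001e00000010000000000000000000000000 0x100000001c0000001e0000001f0000003b0000001a00000012 6 6) 0 0 (step_sound _ 97 [rh3dfac724f512a741, (rheb0810cc63b001d8.shift 0 3)] (by decide +kernel))
noncomputable def rh0b787b74a6c2af78 : CRef := CRef.mk (Pat.mk 0x1000000018000000080000000800000000 0xec000000ff0000001f0000001c000000f800000030 6 8) 0 0 (step_sound _ 131 [(rh28c8c9661f6daf2b.shift 0 1), (rh65a3a4cf67baf828.shift 2 0)] (by decide +kernel))
noncomputable def rh87af8c59c94783a4 : CRef := CRef.mk (Pat.mk 0x1000000018000000080000000800000000 0x80000000c000000ec000000ff0000001f0000001c0000000c00000004 6 8) 0 0 (step_sound _ 131 [(rh0fd870c734e6c513.shift 2 0), (rh28c8c9661f6daf2b.shift 0 1), (rhea90e7358341a1a4.shift 2 0)] (by decide +kernel))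
noncomputable def rh9dcb3ced18612fa4 : CRef := CRef.mk (Pat.mk 0x800000058000000080000000800000000 0x4800000058000001ff000000ff00000074 6 9) 0 0 (step_sound _ 36 [rh1f71cf4fded4d8ad, (rh55afc6a59410cf00.shift 3 0)] (by decide +kernel))
noncomputable def rha612bd60300eb0ed : CRef := CRef.mk (Pat.mk 0x1800000038000000000000000000000000 0x140000001f0000003f0000006f0000000c0000000c 6 7) 0 0 (step_sound _ 98 [(rh0e1512cbacfbd48b.shift 0 2), (rhdd8b04b529655521.shift 0 2), (rhe1cd74cc13b9d3fa.shift 1 0)] (by decide +kernel))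
noncomputable def rh7507812dfac03689 : CRef := CRef.mk (Pat.mk 0x800000018000000080000000000000000 0x140000001c0000003c0000000f0000001c0000001f0000000c00000004 6 6) 0 0 (step_sound _ 163 [(rh580c6d6212ed1b86.shift 0 1), (rh762a1aeaf83c662a.shift 2 1), (rh900a894640be090c.shift 0 1), (rhbc079f735272f75f.shift 2 0)] (by decide +kernel))
noncomputable def rh38836b7b2bcf4f54 : CRef := CRef.mk (Pat.mk 0x200000006000000020000000000000000 0x500000007000000070000000200000006000000070000000700000005 6 3) 0 0 (step_sound _ 161 [rh3181373a30ceb9e3, (rh762a1aeaf83c662a.shift 0 1), (rhd4b4beefcd67f51e.shift 1 1)] (by decide +kernel))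
noncomputable def rh043f8fe96e1faf54 : CRef := CRef.mk (Pat.mk 0x4000000000000000c0000000c00000000 0x3a0000003e0000000f0000000c0000000c00000008 6 6) 0 0 (step_sound _ 98 [(rh55afc6a59410cf00.shift 2 0), (rhd49a209860dedbee.shift 0 1)] (by decide +kernel))
noncomputable def rh9e73c5baedaf010a : CRef := CRef.mk (Pat.mk 0x800000000000000580000001800000000 0x1ff000000fe000001f70000005c000000f800000050 6 9) 0 0 (step_sound _ 132 [(rh31e6ad3683c68b2e.shift 2 0), (rh4c61a8d65f05c464.shift 3 1), rh820afe06dccaee47, (rhfc714aa8878fdb73.shift 2 0)] (by decide +kernel))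
noncomputable def rhf698a147e259505b : CRef := CRef.mk (Pat.mk 0x5800000018000000000000000000000000 0x480000005f000000ff000000e70000002400000024 6 8) 0 0 (step_sound _ 101 [(rh70c6b6c826784699.shift 2 0), (rh79b3c29022acbdf3.shift 2 3), rh84c401376b05ef58] (by decide +kernel))
noncomputable def rh001ff81416baa366 : CRef := CRef.mk (Pat.mk 0x14000000160000000000000000 0x80000000e0000001f0000003c000000160000001600000016 6 6) 0 0 (step_sound _ 99 [(rh18965a982d73c794.shift 1 2), rh9a04949f810a780b] (by decide +kernel))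
noncomputable def rh92a482e38c5eae4f : CRef := CRef.mk (Pat.mk 0xa0000000a00000002000000000000000000000000 0x4000000040000000c0000000e0000000e0000000a0000000a000000070000000700000005 6 4) 0 0 (step_sound _ 65 [(rh16f92f1c149db50f.shift 1 2), rh3181373a30ceb9e3] (by decide +kernel))
noncomputable def rh39ec6853ced0324a : CRef := CRef.mk (Pat.mk 0x28000000280000000800000000000000000000000000000000 0x100000001000000038000000780000002f0000007c000000380000001c0000001c00000004 6 7) 0 0 (step_sound _ 196 [(rh24a238e52b1653ef.shift 0 1), (rh650c6275623c53a2.shift 0 3), (rh7715f90e66992d24.shift 2 0), (rh7f36f639160ea2c8.shift 3 3)] (by decide +kernel))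
noncomputable def rhbd6e191b609b3fe3 : CRef := CRef.mk (Pat.mk 0x28000000080000000800000000 0x140000001c0000001f000000780000000c0000001c00000014 6 7) 0 0 (step_sound _ 131 [(rh0fd870c734e6c513.shift 2 0), (rh20966da26a1c2ae8.shift 2 0), rha65ae0be40b35f74, (rhc17b7d8fab3dfe57.shift 2 0)] (by decide +kernel))
noncomputable def rhadaf99cc91f66e5e : CRef := CRef.mk (Pat.mk 0x28000000280000000800000000000000000000000000000000 0xf0000000780000002c0000007c0000003f0000001c0000001c00000014 6 8) 0 0 (step_sound _ 99 [(rh3181373a30ceb9e3.shift 2 1), (rh3d5044ad238b530a.shift 2 0), (rh52c9f88d585671c8.shift 1 2), (rh84c107ea68d9937f.shift 2 0), (rhd103b87f194103df.shift 0 2)] (by decide +kernel))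
noncomputable def rh87038d8fda6e5753 : CRef := CRef.mk (Pat.mk 0x80000002800000028000000000000000000000000 0x1000000078000001f80000007f00000028000000780000007000000050 6 9) 0 0 (step_sound _ 165 [(rh3ac5868c153fd914.shift 0 2), (rh424984f5923fd3fa.shift 0 2), (rhddaeab9e95c0e056.shift 2 0), (rhe27f3a99d34d0525.shift 3 2)] (by decide +kernel))
noncomputable def rhbccaaee7465a7fa5 : CRef := CRef.mk (Pat.mk 0x2000000028000000000000000000000000 0x500000007000000070000001f00000003e000001f70000007000000070 6 9) 0 0 (step_sound _ 100 [(rh25e7d7f9c8fca227.shift 3 0), (rh46f4e32c661b103a.shift 0 2), rhc4ad62d87f2db4ec, (rhff7d63dcb3cf9f74.shift 2 3)] (by decide +kernel))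
noncomputable def rh6438e926a9981e2b : CRef := CRef.mk (Pat.mk 0x2800000028000000000000000000000000 0x8000000080000003f000000fe000001ff0000000400000004 6 9) 0 0 (step_sound _ 100 [rh0e3012db365425d2, (rh1561ff1fafeb7917.shift 2 2), (rha9fbfd4bb8cf890b.shift 0 3)] (by decide +kernel))
noncomputable def rhd427600927ea2b96 : CRef := CRef.mk (Pat.mk 0x2800000068000000000000000000000000 0x50000000740000007c0000007c0000002f000000680000007c0000007c00000054 6 7) 0 0 (step_sound _ 165 [rh3bbc8911e77ee223, (rh70e33bfdf511e144.shift 5 0), rh7ffc77cf4c1fd48e, (rhc0f6fe06378683f4.shift 4 2)] (by decide +kernel))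
noncomputable def rh3f2ea8d89b0df1d7 : CRef := CRef.mk (Pat.mk 0x80000002800000028000000000000000000000000 0x10000000780000007c0000002f0000007c0000006e0000004400000044 6 7) 0 0 (step_sound _ 66 [(rh3743dbe66b959104.shift 2 0), (rh544d3caba1e1e2bb.shift 2 0), (rh692d6d31ac739cab.shift 1 2), rh6c9c5caca09abb75, (rhb01ac4982a11ea27.shift 2 0)] (by decide +kernel))
noncomputable def rhf54fb5dd43065212 : CRef := CRef.mk (Pat.mk 0x80000002800000028000000000000000000000000 0x10000000140000003c0000003f0000002c000000280000002c0000000c00000004 6 6) 0 0 (step_sound _ 196 [(rh1a77efeddae3962a.shift 2 0), (rh22d86f446f3de558.shift 0 2), (rhd7e9c837e0c18098.shift 3 2), (rhee04577b5ae6061f.shift 3 2)] (by decide +kernel))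
noncomputable def rhc4d5e3a638b42b78 : CRef := CRef.mk (Pat.mk 0x80000002800000028000000000000000000000000 0xf40000007c0000002f000000380000003c0000001c00000014 6 8) 0 0 (step_sound _ 67 [(rh3181373a30ceb9e3.shift 2 0), (rh6aa5625770489e83.shift 2 0), (rhcae87bda2c3c01d2.shift 2 0), (rhf081c889b5d166e5.shift 0 1)] (by decide +kernel))
noncomputable def rh7fa8d387b1ab4755 : CRef := CRef.mk (Pat.mk 0x80000000b000000080000000000000000 0x140000003c0000000f0000000b0000001e0000001c00000010 6 6) 0 0 (step_sound _ 163 [(rh0c3873a75f5344d2.shift 0 1), (rh46baee19951a66e7.shift 2 0), (rh5ee4dc8825dcefa0.shift 0 1)] (by decide +kernel))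
noncomputable def rh27968d929b5eb6a7 : CRef := CRef.mk (Pat.mk 0x200000002c000000200000000000000000 0x40000000680000007c0000002f0000007c0000007000000040 6 7) 0 0 (step_sound _ 68 [(rh25664aeb9b03f551.shift 4 0), (rh95f73988d2dec2c0.shift 0 2), rhc8872ca7771a3f30] (by decide +kernel))
noncomputable def rhaedeb049cec7eb39 : CRef := CRef.mk (Pat.mk 0x80000000b000000080000000000000000 0x140000001e000000780000000b0000001e0000001c00000010 6 7) 0 0 (step_sound _ 163 [(rh0c3873a75f5344d2.shift 0 1), (rh1bd0c14c4de1ef4d.shift 1 1), (rhc9de03f9731897d4.shift 3 0)] (by decide +kernel))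
noncomputable def rhc5c669a21ab4e9cc : CRef := CRef.mk (Pat.mk 0x200000002c000000200000000000000000 0x140000001c0000007e0000007e0000002f0000007c0000001c0000000c 6 7) 0 0 (step_sound _ 131 [rh132c6ae45e16fcd1, rh62cc4d83ca6b225e, (rhe33d9496e10d8eb0.shift 0 3), (rhe68edff6e0bfa98b.shift 1 1)] (by decide +kernel))
noncomputable def rh30b4c8aa87f70486 : CRef := CRef.mk (Pat.mk 0x200000002c000000200000000000000000 0x140000001c0000001c0000007c0000002f0000007c0000003c0000000c 6 7) 0 0 (step_sound _ 131 [rhce92d5aa8f92d0a9, (rhe293b4d282278a88.shift 2 1), (rhe33d9496e10d8eb0.shift 0 3)] (by decide +kernel))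
noncomputable def rh6f86970e8c839ade : CRef := CRef.mk (Pat.mk 0x200000002c000000200000000000000000 0x58000000f80000007c0000002f0000007c0000007400000044 6 8) 0 0 (step_sound _ 165 [(rh0c3873a75f5344d2.shift 2 1), (rh0c7493ab8ae24602.shift 4 0), rh411c4efb1591d0f3] (by decide +kernel))
noncomputable def rh7e815e00b19d6e56 : CRef := CRef.mk (Pat.mk 0x7000000040000000400000000 0x20000000e0000001e000000070000003e0000000c00000008 6 6) 0 0 (step_sound _ 129 [rh30b07c451fbc56c5, (rha3df16ea9c8576c8.shift 1 1), (rhc89253ff58c66167.shift 1 1), (rhe072fffdd2fccf38.shift 1 1)] (by decide +kernel))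
noncomputable def rhf71215ddc455fe51 : CRef := CRef.mk (Pat.mk 0xc0000000800000008000000000000000000000000 0x80000000c0000000c000000380000001f0000001c00000014 6 6) 0 0 (step_sound _ 67 [(rh1f3a6ba70a310ab1.shift 2 0), (rha613ffd40b6c9d24.shift 2 0), (rhb20dd801f506db0f.shift 0 1)] (by decide +kernel))
noncomputable def rhbe4291dfa8c01ddc : CRef := CRef.mk (Pat.mk 0x7000000040000000400000000 0xa0000000e0000001e000000070000000c0000000e0000000a 6 5) 0 0 (step_sound _ 130 [(rh4017de503635a93b.shift 0 1), (rh8dd0e254f9bfc580.shift 1 0), (rhd7cb8ed87e2022d8.shift 1 0)] (by decide +kernel))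
noncomputable def rha4846e93cf74f2cb : CRef := CRef.mk (Pat.mk 0xc0000002800000000000000000000000000000000 0x40000000c0000000c0000000c0000007c0000001f0000001c0000000c00000004 6 7) 0 0 (step_sound _ 132 [rhe735bd5f2b178775, (rhf48373e13d2bc128.shift 2 4)] (by decide +kernel))
noncomputable def rh01bec6794f227bba : CRef := CRef.mk (Pat.mk 0xc0000000800000000000000000000000000000000 0x140000001c0000003c0000000f0000000c0000001c0000001c0000001c00000014 6 6) 0 0 (step_sound _ 99 [(rh0a6888916bcef86b.shift 2 0), (rh406bfc4f631a2f4f.shift 2 0), (rh7b24c4ccc068b0b2.shift 2 2), (rhea71692cb648c96d.shift 0 2), (rhf9a6286f1d5377a2.shift 2 2)] (by decide +kernel))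
noncomputable def rhed963764511338bc : CRef := CRef.mk (Pat.mk 0x2800000038000000000000000000000000 0x10000003b8000001fe000003f70000002000000020 6 10) 0 0 (step_sound _ 98 [(rh008b05f4778dc30d.shift 0 2), (rh2591032a0e7f4182.shift 0 2), (rh80cf23db140f7233.shift 2 0)] (by decide +kernel))
noncomputable def rhc42d19720b7472bd : CRef := CRef.mk (Pat.mk 0x10000000140000001000000010000000000000000000000000 0x2000000030000000300000001f0000001800000038000000300000003000000010 6 6) 0 0 (step_sound _ 69 [rh13f9b72aece741c1, (rhd3458b32566d63f7.shift 4 2)] (by decide +kernel))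
noncomputable def rh6eedc9babffb703b : CRef := CRef.mk (Pat.mk 0x80000000b00000008 0x400000004000000ee0000007e000000ef00000008 6 8) 0 0 (step_sound _ 68 [(rh1c62b6193297d9e3.shift 0 1), rh9260db7e09bbd26d] (by decide +kernel))
noncomputable def rhbacc20df0843abc0 : CRef := CRef.mk (Pat.mk 0x200000002c00000020000000000000000000000000 0x28000000280000003f0000003c000000180000001000000010 6 6) 0 0 (step_sound _ 100 [rh826c1b7135bba048, (rhe753c2bd6bb4eeba.shift 0 3), (rhfafeb437ceb8396d.shift 4 0)] (by decide +kernel))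
noncomputable def rha7b6acd086adad79 : CRef := CRef.mk (Pat.mk 0x200000002c000000200000000000000000 0x40000001c0000001c0000007e0000007e0000002f0000003c0000001c0000001c 6 7) 0 0 (step_sound _ 131 [rh62cc4d83ca6b225e, (rh7cc25e2e5a8ec8b8.shift 1 0), (rhe33d9496e10d8eb0.shift 0 3), (rhe68edff6e0bfa98b.shift 1 1)] (by decide +kernel))
noncomputable def rh8064eaf9bc2923be : CRef := CRef.mk (Pat.mk 0x2800000068000000000000000000000000 0x54000000fc0000007c0000002f000000680000007c0000007c00000054 6 8) 0 0 (step_sound _ 163 [rh65b04519e93422b5, (rh86ce21cd54c503f9.shift 2 0), (rh8838f10d399c2b5a.shift 2 1), (rhabf31ee2c115f09b.shift 2 0), rhbb8e8d454f508234, (rhc6ee2247187d751e.shift 2 0)] (by decide +kernel))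
noncomputable def rhff6db7224ba92f3a : CRef := CRef.mk (Pat.mk 0x8000000280000002800000000000000000000000000000000 0x50000000f40000007c0000002f0000003c000000fe0000007c0000001400000010 6 8) 0 0 (step_sound _ 100 [(rh08c75accbceac6f3.shift 2 1), (rh09566e159f43446d.shift 0 1), (rh0db24d183fcfcaaa.shift 3 0), (rhb0f7befb62167a67.shift 0 1)] (by decide +kernel))
noncomputable def rhcc8f8c689c2f2602 : CRef := CRef.mk (Pat.mk 0xa0000000a00000002000000000000000000000000 0x140000001c0000001e0000000a0000001f0000007e0000003e0000001400000014 6 7) 0 0 (step_sound _ 99 [(rh1c365c76821ab000.shift 1 1), (rhb7fb3f7cd67b2e78.shift 0 2), rhba111a450e2cdcf3] (by decide +kernel))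
noncomputable def rhfd640015976ea2de : CRef := CRef.mk (Pat.mk 0xa0000000800000000000000000000000000000000 0x140000001c0000001e0000000f0000007c0000001c0000001c0000001c00000014 6 7) 0 0 (step_sound _ 99 [(rh26ebbfb0cc6b103d.shift 2 1), (rh4f3b8999dac24633.shift 0 1), (rh899ccf8276af9d97.shift 2 1), rh91d622b8478fd277, (rha448e4252868b3e6.shift 0 2), (rhf78d8c948dcae228.shift 0 2)] (by decide +kernel))
noncomputable def rh1c33f5ee25e35a18 : CRef := CRef.mk (Pat.mk 0x120000001e000000000000000000000000 0xe0000000f0000001e0000001e0000003e0000001e0000001c 6 6) 0 0 (step_sound _ 131 [rh3ceff2ceccc00bc3, (rhbbe16ff26f7822db.shift 1 0), rhd474fa2932cf629a] (by decide +kernel))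
noncomputable def rh216f038ab4e845ca : CRef := CRef.mk (Pat.mk 0x20000001e000000020000000000000000 0x500000007000000070000000f0000003e0000001e000000320000001200000012 6 6) 0 0 (step_sound _ 132 [(rh33e738c4ed385b9f.shift 1 3), rh3c353db79eaac149] (by decide +kernel))
noncomputable def rh6839ffca48ccc498 : CRef := CRef.mk (Pat.mk 0x160000000200000000000000000000000000000000 0x400000006000000070000001e0000000700000007000000070000000700000005 6 5) 0 0 (step_sound _ 163 [rh9a36fd13628cdbd4, (rheb0810cc63b001d8.shift 0 4)] (by decide +kernel))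
noncomputable def rh92fe2b4467a78e6a : CRef := CRef.mk (Pat.mk 0xf00000009000000000000000000000000 0x40000001c0000000f0000000f0000001e0000001c00000014 6 5) 0 0 (step_sound _ 163 [(rh33e738c4ed385b9f.shift 0 4), rhb51a3de674c9d31e] (by decide +kernel))
noncomputable def rh97c149d225d666f0 : CRef := CRef.mk (Pat.mk 0x10000000f000000010000000000000000 0x50000001d0000000f0000001f0000001a0000001a 6 5) 0 0 (step_sound _ 67 [rh1fb9f0ab631b0755, (rhe25b0a99195a5d59.shift 0 2)] (by decide +kernel))
noncomputable def rhb4589148e6fe8153 : CRef := CRef.mk (Pat.mk 0x800000018000000080000000800000000 0x30000000780000001e000000380000001f00000014 6 7) 0 0 (step_sound _ 36 [rh4becb9f10cf985aa, (rh55afc6a59410cf00.shift 3 0)] (by decide +kernel))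
noncomputable def rh7e02a204f6046b75 : CRef := CRef.mk (Pat.mk 0x1000000018000000080000000800000000 0x80000000c0000002c0000007c0000001f0000001c000000f800000030 6 8) 0 0 (step_sound _ 131 [(rh60f7890073fd1121.shift 1 0), (rh933f3ac7d57d09d8.shift 2 1), (rhb0c5c68d16db8c51.shift 1 0), (rhf9b7d1c72024a10a.shift 0 1)] (by decide +kernel))
noncomputable def rh26a4e42a8cae476f : CRef := CRef.mk (Pat.mk 0x200000003800000010000000000000000000000000 0x40000003e0000003e0000007f0000001e0000001c00000004 6 7) 0 0 (step_sound _ 130 [(rha03f6e28ea70fc7d.shift 1 3), (rhcbc656813b97618d.shift 1 0), (rhe356df07f45cace4.shift 0 1)] (by decide +kernel))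
noncomputable def rhcf5f866e7b489c1d : CRef := CRef.mk (Pat.mk 0x800000018000000080000000800000000 0x800000018000000ff000000ff000001f4 6 9) 0 0 (step_sound _ 36 [(rh55afc6a59410cf00.shift 3 0), rh5e90906c2624423f] (by decide +kernel))
noncomputable def rh5f69a497f709e552 : CRef := CRef.mk (Pat.mk 0x1000000018000000080000000800000000 0x80000000c0000002c000000ff0000001f000000380000001f00000014 6 8) 0 0 (step_sound _ 131 [(rh47d11d87cdd3fa9f.shift 2 0), rh507db46e9434e319, rhc9a8c524b5efcba1, (rhcb5b9f48a2219b5b.shift 2 0), (rhd72a5b150c8b03c9.shift 2 0), rhe5626b02dfb177b9] (by decide +kernel))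
noncomputable def rh95c81810d636917f : CRef := CRef.mk (Pat.mk 0x5800000018000000080000000000000000 0x100000001000000058000000ff000000ff0000002000000020 6 8) 0 0 (step_sound _ 164 [rh19f2f681cd245645, (rh5c5e593799055d58.shift 3 2)] (by decide +kernel))
noncomputable def rh56c9baa36ab09160 : CRef := CRef.mk (Pat.mk 0x180000001c000000000000000000000000 0x2000000020000000f0000001f0000007c000000060000000400000004 6 7) 0 0 (step_sound _ 130 [(rh79b3c29022acbdf3.shift 1 3), (rh92e8f86a47ca4f2b.shift 1 0), (rhaed54c24fb91f24a.shift 0 1)] (by decide +kernel))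
noncomputable def rh2312434e44e5b961 : CRef := CRef.mk (Pat.mk 0x20000001e000000020000000000000000 0x50000000700000007000000060000001e000000360000000600000006 6 6) 0 0 (step_sound _ 68 [rhd01417a01441fe52, (rhe25b0a99195a5d59.shift 1 2)] (by decide +kernel))
noncomputable def rh6414c79d6ead5a18 : CRef := CRef.mk (Pat.mk 0x1e0000001800000000000000000000000000000000 0x40000000e0000000f0000001e0000001c0000001f0000001e0000001c00000004 6 5) 0 0 (step_sound _ 99 [(rh40241bd608e5be1a.shift 2 1), rh7ae1f9353a07d282, (rhfaed4418c4d78e8f.shift 2 1)] (by decide +kernel))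
noncomputable def rh9ae88f54fea485a5 : CRef := CRef.mk (Pat.mk 0x1e0000001800000000000000000000000000000000 0x40000000c0000000c0000001e0000001e0000001f0000001e0000001c00000004 6 5) 0 0 (step_sound _ 99 [rh182addaf81ba7b3f, (rh40241bd608e5be1a.shift 2 1), (rhfaed4418c4d78e8f.shift 2 1)] (by decide +kernel))
noncomputable def rh66d2ed7e8ebe25cc : CRef := CRef.mk (Pat.mk 0x20000001600000000000000000000000000000000 0x400000006000000070000001e00000007000000070000000700000005 6 5) 0 0 (step_sound _ 131 [(rh3244c3cc8379b070.shift 0 4), rh76ed7ba3604996d3] (by decide +kernel))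
noncomputable def rh739a6cbfe00eb5b0 : CRef := CRef.mk (Pat.mk 0x38000000600000000000000000 0x10000000140000003e000000f80000007f0000002c0000002c 6 8) 0 0 (step_sound _ 132 [rh7494a966108a2ece, (rh7e1098702e50f2b0.shift 4 0), (rha40d42a2e34c408d.shift 4 0), rhf80faa1cb13ec8f9] (by decide +kernel))
noncomputable def rhf39575bda9df0b8c : CRef := CRef.mk (Pat.mk 0xe000000180000000000000000 0x14000000370000003e0000001b0000000a0000000a 6 6) 0 0 (step_sound _ 100 [(rh34b1188e635efc8d.shift 1 0), rhefd858cfdc5d2964] (by decide +kernel))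
noncomputable def rh5103baf333faad50 : CRef := CRef.mk (Pat.mk 0x70000000c00000000000000000000000000000000 0x80000000e0000000e0000003e000000070000000e0000000c0000000e0000000e00000002 6 6) 0 0 (step_sound _ 194 [(rh3b4b705d6ba065ca.shift 0 3), (rh70e33bfdf511e144.shift 2 1), rh9ee6018d0d2e705d, (rhba0434bb1647dc1b.shift 1 3)] (by decide +kernel))
noncomputable def rh785c611ce272e601 : CRef := CRef.mk (Pat.mk 0xe00000018000000000000000000000000 0x6000000770000003e0000001f000000070000000700000002 6 7) 0 0 (step_sound _ 132 [(rh32af6e600e16eab8.shift 0 1), rh38944da09e6b0442, (rhafa8ad03fb07c74b.shift 0 1), (rhb18e6c78a554867d.shift 0 4), (rhee89d0112810b2f3.shift 0 3)] (by decide +kernel))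
noncomputable def rha1974aa184079869 : CRef := CRef.mk (Pat.mk 0x80000000800000018000000000000000000000000 0x3000000034000000f60000007f0000003f000000180000001c0000001c00000014 6 8) 0 0 (step_sound _ 164 [rh120fc0761fc81873, (rhb559255abd77a7a5.shift 0 1), (rhb730ba14aa32bdb3.shift 3 2), (rhfa40f754f1f7b88f.shift 2 0)] (by decide +kernel))
noncomputable def rhd8e928d17c966d76 : CRef := CRef.mk (Pat.mk 0x800000058000000080000000000000000 0x1000000018000000780000000f0000003c0000001c 6 7) 0 0 (step_sound _ 66 [(rh361cc68994bd8a63.shift 2 2), rhda9f60062a89665d] (by decide +kernel))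
noncomputable def rh0fb242845b9fd8cd : CRef := CRef.mk (Pat.mk 0x8000000580000000000000000 0x10000000370000003f0000007f0000000800000008 6 7) 0 0 (step_sound _ 98 [(rh2fe78cc5ca4405d8.shift 2 2), rhb2bf094424323841] (by decide +kernel))
noncomputable def rhe5667d22d341345b : CRef := CRef.mk (Pat.mk 0x1e0000001200000000000000000000000000000000 0x50000000700000007000000030000001e0000001e00000007000000070000000700000004 6 5) 0 0 (step_sound _ 193 [(rh3244c3cc8379b070.shift 0 5), rh9187755d978ec37b] (by decide +kernel))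
noncomputable def rh542cdf433fb387a0 : CRef := CRef.mk (Pat.mk 0x180000000c000000000000000000000000 0x10000000380000001f0000003f000000380000001800000010 6 6) 0 0 (step_sound _ 97 [(rh53b3c253cb0c65f4.shift 0 3), rhd0feeeb39fe22936] (by decide +kernel))
noncomputable def rhb1641c9a4af53652 : CRef := CRef.mk (Pat.mk 0x180000000e000000000000000000000000 0xa0000000f0000001f0000003e0000000f0000000400000004 6 6) 0 0 (step_sound _ 66 [rh44724f5fd0856700, (rha1a6059e5313f78c.shift 0 2), (rhcf80391c5046a495.shift 2 0), (rhf91b1398c815afd2.shift 2 0)] (by decide +kernel))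
noncomputable def rh4b3eb4ea56e8de4f : CRef := CRef.mk (Pat.mk 0x180000000c000000000000000000000000 0x140000001c0000001c0000001c0000000f0000003c0000001c0000001c 6 6) 0 0 (step_sound _ 97 [(rh53b3c253cb0c65f4.shift 0 3), (rh858a69db64b38bff.shift 1 0)] (by decide +kernel))
noncomputable def rh400fe7f8d2e41d6d : CRef := CRef.mk (Pat.mk 0x180000000e0000000000000000 0x13000000330000001f0000003e0000007f0000000c 6 7) 0 0 (step_sound _ 68 [(rh0edd3afef6b5d7e0.shift 0 1), rh1c4b79caee7ffced, rhc978c825f9f262c3] (by decide +kernel))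
noncomputable def rh47a84af05d02f40e : CRef := CRef.mk (Pat.mk 0x80000005800000008 0x10000000370000003f0000007f00000008 6 7) 0 0 (step_sound _ 66 [(rh2fe78cc5ca4405d8.shift 2 1), rh7a9774d1ea87f620] (by decide +kernel))
noncomputable def rhbdbef1a6ac7db326 : CRef := CRef.mk (Pat.mk 0x180000000e000000000000000000000000 0xa0000001b0000003e000000370000001400000014 6 6) 0 0 (step_sound _ 100 [rh2395824d1086e2bc, (rhbbe16ff26f7822db.shift 1 0)] (by decide +kernel))
noncomputable def rh82869b52a26ab671 : CRef := CRef.mk (Pat.mk 0x58000000080000000000000000 0x1000000010000000380000007f000000fc0000000800000008 6 8) 0 0 (step_sound _ 101 [rh3a9effb0bebe0c1f, (rheb0810cc63b001d8.shift 2 2)] (by decide +kernel))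
noncomputable def rhde737f7f8f55a1ca : CRef := CRef.mk (Pat.mk 0x180000000e0000000000000000 0x3000000030000001f000000fe0000007700000004 6 8) 0 0 (step_sound _ 68 [(rh0edd3afef6b5d7e0.shift 0 1), rh1c4b79caee7ffced, (rh76c4edc656936505.shift 1 1), (rhc5b6c3e7bb45db36.shift 0 1)] (by decide +kernel))
noncomputable def rh2484f24c7ee9076c : CRef := CRef.mk (Pat.mk 0xc0000000700000000000000000000000000000000 0x20000000e0000000e0000000c0000000e000000070000003e0000000e0000000e0000000a 6 6) 0 0 (step_sound _ 98 [rh44f1b19374335971, (rh483977ec4c7a5d44.shift 1 1), (rh4a6f9d53d0edabe6.shift 1 0), (rh829b371331e614be.shift 0 2), (rh953e410617738e80.shift 1 0)] (by decide +kernel))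
noncomputable def rh837bdd8cab609910 : CRef := CRef.mk (Pat.mk 0x600000006000000000000000000000000 0xc0000000c0000000e00000006000000070000003e0000000e00000004 6 6) 0 0 (step_sound _ 66 [(rh0e389d2c03d1e0b4.shift 0 1), (rh3cb04db3dd2b6a55.shift 1 0)] (by decide +kernel))
noncomputable def rh846855b873f756b3 : CRef := CRef.mk (Pat.mk 0x5800000018000000000000000000000000 0x10000000100000005f000000ff000001f00000002000000020 6 9) 0 0 (step_sound _ 101 [(rh2b1cd7a189b9f4a9.shift 2 0), rh30b12604329aefc7, (rh79b3c29022acbdf3.shift 2 3)] (by decide +kernel))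
noncomputable def rh6a1ca90060bec6a6 : CRef := CRef.mk (Pat.mk 0x20000000b00000001000000010000000000000000000000000 0x4000000070000000f8000003f0000001fc000001ef0000006000000020 6 10) 0 0 (step_sound _ 101 [(rh046c5eb18e55a239.shift 4 0), (rh05736d6acff2422e.shift 0 2), (rhb5bd433ae6cabafe.shift 2 1), (rhb7183240a10da5f3.shift 3 1)] (by decide +kernel))
noncomputable def rh31a3b3867a46dcf6 : CRef := CRef.mk (Pat.mk 0x20000001e00000010000000000000000000000000 0x600000006000000060000001f0000001e0000000f0000000f00000008 6 5) 0 0 (step_sound _ 99 [rha605764772ef473a, (rhb739f4f82bb681b4.shift 0 3)] (by decide +kernel))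
noncomputable def rh21689802c8759ec7 : CRef := CRef.mk (Pat.mk 0xe00000018000000000000000000000000 0x7f0000003e0000001f000000330000003200000012 6 7) 0 0 (step_sound _ 132 [rh38944da09e6b0442, rh9c72649774b912d5, (rhb18e6c78a554867d.shift 0 4), (rhee89d0112810b2f3.shift 0 3)] (by decide +kernel))
noncomputable def rh574b49da0a8832ff : CRef := CRef.mk (Pat.mk 0x800000008000000180000000800000000 0x140000001f000000380000001c000000f800000030 6 8) 0 0 (step_sound _ 36 [rh12ee68f5352939dd, (rh55afc6a59410cf00.shift 3 0)] (by decide +kernel))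
noncomputable def rhb9baa4006ed4cc5e : CRef := CRef.mk (Pat.mk 0x200000002000000060000000200000000000000000000000000000000 0x10000000300000002000000060000000600000007000000070000000700000004 6 3) 0 0 (step_sound _ 224 [(rh50fbb5868c909700.shift 0 4), rhe501f2514eb92025] (by decide +kernel))
noncomputable def rh6c26a367b78953bd : CRef := CRef.mk (Pat.mk 0x800000008000000080000001800000000 0x1c0000003c0000000f000000180000001800000008 6 6) 0 0 (step_sound _ 68 [(rh2145e1d24b96a57e.shift 3 1), rh900a894640be090c] (by decide +kernel))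
noncomputable def rh490c883018d2a71a : CRef := CRef.mk (Pat.mk 0x20000001e00000002000000000000000000000000 0x50000000700000007000000060000001e0000003e000000070000000300000002 6 6) 0 0 (step_sound _ 100 [(rhe25b0a99195a5d59.shift 1 3), rhf52ee8312a34cd21] (by decide +kernel))
noncomputable def rh400e041d3723923d : CRef := CRef.mk (Pat.mk 0x20000001e0000000200000000000000000000000000000000 0x600000006000000060000001e0000003e00000003000000070000000700000004 6 6) 0 0 (step_sound _ 132 [rh41fb069a9b145d52, (rhe25b0a99195a5d59.shift 1 4)] (by decide +kernel))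
noncomputable def rhcfee09ccf9d73b95 : CRef := CRef.mk (Pat.mk 0x180000000e000000000000000000000000 0x3000000030000000320000001b0000003e0000007f0000001c0000001c 6 7) 0 0 (step_sound _ 100 [(rh0edd3afef6b5d7e0.shift 0 2), (rh16ffcf79af18348f.shift 1 0), rh2395824d1086e2bc] (by decide +kernel))
noncomputable def rhb91ed2d2b6c64330 : CRef := CRef.mk (Pat.mk 0xbc00000000 0x7000000ff0000003b 6 8) 0 0 (step_sound _ 65 [rh03c35bfefac618e4, (rh3f8766e6ecb455ce.shift 1 1)] (by decide +kernel))
noncomputable def rh881e706ab513296f : CRef := CRef.mk (Pat.mk 0x3c000000080000000000000000 0x10000000370000003f000000180000000800000008 6 6) 0 0 (step_sound _ 129 [(rh3f8766e6ecb455ce.shift 1 3), rh9d523999c859b635] (by decide +kernel))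
noncomputable def rh3165231415d2a230 : CRef := CRef.mk (Pat.mk 0x1e00000002000000000000000000000000 0x400000006000000070000001e00000036000000070000000700000005 6 6) 0 0 (step_sound _ 161 [(rh3244c3cc8379b070.shift 0 4), rhb4c64d65c9e208f3] (by decide +kernel))
noncomputable def rh2a6c5e5ee9c5293c : CRef := CRef.mk (Pat.mk 0x38000000000000000000000000 0x4000000770000007e0000000f0000000800000008 6 7) 0 0 (step_sound _ 98 [(rh2cc7d62e70c02209.shift 0 2), (rh61325f73ebf98108.shift 0 3), (rh7654d7b92c96fe12.shift 0 2), (rhafa5a7051d37b143.shift 1 0)] (by decide +kernel))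
noncomputable def rh30832f75d4e3cd9b : CRef := CRef.mk (Pat.mk 0x7c00000000 0x3c0000007f000000c7 6 8) 0 0 (step_sound _ 1 [(rh80fcd6d0a18cb2dd.shift 1 0), rhc78293a107d406a3] (by decide +kernel))
noncomputable def rhf74337aca719633a : CRef := CRef.mk (Pat.mk 0x7c00000000 0x3c0000007f00000037 6 7) 0 0 (step_sound _ 1 [(rh80fcd6d0a18cb2dd.shift 1 0), rhde6e174d8d21da38] (by decide +kernel))
noncomputable def rh122e729f50a4419c : CRef := CRef.mk (Pat.mk 0x38000000000000000000000000 0x4000000770000007e0000006f0000000800000008 6 7) 0 0 (step_sound _ 98 [(rh2cc7d62e70c02209.shift 0 2), (rhafa5a7051d37b143.shift 1 0), (rhc37ac25399000c0e.shift 0 2), (rhd75855c0840bf9dc.shift 0 2)] (by decide +kernel))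
noncomputable def rh8d06c9fbda639dbf : CRef := CRef.mk (Pat.mk 0x1000000018000000080000000800000000 0x80000000c0000006c0000003f0000001f0000001c000000f800000030 6 8) 0 0 (step_sound _ 131 [rh2bd5622fc710d2dc, (rh65a3a4cf67baf828.shift 2 0), (rh933f3ac7d57d09d8.shift 2 1), (rhf9b7d1c72024a10a.shift 0 1)] (by decide +kernel))
noncomputable def rh882b96073bf67ad4 : CRef := CRef.mk (Pat.mk 0x18000000180000000800000000 0x80000001800000018000000180000007c0000001f00000004 6 7) 0 0 (step_sound _ 132 [(rh5c5e593799055d58.shift 3 1), rh727ca9a0fb85b171] (by decide +kernel))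
noncomputable def rh4530fce5c078217f : CRef := CRef.mk (Pat.mk 0x1800000018000000000000000000000000 0x80000001f000000ff000000e70000000400000004 6 8) 0 0 (step_sound _ 101 [(rh79b3c29022acbdf3.shift 2 3), (rha8960136e287c8e2.shift 0 2), rhff00a37c088eb8b8] (by decide +kernel))
noncomputable def rh4533680960cdc42a : CRef := CRef.mk (Pat.mk 0x4000000060000000200000000 0xe0000000e0000000e000000070000003e0000000c 6 6) 0 0 (step_sound _ 130 [(rh5c5e593799055d58.shift 1 1), rhbc6768bf1ed3529b] (by decide +kernel))
noncomputable def rha9bd15d87b14fb2d : CRef := CRef.mk (Pat.mk 0x100000001800000008000000080000000000000000 0xc0000002c0000003f0000001f000000ff000000ff0000002400000020 6 8) 0 0 (step_sound _ 100 [(rh0b0a3553a4c4768f.shift 0 1), rh4f74172d2dc96fd8, (rh727ca9a0fb85b171.shift 0 1), (rh9d1c3304f402138e.shift 0 2), (rhf2d75c0e8e62038c.shift 0 1)] (by decide +kernel))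
noncomputable def rhbc9835aeb94742c8 : CRef := CRef.mk (Pat.mk 0x1c000000080000000800000000 0x80000001c0000001f0000001f0000001c0000001c0000000c00000004 6 5) 0 0 (step_sound _ 131 [(rh0fd870c734e6c513.shift 2 0), (rh2f767d906d07892b.shift 2 0), rh3ef0442e17deb1ad, (rh58bd7dc9a1c45763.shift 2 0), (rh9d8f1a558a05bf73.shift 2 1)] (by decide +kernel))
noncomputable def rh9b15adb43db90ef3 : CRef := CRef.mk (Pat.mk 0x800000018000000080000000800000000 0x740000003f0000001f000000180000001800000010 6 7) 0 0 (step_sound _ 132 [rh2bd5622fc710d2dc, (rh2f68792b6b779e96.shift 3 1)] (by decide +kernel))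
noncomputable def rhf7880a5cdbb75294 : CRef := CRef.mk (Pat.mk 0x800000018000000180000000000000000 0x34000000370000003f0000001f000000f80000003000000010 6 8) 0 0 (step_sound _ 132 [(rh31744790bdf5cc7c.shift 3 0), rh6007db7baa6ad637, (rhf7ac44032989c9ef.shift 2 1)] (by decide +kernel))
noncomputable def rhfaba64372fe17cf2 : CRef := CRef.mk (Pat.mk 0x3000000038000000000000000000000000 0x3c0000003c0000007f0000003e000000380000006c0000006c0000006c 6 7) 0 0 (step_sound _ 131 [(rh1b0aa4285b0c792f.shift 1 0), rh8fbf6d3b4c127e0b, (rhaed54c24fb91f24a.shift 1 1)] (by decide +kernel))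
noncomputable def rhaae047f9cc0c0a8f : CRef := CRef.mk (Pat.mk 0x20000001e00000002000000000000000000000000 0x400000006000000360000001e00000006000000070000000700000005 6 6) 0 0 (step_sound _ 164 [(rh33e738c4ed385b9f.shift 1 4), rh6b6742b0b99cf85c] (by decide +kernel))
noncomputable def rh4eeb74570f5664d9 : CRef := CRef.mk (Pat.mk 0x180000001e000000000000000000000000 0xc0000000e0000001f0000001e0000001e0000000c0000000c0000000c 6 5) 0 0 (step_sound _ 163 [(rh37d9ceebb86d75d1.shift 2 2), rhdc3767e53610907b, (rhf7c77fe48087fd5b.shift 2 0)] (by decide +kernel))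
noncomputable def rhc2b07f7811352ddf : CRef := CRef.mk (Pat.mk 0x7800000000 0xe70000007f0000003c 6 8) 0 0 (step_sound _ 3 [rh1240db73173a1a78, (rheb0810cc63b001d8.shift 2 0)] (by decide +kernel))
noncomputable def rh0cf7772802442cf0 : CRef := CRef.mk (Pat.mk 0x1e000000020000000000000000 0x50000000700000007000000070000001e000000060000000600000006 6 5) 0 0 (step_sound _ 129 [(rh3244c3cc8379b070.shift 0 3), rh70bea581c679e3ad] (by decide +kernel))
noncomputable def rh54f584e217584008 : CRef := CRef.mk (Pat.mk 0x300000001c000000000000000000000000 0x16000000160000003e0000007c0000001f0000000a00000008 6 7) 0 0 (step_sound _ 67 [(rhb1a3ecf5ced5d620.shift 0 1), (rhcf80391c5046a495.shift 3 0), (rhf91b1398c815afd2.shift 3 0)] (by decide +kernel))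
noncomputable def rh4f65beabb10132b6 : CRef := CRef.mk (Pat.mk 0x180000000c000000000000000000000000 0x800000008000000180000003f0000007f0000001400000014 6 7) 0 0 (step_sound _ 97 [(rh53b3c253cb0c65f4.shift 0 3), rh89c85f8a96a31d63] (by decide +kernel))
noncomputable def rh37195c40d203aa80 : CRef := CRef.mk (Pat.mk 0x180000000e0000000000000000 0x3000000030000001f0000003e0000007700000004 6 7) 0 0 (step_sound _ 68 [(rh0edd3afef6b5d7e0.shift 0 1), (rh3947d1dfff0afc6c.shift 0 1), rh3f38de6b95fe6c30, (rh56f43794bcf10c2f.shift 0 1)] (by decide +kernel))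
noncomputable def rh49e2592b3188b776 : CRef := CRef.mk (Pat.mk 0x20000000600000002000000000000000000000000 0x400000006000000060000000600000006000000070000000700000005 6 3) 0 0 (step_sound _ 65 [(rh12461e137161f2e1.shift 0 1), rh3181373a30ceb9e3, (rha707fb719e87fe6e.shift 1 1)] (by decide +kernel))
noncomputable def rhe411f36be3a84bad : CRef := CRef.mk (Pat.mk 0x5800000008000000000000000000000000 0x80000007f0000003f000000370000001000000010 6 7) 0 0 (step_sound _ 98 [(rh361cc68994bd8a63.shift 2 3), rhbc6b0db242cc80f1] (by decide +kernel))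
noncomputable def rh325d892a968e0e2b : CRef := CRef.mk (Pat.mk 0x180000000e0000000000000000 0x30000000300000001f0000003e0000007f00000008 6 7) 0 0 (step_sound _ 68 [(rh0edd3afef6b5d7e0.shift 0 1), rh3305cfcf3cde5cd2, (rh3947d1dfff0afc6c.shift 0 1), (rh56f43794bcf10c2f.shift 0 1)] (by decide +kernel))
noncomputable def rhe8a23bc89e7ea0da : CRef := CRef.mk (Pat.mk 0x800000018000000080000000800000000 0x30000000780000001e000000380000001f00000014 6 7) 0 0 (step_sound _ 132 [(rh2f68792b6b779e96.shift 3 1), rh507db46e9434e319] (by decide +kernel))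
noncomputable def rh7fb268fa9e89f435 : CRef := CRef.mk (Pat.mk 0x200000006000000020000000200000000 0x40000000700000007000000070000000600000006000000020000000300000001 6 3) 0 0 (step_sound _ 32 [rh932754581e0f4330, (rhf83cf15f19111834.shift 0 1)] (by decide +kernel))
noncomputable def rh73de17cad525770e : CRef := CRef.mk (Pat.mk 0x800000058000000000000000000000000 0x800000008000000fc0000007f000000380000001000000010 6 8) 0 0 (step_sound _ 101 [(rh3244c3cc8379b070.shift 2 3), rh7c03c6ac32870275] (by decide +kernel))
noncomputable def rh72611fa9e995eed1 : CRef := CRef.mk (Pat.mk 0xe00000018000000000000000000000000 0x180000001c0000003f0000003e0000001b000000320000003200000030 6 6) 0 0 (step_sound _ 132 [(rh24e5068e31ff08b5.shift 1 0), (rhefd858cfdc5d2964.shift 0 1)] (by decide +kernel))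
noncomputable def rhc6012a74234f861f : CRef := CRef.mk (Pat.mk 0x80000000c0000000c000000000000000000000000 0x140000003c0000000f0000000c0000000c0000000c0000000c 6 6) 0 0 (step_sound _ 67 [(rh3cb04db3dd2b6a55.shift 2 0), (rhbdf73b26f73f8159.shift 2 0), (rhe499d382a3a4d134.shift 0 1)] (by decide +kernel))
noncomputable def rh7ac1b2b2096c8b5c : CRef := CRef.mk (Pat.mk 0x18000000580000000000000000 0x2000000020000000f0000000ff0000005f0000001000000010 6 8) 0 0 (step_sound _ 101 [(rh49d174405348244d.shift 2 0), (rh4dc133ee0ba1420a.shift 1 2), rh7d6a3df37e3824be] (by decide +kernel))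
noncomputable def rhd4a3481ed938a12a : CRef := CRef.mk (Pat.mk 0x1800000018000000000000000000000000 0xc0000000c0000000f0000007c00000018000000180000001800000018 6 7) 0 0 (step_sound _ 163 [(rh55a1f6c57a317ce6.shift 3 1), rhc1934da05fab57f4, (rhf887170c3e2c5651.shift 0 2)] (by decide +kernel))
noncomputable def rha1ec8d15d647b0be : CRef := CRef.mk (Pat.mk 0x1000000010000000b00000002000000000 0x2000000060000001ef000001fc000001f0000000f80000007000000040 6 9) 0 0 (step_sound _ 133 [(rh0a570523157a4710.shift 0 1), (rha9b2f8f9ac1d6b9e.shift 2 1), (rhb730ba14aa32bdb3.shift 4 1), (rhf5118be9d3e38b2f.shift 3 0)] (by decide +kernel))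
noncomputable def rh911541b6e774bf98 : CRef := CRef.mk (Pat.mk 0x20000001e00000002000000000000000000000000 0x1000000070000003e0000001e00000006000000070000000700000005 6 6) 0 0 (step_sound _ 164 [rh26e467c6094a77d6, (rh33e738c4ed385b9f.shift 1 4)] (by decide +kernel))
noncomputable def rhd31ed41dfa468d9b : CRef := CRef.mk (Pat.mk 0x20000001e000000020000000000000000 0x40000000700000007000000030000003e0000001e000000060000000600000006 6 6) 0 0 (step_sound _ 132 [(rh33e738c4ed385b9f.shift 1 3), rh3e91f777b3c5c59c] (by decide +kernel))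
noncomputable def rh3aa84f42145e5008 : CRef := CRef.mk (Pat.mk 0x8000000180000000c000000000000000000000000 0x1000000018000000180000001f0000007c0000001c00000014 6 7) 0 0 (step_sound _ 67 [(rh8cdd36b03d57a2f6.shift 2 0), (rha707fb719e87fe6e.shift 3 1), (rheab2d2e2cb553993.shift 0 1)] (by decide +kernel))
noncomputable def rhe6dc3580dec276dd : CRef := CRef.mk (Pat.mk 0xbc00000000 0x3f000000ff00000060 6 8) 0 0 (step_sound _ 5 [(rh5b3c5ef7bbfbaadf.shift 0 1), (rhe25b0a99195a5d59.shift 2 0)] (by decide +kernel))
noncomputable def rhd4f5a6d414edb96b : CRef := CRef.mk (Pat.mk 0xbc00000000 0x38000000ff00000067 6 8) 0 0 (step_sound _ 1 [rh22d0a184a5809a60, (rh80fcd6d0a18cb2dd.shift 1 0)] (by decide +kernel))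
noncomputable def rh3c59aadbdbb915b0 : CRef := CRef.mk (Pat.mk 0x7800000004 0x770000007e000000c6 6 8) 0 0 (step_sound _ 6 [rh8fcf2ee879e273f8, (rhe25b0a99195a5d59.shift 3 0)] (by decide +kernel))
noncomputable def rh14bbb4eb8e00f9af : CRef := CRef.mk (Pat.mk 0x7c000000020000000000000000 0x80000001c0000007f000000330000001000000010 6 7) 0 0 (step_sound _ 97 [rh2bd12bd0a937d1af, (rheb0810cc63b001d8.shift 0 2)] (by decide +kernel))
noncomputable def rhaf31ce36e5389fc7 : CRef := CRef.mk (Pat.mk 0x3800000000 0xf70000007e0000006f 6 8) 0 0 (step_sound _ 34 [rh2cc7d62e70c02209, (rha29d7998c3ed7ea4.shift 1 0), rhd75855c0840bf9dc] (by decide +kernel))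
noncomputable def rhc392f467a8e1c401 : CRef := CRef.mk (Pat.mk 0x1e000000020000000000000000 0x50000000700000007000000370000001e000000060000000600000006 6 6) 0 0 (step_sound _ 129 [(rh3244c3cc8379b070.shift 0 3), rh9daa884125d639e8] (by decide +kernel))
noncomputable def rh8bf0b92c16974768 : CRef := CRef.mk (Pat.mk 0x3800000000 0xef0000007e0000006f 6 8) 0 0 (step_sound _ 34 [rh2cc7d62e70c02209, (rha29d7998c3ed7ea4.shift 1 0), (rhb9b9ce08a9b9cf77.shift 1 0)] (by decide +kernel))
noncomputable def rha4d0430f397afbf2 : CRef := CRef.mk (Pat.mk 0x38000000000000000000000000 0x4000000070000007e0000007f0000000800000008 6 7) 0 0 (step_sound _ 98 [(rh2ba551de881ca4cd.shift 0 2), (rh2cc7d62e70c02209.shift 0 2), (rh8195a2d7794c7cd2.shift 0 2), (rhafa5a7051d37b143.shift 1 0)] (by decide +kernel))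
noncomputable def rhb336eb95515c974f : CRef := CRef.mk (Pat.mk 0x5c00000000 0xe70000007f0000003c 6 8) 0 0 (step_sound _ 37 [(rh9890f9d77740bbed.shift 2 1), rhab0e37b52f061b7c] (by decide +kernel))
noncomputable def rh14bc62eb1774a1a1 : CRef := CRef.mk (Pat.mk 0x8000000080000001800000010000000000000000000000000 0x30000000780000001e0000001f0000003f0000006c0000000c0000000c 6 7) 0 0 (step_sound _ 99 [(rh5db541dd5138ce50.shift 2 0), (rhb91ee4edcc676136.shift 0 2), (rhd65b950e17d04dd6.shift 1 2), (rhf5e15cdcea0762c2.shift 2 0), rhfb3ed2f7dfde7274] (by decide +kernel))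
noncomputable def rh68cf099a547325bd : CRef := CRef.mk (Pat.mk 0xc0000000c000000000000000000000000 0x180000001e0000001f0000003c0000000c0000001c0000001c00000018 6 6) 0 0 (step_sound _ 163 [(rh1e309b005ffa1b36.shift 2 1), (rh56928d1b8674ed26.shift 2 0), (rh6cd649d652e06885.shift 0 1)] (by decide +kernel))
noncomputable def rhff270b7eb791c09b : CRef := CRef.mk (Pat.mk 0xc0000000c000000000000000000000000 0x180000001c0000003c0000000f0000000c0000001c0000001c0000001c 6 6) 0 0 (step_sound _ 163 [(rh1e309b005ffa1b36.shift 2 1), (rh56928d1b8674ed26.shift 2 0), rh7c1bdb80a3fb96e2] (by decide +kernel))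
noncomputable def rh25c610fc230ca45b : CRef := CRef.mk (Pat.mk 0x800000008000000180000000000000000 0xc0000000c0000000f0000007c0000001c0000000c00000004 6 7) 0 0 (step_sound _ 163 [(rh6aa5625770489e83.shift 2 0), (rh6cfc4bad07afb8e9.shift 0 1), (rh7b60db5db6f7d331.shift 2 1)] (by decide +kernel))
noncomputable def rhffb0efdf098eb4ac : CRef := CRef.mk (Pat.mk 0x100000001000000038000000000000000000000000 0x40000001e0000007f0000003e0000000f0000000c00000004 6 7) 0 0 (step_sound _ 98 [(rh2cc7d62e70c02209.shift 0 2), (rhec46bd5500c722c9.shift 1 3), (rhed148ebc08553f6a.shift 1 0)] (by decide +kernel))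
noncomputable def rh32cd3a28f900b7ed : CRef := CRef.mk (Pat.mk 0x8000000080000001c000000000000000000000000 0x40000000c0000001c0000001c0000001f0000001f0000001c 6 5) 0 0 (step_sound _ 67 [(rh1ec68f40b6e4da58.shift 2 0), (rh2b0da36e29333de2.shift 2 0), (rh3dbfc0f10ead0729.shift 0 1), (rh8cdd36b03d57a2f6.shift 2 0)] (by decide +kernel))
noncomputable def rh1fcc52160d751f5c : CRef := CRef.mk (Pat.mk 0x800000008000000080000000800000000 0xf4000000ff000001ff000000080000000c00000004 6 9) 0 0 (step_sound _ 132 [(rh2f68792b6b779e96.shift 3 1), rhfcfe407d15f4d8bc] (by decide +kernel))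
noncomputable def rh0282ac12fd2cc9a7 : CRef := CRef.mk (Pat.mk 0x800000008000000180000000800000000 0x1000000018000000180000001f0000003f00000074 6 7) 0 0 (step_sound _ 36 [(rh55afc6a59410cf00.shift 3 0), rhcecc2531c7e0d7c1] (by decide +kernel))
noncomputable def rh654e310ed8caaa69 : CRef := CRef.mk (Pat.mk 0x6000000060000000400000000 0xe0000000e0000003f0000003e000000070000000c00000008 6 6) 0 0 (step_sound _ 130 [(rh34cad8b38627e761.shift 0 1), (rh3e03b24069e6320e.shift 1 0), (rh7f9f3607ee25a93b.shift 1 1)] (by decide +kernel))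
noncomputable def rhc346f6166b499d11 : CRef := CRef.mk (Pat.mk 0xc0000000c000000000000000000000000 0x1c0000001c0000003c0000000f0000000c000000180000001800000018 6 6) 0 0 (step_sound _ 67 [(rh3cb04db3dd2b6a55.shift 2 0), (rh72f6d536a45d5f74.shift 0 1), (rhafe37d5adc3b334b.shift 2 0)] (by decide +kernel))
noncomputable def rh94508695a7c071e8 : CRef := CRef.mk (Pat.mk 0x800000018000000580000000000000000 0x2000000020000000ff000000ff000000580000001000000010 6 8) 0 0 (step_sound _ 36 [(rh7b1f1fb55310c477.shift 3 0), (rhf94c26c4747f4dc5.shift 0 1)] (by decide +kernel))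
noncomputable def rh7213e738fef5eebf : CRef := CRef.mk (Pat.mk 0x800000008000000180000000800000000 0x140000003c0000000f0000001f0000003f00000016 6 6) 0 0 (step_sound _ 130 [(rh50fbb5868c909700.shift 2 1), rh7b808c690f0c0a21] (by decide +kernel))
noncomputable def rh01396faf0b77e38c : CRef := CRef.mk (Pat.mk 0x1c00000018000000000000000000000000 0x4000000060000007c0000001f0000000f0000000a00000002 6 7) 0 0 (step_sound _ 98 [(rh073589708c2d81a3.shift 1 1), (rhab2ad169e49f9c5e.shift 0 3), rhad48fcc809438143] (by decide +kernel))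
noncomputable def rh3122dbb9f9ca3ee8 : CRef := CRef.mk (Pat.mk 0x180000001800000008000000000000000000000000 0x1000000030000000780000001f0000003f000000370000003400000004 6 7) 0 0 (step_sound _ 100 [(rh5475f300f61ba577.shift 3 1), rh56dd07b585470416, (rha31e2286f1ebea1b.shift 1 1)] (by decide +kernel))
noncomputable def rh86a6fa891963f742 : CRef := CRef.mk (Pat.mk 0x3800000030000000000000000000000000 0x6c0000006c0000006c000000380000003e0000007f0000007c0000003c 6 7) 0 0 (step_sound _ 99 [rh5d9170a57ecde6c9, (rhad48fcc809438143.shift 1 0), (rhd76d8903aff295b4.shift 1 0)] (by decide +kernel))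
noncomputable def rhbe9230fccb3b396f : CRef := CRef.mk (Pat.mk 0x18000000180000000000000000 0x4000000e7000000ff0000001f0000000800000008 6 8) 0 0 (step_sound _ 101 [(rh4dc133ee0ba1420a.shift 1 2), rh5b7bf26d9fd76ab6, (rhd35ecca85946c7b5.shift 0 2)] (by decide +kernel))
noncomputable def rhf17e1f4880135738 : CRef := CRef.mk (Pat.mk 0x1e00000012000000000000000000000000 0x1c0000001c0000003e0000001e0000001e0000000f0000000e00000006 6 6) 0 0 (step_sound _ 99 [(rh34b1188e635efc8d.shift 1 1), rhba06ed6fca6de712, (rhc351de4b4b7aea8e.shift 0 1)] (by decide +kernel))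
noncomputable def rh0bf7397451d5ea0e : CRef := CRef.mk (Pat.mk 0x200000016000000000000000000000000 0x1000000070000000700000007000000070000001e000000070000000600000006 6 5) 0 0 (step_sound _ 99 [(rh3244c3cc8379b070.shift 0 3), rh33930b07695aec11] (by decide +kernel))
noncomputable def rh6938fe5126085500 : CRef := CRef.mk (Pat.mk 0x20000001e0000000200000000000000000000000000000000 0x200000012000000320000001e0000003e0000000f0000000f0000000700000005 6 6) 0 0 (step_sound _ 132 [rh4f47baca4dbec3e3, (rhe25b0a99195a5d59.shift 1 4)] (by decide +kernel))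
noncomputable def rh98c8e6b71fcdd860 : CRef := CRef.mk (Pat.mk 0x90000000f0000000000000000 0x1c0000001e0000000f0000000f0000001c00000004 6 5) 0 0 (step_sound _ 35 [(rhe25b0a99195a5d59.shift 0 1), rhea7c18ace0512dd1] (by decide +kernel))
noncomputable def rhf51e71dade4f66c4 : CRef := CRef.mk (Pat.mk 0x20000001e000000020000000000000000 0x14000000360000001e0000003e0000000b0000000b 6 6) 0 0 (step_sound _ 132 [(rh33e738c4ed385b9f.shift 1 3), rhaa62ff1779c61f6f] (by decide +kernel))
noncomputable def rh93f3372adc2d35e4 : CRef := CRef.mk (Pat.mk 0x100000001e0000001000000000 0x380000003c0000001f0000001e0000001800000008 6 6) 0 0 (step_sound _ 97 [(rh3244c3cc8379b070.shift 0 2), (rhea7c18ace0512dd1.shift 1 0)] (by decide +kernel))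
noncomputable def rh1c0862d42effbcd6 : CRef := CRef.mk (Pat.mk 0x4000000040000000c0000000400000000 0xa0000000f0000003c0000000e0000007c00000018 6 7) 0 0 (step_sound _ 35 [(rh55afc6a59410cf00.shift 2 0), rhdf55791ced91357f] (by decide +kernel))
noncomputable def rh9fb749cdb42de644 : CRef := CRef.mk (Pat.mk 0x8000000080000001800000010000000000000000000000000 0x30000000780000001e0000001f000000ff0000002c0000000c0000000c 6 8) 0 0 (step_sound _ 99 [(rh22fa1117f605cb3f.shift 2 2), (rh2597a5b721912a63.shift 1 2), (rh5db541dd5138ce50.shift 2 0), (rh69e20f42df147d70.shift 0 1), (rhf5e15cdcea0762c2.shift 2 0)] (by decide +kernel))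
noncomputable def rh41e6f36901355778 : CRef := CRef.mk (Pat.mk 0x800000008000000180000001000000000 0x1400000014000001f7000000fe000000ff0000001e000000f800000020 6 9) 0 0 (step_sound _ 132 [(rh423d2fc50cedcfc3.shift 1 0), (rhb730ba14aa32bdb3.shift 3 1), (rhb7abec131b6f5b7f.shift 0 1), (rhe5279eb8d40f52fb.shift 0 1)] (by decide +kernel))
noncomputable def rh8d79d1175f725649 : CRef := CRef.mk (Pat.mk 0x8000000080000001800000010000000000000000000000000 0x140000001e000000780000001f000000ff0000002c0000000c00000008 6 8) 0 0 (step_sound _ 99 [(rh1bd0c14c4de1ef4d.shift 1 2), (rh69e20f42df147d70.shift 0 1), (rhdf55791ced91357f.shift 1 2), (rhf5e15cdcea0762c2.shift 2 0)] (by decide +kernel))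
noncomputable def rh06b92bdb86659035 : CRef := CRef.mk (Pat.mk 0x180000001c0000000000000000 0x2000000020000000770000007f0000001c0000001000000010 6 7) 0 0 (step_sound _ 101 [(rh18965a982d73c794.shift 2 2), rh1d18fc6dfa02cc53] (by decide +kernel))
noncomputable def rhdad49e6784f7d3ae : CRef := CRef.mk (Pat.mk 0x18000000580000000000000000 0x2000000024000000e7000000ff0000005f0000004800000008 6 8) 0 0 (step_sound _ 101 [(rh4dc133ee0ba1420a.shift 1 2), rh5b7bf26d9fd76ab6, (rh60e793e539983c24.shift 2 1)] (by decide +kernel))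
noncomputable def rhcdc02c5c10629e7b : CRef := CRef.mk (Pat.mk 0x100000001e000000000000000000000000 0x3000000070000001f0000001e000000070000000600000002 6 5) 0 0 (step_sound _ 65 [rh9c3e2adb59507ec9, (rheb0810cc63b001d8.shift 0 2)] (by decide +kernel))
noncomputable def rh54e0662fb9305a7e : CRef := CRef.mk (Pat.mk 0x80000000b000000080000000000000000 0x100000001c0000001e0000000b0000000e0000007c00000014 6 7) 0 0 (step_sound _ 35 [(rh1904b52b42aee148.shift 1 0), (rh55a026e6f690bbaf.shift 2 0), (rha78afc937ca94db4.shift 0 1)] (by decide +kernel))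
noncomputable def rh42ea88b2b80ec68b : CRef := CRef.mk (Pat.mk 0x200000002c000000200000000000000000 0x40000000700000007c0000002f0000007c0000006800000040 6 7) 0 0 (step_sound _ 132 [(rh351e2f84a5c68d7e.shift 2 1), (rh5417bbcf6dc2c3fa.shift 4 0), (rhbd2e91c3fdbfa961.shift 0 3), rhe39c53d5658d2c68] (by decide +kernel))
noncomputable def rh9956cd993d0ebd09 : CRef := CRef.mk (Pat.mk 0x80000000b000000080000000000000000 0x100000001c0000001e0000000b000000380000001f00000014 6 6) 0 0 (step_sound _ 35 [(rh12461e137161f2e1.shift 2 0), (rha78afc937ca94db4.shift 0 1), rhb20dd801f506db0f] (by decide +kernel))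
noncomputable def rhb25fd356f6dd0ce8 : CRef := CRef.mk (Pat.mk 0x200000002c00000020000000000000000000000000 0x40000001c0000007c0000002f0000007e0000007e0000001c00000014 6 7) 0 0 (step_sound _ 99 [(rh1e92fa1688a0fa2d.shift 1 0), (rh8c25cb665ab79ec0.shift 0 3), rhbacc8ceb5105d6bd, rhfaa36835fe5bf956] (by decide +kernel))
noncomputable def rhbebb47e40f1ecb13 : CRef := CRef.mk (Pat.mk 0x200000002c00000020000000000000000000000000 0x40000003c0000007c0000002f0000007c0000001c0000001c00000014 6 7) 0 0 (step_sound _ 99 [(rh1be1a998e9fc0473.shift 2 0), (rh8c25cb665ab79ec0.shift 0 3), rhb5e3b77d88ebb18d] (by decide +kernel))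
noncomputable def rh68ded2c3172fd249 : CRef := CRef.mk (Pat.mk 0x200000002c00000020000000000000000000000000 0x40000000740000007c0000002f0000007c000000f80000005800000010 6 8) 0 0 (step_sound _ 69 [(rh12461e137161f2e1.shift 4 1), rh5ae08a89ad16d113, (rha78afc937ca94db4.shift 2 2)] (by decide +kernel))
noncomputable def rh92c9964ff269ac07 : CRef := CRef.mk (Pat.mk 0x4000000040000000600000000 0xa0000000e0000000f0000003c000000060000000600000004 6 6) 0 0 (step_sound _ 130 [rh1bd0c14c4de1ef4d, (rh7adda3dfe9451016.shift 1 1), (rh9a369cb82ea472da.shift 1 1), (rha54302d5ccf5246c.shift 1 1)] (by decide +kernel))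
noncomputable def rhd1bde215b329a7c3 : CRef := CRef.mk (Pat.mk 0x8000000080000000800000000 0x14000000140000007c0000001f000000780000000800000008 6 7) 0 0 (step_sound _ 132 [(rh15dcc863be0132cc.shift 2 0), rh22d86f446f3de558, (rh5890386c1f942fa1.shift 3 1), (rh87d5e4118780fa3b.shift 3 0), rhba347e0d6180832a] (by decide +kernel))
noncomputable def rh43c2242f331384fd : CRef := CRef.mk (Pat.mk 0x380000002800000000000000000000000000000000 0x140000001c0000001f000000380000003c0000001e0000001c0000001c00000014 6 6) 0 0 (step_sound _ 99 [(rh020a5117575b5020.shift 0 2), (rh7f36f639160ea2c8.shift 3 2), (rhc03cff2a3b597cd9.shift 2 1), (rhffb8e5993241bf15.shift 2 0)] (by decide +kernel))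
noncomputable def rh882b7ecf29713997 : CRef := CRef.mk (Pat.mk 0x40000001400000004000000000000000000000000 0xa0000003e00000037000000040000000e0000000e0000000a 6 6) 0 0 (step_sound _ 66 [(rh0c1c1b53bc5a1510.shift 1 0), (rh1d90b59f780b588e.shift 0 2), (rh3181373a30ceb9e3.shift 1 0), (rhcae87bda2c3c01d2.shift 1 0)] (by decide +kernel))
noncomputable def rh58e7186b32c9b43b : CRef := CRef.mk (Pat.mk 0x8000000080000000a000000080000000000000000 0x800000018000000180000001c0000000c0000000f000000180000001800000010 6 5) 0 0 (step_sound _ 196 [rh0267a59131e5b0ff, (rhbaefcd01e0a8bca3.shift 3 2)] (by decide +kernel))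
noncomputable def rh206747fbdc57191c : CRef := CRef.mk (Pat.mk 0x80000000b00000008000000000000000000000000 0x8000000ef0000007e000000ee0000000400000004 6 8) 0 0 (step_sound _ 100 [rh42b4b1f70a40af50, (rhc10214bf3fe8094a.shift 0 3)] (by decide +kernel))
noncomputable def rh2b09721ada6c1144 : CRef := CRef.mk (Pat.mk 0x200000002c000000200000000000000000 0x1000000010000000180000003c0000003f000000280000003800000010 6 6) 0 0 (step_sound _ 132 [rh0b045608cfe425df, (rh7401e8cf466f4e5b.shift 0 3), (rhb031eb9cafb4b897.shift 0 1), (rhf9a6286f1d5377a2.shift 4 1)] (by decide +kernel))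
noncomputable def rhd7a7f9035f49103e : CRef := CRef.mk (Pat.mk 0x200000002c0000002000000000000000000000000000000000 0x140000001c0000003c0000002f0000007e0000007e0000001c0000001c00000014 6 7) 0 0 (step_sound _ 131 [(rh1e92fa1688a0fa2d.shift 1 1), (rh5e2baed208bfe225.shift 1 0), (rh8c25cb665ab79ec0.shift 0 4), (rhbacc8ceb5105d6bd.shift 0 1)] (by decide +kernel))
noncomputable def rhf2d47fc8a7270d1b : CRef := CRef.mk (Pat.mk 0x280000002800000008000000000000000000000000 0x44000000440000006e0000007c0000002f0000007c000000f80000001000000010 6 8) 0 0 (step_sound _ 194 [(rh0dbc8abee7ad42d4.shift 2 2), rh23198d40b0d0e9f8, (rh3cc7a495b667248d.shift 1 2), (rh46b23caea9da4ad7.shift 2 1), (rhbab796f6dafe9186.shift 2 3)] (by decide +kernel))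
noncomputable def rh0cc5d3bc4e75682d : CRef := CRef.mk (Pat.mk 0x140000001400000004000000000000000000000000 0x2000000060000001600000014000000160000001f0000003e0000000a00000008 6 6) 0 0 (step_sound _ 67 [(rh2d0605d02b4834b4.shift 2 0), (rh3ae32833f6db8739.shift 2 0), (rhb6e11cfc959c8a3c.shift 0 1), (rhe3b05a7bd5ea0632.shift 1 2)] (by decide +kernel))
noncomputable def rh7e900f7300b279ab : CRef := CRef.mk (Pat.mk 0x28000000080000000800000000 0x40000000c0000000f0000007c0000000e0000007c00000014 6 7) 0 0 (step_sound _ 131 [(rh1904b52b42aee148.shift 1 0), rh2059d5709eedf008, (rh565a0c22519f57e9.shift 2 0)] (by decide +kernel))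
noncomputable def rhfba7b668b7e71334 : CRef := CRef.mk (Pat.mk 0x680000002800000000000000000000000000000000 0x540000007c0000007c000000680000002f0000007c000000fc0000005400000010 6 8) 0 0 (step_sound _ 99 [rh1f9030f13ae76ff9, (rh31c08fc223b4ad72.shift 2 1), (rh61f98e0342be62ca.shift 2 1), (rh935652b7f34bc50f.shift 2 2), (rhcc2d5de9fe49a7fc.shift 2 1), (rhd903efb2e95aaa1e.shift 2 1)] (by decide +kernel))
noncomputable def rh2b138d2ae49cf7d6 : CRef := CRef.mk (Pat.mk 0x2800000028000000080000000000000000 0x10000000140000007c0000007e0000003c0000002f0000007c000000f400000050 6 8) 0 0 (step_sound _ 164 [(rh04ff14ccb3eb0c5e.shift 3 2), (rh1a83e0c648dae7ce.shift 2 1), rh305e2adac1dc1b8b, rh7801260c3fcc52c9] (by decide +kernel))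
noncomputable def rh7a83ebe5a5f29be3 : CRef := CRef.mk (Pat.mk 0x20000000200000002000000000000000000000000 0x500000007000000070000000300000002000000070000000700000005 6 3) 0 0 (step_sound _ 65 [rh0c1c1b53bc5a1510, rh3181373a30ceb9e3, (rh762a1aeaf83c662a.shift 0 1), rhcae87bda2c3c01d2] (by decide +kernel))
noncomputable def rh27df81f1f1550515 : CRef := CRef.mk (Pat.mk 0x80000002800000008000000000000000000000000 0x40000000f0000007c000000080000001c0000001c00000014 6 7) 0 0 (step_sound _ 67 [(rh0c1c1b53bc5a1510.shift 2 0), (rh3181373a30ceb9e3.shift 2 0), (rh3190167e459b66bb.shift 0 1), (rhcae87bda2c3c01d2.shift 2 0)] (by decide +kernel))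
noncomputable def rhd1ecf8febc2edf21 : CRef := CRef.mk (Pat.mk 0x80000000a000000000000000000000000 0x140000001c0000001c0000001c0000007c0000000f0000001e0000001c00000014 6 7) 0 0 (step_sound _ 163 [rh1b142d6be47ea6d5, (rh38b09ef385272d31.shift 2 0), (rh8b37cb65627f8d57.shift 2 0), rh8d8a44daa1ec6018, (rhae2e2e50f5e6b353.shift 0 2), (rhdee67538b8dccf39.shift 2 0)] (by decide +kernel))
noncomputable def rhda758e8f9d301ee9 : CRef := CRef.mk (Pat.mk 0x1400000014000000040000000000000000 0xa0000000e0000001e0000001c000000170000003e0000007a00000020 6 7) 0 0 (step_sound _ 162 [(rh0fd870c734e6c513.shift 1 1), (rh20966da26a1c2ae8.shift 1 1), (rhc17b7d8fab3dfe57.shift 1 1), rhcb6ed17c1c9c9af5] (by decide +kernel))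
noncomputable def rh2c177a4f21ea4f35 : CRef := CRef.mk (Pat.mk 0x1600000014000000000000000000000000 0x1600000016000000160000003c0000001f0000000e00000008 6 6) 0 0 (step_sound _ 99 [rh88ae5303e8c6a7ec, (rhf48373e13d2bc128.shift 1 3)] (by decide +kernel))
noncomputable def rh8836d5ad16324666 : CRef := CRef.mk (Pat.mk 0x80000000a0000000800000000 0x140000001c0000001c000000080000001f0000007800000010 6 7) 0 0 (step_sound _ 131 [(rh29dd5384d80ecb1e.shift 2 0), rh312d8ad87b97ae17, rhc486ae0fcc44be52, (rhc85cc95794737cf7.shift 2 1)] (by decide +kernel))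
noncomputable def rh7ed5266f7cc4c3aa : CRef := CRef.mk (Pat.mk 0x280000002800000020000000000000000000000000 0x240000002f0000007f0000003f0000001e0000001c00000014 6 7) 0 0 (step_sound _ 99 [rh4ffd1be13f1f8a3b, (rh7b78c6d1e2477a34.shift 1 0), (rh7d9c87addcb89777.shift 1 0), rh9cfa3da173bf06e5, (rhbdfba23297321f80.shift 1 0), rhc8c04a3eb62a6e73, (rhf8fe0e537258690c.shift 1 0)] (by decide +kernel))
noncomputable def rh9e2a774455c8bdfa : CRef := CRef.mk (Pat.mk 0x100000001400000014000000000000000000000000 0x200000003000000030000000170000003f000000380000003800000028 6 6) 0 0 (step_sound _ 68 [(rh312d8ad87b97ae17.shift 1 1), (rh3181373a30ceb9e3.shift 3 0), (rh86e0e1c05d62c696.shift 0 1)] (by decide +kernel))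
noncomputable def rh5c402d8d4036bb32 : CRef := CRef.mk (Pat.mk 0x800000008000000080000000000000000 0x40000001c0000001c0000003c0000000f0000000c0000001c0000001800000018 6 6) 0 0 (step_sound _ 163 [(rh1d02867ed80f91bc.shift 2 1), (rh5ee4dc8825dcefa0.shift 0 1), (rh6e45e27f08a88cc3.shift 2 0), (rhc17b7d8fab3dfe57.shift 2 1), (rhcae87bda2c3c01d2.shift 2 0)] (by decide +kernel))
noncomputable def rh830f72cb6e2b7c11 : CRef := CRef.mk (Pat.mk 0x2800000020000000000000000000000000 0x500000007000000070000000f70000003e000001f7000000700000007000000050 6 9) 0 0 (step_sound _ 132 [(rh31daeb9c98e8a40c.shift 0 1), (rh3918eeb6c53434d8.shift 0 3), (rhb018a7c71ce35183.shift 3 0), (rhc21a95c499b3efdb.shift 2 3)] (by decide +kernel))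
noncomputable def rh39e01e376d2c12de : CRef := CRef.mk (Pat.mk 0x28000000380000000000000000 0x6000000060000003e0000003e0000007f00000008 6 7) 0 0 (step_sound _ 66 [(rh008b05f4778dc30d.shift 0 1), (rh2ebbcfe90e0f250d.shift 1 1), (rh43715a9a1b5d459f.shift 1 0)] (by decide +kernel))
noncomputable def rh3bb51c4c55e2f392 : CRef := CRef.mk (Pat.mk 0x2800000038000000000000000000000000 0x10000003b8000001fe000003f70000002000000020 6 10) 0 0 (step_sound _ 98 [(rh008b05f4778dc30d.shift 0 2), (rh2591032a0e7f4182.shift 0 2), (rh2ebbcfe90e0f250d.shift 1 2), (rh80cf23db140f7233.shift 2 0)] (by decide +kernel))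
noncomputable def rhc958445dd58677d0 : CRef := CRef.mk (Pat.mk 0x280000002c0000000000000000 0x6000000060000003e0000003e0000007f00000008 6 7) 0 0 (step_sound _ 68 [(rh008b05f4778dc30d.shift 0 1), (rh2ebbcfe90e0f250d.shift 1 1), (rh43715a9a1b5d459f.shift 1 0)] (by decide +kernel))
noncomputable def rhd1e8817f0e675fee : CRef := CRef.mk (Pat.mk 0x800000028000000280000000000000000 0x140000001c0000001c0000007c0000002f0000007c0000002800000008 6 7) 0 0 (step_sound _ 98 [(rh8c25cb665ab79ec0.shift 0 2), rhbcb2a9407659e3e4, (rhd74849b00ff1cee4.shift 2 0)] (by decide +kernel))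
noncomputable def rh4159ecc9ed59f1c5 : CRef := CRef.mk (Pat.mk 0x8000000280000002800000000000000000000000000000000 0x140000001c0000005c000000780000002f0000003e00000077000000740000005400000040 6 7) 0 0 (step_sound _ 130 [(rh32431e66bbf434a4.shift 2 3), (rhaf5b8d1057d4a0f3.shift 0 1), (rhe2f3f827d59cc8c1.shift 1 0), (rhfafeb437ceb8396d.shift 2 1)] (by decide +kernel))
noncomputable def rh4a661448d0c73217 : CRef := CRef.mk (Pat.mk 0x1e000000100000000000000000 0x30000000340000003f0000001e0000001b0000000a00000002 6 6) 0 0 (step_sound _ 132 [rh2b6bee775441e2ac, (rh33e738c4ed385b9f.shift 1 3)] (by decide +kernel))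
noncomputable def rh5977f23ebe7c603c : CRef := CRef.mk (Pat.mk 0xc000000280000000000000000000000000000000000000000 0x140000001c0000003c0000000f000000780000001f0000001c0000001c0000001c00000010 6 7) 0 0 (step_sound _ 131 [(rh0ffd795144266a6c.shift 0 1), (rh369225b5d41e1569.shift 2 2), (rh75e158ceab9afbd9.shift 2 3), (rhc16ff4a493cc8cf5.shift 0 3), (rhe417840bc2acfc23.shift 2 0)] (by decide +kernel))
noncomputable def rh6553d5894ddef919 : CRef := CRef.mk (Pat.mk 0xc0000000800000000000000000000000000000000 0x140000001c0000003c0000000f0000000c0000001c0000001c0000001c00000014 6 6) 0 0 (step_sound _ 99 [(rh369225b5d41e1569.shift 2 1), (rh406bfc4f631a2f4f.shift 2 0), (rh7b24c4ccc068b0b2.shift 2 2), (rhea71692cb648c96d.shift 0 2), (rhf9a6286f1d5377a2.shift 2 2)] (by decide +kernel))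
noncomputable def rhe6992f6959d37082 : CRef := CRef.mk (Pat.mk 0x280000003800000000000000000000000000000000 0x140000001c0000001e0000003f000000380000003f0000003c0000003c0000001c 6 6) 0 0 (step_sound _ 99 [(rh136da48a6dbd44d0.shift 0 2), rh3c4ab2804f1f5ce1, (rh5cfd0624f409392c.shift 1 1), rh69dfafc8162c56c8, (rhd11b5cc53827411c.shift 1 1)] (by decide +kernel))
noncomputable def rh93362321e4d6ade0 : CRef := CRef.mk (Pat.mk 0x5000000058000000000000000000000000 0x100000003e0000007f0000007f000000380000001800000010 6 7) 0 0 (step_sound _ 131 [(rh26fad6f28aba9fb5.shift 0 1), rh897d573130d49112, (rhee8e4698f5c5baf4.shift 0 1)] (by decide +kernel))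
noncomputable def rhca2175c3774d17e1 : CRef := CRef.mk (Pat.mk 0x5000000058000000000000000000000000 0x80000002c0000007f0000007e000000f70000005000000040 6 8) 0 0 (step_sound _ 101 [(rh2ebbcfe90e0f250d.shift 2 2), (rh7fb660bc21ce4329.shift 1 3), (rh9241cc058486cc88.shift 0 2), (rhfd0d5dfa741eea06.shift 2 0)] (by decide +kernel))
noncomputable def rh07da1bd474d6d9e1 : CRef := CRef.mk (Pat.mk 0x140000001c00000000000000000000000000000000 0xc0000000c0000001c000000ff000001df0000000e0000000e00000006 6 9) 0 0 (step_sound _ 99 [rh208e23c45702650b, (rh726c931d6c323733.shift 0 1), (rhade0f4c81793f68e.shift 2 1), (rhbe707112c53dab40.shift 2 1)] (by decide +kernel))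
noncomputable def rhfd37b7c5b2492a0d : CRef := CRef.mk (Pat.mk 0x2800000038000000000000000000000000 0x140000001c0000001c00000028000000fc000000ff000000d400000050 6 8) 0 0 (step_sound _ 67 [(rh136da48a6dbd44d0.shift 0 1), (rh2820ca9a6c4f41b4.shift 0 2), (rhe68c43c2407ca6f0.shift 2 0), (rhf0f55c4504412200.shift 0 2)] (by decide +kernel))
noncomputable def rha76d7641a1e1636a : CRef := CRef.mk (Pat.mk 0x1000000070000000000000000000000000 0x1000000017000001fe000003ff0000000800000008 6 10) 0 0 (step_sound _ 99 [(rh7c4bbb87c968a67c.shift 1 2), (rh8db7f7558b75b2b1.shift 2 2), (rh9241cc058486cc88.shift 0 2), (rhce12f85975fbaead.shift 2 0)] (by decide +kernel))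
noncomputable def rhf1f0dc16bbe02ffb : CRef := CRef.mk (Pat.mk 0x80000000a00000008000000080000000000000000 0x800000018000000180000000f0000000c0000001c0000001800000018 6 5) 0 0 (step_sound _ 164 [rh2df71e899982e6aa, (rh2f68792b6b779e96.shift 3 2)] (by decide +kernel))
noncomputable def rh540efb366f923a10 : CRef := CRef.mk (Pat.mk 0x80000000a00000008000000000000000000000000 0x140000001e0000000f000000080000001c0000001c00000014 6 5) 0 0 (step_sound _ 67 [(rh14b2a9aeb9e37c73.shift 0 1), (rh46baee19951a66e7.shift 2 0), (rh8cdd36b03d57a2f6.shift 2 0)] (by decide +kernel))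
noncomputable def rh6145f857d3713672 : CRef := CRef.mk (Pat.mk 0x8000000080000000a00000008 0x140000003f0000007f0000000b00000008 6 7) 0 0 (step_sound _ 100 [(rh2f68792b6b779e96.shift 3 0), rh31e63ec8f15b2dba] (by decide +kernel))
noncomputable def rh7b0a6cf7d368463d : CRef := CRef.mk (Pat.mk 0x280000003800000000000000000000000000000000 0x5000000078000000780000002f0000003c000001f8000000700000005000000040 6 9) 0 0 (step_sound _ 101 [(rh0aea810a1a2d0444.shift 3 1), (rh5a8abb721f11b584.shift 2 0), (rh79dc35826e629e92.shift 0 2), (rhc21a95c499b3efdb.shift 2 3)] (by decide +kernel))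
noncomputable def rhebb8b91f47b209c8 : CRef := CRef.mk (Pat.mk 0x2800000068000000000000000000000000 0x54000000fc0000007c0000002f000000680000007c0000007c00000054 6 8) 0 0 (step_sound _ 163 [(rh30585081fb74c5a8.shift 2 0), rh65b04519e93422b5, (rh8838f10d399c2b5a.shift 2 1), (rha2ead9223fc6d248.shift 2 0), rhbb8e8d454f508234, (rhc6ee2247187d751e.shift 2 0)] (by decide +kernel))
noncomputable def rh469abf79b25d45f7 : CRef := CRef.mk (Pat.mk 0x8000000080000002800000000 0x40000001c0000003c0000000f0000000e0000007c0000000c 6 7) 0 0 (step_sound _ 131 [(rh0fd870c734e6c513.shift 2 0), rh5ee4dc8825dcefa0, (rh64d324585ca865ad.shift 1 0)] (by decide +kernel))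
noncomputable def rh7af6bba3d796d3d3 : CRef := CRef.mk (Pat.mk 0x4000000040000001400000000 0x20000000e0000000f0000003c000000070000003e00000006 6 6) 0 0 (step_sound _ 130 [(rh0fd870c734e6c513.shift 1 0), rh1bd0c14c4de1ef4d, rh64d324585ca865ad] (by decide +kernel))
noncomputable def rh1fca7b8e23d06a47 : CRef := CRef.mk (Pat.mk 0x8000000280000002800000000000000000000000000000000 0x40000002c0000007c0000002f0000007c0000006c0000005c0000005c00000010 6 7) 0 0 (step_sound _ 162 [(rh495df8d261ec72c8.shift 2 0), (rh6d9be37e846df60d.shift 0 1), (rh8c25cb665ab79ec0.shift 0 4)] (by decide +kernel))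
noncomputable def rh1a35f4a3e1c2c6c9 : CRef := CRef.mk (Pat.mk 0x80000002800000028000000000000000000000000 0x50000000780000007c0000002f0000007c0000006e0000004400000044 6 7) 0 0 (step_sound _ 66 [(rh3743dbe66b959104.shift 2 0), (rh544d3caba1e1e2bb.shift 2 0), (rh692d6d31ac739cab.shift 1 2), (rhb01ac4982a11ea27.shift 2 0), rhba002723c790042e] (by decide +kernel))
noncomputable def rh254273d70525c19e : CRef := CRef.mk (Pat.mk 0x8000000280000002800000000 0x4000000540000007e0000007f0000002c0000002800000028 6 7) 0 0 (step_sound _ 130 [(rh0dbc8abee7ad42d4.shift 2 0), rh8d2cd766aba2c838, (rhbab796f6dafe9186.shift 2 1), (rhbec796c3ea7a32e6.shift 1 0)] (by decide +kernel))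
noncomputable def rhc6218f48542f6008 : CRef := CRef.mk (Pat.mk 0x80000002800000028000000000000000000000000 0x140000003c0000007c0000002f0000007c000000680000004800000040 6 7) 0 0 (step_sound _ 130 [(rh8c25cb665ab79ec0.shift 0 3), (rhc7dab9daa0b080bc.shift 2 0), (rheeaae5fe538c6f4e.shift 0 2)] (by decide +kernel))
noncomputable def rhe8797bf0970a5e4c : CRef := CRef.mk (Pat.mk 0x4000000140000001400000000 0x20000002e0000003f0000007e000000170000003e00000012 6 7) 0 0 (step_sound _ 130 [(rh0fd870c734e6c513.shift 1 0), rh64d324585ca865ad, rh8830d6e5bb9cc2ee, rhe8a9da99cb351580] (by decide +kernel))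
noncomputable def rhc0bf3bb9b6ad2a96 : CRef := CRef.mk (Pat.mk 0x500000005000000010000000000000000000000000 0x50000000500000007f000000fe000001ef000000a8000000a8 6 9) 0 0 (step_sound _ 101 [(rh7c239bee1895c077.shift 4 0), rhd0097fc41668edf9, (rhe79f6f2decb02631.shift 3 0), (rhf888686ded5effa4.shift 4 0)] (by decide +kernel))
noncomputable def rhb29211f7721382f2 : CRef := CRef.mk (Pat.mk 0xa0000000a00000002000000000000000000000000 0x140000001c0000001e0000000a0000001f0000007e0000003e0000001400000014 6 7) 0 0 (step_sound _ 99 [rh0092c88cb1cbef18, (rh1c365c76821ab000.shift 1 1), (rh968da411be743cad.shift 0 2), rhba111a450e2cdcf3] (by decide +kernel))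
noncomputable def rh23250cc6efcdb6fa : CRef := CRef.mk (Pat.mk 0x100000001e00000010000000000000000000000000 0x20000000380000001f0000001e00000018000000380000003800000028 6 6) 0 0 (step_sound _ 161 [(rh3244c3cc8379b070.shift 0 4), (rhe5171f5ec52f9e89.shift 1 0)] (by decide +kernel))
noncomputable def rh0a5790205a4238af : CRef := CRef.mk (Pat.mk 0x18000000080000000800000000 0x8000000180000001800000018000000180000003c000000ff00000034 6 8) 0 0 (step_sound _ 131 [(rh12461e137161f2e1.shift 2 0), (rh55a026e6f690bbaf.shift 2 0), (rh8c5d8550c48c21f3.shift 2 0), rh9b45786b9da7cdb6, (rhabedd109a9a37101.shift 2 0), (rhe786c96212407073.shift 2 0)] (by decide +kernel))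
noncomputable def rh7277509bb2af1e88 : CRef := CRef.mk (Pat.mk 0x8000000080000000c0000000400000000 0x400000004000000060000001f0000007e0000000f0000007c00000010 6 7) 0 0 (step_sound _ 130 [(rh6ffcb84429904f53.shift 0 1), (rhab1d70f87bdc4aa6.shift 1 0), (rhf9a6286f1d5377a2.shift 2 1)] (by decide +kernel))
noncomputable def rhcea81e62409682fe : CRef := CRef.mk (Pat.mk 0x80000000c000000040000000000000000 0x40000000e0000001f0000003c0000000f0000007e0000001a00000018 6 7) 0 0 (step_sound _ 163 [rh1f1e653349ed4a10, (rh5c5e593799055d58.shift 2 2)] (by decide +kernel))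
noncomputable def rh6a8b98e3c730bb0d : CRef := CRef.mk (Pat.mk 0x800000008000000180000000800000000 0x8000000080000001f000000ff000000f4 6 8) 0 0 (step_sound _ 34 [(rh932754581e0f4330.shift 2 0), rhe835ed81138fa0e0] (by decide +kernel))
noncomputable def rh052fd0a29d70a53b : CRef := CRef.mk (Pat.mk 0x800000018000000080000000000000000 0x40000001c0000003c0000001f0000001c0000000c0000000c00000004 6 6) 0 0 (step_sound _ 163 [(rh0fd870c734e6c513.shift 2 1), (rh367118e0bf0473e0.shift 2 0), (rh900a894640be090c.shift 0 1)] (by decide +kernel))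
noncomputable def rh94a557b71bd523f6 : CRef := CRef.mk (Pat.mk 0xc0000000c000000080000000000000000 0x80000000c0000000f0000007c0000001800000018 6 7) 0 0 (step_sound _ 35 [(rh7b1f1fb55310c477.shift 2 0), rhedf6a18f6f88178e] (by decide +kernel))
noncomputable def rhfc05fb343203d907 : CRef := CRef.mk (Pat.mk 0x1800000018000000100000000000000000 0x1000000010000000180000001c000000fc0000002f0000000c 6 8) 0 0 (step_sound _ 67 [(rhea7a1800d6f053bd.shift 3 0), rhf556bc1b2b6776a3, (rhf7ac44032989c9ef.shift 2 1)] (by decide +kernel))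
noncomputable def rh71105dd06a36be4b : CRef := CRef.mk (Pat.mk 0x80000001800000018000000000000000000000000 0x800000018000000ff000000ff0000001400000004 6 8) 0 0 (step_sound _ 68 [(rh7b1f1fb55310c477.shift 3 1), rhf9113b572c78fba9] (by decide +kernel))
noncomputable def rh4187c3e1238ff7ea : CRef := CRef.mk (Pat.mk 0x3000000038000000000000000000000000 0x3c0000003c0000007f0000003e000000380000006c0000006c0000006c 6 7) 0 0 (step_sound _ 131 [rh8fbf6d3b4c127e0b, (rh989ea5dc34865354.shift 1 0), (rhaed54c24fb91f24a.shift 1 1)] (by decide +kernel))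
noncomputable def rh120289715cede6c3 : CRef := CRef.mk (Pat.mk 0x100000001e000000100000000000000000 0x80000003800000038000000300000001f0000001e000000180000001800000018 6 6) 0 0 (step_sound _ 129 [(rh2500a90cc8ef7ac5.shift 1 0), (rh3244c3cc8379b070.shift 0 3)] (by decide +kernel))
noncomputable def rh9e47123a9e989843 : CRef := CRef.mk (Pat.mk 0xf000000010000000000000000 0xc0000001c0000000f0000001f0000001c0000001c 6 5) 0 0 (step_sound _ 67 [rh6e3180f748a73e16, (rhe25b0a99195a5d59.shift 0 2)] (by decide +kernel))
noncomputable def rh35ad06026f54f689 : CRef := CRef.mk (Pat.mk 0xf000000000000000000000000 0x100000001c0000001c0000000c0000001c0000000f0000001c0000000c0000000c 6 5) 0 0 (step_sound _ 131 [(rh33e738c4ed385b9f.shift 0 3), rh8a2913b87a48309c] (by decide +kernel))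
noncomputable def rhda400ba728f057c1 : CRef := CRef.mk (Pat.mk 0x1c00000004000000080000000000000000 0xc0000000c0000001c0000001c0000000f0000007c0000001800000008 6 7) 0 0 (step_sound _ 99 [(rhb0c1e7919d9be92d.shift 2 0), (rhedd5fbd699158c2a.shift 0 1)] (by decide +kernel))
noncomputable def rhecede2ca37ac8ac4 : CRef := CRef.mk (Pat.mk 0x1c00000004000000080000000000000000 0xc0000001c0000007f0000003f0000001800000018 6 7) 0 0 (step_sound _ 99 [(rh3cb04db3dd2b6a55.shift 2 0), rh6542b084897c4505] (by decide +kernel))
noncomputable def rh06019aa0dcfb7d9c : CRef := CRef.mk (Pat.mk 0x3800000008000000100000000000000000 0xc0000003f00000038000000380000001f0000001400000010 6 6) 0 0 (step_sound _ 100 [(rh6f709f4357914b6d.shift 0 1), (rhb0c1e7919d9be92d.shift 3 0)] (by decide +kernel))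
noncomputable def rhcfee91712111a0a6 : CRef := CRef.mk (Pat.mk 0x380000000800000010000000000000000000000000 0x28000000380000003f0000007c000000300000001000000010 6 7) 0 0 (step_sound _ 68 [(rh5a4df29f20c07a62.shift 3 2), (rh94b6e4c0b65a2a0c.shift 3 1), rhd7f0ef4a91c0f8b4, (rhef73737383050ca7.shift 3 1)] (by decide +kernel))
noncomputable def rhca555bf9727ddd0b : CRef := CRef.mk (Pat.mk 0x380000000800000010000000000000000000000000 0x18000000180000003800000038000001ff000000fc000001e60000002000000020 6 9) 0 0 (step_sound _ 101 [(rh09f3b3513bb987a1.shift 1 0), (rh5ba9479dd9ef8e04.shift 1 0), (rh71b76e86293eaaff.shift 0 2), (rhca0cee37b802acd7.shift 1 2), (rhea45e02b54b84628.shift 0 3), (rhf73d24657be753d5.shift 3 2)] (by decide +kernel))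
noncomputable def rh1deff4b43f1abf58 : CRef := CRef.mk (Pat.mk 0x1c00000004000000080000000000000000 0x180000001c0000007f0000003f0000001800000018 6 7) 0 0 (step_sound _ 99 [rh6542b084897c4505, (rhb0c1e7919d9be92d.shift 2 0)] (by decide +kernel))
noncomputable def rha87976bd8ba41998 : CRef := CRef.mk (Pat.mk 0x380000000800000010000000000000000000000000 0x40000000c0000003f00000038000001ef000000fc000001f60000001400000014 6 9) 0 0 (step_sound _ 99 [rh8bd5e2d88f2bcb88, rha17dd1eeece49e7b, (rhb232fadadcf6cde8.shift 0 2), (rhbdb6285aa78658b4.shift 0 2)] (by decide +kernel))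
noncomputable def rh85d74868f876c8b1 : CRef := CRef.mk (Pat.mk 0x1c00000004000000080000000000000000 0xc0000000c0000001c0000001c0000001f000000780000001800000008 6 7) 0 0 (step_sound _ 99 [(rhb0c1e7919d9be92d.shift 2 0), (rhf94a2767e82b8339.shift 0 1)] (by decide +kernel))
noncomputable def rh63bcbd30e03cbe2f : CRef := CRef.mk (Pat.mk 0x1c000000080000000800000000 0x1c0000001f0000001f0000001c0000001c0000000c00000004 6 5) 0 0 (step_sound _ 131 [(rh0fd870c734e6c513.shift 2 0), (rh2f767d906d07892b.shift 2 0), rh3ef0442e17deb1ad, (rh762a1aeaf83c662a.shift 2 0), (rh9d8f1a558a05bf73.shift 2 1)] (by decide +kernel))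
noncomputable def rh1d31a1b8dab85e04 : CRef := CRef.mk (Pat.mk 0x3000000000000000300000000 0x3000000030000000300000003000000070000000700000005 6 3) 0 0 (step_sound _ 129 [rh00d6a6e3c7e3bb40, rh7a5965c44a8225db, rhecb97fed8c7f1286, rhfa0408ebb8844a32] (by decide +kernel))
noncomputable def rhf6e4768d041b5dcf : CRef := CRef.mk (Pat.mk 0x6000000000000000600000000 0x7000000070000000700000006000000060000000600000004 6 3) 0 0 (step_sound _ 129 [rh1d3d5ccf5bd9eaf1, (rh935da622f8ebc962.shift 1 0), (rh95a80f84f48ac358.shift 1 0), (rhb88b2bfcded23270.shift 0 1)] (by decide +kernel))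
noncomputable def rh1c0c76141608b854 : CRef := CRef.mk (Pat.mk 0x30000000000000003000000000000000000000000 0x10000000300000003000000030000000600000007000000070000000700000005 6 3) 0 0 (step_sound _ 129 [rh281c6819542c66e6, (rhb1a251d9bff81766.shift 0 2), (rhdc7484f27f14dc87.shift 0 2), rhe181d564227a886f] (by decide +kernel))
noncomputable def rha62239d0523b71ae : CRef := CRef.mk (Pat.mk 0x1c000000080000000800000000 0x140000001e0000001f0000001c0000000e0000007c00000014 6 7) 0 0 (step_sound _ 131 [(rh0fd870c734e6c513.shift 2 0), (rh55a026e6f690bbaf.shift 2 0), (rhc17b7d8fab3dfe57.shift 2 0), rhe677fc5d1092bc1c] (by decide +kernel))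
noncomputable def rh2f19e12094ca5b1c : CRef := CRef.mk (Pat.mk 0x1c000000000000001800000000 0x1800000018000000180000001c000000f80000003f0000002e 6 8) 0 0 (step_sound _ 132 [(rh00d6a6e3c7e3bb40.shift 3 0), rh477ba152a6fca060, (rh4be0604a6732ae30.shift 1 0), (rhecb97fed8c7f1286.shift 3 0)] (by decide +kernel))
noncomputable def rh7e0307e65361efdb : CRef := CRef.mk (Pat.mk 0x6000000000000000600000000 0x7000000070000000700000006000000060000000700000005 6 3) 0 0 (step_sound _ 129 [(rh935da622f8ebc962.shift 1 0), (rh95a80f84f48ac358.shift 1 0), (rhb88b2bfcded23270.shift 0 1), rhfd3fb47e3e6e201a] (by decide +kernel))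
noncomputable def rh75be60ce59ec0957 : CRef := CRef.mk (Pat.mk 0x700000000000000060000000000000000 0x500000007000000070000000700000002000000070000000700000004 6 3) 0 0 (step_sound _ 97 [(rh261f868a429ae0e3.shift 0 1), rhab92366f0179162d, (rhae1e5503cccffac9.shift 0 1), (rhe8f9550119ab603c.shift 1 0)] (by decide +kernel))
end Crest.Agent.S0047.Helper85.Cert
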