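import Crest.Agent.Lib.S0047.Helper85CertPL5F0
import Crest.Agent.Lib.S0047.Helper85CertPL5F1
import Crest.Agent.Lib.S0047.Helper85CertPL5F2
import Crest.Agent.Lib.S0047.Helper85CertPL5F3
import Crest.Agent.Lib.S0047.Helper85CertPL5F4
import Crest.Agent.Lib.S0047.Helper85CertPL5F5
import Crest.Agent.Lib.S0047.Helper85CertPL5F6
import Crest.Agent.Lib.S0047.Helper85CertPL5F7
import Crest.Agent.Lib.S0047.Helper85CertPL5F8
import Crest.Agent.Lib.S0047.Helper85CertPL5F9
import Crest.Agent.Lib.S0047.Helper85CertPL5F10
import Crest.Agent.Lib.S0047.Helper85CertPL5F11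
import Crest.Agent.Lib.S0047.Helper85CertPL5F12
set_option autoImplicit false
set_option linter.all false
set_option Elab.async false
namespace Crest.Agent.S0047.Helper85.Cert
open Crest.Agent.S0047.Helper85

noncomputable def rh258d1b0c81a2ab6e : CRef := CRef.mk (Pat.mk 0xc000000000000000c000000000000000000000000 0x80000000c0000000c000000380000001f0000007c0000001400000004 6 7) 0 0 (step_sound _ 131 [(rh281c6819542c66e6.shift 2 0), (rh74f054841498f34f.shift 0 1), (rh9b3949a83a0523a7.shift 0 2)] (by decide +kernel))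
noncomputable def rhbec452a410f64515 : CRef := CRef.mk (Pat.mk 0x1c000000080000000800000000 0x40000000e0000000f0000001c0000001e0000007c00000014 6 7) 0 0 (step_sound _ 131 [(rh0fd870c734e6c513.shift 2 0), (rh29dd5384d80ecb1e.shift 2 0), (rhabedd109a9a37101.shift 2 0), rhe677fc5d1092bc1c] (by decide +kernel))
noncomputable def rhe9da1819ce283d81 : CRef := CRef.mk (Pat.mk 0x1c000000080000000800000000 0x1800000018000000180000001c0000003c000000ff00000034 6 8) 0 0 (step_sound _ 131 [(rh12461e137161f2e1.shift 2 0), (rh2f767d906d07892b.shift 2 0), (rh55a026e6f690bbaf.shift 2 0), rh9b45786b9da7cdb6, (rhabedd109a9a37101.shift 2 0), (rhbc7530b195d1e3dc.shift 2 0)] (by decide +kernel))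
noncomputable def rhe156e5af9dd3d8eb : CRef := CRef.mk (Pat.mk 0x380000000000000010000000100000000000000000 0x2800000038000001ef000000fe000001fe0000001000000010 6 9) 0 0 (step_sound _ 99 [rh003c50026a733951, (rh0588d2c7f2cab5e9.shift 3 0), (rh492c6ef99f369941.shift 1 0), (rhaa4c0f9cdfc30c2a.shift 0 2)] (by decide +kernel))
noncomputable def rh678f09cc0e963d5a : CRef := CRef.mk (Pat.mk 0x700000000000000030000000000000000000000000 0x200000006000000070000001fe000003fe000001df000000d000000050 6 10) 0 0 (step_sound _ 133 [rh110670f0a79398f0, (rh9b3949a83a0523a7.shift 2 2), (rha1927b25b3b75ca5.shift 2 1), (rhfafeb437ceb8396d.shift 4 0)] (by decide +kernel))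
noncomputable def rh2a9d0477e7b77383 : CRef := CRef.mk (Pat.mk 0x700000000000000030000000000000000000000000 0x200000002000000030000000700000003f0000007e0000001f0000001800000008 6 7) 0 0 (step_sound _ 132 [rh11f24f8f3ea594e5, (rh15590a39afd9a120.shift 3 0), (rh215e11e099257d75.shift 4 2)] (by decide +kernel))
noncomputable def rh5984b8993b441216 : CRef := CRef.mk (Pat.mk 0x7000000000000000300000000 0x200000007000000070000000700000007000000070000000300000001 6 3) 0 0 (step_sound _ 129 [rh00d6a6e3c7e3bb40, rh6299d1722b6e1507, (rhc481bd2c215c394f.shift 0 1), rhecb97fed8c7f1286] (by decide +kernel))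
noncomputable def rh025ee0162d296298 : CRef := CRef.mk (Pat.mk 0x380000000000000018000000000000000000000000 0x10000000380000003c0000003e00000038000001ff000000fe000001e70000000400000004 6 9) 0 0 (step_sound _ 196 [(rh6935910df20e9e36.shift 2 2), (rh934dbe898941613b.shift 1 2), (rha7c19cbe0494ee24.shift 3 2), (rhc481bd2c215c394f.shift 3 3), (rhd2a5556f8f889ba0.shift 3 2), rhd8822f443cb4eae8, (rhe58da03d70af26b1.shift 0 2)] (by decide +kernel))
noncomputable def rhd2d4cecb8dd2aea2 : CRef := CRef.mk (Pat.mk 0xb0000000000000001800000000 0x1800000018000000b8000000b0000001f7000000fe000001ef 6 9) 0 0 (step_sound _ 37 [(rh3e8ec510d2e3b96c.shift 3 0), rha29d5822d7b96c87, rhe1ab9087383ec344, rhe7826c533c01579e] (by decide +kernel))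
noncomputable def rh6dbfc121746b2dd7 : CRef := CRef.mk (Pat.mk 0x3800000000000000180000000000000000 0x1800000038000001ef000000fe000001ef00000040 6 9) 0 0 (step_sound _ 69 [(rh2e55b16067f66e42.shift 1 0), (rh3ac8e5a358239698.shift 0 1), (rh5d106caabc08bd9b.shift 0 1), (rh6616dea3d4e50958.shift 1 1), (rh8180c371af7b3107.shift 1 1), (rhb5ec004ea5811efc.shift 2 1), (rhe7826c533c01579e.shift 0 1)] (by decide +kernel))
noncomputable def rh23cf1b779d5585a6 : CRef := CRef.mk (Pat.mk 0x7000000000000000300000000000000000 0x100000001000000070000001ff000000fe000001df00000048 6 9) 0 0 (step_sound _ 67 [(rh0bed38e19bc6a190.shift 2 0), (rh297ba229ff1b35d5.shift 2 0), (rh366d89bb85a37258.shift 1 0), (rh386d9c139f00efd9.shift 2 0), (rh518315ac19020dc3.shift 0 1), (rh60c3ee37c3885d14.shift 1 1), (rh90f84fa48e1ba88e.shift 1 0)] (by decide +kernel))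
noncomputable def rhfed72effef4555f4 : CRef := CRef.mk (Pat.mk 0x380000000000000018000000000000000000000000 0x10000000140000003f000000380000002f0000007c000000380000001000000010 6 7) 0 0 (step_sound _ 131 [(rh215e11e099257d75.shift 3 2), (rh70e33bfdf511e144.shift 3 0), (rhb232fadadcf6cde8.shift 0 2), (rhe8f9550119ab603c.shift 3 1), (rhfc4ab0aa94b716ab.shift 0 2)] (by decide +kernel))
noncomputable def rhb0a648bf98aa1d6c : CRef := CRef.mk (Pat.mk 0x380000000000000018000000000000000000000000 0x40000000c0000003f00000038000001ef000000fc000001f60000001400000014 6 9) 0 0 (step_sound _ 131 [rh8bd5e2d88f2bcb88, (rh96fbad571715fd8b.shift 2 2), (rhb232fadadcf6cde8.shift 0 2), (rhbdb6285aa78658b4.shift 0 2)] (by decide +kernel))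
noncomputable def rha1a990d199bb300a : CRef := CRef.mk (Pat.mk 0x380000000000000018000000000000000000000000 0x2800000038000001ef000000fe000001fe0000001000000010 6 9) 0 0 (step_sound _ 68 [rh003c50026a733951, (rh0588d2c7f2cab5e9.shift 3 0), (rh492c6ef99f369941.shift 1 0), (rhaa4c0f9cdfc30c2a.shift 0 2)] (by decide +kernel))
noncomputable def rh43c1d1352a227fa6 : CRef := CRef.mk (Pat.mk 0x300000000000000018000000000000000000000000 0x3000000030000001e7000000fe000001ff0000005000000050 6 9) 0 0 (step_sound _ 101 [(rh061431e2caa178d7.shift 0 2), (rh06744fb13cee60d7.shift 0 2), (rh0789fb5060e9c65e.shift 1 2), (rh2c3b81b1e287dd2c.shift 2 0), (rh510c42660c1ea792.shift 2 0), (rhe7826c533c01579e.shift 0 2)] (by decide +kernel))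
noncomputable def rhf0bf6bb85c295503 : CRef := CRef.mk (Pat.mk 0x380000000000000010000000000000000000000000 0x1c0000001c0000003c000000380000003c000000ff0000003c0000001c0000001c 6 8) 0 0 (step_sound _ 99 [(rh077b493769425a1e.shift 3 2), (rh3df77131b2c4d08a.shift 0 1), (rh488b16ad003e5a09.shift 3 0), (rh83b9ad1122fbd747.shift 3 0), (rh9faaad443b3537a6.shift 2 0), (rh9fb6d5ba96f77917.shift 3 0), (rha8f4c0c7bec1fe1f.shift 3 0)] (by decide +kernel))
noncomputable def rh1786ee35489cceba : CRef := CRef.mk (Pat.mk 0xf0000000900000000000000000000000000000000 0xc0000000c0000001c0000000f0000000f000000180000001c0000001c00000004 6 5) 0 0 (step_sound _ 195 [rh04c36804ef651bcd, (rh33e738c4ed385b9f.shift 0 5)] (by decide +kernel))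
noncomputable def rh41340d6db881d4d7 : CRef := CRef.mk (Pat.mk 0x100000001e0000001000000000000000000000000000000000 0x1800000018000000180000001e0000001f00000030000000380000003800000008 6 6) 0 0 (step_sound _ 129 [(rh04c36804ef651bcd.shift 1 0), (rheb0810cc63b001d8.shift 0 4)] (by decide +kernel))
noncomputable def rh451cf998db78b6e7 : CRef := CRef.mk (Pat.mk 0xf0000000000000000000000000000000000000000 0x40000000c0000001c0000000f0000001c0000000c0000001c0000001c00000014 6 5) 0 0 (step_sound _ 131 [rhc995cbba2888a951, (rhe25b0a99195a5d59.shift 0 4)] (by decide +kernel))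
noncomputable def rh09aba9b9826cc4b1 : CRef := CRef.mk (Pat.mk 0x10000000f000000000000000000000000 0x180000001c0000001f0000000f0000001c0000000c00000008 6 5) 0 0 (step_sound _ 131 [(rh33e738c4ed385b9f.shift 0 3), rhafd2c574e64ff840] (by decide +kernel))
noncomputable def rh2e5cfdf31ed9c8df : CRef := CRef.mk (Pat.mk 0x6000000000000000300000000000000000000000000000000 0x4000000040000000600000006000000070000000300000003000000030000000300000001 6 3) 0 0 (step_sound _ 161 [(rh15590a39afd9a120.shift 0 1), (rh23fbf73b322139a5.shift 0 3), (rh281c6819542c66e6.shift 0 1), rhbed1c7fe9a6f0353, (rhfafeb437ceb8396d.shift 0 1)] (by decide +kernel))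
noncomputable def rhe1fc476689f5cfb3 : CRef := CRef.mk (Pat.mk 0x30000000000000003000000000000000000000000 0x5000000070000000700000003000000030000000300000003 6 3) 0 0 (step_sound _ 65 [rh0588d2c7f2cab5e9, rhd24e2a27b0983afa, (rhdb2909ac5c854515.shift 0 2), rhe6a37cdc23d9d441] (by decide +kernel))
noncomputable def rhb803232203cd0020 : CRef := CRef.mk (Pat.mk 0x60000000000000007000000000000000000000000 0x6000000060000000200000007000000070000000700000005 6 3) 0 0 (step_sound _ 129 [rh281c6819542c66e6, (rhde10baa3043a2b46.shift 0 2), (rhe8f9550119ab603c.shift 1 1), rhffb8e5993241bf15] (by decide +kernel))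
noncomputable def rh9294a1957934539d : CRef := CRef.mk (Pat.mk 0x60000000000000006000000000000000000000000 0x4000000060000000600000006000000070000000700000007 6 3) 0 0 (step_sound _ 65 [(rh02ef15e22aa7db92.shift 1 0), rh769c4338c227ba0a, (rh7d7eaefe27cdd7b0.shift 1 2), rhf9d1b77bacd15c12] (by decide +kernel))
noncomputable def rhf089b775834fb647 : CRef := CRef.mk (Pat.mk 0x30000000000000003000000000000000000000000 0x50000000700000007000000070000000600000003000000030000000300000001 6 3) 0 0 (step_sound _ 129 [rh0e42de44541b09b1, rh281c6819542c66e6, (rh6c03a9ef5fb89cef.shift 0 2), (rhb1a251d9bff81766.shift 0 2)] (by decide +kernel))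
noncomputable def rhe56826ddc33ed4e9 : CRef := CRef.mk (Pat.mk 0x8000000080000001c000000000000000000000000 0x140000003c0000000f0000001c0000001f0000001e0000001c 6 6) 0 0 (step_sound _ 67 [(rh8cdd36b03d57a2f6.shift 2 0), (rhbd78a571ffa91fb9.shift 2 0), (rhd1fa8140a3eb151f.shift 2 0), (rhd2ed914ab75787e4.shift 0 1)] (by decide +kernel))
noncomputable def rhe73e0dd76e225181 : CRef := CRef.mk (Pat.mk 0x18000000000000000c000000000000000000000000 0x40000001f0000007e000000780000000c0000000c0000000c00000004 6 7) 0 0 (step_sound _ 131 [(rh15590a39afd9a120.shift 2 0), (rh26e6e0c91cf66a7c.shift 0 2), (rh281c6819542c66e6.shift 2 0), (rhacc85467945b1e05.shift 1 1)] (by decide +kernel))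
noncomputable def rh9c0eba51f6890db3 : CRef := CRef.mk (Pat.mk 0x18000000000000001c00000000 0x80000000c0000001f0000007c000000180000001c00000014 6 7) 0 0 (step_sound _ 131 [rh565efde0ae11a447, (rh935da622f8ebc962.shift 3 0), (rh95a80f84f48ac358.shift 3 0), (rhbf726fa7097229f2.shift 2 0)] (by decide +kernel))
noncomputable def rh6abebe8c76af86b7 : CRef := CRef.mk (Pat.mk 0xc000000000000000c000000000000000000000000 0x170000001f0000007c0000000c0000000c0000000c0000000c 6 7) 0 0 (step_sound _ 67 [(rh0588d2c7f2cab5e9.shift 2 0), (rh31e6ad3683c68b2e.shift 1 1), rh658731fa9e5ae3e9, (rhdb2909ac5c854515.shift 2 2)] (by decide +kernel))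
noncomputable def rh170cecd399d49c48 : CRef := CRef.mk (Pat.mk 0x8000000080000001c000000000000000000000000 0x140000003c0000001f0000001c0000000f0000000e0000000c 6 6) 0 0 (step_sound _ 67 [(rh2b0da36e29333de2.shift 2 0), (rh6ed5e6501b92e21f.shift 2 0), (rhd2ed914ab75787e4.shift 0 1), (rheacedd262407fad2.shift 2 0)] (by decide +kernel))
noncomputable def rh671041cfa2ec586c : CRef := CRef.mk (Pat.mk 0x4000000040000000e000000000000000000000000 0x1a0000003f0000003f0000000e0000000c0000000c0000000c 6 6) 0 0 (step_sound _ 66 [(rh1ec68f40b6e4da58.shift 1 0), (rh6ed5e6501b92e21f.shift 1 0), (rh983bc432587f7996.shift 0 1), (rhbd78a571ffa91fb9.shift 1 0), (rhca18712e5e5c7b8f.shift 2 0)] (by decide +kernel))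
noncomputable def rh2027c62ba5b77bec : CRef := CRef.mk (Pat.mk 0x1000000010000000000000002800000000 0x1000000010000001fe000000fe000001ef0000002800000028 6 9) 0 0 (step_sound _ 99 [(rh00d6a6e3c7e3bb40.shift 3 0), (rha9a8c758b0abf1c2.shift 1 0), rhc6d67bcc8a73e5e1, rhd92900e8344a2183] (by decide +kernel))
noncomputable def rhebf1c6f3f4839b52 : CRef := CRef.mk (Pat.mk 0xc000000000000001c000000000000000000000000 0x140000003c0000000f0000001c0000001f0000001e0000001c 6 6) 0 0 (step_sound _ 67 [(rh0588d2c7f2cab5e9.shift 2 0), rh0cf7c3f9079820de, (rhab7bf266c6608c6c.shift 2 0), (rhdb2909ac5c854515.shift 2 2)] (by decide +kernel))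
noncomputable def rhf60a3cdf2285fca2 : CRef := CRef.mk (Pat.mk 0x1800000000000000380000000000000000000000000000000000000000 0x1e70000007e000001ff000000380000003e0000003c000000380000001800000008 6 9) 0 0 (step_sound _ 132 [(rh0cf7c3f9079820de.shift 1 2), (rh7d9134d08a76b66e.shift 3 0), (rhbe09357e6e7404ff.shift 0 2), (rhda87c0beeb733ee8.shift 3 1), (rhee6315aeb97d71d6.shift 2 2), (rhfa19e2c8322c0981.shift 0 4)] (by decide +kernel))
noncomputable def rh514790d22c67a923 : CRef := CRef.mk (Pat.mk 0x1800000000000000b0000000000000000000000000 0xef000000fe000001f7000000b0000000b80000001800000018 6 9) 0 0 (step_sound _ 165 [(rh19a2c768cce66d65.shift 3 0), (rh31e0e017d3feadb2.shift 0 2), (rh634280e6a4745af8.shift 0 2), (rh665b7d72116ff4b2.shift 0 4)] (by decide +kernel))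
noncomputable def rh8e571dafd4143367 : CRef := CRef.mk (Pat.mk 0x180000000000000038000000000000000000000000 0x1ef000000fe000001ef00000038000000300000001000000010 6 9) 0 0 (step_sound _ 165 [(rh31e0e017d3feadb2.shift 0 2), (rh4f11dcd1c06a1ee5.shift 2 2), (rh9c811058092aeaa2.shift 2 0), (rhaf82e51064254399.shift 0 4), (rhdda0a731eaa343a8.shift 1 2)] (by decide +kernel))
noncomputable def rh2b02973982d00a12 : CRef := CRef.mk (Pat.mk 0x3000000000000000700000000000000000 0x48000001df000000fe000000ff000000700000001000000010 6 9) 0 0 (step_sound _ 131 [(rh08c1feeebbd5fc90.shift 1 3), (rh3503f9a3f192de2b.shift 1 3), (rh4e7fb0a7a1ddd126.shift 1 2), rh5e429b04a9d08485, (rha9fd14151fe8bad8.shift 2 0), (rhd5fdfece70121d4e.shift 1 2)] (by decide +kernel))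
noncomputable def rh7693ff47824c0bc0 : CRef := CRef.mk (Pat.mk 0x180000000000000038000000000000000000000000 0x1000000010000000380000007c0000002f000000380000003c0000001c00000014 6 7) 0 0 (step_sound _ 131 [(rh215e11e099257d75.shift 3 2), rh53c1fc51923a8823, (rhe8f9550119ab603c.shift 3 1), (rhffb8e5993241bf15.shift 2 0)] (by decide +kernel))
noncomputable def rh5e06f8b51d5276ce : CRef := CRef.mk (Pat.mk 0x60000000000000006000000000000000000000000 0x50000000700000007000000060000000200000006000000070000000700000005 6 3) 0 0 (step_sound _ 129 [(rh215e11e099257d75.shift 1 2), (rh70e33bfdf511e144.shift 1 0), (rhc0f6fe06378683f4.shift 0 2), (rhe8f9550119ab603c.shift 1 1), rhffb8e5993241bf15] (by decide +kernel))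
noncomputable def rh18b0b7d2f9525a9c : CRef := CRef.mk (Pat.mk 0x180000000000000038000000000000000000000000 0x4000001f6000000fc000001ef000000380000003c0000001c00000014 6 9) 0 0 (step_sound _ 131 [rhd201c38879a29b06, (rhd63e5c19147ed538.shift 2 0), (rhffb8e5993241bf15.shift 2 0)] (by decide +kernel))
noncomputable def rhb4b518a1b5bb2a5c : CRef := CRef.mk (Pat.mk 0x18000000000000002800000000 0x1000000010000001fe000000fe000001ef0000002800000028 6 9) 0 0 (step_sound _ 132 [(rh00d6a6e3c7e3bb40.shift 3 0), (rha9a8c758b0abf1c2.shift 1 0), rhc6d67bcc8a73e5e1, rhd92900e8344a2183] (by decide +kernel))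
noncomputable def rh5b75de2fad38f655 : CRef := CRef.mk (Pat.mk 0x180000000000000030000000000000000000000000 0x40000001ff000000fe000001e700000030000000300000001000000010 6 9) 0 0 (step_sound _ 165 [(rh1825b12349a8faad.shift 2 2), (rh31e0e017d3feadb2.shift 0 2), (rh3a824f5bfbbc8494.shift 0 4), (rh9c811058092aeaa2.shift 2 0), (rhc6b796e8914de8cc.shift 1 4)] (by decide +kernel))
noncomputable def rh59a403933b3ddca7 : CRef := CRef.mk (Pat.mk 0x8000000000000001c00000000000000000000000000000000 0xe0000000e0000001e0000003f0000003f0000001c0000001e0000001e0000001e00000008 6 6) 0 0 (step_sound _ 194 [(rh04b88c995af2c8a3.shift 1 1), (rh0b5c45cefc1be50c.shift 2 1), (rh1bd1a7afeb9051c0.shift 2 0), (rh7a1ec20aaa476afd.shift 2 3), (rh9b75cb68b42778c8.shift 0 1), (rha7216fcd19efbcc6.shift 2 1), (rhcedd5e9fe4530936.shift 2 3)] (by decide +kernel))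
noncomputable def rhca253dc76b4f9c79 : CRef := CRef.mk (Pat.mk 0x8000000080000001800000010000000000000000000000000 0x1000000018000000180000001f000000ff000000ec0000000c0000000c 6 8) 0 0 (step_sound _ 99 [(rh22fa1117f605cb3f.shift 2 2), (rh5db541dd5138ce50.shift 2 0), (rhcac45fba302e8108.shift 0 2), (rhf5e15cdcea0762c2.shift 2 0)] (by decide +kernel))
noncomputable def rhbfce8c00c8c03ee9 : CRef := CRef.mk (Pat.mk 0x40000000c0000000800000008000000000000000000000000 0x100000003c0000000f0000007e0000001f000000060000000400000004 6 7) 0 0 (step_sound _ 98 [(rhbe6b72a3e5068dae.shift 0 2), (rhde0ae81b70105bed.shift 0 2), (rhfafeb437ceb8396d.shift 2 0)] (by decide +kernel))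
noncomputable def rh50e8599ce013207f : CRef := CRef.mk (Pat.mk 0x4000000040000000c00000008000000000000000000000000 0x3a0000003e0000000f0000000c0000000c000000060000000600000006 6 6) 0 0 (step_sound _ 98 [(rh5db541dd5138ce50.shift 1 0), (rh7ffbcda9e2e33190.shift 1 0), (rha4e48795de5c404c.shift 1 0), (rhd49a209860dedbee.shift 0 3)] (by decide +kernel))
noncomputable def rh30ae9d68a04031e8 : CRef := CRef.mk (Pat.mk 0x80000001800000010000000000000000000000000 0x30000000340000007c0000001e000000f80000003f0000001c00000008 6 8) 0 0 (step_sound _ 68 [(rh7b1f1fb55310c477.shift 3 1), rhbab545908239f779] (by decide +kernel))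
noncomputable def rh898136f825975b5e : CRef := CRef.mk (Pat.mk 0x80000001800000010000000000000000000000000 0xc0000000c0000001c0000001f000000ff000000ef0000000c0000000c 6 8) 0 0 (step_sound _ 99 [(rh53b41ce7e5e20f7e.shift 0 2), rh7a26b84408f5fe75, rhfc410cbb1aef1581, (rhfe7da3c073d75bd5.shift 2 0)] (by decide +kernel))
noncomputable def rh1c765c272ae24e14 : CRef := CRef.mk (Pat.mk 0x800000018000000080000000800000000 0x800000018000000ff000000ff000001d4 6 9) 0 0 (step_sound _ 36 [(rh55afc6a59410cf00.shift 3 0), rh872c1b239a778866] (by decide +kernel))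
noncomputable def rh929884b3afbd19be : CRef := CRef.mk (Pat.mk 0x1000000018000000180000000000000000 0xc0000002f0000007c0000001e000000180000001000000010 6 7) 0 0 (step_sound _ 131 [(rh01ff8e29f1e0af53.shift 0 2), (rh3cb04db3dd2b6a55.shift 3 0), (rha31e2286f1ebea1b.shift 1 0)] (by decide +kernel))
noncomputable def rh6adca84e07e1d62d : CRef := CRef.mk (Pat.mk 0x180000001800000008 0x400000014000000ff000000ff0000001800000008 6 8) 0 0 (step_sound _ 100 [rh1b42eec83454d699, (rh5c5e593799055d58.shift 3 0)] (by decide +kernel))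
noncomputable def rh93a19d6fe5d04e14 : CRef := CRef.mk (Pat.mk 0x3800000030000000000000000000000000 0x6c0000006c0000006c000000380000003e0000007f0000007c0000003c 6 7) 0 0 (step_sound _ 99 [rh5d9170a57ecde6c9, (rhac03e173880b16fc.shift 2 0), (rhad48fcc809438143.shift 1 0)] (by decide +kernel))
noncomputable def rh5d95f41af185c8b5 : CRef := CRef.mk (Pat.mk 0x280000000c000000000000000000000000 0x1c0000001f0000007c0000000c0000000c0000000c00000004 6 7) 0 0 (step_sound _ 132 [(rh18965a982d73c794.shift 2 3), rh5698c57c28b4a78c] (by decide +kernel))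
noncomputable def rh2690412e9f9c42f8 : CRef := CRef.mk (Pat.mk 0x280000000c000000000000000000000000 0x100000001c0000001c0000000c0000001f000000780000000e0000007c0000001c00000014 6 7) 0 0 (step_sound _ 163 [(rh232bf2ebf9889915.shift 2 2), (rh281c6819542c66e6.shift 2 0), (rhe2aeb87fac966524.shift 0 2), (rhecdd143104888d65.shift 1 0)] (by decide +kernel))
noncomputable def rhd5af80ae3deefbf7 : CRef := CRef.mk (Pat.mk 0x3800000028000000000000000000000000 0x7f0000003e0000003f000000060000000600000004 6 7) 0 0 (step_sound _ 130 [(rh00f1bb10334541e3.shift 0 4), (rh2c273f8387611dfa.shift 1 0), (rhd1d05263fabc0227.shift 0 3), (rhdceeca65bdd8095a.shift 0 3)] (by decide +kernel))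
noncomputable def rhad4547a151d26beb : CRef := CRef.mk (Pat.mk 0x3800000028000000000000000000000000 0x1c0000003c0000003c0000003f000000380000003f0000001e0000001c0000001c 6 6) 0 0 (step_sound _ 163 [(rh0255e259d8391dd6.shift 0 1), (rh136da48a6dbd44d0.shift 0 2), rh3c4ab2804f1f5ce1, (rh72f3f8c71dcad90d.shift 1 0), (rhc9d9fb94d7ac68c4.shift 1 0)] (by decide +kernel))
noncomputable def rh731ef7ec3e8fedf3 : CRef := CRef.mk (Pat.mk 0x38000000280000000000000000 0x20000003f7000001fe000003b80000001000000010 6 10) 0 0 (step_sound _ 98 [(rh00f1bb10334541e3.shift 0 3), (rh3402276e8137f1f9.shift 2 0), (rhd1d05263fabc0227.shift 0 2)] (by decide +kernel))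
noncomputable def rh35aca7da6142fc51 : CRef := CRef.mk (Pat.mk 0x2c00000028000000000000000000000000 0x20000000780000003e0000003f000000160000001400000004 6 7) 0 0 (step_sound _ 132 [(rh7654d7b92c96fe12.shift 0 3), (rhba50fd7aca570c30.shift 1 1), (rhdceeca65bdd8095a.shift 0 3), (rhe1f5cc6b756e4e3e.shift 1 0)] (by decide +kernel))
noncomputable def rha4b6e399098d1aa7 : CRef := CRef.mk (Pat.mk 0x3800000028000000000000000000000000 0x40000000d4000000ff000000fc000000280000001c0000001c00000014 6 8) 0 0 (step_sound _ 163 [rh3c4ab2804f1f5ce1, (rh4caa02240afc8351.shift 2 1), (rha9fbfd4bb8cf890b.shift 0 4)] (by decide +kernel))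
noncomputable def rh2abd293a81e984c2 : CRef := CRef.mk (Pat.mk 0x8000000080000000a000000080000000000000000 0x18000000180000001c0000000c0000000f000000180000001800000008 6 5) 0 0 (step_sound _ 68 [(rh55afc6a59410cf00.shift 3 1), rhb1e38f75b0ccde17] (by decide +kernel))
noncomputable def rhb69cbc7a0a0fe91b : CRef := CRef.mk (Pat.mk 0x3800000028000000000000000000000000 0x400000005000000070000001f80000003c0000002f000000780000007800000050 6 9) 0 0 (step_sound _ 165 [(rh66ed3053cf458f43.shift 3 1), rh84c89e9021bb6aab, (rh878c03cc42e824bf.shift 2 2), (rhff7d63dcb3cf9f74.shift 2 4)] (by decide +kernel))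
noncomputable def rh39e760b03f69fed0 : CRef := CRef.mk (Pat.mk 0x140000000400000004000000000000000000000000 0x60000003e00000007000000070000003e0000000e00000002 6 6) 0 0 (step_sound _ 66 [(rh0c1c1b53bc5a1510.shift 1 0), (rh1904b52b42aee148.shift 0 1), (rh242ee4615f20754e.shift 0 1)] (by decide +kernel))
noncomputable def rh4954e1b060b096ba : CRef := CRef.mk (Pat.mk 0x2800000028000000080000000000000000 0x40000004c0000004c0000006c0000007c0000002f0000007c0000002c0000000c 6 7) 0 0 (step_sound _ 98 [(rh8b7c8fe1bd67b73a.shift 2 0), (rh9eaf497289a6ff86.shift 0 1), (rhe33d9496e10d8eb0.shift 0 3)] (by decide +kernel))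
noncomputable def rhe138861728b32bde : CRef := CRef.mk (Pat.mk 0x280000002800000008000000000000000000000000 0x28000000280000002c0000007e0000007f0000005400000004 6 7) 0 0 (step_sound _ 66 [(rh3743dbe66b959104.shift 2 0), (rh544d3caba1e1e2bb.shift 2 0), (rhac4b4763407a46df.shift 0 1), (rhdcc2a343c3b5b8c5.shift 1 1)] (by decide +kernel))
noncomputable def rh18d6b08d09f749c9 : CRef := CRef.mk (Pat.mk 0x2800000028000000080000000000000000 0x44000000440000006f0000007c0000002e00000078000000f800000050 6 8) 0 0 (step_sound _ 162 [(rh0dbc8abee7ad42d4.shift 2 1), (rh3cc7a495b667248d.shift 1 1), (rh469b4c58d61b7eca.shift 0 1), (rhe10583ed9e43bb4d.shift 2 0)] (by decide +kernel))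
noncomputable def rhd6c68e8faf694010 : CRef := CRef.mk (Pat.mk 0x2800000028000000080000000000000000 0x4000000048000000680000007c0000002f0000007c0000003e00000014 6 7) 0 0 (step_sound _ 98 [(rhaae7382884d27345.shift 2 1), (rhdf6496f5243b695d.shift 1 0), (rhe33d9496e10d8eb0.shift 0 3)] (by decide +kernel))
noncomputable def rh8ceb397b092f8edf : CRef := CRef.mk (Pat.mk 0x2800000008000000080000000000000000 0x40000000f0000007c000000080000001c0000001c00000014 6 7) 0 0 (step_sound _ 163 [(rh0c1c1b53bc5a1510.shift 2 0), (rh3181373a30ceb9e3.shift 2 0), (rh3190167e459b66bb.shift 0 1), (rhcae87bda2c3c01d2.shift 2 0)] (by decide +kernel))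
noncomputable def rh291a44532ad4723b : CRef := CRef.mk (Pat.mk 0x140000001400000004000000000000000000000000 0x120000003e000000170000007e0000003f0000002e00000002 6 7) 0 0 (step_sound _ 66 [(rh0c1c1b53bc5a1510.shift 1 0), (rh242ee4615f20754e.shift 0 1), (rh414d961cb701a913.shift 0 1), (rh7450607f508aa28c.shift 0 1)] (by decide +kernel))
noncomputable def rh2bb8bc2e75189d33 : CRef := CRef.mk (Pat.mk 0x6800000028000000000000000000000000 0x540000007c0000007c000000680000002f0000007c000000fc00000054 6 8) 0 0 (step_sound _ 67 [(rh80a5a644583a2421.shift 2 1), rh8187d23f32e3fcc1, rhb18e4690f4c4cfff, (rhd903efb2e95aaa1e.shift 2 0), (rhe29e05a5feb87e56.shift 2 0), (rhf33b4d1956790f14.shift 2 0)] (by decide +kernel))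
noncomputable def rh33cf46ee63e0e6b9 : CRef := CRef.mk (Pat.mk 0x20000000200000002000000000000000000000000 0x500000007000000070000000700000002000000060000000600000004 6 3) 0 0 (step_sound _ 65 [(rhc17b7d8fab3dfe57.shift 0 1), (rhc4055b4872d6fb38.shift 0 1), (rhc9de03f9731897d4.shift 1 0), rhcae87bda2c3c01d2] (by decide +kernel))
noncomputable def rh1292c30857b0bdee : CRef := CRef.mk (Pat.mk 0x100000005000000050000000000000000000000000 0x2f000000fe0000007f00000050000000780000007800000028 6 8) 0 0 (step_sound _ 165 [rh07f1275c1c8a4029, (rh68b3f789a206c61d.shift 1 0), (rhfa40f754f1f7b88f.shift 3 0)] (by decide +kernel))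
noncomputable def rhfa7cb66c18c32d83 : CRef := CRef.mk (Pat.mk 0x20000000200000002000000000000000000000000 0x500000007000000070000000200000003000000070000000700000005 6 3) 0 0 (step_sound _ 65 [rh3181373a30ceb9e3, (rh565a0c22519f57e9.shift 0 1), (rhc17b7d8fab3dfe57.shift 0 1)] (by decide +kernel))
noncomputable def rhc5f0cc471fb2f84c : CRef := CRef.mk (Pat.mk 0x40000001400000014000000000000000000000000 0x80000003e0000003e00000037000000160000003c0000003c00000028 6 6) 0 0 (step_sound _ 66 [(rh07fa505cdd9ea00a.shift 1 0), (rh1d90b59f780b588e.shift 0 2), (rhcae87bda2c3c01d2.shift 1 0)] (by decide +kernel))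
noncomputable def rh6835dab1c84617f5 : CRef := CRef.mk (Pat.mk 0x28000000280000000800000000000000000000000000000000 0x400000004c0000006c0000007c0000002f0000007c0000002c0000000c0000000c00000004 6 7) 0 0 (step_sound _ 162 [(rh9eaf497289a6ff86.shift 0 3), (rhc96d8810fb47d1df.shift 2 0), (rhe33d9496e10d8eb0.shift 0 5)] (by decide +kernel))
noncomputable def rhdf4b4308acdbe106 : CRef := CRef.mk (Pat.mk 0x280000002800000008000000000000000000000000 0x44000000440000006f0000007c0000002f0000007c000000f80000001000000010 6 8) 0 0 (step_sound _ 194 [(rh0dbc8abee7ad42d4.shift 2 2), rh23198d40b0d0e9f8, (rh3cc7a495b667248d.shift 1 2), (rh469b4c58d61b7eca.shift 0 2)] (by decide +kernel))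
noncomputable def rh7aa0d9c6e0d82804 : CRef := CRef.mk (Pat.mk 0x280000002800000008000000000000000000000000 0x280000007c0000002f0000007c0000001c0000001c00000014 6 7) 0 0 (step_sound _ 130 [rh10e6f057ab9524f8, (rh1b118cbe0ebea9b9.shift 2 0), (rhe33d9496e10d8eb0.shift 0 4)] (by decide +kernel))
noncomputable def rh2cb391b3c58ee6c2 : CRef := CRef.mk (Pat.mk 0x200000002000000020000000000000000 0x500000007000000070000000700000002000000060000000600000004 6 3) 0 0 (step_sound _ 161 [(rhc17b7d8fab3dfe57.shift 0 1), (rhc4055b4872d6fb38.shift 0 1), (rhc9de03f9731897d4.shift 1 0), rhcae87bda2c3c01d2] (by decide +kernel))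
noncomputable def rh8ca4d003dff62858 : CRef := CRef.mk (Pat.mk 0x1400000014000000040000000000000000 0xa0000000e0000001e0000001c000000170000003e0000007a00000020 6 7) 0 0 (step_sound _ 162 [(rh20966da26a1c2ae8.shift 1 1), (rh565a0c22519f57e9.shift 1 1), rhbde866a46bb4dda2, (rhc17b7d8fab3dfe57.shift 1 1)] (by decide +kernel))
noncomputable def rha444676c6cb0d4e8 : CRef := CRef.mk (Pat.mk 0x40000001400000014000000000000000000000000 0xa0000003e0000003e00000037000000160000003c0000007c00000028 6 7) 0 0 (step_sound _ 66 [(rh1d90b59f780b588e.shift 0 2), (rhb9c51c07b8a16895.shift 1 0), (rhc17b7d8fab3dfe57.shift 1 1), (rhcae87bda2c3c01d2.shift 1 0)] (by decide +kernel))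
noncomputable def rhcf590b598f772cfd : CRef := CRef.mk (Pat.mk 0xc0000000800000000000000000000000000000000 0x140000001c0000003c0000000f0000000c0000001c0000001c0000001c00000014 6 6) 0 0 (step_sound _ 99 [(rh369225b5d41e1569.shift 2 1), (rh406bfc4f631a2f4f.shift 2 0), (rh54a3cb6d4bbcf7e3.shift 0 2), (rh7b24c4ccc068b0b2.shift 2 2), (rhf9a6286f1d5377a2.shift 2 2)] (by decide +kernel))
noncomputable def rh12eae6b92ab228be : CRef := CRef.mk (Pat.mk 0x20000000e000000000000000000000000 0x50000000700000007000000060000003e000000770000000600000006 6 7) 0 0 (step_sound _ 100 [rh0b7b00169876e0a9, (rh60e95adc726bb530.shift 1 2), (rh8db7f7558b75b2b1.shift 0 2)] (by decide +kernel))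
noncomputable def rh5818c0b021c7dece : CRef := CRef.mk (Pat.mk 0x2800000038000000000000000000000000 0x140000001c0000001c0000003c000000380000001f0000001c0000001c 6 6) 0 0 (step_sound _ 163 [(rh235edbdf3bbc6c03.shift 3 0), (rh5bbc0f892859fdc5.shift 2 0), (rha768b229dc254047.shift 3 0), rhcb23f9122b619e07] (by decide +kernel))
noncomputable def rh905abbc9f20b6bb7 : CRef := CRef.mk (Pat.mk 0x140000001c000000000000000000000000 0x60000000e0000000f0000001c0000007f0000007c0000001c0000001c 6 7) 0 0 (step_sound _ 131 [rh1aced7cf8335e708, (rh2ed4ea5d5088228d.shift 0 2), (rhc7748ec1e18e652f.shift 0 1), rhcb68da4f2dc5e7fd] (by decide +kernel))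
noncomputable def rh2dc91e9f596105eb : CRef := CRef.mk (Pat.mk 0x2800000038000000000000000000000000 0x140000001c0000001c00000028000000fc000000ff000000dc00000054 6 8) 0 0 (step_sound _ 67 [(rh2820ca9a6c4f41b4.shift 0 2), (rhac923301fd756f4a.shift 2 0), (rhe68c43c2407ca6f0.shift 2 0), (rhf0f55c4504412200.shift 0 2)] (by decide +kernel))
noncomputable def rh337899023ed43b2e : CRef := CRef.mk (Pat.mk 0x80000002800000028000000000000000000000000 0x140000005c0000007f0000007c0000002e0000003c000000740000007000000050 6 7) 0 0 (step_sound _ 165 [(rh08ff1a9078a560c4.shift 2 0), (rh544e2c0a0031f388.shift 2 2), (rh882d3ed95d304c0b.shift 2 1), (rh88d585697eacf27f.shift 0 2), (rhaa04cb697e71a31b.shift 0 1), (rhaf6c65f4605d8c8b.shift 0 1), (rhbdf7da801bd7795d.shift 2 2)] (by decide +kernel))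
noncomputable def rh6a72f7b8182f1c07 : CRef := CRef.mk (Pat.mk 0x280000002800000020000000000000000000000000 0x5000000070000000740000002f0000007e0000003f0000003e0000001c00000014 6 7) 0 0 (step_sound _ 99 [rh4ffd1be13f1f8a3b, (rh6d3d14eb9ae66914.shift 3 1), (rhbdfba23297321f80.shift 1 0), rhc8c04a3eb62a6e73, (rhf8fe0e537258690c.shift 1 0)] (by decide +kernel))
noncomputable def rh485eb9cd51815a38 : CRef := CRef.mk (Pat.mk 0xa0000000a00000002000000000000000000000000 0x5000000070000000f0000000a0000001f0000007e0000003e0000001400000010 6 7) 0 0 (step_sound _ 193 [(rh8065c10b3cae6218.shift 0 2), (rhc85cc95794737cf7.shift 0 3), (rhced6d86d2069808b.shift 1 2), rhd3d87e75558d45a5] (by decide +kernel))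
noncomputable def rh3108c31cdf31936e : CRef := CRef.mk (Pat.mk 0x100000001400000014000000000000000000000000 0x1000000010000000170000003f000000f80000003800000028 6 8) 0 0 (step_sound _ 68 [(rh3181373a30ceb9e3.shift 3 0), (rh86e0e1c05d62c696.shift 0 1), (rhc486ae0fcc44be52.shift 1 1)] (by decide +kernel))
noncomputable def rh96f998c5b07b7a98 : CRef := CRef.mk (Pat.mk 0x200000002800000028000000000000000000000000 0x50000000780000002f0000007c000001f00000007000000050 6 9) 0 0 (step_sound _ 69 [(rh3055bcda618dd4ec.shift 0 1), (rh3181373a30ceb9e3.shift 4 0), (rhc486ae0fcc44be52.shift 2 1)] (by decide +kernel))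
noncomputable def rhec1e4baa4b28ff9a : CRef := CRef.mk (Pat.mk 0x1e000000100000000000000000 0x6000000070000001e0000001f0000000700000007 6 5) 0 0 (step_sound _ 65 [rh7ed23c4e1cfbef80, (rheb0810cc63b001d8.shift 0 2)] (by decide +kernel))
noncomputable def rhe745f09fd1122f13 : CRef := CRef.mk (Pat.mk 0x160000001400000000000000000000000000000000 0x2000000060000001600000016000000370000003e0000001f0000000e0000000a 6 6) 0 0 (step_sound _ 98 [(rh0a6888916bcef86b.shift 1 0), (rh7b24c4ccc068b0b2.shift 1 2), rhc5701ad72fdbcf81, (rhf770a1ddfcf5c7ee.shift 1 0)] (by decide +kernel))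
noncomputable def rh8ab4a59284d61caf : CRef := CRef.mk (Pat.mk 0x2c00000028000000000000000000000000 0x10000000100000003c0000007c0000002f000000780000001f0000001c00000010 6 7) 0 0 (step_sound _ 100 [rh63018ab6247487c8, (rhf48373e13d2bc128.shift 2 3)] (by decide +kernel))
noncomputable def rh5bcead20a9dbbf01 : CRef := CRef.mk (Pat.mk 0xc0000000800000000000000000000000000000000 0x40000001c0000001c0000003c0000000f0000000c0000001c0000001c0000001c00000014 6 6) 0 0 (step_sound _ 99 [(rh0a6888916bcef86b.shift 2 0), (rh3977edee8dda9b54.shift 2 0), (rh518546a6809ccf8f.shift 0 2), (rh7b24c4ccc068b0b2.shift 2 2), (rhf9a6286f1d5377a2.shift 2 2)] (by decide +kernel))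
noncomputable def rhf6171dd57f48d3bb : CRef := CRef.mk (Pat.mk 0x1000000070000000000000000000000000 0x100000001000000017000001fe000003ff0000000800000008 6 10) 0 0 (step_sound _ 99 [(rh3423e5ac208fb65b.shift 2 0), (rh7c4bbb87c968a67c.shift 1 2), (rh8db7f7558b75b2b1.shift 2 2), (rh9241cc058486cc88.shift 0 2)] (by decide +kernel))
noncomputable def rh13e68fa2a1fbc53c : CRef := CRef.mk (Pat.mk 0x8000000280000002800000000000000000000000000000000 0x40000002c0000007c0000002f0000007c0000006c0000005c0000005c00000010 6 7) 0 0 (step_sound _ 162 [(rh6d9be37e846df60d.shift 0 1), (rh8c25cb665ab79ec0.shift 0 4), (rhd3d30d4418744b61.shift 2 0)] (by decide +kernel))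
noncomputable def rh576cb097ad708933 : CRef := CRef.mk (Pat.mk 0x8000000280000002800000000 0x10000000140000003c0000007f0000002f0000002800000028 6 7) 0 0 (step_sound _ 132 [rh22d86f446f3de558, rh7b6ccf80631e697d, (rhd7e9c837e0c18098.shift 3 0), (rhee04577b5ae6061f.shift 3 0)] (by decide +kernel))
noncomputable def rh0bf0028c475db332 : CRef := CRef.mk (Pat.mk 0x2800000020000000000000000000000000 0x5000000070000000f00000003e000001f7000000700000007000000050 6 9) 0 0 (step_sound _ 132 [rh10b07ed0c820d236, (rh8ffa8f5969d44369.shift 0 3), (rhb018a7c71ce35183.shift 3 0), (rhc21a95c499b3efdb.shift 2 3)] (by decide +kernel))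
noncomputable def rh17e572ba5ac05c68 : CRef := CRef.mk (Pat.mk 0x200000007000000040000000000000000 0x60000000700000007000000070000001f0000001b00000003 6 5) 0 0 (step_sound _ 161 [(rh2145e1d24b96a57e.shift 1 2), rh6087a4b086c68a12] (by decide +kernel))
noncomputable def rh9e38763559db24f5 : CRef := CRef.mk (Pat.mk 0x7000000040000000400000000 0xe0000000e0000001e000000070000000e0000000e00000008 6 5) 0 0 (step_sound _ 130 [(rh4017de503635a93b.shift 0 1), (rh426f403fa814630c.shift 2 0), (rh7ef4515e4cf2e66a.shift 1 0)] (by decide +kernel))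
noncomputable def rhd2b45bf24920a7b7 : CRef := CRef.mk (Pat.mk 0x160000001400000000000000000000000000000000 0x2000000060000001600000016000000370000003e0000001f0000000e0000000a 6 6) 0 0 (step_sound _ 98 [(rh0a6888916bcef86b.shift 1 0), (rh7b24c4ccc068b0b2.shift 1 2), rheb28a8ac830d3224, (rhf770a1ddfcf5c7ee.shift 1 0)] (by decide +kernel))
noncomputable def rhfedf650b2d36b83d : CRef := CRef.mk (Pat.mk 0x20000000300000002000000000000000000000000 0x1000000070000000700000007000000030000000300000002000000070000000700000005 6 3) 0 0 (step_sound _ 65 [(rh27d70429fd5018e0.shift 0 2), rh3181373a30ceb9e3, (rhe286c75f2739cce2.shift 0 1)] (by decide +kernel))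
noncomputable def rh1f266c083a0a4b9b : CRef := CRef.mk (Pat.mk 0x100000001c000000100000000000000000 0x20000000200000007f0000007f0000001c000000100000001000000010 6 7) 0 0 (step_sound _ 131 [(rh3cb04db3dd2b6a55.shift 3 0), (rh68d48541bd3f106c.shift 0 2), (rhf8d29f3cbeaf06f7.shift 2 0)] (by decide +kernel))
noncomputable def rhf4201db2094ccea7 : CRef := CRef.mk (Pat.mk 0xc0000000800000000000000000000000000000000 0x140000001c0000003c0000000f0000000c0000001c0000001c0000001c00000014 6 6) 0 0 (step_sound _ 99 [(rh0a6888916bcef86b.shift 2 0), (rh54a3cb6d4bbcf7e3.shift 0 2), (rh7b24c4ccc068b0b2.shift 2 2), (rh9502a73726500a31.shift 2 0), (rhf9a6286f1d5377a2.shift 2 2)] (by decide +kernel))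
noncomputable def rhc92c3db40538b0da : CRef := CRef.mk (Pat.mk 0x28000000380000000000000000 0x6000000060000003e0000003e0000007f00000008 6 7) 0 0 (step_sound _ 66 [(rh008b05f4778dc30d.shift 0 1), (rh2591032a0e7f4182.shift 0 1), (rh2ebbcfe90e0f250d.shift 1 1), (rh43715a9a1b5d459f.shift 1 0)] (by decide +kernel))
noncomputable def rhebf09c1ee0122349 : CRef := CRef.mk (Pat.mk 0x280000006800000000000000000000000000000000 0x10000000140000001f0000003c000001e80000007c0000001c0000001c00000014 6 9) 0 0 (step_sound _ 164 [rh50033f5bc8d7e23c, (rhb739f4f82bb681b4.shift 2 4)] (by decide +kernel))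
noncomputable def rh5217d6259694bbd9 : CRef := CRef.mk (Pat.mk 0x20000001a00000000000000000000000000000000 0x400000006000000060000003e00000077000000070000000700000005 6 7) 0 0 (step_sound _ 130 [(rh60e95adc726bb530.shift 1 3), rh76ed7ba3604996d3, (rh8db7f7558b75b2b1.shift 0 3)] (by decide +kernel))
noncomputable def rhd115ab268f0450e2 : CRef := CRef.mk (Pat.mk 0x5000000058000000000000000000000000 0x10000000380000007f0000007f000000380000003800000038 6 7) 0 0 (step_sound _ 131 [rh6f44140e788283af, rh897d573130d49112, (rhee8e4698f5c5baf4.shift 0 1)] (by decide +kernel))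
noncomputable def rh69b746caedec67d0 : CRef := CRef.mk (Pat.mk 0x5000000058000000000000000000000000 0x380000007c0000007f0000003c0000003800000038 6 7) 0 0 (step_sound _ 131 [rh6f44140e788283af, rh897d573130d49112, (rhaf17d7ce619e136e.shift 2 0)] (by decide +kernel))
noncomputable def rh3b650da246edf9ad : CRef := CRef.mk (Pat.mk 0x5000000018000000000000000000000000 0x1c0000003e0000007f0000001f000000fc0000003c0000003c 6 8) 0 0 (step_sound _ 131 [(rh26fad6f28aba9fb5.shift 0 1), (rh2da7bb8ee8429194.shift 2 0), (rh5dc5071a19a64e2e.shift 2 0), rh6f44140e788283af, rh897d573130d49112] (by decide +kernel))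
noncomputable def rhb487accfd702c625 : CRef := CRef.mk (Pat.mk 0x5000000070000000000000000000000000 0x100000001000000070000001fe000001f70000002000000020 6 9) 0 0 (step_sound _ 69 [(rhade0f4c81793f68e.shift 4 0), (rhbe707112c53dab40.shift 4 0), (rhf82f0dda0d15dbb5.shift 0 2)] (by decide +kernel))
noncomputable def rh02fa20386b992076 : CRef := CRef.mk (Pat.mk 0x1000000070000000000000000000000000 0x1000000017000001fe000003ff0000000800000008 6 10) 0 0 (step_sound _ 99 [(rh7c4bbb87c968a67c.shift 1 2), (rh8195a2d7794c7cd2.shift 1 2), (rh9241cc058486cc88.shift 0 2), (rhce12f85975fbaead.shift 2 0)] (by decide +kernel))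
noncomputable def rh626e0e34095ccbd4 : CRef := CRef.mk (Pat.mk 0x280000006800000000000000000000000000000000 0x50000000740000007e0000007c0000002f000000680000007c0000007c0000005c00000014 6 7) 0 0 (step_sound _ 197 [(rh14e0829dc73b6804.shift 4 3), (rh53184c363e9373c6.shift 2 0), (rh70e33bfdf511e144.shift 5 1), (rh74c0f4a8791a0c96.shift 0 1)] (by decide +kernel))
noncomputable def rhe1905abecf25d3f1 : CRef := CRef.mk (Pat.mk 0x80000000800000028000000000000000000000000 0x40000000c0000000c0000000f0000007c0000000f0000000c00000004 6 7) 0 0 (step_sound _ 67 [(rh0fd870c734e6c513.shift 2 1), (rh6aa5625770489e83.shift 2 0), (rh92ed3525f919a568.shift 0 1), (rhc8fd50c44a2112a0.shift 0 1)] (by decide +kernel))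
noncomputable def rh9481bc23db878b49 : CRef := CRef.mk (Pat.mk 0x40000001400000014000000000000000000000000 0x280000007c0000003c000000160000003e000000370000002200000022 6 7) 0 0 (step_sound _ 65 [(rh3743dbe66b959104.shift 1 0), (rh544d3caba1e1e2bb.shift 1 0), (rh692d6d31ac739cab.shift 0 2), (rh6ff6372e0b739494.shift 1 0), (rhb01ac4982a11ea27.shift 1 0)] (by decide +kernel))
noncomputable def rh4df1ae26a3adac23 : CRef := CRef.mk (Pat.mk 0x8000000280000002800000000 0x10000000140000003c0000007f0000002f0000002800000028 6 7) 0 0 (step_sound _ 132 [rh22d86f446f3de558, rh7b6ccf80631e697d, (rhee04577b5ae6061f.shift 3 0)] (by decide +kernel))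
noncomputable def rh1c3a6d48489df48c : CRef := CRef.mk (Pat.mk 0x80000002800000028000000000000000000000000 0x5000000070000000f80000007c0000002f0000007c000000640000004400000044 6 8) 0 0 (step_sound _ 165 [(rh435ed05552cf177d.shift 2 0), (rh5500df95bcd0a978.shift 0 2), (rh6a53f30f9ea1efed.shift 2 1), (rh6c1ccd5b9aa460c6.shift 2 0), (rh6d0963c6d7876be9.shift 4 1), (rh78a3247f8a109a20.shift 0 2), rhac635d089a3d5e84] (by decide +kernel))
noncomputable def rh1adeae74fc622fb1 : CRef := CRef.mk (Pat.mk 0x28000000280000000800000000 0x14000000fc0000007c0000002f0000003c0000003c00000014 6 8) 0 0 (step_sound _ 131 [(rh0fd870c734e6c513.shift 2 0), (rh20966da26a1c2ae8.shift 2 0), rh45fda7233c8d0aaa, (rhc85cc95794737cf7.shift 2 1)] (by decide +kernel))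
noncomputable def rhdfc2d4889fcc5432 : CRef := CRef.mk (Pat.mk 0x2800000028000000080000000000000000 0x1c0000003c0000002f000001ee0000007c000000d800000010 6 9) 0 0 (step_sound _ 163 [(rh5ee4dc8825dcefa0.shift 0 1), (rh91d90f732136636c.shift 1 1), (rhcae87bda2c3c01d2.shift 2 0)] (by decide +kernel))
noncomputable def rh4bad9ab2a142b080 : CRef := CRef.mk (Pat.mk 0x1e00000006000000000000000000000000 0x10000000340000001e0000003e0000000b0000000a00000002 6 6) 0 0 (step_sound _ 100 [rh43a14fbdc7513b69, (rhe25b0a99195a5d59.shift 1 3)] (by decide +kernel))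
noncomputable def rh5033b23a800e3051 : CRef := CRef.mk (Pat.mk 0x1e0000001400000000 0x1800000018000000380000001f0000001c00000014 6 6) 0 0 (step_sound _ 35 [(rhab885a1d9e7b2f11.shift 1 0), (rhb739f4f82bb681b4.shift 0 1)] (by decide +kernel))
noncomputable def rh3ae78bd1db664b48 : CRef := CRef.mk (Pat.mk 0x80000000c000000080000000800000000 0x40000000c0000000c0000003c0000001f00000017 6 6) 0 0 (step_sound _ 34 [(rh932754581e0f4330.shift 2 0), rhcca3464bebcc772d] (by decide +kernel))
noncomputable def rh4eaa5b2a6fb3756d : CRef := CRef.mk (Pat.mk 0x80000000c000000080000000800000000 0x80000000f0000007e0000007e00000014 6 7) 0 0 (step_sound _ 34 [rh7dc778365b5b14f7, (rh932754581e0f4330.shift 2 0)] (by decide +kernel))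
noncomputable def rhf239a6ae637ceebf : CRef := CRef.mk (Pat.mk 0x2c000000080000000000000000 0x4000000240000007f0000003e000000780000001800000018 6 7) 0 0 (step_sound _ 100 [(rh0d378fd9e8917c5a.shift 0 2), (rh44cb360f95bc185f.shift 1 0), (rh61325f73ebf98108.shift 0 3), (rhf459621b93742302.shift 1 0)] (by decide +kernel))
noncomputable def rh571ace313951d339 : CRef := CRef.mk (Pat.mk 0x8000000180000001000000000000000000000000000000000 0x240000007c0000001e000000f80000003f0000007e0000000c00000008 6 8) 0 0 (step_sound _ 100 [rh24d05497b5462530, (rh7b1f1fb55310c477.shift 3 2)] (by decide +kernel))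
noncomputable def rha9f9267bd3327a9c : CRef := CRef.mk (Pat.mk 0x1000000010000000100000001800000000 0x200000003000000010000000ff0000007e00000027 6 8) 0 0 (step_sound _ 37 [(rh55afc6a59410cf00.shift 4 0), rh7f273392fbb88e77] (by decide +kernel))
noncomputable def rh6e7f9d451b6ebd89 : CRef := CRef.mk (Pat.mk 0x400000014000000040000000600000000 0x80000000c0000001c000000770000003e00000078 6 7) 0 0 (step_sound _ 35 [(rh55afc6a59410cf00.shift 2 0), rhbf7e826dc9370dfc] (by decide +kernel))
noncomputable def rh4d8fbca48c88a71b : CRef := CRef.mk (Pat.mk 0x800000008000000080000001800000000 0x40000000c0000000c0000003e0000007f00000007 6 7) 0 0 (step_sound _ 34 [rh5b96553652227aff, (rh932754581e0f4330.shift 2 0)] (by decide +kernel))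
noncomputable def rhd79fbfddc2878951 : CRef := CRef.mk (Pat.mk 0x10000000500000001000000010 0x2f0000003e000000770000001000000010 6 7) 0 0 (step_sound _ 99 [rh0dbec2100d336153, (rh50fbb5868c909700.shift 3 0)] (by decide +kernel))
noncomputable def rh8f06a1b86fe42394 : CRef := CRef.mk (Pat.mk 0x3800000008000000000000000000000000 0x20000000700000003e0000007f000000700000003000000020 6 7) 0 0 (step_sound _ 130 [(rh008b05f4778dc30d.shift 0 3), (rh6065935af838fed8.shift 1 0), (rh7654d7b92c96fe12.shift 0 3), (rhf459621b93742302.shift 1 1)] (by decide +kernel))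
noncomputable def rh272e8f3b1172ba75 : CRef := CRef.mk (Pat.mk 0x38000000080000000000000000 0x4000000240000007f0000003e000000780000001800000018 6 7) 0 0 (step_sound _ 98 [(rh0d378fd9e8917c5a.shift 0 2), (rh44cb360f95bc185f.shift 1 0), (rh61325f73ebf98108.shift 0 3), (rhf459621b93742302.shift 1 0)] (by decide +kernel))
noncomputable def rh459a6b84e414d24b : CRef := CRef.mk (Pat.mk 0x38000000080000000000000000 0x4000000770000003e0000006f0000000800000008 6 7) 0 0 (step_sound _ 98 [(rh775ca1963e850b80.shift 0 2), (rhb9dd680bb9375a9f.shift 1 0), (rhc37ac25399000c0e.shift 0 2), (rhd75855c0840bf9dc.shift 0 2)] (by decide +kernel))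
noncomputable def rh49e8f417b3c56c2d : CRef := CRef.mk (Pat.mk 0x80000001c00000004000000000000000000000000 0x18000000180000001c0000001c0000007f000000780000001800000008 6 7) 0 0 (step_sound _ 99 [rh0852bf3bd0190474, rh6c40585f68680b84, (rhb7df97844926543e.shift 0 1), (rhbbf91d47b34e7516.shift 2 0), rhd05f0b12344e7002] (by decide +kernel))
noncomputable def rhe16a587c5850fc71 : CRef := CRef.mk (Pat.mk 0x10000000380000000800000008000000000000000000000000 0x40000003e000000380000003f00000078000000f00000001000000010 6 8) 0 0 (step_sound _ 100 [(rh046c5eb18e55a239.shift 3 0), (rh22ac53e49955bd2e.shift 0 2), (rhc2f06c7a97a2ad79.shift 1 2)] (by decide +kernel))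
noncomputable def rh024b2c042a712240 : CRef := CRef.mk (Pat.mk 0x10000000380000000800000000000000000000000000000000 0x40000001e000000380000003f0000007c000000380000001000000010 6 7) 0 0 (step_sound _ 99 [(rh71222050f2c63a3a.shift 3 2), rh97568930f8a11bd2] (by decide +kernel))
noncomputable def rhaf8c3a3df4b4f84f : CRef := CRef.mk (Pat.mk 0xf000000030000000000000000 0x4000000040000001e0000000f0000001f0000001a0000001a 6 5) 0 0 (step_sound _ 67 [rh961709b306ffc224, (rhe25b0a99195a5d59.shift 0 2)] (by decide +kernel))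
noncomputable def rhaf30d2a7def9d079 : CRef := CRef.mk (Pat.mk 0xc00000018000000100000000000000000 0x240000007c0000001e000000380000001f0000001c 6 7) 0 0 (step_sound _ 36 [(rh7b1f1fb55310c477.shift 3 0), rhc7ecaff2750491ff] (by decide +kernel))
noncomputable def rhc6637c8c1ed396ee : CRef := CRef.mk (Pat.mk 0x3000000060000000400000000000000000 0x80000009c000000fc0000007f0000007c0000005800000048 6 8) 0 0 (step_sound _ 131 [rh009b9e9303d40e8b, (rhb739f4f82bb681b4.shift 2 3)] (by decide +kernel))
noncomputable def rh161a034b7c5abbcf : CRef := CRef.mk (Pat.mk 0x1800000030000000200000000000000000 0xc0000001e0000003f000001ff0000001e0000001c 6 9) 0 0 (step_sound _ 99 [(rh73b2bd5cd3a6f807.shift 0 2), rh9721e4ad2c83ac7e, (rhc21a95c499b3efdb.shift 2 2), (rhe22cb6204347b0c7.shift 1 0)] (by decide +kernel))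
noncomputable def rhef51f0d61e86a1a0 : CRef := CRef.mk (Pat.mk 0x1800000030000000200000000000000000 0x400000046000000fe0000003f000001ff0000003c00000038 6 9) 0 0 (step_sound _ 99 [(rh73b2bd5cd3a6f807.shift 0 2), (rh78fc03374949ac50.shift 1 0), (rhc21a95c499b3efdb.shift 2 2), (rhe495a2971047fc4a.shift 0 1)] (by decide +kernel))
noncomputable def rh139aafdc695bfa7b : CRef := CRef.mk (Pat.mk 0x3000000060000000400000000000000000 0x9c000000fc0000007f000000cc0000004800000048 6 8) 0 0 (step_sound _ 131 [rh1ae15448df673563, (rhb739f4f82bb681b4.shift 2 3)] (by decide +kernel))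
noncomputable def rh0e8aba07d0a34519 : CRef := CRef.mk (Pat.mk 0xc000000180000001000000000000000000000000000000000 0x270000003f00000018000000380000001f0000001c0000000800000008 6 6) 0 0 (step_sound _ 100 [rh443eba8ca20cd2ae, (rh7b1f1fb55310c477.shift 3 2)] (by decide +kernel))
noncomputable def rh1f9b84414c213cfc : CRef := CRef.mk (Pat.mk 0x1800000030000000200000000000000000 0xc0000000c0000000c000000380000003f000001ff0000001c0000001c 6 9) 0 0 (step_sound _ 99 [rh5d9170a57ecde6c9, (rhb49dd4c1c654d6df.shift 0 2), (rhc21a95c499b3efdb.shift 2 2)] (by decide +kernel))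
noncomputable def rhf2915b66222e4c11 : CRef := CRef.mk (Pat.mk 0x18000000300000002000000000 0xc0000000e0000007e0000003f000001f800000018 6 9) 0 0 (step_sound _ 98 [(rhb739f4f82bb681b4.shift 1 2), rhd719f5eb9e288533] (by decide +kernel))
noncomputable def rhe32aaa33ba032ab4 : CRef := CRef.mk (Pat.mk 0x28000000180000000000000000 0x400000024000000670000003f0000007f0000001800000010 6 7) 0 0 (step_sound _ 98 [(rh062109d6dc26638f.shift 0 2), (rh4ca5dae25f5c14ff.shift 0 2), (rh6494b3414d702e32.shift 1 0), (rhdeca8db941583de2.shift 0 2)] (by decide +kernel))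
noncomputable def rh83da41c23a0ecf60 : CRef := CRef.mk (Pat.mk 0x2c00000038000000000000000000000000 0x600000006000000060000003c0000003e0000007f0000000c0000000c 6 7) 0 0 (step_sound _ 98 [(rh008b05f4778dc30d.shift 0 2), (rh2ebbcfe90e0f250d.shift 1 2), (rh949a7e17d676d35b.shift 1 0)] (by decide +kernel))
noncomputable def rh434d91c525d7b186 : CRef := CRef.mk (Pat.mk 0x2800000018000000000000000000000000 0x20000000770000003f0000007f000000700000003000000020 6 7) 0 0 (step_sound _ 130 [(rh062109d6dc26638f.shift 0 3), (rh4ca5dae25f5c14ff.shift 0 3), (rh60100dfffa99e1c2.shift 1 0), (rhdeca8db941583de2.shift 0 3)] (by decide +kernel))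
noncomputable def rh07657ec64377ef10 : CRef := CRef.mk (Pat.mk 0x160000001c000000000000000000000000 0x1a0000001a0000003b0000001e0000001f000000370000001000000010 6 6) 0 0 (step_sound _ 131 [(rh198b74f52ad8d71c.shift 0 2), (rhab885a1d9e7b2f11.shift 1 2), rhcb68da4f2dc5e7fd] (by decide +kernel))
noncomputable def rhcb854f95686603ab : CRef := CRef.mk (Pat.mk 0x20000000e00000000 0xe70000007e000000e3 6 8) 0 0 (step_sound _ 36 [(rh3244c3cc8379b070.shift 0 1), rh3a606291939d1fb9] (by decide +kernel))
noncomputable def rh193161f688984a54 : CRef := CRef.mk (Pat.mk 0x280000003800000010000000000000000000000000 0x38000000780000003e0000001f0000001c0000000c 6 7) 0 0 (step_sound _ 68 [rh05ef6f9a70b02425, (rh71222050f2c63a3a.shift 4 1)] (by decide +kernel))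
noncomputable def rh1763ebba85ac4fcd : CRef := CRef.mk (Pat.mk 0x5000000070000000200000000 0xe0000001e00000007000000070000001e0000000c 6 5) 0 0 (step_sound _ 130 [(rh5c5e593799055d58.shift 1 1), rh630c1dee165e2414] (by decide +kernel))
noncomputable def rh2ccfe1e4205ca8cc : CRef := CRef.mk (Pat.mk 0x80000000a0000000c0000000000000000000000000000000000000000 0x140000003c0000000f0000000c0000001c0000001c0000001c0000001c00000004 6 6) 0 0 (step_sound _ 131 [(rh927144a99fee2725.shift 0 3), (rh9e174856810c5f95.shift 2 1), (rhbd78a571ffa91fb9.shift 2 2), (rhd1fa8140a3eb151f.shift 2 2), (rhfb4cef72887fe1a1.shift 2 0)] (by decide +kernel))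
noncomputable def rhe8a1e697ff476044 : CRef := CRef.mk (Pat.mk 0x380000001c000000000000000000000000 0x1000000030000000380000001c0000007c0000003f0000001c 6 7) 0 0 (step_sound _ 67 [rh078cc55fbb23ddef, (rh1808265f8363394e.shift 2 0), (rhea7a1800d6f053bd.shift 3 0)] (by decide +kernel))
noncomputable def rheeb49a2139941dc3 : CRef := CRef.mk (Pat.mk 0x2800000018000000100000001000000000 0x300000003800000018000000380000001f0000000c 6 6) 0 0 (step_sound _ 132 [(rh2f68792b6b779e96.shift 4 1), rh850e201bd523cd31] (by decide +kernel))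
noncomputable def rh617c929ca9975046 : CRef := CRef.mk (Pat.mk 0x2800000018000000100000001000000000 0x10000000380000001e000000fc000000ff0000002e 6 8) 0 0 (step_sound _ 132 [(rh2524ec0c59b15eca.shift 1 0), rh850e201bd523cd31, (rhb20dd801f506db0f.shift 1 0), (rhcefbdf9a88ffacc9.shift 2 0), (rhcfbea19f509e11c8.shift 1 0)] (by decide +kernel))
noncomputable def rhaf4d8509ac323561 : CRef := CRef.mk (Pat.mk 0x1000000008000000080000000800000000 0x180000001800000008000000380000001f00000014 6 6) 0 0 (step_sound _ 131 [(rh2f68792b6b779e96.shift 3 1), rhb20dd801f506db0f] (by decide +kernel))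
noncomputable def rh17a378ef7ee20ed5 : CRef := CRef.mk (Pat.mk 0xa00000006000000040000000400000000 0xc0000000e00000006000000070000003e0000000a 6 6) 0 0 (step_sound _ 130 [(rh2f68792b6b779e96.shift 2 1), rhcefbdf9a88ffacc9] (by decide +kernel))
noncomputable def rh9448ad3587d8ec63 : CRef := CRef.mk (Pat.mk 0x140000000c00000008000000080000000000000000 0x10000000140000003f0000007f000001ff0000002200000020 6 9) 0 0 (step_sound _ 100 [(rh4ca5dae25f5c14ff.shift 0 3), (rh83cc5d502d865c4d.shift 0 1), (rhd51f00cf7cc3aa41.shift 2 0), (rhdeca8db941583de2.shift 0 3)] (by decide +kernel))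
noncomputable def rh0ac4dfd2d7317d8b : CRef := CRef.mk (Pat.mk 0x140000000e00000008000000000000000000000000 0x18000000180000001c000000fe000001ff000000300000003000000030 6 9) 0 0 (step_sound _ 132 [(rh25c2506cea9bb639.shift 1 0), (rh3cf80e0a5ff3a0a7.shift 0 3), (rh4fb2bc07e6edd8b1.shift 1 3), (rh644be035a6e63ce2.shift 0 3), (rh8db7f7558b75b2b1.shift 0 3)] (by decide +kernel))
noncomputable def rhf2148e0711a9b5a1 : CRef := CRef.mk (Pat.mk 0x100000000c000000080000000800000000 0x18000000180000000f0000007c0000001800000010 6 7) 0 0 (step_sound _ 131 [rh2524ec0c59b15eca, (rh2f68792b6b779e96.shift 3 1)] (by decide +kernel))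
noncomputable def rh6fc552e00f4325ef : CRef := CRef.mk (Pat.mk 0x140000001c00000010000000000000000000000000 0x1000000010000000140000003c0000007f0000002e0000000e0000000c 6 7) 0 0 (step_sound _ 99 [rh0f9083c829337e7d, (rh121397a93ef3afd3.shift 2 2), (rh1e309b005ffa1b36.shift 3 1)] (by decide +kernel))
noncomputable def rhdb42478f02337dc5 : CRef := CRef.mk (Pat.mk 0x140000001c000000100000000000000000 0x10000000140000003f0000001f0000000b0000000a 6 6) 0 0 (step_sound _ 67 [(rh1e309b005ffa1b36.shift 3 0), rh2d59cdcade56bc65] (by decide +kernel))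
noncomputable def rheb402496499938bd : CRef := CRef.mk (Pat.mk 0x40000001e000000000000000000000000 0x30000000300000003000000070000001e000000070000000600000006 6 5) 0 0 (step_sound _ 129 [(rh3244c3cc8379b070.shift 0 3), rh949a7e17d676d35b] (by decide +kernel))
noncomputable def rh5fcae9ebd1ea12aa : CRef := CRef.mk (Pat.mk 0x2800000018000000000000000000000000 0x400000024000000770000003f000000fe0000007e0000003000000020 6 8) 0 0 (step_sound _ 132 [(rh016c66bfcb5f9060.shift 0 2), (rh4ddf85b4f6108e96.shift 0 1), (rh6542b084897c4505.shift 1 0)] (by decide +kernel))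
noncomputable def rh8ee78671f1f26256 : CRef := CRef.mk (Pat.mk 0x8000000080000001800000010000000000000000000000000 0x40000000c0000001c0000001f000000ff000000ec0000000c00000008 6 8) 0 0 (step_sound _ 99 [(rh7ffbcda9e2e33190.shift 2 0), (rhcac45fba302e8108.shift 0 2), (rhf5e15cdcea0762c2.shift 2 0)] (by decide +kernel))
noncomputable def rh84119bf1d60a6eed : CRef := CRef.mk (Pat.mk 0x300000001800000010000000000000000000000000 0x20000000300000003800000078000000ff0000006f0000002c00000004 6 8) 0 0 (step_sound _ 99 [(rh1e309b005ffa1b36.shift 3 1), (rhe74f7c03134b603b.shift 1 1), rhf80aeac69cba8b8d] (by decide +kernel))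
noncomputable def rhdb9c4566064822a7 : CRef := CRef.mk (Pat.mk 0x700000001800000010000000000000000000000000 0x2000000020000000700000007800000038000000ff000001ef0000002c00000024 6 9) 0 0 (step_sound _ 99 [(rh1e309b005ffa1b36.shift 3 1), (rhe7b3cb0684dbca32.shift 2 0), rhf80aeac69cba8b8d] (by decide +kernel))
noncomputable def rh29c458605081fbae : CRef := CRef.mk (Pat.mk 0xf000000020 0x18e000000fe0000003f 6 9) 0 0 (step_sound _ 71 [(rh33e738c4ed385b9f.shift 4 1), rh974cc5463aa80a9c] (by decide +kernel))
noncomputable def rhd2d4c47e68283d94 : CRef := CRef.mk (Pat.mk 0x2000000020000000700000001000000000000000000000000 0x40000000600000007000000070000001f0000001e0000000600000002 6 5) 0 0 (step_sound _ 97 [rh4f66b8b299b10e60, rha18922c1423cfe79, rha1cf18b944036215, (rhe0c99c2c46f7ce32.shift 0 2)] (by decide +kernel))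
noncomputable def rh92cb2a92b0ff9315 : CRef := CRef.mk (Pat.mk 0x80000001c000000040000000400000000 0x300000007c0000001f0000007c0000007e0000007b 6 7) 0 0 (step_sound _ 132 [(rhab2ad169e49f9c5e.shift 0 3), rhb224a0d3cd5546e3, (rhe010c6a2ae0c0f62.shift 1 0)] (by decide +kernel))
noncomputable def rhfee5ce5c77167251 : CRef := CRef.mk (Pat.mk 0xf00000003000000000000000000000000 0x40000001c0000000f0000001b0000001e0000001c00000014 6 5) 0 0 (step_sound _ 163 [(rh33e738c4ed385b9f.shift 0 4), rh9e7b9fb55f66190e] (by decide +kernel))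
noncomputable def rh744ad401386df909 : CRef := CRef.mk (Pat.mk 0xf000000020 0xe000000fe0000003f 6 8) 0 0 (step_sound _ 35 [(rh70543c5e7e75eabe.shift 1 0), (rh775ca1963e850b80.shift 1 0), rheaad777ed634577b, (rheae1728ff4a56756.shift 2 0)] (by decide +kernel))
noncomputable def rhcd7062f14df1f8b4 : CRef := CRef.mk (Pat.mk 0xf000000020 0x1ce000000fe00000037 6 9) 0 0 (step_sound _ 71 [(rh33e738c4ed385b9f.shift 4 1), rhde5809a64757fa39] (by decide +kernel))
noncomputable def rh1ea0510054b9b15f : CRef := CRef.mk (Pat.mk 0x1c0000000c000000000000000000000000 0x18000000180000001c0000001c0000000f0000007c0000001800000008 6 7) 0 0 (step_sound _ 97 [(rh53b3c253cb0c65f4.shift 0 3), (rh8777f59d922a401e.shift 1 0)] (by decide +kernel))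
noncomputable def rha2311a6be005ff22 : CRef := CRef.mk (Pat.mk 0x1c0000000c000000000000000000000000 0x140000001c0000007f0000003f0000001800000018 6 7) 0 0 (step_sound _ 97 [rh3ffc4e615e0cfffa, (rh53b3c253cb0c65f4.shift 0 3)] (by decide +kernel))
noncomputable def rh1df25faa4cbf0f8e : CRef := CRef.mk (Pat.mk 0x7000000030000000200000000 0x60000000e0000001e00000007000000070000001e0000000c 6 5) 0 0 (step_sound _ 129 [rh0ff7ca71cb891e23, rh347577ccab34c4c3, (rh5fa50b509d4ce753.shift 0 1)] (by decide +kernel))
noncomputable def rh81694ec12e828124 : CRef := CRef.mk (Pat.mk 0x5800000010000000000000000000000000 0x8000000180000007c000000ff000000ff0000003c00000038 6 8) 0 0 (step_sound _ 99 [rh407fb390d8316269, rh897d573130d49112, (rh9ef6e09d1f1f5ad4.shift 0 2), (rha41d429ce4a0acfc.shift 2 0)] (by decide +kernel))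
noncomputable def rha48bc5fece421ffe : CRef := CRef.mk (Pat.mk 0x20000001600000004000000040000000000000000 0x1000000070000001e000000070000003f0000001b00000003 6 6) 0 0 (step_sound _ 97 [rh1d77031ef47780a4, (rh51246ab843efda05.shift 0 3), rh688d87e93e3219a5] (by decide +kernel))
noncomputable def rheef371831a203af3 : CRef := CRef.mk (Pat.mk 0x30000000600000004000000000 0x10000000380000003e0000007c0000007f0000007c00000038 6 7) 0 0 (step_sound _ 99 [rh3b11f0d6fd3546ec, (rhb739f4f82bb681b4.shift 2 2)] (by decide +kernel))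
noncomputable def rh5020925a71e2718f : CRef := CRef.mk (Pat.mk 0x58000000100000000000000000 0x800000048000000de0000007e000000f70000003000000030 6 8) 0 0 (step_sound _ 101 [(rh0d378fd9e8917c5a.shift 1 2), (rh44cb360f95bc185f.shift 2 0), (rh9d47ef67f175c917.shift 0 2), (rhf459621b93742302.shift 2 0)] (by decide +kernel))
noncomputable def rhd9b2a53cbfeba46d : CRef := CRef.mk (Pat.mk 0x8000000180000001000000010000000000000000000000000 0x40000001c0000001c000000fe0000003f0000006e0000000c00000008 6 8) 0 0 (step_sound _ 99 [(rh3510ab7567d2e047.shift 0 1), (rh3cba44db651c4def.shift 1 2), (rh7288738e7e470e0c.shift 0 2), (rhfafeb437ceb8396d.shift 3 0)] (by decide +kernel))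
noncomputable def rh998f60dd85a920e1 : CRef := CRef.mk (Pat.mk 0x2000000020000000200000003000000000 0x2000000020000001f7000001fe000003ce 6 10) 0 0 (step_sound _ 38 [(rh55afc6a59410cf00.shift 5 0), rhb0bb4460d9acce58] (by decide +kernel))
noncomputable def rh38c729b349cf6728 : CRef := CRef.mk (Pat.mk 0x2800000018000000000000000000000000 0x4000000240000006f0000003f0000007f0000001e0000001400000004 6 7) 0 0 (step_sound _ 130 [(rh062109d6dc26638f.shift 0 3), (rh4ca5dae25f5c14ff.shift 0 3), (rh9d9114d4061ac1da.shift 1 0), (rhdeca8db941583de2.shift 0 3)] (by decide +kernel))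
noncomputable def rha9591e612478c7b3 : CRef := CRef.mk (Pat.mk 0x2c00000018000000000000000000000000 0x80000003c0000007e000000770000000400000004 6 7) 0 0 (step_sound _ 101 [rh6aa5e69334c0cc83, (rhf48373e13d2bc128.shift 2 3)] (by decide +kernel))
noncomputable def rh6f46d316b473222c : CRef := CRef.mk (Pat.mk 0x1c0000000c000000000000000000000000 0x18000000180000001c0000001c0000001f000000780000001800000008 6 7) 0 0 (step_sound _ 97 [(rh53b3c253cb0c65f4.shift 0 3), (rh77afc688f1885857.shift 1 0)] (by decide +kernel))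
noncomputable def rhce8929b52889edec : CRef := CRef.mk (Pat.mk 0x140000000e00000008000000000000000000000000 0x180000001c0000001c0000007e0000007f000000330000003200000030 6 7) 0 0 (step_sound _ 132 [(rh25c2506cea9bb639.shift 1 0), (rh4fb2bc07e6edd8b1.shift 1 3), (rh8db7f7558b75b2b1.shift 0 3), (rhb23b2cd6650afe14.shift 0 1), (rhce12f85975fbaead.shift 0 1)] (by decide +kernel))
noncomputable def rhb076bbcad8e6d3e0 : CRef := CRef.mk (Pat.mk 0x1c0000000c000000000000000000000000 0x8000000180000003c0000001f0000000c0000001c0000001800000008 6 6) 0 0 (step_sound _ 67 [(rh3cb04db3dd2b6a55.shift 2 0), (rh8ea3319c7732244f.shift 0 1), (rhb0c1e7919d9be92d.shift 2 0)] (by decide +kernel))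
noncomputable def rh7355241b309a0cfb : CRef := CRef.mk (Pat.mk 0x2800000018000000000000000000000000 0x20000000280000002f000000fe000001ff0000005400000014 6 9) 0 0 (step_sound _ 101 [(rh1561ff1fafeb7917.shift 2 2), rh26e1017678d9da1f, (rh287276f7cf762f7e.shift 1 0), (rha9fbfd4bb8cf890b.shift 0 3)] (by decide +kernel))
noncomputable def rhe5e8fe3756bf5d49 : CRef := CRef.mk (Pat.mk 0x2000000020000000200000003000000000 0x1000000030000000300000003f000001fe0000004e 6 9) 0 0 (step_sound _ 38 [rh4205466a55352412, (rh55afc6a59410cf00.shift 5 0)] (by decide +kernel))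
noncomputable def rh67c4d5d39908b100 : CRef := CRef.mk (Pat.mk 0x1000000050000000100000003000000000 0x10000000780000003e0000007e0000000f 6 7) 0 0 (step_sound _ 35 [(rh932754581e0f4330.shift 3 0), rh93d6819666020882] (by decide +kernel))
noncomputable def rhb20d3b5d1ec0bdc3 : CRef := CRef.mk (Pat.mk 0x40000000400000004000000000000000000000000 0x20000000e0000000f0000003c0000000c0000000c0000000c00000008 6 6) 0 0 (step_sound _ 66 [(rh1bd0c14c4de1ef4d.shift 0 1), (rh8065c10b3cae6218.shift 1 1), (rhc9de03f9731897d4.shift 2 0)] (by decide +kernel))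
noncomputable def rhaa4747a040d73dcd : CRef := CRef.mk (Pat.mk 0x1000000050000000100000003000000000 0x5000000050000000f7000000fe000001cf 6 9) 0 0 (step_sound _ 35 [rh829172f8aec2bb07, (rh932754581e0f4330.shift 3 0)] (by decide +kernel))
noncomputable def rh48672d8131519f00 : CRef := CRef.mk (Pat.mk 0x2c00000038000000000000000000000000 0x5000000070000000700000007c0000002f00000038000000f00000005000000010 6 8) 0 0 (step_sound _ 129 [(rhab627cab21ca8a65.shift 1 0), (rhb739f4f82bb681b4.shift 0 3)] (by decide +kernel))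
noncomputable def rhfe9402dfdf72b679 : CRef := CRef.mk (Pat.mk 0x1e000000100000000000000000 0x30000000380000003f0000001e000000180000001800000010 6 6) 0 0 (step_sound _ 132 [(rh33e738c4ed385b9f.shift 1 3), rh5b7e532109285374] (by decide +kernel))
noncomputable def rh974db76fc21f4b35 : CRef := CRef.mk (Pat.mk 0xb8000000200000000000000000 0x40000000e000000fe0000003f0000000800000008 6 8) 0 0 (step_sound _ 98 [(rhafa5a7051d37b143.shift 1 0), (rhd6600660a7c492b4.shift 1 2), (rhdceeca65bdd8095a.shift 0 2)] (by decide +kernel))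
noncomputable def rh286ac96430883e2a : CRef := CRef.mk (Pat.mk 0x1e000000140000000000000000 0x80000003b0000001e0000001f0000003000000030 6 6) 0 0 (step_sound _ 65 [rh79b2084a69edf9f4, (rheb0810cc63b001d8.shift 0 2)] (by decide +kernel))
noncomputable def rhdea2cac5ff2bf9f2 : CRef := CRef.mk (Pat.mk 0x3800000028000000000000000000000000 0xf0000003e0000003f000000060000000600000004 6 6) 0 0 (step_sound _ 130 [(rh2c273f8387611dfa.shift 1 0), (rh2cc7d62e70c02209.shift 0 3), (rhd1d05263fabc0227.shift 0 3), (rhdceeca65bdd8095a.shift 0 3)] (by decide +kernel))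
noncomputable def rh930415eabf6e6b3e : CRef := CRef.mk (Pat.mk 0x80000001c0000001000000000 0x38000000780000003e0000001f0000001800000008 6 7) 0 0 (step_sound _ 131 [(rh2145e1d24b96a57e.shift 3 1), rh73c05796bd0b7655] (by decide +kernel))
noncomputable def rh590460726c528408 : CRef := CRef.mk (Pat.mk 0x80000001c000000140000000000000000 0x30000000780000001f0000001c0000007800000038 6 7) 0 0 (step_sound _ 132 [(rhab2ad169e49f9c5e.shift 0 3), (rhdca12aabe2b3e657.shift 2 0), (rhf8d29f3cbeaf06f7.shift 2 0)] (by decide +kernel))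
noncomputable def rhf2f30bfa961f7edf : CRef := CRef.mk (Pat.mk 0x3800000028000000000000000000000000 0x200000006f0000003e0000003f000000160000001600000004 6 7) 0 0 (step_sound _ 130 [(rh2c273f8387611dfa.shift 1 0), (rh2cc7d62e70c02209.shift 0 3), (rhba50fd7aca570c30.shift 1 1), (rhd1d05263fabc0227.shift 0 3)] (by decide +kernel))
noncomputable def rh9218e76510abc077 : CRef := CRef.mk (Pat.mk 0x20000000300000002000000000000000000000000 0x1000000070000000700000007000000030000000300000002000000070000000700000005 6 3) 0 0 (step_sound _ 193 [(rh4e2df8342d3b8ae8.shift 0 3), rh9e174856810c5f95, (rhc85cc95794737cf7.shift 0 3), (rhcaa2c1a05e34bcba.shift 0 1)] (by decide +kernel))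
noncomputable def rh0924f6c22d78684e : CRef := CRef.mk (Pat.mk 0x80000000e000000080000000000000000 0xc0000001c0000003c0000003f0000000e000000080000000800000008 6 6) 0 0 (step_sound _ 130 [(rh3cb04db3dd2b6a55.shift 2 0), (rh6df801ae18e203bf.shift 0 2), (rhf8d29f3cbeaf06f7.shift 1 0)] (by decide +kernel))
noncomputable def rhbd0cd2ba6f2bc3e8 : CRef := CRef.mk (Pat.mk 0x1c0000001400000000000000000000000000000000 0x38000000380000007c0000001c0000001f00000038000000380000003800000028 6 7) 0 0 (step_sound _ 100 [(rh0a6888916bcef86b.shift 3 0), (rh25cb02822aee5ab1.shift 0 1), (rhb1a251d9bff81766.shift 3 2), (rhb9a9f864f301596c.shift 0 3)] (by decide +kernel))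
noncomputable def rh2892ba3414d49912 : CRef := CRef.mk (Pat.mk 0x2000000030000000200000000000000000000000000000000 0x5000000070000000700000002000000030000000300000007000000070000000700000001 6 3) 0 0 (step_sound _ 225 [(rh03dfdf12d5937476.shift 0 3), (rh7ef5fa5c39f1c762.shift 0 4), rhfb4cef72887fe1a1] (by decide +kernel))
noncomputable def rh0a92e4abc0c0490f : CRef := CRef.mk (Pat.mk 0x8000000080000000800000004000000000000000000000000 0x8000000180000007c0000001f0000001c0000001800000018 6 7) 0 0 (step_sound _ 99 [rh5a57cb5a3dc070ff, (rh932754581e0f4330.shift 2 2)] (by decide +kernel))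
noncomputable def rh3b5089e08368d24e : CRef := CRef.mk (Pat.mk 0x200000002000000020000000000000000 0x500000007000000070000000200000006000000070000000700000005 6 3) 0 0 (step_sound _ 161 [rh8cdd36b03d57a2f6, (rha06c4909f1a0e49c.shift 0 1), rhb8cbf63831685423, (rhc17b7d8fab3dfe57.shift 0 1), rhda3e9aa795c8beb0] (by decide +kernel))
noncomputable def rhae424091135ed880 : CRef := CRef.mk (Pat.mk 0x80000000a0000000800000000 0x140000001c0000001c000000080000001f0000007c00000014 6 7) 0 0 (step_sound _ 131 [(rha06c4909f1a0e49c.shift 2 0), rhc79057985f2d86aa, (rhc85cc95794737cf7.shift 2 1), (rhced6d86d2069808b.shift 3 0)] (by decide +kernel))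
noncomputable def rhfba30c503268b54c : CRef := CRef.mk (Pat.mk 0x2800000028000000200000002000000000 0x18000000380000003e000001f70000007e0000005f 6 9) 0 0 (step_sound _ 36 [(rh932754581e0f4330.shift 4 0), rhfd674f2e1e6d2639] (by decide +kernel))
noncomputable def rh262cd6629bc3c4f2 : CRef := CRef.mk (Pat.mk 0x2800000028000000000000000000000000 0x20000000770000003f0000007f000000700000003000000020 6 7) 0 0 (step_sound _ 130 [(rh1f7cdca6e3e06448.shift 0 3), (rh8c25cb665ab79ec0.shift 0 3), (rha6816dee951f7ee6.shift 2 3), rhed85be7e1123c252] (by decide +kernel))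
noncomputable def rh9a377f270411f480 : CRef := CRef.mk (Pat.mk 0x800000008000000080000000800000000 0x800000008000000ff0000007f000000f4 6 8) 0 0 (step_sound _ 34 [rh6fcf5e31421c9d6b, (rh932754581e0f4330.shift 2 0)] (by decide +kernel))
noncomputable def rhfdb9c88e61426ec0 : CRef := CRef.mk (Pat.mk 0x3000000020000000200000002000000000000000000000000 0x200000003000000070000000600000006000000030000000300000003 6 3) 0 0 (step_sound _ 65 [rh926247ad34d020a9, (rhffd04209dc8ea796.shift 0 2)] (by decide +kernel))
noncomputable def rh526c91fe3260523b : CRef := CRef.mk (Pat.mk 0x1400000004000000040000000400000000 0x1400000014000000360000007f0000003c00000008 6 7) 0 0 (step_sound _ 35 [(rh55afc6a59410cf00.shift 2 0), (rhcc42de294bf2dcab.shift 0 1)] (by decide +kernel))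
noncomputable def rh184ce968b753cc29 : CRef := CRef.mk (Pat.mk 0x50000000100000003000000010 0x80000005800000058000000f7000000fe000001df 6 9) 0 0 (step_sound _ 35 [rh829172f8aec2bb07, (rh853ddd7028327f8b.shift 1 0), (rhd2c74283b7b6e6b8.shift 3 0)] (by decide +kernel))
noncomputable def rhbaa07f16fa2425e2 : CRef := CRef.mk (Pat.mk 0x800000008000000080000000800000000 0x800000008000000ff000000ff000001f4 6 9) 0 0 (step_sound _ 36 [rh0db14b5bd43248bb, (rh55afc6a59410cf00.shift 3 0)] (by decide +kernel))
noncomputable def rhf93db1b14aa15dd2 : CRef := CRef.mk (Pat.mk 0x500000001000000010000000000000000000000000 0x5000000050000001fe000001fe000003ef0000002800000028 6 10) 0 0 (step_sound _ 101 [(rh046c5eb18e55a239.shift 4 0), (rh4b70967dac522985.shift 1 0), rh71e3d3491fd500fc, (rha32de4419b47bdd9.shift 1 0)] (by decide +kernel))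
noncomputable def rh6d34db2c26d954fd : CRef := CRef.mk (Pat.mk 0x14000000040000000c000000000000000000000000 0x18000000180000001c0000003e0000007f0000007c0000001c00000010 6 7) 0 0 (step_sound _ 131 [(rh184d9b89d7688cca.shift 1 0), (rh78577c36d655c1bc.shift 0 2), (rhb23334cf3920b207.shift 2 1), (rhc55bb2429cafb35b.shift 2 1), (rhe48108ae8ec5ee41.shift 0 1)] (by decide +kernel))
noncomputable def rhc9fb511dbfb563a6 : CRef := CRef.mk (Pat.mk 0x50000000100000003000000000 0x200000007000000070000003fe000001fe000003c7 6 10) 0 0 (step_sound _ 38 [(rh1aae126fdb0efa1d.shift 3 0), rh440a372cecb3299e, (rha9fbfd4bb8cf890b.shift 1 1), (rhc74291bae5e3196d.shift 3 0)] (by decide +kernel))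
noncomputable def rh9996e0c105e13dd8 : CRef := CRef.mk (Pat.mk 0x2000000020000000200000002000000000000000000000000 0x600000006000000070000000300000003000000060000000600000006 6 3) 0 0 (step_sound _ 194 [rh2ab43325e74c765a, (rh2f68792b6b779e96.shift 1 3)] (by decide +kernel))
noncomputable def rh258ecafc2a6fbab6 : CRef := CRef.mk (Pat.mk 0x2800000008000000080000000800000000 0x3000000038000000180000003c000000ff00000034 6 8) 0 0 (step_sound _ 36 [(rh55afc6a59410cf00.shift 3 0), rh5d1c7673b984350f] (by decide +kernel))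
noncomputable def rhc5ba9362eea1daee : CRef := CRef.mk (Pat.mk 0x3800000008000000000000000000000000 0xf0000003e0000007f000000060000000600000004 6 7) 0 0 (step_sound _ 130 [(rh008b05f4778dc30d.shift 0 3), (rh0d378fd9e8917c5a.shift 0 3), (rh775ca1963e850b80.shift 0 3), (rhd1a4e8157d0a435e.shift 1 0)] (by decide +kernel))
noncomputable def rh89b1aa9ff8ca92ce : CRef := CRef.mk (Pat.mk 0x380000000800000000000000000000000000000000 0x10000000140000003f000000380000003f000000fc0000003c0000001c00000014 6 8) 0 0 (step_sound _ 99 [(rh15590a39afd9a120.shift 2 0), (rh421cce82bb1068e3.shift 2 0), (rh483977ec4c7a5d44.shift 2 1), rh5ea9e6ad844c42a5, (rhe3458ab40071103b.shift 3 2)] (by decide +kernel))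
noncomputable def rha5a9c4ecd1dd66cc : CRef := CRef.mk (Pat.mk 0x60000001e000000000000000000000000 0x2000000020000000b0000003e0000001e000000340000001000000010 6 6) 0 0 (step_sound _ 132 [(rh33e738c4ed385b9f.shift 1 3), rh7f97768d7a8b72b2] (by decide +kernel))
noncomputable def rh226e81f754f5378b : CRef := CRef.mk (Pat.mk 0x80000000c0000000400000000 0x4000000040000003f0000001f0000007c0000000e0000007e00000012 6 7) 0 0 (step_sound _ 131 [rh4086019f705d2e4f, (rh5c5e593799055d58.shift 2 1)] (by decide +kernel))
noncomputable def rh77afee3ab9823cce : CRef := CRef.mk (Pat.mk 0x100000001c000000080000000000000000 0x80000000c0000000f0000007f0000001c0000001c0000000c0000000c 6 7) 0 0 (step_sound _ 131 [(rh42318ac00affc0c4.shift 0 1), (rh646349a8905f6aa8.shift 2 0), (rh7bee4587ac150c6b.shift 2 0), (rh9e3b1e140de3a5a8.shift 2 0), rhe091fe2805d11b7c] (by decide +kernel))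
noncomputable def rhaf97f0846485ce2c : CRef := CRef.mk (Pat.mk 0x4000000040000000400000016000000000000000000000000 0x40000000c0000003c0000001f000000380000001000000010 6 6) 0 0 (step_sound _ 99 [(rh55afc6a59410cf00.shift 2 2), rh6887ef21f67dd26a] (by decide +kernel))
noncomputable def rh3cdec0357e735e81 : CRef := CRef.mk (Pat.mk 0x600000004000000140000000400000000 0x780000003e000000770000001c0000000c00000008 6 7) 0 0 (step_sound _ 131 [(rh2f68792b6b779e96.shift 2 1), rh675171810d2c5abf] (by decide +kernel))
noncomputable def rhabdefe5a389d84c6 : CRef := CRef.mk (Pat.mk 0x1800000008000000080000000800000000 0x70000007f0000003e0000000c0000000c00000004 6 7) 0 0 (step_sound _ 130 [(rh50fbb5868c909700.shift 2 1), rhd8790672a1ed5369] (by decide +kernel))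
noncomputable def rh6645e1d3d4c8366a : CRef := CRef.mk (Pat.mk 0x1000000010000000500000001000000000 0x1000000010000000770000003e0000002f 6 7) 0 0 (step_sound _ 35 [(rh932754581e0f4330.shift 3 0), rhd64b747b154b9b5a] (by decide +kernel))
noncomputable def rhd708c00b074787bf : CRef := CRef.mk (Pat.mk 0x800000038000000000000000000000000 0x20000000700000007f0000003f000000700000003000000030 6 7) 0 0 (step_sound _ 98 [(rh0d378fd9e8917c5a.shift 0 2), (rh915c3ff3d4fe3a39.shift 0 3), (rhb5e5658b4fcb7496.shift 1 0), (rhce71534e51e0a15e.shift 1 0)] (by decide +kernel))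
noncomputable def rhff20f507afa0fde7 : CRef := CRef.mk (Pat.mk 0x800000038000000000000000000000000 0x800000028000000780000003f0000007f0000001400000014 6 7) 0 0 (step_sound _ 98 [(rh008b05f4778dc30d.shift 0 2), (rh1efbca428b37b99e.shift 0 2), (rh3423e5ac208fb65b.shift 1 0), (rhce71534e51e0a15e.shift 1 0)] (by decide +kernel))
noncomputable def rhb0cd22231846ef9d : CRef := CRef.mk (Pat.mk 0x800000038000000000000000000000000 0x80000003f0000003f000000670000000400000004 6 7) 0 0 (step_sound _ 98 [(rh4f129d8f37c2c70a.shift 1 0), (rh775ca1963e850b80.shift 0 2), (rh7930b6a6b862f234.shift 0 2), (rhb51eb86ef0926897.shift 0 2)] (by decide +kernel))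
noncomputable def rhab78bc6faeb006a4 : CRef := CRef.mk (Pat.mk 0x40000001c000000080000000000000000 0x800000018000000780000007f0000001c0000001c0000001800000018 6 7) 0 0 (step_sound _ 131 [rh6afa81102861df23, (rh946ad1c5029f6282.shift 0 1), rh9d686d07e48c9832, (rhb8538ce4e5e6cda1.shift 2 0)] (by decide +kernel))
noncomputable def rh441e137f2a7cebf8 : CRef := CRef.mk (Pat.mk 0x800000008000000380000001000000000 0xf0000000780000003f000000380000003e00000004 6 8) 0 0 (step_sound _ 132 [(rh25125a38b0fff42f.shift 0 1), (rh675ab9d4ddf88e9c.shift 1 0)] (by decide +kernel))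
noncomputable def rh168dd4f386bd0d67 : CRef := CRef.mk (Pat.mk 0x8000000380000001000000000 0x380000007c0000003f000000380000001e00000004 6 7) 0 0 (step_sound _ 131 [(rh2145e1d24b96a57e.shift 3 1), rh96d494a9008bcdf2] (by decide +kernel))
noncomputable def rh51f916e38f2d6d96 : CRef := CRef.mk (Pat.mk 0x40000001e0000000000000000 0x30000000300000003f0000001e0000003800000008 6 6) 0 0 (step_sound _ 36 [rh14ebe618fe80128a, (rhe25b0a99195a5d59.shift 1 1)] (by decide +kernel))
noncomputable def rhc2605536edea4d96 : CRef := CRef.mk (Pat.mk 0x30000000f000000000000000000000000 0x180000001a0000001f0000000f0000001e0000000400000004 6 5) 0 0 (step_sound _ 131 [(rh33e738c4ed385b9f.shift 0 3), rh40e309458db74006] (by decide +kernel))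
noncomputable def rh374a19256bd45f46 : CRef := CRef.mk (Pat.mk 0x80000002c000000000000000000000000 0x800000028000000780000003f0000007f0000001400000014 6 7) 0 0 (step_sound _ 100 [(rh008b05f4778dc30d.shift 0 2), (rh1efbca428b37b99e.shift 0 2), (rh3423e5ac208fb65b.shift 1 0), (rhce71534e51e0a15e.shift 1 0)] (by decide +kernel))
noncomputable def rh31c5730823c4e171 : CRef := CRef.mk (Pat.mk 0x10000000180000000c00000000 0x80000001c0000001e000000780000001c000000ff00000024 6 8) 0 0 (step_sound _ 132 [(rh5c5e593799055d58.shift 3 1), rhc1eb44e1fc7c1138] (by decide +kernel))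
noncomputable def rhf6cbd96955cc284a : CRef := CRef.mk (Pat.mk 0x400000006000000030000000000000000000000000 0x480000007c0000007f000000fc0000019c0000001800000008 6 9) 0 0 (step_sound _ 99 [(rh53b3c253cb0c65f4.shift 2 3), rhb21e21dc9ce67282] (by decide +kernel))
noncomputable def rh2e64405cda5af9f0 : CRef := CRef.mk (Pat.mk 0x200000003000000018000000000000000000000000 0x1c0000001c0000007f0000003f0000001f0000000c0000000c0000000c 6 7) 0 0 (step_sound _ 131 [(rh28e1e1164c52ddeb.shift 0 3), rh8fbf6d3b4c127e0b, (rhf0ab1ab592ea3c19.shift 0 3)] (by decide +kernel))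
noncomputable def rhb48940cc4d5a3f37 : CRef := CRef.mk (Pat.mk 0x200000003000000018000000000000000000000000 0x380000003c000001f80000003f000000fe000000460000000400000004 6 9) 0 0 (step_sound _ 131 [(rh0ef477213ce910d0.shift 1 3), rh23a7fc9abecba92d, (rh28e1e1164c52ddeb.shift 0 3), (rh4e9b41e021d863b7.shift 1 2)] (by decide +kernel))
noncomputable def rh05dbe2e0233e28ef : CRef := CRef.mk (Pat.mk 0x10000000180000000c0000000000000000 0x12000000330000001f0000003f0000006700000004 6 7) 0 0 (step_sound _ 65 [(rh53b3c253cb0c65f4.shift 0 2), rha108f4d30a6e9f04] (by decide +kernel))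
noncomputable def rh9bca61cc2fdb2eba : CRef := CRef.mk (Pat.mk 0x10000000180000000c00000000 0x8000000080000001c0000001e00000078000000180000003f00000027 6 7) 0 0 (step_sound _ 132 [rh57a00d60287193ac, (rh5c5e593799055d58.shift 3 1)] (by decide +kernel))
noncomputable def rh93575e2bb9e050e4 : CRef := CRef.mk (Pat.mk 0x200000003000000018000000000000000000000000 0x1c0000001c0000007f0000003e000000780000000c0000000c0000000c 6 7) 0 0 (step_sound _ 131 [(rh0ef477213ce910d0.shift 1 3), rh8fbf6d3b4c127e0b] (by decide +kernel))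
noncomputable def rhc7606b3056e0aba2 : CRef := CRef.mk (Pat.mk 0x200000003000000018000000000000000000000000 0x780000003f0000007e0000000f0000000c0000000c 6 7) 0 0 (step_sound _ 98 [(rh53b3c253cb0c65f4.shift 1 3), rhf5c687748b2f890d] (by decide +kernel))
noncomputable def rha13180bff21fee6a : CRef := CRef.mk (Pat.mk 0xc00000016000000000000000000000000 0xc0000003f0000001e000000330000001200000012 6 6) 0 0 (step_sound _ 99 [rh4f129d8f37c2c70a, (rhe7d1749390aefb37.shift 1 0), rhefb519189d8f62d1] (by decide +kernel))
noncomputable def rh65de3dac91e118b1 : CRef := CRef.mk (Pat.mk 0x1c00000016000000000000000000000000 0x600000016000000370000001f0000001e0000000b0000000b00000003 6 6) 0 0 (step_sound _ 129 [rh9106cea440f48aab, (rh9c1f3b793e9a3050.shift 0 1), (rh9f7669c0799aba17.shift 0 1)] (by decide +kernel))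
noncomputable def rh45381e84731aea71 : CRef := CRef.mk (Pat.mk 0xe0000001c000000000000000000000000 0xf0000007e0000001e000000f80000001000000010 6 8) 0 0 (step_sound _ 132 [(rh771383521b68d2cd.shift 0 3), rh798ec962e22d8de6, (rhf9d36e158778ce35.shift 1 3)] (by decide +kernel))
noncomputable def rhd5c21cff0f828663 : CRef := CRef.mk (Pat.mk 0x70000000e000000000000000000000000 0xc0000000c0000001c0000003f0000000f000000180000001800000018 6 6) 0 0 (step_sound _ 131 [rh24e5068e31ff08b5, (rhf9d36e158778ce35.shift 0 3)] (by decide +kernel))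
noncomputable def rhe8d8facb1977a67d : CRef := CRef.mk (Pat.mk 0x70000000e0000000000000000 0x60000000e0000001e000000070000000f0000001d0000000c 6 5) 0 0 (step_sound _ 129 [(rh1e178c901be7c8bc.shift 0 1), (rh55a1f6c57a317ce6.shift 1 0), rh9ce69c879dc440b9] (by decide +kernel))
noncomputable def rhfdc9c030b0627b9e : CRef := CRef.mk (Pat.mk 0x700000007000000000000000000000000 0x50000000700000007000000070000001e0000000e00000006 6 5) 0 0 (step_sound _ 65 [rh40241bd608e5be1a, rha7e6172d37a9348a, (rhea7a1800d6f053bd.shift 1 0)] (by decide +kernel))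
noncomputable def rh1884446023c3536e : CRef := CRef.mk (Pat.mk 0x1800000028000000000000000000000000 0x20000000700000007e0000003f000000770000003000000020 6 7) 0 0 (step_sound _ 98 [(rh6b9ceb06d65958ae.shift 0 2), (rhd69c262cd33b94b3.shift 0 3), (rhfc1d83842c343c73.shift 1 0)] (by decide +kernel))
noncomputable def rh201876cfc0638896 : CRef := CRef.mk (Pat.mk 0x1c00000016000000000000000000000000 0x10000000340000001f0000001e0000003b0000001a0000001a 6 6) 0 0 (step_sound _ 99 [(rh1375d65e18b64d08.shift 0 1), (rh2ee2395d40407687.shift 1 0), rh4f129d8f37c2c70a] (by decide +kernel))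
noncomputable def rhcddd2f7157a3b8f8 : CRef := CRef.mk (Pat.mk 0x80000001c0000001400000000 0x60000000e0000000f0000003e0000007c0000001c00000008 6 7) 0 0 (step_sound _ 131 [(rh2145e1d24b96a57e.shift 3 1), rhd6f19ada2669f0d7] (by decide +kernel))
noncomputable def rh4464f26b0ce85aec : CRef := CRef.mk (Pat.mk 0x200000007000000050000000000000000 0xc0000001e00000007000000070000001e0000000e 6 5) 0 0 (step_sound _ 34 [rh61b021f318f1fd0e, (rh7b1f1fb55310c477.shift 1 0)] (by decide +kernel))
noncomputable def rhf70c4b85d91a71b2 : CRef := CRef.mk (Pat.mk 0x1c00000014000000100000000000000000 0x380000007c0000001c0000001f000000780000002800000008 6 7) 0 0 (step_sound _ 99 [(rh3d34e7c02f804101.shift 2 0), (rh489a569c723e0fda.shift 2 0), (rhf56e6bc5d2f7fe77.shift 0 2)] (by decide +kernel))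
noncomputable def rh85a3fb247361a281 : CRef := CRef.mk (Pat.mk 0x1c000000380000000000000000 0x1c0000003f0000007c0000001c000000380000003000000030 6 7) 0 0 (step_sound _ 131 [(rh55a1f6c57a317ce6.shift 3 0), (rh9ce69c879dc440b9.shift 2 0), (rhbafb842230215364.shift 0 1)] (by decide +kernel))
noncomputable def rhd4c9f9c708214107 : CRef := CRef.mk (Pat.mk 0x8000000080000000c00000014000000000000000000000000 0x170000003f0000007f0000001f0000001c000000080000000800000008 6 7) 0 0 (step_sound _ 99 [(rh49fe7cd8d3dde189.shift 0 2), (rh55a3f2d695b6b249.shift 0 2), (rh5ee4dc8825dcefa0.shift 0 2), (rh754ed8af3fcc8232.shift 0 3), (rha10abbb88ab9db0f.shift 0 2), rha8fe94fd750264a6] (by decide +kernel))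
noncomputable def rha443e2ddeb13b723 : CRef := CRef.mk (Pat.mk 0x8000000080000000c0000001000000000 0x140000001c0000001c0000000f0000001800000018 6 5) 0 0 (step_sound _ 35 [rh49fe7cd8d3dde189, (rh55afc6a59410cf00.shift 3 0)] (by decide +kernel))
noncomputable def rhc8a7b40eec10c69f : CRef := CRef.mk (Pat.mk 0x8000000080000000c0000001400000000 0x2000000022000001fb0000007f0000003f0000001400000010 6 9) 0 0 (step_sound _ 100 [rhb2ebc44568671e7f, (rhd69c262cd33b94b3.shift 0 2), (rhdb4a49ba45cc3ae8.shift 2 0), rhe0a188546588f854] (by decide +kernel))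
noncomputable def rh94b94bdfca5de44a : CRef := CRef.mk (Pat.mk 0x80000000e000000140000000000000000 0x300000003000000030000000ff000000fe000001dc0000001800000018 6 9) 0 0 (step_sound _ 100 [(rh1690883feee00726.shift 0 2), (rhcd66880aa8253b24.shift 1 2), (rhda8c3feb570db0ed.shift 0 2), (rhee0cdae7a56d461d.shift 1 0), (rhf94411b389c3e54c.shift 0 3)] (by decide +kernel))
noncomputable def rhc12621e2646c6fd6 : CRef := CRef.mk (Pat.mk 0x80000000e000000080000000000000000 0x600000006000000170000003f0000003e000000080000000800000008 6 6) 0 0 (step_sound _ 130 [(rh3cb04db3dd2b6a55.shift 2 0), (rhd08bd81f52bc963d.shift 0 2), (rhf8d29f3cbeaf06f7.shift 1 0)] (by decide +kernel))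
noncomputable def rh0bea3dde8990852d : CRef := CRef.mk (Pat.mk 0x100000001c000000140000000000000000 0x20000000b0000001f0000003f000000140000001000000010 6 6) 0 0 (step_sound _ 131 [(rh3cb04db3dd2b6a55.shift 3 0), (rh8e1882cafcba546f.shift 0 2)] (by decide +kernel))
noncomputable def rh60f087c0d2371dd9 : CRef := CRef.mk (Pat.mk 0x1e00000004000000000000000000000000 0x600000006000000070000001e00000007000000030000000300000003 6 5) 0 0 (step_sound _ 97 [rh9106cea440f48aab, (rheb0810cc63b001d8.shift 0 3)] (by decide +kernel))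
noncomputable def rhfc1d0640e296a349 : CRef := CRef.mk (Pat.mk 0x1800000038000000000000000000000000 0x10000000780000003f000000670000002000000020 6 7) 0 0 (step_sound _ 98 [(rh0e1512cbacfbd48b.shift 0 2), (rhab2ad169e49f9c5e.shift 0 3), (rhefb519189d8f62d1.shift 1 0)] (by decide +kernel))
noncomputable def rh25ff187e1daa8765 : CRef := CRef.mk (Pat.mk 0x20000000f000000000 0x3f000000fe0000018e 6 9) 0 0 (step_sound _ 7 [rh820546166e3a0a00, (rhe25b0a99195a5d59.shift 4 0)] (by decide +kernel))
noncomputable def rha5dd842502aeeece : CRef := CRef.mk (Pat.mk 0x100000007800000000 0x3e0000007e000000c7 6 8) 0 0 (step_sound _ 6 [rh52e40bcab13c8c05, (rhe25b0a99195a5d59.shift 3 0)] (by decide +kernel))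
noncomputable def rhd10a331af79ee974 : CRef := CRef.mk (Pat.mk 0x1000000018000000080000000800000000 0x80000000c000000ec000000ff0000001f0000001c0000000c00000004 6 8) 0 0 (step_sound _ 131 [(rh0fd870c734e6c513.shift 2 0), (rh28c8c9661f6daf2b.shift 0 1), (rh35d1cf980e059eae.shift 2 0), (rh8d99d90023130d2c.shift 2 1)] (by decide +kernel))
noncomputable def rhf8ad211a0d0599b7 : CRef := CRef.mk (Pat.mk 0x8000000080000000c0000000400000000 0x400000004000000060000001f0000007e0000000f0000007c00000010 6 7) 0 0 (step_sound _ 130 [(rh54d59ef5a770bd2c.shift 0 1), (rhab1d70f87bdc4aa6.shift 1 0), (rhf9a6286f1d5377a2.shift 2 1)] (by decide +kernel))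
noncomputable def rh83d183dc22d02bb7 : CRef := CRef.mk (Pat.mk 0x60000001c000000000000000000000000 0xa0000000e0000001e0000003f0000003e0000001f0000000c0000000800000008 6 6) 0 0 (step_sound _ 162 [(rh046c5eb18e55a239.shift 2 0), (rh70e33bfdf511e144.shift 2 0), (rh953af6dbba9c9ad2.shift 0 1), (rhf527cf5683b56bd8.shift 1 2)] (by decide +kernel))
noncomputable def rh6c267ad67af86271 : CRef := CRef.mk (Pat.mk 0x100000001800000070000000000000000000000000 0x40000002c000000ee000000ff0000003800000078000000700000002000000020 6 8) 0 0 (step_sound _ 163 [(rh1ef90faddd7efaf0.shift 0 3), (rh27c8340262f79fa3.shift 2 0), (rhfc7c29d8e65d775f.shift 3 2)] (by decide +kernel))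
noncomputable def rh5574f7d634810163 : CRef := CRef.mk (Pat.mk 0x20000000e00000004000000000000000000000000 0x80000000e0000000f0000003e0000007c0000001c00000008 6 7) 0 0 (step_sound _ 66 [(rh7b1f1fb55310c477.shift 1 1), rhed6838a9fc546401] (by decide +kernel))
noncomputable def rh013b246ad8761497 : CRef := CRef.mk (Pat.mk 0x4000000040000001c000000080000000000000000 0x7b0000007e0000007c0000001f0000007c0000003000000010 6 7) 0 0 (step_sound _ 68 [(rh6292bd8784ece55f.shift 1 2), (rhabccc69e51b3d0d9.shift 1 0), (rhb376a9803e26d872.shift 0 1)] (by decide +kernel))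
noncomputable def rhc6ee58f06e2c3c72 : CRef := CRef.mk (Pat.mk 0x30000000f0000000000000000 0x140000001c0000001e0000001b0000000f0000001c00000004 6 5) 0 0 (step_sound _ 35 [rh8adbe9673c811f0b, (rhe25b0a99195a5d59.shift 0 1)] (by decide +kernel))
noncomputable def rh32a3539172fc0837 : CRef := CRef.mk (Pat.mk 0x20000000f000000000 0x3f000000fe0000000e 6 8) 0 0 (step_sound _ 35 [(rh0a74f7641db5049f.shift 1 0), rh1f9701c4cf497514, (rh775ca1963e850b80.shift 1 0), (rhd5eb272e07a4e288.shift 2 1)] (by decide +kernel))
noncomputable def rh420ce96d7771fd92 : CRef := CRef.mk (Pat.mk 0x70000000e000000000000000000000000 0x40000000c0000003e000000070000000e0000000e0000000c0000000c 6 6) 0 0 (step_sound _ 162 [(rh503dd4575245365b.shift 1 2), rh85840abc9fa9f42c, (rhde10baa3043a2b46.shift 1 2)] (by decide +kernel))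
noncomputable def rhaaceec274018b92f : CRef := CRef.mk (Pat.mk 0xc0000001c00000000 0x18000000180000003f0000007f0000001c00000014 6 7) 0 0 (step_sound _ 65 [rh66f06f7d59787da3, (rhb739f4f82bb681b4.shift 0 1)] (by decide +kernel))
noncomputable def rhc8c83a2a21d56b39 : CRef := CRef.mk (Pat.mk 0x20000000300000007000000000000000000000000 0xc0000001e00000007000000070000001e0000000e00000006 6 5) 0 0 (step_sound _ 65 [rh15a1b6b82d9fd81f, rh820d4e04d5dcd02e, (rhadd74a1fd122891a.shift 0 1)] (by decide +kernel))
noncomputable def rhe8da54921fc442c2 : CRef := CRef.mk (Pat.mk 0x60000001e00000000 0x200000002000000030000003e0000001f00000034 6 6) 0 0 (step_sound _ 4 [rh885be8d04daa096d, (rhe25b0a99195a5d59.shift 1 0)] (by decide +kernel))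
noncomputable def rh01f3958885c39692 : CRef := CRef.mk (Pat.mk 0x10000000100000005800000008000000000000000000000000 0x80000006c0000007c0000001f0000007c0000001c000000040000000400000004 6 7) 0 0 (step_sound _ 163 [(rh51246ab843efda05.shift 2 3), (rh58aa26c47e50de25.shift 2 0), (rh77aff2a1b006188a.shift 0 4), (rhca9febac227b7e92.shift 1 2)] (by decide +kernel))
noncomputable def rhdf825d7108bfd8d4 : CRef := CRef.mk (Pat.mk 0x400000006000000030000000000000000000000000 0x280000007c0000007f0000007c0000003e0000003800000018 6 7) 0 0 (step_sound _ 99 [(rh53b3c253cb0c65f4.shift 2 3), rhb808b86363df2ec8] (by decide +kernel))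
noncomputable def rh3f918cbd909d8f78 : CRef := CRef.mk (Pat.mk 0x2000000020000000300000000 0x200000003000000070000000700000007000000070000000300000002 6 3) 0 0 (step_sound _ 129 [rh56dc9eba420159ed, (rha54302d5ccf5246c.shift 0 1), rhc4055b4872d6fb38] (by decide +kernel))
noncomputable def rh507dcce9a4a6639c : CRef := CRef.mk (Pat.mk 0x8000000080000000c0000000400000000 0x400000004000000370000001f0000007f0000000e0000000e00000002 6 7) 0 0 (step_sound _ 130 [(rh1f2ba46b58dc76b2.shift 0 1), (rh714572a5906b5477.shift 0 1), rh96168f1699a8b051, (rhf9a6286f1d5377a2.shift 2 1)] (by decide +kernel))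
noncomputable def rh9fa5c755ecf8ee6a : CRef := CRef.mk (Pat.mk 0x80000002c000000000000000000000000 0x80000003f0000003f000000670000000400000004 6 7) 0 0 (step_sound _ 100 [(rh1efbca428b37b99e.shift 0 2), (rh4f129d8f37c2c70a.shift 1 0), (rh775ca1963e850b80.shift 0 2), (rh7930b6a6b862f234.shift 0 2)] (by decide +kernel))
noncomputable def rh33ed43a09d457e0e : CRef := CRef.mk (Pat.mk 0x30000000200000002000000020 0x3ce000001fe000001f70000002000000020 6 10) 0 0 (step_sound _ 102 [(rh2f68792b6b779e96.shift 5 0), (rhfad416c62ec06eee.shift 0 2)] (by decide +kernel))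
noncomputable def rhe511d529d3f92f44 : CRef := CRef.mk (Pat.mk 0x80000001c000000140000000000000000 0x38000000780000003f0000007f0000001c0000000800000008 6 7) 0 0 (step_sound _ 163 [(rh2145e1d24b96a57e.shift 3 2), rh650d44d32ccc672b] (by decide +kernel))
noncomputable def rh95b4f6618bd78dfa : CRef := CRef.mk (Pat.mk 0x80000001c000000140000000000000000 0x10000000380000001f0000001c0000007800000038 6 7) 0 0 (step_sound _ 132 [(rhab2ad169e49f9c5e.shift 0 3), (rhdca12aabe2b3e657.shift 2 0)] (by decide +kernel))
noncomputable def rh0ff57346a75391ee : CRef := CRef.mk (Pat.mk 0x1e00000010000000000000000000000000 0x8000000180000003b0000001e00000018000000380000003800000028 6 6) 0 0 (step_sound _ 161 [(rh3244c3cc8379b070.shift 0 4), (rhd3d0f47e237af63e.shift 1 0)] (by decide +kernel))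
noncomputable def rha1ec1e04b20633f4 : CRef := CRef.mk (Pat.mk 0xc0000001c000000000000000000000000 0x800000018000000780000001f0000001c0000001c0000001800000018 6 7) 0 0 (step_sound _ 129 [(rh7d449143ca16be3f.shift 1 0), (rhb739f4f82bb681b4.shift 0 3)] (by decide +kernel))
noncomputable def rh2c56f29984e7b775 : CRef := CRef.mk (Pat.mk 0xc0000001e00000000 0x200000002000000030000003f0000001e00000007 6 6) 0 0 (step_sound _ 0 [rh5b076ea63a7aaa2d, rh80fcd6d0a18cb2dd] (by decide +kernel))
noncomputable def rh13f84535f1b80ed7 : CRef := CRef.mk (Pat.mk 0x80000000e000000140000000000000000 0x3000000032000000330000007f0000007e0000001c0000001c00000018 6 7) 0 0 (step_sound _ 100 [rh868ca5f8f308066e, (rha65e076fdd207854.shift 0 1), (rhcd66880aa8253b24.shift 1 2), (rhee0cdae7a56d461d.shift 1 0)] (by decide +kernel))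
noncomputable def rh9e233564a3b1dcb3 : CRef := CRef.mk (Pat.mk 0x18000000280000000000000000 0x1400000054000001ff000000fe0000002f0000002800000020 6 9) 0 0 (step_sound _ 101 [(rh2820ca9a6c4f41b4.shift 0 2), (rh2bb0da32b6e76d07.shift 2 0), (rh5024bbfb5139b661.shift 2 2), (rh7638832f7526c2cc.shift 0 1)] (by decide +kernel))
noncomputable def rh0b14f0065fde44fc : CRef := CRef.mk (Pat.mk 0x1000000010000000100000005800000000 0x10000000100000003e0000007e00000027 6 7) 0 0 (step_sound _ 37 [rh52e40bcab13c8c05, (rh55afc6a59410cf00.shift 4 0)] (by decide +kernel))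
noncomputable def rh63f00550fb6e6ae1 : CRef := CRef.mk (Pat.mk 0x3000000020000000200000002000000000 0x4e000001fe0000003f000000300000003000000010 6 9) 0 0 (step_sound _ 134 [rh21e46ae3afcf8f9c, (rh2f68792b6b779e96.shift 5 1)] (by decide +kernel))
noncomputable def rh0ff10877a3f901ed : CRef := CRef.mk (Pat.mk 0x3000000010000000500000001000000000 0xf0000007e0000003e000000780000003000000020 6 7) 0 0 (step_sound _ 131 [(rh50fbb5868c909700.shift 3 1), rhf4367b44ef8fcb21] (by decide +kernel))
noncomputable def rhc7b0762b2ca2cfd7 : CRef := CRef.mk (Pat.mk 0x30000000100000005000000010 0x1cf000000fe000000f70000005000000050 6 9) 0 0 (step_sound _ 99 [(rh50fbb5868c909700.shift 3 0), rhf2b1f500f996bfff] (by decide +kernel))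
noncomputable def rhcd6c9152960f9ccf : CRef := CRef.mk (Pat.mk 0x280000002c00000000 0x400000006000000060000003f0000003e0000006f 6 7) 0 0 (step_sound _ 36 [rh2591032a0e7f4182, (rh38b486c57ca1ba9f.shift 1 0), rh775ca1963e850b80, rhc570c09f7c0268b1] (by decide +kernel))
noncomputable def rh9c502599e6c72ce9 : CRef := CRef.mk (Pat.mk 0x380000002c00000000000000000000000000000000 0x1000000050000000f0000000380000002f0000007c000000700000007000000050 6 8) 0 0 (step_sound _ 129 [(rh3b87f52849d33737.shift 1 0), (rh53b3c253cb0c65f4.shift 0 4)] (by decide +kernel))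
noncomputable def rha6d0ae3a8ac7d01e : CRef := CRef.mk (Pat.mk 0x100000001e00000000000000000000000000000000 0x10000000180000001e0000003f000000380000003800000010 6 6) 0 0 (step_sound _ 100 [rhd95d9b4c8f300cb8, (rhe25b0a99195a5d59.shift 1 3)] (by decide +kernel))
noncomputable def rhaec9c4e465917c61 : CRef := CRef.mk (Pat.mk 0x2000000038000000000000000000000000 0x4000000360000007e0000007f0000000800000008 6 7) 0 0 (step_sound _ 98 [(rh2591032a0e7f4182.shift 0 2), (rh2ebbcfe90e0f250d.shift 1 2), (rhafa5a7051d37b143.shift 1 0)] (by decide +kernel))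
noncomputable def rha5f173e13982608c : CRef := CRef.mk (Pat.mk 0x140000001e0000000000000000 0x30000000300000001f0000001e0000003b00000008 6 6) 0 0 (step_sound _ 33 [rh00e8b61669cb3aff, (rheb0810cc63b001d8.shift 0 1)] (by decide +kernel))
noncomputable def rh729f46b9b92d76f4 : CRef := CRef.mk (Pat.mk 0x280000003800000000 0x400000006000000060000003f0000003e0000000f 6 6) 0 0 (step_sound _ 34 [rh2591032a0e7f4182, (rh38b486c57ca1ba9f.shift 1 0), rh775ca1963e850b80, (rh7fb660bc21ce4329.shift 0 1)] (by decide +kernel))
noncomputable def rhe59a204cea0ca29b : CRef := CRef.mk (Pat.mk 0x280000003800000000 0x400000006000000060000003f0000003e0000006f 6 7) 0 0 (step_sound _ 34 [rh2591032a0e7f4182, (rh38b486c57ca1ba9f.shift 1 0), rh775ca1963e850b80, rhc570c09f7c0268b1] (by decide +kernel))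
noncomputable def rh220507a384c3b0a3 : CRef := CRef.mk (Pat.mk 0x2000000030000000200000000000000000000000000000000 0x5000000070000000700000002000000030000000300000007000000070000000700000001 6 3) 0 0 (step_sound _ 97 [(rh3d48cb4e7e716da9.shift 0 2), rh4ed972033d0a12ff, (rh8cdd36b03d57a2f6.shift 0 1), (rh8ff71bc284510f75.shift 0 1)] (by decide +kernel))
noncomputable def rh3b1012b139e91e29 : CRef := CRef.mk (Pat.mk 0x40000000700000004000000000000000000000000 0x40000000400000004000000070000001f0000003e0000000e0000000e 6 6) 0 0 (step_sound _ 97 [(rh121397a93ef3afd3.shift 0 2), (rh1e309b005ffa1b36.shift 1 1), rhcea713e1810575e1] (by decide +kernel))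
noncomputable def rh104b1e5f7313c97e : CRef := CRef.mk (Pat.mk 0x140000001c000000000000000000000000 0x1800000018000000380000001f0000001c0000007c0000003800000038 6 7) 0 0 (step_sound _ 164 [rh1fafd33512178a6e, (rh281c6819542c66e6.shift 3 0), (rh972f0859fbdb0652.shift 0 2), (rhfafeb437ceb8396d.shift 3 0)] (by decide +kernel))
noncomputable def rhac2f963dd3ca550f : CRef := CRef.mk (Pat.mk 0x20000000200000003800000000 0x2000000020000000670000003e00000017 6 7) 0 0 (step_sound _ 4 [(rh5c5e593799055d58.shift 4 0), rhb12ffaec36122c99] (by decide +kernel))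
noncomputable def rhd8585d8a33a51a7d : CRef := CRef.mk (Pat.mk 0x200000003800000000 0x670000003e00000067 6 7) 0 0 (step_sound _ 34 [(rh33e738c4ed385b9f.shift 2 1), rha5346060b12b3a35] (by decide +kernel))
noncomputable def rh394de32dd649c69c : CRef := CRef.mk (Pat.mk 0x4000000080000000800000008 0x18000000180000001c0000001f0000007c0000001800000008 6 7) 0 0 (step_sound _ 99 [(rh50fbb5868c909700.shift 2 0), rh9071b774bf147d58] (by decide +kernel))
noncomputable def rh80ac5a18e8fb3d26 : CRef := CRef.mk (Pat.mk 0x20000000200000002000000000000000000000000 0x500000007000000070000000600000002000000070000000700000005 6 3) 0 0 (step_sound _ 65 [rh367118e0bf0473e0, (rh762a1aeaf83c662a.shift 0 1), rh8cdd36b03d57a2f6, (rhc9de03f9731897d4.shift 1 0)] (by decide +kernel))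
noncomputable def rh020ae2df6dff5342 : CRef := CRef.mk (Pat.mk 0x20000000300000002000000000000000000000000 0x1000000070000000700000007000000030000000300000002000000070000000700000005 6 3) 0 0 (step_sound _ 65 [(rh1fb4cf4f215fbb9c.shift 0 2), rh3181373a30ceb9e3, (rhe286c75f2739cce2.shift 0 1)] (by decide +kernel))
noncomputable def rh798a3b3ae98a685a : CRef := CRef.mk (Pat.mk 0x80000000a00000008000000000000000000000000 0x140000003c0000001f00000008000000180000001800000010 6 6) 0 0 (step_sound _ 67 [(rh46baee19951a66e7.shift 2 0), (rh508339421bf2cc29.shift 0 1), (rhc4055b4872d6fb38.shift 2 1), (rhc9de03f9731897d4.shift 3 0)] (by decide +kernel))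
noncomputable def rh5086909958562c32 : CRef := CRef.mk (Pat.mk 0x1000000014000000100000000000000000 0x2000000038000000380000003800000030000000300000003f000000180000001800000008 6 6) 0 0 (step_sound _ 164 [(rh20966da26a1c2ae8.shift 3 1), (rh367118e0bf0473e0.shift 3 0), (rh7b79df070bb83d66.shift 3 2), (rha94490687c60c4d4.shift 0 1)] (by decide +kernel))
noncomputable def rhfa41604cdcda6bb6 : CRef := CRef.mk (Pat.mk 0x80000000a000000080000000800000000 0x100000003c0000001f000000080000001c00000014 6 6) 0 0 (step_sound _ 2 [rh5ae326af2dbe503d, (rh79877ebd3ef475dd.shift 2 0)] (by decide +kernel))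
noncomputable def rh7860950824bc31e8 : CRef := CRef.mk (Pat.mk 0x20000000200000002000000000000000000000000 0x2000000070000000700000007000000030000000300000003000000070000000700000005 6 3) 0 0 (step_sound _ 193 [(rh20966da26a1c2ae8.shift 0 2), (rh2f7ea2d2c6b43cfc.shift 0 2), (rh30ce2cf9a0214dec.shift 0 2), rh9e174856810c5f95] (by decide +kernel))
noncomputable def rhc7a337cb927c3d82 : CRef := CRef.mk (Pat.mk 0x80000000a000000080000000800000000 0x140000003c0000000f000000080000001c00000014 6 6) 0 0 (step_sound _ 2 [rh508339421bf2cc29, (rh79877ebd3ef475dd.shift 2 0)] (by decide +kernel))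
noncomputable def rhb929f30e6b460713 : CRef := CRef.mk (Pat.mk 0x2000000020000000280000002800000000 0x1f0000007e000001f70000003e0000003800000018 6 9) 0 0 (step_sound _ 132 [rh1e3d0679c060632c, (rh50fbb5868c909700.shift 4 1)] (by decide +kernel))
noncomputable def rh00acdd8cc35c3301 : CRef := CRef.mk (Pat.mk 0x2800000028000000000000000000000000 0x20000000700000007e0000003f000000770000003000000020 6 7) 0 0 (step_sound _ 98 [rh895bb351d9132f0f, (rh9e1801e106c63471.shift 0 2), (rh9f2591205204f08d.shift 2 3), (rhe33d9496e10d8eb0.shift 0 3)] (by decide +kernel))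
noncomputable def rh3f0b5051c9324cf3 : CRef := CRef.mk (Pat.mk 0x8000000080000000800000008 0xf40000007f000000ff0000000800000008 6 8) 0 0 (step_sound _ 98 [rh04d62da603fb7abe, (rh50fbb5868c909700.shift 2 0)] (by decide +kernel))
noncomputable def rhc71c7a7052722af0 : CRef := CRef.mk (Pat.mk 0x800000008000000080000000c 0x1f0000001f0000003c0000000c0000000c 6 6) 0 0 (step_sound _ 34 [(rh5c5e593799055d58.shift 2 0), rh754ed8af3fcc8232] (by decide +kernel))
noncomputable def rha115f1711c7e99d7 : CRef := CRef.mk (Pat.mk 0x800000008000000080000002800000000 0x10000000380000007f0000006e0000002800000028 6 7) 0 0 (step_sound _ 132 [(rh2f68792b6b779e96.shift 3 1), rh366482dd01674b12] (by decide +kernel))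
noncomputable def rh83fec12306a3cd0d : CRef := CRef.mk (Pat.mk 0x800000008000000080000000000000000 0x100000001c0000003c0000000f0000000c0000000c0000000c00000004 6 6) 0 0 (step_sound _ 163 [(rh20966da26a1c2ae8.shift 2 1), (rh5ee4dc8825dcefa0.shift 0 1), (rh6aa5625770489e83.shift 2 0)] (by decide +kernel))
noncomputable def rhbd489dfc87c602b0 : CRef := CRef.mk (Pat.mk 0x100000003000000010000000500000000000000000 0x1df000000fe000000f7000000580000005800000008 6 9) 0 0 (step_sound _ 131 [(rh24b4f41f846cb1d8.shift 3 0), (rh42844900de13c390.shift 2 1), (rhf2b1f500f996bfff.shift 0 1)] (by decide +kernel))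
noncomputable def rh5bc9df88a00c877f : CRef := CRef.mk (Pat.mk 0x400000004000000040000000000000000 0x20000000e0000000f0000003c00000006000000060000000600000002 6 6) 0 0 (step_sound _ 162 [(rh1bd0c14c4de1ef4d.shift 0 1), (rh367118e0bf0473e0.shift 1 0), (rh565a0c22519f57e9.shift 1 1)] (by decide +kernel))
noncomputable def rhed7b36f4d68b0eda : CRef := CRef.mk (Pat.mk 0x800000008000000080000000800000000 0xf4000000ff000001ff000000080000000c00000004 6 9) 0 0 (step_sound _ 132 [(rh2f68792b6b779e96.shift 3 1), rh98ba3ec0b1ffc325] (by decide +kernel))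
noncomputable def rh0e789c9a4ea9b773 : CRef := CRef.mk (Pat.mk 0x8000000080000002800000000 0x1000000014000001f7000000ff000001ff0000002800000028 6 9) 0 0 (step_sound _ 100 [rh68a32cd8cfd8511d, (rhb730ba14aa32bdb3.shift 3 0), rhcb796acd273ff66d] (by decide +kernel))
noncomputable def rhf26df24cc030f233 : CRef := CRef.mk (Pat.mk 0x200000002000000020000000200000000 0x1000000070000000700000002000000060000000700000005 6 3) 0 0 (step_sound _ 0 [rh79877ebd3ef475dd, rhafd4c4c1c700c72a] (by decide +kernel))
noncomputable def rh5bdfaadaf543e34d : CRef := CRef.mk (Pat.mk 0x400000004000000040000000000000000 0x20000000e0000000f0000003c0000000c0000000c0000000c00000008 6 6) 0 0 (step_sound _ 162 [(rh1bd0c14c4de1ef4d.shift 0 1), (rh8065c10b3cae6218.shift 1 1), (rhc9de03f9731897d4.shift 2 0)] (by decide +kernel))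
noncomputable def rh0bf67d621c182438 : CRef := CRef.mk (Pat.mk 0xc00000004000000140000000000000000 0x180000003c0000007f0000007f0000001c0000001800000018 6 7) 0 0 (step_sound _ 99 [(rh03e1d4b712fd50ef.shift 2 0), rh66091e2d3b95e8e6, (rh836239318bb0a056.shift 0 1), (rhbf17779b0fc4377b.shift 1 0), (rhda7f738f240674e9.shift 2 0)] (by decide +kernel))
noncomputable def rh7b54700d86a5b9d5 : CRef := CRef.mk (Pat.mk 0x3000000010000000500000000000000000 0x3d7000001fe000003fe000000700000007000000020 6 10) 0 0 (step_sound _ 134 [(rh2820ca9a6c4f41b4.shift 1 3), rh79e9bfa6691322eb, (rhc0dbcf89614018a8.shift 3 1), (rhf0f55c4504412200.shift 1 3)] (by decide +kernel))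
noncomputable def rhba1cb457822b7e34 : CRef := CRef.mk (Pat.mk 0x200000002000000020000000200000000 0x600000006000000060000000300000003000000070000000600000006 6 3) 0 0 (step_sound _ 34 [rh0fa56245ad747a96, (rh55afc6a59410cf00.shift 1 0)] (by decide +kernel))
noncomputable def rh9698b946874389a0 : CRef := CRef.mk (Pat.mk 0x800000008000000080000000000000000 0x100000001c0000003c0000000f00000018000000180000001800000010 6 6) 0 0 (step_sound _ 163 [(rh46baee19951a66e7.shift 2 0), (rh5ee4dc8825dcefa0.shift 0 1), (rhced6d86d2069808b.shift 3 1)] (by decide +kernel))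
noncomputable def rh2d8b6f6f3e887381 : CRef := CRef.mk (Pat.mk 0x400000004000000040000001400000000 0x1a0000003f0000003f0000000c0000001c00000018 6 6) 0 0 (step_sound _ 131 [(rh2f68792b6b779e96.shift 2 1), rh52b0a092a4ced153] (by decide +kernel))
noncomputable def rhc29d5cdd4e72f10a : CRef := CRef.mk (Pat.mk 0x10000000100000005000000000 0x2800000028000001ef000000fe000003fe0000005000000050 6 10) 0 0 (step_sound _ 101 [rh669af60102429dba, (rh7e7c4edde1027eb4.shift 1 0), (rhb730ba14aa32bdb3.shift 4 0), (rhcb796acd273ff66d.shift 1 0)] (by decide +kernel))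
noncomputable def rh926b4bec0aec8810 : CRef := CRef.mk (Pat.mk 0x80000003800000000 0x400000006000000060000007f0000003e0000007f 6 7) 0 0 (step_sound _ 34 [rh008b05f4778dc30d, (rh0c2570d0ab9ca10f.shift 1 0), rh0d378fd9e8917c5a, rh775ca1963e850b80] (by decide +kernel))
noncomputable def rhe3ee66286ad46dfe : CRef := CRef.mk (Pat.mk 0x800000038000000000000000000000000 0x140000001c0000003c0000007c0000003f000000380000003f0000001400000010 6 7) 0 0 (step_sound _ 163 [(rh046c5eb18e55a239.shift 3 0), (rh70e33bfdf511e144.shift 3 0), rh843e809f06df8ae3, (rhf527cf5683b56bd8.shift 2 2)] (by decide +kernel))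
noncomputable def rha030e29f7369f9cd : CRef := CRef.mk (Pat.mk 0x400000007000000020000000000000000 0x30000001b0000001f00000007000000070000000700000006 6 5) 0 0 (step_sound _ 33 [rh358b93b5dde30a05, (rh71222050f2c63a3a.shift 1 0)] (by decide +kernel))
noncomputable def rh5b29e355500c4c1a : CRef := CRef.mk (Pat.mk 0x14000000160000000000000000 0x80000000e0000001f0000003c000000160000001600000016 6 6) 0 0 (step_sound _ 99 [(rh18965a982d73c794.shift 1 2), rh25b83bcfa70cdf7b] (by decide +kernel))
noncomputable def rh50cfa046d45f7da0 : CRef := CRef.mk (Pat.mk 0x280000002c000000000000000000000000 0x140000001c0000007e0000007c0000006f0000002c0000002c0000000c00000004 6 7) 0 0 (step_sound _ 163 [rh1eadfefecc5928cd, (rh281c6819542c66e6.shift 2 0), (rh70e5a642f7de8c4c.shift 2 2), (rhfafeb437ceb8396d.shift 2 0)] (by decide +kernel))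
noncomputable def rhf62af5effc1fedb5 : CRef := CRef.mk (Pat.mk 0x4000000040000000600000000 0xa0000000e0000000f0000003c000000060000000600000004 6 6) 0 0 (step_sound _ 130 [rh1bd0c14c4de1ef4d, (rh9a369cb82ea472da.shift 1 1), (rha54302d5ccf5246c.shift 1 1)] (by decide +kernel))
noncomputable def rhd97359839441151c : CRef := CRef.mk (Pat.mk 0x2000000030000000200000000000000000000000000000000 0x5000000070000000700000002000000030000000300000007000000070000000700000001 6 3) 0 0 (step_sound _ 225 [(rh03dfdf12d5937476.shift 0 3), rh10b8df1e8cc681c2, (rh7ef5fa5c39f1c762.shift 0 4)] (by decide +kernel))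
noncomputable def rh5cf76fd83962687f : CRef := CRef.mk (Pat.mk 0x40000000700000004000000000000000000000000 0x40000000400000004000000070000001f0000003e0000000e0000000e 6 6) 0 0 (step_sound _ 97 [(rh121397a93ef3afd3.shift 0 2), (rh1e309b005ffa1b36.shift 1 1), rhd8f429786e6ff0e8] (by decide +kernel))
noncomputable def rhe190eaad3a83b05f : CRef := CRef.mk (Pat.mk 0x280000002c00000000000000000000000000000000 0x100000001c0000001f000000780000002f0000007c0000003c0000001400000010 6 7) 0 0 (step_sound _ 164 [(rh18965a982d73c794.shift 2 4), rh4e2a9f77e9fc176b] (by decide +kernel))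
noncomputable def rhcf42512e4da1acf5 : CRef := CRef.mk (Pat.mk 0x400000006000000000000000000000000 0x20000000e0000000e0000000e00000006000000070000003e0000000e0000000a 6 6) 0 0 (step_sound _ 162 [(rh281c6819542c66e6.shift 1 0), (rh9ca1f3d554db0c15.shift 1 0), rhca9d9eba9ed322bb, (rhfafeb437ceb8396d.shift 1 0)] (by decide +kernel))
noncomputable def rh5b4f4950445d4548 : CRef := CRef.mk (Pat.mk 0x400000004000000050000000400000000 0x400000004000000770000003e0000007a 6 7) 0 0 (step_sound _ 33 [rh871c3e902ff76735, (rh932754581e0f4330.shift 1 0)] (by decide +kernel))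
noncomputable def rhb779351c7336dd4f : CRef := CRef.mk (Pat.mk 0x6800000028000000000000000000000000 0x140000001c0000001c0000007c000001e80000003c0000001f0000001400000010 6 9) 0 0 (step_sound _ 100 [(rh53b3c253cb0c65f4.shift 2 3), rh53fefa254d38584d] (by decide +kernel))
noncomputable def rheadb80f336240adb : CRef := CRef.mk (Pat.mk 0x1a000000020000000000000000 0x50000000700000007000000770000003e000000060000000600000006 6 7) 0 0 (step_sound _ 98 [rh341c1a47eff525d3, (rhd584a578337d0023.shift 1 2), (rhf94411b389c3e54c.shift 0 3)] (by decide +kernel))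
noncomputable def rh7e6cef3f97063332 : CRef := CRef.mk (Pat.mk 0x180000005000000000000000000000000000000000 0x3800000038000000780000001f0000007f0000003e0000001c0000000c00000004 6 7) 0 0 (step_sound _ 131 [(rh2dc0d1bb6a473626.shift 1 1), (rh435af0e084ff217e.shift 0 3), (rh9bb455da33111465.shift 2 1), (rhcdfe6437ba6f5a44.shift 2 0), (rhd420e36e9074f089.shift 0 2)] (by decide +kernel))
noncomputable def rh1d9639bab940bccd : CRef := CRef.mk (Pat.mk 0x70000000500000000000000000 0x2000000020000001f7000001fe000000700000001000000010 6 9) 0 0 (step_sound _ 133 [(rh32f6277f14b47a8f.shift 4 0), (rh82253f57fbfd99d1.shift 0 2), (rhdabfcd0659c2d3c8.shift 4 0)] (by decide +kernel))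
noncomputable def rh3ebe2ab75f218f56 : CRef := CRef.mk (Pat.mk 0x70000000100000000000000000 0x8000003ff000001fe000000170000001000000010 6 10) 0 0 (step_sound _ 99 [(rh00f1bb10334541e3.shift 1 3), (rh16c09bea24aec334.shift 0 2), (rha60259b11b492d3d.shift 2 0), (rhb5458ddcce4f1dd0.shift 1 3)] (by decide +kernel))
noncomputable def rh431eaa5d1a106c80 : CRef := CRef.mk (Pat.mk 0x680000002800000000000000000000000000000000 0x140000005c0000007c0000007c000000680000002f0000007c0000007e0000007400000050 6 7) 0 0 (step_sound _ 101 [rh0fa02f265ef05289, (rh215e11e099257d75.shift 5 2), (rh911b5089e975bd40.shift 2 1), (rhfa40f754f1f7b88f.shift 4 0)] (by decide +kernel))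
noncomputable def rh02214ea87912d480 : CRef := CRef.mk (Pat.mk 0x28000000080000000800000000 0x40000000c0000000e0000007c0000000f0000000c0000000c 6 7) 0 0 (step_sound _ 131 [(rh0fd870c734e6c513.shift 2 0), (rh67834bbbf5fda393.shift 1 0), rhac09afe906154c2a] (by decide +kernel))
noncomputable def rhb2df533bc52c20ad : CRef := CRef.mk (Pat.mk 0x280000002800000008000000000000000000000000 0x44000000440000006f0000007c0000002e00000078000000f80000007000000050 6 8) 0 0 (step_sound _ 194 [(rh0dbc8abee7ad42d4.shift 2 2), (rh3cc7a495b667248d.shift 1 2), (rh469b4c58d61b7eca.shift 0 2), (rh9819664b9df56fc0.shift 2 0)] (by decide +kernel))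
noncomputable def rh184a6cdc2d675a40 : CRef := CRef.mk (Pat.mk 0x2800000028000000080000000000000000 0x100000005c0000005c0000006c0000007c0000002f0000007c0000002c00000004 6 7) 0 0 (step_sound _ 98 [(rh9792bea69fea0408.shift 2 0), (rh9eaf497289a6ff86.shift 0 1), (rhe33d9496e10d8eb0.shift 0 3)] (by decide +kernel))
noncomputable def rh221583e63696c24d : CRef := CRef.mk (Pat.mk 0x2800000008000000080000000000000000 0x40000000f0000007c000000080000001c0000001c00000014 6 7) 0 0 (step_sound _ 163 [(rh3181373a30ceb9e3.shift 2 0), (rh3190167e459b66bb.shift 0 1), (rh46baee19951a66e7.shift 2 0), (rh6aa5625770489e83.shift 2 0)] (by decide +kernel))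
noncomputable def rh0615ec6c81443c63 : CRef := CRef.mk (Pat.mk 0x140000001400000004000000000000000000000000 0x1400000014000000160000007f0000003e0000000a00000008 6 7) 0 0 (step_sound _ 67 [(rh2d0605d02b4834b4.shift 2 0), (rh3ae32833f6db8739.shift 2 0), (rh9694f7a9d0e0dff0.shift 1 2), (rhb6e11cfc959c8a3c.shift 0 1)] (by decide +kernel))
noncomputable def rh232833d85db1cfc3 : CRef := CRef.mk (Pat.mk 0x280000002800000008000000000000000000000000 0x400000044000000640000007c0000002f0000007c000001f80000007000000050 6 9) 0 0 (step_sound _ 101 [(rh3248abfe85a151c7.shift 2 0), (rh546848b583134c22.shift 4 0), rh5c80ce87ff588698, rh5ea34e0a5987e837, (rh749b9667ede37e67.shift 2 1), (rhabf9fcd05300ede4.shift 2 0), rhac635d089a3d5e84] (by decide +kernel))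
noncomputable def rhd553879b1f356abb : CRef := CRef.mk (Pat.mk 0x40000001400000014000000000000000000000000 0xa0000001e0000001e000000170000003e0000007e0000002a 6 7) 0 0 (step_sound _ 66 [(rh3181373a30ceb9e3.shift 1 0), (rh46baee19951a66e7.shift 1 0), (rh6aa5625770489e83.shift 1 0), rhbde866a46bb4dda2] (by decide +kernel))
noncomputable def rh91172a0bf1740ec0 : CRef := CRef.mk (Pat.mk 0x40000001400000014000000000000000000000000 0x80000003e0000003e00000037000000160000003c0000007c00000028 6 7) 0 0 (step_sound _ 66 [(rh1d90b59f780b588e.shift 0 2), (rh46baee19951a66e7.shift 1 0), (rhd19ee4ddf80920ab.shift 1 0)] (by decide +kernel))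
noncomputable def rh9c61cb8bd7e1204f : CRef := CRef.mk (Pat.mk 0x80000002800000028000000000000000000000000 0x10000000d80000007c000001ef0000002c0000003c0000001c00000014 6 9) 0 0 (step_sound _ 67 [(rh3181373a30ceb9e3.shift 2 0), (rh4bbac08ccc287c26.shift 0 1), (rh55a026e6f690bbaf.shift 2 1)] (by decide +kernel))
noncomputable def rh013d70702af63b90 : CRef := CRef.mk (Pat.mk 0x200000002800000000000000000000000000000000 0x500000007000000070000001f00000003e000001f7000000700000007000000040 6 9) 0 0 (step_sound _ 132 [(rh157830707e2c857a.shift 2 0), (rh18f6e49771361853.shift 3 1), (rh46f4e32c661b103a.shift 0 3), (rhff7d63dcb3cf9f74.shift 2 4)] (by decide +kernel))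
noncomputable def rhc49910c6ff6fe591 : CRef := CRef.mk (Pat.mk 0x280000002c000000000000000000000000 0x140000001c0000007e0000007c0000006f0000002c0000002c0000000c0000000c 6 7) 0 0 (step_sound _ 163 [rh0b7efbb8957237ea, (rh281c6819542c66e6.shift 2 0), (rh70e5a642f7de8c4c.shift 2 2), (rhfafeb437ceb8396d.shift 2 0)] (by decide +kernel))
noncomputable def rha66f6ea46c8c2493 : CRef := CRef.mk (Pat.mk 0x40000000600000000000000000000000000000000 0x80000000e0000000e0000000e00000006000000070000003e0000000e0000000e00000002 6 6) 0 0 (step_sound _ 194 [(rh281c6819542c66e6.shift 1 1), (rh2ed2cd37a9b20882.shift 1 3), (rh76bd0dc3251bfb89.shift 1 0), rhe1a2cced5a4a5e54, (rhfafeb437ceb8396d.shift 1 1)] (by decide +kernel))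
noncomputable def rhdcd70a0e6e2165a4 : CRef := CRef.mk (Pat.mk 0x80000000a000000080000000800000000 0x80000000f0000007f0000003f00000014 6 7) 0 0 (step_sound _ 34 [rh533bf76a52f29312, (rh932754581e0f4330.shift 2 0)] (by decide +kernel))
noncomputable def rh236f29ce8a6f891b : CRef := CRef.mk (Pat.mk 0x380000002800000000000000000000000000000000 0x140000001c0000001f000000380000003c0000001e0000001c0000001c00000014 6 6) 0 0 (step_sound _ 99 [(rh1b194f1c1b756af2.shift 2 1), (rh7f36f639160ea2c8.shift 3 2), (rh9a533699701a8346.shift 0 2), (rhffb8e5993241bf15.shift 2 0)] (by decide +kernel))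
noncomputable def rhd9d0db8305e2bac9 : CRef := CRef.mk (Pat.mk 0x2800000028000000080000000000000000 0x100000005c0000005c0000006c0000007c0000002f0000007c0000002c0000000c 6 7) 0 0 (step_sound _ 98 [(rh70a99980bd71d9c4.shift 2 0), (rh9eaf497289a6ff86.shift 0 1), (rhe33d9496e10d8eb0.shift 0 3)] (by decide +kernel))
noncomputable def rhabb47452ac668c30 : CRef := CRef.mk (Pat.mk 0x280000002800000008000000000000000000000000 0x5400000074000000740000003c0000002c0000007c0000007f0000005c00000014 6 7) 0 0 (step_sound _ 101 [(rh2b9942482b6dbbce.shift 2 0), (rh3c3172e40ed1953c.shift 2 1), (rh5837685bf925007f.shift 2 0), (rh6d22e4af4868beec.shift 2 2), rhb2be77f02bf1d2f2, (rhfbcf3eec14d270a5.shift 1 0)] (by decide +kernel))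
noncomputable def rhb5d61790350cf6d7 : CRef := CRef.mk (Pat.mk 0x200000002800000000000000000000000000000000 0x500000007000000070000001f00000003e000001f7000000700000007000000050 6 9) 0 0 (step_sound _ 132 [(rh25e7d7f9c8fca227.shift 3 1), (rh45e07cbe933fdbfe.shift 2 0), (rh46f4e32c661b103a.shift 0 3), (rhff7d63dcb3cf9f74.shift 2 4)] (by decide +kernel))
noncomputable def rh25b2fe755c845381 : CRef := CRef.mk (Pat.mk 0x160000001400000000000000000000000000000000 0x2000000060000001600000016000000f70000003e0000001f0000000e0000000a 6 8) 0 0 (step_sound _ 98 [(rh0a6888916bcef86b.shift 1 0), (rh406bfc4f631a2f4f.shift 1 0), (rh7b24c4ccc068b0b2.shift 1 2), rhb545443065bcf8d0] (by decide +kernel))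
noncomputable def rh92d48458fba5cf69 : CRef := CRef.mk (Pat.mk 0x2c00000028000000000000000000000000 0x140000001c0000001c0000000c0000002c0000007c0000001f0000001c00000010 6 7) 0 0 (step_sound _ 100 [rh33ff8f61a0144882, (rhf48373e13d2bc128.shift 2 3)] (by decide +kernel))
noncomputable def rh7345cfdbcc90680f : CRef := CRef.mk (Pat.mk 0x140000001c00000000000000000000000000000000 0x40000000c0000001c0000007c0000007f0000007e0000003e00000010 6 7) 0 0 (step_sound _ 99 [(rhade0f4c81793f68e.shift 2 1), (rhbe707112c53dab40.shift 2 1), (rhd9f68c03af9d20db.shift 0 1), rhf0a1599ba7cae59f] (by decide +kernel))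
noncomputable def rh25c736228e860c56 : CRef := CRef.mk (Pat.mk 0x2800000038000000000000000000000000 0x140000001c0000001c0000003c000000380000001f0000001c0000001c 6 6) 0 0 (step_sound _ 163 [(rh1468d52ccc1a3c50.shift 2 0), (rh235edbdf3bbc6c03.shift 3 0), rh88923257c65ef0b4, (rha768b229dc254047.shift 3 0)] (by decide +kernel))
noncomputable def rh30c8f5e7b893ae7b : CRef := CRef.mk (Pat.mk 0x2800000038000000000000000000000000 0xc0000001c0000001f00000038000000fe000000f80000003800000038 6 8) 0 0 (step_sound _ 132 [rh1085b9e5159d0f8c, (rhc7748ec1e18e652f.shift 1 1), (rhcb68da4f2dc5e7fd.shift 1 0), (rhe3e8c074aa83e8bd.shift 1 2)] (by decide +kernel))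
noncomputable def rh2a700eb8b013b18d : CRef := CRef.mk (Pat.mk 0x2800000038000000000000000000000000 0xc0000001c0000001e000000380000007c0000001f0000001800000018 6 7) 0 0 (step_sound _ 67 [(rh04ebfa9c0f315627.shift 1 0), (rh2820ca9a6c4f41b4.shift 0 2), (rhf0f55c4504412200.shift 0 2)] (by decide +kernel))
noncomputable def rh5a26ba26dbce059f : CRef := CRef.mk (Pat.mk 0x140000001c00000000000000000000000000000000 0x40000000c0000001c0000001f0000007f0000007e0000003e00000018 6 7) 0 0 (step_sound _ 99 [rh7ac79f18e0de8fde, (rhade0f4c81793f68e.shift 2 1), (rhbe707112c53dab40.shift 2 1), (rhd8e66b35e5f82302.shift 0 1)] (by decide +kernel))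
noncomputable def rh61caebbc970f3de9 : CRef := CRef.mk (Pat.mk 0x20000000200000002000000000000000000000000 0x100000003000000030000000300000006000000070000000700000005 6 3) 0 0 (step_sound _ 65 [rh3181373a30ceb9e3, rh46baee19951a66e7, rh6aa5625770489e83, (rhd7cb8ed87e2022d8.shift 0 1)] (by decide +kernel))
noncomputable def rhaa548d6ce3fd6ee8 : CRef := CRef.mk (Pat.mk 0x200000002000000020000000000000000 0x10000000700000007000000070000000700000003000000070000000600000004 6 3) 0 0 (step_sound _ 161 [(rh1d02867ed80f91bc.shift 0 1), (rhc4055b4872d6fb38.shift 0 1), (rhc9de03f9731897d4.shift 1 0), rhcae87bda2c3c01d2] (by decide +kernel))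
noncomputable def rhde43cc12a0bcbdb9 : CRef := CRef.mk (Pat.mk 0x4000000140000000400000000 0xa0000000e0000000e00000004000000370000003e0000000a 6 6) 0 0 (step_sound _ 130 [(rh0fd870c734e6c513.shift 1 0), (rh402d223d12d7377d.shift 1 0), (rhc17b7d8fab3dfe57.shift 1 0), rhe06c7604aef75ec4] (by decide +kernel))
noncomputable def rh8e5ef47271c6bcfa : CRef := CRef.mk (Pat.mk 0x800000008000000280000000000000000 0x140000003c0000000f0000007c0000000f0000000c 6 7) 0 0 (step_sound _ 35 [rh5ee4dc8825dcefa0, rhc8fd50c44a2112a0] (by decide +kernel))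
noncomputable def rhc30ab4aad507135a : CRef := CRef.mk (Pat.mk 0x2800000068000000000000000000000000 0x50000000740000007c0000007c0000002f000000680000007c0000007c00000054 6 7) 0 0 (step_sound _ 165 [rh141617a19047b268, (rh14e0829dc73b6804.shift 4 2), rh379ecaeba796b0c8, (rh70e33bfdf511e144.shift 5 0)] (by decide +kernel))
noncomputable def rhe0ff746d1473a279 : CRef := CRef.mk (Pat.mk 0x80000002800000028000000000000000000000000 0xf40000007c0000002f000000380000003c0000001c00000014 6 8) 0 0 (step_sound _ 67 [(rh5ee4dc8825dcefa0.shift 0 1), (rh8cdd36b03d57a2f6.shift 2 0), (rhcae87bda2c3c01d2.shift 2 0), (rhf081c889b5d166e5.shift 0 1)] (by decide +kernel))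
noncomputable def rhd607d9bd434cc144 : CRef := CRef.mk (Pat.mk 0x80000000e0000000000000000000000000000000000000000 0x140000001c0000001c000000080000000f0000007c0000001c0000001c0000001c00000004 6 7) 0 0 (step_sound _ 131 [(rh16ab7479028fc32c.shift 2 2), (rh5a8abb721f11b584.shift 0 1), (rhc21a95c499b3efdb.shift 0 4), (rhcfcb4c4d97355708.shift 2 0)] (by decide +kernel))
noncomputable def rhb268686c305f2606 : CRef := CRef.mk (Pat.mk 0x280000002800000020000000000000000000000000 0x140000001c0000003c000000280000007c0000003f0000003e0000001400000014 6 7) 0 0 (step_sound _ 99 [(rh1c365c76821ab000.shift 3 1), (rh9a80b33a5b2ded2c.shift 0 2), (rh9bb466b2f2c3b9d6.shift 1 0), (rhbdfba23297321f80.shift 1 0)] (by decide +kernel))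
noncomputable def rhda9406a2804dc7f8 : CRef := CRef.mk (Pat.mk 0x280000002800000020000000000000000000000000 0x140000001c0000001c000000280000007c000001ff0000003c0000001400000004 6 9) 0 0 (step_sound _ 132 [(rh337e62714be558a0.shift 0 1), rh51fbe4a97b6461c3, (rh8ee80cc30e93a344.shift 2 3), (rhc21a95c499b3efdb.shift 2 3)] (by decide +kernel))
noncomputable def rhc3ce3aa87e49a98d : CRef := CRef.mk (Pat.mk 0x800000008000000080000000000000000 0x140000001c0000003c0000000f000000080000001c0000001c00000014 6 6) 0 0 (step_sound _ 163 [(rh5ee4dc8825dcefa0.shift 0 1), (rh762a1aeaf83c662a.shift 2 1), (rh8cdd36b03d57a2f6.shift 2 0), (rhcae87bda2c3c01d2.shift 2 0)] (by decide +kernel))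
noncomputable def rhcee0592ed52c1903 : CRef := CRef.mk (Pat.mk 0x1400000014000000040000000000000000 0x280000007c0000003c00000016000000370000003e0000003e00000008 6 7) 0 0 (step_sound _ 162 [(rh402d223d12d7377d.shift 1 1), (rh4ebf2782828c7c6e.shift 1 0), (rhe06c7604aef75ec4.shift 0 1)] (by decide +kernel))
noncomputable def rh0b7d8b2b1fa732d1 : CRef := CRef.mk (Pat.mk 0x8000000080000000800000000 0x140000001c0000003c0000000f0000000c0000000c0000000c 6 6) 0 0 (step_sound _ 131 [(rh0fd870c734e6c513.shift 2 0), (rh402d223d12d7377d.shift 2 0), rh5ee4dc8825dcefa0] (by decide +kernel))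
noncomputable def rh8c0774847d571514 : CRef := CRef.mk (Pat.mk 0x140000001400000004000000000000000000000000 0x1200000016000000160000007e0000003f0000002e0000000a 6 7) 0 0 (step_sound _ 66 [(rh3181373a30ceb9e3.shift 1 0), (rh46baee19951a66e7.shift 1 0), (rh6aa5625770489e83.shift 1 0), (rhd58cef73aa1047b3.shift 0 1)] (by decide +kernel))
noncomputable def rh2499b4ded2bbc236 : CRef := CRef.mk (Pat.mk 0x2800000028000000000000000000000000 0x28000000280000002f000000fe000001ff0000005400000014 6 9) 0 0 (step_sound _ 100 [(rh1561ff1fafeb7917.shift 2 2), rh26e1017678d9da1f, (rh7d41fed0b41e24c5.shift 2 0), (rha9fbfd4bb8cf890b.shift 0 3)] (by decide +kernel))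
noncomputable def rh652ff0de33879b17 : CRef := CRef.mk (Pat.mk 0xc0000000800000000000000000000000000000000 0x40000001c0000001c0000003c0000000f0000000c0000001c0000001c0000001c00000014 6 6) 0 0 (step_sound _ 99 [(rh369225b5d41e1569.shift 2 1), (rh406bfc4f631a2f4f.shift 2 0), (rh518546a6809ccf8f.shift 0 2), (rh7b24c4ccc068b0b2.shift 2 2), (rhf9a6286f1d5377a2.shift 2 2)] (by decide +kernel))
noncomputable def rh18a5c021bed33217 : CRef := CRef.mk (Pat.mk 0x1000000070000000000000000000000000 0x100000001000000017000001fe000003ff0000000800000008 6 10) 0 0 (step_sound _ 99 [(rh3423e5ac208fb65b.shift 2 0), (rh7c4bbb87c968a67c.shift 1 2), (rh8195a2d7794c7cd2.shift 1 2), (rh9241cc058486cc88.shift 0 2)] (by decide +kernel))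
noncomputable def rhfb688c953e1c18b6 : CRef := CRef.mk (Pat.mk 0x1e000000000000000000000000 0x4000000050000000700000007000000070000001e000000070000000600000006 6 5) 0 0 (step_sound _ 129 [(rh3244c3cc8379b070.shift 0 3), rh60ad8c5a8ef06625] (by decide +kernel))
noncomputable def rh855594c679097f4e : CRef := CRef.mk (Pat.mk 0xc0000000800000000000000000000000000000000 0x140000001c0000003c0000000f0000000c0000001c0000001c0000001c00000014 6 6) 0 0 (step_sound _ 99 [(rh369225b5d41e1569.shift 2 1), (rh406bfc4f631a2f4f.shift 2 0), (rh7b24c4ccc068b0b2.shift 2 2), (rhb6f5759dc1b00526.shift 0 2), (rhf9a6286f1d5377a2.shift 2 2)] (by decide +kernel))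
noncomputable def rh8221c369177f97f6 : CRef := CRef.mk (Pat.mk 0x280000006800000000000000000000000000000000 0x50000000740000007e0000007c0000002f000000680000007c0000007c0000005c00000014 6 7) 0 0 (step_sound _ 197 [(rh14e0829dc73b6804.shift 4 3), (rh53184c363e9373c6.shift 2 0), (rh56efc7f3ae759ab6.shift 0 1), (rh70e33bfdf511e144.shift 5 1)] (by decide +kernel))
noncomputable def rh1779a8e3645ca9ad : CRef := CRef.mk (Pat.mk 0x4000000040000001400000000 0x80000000e0000000f0000003c000000070000003e00000006 6 6) 0 0 (step_sound _ 130 [rh1bd0c14c4de1ef4d, (rh402d223d12d7377d.shift 1 0), rh64d324585ca865ad] (by decide +kernel))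
noncomputable def rh823db0c52c233458 : CRef := CRef.mk (Pat.mk 0x8000000080000002800000000 0x100000001c0000003c0000000f0000000e0000007c0000000c 6 7) 0 0 (step_sound _ 131 [(rh402d223d12d7377d.shift 2 0), rh5ee4dc8825dcefa0, (rh64d324585ca865ad.shift 1 0)] (by decide +kernel))
noncomputable def rhaa2f13365b914a2c : CRef := CRef.mk (Pat.mk 0x80000002800000028000000000000000000000000 0x18000000380000007c0000002f0000007c0000006c0000004000000040 6 7) 0 0 (step_sound _ 130 [rh6d9be37e846df60d, (rh8c25cb665ab79ec0.shift 0 3), (rhb5b13aa9d0936b45.shift 2 2)] (by decide +kernel))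
noncomputable def rhf076058d0fd9d530 : CRef := CRef.mk (Pat.mk 0x800000028000000280000000000000000 0x18000000180000001c0000007c0000002f0000007c0000002800000008 6 7) 0 0 (step_sound _ 98 [(rh8c25cb665ab79ec0.shift 0 2), rhbcb2a9407659e3e4, (rhcaef535c2df5c83d.shift 2 0)] (by decide +kernel))
noncomputable def rh4ba11606322c5579 : CRef := CRef.mk (Pat.mk 0x4000000140000001400000000 0x80000002e0000003f0000007e000000170000003e00000012 6 7) 0 0 (step_sound _ 130 [(rh402d223d12d7377d.shift 1 0), rh64d324585ca865ad, rh8830d6e5bb9cc2ee, rhe8a9da99cb351580] (by decide +kernel))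
noncomputable def rh6a10337a4289d867 : CRef := CRef.mk (Pat.mk 0x1e00000004000000000000000000000000 0x10000000340000001e0000003f0000000b0000000a00000002 6 6) 0 0 (step_sound _ 97 [rh93610da36faff07c, (rheb0810cc63b001d8.shift 0 3)] (by decide +kernel))
noncomputable def rhd4a8b41114b9709f : CRef := CRef.mk (Pat.mk 0x1e000000040000000000000000 0xc0000001e0000003f0000001e0000003c0000000c0000000c 6 6) 0 0 (step_sound _ 129 [(rh3244c3cc8379b070.shift 0 3), (rh9686025fd23d9663.shift 1 0)] (by decide +kernel))
noncomputable def rhd2729c54337b9319 : CRef := CRef.mk (Pat.mk 0x380000000800000008000000000000000000000000 0x80000000800000008000000380000001f0000001c0000001c0000001c00000004 6 6) 0 0 (step_sound _ 195 [(rh3181373a30ceb9e3.shift 2 1), (rh6d5ad56e3df38040.shift 0 2), (rhabedd109a9a37101.shift 2 2), (rhad2fa347056c70d9.shift 1 1), (rhe79d9e3a3e1ecc93.shift 2 0)] (by decide +kernel))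
noncomputable def rh99e0335a9ada18f5 : CRef := CRef.mk (Pat.mk 0x1c0000000c000000000000000000000000 0x4000000040000001e0000007f000000070000000200000002 6 7) 0 0 (step_sound _ 97 [rh4cf961eb7f88dbc9, (rh53b3c253cb0c65f4.shift 0 3)] (by decide +kernel))
noncomputable def rhedd8eb07c0f86508 : CRef := CRef.mk (Pat.mk 0x1c0000000c000000000000000000000000 0x4000000040000001c0000007f000000770000000200000002 6 7) 0 0 (step_sound _ 97 [(rh53b3c253cb0c65f4.shift 0 3), rh9099542ffb845dfc] (by decide +kernel))
noncomputable def rh6e8be6975e71aad2 : CRef := CRef.mk (Pat.mk 0x1c0000000c000000000000000000000000 0x80000000c0000001c0000000f0000003e0000001e0000000e 6 6) 0 0 (step_sound _ 97 [(rh53b3c253cb0c65f4.shift 0 3), (rhd4bfe5a853a70fb5.shift 1 0)] (by decide +kernel))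
noncomputable def rhc6b0a5aeaa68fbb1 : CRef := CRef.mk (Pat.mk 0x1c0000000c000000000000000000000000 0x40000000c0000001e0000007c0000001f0000001e0000001c 6 7) 0 0 (step_sound _ 100 [rh1c0d8b13617569ff, (rh79b3c29022acbdf3.shift 1 3)] (by decide +kernel))
noncomputable def rh379e51f62127c8ce : CRef := CRef.mk (Pat.mk 0x380000000800000008000000000000000000000000 0x1000000038000000780000003e0000001f000000fc000000340000001000000010 6 8) 0 0 (step_sound _ 196 [(rh69755ef358ebfd54.shift 3 3), rh905018e7ae61773a, (rhbfb5770941270498.shift 3 3), (rheb4949bdfa5025cf.shift 3 3)] (by decide +kernel))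
noncomputable def rh41da9e955b195f6a : CRef := CRef.mk (Pat.mk 0xf000000020 0xe000000fe000001bf 6 9) 0 0 (step_sound _ 7 [rh974cc5463aa80a9c, (rhe25b0a99195a5d59.shift 4 0)] (by decide +kernel))
noncomputable def rh57af7fa5738559c0 : CRef := CRef.mk (Pat.mk 0x10000000380000000800000000000000000000000000000000 0x28000000780000003e000000780000003f0000003c0000003000000010 6 7) 0 0 (step_sound _ 99 [(rh71222050f2c63a3a.shift 3 2), rh87c8b8eb12c86d03] (by decide +kernel))
noncomputable def rh910001d62077810e : CRef := CRef.mk (Pat.mk 0x1c0000000c000000000000000000000000 0x18000000180000001c0000001c0000000f0000007c0000001c00000008 6 7) 0 0 (step_sound _ 67 [(rh3cb04db3dd2b6a55.shift 2 0), (rh5921f38488d3a6ac.shift 0 1), (rhb0c1e7919d9be92d.shift 2 0)] (by decide +kernel))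
noncomputable def rh32e50181a7f20ed1 : CRef := CRef.mk (Pat.mk 0x1c0000000c000000000000000000000000 0xc0000000c0000001c0000001c0000001f000000780000001800000008 6 7) 0 0 (step_sound _ 97 [(rh53b3c253cb0c65f4.shift 0 3), (rh7f1a66fc72ab5a2a.shift 1 0)] (by decide +kernel))
noncomputable def rh48b04a8c7c821c90 : CRef := CRef.mk (Pat.mk 0x1e0000000400000000000000000000000000000000 0x8000000080000003c0000001e000000370000003e0000001e0000000e0000000a 6 6) 0 0 (step_sound _ 132 [rhd07c0da21697a2fc, (rhe25b0a99195a5d59.shift 1 4)] (by decide +kernel))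
noncomputable def rhecb27748c4bb9fb8 : CRef := CRef.mk (Pat.mk 0x1e000000040000000000000000 0x8000000380000001e0000003f0000003000000030 6 6) 0 0 (step_sound _ 65 [(rhba719ba7a8fe514a.shift 1 0), (rheb0810cc63b001d8.shift 0 2)] (by decide +kernel))
noncomputable def rh706d1ea76bfbe01c : CRef := CRef.mk (Pat.mk 0x1e000000040000000000000000 0x80000001e0000003f0000001e000000340000001400000014 6 6) 0 0 (step_sound _ 68 [rhbbe0cfeaea6fcc4d, (rhe25b0a99195a5d59.shift 1 2)] (by decide +kernel))
noncomputable def rhcfd4abd99b5dac7a : CRef := CRef.mk (Pat.mk 0x80000001c00000004000000000000000000000000 0x1c0000001c0000001c0000001c0000007f000000780000001800000008 6 7) 0 0 (step_sound _ 99 [(rh2535f3557d1fe66d.shift 0 2), rh6c40585f68680b84, (rha17668eda302d9a3.shift 2 1), (rhb7df97844926543e.shift 0 1)] (by decide +kernel))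
noncomputable def rhc6669e81ed281074 : CRef := CRef.mk (Pat.mk 0x80000001c00000004000000000000000000000000 0x60000001f0000001c0000000e0000007c0000001c00000008 6 7) 0 0 (step_sound _ 66 [rh6684df3972f7328e, (rh71222050f2c63a3a.shift 2 1)] (by decide +kernel))
noncomputable def rhb58461d1021eb8b1 : CRef := CRef.mk (Pat.mk 0xf000000020000000000000000 0xc0000000c0000001e0000000f0000001e0000000e00000002 6 5) 0 0 (step_sound _ 67 [rhd457f8d8b5436d50, (rhe25b0a99195a5d59.shift 0 2)] (by decide +kernel))
noncomputable def rhdd7409d6a7beb007 : CRef := CRef.mk (Pat.mk 0x1800000018000000000000000000000000 0x10000000340000001f0000007f0000003f0000001c0000001c 6 7) 0 0 (step_sound _ 130 [(rh6292bd8784ece55f.shift 1 3), (rhb00c6cda7b230383.shift 0 1), rhcd1638684d2eb4ed] (by decide +kernel))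
noncomputable def rhbdc876b8fcd3fa6a : CRef := CRef.mk (Pat.mk 0xc0000000c000000000000000000000000 0xa0000001e0000003e0000000f0000000c0000000e0000000e0000000e 6 6) 0 0 (step_sound _ 66 [(rhea7a1800d6f053bd.shift 2 0), (rhfaed4418c4d78e8f.shift 1 0), (rhfd9fb1fb60b5432a.shift 0 1)] (by decide +kernel))
noncomputable def rhae8ef9aeb5d4e808 : CRef := CRef.mk (Pat.mk 0x1800000018000000000000000000000000 0x80000001f000000ff000000e70000000400000004 6 8) 0 0 (step_sound _ 101 [(rh79b3c29022acbdf3.shift 2 3), (rh9a3074a8bfba6b6f.shift 0 2), rhff00a37c088eb8b8] (by decide +kernel))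
noncomputable def rh90fb40942a8ee506 : CRef := CRef.mk (Pat.mk 0x1800000018000000000000000000000000 0x180000001800000018000000380000003f0000003c0000003c 6 6) 0 0 (step_sound _ 67 [rh9514272666a701f8, (rhea7a1800d6f053bd.shift 3 0), (rhfaed4418c4d78e8f.shift 2 0)] (by decide +kernel))
noncomputable def rhcc57d5e24da15fe9 : CRef := CRef.mk (Pat.mk 0x1e000000040000000000000000 0x16000000370000001e0000003c0000001c0000000c 6 6) 0 0 (step_sound _ 68 [rh2c093750a34ca970, (rhe25b0a99195a5d59.shift 1 2)] (by decide +kernel))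
noncomputable def rh0c79d6bd0b933ed4 : CRef := CRef.mk (Pat.mk 0x3000000020000000200000000000000000000000000000000 0x200000003000000030000000700000007000000070000000700000005 6 3) 0 0 (step_sound _ 97 [(rh1f3a6ba70a310ab1.shift 0 1), (rh8cdd36b03d57a2f6.shift 0 1), (rha613ffd40b6c9d24.shift 0 1), rhbba7d23481996066, (rhc9ac229b3c77cd55.shift 0 2)] (by decide +kernel))
noncomputable def rhd042d3f5cb2392e9 : CRef := CRef.mk (Pat.mk 0x5800000010000000100000000000000000 0x1c0000001c0000007c0000001f000000fc0000002c0000000c 6 8) 0 0 (step_sound _ 99 [(rh7e9ba19755485a04.shift 0 2), (rhb5ded177eabaed7d.shift 2 0), (rhd14a5bbb6d47032b.shift 2 0)] (by decide +kernel))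
noncomputable def rh725495ec67c6d314 : CRef := CRef.mk (Pat.mk 0x160000000c000000000000000000000000 0x1600000016000000160000003c0000001f0000000e00000008 6 6) 0 0 (step_sound _ 100 [rh3648c04e4793fbd2, (rhf48373e13d2bc128.shift 1 3)] (by decide +kernel))
noncomputable def rh23f32fed3457d0a3 : CRef := CRef.mk (Pat.mk 0x160000000c000000000000000000000000 0x6000000160000001e0000003c0000001f0000000e00000008 6 6) 0 0 (step_sound _ 100 [rh97be77d4eaa8c41b, (rhf48373e13d2bc128.shift 1 3)] (by decide +kernel))
noncomputable def rhe2842bf482f02c26 : CRef := CRef.mk (Pat.mk 0x5800000030000000000000000000000000 0x180000001f0000007f00000030000000300000003000000020 6 7) 0 0 (step_sound _ 129 [rh93ed44e1ecbc78b6, (rhab22b5b56e7b3243.shift 1 3)] (by decide +kernel))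
noncomputable def rhab4d34b208111fc0 : CRef := CRef.mk (Pat.mk 0x1800000018000000000000000000000000 0x140000001c0000001c00000018000000380000001f0000001c0000001c 6 6) 0 0 (step_sound _ 67 [(rhd68371a8706cd112.shift 0 1), (rhea7a1800d6f053bd.shift 3 0), (rhfaed4418c4d78e8f.shift 2 0)] (by decide +kernel))
noncomputable def rhbca4e06578583498 : CRef := CRef.mk (Pat.mk 0x1800000018000000000000000000000000 0x10000000100000001f000000ff0000007c0000002800000028 6 8) 0 0 (step_sound _ 101 [(rh79b3c29022acbdf3.shift 2 3), (rh92e8f86a47ca4f2b.shift 2 0), rhc768244aeb5341bc] (by decide +kernel))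
noncomputable def rhf5ba09b7e0be3946 : CRef := CRef.mk (Pat.mk 0x600000006000000000000000000000000 0x5000000070000000700000006000000070000003f0000000f00000007 6 6) 0 0 (step_sound _ 65 [(rh1bca0cf18f2d0b61.shift 0 1), (rhea7a1800d6f053bd.shift 1 0), rhfaed4418c4d78e8f] (by decide +kernel))
noncomputable def rh198adb254fb3e547 : CRef := CRef.mk (Pat.mk 0x1800000018000000000000000000000000 0x140000001c0000001c0000001c000000fc0000000f0000000c0000000c 6 8) 0 0 (step_sound _ 67 [rh303357b632e3846f, (rhea7a1800d6f053bd.shift 3 0), (rheabf008c005a28d6.shift 0 1)] (by decide +kernel))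
noncomputable def rh1a964f6936a2bb40 : CRef := CRef.mk (Pat.mk 0x38000000080000000800000000 0x100000001c0000001e000000380000001f0000000c00000004 6 6) 0 0 (step_sound _ 132 [(rh69755ef358ebfd54.shift 3 1), (rhbfb5770941270498.shift 3 1), (rheb4949bdfa5025cf.shift 3 1), rhfd3a397aa4f214ad] (by decide +kernel))
noncomputable def rh7a1df22be2ece635 : CRef := CRef.mk (Pat.mk 0xc0000000400000004000000000000000000000000 0x40000000c0000000c000000070000003e0000000e0000000a 6 6) 0 0 (step_sound _ 66 [(rh1904b52b42aee148.shift 0 1), (rh8aec56c4ee12918c.shift 1 0), (rh8c3839f9b9075f23.shift 2 0)] (by decide +kernel))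
noncomputable def rh165cdb78240e1819 : CRef := CRef.mk (Pat.mk 0x2000000020000000200000002000000000000000000000000 0x6000000060000000600000006000000070000000700000001 6 3) 0 0 (step_sound _ 66 [rha96043d67b77a772, (rhd3458b32566d63f7.shift 1 2)] (by decide +kernel))
noncomputable def rh8589872b28a50fa8 : CRef := CRef.mk (Pat.mk 0x40000000400000004000000000000000000000000 0x20000000e0000000f0000003c00000006000000060000000600000002 6 6) 0 0 (step_sound _ 66 [(rh1bd0c14c4de1ef4d.shift 0 1), (rh367118e0bf0473e0.shift 1 0), (rh565a0c22519f57e9.shift 1 1)] (by decide +kernel))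
noncomputable def rh7f34a9d62c5280cb : CRef := CRef.mk (Pat.mk 0x28000000180000000000000000 0x24000000670000003f0000007f0000001800000018 6 7) 0 0 (step_sound _ 98 [(rh062109d6dc26638f.shift 0 2), (rh4ca5dae25f5c14ff.shift 0 2), (rh5983253d23ca999b.shift 1 0), (rhdeca8db941583de2.shift 0 2)] (by decide +kernel))
noncomputable def rh9190e15d502fc569 : CRef := CRef.mk (Pat.mk 0x2c00000018000000000000000000000000 0x6000000160000003c0000007e0000007f0000002800000020 6 7) 0 0 (step_sound _ 101 [rh5b8b6ecf65c3c162, (rhf48373e13d2bc128.shift 2 3)] (by decide +kernel))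
noncomputable def rhac29a1de7f470f11 : CRef := CRef.mk (Pat.mk 0x1c0000000c0000000000000000 0x10000000f80000001e0000007f0000000f00000008 6 8) 0 0 (step_sound _ 65 [(rh53b3c253cb0c65f4.shift 0 2), rhcea2064ccf1fdb4d] (by decide +kernel))
noncomputable def rhe5cb64d75aeb45f3 : CRef := CRef.mk (Pat.mk 0x1c0000000c0000000000000000 0x30000000300000001e0000007f0000003f00000008 6 7) 0 0 (step_sound _ 65 [rh1fa16e62260576be, (rh53b3c253cb0c65f4.shift 0 2)] (by decide +kernel))
noncomputable def rh3b9f11f69b9e12f5 : CRef := CRef.mk (Pat.mk 0x1c0000000c000000000000000000000000 0xa0000003b0000001e0000000f0000003c0000001c0000000c 6 6) 0 0 (step_sound _ 97 [rh37a70e2380f94c5b, (rh53b3c253cb0c65f4.shift 0 3)] (by decide +kernel))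
noncomputable def rh1e2103965371f327 : CRef := CRef.mk (Pat.mk 0xe000000060000000000000000 0x1c0000003c0000000f0000003e0000000e0000000e 6 6) 0 0 (step_sound _ 67 [(rh79b3c29022acbdf3.shift 0 2), (rha2a841304777a668.shift 1 0)] (by decide +kernel))
noncomputable def rh4f3fe1ff9b1f183d : CRef := CRef.mk (Pat.mk 0x38000000180000000000000000 0x2000000020000000700000003f0000001f0000001000000010 6 7) 0 0 (step_sound _ 65 [(rh24ae073cf30720c4.shift 1 2), rh3d0cceaff5d6b882] (by decide +kernel))
noncomputable def rh14da6508b14ab4dc : CRef := CRef.mk (Pat.mk 0x1c0000000c000000000000000000000000 0x1800000018000000180000001c0000001f000000780000001800000018 6 7) 0 0 (step_sound _ 97 [(rh53b3c253cb0c65f4.shift 0 3), (rhcba3e9532cd7dd5a.shift 1 0)] (by decide +kernel))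
noncomputable def rhc45b99127e8e4594 : CRef := CRef.mk (Pat.mk 0x380000001800000000 0x3000000030000000770000003f0000007800000028 6 7) 0 0 (step_sound _ 66 [(rh6292bd8784ece55f.shift 1 1), (rhba789ab0578491b9.shift 2 0), (rhba89ab7cb81bcc90.shift 0 1)] (by decide +kernel))
noncomputable def rhd2b7a2688e2e6125 : CRef := CRef.mk (Pat.mk 0x140000001c000000000000000000000000 0x3800000038000000780000001f0000001c0000007c0000003c00000018 6 7) 0 0 (step_sound _ 164 [rh14e4d0d222f892d5, (rh281c6819542c66e6.shift 3 0), rh762cf8ea43f87175, (rhfafeb437ceb8396d.shift 3 0)] (by decide +kernel))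
noncomputable def rh9a4bcb72f1ad40cb : CRef := CRef.mk (Pat.mk 0x500000007000000000000000000000000000000000 0x600000006000000070000001fe000001f7000000e0000000e0000000c0 6 9) 0 0 (step_sound _ 101 [(rh8b6652ba3e50a8bb.shift 3 0), (rhcf80391c5046a495.shift 5 1), (rhf82f0dda0d15dbb5.shift 0 3), (rhf9366b6a121593ef.shift 5 1)] (by decide +kernel))
noncomputable def rh6630d9a54af61db1 : CRef := CRef.mk (Pat.mk 0x140000001c000000000000000000000000 0x3000000038000000780000001c0000007f0000001f0000001c0000001c 6 7) 0 0 (step_sound _ 131 [(rh8b20b1ef24f2c4de.shift 0 2), (rh92e8f86a47ca4f2b.shift 1 0), (rh9605c23dc48d5b83.shift 2 0), (rha2a841304777a668.shift 2 1)] (by decide +kernel))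
noncomputable def rhb714309bc1f18052 : CRef := CRef.mk (Pat.mk 0x5000000070000000000000000000000000 0x2000000077000001fe000003bf0000001000000010 6 10) 0 0 (step_sound _ 103 [(rh60e95adc726bb530.shift 4 2), (rh8db7f7558b75b2b1.shift 3 2), rhcd563cf98f1d4b54] (by decide +kernel))
noncomputable def rhc4a88c21b4255f4b : CRef := CRef.mk (Pat.mk 0x200000003800000000000000000000000000000000 0x1000000030000000300000003e00000077000000700000007000000050 6 7) 0 0 (step_sound _ 130 [(rh2591032a0e7f4182.shift 0 3), (rh6c4e0b32c574208d.shift 2 0), (rh9483656c38360087.shift 1 1)] (by decide +kernel))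
noncomputable def rh8b0cd1b46018b7f7 : CRef := CRef.mk (Pat.mk 0x140000001c000000000000000000000000 0x280000003800000038000000140000003f000000ff0000003b0000002a 6 8) 0 0 (step_sound _ 68 [(rh16ab7479028fc32c.shift 3 0), rh833f412479488fc9, (rh8ee80cc30e93a344.shift 1 2), (rhc21a95c499b3efdb.shift 1 2)] (by decide +kernel))
noncomputable def rh9ee6de38011a0cee : CRef := CRef.mk (Pat.mk 0x2800000038000000000000000000000000 0x2000000020000000380000007e000000ff0000005600000014 6 8) 0 0 (step_sound _ 68 [(rh47fb87c994cd76ab.shift 1 0), rhca881b8854706db1, (rhcf80391c5046a495.shift 4 0), (rhf9366b6a121593ef.shift 4 0)] (by decide +kernel))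
noncomputable def rhc05201f23afa0dfb : CRef := CRef.mk (Pat.mk 0x1c0000000c000000000000000000000000 0x1800000018000000180000001c0000000f0000003c0000001c00000018 6 6) 0 0 (step_sound _ 97 [(rh3fcc306a714d4957.shift 1 0), (rh53b3c253cb0c65f4.shift 0 3)] (by decide +kernel))
noncomputable def rh0c0fe958cb080f41 : CRef := CRef.mk (Pat.mk 0x38000000180000000000000000 0x2000000020000000770000003f0000001e0000001000000010 6 7) 0 0 (step_sound _ 66 [(rh53b3c253cb0c65f4.shift 1 2), rh9784e3be35be184c] (by decide +kernel))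
noncomputable def rhf36fb1fc2fc3bb1b : CRef := CRef.mk (Pat.mk 0x10000000500000001000000010 0x2f0000003e000000770000001000000010 6 7) 0 0 (step_sound _ 101 [(rh2f68792b6b779e96.shift 4 0), rha18311743ef6c2e2] (by decide +kernel))
noncomputable def rhed3fd3f913686628 : CRef := CRef.mk (Pat.mk 0x800000008000000080000000800000000 0xc0000000c000000080000001f0000007c00000010 6 7) 0 0 (step_sound _ 36 [(rh2dcecd9500b1b7eb.shift 0 1), (rh55afc6a59410cf00.shift 3 0)] (by decide +kernel))
noncomputable def rhce51cb8f01b79e53 : CRef := CRef.mk (Pat.mk 0x280000000800000008000000000000000000000000 0x2800000028000001ff000000ff000001de0000001400000014 6 9) 0 0 (step_sound _ 100 [(rh046c5eb18e55a239.shift 3 0), rh485d53a39310b349, (rh70e33bfdf511e144.shift 3 0)] (by decide +kernel))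
noncomputable def rh1a5850ee4326b921 : CRef := CRef.mk (Pat.mk 0x2000000020000000200000002000000000 0x2000000020000001ff000000fe0000005f 6 9) 0 0 (step_sound _ 36 [(rh932754581e0f4330.shift 4 0), rh95b27f45014993fd] (by decide +kernel))
noncomputable def rhef52df3fb28f0586 : CRef := CRef.mk (Pat.mk 0x2000000038000000080000000000000000 0x10000000300000003e0000007f0000006000000060 6 7) 0 0 (step_sound _ 98 [(rh008b05f4778dc30d.shift 0 2), (rh2591032a0e7f4182.shift 0 2), (rh2ebbcfe90e0f250d.shift 1 2), (rhaa96520d7ee6a3ec.shift 1 0)] (by decide +kernel))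
noncomputable def rh808d44917b98e09e : CRef := CRef.mk (Pat.mk 0x80000000e00000002000000000000000000000000 0x140000001c0000001c0000001c0000001c0000000e0000007f000000180000001800000008 6 7) 0 0 (step_sound _ 195 [(rh0c86affd432cdf59.shift 1 3), (rh32431e66bbf434a4.shift 2 3), (rh57af6c46ff20b165.shift 1 1), rhb5ee295e06246f67, (rhe50956e0f3d9d00a.shift 1 3)] (by decide +kernel))
noncomputable def rh69b6d8f927f1c632 : CRef := CRef.mk (Pat.mk 0x1000000016000000040000000000000000 0x8000000380000001e0000003f0000003000000030 6 6) 0 0 (step_sound _ 99 [(rh33e738c4ed385b9f.shift 1 3), rhaa96520d7ee6a3ec] (by decide +kernel))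
noncomputable def rh73109a38068bb0da : CRef := CRef.mk (Pat.mk 0x200000002c000000080000000000000000 0x10000000300000003e0000007f0000006000000060 6 7) 0 0 (step_sound _ 100 [(rh008b05f4778dc30d.shift 0 2), (rh2591032a0e7f4182.shift 0 2), (rh2ebbcfe90e0f250d.shift 1 2), (rhaa96520d7ee6a3ec.shift 1 0)] (by decide +kernel))
noncomputable def rhf1badb5c9cedbeaa : CRef := CRef.mk (Pat.mk 0x200000002c00000008000000000000000000000000 0x4000000070000000780000002f0000007c000000700000007000000050 6 7) 0 0 (step_sound _ 101 [(rh8c25cb665ab79ec0.shift 0 3), (rha72ebde87894505b.shift 2 0), (rhd20c7206d743ed15.shift 2 0)] (by decide +kernel))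
noncomputable def rh4df001215f0fbb7d : CRef := CRef.mk (Pat.mk 0x200000003800000008000000000000000000000000 0x2000000020000000300000003f0000007c000000700000007000000020 6 7) 0 0 (step_sound _ 100 [rha1afb26b51cb2096, (rhcf80391c5046a495.shift 4 1), (rhf91b1398c815afd2.shift 4 1), (rhf9366b6a121593ef.shift 4 1)] (by decide +kernel))
noncomputable def rhf92a6f6507463037 : CRef := CRef.mk (Pat.mk 0x80000000e00000002000000000000000000000000 0x40000001c0000001c000000180000001c0000000e0000003f0000001c0000001c0000000c 6 6) 0 0 (step_sound _ 195 [(rh281c6819542c66e6.shift 2 1), (rh7ded265f3adcd6ce.shift 2 0), rhb5ee295e06246f67, rhdec331f99de74410, (rhfafeb437ceb8396d.shift 2 1)] (by decide +kernel))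
noncomputable def rh9bcc105899da7f10 : CRef := CRef.mk (Pat.mk 0x40000000700000001000000000000000000000000 0xa0000000e0000000e0000000600000006000000070000001f0000000e0000000e00000002 6 5) 0 0 (step_sound _ 194 [(rh0c86affd432cdf59.shift 0 3), rh17026cda70fce3ef, (rh281c6819542c66e6.shift 1 1), (rhfafeb437ceb8396d.shift 1 1)] (by decide +kernel))
noncomputable def rh5aec04141a2072bb : CRef := CRef.mk (Pat.mk 0x200000002c00000008000000000000000000000000 0x18000000180000007c0000002f0000007c000000340000001000000010 6 7) 0 0 (step_sound _ 163 [(rh3b83cdd66dc69652.shift 2 2), rhe13d35548d407456, (rhe33d9496e10d8eb0.shift 0 4)] (by decide +kernel))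
noncomputable def rh805fb8cbc0b209c8 : CRef := CRef.mk (Pat.mk 0x20000000200000002800000008000000000000000000000000 0x2000000020000000600000003f0000007f000000500000001000000010 6 7) 0 0 (step_sound _ 100 [(rh33a6e55fd15d2b50.shift 2 2), (rh57f7f6b490ec4d18.shift 0 3), (rh91dfa05bb1518401.shift 3 0)] (by decide +kernel))
noncomputable def rh915e6c23910ed4c4 : CRef := CRef.mk (Pat.mk 0x10000000100000001400000004 0x380000003800000038000000f80000003f000000340000001400000014 6 8) 0 0 (step_sound _ 132 [(rh9b48cd285658ce2b.shift 1 0), (rhc85cc95794737cf7.shift 3 1), rhcafa54870fd2e4f3, (rhe08194b42063891d.shift 3 0)] (by decide +kernel))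
noncomputable def rh0984d15e6987af5a : CRef := CRef.mk (Pat.mk 0x20000000200000002800000000 0x50000000700000007000000020000000670000003e00000017 6 7) 0 0 (step_sound _ 133 [(rh762a1aeaf83c662a.shift 4 0), rh9256997a84108e39, (rhc85cc95794737cf7.shift 4 1)] (by decide +kernel))
noncomputable def rhc4bb153d33f60294 : CRef := CRef.mk (Pat.mk 0x2000000028000000280000000000000000 0x7000000070000000700000003e0000003e000001ff0000006000000060 6 9) 0 0 (step_sound _ 100 [rh1c68c22104c9057d, (rhba71fff43dd7c3e6.shift 3 0), (rhc21a95c499b3efdb.shift 2 2), (rhcc2b4b423ab45c1e.shift 2 1)] (by decide +kernel))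
noncomputable def rhb0824d3582ea7ca5 : CRef := CRef.mk (Pat.mk 0x20000000200000002000000000000000000000000 0x100000003000000030000000300000003000000070000000700000005 6 3) 0 0 (step_sound _ 65 [rh3181373a30ceb9e3, rh46baee19951a66e7, rh6aa5625770489e83, (rhaba26d7b21102469.shift 0 1)] (by decide +kernel))
noncomputable def rh3c45ec64a1ff42da : CRef := CRef.mk (Pat.mk 0x20000000200000002800000008000000000000000000000000 0x300000003000000030000003f8000001fe000003bf00000068000000700000007000000010 6 10) 0 0 (step_sound _ 164 [(rh6d39fd2eb51c82ba.shift 1 2), (rh797653038f5535bc.shift 3 2), (rh9f8513e3e7f98745.shift 0 4), (rhdbcc2d334e96185d.shift 2 0)] (by decide +kernel))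
noncomputable def rhd9183235ac18361f : CRef := CRef.mk (Pat.mk 0x20000000200000002800000008 0x50000000700000007000000030000000770000003e0000002f 6 7) 0 0 (step_sound _ 36 [(rh0c86affd432cdf59.shift 3 0), rh7f0f728c796044ac, rhb12ffaec36122c99] (by decide +kernel))
noncomputable def rh9a4880b0d27cc648 : CRef := CRef.mk (Pat.mk 0x8000000080000000a00000000000000000000000000000000 0x40000001c0000001c0000001c0000000c0000000f000000180000001c0000001c00000004 6 5) 0 0 (step_sound _ 99 [(rh6d68c88e75f7de72.shift 2 0), (rh7ef5fa5c39f1c762.shift 2 3), (rh8999d3fc4681d03d.shift 0 2), (rhcae87bda2c3c01d2.shift 2 1)] (by decide +kernel))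
noncomputable def rh881b9b2746b4c9dc : CRef := CRef.mk (Pat.mk 0x8000000080000000a000000020000000000000000 0x14000000f40000007f000000ff0000000e0000001a0000001800000010 6 8) 0 0 (step_sound _ 162 [rh212b6e50b45336c8, (rh4e27bb3b7fd89fa2.shift 0 2), (rh93de45030b92d2cb.shift 2 0), (rhd1779d7de7f8215b.shift 2 0)] (by decide +kernel))
noncomputable def rh8c799e492b197a8f : CRef := CRef.mk (Pat.mk 0x20000000200000002800000000000000000000000000000000 0x400000006000000060000003f0000001fc000003bf00000060000000700000007000000010 6 10) 0 0 (step_sound _ 164 [(rh240a9441233be183.shift 2 2), (rh278b1929aa33ba06.shift 2 0), (rh366cd83b497f4e2a.shift 2 4), (rh9f8513e3e7f98745.shift 0 4), (rhe3267552a7446d26.shift 2 2)] (by decide +kernel))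
noncomputable def rh4289ba5f43cc1306 : CRef := CRef.mk (Pat.mk 0x20000000200000002800000000000000000000000000000000 0x10000000700000007000000060000001f00000003e00000067000000700000007000000010 6 9) 0 0 (step_sound _ 101 [(rh15f12b2e8a1e42e2.shift 2 2), rh6846df693af8d529, (rh8999d3fc4681d03d.shift 2 2), (rhc9de03f9731897d4.shift 5 1)] (by decide +kernel))
noncomputable def rhf1ca0921372c160f : CRef := CRef.mk (Pat.mk 0x20000000200000002800000008 0x400000007000000070000003ff000001fe000003bf00000008 6 10) 0 0 (step_sound _ 68 [(rh366cd83b497f4e2a.shift 2 1), (rh743e0fbf25ecdd54.shift 1 0), (rh958bbfe65efc97f3.shift 1 0), rh9631637ae8912234] (by decide +kernel))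
noncomputable def rh2df0b0d86d36d078 : CRef := CRef.mk (Pat.mk 0x28000000280000000800000000 0x30000000300000007f0000007e0000003f0000001800000010 6 7) 0 0 (step_sound _ 100 [(rh2820ca9a6c4f41b4.shift 0 2), rh859ccb81733f8e59, (rhf0f55c4504412200.shift 0 2)] (by decide +kernel))
noncomputable def rh0a88bd1eb5a85876 : CRef := CRef.mk (Pat.mk 0x28000000280000000800000000 0x50000000780000007c0000003f0000003c0000001c00000014 6 7) 0 0 (step_sound _ 131 [(rh402d223d12d7377d.shift 2 0), (rh426f403fa814630c.shift 3 0), rhab045bea27954382, (rhabedd109a9a37101.shift 2 0)] (by decide +kernel))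
noncomputable def rh8398ca1a73847733 : CRef := CRef.mk (Pat.mk 0x28000000280000000800000000 0x10000000180000007c000001ff000000380000001e00000014 6 9) 0 0 (step_sound _ 131 [(rh426f403fa814630c.shift 3 0), (rh89afb6a85c47e888.shift 0 1), (rhf42e780814dbdbac.shift 1 0)] (by decide +kernel))
noncomputable def rhcee2334a36872f50 : CRef := CRef.mk (Pat.mk 0x28000000080000000800000000 0x10000000180000007c000001ff0000000f0000000c00000004 6 9) 0 0 (step_sound _ 131 [(rh402d223d12d7377d.shift 2 0), (rh89afb6a85c47e888.shift 0 1), rhac09afe906154c2a, (rhe9e1f0f038bded44.shift 2 1)] (by decide +kernel))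
noncomputable def rhbb138f13f6667079 : CRef := CRef.mk (Pat.mk 0x28000000280000000800000000 0x10000000380000003c000000680000003c0000001f00000014 6 7) 0 0 (step_sound _ 131 [(rh402d223d12d7377d.shift 2 0), (rh426f403fa814630c.shift 3 0), (rhabedd109a9a37101.shift 2 0), rhc8905710c441be9f] (by decide +kernel))
noncomputable def rh40846f0df2bb12a5 : CRef := CRef.mk (Pat.mk 0x500000005000000010 0xfe0000007f0000003e 6 8) 0 0 (step_sound _ 35 [rh18be4029158ef700, (rh5bc5f4ab1822bc0a.shift 1 0), (rh9f2591205204f08d.shift 3 1), (rhe33d9496e10d8eb0.shift 1 1)] (by decide +kernel))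
noncomputable def rh89bc527fc5227706 : CRef := CRef.mk (Pat.mk 0xa0000000a0000000200000000 0x4000000060000001f0000007e0000000f0000000700000005 6 7) 0 0 (step_sound _ 129 [rh402d223d12d7377d, (rh426f403fa814630c.shift 1 0), rhabedd109a9a37101, (rhb480165bbce3b9e7.shift 0 1)] (by decide +kernel))
noncomputable def rh89d87a6c1a223e3d : CRef := CRef.mk (Pat.mk 0x20000000200000002000000000000000000000000 0x100000003000000030000000300000003000000070000000700000005 6 3) 0 0 (step_sound _ 65 [rh0c1c1b53bc5a1510, rh8cdd36b03d57a2f6, (rhaba26d7b21102469.shift 0 1), rhcae87bda2c3c01d2] (by decide +kernel))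
noncomputable def rh2c4b8cdb2daa4e88 : CRef := CRef.mk (Pat.mk 0x8000000080000000a000000020000000000000000 0x14000000f40000007f000000ff0000000e0000001e0000001c00000014 6 8) 0 0 (step_sound _ 162 [rh212b6e50b45336c8, (rh43d8dfd721575dfb.shift 2 0), (rh4e27bb3b7fd89fa2.shift 0 2), (rh93de45030b92d2cb.shift 2 0)] (by decide +kernel))
noncomputable def rha9176661a4a3a31d : CRef := CRef.mk (Pat.mk 0x8000000080000000a00000002 0x140000001c0000003c0000000f0000000c0000000e00000006 6 6) 0 0 (step_sound _ 131 [(rh20966da26a1c2ae8.shift 2 0), rh74d1bcb310a2c076, (rh762a1aeaf83c662a.shift 2 0), (rhc85cc95794737cf7.shift 2 1), (rhe30fe0d37c40a537.shift 1 0)] (by decide +kernel))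
noncomputable def rhb10dcb4e70fedd7e : CRef := CRef.mk (Pat.mk 0x200000002800000028000000000000000000000000 0x50000000780000002f0000007c000000700000007000000050 6 7) 0 0 (step_sound _ 69 [(rh1acab8c375cd2207.shift 0 2), (rh3181373a30ceb9e3.shift 4 0)] (by decide +kernel))
noncomputable def rh234745de5b804d76 : CRef := CRef.mk (Pat.mk 0x100000001c00000004000000000000000000000000 0x3c0000003f0000007c0000001c0000007f000000780000003800000010 6 7) 0 0 (step_sound _ 99 [(rh5b9b2616bdb050be.shift 1 0), (rh8a0b888e9b044de1.shift 0 1), (rhcf80391c5046a495.shift 3 1), (rhf91b1398c815afd2.shift 3 1), (rhf9366b6a121593ef.shift 3 1)] (by decide +kernel))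
noncomputable def rh4831f56b288300ad : CRef := CRef.mk (Pat.mk 0x800000008000000080000000800000000 0x800000008000000ff0000007f000000f4 6 8) 0 0 (step_sound _ 36 [(rh55afc6a59410cf00.shift 3 0), rha55e8681c36273c3] (by decide +kernel))
noncomputable def rh232acdc32e26337b : CRef := CRef.mk (Pat.mk 0x3800000008000000000000000000000000 0x1800000038000000780000003e000000fe0000007f0000003c00000038 6 8) 0 0 (step_sound _ 100 [rh45facd64c8f4de6f, (rh4c3f48492504c0f6.shift 1 0), (rh701abdafdf6c4ea1.shift 1 0), (rh8a5d1a87a384ba9b.shift 1 1), (rhb466c85c20f8ff75.shift 1 0)] (by decide +kernel))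
noncomputable def rh249aeee790acbb0c : CRef := CRef.mk (Pat.mk 0x3800000008000000000000000000000000 0x20000000770000003e0000007f000000700000003000000020 6 7) 0 0 (step_sound _ 130 [(rh6065935af838fed8.shift 1 0), (rh61325f73ebf98108.shift 0 4), (rh775ca1963e850b80.shift 0 3)] (by decide +kernel))
noncomputable def rh3e69baaa8925d602 : CRef := CRef.mk (Pat.mk 0x7800000018000000000000000000000000 0xc00000078000000380000001f0000001c0000001c 6 7) 0 0 (step_sound _ 163 [(rh3244c3cc8379b070.shift 2 4), rh672cd594dd27fa33] (by decide +kernel))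
noncomputable def rh52522e5154dc43b0 : CRef := CRef.mk (Pat.mk 0x1e000000140000000000000000 0x1000000038000000380000003f0000001e0000001c0000000400000004 6 6) 0 0 (step_sound _ 129 [(rh3244c3cc8379b070.shift 0 3), (rh4597748ebe7f705b.shift 1 0)] (by decide +kernel))
noncomputable def rhcf0cd87284c541ed : CRef := CRef.mk (Pat.mk 0xf00000002000000020000000000000000000000000 0x20000000f80000003f0000007c000000300000001000000010 6 8) 0 0 (step_sound _ 131 [(rh80fcd6d0a18cb2dd.shift 3 4), rhe4ec4b1201f6e10e] (by decide +kernel))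
noncomputable def rh054bcdbbf10c0f88 : CRef := CRef.mk (Pat.mk 0x80000000e000000020 0x18e000000fe0000003f 6 9) 0 0 (step_sound _ 36 [(rh33e738c4ed385b9f.shift 4 1), rh974cc5463aa80a9c] (by decide +kernel))
noncomputable def rh9ab1d5333b2dd055 : CRef := CRef.mk (Pat.mk 0x200000003800000008000000080000000000000000 0x10000000700000007000000078000000380000003e0000006f000000780000005000000040 6 7) 0 0 (step_sound _ 101 [(rh5a8abb721f11b584.shift 2 0), (rh915f238816133e05.shift 2 1), (rhcc2b4b423ab45c1e.shift 2 2), (rhd62c73b158a418d7.shift 0 3), (rhfcd78c11ca62289b.shift 3 2)] (by decide +kernel))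
noncomputable def rh7f62e44fcffd1e3b : CRef := CRef.mk (Pat.mk 0x100000001c000000040000000400000000 0x80000007c0000007f0000001c000000070000003e0000000a 6 7) 0 0 (step_sound _ 130 [rh1904b52b42aee148, (rh402d223d12d7377d.shift 1 0), rh7b1fc87fd1530ce0] (by decide +kernel))
noncomputable def rh6a5f7cf7d391e879 : CRef := CRef.mk (Pat.mk 0x8000000080000001c000000040000000000000000 0x1000000030000001f40000007c0000007f0000001c0000001f0000000a00000008 6 9) 0 0 (step_sound _ 164 [rh8975e57b0981fc9d, (rha5e51ce4948ac2c9.shift 0 2), (rhb730ba14aa32bdb3.shift 3 2), (rhe2f0c2bb332d33f1.shift 0 1)] (by decide +kernel))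
noncomputable def rh6c4fed00dbbeb082 : CRef := CRef.mk (Pat.mk 0x700000001000000010000000000000000000000000 0x1000000050000000700000007e000000fe0000002f0000002800000028 6 8) 0 0 (step_sound _ 101 [(rh046c5eb18e55a239.shift 4 0), (rh1094e83f19af0ce5.shift 1 1), (rh1ec320c051db4640.shift 2 2), rhf67d2ab3427aadc9] (by decide +kernel))
noncomputable def rh808ac452887fdb8b : CRef := CRef.mk (Pat.mk 0x1e00000006000000000000000000000000 0x70000001e0000003e000000030000000300000002 6 6) 0 0 (step_sound _ 100 [rhabaa6e480415595e, (rhe25b0a99195a5d59.shift 1 3)] (by decide +kernel))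
noncomputable def rh01ede9df9721af71 : CRef := CRef.mk (Pat.mk 0x1e000000140000000000000000 0x1000000038000000380000003f0000001e0000001c0000000400000004 6 6) 0 0 (step_sound _ 132 [(rh33e738c4ed385b9f.shift 1 3), rh42946c30b5d7ecce] (by decide +kernel))
noncomputable def rhc8bbb9df1e6953a0 : CRef := CRef.mk (Pat.mk 0xa0000003800000008000000000000000000000000 0x120000003b0000003f0000006f0000001f0000001d00000001 6 7) 0 0 (step_sound _ 97 [(rh8bf8257c7eeda352.shift 0 3), rh9847db26a7ebfe33, (rha50f83a91ecabdbe.shift 0 3), (rhf8f24828d8989fa7.shift 0 1)] (by decide +kernel))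
noncomputable def rh6b03a17aa1a315ac : CRef := CRef.mk (Pat.mk 0x40000001e000000040000000000000000 0x80000001c0000003f0000001e000000340000000400000004 6 6) 0 0 (step_sound _ 129 [(rh3244c3cc8379b070.shift 0 3), (rh7983ef36a694f3de.shift 1 0)] (by decide +kernel))
noncomputable def rh846b03836510e6ec : CRef := CRef.mk (Pat.mk 0x20000000f000000000 0x1bf000000fe0000000e 6 9) 0 0 (step_sound _ 71 [(rh33e738c4ed385b9f.shift 4 1), rh820546166e3a0a00] (by decide +kernel))
noncomputable def rhea669f766ec63f35 : CRef := CRef.mk (Pat.mk 0x800000038000000080000000000000000 0x80000003f0000003f0000006e0000000400000004 6 7) 0 0 (step_sound _ 98 [(rh7930b6a6b862f234.shift 0 2), (rha1a532725e6ae333.shift 1 0)] (by decide +kernel))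
noncomputable def rh16c170961bac801f : CRef := CRef.mk (Pat.mk 0x40000001e000000040000000000000000 0xc0000000c0000000c000000070000001e000000060000000600000006 6 5) 0 0 (step_sound _ 129 [(rh3244c3cc8379b070.shift 0 3), (rh96d3e12b093ced7d.shift 1 0)] (by decide +kernel))
noncomputable def rhe0efac9601972504 : CRef := CRef.mk (Pat.mk 0x40000000e00000002000000020000000000000000000000000 0x20000000e0000000e0000001ff0000007e000000d70000001000000010 6 9) 0 0 (step_sound _ 100 [(rhc41f9af18264644f.shift 2 2), (rhf3dd929ac4934c3e.shift 0 2), (rhfafeb437ceb8396d.shift 4 0)] (by decide +kernel))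
noncomputable def rh9923704dd8b1d16c : CRef := CRef.mk (Pat.mk 0xf00000003000000000000000000000000 0xc0000000c0000001f0000000f0000001f000000060000000200000002 6 5) 0 0 (step_sound _ 99 [rh418ef45433bf4917, (rhe25b0a99195a5d59.shift 0 3)] (by decide +kernel))
noncomputable def rh87e1563add9579d9 : CRef := CRef.mk (Pat.mk 0xf000000030000000000000000 0x400000004000000060000000f0000001f0000001e0000000a 6 5) 0 0 (step_sound _ 67 [(rhe25b0a99195a5d59.shift 0 2), rhf560d075d3962c74] (by decide +kernel))
noncomputable def rh86038e21459eb0fa : CRef := CRef.mk (Pat.mk 0xf0000000300000000000000000000000000000000 0x60000000e0000001f0000000f000000070000001e0000000e0000000600000004 6 5) 0 0 (step_sound _ 97 [(rh3cb04db3dd2b6a55.shift 0 1), (rhb0c1e7919d9be92d.shift 0 1), rhbe0362c477e19607] (by decide +kernel))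
noncomputable def rhfa99517c4fd4a5f9 : CRef := CRef.mk (Pat.mk 0xf0000000a0000000000000000 0x180000001c0000001c0000001c0000000f0000000e0000000e0000000e 6 5) 0 0 (step_sound _ 131 [(rh33e738c4ed385b9f.shift 0 3), (rh53185092b688ba4a.shift 1 0)] (by decide +kernel))
noncomputable def rhddfd2d4db58e331d : CRef := CRef.mk (Pat.mk 0x1e0000000600000000000000000000000000000000 0x330000001e0000003e0000003c0000003c0000003c00000028 6 6) 0 0 (step_sound _ 132 [rh72340e7084f8cd9b, (rhe25b0a99195a5d59.shift 1 4)] (by decide +kernel))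
noncomputable def rh8a84b73ee2d06a73 : CRef := CRef.mk (Pat.mk 0xf000000030000000000000000 0x40000001c0000000f0000001b0000001e0000001c 6 5) 0 0 (step_sound _ 67 [rh4e868defd72f7749, (rhe25b0a99195a5d59.shift 0 2)] (by decide +kernel))
noncomputable def rh19efeba36ab4de84 : CRef := CRef.mk (Pat.mk 0x2000000020000000700000001000000000000000000000000 0x50000000700000007000000070000001f0000001e0000000600000002 6 5) 0 0 (step_sound _ 97 [(rh46baee19951a66e7.shift 0 1), rh7b115b54693e9712, rha18922c1423cfe79, (rhe0c99c2c46f7ce32.shift 0 2)] (by decide +kernel))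
noncomputable def rhd87797a79bb02543 : CRef := CRef.mk (Pat.mk 0x40000000e0000000200000002000000000000000000000000 0xe0000000e0000007f0000003e0000007c0000000400000004 6 7) 0 0 (step_sound _ 98 [(rh046c5eb18e55a239.shift 1 0), (rh45d2128c38216d62.shift 0 2), (rh8757268e7adf1425.shift 0 2)] (by decide +kernel))
noncomputable def rh468b0e78bcc1fb98 : CRef := CRef.mk (Pat.mk 0x3800000008000000000000000000000000 0x20000000770000003e0000007f000000700000003000000020 6 7) 0 0 (step_sound _ 130 [(rh008b05f4778dc30d.shift 0 3), (rh0d378fd9e8917c5a.shift 0 3), (rh6065935af838fed8.shift 1 0), (rh775ca1963e850b80.shift 0 3)] (by decide +kernel))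
noncomputable def rhaac5dcd505a1cbb4 : CRef := CRef.mk (Pat.mk 0xf00000003000000000000000000000000 0x40000001d0000000f0000001b0000001e0000001a00000002 6 5) 0 0 (step_sound _ 163 [(rh33e738c4ed385b9f.shift 0 4), rh5449411346eae40e] (by decide +kernel))
noncomputable def rh4be7719e1ad6a1ec : CRef := CRef.mk (Pat.mk 0x1e000000100000000000000000 0x1000000030000000380000003f0000001e000000180000001000000010 6 6) 0 0 (step_sound _ 132 [(rh33e738c4ed385b9f.shift 1 3), rhe323b22f2776e35d] (by decide +kernel))
noncomputable def rhda5cb91647ebcd79 : CRef := CRef.mk (Pat.mk 0x8000000080000001c000000040000000000000000 0x140000001c0000001c0000001c0000001f0000001b00000010 6 5) 0 0 (step_sound _ 67 [(rh43638b2687da8f09.shift 0 1), (rh46baee19951a66e7.shift 2 0), (rhb4f5b9840e1b3fbf.shift 0 1), (rhc9de03f9731897d4.shift 3 0)] (by decide +kernel))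
noncomputable def rh6de302e7e9c186b3 : CRef := CRef.mk (Pat.mk 0x10000000380000000800000008000000000000000000000000 0x2000000020000000e8000000fe000000380000007f000000ff000000670000000400000004 6 8) 0 0 (step_sound _ 98 [(rh31846a511740b9d0.shift 0 2), (rha82f09a72249b092.shift 0 2), (rha91dd100791bf0c0.shift 0 2), (rhfafeb437ceb8396d.shift 2 0)] (by decide +kernel))
noncomputable def rhc62a46e58eaea6df : CRef := CRef.mk (Pat.mk 0x20000000200000002000000000000000000000000 0x400000007000000070000000700000006000000060000000600000004 6 3) 0 0 (step_sound _ 65 [rh46baee19951a66e7, (rhc4055b4872d6fb38.shift 0 1), (rhc9de03f9731897d4.shift 1 0), (rhd011005e9a0294a4.shift 0 1)] (by decide +kernel))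
noncomputable def rhd29dbdc868406425 : CRef := CRef.mk (Pat.mk 0x20000000200000002000000000000000000000000 0x400000007000000070000000700000003000000030000000300000001 6 3) 0 0 (step_sound _ 65 [rh367118e0bf0473e0, (rh5403d956def82fda.shift 0 1), rh6aa5625770489e83, (rhc4055b4872d6fb38.shift 0 1)] (by decide +kernel))
noncomputable def rh626a9b93d8b081ae : CRef := CRef.mk (Pat.mk 0x1800000008000000080000000800000000 0x18000000180000003c000000ff00000074 6 8) 0 0 (step_sound _ 36 [(rh55afc6a59410cf00.shift 3 0), rh67924cd1fe640a78] (by decide +kernel))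
noncomputable def rhc33c736d6e9c2a84 : CRef := CRef.mk (Pat.mk 0x58000000180000000800000000 0x140000001c00000078000000380000001f00000014 6 7) 0 0 (step_sound _ 132 [rh14e41a1e07a09303, (rh5c5e593799055d58.shift 3 1)] (by decide +kernel))
noncomputable def rh58fe0af0cbf5493c : CRef := CRef.mk (Pat.mk 0x580000001000000018000000000000000000000000 0x80000000d000000078000000d0000000fc000001ef0000002800000028 6 9) 0 0 (step_sound _ 101 [rh18e9ec6bb965c41b, (rhde10baa3043a2b46.shift 3 2), (rhe0d8e0f37e977a6f.shift 1 2), (rhe18aaae3bc74af6c.shift 2 0)] (by decide +kernel))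
noncomputable def rhe1e57054f91640b5 : CRef := CRef.mk (Pat.mk 0x2c000000080000000c0000000000000000 0x2000000060000003e0000000f0000003e0000000600000006 6 6) 0 0 (step_sound _ 98 [(rh757b341b55d19a22.shift 0 2), (rhd5ce03d3beb8f535.shift 1 0)] (by decide +kernel))
noncomputable def rh758e8ee7da4b9e22 : CRef := CRef.mk (Pat.mk 0xb00000002000000030000000000000000000000000 0x2000000020000000fc0000003f000001f8000003c00000004000000040 6 10) 0 0 (step_sound _ 102 [(rh8f4e6384f63d1d36.shift 3 2), (rhc53ea101842443fe.shift 2 2), (rhe18aaae3bc74af6c.shift 3 0), (rhf87a51ba5053e915.shift 0 3)] (by decide +kernel))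
noncomputable def rh212f7439c5f69809 : CRef := CRef.mk (Pat.mk 0x2c0000003800000000000000000000000000000000 0x280000002c0000002f000000380000003f0000001c0000001c00000014 6 6) 0 0 (step_sound _ 160 [rh070bb9fbe4f8e333, (rhab22b5b56e7b3243.shift 0 4)] (by decide +kernel))
noncomputable def rh9f5a1eb6d599de5f : CRef := CRef.mk (Pat.mk 0x10000000160000001400000000000000000000000000000000 0x20000000300000003600000016000000340000003e0000003f0000002e0000000a 6 6) 0 0 (step_sound _ 100 [(rh3181373a30ceb9e3.shift 3 1), rh83c847be5ed08d52, (rhced6d86d2069808b.shift 4 2)] (by decide +kernel))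
noncomputable def rh1eccba62f2f03c72 : CRef := CRef.mk (Pat.mk 0xb0000000e000000000000000000000000 0x1a0000001a0000000f0000000e0000003e0000001400000004 6 6) 0 0 (step_sound _ 66 [(rh6c3d5e2c709a6dbd.shift 0 1), (rhade0f4c81793f68e.shift 1 0)] (by decide +kernel))
noncomputable def rh421d142d0fc8a22c : CRef := CRef.mk (Pat.mk 0x1800000038000000000000000000000000 0x10000000100000001e0000003f000000770000002000000020 6 7) 0 0 (step_sound _ 130 [rh1504310e6f8cf9b4, (rhb739f4f82bb681b4.shift 1 3)] (by decide +kernel))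
noncomputable def rh29f9e435ae11b48b : CRef := CRef.mk (Pat.mk 0xc0000001c000000000000000000000000 0xc0000000c0000001c0000001f0000007f0000001c 6 7) 0 0 (step_sound _ 66 [rhe66a8795225403d0, (rhea7a1800d6f053bd.shift 2 0)] (by decide +kernel))
noncomputable def rh9d112e27f720ae04 : CRef := CRef.mk (Pat.mk 0x1e000000060000000000000000 0x180000003c0000003f0000001e0000000e0000000e00000002 6 6) 0 0 (step_sound _ 130 [(rh1e309b005ffa1b36.shift 1 0), (rh2f840eb58ddb63b8.shift 0 1)] (by decide +kernel))
noncomputable def rh30981cc1e1636f9d : CRef := CRef.mk (Pat.mk 0x1e00000006000000000000000000000000 0x370000001e0000003e000000030000000300000002 6 6) 0 0 (step_sound _ 100 [rh553fc6f8d17ebbdf, (rhe25b0a99195a5d59.shift 1 3)] (by decide +kernel))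
noncomputable def rh1e2a4603f2e941a4 : CRef := CRef.mk (Pat.mk 0x1c0000000c0000000800000000 0x180000001c0000001c0000001c0000000f0000007c00000010 6 7) 0 0 (step_sound _ 130 [(rh2145e1d24b96a57e.shift 2 1), rh7a687bc483492a18] (by decide +kernel))
noncomputable def rhb177455af799916f : CRef := CRef.mk (Pat.mk 0x1c0000000c000000080000000000000000 0x80000001c0000000f0000007c0000001800000018 6 7) 0 0 (step_sound _ 35 [rh2524ec0c59b15eca, (rh7b1f1fb55310c477.shift 2 0)] (by decide +kernel))
noncomputable def rh5a2768fe83d250f2 : CRef := CRef.mk (Pat.mk 0x7000000030000000200000000 0x20000000e0000001e00000007000000070000001f0000000c 6 5) 0 0 (step_sound _ 129 [rh36737a72eb89c4a5, (rh503dd4575245365b.shift 0 1)] (by decide +kernel))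
noncomputable def rh13a0a52529c75d2e : CRef := CRef.mk (Pat.mk 0x1c0000000c000000080000000000000000 0x4000000040000001c0000007f0000007f0000000200000002 6 7) 0 0 (step_sound _ 97 [rh03a3f97c9528645d, (rh53b3c253cb0c65f4.shift 0 3)] (by decide +kernel))
noncomputable def rh0a95c4fbea2c2430 : CRef := CRef.mk (Pat.mk 0x1000000038000000080000001000000000 0x100000001000000038000000380000002f0000007c00000020 6 7) 0 0 (step_sound _ 164 [(rh5c5e593799055d58.shift 3 2), rhce63d54681d942eb] (by decide +kernel))
noncomputable def rh3babd1d8e615f33a : CRef := CRef.mk (Pat.mk 0x80000001c0000000400000008000000000000000000000000 0x30000000780000001c0000007f0000007f000000700000002000000020 6 7) 0 0 (step_sound _ 100 [(rh00df37e6b62fb01c.shift 1 0), (rh3a2825ae5b644428.shift 0 2), (rh935da622f8ebc962.shift 3 2), (rhed4051d450f3b816.shift 0 2)] (by decide +kernel))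
noncomputable def rh191a78435ba543ec : CRef := CRef.mk (Pat.mk 0xa0000000200000006000000000000000000000000 0xa0000000a0000007b0000003e0000007c0000000400000004 6 7) 0 0 (step_sound _ 66 [(rh2145e1d24b96a57e.shift 1 2), rh7b803ae4096385f0] (by decide +kernel))
noncomputable def rhb3ef251d9af88d38 : CRef := CRef.mk (Pat.mk 0x70000000100000003000000000 0x3000000070000000d70000007e000000ef 6 8) 0 0 (step_sound _ 35 [rh3d164a09ad92dabc, rhb12ddf7e6327fbb9, (rhde10baa3043a2b46.shift 3 0)] (by decide +kernel))
noncomputable def rha2d1bf743472775b : CRef := CRef.mk (Pat.mk 0xc0000000800000008000000000000000000000000 0x100000007c0000000f000000080000000c0000000c0000000400000004 6 7) 0 0 (step_sound _ 66 [(rh561f9b789d30937a.shift 0 2), (rha3c02ab1a397c44e.shift 2 1), (rhb01ac4982a11ea27.shift 2 0)] (by decide +kernel))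
noncomputable def rh67bd3b179da2a5d1 : CRef := CRef.mk (Pat.mk 0x1000000058000000100000001000000000 0x100000003e0000007f0000001c0000001800000008 6 7) 0 0 (step_sound _ 35 [(rh932754581e0f4330.shift 3 0), (rhdc0e5f301fcfb063.shift 0 1)] (by decide +kernel))
noncomputable def rh03efadd30e5c9a4c : CRef := CRef.mk (Pat.mk 0x200000003000000020000000200000000 0x10000000700000007000000060000000300000003000000030000000300000001 6 3) 0 0 (step_sound _ 32 [(rh66bf57636bbc5c37.shift 0 1), rh932754581e0f4330] (by decide +kernel))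
noncomputable def rh137d293d92d9f79d : CRef := CRef.mk (Pat.mk 0xb00000008000000000000000000000000 0x140000001c0000001c0000001e0000000f00000018000000180000001000000010 6 5) 0 0 (step_sound _ 163 [(rh437d454e808ff910.shift 2 1), (rh85fa5d4252c97823.shift 0 2), rh9765e413c7f50252, (rhabf575676fe0ef70.shift 0 3)] (by decide +kernel))
noncomputable def rhb2dd000641ced34c : CRef := CRef.mk (Pat.mk 0x2c0000002800000008000000000000000000000000 0x30000000780000002c0000007c0000006f000000440000004400000004 6 7) 0 0 (step_sound _ 98 [(rh00a49fd15affcabb.shift 2 1), (rh75f4fd8c2b3f2eb9.shift 0 3), (rhfafeb437ceb8396d.shift 2 0)] (by decide +kernel))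
noncomputable def rhf775aecc12ba0123 : CRef := CRef.mk (Pat.mk 0x100000001600000014000000000000000000000000 0x370000001e0000001f000000030000000300000002 6 6) 0 0 (step_sound _ 131 [rh2c273f8387611dfa, (rh33e738c4ed385b9f.shift 1 4)] (by decide +kernel))
noncomputable def rh1bcbe2621f47e840 : CRef := CRef.mk (Pat.mk 0x1000000016000000140000000000000000 0x80000003800000038000000780000001f0000001e0000001c0000001400000014 6 7) 0 0 (step_sound _ 164 [(rh6fa8dd4bf0561bd9.shift 3 2), rh7a2c761bb8a63c14, (rh7ef5fa5c39f1c762.shift 3 2), (rhea0525b1250ee804.shift 1 0)] (by decide +kernel))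
noncomputable def rh08d809ccc7c603e2 : CRef := CRef.mk (Pat.mk 0x80000000b0000000a00000000 0x4000000140000001e0000007e0000000b0000000a0000000a 6 7) 0 0 (step_sound _ 130 [(rh114f4abf4ea101c9.shift 2 0), rh9e1d4f7c36b0dcc5, (rhbec796c3ea7a32e6.shift 1 0), (rhd6657dd7a309fc6a.shift 0 1)] (by decide +kernel))
noncomputable def rhae7001f4ffaf4d76 : CRef := CRef.mk (Pat.mk 0x1000000016000000100000000000000000 0x1000000030000000380000003f0000001e000000180000001000000010 6 6) 0 0 (step_sound _ 99 [(rh33e738c4ed385b9f.shift 1 3), rhe323b22f2776e35d] (by decide +kernel))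
noncomputable def rhd5ddf0dbc2de4970 : CRef := CRef.mk (Pat.mk 0xc0000000c000000000000000000000000 0x18000000180000007c0000000f0000000c0000000c0000000c0000000c 6 7) 0 0 (step_sound _ 163 [(rh1e309b005ffa1b36.shift 2 1), (rh2e14b0001f2cbe5b.shift 2 0), rh564bb90c1299bf71] (by decide +kernel))
noncomputable def rh25eb2b38bc805564 : CRef := CRef.mk (Pat.mk 0x1c0000001800000000000000000000000000000000 0xc0000001c0000007c0000001f0000000c0000000c00000004 6 7) 0 0 (step_sound _ 133 [rhea5efad8e82de839, (rhf48373e13d2bc128.shift 2 4)] (by decide +kernel))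
noncomputable def rh4fbd3063f51c446e : CRef := CRef.mk (Pat.mk 0x160000001600000000000000000000000000000000 0x28000000380000003a00000016000000370000003e0000003e0000003e00000028 6 6) 0 0 (step_sound _ 100 [rh2afe9571a8f3df29, (rha241e8fe390a51d2.shift 3 1), (rhc3d532e256e5999f.shift 1 0), (rhe8ce8b2ee73b5413.shift 0 1)] (by decide +kernel))
noncomputable def rh5cea4c44830d4f6d : CRef := CRef.mk (Pat.mk 0x1c00000018000000000000000000000000 0x600000006000000060000001c0000007f0000007f0000000e0000000e 6 7) 0 0 (step_sound _ 98 [(rh3b7e6f0b7631729c.shift 1 0), rhad48fcc809438143, (rhe3e8c074aa83e8bd.shift 0 2)] (by decide +kernel))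
noncomputable def rha50fcf2f3f278c73 : CRef := CRef.mk (Pat.mk 0x1800000018000000100000000000000000 0x40000000c0000001f0000003f0000003f0000000c0000000c 6 6) 0 0 (step_sound _ 98 [rhc21e27978b483555, (rhf56e6bc5d2f7fe77.shift 0 2)] (by decide +kernel))
noncomputable def rh97c87f0d6ff7d848 : CRef := CRef.mk (Pat.mk 0x60000000e000000000000000000000000 0x2000000060000003e0000003f0000000700000007 6 6) 0 0 (step_sound _ 65 [(rha9e1a5d55b907abf.shift 0 2), rhcb0b8bdfdd13f8bb, rhfaed4418c4d78e8f] (by decide +kernel))
noncomputable def rhc369417411458438 : CRef := CRef.mk (Pat.mk 0xc0000001c000000000000000000000000 0x60000000f0000001c0000001f0000007f0000001c 6 7) 0 0 (step_sound _ 67 [rh12fb4aa2054790a1, (rh3cb04db3dd2b6a55.shift 2 0), rhc0941e91b6afb057] (by decide +kernel))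
noncomputable def rh0d2784efecce3007 : CRef := CRef.mk (Pat.mk 0x5800000018000000100000000000000000 0x40000004c0000005f000000df000000ff000000ee0000000c 6 8) 0 0 (step_sound _ 67 [rh2374cd87d0c64ea1, rh25d4dab89aab705c, (rha3b7871bdfc3fbf1.shift 0 1), (rhd5ce03d3beb8f535.shift 2 0)] (by decide +kernel))
noncomputable def rhad17225f7e999b8f : CRef := CRef.mk (Pat.mk 0x300000003000000020000000000000000000000000 0x1000000030000001fe000001ff000001d80000004800000008 6 9) 0 0 (step_sound _ 99 [(rh761498317e589a85.shift 1 0), (rh80339e033d68eb1d.shift 3 0), (rh8cd3323c2f6ccb85.shift 0 1), (rh9576238990078da6.shift 1 0), (rhf0befafe6ff2f12c.shift 1 1)] (by decide +kernel))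
noncomputable def rhe554ca52e9989a90 : CRef := CRef.mk (Pat.mk 0x20000000200000002000000000000000000000000 0x400000007000000070000000200000007000000070000000700000005 6 3) 0 0 (step_sound _ 65 [(rh5403d956def82fda.shift 0 1), rh8cdd36b03d57a2f6, (rhd011005e9a0294a4.shift 0 1)] (by decide +kernel))
noncomputable def rh14a23868293fdfc1 : CRef := CRef.mk (Pat.mk 0x1000000038000000000000000000000000 0x60000000600000007f0000003e000000700000003000000020 6 7) 0 0 (step_sound _ 98 [rh15b6c72b5f9b306f, (rhec46bd5500c722c9.shift 1 3), (rhfee452cc90621565.shift 1 1)] (by decide +kernel))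
noncomputable def rhbb424d02b65136a6 : CRef := CRef.mk (Pat.mk 0x1e0000000000000000 0x1000000010000000330000001f0000003800000008 6 6) 0 0 (step_sound _ 36 [rh7758c1ab7a56a1e6, (rhe25b0a99195a5d59.shift 1 1)] (by decide +kernel))
noncomputable def rh94ca173f06387cd8 : CRef := CRef.mk (Pat.mk 0x1e00000004000000040000000000000000 0x1000000010000000300000001f0000003c0000000c0000000400000004 6 6) 0 0 (step_sound _ 100 [rhd3b3b971c8261b5c, (rhe25b0a99195a5d59.shift 1 3)] (by decide +kernel))
noncomputable def rheba11f8f3b30f0f4 : CRef := CRef.mk (Pat.mk 0x280000000800000008000000100000000000000000 0x2800000028000000780000003f000000fe0000000400000004 6 8) 0 0 (step_sound _ 100 [(rh2145e1d24b96a57e.shift 3 2), rh79712e42ad05dddb] (by decide +kernel))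
noncomputable def rhda9dc455a933c0aa : CRef := CRef.mk (Pat.mk 0xa000000020000000e000000000000000000000000 0xa0000000a0000007a0000001f000000040000000400000004 6 7) 0 0 (step_sound _ 66 [rh1b314bc8bca32c1f, (rh2145e1d24b96a57e.shift 1 2)] (by decide +kernel))
noncomputable def rh934b4be51a03e5e4 : CRef := CRef.mk (Pat.mk 0x10000000000000001c000000000000000000000000 0x1000000010000000f00000003f0000007b0000000800000008 6 8) 0 0 (step_sound _ 132 [(rh281c6819542c66e6.shift 3 0), (rh523f9e75314c8231.shift 1 2), (rhd1455daebbd64973.shift 0 1), (rhd40155db578f56a8.shift 1 0)] (by decide +kernel))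
noncomputable def rh5751506da563694b : CRef := CRef.mk (Pat.mk 0x14000000040000000e00000000 0x1400000014000000340000003e00000073 6 7) 0 0 (step_sound _ 1 [rh5a21297e99bd5500, (rh5c5e593799055d58.shift 1 0)] (by decide +kernel))
noncomputable def rhee654407e0a0bd22 : CRef := CRef.mk (Pat.mk 0x1000000038000000000000000000000000 0x4000000770000007e0000000f0000000800000008 6 7) 0 0 (step_sound _ 98 [(rh2395824d1086e2bc.shift 1 0), (rh2cc7d62e70c02209.shift 0 2), (rhec46bd5500c722c9.shift 1 3)] (by decide +kernel))
noncomputable def rhab1c80cb317f702f : CRef := CRef.mk (Pat.mk 0x80000001800000018000000000000000000000000 0x18000000f8000000ff000000700000003000000020 6 8) 0 0 (step_sound _ 68 [(rh7b1f1fb55310c477.shift 3 1), rh806c629d9cf28b54] (by decide +kernel))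
noncomputable def rh449f98e6cb3c31f2 : CRef := CRef.mk (Pat.mk 0x140000000c0000000c0000000000000000 0x10000000380000001f0000003c0000007f0000003000000010 6 7) 0 0 (step_sound _ 100 [(rh4dc133ee0ba1420a.shift 0 2), rhadd6776bee963d41] (by decide +kernel))
noncomputable def rhc2b526615a842ae1 : CRef := CRef.mk (Pat.mk 0x20000000200000002000000020000000400000000 0x600000006000000060000000300000003000000030000000600000006 6 3) 0 0 (step_sound _ 33 [rh2778abb7d7c839bf, (rh55afc6a59410cf00.shift 1 0)] (by decide +kernel))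
noncomputable def rh1096075aba1667fa : CRef := CRef.mk (Pat.mk 0x20000000200000002000000000000000000000000 0x400000007000000070000000300000006000000070000000700000005 6 3) 0 0 (step_sound _ 65 [(rh12461e137161f2e1.shift 0 1), rh46baee19951a66e7, rh6aa5625770489e83, rh8cdd36b03d57a2f6] (by decide +kernel))
noncomputable def rh1f14361a2b805945 : CRef := CRef.mk (Pat.mk 0x1000000050000000100000003000000000 0x1000000018000000780000001f0000003f0000000f 6 7) 0 0 (step_sound _ 35 [(rh932754581e0f4330.shift 3 0), rhfcc478bc097de844] (by decide +kernel))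
noncomputable def rh8d789dea9eef12ec : CRef := CRef.mk (Pat.mk 0x80000000200000006000000040000000000000000 0x8000000080000007b0000003e0000007c0000000400000004 6 7) 0 0 (step_sound _ 34 [(rh20bb4cffd2acac79.shift 0 1), (rh7b1f1fb55310c477.shift 1 0)] (by decide +kernel))
noncomputable def rh3ca42f1132d382dc : CRef := CRef.mk (Pat.mk 0x50000000100000003800000000 0x300000003800000078000000df000000ff000000c7 6 8) 0 0 (step_sound _ 67 [(rh26c9683758b2d743.shift 3 0), rh3874f2dfd65da9a0, (rh79b3c29022acbdf3.shift 2 1)] (by decide +kernel))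
noncomputable def rh4adf7f8ac8da8f39 : CRef := CRef.mk (Pat.mk 0x70000000c000000000000000000000000 0xa0000000e0000000e0000003e000000070000003c0000000e0000000e0000000a 6 6) 0 0 (step_sound _ 100 [rhf304a8f661a66eec, (rhf48373e13d2bc128.shift 1 3)] (by decide +kernel))
noncomputable def rhae83aea51e82cc45 : CRef := CRef.mk (Pat.mk 0x7000000050000000400000000 0x80000000e0000001e000000070000001f0000001e0000000a 6 5) 0 0 (step_sound _ 130 [(rh20966da26a1c2ae8.shift 1 0), (rh426f403fa814630c.shift 2 0), rh7e08579078404617, rhda1736ca9d4cce78] (by decide +kernel))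
noncomputable def rh253b778c8a3a2c87 : CRef := CRef.mk (Pat.mk 0x30000000200000002000000000000000000000000 0x40000000600000006000000030000000700000007000000070000000700000004 6 3) 0 0 (step_sound _ 193 [(rh20966da26a1c2ae8.shift 0 2), (rh426f403fa814630c.shift 1 2), rh89cf5152879421f3] (by decide +kernel))
noncomputable def rh3d21fad894bfbfeb : CRef := CRef.mk (Pat.mk 0x140000001e000000000000000000000000 0x10000000380000001f0000001e000000380000001800000010 6 6) 0 0 (step_sound _ 129 [(rh3244c3cc8379b070.shift 0 3), (rh54330cf38da7f457.shift 1 0)] (by decide +kernel))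
noncomputable def rhd949af4c8aeb599c : CRef := CRef.mk (Pat.mk 0x20000000f000000000 0x3f000000fe0000018e 6 9) 0 0 (step_sound _ 7 [rh0164c9b7a48fd11e, (rhe25b0a99195a5d59.shift 4 0)] (by decide +kernel))
noncomputable def rh8949f72f4295af22 : CRef := CRef.mk (Pat.mk 0x500000007000000040000000000000000 0xf0000001f0000000700000007000000060000000600000002 6 5) 0 0 (step_sound _ 65 [(rh1e309b005ffa1b36.shift 1 0), (rh741c5ddafa539e65.shift 0 1), rhbe707112c53dab40] (by decide +kernel))
noncomputable def rh8fa52716c0d93778 : CRef := CRef.mk (Pat.mk 0xa000000080000000800000000 0x140000001c0000001e0000000f000000180000001c00000014 6 5) 0 0 (step_sound _ 131 [rh14b2a9aeb9e37c73, (rh29dd5384d80ecb1e.shift 2 0), (rh7ef5fa5c39f1c762.shift 2 1), (rhced6d86d2069808b.shift 3 0)] (by decide +kernel))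
noncomputable def rhb944936494c53a36 : CRef := CRef.mk (Pat.mk 0x280000002000000020000000000000000000000000 0x170000003e0000006700000020000000700000007000000050 6 7) 0 0 (step_sound _ 69 [(rh3181373a30ceb9e3.shift 4 0), (rhe02215ab49ac9c44.shift 0 2)] (by decide +kernel))
noncomputable def rhd2151f779d4ef28a : CRef := CRef.mk (Pat.mk 0x14000000040000000c000000000000000000000000 0x18000000180000001c0000003e0000007f0000007c0000001c00000010 6 7) 0 0 (step_sound _ 131 [(rh184d9b89d7688cca.shift 1 0), (rh78577c36d655c1bc.shift 0 2), (rhb23334cf3920b207.shift 2 1), (rhc55bb2429cafb35b.shift 2 1), (rhd8a49428a7c2e336.shift 1 1), (rhe48108ae8ec5ee41.shift 0 1)] (by decide +kernel))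
noncomputable def rhc027d90fb0b4842a : CRef := CRef.mk (Pat.mk 0x28000000080000001800000000 0x100000001800000018000000380000003f0000007c00000028 6 7) 0 0 (step_sound _ 66 [rh4518d342e24f2c69, (rhdeca8db941583de2.shift 0 1), (rhed3f2a9aa0cc548a.shift 2 0)] (by decide +kernel))
noncomputable def rh55f48fe79d5529a8 : CRef := CRef.mk (Pat.mk 0x500000001000000010000000000000000000000000 0x5000000050000003fe000001fe000003ff0000002800000028 6 10) 0 0 (step_sound _ 101 [(rh046c5eb18e55a239.shift 4 0), (rh5c1ac4a2c2eeda3b.shift 1 0), (rh70e33bfdf511e144.shift 4 0), rhacef9ab68133d17d] (by decide +kernel))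
noncomputable def rh89b46eae2a8418e1 : CRef := CRef.mk (Pat.mk 0x2800000008000000080000000800000000 0x800000018000000380000003e0000000f0000000c00000008 6 6) 0 0 (step_sound _ 132 [rh0183cf4606977077, (rh2f68792b6b779e96.shift 3 1)] (by decide +kernel))
noncomputable def rhd5814e4a3cae6188 : CRef := CRef.mk (Pat.mk 0x2000000020000000200000002000000000000000000000000 0x300000003000000060000000600000006000000070000000700000007 6 3) 0 0 (step_sound _ 192 [(rh50fbb5868c909700.shift 0 3), rhb54b82c12f7629a6] (by decide +kernel))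
noncomputable def rh4cf6634306bfa8d1 : CRef := CRef.mk (Pat.mk 0x400000004000000040000000400000000 0x400000006000000070000003f0000003c0000000c00000004 6 6) 0 0 (step_sound _ 129 [(rh50fbb5868c909700.shift 1 1), rha0a9148751317501] (by decide +kernel))
noncomputable def rhefee3c8f56d3771f : CRef := CRef.mk (Pat.mk 0xc000000080000000800000000000000000000000000000000 0x1000000018000000180000000f0000007c0000001f0000000c0000001c0000001c00000010 6 7) 0 0 (step_sound _ 164 [(rh417e259dd27a81a4.shift 0 1), (rh8d658f36b6ac43e2.shift 2 0), (rhdeca8db941583de2.shift 0 5)] (by decide +kernel))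
noncomputable def rh422657cd07728bdc : CRef := CRef.mk (Pat.mk 0xc000000080000000800000000 0x10000000180000007c0000000f0000007c0000001f00000004 6 7) 0 0 (step_sound _ 131 [(rh0f88566f1a09c677.shift 0 1), (rh402d223d12d7377d.shift 2 0), rhc01e9acd4cbb679b] (by decide +kernel))
noncomputable def rh7f7266fcf99f82f8 : CRef := CRef.mk (Pat.mk 0x40000000400000004000000000000000000000000 0x60000000600000006000000070000003e0000000e0000000a 6 6) 0 0 (step_sound _ 66 [(rh1904b52b42aee148.shift 0 1), (rh46baee19951a66e7.shift 1 0), (rh6aa5625770489e83.shift 1 0), (rh8cdd36b03d57a2f6.shift 1 0)] (by decide +kernel))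
noncomputable def rha15ff80ef879e6e5 : CRef := CRef.mk (Pat.mk 0x80000000800000008000000000000000000000000 0xc0000000c0000000c000000380000001f0000001c00000014 6 6) 0 0 (step_sound _ 67 [(rh46baee19951a66e7.shift 2 0), (rh6aa5625770489e83.shift 2 0), (rh8cdd36b03d57a2f6.shift 2 0), (rhb20dd801f506db0f.shift 0 1)] (by decide +kernel))
noncomputable def rhe14f913ce76f71e8 : CRef := CRef.mk (Pat.mk 0x1000000010000000100000001000000000 0x1000000010000000ff0000007e0000002f 6 8) 0 0 (step_sound _ 37 [(rh55afc6a59410cf00.shift 4 0), rh798e7ce64585f61b] (by decide +kernel))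
noncomputable def rh87c9a6bf09d0fcd1 : CRef := CRef.mk (Pat.mk 0x500000001000000010000000000000000000000000 0x100000005000000058000001fe000001fe000003ef0000002800000028 6 10) 0 0 (step_sound _ 101 [(rh046c5eb18e55a239.shift 4 0), (rh1ec320c051db4640.shift 2 2), rhacef9ab68133d17d, (rhc0017e242c7b0f2e.shift 1 0)] (by decide +kernel))
noncomputable def rh2398cacc6ccf7565 : CRef := CRef.mk (Pat.mk 0x280000000800000008000000000000000000000000 0x140000003f0000003f000000080000001c0000001c00000014 6 6) 0 0 (step_sound _ 67 [(rh40e55525879dd64f.shift 0 2), (rh46baee19951a66e7.shift 2 0), (rh6aa5625770489e83.shift 2 0), (rh8cdd36b03d57a2f6.shift 2 0)] (by decide +kernel))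
noncomputable def rhc92198040e0d9308 : CRef := CRef.mk (Pat.mk 0x60000001e000000000000000000000000 0x20000000b0000003e0000001e000000340000001400000010 6 6) 0 0 (step_sound _ 132 [(rh33e738c4ed385b9f.shift 1 3), rhf0e8a403df009f8a] (by decide +kernel))
noncomputable def rhf9cbedad2c07d77e : CRef := CRef.mk (Pat.mk 0x100000007800000008 0x1c0000001c0000001f0000003c00000078000000c8 6 8) 0 0 (step_sound _ 67 [(rh3244c3cc8379b070.shift 2 1), rh537597840e737eab] (by decide +kernel))
noncomputable def rh38d2414eb6c87d93 : CRef := CRef.mk (Pat.mk 0x140000001e00000000000000000000000000000000 0x4000000040000001c0000001e0000003f000000380000003800000010 6 6) 0 0 (step_sound _ 100 [rhc33d3e219e0a14e2, (rhe25b0a99195a5d59.shift 1 3)] (by decide +kernel))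
noncomputable def rha9be0adf3ebb44e4 : CRef := CRef.mk (Pat.mk 0x8000000380000000a00000000 0x10000001d0000001f0000000f0000003f0000007b00000012 6 7) 0 0 (step_sound _ 97 [(rh5b7331415ceb5383.shift 0 1), rh6dd85789c21f6387, (rhc30259bd62f0e380.shift 0 2), rhe35021687539fa31] (by decide +kernel))
noncomputable def rh89b6c778977a31d6 : CRef := CRef.mk (Pat.mk 0x40000001e000000040000000000000000 0x400000004000000340000001e0000003f0000001c00000008 6 6) 0 0 (step_sound _ 65 [(rhb8b282f1ecf94130.shift 1 0), (rheb0810cc63b001d8.shift 0 2)] (by decide +kernel))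
noncomputable def rh4114b01020ba7164 : CRef := CRef.mk (Pat.mk 0x40000001c0000000800000008000000000000000000000000 0x80000000a0000001f0000001c000001ff000000fc000001f40000003000000030 6 9) 0 0 (step_sound _ 100 [(rh046c5eb18e55a239.shift 3 0), rh71b6a85ca6fd9525, (rh7cf3de4e9a6a8f9d.shift 0 2), (rh89fe6510f95643b8.shift 0 2)] (by decide +kernel))
noncomputable def rh4f6aeac8b3b9f250 : CRef := CRef.mk (Pat.mk 0x2000000020000000e00000004000000000 0x1000000010000000570000007e000001ff000000e0000000e0000000a0 6 9) 0 0 (step_sound _ 132 [(rhc86e3ab3c2b165e9.shift 3 0), rhdd589cb26f911332, (rhf9a6286f1d5377a2.shift 4 1)] (by decide +kernel))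
noncomputable def rhc716fa0c5a501e6e : CRef := CRef.mk (Pat.mk 0x40000001e0000000000000000 0x3000000030000003f0000001e0000000700000004 6 6) 0 0 (step_sound _ 97 [(rh3244c3cc8379b070.shift 0 2), rh552d89c376c1796d] (by decide +kernel))
noncomputable def rh81d0b70d3e3cb784 : CRef := CRef.mk (Pat.mk 0x40000001e0000000000000000 0x30000000300000003f0000001e0000003800000008 6 6) 0 0 (step_sound _ 36 [rhd56bd7f86ec87043, (rhe25b0a99195a5d59.shift 1 1)] (by decide +kernel))
noncomputable def rh28baa80635ff62c7 : CRef := CRef.mk (Pat.mk 0x60000001e0000000000000000 0x340000003c000000360000001e0000003b00000008 6 6) 0 0 (step_sound _ 36 [rh3287ff992b363872, (rhe25b0a99195a5d59.shift 1 1)] (by decide +kernel))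
noncomputable def rh65e2059d0993c55e : CRef := CRef.mk (Pat.mk 0x1e00000010000000000000000000000000 0x10000000380000001e0000001f000000380000003800000010 6 6) 0 0 (step_sound _ 164 [(rh33e738c4ed385b9f.shift 1 4), rhce49e892438df0e4] (by decide +kernel))
noncomputable def rhfd81a79d1a4c48b7 : CRef := CRef.mk (Pat.mk 0x40000001c000000080000000800000000 0x100000007a0000007f0000001c0000001c0000001c00000014 6 7) 0 0 (step_sound _ 131 [rh3ec9baf74efce829, (rh85f2808b23669478.shift 2 0), (rhc8e755934d85ce20.shift 2 0), (rhced6d86d2069808b.shift 3 0)] (by decide +kernel))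
noncomputable def rh9be3c9b1ad905401 : CRef := CRef.mk (Pat.mk 0x8000000080000003800000010000000000000000000000000 0x400000004000000270000007f0000007f00000038000000fe000000e80000002000000020 6 8) 0 0 (step_sound _ 194 [(rh0e007fddf2bfff7b.shift 0 3), rhb054cb5cf4952285, (rhf9a6286f1d5377a2.shift 2 3), (rhf9d2353b4bdb8be9.shift 0 3)] (by decide +kernel))
noncomputable def rh7c5ca5f902cac51c : CRef := CRef.mk (Pat.mk 0x40000001e000000000000000000000000 0x40000000c0000003c0000001e0000003f0000001800000018 6 6) 0 0 (step_sound _ 132 [rh2fa9f590dce6de4b, (rh33e738c4ed385b9f.shift 1 3)] (by decide +kernel))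
noncomputable def rh64150d09d67c97e8 : CRef := CRef.mk (Pat.mk 0x30000000f000000000000000000000000 0xa0000001e0000001f0000000f000000060000000400000004 6 5) 0 0 (step_sound _ 131 [rh1a028e594199c3b5, (rh33e738c4ed385b9f.shift 0 3)] (by decide +kernel))
noncomputable def rh1778389b82dd8001 : CRef := CRef.mk (Pat.mk 0x60000001e000000000000000000000000 0x40000001c0000003c0000000e0000001e0000003f0000001c0000001c 6 6) 0 0 (step_sound _ 162 [(rh1ae4704ae86cb9a8.shift 0 2), rh42f461a87abd084e, (rh571950d89739e871.shift 1 2)] (by decide +kernel))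
noncomputable def rhfeccb332d154eed5 : CRef := CRef.mk (Pat.mk 0x60000001e00000000 0x20000000380000003c0000003c0000003e0000001e00000033 6 6) 0 0 (step_sound _ 68 [(rh33e738c4ed385b9f.shift 1 1), rh851bd38b51cf0a81] (by decide +kernel))
noncomputable def rh13fa06513c7b490d : CRef := CRef.mk (Pat.mk 0x40000001e0000001000000000 0x380000003c000000370000001e0000001800000008 6 6) 0 0 (step_sound _ 97 [(rh3244c3cc8379b070.shift 0 2), (rh8f27e70b92d77ee4.shift 1 0)] (by decide +kernel))
noncomputable def rh6612fdc5c221adb8 : CRef := CRef.mk (Pat.mk 0x100000007000000020000000200000000 0x2000000060000001e0000001f00000007000000070000000700000005 6 5) 0 0 (step_sound _ 129 [rh2f767d906d07892b, rh85f2808b23669478, rhbd9473445ac5296e, rhc8e755934d85ce20] (by decide +kernel))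
noncomputable def rhc1a30b6d98400f57 : CRef := CRef.mk (Pat.mk 0x800000008000000380000001000000000 0x10000001f0000000f8000001ff000000380000003800000008 6 9) 0 0 (step_sound _ 132 [(rh25125a38b0fff42f.shift 0 1), (rh5e540a97552d0cd9.shift 1 0), (rha7976e43fb57a213.shift 3 1), (rhdead5e5254153af1.shift 2 1)] (by decide +kernel))
noncomputable def rh0c47eaa17fffd84c : CRef := CRef.mk (Pat.mk 0x800000038000000000000000000000000 0x20000000700000007f0000003e000000770000003000000020 6 7) 0 0 (step_sound _ 98 [(rh008b05f4778dc30d.shift 0 2), (rh775ca1963e850b80.shift 0 2), (rhb5e5658b4fcb7496.shift 1 0)] (by decide +kernel))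
noncomputable def rh27f838cf3bca6558 : CRef := CRef.mk (Pat.mk 0x2000000020000000200000002000000040000000000000000 0x2000000020000000300000003000000030000001f0000000600000002 6 5) 0 0 (step_sound _ 65 [rh1b5f73373c2a2b80, (rh55afc6a59410cf00.shift 1 1)] (by decide +kernel))
noncomputable def rh2e7697aedfeb2c43 : CRef := CRef.mk (Pat.mk 0x4000000040000000400000000 0xa0000000e0000000f0000003c000000060000000600000006 6 6) 0 0 (step_sound _ 130 [rh1bd0c14c4de1ef4d, (rh20966da26a1c2ae8.shift 1 0), (rh565a0c22519f57e9.shift 1 0)] (by decide +kernel))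
noncomputable def rh640d71fdb5552032 : CRef := CRef.mk (Pat.mk 0x400000004000000040000000c 0x3a0000007f0000003e0000000c0000000c 6 7) 0 0 (step_sound _ 99 [(rh2f68792b6b779e96.shift 2 0), rhafffd9aa0b90b1e9] (by decide +kernel))
noncomputable def rh11099532fbb2b1ee : CRef := CRef.mk (Pat.mk 0x40000001e0000000000000000 0x3000000030000003f0000001e0000000700000004 6 6) 0 0 (step_sound _ 97 [(rh3244c3cc8379b070.shift 0 2), rhe03c8cd0d4715eca] (by decide +kernel))
noncomputable def rh2cea682e4c1e182c : CRef := CRef.mk (Pat.mk 0x6000000160000000000000000 0x3000000030000003f0000001e0000000700000004 6 6) 0 0 (step_sound _ 67 [(rh3244c3cc8379b070.shift 0 2), rh552d89c376c1796d] (by decide +kernel))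
noncomputable def rh133e6d2265e72c2b : CRef := CRef.mk (Pat.mk 0x800000018000000580000000000000000 0x140000001f00000038000000780000001c00000014 6 7) 0 0 (step_sound _ 36 [(rh7b1f1fb55310c477.shift 3 0), rh9bd1e048a3cb57f4] (by decide +kernel))
noncomputable def rh0a98afe4bcd74a13 : CRef := CRef.mk (Pat.mk 0x1800000010000000580000000000000000 0x1ef000000fc000000d000000078000000d000000080 6 9) 0 0 (step_sound _ 133 [(rh005c80d53e4b47af.shift 1 0), (rh261f868a429ae0e3.shift 3 1), (rh3c854e66629c2f4d.shift 0 1), (rh6ae1d99a9b0058f4.shift 2 1)] (by decide +kernel))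
noncomputable def rh1e0ec58211c11fdd : CRef := CRef.mk (Pat.mk 0x1800000010000000580000000000000000 0xc0000000c0000003c0000001f0000007c0000000c00000004 6 7) 0 0 (step_sound _ 99 [(rh034f4db72834329d.shift 2 0), (rh1ca57632399d2034.shift 2 0), (rh784ce7c990e66974.shift 0 2)] (by decide +kernel))
noncomputable def rh4520e9820771de9d : CRef := CRef.mk (Pat.mk 0x3000000020000000b00000000000000000 0x3c0000000f80000003f000000fc0000002000000020 6 10) 0 0 (step_sound _ 134 [(rh6ae1d99a9b0058f4.shift 3 1), (rh97349fd4eb732cbd.shift 2 0), (rhc7dda4f1e78867a2.shift 0 2)] (by decide +kernel))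
noncomputable def rhc8a442d291505582 : CRef := CRef.mk (Pat.mk 0x380000002c0000000000000000 0x140000001c0000001c0000003f000000380000002f0000002c00000028 6 6) 0 0 (step_sound _ 64 [(rh24ae073cf30720c4.shift 0 2), rh3caed42bb967c53d] (by decide +kernel))
noncomputable def rh8ea6c0d07de6dadc : CRef := CRef.mk (Pat.mk 0x1400000016000000100000000000000000 0xa0000002e0000003f0000003e0000003400000016000000360000003000000020 6 6) 0 0 (step_sound _ 164 [(rh7ef5fa5c39f1c762.shift 3 2), (rh9648498c730ec0ef.shift 0 1), (rhec588a0d7783acc6.shift 4 0)] (by decide +kernel))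
noncomputable def rh9e7e7b49458a0344 : CRef := CRef.mk (Pat.mk 0xe0000000b0000000000000000 0x4000000140000003e0000000e0000000f0000001a0000001a 6 6) 0 0 (step_sound _ 130 [rh237a84ba5dbe676e, (rh32f6277f14b47a8f.shift 1 0)] (by decide +kernel))
noncomputable def rh0b4ad58a5a32b9b5 : CRef := CRef.mk (Pat.mk 0x38000000180000000000000000 0x2000000020000000770000003f0000001e0000001000000010 6 7) 0 0 (step_sound _ 66 [rh1d18fc6dfa02cc53, (rh53b3c253cb0c65f4.shift 1 2)] (by decide +kernel))
noncomputable def rha8eebfb938200309 : CRef := CRef.mk (Pat.mk 0x1c0000000c0000000000000000 0x180000007f0000001f0000001c0000000c0000000c00000008 6 7) 0 0 (step_sound _ 130 [(rh55a1f6c57a317ce6.shift 2 0), (rhe38ccb798e1d90a1.shift 0 1)] (by decide +kernel))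
noncomputable def rh20c611a3f80c80e9 : CRef := CRef.mk (Pat.mk 0x60000001e00000000 0x600000007000000070000003e0000001e00000003 6 6) 0 0 (step_sound _ 68 [rh06d69c63118e234c, (rh33e738c4ed385b9f.shift 1 1)] (by decide +kernel))
noncomputable def rh0ea8228e9d67000f : CRef := CRef.mk (Pat.mk 0x60000001e00000000000000000000000000000000 0x60000000e0000001e0000003f0000003c0000001c00000010 6 6) 0 0 (step_sound _ 98 [(rh3cb04db3dd2b6a55.shift 1 1), rheebf9e7cb344b153] (by decide +kernel))
noncomputable def rh99ca85524cf49d6d : CRef := CRef.mk (Pat.mk 0x80000000c0000001c000000000000000000000000 0x100000007c0000000f0000001c0000001c0000001c00000018 6 7) 0 0 (step_sound _ 66 [(rh71222050f2c63a3a.shift 2 1), rha879bc432310e071] (by decide +kernel))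
noncomputable def rh04991608236951db : CRef := CRef.mk (Pat.mk 0x80000000c0000001c000000000000000000000000 0x18000000180000001c0000000f0000001c000000080000000800000008 6 5) 0 0 (step_sound _ 128 [(rhab22b5b56e7b3243.shift 0 3), (rhf53bfbcd8330112c.shift 2 0)] (by decide +kernel))
noncomputable def rhf2fe72611b5a5aa5 : CRef := CRef.mk (Pat.mk 0x20000000300000007000000000000000000000000 0xc0000001f00000007000000070000001e0000000e00000002 6 5) 0 0 (step_sound _ 65 [rh3cb04db3dd2b6a55, (rhadd74a1fd122891a.shift 0 1)] (by decide +kernel))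
noncomputable def rhc28bbb97c240e1de : CRef := CRef.mk (Pat.mk 0x80000000c0000001c0000000000000000 0x2000000020000007f0000007f0000001c0000000400000004 6 7) 0 0 (step_sound _ 97 [rh06c770a99c58d660, (rhb739f4f82bb681b4.shift 0 2)] (by decide +kernel))
noncomputable def rh849b47c541b974cd : CRef := CRef.mk (Pat.mk 0x100000000800000038000000100000000000000000 0x200000007c0000002f00000038000000380000001000000010 6 7) 0 0 (step_sound _ 36 [(rh68c4fe79fa936ca6.shift 0 1), (rh7b1f1fb55310c477.shift 3 0)] (by decide +kernel))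
noncomputable def rh1e5909c4406fae42 : CRef := CRef.mk (Pat.mk 0x8000000040000001c0000000800000000 0x300000007f0000007f0000001c0000007c00000034 6 7) 0 0 (step_sound _ 132 [(rh4a75acd813fc864d.shift 1 0), rh7bf22930c4c96074, (rh7d7eaefe27cdd7b0.shift 3 1), rhaf4b1ba7cf5893ff] (by decide +kernel))
noncomputable def rhae5026e79b7140ea : CRef := CRef.mk (Pat.mk 0x6000000020000000e00000000 0x40000007c0000003e0000007b0000000e0000000e 6 7) 0 0 (step_sound _ 130 [rh0bacf878e44f380f, (rh71222050f2c63a3a.shift 1 0)] (by decide +kernel))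
noncomputable def rhbf78d422a0f08020 : CRef := CRef.mk (Pat.mk 0x30000000100000007000000000 0xef0000007e000000d70000007000000030 6 8) 0 0 (step_sound _ 99 [(rh261f868a429ae0e3.shift 3 0), rh3c854e66629c2f4d, rh9e4cc98b26c65ae9] (by decide +kernel))
noncomputable def rh0891bfc509d6d99a : CRef := CRef.mk (Pat.mk 0x8000000040000001c000000000000000000000000 0x800000018000000780000001f0000001c0000001c0000000c0000000c 6 7) 0 0 (step_sound _ 131 [(rh1e309b005ffa1b36.shift 2 1), (rh571950d89739e871.shift 2 2), rhf762cbba6fa7cf86] (by decide +kernel))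
noncomputable def rhfea0fea4ed7ddc52 : CRef := CRef.mk (Pat.mk 0x40000001e0000000000000000 0x30000000300000003f0000001e0000003800000008 6 6) 0 0 (step_sound _ 97 [(rh245928b0a8b00d1d.shift 1 0), (rh3244c3cc8379b070.shift 0 2)] (by decide +kernel))
noncomputable def rhb89b91c9b7605c84 : CRef := CRef.mk (Pat.mk 0x8000000080000000c0000000000000000 0x4000000040000000c0000000c000000080000000f0000007c00000010 6 7) 0 0 (step_sound _ 162 [(rh114f4abf4ea101c9.shift 2 1), rh4cb5a77170c81e82, (rhbdd4e349c1dde679.shift 2 1)] (by decide +kernel))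
noncomputable def rh1052b810c4873782 : CRef := CRef.mk (Pat.mk 0x8000000080000002c0000000800000000 0x40000000c0000000e0000003f0000003f00000008 6 6) 0 0 (step_sound _ 130 [(rh50fbb5868c909700.shift 2 1), rh6c9b8b24e57b34bb] (by decide +kernel))
noncomputable def rhb9e89de64b312c71 : CRef := CRef.mk (Pat.mk 0x200000002000000030000000200000000000000000000000000000000 0x10000000300000003000000030000000300000006000000070000000700000001 6 3) 0 0 (step_sound _ 224 [(rh50fbb5868c909700.shift 0 4), rha7be07c68086ab00] (by decide +kernel))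
noncomputable def rh6d4207a97f207e16 : CRef := CRef.mk (Pat.mk 0x180000007800000000 0x1c0000001c0000001f0000003800000078000000cc 6 8) 0 0 (step_sound _ 3 [rh537597840e737eab, (rheb0810cc63b001d8.shift 2 0)] (by decide +kernel))
noncomputable def rh3bd5a7c225d462be : CRef := CRef.mk (Pat.mk 0x80000000b00000000000000000000000000000000 0x100000001000000018000000180000000f0000001e0000001c0000001c00000014 6 5) 0 0 (step_sound _ 99 [(rh25271c74be886731.shift 2 0), (rh9548c07d1d1f2a1b.shift 0 2), (rhabf575676fe0ef70.shift 0 3), (rhd7669ad5e58833d0.shift 0 2)] (by decide +kernel))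
noncomputable def rh5eea23cb438a2e83 : CRef := CRef.mk (Pat.mk 0x8000000280000002c0000000000000000 0x400000044000000440000006f0000007c0000002c0000007800000030 6 7) 0 0 (step_sound _ 130 [(rh8bf893dce68faedb.shift 2 0), (rh8c25cb665ab79ec0.shift 0 3), (rhf9a6286f1d5377a2.shift 2 1)] (by decide +kernel))
noncomputable def rhc4a06addece4f681 : CRef := CRef.mk (Pat.mk 0x14000000160000001000000000 0x3000000030000001f0000001e0000003700000004 6 6) 0 0 (step_sound _ 67 [rh43715a9a1b5d459f, (rhe25b0a99195a5d59.shift 1 1)] (by decide +kernel))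
noncomputable def rh60552ac4cab47f63 : CRef := CRef.mk (Pat.mk 0x14000000160000001000000000000000000000000000000000 0x14000000140000001c0000001e0000001f000000f8000000380000003800000008 6 8) 0 0 (step_sound _ 100 [(rh0c8bff2f9853e9ef.shift 0 1), (rh3181373a30ceb9e3.shift 3 1), (rh6d68c88e75f7de72.shift 3 0), (rh8aafa222044b0ac6.shift 1 2), (rh8d72a02fde18418c.shift 2 2)] (by decide +kernel))
noncomputable def rh3f02cddf92d01b11 : CRef := CRef.mk (Pat.mk 0xa0000000b00000008000000000000000000000000 0xa0000000a0000000b0000007e0000001e0000001400000004 6 7) 0 0 (step_sound _ 66 [rh439cf626406679a3, (rh86aa94d7c0c1e10d.shift 1 1), (rhb01ac4982a11ea27.shift 2 0), (rhecc54984d2386956.shift 0 2)] (by decide +kernel))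
noncomputable def rhadf53440a5112b6a : CRef := CRef.mk (Pat.mk 0x100000001e00000000000000000000000000000000 0x10000000180000001e0000003f000000380000003800000010 6 6) 0 0 (step_sound _ 100 [rhce49e892438df0e4, (rhe25b0a99195a5d59.shift 1 3)] (by decide +kernel))
noncomputable def rhb622a35534886a81 : CRef := CRef.mk (Pat.mk 0xc0000000c0000000800000000 0xc0000000c0000000c0000000c0000000f0000007c00000010 6 7) 0 0 (step_sound _ 162 [(rh6f1cbe15c631ee70.shift 2 1), rh92190a70dc49a243] (by decide +kernel))
noncomputable def rh48719e6d2350a00f : CRef := CRef.mk (Pat.mk 0x1c00000018000000000000000000000000 0x400000004000000060000007c0000001f0000000f0000000200000002 6 7) 0 0 (step_sound _ 98 [(rh83704986f954ca48.shift 1 2), (rhab2ad169e49f9c5e.shift 0 3), rhad48fcc809438143] (by decide +kernel))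
noncomputable def rh3866ada3c180ef8d : CRef := CRef.mk (Pat.mk 0x20000000f00000008000000000000000000000000 0xe0000000e0000001e0000000f0000000c0000001c0000001c00000018 6 5) 0 0 (step_sound _ 163 [(rh33e738c4ed385b9f.shift 0 4), (rhbae430fec28de7ab.shift 1 0)] (by decide +kernel))
noncomputable def rhee1e69a218cb81f4 : CRef := CRef.mk (Pat.mk 0x30000000f0000000000000000 0x1c0000001e0000001b0000000f0000001c00000004 6 5) 0 0 (step_sound _ 99 [(rh33e738c4ed385b9f.shift 0 2), rhd7cb8c6f8be39152] (by decide +kernel))
noncomputable def rh35cf7cb1cf4c4847 : CRef := CRef.mk (Pat.mk 0xa0000000f00000000000000000000000000000000 0xe0000000e0000000e0000000f0000001c0000001c0000001c00000018 6 5) 0 0 (step_sound _ 99 [(rhbae430fec28de7ab.shift 1 0), (rhe25b0a99195a5d59.shift 0 3)] (by decide +kernel))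
noncomputable def rhdd9f2ddd6479cc91 : CRef := CRef.mk (Pat.mk 0x180000001c00000000 0x40000000c0000000c0000001f0000007c0000001c0000000c 6 7) 0 0 (step_sound _ 69 [(rh18965a982d73c794.shift 2 1), rh5f6808dacc1df516] (by decide +kernel))
noncomputable def rh082f85bb0581bbbf : CRef := CRef.mk (Pat.mk 0x2c0000002c000000000000000000000000 0x500000007c0000007c0000007c0000006f0000002c000000740000007000000050 6 7) 0 0 (step_sound _ 165 [(rh32fe3e2d58206d3e.shift 2 0), (rh61ce2d8a173ce0e4.shift 0 2), (rh932307a0add114d1.shift 4 0), (rhc63c3c56509dd3e7.shift 0 2)] (by decide +kernel))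
noncomputable def rh775e26390b33e91e : CRef := CRef.mk (Pat.mk 0x180000001c000000000000000000000000 0xe0000000e0000007f0000007f0000001c000000060000000600000006 6 7) 0 0 (step_sound _ 130 [(rh1b80270a8621e059.shift 0 3), (rhaed54c24fb91f24a.shift 0 1), (rhc1bbc3ed368e57db.shift 1 0)] (by decide +kernel))
noncomputable def rh277121e2569ce585 : CRef := CRef.mk (Pat.mk 0x180000001c0000000000000000 0x1e0000001e0000003f0000001f0000001c0000000c00000004 6 6) 0 0 (step_sound _ 131 [(rh37d9ceebb86d75d1.shift 2 1), rh7a5cc9a656eead9e, (rha85cc00e510380fb.shift 2 1)] (by decide +kernel))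
noncomputable def rh6041f88366bdc338 : CRef := CRef.mk (Pat.mk 0xe0000000600000000 0x7000000070000003f0000003e0000000600000002 6 6) 0 0 (step_sound _ 97 [rh6697ace3da0d268c, rha85cc00e510380fb, (rhb762f327c85d41a0.shift 0 1)] (by decide +kernel))
noncomputable def rh4686268135b0c6a4 : CRef := CRef.mk (Pat.mk 0x1c0000000c00000000 0x1c0000007f0000001f0000001c0000000f00000006 6 7) 0 0 (step_sound _ 99 [(rh503dd4575245365b.shift 2 0), rh7d3131395360b423, rhc78451dd3cf332d9] (by decide +kernel))
noncomputable def rh7a7fd9c300e287ce : CRef := CRef.mk (Pat.mk 0x18000000580000000000000000 0x400000024000000e7000000ff0000005f0000004800000040 6 8) 0 0 (step_sound _ 101 [(rh4dc133ee0ba1420a.shift 1 2), (rh6debbd67fcc4bc13.shift 0 1), (rhbc44751b7121178e.shift 2 0)] (by decide +kernel))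
noncomputable def rh5425139f2b482988 : CRef := CRef.mk (Pat.mk 0x1000000018000000580000000000000000 0xc000000ee000000ff000000df0000005f0000004c00000004 6 8) 0 0 (step_sound _ 131 [(rh19bd8c9401a788da.shift 0 1), (rh1ca57632399d2034.shift 2 0), (rh8c21351a571c1476.shift 0 1), (rhd6941e6fb7abf64f.shift 0 1)] (by decide +kernel))
noncomputable def rhda4e9455dee18a89 : CRef := CRef.mk (Pat.mk 0x10000000180000001800000000 0x40000002c000000ee000000ff000000ff0000001800000008 6 8) 0 0 (step_sound _ 98 [(rh02ba7b0187fa807d.shift 0 1), rh594ec366710a24d3, rh697f3999da16a94b, rhf051c7658c55badc, (rhfbb9a09997dc2c52.shift 1 0)] (by decide +kernel))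
noncomputable def rhe3d633f659155c01 : CRef := CRef.mk (Pat.mk 0x200000002000000020000000000000000 0x500000007000000070000000300000006000000070000000700000004 6 3) 0 0 (step_sound _ 161 [(rh12461e137161f2e1.shift 0 1), rh46baee19951a66e7, (rh762a1aeaf83c662a.shift 0 1)] (by decide +kernel))
noncomputable def rh84fffc850f662892 : CRef := CRef.mk (Pat.mk 0x80000003800000010000000000000000000000000 0x780000003f0000007f000000600000006000000020 6 7) 0 0 (step_sound _ 130 [(rh4eeea8f62ca9ce5c.shift 1 0), (rha03f6e28ea70fc7d.shift 1 3), (rhee41ea3ba0cbf52f.shift 0 3)] (by decide +kernel))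
noncomputable def rhcb4b4445201907af : CRef := CRef.mk (Pat.mk 0x4000000040000001c000000000000000000000000 0x40000000c0000003c0000001f000000330000001000000010 6 6) 0 0 (step_sound _ 97 [(rh1ae4704ae86cb9a8.shift 0 2), rh6887ef21f67dd26a] (by decide +kernel))
noncomputable def rhddeb6c77df17d2f0 : CRef := CRef.mk (Pat.mk 0x10000000080000000800000008 0xf40000007f000000ff0000000800000008 6 8) 0 0 (step_sound _ 99 [(rh2f68792b6b779e96.shift 3 0), rh4afe775206d4aa4e] (by decide +kernel))
noncomputable def rh5e6a98eb34d3ade5 : CRef := CRef.mk (Pat.mk 0x1000000008000000080000002800000000 0x4000000fe0000007f000000780000002800000028 6 8) 0 0 (step_sound _ 100 [rh4663af4192f63db6, (rh71222050f2c63a3a.shift 3 0)] (by decide +kernel))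
noncomputable def rh2c1d44fb23fc74d4 : CRef := CRef.mk (Pat.mk 0x1000000008000000080000000800000000 0x140000003c0000000f000000080000000c0000000c 6 6) 0 0 (step_sound _ 131 [(rh2f68792b6b779e96.shift 3 1), rh841d21070fd8f870] (by decide +kernel))
noncomputable def rh9e99fded3448d0de : CRef := CRef.mk (Pat.mk 0x18000000080000002800000000 0x1000000010000000f70000007e000001e80000002800000028 6 9) 0 0 (step_sound _ 101 [(rh248cbf9037404653.shift 1 0), (rh666bf15668ead765.shift 2 0), (rh83fd9b9776438e4c.shift 2 0), (rha2eb5bc710929d51.shift 3 0), rhb768696d0dfa9832] (by decide +kernel))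
noncomputable def rh1f277339360ff52c : CRef := CRef.mk (Pat.mk 0x3800000010 0xf0000007e000000f7 6 8) 0 0 (step_sound _ 34 [rh2cc7d62e70c02209, (rha03f6e28ea70fc7d.shift 1 0), (rhc6ebdb02f2c2b584.shift 1 0)] (by decide +kernel))
noncomputable def rh271eed173f9dbe26 : CRef := CRef.mk (Pat.mk 0x18000000180000000800000000 0x30000000f0000000ff000000f80000001800000010 6 8) 0 0 (step_sound _ 132 [(rh5c5e593799055d58.shift 3 1), rhcfecdb7dcd828cf2] (by decide +kernel))
noncomputable def rhebf35a042793fb4d : CRef := CRef.mk (Pat.mk 0x6000000060000000a0000000000000000 0x180000003f0000003e0000000f0000001c0000001c 6 6) 0 0 (step_sound _ 99 [rh77b0945308dfc827, (rh79b3c29022acbdf3.shift 0 3)] (by decide +kernel))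
noncomputable def rh8c90f084993f6398 : CRef := CRef.mk (Pat.mk 0x400000006000000020000000800000000 0x4000000040000007c0000003e0000007b0000000800000008 6 7) 0 0 (step_sound _ 162 [rh4819a0d154be8cec, (rh5c5e593799055d58.shift 1 2)] (by decide +kernel))
noncomputable def rh4d70ad3a28dea5ac : CRef := CRef.mk (Pat.mk 0x3800000010000000500000000000000000 0xc7000000ff000000df000000780000007800000020 6 8) 0 0 (step_sound _ 99 [(rh4dc133ee0ba1420a.shift 1 3), (rhbace70c4c8b93930.shift 3 0), (rhc905caa19d3b0724.shift 0 1)] (by decide +kernel))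
noncomputable def rh4eb487d48940ced9 : CRef := CRef.mk (Pat.mk 0x38000000080000002800000000 0x4000000770000003e0000006f0000002800000020 6 7) 0 0 (step_sound _ 98 [(rh61325f73ebf98108.shift 0 3), rh6bb198d88cd85b30, (rhe4f9133a81c1dbc5.shift 1 1)] (by decide +kernel))
noncomputable def rh24b74d5a84f7ffbd : CRef := CRef.mk (Pat.mk 0x1000000038000000280000000000000000 0x1f7000001fe000003b80000000800000008 6 10) 0 0 (step_sound _ 3 [(rh45f6b1e67be007b1.shift 0 2), (rh9e3edb185cc347de.shift 3 0)] (by decide +kernel))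
noncomputable def rh82e8511cdfbaa2d2 : CRef := CRef.mk (Pat.mk 0x80000000e00000004000000000000000000000000 0xc0000000f0000003e0000007c0000001c00000018 6 7) 0 0 (step_sound _ 66 [(rh71222050f2c63a3a.shift 2 1), rhbe54d5967dabb171] (by decide +kernel))
noncomputable def rh9f21c63603972fc2 : CRef := CRef.mk (Pat.mk 0xa0000000e0000000400000000 0x1c0000003c0000000e0000000f0000003c00000018 6 6) 0 0 (step_sound _ 35 [(rh121397a93ef3afd3.shift 1 0), (rh6292bd8784ece55f.shift 0 1), (rh741c5ddafa539e65.shift 1 0)] (by decide +kernel))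
noncomputable def rhe931e1e07cc2391b : CRef := CRef.mk (Pat.mk 0x400000007000000000000000000000000 0xa0000000e0000000e0000000e000000070000001e0000000e0000000e 6 5) 0 0 (step_sound _ 162 [(rh281c6819542c66e6.shift 1 0), rh83461513f300d34e, (rh88f7a10481530e96.shift 1 0), (rhfafeb437ceb8396d.shift 1 0)] (by decide +kernel))
noncomputable def rh94370570d6cb9702 : CRef := CRef.mk (Pat.mk 0x1e000000140000000000000000 0x2800000038000000380000003b0000001e0000001c0000000c00000004 6 6) 0 0 (step_sound _ 132 [(rh33e738c4ed385b9f.shift 1 3), rh3f290a849278a53f] (by decide +kernel))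
noncomputable def rh6ac6e6a19f2df2c3 : CRef := CRef.mk (Pat.mk 0x38000000200000000000000000 0x500000007000000070000000700000003e000000370000003000000030 6 7) 0 0 (step_sound _ 98 [(rh2c1baeadcd4b32f5.shift 0 2), (rh7c95f2febb16daff.shift 2 0), (rhdceeca65bdd8095a.shift 0 2)] (by decide +kernel))
noncomputable def rh1fb9f69a339ca42b : CRef := CRef.mk (Pat.mk 0x400000007000000050000000000000000 0x2000000060000000600000007000000070000001f0000000f 6 5) 0 0 (step_sound _ 129 [(rh3cb04db3dd2b6a55.shift 1 0), rhdabfcd0659c2d3c8, rhdca12aabe2b3e657] (by decide +kernel))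
noncomputable def rhb87f9180ff7efcba : CRef := CRef.mk (Pat.mk 0x80000000a0000000a0000000000000000 0x100000001c0000001c0000007c0000000f0000000e0000000a00000002 6 7) 0 0 (step_sound _ 98 [(rh878c03cc42e824bf.shift 0 1), (rhd765c95caea3450e.shift 1 0), (rhff7d63dcb3cf9f74.shift 0 3)] (by decide +kernel))
noncomputable def rhdef8b7208c70155f : CRef := CRef.mk (Pat.mk 0x80000000a000000080000000800000000 0x10000000780000001f000000080000001c00000014 6 7) 0 0 (step_sound _ 2 [(rh79877ebd3ef475dd.shift 2 0), rhd0e23467f2dca51c] (by decide +kernel))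
noncomputable def rh36798a378d8ab7d6 : CRef := CRef.mk (Pat.mk 0xe00000008000000000000000000000000 0x40000001c0000001c0000001c0000007c0000000f000000080000001c0000001c00000014 6 7) 0 0 (step_sound _ 163 [(rh5fae5c1f330fb984.shift 2 0), (rh878c03cc42e824bf.shift 0 2), (rhff7d63dcb3cf9f74.shift 0 4)] (by decide +kernel))
noncomputable def rh076e723af570e078 : CRef := CRef.mk (Pat.mk 0x200000002000000028000000000000000000000000 0x2000000020000000670000003e000000370000001000000010 6 7) 0 0 (step_sound _ 100 [(rh281c6819542c66e6.shift 4 0), (rhb12ffaec36122c99.shift 0 2)] (by decide +kernel))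
noncomputable def rh07bf676d08869d33 : CRef := CRef.mk (Pat.mk 0x20000000200000002800000000 0x50000000700000007000000020000000670000003e00000017 6 7) 0 0 (step_sound _ 133 [(rh7ef5fa5c39f1c762.shift 4 1), rh9256997a84108e39] (by decide +kernel))
noncomputable def rh8e4ac3d6459a37b7 : CRef := CRef.mk (Pat.mk 0xc00000004000000140000000000000000 0x180000003c0000007f0000007f0000001c0000001800000018 6 7) 0 0 (step_sound _ 99 [(rh03e1d4b712fd50ef.shift 2 0), rh66091e2d3b95e8e6, (rh836239318bb0a056.shift 0 1), rhaf2d12dfd42b9fb9, (rhbf17779b0fc4377b.shift 1 0), (rhcad16442e77c9f8c.shift 1 0)] (by decide +kernel))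
noncomputable def rh442f73445388ad58 : CRef := CRef.mk (Pat.mk 0x180000000800000028000000000000000000000000 0x280000007c0000003f00000038000000180000001800000010 6 7) 0 0 (step_sound _ 130 [rh52599bf082122925, (rhd69c262cd33b94b3.shift 0 4), (rhff6d525388e02084.shift 2 0)] (by decide +kernel))
noncomputable def rh07a08997ef6c0acb : CRef := CRef.mk (Pat.mk 0x3000000010000000500000000000000000 0x80000001f000000ff000000fe000000700000001000000010 6 8) 0 0 (step_sound _ 131 [(rh3f73bb03721ec56a.shift 2 0), (rh7b24c4ccc068b0b2.shift 3 1), (rhb8a2598084bd5842.shift 0 2)] (by decide +kernel))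
noncomputable def rh2a53351fac336ea2 : CRef := CRef.mk (Pat.mk 0x8000000080000000800000008 0xf40000007f000000ff0000000800000008 6 8) 0 0 (step_sound _ 100 [(rh2f68792b6b779e96.shift 3 0), rh4afe775206d4aa4e] (by decide +kernel))
noncomputable def rhb0ff66fc98a76f96 : CRef := CRef.mk (Pat.mk 0x2000000020000000200000002000000000 0x57000000fe000001ff000000200000006000000040 6 9) 0 0 (step_sound _ 132 [rh0eda93d2f5a96101, (rh50fbb5868c909700.shift 4 1)] (by decide +kernel))
noncomputable def rh4248975bc02bd4c9 : CRef := CRef.mk (Pat.mk 0x200000002000000020000000200000000 0x700000007000000070000000600000006000000060000000300000003 6 3) 0 0 (step_sound _ 32 [rh932754581e0f4330, rhe08194b42063891d] (by decide +kernel))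
noncomputable def rh2c55c442bf35f39a : CRef := CRef.mk (Pat.mk 0x80000000800000008000000080000000000000000 0x800000018000000380000003f0000000f0000000c00000008 6 6) 0 0 (step_sound _ 66 [rh3d461d62e608bd42, (rh932754581e0f4330.shift 2 1)] (by decide +kernel))
noncomputable def rh2e54325d3798cb0c : CRef := CRef.mk (Pat.mk 0x8000000080000000c000000000000000000000000 0x100000001c0000001c0000000c0000001f0000007c0000000f000000180000001800000010 6 7) 0 0 (step_sound _ 132 [(rh0c26a8a224f16dbd.shift 2 0), (rhaba50f5f0dc791b7.shift 0 2), (rhd69c262cd33b94b3.shift 0 3)] (by decide +kernel))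
noncomputable def rh83ba358531ae3684 : CRef := CRef.mk (Pat.mk 0x8000000080000000c000000000000000000000000 0x40000001f0000007c0000000f0000007c0000001800000018 6 7) 0 0 (step_sound _ 67 [(rh2c9da192bea44cf6.shift 2 0), (rh86df7191a135ae02.shift 0 1), (rhaa4d9de99c4ea825.shift 0 1)] (by decide +kernel))
noncomputable def rh821f745d796daa5a : CRef := CRef.mk (Pat.mk 0x8000000080000000800000000 0x140000001c0000003c0000000f0000000c0000000c0000000c 6 6) 0 0 (step_sound _ 131 [(rh20966da26a1c2ae8.shift 2 0), (rh565a0c22519f57e9.shift 2 0), rh5ee4dc8825dcefa0] (by decide +kernel))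
noncomputable def rh46893a3adc383780 : CRef := CRef.mk (Pat.mk 0x8000000080000002800000000 0x140000001c0000001c000000080000003f0000003f00000014 6 6) 0 0 (step_sound _ 131 [(rh12461e137161f2e1.shift 2 0), (rh3d0ad82b26bacea7.shift 2 0), (rh565a0c22519f57e9.shift 2 0), rhb7e1c911c18ba2ec] (by decide +kernel))
noncomputable def rha3afc9ffd6e27371 : CRef := CRef.mk (Pat.mk 0x80000000800000028000000000000000000000000 0x1000000010000000f70000007f000000ff0000003c000000380000001800000010 6 8) 0 0 (step_sound _ 164 [(rh3820f35d5e705bec.shift 3 0), (rh8fdbabcbdafb3e23.shift 0 2), rhd1c4c17b16a08f08, (rhf849c8472bff4b9d.shift 2 0)] (by decide +kernel))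
noncomputable def rh9a393864a4e71819 : CRef := CRef.mk (Pat.mk 0x40000001e000000000000000000000000 0x20000000b0000003f0000001e000000340000001400000010 6 6) 0 0 (step_sound _ 129 [rh06763bcf3b1fa622, (rh3244c3cc8379b070.shift 0 3)] (by decide +kernel))
noncomputable def rh91f0da544f81d705 : CRef := CRef.mk (Pat.mk 0x40000001e0000000000000000 0x3000000030000003f0000001e0000000700000004 6 6) 0 0 (step_sound _ 33 [rh4821978c6917c8b7, (rheb0810cc63b001d8.shift 0 1)] (by decide +kernel))
noncomputable def rh8e2d24f2cc13a4f5 : CRef := CRef.mk (Pat.mk 0x40000001e000000000000000000000000 0x400000004000000340000001e0000003f0000001e00000008 6 6) 0 0 (step_sound _ 132 [(rh33e738c4ed385b9f.shift 1 3), rh4108c8850d15e83a] (by decide +kernel))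
noncomputable def rh066b29d9577a1b4f : CRef := CRef.mk (Pat.mk 0xc0000001c0000000000000000 0x200000002000000070000007f0000001f0000000400000004 6 7) 0 0 (step_sound _ 97 [(rhb739f4f82bb681b4.shift 0 2), rhc8986838162af652] (by decide +kernel))
noncomputable def rhfa7a3cfe5258c148 : CRef := CRef.mk (Pat.mk 0xc0000001c0000000000000000 0x200000002000000770000007f0000001c0000000400000004 6 7) 0 0 (step_sound _ 97 [rh6d3774d4958acfbe, (rhb739f4f82bb681b4.shift 0 2)] (by decide +kernel))
noncomputable def rhf2a579eca1a14fe0 : CRef := CRef.mk (Pat.mk 0xc0000001c000000000000000000000000 0x60000001e0000003e0000000f0000001c0000000c0000000c00000004 6 6) 0 0 (step_sound _ 129 [(rh6f7c51838a1d7c50.shift 1 0), (rhb739f4f82bb681b4.shift 0 3)] (by decide +kernel))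
noncomputable def rh6b46eca60adc2785 : CRef := CRef.mk (Pat.mk 0xc0000001c000000000000000000000000 0xc0000000e0000001f0000003c0000001f0000000c0000000c00000008 6 6) 0 0 (step_sound _ 132 [(rhab2ad169e49f9c5e.shift 0 3), rhe914bcfb4969a3a0] (by decide +kernel))
noncomputable def rh50eec45319a52cd0 : CRef := CRef.mk (Pat.mk 0x80000000800000038000000000000000000000000 0x1000000010000000340000007c0000001f0000003c000000f80000003800000010 6 8) 0 0 (step_sound _ 68 [(rh08edf065357d68e5.shift 3 0), (rh509f976aa6412b04.shift 0 1), (rh79ad7b82ec8c35e2.shift 3 0)] (by decide +kernel))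
noncomputable def rh3514345fa13e5918 : CRef := CRef.mk (Pat.mk 0x40000001c0000000800000000 0x8000000180000001e0000001f0000003c0000001f0000007c00000014 6 7) 0 0 (step_sound _ 130 [(rh2145e1d24b96a57e.shift 2 1), rh9df473e2759db1f7] (by decide +kernel))
noncomputable def rh248ebcd6ff162f30 : CRef := CRef.mk (Pat.mk 0xc0000001c000000000000000000000000 0x80000001c0000003c0000000f0000001c0000001c0000000c0000000c 6 6) 0 0 (step_sound _ 163 [(rh1e309b005ffa1b36.shift 2 1), rh53eaa86a18af8e3c, (rh571950d89739e871.shift 2 2)] (by decide +kernel))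
noncomputable def rh07f481c1c554eb94 : CRef := CRef.mk (Pat.mk 0xc0000001c000000000000000000000000 0x800000018000000780000001f0000001c0000001c0000001c0000001c 6 7) 0 0 (step_sound _ 129 [(rh4d16e587899c8459.shift 1 0), (rhb739f4f82bb681b4.shift 0 3)] (by decide +kernel))
noncomputable def rh7e9ac2978b074f75 : CRef := CRef.mk (Pat.mk 0x40000001e000000000000000000000000 0xa0000000e0000001e0000003e000000370000001e0000003c0000000800000008 6 6) 0 0 (step_sound _ 132 [(rh33e738c4ed385b9f.shift 1 3), rh8e55099693fe9bda] (by decide +kernel))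
noncomputable def rh25589c5a7dee669e : CRef := CRef.mk (Pat.mk 0x40000001e0000000000000000 0xc0000000c0000003c0000001e0000003700000016 6 6) 0 0 (step_sound _ 100 [(rh33e738c4ed385b9f.shift 1 2), rh6db777b6f1a4cceb] (by decide +kernel))
noncomputable def rh5292bff910d528cf : CRef := CRef.mk (Pat.mk 0xc0000000c0000000000000000 0x1e0000001e0000001f0000003c0000000c0000000c0000000c 6 6) 0 0 (step_sound _ 130 [(rh1db0411717f0a858.shift 1 0), (rh55a1f6c57a317ce6.shift 2 0), rh6227f8517f8e568b] (by decide +kernel))
noncomputable def rh2b529d5118a60c69 : CRef := CRef.mk (Pat.mk 0x18000000180000000000000000 0x20000000280000007c000000ff0000001f0000001000000010 6 8) 0 0 (step_sound _ 101 [(rh073589708c2d81a3.shift 2 0), (rh4dc133ee0ba1420a.shift 1 2), rhccbbd1eea823c445] (by decide +kernel))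
noncomputable def rhf96bb092f2516814 : CRef := CRef.mk (Pat.mk 0x18000000180000000000000000 0x4000000e7000000ff0000001f0000000800000008 6 8) 0 0 (step_sound _ 101 [(rh0ea7c0b623fbcc17.shift 0 2), (rh4dc133ee0ba1420a.shift 1 2), rh5b7bf26d9fd76ab6] (by decide +kernel))
noncomputable def rhdceccd4c96a89003 : CRef := CRef.mk (Pat.mk 0xc0000000c000000000000000000000000 0x60000001e0000003e0000000f0000000c0000000e0000000e0000000a 6 6) 0 0 (step_sound _ 162 [(rh1db0411717f0a858.shift 1 1), (rh55a1f6c57a317ce6.shift 2 1), rh9228beee33ab5628] (by decide +kernel))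
noncomputable def rh78b595727440cc84 : CRef := CRef.mk (Pat.mk 0x1800000018000000000000000000000000 0xc0000000c0000000f0000007c0000001e0000001c0000001c00000014 6 7) 0 0 (step_sound _ 163 [rh2c413d1933cb4162, (rh55a1f6c57a317ce6.shift 3 1), (rhf887170c3e2c5651.shift 0 2)] (by decide +kernel))
noncomputable def rh3e7e6a622a767545 : CRef := CRef.mk (Pat.mk 0x18000000180000000000000000 0x34000000760000007f0000001f0000003800000008 6 7) 0 0 (step_sound _ 66 [rha5a5910e461c87f9, (rhab2ad169e49f9c5e.shift 0 2), rhfb87a2f4840a8b15] (by decide +kernel))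
noncomputable def rh954659dd33429b02 : CRef := CRef.mk (Pat.mk 0xc0000000c000000000000000000000000 0xc0000000c0000001c0000003c0000000f0000007c0000001c00000008 6 7) 0 0 (step_sound _ 67 [(rh3cb04db3dd2b6a55.shift 2 0), (rh9da76f67c55925b7.shift 1 1), rha31e2286f1ebea1b] (by decide +kernel))
noncomputable def rha85b25260649c646 : CRef := CRef.mk (Pat.mk 0x1800000018000000000000000000000000 0x1c0000001c0000003f0000007f0000001f000000340000001000000010 6 7) 0 0 (step_sound _ 98 [(rh952f9c9e5045ec54.shift 0 2), (rhab2ad169e49f9c5e.shift 0 3), rhcb68da4f2dc5e7fd] (by decide +kernel))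
noncomputable def rh4020672b34b89e48 : CRef := CRef.mk (Pat.mk 0x600000006000000000000000000000000 0x3000000070000000700000006000000070000003f0000000f00000005 6 6) 0 0 (step_sound _ 161 [(rh1db0411717f0a858.shift 0 1), (rh55a1f6c57a317ce6.shift 1 1), rh7535639034b7d0e9] (by decide +kernel))
noncomputable def rhff09585260278eff : CRef := CRef.mk (Pat.mk 0x40000001c000000080000000000000000 0x18000000780000007f0000001c0000001c0000001c0000001c 6 7) 0 0 (step_sound _ 131 [(rh3f58a58dce2499ac.shift 0 1), (rh6852947d3e67d303.shift 2 0), rh6afa81102861df23] (by decide +kernel))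
noncomputable def rhab6b4e0b9474951b : CRef := CRef.mk (Pat.mk 0x40000001c0000000800000000 0x1c0000003c0000000f0000001c0000001f00000016 6 6) 0 0 (step_sound _ 130 [(rh2145e1d24b96a57e.shift 2 1), rh2889ed17a4216880] (by decide +kernel))
noncomputable def rh966d81555468197c : CRef := CRef.mk (Pat.mk 0x6000000160000000000000000 0x2000000030000003f0000001f0000000400000004 6 6) 0 0 (step_sound _ 67 [rh2a2c9eb013bbac78, (rh3244c3cc8379b070.shift 0 2)] (by decide +kernel))
noncomputable def rh99dae60c7752aeaf : CRef := CRef.mk (Pat.mk 0x10000000100000005800000000000000000000000000000000 0x800000028000000780000001f0000007c0000001c0000001c0000000400000004 6 7) 0 0 (step_sound _ 163 [(rh4a395e5d30ebb2ac.shift 2 0), (rh54d2ba95e186f86e.shift 1 2), (rh77aff2a1b006188a.shift 0 4)] (by decide +kernel))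
noncomputable def rheba929f749712846 : CRef := CRef.mk (Pat.mk 0xc000000160000000000000000 0x80000000e0000001f0000003c000000160000001600000016 6 6) 0 0 (step_sound _ 100 [(rh18965a982d73c794.shift 1 2), rh25b83bcfa70cdf7b] (by decide +kernel))
noncomputable def rh3e49e266574f74c3 : CRef := CRef.mk (Pat.mk 0x300000005800000000000000000000000000000000 0x200000003000000030000000300000007f0000001f000000380000003000000020 6 7) 0 0 (step_sound _ 129 [(rh24ae073cf30720c4.shift 1 4), rh89c1f347518f99c9] (by decide +kernel))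
noncomputable def rh7b9476e0a4bbb9bc : CRef := CRef.mk (Pat.mk 0x1800000018000000000000000000000000 0xc0000001c0000001f000000780000001c0000001c0000001c00000014 6 7) 0 0 (step_sound _ 163 [rh05447162a09779ad, (rh1ca57632399d2034.shift 2 1), (rh55a1f6c57a317ce6.shift 3 1)] (by decide +kernel))
noncomputable def rhf6ca76c43137888c : CRef := CRef.mk (Pat.mk 0xc0000000c0000000000000000 0x60000001e0000003e0000000f0000000e0000000e0000000e 6 6) 0 0 (step_sound _ 130 [(rh1ca57632399d2034.shift 1 0), rh35e7f72034095f2a, (rh55a1f6c57a317ce6.shift 2 0)] (by decide +kernel))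
noncomputable def rhc7fafea993c2e47f : CRef := CRef.mk (Pat.mk 0x8000000080000001800000000 0x140000001c0000003c0000000f000000180000001800000008 6 6) 0 0 (step_sound _ 131 [rh5ee4dc8825dcefa0, (rh65909b08999dc522.shift 2 1), (rh73f605273a09a9d0.shift 3 1)] (by decide +kernel))
noncomputable def rh7c4e65f468a3415f : CRef := CRef.mk (Pat.mk 0x200000002000000020000000000000000 0x400000006000000060000000600000006000000070000000700000005 6 3) 0 0 (step_sound _ 161 [(rh12461e137161f2e1.shift 0 1), rh367118e0bf0473e0, rh8cdd36b03d57a2f6, (rhc9de03f9731897d4.shift 1 0)] (by decide +kernel))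
noncomputable def rh2b6d24ec0b9dc5a6 : CRef := CRef.mk (Pat.mk 0x400000004000000040000001400000000 0x1a0000003f0000003f0000000c0000001c00000018 6 6) 0 0 (step_sound _ 35 [(rh55afc6a59410cf00.shift 2 0), rh82c1a194028d2df8] (by decide +kernel))
noncomputable def rh779c7a0e36b4bd7e : CRef := CRef.mk (Pat.mk 0x400000004000000040000000400000000 0xa0000000f0000003c000000040000000600000006 6 6) 0 0 (step_sound _ 1 [rh1bd0c14c4de1ef4d, (rh79877ebd3ef475dd.shift 1 0)] (by decide +kernel))
noncomputable def rh30841bae1908efd8 : CRef := CRef.mk (Pat.mk 0x38000000280000000000000000 0x5000000050000000ff000000fe000000380000002000000020 6 8) 0 0 (step_sound _ 132 [(rh54164037c6ef9891.shift 3 0), (rh5d54cb79a67f97ab.shift 4 0), (rh85955cfc01e7031b.shift 0 2), (rha40d42a2e34c408d.shift 4 0)] (by decide +kernel))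
noncomputable def rh006ba935f8834f54 : CRef := CRef.mk (Pat.mk 0x38000000280000000000000000 0x80000007f0000003e0000003f0000000600000006 6 7) 0 0 (step_sound _ 98 [(rh00f1bb10334541e3.shift 0 3), (rhd16338b1364c0c81.shift 1 0), (rhd1d05263fabc0227.shift 0 2), (rhdceeca65bdd8095a.shift 0 2)] (by decide +kernel))
noncomputable def rhf8a8a70b8b534473 : CRef := CRef.mk (Pat.mk 0xc00000016000000000000000000000000 0x40000000c0000003f0000001e000000330000001200000010 6 6) 0 0 (step_sound _ 99 [(rh837b431827c849c2.shift 0 1), (rha3c6039d63f53e02.shift 0 1), (rhe7d1749390aefb37.shift 1 0), rhefb519189d8f62d1] (by decide +kernel))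
noncomputable def rh267a5b99f33683fd : CRef := CRef.mk (Pat.mk 0x180000002c0000000000000000 0x280000007f0000007e0000003c0000001600000016 6 7) 0 0 (step_sound _ 101 [(rh18965a982d73c794.shift 2 2), rh5d31111b5b549ad6] (by decide +kernel))
noncomputable def rh652bfd3aeb25bc49 : CRef := CRef.mk (Pat.mk 0xc0000001c000000000000000000000000 0x1800000018000000780000001f0000001c000000180000001800000018 6 7) 0 0 (step_sound _ 129 [(rh6344913edc3a396c.shift 1 0), (rhb739f4f82bb681b4.shift 0 3)] (by decide +kernel))
noncomputable def rhafc8775f5357bf1e : CRef := CRef.mk (Pat.mk 0xc0000001c000000000000000000000000 0x3f0000007f0000001e000000300000003000000010 6 7) 0 0 (step_sound _ 129 [(rhb739f4f82bb681b4.shift 0 3), rhbc3c332ad2a8189f] (by decide +kernel))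
noncomputable def rhc530cfe4b174e46e : CRef := CRef.mk (Pat.mk 0x18000000380000000000000000 0x8000000080000003e0000003f0000006700000004 6 7) 0 0 (step_sound _ 66 [(rh0e1512cbacfbd48b.shift 0 1), (rha3c6039d63f53e02.shift 1 0), (rhab2ad169e49f9c5e.shift 0 2)] (by decide +kernel))
noncomputable def rh322913886f146ed2 : CRef := CRef.mk (Pat.mk 0x1800000038000000000000000000000000 0x28000000780000003f000000770000003000000030 6 7) 0 0 (step_sound _ 98 [(rh0e1512cbacfbd48b.shift 0 2), (rh8c2ad9a06d323544.shift 2 0), (rhab2ad169e49f9c5e.shift 0 3)] (by decide +kernel))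
noncomputable def rh828de00e937c9cce : CRef := CRef.mk (Pat.mk 0x1c0000001400000000000000000000000000000000 0x8000000380000007c0000001c0000001f00000078000000380000003800000028 6 7) 0 0 (step_sound _ 100 [(rh537e26a16e88fcd0.shift 0 1), (rh65f001da9db29d9d.shift 0 1), (rhb1a251d9bff81766.shift 3 2), (rhe181d564227a886f.shift 3 0)] (by decide +kernel))
noncomputable def rha702b644a77e2ecc : CRef := CRef.mk (Pat.mk 0x1c00000014000000000000000000000000 0x180000001c0000001f0000007f0000001c000000780000003800000038 6 7) 0 0 (step_sound _ 99 [(rh073589708c2d81a3.shift 1 1), (rh65a4da1706b2bfd9.shift 2 0), (rh6656f69a80793b12.shift 0 3), (rhdeaa0e80af73152e.shift 2 0)] (by decide +kernel))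
noncomputable def rh139f4aafd3f533a5 : CRef := CRef.mk (Pat.mk 0x70000000500000000000000000 0x10000003bf000001ff000000770000002000000020 6 10) 0 0 (step_sound _ 99 [(rh3f8463b1b243085b.shift 0 2), (rh7d41099b9a2478c3.shift 2 0), (rh9cc333e729c7d407.shift 0 2), (rhd1d05263fabc0227.shift 1 2), (rhda8c3feb570db0ed.shift 2 2)] (by decide +kernel))
noncomputable def rhe3da3852fc2576d9 : CRef := CRef.mk (Pat.mk 0x38000000280000000000000000 0x600000007000000070000000ff000000fe000000380000003000000030 6 8) 0 0 (step_sound _ 132 [(rh5d54cb79a67f97ab.shift 4 0), (rh6be2cc7520b2e56c.shift 1 0), (rh85955cfc01e7031b.shift 0 2), (rha40d42a2e34c408d.shift 4 0)] (by decide +kernel))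
noncomputable def rhf810823170c15485 : CRef := CRef.mk (Pat.mk 0x18000000380000000000000000 0x800000008000000080000001f0000003f0000001700000014 6 6) 0 0 (step_sound _ 131 [(rh55a1f6c57a317ce6.shift 3 0), (rh591b25f705f294ee.shift 0 1), rhc723a8390c9cb928] (by decide +kernel))
noncomputable def rh52f1517b62e629cd : CRef := CRef.mk (Pat.mk 0x1800000038000000000000000000000000 0x8000000080000001f0000003f000000670000002400000020 6 7) 0 0 (step_sound _ 98 [(rh0e1512cbacfbd48b.shift 0 2), rh64b325a235d46f0c, (rha3c6039d63f53e02.shift 1 1)] (by decide +kernel))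
noncomputable def rhb9974e53f8c40366 : CRef := CRef.mk (Pat.mk 0xc0000001c000000000000000000000000 0x180000001c0000003c0000000f0000001c000000180000001800000018 6 6) 0 0 (step_sound _ 129 [(rhb739f4f82bb681b4.shift 0 3), (rhc72231895f6839a5.shift 1 0)] (by decide +kernel))
noncomputable def rhe32841bb47942405 : CRef := CRef.mk (Pat.mk 0x1800000038000000000000000000000000 0x10000000100000001e0000003f000001f70000002000000020 6 9) 0 0 (step_sound _ 130 [(rhb739f4f82bb681b4.shift 1 3), rhce984ff4226f4ce6] (by decide +kernel))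
noncomputable def rhb37cab1c4cceb903 : CRef := CRef.mk (Pat.mk 0x800000008000000080000000800000000 0x140000003c0000000f000000080000000c0000000c 6 6) 0 0 (step_sound _ 2 [rh5ee4dc8825dcefa0, (rh79877ebd3ef475dd.shift 2 0)] (by decide +kernel))
noncomputable def rhdaa5feb72c93f8e9 : CRef := CRef.mk (Pat.mk 0x1000000010000000500000001000000000 0x1000000010000000770000003e0000002f 6 7) 0 0 (step_sound _ 37 [(rh55afc6a59410cf00.shift 4 0), rhb0a4c63504b6577b] (by decide +kernel))
noncomputable def rhe44d0f8c09eb554a : CRef := CRef.mk (Pat.mk 0x40000000400000014000000000000000000000000 0xa0000000e0000000e000000060000001c0000000f0000000e00000008 6 5) 0 0 (step_sound _ 66 [(rh46baee19951a66e7.shift 1 0), (rh762a1aeaf83c662a.shift 1 1), (rhf42e780814dbdbac.shift 0 1)] (by decide +kernel))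
noncomputable def rhb2e8cd6993d8d2e0 : CRef := CRef.mk (Pat.mk 0x800000008000000280000000800000000 0x100000003c0000001f000000380000000c0000000c 6 6) 0 0 (step_sound _ 132 [(rh2f68792b6b779e96.shift 3 1), rhd1593e3a2a67f4f3] (by decide +kernel))
noncomputable def rh4a51e2a3b9c47f1b : CRef := CRef.mk (Pat.mk 0x8000000080000002800000000 0x1000000014000001df000000ff000001ff0000002800000028 6 9) 0 0 (step_sound _ 100 [(rh215e11e099257d75.shift 3 0), rh68a32cd8cfd8511d, (rhe3458ab40071103b.shift 3 0)] (by decide +kernel))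
noncomputable def rh419478928f556655 : CRef := CRef.mk (Pat.mk 0x2000000020000000200000002000000000000000000000000 0x100000007000000070000000600000002000000060000000600000004 6 3) 0 0 (step_sound _ 192 [rh3fdfff57602df0d6, (rh50fbb5868c909700.shift 0 3)] (by decide +kernel))
noncomputable def rh21769857bc5806c4 : CRef := CRef.mk (Pat.mk 0x2000000020000000200000002000000000 0x57000000fe000001ff000000200000003000000010 6 9) 0 0 (step_sound _ 132 [rh3017e39318a17b74, (rh50fbb5868c909700.shift 4 1)] (by decide +kernel))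
noncomputable def rh4be4d8d4860443b0 : CRef := CRef.mk (Pat.mk 0x8000000380000002000000000 0x60000000600000007f0000003f0000003700000010 6 7) 0 0 (step_sound _ 66 [(rh14ebe618fe80128a.shift 1 0), (rh775ca1963e850b80.shift 0 1), (rh816fd429a35c92eb.shift 0 1), (rhd1d05263fabc0227.shift 0 1)] (by decide +kernel))
noncomputable def rha32799905347b39b : CRef := CRef.mk (Pat.mk 0x1000000070000000400000000000000000000000000000000 0xc0000000c0000003f000000070000000e0000000e0000000e0000000e0000000a 6 6) 0 0 (step_sound _ 98 [(rh0a6888916bcef86b.shift 1 0), (rh30b8bb5abe80df47.shift 0 2), (rh43d8dfd721575dfb.shift 1 0), rh6374aa0742be4b66, (rhd1779d7de7f8215b.shift 1 0)] (by decide +kernel))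
noncomputable def rh7dd65512f73ba029 : CRef := CRef.mk (Pat.mk 0x4000000160000001000000000 0x30000000300000003f0000001e0000003800000008 6 6) 0 0 (step_sound _ 67 [rh14ebe618fe80128a, (rhe25b0a99195a5d59.shift 1 1)] (by decide +kernel))
noncomputable def rhcfc06d144332e7f2 : CRef := CRef.mk (Pat.mk 0x80000002c0000002000000000 0x60000000600000007f0000003f0000003700000010 6 7) 0 0 (step_sound _ 68 [(rh14ebe618fe80128a.shift 1 0), (rh775ca1963e850b80.shift 0 1), (rh816fd429a35c92eb.shift 0 1), (rhd1d05263fabc0227.shift 0 1)] (by decide +kernel))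
noncomputable def rhbf80b8b43090200b : CRef := CRef.mk (Pat.mk 0x80000002c000000200000000000000000 0x5000000070000000700000007c0000002f000000780000007000000040 6 7) 0 0 (step_sound _ 133 [(rh0a7a7ca3f1343863.shift 0 1), (rh610da5a376ecbd68.shift 2 0), (rhe33d9496e10d8eb0.shift 0 3)] (by decide +kernel))
noncomputable def rhbadd6c977f4ac169 : CRef := CRef.mk (Pat.mk 0x800000038000000200000000000000000 0x30000000700000007e0000003f000000300000003000000020 6 7) 0 0 (step_sound _ 132 [(rh46943efd17c6fd91.shift 0 1), (rh5d54cb79a67f97ab.shift 4 0), (rh7e1098702e50f2b0.shift 4 0), (rha40d42a2e34c408d.shift 4 0)] (by decide +kernel))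
noncomputable def rh469ccfbdfd8b9cf1 : CRef := CRef.mk (Pat.mk 0x1000000070000000400000000000000000000000000000000 0xa0000000e0000001f000000070000000e0000000e0000000e0000000e0000000a 6 5) 0 0 (step_sound _ 98 [(rh35549deb2b8bee95.shift 0 2), (rh43d8dfd721575dfb.shift 1 0), rh6374aa0742be4b66, (rh7b24c4ccc068b0b2.shift 1 2)] (by decide +kernel))
noncomputable def rh639c0c8652514c4a : CRef := CRef.mk (Pat.mk 0x800000038000000200000000000000000 0x14000000160000007e0000003f000000380000002800000020 6 7) 0 0 (step_sound _ 132 [(rh5d54cb79a67f97ab.shift 4 0), (rh7e1098702e50f2b0.shift 4 0), (rha40d42a2e34c408d.shift 4 0), (rhe495a2971047fc4a.shift 0 1)] (by decide +kernel))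
noncomputable def rhfcd511ad19fb8d6f : CRef := CRef.mk (Pat.mk 0x40000001c0000001000000000000000000000000000000000 0x800000038000000380000007f0000001c000000f800000030000000380000003800000028 6 8) 0 0 (step_sound _ 100 [(rh0a6888916bcef86b.shift 3 0), (rh43d8dfd721575dfb.shift 3 0), (rh6d310a4a1fdb313f.shift 3 0), (rh7b24c4ccc068b0b2.shift 3 2), (rhf0e65a28d65be075.shift 0 2)] (by decide +kernel))
noncomputable def rh3b7a4e73dff6121e : CRef := CRef.mk (Pat.mk 0x40000001c000000100000000000000000 0x3000000038000000780000003c0000001f000000180000001800000018 6 7) 0 0 (step_sound _ 131 [(rh4e6168c429553e24.shift 0 1), (rh5d54cb79a67f97ab.shift 3 0), rh6be2cc7520b2e56c, (rh7e1098702e50f2b0.shift 3 0), (rha40d42a2e34c408d.shift 3 0)] (by decide +kernel))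
noncomputable def rh546837a7aef4f21d : CRef := CRef.mk (Pat.mk 0x40000001c0000001000000000000000000000000000000000 0x18000000180000001c0000001c0000007f000000ff0000003c0000003c00000004 6 8) 0 0 (step_sound _ 131 [rh2759ca9a3ca782a4, (rh32f03abbd3c6b1d1.shift 0 1), (rh38d932f05a1db45f.shift 0 1), (rh8a3bf339555429cb.shift 0 1), (rhcdf08814b8e31ad2.shift 0 1), (rhce4e636cb2a5f207.shift 2 1)] (by decide +kernel))
noncomputable def rhe19f03b4fc6ce930 : CRef := CRef.mk (Pat.mk 0x80000002c000000200000000000000000 0x1000000010000000340000007c0000002f0000007c0000001800000018 6 7) 0 0 (step_sound _ 67 [(rh8c25cb665ab79ec0.shift 0 2), rhab52eaf31b542ffd, (rhe162b28225f7ebb8.shift 2 0)] (by decide +kernel))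
noncomputable def rh15c9d543573fea4f : CRef := CRef.mk (Pat.mk 0x80000002800000020000000200000000000000000 0x50000000780000003f00000067000000300000003000000010 6 7) 0 0 (step_sound _ 164 [(rh22a866a325be2ff9.shift 0 1), (rh8c70dc5509820a10.shift 4 0), (rhececd53a3737d0fe.shift 2 0), (rhffa5170e738fb874.shift 2 2)] (by decide +kernel))
noncomputable def rhbb79c09c57c7d7ad : CRef := CRef.mk (Pat.mk 0x280000002000000020000000000000000000000000 0x170000003e0000006700000020000000700000007000000050 6 7) 0 0 (step_sound _ 69 [(rh8cdd36b03d57a2f6.shift 4 0), (rhe02215ab49ac9c44.shift 0 2)] (by decide +kernel))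
noncomputable def rhb591119b42d69216 : CRef := CRef.mk (Pat.mk 0x400000014000000100000001000000000000000000000000000000000 0x1400000014000000340000003f000000f8000000380000003800000038 6 8) 0 0 (step_sound _ 100 [(rh092185b8521c1f7d.shift 0 2), (rh4de3abef4dbb937e.shift 1 2), (rh8cdd36b03d57a2f6.shift 3 1), (rhb54b82c12f7629a6.shift 3 0)] (by decide +kernel))
noncomputable def rh2a77b75fe3ebf824 : CRef := CRef.mk (Pat.mk 0x280000002800000020000000000000000000000000 0x6000000060000001fe0000003e0000003f000000700000007000000070 6 9) 0 0 (step_sound _ 132 [(rh055db6938db19010.shift 1 3), (rh2171aa45cdbc6ef0.shift 3 0), (rh27b05e9b6d52bd8e.shift 1 0), (rh7f0f728c796044ac.shift 0 3), (rhb8470ec026c25e22.shift 0 3)] (by decide +kernel))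
noncomputable def rh248b5604d1a83491 : CRef := CRef.mk (Pat.mk 0x14000000140000001000000000 0x2800000038000000780000003e0000001f0000001800000008 6 7) 0 0 (step_sound _ 132 [(rh73194a237cdcdd9d.shift 1 0), (rh7ef5fa5c39f1c762.shift 3 1), rha94490687c60c4d4] (by decide +kernel))
noncomputable def rhdbf50a178143f909 : CRef := CRef.mk (Pat.mk 0x8000000280000002000000020000000000000000000000000 0x10000000700000007000000068000003bf000001fc000003fc000000300000003000000030 6 10) 0 0 (step_sound _ 132 [(rh0ecfc125b3f7b626.shift 2 0), (rh37f4d408692cdf16.shift 1 1), (rhb96ef25e83be435d.shift 0 4), (rhdddef7359c53a245.shift 2 2)] (by decide +kernel))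
noncomputable def rhc7db4b86fa0aaece : CRef := CRef.mk (Pat.mk 0x8000000280000002000000020000000000000000000000000 0x2f0000003e000001f700000030000000700000007000000050 6 9) 0 0 (step_sound _ 164 [(rh3918eeb6c53434d8.shift 0 4), (rh6374aa0742be4b66.shift 3 0), (rhc21a95c499b3efdb.shift 2 4)] (by decide +kernel))
noncomputable def rh8379608c24581e04 : CRef := CRef.mk (Pat.mk 0xa0000000800000008000000000000000000000000 0x40000001c0000001c000000180000000f0000000c0000001c0000001c0000001c00000004 6 5) 0 0 (step_sound _ 195 [(rh3181373a30ceb9e3.shift 2 1), (rh6fa8dd4bf0561bd9.shift 2 3), rh7bf288a2cd49e953] (by decide +kernel))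
noncomputable def rhcc040f11b401a6f2 : CRef := CRef.mk (Pat.mk 0x20000000a0000000800000008000000000000000000000000 0xa0000000e000000ff0000007f000000f40000001400000014 6 8) 0 0 (step_sound _ 98 [(rh4632e7c8eee2489c.shift 0 2), rh794c5ea6d0dd70bd, rh7d652cb307b7010c, (rhfafeb437ceb8396d.shift 2 0)] (by decide +kernel))
noncomputable def rhbcb8a7ebdf4ac7c9 : CRef := CRef.mk (Pat.mk 0x280000002000000020000000000000000000000000 0x600000006000000060000003bf000001fc000003f0000000600000006000000040 6 10) 0 0 (step_sound _ 132 [(rh073bf8773d58b6e3.shift 2 0), (rh1737e5bccdbf103b.shift 2 1), (rha51a828f5aaafc4a.shift 2 3), (rhb96ef25e83be435d.shift 0 4), (rhe5793cbf806a9ea1.shift 2 1)] (by decide +kernel))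
noncomputable def rh8c8a68ae6cc1e0f9 : CRef := CRef.mk (Pat.mk 0x28000000200000002000000000000000000000000000000000 0x20000000270000003e000001f7000001e000000078000000700000007000000040 6 9) 0 0 (step_sound _ 101 [(rh158c4931a5a21d88.shift 0 1), (rh64875e5dc732fe22.shift 2 1), (rh8cdd36b03d57a2f6.shift 4 1), (rhac13d16ea91712e4.shift 3 2), (rhce1b01541c5981e6.shift 2 0)] (by decide +kernel))
noncomputable def rh8b4d095e0b0d0f91 : CRef := CRef.mk (Pat.mk 0x20000000a0000000800000008000000000000000000000000 0x2000000ef0000007f000000ff0000001c0000001c00000010 6 8) 0 0 (step_sound _ 130 [(rh8b10b64a49c6aa45.shift 0 1), (rha51a828f5aaafc4a.shift 0 3), rhb277310d64b3a5ac, (rhdddef7359c53a245.shift 0 2)] (by decide +kernel))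
noncomputable def rh1138f8269bcb887c : CRef := CRef.mk (Pat.mk 0x80000002800000028000000000000000000000000 0x180000003f000000fe000001ff0000003000000030 6 9) 0 0 (step_sound _ 100 [rh9bb6c13e28316240, (rha9fbfd4bb8cf890b.shift 0 3), (rhe8ea5f2a637fddf3.shift 2 1)] (by decide +kernel))
noncomputable def rhb116ff4b9fcb58a2 : CRef := CRef.mk (Pat.mk 0x80000002800000028000000000000000000000000 0x140000001c0000003c0000003f0000007c0000007800000050 6 7) 0 0 (step_sound _ 67 [rh4683639f31019acd, (rh6d2125986d3f5221.shift 2 1), (rhcae87bda2c3c01d2.shift 2 0), (rhec588a0d7783acc6.shift 3 0)] (by decide +kernel))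
noncomputable def rh39857ae4a5c2bdc8 : CRef := CRef.mk (Pat.mk 0x80000002800000028000000000000000000000000 0x140000001e00000038000001ff0000007c0000001800000010 6 9) 0 0 (step_sound _ 67 [(rh251e8d15f78999fb.shift 0 1), (rh43d708b5987f5c5a.shift 1 1), (rhec588a0d7783acc6.shift 3 0)] (by decide +kernel))
noncomputable def rhf4a71512ee00c0ba : CRef := CRef.mk (Pat.mk 0x80000000800000028000000000000000000000000 0x40000000c0000000f000001ff0000007c0000001800000010 6 9) 0 0 (step_sound _ 67 [(rh251e8d15f78999fb.shift 0 1), (rh8d637c05f1f8fe87.shift 2 1), (rh92ed3525f919a568.shift 0 1), (rhcae87bda2c3c01d2.shift 2 0)] (by decide +kernel))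
noncomputable def rh3a0a74c8142aabf3 : CRef := CRef.mk (Pat.mk 0x80000002800000028000000000000000000000000 0x140000001f0000003c000000680000003c0000003800000010 6 7) 0 0 (step_sound _ 67 [(rh6d2125986d3f5221.shift 2 1), (rhcae87bda2c3c01d2.shift 2 0), (rhcce8358d8d3722f6.shift 0 1), (rhec588a0d7783acc6.shift 3 0)] (by decide +kernel))
noncomputable def rh7bd76eb365932f3a : CRef := CRef.mk (Pat.mk 0x100000005000000050 0x3e0000007f000000fe 6 8) 0 0 (step_sound _ 35 [(rh8c25cb665ab79ec0.shift 1 0), (rha6816dee951f7ee6.shift 3 0), (rhb34a67f8847d128f.shift 1 0), rhbf8ebb4f1cfff5e1] (by decide +kernel))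
noncomputable def rhdbbbebb066659f4b : CRef := CRef.mk (Pat.mk 0x2000000020000000a000000000000000000000000 0x500000007000000070000003f0000001f0000000600000004 6 6) 0 0 (step_sound _ 65 [(rh6d2125986d3f5221.shift 0 1), (rh8d637c05f1f8fe87.shift 0 1), rhcae87bda2c3c01d2, (rhec588a0d7783acc6.shift 1 0)] (by decide +kernel))
noncomputable def rh9ff1c787004ce468 : CRef := CRef.mk (Pat.mk 0x20000000800000008000000080000000000000000 0x100000001c0000001f0000000c0000000c0000000c0000000c00000004 6 5) 0 0 (step_sound _ 163 [(rh20966da26a1c2ae8.shift 2 1), (rh5dcab789b18432d8.shift 0 1), (rh6aa5625770489e83.shift 2 0)] (by decide +kernel))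
noncomputable def rhec187c8255807866 : CRef := CRef.mk (Pat.mk 0x20000000800000008000000080000000000000000 0x140000001c0000001f0000000c00000018000000180000001800000010 6 5) 0 0 (step_sound _ 163 [(rh46baee19951a66e7.shift 2 0), (rh5dcab789b18432d8.shift 0 1), (rh8065c10b3cae6218.shift 2 1), (rhced6d86d2069808b.shift 3 1)] (by decide +kernel))
noncomputable def rhd1026a89cf2ef30b : CRef := CRef.mk (Pat.mk 0x1000000050000000400000004000000000000000000000000 0x30000000700000006000000070000003e0000000e0000000a 6 6) 0 0 (step_sound _ 66 [(rh46baee19951a66e7.shift 1 0), (rh6950a5ce2a52daa2.shift 0 1), (rh6aa5625770489e83.shift 1 0), (rh8cdd36b03d57a2f6.shift 1 0)] (by decide +kernel))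
noncomputable def rh9691eeb5a3c077aa : CRef := CRef.mk (Pat.mk 0x28000000280000002000000000 0x5000000070000000f00000007c0000002f0000007800000050 6 8) 0 0 (step_sound _ 133 [rh4a662b7cc65908ad, (rh73194a237cdcdd9d.shift 2 0), (rh7ef5fa5c39f1c762.shift 4 1)] (by decide +kernel))
noncomputable def rhae67d5a1f87b80c1 : CRef := CRef.mk (Pat.mk 0x40000001c000000100000000000000000 0x18000000780000007f0000001c0000007c0000003f0000003c 6 7) 0 0 (step_sound _ 131 [(rh2819595a19b5fa31.shift 2 0), rh2993531018ea39f2, (rh5d54cb79a67f97ab.shift 3 0), (rh7e1098702e50f2b0.shift 3 0), (rha40d42a2e34c408d.shift 3 0)] (by decide +kernel))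
noncomputable def rhe29f0676c21f9786 : CRef := CRef.mk (Pat.mk 0x2000000020000000200000002000000000000000000000000 0x600000006000000070000000300000003000000030000000200000002 6 3) 0 0 (step_sound _ 96 [(rh932754581e0f4330.shift 0 2), rheadb0c43c5ad1301] (by decide +kernel))
noncomputable def rh8fd6a8efa0ab57f6 : CRef := CRef.mk (Pat.mk 0x2000000020000000200000002000000000000000000000000 0x200000002000000030000000300000007000000070000000600000002 6 3) 0 0 (step_sound _ 66 [rh517016e4224e3bb0, (rhd3458b32566d63f7.shift 1 2)] (by decide +kernel))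
noncomputable def rha8df7d2b06aed919 : CRef := CRef.mk (Pat.mk 0x20000000200000002000000000000000000000000 0x500000007000000070000000700000002000000070000000700000004 6 3) 0 0 (step_sound _ 65 [rh46baee19951a66e7, (rh762a1aeaf83c662a.shift 0 1), (rhc4055b4872d6fb38.shift 0 1), (rhc9de03f9731897d4.shift 1 0)] (by decide +kernel))
noncomputable def rh3c62d46b17c55324 : CRef := CRef.mk (Pat.mk 0x40000001c000000000000000000000000 0x1c0000001e0000003f0000007f0000001f0000007c0000001c0000001c 6 7) 0 0 (step_sound _ 131 [rh264680c962c2421e, (rh28e5efaa281b4177.shift 0 2), (rh3dbca53cd7101d1d.shift 0 1), (rha12e69977f4105a8.shift 0 1), rhecfacbfcc3f95a1b] (by decide +kernel))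
noncomputable def rh9c67cfa7266646d1 : CRef := CRef.mk (Pat.mk 0x1e0000000000000000000000000000000000000000 0x400000006000000070000001e0000003700000007000000070000000500000004 6 6) 0 0 (step_sound _ 129 [rh88ab92d15daec98a, (rheb0810cc63b001d8.shift 0 4)] (by decide +kernel))
noncomputable def rh58cff27f756eb0cb : CRef := CRef.mk (Pat.mk 0x280000000800000008000000000000000000000000 0xc0000007c0000000e000000380000001f0000001c00000010 6 7) 0 0 (step_sound _ 67 [(rh4e89222fae775f85.shift 1 1), (rhb20dd801f506db0f.shift 0 1), (rhcae87bda2c3c01d2.shift 2 0)] (by decide +kernel))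
noncomputable def rh97c4ca4e16a0f428 : CRef := CRef.mk (Pat.mk 0x140000000400000004000000000000000000000000 0x60000003e00000007000000070000003e0000000e00000008 6 6) 0 0 (step_sound _ 66 [(rh1904b52b42aee148.shift 0 1), (rh4e89222fae775f85.shift 0 1), (rhcae87bda2c3c01d2.shift 1 0)] (by decide +kernel))
noncomputable def rh70f73cf72af0377c : CRef := CRef.mk (Pat.mk 0x280000002800000008000000000000000000000000 0x40000000400000006c0000007c0000002f0000007c000000380000001800000010 6 7) 0 0 (step_sound _ 130 [(rh7170e6ecf107531a.shift 2 0), (rh9eaf497289a6ff86.shift 0 2), (rhe33d9496e10d8eb0.shift 0 4)] (by decide +kernel))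
noncomputable def rha8648003b40476af : CRef := CRef.mk (Pat.mk 0x2800000028000000080000000000000000 0x100000005c0000005c0000006c0000007c0000002f0000007c0000002c0000000c 6 7) 0 0 (step_sound _ 98 [(rh94eaeb2c1af23037.shift 2 0), (rh9eaf497289a6ff86.shift 0 1), (rhe33d9496e10d8eb0.shift 0 3)] (by decide +kernel))
noncomputable def rhadda97a139c146dc : CRef := CRef.mk (Pat.mk 0x280000000800000008000000000000000000000000 0x80000007c0000000f0000007c0000001c0000001c00000018 6 7) 0 0 (step_sound _ 130 [(rh3dd1045e71ce0b95.shift 2 0), rhb93bb0fdbd9b8f41, (rhe33d9496e10d8eb0.shift 0 4)] (by decide +kernel))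
noncomputable def rhb4bffc909e6ff045 : CRef := CRef.mk (Pat.mk 0x140000001400000004000000000000000000000000 0x120000003e000000170000007e0000003f0000002e00000008 6 7) 0 0 (step_sound _ 66 [(rh414d961cb701a913.shift 0 1), (rh4e89222fae775f85.shift 0 1), (rh7450607f508aa28c.shift 0 1), (rhcae87bda2c3c01d2.shift 1 0)] (by decide +kernel))
noncomputable def rhc9f7aec2b117cdc3 : CRef := CRef.mk (Pat.mk 0x680000002800000000000000000000000000000000 0x140000005c0000007c0000007c000000680000002f0000007c0000007e0000007400000050 6 7) 0 0 (step_sound _ 101 [(rh215e11e099257d75.shift 5 2), rh9060a6dbbc6fa5c0, (rh911b5089e975bd40.shift 2 1), (rhffb8e5993241bf15.shift 4 0)] (by decide +kernel))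
noncomputable def rh65e04c4e2eb8949b : CRef := CRef.mk (Pat.mk 0x160000001400000000000000000000000000000000 0x2000000060000001600000016000000370000003e0000007f0000000a00000008 6 7) 0 0 (step_sound _ 98 [(rh27b44a0202980be0.shift 1 1), rh459ffebd7e24f7ea, rh736895e544aeea07, (rh7b24c4ccc068b0b2.shift 1 2), (rhf9a6286f1d5377a2.shift 1 2)] (by decide +kernel))
noncomputable def rh07dc9a7c98b6b8c5 : CRef := CRef.mk (Pat.mk 0xb0000000a000000000000000000000000 0x5000000070000000f0000001f0000000b0000001f000000070000000700000004 6 5) 0 0 (step_sound _ 98 [rh78c52bea3d0fe119, (rhf48373e13d2bc128.shift 0 3)] (by decide +kernel))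
noncomputable def rhe579c0761d1584e7 : CRef := CRef.mk (Pat.mk 0x2c00000028000000000000000000000000 0x140000001c0000003c0000007c0000002f00000078000000180000001800000010 6 7) 0 0 (step_sound _ 100 [rhbbb92b5ac1c7af31, (rhf48373e13d2bc128.shift 2 3)] (by decide +kernel))
noncomputable def rh7425405f49e0c640 : CRef := CRef.mk (Pat.mk 0xc00000008000000000000000000000000 0x40000001c0000001c0000003c0000000f0000000c0000001c0000001c00000014 6 6) 0 0 (step_sound _ 67 [(rh27b44a0202980be0.shift 2 0), (rh5280cb3db2e6d38c.shift 2 0), (rh7b24c4ccc068b0b2.shift 2 1), (rh9b68a071bbd4e433.shift 0 1), (rhf9a6286f1d5377a2.shift 2 1)] (by decide +kernel))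
noncomputable def rh0ec9b2d0bb54bd5f : CRef := CRef.mk (Pat.mk 0x5800000050000000000000000000000000 0xc0000001c0000007c0000007f0000001f0000001800000008 6 7) 0 0 (step_sound _ 99 [(rh2da7bb8ee8429194.shift 2 0), (rhaf17d7ce619e136e.shift 2 0), (rhdb8fdefbce6a08fb.shift 0 2)] (by decide +kernel))
noncomputable def rh5cf392f78c687ec0 : CRef := CRef.mk (Pat.mk 0x140000001c00000000000000000000000000000000 0x4000000040000001c0000007c0000007f0000007e0000003e0000001c 6 7) 0 0 (step_sound _ 99 [rh1005b5ac1d506b0b, rh1846e439b5578a29, (rhade0f4c81793f68e.shift 2 1), (rhbe707112c53dab40.shift 2 1)] (by decide +kernel))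
noncomputable def rha68c796939495516 : CRef := CRef.mk (Pat.mk 0x2800000038000000000000000000000000 0x140000001c0000001c0000001c0000003c000000380000001f0000001c0000001c 6 6) 0 0 (step_sound _ 163 [(rh1468d52ccc1a3c50.shift 2 0), rh88923257c65ef0b4, (rha768b229dc254047.shift 3 0), (rhc0f6fe06378683f4.shift 2 2)] (by decide +kernel))
noncomputable def rhaa1555e5024104df : CRef := CRef.mk (Pat.mk 0x280000002c0000000000000000 0x6000000060000003e0000003e0000007f00000008 6 7) 0 0 (step_sound _ 68 [(rh008b05f4778dc30d.shift 0 1), (rh2591032a0e7f4182.shift 0 1), (rh2ebbcfe90e0f250d.shift 1 1), (rh43715a9a1b5d459f.shift 1 0)] (by decide +kernel))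
noncomputable def rh2c5a378eb69849df : CRef := CRef.mk (Pat.mk 0x140000001c000000000000000000000000 0x4000000040000001c000000ff000001df0000000a00000008 6 9) 0 0 (step_sound _ 67 [rh726c931d6c323733, (rhacc49e5d4fd39099.shift 0 1), (rhade0f4c81793f68e.shift 2 0), (rhbe707112c53dab40.shift 2 0)] (by decide +kernel))
noncomputable def rh1811a54ce4fbfaf8 : CRef := CRef.mk (Pat.mk 0x5000000070000000000000000000000000 0x100000001000000077000001fe000003bf0000002800000028 6 10) 0 0 (step_sound _ 69 [rh66c813948644acbe, (rhade0f4c81793f68e.shift 4 0), (rhbe707112c53dab40.shift 4 0), (rhc9b4839147ef5582.shift 0 2)] (by decide +kernel))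
noncomputable def rhfca39c27dfa2ca60 : CRef := CRef.mk (Pat.mk 0x140000001c00000000000000000000000000000000 0x4000000040000001c0000001f0000007f0000007e0000003e0000001c 6 7) 0 0 (step_sound _ 99 [(rhade0f4c81793f68e.shift 2 1), (rhbe707112c53dab40.shift 2 1), (rhd8e66b35e5f82302.shift 0 1), rhf05e367129188605] (by decide +kernel))
noncomputable def rha27fa4b8c3a11d8d : CRef := CRef.mk (Pat.mk 0x2800000038000000000000000000000000 0x140000001c0000001c00000028000000fc000000ff000000dc00000054 6 8) 0 0 (step_sound _ 67 [(rh2820ca9a6c4f41b4.shift 0 2), (rhac923301fd756f4a.shift 2 0), (rhe68c43c2407ca6f0.shift 2 0)] (by decide +kernel))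
noncomputable def rh8b8637a0a497b0d8 : CRef := CRef.mk (Pat.mk 0x140000001400000004000000000000000000000000 0xc0000001e000000370000000e0000000e0000000e00000008 6 6) 0 0 (step_sound _ 66 [(rh1f846c44b7aeb5c3.shift 0 1), (rh686dda116d7c0588.shift 1 0), (rhabedd109a9a37101.shift 1 1)] (by decide +kernel))
noncomputable def rh612106fda0a12af1 : CRef := CRef.mk (Pat.mk 0x4000000140000000400000000 0xa0000000e0000000e00000004000000370000003e0000000a 6 6) 0 0 (step_sound _ 130 [(rh20966da26a1c2ae8.shift 1 0), (rh565a0c22519f57e9.shift 1 0), (rhc17b7d8fab3dfe57.shift 1 0), rhe06c7604aef75ec4] (by decide +kernel))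
noncomputable def rh960f32c70aa5abd8 : CRef := CRef.mk (Pat.mk 0x2800000068000000000000000000000000 0x50000000740000007c0000007c0000002f000000680000007c0000007c00000054 6 7) 0 0 (step_sound _ 163 [rh3308f7430b387c3e, (rh33d7f1bee8f3d95a.shift 2 0), rh65b04519e93422b5, (rh7363f1305eb19370.shift 2 0), (rhdee67538b8dccf39.shift 2 0), (rhf8350c3e7af4dd93.shift 2 0)] (by decide +kernel))
noncomputable def rh2d51945081276dab : CRef := CRef.mk (Pat.mk 0x80000002800000028000000000000000000000000 0x40000000f40000007c0000002f000000380000003c0000001c00000014 6 8) 0 0 (step_sound _ 67 [(rh46baee19951a66e7.shift 2 0), (rh6aa5625770489e83.shift 2 0), (rh8cdd36b03d57a2f6.shift 2 0), (rhd0680b835e97d076.shift 0 1)] (by decide +kernel))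
noncomputable def rh3c8f9533599701eb : CRef := CRef.mk (Pat.mk 0x280000002800000020000000000000000000000000 0x140000001c0000003c000000280000007c0000003f0000003e0000001400000010 6 7) 0 0 (step_sound _ 99 [(rh1c365c76821ab000.shift 3 1), (rh938809296a7d3171.shift 1 0), (rh9a80b33a5b2ded2c.shift 0 2), (rh9bb466b2f2c3b9d6.shift 1 0)] (by decide +kernel))
noncomputable def rha3b0bfe590aaceb3 : CRef := CRef.mk (Pat.mk 0x2800000028000000200000000000000000 0x140000001c0000001c000000280000007c000001ff0000003c00000010 6 9) 0 0 (step_sound _ 100 [rh0d77e2e0401ccd13, rh337e62714be558a0, (rh8ee80cc30e93a344.shift 2 2), (rhc21a95c499b3efdb.shift 2 2)] (by decide +kernel))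
noncomputable def rh6048abc0dcfc6e28 : CRef := CRef.mk (Pat.mk 0x20000000200000002000000000000000000000000 0x500000007000000070000000200000003000000070000000700000005 6 3) 0 0 (step_sound _ 65 [(rh565a0c22519f57e9.shift 0 1), rh8cdd36b03d57a2f6, (rhc17b7d8fab3dfe57.shift 0 1)] (by decide +kernel))
noncomputable def rh9d8f2890b02deb95 : CRef := CRef.mk (Pat.mk 0x80000002800000028000000000000000000000000 0x54000000fc0000007c0000002f00000068000000780000007800000010 6 8) 0 0 (step_sound _ 67 [(rh31af36bbc0ef7d14.shift 2 0), (rh46baee19951a66e7.shift 2 0), (rh5ee4dc8825dcefa0.shift 0 1), (rhc17b7d8fab3dfe57.shift 2 1)] (by decide +kernel))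
noncomputable def rh470fcdc4c223822a : CRef := CRef.mk (Pat.mk 0x20000000200000002000000000000000000000000 0x600000006000000070000000300000003000000070000000700000007 6 3) 0 0 (step_sound _ 65 [(rh20966da26a1c2ae8.shift 0 1), rh8cdd36b03d57a2f6, rhfac200e56f5e9723] (by decide +kernel))
noncomputable def rhdb571324a370e707 : CRef := CRef.mk (Pat.mk 0x40000000400000014000000000000000000000000 0x20000000600000006000000370000003e0000000e0000000a 6 6) 0 0 (step_sound _ 66 [(rh46baee19951a66e7.shift 1 0), (rh6aa5625770489e83.shift 1 0), (rh8cdd36b03d57a2f6.shift 1 0), (rhe06c7604aef75ec4.shift 0 1)] (by decide +kernel))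
noncomputable def rh09761ea78cc698e9 : CRef := CRef.mk (Pat.mk 0x1e000000000000000000000000 0x4000000070000000700000007000000070000001e000000070000000600000006 6 5) 0 0 (step_sound _ 129 [(rh3244c3cc8379b070.shift 0 3), rhef0c6663baaefa3a] (by decide +kernel))
noncomputable def rh541d0b2d3ee2836c : CRef := CRef.mk (Pat.mk 0xc0000000800000000000000000000000000000000 0x40000001c0000001c0000003c0000000f0000000c0000001c0000001c0000001c00000014 6 6) 0 0 (step_sound _ 99 [(rh0a6888916bcef86b.shift 2 0), (rh7b24c4ccc068b0b2.shift 2 2), (rh871d5ce499d9eda1.shift 2 0), (rh9b68a071bbd4e433.shift 0 2), (rhf9a6286f1d5377a2.shift 2 2)] (by decide +kernel))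
noncomputable def rhbb69cba58cd120ad : CRef := CRef.mk (Pat.mk 0x80000001c000000100000000000000000 0x1c0000001c0000001c0000001c0000007c0000006f0000000c 6 7) 0 0 (step_sound _ 67 [(rh1ca57632399d2034.shift 2 0), (rh5fba5992ee6efb1d.shift 2 0), (rha1364e9f6ba63089.shift 2 1), (rhb167ce3ac5e6dd36.shift 1 0), rhc8e1b00ff32aea22] (by decide +kernel))
noncomputable def rhcc01267e34479c3f : CRef := CRef.mk (Pat.mk 0x20000000300000002000000000000000000000000 0x1000000070000000700000007000000030000000300000002000000070000000700000005 6 3) 0 0 (step_sound _ 193 [(rh4e2df8342d3b8ae8.shift 0 3), (rh7ef5fa5c39f1c762.shift 0 3), rh9e174856810c5f95, (rhcaa2c1a05e34bcba.shift 0 1)] (by decide +kernel))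
noncomputable def rh1298fe0d474fa902 : CRef := CRef.mk (Pat.mk 0x80000000e000000080000000000000000 0x1c0000001c0000003c0000003f0000000e000000080000000800000008 6 6) 0 0 (step_sound _ 130 [(rh3cb04db3dd2b6a55.shift 2 0), (rhde037d886ade9647.shift 0 2), (rhf8d29f3cbeaf06f7.shift 1 0)] (by decide +kernel))
noncomputable def rh9aa3b564a5a42368 : CRef := CRef.mk (Pat.mk 0xc0000000800000000000000000000000000000000 0x40000001c0000001c0000003c0000000f0000000c0000001c0000001c0000001c00000014 6 6) 0 0 (step_sound _ 99 [(rh0a6888916bcef86b.shift 2 0), (rh54a3cb6d4bbcf7e3.shift 0 2), (rh7b24c4ccc068b0b2.shift 2 2), (rh871d5ce499d9eda1.shift 2 0), (rhf9a6286f1d5377a2.shift 2 2)] (by decide +kernel))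
noncomputable def rh2e09d508ce371ce2 : CRef := CRef.mk (Pat.mk 0x2c000000280000000000000000 0x4000000040000000f0000003e0000003f0000000800000008 6 6) 0 0 (step_sound _ 100 [(rh2cc7d62e70c02209.shift 0 2), (rha3a3f9dc7580010b.shift 1 0), (rhd1d05263fabc0227.shift 0 2), (rhdceeca65bdd8095a.shift 0 2)] (by decide +kernel))
noncomputable def rhc53656083a14bd81 : CRef := CRef.mk (Pat.mk 0x28000000380000000000000000 0x6000000060000003f0000003e0000007f00000008 6 7) 0 0 (step_sound _ 66 [(rh2591032a0e7f4182.shift 0 1), (rh2cc7d62e70c02209.shift 0 1), (rh2ebbcfe90e0f250d.shift 1 1), (rh43715a9a1b5d459f.shift 1 0)] (by decide +kernel))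
noncomputable def rh4df2e723d42ce8f4 : CRef := CRef.mk (Pat.mk 0x140000001c000000000000000000000000 0x2000000020000000f0000001f0000001f000000340000001400000010 6 6) 0 0 (step_sound _ 131 [(rhaed54c24fb91f24a.shift 0 1), rhcb68da4f2dc5e7fd] (by decide +kernel))
noncomputable def rhfa0b3c123b00bd98 : CRef := CRef.mk (Pat.mk 0x8000000380000000000000000000000000000000000000000 0x140000001c0000001c000000080000007c0000001f0000001c0000001c0000001c00000010 6 7) 0 0 (step_sound _ 131 [(rh2820ca9a6c4f41b4.shift 0 4), (rh86c002bec37c9c8c.shift 2 0)] (by decide +kernel))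
noncomputable def rhb966ff22609ec4c3 : CRef := CRef.mk (Pat.mk 0x280000002800000008000000000000000000000000 0x500000007000000070000000280000007c000001ff000000780000005000000040 6 9) 0 0 (step_sound _ 132 [(rh155bfc9769007f58.shift 2 0), (rh2820ca9a6c4f41b4.shift 0 3), (rh77e49818bff4e709.shift 2 1), (rhf0f55c4504412200.shift 0 3)] (by decide +kernel))
noncomputable def rh0c3f535ac3125a07 : CRef := CRef.mk (Pat.mk 0x1e000000000000000000000000 0x1000000070000000700000006000000070000001e000000070000000600000006 6 5) 0 0 (step_sound _ 129 [(rh3244c3cc8379b070.shift 0 3), rh80d3a801875e8f9d] (by decide +kernel))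
noncomputable def rh7fe2ad111573d695 : CRef := CRef.mk (Pat.mk 0x2800000038000000000000000000000000 0x4000000160000003f0000003e0000006f0000002800000020 6 7) 0 0 (step_sound _ 98 [(rh1a174162c01f37ee.shift 1 0), (rh2591032a0e7f4182.shift 0 2), (rh2cc7d62e70c02209.shift 0 2)] (by decide +kernel))
noncomputable def rh42e0c1d0448932f2 : CRef := CRef.mk (Pat.mk 0x2800000038000000000000000000000000 0x140000001c0000001c0000003c000000380000001f0000001c0000001c 6 6) 0 0 (step_sound _ 163 [(rh235edbdf3bbc6c03.shift 3 0), rh65d3e0cb09a604fc, (rha768b229dc254047.shift 3 0), (rhb1beb69913c0a930.shift 2 0)] (by decide +kernel))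
noncomputable def rhaecdb849a516b533 : CRef := CRef.mk (Pat.mk 0x140000001c000000000000000000000000 0x4000000040000001c0000007f000000ff0000006a00000028 6 8) 0 0 (step_sound _ 67 [rh5464e261c4a40a5e, rh620bd4db2fb395d1, (rhade0f4c81793f68e.shift 2 0), (rhbe707112c53dab40.shift 2 0)] (by decide +kernel))
noncomputable def rhc00215a74457c7d4 : CRef := CRef.mk (Pat.mk 0x2800000068000000000000000000000000 0x50000000740000007c0000007c0000002f000000680000007c0000007c00000054 6 7) 0 0 (step_sound _ 165 [(rh14e0829dc73b6804.shift 4 2), rh32e81ba04a706b5a, rh5ad4e716fae363f2, (rh70e33bfdf511e144.shift 5 0)] (by decide +kernel))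
noncomputable def rhd2998d905b2d652a : CRef := CRef.mk (Pat.mk 0x80000002800000028000000000000000000000000 0x18000000380000007c0000002f0000007c0000006c0000004c00000048 6 7) 0 0 (step_sound _ 130 [(rh328f7f103cdcc067.shift 2 0), rh6d9be37e846df60d, (rh8c25cb665ab79ec0.shift 0 3), rha4202c99c4a61a97] (by decide +kernel))
noncomputable def rh4e6aa3d621f2750e : CRef := CRef.mk (Pat.mk 0x800000028000000280000000000000000 0x100000001c0000001c0000001c000000fc0000002f0000007c0000002800000008 6 8) 0 0 (step_sound _ 163 [rh20cd3f9642a961e5, (rh7086929b0e17680e.shift 2 1), (rh7ef5fa5c39f1c762.shift 2 2), (rhfeb565e3642a0443.shift 2 2)] (by decide +kernel))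
noncomputable def rh1e09b491a37b54fc : CRef := CRef.mk (Pat.mk 0x80000002800000028000000000000000000000000 0x540000007c0000007c0000007c0000002f0000007c000000640000004400000044 6 7) 0 0 (step_sound _ 165 [(rh435ed05552cf177d.shift 2 0), (rh544e2c0a0031f388.shift 2 2), (rh6d0963c6d7876be9.shift 4 1), rhac635d089a3d5e84, (rhbdf7da801bd7795d.shift 2 2)] (by decide +kernel))
noncomputable def rhfa8036191946c99c : CRef := CRef.mk (Pat.mk 0x3800000018000000000000000000000000 0x800000038000000380000003e0000001f0000001c0000001c 6 6) 0 0 (step_sound _ 98 [(rh53b3c253cb0c65f4.shift 1 3), rhfe0d72f5194da0ed] (by decide +kernel))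
noncomputable def rhb7ca002fe67ba876 : CRef := CRef.mk (Pat.mk 0x1c0000000c0000000000000000 0xc0000001c000000380000001f0000000c0000000c0000000c 6 6) 0 0 (step_sound _ 131 [(rh1e309b005ffa1b36.shift 2 0), rhcf8981443ff214f3, rhe9a4118226d21cb7] (by decide +kernel))
noncomputable def rh6204ba52670d0b31 : CRef := CRef.mk (Pat.mk 0x1c0000000c0000000000000000 0x10000000300000001f0000007f0000007800000008 6 7) 0 0 (step_sound _ 65 [(rh53b3c253cb0c65f4.shift 0 2), rh5cd2570e9bd12b2a] (by decide +kernel))
noncomputable def rhfd39024cc0579547 : CRef := CRef.mk (Pat.mk 0x1c0000000c000000000000000000000000 0xc0000000c0000001c0000001c0000001f000000780000001800000008 6 7) 0 0 (step_sound _ 67 [(rhb0c1e7919d9be92d.shift 2 0), (rhf94a2767e82b8339.shift 0 1)] (by decide +kernel))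
noncomputable def rhb7ca39f10b86efa8 : CRef := CRef.mk (Pat.mk 0x1c0000000c0000000000000000 0x10000000300000001f0000007f0000000f00000008 6 7) 0 0 (step_sound _ 65 [(rh53b3c253cb0c65f4.shift 0 2), rh6ef2dcd029604fc0] (by decide +kernel))
noncomputable def rhb0a0144ec6e25226 : CRef := CRef.mk (Pat.mk 0x500000003000000020000000000000000 0x60000000700000003000000070000000700000007 6 3) 0 0 (step_sound _ 33 [rh3ca8a87c2ecd6560, rh7b1f1fb55310c477] (by decide +kernel))
noncomputable def rh6ef54c3bdfd9793e : CRef := CRef.mk (Pat.mk 0x8000000180000001000000000 0x1800000018000000180000003c000000ff0000002c 6 8) 0 0 (step_sound _ 131 [(rh2145e1d24b96a57e.shift 3 1), rha359fe73bfab2e49] (by decide +kernel))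
noncomputable def rhb6934dd6d36ef863 : CRef := CRef.mk (Pat.mk 0x2800000018000000100000000000000000 0x1000000038000000780000003f000000780000003f0000002c00000004 6 7) 0 0 (step_sound _ 163 [(rh2145e1d24b96a57e.shift 3 2), rh4f7467f2c94797af] (by decide +kernel))
noncomputable def rh5d4e6724174f0a28 : CRef := CRef.mk (Pat.mk 0x280000001800000010000000000000000000000000 0x18000000180000003c0000001f000000ff0000002c0000000c00000008 6 8) 0 0 (step_sound _ 195 [(rh2145e1d24b96a57e.shift 3 3), rh975b099a705d37b1] (by decide +kernel))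
noncomputable def rhc1ad5cc84bbf6685 : CRef := CRef.mk (Pat.mk 0x2800000018000000000000000000000000 0x20000000380000003f000000fe000000ef0000006c0000006c 6 8) 0 0 (step_sound _ 101 [(rh35a02af777b98683.shift 2 0), (rh77e75a95749aa7e3.shift 1 0), (rha9fbfd4bb8cf890b.shift 0 3), rhe80e002c72bee859] (by decide +kernel))
noncomputable def rh391e4c6ecb601538 : CRef := CRef.mk (Pat.mk 0x2800000018000000000000000000000000 0x28000000280000002f0000007e000000fe0000001400000014 6 8) 0 0 (step_sound _ 68 [(rh05c88f9cfb671a39.shift 1 0), rh31d5998334e4eabc, (rh5d54cb79a67f97ab.shift 3 0)] (by decide +kernel))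
noncomputable def rh89bcb7f6f961b856 : CRef := CRef.mk (Pat.mk 0x2800000018000000000000000000000000 0x5000000070000000780000003f000000fe000001f70000003400000034 6 9) 0 0 (step_sound _ 101 [(rh1aae126fdb0efa1d.shift 2 2), rh26e1017678d9da1f, (rh807aefd0b91eccb8.shift 2 0), (rha9fbfd4bb8cf890b.shift 0 3)] (by decide +kernel))
noncomputable def rh080609e81764058a : CRef := CRef.mk (Pat.mk 0x28000000080000000800000008 0x140000003e0000007f0000000800000008 6 7) 0 0 (step_sound _ 98 [(rh50fbb5868c909700.shift 2 0), rh5f18eceb77ab763f] (by decide +kernel))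
noncomputable def rh29b271698959972f : CRef := CRef.mk (Pat.mk 0x800000028000000080000000800000000 0x740000007c0000003f000000380000001800000010 6 7) 0 0 (step_sound _ 36 [(rh55afc6a59410cf00.shift 3 0), (rhdb68842914d447c5.shift 0 1)] (by decide +kernel))
noncomputable def rh12678add1586788e : CRef := CRef.mk (Pat.mk 0x38000000200000000000000000 0x4000000070000007e0000003f0000000800000008 6 7) 0 0 (step_sound _ 98 [(rhafa5a7051d37b143.shift 1 0), (rhd1d05263fabc0227.shift 0 2), (rhdceeca65bdd8095a.shift 0 2)] (by decide +kernel))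
noncomputable def rhb5c7a7ed066b4021 : CRef := CRef.mk (Pat.mk 0xb0000000600000000000000000000000000000000 0x1c0000001e0000000b0000001f0000007c0000001c0000001000000010 6 7) 0 0 (step_sound _ 131 [rhc39c32252d4fdcd1, (rhf48373e13d2bc128.shift 0 4)] (by decide +kernel))
noncomputable def rh0e4594a56b305e57 : CRef := CRef.mk (Pat.mk 0xc000000180000000000000000 0x80000001c0000003c0000001f0000001c0000001c00000008 6 6) 0 0 (step_sound _ 97 [(rh8c2e7c9812e34762.shift 1 0), (rhb739f4f82bb681b4.shift 0 2)] (by decide +kernel))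
noncomputable def rh572121f9dbb7242f : CRef := CRef.mk (Pat.mk 0x16000000060000000000000000 0x8000000380000001e0000003f0000003000000030 6 6) 0 0 (step_sound _ 99 [(rh95cd90ff80e46efd.shift 1 0), (rheb0810cc63b001d8.shift 0 2)] (by decide +kernel))
noncomputable def rhda3cbee50c45dc05 : CRef := CRef.mk (Pat.mk 0xb0000000300000000000000000000000000000000 0x10000000160000001e0000001f0000000f0000001f0000001f0000001e0000001600000004 6 5) 0 0 (step_sound _ 131 [rh593f484a5391af01, (rh95b48347d23e4942.shift 0 1), (rh97ccbadac11e5935.shift 0 1), (rha6816dee951f7ee6.shift 0 4)] (by decide +kernel))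
noncomputable def rh9c512c287d71146e : CRef := CRef.mk (Pat.mk 0xc0000000c00000000000000000000000000000000 0x40000000c0000000c0000001f0000007c000000180000001800000010 6 7) 0 0 (step_sound _ 99 [(rh3cb04db3dd2b6a55.shift 2 1), (rhd2a574e1de43a9dd.shift 0 1), rhf6f5c7da47a201f6] (by decide +kernel))
noncomputable def rhe4a9becfa7e95110 : CRef := CRef.mk (Pat.mk 0x580000001800000000 0x780000003f00000077 6 7) 0 0 (step_sound _ 34 [(rh361cc68994bd8a63.shift 2 1), rhff8efe2a8faeccdf] (by decide +kernel))
noncomputable def rh2757d0c39255f164 : CRef := CRef.mk (Pat.mk 0x580000001800000000 0x7f0000003f00000007 6 7) 0 0 (step_sound _ 34 [(rh361cc68994bd8a63.shift 2 1), rh7984283cca997913] (by decide +kernel))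
noncomputable def rh66d92edf577a01fa : CRef := CRef.mk (Pat.mk 0xc0000000c000000000000000000000000 0x80000001c0000003c0000000f0000001f0000007c0000001800000018 6 7) 0 0 (step_sound _ 67 [(rh3cb04db3dd2b6a55.shift 2 0), (rh78870ebe8fae8ff5.shift 0 2), rhd2a574e1de43a9dd] (by decide +kernel))
noncomputable def rh9de768609a24223b : CRef := CRef.mk (Pat.mk 0xc0000000c000000000000000000000000 0x80000001c0000003c0000001f0000000c0000001c0000001800000018 6 6) 0 0 (step_sound _ 67 [(rh3cb04db3dd2b6a55.shift 2 0), (rh78870ebe8fae8ff5.shift 0 2), (rhfea10ff459c6dc05.shift 2 0)] (by decide +kernel))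
noncomputable def rhf12b7c7b37ae9d14 : CRef := CRef.mk (Pat.mk 0xf000000000 0x77000000fe000001ce 6 9) 0 0 (step_sound _ 7 [rh61a4ab9a97d828a0, (rhe25b0a99195a5d59.shift 4 0)] (by decide +kernel))
noncomputable def rh20d2f8a846011b11 : CRef := CRef.mk (Pat.mk 0xc0000000c0000000000000000 0xc0000001c0000003c0000000f0000000e0000000e0000000a 6 6) 0 0 (step_sound _ 130 [(rh0e23f906b82a1cd3.shift 1 0), (rh55a1f6c57a317ce6.shift 2 0), rhbffe6d86810c2f26] (by decide +kernel))
noncomputable def rhc9689a3cc4c8bce0 : CRef := CRef.mk (Pat.mk 0x2c00000018000000000000000000000000 0x280000007c0000002f00000078000000380000001000000010 6 7) 0 0 (step_sound _ 129 [(rh429e389ff645ea91.shift 1 0), (rhb739f4f82bb681b4.shift 0 3)] (by decide +kernel))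
noncomputable def rhc69e3573ca73c9bf : CRef := CRef.mk (Pat.mk 0x1800000030000000000000000000000000 0x1800000038000000780000001f0000003f0000003e0000003400000004 6 7) 0 0 (step_sound _ 163 [rh0629d9b90748909d, (rh5d54cb79a67f97ab.shift 3 1), (rh7e1098702e50f2b0.shift 3 1), (rhb990105fe101a292.shift 1 1)] (by decide +kernel))
noncomputable def rh2d07ab37cf4d4a1e : CRef := CRef.mk (Pat.mk 0x60000000400000004000000000000000000000000 0x40000000600000006000000070000003e0000000e0000000a 6 6) 0 0 (step_sound _ 66 [(rh1904b52b42aee148.shift 0 1), (rh1f3a6ba70a310ab1.shift 1 0), (rha613ffd40b6c9d24.shift 1 0)] (by decide +kernel))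
noncomputable def rhdeff17ecf74ccc8a : CRef := CRef.mk (Pat.mk 0x2c000000080000000800000000 0x40000000c0000000c0000003f0000007c0000003f00000014 6 7) 0 0 (step_sound _ 131 [rh0a4844fdf171cc0a, (rh0fd870c734e6c513.shift 2 0), (rh29dd5384d80ecb1e.shift 2 0), (rhabedd109a9a37101.shift 2 0)] (by decide +kernel))
noncomputable def rh29f92a53243f733a : CRef := CRef.mk (Pat.mk 0x60000000400000004000000000000000000000000 0x40000000600000006000000070000003e0000000e0000000a 6 6) 0 0 (step_sound _ 66 [(rh1904b52b42aee148.shift 0 1), (rh1f3a6ba70a310ab1.shift 1 0), (rh8cdd36b03d57a2f6.shift 1 0), (rha613ffd40b6c9d24.shift 1 0)] (by decide +kernel))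
noncomputable def rh5b91ceb462f85017 : CRef := CRef.mk (Pat.mk 0x580000001000000010000000000000000000000000 0x18000000180000005800000078000003df000001fe000003ef0000002c00000028 6 10) 0 0 (step_sound _ 101 [(rh1ec320c051db4640.shift 2 2), (rh221a2f72d140c1c0.shift 1 2), (rh78026a63c688b35f.shift 1 0), rh819126da9839f993, (rhac96d575bb1f2cd5.shift 1 0)] (by decide +kernel))
noncomputable def rh8d8a8e4d9c719e50 : CRef := CRef.mk (Pat.mk 0xb0000000a00000000000000000000000000000000 0x11000000190000001b0000000f0000007a0000001f0000001f0000001700000005 6 7) 0 0 (step_sound _ 97 [rh0a6888916bcef86b, (rh108022be7d810404.shift 0 1), (rh1a2880b8d3b50ba1.shift 0 2)] (by decide +kernel))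
noncomputable def rh5fb1491b82da668d : CRef := CRef.mk (Pat.mk 0xb0000000a0 0x1f7000000fe000000ef 6 9) 0 0 (step_sound _ 35 [rh08e3d9067e1f5fa4, rh3918eeb6c53434d8, (rh47688a8720dc0294.shift 2 0), (rhd7ecf579ea89d4ad.shift 3 0)] (by decide +kernel))
noncomputable def rhe14458aeabce53f7 : CRef := CRef.mk (Pat.mk 0x18000000100000001000000000 0x80000001800000018000000180000003c000000ff0000002c 6 8) 0 0 (step_sound _ 132 [(rh0fd870c734e6c513.shift 3 0), (rh29dd5384d80ecb1e.shift 3 0), (rhabedd109a9a37101.shift 3 0), rhb14a52bcaa2857f1] (by decide +kernel))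
noncomputable def rhfbea5e08eeb0dcc3 : CRef := CRef.mk (Pat.mk 0x160000000400000004000000000000000000000000 0x100000003c0000001e0000003f0000003c0000001e0000001e00000002 6 6) 0 0 (step_sound _ 163 [(rh15590a39afd9a120.shift 1 0), (rh2af3bff4277f1035.shift 0 1), (rh6065935af838fed8.shift 0 1), (rh99a2598ed1c1c8a2.shift 0 1)] (by decide +kernel))
noncomputable def rh951efad63850f0ed : CRef := CRef.mk (Pat.mk 0xb0000000200000002000000000000000000000000 0x10000000150000001f0000001f0000000f0000001f0000001e000000140000001400000004 6 5) 0 0 (step_sound _ 131 [rh1c7528c33c6a75c3, (rh48d4cfcd63710493.shift 0 1), (rha6816dee951f7ee6.shift 0 4), (rhfdba606e44d341a5.shift 0 2)] (by decide +kernel))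
noncomputable def rhb15ffd083c5f8310 : CRef := CRef.mk (Pat.mk 0x30000000200000002000000000000000000000000 0x400000006000000070000000300000006000000070000000700000005 6 3) 0 0 (step_sound _ 65 [(rh12461e137161f2e1.shift 0 1), rh1f3a6ba70a310ab1, rha613ffd40b6c9d24] (by decide +kernel))
noncomputable def rh2a4e257bdc934c7a : CRef := CRef.mk (Pat.mk 0x160000000400000004000000000000000000000000 0x8000000080000003c0000001f000000370000001c0000000c0000000c00000008 6 6) 0 0 (step_sound _ 163 [(rh10733b505f21fbae.shift 0 3), (rh2af3bff4277f1035.shift 0 1), rh377f8e7b11876629] (by decide +kernel))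
noncomputable def rhd5744a86a6630cd1 : CRef := CRef.mk (Pat.mk 0x2c000000080000000800000000 0xc0000001c0000007c0000003f0000000f0000001800000010 6 7) 0 0 (step_sound _ 131 [rh1a68f1b75eab250a, (rh20ee5c2c4c3a9878.shift 0 1), rh2137ca830ac57bbb, rh75c329317019b4c5] (by decide +kernel))
noncomputable def rh472353739c7479dd : CRef := CRef.mk (Pat.mk 0xc0000001800000000000000000000000000000000 0x140000001c0000001c0000007c0000000f0000001c000000180000001c0000001c00000004 6 7) 0 0 (step_sound _ 195 [(rh3ec0635caa1baa76.shift 0 2), (rh70e33bfdf511e144.shift 3 1), (rha13754f6eb33dc0e.shift 0 3), rhbac3141e0b3750c3] (by decide +kernel))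
noncomputable def rh88d1f7844e7f3144 : CRef := CRef.mk (Pat.mk 0x1e000000040000000000000000 0x8000000380000001e0000003f0000003000000030 6 6) 0 0 (step_sound _ 65 [(rh95cd90ff80e46efd.shift 1 0), (rheb0810cc63b001d8.shift 0 2)] (by decide +kernel))
noncomputable def rh2ac7c21931135faf : CRef := CRef.mk (Pat.mk 0x1e000000000000000000000000 0x8000000380000001f000000330000001000000010 6 6) 0 0 (step_sound _ 64 [rh6887ef21f67dd26a, (rh80fcd6d0a18cb2dd.shift 0 2)] (by decide +kernel))
noncomputable def rhf00e1d810a09b1c0 : CRef := CRef.mk (Pat.mk 0x1e00000004000000000000000000000000 0x80000001f0000003f000000300000001000000010 6 6) 0 0 (step_sound _ 97 [rh95e960a96072856f, (rheb0810cc63b001d8.shift 0 3)] (by decide +kernel))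
noncomputable def rh2b6540834a6f29c5 : CRef := CRef.mk (Pat.mk 0x1e000000040000000000000000 0x80000003c0000001f0000000f0000000400000004 6 6) 0 0 (step_sound _ 64 [rh7f110563ccbb269f, (rh80fcd6d0a18cb2dd.shift 0 2)] (by decide +kernel))
noncomputable def rh056f5fdc804e64d3 : CRef := CRef.mk (Pat.mk 0x1e00000004000000000000000000000000 0x80000001f0000003e000000f80000001000000010 6 8) 0 0 (step_sound _ 100 [rhaa001ed675117efd, (rhe25b0a99195a5d59.shift 1 3)] (by decide +kernel))
noncomputable def rh440b1bb1ae44f05a : CRef := CRef.mk (Pat.mk 0xf000000020 0x1c0000000fe00000077 6 9) 0 0 (step_sound _ 71 [(rh33e738c4ed385b9f.shift 4 1), rhddb39b3c8ce76b3c] (by decide +kernel))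
noncomputable def rh6dc2e0f98ef33ec8 : CRef := CRef.mk (Pat.mk 0x1800000018000000000000000000000000 0x18000000180000001800000018000000780000001f0000001c0000001c 6 7) 0 0 (step_sound _ 67 [(rh7f8bb07996f68c30.shift 2 0), (rh8d22ed3e08c21069.shift 0 1), (rhea7a1800d6f053bd.shift 3 0)] (by decide +kernel))
noncomputable def rh8130204efbf8ba34 : CRef := CRef.mk (Pat.mk 0xc0000000c0000000000000000 0x1c0000001c0000003c0000000f0000000e0000000e0000000e 6 6) 0 0 (step_sound _ 131 [(rh1e309b005ffa1b36.shift 2 0), rh56fd1d00872e94b9, (rhafa7fde1e959f301.shift 2 1)] (by decide +kernel))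
noncomputable def rh2f319fd5b971d29c : CRef := CRef.mk (Pat.mk 0x1800000018000000000000000000000000 0x38000000380000003800000038000000380000001f0000001c00000010 6 6) 0 0 (step_sound _ 164 [(rh1e309b005ffa1b36.shift 3 1), rh35306d89836511d6, (rhafa7fde1e959f301.shift 3 2)] (by decide +kernel))
noncomputable def rh3de65a797b2540f5 : CRef := CRef.mk (Pat.mk 0xc0000000c000000000000000000000000 0x1c0000001c0000007c0000001f0000000c0000000c0000000c00000008 6 7) 0 0 (step_sound _ 163 [(rh1e309b005ffa1b36.shift 2 1), (rhafa7fde1e959f301.shift 2 2), rhb9c8a4fb0b2dce53] (by decide +kernel))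
noncomputable def rh6671bf8fc0c57647 : CRef := CRef.mk (Pat.mk 0xc0000000c000000000000000000000000 0x80000001c0000003c0000000f0000007c0000001c0000000c0000000c 6 7) 0 0 (step_sound _ 163 [(rh1e309b005ffa1b36.shift 2 1), (rh70cfad7a15d735cc.shift 1 2), rh7c1bdb80a3fb96e2] (by decide +kernel))
noncomputable def rha6a10e5871e58fed : CRef := CRef.mk (Pat.mk 0x1800000018000000000000000000000000 0x1000000018000000180000001c000000f80000003f0000001c00000018 6 8) 0 0 (step_sound _ 164 [(rh1e309b005ffa1b36.shift 3 1), (rh70cfad7a15d735cc.shift 2 2), rheb1bf9ec04f8eb84] (by decide +kernel))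
noncomputable def rhf2b9b2a70d333a52 : CRef := CRef.mk (Pat.mk 0x1800000018000000000000000000000000 0x1000000010000000300000001f0000007f0000003f0000001c0000001c 6 7) 0 0 (step_sound _ 130 [(rh6292bd8784ece55f.shift 1 3), rh75fd5cbcc79cfec8, (rhb00c6cda7b230383.shift 0 1)] (by decide +kernel))
noncomputable def rh8a8d548de06bf73c : CRef := CRef.mk (Pat.mk 0x1800000018000000000000000000000000 0x80000001f000000ff000000ef0000000400000004 6 8) 0 0 (step_sound _ 101 [(rh6e18dbbfa959deb2.shift 1 2), (rh79b3c29022acbdf3.shift 2 3), rhff00a37c088eb8b8] (by decide +kernel))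
noncomputable def rhe5bb506b52d199c8 : CRef := CRef.mk (Pat.mk 0x18000000180000000000000000 0x3800000038000000780000001f000000ff000000f700000010 6 8) 0 0 (step_sound _ 131 [(rh53b41ce7e5e20f7e.shift 0 1), (rh55a1f6c57a317ce6.shift 3 0), (rh9d39e5f3efae40c6.shift 1 0)] (by decide +kernel))
noncomputable def rh887a134ec7544125 : CRef := CRef.mk (Pat.mk 0x1600000014000000000000000000000000 0x600000006000000060000001e000000370000001e0000000e0000000e 6 6) 0 0 (step_sound _ 66 [(rh1a2880b8d3b50ba1.shift 1 1), (rh412d31662ec03428.shift 0 1), rh5fed2e1ad49997f8, (rh7b24c4ccc068b0b2.shift 1 1), (rhf9a6286f1d5377a2.shift 1 1)] (by decide +kernel))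
noncomputable def rh87b4c983a425fa80 : CRef := CRef.mk (Pat.mk 0x2c00000028000000000000000000000000 0x68000000680000003f0000003c000000f80000001000000010 6 8) 0 0 (step_sound _ 100 [(rh954ff1137f65da29.shift 2 0), (rhc02b3aee7ab87ee1.shift 0 3), (rhdbcea10a0fbe5ba6.shift 0 3)] (by decide +kernel))
noncomputable def rh96488f87d1cf3b20 : CRef := CRef.mk (Pat.mk 0x580000001000000010000000000000000000000000 0x18000000180000005800000078000003df000001fe000003ef0000002c00000028 6 10) 0 0 (step_sound _ 101 [(rh221a2f72d140c1c0.shift 1 2), rh819126da9839f993, (rhac96d575bb1f2cd5.shift 1 0), (rhaf1b60e597b2a0aa.shift 1 0)] (by decide +kernel))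
noncomputable def rh80d49acd1e1403bd : CRef := CRef.mk (Pat.mk 0x2c00000028000000000000000000000000 0x2c0000002c0000003f000000380000003e0000001c00000010 6 6) 0 0 (step_sound _ 100 [(rh3648c04e4793fbd2.shift 1 0), (rh97be77d4eaa8c41b.shift 1 0), (rhc02b3aee7ab87ee1.shift 0 3)] (by decide +kernel))
noncomputable def rh999cc038ddfa53c9 : CRef := CRef.mk (Pat.mk 0xc0000001800000000000000000000000000000000 0x100000001c0000001c0000000c0000001c0000007c0000000f0000000c0000000c00000004 6 7) 0 0 (step_sound _ 99 [(rh3f19d28735a6f532.shift 2 2), (rh43d8dfd721575dfb.shift 2 0), (rh7b24c4ccc068b0b2.shift 2 2), (rh96eb9a2323491c23.shift 0 2), rhe9c7b5bfa07779d6] (by decide +kernel))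
noncomputable def rhefbc525ffcc0e952 : CRef := CRef.mk (Pat.mk 0x5800000030000000000000000000000000 0x1800000018000000180000007f0000003f0000001f0000001c0000001c 6 7) 0 0 (step_sound _ 99 [(rh39f15240cc732f4c.shift 0 2), rh92679c2c5050e8ed, (rhe2150d6d27d1241f.shift 0 3), rhff00a37c088eb8b8] (by decide +kernel))
noncomputable def rhb6a9a41aecb73ab2 : CRef := CRef.mk (Pat.mk 0x1600000006000000000000000000000000 0x80000001f0000003f000000300000001000000010 6 6) 0 0 (step_sound _ 131 [rh95e960a96072856f, (rheb0810cc63b001d8.shift 0 3)] (by decide +kernel))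
noncomputable def rh3ef1226749762370 : CRef := CRef.mk (Pat.mk 0x5800000018000000000000000000000000 0x1800000038000000380000007f0000001f0000001c0000001800000018 6 7) 0 0 (step_sound _ 98 [(rh361cc68994bd8a63.shift 2 3), rhfda3e505779f5ee5] (by decide +kernel))
noncomputable def rh243ebe92845cdd54 : CRef := CRef.mk (Pat.mk 0x5800000018000000000000000000000000 0x8000000380000007c000000f80000001f0000001c0000001c 6 8) 0 0 (step_sound _ 67 [rh04ad90f6d3481143, (rh7f8bb07996f68c30.shift 2 0), (rhea7a1800d6f053bd.shift 3 0)] (by decide +kernel))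
noncomputable def rhabb153b0ca980906 : CRef := CRef.mk (Pat.mk 0x160000001400000000000000000000000000000000 0x20000001e0000003e0000001e00000037000000360000002e0000002e0000000a 6 6) 0 0 (step_sound _ 98 [(rh0a6888916bcef86b.shift 1 0), (rh7b24c4ccc068b0b2.shift 1 2), (rh9eb5f2758a4c7ff1.shift 0 1), (rhe392c93ec86068d8.shift 1 1)] (by decide +kernel))
noncomputable def rh6ac040cb29f3fd33 : CRef := CRef.mk (Pat.mk 0xc0000002800000000000000000000000000000000 0x140000001c0000001c0000000c0000007c0000000f0000000c0000000c00000004 6 7) 0 0 (step_sound _ 132 [rhc6ef82078b091eca, (rhf48373e13d2bc128.shift 2 4)] (by decide +kernel))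
noncomputable def rhd837183c14a7b4ff : CRef := CRef.mk (Pat.mk 0x1600000014000000000000000000000000 0x280000003e0000003e0000003e0000001e0000001f000000370000003700000026 6 6) 0 0 (step_sound _ 162 [rh2a44e9fad9ebc812, (rh3c36e97e9af52106.shift 1 1), (rh461909c4707c3c6b.shift 1 0), (rh9f8b652a100f3c7e.shift 0 1), rha10052fc5257b890] (by decide +kernel))
noncomputable def rh5aaf311b728daa1b : CRef := CRef.mk (Pat.mk 0x40000000400000004000000000000000000000000 0xc0000000c0000000c000000070000003e0000000e0000000a 6 6) 0 0 (step_sound _ 66 [(rh1904b52b42aee148.shift 0 1), (rh367118e0bf0473e0.shift 1 0), (rh8cdd36b03d57a2f6.shift 1 0), (rhc9de03f9731897d4.shift 2 0)] (by decide +kernel))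
noncomputable def rh67a151c75c3c36db : CRef := CRef.mk (Pat.mk 0x2c000000080000000800000000 0x40000001c0000001c0000001c0000007c0000003f000000780000000c00000004 6 7) 0 0 (step_sound _ 131 [(rh20ee5c2c4c3a9878.shift 0 1), (rh27d70429fd5018e0.shift 2 1), rh51552f8a9183ab46, (rhbce5cde10cf8d518.shift 0 1), rhf56194472b4bd82f] (by decide +kernel))
noncomputable def rh82d6f9d97807bad8 : CRef := CRef.mk (Pat.mk 0x5000000010000000300000000000000000 0x1800000018000000780000003e000000ff0000000e00000008 6 8) 0 0 (step_sound _ 99 [(rh29b9bbf62cfdeff1.shift 1 2), rhad6fabc2a0220dbd, (rhdeca8db941583de2.shift 1 2)] (by decide +kernel))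
noncomputable def rh4abd99c6dbe03328 : CRef := CRef.mk (Pat.mk 0x5000000010000000300000000000000000 0x780000003e000000ff000000ec00000008 6 8) 0 0 (step_sound _ 99 [(rh29b9bbf62cfdeff1.shift 1 2), rhbd2706f892eec238, (rhdeca8db941583de2.shift 1 2)] (by decide +kernel))
noncomputable def rhb75f3c2ab207da2a : CRef := CRef.mk (Pat.mk 0x800000028000000080000000800000000 0x740000007c0000003f000000380000001800000010 6 7) 0 0 (step_sound _ 132 [(rh2f68792b6b779e96.shift 3 1), rh4709c46c8ce1a6a0] (by decide +kernel))
noncomputable def rh1e82760509877708 : CRef := CRef.mk (Pat.mk 0x20000000200000002000000000000000000000000 0x500000007000000070000000300000002000000070000000700000005 6 3) 0 0 (step_sound _ 65 [rh46baee19951a66e7, rh6aa5625770489e83, (rh762a1aeaf83c662a.shift 0 1), rh8cdd36b03d57a2f6] (by decide +kernel))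
noncomputable def rh7a4aa83be4ac6aa1 : CRef := CRef.mk (Pat.mk 0x500000001000000030000000000000000000000000 0x200000007000000070000001de000000fc000001cf0000000800000008 6 9) 0 0 (step_sound _ 99 [(rh17c93ced454ecc46.shift 2 2), (rh2fd5906129805967.shift 1 2), (rh3d164a09ad92dabc.shift 0 2), (rhfafeb437ceb8396d.shift 3 0)] (by decide +kernel))
noncomputable def rha610b92eb6229b96 : CRef := CRef.mk (Pat.mk 0x280000000800000018000000000000000000000000 0x2000000028000001ef0000007e000000f70000005400000054 6 9) 0 0 (step_sound _ 101 [rh7af4b4c3d9c5275c, (rha9fbfd4bb8cf890b.shift 0 3), (rhee6facdaf6d571a9.shift 2 0), (rhf29696c9572200d6.shift 1 0)] (by decide +kernel))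
noncomputable def rhb7a724cf6c059e53 : CRef := CRef.mk (Pat.mk 0x2800000028000000080000000000000000 0x100000003c000000fe000001ff0000006000000060 6 9) 0 0 (step_sound _ 100 [rh33b78da1c6c054ee, (rh8cda118e73192ffa.shift 2 2), (rhd9106766b9ff53c0.shift 2 2)] (by decide +kernel))
noncomputable def rh71a2b0e54e5109be : CRef := CRef.mk (Pat.mk 0x2800000028000000080000000000000000 0x3000000030000000700000003e00000078000000ff0000007000000030 6 8) 0 0 (step_sound _ 100 [(rh969284e0ff0cdfe7.shift 1 0), (rhd9106766b9ff53c0.shift 2 2), (rhf0f55c4504412200.shift 0 2)] (by decide +kernel))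
noncomputable def rh31f8a34a4aaab978 : CRef := CRef.mk (Pat.mk 0x2800000028 0x700000003f0000007f 6 7) 0 0 (step_sound _ 34 [rh172f8a681b071bbe, rh8c25cb665ab79ec0, (rha6816dee951f7ee6.shift 2 0), rhe47d952a79fe1744] (by decide +kernel))
noncomputable def rhf56de6af476cf2f0 : CRef := CRef.mk (Pat.mk 0x280000002800000008000000000000000000000000 0x200000002c0000007e000001fe000000f70000005400000054 6 9) 0 0 (step_sound _ 101 [(rh5ee7c8bee8f700b9.shift 2 0), (rh9239ea28681646bd.shift 1 0), (rhaaf9dda8c616a786.shift 2 0), (rhc6f904be2bba76bb.shift 2 3), rhe3ffdbb66193d287, (rhf8fe0e537258690c.shift 1 0)] (by decide +kernel))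
noncomputable def rhdd108d550d5d07d9 : CRef := CRef.mk (Pat.mk 0x500000005000000010000000000000000000000000 0x20000000600000007e0000007f000000fe000000e0000000e0000000a0 6 8) 0 0 (step_sound _ 131 [(rh18be4029158ef700.shift 0 3), (rh8100bcdcdfbe39af.shift 3 0), (rhad8c421da9855690.shift 1 0), (rhbb4809e93bcd15cb.shift 1 3), (rhddce38f9f23a24d9.shift 1 0)] (by decide +kernel))
noncomputable def rh761eb471d39bd462 : CRef := CRef.mk (Pat.mk 0x140000001400000004000000000000000000000000 0x2800000038000000380000001c000000370000003f0000007b0000002a0000002a 6 7) 0 0 (step_sound _ 100 [rh061db7b2a2b35c35, rh2f1117361e9ccf5f, (rh6d22e4af4868beec.shift 1 2), (rh84ee30ccd6f96123.shift 3 1), rh9239ea28681646bd, (rh9c76e3bfd1b5f07a.shift 1 2)] (by decide +kernel))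
noncomputable def rh8a4b6c13f4f39579 : CRef := CRef.mk (Pat.mk 0x2800000028000000080000000000000000 0x20000000700000003e000000fe0000007f0000003000000020 6 8) 0 0 (step_sound _ 100 [(rh2820ca9a6c4f41b4.shift 0 2), (rh8cda118e73192ffa.shift 2 2), rhd2b1fa7631d20976, (rhd9106766b9ff53c0.shift 2 2)] (by decide +kernel))
noncomputable def rhd6d9b7c567b254f2 : CRef := CRef.mk (Pat.mk 0x200000002000000020000000200000000 0x200000003000000070000000700000006000000060000000200000002 6 3) 0 0 (step_sound _ 130 [rh17b4be6885a61418, (rh2f68792b6b779e96.shift 1 1)] (by decide +kernel))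
noncomputable def rh7722389c8573ffbd : CRef := CRef.mk (Pat.mk 0x800000028000000080000000800000000 0x8000000380000003f0000003f00000014 6 6) 0 0 (step_sound _ 36 [rh09514843a9aa0f18, (rh55afc6a59410cf00.shift 3 0)] (by decide +kernel))
noncomputable def rhce43f6bd7714033c : CRef := CRef.mk (Pat.mk 0x80000000e00000002000000000000000000000000 0x40000001c0000001c000000180000001c0000000e0000003f0000001c0000001c0000000c 6 6) 0 0 (step_sound _ 195 [(rh281c6819542c66e6.shift 2 1), (rh81c56a0d9544826d.shift 2 0), rhb5ee295e06246f67, rhdec331f99de74410, (rhfafeb437ceb8396d.shift 2 1)] (by decide +kernel))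
noncomputable def rh3caa8a3723b55711 : CRef := CRef.mk (Pat.mk 0x10000000100000001400000004 0x380000003800000038000000780000003f000000340000001400000014 6 7) 0 0 (step_sound _ 132 [(rhc85cc95794737cf7.shift 3 1), rhcafa54870fd2e4f3, (rhd1cedaf388bc1d92.shift 1 0), (rhe08194b42063891d.shift 3 0)] (by decide +kernel))
noncomputable def rhef0c9e0f8ec74606 : CRef := CRef.mk (Pat.mk 0x1000000010000000140000000400000000 0x28000000380000003a0000007e0000003f000000f40000001e0000000e0000000a 6 8) 0 0 (step_sound _ 164 [(rh45a95942c5dee393.shift 1 0), rh897463cfa15dcb1c, (rh91a7c85b7002c66f.shift 1 1), (rhc85cc95794737cf7.shift 3 2), (rhc934c6d8d8432eec.shift 1 1)] (by decide +kernel))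
noncomputable def rhe73c8fb61e1af683 : CRef := CRef.mk (Pat.mk 0x1800000014000000040000000000000000 0x200000003800000038000000fc000000f80000001f000000340000003000000030 6 8) 0 0 (step_sound _ 164 [(rh958bbfe65efc97f3.shift 0 2), (rhc40bfd0042d36510.shift 2 1), (rheb384c3e33ffaa6d.shift 2 2), (rheeb2cedbe5e75c83.shift 3 0), rhefe6899c002f22b0] (by decide +kernel))
noncomputable def rh962a8a802b3e9bc8 : CRef := CRef.mk (Pat.mk 0xc0000000a0000000200000000 0x1c0000001c0000001c000000fe0000007f000000ee0000000a00000008 6 8) 0 0 (step_sound _ 131 [rh4cb2967495ca0bf5, (rh687c63039873ae8f.shift 0 1), (rh952efb16d14b0a07.shift 0 1), (rh97ce0db3de075214.shift 1 0), (rheb384c3e33ffaa6d.shift 1 1)] (by decide +kernel))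
noncomputable def rha0c139bb43ca4bea : CRef := CRef.mk (Pat.mk 0x1800000014 0x1f7000000fe000001de 6 9) 0 0 (step_sound _ 37 [(rh076be03eb7063320.shift 1 0), rh8fcf2ee879e273f8, (rhca1e4df97f377a88.shift 2 0)] (by decide +kernel))
noncomputable def rh58ca8198187f6a8b : CRef := CRef.mk (Pat.mk 0x300000002800000008000000000000000000000000 0x500000007c0000007f0000003c0000003f0000006c000000640000006000000040 6 7) 0 0 (step_sound _ 130 [(rh526b442602daf19b.shift 2 0), (rh6637c2d417e93afd.shift 0 2), (rh7401e8cf466f4e5b.shift 0 4)] (by decide +kernel))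
noncomputable def rhb6b659b5b7ea6e25 : CRef := CRef.mk (Pat.mk 0x30000000280000000800000000 0x100000005c000001ff000000fc0000002f0000002c00000024 6 9) 0 0 (step_sound _ 99 [(rh2820ca9a6c4f41b4.shift 0 2), (rh2ccbd86a7098bf36.shift 2 1), rh66f625005a68d96b, rh7c5e19c1bdd598ad] (by decide +kernel))
noncomputable def rh50a1a008197528a6 : CRef := CRef.mk (Pat.mk 0x1800000014000000040000000000000000 0x1800000038000000780000007e0000001f000000370000001000000010 6 7) 0 0 (step_sound _ 99 [rh4931885e31c86a84, (rhaaa876b826731793.shift 1 1), (rhab2ad169e49f9c5e.shift 0 3)] (by decide +kernel))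
noncomputable def rh7fc048518b1b2845 : CRef := CRef.mk (Pat.mk 0x28000000080000000800000000 0x140000001c0000001f0000007c000000180000001800000010 6 7) 0 0 (step_sound _ 131 [rh2059d5709eedf008, (rh7430a052bcb4bacd.shift 0 1), (rhc17b7d8fab3dfe57.shift 2 0), (rhced6d86d2069808b.shift 3 0)] (by decide +kernel))
noncomputable def rh75c54fa8ebfaf83b : CRef := CRef.mk (Pat.mk 0x28000000080000000800000000 0x140000001c0000001f000000780000000c0000001c00000014 6 7) 0 0 (step_sound _ 131 [(rh55a026e6f690bbaf.shift 2 0), (rh565a0c22519f57e9.shift 2 0), rha65ae0be40b35f74, (rhc17b7d8fab3dfe57.shift 2 0)] (by decide +kernel))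
noncomputable def rh3716636da72cb2e0 : CRef := CRef.mk (Pat.mk 0x20000000a000000020000000000000000000000000 0x200000002000000020000000ff0000007e0000005f0000001000000010 6 8) 0 0 (step_sound _ 100 [(rh47b70e71a978bfd3.shift 0 2), (rh527d73fb1a070243.shift 3 2), (rhfafeb437ceb8396d.shift 4 0)] (by decide +kernel))
noncomputable def rh6111136b0ea343b8 : CRef := CRef.mk (Pat.mk 0x28000000280000000800000000 0x140000001c0000001f00000078000000380000001e00000014 6 7) 0 0 (step_sound _ 131 [(rh762a1aeaf83c662a.shift 2 0), rha65ae0be40b35f74, (rhc17b7d8fab3dfe57.shift 2 0), (rhf42e780814dbdbac.shift 1 0)] (by decide +kernel))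
noncomputable def rhc3d258fe97ccb3bc : CRef := CRef.mk (Pat.mk 0x500000005000000010 0xf80000007f0000003f 6 8) 0 0 (step_sound _ 35 [rh18be4029158ef700, rh8956e8acdae6d5f7, (rh9f2591205204f08d.shift 3 1), (rhe33d9496e10d8eb0.shift 1 1)] (by decide +kernel))
noncomputable def rh6a8ad3634d64ee2c : CRef := CRef.mk (Pat.mk 0x28000000080000000800000000 0x140000001c0000001f000000780000001c0000001c00000014 6 7) 0 0 (step_sound _ 131 [(rh565a0c22519f57e9.shift 2 0), rha65ae0be40b35f74, (rhabedd109a9a37101.shift 2 0), (rhc17b7d8fab3dfe57.shift 2 0)] (by decide +kernel))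
noncomputable def rhbcc5ef6e9e18b59a : CRef := CRef.mk (Pat.mk 0x8000000080000000a000000020000000000000000 0x14000000370000003f0000007f0000000e0000001e0000001c00000014 6 7) 0 0 (step_sound _ 162 [rh1d7e87ea04373cfc, (rh4e27bb3b7fd89fa2.shift 0 2), (rh93de45030b92d2cb.shift 2 0), (rhd1779d7de7f8215b.shift 2 0)] (by decide +kernel))
noncomputable def rhbd0df64270745b70 : CRef := CRef.mk (Pat.mk 0x8000000080000000a00000002 0x140000001c0000003c0000000f0000000c0000000e00000006 6 6) 0 0 (step_sound _ 131 [(rh20966da26a1c2ae8.shift 2 0), rh74d1bcb310a2c076, (rhc85cc95794737cf7.shift 2 1), (rhe30fe0d37c40a537.shift 1 0)] (by decide +kernel))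
noncomputable def rh83f66d0b270b867d : CRef := CRef.mk (Pat.mk 0x200000002800000008000000000000000000000000 0x500000007000000070000000780000002f0000007c000001f00000007000000050 6 9) 0 0 (step_sound _ 101 [(rh23d7ba318d89735b.shift 4 0), (rh337c3c81a319a681.shift 4 1), (rh6d22e4af4868beec.shift 2 2), (rh7f6ab7efb1e17b00.shift 2 0), (rhc55c1d37f08df68a.shift 4 1), rhf8860a7a36fae672, (rhff22ab043b310713.shift 2 1)] (by decide +kernel))
noncomputable def rh055c801a09c5ec17 : CRef := CRef.mk (Pat.mk 0x200000002800000008000000000000000000000000 0x500000007000000070000001f00000003e000000ff000000f00000007000000020 6 9) 0 0 (step_sound _ 132 [(rh25e7d7f9c8fca227.shift 3 1), (rh2f63932790c78224.shift 2 0), (rh46f4e32c661b103a.shift 0 3), (rhff7d63dcb3cf9f74.shift 2 4)] (by decide +kernel))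
noncomputable def rheb8589eed55e442e : CRef := CRef.mk (Pat.mk 0x20000000200000002000000000000000000000000 0x500000007000000070000000600000002000000070000000700000005 6 3) 0 0 (step_sound _ 65 [(rh762a1aeaf83c662a.shift 0 1), rh8cdd36b03d57a2f6, (rhc9de03f9731897d4.shift 1 0)] (by decide +kernel))
noncomputable def rh274e6d75190a5742 : CRef := CRef.mk (Pat.mk 0x280000000800000008000000000000000000000000 0x30000000740000003f000000ff000000fc0000003c0000003c00000014 6 8) 0 0 (step_sound _ 164 [(rh3258025d1b2845d7.shift 1 1), rhfaaeb21c6bc2d8e3, (rhffb8e5993241bf15.shift 2 0)] (by decide +kernel))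
noncomputable def rh8e1d9e8f9db62c88 : CRef := CRef.mk (Pat.mk 0x500000001000000010000000000000000000000000 0x100000005000000078000001fe000001fe000003ef0000002800000028 6 10) 0 0 (step_sound _ 101 [(rh046c5eb18e55a239.shift 4 0), (rh1ec320c051db4640.shift 2 2), rh4fa16eef911b784e, (rh9e7823bcd1db55b6.shift 1 0)] (by decide +kernel))
noncomputable def rh4388fe4ef0a37060 : CRef := CRef.mk (Pat.mk 0x800000008000000080000002800000000 0x8000000080000003f0000003f00000014 6 6) 0 0 (step_sound _ 34 [(rh932754581e0f4330.shift 2 0), rhb6b4b0239958932e] (by decide +kernel))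
noncomputable def rhdfa64ed44c188e70 : CRef := CRef.mk (Pat.mk 0x800000008000000280000000800000000 0x1000000018000000380000003f0000007c00000074 6 7) 0 0 (step_sound _ 36 [rh3471c91cc83da18c, (rh55afc6a59410cf00.shift 3 0)] (by decide +kernel))
noncomputable def rhf7e265faf33f11e5 : CRef := CRef.mk (Pat.mk 0xc0000001c000000000000000000000000 0x800000008000000080000000f0000001e0000007c0000001c0000001c 6 7) 0 0 (step_sound _ 129 [(rhb739f4f82bb681b4.shift 0 3), (rhe49f6975f221447b.shift 1 0)] (by decide +kernel))
noncomputable def rh64da8ad022b2018b : CRef := CRef.mk (Pat.mk 0xc0000001c0000000000000000 0xe0000000e0000000f0000003f0000001c0000001c0000000c 6 6) 0 0 (step_sound _ 97 [rh02b606b74f1b5350, (rhb739f4f82bb681b4.shift 0 2)] (by decide +kernel))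
noncomputable def rh420575cf41d03d3d : CRef := CRef.mk (Pat.mk 0x60000000e000000000000000000000000 0x200000006000000060000000f0000003c0000000e0000000e 6 6) 0 0 (step_sound _ 66 [rh100fa814afed711b, (rh3cb04db3dd2b6a55.shift 1 0), rh424456e6eabaa333] (by decide +kernel))
noncomputable def rh013506b4385845e8 : CRef := CRef.mk (Pat.mk 0xc0000001c000000000000000000000000 0x60000001e0000003e0000000f0000001c0000000c0000000c00000004 6 6) 0 0 (step_sound _ 129 [(rh4c9bbc8a26aa0e54.shift 1 0), (rhb739f4f82bb681b4.shift 0 3)] (by decide +kernel))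
noncomputable def rh915a4ee32387b163 : CRef := CRef.mk (Pat.mk 0x80000000c000000040000000000000000 0x160000003f0000003f0000000c0000000c0000000c 6 6) 0 0 (step_sound _ 34 [rh68c442cbe3edabef, (rh71222050f2c63a3a.shift 2 0)] (by decide +kernel))
noncomputable def rh92c5d432806a2485 : CRef := CRef.mk (Pat.mk 0x10000000180000002800000000000000000000000000000000 0x240000003e000000780000003f000000f8000000380000003000000010 6 8) 0 0 (step_sound _ 99 [rh008fd92deec061d5, (rh71222050f2c63a3a.shift 3 2)] (by decide +kernel))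
noncomputable def rha8aae0342515708b : CRef := CRef.mk (Pat.mk 0x80000000c00000014000000000000000000000000 0x18000000180000001c0000000f0000001c000000180000000800000008 6 5) 0 0 (step_sound _ 195 [(rh5c5e593799055d58.shift 2 3), rh7e545dc7e7fa5a7e] (by decide +kernel))
noncomputable def rh96bae953909b92ed : CRef := CRef.mk (Pat.mk 0x1000000018000000280000000000000000 0x80000000c0000002c0000007f0000001f0000003c0000001800000018 6 7) 0 0 (step_sound _ 35 [rh37dee76bbfc36939, (rh71222050f2c63a3a.shift 3 0)] (by decide +kernel))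
noncomputable def rh6376dad103bbabce : CRef := CRef.mk (Pat.mk 0x18000000280000000000000000 0x400000006c000000ef000000fe0000003f0000003800000038 6 8) 0 0 (step_sound _ 101 [(rh2820ca9a6c4f41b4.shift 0 2), (rh6ca6c87a7f20f39c.shift 1 0), rh76bff32e69fdbe68, (rhd8b43b15431aaa50.shift 2 0)] (by decide +kernel))
noncomputable def rh178d4ea2063cd467 : CRef := CRef.mk (Pat.mk 0x18000000280000000000000000 0x1400000014000000ff0000007e0000002f0000002800000028 6 8) 0 0 (step_sound _ 132 [rh1601952e9405fa83, rh186503e85448e12f, (rhf9366b6a121593ef.shift 3 0)] (by decide +kernel))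
noncomputable def rh7538fc2e37b15c73 : CRef := CRef.mk (Pat.mk 0x1800000028000000000000000000000000 0x1000000030000001f00000007e0000003f000000700000007000000050 6 9) 0 0 (step_sound _ 133 [(rh2820ca9a6c4f41b4.shift 0 3), (rhe044d0d40ead2a65.shift 1 0), (rhf0f55c4504412200.shift 0 3)] (by decide +kernel))
noncomputable def rhd454c14da11babbf : CRef := CRef.mk (Pat.mk 0x2000000038000000000000000000000000 0x80000003f0000007e000000070000000400000004 6 7) 0 0 (step_sound _ 98 [(rh2591032a0e7f4182.shift 0 2), (rh7fb660bc21ce4329.shift 0 3), (rhefd858cfdc5d2964.shift 1 0)] (by decide +kernel))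
noncomputable def rh1d186c5e858ce09d : CRef := CRef.mk (Pat.mk 0x40000000400000016000000000000000000000000 0xc0000001c0000003c0000003f0000001e0000003c0000001800000018 6 6) 0 0 (step_sound _ 99 [(rh70e33bfdf511e144.shift 2 0), (rh93dc176231d1756d.shift 0 2), rhb5e5658b4fcb7496] (by decide +kernel))
noncomputable def rh6bdfefedee452584 : CRef := CRef.mk (Pat.mk 0x2000000020000000b00000000000000000000000000000000 0x10000000140000001e0000001f0000000f0000001f0000001f0000001500000010 6 5) 0 0 (step_sound _ 163 [(rh11e096129a92290c.shift 0 2), (rh9f2591205204f08d.shift 0 4), (rhece945f9f264258b.shift 0 1), rhefba5ff047897f1e] (by decide +kernel))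
noncomputable def rh39c246a862aa28a2 : CRef := CRef.mk (Pat.mk 0x2000000038000000000000000000000000 0x200000002f0000007e000000f70000001000000010 6 8) 0 0 (step_sound _ 98 [(rh008b05f4778dc30d.shift 0 2), (rh775ca1963e850b80.shift 0 2), (rh9483656c38360087.shift 1 0), (rhc6ebdb02f2c2b584.shift 1 2)] (by decide +kernel))
noncomputable def rh1a649e7d11a5ba8a : CRef := CRef.mk (Pat.mk 0x400000016000000000000000000000000 0x80000000e0000000e0000000c0000000f0000001f0000003e0000000e0000000a 6 6) 0 0 (step_sound _ 162 [(rh4918c954b324c1ae.shift 0 1), rh6eb6020f7dac5566, (rhfafeb437ceb8396d.shift 1 0)] (by decide +kernel))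
noncomputable def rha8ff7d7834c1c7de : CRef := CRef.mk (Pat.mk 0x40000000400000016000000000000000000000000 0xc0000000c0000001c000000370000001f0000003c0000000800000008 6 6) 0 0 (step_sound _ 99 [(rh70e33bfdf511e144.shift 2 0), (rh93dc176231d1756d.shift 0 2), (rh975c4ddca9e0d579.shift 0 2), rhd1ee34029cecf0a7] (by decide +kernel))
noncomputable def rhafc919f99d33d8a7 : CRef := CRef.mk (Pat.mk 0x8000000080000002c00000000000000000000000000000000 0x10000000180000000f0000003f0000007c0000001c0000001c00000014 6 7) 0 0 (step_sound _ 99 [(rh3181373a30ceb9e3.shift 2 1), (rh839bc275b7f0d03f.shift 2 0), (rhaa4d9de99c4ea825.shift 0 2), (rhd74d1cf28f418982.shift 0 1), (rhed841d9ebc5dd0e1.shift 2 0)] (by decide +kernel))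
noncomputable def rhedb48eea1625d91d : CRef := CRef.mk (Pat.mk 0x180000002c0000000000000000 0x100000001000000038000000780000002f0000007c00000028 6 7) 0 0 (step_sound _ 65 [(rh53b3c253cb0c65f4.shift 0 2), (rhe01fdb5129720dba.shift 1 0)] (by decide +kernel))
noncomputable def rh748a9c0f1bd25ce2 : CRef := CRef.mk (Pat.mk 0x60000000b0000000000000000 0x10000000100000001c0000007c0000001f0000000b0000001e0000001c 6 7) 0 0 (step_sound _ 99 [(rh18965a982d73c794.shift 0 2), rh97e9f392fddadc46] (by decide +kernel))
noncomputable def rh9ee4f797a9816237 : CRef := CRef.mk (Pat.mk 0x180000000c00000000000000000000000000000000 0x40000001c0000001c000000180000001c0000000f0000007c0000001c0000001c00000014 6 7) 0 0 (step_sound _ 99 [(rh1ae6d97d82e71049.shift 1 2), (rh215e11e099257d75.shift 3 2), rhbd8dff2a50231c67, (rhfa40f754f1f7b88f.shift 2 0)] (by decide +kernel))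
noncomputable def rhada723a5e8026508 : CRef := CRef.mk (Pat.mk 0x8000000080000000c00000000 0x140000001c0000003c0000000f0000000c0000000c00000008 6 6) 0 0 (step_sound _ 131 [rh5ee4dc8825dcefa0, (rh7adda3dfe9451016.shift 2 1), (rh9a369cb82ea472da.shift 2 1), (rha54302d5ccf5246c.shift 2 1)] (by decide +kernel))
noncomputable def rh3cade6bbfcde84e5 : CRef := CRef.mk (Pat.mk 0x8000000080000002c000000000000000000000000 0x140000003f0000007c0000003f0000000c0000000c0000000c 6 7) 0 0 (step_sound _ 67 [(rh2a21430a0333921b.shift 0 2), (rh32c2123a4016d1a7.shift 2 0), (rh9ee82b97cdeec3bd.shift 2 0), (rhc4055b4872d6fb38.shift 2 1)] (by decide +kernel))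
noncomputable def rh0272f6753d43f502 : CRef := CRef.mk (Pat.mk 0x100000001000000058000000000000000000000000 0x2000000028000003ef000001fe000003df00000078000000580000001800000018 6 10) 0 0 (step_sound _ 165 [(rh9ac41c7b0c47146e.shift 3 0), (rhb59cdcae9e8614cd.shift 1 2), (rhcd98d01d016feabc.shift 1 0), (rhed29c90cab06fb9b.shift 1 2), rhf3a10a720295ba00] (by decide +kernel))
noncomputable def rhb018a21d23a94c09 : CRef := CRef.mk (Pat.mk 0x100000001000000018000000000000000000000000 0x2c0000007f0000003e00000018000000180000001800000018 6 7) 0 0 (step_sound _ 68 [(rh32c2123a4016d1a7.shift 3 0), (rh7e54647b5776e75d.shift 0 1), (rh9ee82b97cdeec3bd.shift 3 0), (rhc4055b4872d6fb38.shift 3 1)] (by decide +kernel))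
noncomputable def rhf267c140c7d905e5 : CRef := CRef.mk (Pat.mk 0x20000000f000000000000000000000000 0xe0000001e0000000f0000001e0000000c0000000c 6 5) 0 0 (step_sound _ 131 [(rh33e738c4ed385b9f.shift 0 3), rhb7635cea616f6b57] (by decide +kernel))
noncomputable def rhbb6e9246d970fbf6 : CRef := CRef.mk (Pat.mk 0x40000001e0000000000000000 0x10000000f80000003e0000001f0000000800000008 6 8) 0 0 (step_sound _ 100 [(rh33e738c4ed385b9f.shift 1 2), rh52442602df5ec9b3] (by decide +kernel))
noncomputable def rh8c32ae673f504d2d : CRef := CRef.mk (Pat.mk 0x1800000018000000000000000000000000 0xc0000000c0000001f0000007800000018000000180000001800000018 6 7) 0 0 (step_sound _ 163 [(rh55a1f6c57a317ce6.shift 3 1), rh861f6ca2126d530b, (rhfe7da3c073d75bd5.shift 2 0)] (by decide +kernel))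
noncomputable def rh0e441af6c16b54f0 : CRef := CRef.mk (Pat.mk 0x6000000160000000000000000 0x30000000300000003f0000001e0000003800000008 6 6) 0 0 (step_sound _ 67 [(rh3244c3cc8379b070.shift 0 2), (rhbb01e2bc34beb6c8.shift 1 0)] (by decide +kernel))
noncomputable def rh7b4129e1045fa224 : CRef := CRef.mk (Pat.mk 0x600000006000000000000000000000000 0x70000000700000007000000070000003e0000000e0000000e 6 6) 0 0 (step_sound _ 66 [(rh2a80c4925a1e0b63.shift 1 0), (rh3cb04db3dd2b6a55.shift 1 0), rh8da870b0dce1f50d] (by decide +kernel))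
noncomputable def rhf8d686e164e2788e : CRef := CRef.mk (Pat.mk 0x1800000018000000000000000000000000 0x100000001c0000001f0000003800000038000000380000003800000038 6 6) 0 0 (step_sound _ 68 [(rh2a80c4925a1e0b63.shift 3 0), (rh3cb04db3dd2b6a55.shift 3 0), (rhb16c51e800d2324e.shift 0 1)] (by decide +kernel))
noncomputable def rh0ddacc7bd56bdbb2 : CRef := CRef.mk (Pat.mk 0xc0000000c00000000000000000000000000000000 0xc0000000c0000000c0000001f0000007c0000001c0000001c00000010 6 7) 0 0 (step_sound _ 99 [(rh2a80c4925a1e0b63.shift 2 1), (rh3cb04db3dd2b6a55.shift 2 1), rhe9e587dc9f6747bf] (by decide +kernel))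
noncomputable def rh7637f3b31818a0c5 : CRef := CRef.mk (Pat.mk 0x600000016000000000000000000000000 0x10000000370000001f000000380000000800000008 6 6) 0 0 (step_sound _ 99 [(rh3244c3cc8379b070.shift 0 3), rhce71534e51e0a15e] (by decide +kernel))
noncomputable def rhd71e8766a41ac9bc : CRef := CRef.mk (Pat.mk 0xc0000000c000000000000000000000000 0xc0000000c0000001c0000003c0000000f0000007c0000001c00000008 6 7) 0 0 (step_sound _ 67 [(rh3cb04db3dd2b6a55.shift 2 0), rh677e6fbb651585de, (rh9da76f67c55925b7.shift 1 1)] (by decide +kernel))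
noncomputable def rh46de95dd92d3385e : CRef := CRef.mk (Pat.mk 0x1800000018000000000000000000000000 0x1c0000001c0000003f0000007f0000001f000000300000001000000010 6 7) 0 0 (step_sound _ 98 [rh36b08682a53f6933, (rhab2ad169e49f9c5e.shift 0 3), rhcb68da4f2dc5e7fd] (by decide +kernel))
noncomputable def rh79c728483bd2e003 : CRef := CRef.mk (Pat.mk 0x18000000180000000000000000 0x4000000ef000000ff0000001f0000000800000008 6 8) 0 0 (step_sound _ 101 [(rh3906f0abd96bc60d.shift 1 2), (rh4dc133ee0ba1420a.shift 1 2), rh5b7bf26d9fd76ab6] (by decide +kernel))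
noncomputable def rhfb7dc4eb8b7470fb : CRef := CRef.mk (Pat.mk 0x1800000018000000000000000000000000 0x10000000f7000000ff0000001f000000f80000003800000038 6 8) 0 0 (step_sound _ 67 [(rhea7a1800d6f053bd.shift 3 0), rhf735d29fac840db6, (rhf9475b91a432aac6.shift 1 0)] (by decide +kernel))
noncomputable def rh267582067230c092 : CRef := CRef.mk (Pat.mk 0x1400000016000000000000000000000000 0xa0000000e0000000e0000001e000000370000001e000000060000000600000006 6 6) 0 0 (step_sound _ 162 [rh98b0aa21836ed522, (rhebbd9e599174af8a.shift 1 2), rhf8398fd5bb0e7605, (rhfafeb437ceb8396d.shift 1 0)] (by decide +kernel))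
noncomputable def rh86b479e73e2ef8d9 : CRef := CRef.mk (Pat.mk 0x280000002c0000000000000000 0x1000000010000000780000003e0000003f0000006800000068 6 7) 0 0 (step_sound _ 100 [(rh1ed7a3503fa50fc8.shift 0 2), (rheea1a90336e79c71.shift 0 2), (rhfd72e1fc1ce4bf92.shift 1 0)] (by decide +kernel))
end Crest.Agent.S0047.Helper85.Cert
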