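import Crest.Agent.Lib.S0047.Helper85CertPL5F0
import Crest.Agent.Lib.S0047.Helper85CertPL5F1
import Crest.Agent.Lib.S0047.Helper85CertPL5F2
import Crest.Agent.Lib.S0047.Helper85CertPL5F3
import Crest.Agent.Lib.S0047.Helper85CertPL5F4
import Crest.Agent.Lib.S0047.Helper85CertPL5F5
import Crest.Agent.Lib.S0047.Helper85CertPL5F6
import Crest.Agent.Lib.S0047.Helper85CertPL5F7
import Crest.Agent.Lib.S0047.Helper85CertPL5F8
import Crest.Agent.Lib.S0047.Helper85CertPL5F9
import Crest.Agent.Lib.S0047.Helper85CertPL5F10
import Crest.Agent.Lib.S0047.Helper85CertPL5F11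
import Crest.Agent.Lib.S0047.Helper85CertPL5F12
set_option autoImplicit false
set_option linter.all false
set_option Elab.async false
namespace Crest.Agent.S0047.Helper85.Cert
open Crest.Agent.S0047.Helper85

noncomputable def rh993e5647b8f0dedc : CRef := CRef.mk (Pat.mk 0x100000001000000058000000000000000000000000 0x2000000028000003ef000001fe000003df00000078000000580000001800000018 6 10) 0 0 (step_sound _ 165 [(rh42e7a3bb2644f343.shift 1 2), (rhcd98d01d016feabc.shift 1 0), (rhed29c90cab06fb9b.shift 1 2), rhf3a10a720295ba00] (by decide +kernel))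
noncomputable def rh836bf4d2abdd4871 : CRef := CRef.mk (Pat.mk 0xa0000000b000000000000000000000000 0x5000000170000001f0000001f0000007a0000000f0000001b0000001900000011 6 7) 0 0 (step_sound _ 161 [rh281c6819542c66e6, rhc0fed86eb650ef64, (rhebbd9e599174af8a.shift 0 2)] (by decide +kernel))
noncomputable def rhdccb7672cac5734c : CRef := CRef.mk (Pat.mk 0x280000002c0000000000000000 0x100000001c0000003e000000380000003f0000006c0000002c 6 7) 0 0 (step_sound _ 100 [(rh127c5a2f71b0929a.shift 1 0), (rheea1a90336e79c71.shift 0 2), (rhf64932fa6159614b.shift 1 0)] (by decide +kernel))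
noncomputable def rh1361ff8446c897d6 : CRef := CRef.mk (Pat.mk 0x180000000c00000000000000000000000000000000 0x4000000040000000c0000000f0000007c0000001c0000000c0000001c0000001c00000010 6 7) 0 0 (step_sound _ 195 [(rh281c6819542c66e6.shift 2 1), (rhce83bf9c25287c0d.shift 0 3), rhf47a0945de8ff327, (rhfafeb437ceb8396d.shift 2 1)] (by decide +kernel))
noncomputable def rhbd381f286233b580 : CRef := CRef.mk (Pat.mk 0x3000000058000000000000000000000000 0xc0000000c0000001f0000003f0000007f000000180000001800000018 6 7) 0 0 (step_sound _ 131 [rh1085b9e5159d0f8c, (rh5b7bf26d9fd76ab6.shift 0 1), (rh8bbb80de8d54d517.shift 0 3)] (by decide +kernel))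
noncomputable def rh0c50843e56dc9cc5 : CRef := CRef.mk (Pat.mk 0x1800000058000000000000000000000000 0x18000000180000001c0000001f0000007f000000380000003800000018 6 7) 0 0 (step_sound _ 130 [(rh2fe78cc5ca4405d8.shift 2 3), rhf2ae53d56b9494f7] (by decide +kernel))
noncomputable def rha5f901d3f5303397 : CRef := CRef.mk (Pat.mk 0x6000000160000000000000000 0x10000000300000003f0000001f0000000800000008 6 6) 0 0 (step_sound _ 67 [(rh3244c3cc8379b070.shift 0 2), rh510d215f94bf1ad4] (by decide +kernel))
noncomputable def rh5b2089b93c55840a : CRef := CRef.mk (Pat.mk 0xc0000002c000000000000000000000000 0xe0000000e0000000f0000007c0000003e0000001c0000000c00000004 6 7) 0 0 (step_sound _ 162 [(rh2516c208521c8f72.shift 0 1), (rh55a1f6c57a317ce6.shift 2 1), (rhfe7da3c073d75bd5.shift 1 0)] (by decide +kernel))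
noncomputable def rhc2edd2036a6f7729 : CRef := CRef.mk (Pat.mk 0x80000000b00000000000000000000000000000000 0x100000001000000018000000180000000f0000001c0000001c0000001c00000014 6 5) 0 0 (step_sound _ 99 [(rh25271c74be886731.shift 2 0), (rh9548c07d1d1f2a1b.shift 0 2), rh9765e413c7f50252, (rhabf575676fe0ef70.shift 0 3)] (by decide +kernel))
noncomputable def rhb29f92d3b22f47cd : CRef := CRef.mk (Pat.mk 0x280000000c000000000000000000000000 0x4000000040000000c0000000f0000007c0000000c0000001c0000001c00000014 6 7) 0 0 (step_sound _ 132 [(rh18965a982d73c794.shift 2 3), rh50d3dc5ae94e107c] (by decide +kernel))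
noncomputable def rh8d438902bcf78147 : CRef := CRef.mk (Pat.mk 0x140000001600000000000000000000000000000000 0x2200000037000000370000001f0000001e0000003e0000003e0000003e00000028 6 6) 0 0 (step_sound _ 98 [(rh6c42ba28ef4a4db1.shift 1 0), (rhb701e857b24dfa22.shift 1 1), (rhd2e34cd48a5f12a0.shift 1 0), (rhe78ef804fa0f2a92.shift 0 1), (rhec87619d51f44562.shift 0 1)] (by decide +kernel))
noncomputable def rh67237cba5517e64f : CRef := CRef.mk (Pat.mk 0x3000000010000000500000000000000000 0x80000000e000000ff0000003e000000780000001800000018 6 8) 0 0 (step_sound _ 99 [rhb6d76f1949e69354, (rhd69c262cd33b94b3.shift 1 3), (rhf25e8718cccf073b.shift 1 2)] (by decide +kernel))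
noncomputable def rh86b5524c0aeb0110 : CRef := CRef.mk (Pat.mk 0x300000001000000050 0x8000000ec000000ff0000003e00000078 6 8) 0 0 (step_sound _ 35 [rh0048eb3daff65734, (rhd69c262cd33b94b3.shift 1 1), (rhf25e8718cccf073b.shift 1 0)] (by decide +kernel))
noncomputable def rh085ca6bbd0160070 : CRef := CRef.mk (Pat.mk 0x200000002000000020000000000000000 0x500000007000000070000000600000002000000070000000700000005 6 3) 0 0 (step_sound _ 161 [rh367118e0bf0473e0, rh8cdd36b03d57a2f6, (rhc17b7d8fab3dfe57.shift 0 1)] (by decide +kernel))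
noncomputable def rhfb6a18079b714927 : CRef := CRef.mk (Pat.mk 0xc0000000400000014000000000000000000000000 0x2000000730000003e000000770000001c0000001e0000000e0000000a 6 7) 0 0 (step_sound _ 161 [(rh0a6888916bcef86b.shift 1 0), (rh1b55a0f7922d919b.shift 0 1), (rh43d8dfd721575dfb.shift 1 0), (rhbb0d784aa99aa5e4.shift 0 3)] (by decide +kernel))
noncomputable def rhcd67395ca391a2d6 : CRef := CRef.mk (Pat.mk 0x180000000800000028000000000000000000000000 0x44000000f60000007e000001ef00000028000000700000007000000050 6 9) 0 0 (step_sound _ 165 [(rh2820ca9a6c4f41b4.shift 0 4), (rh3757c66cf1d5f4af.shift 1 2), (rhbd8830bb1634bc78.shift 2 2), (rhd53e9ff3997c295f.shift 2 0)] (by decide +kernel))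
noncomputable def rh429cd6859d95306e : CRef := CRef.mk (Pat.mk 0x800000028000000280000000000000000 0x2000000030000000f0000000fe0000007e0000003f0000002000000020 6 8) 0 0 (step_sound _ 100 [(rhb79f3aaa15ce8a12.shift 1 0), (rhd9106766b9ff53c0.shift 2 2), (rhf0f55c4504412200.shift 0 2)] (by decide +kernel))
noncomputable def rh77cd3d2bf57fa57e : CRef := CRef.mk (Pat.mk 0x800000028000000280000000000000000 0x6000000060000001ff0000007e0000003f0000001000000010 6 9) 0 0 (step_sound _ 100 [rh811c7413fb44d53a, (rhd9106766b9ff53c0.shift 2 2), (rhf0f55c4504412200.shift 0 2)] (by decide +kernel))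
noncomputable def rhfd4bcb363ebc2e5a : CRef := CRef.mk (Pat.mk 0x4000000140000001400000000000000000000000000000000 0x38000000fe0000007c0000001f00000038000000380000003800000020 6 8) 0 0 (step_sound _ 163 [(rh38791ac5737ed75e.shift 1 5), rh9ee03940adeeffaf, (rhd9106766b9ff53c0.shift 1 4)] (by decide +kernel))
noncomputable def rh6be68541e47159d8 : CRef := CRef.mk (Pat.mk 0x280000002800000000 0x7f0000003f00000070 6 7) 0 0 (step_sound _ 34 [rh712745061989c117, (rh9f2591205204f08d.shift 2 1), (rhe33d9496e10d8eb0.shift 0 1), rhf4c881faf5972228] (by decide +kernel))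
noncomputable def rh79176689e9ae471b : CRef := CRef.mk (Pat.mk 0x800000028000000200000000000000000 0x70000000f0000001ff000000fe000000300000003000000020 6 9) 0 0 (step_sound _ 100 [(rh2bfe6bc7491027a2.shift 1 0), (rh38791ac5737ed75e.shift 2 3), (rh523463052a326d03.shift 2 0), (rha9fbfd4bb8cf890b.shift 0 3)] (by decide +kernel))
noncomputable def rh9efbcea1803c410b : CRef := CRef.mk (Pat.mk 0x80000002800000028000000000000000000000000 0x400000005000000070000001ff000000ff0000002c000000700000007000000050 6 9) 0 0 (step_sound _ 165 [rh6445a5d7177f70aa, (rh96e3f43e851128d4.shift 2 0), (rhbd922aa3572157da.shift 2 2), (rhc2bb0a36cbcb6566.shift 2 2), (rhcbf5323d7a1d9f65.shift 0 3), (rheaeedf48351ea42c.shift 0 2)] (by decide +kernel))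
noncomputable def rh81a685d72f9a6248 : CRef := CRef.mk (Pat.mk 0x20000000a0000000a0000000000000000000000000 0x140000001c0000001c0000001fc000000fe000000ff000001c0000001c000000180 6 9) 0 0 (step_sound _ 132 [(rh1704b06239b906ad.shift 4 0), (rh2ad2639e54eb5d5e.shift 0 3), (rh2efd04ac38ca2ae0.shift 2 0), (rh97861f013b154680.shift 2 2), (rhcba531d762a3d4ae.shift 2 2), (rhf41541f1b291d58d.shift 2 3)] (by decide +kernel))
noncomputable def rh830032957933820d : CRef := CRef.mk (Pat.mk 0x80000002800000028000000000000000000000000 0x44000000d60000007c000001ef0000003c000000f00000007000000050 6 9) 0 0 (step_sound _ 165 [(rh44fbb1acf25a7478.shift 1 0), rh6445a5d7177f70aa, (rha328ef791068a517.shift 2 0), (rhf7ceebac9b75313c.shift 0 3)] (by decide +kernel))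
noncomputable def rh09d1a42e80d038d8 : CRef := CRef.mk (Pat.mk 0x80000002800000028000000000000000000000000 0x200000007f0000007e0000003f000000700000003000000020 6 7) 0 0 (step_sound _ 132 [rh3923ef907d729c94, (rha9fbfd4bb8cf890b.shift 0 4), (rhd9106766b9ff53c0.shift 2 3), (rhf0f55c4504412200.shift 0 3)] (by decide +kernel))
noncomputable def rh3224ee3f059c17a0 : CRef := CRef.mk (Pat.mk 0x20000000200000002000000000000000000000000 0x500000007000000070000000700000002000000030000000300000001 6 3) 0 0 (step_sound _ 65 [rh367118e0bf0473e0, rh6aa5625770489e83, (rh762a1aeaf83c662a.shift 0 1), (rhc4055b4872d6fb38.shift 0 1)] (by decide +kernel))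
noncomputable def rhe397b478535c4da6 : CRef := CRef.mk (Pat.mk 0x400000004000000040000000000000000 0xa0000000e0000000f0000003c0000000c0000000c0000000c00000008 6 6) 0 0 (step_sound _ 162 [(rh1bd0c14c4de1ef4d.shift 0 1), (rh8065c10b3cae6218.shift 1 1), (rhc17b7d8fab3dfe57.shift 1 1), (rhc9de03f9731897d4.shift 2 0)] (by decide +kernel))
noncomputable def rh28547544936a050e : CRef := CRef.mk (Pat.mk 0x8000000080000002800000008 0x140000003f0000007f0000003800000008 6 7) 0 0 (step_sound _ 100 [(rh2f68792b6b779e96.shift 3 0), rhc3f964830df33a9f] (by decide +kernel))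
noncomputable def rhf4c1e3cffc44fb1b : CRef := CRef.mk (Pat.mk 0x80000002c0000002000000000 0x60000000600000007f0000003f0000003000000010 6 7) 0 0 (step_sound _ 68 [(rh14ebe618fe80128a.shift 1 0), (rh816fd429a35c92eb.shift 0 1), (rh915c3ff3d4fe3a39.shift 0 2), (rhd1d05263fabc0227.shift 0 1)] (by decide +kernel))
noncomputable def rh8b0abee4db243a6f : CRef := CRef.mk (Pat.mk 0x40000001c000000100000000000000000 0x1000000038000000780000007f0000001f000000180000001000000010 6 7) 0 0 (step_sound _ 131 [rh0467b07075ea43f8, (rh2f1a6390daa22edf.shift 0 2), (rh5d54cb79a67f97ab.shift 3 0), (rh7e1098702e50f2b0.shift 3 0), (rha40d42a2e34c408d.shift 3 0)] (by decide +kernel))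
noncomputable def rh837fb94da5f015d6 : CRef := CRef.mk (Pat.mk 0x70000000400000000000000000000000000000000 0x20000000e0000000e0000001e000000070000003e0000000c0000000e0000000e00000002 6 6) 0 0 (step_sound _ 98 [rh1dea96f888b2e2cf, (rh43d8dfd721575dfb.shift 1 0), (rh7b24c4ccc068b0b2.shift 1 2), (rh969197837ff5eef8.shift 0 2), (rhb1a251d9bff81766.shift 1 2)] (by decide +kernel))
noncomputable def rh443f8861ca1c73e2 : CRef := CRef.mk (Pat.mk 0x80000002800000020000000200000000000000000 0x500000007f0000003f00000060000000300000003000000010 6 7) 0 0 (step_sound _ 164 [(rh442d3997f8517cfd.shift 0 1), (rh8c70dc5509820a10.shift 4 0), (rhececd53a3737d0fe.shift 2 0), (rhffa5170e738fb874.shift 2 2)] (by decide +kernel))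
noncomputable def rhcf317151cb8473c3 : CRef := CRef.mk (Pat.mk 0x20000000a000000080000000800000000000000000000000000000000 0x5000000070000000f0000007a0000001f0000007f0000001d0000001c00000014 6 7) 0 0 (step_sound _ 99 [(rh23409aa44038acb8.shift 0 2), (rh329b3c6d352ca3b2.shift 0 2), (rh8cdd36b03d57a2f6.shift 2 1), rhb904711480570a6a, rhbeaf8c14302a6451] (by decide +kernel))
noncomputable def rh0f8b6e97dcc46553 : CRef := CRef.mk (Pat.mk 0xa0000000a00000008000000000000000000000000 0x100000001e0000000f000000080000001c0000001c00000014 6 5) 0 0 (step_sound _ 67 [rh1cea9fe1e8541296, (rh3181373a30ceb9e3.shift 2 0), (rh333b25edbfe2cf15.shift 0 1), rheaefef0cf5d84625] (by decide +kernel))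
noncomputable def rh91dfb422531e32ca : CRef := CRef.mk (Pat.mk 0xa0000000a0000000800000000 0x140000001c0000003c0000001f0000000f0000000c00000004 6 6) 0 0 (step_sound _ 131 [(rh565a0c22519f57e9.shift 2 0), rh73194a237cdcdd9d, (rh7ef5fa5c39f1c762.shift 2 1)] (by decide +kernel))
noncomputable def rh6ed57e066c30f470 : CRef := CRef.mk (Pat.mk 0x20000000a0000000c00000000000000000000000000000000 0x18000000180000001a0000000f0000007c0000007e0000001c0000001c00000008 6 7) 0 0 (step_sound _ 99 [(rh176dcbd130942309.shift 1 0), (rh87354ee8c17b6ebc.shift 1 1), (rh8b10b64a49c6aa45.shift 0 1), (rhca59efe74030e3e7.shift 2 1), (rhe5793cbf806a9ea1.shift 0 1)] (by decide +kernel))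
noncomputable def rhcdab4fa0dffd027e : CRef := CRef.mk (Pat.mk 0x4000000140000001800000000000000000000000000000000 0x200000003000000034000001dc000000fe000001ff000000380000003800000038 6 9) 0 0 (step_sound _ 100 [rh09302acfb6af8b93, (rh7254604d96e61050.shift 2 1), (rh74b8a6ce6af5fac7.shift 1 0), (rha43b617269901ebb.shift 1 0), (rhca59efe74030e3e7.shift 3 1)] (by decide +kernel))
noncomputable def rh9458541fe701f947 : CRef := CRef.mk (Pat.mk 0x140000001800000000 0x1de000000fe000001f7 6 9) 0 0 (step_sound _ 37 [(rh1136b81d2c6924ee.shift 2 0), (rh54c49bb299227e8d.shift 1 1), rhbc11a3baf4586684] (by decide +kernel))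
noncomputable def rh08db685efa28fee5 : CRef := CRef.mk (Pat.mk 0x80000002800000030000000000000000000000000 0x4000000040000000640000006c0000003f0000003c0000007f0000007c00000050 6 7) 0 0 (step_sound _ 130 [(rh335aea0e6a441f91.shift 2 0), (rhe753c2bd6bb4eeba.shift 0 3), (rhf090637355124b86.shift 0 1)] (by decide +kernel))
noncomputable def rh982ffe2b9988eebb : CRef := CRef.mk (Pat.mk 0x80000002800000030000000000000000000000000 0x240000002c0000002f000000fc000001ff0000005c00000010 6 9) 0 0 (step_sound _ 99 [(rha9fbfd4bb8cf890b.shift 0 3), rhcd1f5f81db044636, (rhe8ea5f2a637fddf3.shift 2 1), (rhf01c305e1d625049.shift 0 1)] (by decide +kernel))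
noncomputable def rh45b9d2b7fbe17e21 : CRef := CRef.mk (Pat.mk 0x40000001400000018000000000000000000000000 0x10000000340000001f0000007c000000f80000003800000038 6 8) 0 0 (step_sound _ 131 [(rh0693a0ad7c8af654.shift 0 1), (rh17289b56f292256b.shift 2 0), (rh6292bd8784ece55f.shift 1 3)] (by decide +kernel))
noncomputable def rh0fc618287cd863fa : CRef := CRef.mk (Pat.mk 0x80000000800000028000000000000000000000000 0x40000000c0000000c0000007c0000001f0000001c00000014 6 7) 0 0 (step_sound _ 67 [(rh263d06d0dec5408c.shift 0 1), (rh3181373a30ceb9e3.shift 2 0), (rh46baee19951a66e7.shift 2 0), (rh6aa5625770489e83.shift 2 0)] (by decide +kernel))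
noncomputable def rhdb14fbe1ca24d202 : CRef := CRef.mk (Pat.mk 0x20000000a000000020000000000000000000000000 0x1f0000007e000000ff00000020000000700000007000000050 6 8) 0 0 (step_sound _ 164 [(rhb7cb20d9174e8968.shift 0 4), (rhe181d564227a886f.shift 4 0)] (by decide +kernel))
noncomputable def rhae8deb14dacaf212 : CRef := CRef.mk (Pat.mk 0x100000005000000050 0x3f0000007f000000f8 6 8) 0 0 (step_sound _ 35 [rh4c45747136d28f51, (rh8c25cb665ab79ec0.shift 1 0), (rha6816dee951f7ee6.shift 3 0), rhbf8ebb4f1cfff5e1] (by decide +kernel))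
noncomputable def rhbaea0932aea21468 : CRef := CRef.mk (Pat.mk 0x80000000800000028000000000000000000000000 0x1000000018000000180000007c0000001f0000001c00000014 6 7) 0 0 (step_sound _ 67 [(rh263d06d0dec5408c.shift 0 1), (rh3181373a30ceb9e3.shift 2 0), (rh367118e0bf0473e0.shift 2 0), (rhc9de03f9731897d4.shift 3 0)] (by decide +kernel))
noncomputable def rhac4046594412cd3e : CRef := CRef.mk (Pat.mk 0x4000000140000001000000010000000000000000000000000 0x1400000014000000fe0000007e000001ef0000002800000028 6 9) 0 0 (step_sound _ 99 [rh0beb3c2108eb07d6, (rh4632e7c8eee2489c.shift 1 2), (rh794c5ea6d0dd70bd.shift 1 0), (rhfafeb437ceb8396d.shift 3 0)] (by decide +kernel))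
noncomputable def rha6f8899ae713af4f : CRef := CRef.mk (Pat.mk 0x80000002800000020000000000000000000000000 0x5000000070000000700000007c0000002f00000078000000700000007000000050 6 7) 0 0 (step_sound _ 165 [(rh08ff1a9078a560c4.shift 2 0), (rh195e2e6861faf39a.shift 4 1), (rh2c450c43a85b1349.shift 0 2), (rh437d454e808ff910.shift 4 1), (rh611d5cd14f08a25c.shift 4 0), (rhb5e73f3f6702733d.shift 2 1), (rhe390a88576e84e60.shift 4 1), (rhff3da4bcb8aae1f8.shift 4 0)] (by decide +kernel))
noncomputable def rhfd75586fc906a521 : CRef := CRef.mk (Pat.mk 0x8000000280000002000000000000000000000000000000000 0x7000000070000000ff0000003f000001f000000070000000700000007000000010 6 9) 0 0 (step_sound _ 164 [(rh116aa588201a7e7d.shift 3 0), (rh525df8f5ba440f42.shift 1 2), (rhc21a95c499b3efdb.shift 2 4), (rheebfe330bddc1b28.shift 0 4)] (by decide +kernel))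
noncomputable def rh1ef66d949c10f38b : CRef := CRef.mk (Pat.mk 0x200000002000000020000000000000000 0x500000007000000070000000200000002000000070000000700000005 6 3) 0 0 (step_sound _ 161 [(rh762a1aeaf83c662a.shift 0 1), rh8cdd36b03d57a2f6, (rhc17b7d8fab3dfe57.shift 0 1)] (by decide +kernel))
noncomputable def rh89a9350f0c6bdec4 : CRef := CRef.mk (Pat.mk 0x80000000800000028000000000000000000000000 0x8000000280000007c000000ff0000003f000000f40000003400000034 6 8) 0 0 (step_sound _ 100 [(rh046c5eb18e55a239.shift 3 0), rha33ea1e0c84ee6c9, (rheaf5453bdfd1db11.shift 1 2), (rhf1562e42b31bda83.shift 1 0)] (by decide +kernel))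
noncomputable def rh7549b9b55183b86a : CRef := CRef.mk (Pat.mk 0x80000000800000028000000000000000000000000 0x14000000f70000007f000001ff0000003c0000003c0000001c00000014 6 9) 0 0 (step_sound _ 164 [(rh15590a39afd9a120.shift 2 0), rh171719d6c53bb778, (rhdc26450f126b27b1.shift 0 2), (rhfa40f754f1f7b88f.shift 2 0)] (by decide +kernel))
noncomputable def rheccb23d994513be1 : CRef := CRef.mk (Pat.mk 0x1e0000000000000000000000000000000000000000 0x400000006000000070000001e0000000700000006000000070000000700000001 6 5) 0 0 (step_sound _ 129 [rhdd52925b4911e132, (rheb0810cc63b001d8.shift 0 4)] (by decide +kernel))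
noncomputable def rh6b4f5268568afa46 : CRef := CRef.mk (Pat.mk 0x280000002c000000000000000000000000 0x60000001e0000007e0000003f0000002e0000002c0000002c00000004 6 7) 0 0 (step_sound _ 130 [(rh131b734881692307.shift 1 1), (rh49fa14cb88fd0e82.shift 1 1), rhe3a6d8366de560f2] (by decide +kernel))
noncomputable def rhfa6d9ff91357f7a8 : CRef := CRef.mk (Pat.mk 0x40000000600000000000000000000000000000000 0x80000000e0000000e0000000e00000006000000070000003e0000000e0000000e00000002 6 6) 0 0 (step_sound _ 194 [(rh281c6819542c66e6.shift 1 1), (rh2ed2cd37a9b20882.shift 1 3), (rh76bd0dc3251bfb89.shift 1 0), (rhb71a738820934dfe.shift 0 1), (rhfafeb437ceb8396d.shift 1 1)] (by decide +kernel))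
noncomputable def rhb721ba8f8b2234a7 : CRef := CRef.mk (Pat.mk 0x3800000028000000000000000000000000 0x200000007f0000003e0000003e000000160000001400000004 6 7) 0 0 (step_sound _ 130 [(rh00f1bb10334541e3.shift 0 4), (rh29790a6978369e04.shift 1 0), (rhd1d05263fabc0227.shift 0 3)] (by decide +kernel))
noncomputable def rhb1c49e634589276b : CRef := CRef.mk (Pat.mk 0x380000002800000000000000000000000000000000 0x140000001c0000001f000000380000003c0000001e0000001c0000001c00000014 6 6) 0 0 (step_sound _ 99 [(rh1b194f1c1b756af2.shift 2 1), (rh7f36f639160ea2c8.shift 3 2), (rh9a533699701a8346.shift 0 2), (rhfa40f754f1f7b88f.shift 2 0)] (by decide +kernel))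
noncomputable def rh67cd32f062ad378e : CRef := CRef.mk (Pat.mk 0x1c00000014000000000000000000000000 0x14000000340000001f0000001f0000000f0000000a00000002 6 6) 0 0 (step_sound _ 99 [rhad48fcc809438143, (rhb00c6cda7b230383.shift 0 1)] (by decide +kernel))
noncomputable def rh1f207abdbd10ea86 : CRef := CRef.mk (Pat.mk 0x3800000028000000000000000000000000 0x1800000038000000f8000000fe000000380000001f0000001c0000001c 6 8) 0 0 (step_sound _ 100 [(rh1b80270a8621e059.shift 1 3), rh92679c2c5050e8ed, (rhb00c6cda7b230383.shift 1 1), (rhf41f91314d5f8034.shift 1 0)] (by decide +kernel))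
noncomputable def rh86ee56c3f66284e0 : CRef := CRef.mk (Pat.mk 0x1c000000140000000000000000 0xa0000000a000000ff0000007f0000001c0000000400000004 6 8) 0 0 (step_sound _ 131 [(rh32f6277f14b47a8f.shift 2 0), (rh6aff410a8a5d55f8.shift 0 2), rh6d3f72594fd02f06, (rhdabfcd0659c2d3c8.shift 2 0)] (by decide +kernel))
noncomputable def rh1978561c5ac09278 : CRef := CRef.mk (Pat.mk 0x680000002800000000000000000000000000000000 0x540000007c0000007c000000680000002f0000007c000000fc0000007400000050 6 8) 0 0 (step_sound _ 101 [(rh215e11e099257d75.shift 5 2), rh56be1c3afae74301, (rhd29920124183c3f5.shift 2 0), (rhffb8e5993241bf15.shift 4 0)] (by decide +kernel))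
noncomputable def rh48e1339902c80d1a : CRef := CRef.mk (Pat.mk 0x2800000028000000080000000000000000 0x48000000480000006c0000007c0000002f0000007c0000003800000018 6 7) 0 0 (step_sound _ 98 [rh82b9893c161ac363, (rh9eaf497289a6ff86.shift 0 1), (rhda5817032ce38b35.shift 2 0), (rhe33d9496e10d8eb0.shift 0 3)] (by decide +kernel))
noncomputable def rh267adea4b37582c7 : CRef := CRef.mk (Pat.mk 0x28000000280000000800000000000000000000000000000000 0x8000000280000007c0000002f000000fc0000001c0000001c0000001c00000014 6 8) 0 0 (step_sound _ 99 [(rh3181373a30ceb9e3.shift 2 1), (rh7b6911d49691f535.shift 2 2), (rhc324b959c2cd5e2b.shift 2 0), rhdfdeb10be77c9bf6] (by decide +kernel))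
noncomputable def rhbcd192d7b5fbe576 : CRef := CRef.mk (Pat.mk 0x280000002800000008000000000000000000000000 0x400000044000000640000007c0000002f0000007c0000007c0000007c00000054 6 7) 0 0 (step_sound _ 101 [(rh1bbe8907fa627e3b.shift 2 0), (rh546848b583134c22.shift 4 0), (rhabf9fcd05300ede4.shift 2 0), rhac635d089a3d5e84, (rhdd95e8f42a68030d.shift 2 0)] (by decide +kernel))
noncomputable def rhb9eea631f6904dcb : CRef := CRef.mk (Pat.mk 0x28000000280000000000000000 0x1000000054000001ff000000fe0000002f0000002800000028 6 9) 0 0 (step_sound _ 100 [(rh2820ca9a6c4f41b4.shift 0 2), (rh5024bbfb5139b661.shift 2 2), rhb55ee1177cf584c3, (rhe02ec5f7610e52b6.shift 2 0)] (by decide +kernel))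
noncomputable def rh7c1ff4cdf738152e : CRef := CRef.mk (Pat.mk 0x1e000000100000000000000000 0x1000000030000000380000003f0000001e000000180000001000000010 6 6) 0 0 (step_sound _ 132 [(rh33e738c4ed385b9f.shift 1 3), rh8fec9d524b319db4] (by decide +kernel))
noncomputable def rh7038669a66487092 : CRef := CRef.mk (Pat.mk 0x1e00000010000000000000000000000000 0x12000000370000001e0000001f0000000f0000000e00000002 6 6) 0 0 (step_sound _ 97 [(rheb0810cc63b001d8.shift 0 3), rhfd1123c2f66fe148] (by decide +kernel))
noncomputable def rhfa89528fff53f6c8 : CRef := CRef.mk (Pat.mk 0xc00000008000000080000000000000000 0x1000000018000000180000000c0000001f0000007c0000001c0000000c 6 7) 0 0 (step_sound _ 163 [(rh402d223d12d7377d.shift 2 1), (rh426f403fa814630c.shift 3 1), rh7e3108cc4b236cbb, (rhabedd109a9a37101.shift 2 1)] (by decide +kernel))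
noncomputable def rh7dc35bd300846354 : CRef := CRef.mk (Pat.mk 0xe0000000800000008000000000000000000000000 0x80000000a0000000e000000fe000000fe0000007f0000001000000010 6 8) 0 0 (step_sound _ 100 [(rh046c5eb18e55a239.shift 3 0), (rh2940458fa65065e4.shift 0 2), (rh70e33bfdf511e144.shift 3 0), (rhda65e32da3cd964e.shift 1 0)] (by decide +kernel))
noncomputable def rh079a6f206f2a09d2 : CRef := CRef.mk (Pat.mk 0xe000000080000000800000000000000000000000000000000 0x1000000018000000180000000e0000007c0000001f0000000c0000001c0000001c00000014 6 7) 0 0 (step_sound _ 164 [(rh3d33fc40c2b99a62.shift 0 1), (rh89ade209b3e28f13.shift 1 5), (rhfc88265cc8682823.shift 2 0)] (by decide +kernel))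
noncomputable def rha4fdef9e98e493d2 : CRef := CRef.mk (Pat.mk 0xe0000000800000008000000000000000000000000 0x10000000180000001a0000000e0000007e0000007f000000f40000001400000014 6 8) 0 0 (step_sound _ 98 [(rh5ad428eba4eaf175.shift 1 0), (rh6a2abf98d2f26bd0.shift 2 2), (rhb8581b5ad7c99b58.shift 0 1), (rhfafeb437ceb8396d.shift 2 0)] (by decide +kernel))
noncomputable def rh817747b8933a750a : CRef := CRef.mk (Pat.mk 0x1c0000001000000010000000000000000000000000 0x40000001c0000003c0000007f000000fe0000003c00000028 6 8) 0 0 (step_sound _ 68 [(rh1f3a6ba70a310ab1.shift 3 0), (rh62ca34bdfdc13a55.shift 0 1), (rh8cdd36b03d57a2f6.shift 3 0), (rha613ffd40b6c9d24.shift 3 0)] (by decide +kernel))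
noncomputable def rhaadc89da6db7efd6 : CRef := CRef.mk (Pat.mk 0x1e000000100000000000000000 0x30000000340000003f0000001e0000001b0000000a00000002 6 6) 0 0 (step_sound _ 129 [rh3012566c3bbb79e5, (rh3244c3cc8379b070.shift 0 3)] (by decide +kernel))
noncomputable def rha9afbdf71a3ac0d4 : CRef := CRef.mk (Pat.mk 0x28000000380000000000000000 0x6000000060000003f0000003e0000007f00000008 6 7) 0 0 (step_sound _ 66 [(rh2ba551de881ca4cd.shift 0 1), (rh43715a9a1b5d459f.shift 1 0), (rh8195a2d7794c7cd2.shift 0 1)] (by decide +kernel))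
noncomputable def rhf4669ed01beaaeef : CRef := CRef.mk (Pat.mk 0x2800000038000000000000000000000000 0x140000001c0000001c0000003c000000380000001f0000001c0000001c 6 6) 0 0 (step_sound _ 163 [(rh235edbdf3bbc6c03.shift 3 0), (rh5bbc0f892859fdc5.shift 2 0), rh8690592e0fe5684c, (rha768b229dc254047.shift 3 0)] (by decide +kernel))
noncomputable def rh0f89452ff04bf045 : CRef := CRef.mk (Pat.mk 0x200000002000000020000000000000000 0x10000000700000007000000070000000700000003000000070000000600000004 6 3) 0 0 (step_sound _ 161 [(rh1d02867ed80f91bc.shift 0 1), rhae22d6cdf819408b, (rhc17b7d8fab3dfe57.shift 0 1), (rhc4055b4872d6fb38.shift 0 1), rhcae87bda2c3c01d2] (by decide +kernel))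
noncomputable def rhd53b3c0c1c721cb4 : CRef := CRef.mk (Pat.mk 0x4000000140000000400000000 0xa0000000e0000000e00000004000000370000003e0000000a 6 6) 0 0 (step_sound _ 130 [(rh0fd870c734e6c513.shift 1 0), (rh20966da26a1c2ae8.shift 1 0), (rhc17b7d8fab3dfe57.shift 1 0), rhe06c7604aef75ec4] (by decide +kernel))
noncomputable def rh8c97cae5624e274e : CRef := CRef.mk (Pat.mk 0x5000000070000000000000000000000000 0x500000005000000057000000fe0000007f0000002800000028 6 8) 0 0 (step_sound _ 69 [rh5eaf6f42760bc618, (rhade0f4c81793f68e.shift 4 0), (rhcf80391c5046a495.shift 5 0)] (by decide +kernel))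
noncomputable def rhfae2a6d94efe1f88 : CRef := CRef.mk (Pat.mk 0x2800000068000000000000000000000000 0x50000000740000007c0000007c0000002f000000680000007c0000007c00000054 6 7) 0 0 (step_sound _ 165 [(rh14e0829dc73b6804.shift 4 2), rh379ecaeba796b0c8, (rh70e33bfdf511e144.shift 5 0), rh7e5d733a74497077] (by decide +kernel))
noncomputable def rh1ba2bb6cf194f855 : CRef := CRef.mk (Pat.mk 0x8000000280000002800000000000000000000000000000000 0x140000001c0000005c000000780000002f0000003e00000077000000740000005400000040 6 7) 0 0 (step_sound _ 130 [(rh417f396f014c2c18.shift 0 1), (rh7f2f2b6d79618b4d.shift 2 3), (rhe2f3f827d59cc8c1.shift 1 0), (rhfafeb437ceb8396d.shift 2 1)] (by decide +kernel))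
noncomputable def rh7e796f9064f5316a : CRef := CRef.mk (Pat.mk 0xa0000000e000000000000000000000000000000000 0x2000000030000000bf000000fe0000007e000000700000007000000070 6 8) 0 0 (step_sound _ 132 [(rh0164c9b7a48fd11e.shift 0 3), (rh05f3f166ca8ce082.shift 2 0), (rh2cc7d62e70c02209.shift 2 3), (rh3423e5ac208fb65b.shift 3 1)] (by decide +kernel))
noncomputable def rh413909edff6c5bfb : CRef := CRef.mk (Pat.mk 0x280000002800000020000000000000000000000000 0x140000001c0000003c000000280000007c0000003f0000007c0000001000000010 6 7) 0 0 (step_sound _ 99 [(rh1c365c76821ab000.shift 3 1), (rh6066dccee6975121.shift 1 0), (rhe793825c4305264c.shift 0 2)] (by decide +kernel))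
noncomputable def rhcffc9191041ad082 : CRef := CRef.mk (Pat.mk 0x20000000200000002000000000000000000000000 0x100000003000000030000000300000006000000070000000700000005 6 3) 0 0 (step_sound _ 65 [rh0c1c1b53bc5a1510, rh3181373a30ceb9e3, rh46baee19951a66e7, (rhd7cb8ed87e2022d8.shift 0 1)] (by decide +kernel))
noncomputable def rh6b6f5307ff3d169f : CRef := CRef.mk (Pat.mk 0x280000002800000008000000000000000000000000 0x5000000070000000740000002c000000ef0000007e0000007c0000005c00000054 6 8) 0 0 (step_sound _ 101 [(rh1aaa77bb705d8d8d.shift 2 0), rh5ea34e0a5987e837, (rh6066dccee6975121.shift 1 0), (rhbe9dad0258652f1d.shift 3 1), (rhc8ca1e2272b2483b.shift 2 0), rhd0ef009c04a63061] (by decide +kernel))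
noncomputable def rhc3a8698f36873741 : CRef := CRef.mk (Pat.mk 0x1600000014000000000000000000000000 0x20000000700000017000000170000001f0000003f0000000f0000000e 6 6) 0 0 (step_sound _ 97 [rh048d0bc650a6bbc1, rh5bc48682df020515, rh699c606416662402, rhaf17d7ce619e136e] (by decide +kernel))
noncomputable def rh66f5f6a00297c054 : CRef := CRef.mk (Pat.mk 0x8000000380000000000000000000000000000000000000000 0x140000001c0000001c000000080000007c0000001f0000001c0000001c0000001c00000010 6 7) 0 0 (step_sound _ 131 [(rh2820ca9a6c4f41b4.shift 0 4), (rh837e5996cf3b8459.shift 2 0), (rhf0f55c4504412200.shift 0 4)] (by decide +kernel))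
noncomputable def rh0f051fd0b5699cca : CRef := CRef.mk (Pat.mk 0x140000001c000000000000000000000000 0x4000000040000001c0000007f000000ff0000000a0000000a 6 8) 0 0 (step_sound _ 67 [rh5464e261c4a40a5e, (rhade0f4c81793f68e.shift 2 0), (rhbe707112c53dab40.shift 2 0), rhd8e66b35e5f82302] (by decide +kernel))
noncomputable def rh09783a462af593e4 : CRef := CRef.mk (Pat.mk 0x5000000070000000000000000000000000 0x500000005000000057000000fe0000007f0000002800000028 6 8) 0 0 (step_sound _ 69 [(rhade0f4c81793f68e.shift 4 0), (rhcf80391c5046a495.shift 5 0), rhe85c947c8f2fe00a] (by decide +kernel))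
noncomputable def rhc4f7714d6a0a25c8 : CRef := CRef.mk (Pat.mk 0x2800000068000000000000000000000000 0x50000000740000007c0000007c0000002f000000680000007c0000007c00000054 6 7) 0 0 (step_sound _ 165 [(rh14e0829dc73b6804.shift 4 2), rh3bbc8911e77ee223, (rh70e33bfdf511e144.shift 5 0), rh7e5d733a74497077] (by decide +kernel))
noncomputable def rh5936d4adab15b760 : CRef := CRef.mk (Pat.mk 0x80000002800000028000000000000000000000000 0x140000005c0000007f0000007c0000002e0000003c000000740000007000000050 6 7) 0 0 (step_sound _ 165 [(rh08ff1a9078a560c4.shift 2 0), (rh544e2c0a0031f388.shift 2 2), (rh882d3ed95d304c0b.shift 2 1), (rh88d585697eacf27f.shift 0 2), (rhaf6c65f4605d8c8b.shift 0 1), (rhb224a2c6f1b5aeb4.shift 0 1), (rhd09467df8a736853.shift 2 2)] (by decide +kernel))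
noncomputable def rhac889223ea4d6c68 : CRef := CRef.mk (Pat.mk 0xa0000000a00000002000000000000000000000000 0x150000001f0000001f0000000a0000001f0000007e0000003e0000000400000004 6 7) 0 0 (step_sound _ 99 [rh0092c88cb1cbef18, (rh17784775315af99f.shift 0 2), (rh6a922cb14db74f17.shift 0 1)] (by decide +kernel))
noncomputable def rh9b02ecd7e30b4b75 : CRef := CRef.mk (Pat.mk 0x4000000140000001400000000 0x80000000e0000000e0000000f0000007e000000160000001600000014 6 7) 0 0 (step_sound _ 130 [(rh7086929b0e17680e.shift 1 0), (rh7ef5fa5c39f1c762.shift 1 1), rhe9ae10b1a5d27fc3, (rhfeb565e3642a0443.shift 1 1)] (by decide +kernel))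
noncomputable def rh73915d77a54fc4e5 : CRef := CRef.mk (Pat.mk 0x16000000140000000000000000 0x200000002000000070000001e000000370000000400000004 6 6) 0 0 (step_sound _ 99 [rha3a3f9dc7580010b, (rhe25b0a99195a5d59.shift 1 2)] (by decide +kernel))
noncomputable def rh77f532229b2007e0 : CRef := CRef.mk (Pat.mk 0x5800000050000000000000000000000000 0x180000001c0000001c0000007c0000007f0000001f0000001800000008 6 7) 0 0 (step_sound _ 99 [(rh2da7bb8ee8429194.shift 2 0), (rh910ac58a981e3cfe.shift 2 0), (rhaf17d7ce619e136e.shift 2 0), (rhdb8fdefbce6a08fb.shift 0 2)] (by decide +kernel))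
noncomputable def rh60e87a5827f05196 : CRef := CRef.mk (Pat.mk 0x140000001c000000000000000000000000 0x60000000e0000000f0000001c0000007f0000007c0000001c0000001c 6 7) 0 0 (step_sound _ 131 [(rh2ed4ea5d5088228d.shift 0 2), rh60723c6fe03da383, (rhc7748ec1e18e652f.shift 0 1), rhcb68da4f2dc5e7fd] (by decide +kernel))
noncomputable def rh15a70f0370365c2b : CRef := CRef.mk (Pat.mk 0x5000000058000000000000000000000000 0x18000000180000001c0000007c0000007f0000003c0000001800000018 6 7) 0 0 (step_sound _ 131 [(rh910ac58a981e3cfe.shift 2 0), (rhaf17d7ce619e136e.shift 2 0), rhbeb2fa530076c156] (by decide +kernel))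
noncomputable def rh9de0840a9a3d3233 : CRef := CRef.mk (Pat.mk 0x5000000018000000000000000000000000 0x380000003c0000003c0000007c0000001f000000fc0000003c0000003c 6 8) 0 0 (step_sound _ 131 [(rh2da7bb8ee8429194.shift 2 0), (rh5dc5071a19a64e2e.shift 2 0), (rh910ac58a981e3cfe.shift 2 0), rhbeb2fa530076c156, (rhdf5876b222a4c700.shift 1 0)] (by decide +kernel))
noncomputable def rh0f290ca90985c33d : CRef := CRef.mk (Pat.mk 0x2800000038000000000000000000000000 0x140000001c0000001c00000028000000fc000000ff000000d400000050 6 8) 0 0 (step_sound _ 67 [(rh136da48a6dbd44d0.shift 0 1), (rh2820ca9a6c4f41b4.shift 0 2), (rhe68c43c2407ca6f0.shift 2 0)] (by decide +kernel))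
noncomputable def rhcb46da6e6e6ce6f4 : CRef := CRef.mk (Pat.mk 0x4000000140000000400000000 0xa0000000e0000000e00000004000000370000003e0000000a 6 6) 0 0 (step_sound _ 130 [(rh0fd870c734e6c513.shift 1 0), (rh20966da26a1c2ae8.shift 1 0), (rh7ef5fa5c39f1c762.shift 1 1), rhe06c7604aef75ec4] (by decide +kernel))
noncomputable def rhca9d6365a7373c35 : CRef := CRef.mk (Pat.mk 0x80000002800000028000000000000000000000000 0x10000000780000007c0000002f0000007c0000006e0000004400000044 6 7) 0 0 (step_sound _ 66 [(rh3743dbe66b959104.shift 2 0), (rh500fb1836ab2ed66.shift 1 2), (rh544d3caba1e1e2bb.shift 2 0), rh6c9c5caca09abb75, (rhb01ac4982a11ea27.shift 2 0)] (by decide +kernel))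
noncomputable def rhb76fc2c8849487ed : CRef := CRef.mk (Pat.mk 0x40000001400000014000000000000000000000000 0x80000000a0000003e0000001f0000001600000014000000160000000600000002 6 6) 0 0 (step_sound _ 195 [(rh1a77efeddae3962a.shift 1 0), (rh23d0e80c801fc3e0.shift 0 2), (rhee04577b5ae6061f.shift 2 2)] (by decide +kernel))
noncomputable def rh8883bd156a218f06 : CRef := CRef.mk (Pat.mk 0x80000002800000028000000000000000000000000 0xf40000007c0000002f000000380000003c0000001c00000014 6 8) 0 0 (step_sound _ 67 [(rh3181373a30ceb9e3.shift 2 0), (rh45fda7233c8d0aaa.shift 0 1), (rh46baee19951a66e7.shift 2 0), (rh6aa5625770489e83.shift 2 0)] (by decide +kernel))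
noncomputable def rh16c3316bfefc96a8 : CRef := CRef.mk (Pat.mk 0x200000002000000020000000000000000 0x10000000700000007000000070000000300000003000000070000000600000004 6 3) 0 0 (step_sound _ 161 [(rh1d02867ed80f91bc.shift 0 1), rh46baee19951a66e7, (rh7ef5fa5c39f1c762.shift 0 2), rhae22d6cdf819408b] (by decide +kernel))
noncomputable def rhe98aea39e6ac8f0e : CRef := CRef.mk (Pat.mk 0x4000000140000000400000000 0xa0000000e0000000e00000004000000370000003e0000000a 6 6) 0 0 (step_sound _ 130 [(rh0fd870c734e6c513.shift 1 0), (rh55a026e6f690bbaf.shift 1 0), (rh7ef5fa5c39f1c762.shift 1 1), rhe06c7604aef75ec4] (by decide +kernel))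
noncomputable def rh6a9b20b447126fb8 : CRef := CRef.mk (Pat.mk 0xe0000000800000008000000000000000000000000 0x120000001a0000001a0000000e0000007f0000007f000000fc0000001800000010 6 8) 0 0 (step_sound _ 98 [rh29ca2531e7d42066, (rh5ad428eba4eaf175.shift 1 0), (rh6a2abf98d2f26bd0.shift 2 2), (rh7a7e08304268422e.shift 2 2)] (by decide +kernel))
noncomputable def rhbca5f9dfe2d0dc84 : CRef := CRef.mk (Pat.mk 0xe0000000800000008000000000000000000000000 0x10000000180000001a0000000e0000007e0000007f000000f40000001400000014 6 8) 0 0 (step_sound _ 98 [(rh6a2abf98d2f26bd0.shift 2 2), (rhb8581b5ad7c99b58.shift 0 1), rhc686395c067e409c, (rhfafeb437ceb8396d.shift 2 0)] (by decide +kernel))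
noncomputable def rh5b4e2ca931bc9b77 : CRef := CRef.mk (Pat.mk 0x1c0000001000000010000000000000000000000000 0x40000001c000000180000003c000000ff0000003c00000028 6 8) 0 0 (step_sound _ 68 [(rh1f3a6ba70a310ab1.shift 3 0), (rh416b956ccae89216.shift 0 1), (rh8cdd36b03d57a2f6.shift 3 0), (rha613ffd40b6c9d24.shift 3 0)] (by decide +kernel))
noncomputable def rh6f0723d3f27d430d : CRef := CRef.mk (Pat.mk 0x1600000014000000000000000000000000 0xa0000000e0000001e0000003e000000170000003e0000000c0000000c00000008 6 6) 0 0 (step_sound _ 99 [rh261e3bc3ca08f44d, (rhf48373e13d2bc128.shift 1 3)] (by decide +kernel))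
noncomputable def rh3753d3e6260ac1c1 : CRef := CRef.mk (Pat.mk 0x1800000050000000000000000000000000 0x80000001c000000ff0000003e0000001000000010 6 8) 0 0 (step_sound _ 101 [rh78ddd8cf51805ef5, (rhf48373e13d2bc128.shift 3 3)] (by decide +kernel))
noncomputable def rh3cfa19cba8a887bc : CRef := CRef.mk (Pat.mk 0xc0000002800000000000000000000000000000000 0x140000001c0000001c0000000c000000780000001f0000001c0000001c00000014 6 7) 0 0 (step_sound _ 132 [rh9c5ead9a9fbff3d6, (rhf48373e13d2bc128.shift 2 4)] (by decide +kernel))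
noncomputable def rh9b0d46df805a9d0a : CRef := CRef.mk (Pat.mk 0x60000000400000000000000000000000000000000 0x20000000e0000000e0000003e00000007000000060000000e0000000e0000000e0000000a 6 6) 0 0 (step_sound _ 98 [(rh0a6888916bcef86b.shift 1 0), (rh406bfc4f631a2f4f.shift 1 0), (rh7b24c4ccc068b0b2.shift 1 2), (rha0c86a85e724b3ac.shift 0 2), (rhf9a6286f1d5377a2.shift 1 2)] (by decide +kernel))
noncomputable def rhe8e72254d090ece0 : CRef := CRef.mk (Pat.mk 0x5000000050000000000000000000000000 0x1e0000007c000000ff0000003c0000001800000018 6 8) 0 0 (step_sound _ 131 [(rh1f7cdca6e3e06448.shift 1 3), rh27f511ca6cb401ba, (rh7f0feb9d0da09cbe.shift 2 0), (rha6816dee951f7ee6.shift 3 3)] (by decide +kernel))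
noncomputable def rh2bbde704e844f8b8 : CRef := CRef.mk (Pat.mk 0x38000000280000000000000000 0x100000001c0000001e000000380000003f0000002c0000002c 6 6) 0 0 (step_sound _ 132 [(rh32f6277f14b47a8f.shift 3 0), (rh5d54cb79a67f97ab.shift 4 0), rh9e6165d51a3a0d73] (by decide +kernel))
noncomputable def rh6bebd2e876b52553 : CRef := CRef.mk (Pat.mk 0x38000000280000000000000000 0x1000000010000000180000003c0000003f0000007800000028 6 7) 0 0 (step_sound _ 132 [(rh32f6277f14b47a8f.shift 3 0), (rh5d54cb79a67f97ab.shift 4 0), rhb9822be4e4a00d92] (by decide +kernel))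
noncomputable def rhff2ca81b20c1cd58 : CRef := CRef.mk (Pat.mk 0x3800000028000000000000000000000000 0xc0000001c0000001f00000038000000fe000000f80000003800000038 6 8) 0 0 (step_sound _ 100 [rh1085b9e5159d0f8c, (rh2ed4ea5d5088228d.shift 1 2), (rhc7748ec1e18e652f.shift 1 1), (rhcb68da4f2dc5e7fd.shift 1 0)] (by decide +kernel))
noncomputable def rhcb2092b0c647b004 : CRef := CRef.mk (Pat.mk 0x28000000380000000000000000 0x6000000060000003e0000003e0000007f00000008 6 7) 0 0 (step_sound _ 66 [(rh2ebbcfe90e0f250d.shift 1 1), (rh43715a9a1b5d459f.shift 1 0), (rh8195a2d7794c7cd2.shift 0 1)] (by decide +kernel))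
noncomputable def rhb93910d60b250a25 : CRef := CRef.mk (Pat.mk 0x280000003800000000 0x3b8000003fe000003f7 6 10) 0 0 (step_sound _ 38 [(rh167fff566cb27b75.shift 3 0), (rh50c0dce797577b38.shift 2 0), rh876d00253a2d8335, (rha68ac53db4c136d7.shift 2 0)] (by decide +kernel))
noncomputable def rha73cf3548cc74670 : CRef := CRef.mk (Pat.mk 0x280000002800000008000000000000000000000000 0x140000003e0000003f000000080000001c0000001c00000014 6 6) 0 0 (step_sound _ 67 [(rh0c1c1b53bc5a1510.shift 2 0), (rh3181373a30ceb9e3.shift 2 0), (rh7d7266a32953fdc7.shift 0 2), (rhcae87bda2c3c01d2.shift 2 0)] (by decide +kernel))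
noncomputable def rhdf1801842855c157 : CRef := CRef.mk (Pat.mk 0x2800000028000000080000000000000000 0x140000001c0000001c000000380000003f0000007c0000007400000040 6 7) 0 0 (step_sound _ 163 [(rh0fd870c734e6c513.shift 2 1), (rh402d223d12d7377d.shift 2 1), (rh7ef5fa5c39f1c762.shift 2 2), rhcde9ea51c1d816f3] (by decide +kernel))
noncomputable def rh16a6b9ce1e55a219 : CRef := CRef.mk (Pat.mk 0x500000007000000000000000000000000000000000 0x300000003000000070000001fe000003bf000000380000003800000018 6 10) 0 0 (step_sound _ 101 [(rh208e23c45702650b.shift 2 0), (rh6d3fef824eae25a9.shift 0 3), (rhade0f4c81793f68e.shift 4 1), (rhbe707112c53dab40.shift 4 1)] (by decide +kernel))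
noncomputable def rh0b048f37b6779026 : CRef := CRef.mk (Pat.mk 0x280000003800000000000000000000000000000000 0x800000008000000380000003e000000ff0000007e0000007c00000068 6 8) 0 0 (step_sound _ 100 [(rhade0f4c81793f68e.shift 3 1), (rhbe707112c53dab40.shift 3 1), (rhd0c9416bd38ee36b.shift 1 0), (rhe3880011c4a6d24e.shift 0 1)] (by decide +kernel))
noncomputable def rhab4ffb997b25582b : CRef := CRef.mk (Pat.mk 0x4000000140000000400000000 0xa0000000e0000000e00000004000000370000003e0000000a 6 6) 0 0 (step_sound _ 130 [(rh0fd870c734e6c513.shift 1 0), (rh402d223d12d7377d.shift 1 0), (rh7ef5fa5c39f1c762.shift 1 1), rhe06c7604aef75ec4] (by decide +kernel))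
noncomputable def rhf01b46c4e455e3a0 : CRef := CRef.mk (Pat.mk 0x20000000e00000000 0xe30000007e0000007e 6 8) 0 0 (step_sound _ 36 [(rh3244c3cc8379b070.shift 0 1), (rhedc71b05c23a1746.shift 1 0)] (by decide +kernel))
noncomputable def rh1dc347a6d91650be : CRef := CRef.mk (Pat.mk 0x2800000038000000000000000000000000 0x8000000080000002e0000003e0000007f0000001400000014 6 7) 0 0 (step_sound _ 98 [(rh2eed2c61e5cda634.shift 1 0), (rh4f129d8f37c2c70a.shift 1 0), (rh8195a2d7794c7cd2.shift 0 2)] (by decide +kernel))
noncomputable def rh8869f299ae844396 : CRef := CRef.mk (Pat.mk 0xa0000000e000000000000000000000000 0x8000000080000000b0000003e0000000f0000000400000004 6 6) 0 0 (step_sound _ 100 [(rh3244c3cc8379b070.shift 0 3), rh9cf1eae2eabf38ec] (by decide +kernel))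
noncomputable def rh90b68f12937a9b6c : CRef := CRef.mk (Pat.mk 0x140000001c000000000000000000000000 0xa0000000e0000001e0000003e000000170000003e0000000c0000000c00000008 6 6) 0 0 (step_sound _ 129 [rh261e3bc3ca08f44d, (rhf48373e13d2bc128.shift 1 3)] (by decide +kernel))
noncomputable def rhb5d0a291d1a71c0c : CRef := CRef.mk (Pat.mk 0x140000001c000000000000000000000000 0x1400000014000000160000001e0000001f0000000a0000000a 6 5) 0 0 (step_sound _ 67 [rhad2830904f22b624, (rhade0f4c81793f68e.shift 2 0), (rhcf80391c5046a495.shift 3 0)] (by decide +kernel))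
noncomputable def rh96fb2336bd10fb07 : CRef := CRef.mk (Pat.mk 0x2000000038000000000000000000000000 0x20000003a0000001fe000003ff0000004000000040 6 10) 0 0 (step_sound _ 102 [(rh8db7f7558b75b2b1.shift 2 2), (rh9bf0be42223291ee.shift 2 0), (rhde1134cc47f88c8e.shift 2 2), (rhf9fcd6ab17b53276.shift 0 2)] (by decide +kernel))
noncomputable def rh9008652077d9ce65 : CRef := CRef.mk (Pat.mk 0x140000001c00000000000000000000000000000000 0x2c0000003c0000003c000000170000001e000000fe000000300000002000000020 6 8) 0 0 (step_sound _ 100 [(rh5a8abb721f11b584.shift 1 0), (rh7ad0b0eec55f713d.shift 2 2), (rhc21a95c499b3efdb.shift 1 3), (rhefe189f26afa68e4.shift 0 3)] (by decide +kernel))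
noncomputable def rh3898fd174251a40e : CRef := CRef.mk (Pat.mk 0xa0000000e00000000000000000000000000000000 0x140000001e0000001e0000000b0000000f0000007c0000001c0000001000000010 6 7) 0 0 (step_sound _ 99 [(rh20cae81380e2d2a4.shift 0 2), rh5a8abb721f11b584, (rhc21a95c499b3efdb.shift 0 3)] (by decide +kernel))
noncomputable def rh9ca4ac62ee73bf4e : CRef := CRef.mk (Pat.mk 0xa0000001a000000000000000000000000 0x140000001d0000003f0000001f0000000b0000001a0000001f0000001f00000015 6 6) 0 0 (step_sound _ 163 [rh08fd3225d062c78b, (rh14e0829dc73b6804.shift 2 2), (rh70e33bfdf511e144.shift 3 0), rhef9f25969bf02fb9] (by decide +kernel))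
noncomputable def rhd00d0393565fcd99 : CRef := CRef.mk (Pat.mk 0x80000002800000028000000000000000000000000 0x10000000140000003c0000003f0000002c000000280000002c0000000c00000004 6 6) 0 0 (step_sound _ 196 [(rh08d50fe567eb1045.shift 3 2), (rh1a77efeddae3962a.shift 2 0), (rh22d86f446f3de558.shift 0 2), (rhee04577b5ae6061f.shift 3 2)] (by decide +kernel))
noncomputable def rh21dd313def49154d : CRef := CRef.mk (Pat.mk 0x40000001400000014000000000000000000000000 0x28000000380000007c0000003e000000170000003e000000370000002200000022 6 7) 0 0 (step_sound _ 65 [(rh3743dbe66b959104.shift 1 0), (rh500fb1836ab2ed66.shift 0 2), (rh544d3caba1e1e2bb.shift 1 0), (rhb01ac4982a11ea27.shift 1 0), (rhcda502c60e91dae4.shift 1 0)] (by decide +kernel))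
noncomputable def rh594f41a29cd85190 : CRef := CRef.mk (Pat.mk 0x8000000080000002800000000000000000000000000000000 0xc0000000c0000000c0000000e0000007c0000000f0000001c0000001c00000014 6 7) 0 0 (step_sound _ 99 [(rh0fd870c734e6c513.shift 2 2), (rh1dfc719e5d411a4a.shift 1 2), (rh9e174856810c5f95.shift 2 0), (rhc8fd50c44a2112a0.shift 0 2)] (by decide +kernel))
noncomputable def rheb84c9aeb7cf5fd7 : CRef := CRef.mk (Pat.mk 0x80000000800000028000000000000000000000000 0x140000007c0000000e0000007c0000000f0000000c00000004 6 7) 0 0 (step_sound _ 67 [(rh6aa5625770489e83.shift 2 0), (rhc8fd50c44a2112a0.shift 0 1), (rhe1bcd80b5c7d4f4c.shift 1 1)] (by decide +kernel))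
noncomputable def rh52807889b4a3cc63 : CRef := CRef.mk (Pat.mk 0x14000000140000000400000000 0xa0000007e0000003e000000170000001e0000001e0000000a 6 7) 0 0 (step_sound _ 130 [(rh0fd870c734e6c513.shift 1 0), (rh402d223d12d7377d.shift 1 0), rh65072d6eda033e86, (rh7ef5fa5c39f1c762.shift 1 1)] (by decide +kernel))
noncomputable def rhc29ec4d2c93b982f : CRef := CRef.mk (Pat.mk 0x2800000038000000000000000000000000 0x1c0000001c0000001c0000002e0000003c0000001f0000001c00000014 6 6) 0 0 (step_sound _ 163 [rh93d0ba55461319f1, (rha768b229dc254047.shift 3 0), (rhd5bee40719d2df81.shift 1 2), (rheaf5453bdfd1db11.shift 1 2)] (by decide +kernel))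
noncomputable def rhd36b127704f8381d : CRef := CRef.mk (Pat.mk 0xa0000000a000000020000000000000000 0x140000003e0000001e0000000b0000001b0000001f0000001f00000005 6 6) 0 0 (step_sound _ 161 [rh3181373a30ceb9e3, rh31af36bbc0ef7d14, (rh402d223d12d7377d.shift 0 1)] (by decide +kernel))
noncomputable def rhc55ced547154c08f : CRef := CRef.mk (Pat.mk 0x2800000028000000000000000000000000 0x28000000280000002e000000fe000001ff0000005400000054 6 9) 0 0 (step_sound _ 100 [(rh1561ff1fafeb7917.shift 2 2), (rh24e72371d7873615.shift 2 0), (rh4dfabd725d1e89ab.shift 1 0), rh9052859d4d9b7199, (rha436af02a231ac11.shift 2 0), (rhb5c2b6462b8d30ac.shift 1 2)] (by decide +kernel))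
noncomputable def rh7614bf407aa392fb : CRef := CRef.mk (Pat.mk 0x16000000100000000000000000 0x10000000300000001f0000003b0000000800000008 6 6) 0 0 (step_sound _ 99 [(rhe25b0a99195a5d59.shift 1 2), rhe4e5d13861980637] (by decide +kernel))
noncomputable def rh5b368ce0f43ea00e : CRef := CRef.mk (Pat.mk 0x1e000000000000000000000000 0x50000000700000007000000070000001e000000070000000600000006 6 5) 0 0 (step_sound _ 129 [rh0b7b00169876e0a9, (rh3244c3cc8379b070.shift 0 3)] (by decide +kernel))
noncomputable def rh78bbdca7560a181d : CRef := CRef.mk (Pat.mk 0x1600000014000000000000000000000000 0x400000016000000170000001f0000003f0000000f0000000f 6 6) 0 0 (step_sound _ 97 [rh048d0bc650a6bbc1, rh5dc5071a19a64e2e, rh9bb455da33111465] (by decide +kernel))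
noncomputable def rh2cfa70437f2adc30 : CRef := CRef.mk (Pat.mk 0x160000001400000000000000000000000000000000 0x2000000060000001600000016000000370000003e0000007f0000000e0000000a 6 7) 0 0 (step_sound _ 98 [(rh0a6888916bcef86b.shift 1 0), (rh406bfc4f631a2f4f.shift 1 0), rh459ffebd7e24f7ea, (rh7b24c4ccc068b0b2.shift 1 2), (rhf9a6286f1d5377a2.shift 1 2)] (by decide +kernel))
noncomputable def rh2aa54a1e1bc2290e : CRef := CRef.mk (Pat.mk 0x2c00000028000000000000000000000000 0x140000001c0000001c0000001c0000002c0000007c0000001f0000001c00000010 6 7) 0 0 (step_sound _ 100 [rh8f85abdc09a07da3, (rhf48373e13d2bc128.shift 2 3)] (by decide +kernel))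
noncomputable def rh8a57e8aad2d897f7 : CRef := CRef.mk (Pat.mk 0xc0000000800000000000000000000000000000000 0x1c0000001c0000007c0000000f0000000c0000001c0000001c0000001c00000014 6 7) 0 0 (step_sound _ 99 [(rh0a6888916bcef86b.shift 2 0), (rh406bfc4f631a2f4f.shift 2 0), (rh7b24c4ccc068b0b2.shift 2 2), (rhb56709839a23492d.shift 0 2), (rhf9a6286f1d5377a2.shift 2 2)] (by decide +kernel))
noncomputable def rh73a2d3337aa51751 : CRef := CRef.mk (Pat.mk 0x2800000028000000000000000000000000 0x4000000040000000e0000003f0000007e0000000e0000000c00000004 6 7) 0 0 (step_sound _ 130 [(rh8c25cb665ab79ec0.shift 0 3), (rha6816dee951f7ee6.shift 2 3), (rhacd8c296f117c421.shift 1 0), (rhc49626c89a3eb918.shift 1 1)] (by decide +kernel))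
noncomputable def rh48ea97d8378decc4 : CRef := CRef.mk (Pat.mk 0x140000001c000000000000000000000000 0x2000000020000000f0000001f0000001f000000340000001400000010 6 6) 0 0 (step_sound _ 131 [(rh13294eb4fb4f9c62.shift 0 1), (rhaed54c24fb91f24a.shift 0 1), rhcb68da4f2dc5e7fd] (by decide +kernel))
noncomputable def rhc1969d2668391cd3 : CRef := CRef.mk (Pat.mk 0x2800000038000000000000000000000000 0xc0000000c0000001f00000038000000fe000000f80000003800000038 6 8) 0 0 (step_sound _ 132 [rh1085b9e5159d0f8c, (rhcb68da4f2dc5e7fd.shift 1 0), (rhe3e8c074aa83e8bd.shift 1 2)] (by decide +kernel))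
noncomputable def rh0a2e9ded62896945 : CRef := CRef.mk (Pat.mk 0x20000000e00000000000000000000000000000000 0x400000006000000e60000007e000000f7000000070000000700000005 6 8) 0 0 (step_sound _ 132 [(rh1136b81d2c6924ee.shift 1 3), rh76ed7ba3604996d3, (rh8db7f7558b75b2b1.shift 0 3)] (by decide +kernel))
noncomputable def rhaf135af1dd3c6c59 : CRef := CRef.mk (Pat.mk 0x280000003800000000 0x3b8000001fe000003ff 6 10) 0 0 (step_sound _ 38 [(rh008b05f4778dc30d.shift 1 0), (rh1136b81d2c6924ee.shift 3 0), rh876d00253a2d8335, (rh8db7f7558b75b2b1.shift 2 0), (rhadc536e7e02168ad.shift 1 0)] (by decide +kernel))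
noncomputable def rhfcb70b58f3e56a11 : CRef := CRef.mk (Pat.mk 0x28000000380000000000000000 0x6000000060000003f0000003e0000007e00000008 6 7) 0 0 (step_sound _ 66 [(rh2ba551de881ca4cd.shift 0 1), (rh2ebbcfe90e0f250d.shift 1 1), (rh43715a9a1b5d459f.shift 1 0)] (by decide +kernel))
noncomputable def rhc23d8a6577965f32 : CRef := CRef.mk (Pat.mk 0x2800000038000000000000000000000000 0x140000001c0000001c0000001c0000002e0000003c0000001f0000001c00000014 6 6) 0 0 (step_sound _ 163 [(rh3817154459371c30.shift 1 0), rh76a7abed70c2c2fd, (rha768b229dc254047.shift 3 0), (rhc0f6fe06378683f4.shift 2 2)] (by decide +kernel))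
noncomputable def rhf60808b0f874ef91 : CRef := CRef.mk (Pat.mk 0x80000002800000028000000000000000000000000 0xf40000007c0000002f000000380000003c0000001c00000014 6 8) 0 0 (step_sound _ 67 [(rh3181373a30ceb9e3.shift 2 0), (rh46baee19951a66e7.shift 2 0), (rh6aa5625770489e83.shift 2 0), (rhf081c889b5d166e5.shift 0 1)] (by decide +kernel))
noncomputable def rh6de75e54439d988c : CRef := CRef.mk (Pat.mk 0x280000002800000020000000000000000000000000 0x140000001c0000003c000000280000007c0000003f0000003f0000001000000010 6 7) 0 0 (step_sound _ 99 [(rh6a922cb14db74f17.shift 2 1), rh7d833cc8ad8b613a, (rhe793825c4305264c.shift 0 2)] (by decide +kernel))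
noncomputable def rh79e17c97c64f8859 : CRef := CRef.mk (Pat.mk 0x20000000a0000000a000000000000000000000000 0x150000003f0000001f0000000b0000001a0000001e0000001e00000004 6 6) 0 0 (step_sound _ 65 [rh46baee19951a66e7, rh4ebf2782828c7c6e, (rh7ef5fa5c39f1c762.shift 0 2)] (by decide +kernel))
noncomputable def rh28b9458046de8449 : CRef := CRef.mk (Pat.mk 0x2000000020000000200000000000000000000000000000000 0x60000000600000007000000030000000300000007000000070000000700000001 6 3) 0 0 (step_sound _ 97 [(rh3181373a30ceb9e3.shift 0 1), (rh402d223d12d7377d.shift 0 2), rh639d3f65570d8682, (rhae22d6cdf819408b.shift 0 1)] (by decide +kernel))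
noncomputable def rhb078a5da877183ee : CRef := CRef.mk (Pat.mk 0x40000000400000014000000000000000000000000 0x20000000600000006000000370000003e0000000e0000000a 6 6) 0 0 (step_sound _ 66 [(rh3181373a30ceb9e3.shift 1 0), (rh46baee19951a66e7.shift 1 0), (rh6aa5625770489e83.shift 1 0), (rhe06c7604aef75ec4.shift 0 1)] (by decide +kernel))
noncomputable def rhd6b454f644f5ed9f : CRef := CRef.mk (Pat.mk 0x2800000028000000000000000000000000 0x28000000280000002f000000fe000001ff0000005400000014 6 9) 0 0 (step_sound _ 100 [(rh1561ff1fafeb7917.shift 2 2), (rh7d41fed0b41e24c5.shift 2 0), (rha9fbfd4bb8cf890b.shift 0 3), rheb148aa76a4b79f6] (by decide +kernel))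
noncomputable def rhc4b2ca34eb8a1148 : CRef := CRef.mk (Pat.mk 0x2800000020000000000000000000000000 0x5000000070000000f70000003e000001f0000000700000007000000050 6 9) 0 0 (step_sound _ 132 [rh663c6a363477d004, (rhb018a7c71ce35183.shift 3 0), (rhc21a95c499b3efdb.shift 2 3), (rhded5813b939f1319.shift 0 3)] (by decide +kernel))
noncomputable def rh47e8913cbb50432b : CRef := CRef.mk (Pat.mk 0x38000000280000000000000000 0x1400000014000000ff000000fe000000380000000800000008 6 8) 0 0 (step_sound _ 132 [(rh32f6277f14b47a8f.shift 3 0), (rh6d3f72594fd02f06.shift 1 0), (rhca4cc60e6440c9ba.shift 0 2), (rhdabfcd0659c2d3c8.shift 3 0)] (by decide +kernel))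
noncomputable def rh8af0b33ce25ec308 : CRef := CRef.mk (Pat.mk 0x14000000140000000400000000000000000000000000000000 0x1400000016000000160000007e0000000f0000000e0000000e00000008 6 7) 0 0 (step_sound _ 98 [(rh3181373a30ceb9e3.shift 1 1), (rh5323dea0578fde47.shift 0 2), (rh7b6911d49691f535.shift 1 2), (rhc324b959c2cd5e2b.shift 1 0)] (by decide +kernel))
noncomputable def rh95895b7e7960c0ee : CRef := CRef.mk (Pat.mk 0x680000002800000000000000000000000000000000 0x540000007c0000007c000000680000002f0000007c0000007e0000007400000050 6 7) 0 0 (step_sound _ 101 [rh0cf6a206c3664f56, rh17d0e2f01dc54128, (rh215e11e099257d75.shift 5 2), (rhffb8e5993241bf15.shift 4 0)] (by decide +kernel))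
noncomputable def rhc84d8c7482a5eb82 : CRef := CRef.mk (Pat.mk 0x140000001400000004000000000000000000000000 0x80000001a0000001e000000160000003e0000003f0000002e0000000a 6 6) 0 0 (step_sound _ 66 [(rh0c1c1b53bc5a1510.shift 1 0), (rh3181373a30ceb9e3.shift 1 0), (rh4e8846cc642b4a24.shift 0 1), (rhcae87bda2c3c01d2.shift 1 0)] (by decide +kernel))
noncomputable def rhb7e09e777b1e787c : CRef := CRef.mk (Pat.mk 0xc0000000800000000000000000000000000000000 0x40000001c0000001c0000007c0000000f0000000c0000001c0000001c0000001c00000014 6 7) 0 0 (step_sound _ 99 [(rh369225b5d41e1569.shift 2 1), (rh406bfc4f631a2f4f.shift 2 0), (rh7b24c4ccc068b0b2.shift 2 2), (rh96ac08f3e4d2f790.shift 0 2), (rhf9a6286f1d5377a2.shift 2 2)] (by decide +kernel))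
noncomputable def rh593db512304b15c8 : CRef := CRef.mk (Pat.mk 0x2800000038000000000000000000000000 0x140000001c0000001c0000001c0000003c000000380000001f0000001c0000001c 6 6) 0 0 (step_sound _ 163 [(rha768b229dc254047.shift 3 0), (rhb1beb69913c0a930.shift 2 0), (rhc0f6fe06378683f4.shift 2 2), rhd31751788e163ec1] (by decide +kernel))
noncomputable def rh59e0e2fa5b77d22a : CRef := CRef.mk (Pat.mk 0x800000028000000280000000000000000 0x100000001800000038000000380000002e0000007c0000002f00000004 6 7) 0 0 (step_sound _ 164 [(rh3b017ab2cd1ceb67.shift 1 1), rh91a39d28c58a3b7c, (rhee04577b5ae6061f.shift 3 1)] (by decide +kernel))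
noncomputable def rh157b0270421eeec2 : CRef := CRef.mk (Pat.mk 0x2800000038000000000000000000000000 0x140000001c0000001c0000001c0000002f0000003e0000001f0000001c00000014 6 6) 0 0 (step_sound _ 163 [(rh40fc3cf085d4bd79.shift 0 2), rh93d0ba55461319f1, (rha768b229dc254047.shift 3 0), (rhc0f6fe06378683f4.shift 2 2)] (by decide +kernel))
noncomputable def rh90b36e62887e538d : CRef := CRef.mk (Pat.mk 0x2800000028000000000000000000000000 0x40000000f0000003f0000007f0000000e0000000c00000004 6 7) 0 0 (step_sound _ 130 [(rh1f7cdca6e3e06448.shift 0 3), (rh8c25cb665ab79ec0.shift 0 3), (rha6816dee951f7ee6.shift 2 3), (rhacd8c296f117c421.shift 1 0)] (by decide +kernel))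
noncomputable def rhbabffc97ec5acff8 : CRef := CRef.mk (Pat.mk 0x2800000038000000000000000000000000 0x140000001c0000001c0000001c0000003c000000380000001f0000001c0000001c 6 6) 0 0 (step_sound _ 163 [(rh5bbc0f892859fdc5.shift 2 0), rh88923257c65ef0b4, (rha768b229dc254047.shift 3 0), (rhc0f6fe06378683f4.shift 2 2)] (by decide +kernel))
noncomputable def rhccf8ce4b707ff77c : CRef := CRef.mk (Pat.mk 0x2800000028000000000000000000000000 0x8000000080000003f000000fe0000007e0000001400000014 6 8) 0 0 (step_sound _ 100 [(rh24e72371d7873615.shift 2 0), (rh7f25d458aa6324fe.shift 1 0), (rha9fbfd4bb8cf890b.shift 0 3)] (by decide +kernel))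
noncomputable def rh3c1f8dd5bfa83145 : CRef := CRef.mk (Pat.mk 0x2800000038000000000000000000000000 0x140000001c0000001c0000001c0000002f0000003e0000001f0000001c0000001c 6 6) 0 0 (step_sound _ 163 [rh76a7abed70c2c2fd, (rha768b229dc254047.shift 3 0), (rhc0f6fe06378683f4.shift 2 2), rhd5319de26e5240b4] (by decide +kernel))
noncomputable def rh6c3706876b3a05c6 : CRef := CRef.mk (Pat.mk 0x280000002800000020000000000000000000000000 0x140000001c0000003c000000280000007c0000003f0000003e0000001400000014 6 7) 0 0 (step_sound _ 99 [(rh6a922cb14db74f17.shift 2 1), (rhbdfba23297321f80.shift 1 0), (rhe793825c4305264c.shift 0 2)] (by decide +kernel))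
noncomputable def rhb89ad7622e53b065 : CRef := CRef.mk (Pat.mk 0x5000000070000000000000000000000000 0x500000005000000057000000fe0000007e0000002800000028 6 8) 0 0 (step_sound _ 69 [rh2d8f96205aef0b5c, (rhade0f4c81793f68e.shift 4 0), (rhcf80391c5046a495.shift 5 0)] (by decide +kernel))
noncomputable def rhe99bfe815d168007 : CRef := CRef.mk (Pat.mk 0x2800000068000000000000000000000000 0x50000000740000007c0000007c0000002f000000680000007c0000007c00000054 6 7) 0 0 (step_sound _ 163 [rh3308f7430b387c3e, (rh33d7f1bee8f3d95a.shift 2 0), rh65b04519e93422b5, (rh7363f1305eb19370.shift 2 0), (rhdee67538b8dccf39.shift 2 0)] (by decide +kernel))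
noncomputable def rh4e11a3d68f657061 : CRef := CRef.mk (Pat.mk 0x2800000038000000000000000000000000 0x140000001c0000001c0000001c0000002e0000003c0000001f0000001c0000001c 6 6) 0 0 (step_sound _ 163 [(rh349da3375a2b01e5.shift 1 0), rh76a7abed70c2c2fd, (rha768b229dc254047.shift 3 0), (rhc0f6fe06378683f4.shift 2 2)] (by decide +kernel))
noncomputable def rh6bfac8cab3a85ce1 : CRef := CRef.mk (Pat.mk 0x140000001400000004000000000000000000000000 0x1200000016000000160000007e0000003f0000002e0000000a 6 7) 0 0 (step_sound _ 66 [(rh0c1c1b53bc5a1510.shift 1 0), (rh3181373a30ceb9e3.shift 1 0), (rh46baee19951a66e7.shift 1 0), (rhd58cef73aa1047b3.shift 0 1)] (by decide +kernel))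
noncomputable def rhecba4528f68c1c07 : CRef := CRef.mk (Pat.mk 0xc0000002800000000000000000000000000000000 0x140000001c0000001c0000000c0000007c0000001f0000001c0000001c00000014 6 7) 0 0 (step_sound _ 132 [rh2b2f6eab3094ca4f, (rhf48373e13d2bc128.shift 2 4)] (by decide +kernel))
noncomputable def rh502b50478cde9d94 : CRef := CRef.mk (Pat.mk 0xc0000000800000000000000000000000000000000 0x40000001c0000001c0000003c0000000f0000000c0000001c0000001c0000001c00000014 6 6) 0 0 (step_sound _ 99 [(rh0a6888916bcef86b.shift 2 0), (rh43d8dfd721575dfb.shift 2 0), (rh7b24c4ccc068b0b2.shift 2 2), (rh871d5ce499d9eda1.shift 2 0), (rh9b68a071bbd4e433.shift 0 2)] (by decide +kernel))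
noncomputable def rhf42734810ab7f272 : CRef := CRef.mk (Pat.mk 0x2c000000280000000000000000 0x4000000040000000f0000003e0000003f0000000800000008 6 6) 0 0 (step_sound _ 100 [(rh775ca1963e850b80.shift 0 2), (rha3a3f9dc7580010b.shift 1 0), (rhb4380df2e2db088b.shift 1 0), (rhdceeca65bdd8095a.shift 0 2)] (by decide +kernel))
noncomputable def rhbce7afc99fc0103d : CRef := CRef.mk (Pat.mk 0x2800000038000000000000000000000000 0x140000001c0000001c0000003c000000380000001f0000001c0000001c 6 6) 0 0 (step_sound _ 163 [(rh235edbdf3bbc6c03.shift 3 0), (rh56fa0f4d2c9da9fa.shift 2 0), (rha768b229dc254047.shift 3 0), rhb8a5325c9f5d88c8] (by decide +kernel))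
noncomputable def rh6a9e8ea4c938f614 : CRef := CRef.mk (Pat.mk 0x5000000058000000000000000000000000 0x1c0000003e0000007f0000007f0000003c0000001800000018 6 7) 0 0 (step_sound _ 131 [(rh26fad6f28aba9fb5.shift 0 1), (rh2da7bb8ee8429194.shift 2 0), rh897d573130d49112, (rh9bb455da33111465.shift 2 0)] (by decide +kernel))
noncomputable def rhb459f58511106d09 : CRef := CRef.mk (Pat.mk 0x80000002c000000000000000000000000 0x8000000080000000f0000003e0000007e0000000400000004 6 7) 0 0 (step_sound _ 66 [(rha7dfeceabd3f28a3.shift 0 2), (rhcf80391c5046a495.shift 2 0), (rhf9366b6a121593ef.shift 2 0)] (by decide +kernel))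
noncomputable def rh22670f23282ca475 : CRef := CRef.mk (Pat.mk 0x8000000380000000000000000000000000000000000000000 0x140000001c0000001c000000080000007c0000001f0000001c0000001c0000001c00000010 6 7) 0 0 (step_sound _ 131 [(rh0f4621604a17ae35.shift 2 0), (rh2820ca9a6c4f41b4.shift 0 4), (rhf0f55c4504412200.shift 0 4)] (by decide +kernel))
noncomputable def rh9b595c110d6e7e3a : CRef := CRef.mk (Pat.mk 0xa0000000e000000000000000000000000000000000 0x2000000030000000bf000000fe0000007e000000700000007000000070 6 8) 0 0 (step_sound _ 132 [(rh3423e5ac208fb65b.shift 3 1), (rh775ca1963e850b80.shift 2 3), (rh820546166e3a0a00.shift 0 3), (rh85810b7a5dd036d6.shift 2 0)] (by decide +kernel))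
noncomputable def rh4db5b04255e36160 : CRef := CRef.mk (Pat.mk 0x2800000038000000000000000000000000 0xc0000001c0000001f00000038000000fe000000f80000003800000038 6 8) 0 0 (step_sound _ 132 [rh1085b9e5159d0f8c, (rh2ed4ea5d5088228d.shift 1 2), (rh7fe3849afaeeddfd.shift 1 0), (rhc7748ec1e18e652f.shift 1 1)] (by decide +kernel))
noncomputable def rh043ebfbba7330cdf : CRef := CRef.mk (Pat.mk 0x140000001c00000000000000000000000000000000 0x4000000040000001c0000001f0000007f0000003f0000003e00000034 6 7) 0 0 (step_sound _ 99 [(rhade0f4c81793f68e.shift 2 1), (rhbe707112c53dab40.shift 2 1), rhd0c9416bd38ee36b, (rhd8e66b35e5f82302.shift 0 1)] (by decide +kernel))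
noncomputable def rhc60ed045d4ac5b0a : CRef := CRef.mk (Pat.mk 0x140000001c000000000000000000000000 0x40000000c0000001c0000007f000000370000001600000016 6 7) 0 0 (step_sound _ 131 [(rh39b36e93b258e604.shift 1 0), rh7fe3849afaeeddfd, rhad48fcc809438143] (by decide +kernel))
noncomputable def rhdebc400759f2ce9f : CRef := CRef.mk (Pat.mk 0x140000001c000000000000000000000000 0x40000000c0000001c0000007f0000007f0000001e0000001e 6 7) 0 0 (step_sound _ 67 [(rhade0f4c81793f68e.shift 2 0), (rhbe707112c53dab40.shift 2 0), rhd83d7c27dcb6fd73, rhd8e66b35e5f82302] (by decide +kernel))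
noncomputable def rha0d3d693be303b73 : CRef := CRef.mk (Pat.mk 0x200000002000000020000000000000000 0x10000000700000007000000070000000300000003000000070000000600000004 6 3) 0 0 (step_sound _ 161 [(rh1d02867ed80f91bc.shift 0 1), rh46baee19951a66e7, rhae22d6cdf819408b, (rhc85cc95794737cf7.shift 0 2)] (by decide +kernel))
noncomputable def rh5ddd66feac54658e : CRef := CRef.mk (Pat.mk 0xa0000000a00000002000000000000000000000000 0x4000000060000000f0000001b00000006000000070000000700000005 6 5) 0 0 (step_sound _ 65 [(rh12461e137161f2e1.shift 0 1), rh686dda116d7c0588, rh8cdd36b03d57a2f6, rha453be73bb897994] (by decide +kernel))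
noncomputable def rh89fe2686fe894ec2 : CRef := CRef.mk (Pat.mk 0xa0000000a00000002000000000000000000000000 0x50000000f0000001b00000002000000070000000700000005 6 5) 0 0 (step_sound _ 65 [rh46baee19951a66e7, rh6aa5625770489e83, rh8cdd36b03d57a2f6, (rha618f2f0ae83a98f.shift 0 1)] (by decide +kernel))
noncomputable def rh52dcc482a23e70a0 : CRef := CRef.mk (Pat.mk 0x4000000140000000400000000 0xa0000000e0000000e00000004000000370000003e0000000a 6 6) 0 0 (step_sound _ 130 [(rh20966da26a1c2ae8.shift 1 0), (rh565a0c22519f57e9.shift 1 0), (rhc85cc95794737cf7.shift 1 1), rhe06c7604aef75ec4] (by decide +kernel))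
noncomputable def rhdfea5b6790690c57 : CRef := CRef.mk (Pat.mk 0x2800000028000000000000000000000000 0x8000000080000003f000000fe000000ff0000001400000014 6 8) 0 0 (step_sound _ 100 [(rh24e72371d7873615.shift 2 0), (rha9fbfd4bb8cf890b.shift 0 3), rhade5efeb5882dd7f, rhd45e0e6a18a75442] (by decide +kernel))
noncomputable def rh16d5454196c5e9fe : CRef := CRef.mk (Pat.mk 0x8000000280000002800000000 0x100000001c0000001c0000001f000000fc0000002c0000002c00000028 6 8) 0 0 (step_sound _ 131 [(rh7086929b0e17680e.shift 2 0), (rhc85cc95794737cf7.shift 2 1), rhc8e5a5606908e7d0, (rhfeb565e3642a0443.shift 2 1)] (by decide +kernel))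
noncomputable def rh56045c4ac40d49e3 : CRef := CRef.mk (Pat.mk 0x4000000140000001400000000 0xa0000002e0000003f0000007e000000160000001600000012 6 7) 0 0 (step_sound _ 130 [(rh20966da26a1c2ae8.shift 1 0), (rh565a0c22519f57e9.shift 1 0), rh8830d6e5bb9cc2ee, (rhc85cc95794737cf7.shift 1 1)] (by decide +kernel))
noncomputable def rh2eb61565c289e531 : CRef := CRef.mk (Pat.mk 0x20000000a0000000a00000000000000000000000000000000 0x500000007000000070000000a0000000a0000000e0000000e0000000c0000000400000004 6 4) 0 0 (step_sound _ 225 [(rh605ef5a5ae48f4b0.shift 1 0), (rhc85cc95794737cf7.shift 0 4)] (by decide +kernel))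
noncomputable def rh19440412ee7a1e35 : CRef := CRef.mk (Pat.mk 0x80000002800000028000000000000000000000000 0xf40000007c0000002f000000380000003c0000001c00000014 6 8) 0 0 (step_sound _ 67 [(rh45fda7233c8d0aaa.shift 0 1), (rh46baee19951a66e7.shift 2 0), (rh6aa5625770489e83.shift 2 0), (rh8cdd36b03d57a2f6.shift 2 0)] (by decide +kernel))
noncomputable def rh6b6edcba82885ef3 : CRef := CRef.mk (Pat.mk 0x80000000e0000000000000000000000000000000000000000 0x140000001c0000001c000000080000000f0000007c0000001c0000001c0000001c00000004 6 7) 0 0 (step_sound _ 131 [(rh3c8cec96c10b750a.shift 2 0), (rh5a8abb721f11b584.shift 0 1), (rhc21a95c499b3efdb.shift 0 4)] (by decide +kernel))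
noncomputable def rh8d13b0635a205b9e : CRef := CRef.mk (Pat.mk 0x4000000140000000400000000 0xa0000000e0000000e00000004000000370000003e0000000a 6 6) 0 0 (step_sound _ 130 [(rh55a026e6f690bbaf.shift 1 0), (rh565a0c22519f57e9.shift 1 0), (rhc17b7d8fab3dfe57.shift 1 0), rhe06c7604aef75ec4] (by decide +kernel))
noncomputable def rh1c55c599150b4bd7 : CRef := CRef.mk (Pat.mk 0x80000000e0000000000000000000000000000000000000000 0x140000001c0000001c000000080000001f0000007c0000001c0000001c0000001c00000004 6 7) 0 0 (step_sound _ 131 [(rh3c8cec96c10b750a.shift 2 0), (rh8ee80cc30e93a344.shift 0 4), (rhc21a95c499b3efdb.shift 0 4)] (by decide +kernel))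
noncomputable def rh5389c62253cbe833 : CRef := CRef.mk (Pat.mk 0xa0000000a000000020000000000000000 0x140000003e0000001e0000000b0000001b0000001f0000001f00000005 6 6) 0 0 (step_sound _ 161 [(rh20966da26a1c2ae8.shift 0 1), rh31af36bbc0ef7d14, rh8cdd36b03d57a2f6] (by decide +kernel))
noncomputable def rh10c7d36c8109c4cf : CRef := CRef.mk (Pat.mk 0x800000008000000080000000000000000 0x40000001c0000001c0000003c0000000f0000000c0000001c0000001800000010 6 6) 0 0 (step_sound _ 163 [(rh1d02867ed80f91bc.shift 2 1), (rh46baee19951a66e7.shift 2 0), (rh5ee4dc8825dcefa0.shift 0 1), (rhae22d6cdf819408b.shift 2 0), (rhc17b7d8fab3dfe57.shift 2 1)] (by decide +kernel))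
noncomputable def rh883d86d46210c8de : CRef := CRef.mk (Pat.mk 0x140000001400000004000000000000000000000000 0x1200000016000000160000007e0000003f0000002e0000000a 6 7) 0 0 (step_sound _ 66 [(rh46baee19951a66e7.shift 1 0), (rh6aa5625770489e83.shift 1 0), (rh8cdd36b03d57a2f6.shift 1 0), (rhd58cef73aa1047b3.shift 0 1)] (by decide +kernel))
noncomputable def rhb17635f86de2c90b : CRef := CRef.mk (Pat.mk 0x2800000028000000000000000000000000 0x28000000280000002f000000fe0000007f0000001400000014 6 8) 0 0 (step_sound _ 100 [(rh24e72371d7873615.shift 2 0), rh4ab2c9ca1ce0a837, (rh4dfabd725d1e89ab.shift 1 0), (rha9fbfd4bb8cf890b.shift 0 3)] (by decide +kernel))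
noncomputable def rh9eba0889ea697c8a : CRef := CRef.mk (Pat.mk 0x280000002000000000000000000000000000000000 0x5000000070000000f70000003e000001f700000070000000700000007000000050 6 9) 0 0 (step_sound _ 164 [(rh10b07ed0c820d236.shift 0 1), (rh15f59d26e56129ed.shift 3 0), (rh3918eeb6c53434d8.shift 0 4), (rhc21a95c499b3efdb.shift 2 4)] (by decide +kernel))
noncomputable def rha4c3729e86dabe46 : CRef := CRef.mk (Pat.mk 0xc000000000000000c0000000c 0x3a0000003e000000370000001c0000000c 6 6) 0 0 (step_sound _ 66 [(rh2f68792b6b779e96.shift 2 0), rhb5f847b125dc7a23] (by decide +kernel))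
noncomputable def rh52665b6e8687a8c4 : CRef := CRef.mk (Pat.mk 0x100000001e00000008 0x140000003c0000001f0000003e00000008 6 6) 0 0 (step_sound _ 65 [(rh3244c3cc8379b070.shift 0 1), (rh5b9e8eb8067551ff.shift 1 0)] (by decide +kernel))
noncomputable def rhead8422d3b58f0fb : CRef := CRef.mk (Pat.mk 0x38000000000000001000000030 0x700000007e000001e70000003000000030 6 9) 0 0 (step_sound _ 69 [(rh8ee80cc30e93a344.shift 2 2), (rh8ffa8f5969d44369.shift 0 2), (rhda9c0827c24abf7d.shift 4 0)] (by decide +kernel))
noncomputable def rh65e24a3bcc1a4db4 : CRef := CRef.mk (Pat.mk 0xc000000000000000c0000000c 0x360000003e000000370000001c0000000c 6 6) 0 0 (step_sound _ 66 [(rh2145e1d24b96a57e.shift 2 0), rhb5f847b125dc7a23] (by decide +kernel))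
noncomputable def rhe5216027599b2a70 : CRef := CRef.mk (Pat.mk 0x80000001e00000018000000100000000000000000 0x40000000c0000001e0000001a0000007f0000000f0000000c 6 7) 0 0 (step_sound _ 67 [(rh32577a4bf16acdf4.shift 0 1), (rh40241bd608e5be1a.shift 2 0), (rh46530d756bdf8511.shift 2 0), rha7f321bc4d5814ed] (by decide +kernel))
noncomputable def rhc6a206db04c1b3f8 : CRef := CRef.mk (Pat.mk 0x200000007800000000 0x370000007e000000ce 6 8) 0 0 (step_sound _ 6 [rh1f9701c4cf497514, (rhe25b0a99195a5d59.shift 3 0)] (by decide +kernel))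
noncomputable def rhc6047ad1942e0080 : CRef := CRef.mk (Pat.mk 0x40000000f000000030000000200000000 0x2000000060000000f0000001b0000001f0000000d 6 5) 0 0 (step_sound _ 67 [rha365a36299ab641e, (rhe25b0a99195a5d59.shift 0 2)] (by decide +kernel))
noncomputable def rhaeecbf709599ae5d : CRef := CRef.mk (Pat.mk 0x40000000e000000100000000200000000 0x80000000c0000000f000000180000001f0000001c 6 5) 0 0 (step_sound _ 67 [rh69ec16394c7dea1b, (rhb739f4f82bb681b4.shift 0 2)] (by decide +kernel))
noncomputable def rh9e31c89bff42b6de : CRef := CRef.mk (Pat.mk 0x380000000800000020000000000000000000000000 0x10000000780000000f0000007c0000001c0000001c00000014 6 7) 0 0 (step_sound _ 99 [(rh1b9022be4f7af407.shift 2 0), (rhc3308e1e57f6856f.shift 0 3)] (by decide +kernel))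
noncomputable def rh223cac958566b247 : CRef := CRef.mk (Pat.mk 0x380000002800000020000000000000000000000000 0x20000000780000002f0000007c000000300000001000000010 6 7) 0 0 (step_sound _ 130 [(rh18965a982d73c794.shift 2 4), rh6913575f5e5daef5] (by decide +kernel))
noncomputable def rh97b5f977c740b749 : CRef := CRef.mk (Pat.mk 0xe0000001c000000000000000000000000 0x780000007e0000001f000000300000001000000010 6 7) 0 0 (step_sound _ 132 [(rh226655e3fe6b4a8a.shift 1 3), rh2a0831f7db847ed3, (rhaf9f2efc81a8312b.shift 0 3)] (by decide +kernel))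
noncomputable def rh606072a364810b10 : CRef := CRef.mk (Pat.mk 0x80000000a000000080000000800000000 0x8000000080000003b0000003f0000000f00000004 6 6) 0 0 (step_sound _ 34 [(rh72489930c198b542.shift 0 1), (rh932754581e0f4330.shift 2 0)] (by decide +kernel))
noncomputable def rh5c63d134ac67e358 : CRef := CRef.mk (Pat.mk 0x2000000020000000200000002000000000000000000000000 0x200000002000000060000000600000006000000070000000700000007 6 3) 0 0 (step_sound _ 65 [rh8cdd36b03d57a2f6, rh926247ad34d020a9, (rhd29a1fb688eae70f.shift 1 1)] (by decide +kernel))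
noncomputable def rh8b398022ed1689ba : CRef := CRef.mk (Pat.mk 0x40000001c0000000c000000000000000000000000 0x40000001c0000007f000000770000000200000002 6 7) 0 0 (step_sound _ 97 [(rh53b3c253cb0c65f4.shift 0 3), rh5af475dee2943e97] (by decide +kernel))
noncomputable def rh86392fcee87c0754 : CRef := CRef.mk (Pat.mk 0x8000000080000000a0000000800000000 0x40000000c000000080000003b0000001f00000014 6 6) 0 0 (step_sound _ 130 [(rh50fbb5868c909700.shift 2 1), rhfa24987f9e3722ea] (by decide +kernel))
noncomputable def rh6c44bc3c6b2eecb4 : CRef := CRef.mk (Pat.mk 0x2000000030000000200000004 0x100000007000000070000000600000003000000030000000600000004 6 3) 0 0 (step_sound _ 129 [(rh42ab489a1be3958e.shift 0 1), (rhd3458b32566d63f7.shift 1 0)] (by decide +kernel))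
noncomputable def rh851b7281012d70df : CRef := CRef.mk (Pat.mk 0x800000008000000080000001400000000 0x800000008000000ff000000ff000001e4 6 9) 0 0 (step_sound _ 35 [(rh932754581e0f4330.shift 2 0), rhe67022869c8c461c] (by decide +kernel))
noncomputable def rhbd6660570f76afb9 : CRef := CRef.mk (Pat.mk 0x180000001200000002000000060000000100000000 0x8000000180000001a000000120000003e0000003300000021 6 6) 0 0 (step_sound _ 33 [rh6a0873b22bac2d3d, rh932754581e0f4330] (by decide +kernel))
noncomputable def rhee142b17c847ec22 : CRef := CRef.mk (Pat.mk 0x14000000060000000c000000000000000000000000 0x1000000014000000360000003f0000003c0000000800000008 6 6) 0 0 (step_sound _ 100 [rh75386b4e7c2acfa8, (rhf48373e13d2bc128.shift 1 3)] (by decide +kernel))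
noncomputable def rh9fa262654c7916ea : CRef := CRef.mk (Pat.mk 0x1400000004000000040000000a0000000000000000 0x1000000014000000170000003e0000001f0000000800000008 6 6) 0 0 (step_sound _ 35 [rh7916acf7e1a3ad5e, (rhbe0e43a3bc50a43f.shift 2 1)] (by decide +kernel))
noncomputable def rhd9ca143a667b7e47 : CRef := CRef.mk (Pat.mk 0x800000008000000080000000c00000000 0x800000008000000ff000000ff000001f0 6 9) 0 0 (step_sound _ 36 [(rh55afc6a59410cf00.shift 3 0), rhbd1676d9697e3ff5] (by decide +kernel))
noncomputable def rh0160761e78fbe9ad : CRef := CRef.mk (Pat.mk 0x1c00000018000000180000000000000000 0x4000000040000001c0000007f0000007f0000000600000006 6 7) 0 0 (step_sound _ 98 [rh8f7039354bfc4ec2, (rhf0fa27664d40d682.shift 1 0), (rhf56e6bc5d2f7fe77.shift 0 2)] (by decide +kernel))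
noncomputable def rh95881bb9f168eb43 : CRef := CRef.mk (Pat.mk 0x20000000300000002000000020000000200000000000000000000000000000000 0x20000000300000007000000060000000600000002000000070000000700000005 6 3) 0 0 (step_sound _ 97 [rh318a73546b536cd5, (rhffd04209dc8ea796.shift 0 3)] (by decide +kernel))
noncomputable def rh9180f31bfd1a2302 : CRef := CRef.mk (Pat.mk 0x200000003000000020000000200000000000000000000000000000000 0x200000003000000030000000300000007000000070000000700000005 6 3) 0 0 (step_sound _ 97 [(rh6eff4158bb400f47.shift 0 1), (rh7928877f9bf74a91.shift 0 2), rhbba7d23481996066, (rhc105b3e3b7d9ffa5.shift 0 1), (rhe4441baab75a6f73.shift 0 1)] (by decide +kernel))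
noncomputable def rh16a5368769e5b4f3 : CRef := CRef.mk (Pat.mk 0x20000003e00000002000000020000000000000000 0xe20000007e00000002000000070000000700000005 6 8) 0 0 (step_sound _ 166 [(rh428265de8cd3cd2d.shift 2 4), rha69c33dffd8ed231] (by decide +kernel))
noncomputable def rh0d071c7f3eba9391 : CRef := CRef.mk (Pat.mk 0x38000000080000000800000000 0xc0000001f000000380000000f0000003c00000014 6 6) 0 0 (step_sound _ 131 [rh641b5241be04eec6, (rh79905f95cb2d899a.shift 0 1)] (by decide +kernel))
noncomputable def rh459a434957a74ccf : CRef := CRef.mk (Pat.mk 0x400000004000000040000000200000000 0x400000004000000040000007c0000001f0000000a 6 7) 0 0 (step_sound _ 34 [rh627b46e23167033f, (rh932754581e0f4330.shift 1 0)] (by decide +kernel))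
noncomputable def rh7a8d1382e4876122 : CRef := CRef.mk (Pat.mk 0x30000000c00000004 0xe30000007e000000e6 6 8) 0 0 (step_sound _ 36 [(rh09d4dfe75d4407d6.shift 0 1), (rhfa35e196e150edb4.shift 1 0)] (by decide +kernel))
noncomputable def rh6e864362596c2f88 : CRef := CRef.mk (Pat.mk 0x1e0000000200000002000000000000000000000000 0x30000001f0000000200000002000000070000000700000005 6 5) 0 0 (step_sound _ 192 [(rh3f8766e6ecb455ce.shift 0 5), rhbba7d23481996066] (by decide +kernel))
noncomputable def rha590c186556ff55a : CRef := CRef.mk (Pat.mk 0x1c000000020000003a00000000000000000000000000000000 0x30000001f000000020000003e00000007000000070000000700000005 6 6) 0 0 (step_sound _ 97 [(rh02ea6f004a5f46a0.shift 0 2), rh694b3dda36d16526, (rhdf75b1a85c17f481.shift 0 3), (rhe1ba531dcf5061c4.shift 0 2)] (by decide +kernel))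
noncomputable def rhd1a74c2407d980d4 : CRef := CRef.mk (Pat.mk 0x200000002000000060000000200000000000000000000000000000000 0x200000002000000060000000600000007000000070000000700000004 6 3) 0 0 (step_sound _ 97 [rh8a1bd34420cccc7f, (rh8cdd36b03d57a2f6.shift 0 1), (rh96f119fce01cb5f6.shift 0 1), (rhd29a1fb688eae70f.shift 1 2)] (by decide +kernel))
noncomputable def rh60f2dd2cc1b3ee42 : CRef := CRef.mk (Pat.mk 0x2000000030000000200000002 0x500000007000000070000000700000003000000030000000200000002 6 3) 0 0 (step_sound _ 129 [(rh1741680720c097b4.shift 0 1), rh3ca48e2a6d60153d, (rh42ab489a1be3958e.shift 0 1), (rh69f0587a21bb077f.shift 0 1), rhf06a227ba195dbc0] (by decide +kernel))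
noncomputable def rhf8a32f9e146df5cf : CRef := CRef.mk (Pat.mk 0x1000000018000000200000007000000000 0x10000000180000006f0000007e0000000f 6 7) 0 0 (step_sound _ 35 [(rh29ed1d9e79c1bb2d.shift 2 0), (rh503775339733bab1.shift 1 1), (rh592c7139d2c44767.shift 1 0), rha4e887c2a2a0f60b] (by decide +kernel))
noncomputable def rhbe93ec0dadf13939 : CRef := CRef.mk (Pat.mk 0x40000000f8000000000000000000000000 0x500000005000000078000000fe000000370000002000000020 6 8) 0 0 (step_sound _ 69 [(rh4821dcf828b9d7bf.shift 5 0), (rh6cc58692ec716844.shift 3 0), (rhb57bd18609ae225c.shift 0 2), (rhbfe376cd40aaedfb.shift 0 2)] (by decide +kernel))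
noncomputable def rh7218c8f50321ad77 : CRef := CRef.mk (Pat.mk 0x3e000000000000000000000000 0x8000000080000003c0000003f000000060000000400000004 6 6) 0 0 (step_sound _ 132 [(rh33e738c4ed385b9f.shift 1 3), rhac02bd5b989f0b3f] (by decide +kernel))
noncomputable def rhce66a81c27e954a9 : CRef := CRef.mk (Pat.mk 0x6000000060000001c0000000800000000 0x200000032000000370000003e0000001e0000007800000030 6 7) 0 0 (step_sound _ 161 [(rh2145e1d24b96a57e.shift 1 2), rhe4b45d98a47ea8db] (by decide +kernel))
noncomputable def rh967b98d044de48aa : CRef := CRef.mk (Pat.mk 0x6000000060000001c0000000800000000 0x30000000370000003e0000001e0000007c00000034 6 7) 0 0 (step_sound _ 100 [(rh649b0af3519a7bcf.shift 1 2), rh81bcecbe0ce730f1, (rhfb924525b3b574a6.shift 1 0)] (by decide +kernel))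
noncomputable def rh98ec72a241770bef : CRef := CRef.mk (Pat.mk 0x300000006000000020000000200000000 0x200000002000000020000000700000007000000070000000700000005 6 3) 0 0 (step_sound _ 32 [rh1692ccf86a90bd1b, rh932754581e0f4330] (by decide +kernel))
noncomputable def rhd3d935516b976095 : CRef := CRef.mk (Pat.mk 0x60000000000000007000000000 0x2000000028000001ff000000fe0000001f000000f000000020 6 9) 0 0 (step_sound _ 100 [(rh064175b205c69604.shift 2 0), (rh2dfd46e20862c77d.shift 1 2), (rh30acd9627e2fab2e.shift 1 1), (rh600cafcef7175bf8.shift 1 1), (rh622b27b5c152f235.shift 1 0), (rha2db6bb47f3973d0.shift 0 1), rhc02f31a75529f742] (by decide +kernel))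
noncomputable def rh3a0237a657df5a9c : CRef := CRef.mk (Pat.mk 0x4000000040000000c00000008000000000000000000000000 0x3a0000003e0000000f0000000c0000000c000000060000000600000006 6 6) 0 0 (step_sound _ 98 [(rh373b7625e672cfd8.shift 1 2), (rh544fd3f279a4d968.shift 1 0), (rh946fbe1ddfc14810.shift 1 0), (rhd49a209860dedbee.shift 0 3), (rhd93e4c9bb2648213.shift 0 2)] (by decide +kernel))
noncomputable def rh34a0442d43c3a599 : CRef := CRef.mk (Pat.mk 0x40000002c000000380000000800000000 0x38000000780000006e0000003c0000003c0000000f00000004 6 7) 0 0 (step_sound _ 100 [(rh3244c3cc8379b070.shift 1 3), rh855b49a2f97cc31e] (by decide +kernel))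
noncomputable def rh5d48a793f264ea95 : CRef := CRef.mk (Pat.mk 0x2800000068000000c0000000400000000000000000 0x140000001c0000001f0000003c000001ec000000cc0000007c0000001c00000004 6 9) 0 0 (step_sound _ 99 [(rh3320b39c715f262a.shift 0 2), (rh3899e32f00ea223d.shift 2 1), (rh5f1bd349b1683f05.shift 2 1), (rh84530c1b2d2356ea.shift 2 1), (rh9759d8fb9593a7fa.shift 2 0)] (by decide +kernel))
noncomputable def rh6379916147f35ea5 : CRef := CRef.mk (Pat.mk 0xa0000001a000000300000001000000000 0x1000000010000000300000001e0000003b000000380000001e00000008 6 6) 0 0 (step_sound _ 132 [(rh03102c3a9967a1fb.shift 1 0), (rhbf14f049e425ac01.shift 0 3), rhfb5958588b28e8a2] (by decide +kernel))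
noncomputable def rh18ca9ecc6e7a7001 : CRef := CRef.mk (Pat.mk 0x2000000120000003000000010000000000000000000000000 0x5000000070000000700000013000000130000003b0000001f0000000f0000000f0000000d 6 6) 0 0 (step_sound _ 97 [(rh01a5420cf8541158.shift 1 0), (rh04da1973c7e93f5e.shift 0 1), rhe74fd49ae7df603f] (by decide +kernel))
noncomputable def rh59c29a5c93d57c3c : CRef := CRef.mk (Pat.mk 0x160000001e000000000000000000000000 0x30000000300000001e0000001e0000003b0000000a00000002 6 6) 0 0 (step_sound _ 65 [(rhbd417027218d8c62.shift 1 0), (rheb0810cc63b001d8.shift 0 2)] (by decide +kernel))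
noncomputable def rh5a583376be361094 : CRef := CRef.mk (Pat.mk 0x30000000f000000000000000000000000 0x1a0000001a0000001f0000000f0000001c0000000400000004 6 5) 0 0 (step_sound _ 131 [(rh33e738c4ed385b9f.shift 0 3), rha4aa8c7437ca3051] (by decide +kernel))
noncomputable def rh8a84ef379e3325a1 : CRef := CRef.mk (Pat.mk 0x80000000c000000180000000800000000 0x40000000c0000000c0000001c0000001f00000017 6 5) 0 0 (step_sound _ 130 [rh46e7b907141167e2, (rh50fbb5868c909700.shift 2 1)] (by decide +kernel))
noncomputable def rh083db68936a35312 : CRef := CRef.mk (Pat.mk 0x800000008000000180000000c 0x100000001c0000001c00000008000000180000001c0000000f 6 5) 0 0 (step_sound _ 131 [rh5898876c378fd412, (rh79877ebd3ef475dd.shift 2 0)] (by decide +kernel))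
noncomputable def rh4eb52e6b9e624d2e : CRef := CRef.mk (Pat.mk 0xc0000000c000000080000000c 0x800000008000000080000000c0000001f000000780000001f 6 7) 0 0 (step_sound _ 36 [rh2b4b8b79ec79d231, (rh4ca5dae25f5c14ff.shift 0 1), rh7638c704e5dd52df, rhc39b9d1d3c70335b] (by decide +kernel))
noncomputable def rh792f5b2740d9bfbb : CRef := CRef.mk (Pat.mk 0x80000001800000018000000080000000000000000 0x40000000f0000007c000000180000000c0000000c00000008 6 7) 0 0 (step_sound _ 3 [(rh6fda262428bf49cd.shift 0 1), (rh9e3edb185cc347de.shift 3 0)] (by decide +kernel))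
noncomputable def rh3e01e2f63d9ceb4a : CRef := CRef.mk (Pat.mk 0x180000000e000000180000001000000000 0x30000000300000001f0000001e0000001f0000003000000020 6 6) 0 0 (step_sound _ 100 [rh69afdb07edfc18c6, rhb413d4a403e25acc, rhc1307820daa2ac22, (rhc4bf0b101916a2de.shift 0 2)] (by decide +kernel))
noncomputable def rh143b575cfced9d30 : CRef := CRef.mk (Pat.mk 0x140000001400000004000000000000000000000000 0x30000003e0000003700000004000000060000000600000002 6 6) 0 0 (step_sound _ 161 [(rh01483ff9cba2f6ac.shift 1 0), (rh01852db72a87bca5.shift 0 2), (rh5e4e7266ca016e80.shift 0 4), (rhe2298688dc536e4b.shift 1 0)] (by decide +kernel))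
noncomputable def rh60ffb2ff05a8304c : CRef := CRef.mk (Pat.mk 0x200000002000000020000000000000000 0x500000007000000070000000700000002000000030000000300000001 6 3) 0 0 (step_sound _ 161 [rh6aa5625770489e83, rh788ff3fa6825651c, rhcab3157f7bdcba3e, (rhe1d7b89b539c0d0e.shift 0 2)] (by decide +kernel))
noncomputable def rh1865c6c485183d9f : CRef := CRef.mk (Pat.mk 0x28000000280000002800000000 0x5000000050000000d80000007c0000006f0000002800000008 6 8) 0 0 (step_sound _ 100 [(rh2820ca9a6c4f41b4.shift 0 2), (rhac5b2375bbde5740.shift 2 1), (rhafacb87e233f8c08.shift 2 0), (rhc7bc9bc8daedeb95.shift 2 0), (rhd86d5f4137437145.shift 2 0)] (by decide +kernel))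
noncomputable def rhb53c6ff22c69bac6 : CRef := CRef.mk (Pat.mk 0x14000000040000000400000000 0xa0000000e0000000f0000003c000000060000000600000002 6 6) 0 0 (step_sound _ 130 [(rh565a0c22519f57e9.shift 1 0), rhbce1aa2526faa408, (rhd9d598133124fa86.shift 1 0), (rhe1d7b89b539c0d0e.shift 1 1)] (by decide +kernel))
noncomputable def rh13fbc5d765bfc508 : CRef := CRef.mk (Pat.mk 0x28000000280000002800000000 0x4000000040000000d40000007c0000006f0000002800000008 6 8) 0 0 (step_sound _ 100 [(rh2820ca9a6c4f41b4.shift 0 2), (rha318ab7dda799eb3.shift 2 0), (rhac5b2375bbde5740.shift 2 1), (rhc7bc9bc8daedeb95.shift 2 0), (rhd86d5f4137437145.shift 2 0)] (by decide +kernel))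
noncomputable def rhfd64cf4435e64bd8 : CRef := CRef.mk (Pat.mk 0x200000002000000020000000000000000 0x500000007000000070000000300000003000000030000000300000001 6 3) 0 0 (step_sound _ 161 [rh6aa5625770489e83, rh788ff3fa6825651c, (rhd9d598133124fa86.shift 0 1), (rhe1d7b89b539c0d0e.shift 0 2)] (by decide +kernel))
noncomputable def rh88715f7c0a8cc4e1 : CRef := CRef.mk (Pat.mk 0xa0000000a0000000a0000000000000000 0x10000000370000001f0000001b0000000b0000000300000001 6 6) 0 0 (step_sound _ 130 [rh0636fbf5a8a672cd, (rha318ab7dda799eb3.shift 0 1), (rhac5b2375bbde5740.shift 0 2), (rhd86d5f4137437145.shift 0 1)] (by decide +kernel))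
noncomputable def rh52379022a7e3bd4a : CRef := CRef.mk (Pat.mk 0x1e00000018000000100000001000000000 0x40000001e0000001f000000330000003200000022 6 6) 0 0 (step_sound _ 5 [rha6c7f2962be4f617, (rhd3458b32566d63f7.shift 4 0)] (by decide +kernel))
noncomputable def rhc1aec41596b93fe8 : CRef := CRef.mk (Pat.mk 0x160000000600000004000000000000000000000000 0x2000000034000000370000003e0000003c000000380000003800000028 6 6) 0 0 (step_sound _ 132 [(rh12d50e65fdd458b1.shift 0 4), (rha04746b679d64160.shift 1 0), (rhfd0f316c42bbba52.shift 0 4)] (by decide +kernel))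
noncomputable def rh50237f0e64e8fd67 : CRef := CRef.mk (Pat.mk 0x1e00000018000000100000001000000000 0x70000001e00000018000000780000001e0000000c 6 7) 0 0 (step_sound _ 160 [(rh271712a0bce3e10b.shift 1 0), (rh3f8766e6ecb455ce.shift 0 4)] (by decide +kernel))
noncomputable def rh9b350a28e0deb100 : CRef := CRef.mk (Pat.mk 0x1e00000018000000100000001000000000 0x23000000fe0000001c000000100000003800000028 6 8) 0 0 (step_sound _ 160 [(rh24bf82b57fabb4a5.shift 2 0), (rh3f8766e6ecb455ce.shift 0 4)] (by decide +kernel))
noncomputable def rhfcc21a956c166a46 : CRef := CRef.mk (Pat.mk 0x8000000080000001c0000003000000020 0x4000000760000007e0000001f0000003c0000003800000020 6 7) 0 0 (step_sound _ 132 [(rh38be8c9357c128a5.shift 0 1), (rh6f1cbe15c631ee70.shift 4 0)] (by decide +kernel))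
noncomputable def rhde29b794376dcfdd : CRef := CRef.mk (Pat.mk 0x60000000000000007000000000 0x28000001ff000000fe0000001f000000f000000020 6 9) 0 0 (step_sound _ 100 [(rh06d1de846cda2546.shift 2 0), (rh25f8516bb381cab9.shift 1 1), (rh301a027d74a75e0a.shift 1 1), rh53403bbceab3b4db, rh57904e3f22237443, (rh622b27b5c152f235.shift 1 0), (rh77a22a4eba951a56.shift 1 2)] (by decide +kernel))
noncomputable def rh2a23c1960317e938 : CRef := CRef.mk (Pat.mk 0x300000003000000020000000200000000 0x600000006000000060000000300000003000000030000000700000005 6 3) 0 0 (step_sound _ 32 [rh14d943251349f232, rh932754581e0f4330] (by decide +kernel))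
noncomputable def rh634e434b81682288 : CRef := CRef.mk (Pat.mk 0x300000003000000020000000200000000 0x600000006000000060000000300000003000000060000000700000005 6 3) 0 0 (step_sound _ 0 [rh79877ebd3ef475dd, rhbab2db7304cf4f0f] (by decide +kernel))
noncomputable def rh7fdfac9250f4097d : CRef := CRef.mk (Pat.mk 0x3000000030000000200000003800000000 0xa0000003e0000003e000000370000007e00000047 6 7) 0 0 (step_sound _ 34 [(rh1dfd484f552e7f77.shift 1 0), rh592c7139d2c44767, rh7292cae5778446ab, (rh7fb660bc21ce4329.shift 0 1)] (by decide +kernel))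
noncomputable def rhd03f1277312a637c : CRef := CRef.mk (Pat.mk 0x3000000030000000200000003800000000 0x3e0000007e000000270000007e0000004f 6 7) 0 0 (step_sound _ 38 [(rh55afc6a59410cf00.shift 5 0), rh977726e9cc0a7323] (by decide +kernel))
noncomputable def rh23902ceb31b1817e : CRef := CRef.mk (Pat.mk 0x38000000200000000000000000 0x80000000f0000007e000000370000000400000004 6 7) 0 0 (step_sound _ 98 [(rh0de499e0455c9c14.shift 0 2), (rh7d5bf828111ca202.shift 0 2), (rhefd858cfdc5d2964.shift 1 0)] (by decide +kernel))
noncomputable def rh365a40a773726980 : CRef := CRef.mk (Pat.mk 0x8000000080000000a000000000000000000000000 0x100000001800000018000000080000001f0000007c0000001c00000014 6 7) 0 0 (step_sound _ 67 [(rh6e6d44dbdcb28a81.shift 0 1), (rh8cdd36b03d57a2f6.shift 2 0), (rhd9d598133124fa86.shift 2 1)] (by decide +kernel))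
noncomputable def rh0cf2629d00dddf18 : CRef := CRef.mk (Pat.mk 0x80000000a0000000a000000000000000000000000 0x10000000180000001b0000001f0000003c0000001c00000014 6 6) 0 0 (step_sound _ 67 [(rh65600450c128b4db.shift 0 1), (rh8cdd36b03d57a2f6.shift 2 0), (rhc9de03f9731897d4.shift 3 0), (rhcab3157f7bdcba3e.shift 2 0)] (by decide +kernel))
noncomputable def rhd5da863c3fe28857 : CRef := CRef.mk (Pat.mk 0x8000000080000000a000000000000000000000000 0x1800000018000000180000000f0000001c0000001c00000014 6 5) 0 0 (step_sound _ 67 [(rh8cdd36b03d57a2f6.shift 2 0), (rh90dd30d6475954d3.shift 0 1), (rhc9de03f9731897d4.shift 3 0), (rhcab3157f7bdcba3e.shift 2 0)] (by decide +kernel))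
noncomputable def rhb985e586dff09016 : CRef := CRef.mk (Pat.mk 0x140000001400000014000000000000000000000000 0x1000000014000000f60000003e0000002b0000000200000002 6 8) 0 0 (step_sound _ 99 [(rh8ab8c564895658e7.shift 1 2), (rha11dfd15f08f96e3.shift 1 3), rhd6957edd2c7e9e4d, (rhd7b02ac124407524.shift 0 1)] (by decide +kernel))
noncomputable def rh83b1f1fb07c9caeb : CRef := CRef.mk (Pat.mk 0x20000000200000002000000000000000000000000 0x400000006000000060000000600000006000000070000000700000005 6 3) 0 0 (step_sound _ 65 [rh8cdd36b03d57a2f6, (rh98d2abfd8f876ecb.shift 0 1), (rhc9de03f9731897d4.shift 1 0), rhcab3157f7bdcba3e] (by decide +kernel))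
noncomputable def rhed52354c4fabe473 : CRef := CRef.mk (Pat.mk 0x40000000c000000080000000800000000 0x8000000080000000a0000000f0000003c0000007c0000001f00000017 6 7) 0 0 (step_sound _ 131 [(rh03c8474c6babf461.shift 2 0), (rh330f820e7f44bd5b.shift 2 0), (rhac13d16ea91712e4.shift 1 0), rhb1111a1bcb4ac16d, rhcfbea19f509e11c8, rhe93a1469eabff810] (by decide +kernel))
noncomputable def rh1b595908d650a9b1 : CRef := CRef.mk (Pat.mk 0xc0000003800000018000000100000000000000000 0x200000002f00000038000000fe000000fe0000000400000004 6 8) 0 0 (step_sound _ 98 [rh0b54e2cae76efaeb, (rh53b3c253cb0c65f4.shift 1 3)] (by decide +kernel))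
noncomputable def rhb22a0cdf4cd61531 : CRef := CRef.mk (Pat.mk 0x40000001c0000000c000000080000000000000000 0xc0000001c0000000f0000003e0000003600000006 6 6) 0 0 (step_sound _ 97 [(rh53b3c253cb0c65f4.shift 0 3), (rh88707888d07fe268.shift 1 0)] (by decide +kernel))
noncomputable def rh84709dac4612e631 : CRef := CRef.mk (Pat.mk 0xc0000001800000018000000000000000000000000 0x1f000000180000007c0000000f0000000c00000008 6 7) 0 0 (step_sound _ 67 [(rh84ebeac045665d0c.shift 0 1), (rhea7a1800d6f053bd.shift 3 0)] (by decide +kernel))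
noncomputable def rha4634abc8788ebdc : CRef := CRef.mk (Pat.mk 0xc0000000c000000080000001c00000000 0x2e0000007f000000780000007e000000e0 6 8) 0 0 (step_sound _ 69 [(rh02d69c31241a23c4.shift 0 1), (rh5b23de17d094d110.shift 1 0), (rhcc68d7d890acd330.shift 1 1)] (by decide +kernel))
noncomputable def rhdd68238b49f9ba9b : CRef := CRef.mk (Pat.mk 0x2000000030000000200000002 0x100000007000000070000000700000003000000030000000200000002 6 3) 0 0 (step_sound _ 129 [rh2d9cf2b378a087dd, rh3ca48e2a6d60153d, (rh4e2df8342d3b8ae8.shift 0 1), (rhe1d7b89b539c0d0e.shift 0 1)] (by decide +kernel))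
noncomputable def rh7d80bf714a36c97d : CRef := CRef.mk (Pat.mk 0x80000000c000000080000000800000000 0xc0000000c0000001f000000780000001800000010 6 7) 0 0 (step_sound _ 130 [rh043a69081cbdad05, (rh50fbb5868c909700.shift 2 1)] (by decide +kernel))
noncomputable def rhd59e0592d6b13f4e : CRef := CRef.mk (Pat.mk 0x80000000c0000001800000008 0x40000001c0000001c0000001c0000000c0000000f0000001800000008 6 5) 0 0 (step_sound _ 64 [(rh8129c1a013c9353b.shift 2 0), (rhab22b5b56e7b3243.shift 0 1)] (by decide +kernel))
noncomputable def rh60b796f9139c96a9 : CRef := CRef.mk (Pat.mk 0x800000008000000180000000c 0x100000001c0000001c0000000c00000018000000180000000f 6 5) 0 0 (step_sound _ 130 [rhd693541053e8037f, (rhffd04209dc8ea796.shift 2 0)] (by decide +kernel))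
noncomputable def rh6fdeccb09f6dedde : CRef := CRef.mk (Pat.mk 0x80000000c000000080000000800000000 0x8000000080000001f000000780000001c00000014 6 7) 0 0 (step_sound _ 2 [rh043a69081cbdad05, (rh79877ebd3ef475dd.shift 2 0)] (by decide +kernel))
noncomputable def rhb482d4edfd6865ea : CRef := CRef.mk (Pat.mk 0x400000004000000040000000400000000 0x600000006000000040000003c0000000f0000000a 6 6) 0 0 (step_sound _ 129 [(rh50fbb5868c909700.shift 1 1), rhac13d16ea91712e4] (by decide +kernel))
noncomputable def rh0672b2ed8847b031 : CRef := CRef.mk (Pat.mk 0x200000002000000060000000200000000 0x400000006000000060000003e0000003f0000003d 6 6) 0 0 (step_sound _ 34 [(rh55afc6a59410cf00.shift 1 0), rheb2e2a1e1f39715f] (by decide +kernel))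
noncomputable def rh166deedb23494089 : CRef := CRef.mk (Pat.mk 0x4000000040000000c00000000 0xa0000000e0000000f0000003c0000000c0000000c00000004 6 6) 0 0 (step_sound _ 130 [rh305945700f20b255, (rh65909b08999dc522.shift 1 1), (rh73f605273a09a9d0.shift 2 1)] (by decide +kernel))
noncomputable def rh2c37f795544cbe22 : CRef := CRef.mk (Pat.mk 0x80000001c0000000000000000 0x200000002000000070000007f0000003f0000000400000004 6 7) 0 0 (step_sound _ 97 [(rh508d31626b5d2be8.shift 0 2), (rh54c49bb299227e8d.shift 0 2), rh6c338cb8c997d2eb, (rhd0ed6ce702d0de55.shift 0 2)] (by decide +kernel))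
noncomputable def rhcfef8bcf84b0a3e6 : CRef := CRef.mk (Pat.mk 0x100000003800000000 0xff0000007e00000007 6 8) 0 0 (step_sound _ 34 [rh592c7139d2c44767, (rh6917e99a51ffea92.shift 1 0), (rhec46bd5500c722c9.shift 1 1)] (by decide +kernel))
noncomputable def rhb0f639fe0dc3f598 : CRef := CRef.mk (Pat.mk 0x200000007000000000 0x1f7000000fe0000001e 6 9) 0 0 (step_sound _ 35 [(rh6cc0f305be0098c0.shift 2 0), (rhec46bd5500c722c9.shift 2 1), rhf0dcb8af34d9ea65] (by decide +kernel))
noncomputable def rh64429ab48b14c66e : CRef := CRef.mk (Pat.mk 0x1000000038000000000000000000000000 0x40000000e0000007f0000003e0000000f0000000c00000004 6 7) 0 0 (step_sound _ 98 [(rh2d0146eaa0e0ee71.shift 1 0), (rh592c7139d2c44767.shift 0 2), (rhec46bd5500c722c9.shift 1 3)] (by decide +kernel))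
noncomputable def rh2298e1b7a5f44cd8 : CRef := CRef.mk (Pat.mk 0x80000001c000000000000000800000000 0x1c0000001c0000003f0000007f0000007c000000060000000c00000008 6 7) 0 0 (step_sound _ 130 [rh3a64fe58b14d3b67, (rh79b3c29022acbdf3.shift 1 3), (rh92a57c35b9cc46e2.shift 1 0)] (by decide +kernel))
noncomputable def rhcde247914f03620b : CRef := CRef.mk (Pat.mk 0x1000000038000000000000003000000000 0x1c0000001c0000001c0000001c000000fc0000000f0000007c00000010 6 8) 0 0 (step_sound _ 131 [rh026201f745a7ef46, (rh79b3c29022acbdf3.shift 2 3), (rh92a57c35b9cc46e2.shift 2 0)] (by decide +kernel))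
noncomputable def rh3f851ad5532bc034 : CRef := CRef.mk (Pat.mk 0x6000000020000001200000010000000000000000000000000 0x280000007c0000003e000000730000003200000032000000380000003800000008 6 7) 0 0 (step_sound _ 196 [(rh1a4a6b8b404ca300.shift 0 3), (rh2425f70e2f5fab7e.shift 0 3), (rh29e07b8822e3047d.shift 0 3), (rhfdc1542ba53e25f0.shift 1 0)] (by decide +kernel))
noncomputable def rhff4dcf287d14427f : CRef := CRef.mk (Pat.mk 0x6000000020000001400000014000000000000000000000000 0x2800000038000000780000003e000000770000003400000034000000380000003800000028 6 7) 0 0 (step_sound _ 196 [(rh2425f70e2f5fab7e.shift 0 3), (rh29e07b8822e3047d.shift 0 3), (rh738dcaf1a41f77d9.shift 0 3), (rhabc3166674883eb8.shift 3 0)] (by decide +kernel))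
noncomputable def rh3814189e232a984a : CRef := CRef.mk (Pat.mk 0x6000000020000001400000014000000000000000000000000 0x280000007c0000003e000000770000003400000034000000380000003800000008 6 7) 0 0 (step_sound _ 196 [(rh2425f70e2f5fab7e.shift 0 3), (rh29e07b8822e3047d.shift 0 3), (rh738dcaf1a41f77d9.shift 0 3), (rhfdc1542ba53e25f0.shift 1 0)] (by decide +kernel))
noncomputable def rh0dbf19d853ac0d88 : CRef := CRef.mk (Pat.mk 0x3000000010000000b00000008000000000000000000000000 0x100000001e0000001f000000190000000f00000019000000180000001000000010 6 5) 0 0 (step_sound _ 225 [(rh71222050f2c63a3a.shift 0 3), rhd3766488a4ddf097] (by decide +kernel))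
noncomputable def rh923457e6b86b77f8 : CRef := CRef.mk (Pat.mk 0x3000000010000000b0000000a000000000 0x100000001ef000001fe00000197000001f0000000b000000080 6 9) 0 0 (step_sound _ 103 [(rh2df371b3b4bfb84c.shift 0 1), (rh41f113d7d8f589dd.shift 4 0), (rhd78fd5ddea7104e5.shift 4 1)] (by decide +kernel))
noncomputable def rhf538941493d4c078 : CRef := CRef.mk (Pat.mk 0x18000000080000004800000040000000000000000000000000 0xa0000003f7000001fe000003c8000000c8000000c8000000e0000000e000000020 6 10) 0 0 (step_sound _ 198 [(rh0a91e73157c439ff.shift 0 3), (rh165d2d04fff36d9c.shift 3 0), (rh6b3ec43dfc8e5ff5.shift 3 2), (rh7a853e027c1a4c21.shift 0 3), (rha598ed9e115c2032.shift 2 2), (rhc4ad7b6077cdd4d0.shift 3 1), (rhdaac2e30485f9344.shift 3 1), (rhdfdb45823056ce54.shift 3 1), (rhfdc1542ba53e25f0.shift 3 0)] (by decide +kernel))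
noncomputable def rha886fad008740c7a : CRef := CRef.mk (Pat.mk 0x3000000000000000b00000008000000000000000000000000 0x140000001c0000001f000000180000001f00000018000000180000001000000010 6 5) 0 0 (step_sound _ 163 [(rh1ef15faae36132bd.shift 0 1), (rh41f113d7d8f589dd.shift 0 2), rh9765e413c7f50252, (rhabf575676fe0ef70.shift 0 3)] (by decide +kernel))
noncomputable def rh596e13df6f19c0b4 : CRef := CRef.mk (Pat.mk 0xc000000040000002c0000002800000000 0xf30000007e0000006c0000003c0000006c00000040 6 8) 0 0 (step_sound _ 38 [rhbc30d72d7af6686c, (rhc10214bf3fe8094a.shift 2 1)] (by decide +kernel))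
noncomputable def rhd826f32a5e8aa6ae : CRef := CRef.mk (Pat.mk 0xc000000040000002c0000002800000000 0xf30000007e000000ec0000006c0000006c00000040 6 8) 0 0 (step_sound _ 132 [(rh466d3de35d7d83a5.shift 2 1), (rh8d684d8f54f9b35b.shift 0 1), (rh97516c17b0a81c1e.shift 1 1), (rhba540076b23cfd04.shift 2 0)] (by decide +kernel))
noncomputable def rh90e128c5ca313d56 : CRef := CRef.mk (Pat.mk 0xc000000040000002c000000280000000000000000 0xf30000007e000000ec0000007c0000002c0000002000000020 6 8) 0 0 (step_sound _ 102 [rh7101362715ac604d, (rh7bdf317b214de7a5.shift 2 3), (rhf769d97d4d30d269.shift 2 2), (rhfb9f3e24adf33097.shift 2 2)] (by decide +kernel))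
noncomputable def rh23a1f3d2c7ef61d2 : CRef := CRef.mk (Pat.mk 0xc000000040000002c00000028000000000000000000000000 0x800000058000000780000007f0000006c0000003c00000068000000600000004000000040 6 7) 0 0 (step_sound _ 227 [(rh69755ef358ebfd54.shift 2 4), (rhc3de4fe93fda10a0.shift 0 3), (rhd3766488a4ddf097.shift 2 0)] (by decide +kernel))
noncomputable def rh0b89d63b7d891eb6 : CRef := CRef.mk (Pat.mk 0x1800000008000000500000005000000000 0x1f7000000fe000001d8000000d0000000d000000080 6 9) 0 0 (step_sound _ 133 [(rh1af92528011baf55.shift 0 1), (rh466d3de35d7d83a5.shift 3 1), (rh97516c17b0a81c1e.shift 2 1), (rhba540076b23cfd04.shift 3 0)] (by decide +kernel))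
noncomputable def rhc2faff15b2c8f4ca : CRef := CRef.mk (Pat.mk 0x1800000008000000580000005000000000 0x80000000f7000000fe000001d8000000f80000005000000040 6 9) 0 0 (step_sound _ 133 [(rh1af92528011baf55.shift 0 1), (rh626f3660f5c39787.shift 3 0), (rh8437f85d160c48bb.shift 3 0), (rha6258a35c8fc6dda.shift 3 1)] (by decide +kernel))
noncomputable def rh477c225b4e2496fc : CRef := CRef.mk (Pat.mk 0x8000000380000000000000000 0x8000000080000007f0000003f0000000700000004 6 7) 0 0 (step_sound _ 66 [(rh775ca1963e850b80.shift 0 1), (rh915c3ff3d4fe3a39.shift 0 2), (rh9e97bba44c1b13e4.shift 0 1), (rhefbd47f604a3284e.shift 1 0)] (by decide +kernel))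
noncomputable def rh27949b60582588da : CRef := CRef.mk (Pat.mk 0x100000007000000000 0x3f7000001fe0000038e 6 10) 0 0 (step_sound _ 39 [(rh2aac33c566332a8c.shift 4 0), rh56f9fe9c628c0157, (rh790acd67f4fffd04.shift 4 1), (rhc3ab095df7f091ac.shift 4 0)] (by decide +kernel))
noncomputable def rhf12fbc327738d833 : CRef := CRef.mk (Pat.mk 0x180000001800000030 0x40000000c0000000e0000007f0000001f00000038 6 7) 0 0 (step_sound _ 33 [(rhab22b5b56e7b3243.shift 1 0), rhc6068986664a6bd2] (by decide +kernel))
noncomputable def rh2608f536176b43b8 : CRef := CRef.mk (Pat.mk 0x2000000030000001200000010000000000000000000000000 0x28000000380000003d0000003f0000003300000032000000320000003a0000003800000028 6 6) 0 0 (step_sound _ 196 [(rh0e6f39f4fe84f82a.shift 3 1), (rh4722cfdf3712a40b.shift 3 0), (rhc47fe1bc6b175f77.shift 0 2)] (by decide +kernel))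
noncomputable def rh1d8e610009a0f6af : CRef := CRef.mk (Pat.mk 0x200000002c000000600000000000000000 0x140000001c0000001c0000003c0000006f0000007c0000002c00000004 6 7) 0 0 (step_sound _ 67 [(rh5419adcd928dba20.shift 2 2), rhe364003d0e92b473] (by decide +kernel))
noncomputable def rhf74b344771f8e49b : CRef := CRef.mk (Pat.mk 0x80000000a0000001a00000000000000000000000000000000 0x50000000f0000001b0000001e00000003000000070000000700000005 6 5) 0 0 (step_sound _ 97 [(rh01e48cd9f335aa73.shift 0 3), rh5c8c873042790be0, rhc9f404672ee426d4] (by decide +kernel))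
noncomputable def rh5dba999209ef8457 : CRef := CRef.mk (Pat.mk 0x100000001400000034000000a00000000000000000 0xa0000000e0000000f0000001e000003b4000001fe000001b60000000200000002 6 10) 0 0 (step_sound _ 103 [(rh0a5e3e09988dc601.shift 4 2), rh6e5ff215cef2d357, (rha2103fe4697cf528.shift 4 2), (rhcd8fc927b72d0e58.shift 4 2)] (by decide +kernel))
noncomputable def rh16ebd50ba9fde5d0 : CRef := CRef.mk (Pat.mk 0x1000000014000000140000000000000000 0xa0000000e0000000e0000000f0000001e00000037000000160000001600000002 6 6) 0 0 (step_sound _ 130 [rh2c6e247b1dea9475, (rh420c9faa7c62cff8.shift 1 1), rh83f58980b4f6d0aa, (rhbc9bd2fe5d03a57c.shift 0 1), (rhc1c1531cdb7807dc.shift 0 1), (rhc457cdb23550374d.shift 0 1), (rhe76b5bec55177195.shift 0 1), (rhedb589451de7976f.shift 1 0)] (by decide +kernel))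
noncomputable def rhc9ac715dc05083e4 : CRef := CRef.mk (Pat.mk 0xe000000000000000400000014 0x730000003e000000340000001400000014 6 7) 0 0 (step_sound _ 129 [(rh2613c889e411427e.shift 1 0), rh78d1ed6e801db2d9] (by decide +kernel))
noncomputable def rh5dad2d55d4d37e93 : CRef := CRef.mk (Pat.mk 0x3c000000000000000c0000002000000000 0x170000003e000000600000003c0000006000000040 6 7) 0 0 (step_sound _ 161 [(rh3f8766e6ecb455ce.shift 1 4), rh594f7bd3f77009c4] (by decide +kernel))
noncomputable def rh147011ca325547fc : CRef := CRef.mk (Pat.mk 0x3000000020000000b0000000a00000000 0x1c0000001f0000001a0000000f0000001b00000011 6 5) 0 0 (step_sound _ 130 [(rh2f68792b6b779e96.shift 1 1), rhfcdc3c3b5ae6b837] (by decide +kernel))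
noncomputable def rhd124c17d5d129fb8 : CRef := CRef.mk (Pat.mk 0x3000000020000000b0000000a 0x140000001e0000001f0000001a0000000f0000001a 6 5) 0 0 (step_sound _ 130 [rh32ecea5467a69d89, (rhbaefcd01e0a8bca3.shift 1 0)] (by decide +kernel))
noncomputable def rh59ca405c66d53c2a : CRef := CRef.mk (Pat.mk 0x18000000000000007800000050 0x1f0000000fe000001d7000000f800000050 6 9) 0 0 (step_sound _ 101 [(rh776cd349fe3b4723.shift 3 0), rhac5e96a17a0827f5, (rhb3cbe90e31a91649.shift 3 0)] (by decide +kernel))
noncomputable def rh428443bb905d7668 : CRef := CRef.mk (Pat.mk 0x6000000200000001600000004 0x7c0000001f000000340000001e00000004 6 7) 0 0 (step_sound _ 68 [(rh1c62b6193297d9e3.shift 1 1), rhabdc26b2b3cf1a0e] (by decide +kernel))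
noncomputable def rhe97faf9e7e5fd2f1 : CRef := CRef.mk (Pat.mk 0x3000000100000000b0000000a000000000000000000000000 0x60000001f0000001a0000001b0000000b0000000d0000000c00000004 6 5) 0 0 (step_sound _ 194 [rh402211600ba33d98, (rh7522337cc24a4bff.shift 0 2)] (by decide +kernel))
noncomputable def rh2bfc00d87917166e : CRef := CRef.mk (Pat.mk 0x180000008000000058000000500000000000000000 0x20000001f7000000fe00000197000000f8000000580000004000000040 6 9) 0 0 (step_sound _ 103 [(rh760717e835f8c2f3.shift 3 2), (rh897f9912825f7826.shift 2 2), rhec78db8bcaf888cf] (by decide +kernel))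
noncomputable def rh1e29e7354db019bf : CRef := CRef.mk (Pat.mk 0x3000000020000000a0000000a000000000000000000000000 0x140000001c0000003c0000001f0000003a0000001a0000001a0000001c0000001c00000014 6 6) 0 0 (step_sound _ 195 [(rh205f7502bb4ce437.shift 0 2), rh41e452db8177f321, (rh647f016262c9a701.shift 0 3), (rh8cb7b0fb4fe794aa.shift 0 3), rh96b4953a723eef45, (rh9d3042f6aa964c6e.shift 0 3), (rhabc3166674883eb8.shift 2 0)] (by decide +kernel))
noncomputable def rh66e01d5bbbb1738b : CRef := CRef.mk (Pat.mk 0x3000000020000000a0000000a000000000000000000000000 0x140000003e0000001f0000003a0000001a0000001a0000001c0000001c00000004 6 6) 0 0 (step_sound _ 195 [(rh205f7502bb4ce437.shift 0 2), (rh647f016262c9a701.shift 0 3), (rh8cb7b0fb4fe794aa.shift 0 3), rh96b4953a723eef45, (rh9d3042f6aa964c6e.shift 0 3), rhf268ce8016f5bf74, rhfdc1542ba53e25f0] (by decide +kernel))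
noncomputable def rh500ae79a7909ca53 : CRef := CRef.mk (Pat.mk 0x1c000000000000002c0000002000000000 0x1fc000000ff000000200000003c0000006000000040 6 9) 0 0 (step_sound _ 133 [(rh02e67ec0e479849c.shift 2 0), (rh06f25685224cc476.shift 0 1), (rh6a78fa75f0f8d5b0.shift 2 1)] (by decide +kernel))
noncomputable def rh2c84c45cf35776b6 : CRef := CRef.mk (Pat.mk 0x7000000000000000b00000008000000000 0x37f000001fe0000008e000000f00000018000000100 6 10) 0 0 (step_sound _ 131 [(rh332e8620d80720e3.shift 1 0), (rh592c7139d2c44767.shift 1 3), (rh86f9c979b5c94685.shift 2 0), (rhb39ad18738eb0e21.shift 0 3)] (by decide +kernel))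
noncomputable def rha49250267fada47c : CRef := CRef.mk (Pat.mk 0x1c000000000000002c00000028 0xe70000007e000000230000007e0000006c 6 8) 0 0 (step_sound _ 36 [rh73c800d2fc5f74e1, (rhe25b0a99195a5d59.shift 2 0)] (by decide +kernel))
noncomputable def rh3601267114d5af42 : CRef := CRef.mk (Pat.mk 0xe00000000000000160000001000000000 0x7f0000003e000000100000001e0000003000000020 6 7) 0 0 (step_sound _ 37 [(rhc10214bf3fe8094a.shift 1 1), rhc72c6399a595682b] (by decide +kernel))
noncomputable def rh239f058da8e19de0 : CRef := CRef.mk (Pat.mk 0x38000000000000005800000050 0x770000003e00000007000000fc000000d8 6 8) 0 0 (step_sound _ 37 [rh4b4c9674ed8b1775, (rhe25b0a99195a5d59.shift 3 0)] (by decide +kernel))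
noncomputable def rh2d753d447453525f : CRef := CRef.mk (Pat.mk 0x18000000000000007800000040 0xa0000003ff000001fe000003c70000007800000040 6 10) 0 0 (step_sound _ 102 [(rh0779e930714675b0.shift 3 0), (rh131adc0b21dad767.shift 1 0), (rh1dcb9523f349bd43.shift 2 0), (rh391fa942a1a521d6.shift 0 2), (rh474fd5ab748adcd6.shift 3 0), rha3641f30015779ed, (rhb6134a4ba7baf3e9.shift 3 0), (rhd4c8d6cfc3f23c45.shift 3 0)] (by decide +kernel))
noncomputable def rh3a6c4820902e0c77 : CRef := CRef.mk (Pat.mk 0x7000000000000000b000000080 0x1ff000000fe0000000e000000f000000180 6 9) 0 0 (step_sound _ 8 [(rh3a31c147d36b4e65.shift 0 2), (rhc10214bf3fe8094a.shift 4 0)] (by decide +kernel))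
noncomputable def rheb423504aa478f2c : CRef := CRef.mk (Pat.mk 0x38000000000000005800000050 0xcf000000fc00000186000000fc000000d8 6 9) 0 0 (step_sound _ 37 [rh02d844ed35ad34b6, (rhe25b0a99195a5d59.shift 3 0)] (by decide +kernel))
noncomputable def rhb52b712f16b74846 : CRef := CRef.mk (Pat.mk 0x7000000000000000b000000080 0x100000007f000001fe0000000e000000f800000190 6 9) 0 0 (step_sound _ 99 [rh538806e76ffe9d5b, (rh592c7139d2c44767.shift 1 2), (rh875ee7c4c1e718c0.shift 0 3), (rha047756ebabbbc0b.shift 1 2), (rhc6793a3a9a7b499e.shift 2 0)] (by decide +kernel))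
noncomputable def rh88c372f95f4542a5 : CRef := CRef.mk (Pat.mk 0x7000000000000000b0000000a 0x3e0000001f000000300000001f0000001b 6 6) 0 0 (step_sound _ 34 [rhc4dd5a103c5ac7c1, rhe25b0a99195a5d59] (by decide +kernel))
noncomputable def rh4f159d07c9d57024 : CRef := CRef.mk (Pat.mk 0x38000000000000000800000000 0x80000007f0000007e000000070000000c00000008 6 7) 0 0 (step_sound _ 98 [(rh4c622fddc53a5f99.shift 0 3), (rh592c7139d2c44767.shift 0 2), (rh9e97bba44c1b13e4.shift 0 2), (rhc6793a3a9a7b499e.shift 1 0)] (by decide +kernel))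
noncomputable def rh589ec97c5fbff79e : CRef := CRef.mk (Pat.mk 0xb000000000000000b00000008 0x140000001c0000001e0000000f000000180000001f00000008 6 5) 0 0 (step_sound _ 67 [(rh51e51e8d2827a2be.shift 0 1), rh624387a5ffe62264, (rha083b8f3b9d524ef.shift 0 1)] (by decide +kernel))
noncomputable def rhbc17a6b284bf4ec0 : CRef := CRef.mk (Pat.mk 0x58000000000000004000000040 0x7e000000fe000001c70000004000000040 6 9) 0 0 (step_sound _ 101 [(rh1a9922713ba80f42.shift 2 2), (rh95e59ab397a8968f.shift 0 2), (rhdad6fb8687a5e7f2.shift 3 0)] (by decide +kernel))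
noncomputable def rhee651fbb9df0641b : CRef := CRef.mk (Pat.mk 0x58000000000000004000000040 0x1fe000000fe00000187000000c000000040 6 9) 0 0 (step_sound _ 101 [(rh2df5afcfc4cfd1fc.shift 3 0), (rh95e59ab397a8968f.shift 0 2), (rhe969d577ae946923.shift 2 0)] (by decide +kernel))
noncomputable def rha21168a51c186baf : CRef := CRef.mk (Pat.mk 0xb000000000000000b00000008000000000000000000000000 0x140000001c0000001e0000001b000000180000001f000000080000000c0000000c00000004 6 5) 0 0 (step_sound _ 163 [(rh3c8f4260c625d1ca.shift 0 3), (rha083b8f3b9d524ef.shift 0 4), rhc6ae60f5ac85e9ef] (by decide +kernel))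
noncomputable def rh5e09ed9521fb41dc : CRef := CRef.mk (Pat.mk 0xb000000000000000800000008000000000000000000000000 0x10000000180000001f0000001800000018000000180000001c0000001c00000004 6 5) 0 0 (step_sound _ 163 [(rh636d588b70c96ccc.shift 0 2), (rhb346c908451f6a93.shift 2 0), (rhc9de03f9731897d4.shift 3 1), (rhd444dcb48ef11957.shift 0 3)] (by decide +kernel))
noncomputable def rh608c3e63e173c57e : CRef := CRef.mk (Pat.mk 0xb000000000000000800000008000000000000000000000000 0x40000000c0000001f0000001800000018000000180000001c0000001c00000004 6 5) 0 0 (step_sound _ 163 [(rh8065c10b3cae6218.shift 2 2), (rhb346c908451f6a93.shift 2 0), (rheca207e390c8f755.shift 0 3)] (by decide +kernel))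
noncomputable def rhe67d8798a0c7d570 : CRef := CRef.mk (Pat.mk 0xb000000000000000800000008000000000000000000000000 0x140000001e0000001b0000001800000018000000180000001c0000001c00000004 6 5) 0 0 (step_sound _ 163 [(rh3c8f4260c625d1ca.shift 0 3), (rhb346c908451f6a93.shift 2 0), (rhc9de03f9731897d4.shift 3 1), (rhe42acc0e8a161ada.shift 0 2)] (by decide +kernel))
noncomputable def rh6fc6454a4bb28e78 : CRef := CRef.mk (Pat.mk 0x1000000008000000f00000002000000000 0x200000007c0000002f000001f80000003000000010 6 9) 0 0 (step_sound _ 36 [(rh18965a982d73c794.shift 4 1), rh3abb27c663038e1d] (by decide +kernel))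
noncomputable def rhc01be4cfaed91500 : CRef := CRef.mk (Pat.mk 0x80000000b00000008000000000000000000000000 0x10000000180000000f000000080000001c0000001c00000014 6 5) 0 0 (step_sound _ 164 [(rh1b9022be4f7af407.shift 2 0), (rh1c62b6193297d9e3.shift 0 4)] (by decide +kernel))
noncomputable def rhcecd8b0bd66efb3a : CRef := CRef.mk (Pat.mk 0x90000000800000008000000080000000000000000 0x100000001c0000001f0000000800000008000000180000001800000010 6 5) 0 0 (step_sound _ 36 [rh70aca44cca3edb83, (rhd3458b32566d63f7.shift 3 1)] (by decide +kernel))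
noncomputable def rh04196cfdd563d938 : CRef := CRef.mk (Pat.mk 0x12000000100000001200000010 0x4000000040000000c0000001e000000370000001200000012 6 6) 0 0 (step_sound _ 99 [(rh50fbb5868c909700.shift 3 0), rh60acce34b5923411] (by decide +kernel))
noncomputable def rheb8a4b2cbe7a67ef : CRef := CRef.mk (Pat.mk 0x2000000020000000600000006000000000000000000000000 0x500000007000000030000000600000006000000030000000300000003 6 3) 0 0 (step_sound _ 194 [(rh2f68792b6b779e96.shift 1 3), rha9a9dd876407ae9a] (by decide +kernel))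
noncomputable def rhc8d0ecd5210e71c6 : CRef := CRef.mk (Pat.mk 0x4000000000000000600000006000000000000000000000000 0x5000000070000000700000006000000030000000300000003 6 3) 0 0 (step_sound _ 65 [rh29b38ff9862c437e, (rhee230b994cc8b773.shift 1 2)] (by decide +kernel))
noncomputable def rh08a89f672c172fbf : CRef := CRef.mk (Pat.mk 0x6000000000000000600000006000000000000000000000000 0x500000007000000030000000600000006000000030000000300000003 6 3) 0 0 (step_sound _ 161 [(rh2f68792b6b779e96.shift 1 3), rha9a9dd876407ae9a] (by decide +kernel))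
noncomputable def rhcd5d2819b29879e8 : CRef := CRef.mk (Pat.mk 0x7000000000000000300000002000000000 0x4f000001fe0000003e000000300000003000000010 6 9) 0 0 (step_sound _ 101 [(rh2f68792b6b779e96.shift 5 1), rhff388f1ccb523833] (by decide +kernel))
noncomputable def rh5e7d6c14b08608b3 : CRef := CRef.mk (Pat.mk 0xe000000000000001000000010 0x780000003e000000730000003000000010 6 7) 0 0 (step_sound _ 100 [rh5970369cc29b1c4c, (rh6a78fa75f0f8d5b0.shift 1 0), (rhdad6fb8687a5e7f2.shift 1 0)] (by decide +kernel))
noncomputable def rh79515fe05f82c66c : CRef := CRef.mk (Pat.mk 0xe00000000000000100000001000000000 0x700000003e00000077000000300000003000000020 6 7) 0 0 (step_sound _ 132 [rh0c1050593a87f960, (rh5970369cc29b1c4c.shift 0 1), (rh6a78fa75f0f8d5b0.shift 1 1), (rha55e9a51d19a998f.shift 0 3)] (by decide +kernel))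
noncomputable def rha8e7b774f0113357 : CRef := CRef.mk (Pat.mk 0x18000000080000004800000040000000000000000000000000 0xa0000000e0000003f7000001fe000003c8000000c8000000c8000000e0000000e0000000a0 6 10) 0 0 (step_sound _ 198 [(rh0a91e73157c439ff.shift 0 3), (rh165d2d04fff36d9c.shift 3 0), (rh6b3ec43dfc8e5ff5.shift 3 2), (rh7a853e027c1a4c21.shift 0 3), (rha598ed9e115c2032.shift 2 2), (rhabc3166674883eb8.shift 5 0), (rhc4ad7b6077cdd4d0.shift 3 1), (rhdfdb45823056ce54.shift 3 1), (rhfdc1542ba53e25f0.shift 3 0)] (by decide +kernel))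
noncomputable def rh9b31510a4fa3a7a9 : CRef := CRef.mk (Pat.mk 0x6000000020000001000000010000000000000000000000000 0x2800000038000000780000003f000000730000003000000030000000380000003800000028 6 7) 0 0 (step_sound _ 196 [(rh2425f70e2f5fab7e.shift 0 3), (rh29e07b8822e3047d.shift 0 3), (rh76d31705d2d04752.shift 0 3), (rhabc3166674883eb8.shift 3 0)] (by decide +kernel))
noncomputable def rh8e146f2717be634e : CRef := CRef.mk (Pat.mk 0x6000000020000001000000010000000000000000000000000 0x280000007c0000003f000000730000003000000030000000380000003800000008 6 7) 0 0 (step_sound _ 196 [(rh2425f70e2f5fab7e.shift 0 3), (rh29e07b8822e3047d.shift 0 3), (rh76d31705d2d04752.shift 0 3), (rhfdc1542ba53e25f0.shift 1 0)] (by decide +kernel))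
noncomputable def rh160da74d6316e854 : CRef := CRef.mk (Pat.mk 0x3000000000000000500000005 0x3b0000001f0000003d0000000d00000005 6 6) 0 0 (step_sound _ 129 [rh04253f50b6dd0619, rh224800885815ad17] (by decide +kernel))
noncomputable def rh3f33ee087145489e : CRef := CRef.mk (Pat.mk 0xc000000000000002c0000002c00000000 0x730000007e0000006f0000006e0000006c00000040 6 7) 0 0 (step_sound _ 132 [(rh3595fb626c696663.shift 0 1), rh71c205c8e7269289, (rh7530e69f327d5753.shift 0 1), (rh9d0ec266e59cecd2.shift 1 0), (rhdc614a6ff293e87f.shift 0 1)] (by decide +kernel))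
noncomputable def rhea696dd740fdbecc : CRef := CRef.mk (Pat.mk 0x800000018000000000000000800000040 0x8000001ff000000ff000001c70000004c00000048 6 9) 0 0 (step_sound _ 101 [(rh0531b49c6246b1a6.shift 2 0), (rh12eb151930dae4e8.shift 2 0), (rh757650899816e33a.shift 2 0), rhe72f9a44d52f5daf] (by decide +kernel))
noncomputable def rh2cf98f2b83f1ee6f : CRef := CRef.mk (Pat.mk 0x20000001a000000100000001800000000 0x10000000100000003000000130000001e000000130000001f0000000f 6 5) 0 0 (step_sound _ 132 [(rh932754581e0f4330.shift 3 0), rhf497d0e10a678129] (by decide +kernel))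
noncomputable def rhc83f30a76d992b6c : CRef := CRef.mk (Pat.mk 0x20000001a00000010000000180000000000000000 0x2000000120000001f000001d3000000ff000001ef00000001 6 9) 0 0 (step_sound _ 97 [(rh363ae3da3de3a14c.shift 0 1), (rh372c3714a9a88457.shift 1 1), rhf46d583591ad4f8e] (by decide +kernel))
noncomputable def rh5301f19a52a4c514 : CRef := CRef.mk (Pat.mk 0x80000004800000040000000600000000000000000 0x100000001c0000001c0000004c0000004c0000004f000001fe000003bf00000014 6 10) 0 0 (step_sound _ 67 [(rh013aab45c5de02c3.shift 2 0), (rh12fc1d5ad297c074.shift 0 1), (rh199be9165565ad97.shift 2 0), (rh83e34a48df2de57d.shift 2 0), (rh8824b7eab7e8243d.shift 2 0), (rh8d1562b216e7fa9a.shift 2 0), (rh9e7dc5ff5d2cac94.shift 2 0), (rhb74b685ad71cb3f8.shift 2 0), (rhf7373758c9e17d99.shift 2 1), (rhfbf370cb7ebefa58.shift 0 1)] (by decide +kernel))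
noncomputable def rhfed1d0c9478a4b62 : CRef := CRef.mk (Pat.mk 0x20000001a00000000000000180000000000000000 0x3000000030000001f000000030000001f0000000700000001 6 5) 0 0 (step_sound _ 97 [(rh01e48cd9f335aa73.shift 0 3), (rh363ae3da3de3a14c.shift 0 1), rhb0645d647fa8b06b, (rhda90b768981a09fb.shift 0 1)] (by decide +kernel))
noncomputable def rh997545463474f81b : CRef := CRef.mk (Pat.mk 0x20000001a00000010000000180000000000000000 0x100000003000000130000001f000000130000001f0000000f00000001 6 5) 0 0 (step_sound _ 35 [(rh5c5e593799055d58.shift 3 1), rh96482d388a6b5355] (by decide +kernel))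
noncomputable def rhdb957f604ab17ea6 : CRef := CRef.mk (Pat.mk 0x800000018000000180000001c00000000 0x140000001e00000078000000180000003f00000020 6 7) 0 0 (step_sound _ 32 [(rh179767cb0dc619d4.shift 1 0), (rh24ae073cf30720c4.shift 0 1)] (by decide +kernel))
noncomputable def rh28a1b1cf5ac531c2 : CRef := CRef.mk (Pat.mk 0x800000018000000100000001e00000000 0x50000001f0000001f0000001b0000001e00000003 6 5) 0 0 (step_sound _ 65 [(rh3244c3cc8379b070.shift 0 1), rhf0df43c0ba239771] (by decide +kernel))
noncomputable def rh492cc0768b86b07a : CRef := CRef.mk (Pat.mk 0x1000000030000000000000007800000000 0xa0000001e000000fc000000070000007e0000000f 6 8) 0 0 (step_sound _ 34 [(rh2fc061da5ef9a961.shift 1 0), rh592c7139d2c44767, (rheae1728ff4a56756.shift 1 0)] (by decide +kernel))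
noncomputable def rha02d486abca2241f : CRef := CRef.mk (Pat.mk 0x1000000030000000000000007800000000 0xa0000003e000000fc000000070000007e0000000f 6 8) 0 0 (step_sound _ 34 [rh592c7139d2c44767, (rhc3ff11d15777c4bc.shift 1 0), (rheae1728ff4a56756.shift 1 0)] (by decide +kernel))
noncomputable def rh2ebf6cd377310f05 : CRef := CRef.mk (Pat.mk 0xa0000001a00000000000000010000000000000000 0x80000000a0000001a0000003a0000001f0000003f0000001500000001 6 6) 0 0 (step_sound _ 100 [rh9976fb7d5298745f, (rha40d42a2e34c408d.shift 3 1), rhcba2d8acf7178fd3] (by decide +kernel))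
noncomputable def rh5fa529afd5fe9a7d : CRef := CRef.mk (Pat.mk 0xb0000000800000000000000040000000000000000 0x8000000080000001f000000180000001c0000001c0000001c00000014 6 5) 0 0 (step_sound _ 132 [(rhc10214bf3fe8094a.shift 0 4), (rhee76c82cc5922b09.shift 2 0)] (by decide +kernel))
noncomputable def rh9fa58b4360de64eb : CRef := CRef.mk (Pat.mk 0x5800000050000000000000002800000000 0x78000000d0000000170000007e000001ff 6 9) 0 0 (step_sound _ 36 [rh61a0202de37988d6, (rhbf726fa7097229f2.shift 3 0), rhc205d8388aa0d7ea, (rhe9937ce8bcea713a.shift 2 0)] (by decide +kernel))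
noncomputable def rh67fe4f99a90bcb1b : CRef := CRef.mk (Pat.mk 0xb0000000a000000000000000500000000 0xa0000001f0000001b0000001e0000000700000003 6 5) 0 0 (step_sound _ 130 [rhd8b39d312b36c2a6, (rhe25b0a99195a5d59.shift 0 3)] (by decide +kernel))
noncomputable def rhb7afa85cebbcc996 : CRef := CRef.mk (Pat.mk 0xb0000000a00000000000000040000000000000000 0xa0000001f0000007a0000001e0000001c0000001c00000014 6 7) 0 0 (step_sound _ 132 [(rhc10214bf3fe8094a.shift 0 4), (rhf055b4721d0472df.shift 1 0)] (by decide +kernel))
noncomputable def rh5cf8d1ce957ff8f7 : CRef := CRef.mk (Pat.mk 0x5000000050000000000000002800000000 0x400000005000000050000000f00000007c000001ff 6 9) 0 0 (step_sound _ 36 [rh61a0202de37988d6, (rh749767dc9f30b489.shift 1 0), (rhbf726fa7097229f2.shift 3 0), (rhe9937ce8bcea713a.shift 2 0)] (by decide +kernel))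
noncomputable def rhe0fb8d90012b75f2 : CRef := CRef.mk (Pat.mk 0x1600000014000000000000000a00000000 0x140000003e000000360000003c0000001f0000000a 6 6) 0 0 (step_sound _ 131 [rh40c3588c84ef59c4, (rhe25b0a99195a5d59.shift 1 3)] (by decide +kernel))
noncomputable def rh6f48b1b6a3a26e2b : CRef := CRef.mk (Pat.mk 0x1000000010000000170000001400000000000000000000000000000000 0xa0000000e0000001e0000003500000017000000360000003e0000003e0000000e00000002 6 6) 0 0 (step_sound _ 67 [(rh55123a52893bdba6.shift 1 1), rh79370329a2139df8, (rha61332e7ba53314b.shift 3 2)] (by decide +kernel))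
noncomputable def rh101d57b5ed7efff0 : CRef := CRef.mk (Pat.mk 0x2e0000000c000000080000000000000000 0x200000002000000030000007e0000000c0000000c0000000c0000000c 6 7) 0 0 (step_sound _ 132 [rh0228b0387419a1ae, (rh18965a982d73c794.shift 2 3)] (by decide +kernel))
noncomputable def rh646f40a5eaa2d8a9 : CRef := CRef.mk (Pat.mk 0x600000006000000040000000000000000 0x400000006000000060000003c0000000f0000000e 6 6) 0 0 (step_sound _ 34 [rh7133a7a78d762f91, (rh7b1f1fb55310c477.shift 1 0)] (by decide +kernel))
noncomputable def rh17a346ece17b3628 : CRef := CRef.mk (Pat.mk 0x1700000016000000040000000000000000 0x4000000250000003f000000160000003e0000003a00000002 6 6) 0 0 (step_sound _ 65 [(rh2e076e66ee007521.shift 1 1), rh40241bd608e5be1a, (rhea7a1800d6f053bd.shift 1 0)] (by decide +kernel))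
noncomputable def rh71004bc8709e16d3 : CRef := CRef.mk (Pat.mk 0xe0000000c000000080000000000000000 0x20000000e0000000c0000000f0000003c0000001c 6 6) 0 0 (step_sound _ 35 [rh1080998bc48bf8c4, (rh7b1f1fb55310c477.shift 2 0)] (by decide +kernel))
noncomputable def rh717301b165cecbbb : CRef := CRef.mk (Pat.mk 0x40000000c0000000400000000000000000000000000000000 0xc0000000c0000000c0000001f0000007c0000001c0000001000000010 6 7) 0 0 (step_sound _ 99 [(rh390a8df03c6c5a62.shift 2 2), (rh478c4cadbcd4e066.shift 2 2), rh4d802211d7e6f343, (rh8f4050c06a082165.shift 2 2)] (by decide +kernel))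
noncomputable def rh4cf92bdb25fa5c08 : CRef := CRef.mk (Pat.mk 0x80000001800000008000000000000000000000000 0x800000018000000180000007c0000001f0000001c0000000c 6 7) 0 0 (step_sound _ 100 [(rh55a1f6c57a317ce6.shift 3 1), rhff260181c40c81b4] (by decide +kernel))
noncomputable def rh5179fe14f8e67687 : CRef := CRef.mk (Pat.mk 0x20000000600000002000000000000000000000000 0x400000006000000060000000600000006000000070000000700000005 6 3) 0 0 (step_sound _ 65 [rh8cdd36b03d57a2f6, (rha707fb719e87fe6e.shift 1 1), (rhb339781626c9db8b.shift 0 1)] (by decide +kernel))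
noncomputable def rh502de1890a032282 : CRef := CRef.mk (Pat.mk 0xa0000001a000000080000000000000000 0x8000000180000001a0000001a0000007a0000001f0000000c0000000c 6 7) 0 0 (step_sound _ 132 [rh7942bacd8c999042, (rha5d654f2ef2a6ee6.shift 0 1), (rhea7a1800d6f053bd.shift 3 0)] (by decide +kernel))
noncomputable def rh43a63da19bcb0aac : CRef := CRef.mk (Pat.mk 0x40000000c00000004000000000000000000000000 0x80000000c0000000c0000003e0000007f0000001e0000000a 6 7) 0 0 (step_sound _ 66 [(rh8cdd36b03d57a2f6.shift 1 0), (rha707fb719e87fe6e.shift 2 1), (rhbd58111dd519a295.shift 0 1)] (by decide +kernel))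
noncomputable def rh5e9703106e3a464e : CRef := CRef.mk (Pat.mk 0x80000001800000008000000000000000000000000 0x18000000180000000800000078000000ff000000fe0000001400000004 6 8) 0 0 (step_sound _ 100 [rh3295568599f8a313, (rh55a1f6c57a317ce6.shift 3 1), (rhe40ef56aa46358e3.shift 1 2)] (by decide +kernel))
noncomputable def rh4f9c4682bc03af0b : CRef := CRef.mk (Pat.mk 0x800000018000000080000000000000000 0x1800000038000000f8000000f8000000ff0000003400000030 6 8) 0 0 (step_sound _ 68 [(rh55a1f6c57a317ce6.shift 3 0), rhb002a553cb3695b6, (rhe40ef56aa46358e3.shift 1 1)] (by decide +kernel))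
noncomputable def rh628056c437bc63e1 : CRef := CRef.mk (Pat.mk 0x20000000600000002000000000000000000000000 0x400000006000000060000000600000003000000070000000700000005 6 3) 0 0 (step_sound _ 65 [rh8cdd36b03d57a2f6, (rha707fb719e87fe6e.shift 1 1), (rhb58235721fe0b773.shift 0 1)] (by decide +kernel))
noncomputable def rh357961d6db9e2750 : CRef := CRef.mk (Pat.mk 0x80000001800000008000000000000000000000000 0x180000001800000018000000180000007c0000001f0000001c0000000c 6 7) 0 0 (step_sound _ 100 [(rh1c3f47bb179c7b94.shift 2 1), (rh55a1f6c57a317ce6.shift 3 1), rhff260181c40c81b4] (by decide +kernel))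
noncomputable def rhd3393aadb0c1a36e : CRef := CRef.mk (Pat.mk 0xa0000000a00000008000000000000000000000000 0xa0000000a0000000b0000007e0000001f0000001400000004 6 7) 0 0 (step_sound _ 66 [(rh86aa94d7c0c1e10d.shift 1 1), (rhb01ac4982a11ea27.shift 2 0), (rhc872beae9c3c03a5.shift 0 2), (rhe7a05ac21e4bf583.shift 1 0)] (by decide +kernel))
noncomputable def rh8b9389e5ff9b19a7 : CRef := CRef.mk (Pat.mk 0x3700000004000000100000000000000000 0x4000000050000003f000000060000003e0000000f0000000e 6 6) 0 0 (step_sound _ 97 [(rhb2a0b9ccfb5cecd5.shift 1 3), rhbc6c672b90d1445b] (by decide +kernel))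
noncomputable def rh96d520c61f6dfce3 : CRef := CRef.mk (Pat.mk 0xa0000000a00000008000000000000000000000000 0xa0000000a0000003b0000007f0000001e0000001400000004 6 7) 0 0 (step_sound _ 66 [(rh3a5ac4cef59e7e30.shift 0 2), (rh86aa94d7c0c1e10d.shift 1 1), (rhb01ac4982a11ea27.shift 2 0), (rhe7a05ac21e4bf583.shift 1 0)] (by decide +kernel))
noncomputable def rhd69acf141a2253ca : CRef := CRef.mk (Pat.mk 0x2000000020000000200000002000000000000000000000000 0x6000000060000000600000006000000070000000700000001 6 3) 0 0 (step_sound _ 66 [rh92a4fbbe14d43a4b, (rhd3458b32566d63f7.shift 1 2)] (by decide +kernel))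
noncomputable def rh0ef27450615dd351 : CRef := CRef.mk (Pat.mk 0xa0000000a000000080000000800000000 0x1a0000001a0000000a0000000f0000001c00000014 6 5) 0 0 (step_sound _ 34 [rh192f51283cc6c4d2, (rh932754581e0f4330.shift 2 0)] (by decide +kernel))
noncomputable def rh2b71142e308c1241 : CRef := CRef.mk (Pat.mk 0x170000001400000010000000080000000000000000 0x250000003700000036000000370000001e0000003f00000022 6 6) 0 0 (step_sound _ 66 [(rh0bc251320fcd4671.shift 2 1), (rh65b9639a5ef21f4b.shift 0 1), (rha9ab61cfc35bc243.shift 1 0), (rhdb581079a11b7ed7.shift 1 0)] (by decide +kernel))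
noncomputable def rh23d817e1e044d042 : CRef := CRef.mk (Pat.mk 0xa0000000a000000080000000800000000 0x20000000a0000000a0000003f0000003f00000014 6 6) 0 0 (step_sound _ 34 [(rh932754581e0f4330.shift 2 0), rhc83e04c7aa832270] (by decide +kernel))
noncomputable def rha4d9cd354e65ab53 : CRef := CRef.mk (Pat.mk 0x8000000080000000a0000000800000000 0x1000000018000000080000003b0000001f00000014 6 6) 0 0 (step_sound _ 36 [rh1081089e9cd7eb6c, (rh55afc6a59410cf00.shift 3 0)] (by decide +kernel))
noncomputable def rh308a4564924fb9bb : CRef := CRef.mk (Pat.mk 0x200000002000000020000000200000000 0x40000000700000007000000070000000600000006000000060000000300000001 6 3) 0 0 (step_sound _ 32 [rh932754581e0f4330, (rhf5b77440b37c3c4f.shift 0 1)] (by decide +kernel))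
noncomputable def rhec853e36d8b7f76b : CRef := CRef.mk (Pat.mk 0x8000000080000000a0000000800000000 0x1800000018000000080000003b0000001e00000014 6 6) 0 0 (step_sound _ 132 [(rh2f68792b6b779e96.shift 3 1), rha8ef80620549fc75] (by decide +kernel))
noncomputable def rh2b9c284536203562 : CRef := CRef.mk (Pat.mk 0x20000000200000002000000000000000000000000 0x400000006000000060000000600000006000000070000000700000005 6 3) 0 0 (step_sound _ 65 [(rh6c59ce14113da07f.shift 1 0), rh6eff4158bb400f47, (rhb339781626c9db8b.shift 0 1), rhcab3157f7bdcba3e] (by decide +kernel))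
noncomputable def rh499098ae782a34af : CRef := CRef.mk (Pat.mk 0x40000000c000000080000000800000000 0x8000000080000000a0000000f0000003f0000007c0000001f00000017 6 7) 0 0 (step_sound _ 131 [(rh03c8474c6babf461.shift 2 0), (rhac13d16ea91712e4.shift 1 0), rhb1111a1bcb4ac16d, rhb79be3796f1f9759, rhcfbea19f509e11c8, rhe93a1469eabff810] (by decide +kernel))
noncomputable def rh75d89f84b49cb469 : CRef := CRef.mk (Pat.mk 0x1e0000001a000000000000000000000000 0x500000007000000070000000f0000001e0000001e0000000c0000000c0000000c 6 5) 0 0 (step_sound _ 161 [(rh3244c3cc8379b070.shift 0 4), rh3ed9de60b241694a] (by decide +kernel))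
noncomputable def rh2419a197571cea63 : CRef := CRef.mk (Pat.mk 0x30000000600000002000000000000000000000000 0x400000006000000070000000700000003000000070000000700000005 6 3) 0 0 (step_sound _ 65 [(rh55a026e6f690bbaf.shift 0 1), rh8cdd36b03d57a2f6, (rhc705a4e0321a1bff.shift 0 1)] (by decide +kernel))
noncomputable def rh5cbd556ed22bbe15 : CRef := CRef.mk (Pat.mk 0x1000000018000000100000001000000000 0x2e0000003f00000038000000180000001800000008 6 6) 0 0 (step_sound _ 35 [(rh51f1b2b5ed6b9a0d.shift 0 1), (rh932754581e0f4330.shift 3 0)] (by decide +kernel))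
noncomputable def rh08f83030b4a27136 : CRef := CRef.mk (Pat.mk 0x80000007800000000 0x18000000ff000000e7 6 8) 0 0 (step_sound _ 6 [rh4e5711838124a51f, (rhe25b0a99195a5d59.shift 3 0)] (by decide +kernel))
noncomputable def rh3064144071775e5f : CRef := CRef.mk (Pat.mk 0x10000000780000000800000000 0x1c0000001f0000003c000000780000001800000010 6 7) 0 0 (step_sound _ 99 [(rh3244c3cc8379b070.shift 2 2), rhd706c045747d5eb8] (by decide +kernel))
noncomputable def rh276f6ac79b43ae42 : CRef := CRef.mk (Pat.mk 0x20000000f000000000 0x7e000000fe00000187 6 9) 0 0 (step_sound _ 7 [rh49ebcbaac3a39965, (rhe25b0a99195a5d59.shift 4 0)] (by decide +kernel))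
noncomputable def rha8183040765128c5 : CRef := CRef.mk (Pat.mk 0x20000000f000000008 0x77000000fe0000018c 6 9) 0 0 (step_sound _ 7 [rh24a26d6228d626b8, (rhe25b0a99195a5d59.shift 4 0)] (by decide +kernel))
noncomputable def rh9e21f8155d8e79d7 : CRef := CRef.mk (Pat.mk 0x100000007800000000 0x370000007e000000ce 6 8) 0 0 (step_sound _ 2 [(rh80fcd6d0a18cb2dd.shift 2 0), rhfa962880dcb026ce] (by decide +kernel))
noncomputable def rh7a464a5dcbccb714 : CRef := CRef.mk (Pat.mk 0x20000000e00000000 0x730000003e00000073 6 7) 0 0 (step_sound _ 36 [rh07fc106a6edf0c0a, (rh3244c3cc8379b070.shift 0 1)] (by decide +kernel))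
noncomputable def rh5d54a69ee789ff61 : CRef := CRef.mk (Pat.mk 0x20000000e000000000000000000000000 0x10000000330000001f000000380000000800000008 6 6) 0 0 (step_sound _ 100 [(rh3244c3cc8379b070.shift 0 3), rhf459621b93742302] (by decide +kernel))
noncomputable def rh3290dfcc58639ec3 : CRef := CRef.mk (Pat.mk 0x10000000000000000a0000003a00000000000000000000000000000000 0x11000000350000001f0000001b0000003e0000002b000000030000000100000001 6 6) 0 0 (step_sound _ 196 [(rh2738edcf84b3bede.shift 3 3), (rhab2ae83e2bc2464b.shift 3 3), rhfb74894423510101] (by decide +kernel))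
noncomputable def rheac81b5cea2f7557 : CRef := CRef.mk (Pat.mk 0x1000000000000000020000001a00000000000000000000000000000000 0x40000001f00000007000000030000001e00000003000000070000000700000005 6 5) 0 0 (step_sound _ 97 [(rh01e48cd9f335aa73.shift 0 3), rh1ede0cc3e1fbed48, rh5c8c873042790be0] (by decide +kernel))
noncomputable def rh94624df380700775 : CRef := CRef.mk (Pat.mk 0x4000000000000000280000006800000000000000000000000000000000 0x4000000054000000f40000007c0000002f000000780000002c0000000c0000000400000004 6 8) 0 0 (step_sound _ 197 [(rh0ad4bdeff8e6434d.shift 2 0), (rh15dcc863be0132cc.shift 4 3), (rh4e3b96c138b44aa4.shift 2 3), (rh8523ec7b62989a43.shift 2 3), (rhb47c5d90876cdccb.shift 2 3), (rhbc9698eeb2423386.shift 0 3)] (by decide +kernel))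
noncomputable def rhaa0a47f2114a3307 : CRef := CRef.mk (Pat.mk 0x10000000000000000a0000001a00000000000000000000000000000000 0x1d0000000f0000001b0000001e00000003000000070000000700000005 6 5) 0 0 (step_sound _ 97 [(rh01e48cd9f335aa73.shift 0 3), rh5c8c873042790be0, rh6d6f7dfe902581c9] (by decide +kernel))
noncomputable def rh4dde61c170ba2fd4 : CRef := CRef.mk (Pat.mk 0x80000000a0000001a00000000 0x100000001c0000003c0000000f0000001b0000001f00000008 6 6) 0 0 (step_sound _ 131 [(rh0a91c5e040615723.shift 2 0), (rh23ab074872020998.shift 0 1), rh5ee4dc8825dcefa0] (by decide +kernel))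
noncomputable def rh8983eb0cd8f1eae1 : CRef := CRef.mk (Pat.mk 0x80000000a0000001a000000000000000000000000 0xc0000000c0000001c0000001b0000001f000000080000000800000008 6 5) 0 0 (step_sound _ 98 [rh0a1f11c5a3fbf335, (rh3244c3cc8379b070.shift 0 3)] (by decide +kernel))
noncomputable def rh941c586a5a5992f7 : CRef := CRef.mk (Pat.mk 0x80000000a0000003a00000000000000000000000000000000 0x4000000170000003e0000001b0000003f000000680000001c0000001c00000014 6 7) 0 0 (step_sound _ 196 [(rh4fd848abfc99e9ae.shift 2 0), (rh65b6e7c57ae34b46.shift 0 3), (rh95eabf4161ec5242.shift 0 2), (rhd5d8c8be6c5a5d92.shift 0 3)] (by decide +kernel))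
noncomputable def rhfd2a9c016b356395 : CRef := CRef.mk (Pat.mk 0x2000000020000000e000000000000000000000000 0x4000000070000000700000007000000060000000e0000000a0000000200000002 6 4) 0 0 (step_sound _ 193 [(rh0a91c5e040615723.shift 0 2), (rhc4055b4872d6fb38.shift 0 2), (rhdbc400e79194dff9.shift 0 3), rhdfd10cc9da38ede8, (rhe5fc0333a9854b22.shift 1 2)] (by decide +kernel))
noncomputable def rha5a6c0d7b1981909 : CRef := CRef.mk (Pat.mk 0x80000000a0000003a00000000 0x1800000018000000180000001b0000003f00000060 6 7) 0 0 (step_sound _ 34 [(rh3244c3cc8379b070.shift 0 1), rhe86c8d24b32327ff] (by decide +kernel))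
noncomputable def rh9c989e17b35cbab0 : CRef := CRef.mk (Pat.mk 0x8000000280000002800000000 0x10000000540000007e000000ff000000680000002800000028 6 8) 0 0 (step_sound _ 132 [(rh08d50fe567eb1045.shift 3 0), (rh15dcc863be0132cc.shift 2 0), rh22d86f446f3de558, (rha3552d27c956daf4.shift 1 0), (rhe2f0e26684ea6fb2.shift 1 0)] (by decide +kernel))
noncomputable def rhd7316d8fd5392b81 : CRef := CRef.mk (Pat.mk 0x40000001400000074000000000000000000000000 0x8000000380000007b0000003e000000340000007c000000560000001200000010 6 7) 0 0 (step_sound _ 163 [(rh14717ccbed19c051.shift 1 1), (rh84dc6781d3786179.shift 0 1), (rh9d0f0237fabab8b4.shift 1 0), (rhf8346b0c2a63de92.shift 2 2)] (by decide +kernel))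
noncomputable def rh7c659a90af31c167 : CRef := CRef.mk (Pat.mk 0x800000028000000e8000000000000000000000000 0x50000000740000007c000000ff0000007c00000068000000fc000000a60000002000000020 6 8) 0 0 (step_sound _ 165 [(rh03f4b54ecc5c7174.shift 2 2), (rh4eadfbfdecd8dbb5.shift 2 3), (rh6e9b5e5ebb2bb937.shift 0 2), (rh78f582e5da2727e2.shift 2 2), (rh83b731c0d198591f.shift 1 2), (rhc683e15f3f500f0d.shift 0 2), (rhca685fd522baedbe.shift 2 0), (rhcfaec4d878663234.shift 2 2)] (by decide +kernel))
noncomputable def rh74b617e113480fdb : CRef := CRef.mk (Pat.mk 0x800000008000000080000000000000000000000000000000000000000 0x40000001c0000003c0000000f0000000c0000000c0000001c0000001c0000001c00000004 6 6) 0 0 (step_sound _ 131 [(rh05826e0566277456.shift 2 0), (rh565a0c22519f57e9.shift 2 3), (rh5ee4dc8825dcefa0.shift 0 3), (rh6aa5625770489e83.shift 2 2)] (by decide +kernel))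
noncomputable def rhc326f8aade59fb53 : CRef := CRef.mk (Pat.mk 0x8000000280000002800000000 0x100000001c0000001c0000001f000000fc0000002c0000002c00000028 6 8) 0 0 (step_sound _ 131 [(rh7086929b0e17680e.shift 2 0), (rhc4055b4872d6fb38.shift 2 0), rhc8e5a5606908e7d0, (rhfeb565e3642a0443.shift 2 1)] (by decide +kernel))
noncomputable def rh275a17fdb82ca284 : CRef := CRef.mk (Pat.mk 0x800000028000000e80000000000000000 0x40000000fc00000078000000fc0000006f000000ec000000ac00000004 6 8) 0 0 (step_sound _ 164 [(rh66d46f39a73ee696.shift 2 0), (rh7b6ccf80631e697d.shift 0 1), (rhb2b0207cc28c3817.shift 2 1)] (by decide +kernel))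
noncomputable def rh8aff3d111536753d : CRef := CRef.mk (Pat.mk 0x20000000200000002000000000000000000000000 0x7000000070000000700000003000000030000000300000003000000030000000300000001 6 3) 0 0 (step_sound _ 193 [rh187447a19d78efb5, (rh3d48cb4e7e716da9.shift 0 2), (rh565a0c22519f57e9.shift 0 2), (rh5e727940cea29a80.shift 0 2), (rh6aa5625770489e83.shift 0 1)] (by decide +kernel))
noncomputable def rhc088718095fa90c5 : CRef := CRef.mk (Pat.mk 0x4000000140000001400000000 0xa0000002e0000003f0000007e000000160000001600000012 6 7) 0 0 (step_sound _ 130 [(rh20966da26a1c2ae8.shift 1 0), (rh565a0c22519f57e9.shift 1 0), (rh762a1aeaf83c662a.shift 1 0), rh9bfb870092698778, (rhc85cc95794737cf7.shift 1 1)] (by decide +kernel))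
noncomputable def rh9c741c2d544128aa : CRef := CRef.mk (Pat.mk 0x80000002800000068000000000000000000000000 0x1000000030000000760000007c0000006f000000680000002c0000000c00000004 6 7) 0 0 (step_sound _ 164 [(rh45ddb8e9a80bbf00.shift 1 0), (rhb8c18aeece372d98.shift 2 0), (rhc554476314c43248.shift 0 2), (rhf8346b0c2a63de92.shift 3 2)] (by decide +kernel))
noncomputable def rh529cf216ce4caf2f : CRef := CRef.mk (Pat.mk 0x20000000e000000000000000000000000 0x10000000760000003f000000780000000800000008 6 7) 0 0 (step_sound _ 100 [(rh074fd259b7a6fbaa.shift 0 2), (rh60e95adc726bb530.shift 1 2), (rh790acd67f4fffd04.shift 1 3), rhf459621b93742302] (by decide +kernel))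
noncomputable def rh7cbe830e25f634b7 : CRef := CRef.mk (Pat.mk 0x1c000000380000000800000000 0xc0000001c0000007c0000001c0000003c0000000f00000004 6 7) 0 0 (step_sound _ 132 [rh069646da498b276f, (rh5c5e593799055d58.shift 3 1)] (by decide +kernel))
noncomputable def rh87b7c233cc465cba : CRef := CRef.mk (Pat.mk 0x1c000000180000000800000000 0x180000003c0000007f0000001c000000180000001800000010 6 7) 0 0 (step_sound _ 131 [(rh55a1f6c57a317ce6.shift 3 0), (rh9f48259926176fe8.shift 2 0), (rhac208c1278ee4447.shift 0 1)] (by decide +kernel))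
noncomputable def rhb11f2babe3d1c3b7 : CRef := CRef.mk (Pat.mk 0x80000000b0000000c0000000000000000000000000000000000000000 0x140000001e0000000b0000000c0000000c0000001c0000001c0000001c00000004 6 5) 0 0 (step_sound _ 131 [(rh10b8df1e8cc681c2.shift 2 0), (rh564d2d236cd269d1.shift 0 2), (rha78afc937ca94db4.shift 0 4)] (by decide +kernel))
noncomputable def rh96b47f6d67469b86 : CRef := CRef.mk (Pat.mk 0x80000001c0000001800000000 0xc0000000c0000000c0000001c0000001f00000007 6 5) 0 0 (step_sound _ 131 [(rh2145e1d24b96a57e.shift 3 1), rha0b07cf10a24615f] (by decide +kernel))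
noncomputable def rh3518bf28ba9a33fa : CRef := CRef.mk (Pat.mk 0x600000006000000020000000000000000 0x300000003000000030000000600000006000000060000000600000006 6 3) 0 0 (step_sound _ 33 [rh5c46ef0f4f914245, (rh71222050f2c63a3a.shift 1 0)] (by decide +kernel))
noncomputable def rhf696566d48d155fb : CRef := CRef.mk (Pat.mk 0x7000000060000000200000000 0x30000000f0000001f00000007000000060000000700000005 6 5) 0 0 (step_sound _ 129 [(rh55a1f6c57a317ce6.shift 1 0), rh7250cfd3db0ef070, rhcaa080098f0e9e4a] (by decide +kernel))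
noncomputable def rh36c9aefcd295bc1c : CRef := CRef.mk (Pat.mk 0x1a0000003a00000000000000000000000000000000 0x100000003000000130000001b0000003b0000001f0000000f0000000f00000005 6 6) 0 0 (step_sound _ 97 [(rh21fa0c8f8ac79171.shift 0 1), (rh37c05aa62684ff00.shift 0 1), rh5a31c14f96fd41e0, (rhae4b63745560a7d7.shift 1 0)] (by decide +kernel))
noncomputable def rh0bf7d72b3d86472f : CRef := CRef.mk (Pat.mk 0x8000000000000001c0000001800000000 0xc0000000c0000000c0000001c0000001f00000007 6 5) 0 0 (step_sound _ 99 [(rh2145e1d24b96a57e.shift 3 1), rha0b07cf10a24615f] (by decide +kernel))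
noncomputable def rhe6e071162f93476e : CRef := CRef.mk (Pat.mk 0x8000000000000001c0000001800000000 0x40000000c0000000c0000001c0000001f00000017 6 5) 0 0 (step_sound _ 99 [(rh55afc6a59410cf00.shift 3 0), rha0b07cf10a24615f] (by decide +kernel))
noncomputable def rh194202f6e24d1612 : CRef := CRef.mk (Pat.mk 0x1000000000000000380000007000000000 0xff0000007e000001ef000000380000007c0000002c 6 9) 0 0 (step_sound _ 133 [(rh31e6ad3683c68b2e.shift 3 0), (rh4c61a8d65f05c464.shift 4 1), rh6d1394ae82358a5a, (rhfc714aa8878fdb73.shift 3 0)] (by decide +kernel))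
noncomputable def rhb6d09d6fd3de86f4 : CRef := CRef.mk (Pat.mk 0x800000018000000180000000800000000 0x180000001c0000001f00000018000000180000000c00000004 6 5) 0 0 (step_sound _ 2 [(rh79877ebd3ef475dd.shift 2 0), (rhac208c1278ee4447.shift 0 1)] (by decide +kernel))
noncomputable def rh0aa410136e98c71b : CRef := CRef.mk (Pat.mk 0x1800000038000000000000000000000000 0xc0000000c0000001c000000180000003c0000001f0000001c00000008 6 6) 0 0 (step_sound _ 67 [(rh46dce94ff64e9d06.shift 0 1), (rhea7a1800d6f053bd.shift 3 0)] (by decide +kernel))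
noncomputable def rh17b1d6597dfc46af : CRef := CRef.mk (Pat.mk 0x1000000000000000280000007800000000 0x1fe000000fc000001ef00000038000000f800000028 6 9) 0 0 (step_sound _ 131 [(rh19bc747194f046b0.shift 3 1), rh22dbbb924d8aa4f1, rh2d55c6a7f1c1aeb9, (rh5f18032ec87cc6c3.shift 1 0)] (by decide +kernel))
noncomputable def rh7401b338127a24a2 : CRef := CRef.mk (Pat.mk 0x1000000000000000280000002800000000 0x4000001ff000000fe000001ff000000280000002800000020 6 9) 0 0 (step_sound _ 133 [(rh31e6ad3683c68b2e.shift 3 0), (rh64759555ab5a221e.shift 4 0), (rh6c06e74081bc8b9a.shift 1 0), rh7146616a16ac35b8, (rhc5079807559727a8.shift 0 1), (rhcc980f3d996f16fc.shift 2 0)] (by decide +kernel))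
noncomputable def rh8e5bb0db12b6ee06 : CRef := CRef.mk (Pat.mk 0x40000001e000000020000000200000000 0x30000000300000003000000070000001e000000360000000600000004 6 6) 0 0 (step_sound _ 68 [rha01b6248c1f0bb4b, (rhe25b0a99195a5d59.shift 1 2)] (by decide +kernel))
noncomputable def rh6ea5ed81821ca661 : CRef := CRef.mk (Pat.mk 0x800000018000000080000001c00000000 0x10000000180000007c0000006f0000007c00000060 6 7) 0 0 (step_sound _ 132 [rh1a1eec278fa8fb30, (rh2f68792b6b779e96.shift 3 1)] (by decide +kernel))
noncomputable def rh8043886fe73b0362 : CRef := CRef.mk (Pat.mk 0x8000000180000000800000000 0x40000001c0000001c00000018000000180000007c0000000f00000004 6 7) 0 0 (step_sound _ 131 [rhb0de455c382c5b1c, (rhccb3a79fd989e123.shift 2 1)] (by decide +kernel))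
noncomputable def rhbdbea8f446c84026 : CRef := CRef.mk (Pat.mk 0x20000001e00000002000000000000000000000000 0x4000000070000000700000007000000060000001e00000032000000070000000700000005 6 6) 0 0 (step_sound _ 101 [(rh96851dee118c1ba3.shift 1 3), rhaf437ea1f7c5e5c5] (by decide +kernel))
noncomputable def rhf32db6b2b1f30873 : CRef := CRef.mk (Pat.mk 0x4000000040000000c00000000 0xa0000000e0000000f0000003c0000000c0000000c00000004 6 6) 0 0 (step_sound _ 130 [rh1bd0c14c4de1ef4d, (rh65909b08999dc522.shift 1 1), (rh73f605273a09a9d0.shift 2 1)] (by decide +kernel))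
noncomputable def rhb3aea7476e1326f4 : CRef := CRef.mk (Pat.mk 0x80000000c00000018000000000000000000000000 0x1000000010000000180000007c0000000f000000180000000c0000000c00000004 6 7) 0 0 (step_sound _ 129 [(rh97fe0a902b6b7219.shift 1 0), (rhb739f4f82bb681b4.shift 0 3)] (by decide +kernel))
noncomputable def rh538d8e5279d78b44 : CRef := CRef.mk (Pat.mk 0x2000000030000000600000002 0x100000003000000070000000600000007000000070000000600000002 6 3) 0 0 (step_sound _ 130 [(rh9106dbe5839ddd08.shift 0 1), (rhbaefcd01e0a8bca3.shift 1 0)] (by decide +kernel))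
noncomputable def rheefbdbd84605bd78 : CRef := CRef.mk (Pat.mk 0x800000008000000180000000c 0x140000001c0000001c0000000c0000000c0000001c000000180000000f 6 5) 0 0 (step_sound _ 0 [(rh1ffd91322bb18093.shift 2 0), rh24ae073cf30720c4] (by decide +kernel))
noncomputable def rh784b5632e0de6fc9 : CRef := CRef.mk (Pat.mk 0x100000002000000020000000600000000000000000000000000000000 0x100000003000000060000000600000003000000070000000700000004 6 3) 0 0 (step_sound _ 97 [rh0b7b56b1d93191f8, (rhffd04209dc8ea796.shift 0 3)] (by decide +kernel))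
noncomputable def rh8c9f3e15fd6a4a73 : CRef := CRef.mk (Pat.mk 0x8000000180000001000000010 0x2000000020000001ff000000ff0000001f00000010 6 9) 0 0 (step_sound _ 69 [(rh26078ccfcf5301e4.shift 1 0), (rh38791ac5737ed75e.shift 2 2), (rh46231ab7bfd17f40.shift 2 1), (rh9f93e2b24091a43d.shift 2 1), rhb4ea3845197b9edc] (by decide +kernel))
noncomputable def rh9984772271e6e217 : CRef := CRef.mk (Pat.mk 0x10000000100000007000000010 0x2f0000007e0000003f0000007000000010 6 7) 0 0 (step_sound _ 99 [(rh50fbb5868c909700.shift 3 0), rh80a0173a57e59ac2] (by decide +kernel))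
noncomputable def rh32f4cdeea6decf6c : CRef := CRef.mk (Pat.mk 0xc00000004000000040000001c00000000 0x120000003f0000003f0000000c0000001c00000010 6 6) 0 0 (step_sound _ 129 [(rh50fbb5868c909700.shift 1 1), rh8010b216e4866763] (by decide +kernel))
noncomputable def rhafcf2efb892dfab7 : CRef := CRef.mk (Pat.mk 0x40000000c0000000c00000000 0x1c0000003c0000000f0000000c0000000c00000004 6 6) 0 0 (step_sound _ 130 [(rh2145e1d24b96a57e.shift 2 1), rhd65b950e17d04dd6] (by decide +kernel))
noncomputable def rh5d8bbbc1818cc981 : CRef := CRef.mk (Pat.mk 0x40000000c0000000c00000000 0xe0000000f0000003c0000000c0000000c00000004 6 6) 0 0 (step_sound _ 130 [rh1bd0c14c4de1ef4d, (rh2145e1d24b96a57e.shift 2 1)] (by decide +kernel))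
noncomputable def rh0287824d01839ded : CRef := CRef.mk (Pat.mk 0x800000018000000780000000000000000 0x30000000740000003f0000003800000078000000c800000008 6 8) 0 0 (step_sound _ 132 [(rh24564abcfba89684.shift 0 1), rhc76be74ae784527d, (rhea7a1800d6f053bd.shift 3 0)] (by decide +kernel))
noncomputable def rh90c1a9571c8e6ce9 : CRef := CRef.mk (Pat.mk 0x2000000060000001e000000000000000000000000 0x30000000300000007000000060000001e000000320000000200000002 6 6) 0 0 (step_sound _ 68 [(rhe25b0a99195a5d59.shift 1 2), rhf7c77fe48087fd5b] (by decide +kernel))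
noncomputable def rh96ebbd42a7c7fc9f : CRef := CRef.mk (Pat.mk 0x20000000e00000000 0x770000003f00000038 6 7) 0 0 (step_sound _ 36 [rh074fd259b7a6fbaa, (rh3244c3cc8379b070.shift 0 1)] (by decide +kernel))
noncomputable def rh3acff599f75099c8 : CRef := CRef.mk (Pat.mk 0x800000018000000080000000c 0xe0000000f0000001e0000000f0000000c 6 5) 0 0 (step_sound _ 34 [rh0e43a953b43b2672, (rh5c5e593799055d58.shift 2 0)] (by decide +kernel))
noncomputable def rh44079c1f972b2cc2 : CRef := CRef.mk (Pat.mk 0xc00000018000000080000000c 0x130000001f0000001f0000000e0000000c 6 5) 0 0 (step_sound _ 97 [rh73dfe59a68583406, (rhb739f4f82bb681b4.shift 0 2)] (by decide +kernel))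
noncomputable def rhf5b8456dd78f875c : CRef := CRef.mk (Pat.mk 0x3800000010000000300000001000000000 0x40000007f0000003e000000380000001e0000000c 6 7) 0 0 (step_sound _ 35 [rh272cbce72498a84d, (rh932754581e0f4330.shift 3 0)] (by decide +kernel))
noncomputable def rhc3b60c5689ac86db : CRef := CRef.mk (Pat.mk 0x4000000020000000200000006 0x1000000030000000700000006000000030000000700000007 6 3) 0 0 (step_sound _ 97 [(rh2f68792b6b779e96.shift 1 0), rhb03a29e2c9f3115a] (by decide +kernel))
noncomputable def rhbdb3cfcb62f98f9c : CRef := CRef.mk (Pat.mk 0x2000000020000000600000003 0x100000003000000030000000300000003000000070000000700000003 6 3) 0 0 (step_sound _ 96 [rh50fbb5868c909700, rh57bfd61f9a661cae] (by decide +kernel))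
noncomputable def rhdbe02fb78ba08b3b : CRef := CRef.mk (Pat.mk 0x80000000800000018000000080000000000000000 0x10000000180000001800000018000000180000001c0000000f0000000800000008 6 5) 0 0 (step_sound _ 195 [(rh44f453b84f013105.shift 3 2), rh4f476f4d5bd14644, (rh71622e3d1527ef05.shift 0 2)] (by decide +kernel))
noncomputable def rhd143594a2a1e9deb : CRef := CRef.mk (Pat.mk 0x8000000080000000800000018000000080000000000000000 0x80000000800000018000000180000007c0000000f0000000800000008 6 7) 0 0 (step_sound _ 66 [rh11edacbdac335664, (rh79877ebd3ef475dd.shift 2 2)] (by decide +kernel))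
noncomputable def rhe8ff1bfcea4e0ea9 : CRef := CRef.mk (Pat.mk 0x80000000800000008000000180000000c 0x140000001c0000001c000000080000000800000018000000780000000f 6 7) 0 0 (step_sound _ 0 [rh24ae073cf30720c4, (rh45e47857f0b7ef07.shift 2 0)] (by decide +kernel))
noncomputable def rh6b2be6fe49c7eac7 : CRef := CRef.mk (Pat.mk 0x800000008000000180000000800000000 0x100000001800000018000000080000007c0000000f00000004 6 7) 0 0 (step_sound _ 34 [(rh932754581e0f4330.shift 2 0), (rhcffc4b078a6820ed.shift 0 1)] (by decide +kernel))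
noncomputable def rh9751adbdb2b69c10 : CRef := CRef.mk (Pat.mk 0x4000000040000000c0000000c00000000 0x180000003c0000000f0000000c0000001c00000014 6 6) 0 0 (step_sound _ 131 [(rh2f68792b6b779e96.shift 2 1), rha22217f51fc5a1ab] (by decide +kernel))
noncomputable def rhae2f874988d453d7 : CRef := CRef.mk (Pat.mk 0x8000000080000000800000018000000040000000000000000 0x8000000080000001800000018000000780000000f0000000c00000008 6 7) 0 0 (step_sound _ 67 [rh11edacbdac335664, (rh932754581e0f4330.shift 2 1)] (by decide +kernel))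
noncomputable def rha8487562e36f04b3 : CRef := CRef.mk (Pat.mk 0x3000000020000000200000004 0x100000007000000070000000600000003000000030000000600000004 6 3) 0 0 (step_sound _ 129 [(rh65e8eebd79bda951.shift 0 1), (rhd3458b32566d63f7.shift 1 0)] (by decide +kernel))
noncomputable def rh18311c85b0ea4226 : CRef := CRef.mk (Pat.mk 0xe00000004000000040000000c00000000 0x300000003f0000003f0000000c0000000e00000002 6 6) 0 0 (step_sound _ 132 [rha82b7c64fa4cb41d, (rhaf9f2efc81a8312b.shift 0 3)] (by decide +kernel))
noncomputable def rhda6729f3879c7c1f : CRef := CRef.mk (Pat.mk 0x3000000020000000600000000000000000000000000000000 0x100000003000000060000000600000003000000070000000700000004 6 3) 0 0 (step_sound _ 97 [rh0b7b56b1d93191f8, (rh50fbb5868c909700.shift 0 3)] (by decide +kernel))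
noncomputable def rhae7bef45101a7957 : CRef := CRef.mk (Pat.mk 0x1c0000001400000030000000000000000000000000 0x2000000022000000660000003c00000034000000fe0000001f0000000a00000008 6 8) 0 0 (step_sound _ 67 [(rh5badeff9815387d2.shift 2 0), (rh6a3f56141fe4ba50.shift 1 1), (rh7682f29da1926818.shift 1 0), (rh8f7063681704f7b7.shift 1 1), (rhbed0deb42f7acbfd.shift 0 2), (rhe88c68b7e6c05d62.shift 1 0)] (by decide +kernel))
noncomputable def rh7e05ae7cb26f2158 : CRef := CRef.mk (Pat.mk 0x140000001400000030000000000000000000000000 0x400000014000003b6000001fe000001df0000000800000008 6 10) 0 0 (step_sound _ 99 [(rh086a6eb649e11754.shift 1 0), (rha7e7d92b5753bea1.shift 2 0), (rha923c86b183b0f97.shift 0 2)] (by decide +kernel))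
noncomputable def rh1731311cc9e592e3 : CRef := CRef.mk (Pat.mk 0x1c00000010000000300000000000000000 0x80000003e000000370000003c0000000400000004 6 6) 0 0 (step_sound _ 129 [rh218640b9e590a0a6, (rhe25b0a99195a5d59.shift 1 3)] (by decide +kernel))
noncomputable def rha3b0bccedf1b1428 : CRef := CRef.mk (Pat.mk 0xe000000080000000800000000 0x1000000014000000370000003e0000001b0000000a00000002 6 6) 0 0 (step_sound _ 100 [(rh59e2ca35af35a44a.shift 0 1), (rh656b343c12268ffa.shift 0 1), (rh8517955ad17845c8.shift 0 1), rhefd858cfdc5d2964] (by decide +kernel))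
noncomputable def rh03d01ee7432bb9c9 : CRef := CRef.mk (Pat.mk 0xe000000180000000000000000 0x14000000370000001e0000001f0000000b0000000b 6 6) 0 0 (step_sound _ 100 [rh4b961a3659b5c1c1, rh531cacad9958d8ca, rhafa8ad03fb07c74b, rhc0fc7017c0a08396] (by decide +kernel))
noncomputable def rh5acd0845f3e2c1fa : CRef := CRef.mk (Pat.mk 0xc0000003800000000000000000000000000000000 0x1c0000001c0000001c0000001c0000003c0000000f0000001c0000001c00000014 6 6) 0 0 (step_sound _ 99 [(rh0a6888916bcef86b.shift 2 0), (rh4d75227bdef4de1e.shift 0 1), (rh668fc65514a55b16.shift 2 1), (rh838812f75ed7f952.shift 0 2)] (by decide +kernel))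
noncomputable def rh9c9216bb04ce9000 : CRef := CRef.mk (Pat.mk 0xe00000009 0x700000007e000000ef 6 8) 0 0 (step_sound _ 36 [(rh56453d502675d295.shift 1 0), rh80fcd6d0a18cb2dd] (by decide +kernel))
noncomputable def rh909b6f2d4da422ad : CRef := CRef.mk (Pat.mk 0xf00000000 0x380000003f00000077 6 7) 0 0 (step_sound _ 68 [rh1aea8b635ae016ce, (rh428265de8cd3cd2d.shift 0 1)] (by decide +kernel))
noncomputable def rhf0a8276bbb29b270 : CRef := CRef.mk (Pat.mk 0x1e000000000000000000000000 0x2000000030000003e000000370000000400000004 6 6) 0 0 (step_sound _ 65 [rh9d0dd2e9259730df, (rheb0810cc63b001d8.shift 0 2)] (by decide +kernel))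
noncomputable def rh70bed6b77265562d : CRef := CRef.mk (Pat.mk 0x300000003000000020000000000000000 0x200000002000000020000000300000003000000070000000700000007 6 3) 0 0 (step_sound _ 33 [rh7b1f1fb55310c477, rh98172d84f27cf27c] (by decide +kernel))
noncomputable def rha11839e2b4e5df62 : CRef := CRef.mk (Pat.mk 0x18000000180000001000000000 0x10000000180000001800000018000000380000003f0000002c 6 6) 0 0 (step_sound _ 132 [(rh0ff7ca71cb891e23.shift 3 0), (rh1e309b005ffa1b36.shift 3 0), rh2d34a3bbbccb0632] (by decide +kernel))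
noncomputable def rhd668db985c61700f : CRef := CRef.mk (Pat.mk 0x7c00000000 0x7000000ff0000003b 6 8) 0 0 (step_sound _ 65 [(rh3f8766e6ecb455ce.shift 1 1), rhfba99ba83997c5ab] (by decide +kernel))
noncomputable def rhe67ce4c07ecbcc07 : CRef := CRef.mk (Pat.mk 0x30000000f0000000200000000 0x60000001f0000001f0000000b0000000f0000000600000004 6 5) 0 0 (step_sound _ 129 [(rhd4b4beefcd67f51e.shift 1 0), rhed5a276f9d899ac4, (rhfb4c54b0dca3343c.shift 0 1)] (by decide +kernel))
noncomputable def rh67287d7c94dbc218 : CRef := CRef.mk (Pat.mk 0x3e000000000000000000000000 0x80000000c000000ff000000380000001000000010 6 8) 0 0 (step_sound _ 68 [rh3c6173ddcd48718f, (rhe25b0a99195a5d59.shift 1 2)] (by decide +kernel))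
noncomputable def rhd80db28116844ab1 : CRef := CRef.mk (Pat.mk 0x1e00000000 0x7000000ff0000003c 6 8) 0 0 (step_sound _ 4 [rh821c1a631420eb55, (rhe25b0a99195a5d59.shift 1 0)] (by decide +kernel))
noncomputable def rh7035fe91715b7ad8 : CRef := CRef.mk (Pat.mk 0x1e0000001200000002000000000000000000000000 0x8000000080000000b0000001e0000001a0000001e0000003f0000003f00000029 6 6) 0 0 (step_sound _ 66 [rh057b43b3c8d2f265, (rh18ef13365be020f9.shift 0 1), (rh54e2670cb103b129.shift 0 2)] (by decide +kernel))
noncomputable def rha4574a59b743f36e : CRef := CRef.mk (Pat.mk 0x380000000800000008000000000000000000000000 0x8000000780000000f0000007c000000180000001000000010 6 7) 0 0 (step_sound _ 130 [(rh18965a982d73c794.shift 2 4), rhbd8dff2a50231c67] (by decide +kernel))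
noncomputable def rh78dd502b71a1252a : CRef := CRef.mk (Pat.mk 0x20000001e0000000200000002000000000000000000000000 0xa0000001e0000003a0000001f0000003d0000003800000008 6 6) 0 0 (step_sound _ 132 [rh1c2c00078dec1d59, (rhe25b0a99195a5d59.shift 1 4)] (by decide +kernel))
noncomputable def rhd3a9d74f60fe6043 : CRef := CRef.mk (Pat.mk 0x180000000c000000080000000800000000000000000000000000000000 0x180000000f0000007c0000001f0000000c0000001c0000001c00000014 6 7) 0 0 (step_sound _ 164 [(rh4eba2cfd7551f9ea.shift 2 0), (rh9600525da14d5dab.shift 0 3), (rha355876672dc863a.shift 0 5)] (by decide +kernel))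
noncomputable def rh0a0d4cca8a8ea44e : CRef := CRef.mk (Pat.mk 0x180000000c000000080000000800000000000000000000000000000000 0x180000000f0000001c00000018000000180000001c0000001c00000014 6 5) 0 0 (step_sound _ 192 [(rh24ae073cf30720c4.shift 0 6), (rh7bad8ed7fb4739ae.shift 2 0)] (by decide +kernel))
noncomputable def rhf421c9b7b24987a7 : CRef := CRef.mk (Pat.mk 0x30000000100000001000000018000000000000000000000000 0x10000000300000001f0000003f0000007f000000060000000400000004 6 7) 0 0 (step_sound _ 131 [rh38b24dd69382dcf0, (rh5c5e593799055d58.shift 3 3)] (by decide +kernel))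
noncomputable def rhf2b2feb3e20d661a : CRef := CRef.mk (Pat.mk 0x28000000080000000800000018 0x28000000280000006c000000ff000000f8 6 8) 0 0 (step_sound _ 36 [(rh2145e1d24b96a57e.shift 3 0), rhc97b0b05c6a15fcd] (by decide +kernel))
noncomputable def rhe6b6e61fb7471146 : CRef := CRef.mk (Pat.mk 0x80000000e00000008000000000000000000000000 0x800000008000000080000000e0000003f0000003f0000001e0000000e 6 6) 0 0 (step_sound _ 98 [(rh121397a93ef3afd3.shift 1 2), rh151148ce16250c9f, (rh1e309b005ffa1b36.shift 2 1)] (by decide +kernel))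
noncomputable def rh5960c2588c6316ce : CRef := CRef.mk (Pat.mk 0x300000001800000018000000000000000000000000 0x30000000ff000000ff000000e00000002000000020 6 8) 0 0 (step_sound _ 129 [(rh24ae073cf30720c4.shift 1 4), rh2cdd50b3696c72ec] (by decide +kernel))
noncomputable def rha182b2a9d5b5c517 : CRef := CRef.mk (Pat.mk 0x1c0000000e000000040000000000000000 0x1c0000007e0000007f0000003400000034 6 7) 0 0 (step_sound _ 100 [rh1facfa9b37bf0df4, (rh35f9caaf0d684eaf.shift 1 0), (rhaf9f2efc81a8312b.shift 0 2)] (by decide +kernel))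
noncomputable def rha5693a0a40b34f34 : CRef := CRef.mk (Pat.mk 0xc0000000e000000040000000000000000 0xc0000007e000000770000003c0000001c 6 7) 0 0 (step_sound _ 34 [rh3a63ce1b169d096c, (rh71222050f2c63a3a.shift 2 0)] (by decide +kernel))
noncomputable def rh1f61c4e29d00315c : CRef := CRef.mk (Pat.mk 0xe00000002000000020000000200000000 0xa0000000e0000000f0000003e0000000600000004 6 6) 0 0 (step_sound _ 34 [(rh55afc6a59410cf00.shift 1 0), (rhd9bae1d7e88c36b7.shift 0 1)] (by decide +kernel))
noncomputable def rhc78d1d6c2bd511f4 : CRef := CRef.mk (Pat.mk 0xc00000018000000080000000800000000000000000000000000000000 0xf000000180000001c0000000c0000000c0000001c0000001c00000014 6 5) 0 0 (step_sound _ 224 [(rh125b4485feeafb2e.shift 2 0), (rhab22b5b56e7b3243.shift 0 6)] (by decide +kernel))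
noncomputable def rh5d7ac7d2f39b0353 : CRef := CRef.mk (Pat.mk 0xc0000000400000004000000000000000000000000 0x40000000c0000000c000000070000003e0000000e0000000a 6 6) 0 0 (step_sound _ 66 [(rh1904b52b42aee148.shift 0 1), (rh8aec56c4ee12918c.shift 1 0), (rh8c3839f9b9075f23.shift 2 0), (rh8cdd36b03d57a2f6.shift 1 0)] (by decide +kernel))
noncomputable def rh9d7f218ede536e28 : CRef := CRef.mk (Pat.mk 0x1000000070000000100000003000000000 0x1000000070000000fe000000ff0000000f 6 8) 0 0 (step_sound _ 35 [rh0850d16ab983ad51, (rh932754581e0f4330.shift 3 0)] (by decide +kernel))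
noncomputable def rhe913eab949cfc300 : CRef := CRef.mk (Pat.mk 0x200000006000000020000000200000000 0x400000007000000070000000300000006000000060000000600000004 6 3) 0 0 (step_sound _ 2 [(rh72afbdc90680d7b8.shift 0 1), (rhd3458b32566d63f7.shift 1 0)] (by decide +kernel))
noncomputable def rh24fcaa301367f85e : CRef := CRef.mk (Pat.mk 0x3800000008000000080000001800000000 0x2000000038000000180000003c000000ff00000024 6 8) 0 0 (step_sound _ 34 [rh59788212b56220e0, (rh932754581e0f4330.shift 2 0)] (by decide +kernel))
noncomputable def rh682d2932cdf5d99d : CRef := CRef.mk (Pat.mk 0x3800000018000000080000000000000000 0x8000000380000003e0000000f0000000c0000000c 6 6) 0 0 (step_sound _ 35 [rh32f4bcb279b29e85, (rh71222050f2c63a3a.shift 3 0)] (by decide +kernel))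
noncomputable def rh6504c6602808b6ac : CRef := CRef.mk (Pat.mk 0xe00000006000000020000000200000000 0x80000000e00000006000000070000003f0000000d 6 6) 0 0 (step_sound _ 0 [rh79877ebd3ef475dd, rhb7bea42cd863571f] (by decide +kernel))
noncomputable def rh1b847e5fab292a20 : CRef := CRef.mk (Pat.mk 0x3800000018000000080000000800000000 0x8000000380000003e0000000f0000001c00000014 6 6) 0 0 (step_sound _ 4 [rh32f4bcb279b29e85, (rhd3458b32566d63f7.shift 3 0)] (by decide +kernel))
noncomputable def rh7c60ab58224c2c5a : CRef := CRef.mk (Pat.mk 0x3c00000000 0xe0000007e000000e7 6 8) 0 0 (step_sound _ 1 [(rh80fcd6d0a18cb2dd.shift 1 0), rhaeb708430c6e66dc] (by decide +kernel))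
noncomputable def rh83bccaa24c38d905 : CRef := CRef.mk (Pat.mk 0x3c00000000 0x380000003f0000003f 6 6) 0 0 (step_sound _ 1 [rh71a689db65139446, (rh80fcd6d0a18cb2dd.shift 1 0)] (by decide +kernel))
noncomputable def rhbac2be4f0e360e43 : CRef := CRef.mk (Pat.mk 0x3800000000 0xf0000007e000000f7 6 8) 0 0 (step_sound _ 34 [rh2ba551de881ca4cd, rh2cc7d62e70c02209, rh8195a2d7794c7cd2, (rhc6ebdb02f2c2b584.shift 1 0)] (by decide +kernel))
noncomputable def rh8f5165134153580b : CRef := CRef.mk (Pat.mk 0x380000000000000000000000000000000000000000 0x140000001c0000001f000000f8000001df0000001c0000001c0000001c00000004 6 9) 0 0 (step_sound _ 131 [(rh551f2e378d429d2a.shift 2 4), (rh64c3acf481f7deac.shift 2 1), rheb1b6f51483999d1, (rhf0f55c4504412200.shift 0 4)] (by decide +kernel))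
noncomputable def rhdd82885d94eab366 : CRef := CRef.mk (Pat.mk 0x600000006000000000000000000000000 0x40000000400000006000000060000000f0000003e0000000e00000004 6 6) 0 0 (step_sound _ 66 [(rh3cb04db3dd2b6a55.shift 1 0), (rh83b8d6faf9820663.shift 0 1)] (by decide +kernel))
noncomputable def rhace262ca2c884335 : CRef := CRef.mk (Pat.mk 0x1800000018000000000000000000000000 0x1f000000ff0000007f000000600000002000000020 6 8) 0 0 (step_sound _ 130 [(rh1155764ef1bc35ad.shift 1 0), (rh6292bd8784ece55f.shift 1 3), (rh92e1a33d56d48131.shift 0 3)] (by decide +kernel))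
noncomputable def rh6649f052fd741959 : CRef := CRef.mk (Pat.mk 0xc0000000c0000000000000000 0x2000000070000007f0000003f0000000400000004 6 7) 0 0 (step_sound _ 97 [(rh6292bd8784ece55f.shift 0 2), rh65863e0063e7b9dc] (by decide +kernel))
noncomputable def rha534c1ebad88f2a8 : CRef := CRef.mk (Pat.mk 0x18000000180000000000000000 0x4000000070000007f0000007f0000007800000008 6 7) 0 0 (step_sound _ 98 [rh07fce3de9c8aa9fb, (rh6292bd8784ece55f.shift 1 2), (rh92e1a33d56d48131.shift 0 2)] (by decide +kernel))
noncomputable def rh12301fadfa4405fc : CRef := CRef.mk (Pat.mk 0xc0000000c000000000000000000000000 0x80000000e0000000f0000003c0000001c0000001c0000001c0000001c 6 6) 0 0 (step_sound _ 67 [(rh2a80c4925a1e0b63.shift 2 0), (rh3cb04db3dd2b6a55.shift 2 0), (rh4ed3ec1fcbf0e9d1.shift 0 1)] (by decide +kernel))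
noncomputable def rhd09fde320f441b80 : CRef := CRef.mk (Pat.mk 0x3000000018000000000000000000000000 0x140000003f0000003f0000007e0000001f0000001c0000001c 6 7) 0 0 (step_sound _ 98 [(rh53b3c253cb0c65f4.shift 1 3), rhc269b224828aef17] (by decide +kernel))
noncomputable def rhf3635170b4c4c6fd : CRef := CRef.mk (Pat.mk 0x3000000018000000000000000000000000 0x100000003e000000ff000000f80000000c0000000c00000008 6 8) 0 0 (step_sound _ 134 [(rh18965a982d73c794.shift 3 3), rh4b5a292a18ac9621] (by decide +kernel))
noncomputable def rh92e867c79cf87864 : CRef := CRef.mk (Pat.mk 0x180000000c000000000000000000000000 0x80000001f0000003f000000770000001000000010 6 7) 0 0 (step_sound _ 97 [rh2eb8a648ac4b82a0, (rh53b3c253cb0c65f4.shift 0 3)] (by decide +kernel))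
noncomputable def rh160c9106de089417 : CRef := CRef.mk (Pat.mk 0xc00000006000000000000000000000000 0x80000000c0000003f0000003e0000003f0000001e0000001e 6 6) 0 0 (step_sound _ 99 [rh2e3774a9550498f4, rh3059670e287eb611, rh76356c33b20cdec7, rh7b52f21a8fbe4fa1, (rhd4bfe5a853a70fb5.shift 1 0)] (by decide +kernel))
noncomputable def rh3faf0f13bd4d302b : CRef := CRef.mk (Pat.mk 0x18000000080000000800000000 0x40000000c0000001f000000780000001c0000001c00000014 6 7) 0 0 (step_sound _ 131 [(rh0fd870c734e6c513.shift 2 0), (rh29dd5384d80ecb1e.shift 2 0), (rhabedd109a9a37101.shift 2 0), rhf8c8d962f41a49df] (by decide +kernel))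
noncomputable def rhd21475bdb953f023 : CRef := CRef.mk (Pat.mk 0x3000000018000000000000000000000000 0x80000001e000000ff000000f80000001c0000001800000008 6 8) 0 0 (step_sound _ 134 [(rh18965a982d73c794.shift 3 3), rh4a9a9ca6a8644714] (by decide +kernel))
noncomputable def rhf8740dd334c5daeb : CRef := CRef.mk (Pat.mk 0x3000000018000000000000000000000000 0xc0000000c0000002f0000003f000000fe0000007e0000003c0000003c 6 8) 0 0 (step_sound _ 131 [(rh68fd2cfedc2d8f99.shift 0 1), (rh701abdafdf6c4ea1.shift 1 0), rh7bbcd15cd123a7a2, (rhb3455424bbcb7edb.shift 0 1), rhe2184b93d69f854e] (by decide +kernel))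
noncomputable def rhfe666ac509ec667d : CRef := CRef.mk (Pat.mk 0x3000000018000000000000000000000000 0x80000002f000000ff000000f80000001c0000001800000018 6 8) 0 0 (step_sound _ 134 [(rh18965a982d73c794.shift 3 3), rhe13c8a110889834e] (by decide +kernel))
noncomputable def rh1735746f83c6e7fe : CRef := CRef.mk (Pat.mk 0x180000000c000000000000000000000000 0x140000001c0000001c0000001f000000780000000f0000003c0000001c00000004 6 7) 0 0 (step_sound _ 97 [(rh53b3c253cb0c65f4.shift 0 3), rh83afd99be56b9b28] (by decide +kernel))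
noncomputable def rh4dcd9c86b31d78a0 : CRef := CRef.mk (Pat.mk 0x180000000c000000000000000000000000 0x1c0000001f0000007c0000000c0000000c0000000c00000004 6 7) 0 0 (step_sound _ 133 [(rh18965a982d73c794.shift 2 3), rh5698c57c28b4a78c] (by decide +kernel))
noncomputable def rh7c174a9e6fdf0c50 : CRef := CRef.mk (Pat.mk 0x180000000800000000000000000000000000000000 0x140000001c0000001f0000007c000000180000001c0000001c0000001c00000014 6 7) 0 0 (step_sound _ 99 [(rh15590a39afd9a120.shift 2 0), (rhb44fbf6bd2c6418e.shift 2 0), (rhcc092708a415f34d.shift 0 2), (rhe1a3e820b9828b5e.shift 2 1), (rhe3458ab40071103b.shift 3 2)] (by decide +kernel))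
noncomputable def rh76d751e34ed0a008 : CRef := CRef.mk (Pat.mk 0x380000000000000000000000000000000000000000 0x140000001c0000001f000000f8000001df0000001c0000001c0000001c00000004 6 9) 0 0 (step_sound _ 131 [(rh2e31d5610b0d1a48.shift 2 1), (rh92fd3f4a7f0db7f1.shift 2 4), rheb1b6f51483999d1, (rhf0f55c4504412200.shift 0 4)] (by decide +kernel))
noncomputable def rh3c02945b33bec3cf : CRef := CRef.mk (Pat.mk 0x7800000000 0x3c000000ff0000000e 6 8) 0 0 (step_sound _ 2 [rh22860136051e7525, (rh80fcd6d0a18cb2dd.shift 2 0)] (by decide +kernel))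
noncomputable def rh2c633b08ccf79ba3 : CRef := CRef.mk (Pat.mk 0xf000000000 0xe7000000fe000001c7 6 9) 0 0 (step_sound _ 7 [rh1e5198319878ccc7, (rhe25b0a99195a5d59.shift 4 0)] (by decide +kernel))
noncomputable def rh43ca83d56c1af818 : CRef := CRef.mk (Pat.mk 0x3c000000000000000000000000 0x18000000380000007f0000000e0000000c0000000c 6 7) 0 0 (step_sound _ 66 [rh735c28bc3aa1173c, (rheb0810cc63b001d8.shift 1 2)] (by decide +kernel))
noncomputable def rhc2ca75fa87128499 : CRef := CRef.mk (Pat.mk 0x7000000000 0x77000000fe000001ff 6 9) 0 0 (step_sound _ 35 [(rh0edd3afef6b5d7e0.shift 2 0), (rh8195a2d7794c7cd2.shift 1 0), rh9241cc058486cc88, rhb39ad18738eb0e21, rhd6fea92fa3a0ecdb] (by decide +kernel))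
noncomputable def rh9426821d470a135d : CRef := CRef.mk (Pat.mk 0x7000000000 0x7f000000fe000001e7 6 9) 0 0 (step_sound _ 35 [(rh2ba551de881ca4cd.shift 1 0), (rh3947d1dfff0afc6c.shift 2 0), rh7685057ac2f3bf7a, rh9241cc058486cc88, rh95e59ab397a8968f] (by decide +kernel))
noncomputable def rh19ac91294c927563 : CRef := CRef.mk (Pat.mk 0x380000000000000000000000000000000000000000 0x4000000140000001c0000001f000000780000001f0000001c0000001c0000001c00000004 6 7) 0 0 (step_sound _ 131 [(rh81453695ce5a818d.shift 0 1), rhd7c4042910fd6b61, (rheefc97e4d4e7d79e.shift 0 1), (rhf0f55c4504412200.shift 0 4)] (by decide +kernel))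
noncomputable def rh0514e418c971263d : CRef := CRef.mk (Pat.mk 0x7000000010000000000000000000000000 0x30000000780000007c000000fc000001ff0000007800000078 6 9) 0 0 (step_sound _ 101 [rh22988c072fe447ed, (rh32e0c5013174dfc2.shift 1 0), (rh49996fb80b8c8e7b.shift 2 0), (rhadee6b6feb8e21f9.shift 1 0), (rhddbfd90d49dca996.shift 3 0)] (by decide +kernel))
noncomputable def rh0c94139ce5c17e5c : CRef := CRef.mk (Pat.mk 0x1e000000000000000000000000 0x2000000070000003e000000360000000400000004 6 6) 0 0 (step_sound _ 129 [(rh3244c3cc8379b070.shift 0 3), (rh4f7c9c02e85d24d9.shift 1 0)] (by decide +kernel))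
noncomputable def rh23b44be1872b9361 : CRef := CRef.mk (Pat.mk 0x1e000000000000000000000000 0x8000000080000001c000000fe0000003f0000001000000010 6 8) 0 0 (step_sound _ 68 [rh5f6b8b9947884059, (rhe25b0a99195a5d59.shift 1 2)] (by decide +kernel))
noncomputable def rh16fb9b0c4db45ee1 : CRef := CRef.mk (Pat.mk 0x800000070000000000000000000000000 0x800000058000000ff00000078000000fc000000f00000007000000060 6 8) 0 0 (step_sound _ 132 [rh5e3a92a3727b2c93, (rhf48373e13d2bc128.shift 3 3)] (by decide +kernel))
noncomputable def rh86e0ba5484e0f631 : CRef := CRef.mk (Pat.mk 0x38000000000000000000000000 0x80000000f0000007e000000770000000400000004 6 7) 0 0 (step_sound _ 98 [(rh2ba551de881ca4cd.shift 0 2), (rh2cc7d62e70c02209.shift 0 2), (rh8195a2d7794c7cd2.shift 0 2), (rhefd858cfdc5d2964.shift 1 0)] (by decide +kernel))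
noncomputable def rha6d8e85c45556266 : CRef := CRef.mk (Pat.mk 0x380000000000000000000000000000000000000000 0x140000001c0000001f000000f80000001f0000001c0000001c0000001c00000004 6 8) 0 0 (step_sound _ 131 [(rh272396c8ee8fefa8.shift 2 2), (rh2cb0cb4c469ee6ca.shift 2 1), rhd7c4042910fd6b61, (rhf0f55c4504412200.shift 0 4)] (by decide +kernel))
noncomputable def rh71b466dd9db4f470 : CRef := CRef.mk (Pat.mk 0xc0000000c0000000800000000 0x80000000c0000000c0000000c0000001f0000007c00000014 6 7) 0 0 (step_sound _ 130 [(rh2145e1d24b96a57e.shift 2 1), rh63bccf871f1e12d4] (by decide +kernel))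
noncomputable def rh6055d0b0879c797d : CRef := CRef.mk (Pat.mk 0x1c000000380000000000000000 0xe0000000f0000001c0000003f0000007f00000008 6 7) 0 0 (step_sound _ 66 [(rh0e1512cbacfbd48b.shift 0 1), rh5993cf2f6d105cf9, (rhf56dc6c929980f59.shift 0 1)] (by decide +kernel))
noncomputable def rh43982a8b2bea7331 : CRef := CRef.mk (Pat.mk 0x1800000018000000000000000000000000 0x10000000100000001f000000ff000001f00000002000000020 6 9) 0 0 (step_sound _ 101 [rh30b12604329aefc7, (rh79b3c29022acbdf3.shift 2 3), (rhb7680a45628ce155.shift 2 0)] (by decide +kernel))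
noncomputable def rh291c033fab37b135 : CRef := CRef.mk (Pat.mk 0x1a000000380000000000000000 0x1c0000001c0000001f0000001b0000003f0000002e00000008 6 6) 0 0 (step_sound _ 132 [(rh1e309b005ffa1b36.shift 3 0), (rh571950d89739e871.shift 3 1), rhffe100a1c4fb7013] (by decide +kernel))
noncomputable def rh21a97168dca678f6 : CRef := CRef.mk (Pat.mk 0x800000018000000080000000800000000 0x8000000080000007c0000000f0000001c00000014 6 7) 0 0 (step_sound _ 4 [rh7efff25179d37ffa, (rhd3458b32566d63f7.shift 3 0)] (by decide +kernel))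
noncomputable def rhe23694c5b7a04d19 : CRef := CRef.mk (Pat.mk 0x18000000180000000800000000 0x180000001800000018000000180000007c0000000f00000004 6 7) 0 0 (step_sound _ 164 [rh3860ad06b0f1bdb1, (rhee230b994cc8b773.shift 3 1)] (by decide +kernel))
noncomputable def rha42db4b4bc101bc4 : CRef := CRef.mk (Pat.mk 0x1e000000080000000000000000 0x4000000070000001e0000003f0000000300000003 6 6) 0 0 (step_sound _ 65 [rh6c90357d907a80e1, (rheb0810cc63b001d8.shift 0 2)] (by decide +kernel))
noncomputable def rh80d4fe42e5f94ce8 : CRef := CRef.mk (Pat.mk 0x1000000010000000100000003000000000 0x800000018000000180000003c000000ff0000000e 6 8) 0 0 (step_sound _ 35 [(rh932754581e0f4330.shift 3 0), rhf1aa48e26aa9d38a] (by decide +kernel))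
noncomputable def rhde7d3bad6c48f14e : CRef := CRef.mk (Pat.mk 0x6000000020000000300000000 0x200000003000000070000000700000006000000060000000300000001 6 3) 0 0 (step_sound _ 129 [(rh2d81c31c55e8d97c.shift 0 1), rh932754581e0f4330] (by decide +kernel))
noncomputable def rhe837f5fb64478651 : CRef := CRef.mk (Pat.mk 0x30000000100000003800000000 0x20000000200000003000000030000001f7000000fe000001c7 6 9) 0 0 (step_sound _ 34 [(rh416f268873db3970.shift 1 0), rh775ca1963e850b80, (rhec46bd5500c722c9.shift 1 1)] (by decide +kernel))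
noncomputable def rhdeafcb75c3338aa3 : CRef := CRef.mk (Pat.mk 0x2000000020000000300000000 0x5000000070000000700000002000000020000000700000005 6 3) 0 0 (step_sound _ 129 [rh932754581e0f4330, rhc17b7d8fab3dfe57] (by decide +kernel))
noncomputable def rh357c738dbb3c07ce : CRef := CRef.mk (Pat.mk 0x400000007000000000 0xc7000000ff0000003f 6 8) 0 0 (step_sound _ 35 [(rh33e738c4ed385b9f.shift 3 1), rhbe3896a8aaca0abf] (by decide +kernel))
noncomputable def rh1ce0128eac37950a : CRef := CRef.mk (Pat.mk 0x30000000100000001c00000000 0x4000000040000003c000000370000003e00000008 6 6) 0 0 (step_sound _ 33 [rh0b9c1a23a7f9201e, (rh33e738c4ed385b9f.shift 1 1)] (by decide +kernel))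
noncomputable def rh1e7df01b3473831a : CRef := CRef.mk (Pat.mk 0x8000000080000000e000000000000000000000000 0xa0000001b0000003e000000370000001400000014 6 6) 0 0 (step_sound _ 100 [rh2395824d1086e2bc, rh2588bdc66826497d, (rhd132b680030c88e0.shift 1 0)] (by decide +kernel))
noncomputable def rhd9409be6cc6946e2 : CRef := CRef.mk (Pat.mk 0xc00000000000000070000000000000000000000000 0x1000000010000000f00000001f000000ff0000003f0000000800000008 6 8) 0 0 (step_sound _ 99 [(rh0b9c1a23a7f9201e.shift 2 2), (rh423ca3aab2ea27c4.shift 2 0), (rh775ca1963e850b80.shift 1 2), (rhbe3896a8aaca0abf.shift 0 2)] (by decide +kernel))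
noncomputable def rh5d33e687d1d84743 : CRef := CRef.mk (Pat.mk 0xc0000000c000000000000000800000000 0x40000000c0000000c0000003c0000001f00000017 6 6) 0 0 (step_sound _ 67 [(rh50fbb5868c909700.shift 2 1), rhcfbea19f509e11c8] (by decide +kernel))
noncomputable def rh2f5686e2731dbcf7 : CRef := CRef.mk (Pat.mk 0xc0000000c000000000000000c00000000 0xe0000007e000000f00000007e000000ff 6 8) 0 0 (step_sound _ 36 [(rh2c6e93c037a514db.shift 1 0), rh53a055eaa2efe286, (rh5536604e9c50a79c.shift 1 0), rh591003b0aabe21aa] (by decide +kernel))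
noncomputable def rh7791e4cc2b511fe5 : CRef := CRef.mk (Pat.mk 0x80000001800000018000000100000000000000000 0x800000018000000ff000000ff0000000400000004 6 8) 0 0 (step_sound _ 98 [(rh08431d7c12d28f34.shift 1 0), rh258665fe1049a1a5, (rhf56e6bc5d2f7fe77.shift 0 2)] (by decide +kernel))
noncomputable def rhf7e6cf1aef653798 : CRef := CRef.mk (Pat.mk 0x100000001800000018000000080000000000000000 0x1000000018000000ff000000ff0000002000000020 6 8) 0 0 (step_sound _ 101 [rh1035255a6236d9b8, (rh45871cc5e633538c.shift 2 0), (rha9e1a5d55b907abf.shift 2 2)] (by decide +kernel))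
noncomputable def rhd7ebfc8479ae00e2 : CRef := CRef.mk (Pat.mk 0x3000000038000000000000001000000000 0x240000003e00000038000000ef0000007e000000ff 6 8) 0 0 (step_sound _ 37 [(rh4be0604a6732ae30.shift 2 0), rh7ebfa13ad2a5fb9f, (rhbcedfca2885d6e85.shift 4 0), (rhcecb4141388722bc.shift 2 0)] (by decide +kernel))
noncomputable def rh2a2f47a917979c73 : CRef := CRef.mk (Pat.mk 0x800000008000000180000000c00000000 0x40000000c0000000c0000001e0000007f00000013 6 7) 0 0 (step_sound _ 33 [(rh53b3c253cb0c65f4.shift 0 1), rh5fcef695c0682304] (by decide +kernel))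
noncomputable def rha62f7d47a13127bd : CRef := CRef.mk (Pat.mk 0x4000000040000000c0000000400000000 0x3a0000003e0000000f0000000c0000000c00000008 6 6) 0 0 (step_sound _ 35 [(rh55afc6a59410cf00.shift 2 0), (rhd981695f3a4c809d.shift 0 1)] (by decide +kernel))
noncomputable def rh19fefc284144810c : CRef := CRef.mk (Pat.mk 0xc000000080000001800000008 0x800000018000000180000001f0000001c0000001c00000008 6 5) 0 0 (step_sound _ 132 [(rh53b9193ad1f1d216.shift 0 1), (rhbaefcd01e0a8bca3.shift 3 0)] (by decide +kernel))
noncomputable def rh383ba84696c6b04d : CRef := CRef.mk (Pat.mk 0x8000000180000000e0000000000000000 0x20000000b0000001f000000fe000000f400000014 6 8) 0 0 (step_sound _ 68 [(rh78974448101547fe.shift 1 0), (rhd8a69d8a2039d214.shift 0 1), rhdf4a68b946174ceb] (by decide +kernel))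
noncomputable def rh6b5dcf107f7e03de : CRef := CRef.mk (Pat.mk 0x8000000180000000b000000000000000000000000 0x11000000330000001f0000001f0000000b000000010000000100000001 6 6) 0 0 (step_sound _ 129 [rh0458e7acc31afe59, (rhb2a0b9ccfb5cecd5.shift 0 3)] (by decide +kernel))
noncomputable def rhf83783407c025194 : CRef := CRef.mk (Pat.mk 0x200000006000000028000000000000000000000000 0x140000005c000000dc0000007f0000007e0000002c0000000c0000000c00000004 6 8) 0 0 (step_sound _ 131 [(rh0b1b9f8dd6577694.shift 0 3), (rh0c034af5d33ac9bb.shift 2 2), (rh3fc65125bad1894c.shift 1 3), (rh6a2eff7b13e20122.shift 2 1), (rha3c23f12701b0ffc.shift 2 0), (rheb0d3c029d575766.shift 1 1)] (by decide +kernel))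
noncomputable def rh578b7b3d61ae29d3 : CRef := CRef.mk (Pat.mk 0x8000000180000000e000000000000000000000000 0xa0000001b000000fe000000f70000001400000004 6 8) 0 0 (step_sound _ 100 [rh2395824d1086e2bc, (rh78974448101547fe.shift 1 1), (rhd13786f2292342c8.shift 0 2)] (by decide +kernel))
noncomputable def rhedfffb7c7215a998 : CRef := CRef.mk (Pat.mk 0x8000000180000000a000000000000000000000000 0x500000017000000370000001f0000001f0000003b000000070000000700000005 6 6) 0 0 (step_sound _ 129 [(rh7b863bffb428cc17.shift 0 2), rha3c23f12701b0ffc, rhe2fc999be1ecc59a, (rhe32601bd65ae7334.shift 0 3)] (by decide +kernel))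
noncomputable def rhd7d92add57995d04 : CRef := CRef.mk (Pat.mk 0x100000003000000014000000000000000000000000 0xa0000002a0000006e0000003e0000003f0000007c0000006e0000002e0000000a 6 7) 0 0 (step_sound _ 130 [(rh1759279f5a3ad266.shift 0 1), (rh1feb8c953a206a38.shift 1 0), (rh7b71908ccfc37d9c.shift 1 1), (rh7b863bffb428cc17.shift 1 2), (rhc75110e2c45decd6.shift 1 0)] (by decide +kernel))
noncomputable def rh7e5d4f80a0017424 : CRef := CRef.mk (Pat.mk 0x80000001800000008000000000000000000000000 0x8000000180000001f000000ff000000f60000003000000020 6 8) 0 0 (step_sound _ 100 [(rh184d9b89d7688cca.shift 2 0), (rh55a1f6c57a317ce6.shift 3 1), (rha3b7871bdfc3fbf1.shift 0 2)] (by decide +kernel))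
noncomputable def rh9b641b2e2db09faa : CRef := CRef.mk (Pat.mk 0x6000000038000000000000000000000000 0x4000000040000000c0000000c0000007f000000780000001f0000001c00000014 6 7) 0 0 (step_sound _ 131 [(rh00cb505adf0f4d04.shift 2 0), rh0d566e3c655ff915, (rh2df6e0c6035c44f3.shift 2 0), (rhf60aa8aede119d3b.shift 0 3), (rhfb452336cd872e19.shift 2 1)] (by decide +kernel))
noncomputable def rh6a9c0c8960219800 : CRef := CRef.mk (Pat.mk 0x200000006000000030000000000000000 0x20000000600000006000000060000001f000000070000000600000006 6 5) 0 0 (step_sound _ 99 [(rh18965a982d73c794.shift 0 2), rh33e5cafec0ef43d6] (by decide +kernel))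
noncomputable def rh4e604d18ebb5ba31 : CRef := CRef.mk (Pat.mk 0x20000000600000003000000000000000000000000 0x40000000600000007000000070000001f0000001f00000003 6 5) 0 0 (step_sound _ 65 [rh2dd23789115a02f3, (rha707fb719e87fe6e.shift 1 1), (rha9211d7bd8917ade.shift 0 1)] (by decide +kernel))
noncomputable def rh1f0034abb91e39d7 : CRef := CRef.mk (Pat.mk 0x180000000e000000000000000000000000 0x2000000020000000f0000001f0000001e000000370000001200000012 6 6) 0 0 (step_sound _ 100 [rh2fb7851f2066c386, (rhbbe16ff26f7822db.shift 1 0), rhd7126b8ebb3d1c62] (by decide +kernel))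
noncomputable def rh416567466857d220 : CRef := CRef.mk (Pat.mk 0x180000000c0000000000000000 0x40000000c0000001c0000001f0000007c0000001c0000001c00000018 6 7) 0 0 (step_sound _ 101 [(rh18965a982d73c794.shift 2 2), rh3c482b661058f648] (by decide +kernel))
noncomputable def rha2b38c88b0700528 : CRef := CRef.mk (Pat.mk 0x180000000c000000000000000000000000 0x1c0000001f0000007c0000000c0000000c0000000c00000004 6 7) 0 0 (step_sound _ 133 [(rh18965a982d73c794.shift 2 3), rh64bbea378ab37d6b] (by decide +kernel))
noncomputable def rhb308184a09833a3e : CRef := CRef.mk (Pat.mk 0x20000000600000002000000020000000000000000 0x300000003000000030000000600000006000000060000000600000006 6 3) 0 0 (step_sound _ 34 [rh6f2ea89f4c10c451, (rhd3458b32566d63f7.shift 1 1)] (by decide +kernel))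
noncomputable def rhac593cb1be7d9b09 : CRef := CRef.mk (Pat.mk 0xc0000000700000000000000000000000000000000 0xa0000000e0000000e0000003c000000070000003e0000000e0000000e0000000a 6 6) 0 0 (step_sound _ 165 [rh17ea70473ed50263, (rh361cc68994bd8a63.shift 1 4)] (by decide +kernel))
noncomputable def rhc87bb748491ec271 : CRef := CRef.mk (Pat.mk 0xc0000000700000000000000000000000000000000 0xa0000000e0000000e0000000e000000070000001e0000000e0000000e0000000a 6 5) 0 0 (step_sound _ 98 [(rh000637b5a81e86aa.shift 1 1), (rha634f858da7e466a.shift 0 2), (rhe16108f077a7d0e5.shift 1 0), (rhffb8e5993241bf15.shift 1 0)] (by decide +kernel))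
noncomputable def rh66b9469794384386 : CRef := CRef.mk (Pat.mk 0x180000000c000000000000000000000000 0x1c0000001f0000007c0000000c0000001c0000001c00000014 6 7) 0 0 (step_sound _ 133 [rh073924512706379d, (rh18965a982d73c794.shift 2 3)] (by decide +kernel))
noncomputable def rhda519598461d28ee : CRef := CRef.mk (Pat.mk 0x380000000c000000000000000000000000 0x40000000c0000000c0000000f0000003c0000001c0000001c0000001c0000001c 6 6) 0 0 (step_sound _ 163 [(rh281c6819542c66e6.shift 2 0), (rh3c48bd0e307783b3.shift 2 1), rhc60d730b1bc97c58, (rhfafeb437ceb8396d.shift 2 0)] (by decide +kernel))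
noncomputable def rhf91f642e0cbb6433 : CRef := CRef.mk (Pat.mk 0x600000002c00000000000000000000000000000000 0x400000004c0000004c0000007c0000006f0000007c0000003c0000001c00000014 6 7) 0 0 (step_sound _ 163 [(rhb2a0b9ccfb5cecd5.shift 2 4), rhf9d0de732103f405] (by decide +kernel))
noncomputable def rhb09c47e5e6033732 : CRef := CRef.mk (Pat.mk 0x600000002800000020000000000000000000000000 0x140000001c0000001e000000fc0000006f000000fe000001df0000005c00000054 6 9) 0 0 (step_sound _ 99 [rh064abf206e4a72aa, (rh168213f4932e3fe0.shift 0 1), (rh247d73f1df9737de.shift 0 1), (rh4636448a0a7f418b.shift 1 0), (rh54c6da3650e36f4c.shift 2 0), (rh6f4b8e386aa97472.shift 0 2), rha9976d33c3d2c8d2, rhb138e29ad8ba5fb9, (rhd3f3446ec312a9c0.shift 1 0)] (by decide +kernel))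
noncomputable def rhf34a91dce4ae406b : CRef := CRef.mk (Pat.mk 0x18000000080000000800000000 0x100000001c0000001f0000007c000000180000001c00000014 6 7) 0 0 (step_sound _ 131 [(rh12461e137161f2e1.shift 2 0), (rhca405e350c462817.shift 0 1)] (by decide +kernel))
noncomputable def rhd70b3489660c414d : CRef := CRef.mk (Pat.mk 0x8000000180000000800000000 0x140000001c0000001c00000008000000380000001f00000014 6 6) 0 0 (step_sound _ 131 [(rh762a1aeaf83c662a.shift 2 0), (rhd4b4beefcd67f51e.shift 3 0), rhf0d4d08d8946b865] (by decide +kernel))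
noncomputable def rheadb620386bb241d : CRef := CRef.mk (Pat.mk 0x8000000180000000a000000000000000000000000 0x20000000f0000001f0000001f000000360000001400000004 6 6) 0 0 (step_sound _ 98 [(rh53b3c253cb0c65f4.shift 0 3), rh7a00fdc70e9b661e] (by decide +kernel))
noncomputable def rh7aaea07a70fd1416 : CRef := CRef.mk (Pat.mk 0x8000000180000000a000000000000000000000000 0x400000005000000070000001f0000007f0000001b000000070000000700000005 6 7) 0 0 (step_sound _ 129 [(rh288d7b7596da5c46.shift 0 3), (rh2ec66d7e7d50caaa.shift 0 2), rh508bd44b5ff31b94, (rhd5899e89efce0709.shift 0 1)] (by decide +kernel))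
noncomputable def rh8d9a39cb975caaed : CRef := CRef.mk (Pat.mk 0x3800000000000000000000000000000000 0x140000001c0000001c0000001f000000f8000001df0000001c0000001c00000014 6 9) 0 0 (step_sound _ 163 [(rh1561ff1fafeb7917.shift 2 3), rh4b6f5d35e679d7b1, (rh72ac494e39ec6f21.shift 0 1), (rhf60aa8aede119d3b.shift 0 4)] (by decide +kernel))
noncomputable def rhed74cf860d0ea852 : CRef := CRef.mk (Pat.mk 0xc0000000c000000000000000000000000 0x80000000e0000000f0000003e0000007c0000001c0000000c 6 7) 0 0 (step_sound _ 66 [(rh0b5523572e849cbc.shift 1 0), rh55a3d2c159efd38c, (rhea7a1800d6f053bd.shift 2 0)] (by decide +kernel))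
noncomputable def rh93b74e20d3eafb22 : CRef := CRef.mk (Pat.mk 0x18000000180000000000000000 0x4000000040000000f0000007f0000007f0000000800000008 6 7) 0 0 (step_sound _ 98 [(rh35f3e58c050f8740.shift 0 2), (rh3b50166728417108.shift 1 0), (rh6292bd8784ece55f.shift 1 2)] (by decide +kernel))
noncomputable def rhbcd28bc66d78ce5f : CRef := CRef.mk (Pat.mk 0xc0000000c000000000000000000000000 0xe0000000e0000000f0000003c0000001c0000001c0000001c00000004 6 6) 0 0 (step_sound _ 162 [(rh55a1f6c57a317ce6.shift 2 1), (rhb47cf74c449936d8.shift 0 1), (rhf7c77fe48087fd5b.shift 1 0)] (by decide +kernel))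
noncomputable def rh061ec90527078908 : CRef := CRef.mk (Pat.mk 0x18000000180000000000000000 0x10000000100000007c000000ff0000007000000020 6 8) 0 0 (step_sound _ 69 [(rh79b3c29022acbdf3.shift 2 2), rhb7223ea9debff707] (by decide +kernel))
noncomputable def rhc0b659b65dceddb7 : CRef := CRef.mk (Pat.mk 0xc0000000c000000000000000000000000 0x80000000e0000000f0000003e0000007c0000001e0000000e 6 7) 0 0 (step_sound _ 66 [(rh0b5523572e849cbc.shift 1 0), rhcdfd685eb81435ef, (rhea7a1800d6f053bd.shift 2 0)] (by decide +kernel))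
noncomputable def rh998c4113d2134dd3 : CRef := CRef.mk (Pat.mk 0x18000000180000000000000000 0x4000000070000007f0000007f0000007800000008 6 7) 0 0 (step_sound _ 98 [rh07fce3de9c8aa9fb, (rh35f3e58c050f8740.shift 0 2), (rh6292bd8784ece55f.shift 1 2)] (by decide +kernel))
noncomputable def rhe4bbee76c9b3ad4f : CRef := CRef.mk (Pat.mk 0xc00000006000000000000000000000000 0x80000000c0000007f0000007e0000007f0000001e0000000e 6 7) 0 0 (step_sound _ 99 [rh5b9ac6f70bb6dcf4, rhbfba2f3eff79f6ae, (rhc06180d46fdc3d95.shift 1 0), (rhd4bfe5a853a70fb5.shift 1 0)] (by decide +kernel))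
noncomputable def rhd06a5377e7b0757a : CRef := CRef.mk (Pat.mk 0x380000000000000000000000000000000000000000 0x140000001c0000001f000000f8000001df0000001c0000001c0000001c00000004 6 9) 0 0 (step_sound _ 131 [(rh2e31d5610b0d1a48.shift 2 1), (rh92fd3f4a7f0db7f1.shift 2 4), rh934c9516dfa7de0c, (rhf0f55c4504412200.shift 0 4)] (by decide +kernel))
noncomputable def rh6410c88119e1d96d : CRef := CRef.mk (Pat.mk 0x1e00000000 0x1ce000000fe000001c7 6 9) 0 0 (step_sound _ 1 [(rh011d1f3cf95b381c.shift 1 0), rheb0810cc63b001d8] (by decide +kernel))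
noncomputable def rhad6554b1ff1e2580 : CRef := CRef.mk (Pat.mk 0x7000000010000000000000000000000000 0x300000003000000078000001fc000001ff0000007800000078 6 9) 0 0 (step_sound _ 101 [rh3b9a704cb638bc37, (rh4c3f48492504c0f6.shift 2 0), (rh510b6b9e2e542969.shift 3 0), (rh8e42b18955c5c441.shift 1 0), (rhcb1ce2b9f5fc40fa.shift 2 0)] (by decide +kernel))
noncomputable def rh5f222f11070bd545 : CRef := CRef.mk (Pat.mk 0xe0000000200000000000000000000000000000000 0x400000004000000060000003f0000007e0000000f000000070000000700000005 6 7) 0 0 (step_sound _ 97 [rh0764057f599dbd8d, rh15590a39afd9a120, (rh215e11e099257d75.shift 1 2), rh421cce82bb1068e3, (rhe3458ab40071103b.shift 1 2)] (by decide +kernel))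
noncomputable def rh8086b6f526537fc5 : CRef := CRef.mk (Pat.mk 0x1e00000000 0x70000007e000000ee 6 8) 0 0 (step_sound _ 65 [(rh3244c3cc8379b070.shift 0 1), (rh6c5d9b77960fe42a.shift 1 0)] (by decide +kernel))
noncomputable def rh0f31e006a2e49835 : CRef := CRef.mk (Pat.mk 0xf00000000 0x700000003f0000003f 6 7) 0 0 (step_sound _ 4 [rh115df6ab38b25b33, rh96851dee118c1ba3] (by decide +kernel))
noncomputable def rh4cb34cfd870830d0 : CRef := CRef.mk (Pat.mk 0x38000000000000000000000000 0x4000000070000007e0000007f0000000800000008 6 7) 0 0 (step_sound _ 98 [(rh2ba551de881ca4cd.shift 0 2), (rh775ca1963e850b80.shift 0 2), (rh8195a2d7794c7cd2.shift 0 2), (rhafa5a7051d37b143.shift 1 0)] (by decide +kernel))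
noncomputable def rha4651459421a8b3a : CRef := CRef.mk (Pat.mk 0x3800000000 0xf0000007e000000f7 6 8) 0 0 (step_sound _ 34 [rh2ba551de881ca4cd, rh775ca1963e850b80, rh8195a2d7794c7cd2, (rhc6ebdb02f2c2b584.shift 1 0)] (by decide +kernel))
noncomputable def rhdcbc051562065deb : CRef := CRef.mk (Pat.mk 0x3800000000000000000000000000000000 0x140000001c0000001c0000001f000000f80000001f0000001c0000001c00000014 6 8) 0 0 (step_sound _ 163 [rh4b6f5d35e679d7b1, (rh72ac494e39ec6f21.shift 0 1), (rhea3c36b66d54eaf8.shift 2 1), (rhf60aa8aede119d3b.shift 0 4)] (by decide +kernel))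
noncomputable def rhb59b51e97839f0b6 : CRef := CRef.mk (Pat.mk 0x18000000180000000000000000 0x4000000060000007e000000ff000000f800000008 6 8) 0 0 (step_sound _ 69 [rh249208cc34e75ef4, (rh43e06a69887b4db3.shift 0 1), (rh79b3c29022acbdf3.shift 2 2)] (by decide +kernel))
noncomputable def rh4a95c318a1bac7f6 : CRef := CRef.mk (Pat.mk 0xc0000000c000000000000000000000000 0x80000000e0000000f0000003c0000001c0000001c0000001c0000001c 6 6) 0 0 (step_sound _ 67 [(rh3cb04db3dd2b6a55.shift 2 0), (rh6852947d3e67d303.shift 2 0), (rhd82711d04bc924c1.shift 0 1)] (by decide +kernel))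
noncomputable def rh9d6bc9f5aae02364 : CRef := CRef.mk (Pat.mk 0x600000006000000000000000000000000 0x70000000700000007000000070000003e0000000e0000000e 6 6) 0 0 (step_sound _ 66 [(rh3cb04db3dd2b6a55.shift 1 0), (rh6852947d3e67d303.shift 1 0), rh8da870b0dce1f50d] (by decide +kernel))
noncomputable def rh84c73eea2528500b : CRef := CRef.mk (Pat.mk 0x1800000018000000000000000000000000 0x1f000000ff0000007f000000600000002000000020 6 8) 0 0 (step_sound _ 130 [(rh0c7d7653291d5603.shift 1 0), (rh35f3e58c050f8740.shift 0 3), (rh6292bd8784ece55f.shift 1 3)] (by decide +kernel))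
noncomputable def rh7d459fc7eedae848 : CRef := CRef.mk (Pat.mk 0x3000000018000000000000000000000000 0x140000003f0000003f0000007e0000000f0000000c0000000c 6 7) 0 0 (step_sound _ 98 [rh1abd56020eed7a25, (rh53b3c253cb0c65f4.shift 1 3)] (by decide +kernel))
noncomputable def rh08b84a4d3411d321 : CRef := CRef.mk (Pat.mk 0x180000000c000000000000000000000000 0x80000001c000000ff000000370000001000000010 6 8) 0 0 (step_sound _ 97 [(rh53b3c253cb0c65f4.shift 0 3), rhc47b1c487b8d6248] (by decide +kernel))
noncomputable def rh26aba815d5766f74 : CRef := CRef.mk (Pat.mk 0x3000000018000000000000000000000000 0x4000000040000002f0000003f000000ff0000007e0000003c0000003c 6 8) 0 0 (step_sound _ 131 [(rh68fd2cfedc2d8f99.shift 0 1), (rh7015695212d135e4.shift 0 1), (rh701abdafdf6c4ea1.shift 1 0), rh7bbcd15cd123a7a2, (rhb3455424bbcb7edb.shift 0 1)] (by decide +kernel))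
noncomputable def rh3b492a9563ca052e : CRef := CRef.mk (Pat.mk 0x18000000080000000800000000 0x100000001800000018000000180000003c000000ff00000034 6 8) 0 0 (step_sound _ 131 [(rh402d223d12d7377d.shift 2 0), (rh426f403fa814630c.shift 3 0), rh9b45786b9da7cdb6, (rhabedd109a9a37101.shift 2 0)] (by decide +kernel))
noncomputable def rh33ccb443b853797c : CRef := CRef.mk (Pat.mk 0x180000000c00000000000000000000000000000000 0x100000001c0000001f000000780000000f0000007c0000001c0000001c00000014 6 7) 0 0 (step_sound _ 165 [(rh18965a982d73c794.shift 2 4), rh379da64299479fd6] (by decide +kernel))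
noncomputable def rh9ab8f17e81957372 : CRef := CRef.mk (Pat.mk 0x180000000c00000000000000000000000000000000 0x140000001c0000001c0000001c0000000f0000007c0000001c0000001c00000004 6 7) 0 0 (step_sound _ 99 [(rh000637b5a81e86aa.shift 2 1), (rh44619c6afac6f31b.shift 1 2), (rh50ff58ea617a0a20.shift 0 1), (rh953e410617738e80.shift 2 0)] (by decide +kernel))
noncomputable def rha713ae4c671557eb : CRef := CRef.mk (Pat.mk 0x180000000c000000000000000000000000 0x100000001c0000001f0000007c0000000c0000000c0000000c00000008 6 7) 0 0 (step_sound _ 133 [(rh18965a982d73c794.shift 2 3), rh6d04286dbf3de772] (by decide +kernel))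
noncomputable def rh39d2766014879dba : CRef := CRef.mk (Pat.mk 0x180000000800000000000000000000000000000000 0x140000001c0000001f0000007c000000180000001c0000001c0000001c00000014 6 7) 0 0 (step_sound _ 99 [(rh15590a39afd9a120.shift 2 0), (rh9449709203b7b06f.shift 0 2), (rhb44fbf6bd2c6418e.shift 2 0), (rhe1a3e820b9828b5e.shift 2 1), (rhe3458ab40071103b.shift 3 2)] (by decide +kernel))
noncomputable def rhed2874e9265513cc : CRef := CRef.mk (Pat.mk 0x80000003800000000000000000000000000000000 0x100000001c0000001c0000000c00000018000000f8000000ff0000001c0000001c0000001c 6 8) 0 0 (step_sound _ 99 [(rh01265d0ba8bec087.shift 2 0), (rh1204dd180cd0281d.shift 2 0), (rh19b19bf0872cfe73.shift 2 0), (rhf0f55c4504412200.shift 0 3)] (by decide +kernel))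
noncomputable def rhd8f37b199594f940 : CRef := CRef.mk (Pat.mk 0x80000003800000000000000000000000000000000 0x140000001c0000001c0000000c0000001f000000380000001f0000001c0000001c00000010 6 6) 0 0 (step_sound _ 195 [(rh046c5eb18e55a239.shift 3 1), rh2babc676b351377d, (rh4e64b7e82c9211af.shift 2 3), (rh70e33bfdf511e144.shift 3 1), rhf16537efca8126d5] (by decide +kernel))
noncomputable def rhe3c233425b2ce287 : CRef := CRef.mk (Pat.mk 0xe000000020000000000000000 0x4000000070000003e000000330000000200000002 6 6) 0 0 (step_sound _ 100 [rhc0e0b5d8729f332e, (rheb0810cc63b001d8.shift 0 2)] (by decide +kernel))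
noncomputable def rhd8a3011453bfa87c : CRef := CRef.mk (Pat.mk 0xe0000000200000000000000000000000000000000 0x40000000700000007000000070000003e0000007e00000003000000070000000700000004 6 7) 0 0 (step_sound _ 193 [rh80878f550b59410f, (rh8c70a726a3a85f76.shift 0 4), (rh8cda118e73192ffa.shift 0 4), rhae5697c810d4c5d2, (rhea4346e1f9fccd6d.shift 0 2)] (by decide +kernel))
noncomputable def rhbc6c7a319ef4256c : CRef := CRef.mk (Pat.mk 0x380000000800000000000000000000000000000000 0x100000001c0000001c0000001f000000380000001f0000000c0000001c0000001c00000014 6 6) 0 0 (step_sound _ 99 [rh01653cfd42fdd6e5, (rh15590a39afd9a120.shift 2 0), (rha96127bfef739bab.shift 0 2), (rhe3458ab40071103b.shift 3 2), (rhffb8e5993241bf15.shift 2 0)] (by decide +kernel))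
noncomputable def rh11c689c814eb54e1 : CRef := CRef.mk (Pat.mk 0x80000003800000000000000000000000000000000 0x80000001800000018000000f8000000ff0000001c0000000c0000000c 6 8) 0 0 (step_sound _ 99 [(rh19b19bf0872cfe73.shift 2 0), (rh5f4fb9541f0899b7.shift 2 1), (rh734428ba56e305a9.shift 2 0), (rhf0f55c4504412200.shift 0 3)] (by decide +kernel))
noncomputable def rh2220d4d75575b2de : CRef := CRef.mk (Pat.mk 0x3800000000000000000000000000000000 0x140000001c0000001c0000001f000000f80000001f0000001c0000001c00000004 6 8) 0 0 (step_sound _ 163 [rh2b4dd9a983e141eb, (rh72ac494e39ec6f21.shift 0 1), (rhea3c36b66d54eaf8.shift 2 1), (rhf60aa8aede119d3b.shift 0 4)] (by decide +kernel))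
noncomputable def rh1af312b4201d65bb : CRef := CRef.mk (Pat.mk 0x1800000018000000000000000000000000 0x40000000e0000007e0000007f0000003b0000001800000010 6 7) 0 0 (step_sound _ 98 [rh4931885e31c86a84, (rh49622459e35b6e7e.shift 1 1), (rhab2ad169e49f9c5e.shift 0 3)] (by decide +kernel))
noncomputable def rhf6747abc4bb03fc4 : CRef := CRef.mk (Pat.mk 0x1800000018000000000000000000000000 0x1e000000fe000000ff000000e00000002000000020 6 8) 0 0 (step_sound _ 101 [(rh3e2dc10e82d2dee4.shift 1 0), (rh48dcc808214cd2bf.shift 0 2), (rh79b3c29022acbdf3.shift 2 3)] (by decide +kernel))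
noncomputable def rhb5cf220403358542 : CRef := CRef.mk (Pat.mk 0x3000000018000000000000000000000000 0x140000003f0000003f0000007e0000000f0000000c0000000c 6 7) 0 0 (step_sound _ 98 [(rh53b3c253cb0c65f4.shift 1 3), rh92ec9ad1740740a7] (by decide +kernel))
noncomputable def rhc6927b843232e8ba : CRef := CRef.mk (Pat.mk 0x18000000080000000800000000 0x100000001800000018000000180000003c000000ff00000034 6 8) 0 0 (step_sound _ 131 [(rh20966da26a1c2ae8.shift 2 0), rh9b45786b9da7cdb6, (rhabedd109a9a37101.shift 2 0), (rhced6d86d2069808b.shift 3 0)] (by decide +kernel))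
noncomputable def rh9e94f6a2fdff8f35 : CRef := CRef.mk (Pat.mk 0x3000000018000000000000000000000000 0xc0000002f0000003f000000ff0000007f0000003c0000003c 6 8) 0 0 (step_sound _ 131 [(rh5b7bf26d9fd76ab6.shift 0 1), (rh68fd2cfedc2d8f99.shift 0 1), (rh701abdafdf6c4ea1.shift 1 0), rh7bbcd15cd123a7a2, rh964519c5dc280d9c] (by decide +kernel))
noncomputable def rh656237f57f0d4474 : CRef := CRef.mk (Pat.mk 0x3000000018000000000000000000000000 0x80000002f000000ff000000f80000001c0000001800000018 6 8) 0 0 (step_sound _ 134 [rh0a300c3f6eb33416, (rh18965a982d73c794.shift 3 3)] (by decide +kernel))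
noncomputable def rh2cd5aadcb2dcd140 : CRef := CRef.mk (Pat.mk 0xc00000006000000000000000000000000 0x2000000070000003f0000003e000000070000000600000002 6 6) 0 0 (step_sound _ 132 [(rh18965a982d73c794.shift 1 3), rh29899b13cbe5440e] (by decide +kernel))
noncomputable def rh569bfafa8b2638c3 : CRef := CRef.mk (Pat.mk 0x180000000800000000000000000000000000000000 0x100000001c0000001f0000007c0000000c0000001c0000001c0000001c00000014 6 7) 0 0 (step_sound _ 99 [(rh4bbbe32d114857bf.shift 0 2), (rh57f103642405ccc5.shift 2 0), (rhe1a3e820b9828b5e.shift 2 1), (rhf849c8472bff4b9d.shift 2 0)] (by decide +kernel))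
noncomputable def rhd29fe3dcd5409f20 : CRef := CRef.mk (Pat.mk 0x180000000800000000000000000000000000000000 0x100000001c0000001f0000007c000000180000001c0000001c0000001c00000014 6 7) 0 0 (step_sound _ 99 [(rh15590a39afd9a120.shift 2 0), (rh3555e3d66c3b6610.shift 0 2), (rhb44fbf6bd2c6418e.shift 2 0), (rhe1a3e820b9828b5e.shift 2 1), (rhe3458ab40071103b.shift 3 2)] (by decide +kernel))
noncomputable def rhf578f45bc740563b : CRef := CRef.mk (Pat.mk 0x10000000e00000000 0x730000003e00000073 6 7) 0 0 (step_sound _ 36 [rh07fc106a6edf0c0a, (rh3f8766e6ecb455ce.shift 0 1)] (by decide +kernel))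
noncomputable def rh7daffd76b5df3b6b : CRef := CRef.mk (Pat.mk 0xe00000010 0x770000003e00000033 6 7) 0 0 (step_sound _ 36 [rh98608c6afefa0c7d, (rhe25b0a99195a5d59.shift 1 0)] (by decide +kernel))
noncomputable def rh85d81f1f3cf5c46d : CRef := CRef.mk (Pat.mk 0x7000000008 0x770000007e000000ec 6 8) 0 0 (step_sound _ 35 [rhd6fea92fa3a0ecdb, (rheb0810cc63b001d8.shift 2 0)] (by decide +kernel))
noncomputable def rh0852760094d6d775 : CRef := CRef.mk (Pat.mk 0xe00000001 0x770000003e00000033 6 7) 0 0 (step_sound _ 36 [rh80fcd6d0a18cb2dd, rhb9b9ce08a9b9cf77] (by decide +kernel))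
noncomputable def rhbc06178880f80a48 : CRef := CRef.mk (Pat.mk 0x1c000000020000000000000000 0x10000000300000001f0000003b0000000800000008 6 6) 0 0 (step_sound _ 97 [(rheb0810cc63b001d8.shift 0 2), rhf459621b93742302] (by decide +kernel))
noncomputable def rhf7fc291eb61f8901 : CRef := CRef.mk (Pat.mk 0x38000000080000000800000000 0x140000001f000000f8000000f80000003c00000014 6 8) 0 0 (step_sound _ 131 [(rh2e8814637c3f6d46.shift 2 1), (rh79905f95cb2d899a.shift 0 1), (rh82618ce3544c9725.shift 2 0)] (by decide +kernel))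
noncomputable def rhfb7f42ddb0e765f4 : CRef := CRef.mk (Pat.mk 0x380000000800000000000000000000000000000000 0x10000000140000003f000000380000003f000000fc0000003c0000001c00000014 6 8) 0 0 (step_sound _ 99 [(rh15590a39afd9a120.shift 2 0), (rh215e11e099257d75.shift 3 2), rh5ea9e6ad844c42a5, (rhb44fbf6bd2c6418e.shift 2 0), (rhe3458ab40071103b.shift 3 2)] (by decide +kernel))
noncomputable def rh25e3459a43c19d83 : CRef := CRef.mk (Pat.mk 0x6000000060000000200000002000000000 0x60000003f0000003fe0000007e0000005f 6 10) 0 0 (step_sound _ 36 [rh688952070c6d6164, (rh932754581e0f4330.shift 4 0)] (by decide +kernel))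
noncomputable def rhc52b24f0fe41e9dc : CRef := CRef.mk (Pat.mk 0x180000001e00000000 0x200000002000000030000001f0000003e00000007 6 6) 0 0 (step_sound _ 0 [rh331d4a807f97bfca, rh80fcd6d0a18cb2dd] (by decide +kernel))
noncomputable def rh546d94e4acaa6041 : CRef := CRef.mk (Pat.mk 0x180000001e00000000 0x1f000000fe000000e3 6 8) 0 0 (step_sound _ 0 [rh80fcd6d0a18cb2dd, rhd8a69d8a2039d214] (by decide +kernel))
noncomputable def rh1d2a57dc8f63e8fa : CRef := CRef.mk (Pat.mk 0xe0000000b00000000000000000000000000000000 0x400000004000000060000000f0000007b0000001f0000000e0000000400000004 6 7) 0 0 (step_sound _ 132 [(rhb739f4f82bb681b4.shift 0 4), rhf7d3933db188ac58] (by decide +kernel))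
noncomputable def rh3757369a00eb1c80 : CRef := CRef.mk (Pat.mk 0xc00000007000000040000000000000000 0xc0000000c0000000f0000003c0000000e0000000a 6 6) 0 0 (step_sound _ 34 [rh170611066f44b0aa, (rh2f68792b6b779e96.shift 2 1)] (by decide +kernel))
noncomputable def rh53fcb4ba92930b88 : CRef := CRef.mk (Pat.mk 0xc0000000700000004000000000000000000000000 0x40000000e0000000f0000003c0000000e0000000e00000002 6 6) 0 0 (step_sound _ 66 [(rh170611066f44b0aa.shift 0 1), (rh24b4f41f846cb1d8.shift 1 0), (rh2d5442cbf338480d.shift 1 1)] (by decide +kernel))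
noncomputable def rh898371852f010830 : CRef := CRef.mk (Pat.mk 0x4000000070000000400000000 0x20000000e0000000e0000000c000000060000000f0000003c00000008 6 6) 0 0 (step_sound _ 35 [(rh4a0b10776449c3e9.shift 0 1), (rh6f111be5fa103297.shift 1 0)] (by decide +kernel))
noncomputable def rh4cc199ee91c4d91e : CRef := CRef.mk (Pat.mk 0x180000000c000000080000000000000000 0x80000001c0000001c000000380000001f0000001c 6 6) 0 0 (step_sound _ 35 [(rh2d5442cbf338480d.shift 2 0), rhb20dd801f506db0f] (by decide +kernel))
noncomputable def rh8b0c53d0e41cbb64 : CRef := CRef.mk (Pat.mk 0xe000000030000000200000000 0x10000000700000007000000060000000f0000000f0000001e0000000c 6 5) 0 0 (step_sound _ 129 [rh1f64b9361671cf58, (rh426f403fa814630c.shift 1 0), (rh4e2df8342d3b8ae8.shift 0 1), (rh586b343be2471f50.shift 0 1), rhc82fcb6429472d32] (by decide +kernel))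
noncomputable def rh51d26d3136a69e22 : CRef := CRef.mk (Pat.mk 0x180000001e0000000000000000 0x2000000030000001f0000003e0000000700000004 6 6) 0 0 (step_sound _ 32 [rh41d5a93e35cc8528, (rh80fcd6d0a18cb2dd.shift 0 1)] (by decide +kernel))
noncomputable def rh82b7cb25363f9fd0 : CRef := CRef.mk (Pat.mk 0x180000001e000000000000000000000000 0x10000000180000001e0000003f0000003800000038 6 6) 0 0 (step_sound _ 68 [rhbcbe883757daac65, (rhe25b0a99195a5d59.shift 1 2)] (by decide +kernel))
noncomputable def rh3a9ece7a0420e1dc : CRef := CRef.mk (Pat.mk 0x1000000018000000100000001000000000 0x18000000180000003c000000ff0000002e 6 8) 0 0 (step_sound _ 35 [rh43eff460dd51f1f9, (rh932754581e0f4330.shift 3 0)] (by decide +kernel))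
noncomputable def rhed095f6e857439d8 : CRef := CRef.mk (Pat.mk 0xe0000000300000002000000000000000000000000 0x40000000f0000003f0000001f0000001c0000001c00000014 6 6) 0 0 (step_sound _ 131 [rh14e87e2937b7de55, (rh3b97c0bc2615f008.shift 0 3), rh4821725405520188] (by decide +kernel))
noncomputable def rhb448feabc469110d : CRef := CRef.mk (Pat.mk 0x1800000018000000000000000000000000 0x18000000180000001800000018000000380000001f0000001c0000001c 6 6) 0 0 (step_sound _ 67 [(rh26c34d20a8f02850.shift 0 1), (rh7f8bb07996f68c30.shift 2 0), (rhea7a1800d6f053bd.shift 3 0)] (by decide +kernel))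
noncomputable def rhc16e6632be8a1756 : CRef := CRef.mk (Pat.mk 0xe0000000a0 0xe000000fe000001bf 6 9) 0 0 (step_sound _ 36 [rh1419d6e22745bfdb, (rhe25b0a99195a5d59.shift 4 0)] (by decide +kernel))
noncomputable def rhd23fcda03f98b9d0 : CRef := CRef.mk (Pat.mk 0x380000002800000000000000100000000000000000 0x3c0000003f0000007f0000007c000000fc0000001c 6 8) 0 0 (step_sound _ 67 [(rh05fa8fb38507759d.shift 3 0), rh67e7e232eabd3a79, (rhae071231de2c3ac8.shift 2 0), rhb51fdf7a8b89c866, (rhed748c34297bf7d3.shift 1 1)] (by decide +kernel))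
noncomputable def rhcaa55263a3aa0e25 : CRef := CRef.mk (Pat.mk 0x3800000028000000000000001000000000 0x80000003e0000003f000000660000003400000034 6 7) 0 0 (step_sound _ 98 [(rh1ed7a3503fa50fc8.shift 0 3), (rhc3783e86d7078ccf.shift 1 0), (rheea1a90336e79c71.shift 0 3)] (by decide +kernel))
noncomputable def rh07541183a64fa0e9 : CRef := CRef.mk (Pat.mk 0x380000000800000000000000100000000000000000 0x8000000080000003c0000000f0000001f0000007c0000001c0000001c 6 7) 0 0 (step_sound _ 99 [(rh2f7ef8ef5c94975a.shift 3 0), (rhb6e11cfc959c8a3c.shift 1 1), rhca30e8e2036fe4f6, (rheac27b7a8db9859a.shift 0 2)] (by decide +kernel))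
noncomputable def rh4c3318f044fbfe5c : CRef := CRef.mk (Pat.mk 0x1c0000001c000000000000000000000000 0x4000000040000001c0000007c0000007f0000007e0000001e 6 7) 0 0 (step_sound _ 67 [(rh40241bd608e5be1a.shift 2 0), rh47f9fca610a16f61, rhfa31bd93b8db12e9] (by decide +kernel))
noncomputable def rhd1af12ee1a1e7b6b : CRef := CRef.mk (Pat.mk 0xe000000020000000000000000 0x10000000700000003f0000007e0000000800000008 6 7) 0 0 (step_sound _ 100 [(rh4274f4328cb9f3fd.shift 1 2), (rhd584a578337d0023.shift 1 2), rhf459621b93742302] (by decide +kernel))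
noncomputable def rh528bab65ed76fe48 : CRef := CRef.mk (Pat.mk 0x1e00000004000000000000000000000000 0xc0000001e0000003f000000330000001200000012 6 6) 0 0 (step_sound _ 97 [rh11fbc4d707f559e2, (rheb0810cc63b001d8.shift 0 3)] (by decide +kernel))
noncomputable def rh5cc05450484047d5 : CRef := CRef.mk (Pat.mk 0x600000006000000020000000200000000 0x60000000f0000007e0000003f0000007d 6 7) 0 0 (step_sound _ 34 [(rh55afc6a59410cf00.shift 1 0), rh892be28f74496ae4] (by decide +kernel))
noncomputable def rhca459270cd6474f4 : CRef := CRef.mk (Pat.mk 0x180000000c00000008000000000000000000000000 0x8000000780000000f0000007c000000180000001000000010 6 7) 0 0 (step_sound _ 129 [(rh53b3c253cb0c65f4.shift 0 4), (rh82c0fdad1a7a008e.shift 1 0)] (by decide +kernel))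
noncomputable def rh779020101de76499 : CRef := CRef.mk (Pat.mk 0x180000000c00000008000000000000000000000000 0x80000001c0000000f0000007c0000001c0000001c00000010 6 7) 0 0 (step_sound _ 129 [(rh44f1b19374335971.shift 1 0), (rh53b3c253cb0c65f4.shift 0 4)] (by decide +kernel))
noncomputable def rh0ba3225c2e28e814 : CRef := CRef.mk (Pat.mk 0xc0000000600000004000000000000000000000000 0x4000000040000003e000000060000000f0000003e0000000e00000004 6 6) 0 0 (step_sound _ 97 [(rh1e309b005ffa1b36.shift 1 1), rhc93a168067f441ea, (rhefdda6c9e8ddc8b2.shift 1 0)] (by decide +kernel))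
noncomputable def rh5e9da5f0fe574309 : CRef := CRef.mk (Pat.mk 0x800000018000000080000000800000000 0x10000000180000007c000000ef0000007c000000f4 6 8) 0 0 (step_sound _ 36 [rh493310089805861b, (rh55afc6a59410cf00.shift 3 0)] (by decide +kernel))
noncomputable def rh8a90be6e62959a00 : CRef := CRef.mk (Pat.mk 0x1800000008000000000000000000000000 0x18000000180000003c000000ff000001ff0000003c0000003c 6 9) 0 0 (step_sound _ 100 [(rh008024e78995f67b.shift 2 0), rh407fb390d8316269, (rh4ecc1d8b8edb1dd7.shift 2 0), (rh5dc5071a19a64e2e.shift 2 0), rh97428ce13c0ff849, rha56581e1717be79b] (by decide +kernel))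
noncomputable def rh9430957bcc80c8da : CRef := CRef.mk (Pat.mk 0x800000018000000080000000800000000 0x8000000780000003f0000003f00000014 6 7) 0 0 (step_sound _ 34 [(rh932754581e0f4330.shift 2 0), rhc021d59f4fdd0362] (by decide +kernel))
noncomputable def rh26a846860db7115b : CRef := CRef.mk (Pat.mk 0x8000000180000000800000008 0x180000001800000018000000380000001f0000000c 6 6) 0 0 (step_sound _ 132 [rhaa874ddc89eb57c0, (rhbaefcd01e0a8bca3.shift 3 0)] (by decide +kernel))
noncomputable def rh54f8cf36e454955a : CRef := CRef.mk (Pat.mk 0x1800000018000000080000000800000000 0x80000000800000008000000380000001f0000001c0000001800000010 6 6) 0 0 (step_sound _ 36 [(rh55afc6a59410cf00.shift 3 0), (rhc5de389ce0cd865a.shift 0 1)] (by decide +kernel))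
noncomputable def rh1d96c1b82ae47427 : CRef := CRef.mk (Pat.mk 0x1800000018000000080000000800000000 0x8000000380000001f000000f8000000f800000030 6 8) 0 0 (step_sound _ 36 [(rh55afc6a59410cf00.shift 3 0), rhbea5ac7f403d7a91] (by decide +kernel))
noncomputable def rh3b0706d77e86e9d2 : CRef := CRef.mk (Pat.mk 0x1800000038000000080000000000000000 0x38000000ff000000e80000000800000008 6 8) 0 0 (step_sound _ 3 [(rh48dcc808214cd2bf.shift 0 2), (rh9e3edb185cc347de.shift 3 0)] (by decide +kernel))
noncomputable def rh865b3cc1a3756684 : CRef := CRef.mk (Pat.mk 0x1800000038000000080000000000000000 0x8000000080000000c000000f80000003e0000007f0000006800000068 6 8) 0 0 (step_sound _ 133 [(rh757dca4af2051a78.shift 2 0), rha3e6f80fb43d1a27, (rhab2ad169e49f9c5e.shift 1 3)] (by decide +kernel))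
noncomputable def rhbabc5190046a80bd : CRef := CRef.mk (Pat.mk 0x1800000018000000180000000000000000 0x38000000ff000000fe0000006000000020 6 8) 0 0 (step_sound _ 98 [(rh19d63ac5eadde518.shift 1 0), (rh6292bd8784ece55f.shift 1 2), (rhab2ad169e49f9c5e.shift 0 3)] (by decide +kernel))
noncomputable def rh796bc9c30fbd1f21 : CRef := CRef.mk (Pat.mk 0x1800000018000000080000000800000000 0x38000000ff000000ee0000007800000030 6 8) 0 0 (step_sound _ 36 [(rh55afc6a59410cf00.shift 3 0), rha7d0af08e06eaebc] (by decide +kernel))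
noncomputable def rh7a5331775de4f99e : CRef := CRef.mk (Pat.mk 0x600000006000000020000000000000000 0x20000000600000006000000070000003e0000000e 6 6) 0 0 (step_sound _ 33 [rh65a3a4cf67baf828, (rh71222050f2c63a3a.shift 1 0)] (by decide +kernel))
noncomputable def rh608a2540e141ac1e : CRef := CRef.mk (Pat.mk 0x180000000800000008000000000000000000000000 0x80000001800000018000000380000001f0000001c00000014 6 6) 0 0 (step_sound _ 67 [(rh8aec56c4ee12918c.shift 2 0), (rh8c3839f9b9075f23.shift 3 0), (rhb20dd801f506db0f.shift 0 1)] (by decide +kernel))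
noncomputable def rh8770f4420eadcdec : CRef := CRef.mk (Pat.mk 0x300000006000000020000000200000000000000000000000000000000 0x30000001e000000070000000300000003000000070000000700000005 6 5) 0 0 (step_sound _ 195 [rh125b4485feeafb2e, (rhf48373e13d2bc128.shift 0 6)] (by decide +kernel))
noncomputable def rhc0891fafec18c501 : CRef := CRef.mk (Pat.mk 0x200000002000000030000000100000000000000000 0x200000003f000001fe000001fe0000004000000040 6 9) 0 0 (step_sound _ 102 [(rh2820ca9a6c4f41b4.shift 1 2), rh5120e8fd37d04c8d, (rhacdc93fe93d9bf44.shift 3 0), (rhf0f55c4504412200.shift 1 2)] (by decide +kernel))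
noncomputable def rhd93ac9486958b76a : CRef := CRef.mk (Pat.mk 0xc000000080000000c0000000000000000 0x40000000c0000000c000000080000001c0000007c0000001f0000001800000018 6 7) 0 0 (step_sound _ 100 [(rh3e11480408ba39c3.shift 0 2), (rh768250f9b3c825cb.shift 2 0), (rhea5ad313ff444aaf.shift 0 2)] (by decide +kernel))
noncomputable def rh192da8ef9ee3c282 : CRef := CRef.mk (Pat.mk 0x100000001000000018000000080000000000000000 0x10000001f7000000fe000001ef0000002800000028 6 9) 0 0 (step_sound _ 35 [rh1cb5b37392afbd09, (rh71222050f2c63a3a.shift 3 0)] (by decide +kernel))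
noncomputable def rh55046f05312c6f62 : CRef := CRef.mk (Pat.mk 0x1800000000000000180000000c00000000000000000000000000000000 0x1800000018000000180000000f0000007c0000001c0000001c00000014 6 7) 0 0 (step_sound _ 129 [(rh3ee3e586d419f576.shift 1 0), (rh53b3c253cb0c65f4.shift 0 4)] (by decide +kernel))
noncomputable def rhbc72f9790c4494c5 : CRef := CRef.mk (Pat.mk 0x6000000000000000200000003000000000000000000000000 0x6000000070000000300000003000000070000000600000006 6 3) 0 0 (step_sound _ 161 [(rh932754581e0f4330.shift 0 2), rhaec606572b4166b5] (by decide +kernel))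
noncomputable def rhea4f72bc07c0d32a : CRef := CRef.mk (Pat.mk 0x1c00000000 0xf00000007e000000ef 6 8) 0 0 (step_sound _ 37 [(rh35e918dd76851f8c.shift 2 0), (rh8db7f7558b75b2b1.shift 1 0), rhc37ac25399000c0e, (rhdd4fe9fd28ed4c0f.shift 1 0)] (by decide +kernel))
noncomputable def rh77ed869347696031 : CRef := CRef.mk (Pat.mk 0x6000000000000001e000000000000000000000000 0x6000000070000001e000000370000000600000004 6 6) 0 0 (step_sound _ 65 [rhc069012654e9201e, (rheb0810cc63b001d8.shift 0 2)] (by decide +kernel))
noncomputable def rh565f611d97c187b6 : CRef := CRef.mk (Pat.mk 0x4000000000000001e00000000000000000000000000000000 0x4000000070000001e00000003000000070000000700000005 6 5) 0 0 (step_sound _ 97 [rh28c69cbff36b37f6, (rheb0810cc63b001d8.shift 0 3)] (by decide +kernel))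
noncomputable def rhc228219a91822829 : CRef := CRef.mk (Pat.mk 0x1c00000000 0xff0000007e000000e0 6 8) 0 0 (step_sound _ 37 [(rh35e918dd76851f8c.shift 2 0), (rh3947d1dfff0afc6c.shift 1 0), (rhb18e6c78a554867d.shift 1 1), rhd75855c0840bf9dc] (by decide +kernel))
noncomputable def rh33d8abaa9cd29cb3 : CRef := CRef.mk (Pat.mk 0x400000000000000060000000200000000000000000000000000000000 0x400000006000000060000000600000007000000070000000700000005 6 3) 0 0 (step_sound _ 97 [(rh42a7bbf213dec003.shift 1 2), (rh514fa720804abbca.shift 1 2), (rh7451f34b061ea69b.shift 1 3), rhb44fbf6bd2c6418e] (by decide +kernel))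
noncomputable def rhf47457ddb6fcaaa7 : CRef := CRef.mk (Pat.mk 0xc000000180000000c000000000000000000000000 0x1c000000780000000f0000003c0000001c00000014 6 7) 0 0 (step_sound _ 134 [(rh2fe78cc5ca4405d8.shift 2 4), rh943827621fe82abd] (by decide +kernel))
noncomputable def rh481378dca19926c4 : CRef := CRef.mk (Pat.mk 0xc000000180000000c000000000000000000000000 0x20000000e0000000fc000000f8000000fc000000ff0000003c0000002c 6 8) 0 0 (step_sound _ 100 [(rh03d05d00af6fb962.shift 2 1), (rh67e0736b1571b4f6.shift 1 0), rh7dd863f70d807e13, (rhb727ed1dccef4e48.shift 2 0)] (by decide +kernel))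
noncomputable def rh799f2ede9cc86675 : CRef := CRef.mk (Pat.mk 0x100000003800000000 0x3f7000001fe000001c7 6 10) 0 0 (step_sound _ 34 [rh2cc7d62e70c02209, (rh469624678d170306.shift 2 0), (rhec46bd5500c722c9.shift 1 1)] (by decide +kernel))
noncomputable def rhc5f4bf7c827ba2b7 : CRef := CRef.mk (Pat.mk 0x180000000800000018000000080000000000000000 0x180000000f0000007e0000007f0000001800000018 6 7) 0 0 (step_sound _ 101 [rh551c754ce0077360, rh7663727ff839d070, rhc65f330658584982, (rhd9106766b9ff53c0.shift 2 2)] (by decide +kernel))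
noncomputable def rhc2b213633d7a0206 : CRef := CRef.mk (Pat.mk 0x80000000800000038000000000000000000000000 0x280000006f0000003e000000770000001400000014 6 7) 0 0 (step_sound _ 98 [(rh008b05f4778dc30d.shift 0 2), (rh775ca1963e850b80.shift 0 2), (rhce71534e51e0a15e.shift 1 0), (rhd1474a84c69f0140.shift 1 0)] (by decide +kernel))
noncomputable def rh13b1972114df0da1 : CRef := CRef.mk (Pat.mk 0x180000000000000038000000000000000000000000 0xc0000000c000000078000001e0000000fe000000f70000006000000060 6 9) 0 0 (step_sound _ 134 [(rh12575497daa24206.shift 2 0), (rh3e5f8e21a521f7e9.shift 0 2), (rh834ef1c974e4840e.shift 2 0), (rh8f199c67580537c0.shift 3 0), (rhb8022f71dc28021b.shift 2 3)] (by decide +kernel))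
noncomputable def rhbae210e77abaa4ad : CRef := CRef.mk (Pat.mk 0x3800000000 0xff0000007e00000007 6 8) 0 0 (step_sound _ 34 [(rh61325f73ebf98108.shift 0 1), rh7654d7b92c96fe12, rh775ca1963e850b80, (rh98608c6afefa0c7d.shift 1 0)] (by decide +kernel))
noncomputable def rh4ee27cb9760629df : CRef := CRef.mk (Pat.mk 0xe000000000000000000000000 0x10000000770000003f000000780000000800000008 6 7) 0 0 (step_sound _ 100 [(rh35e918dd76851f8c.shift 1 2), (rh3947d1dfff0afc6c.shift 0 2), (rhb18e6c78a554867d.shift 0 3), rhf459621b93742302] (by decide +kernel))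
noncomputable def rhd17bee628a613f6f : CRef := CRef.mk (Pat.mk 0x3000000000000000f000000000000000000000000 0x10000000180000001f0000001c0000000f0000001c0000000c0000000c 6 5) 0 0 (step_sound _ 67 [rhe0b39a68177c9321, (rhe25b0a99195a5d59.shift 0 2)] (by decide +kernel))
noncomputable def rh2490b1020ae2a56a : CRef := CRef.mk (Pat.mk 0xc000000000000000c00000004000000000000000000000000 0x1c0000003e0000003f0000007f0000007f0000000c0000000c 6 7) 0 0 (step_sound _ 99 [(rh3b362d4a3fb0cba5.shift 0 1), rh3c8d48bbfc8a5af0, rh6467ba93c25dd19a] (by decide +kernel))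
noncomputable def rhec31ecad3d476916 : CRef := CRef.mk (Pat.mk 0x1000000018000000300000000000000000 0x1000000010000000f8000000ff0000000f00000008 6 8) 0 0 (step_sound _ 70 [rhb7114f326a1ecf03, (rhf48373e13d2bc128.shift 3 2)] (by decide +kernel))
noncomputable def rh2ee5287833d25bbb : CRef := CRef.mk (Pat.mk 0x3000000018000000300000000000000000 0xf000000038000000ff000000ec00000008 6 8) 0 0 (step_sound _ 134 [(rh18965a982d73c794.shift 3 3), rhbd2706f892eec238] (by decide +kernel))
noncomputable def rhec8f9615323b1179 : CRef := CRef.mk (Pat.mk 0x800000018000000000000001800000000 0x140000001c0000001f00000078000000180000001c00000004 6 7) 0 0 (step_sound _ 67 [(rh4b783bb445d2d96a.shift 2 0), (rhbdecaeed4a59cb58.shift 2 0), (rhdb019b0e908810fb.shift 0 1), rhf8c8d962f41a49df] (by decide +kernel))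
noncomputable def rhd9f48dab4c49572b : CRef := CRef.mk (Pat.mk 0x800000018000000000000001800000000 0x40000001c0000001f000000780000001c000000f800000020 6 8) 0 0 (step_sound _ 67 [(rh09dad20d86921cc4.shift 2 0), (rh65909b08999dc522.shift 2 1), (rhdb019b0e908810fb.shift 0 1)] (by decide +kernel))
noncomputable def rh24dcdf871b6533d4 : CRef := CRef.mk (Pat.mk 0xc000000040000000c00000000 0xa0000000e0000000e0000000c0000000f0000003e00000032 6 6) 0 0 (step_sound _ 130 [(rh4b783bb445d2d96a.shift 1 0), (rh65909b08999dc522.shift 1 1), rh93c987d47c2856ef, rhc6caea4112c2545d] (by decide +kernel))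
noncomputable def rh37239252341e46cd : CRef := CRef.mk (Pat.mk 0x18000000080000001800000000 0x40000001c0000001f000000780000001c000000f800000020 6 8) 0 0 (step_sound _ 131 [(rh09dad20d86921cc4.shift 2 0), (rh65909b08999dc522.shift 2 1), (rhdb019b0e908810fb.shift 0 1)] (by decide +kernel))
noncomputable def rh86d13786bae4789b : CRef := CRef.mk (Pat.mk 0x18000000080000001800000000 0xc0000001f000000780000000e0000007c00000004 6 7) 0 0 (step_sound _ 131 [(rhc6caea4112c2545d.shift 1 0), (rhdb019b0e908810fb.shift 0 1), rhf8c8d962f41a49df] (by decide +kernel))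
noncomputable def rhb5ea62d810b24eb0 : CRef := CRef.mk (Pat.mk 0x200000006000000020000000600000000 0x300000003000000070000000600000006000000060000000700000001 6 3) 0 0 (step_sound _ 0 [rh79877ebd3ef475dd, (rhfbd1f5dfe71f1ce1.shift 0 1)] (by decide +kernel))
noncomputable def rhb1927810c5fed255 : CRef := CRef.mk (Pat.mk 0xc000000060000000c0000000000000000 0x80000003c000000360000003e0000003300000002 6 6) 0 0 (step_sound _ 132 [(rh18965a982d73c794.shift 1 3), rh60a474e751c69dca] (by decide +kernel))
noncomputable def rhd7f2e624159c4fca : CRef := CRef.mk (Pat.mk 0x18000000080000001800000000 0xc0000001f000000780000003f0000007f00000004 6 7) 0 0 (step_sound _ 131 [rh9483e85abe121198, (rhc6caea4112c2545d.shift 1 0), (rhdb019b0e908810fb.shift 0 1), rhf8c8d962f41a49df] (by decide +kernel))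
noncomputable def rhf1d00897e5f3c20d : CRef := CRef.mk (Pat.mk 0x18000000080000001800000000 0x40000001f00000078000000080000001c00000014 6 7) 0 0 (step_sound _ 131 [(rh55afc6a59410cf00.shift 3 0), rhf8c8d962f41a49df] (by decide +kernel))
noncomputable def rh7874abb0bc26988c : CRef := CRef.mk (Pat.mk 0x8000000000000001e000000000000000000000000 0x8000000080000001b0000001e000000330000001000000010 6 6) 0 0 (step_sound _ 64 [(rh80fcd6d0a18cb2dd.shift 0 2), rha0786896be2fa836] (by decide +kernel))
noncomputable def rhedf46f22241bda08 : CRef := CRef.mk (Pat.mk 0x10000000000000003c000000000000000000000000 0x1000000010000000300000003e000000670000002000000020 6 7) 0 0 (step_sound _ 65 [(rh80fcd6d0a18cb2dd.shift 1 2), rhea9ab9bfa2176c10] (by decide +kernel))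
noncomputable def rh04f9d0d591a316cb : CRef := CRef.mk (Pat.mk 0xc000000080000000c000000000000000000000000 0x40000001c000000380000003f0000000f0000000c00000008 6 6) 0 0 (step_sound _ 67 [rh1c14c0a15f335067, (rh50fbb5868c909700.shift 2 2)] (by decide +kernel))
noncomputable def rh60e98d4fa4efe1d1 : CRef := CRef.mk (Pat.mk 0x2000000030000000200000002 0x100000007000000070000000700000003000000030000000200000002 6 3) 0 0 (step_sound _ 129 [rh3ca48e2a6d60153d, (rh4e2df8342d3b8ae8.shift 0 1), (rh7ef5fa5c39f1c762.shift 0 1), rhf06a227ba195dbc0] (by decide +kernel))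
noncomputable def rh7096dc2da8edfe01 : CRef := CRef.mk (Pat.mk 0xc000000000000000c000000080000000000000000 0x40000001c000000380000003f0000000f0000000c00000008 6 6) 0 0 (step_sound _ 131 [rh1c14c0a15f335067, (rh50fbb5868c909700.shift 2 2)] (by decide +kernel))
noncomputable def rh6ec1b00bc2f4712a : CRef := CRef.mk (Pat.mk 0x30000000200000000000000000 0x40000001cf000000fe000001ff0000002000000020 6 9) 0 0 (step_sound _ 99 [(rh73c0cb930217bc98.shift 0 2), (rh8ee80cc30e93a344.shift 2 2), (rhc21a95c499b3efdb.shift 2 2), (rhf016a777a520067c.shift 2 0)] (by decide +kernel))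
noncomputable def rhc341a4986f1e321f : CRef := CRef.mk (Pat.mk 0x800000070000000000000000000000000 0x8000000080000001c0000007f0000003f0000001000000010 6 7) 0 0 (step_sound _ 99 [(rh3244c3cc8379b070.shift 2 3), rhb518467960561b18] (by decide +kernel))
noncomputable def rh597b820982de98df : CRef := CRef.mk (Pat.mk 0x3000000020000000300000000 0x10000000700000007000000070000000300000003000000020000000300000001 6 3) 0 0 (step_sound _ 129 [(rh1fb4cf4f215fbb9c.shift 0 1), rh932754581e0f4330] (by decide +kernel))
noncomputable def rh63d61c174dc9f573 : CRef := CRef.mk (Pat.mk 0x200000002000000038000000000000000000000000 0x2000000020000000670000003e000000170000001000000010 6 7) 0 0 (step_sound _ 68 [rh1ff43b430fca1251, (rh5c5e593799055d58.shift 4 2)] (by decide +kernel))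
noncomputable def rh0c727ca215cfd250 : CRef := CRef.mk (Pat.mk 0x3c00000000 0x70000000ff0000003c 6 8) 0 0 (step_sound _ 69 [(rh33e738c4ed385b9f.shift 2 1), rhb38812be986353a7] (by decide +kernel))
noncomputable def rh7e9367916d015f70 : CRef := CRef.mk (Pat.mk 0x4000000080000000e0000000000000000000000000000000000000000 0x40000000c000000080000000f0000007c0000001c0000001c0000001c00000004 6 7) 0 0 (step_sound _ 131 [(rh168ff87fe8bff0db.shift 2 0), (rh2475c90822503e65.shift 1 3), (rhba99d3a9a6f13315.shift 0 3), (rhc21a95c499b3efdb.shift 0 4)] (by decide +kernel))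
noncomputable def rh6d17802643a0d556 : CRef := CRef.mk (Pat.mk 0x6000000080000000e0000000000000000 0x1000000010000000770000003e000000780000000e0000003c0000001c 6 7) 0 0 (step_sound _ 131 [(rh2b4b4dfd26d7feb1.shift 0 2), (rh78354259ccb5844d.shift 1 0), (rhe3e29ad984c3b423.shift 1 0)] (by decide +kernel))
noncomputable def rh2b8afafda3225452 : CRef := CRef.mk (Pat.mk 0x3000000000000000f000000000000000000000000 0x10000000180000001f0000001c0000000f0000001c0000000c0000000c 6 5) 0 0 (step_sound _ 131 [(rh33e738c4ed385b9f.shift 0 3), rhcc67723ea6dbd57e] (by decide +kernel))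
noncomputable def rhc952da16ac584eeb : CRef := CRef.mk (Pat.mk 0x180000000000000008000000000000000000000000 0x40000001c0000001f000000780000001c0000001c0000001c0000001c00000014 6 7) 0 0 (step_sound _ 131 [(rh00f4d712d88729c0.shift 2 1), (rh15590a39afd9a120.shift 2 0), (rhdbe2fb63699ce0bb.shift 0 2), (rhe3458ab40071103b.shift 3 2), (rhffb8e5993241bf15.shift 2 0)] (by decide +kernel))
noncomputable def rhe7effb95670b5a62 : CRef := CRef.mk (Pat.mk 0xe000000000000000000000000 0x10000000700000003f0000007f0000000800000008 6 7) 0 0 (step_sound _ 100 [(rh3b00e9e9432b8f40.shift 0 2), (rh8db7f7558b75b2b1.shift 0 2), rhf459621b93742302] (by decide +kernel))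
noncomputable def rhd7becd1969f8148c : CRef := CRef.mk (Pat.mk 0xe000000000000000000000000 0x10000000770000003f000000780000000800000008 6 7) 0 0 (step_sound _ 100 [(rh2eb6cac0fecf3e9c.shift 0 2), (rhb18e6c78a554867d.shift 0 3), rhf459621b93742302] (by decide +kernel))
noncomputable def rh55ec969d5fa8c0dc : CRef := CRef.mk (Pat.mk 0x20000001e000000020000000000000000 0x50000000700000007000000360000001e000000360000000600000006 6 6) 0 0 (step_sound _ 68 [rh803bdd8e60b9063b, (rhe25b0a99195a5d59.shift 1 2)] (by decide +kernel))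
noncomputable def rh9a36e52e1f8a6a1a : CRef := CRef.mk (Pat.mk 0xf000000030000000000000000 0x400000004000000060000000f0000001f0000001e0000000a 6 5) 0 0 (step_sound _ 67 [rhc535be3544c789db, (rhe25b0a99195a5d59.shift 0 2)] (by decide +kernel))
noncomputable def rh7839021b52c1d988 : CRef := CRef.mk (Pat.mk 0x1800000008000000080000000000000000 0x180000001800000008000000380000001f00000014 6 6) 0 0 (step_sound _ 35 [(rh2f68792b6b779e96.shift 3 1), rhb20dd801f506db0f] (by decide +kernel))
noncomputable def rh5d1a068e5a79efd4 : CRef := CRef.mk (Pat.mk 0xe000000030000000200000000 0x10000000700000007000000060000000f0000000f0000001e0000000c 6 5) 0 0 (step_sound _ 129 [rh1f64b9361671cf58, rhc82fcb6429472d32, (rhe8915d9db8b9f3f2.shift 0 1)] (by decide +kernel))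
noncomputable def rhb4a82e5dd0a1d334 : CRef := CRef.mk (Pat.mk 0x8000000380000000a000000000000000000000000 0x50000001f0000001f0000000f0000003f0000007b000000130000000100000001 6 7) 0 0 (step_sound _ 161 [(rh5b7331415ceb5383.shift 0 3), rh6b8a52b2762d52c0, (rhc30259bd62f0e380.shift 0 4), (rhe35021687539fa31.shift 0 2)] (by decide +kernel))
noncomputable def rhdee4ee599a438291 : CRef := CRef.mk (Pat.mk 0x20000003800000008000000000000000000000000 0x50000000700000007000000030000003f0000003f000000030000000100000001 6 6) 0 0 (step_sound _ 97 [rh6b8a52b2762d52c0, (rh8bf8257c7eeda352.shift 0 3), (rhbb229bad87965364.shift 1 3), (rhfb815e3afead425a.shift 0 3)] (by decide +kernel))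
noncomputable def rh6512f249ef2d5d1e : CRef := CRef.mk (Pat.mk 0x100000007800000010 0x300000003c0000003f0000003c000000780000001c 6 7) 0 0 (step_sound _ 67 [rh31ac1df6e0412ded, (rh3244c3cc8379b070.shift 2 1)] (by decide +kernel))
noncomputable def rhc236aaae5bd29815 : CRef := CRef.mk (Pat.mk 0x20000000f000000000 0x77000000fe0000001c 6 8) 0 0 (step_sound _ 3 [rh24a26d6228d626b8, (rh80fcd6d0a18cb2dd.shift 3 0)] (by decide +kernel))
noncomputable def rh53d6362a466e3171 : CRef := CRef.mk (Pat.mk 0x3c00000008000000000000000000000000 0x1c0000001c0000001c0000003f0000006f000000080000000800000008 6 7) 0 0 (step_sound _ 67 [(rh261f868a429ae0e3.shift 2 1), (rh2af3bff4277f1035.shift 1 0), (rh72a68555c4bbad2d.shift 0 2), (rha0bb913a2cea44c0.shift 1 0)] (by decide +kernel))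
noncomputable def rh82452f9947d51b83 : CRef := CRef.mk (Pat.mk 0x800000038000000000000000000000000 0x300000003c0000003f00000038000000ff000000f80000003800000030 6 8) 0 0 (step_sound _ 132 [(rh0cb38fe344d301f1.shift 2 0), (rh43e06a69887b4db3.shift 0 2), rh4d5bdfa5bbcd79dc] (by decide +kernel))
noncomputable def rh11aa4e8aad8534e1 : CRef := CRef.mk (Pat.mk 0x80000003800000000000000000000000000000000 0x140000001c0000001c00000018000000780000001f0000001c0000001400000004 6 7) 0 0 (step_sound _ 99 [(rh19b19bf0872cfe73.shift 2 0), (rh4b370ff195e9de8f.shift 2 1), (rhf0f55c4504412200.shift 0 3), (rhfe9e7c35925da927.shift 2 1)] (by decide +kernel))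
noncomputable def rha9159c20811d52c2 : CRef := CRef.mk (Pat.mk 0x80000003800000000 0x3b8000003ff000003f7 6 10) 0 0 (step_sound _ 38 [(rh167fff566cb27b75.shift 3 0), (rh50c0dce797577b38.shift 2 0), rh889db1ec0a785870, (rha68ac53db4c136d7.shift 2 0)] (by decide +kernel))
noncomputable def rhc2ffcf4dfa00dc6e : CRef := CRef.mk (Pat.mk 0x80000003800000000 0x38000000ff000001ee 6 9) 0 0 (step_sound _ 38 [(rh008b05f4778dc30d.shift 1 0), (rh31905c9abd083ad2.shift 2 0), rh59c238fb0cb9f9a7, rhedaf679cda8997d1] (by decide +kernel))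
noncomputable def rh2fee6d514dbcd7c1 : CRef := CRef.mk (Pat.mk 0x800000008000000300000000000000000 0x1800000038000000780000003e0000003f0000003c00000030 6 7) 0 0 (step_sound _ 100 [(rh02a526a6dbd1715f.shift 0 1), (rh5d54cb79a67f97ab.shift 3 0), (rh7e1098702e50f2b0.shift 3 0), (rhb990105fe101a292.shift 1 0)] (by decide +kernel))
noncomputable def rhc4c8fb37a28634e1 : CRef := CRef.mk (Pat.mk 0x80000000800000030000000000000000000000000 0xc0000000c0000003f0000003f0000001f0000001c00000014 6 6) 0 0 (step_sound _ 99 [(rh046c5eb18e55a239.shift 3 0), rh35896288e4c65047, (rhe0fac22921ac0b86.shift 0 2)] (by decide +kernel))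
noncomputable def rh556c3c1110aa35d6 : CRef := CRef.mk (Pat.mk 0x800000008000000300000000000000000 0x1c0000001c0000001c000000380000003f0000003c00000014 6 6) 0 0 (step_sound _ 163 [(rh08c75accbceac6f3.shift 2 0), (rh47dece01c1595e79.shift 3 0), (rh794b576fbe04332e.shift 0 1)] (by decide +kernel))
noncomputable def rh4979e9775be3e0da : CRef := CRef.mk (Pat.mk 0x800000008000000300000000000000000 0x140000001c0000001c0000001c0000001c0000003f0000003f0000002c00000004 6 6) 0 0 (step_sound _ 163 [rh08d6d2f037649614, (rh794b576fbe04332e.shift 0 1), (rh872037596486df22.shift 1 0), (rhb03a29e2c9f3115a.shift 2 2), (rhba97f7f4ade5e136.shift 2 2)] (by decide +kernel))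
noncomputable def rhd1f9ca2f81780f57 : CRef := CRef.mk (Pat.mk 0x80000000800000030000000000000000000000000 0x340000007f0000003e0000003f000000ff0000003c00000024 6 8) 0 0 (step_sound _ 132 [rh5acbd7badee33726, rh69cf8e1215bc02a1, rhaf0c9b9a3943dbf0, (rhb990105fe101a292.shift 1 1)] (by decide +kernel))
noncomputable def rh2d2079ecf0c55fe8 : CRef := CRef.mk (Pat.mk 0x80000000800000030000000000000000000000000 0x1800000058000001fc000000fc0000003f00000030000000300000003000000030 6 9) 0 0 (step_sound _ 164 [rh052f1faaef7466bd, (rh29ec03433afd18f6.shift 1 0), (rh8029fd0ee4bf791f.shift 3 0), (rh88b527a254cac98c.shift 0 2), (rh8ddd3d2a4179333b.shift 1 1), (rhbf27a2fa03970205.shift 0 2), (rhd6d814f68dd97a5c.shift 0 1)] (by decide +kernel))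
noncomputable def rh0f7dc13236a1576f : CRef := CRef.mk (Pat.mk 0x80000000800000030000000000000000000000000 0x1c0000001c0000001c0000000e0000003c0000001f0000001c00000014 6 6) 0 0 (step_sound _ 99 [(rh092f5d4552f1192e.shift 1 1), rh35896288e4c65047, (rh70e33bfdf511e144.shift 3 0), (rheaf5453bdfd1db11.shift 1 2)] (by decide +kernel))
noncomputable def rh2fd5cadd6651c980 : CRef := CRef.mk (Pat.mk 0x1000000010000000600000000000000000 0x1000000070000000f80000007c0000007f0000006800000068 6 8) 0 0 (step_sound _ 101 [rh09e512221c9c1c86, (rh7e1098702e50f2b0.shift 4 0), (rhb990105fe101a292.shift 2 0)] (by decide +kernel))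
noncomputable def rhc34a6a949bd2b8e4 : CRef := CRef.mk (Pat.mk 0xc00000018000000000000000000000000 0x140000001c0000001c0000007c0000000f000000780000001f0000001c00000010 6 7) 0 0 (step_sound _ 101 [rh8de75b6f4cc2c8db, (rhf48373e13d2bc128.shift 2 3)] (by decide +kernel))
noncomputable def rhc035dda7f3c2971f : CRef := CRef.mk (Pat.mk 0xc00000018000000000000000000000000 0x1c0000003c0000001f00000018000000180000001800000010 6 6) 0 0 (step_sound _ 129 [(rh12078cb2588021d7.shift 1 0), (rhb739f4f82bb681b4.shift 0 3)] (by decide +kernel))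
noncomputable def rhf1cb31c374de9e53 : CRef := CRef.mk (Pat.mk 0xc00000018000000000000000000000000 0x140000001c0000001c0000001c0000001c000000780000001f0000001c00000010 6 7) 0 0 (step_sound _ 101 [rhac197ab459b66905, (rhf48373e13d2bc128.shift 2 3)] (by decide +kernel))
noncomputable def rh8f68f4b775e4dc9a : CRef := CRef.mk (Pat.mk 0x800000030000000000000000000000000 0x8000000080000000f000000fe000001ff0000001400000014 6 9) 0 0 (step_sound _ 99 [(rh1561ff1fafeb7917.shift 2 2), rh5517a47cb67dbb75, rh9f9e61768ead139d, (rha9fbfd4bb8cf890b.shift 0 3)] (by decide +kernel))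
noncomputable def rhc98921aab788f2d3 : CRef := CRef.mk (Pat.mk 0x1e00000000 0xe0000007e000000e7 6 8) 0 0 (step_sound _ 1 [(rh5d20769b373c9e89.shift 1 0), rheb0810cc63b001d8] (by decide +kernel))
noncomputable def rh195f3e9c61b1f7f0 : CRef := CRef.mk (Pat.mk 0x3800000000000000000000000000000000 0x140000001c0000001c0000001f000000f8000001df0000001c0000001c00000004 6 9) 0 0 (step_sound _ 163 [(rh1561ff1fafeb7917.shift 2 3), rh2b4dd9a983e141eb, (rh72ac494e39ec6f21.shift 0 1), (rhf60aa8aede119d3b.shift 0 4)] (by decide +kernel))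
noncomputable def rh62640aeaade000de : CRef := CRef.mk (Pat.mk 0x1800000018000000000000000000000000 0x18000000180000001800000018000000380000001f0000001c0000001c 6 6) 0 0 (step_sound _ 67 [(rh41f2c6fd1ed0512a.shift 0 1), (rh7f8bb07996f68c30.shift 2 0), (rhea7a1800d6f053bd.shift 3 0)] (by decide +kernel))
noncomputable def rhaf838205fa5781f9 : CRef := CRef.mk (Pat.mk 0x1800000018000000000000000000000000 0x80000003e000000ff000000e70000000400000004 6 8) 0 0 (step_sound _ 101 [(rh43e06a69887b4db3.shift 0 2), (rh79b3c29022acbdf3.shift 2 3), rhd41970a06ca27345] (by decide +kernel))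
noncomputable def rh1039c5ce2f4c19f3 : CRef := CRef.mk (Pat.mk 0x1800000018000000000000000000000000 0x180000001800000018000000380000003f0000003c0000003c 6 6) 0 0 (step_sound _ 67 [(rh7f8bb07996f68c30.shift 2 0), rh9514272666a701f8, (rhea7a1800d6f053bd.shift 3 0)] (by decide +kernel))
noncomputable def rh8c18dce8f391a5c9 : CRef := CRef.mk (Pat.mk 0x3000000018000000000000000000000000 0x80000000c0000002f0000003f000000fe0000007f0000003c0000003c 6 8) 0 0 (step_sound _ 131 [(rh68fd2cfedc2d8f99.shift 0 1), (rh701abdafdf6c4ea1.shift 1 0), rh7bbcd15cd123a7a2, rh964519c5dc280d9c, rhe2184b93d69f854e] (by decide +kernel))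
noncomputable def rh8fb84718e6110b07 : CRef := CRef.mk (Pat.mk 0x180000000800000000000000000000000000000000 0x140000001c0000001f0000007c000000180000001c0000001c0000001c00000014 6 7) 0 0 (step_sound _ 99 [(rh2ba5c00738500fa3.shift 2 0), (rhca6fb09669c74d2a.shift 0 2), (rhe3458ab40071103b.shift 3 2), (rhfa40f754f1f7b88f.shift 2 0)] (by decide +kernel))
noncomputable def rh6e659b12590c599d : CRef := CRef.mk (Pat.mk 0x180000000800000000000000000000000000000000 0x140000001c0000001f0000007c0000000c0000001c0000001c0000001c00000014 6 7) 0 0 (step_sound _ 99 [(rh215e11e099257d75.shift 3 2), (rh328fa6cd3b6da3c9.shift 0 2), (rh42ff8c8492a23a36.shift 2 0), (rhfa40f754f1f7b88f.shift 2 0)] (by decide +kernel))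
noncomputable def rh2e8418212af08dc2 : CRef := CRef.mk (Pat.mk 0xe000000020000000000000000 0x10000000700000003f0000007e0000000800000008 6 7) 0 0 (step_sound _ 100 [(rh3554394d0df631bf.shift 0 2), (rh4274f4328cb9f3fd.shift 1 2), (rhd584a578337d0023.shift 1 2), rhf459621b93742302] (by decide +kernel))
noncomputable def rh11eb409c063fe7f8 : CRef := CRef.mk (Pat.mk 0x1c000000080000000000000000 0x20000000e0000000ff000001f80000001000000010 6 9) 0 0 (step_sound _ 101 [(rh35e918dd76851f8c.shift 2 2), (rh429d551bffc08aea.shift 0 2), (rh46a93bedf8a96310.shift 0 2), (rhda98f5cded33c272.shift 2 2), (rhf459621b93742302.shift 1 0)] (by decide +kernel))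
noncomputable def rhe04d7fffb62aa1d8 : CRef := CRef.mk (Pat.mk 0x3800000018000000000000000000000000 0x100000001c0000003f0000003e000000780000003800000018 6 7) 0 0 (step_sound _ 98 [(rh53b3c253cb0c65f4.shift 1 3), rhcdd9a94cd040516c] (by decide +kernel))
noncomputable def rhc425d59bca762a77 : CRef := CRef.mk (Pat.mk 0xe000000060000000000000000 0x10000000300000003f0000003e0000000800000008 6 6) 0 0 (step_sound _ 100 [(rh18965a982d73c794.shift 1 2), rhb32eb569dfc388a6] (by decide +kernel))
noncomputable def rh4d6aaebcf0dacc86 : CRef := CRef.mk (Pat.mk 0xe000000040000000000000000 0x200000002000000070000003e000000770000000400000004 6 7) 0 0 (step_sound _ 100 [(rh2eb6cac0fecf3e9c.shift 0 2), rha3a3f9dc7580010b, (rhaf9f2efc81a8312b.shift 0 2)] (by decide +kernel))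
noncomputable def rh194823322962891b : CRef := CRef.mk (Pat.mk 0xe00000004000000040000000000000000 0x40000000f0000003c0000000e0000000e0000000e 6 6) 0 0 (step_sound _ 99 [(rh6292bd8784ece55f.shift 0 3), (rhfaed4418c4d78e8f.shift 1 0)] (by decide +kernel))
noncomputable def rhacd7510817a67805 : CRef := CRef.mk (Pat.mk 0x1c0000000800000008000000000000000000000000 0x40000000c0000000c0000001f000001ff000000fc000001d40000001000000010 6 9) 0 0 (step_sound _ 100 [(rh046c5eb18e55a239.shift 3 0), (rh2b1ade5be8c9bde3.shift 0 2), (rh96fbad571715fd8b.shift 2 2)] (by decide +kernel))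
noncomputable def rh6336978e46f729cd : CRef := CRef.mk (Pat.mk 0x100000001000000030000000200000000000000000 0x10000003b8000003fe000001ef0000000800000008 6 10) 0 0 (step_sound _ 99 [rh596def3aae05c2e3, (rh8ee80cc30e93a344.shift 2 2), (rh8fac572c56c02520.shift 2 0), (rh9657b57159ee5eda.shift 0 2)] (by decide +kernel))
noncomputable def rh8762fc813a871d11 : CRef := CRef.mk (Pat.mk 0x10000000300000002000000020000000000000000000000000 0x800000038000001fe000001ff0000003e000000180000001000000010 6 9) 0 0 (step_sound _ 100 [(rh0a45d231fa81e6fa.shift 0 2), (rhc070680a78506a7a.shift 1 1), (rhf3c65fc4ea40dacb.shift 2 2), (rhfafeb437ceb8396d.shift 4 0)] (by decide +kernel))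
noncomputable def rh88dfb622df982ad0 : CRef := CRef.mk (Pat.mk 0x60000001c000000000000000000000000 0x33000000370000003e0000001e0000003f0000000e00000002 6 6) 0 0 (step_sound _ 97 [(rh245928b0a8b00d1d.shift 1 1), rh9a011a4d0ec8f646, (rhf67a63a8c112a4d0.shift 0 1)] (by decide +kernel))
noncomputable def rh0f9c21d58317dbb1 : CRef := CRef.mk (Pat.mk 0x80000000c00000018000000000000000000000000 0x40000000c0000000c0000001c0000001f0000001f00000014 6 5) 0 0 (step_sound _ 67 [(rh3181373a30ceb9e3.shift 2 0), (rh519b605986f18fd6.shift 0 1), (rhe286c75f2739cce2.shift 2 1)] (by decide +kernel))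
noncomputable def rh0ffad23167397ccf : CRef := CRef.mk (Pat.mk 0x1800000070000000000000000000000000 0xc0000000d0000000f80000007f000000f70000002000000020 6 8) 0 0 (step_sound _ 99 [(rh245928b0a8b00d1d.shift 3 1), (rh28d87f6e13d3e08f.shift 2 0), (rhce71534e51e0a15e.shift 2 0), (rheb464318cdcb7ab8.shift 0 2)] (by decide +kernel))
noncomputable def rha3403235ecce036c : CRef := CRef.mk (Pat.mk 0x3800000060000000000000000000000000 0x100000001000000038000003f80000007f000000ec0000006800000048 6 10) 0 0 (step_sound _ 99 [(rh2c171759de90d468.shift 2 0), (rha2f2a0281995eebc.shift 2 0), (rhb3d82427a0c353f0.shift 2 1), (rhf0f55c4504412200.shift 0 3)] (by decide +kernel))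
noncomputable def rhba8b91d07712ea8c : CRef := CRef.mk (Pat.mk 0x1800000018000000080000000000000000 0x10000000100000001f000000ff000001fc0000002000000020 6 9) 0 0 (step_sound _ 101 [rh30b12604329aefc7, (rh79b3c29022acbdf3.shift 2 3), (rha9e1a5d55b907abf.shift 2 2)] (by decide +kernel))
noncomputable def rh196df2567b6ba4d7 : CRef := CRef.mk (Pat.mk 0x1800000018000000080000000000000000 0x10000000180000001f000000ff0000000f0000000400000004 6 8) 0 0 (step_sound _ 196 [rh1dc1916cab6e8cb7, (rhee230b994cc8b773.shift 3 2)] (by decide +kernel))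
noncomputable def rh9ef385de27e7a8ba : CRef := CRef.mk (Pat.mk 0xc00000038000000000000000000000000 0x6000000260000007c0000003e0000007f0000001800000010 6 7) 0 0 (step_sound _ 98 [(rh008b05f4778dc30d.shift 0 2), (rhce71534e51e0a15e.shift 1 0), (rhf67a63a8c112a4d0.shift 1 1)] (by decide +kernel))
noncomputable def rh76852071b80823e1 : CRef := CRef.mk (Pat.mk 0x380000006000000000000000000000000000000000 0x100000001800000018000000f80000007f0000007c0000003c0000001c00000014 6 8) 0 0 (step_sound _ 131 [(rh41192779c5edae00.shift 2 2), (rhf0f55c4504412200.shift 0 4), (rhf8efcff3aef0f7e2.shift 2 0)] (by decide +kernel))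
noncomputable def rh9494c4a9399faa83 : CRef := CRef.mk (Pat.mk 0x180000001c000000000000000000000000 0x80000000800000008000000780000003c0000001f0000001c0000001c 6 7) 0 0 (step_sound _ 134 [(rh361cc68994bd8a63.shift 2 3), rh4519ef6353c1755f] (by decide +kernel))
noncomputable def rh6f7acd8e18e57d31 : CRef := CRef.mk (Pat.mk 0x600000007000000000000000000000000 0x4000000040000003e0000003f0000001c0000000800000008 6 6) 0 0 (step_sound _ 132 [(rh361cc68994bd8a63.shift 0 3), rhf0197dd1dd65b7ce] (by decide +kernel))
noncomputable def rh601b884c67ae3ece : CRef := CRef.mk (Pat.mk 0xe00000006000000000000000000000000 0x600000006000000070000003e00000006000000030000000300000003 6 6) 0 0 (step_sound _ 132 [(rh18965a982d73c794.shift 1 3), rh9106cea440f48aab] (by decide +kernel))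
noncomputable def rh0c12b0c78c2d2647 : CRef := CRef.mk (Pat.mk 0x1c00000018000000000000000000000000 0xc0000001f0000001f000000330000001200000012 6 6) 0 0 (step_sound _ 129 [rh3b2c426084f8ce5a, (rhb739f4f82bb681b4.shift 0 3)] (by decide +kernel))
noncomputable def rhc14b3526cfd04a56 : CRef := CRef.mk (Pat.mk 0x1800000030000000100000000000000000 0x1000000038000000ff000000fc0000001800000018 6 8) 0 0 (step_sound _ 102 [rhea3c35dc5d356333, (rhf48373e13d2bc128.shift 3 3)] (by decide +kernel))
noncomputable def rha9bd69d77f753d28 : CRef := CRef.mk (Pat.mk 0xc0000001800000008000000000000000000000000 0xa0000001f0000001e0000000f0000000c0000000c00000004 6 5) 0 0 (step_sound _ 161 [rh19fe2e8d84137811, (rhb739f4f82bb681b4.shift 0 4)] (by decide +kernel))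
noncomputable def rh5781d345bb84e789 : CRef := CRef.mk (Pat.mk 0x30000000600000002000000000000000000000000 0x200000007000000070000003f0000003e0000000e00000008 6 6) 0 0 (step_sound _ 66 [rh0df840f44dd76d41, (rh4057627adbbec185.shift 0 1), (rh478c4cadbcd4e066.shift 1 1)] (by decide +kernel))
noncomputable def rh56402400bf41ca0a : CRef := CRef.mk (Pat.mk 0xc00000008000000080000000800000000 0xc0000000c0000003e0000007f00000017 6 7) 0 0 (step_sound _ 34 [(rh932754581e0f4330.shift 2 0), rhd52af5a1546adf65] (by decide +kernel))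
noncomputable def rh558aa28d2ec90d8f : CRef := CRef.mk (Pat.mk 0x80000001800000008000000000000000000000000 0x800000008000000180000001f000000ff000000f70000003000000020 6 8) 0 0 (step_sound _ 100 [(rh184d9b89d7688cca.shift 2 0), (rh55a1f6c57a317ce6.shift 3 1), (rha793e6b056fe2ebb.shift 0 2)] (by decide +kernel))
noncomputable def rhec3f3010fc1a7317 : CRef := CRef.mk (Pat.mk 0xc0000001800000008000000000000000000000000 0x80000000f000000780000001f0000000c0000000400000004 6 7) 0 0 (step_sound _ 133 [rh4bcd46fe61c64119, (rhf48373e13d2bc128.shift 2 4)] (by decide +kernel))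
noncomputable def rh80353854e468adf0 : CRef := CRef.mk (Pat.mk 0xc0000001800000008000000000000000000000000 0x80000001c000000780000001f0000001c0000001c00000004 6 7) 0 0 (step_sound _ 133 [rhaebc39d0f0d0c78f, (rhf48373e13d2bc128.shift 2 4)] (by decide +kernel))
noncomputable def rha4ff668c7d88f2be : CRef := CRef.mk (Pat.mk 0xc0000001800000008000000000000000000000000 0x8000000080000001f000000180000007c0000001f0000001c00000008 6 7) 0 0 (step_sound _ 100 [(rh55a1f6c57a317ce6.shift 3 1), rhe1ddb652ddbbdb21, rhe5be4a874045e549] (by decide +kernel))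
noncomputable def rhd690039a0abab6fc : CRef := CRef.mk (Pat.mk 0x30000000200000003000000000 0x100000001000000030000000780000003f0000007e000000cf 6 8) 0 0 (step_sound _ 132 [rh96ccb93e8449ea42, (rha3df16ea9c8576c8.shift 4 1), (rhc89253ff58c66167.shift 4 1), (rhe072fffdd2fccf38.shift 4 1)] (by decide +kernel))
noncomputable def rh67523bfb1785d43c : CRef := CRef.mk (Pat.mk 0x3000000020000000300000000 0x10000000700000007000000070000000300000003000000020000000300000001 6 3) 0 0 (step_sound _ 129 [(rh27d70429fd5018e0.shift 0 1), rh932754581e0f4330] (by decide +kernel))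
noncomputable def rhe8e8ce14f3c33a78 : CRef := CRef.mk (Pat.mk 0x1800000010000000180000000000000000 0xc0000000c0000003c0000001f0000007f0000000f0000000c 6 7) 0 0 (step_sound _ 99 [(rh00549c357e8d0242.shift 0 1), (rhc88c7e49fdbcbc8d.shift 2 0), (rhf09df9fed8c8136d.shift 2 0), rhf556bc1b2b6776a3] (by decide +kernel))
noncomputable def rh6b74bf99a2fd6394 : CRef := CRef.mk (Pat.mk 0x20000000e000000040000000000000000 0x730000007e000000ec0000000400000004 6 8) 0 0 (step_sound _ 2 [(rh07e5b52acb752a96.shift 0 2), (rh9e07f76261b05888.shift 1 0)] (by decide +kernel))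
noncomputable def rh0a1a4695f5615e50 : CRef := CRef.mk (Pat.mk 0x40000001c000000080000000000000000 0x20000000e4000000ff000001f80000001800000018 6 9) 0 0 (step_sound _ 101 [(rh3144cfda4b0d6441.shift 2 0), rh9326d6a0121ef670, rhbb9424492a7b1a26, (rhd542320a7a4dc2c4.shift 1 2), (rhf42f513d41faace0.shift 2 0), (rhf459621b93742302.shift 1 0)] (by decide +kernel))
noncomputable def rh44b78625f33babd5 : CRef := CRef.mk (Pat.mk 0x20000000e00000004 0x730000007f0000003c 6 7) 0 0 (step_sound _ 36 [(rh3244c3cc8379b070.shift 0 1), rhd542320a7a4dc2c4] (by decide +kernel))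
noncomputable def rhb4fc832c23e2d8fa : CRef := CRef.mk (Pat.mk 0x40000001c000000080000000000000000 0x400000004000000060000001f0000003b0000000a0000000a 6 6) 0 0 (step_sound _ 3 [rh8f1faeaa81352f4f, (rh9e07f76261b05888.shift 2 0)] (by decide +kernel))
noncomputable def rh5d842046da4a91d6 : CRef := CRef.mk (Pat.mk 0x20000000e000000040000000000000000 0x730000003e000000740000000400000004 6 7) 0 0 (step_sound _ 2 [(rh9c94213f6896c74a.shift 0 2), (rh9e07f76261b05888.shift 1 0)] (by decide +kernel))
noncomputable def rh87ffa29505e6c3ea : CRef := CRef.mk (Pat.mk 0x40000001c00000008000000000000000000000000 0x80000000c0000001f0000007b0000001f0000001e00000018 6 7) 0 0 (step_sound _ 100 [(rh5a1ec3c0293bd207.shift 0 1), (rh6292bd8784ece55f.shift 1 3), rha6678bf0e10eb541] (by decide +kernel))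
noncomputable def rh215cd50caf41adfe : CRef := CRef.mk (Pat.mk 0x1800000010000000000000000000000000 0x180000001c000000fc000000ff000001ff0000003c0000003c 6 9) 0 0 (step_sound _ 99 [rh407fb390d8316269, (rh4ecc1d8b8edb1dd7.shift 2 0), (rh5dc5071a19a64e2e.shift 2 0), rh97428ce13c0ff849, (rha2f792dab8f61a5f.shift 1 0)] (by decide +kernel))
noncomputable def rh630fc127add3d1dd : CRef := CRef.mk (Pat.mk 0x380000000c000000000000000000000000 0xc0000001c0000001f0000003c0000001c0000001c0000001800000018 6 6) 0 0 (step_sound _ 163 [(rh3d992353243f88d9.shift 2 1), rh7125ec4d2ada6b21, (rhbb339bb7e4e96b38.shift 2 2), (rhf2dbe061a4cc22a2.shift 2 1)] (by decide +kernel))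
noncomputable def rha086aed26e40e1a8 : CRef := CRef.mk (Pat.mk 0x1c00000006000000000000000000000000 0x20000000f0000001e0000003e000000370000001600000012 6 6) 0 0 (step_sound _ 129 [rh11fbc4d707f559e2, (rh38a0850c9fea941e.shift 0 1)] (by decide +kernel))
noncomputable def rh528a7c5992115e4a : CRef := CRef.mk (Pat.mk 0x300000001c00000000000000000000000000000000 0x38000000380000003c0000007f0000001e0000001c0000000c 6 7) 0 0 (step_sound _ 100 [(rh000637b5a81e86aa.shift 3 1), (rh15590a39afd9a120.shift 3 0), rhfb4c9c0c2af98844] (by decide +kernel))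
noncomputable def rhf6306b524585695d : CRef := CRef.mk (Pat.mk 0x300000001c00000000000000000000000000000000 0x3c0000003f000000380000003c0000001f0000007c0000003c00000010 6 7) 0 0 (step_sound _ 99 [rh539cfef6d8c91201, (rh7de8ece609a88fae.shift 0 2), (rhcf80391c5046a495.shift 3 1), (rhf91b1398c815afd2.shift 3 1), (rhf9366b6a121593ef.shift 3 1)] (by decide +kernel))
noncomputable def rhc5ebc5a3ff17c7e6 : CRef := CRef.mk (Pat.mk 0x1c00000006000000000000000000000000 0x80000000c0000000c0000001e000000fe0000003f0000001e0000000e 6 8) 0 0 (step_sound _ 66 [(rh17253ca33f65d77e.shift 0 1), (rh215e11e099257d75.shift 2 1), (rh4b7a99bb7bd5b728.shift 1 0), (rh9bb5c7e5c08d4582.shift 1 0)] (by decide +kernel))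
noncomputable def rh7fd139a466bf0e05 : CRef := CRef.mk (Pat.mk 0x380000000c000000000000000000000000 0xc0000000c0000000f0000003c0000001c0000001c0000001c0000001c 6 6) 0 0 (step_sound _ 163 [(rh281c6819542c66e6.shift 2 0), (rh5a24d5ff9ee94f88.shift 1 1), rhc60d730b1bc97c58, (rhfafeb437ceb8396d.shift 2 0)] (by decide +kernel))
noncomputable def rh713301f9956244a5 : CRef := CRef.mk (Pat.mk 0x300000001800000010000000000000000000000000 0x800000038000000380000003c000000ff0000003c00000008 6 8) 0 0 (step_sound _ 68 [(rh2d5442cbf338480d.shift 3 1), (rh8aec56c4ee12918c.shift 3 0), (rhb14a52bcaa2857f1.shift 0 1)] (by decide +kernel))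
noncomputable def rh9e314cb55b1fae61 : CRef := CRef.mk (Pat.mk 0x180000000c000000080000000000000000 0x10000000100000001c000000ff0000007f0000003000000030 6 8) 0 0 (step_sound _ 100 [(rh4a47899062c7a1f4.shift 1 0), rha0fc683d393fad90, (rhb0ba2afc310897cf.shift 0 2), (rhd1f7c2d511dd814f.shift 0 2)] (by decide +kernel))
noncomputable def rhb80945e56adef599 : CRef := CRef.mk (Pat.mk 0x30000000180000000800000000000000000000000000000000 0xc000000f8000000380000003c000000ff0000003c0000001000000010 6 8) 0 0 (step_sound _ 99 [(rh71222050f2c63a3a.shift 3 2), rhbf53b55c36d50b17] (by decide +kernel))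
noncomputable def rhda8492cb45389570 : CRef := CRef.mk (Pat.mk 0x300000001800000008000000000000000000000000 0x200000003000000038000000ff000000ff0000003800000038 6 8) 0 0 (step_sound _ 100 [(rh1315de20f167c834.shift 3 0), (rh84bebdeadf3219f3.shift 3 0), (rh8f27166e94cf51dc.shift 3 0), rh923cd9a7ce40c763] (by decide +kernel))
noncomputable def rh88de18ff361c693c : CRef := CRef.mk (Pat.mk 0x300000001800000008000000000000000000000000 0x20000000280000002c000000f8000000f8000000f80000005f0000001c00000010 6 8) 0 0 (step_sound _ 100 [(rh1315de20f167c834.shift 3 0), (rh3902a69bb44b857a.shift 3 0), (rh84bebdeadf3219f3.shift 3 0), (rhb5f972ff1d1c9782.shift 2 1), rhe75ff843ecf73ac9] (by decide +kernel))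
noncomputable def rha6daf1b0d386d1bf : CRef := CRef.mk (Pat.mk 0xc0000000600000002000000000000000000000000 0xb0000003e00000006000000070000003f0000000f0000000c 6 6) 0 0 (step_sound _ 65 [rh483f5cf7008821b7, (rh71222050f2c63a3a.shift 1 1)] (by decide +kernel))
noncomputable def rh1fe7405e93578389 : CRef := CRef.mk (Pat.mk 0x300000001800000008000000000000000000000000 0x2000000038000000380000003f0000001f0000001c00000014 6 6) 0 0 (step_sound _ 67 [(rh71222050f2c63a3a.shift 3 1), rh95c511c13f6b1bcc] (by decide +kernel))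
noncomputable def rhdb3566a94e1d0bfd : CRef := CRef.mk (Pat.mk 0xc00000006000000020000000000000000 0x20000000b0000003e0000007e000000370000001400000010 6 7) 0 0 (step_sound _ 132 [(rh18965a982d73c794.shift 1 3), rh8710a482a2dbdf6a] (by decide +kernel))
noncomputable def rh735010166f0be645 : CRef := CRef.mk (Pat.mk 0xc00000006000000020000000000000000 0xb0000003e000000fe000000330000001300000013 6 8) 0 0 (step_sound _ 132 [(rh18965a982d73c794.shift 1 3), rheb9dbc9a74199c27] (by decide +kernel))
noncomputable def rhde615b6cdd46a427 : CRef := CRef.mk (Pat.mk 0x380000000c00000000000000000000000000000000 0x100000001c0000001f0000003c0000000c0000001c0000001c0000001c00000014 6 6) 0 0 (step_sound _ 99 [(rh19d971e9528af089.shift 1 1), (rh215e11e099257d75.shift 3 2), (rh541160d578a25bcf.shift 0 2), (rhfa40f754f1f7b88f.shift 2 0)] (by decide +kernel))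
noncomputable def rh8c8b10d446f7036e : CRef := CRef.mk (Pat.mk 0x180000000e00000000000000000000000000000000 0x140000001c0000001c0000001c0000000e0000003f0000003f0000001e0000000a 6 6) 0 0 (step_sound _ 99 [(rh000637b5a81e86aa.shift 2 1), rh9b5331fa8f2c780a, (rha634f858da7e466a.shift 1 2)] (by decide +kernel))
noncomputable def rh9fd6f8a8f2d3ff76 : CRef := CRef.mk (Pat.mk 0x18000000080000000800000000 0x140000001c0000001f0000007c000000180000001c00000014 6 7) 0 0 (step_sound _ 131 [(rh12461e137161f2e1.shift 2 0), (rh29dd5384d80ecb1e.shift 2 0), rhec8fab0a3970e33b] (by decide +kernel))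
noncomputable def rhf2096b53960c934b : CRef := CRef.mk (Pat.mk 0x60000000b000000000000000000000000 0x4000000040000003e0000003f0000001c0000000800000008 6 6) 0 0 (step_sound _ 132 [(rh361cc68994bd8a63.shift 0 3), rh8c04ed0eab2368f3] (by decide +kernel))
noncomputable def rhe4f6d668bdc5ad8a : CRef := CRef.mk (Pat.mk 0xc00000016000000000000000000000000 0x40000000c0000003e0000001e000000330000001200000012 6 6) 0 0 (step_sound _ 132 [(rh18965a982d73c794.shift 1 3), rh4324885c838066da] (by decide +kernel))
noncomputable def rhbcb79f3f7108faea : CRef := CRef.mk (Pat.mk 0x3000000058000000000000000000000000 0x1c0000001c0000001f000000f8000000d80000000c0000000c0000000c 6 8) 0 0 (step_sound _ 131 [rh8fbf6d3b4c127e0b, (rhbca71ab025ef4262.shift 3 3)] (by decide +kernel))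
noncomputable def rh65553d1cf6a66fa1 : CRef := CRef.mk (Pat.mk 0x200000002000000060000000600000000 0x50000000700000006000000070000003e0000000a 6 6) 0 0 (step_sound _ 128 [rh22fa1117f605cb3f, (rh50fbb5868c909700.shift 0 1)] (by decide +kernel))
noncomputable def rhd9ba0a0a73a944bd : CRef := CRef.mk (Pat.mk 0x8000000080000001800000018 0x740000007c0000001f0000007800000018 6 7) 0 0 (step_sound _ 100 [(rh2f68792b6b779e96.shift 3 0), rhd9a5bf77637438e0] (by decide +kernel))
noncomputable def rhe98701e480a119a6 : CRef := CRef.mk (Pat.mk 0x4000000040000000c0000000c000000000000000000000000 0x80000000c0000000e0000000f0000003c000000040000000400000004 6 6) 0 0 (step_sound _ 195 [(rh2f68792b6b779e96.shift 2 3), rh94330808ac96f370] (by decide +kernel))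
noncomputable def rh7f08982704ab42ed : CRef := CRef.mk (Pat.mk 0x80000000c000000080000000800000000 0x8000000080000001f000000780000001c00000014 6 7) 0 0 (step_sound _ 2 [(rh79877ebd3ef475dd.shift 2 0), rhec9768a6e44eac8b] (by decide +kernel))
noncomputable def rhf7c026bc53c4f557 : CRef := CRef.mk (Pat.mk 0x40000000c000000180000000800000000 0x800000008000000080000000c0000001c0000001c0000001f00000017 6 5) 0 0 (step_sound _ 131 [rh16fba81e69fe1587, (rh366c90e856cf6bfa.shift 2 0), (rhd4b4beefcd67f51e.shift 3 0)] (by decide +kernel))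
noncomputable def rh3d12a6a350e73883 : CRef := CRef.mk (Pat.mk 0x4000000040000000c0000000c000000000000000000000000 0x4000000060000000f0000003e000000060000000600000004 6 6) 0 0 (step_sound _ 65 [(rh79877ebd3ef475dd.shift 1 2), rh88301d7e145efcc1] (by decide +kernel))
noncomputable def rhecf6f7b1472117f4 : CRef := CRef.mk (Pat.mk 0x40000000c0000001800000000 0x2000000060000007c0000007e00000077 6 7) 0 0 (step_sound _ 37 [rh0081e02391b39f90, (rhf48373e13d2bc128.shift 2 1)] (by decide +kernel))
noncomputable def rhb21162f86e4a4fa1 : CRef := CRef.mk (Pat.mk 0x40000000c000000180000000800000000 0x2000000070000003f0000001e0000000f00000006 6 6) 0 0 (step_sound _ 97 [rh8a6e3629f0e69e41, (rhb739f4f82bb681b4.shift 0 2)] (by decide +kernel))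
noncomputable def rh91c03a342cfec909 : CRef := CRef.mk (Pat.mk 0x40000000c00000018000000000000000000000000 0xe0000007c0000007e000000770000000400000004 6 7) 0 0 (step_sound _ 101 [rh724f9645692d6bc0, (rhf48373e13d2bc128.shift 2 3)] (by decide +kernel))
noncomputable def rhd7ed8fb6d58cac02 : CRef := CRef.mk (Pat.mk 0x80000001800000030000000000000000000000000 0x140000001e0000007e0000003c0000006f0000002c00000028 6 7) 0 0 (step_sound _ 130 [(rhb739f4f82bb681b4.shift 1 3), rhf62302ba1fb4d7b6] (by decide +kernel))
noncomputable def rh8ac46ec09f0bd44b : CRef := CRef.mk (Pat.mk 0x100000001c00000030000000000000000000000000 0xc0000001f0000003c0000003c000000f80000003800000018 6 8) 0 0 (step_sound _ 68 [(rh15f571aba15ed1e1.shift 3 0), (rh2f529025d0c45e4d.shift 0 1), (rhe286c75f2739cce2.shift 3 1)] (by decide +kernel))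
noncomputable def rhf628a75790c80fa6 : CRef := CRef.mk (Pat.mk 0x1800000078000000000000000000000000 0xc0000001c0000001f0000003800000078000000d80000001800000018 6 8) 0 0 (step_sound _ 163 [(rh434024871b918915.shift 2 0), (rh55a1f6c57a317ce6.shift 3 1), rhc9c7e76947834a75] (by decide +kernel))
noncomputable def rh8919ac8473224ddd : CRef := CRef.mk (Pat.mk 0x80000001c000000300000000000000000 0x100000003c0000007e0000007f0000003c000000380000000800000008 6 7) 0 0 (step_sound _ 163 [rh1dd29c156009e468, (rh2145e1d24b96a57e.shift 3 2)] (by decide +kernel))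
noncomputable def rhf063b7e3ec77ce55 : CRef := CRef.mk (Pat.mk 0x2000000070000000c0000000000000000 0x4000000040000000c0000001e0000000f0000000e0000000600000006 6 5) 0 0 (step_sound _ 34 [rh21c896b0de70027c, (rh7b1f1fb55310c477.shift 1 0)] (by decide +kernel))
noncomputable def rh87123bce8114cef5 : CRef := CRef.mk (Pat.mk 0x100000001800000030000000000000000000000000 0x2e0000003f0000003800000038000000180000001800000018 6 6) 0 0 (step_sound _ 68 [(rh1afe2a495de0c9aa.shift 3 0), (rhbe5861666dd2f3cf.shift 0 1), (rhe286c75f2739cce2.shift 3 1)] (by decide +kernel))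
noncomputable def rh20d5890dee1c6816 : CRef := CRef.mk (Pat.mk 0x20000000200000006000000000000000000000000 0x500000007000000070000000700000006000000030000000300000003 6 3) 0 0 (step_sound _ 65 [rh2d94e8e3c3d1054b, rh6aa5625770489e83, rh6ed5e6501b92e21f, (rh762a1aeaf83c662a.shift 0 1)] (by decide +kernel))
noncomputable def rh55e416e3a9b42c1c : CRef := CRef.mk (Pat.mk 0x180000001000000038000000000000000000000000 0x1e7000000fe0000001f000000f8000000380000003800000028 6 9) 0 0 (step_sound _ 67 [(rh42548283029e2a39.shift 3 0), (rhf9af042da61fc652.shift 3 0), rhffa0700782bb17bb] (by decide +kernel))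
noncomputable def rh435d31d7641f8218 : CRef := CRef.mk (Pat.mk 0x180000001000000038 0xc0000000f0000007c0000001c000000f8 6 8) 0 0 (step_sound _ 35 [rh01ff8e29f1e0af53, (rh79b3c29022acbdf3.shift 2 0)] (by decide +kernel))
noncomputable def rh39b6773ec9e2b9f0 : CRef := CRef.mk (Pat.mk 0x200000007000000080 0x3e0000007e000000c7 6 8) 0 0 (step_sound _ 35 [(rh96851dee118c1ba3.shift 3 0), rhd36da432537ba706] (by decide +kernel))
noncomputable def rh7ddbecf1214c2b89 : CRef := CRef.mk (Pat.mk 0x40000000e000000000000000000000000 0x400000006000000060000000f0000003e0000000e0000000e 6 6) 0 0 (step_sound _ 162 [(rh70e33bfdf511e144.shift 2 0), rh920c791551959a41, (rhde10baa3043a2b46.shift 1 2), (rhfafeb437ceb8396d.shift 1 0)] (by decide +kernel))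
noncomputable def rhab591875968011f2 : CRef := CRef.mk (Pat.mk 0x700000006000000000000000000000000 0x30000000f0000001f0000000700000006000000060000000600000002 6 5) 0 0 (step_sound _ 65 [rh40241bd608e5be1a, (rh5466b9f443fff9e5.shift 0 1), (rhea7a1800d6f053bd.shift 1 0)] (by decide +kernel))
noncomputable def rh73c65de8818031a3 : CRef := CRef.mk (Pat.mk 0x80000000a0000001c00000000 0x140000001c0000001c000000080000000b0000001e00000004 6 5) 0 0 (step_sound _ 33 [(rh32431e66bbf434a4.shift 2 0), (rh3244c3cc8379b070.shift 0 1)] (by decide +kernel))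
noncomputable def rhf37899e071594fce : CRef := CRef.mk (Pat.mk 0x80000000a0000001c0000000000000000000000000000000000000000 0x140000001e0000000b0000001e0000000c0000001c0000001c0000001c00000004 6 5) 0 0 (step_sound _ 131 [(rh10b8df1e8cc681c2.shift 2 0), (rhb8117cff4821996f.shift 0 4)] (by decide +kernel))
noncomputable def rha02ac1560bdab0a3 : CRef := CRef.mk (Pat.mk 0xc0000001c000000000000000800000000 0x20000000f0000001e000000f40000007e000000ff 6 8) 0 0 (step_sound _ 34 [rh56e955ff36b1270e, (rh8556ce617a451e36.shift 2 0), rhc928c025bc3efe2d, rhd61170a4350d1d55] (by decide +kernel))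
noncomputable def rh275a4a62ae6fd56b : CRef := CRef.mk (Pat.mk 0x60000001e000000000000000000000000 0x2000000060000001f0000003e0000000f0000000e 6 6) 0 0 (step_sound _ 68 [(rhe25b0a99195a5d59.shift 1 2), rhe3800059651db9bf] (by decide +kernel))
noncomputable def rh4964a0fa6196630d : CRef := CRef.mk (Pat.mk 0x80000000c0000001800000000 0x100000001e0000003f0000003f0000001c0000001c00000004 6 6) 0 0 (step_sound _ 131 [rh01cc9d900d343008, (rh03dfdf12d5937476.shift 2 0), (rhdbc400e79194dff9.shift 2 1)] (by decide +kernel))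
noncomputable def rhccc942457ed84c86 : CRef := CRef.mk (Pat.mk 0x80000000e000000180000000000000000 0x30000000320000003f0000001e0000001f0000003400000034 6 6) 0 0 (step_sound _ 100 [rh042cb43b21baec9b, (rh6ed36f0c4c5a4982.shift 0 2), rhcc014963573d3523] (by decide +kernel))
noncomputable def rh91c1d391dbde7b8f : CRef := CRef.mk (Pat.mk 0x800000008000000180000003000000000 0x1000000030000000780000001e00000038000000ff000000e0 6 8) 0 0 (step_sound _ 38 [rh7ceebb8e10f7e049, (rhf48373e13d2bc128.shift 3 1)] (by decide +kernel))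
noncomputable def rh4d0951384953e751 : CRef := CRef.mk (Pat.mk 0x800000008000000180000003000000000 0x340000007c0000001f00000018000000fc000001e8 6 9) 0 0 (step_sound _ 132 [(rh004662289cee5088.shift 1 0), rh6bc015b9268c8423, (rhb040072b440aa6c6.shift 2 0)] (by decide +kernel))
noncomputable def rhbe5a052d87d99c97 : CRef := CRef.mk (Pat.mk 0x800000008000000180000003000000000 0x10000000140000001e0000007800000038000000ff000000e8 6 8) 0 0 (step_sound _ 38 [rhe99287fe18ffc2ee, (rhf48373e13d2bc128.shift 3 1)] (by decide +kernel))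
noncomputable def rh1bf72e5161a38774 : CRef := CRef.mk (Pat.mk 0x8000000080000001800000030000000000000000000000000 0x2000000020000000ff000000ff00000038000000f0000000200000002000000020 6 8) 0 0 (step_sound _ 164 [(rh046c5eb18e55a239.shift 4 0), (rh5b130595d59a5ecb.shift 0 3), (rhd983ea48e7c3b8c6.shift 1 2)] (by decide +kernel))
noncomputable def rhf23a312d0958259a : CRef := CRef.mk (Pat.mk 0x800000008000000180000003000000000 0x10000000340000007e0000007f00000038000000f800000008 6 8) 0 0 (step_sound _ 38 [rh71730f8e792813e0, (rhf48373e13d2bc128.shift 3 1)] (by decide +kernel))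
noncomputable def rh8330cbb6a27bbf7b : CRef := CRef.mk (Pat.mk 0x80000001800000070000000000000000000000000 0xc0000000c0000001c000000380000007f000000e80000000800000008 6 8) 0 0 (step_sound _ 195 [(rh2145e1d24b96a57e.shift 3 3), rh69d811add2a82a49] (by decide +kernel))
noncomputable def rh0efe6fca977a2ebf : CRef := CRef.mk (Pat.mk 0x800000008000000180000003000000000 0x10000000340000007c0000001f000000380000003f00000068 6 7) 0 0 (step_sound _ 132 [rh6bc015b9268c8423, rh711852ffb6b51d1d, (rh84d6e7e929a2413b.shift 1 0), (rheae168e16a07fd6e.shift 3 0)] (by decide +kernel))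
noncomputable def rhc8c908ed5c1dbb55 : CRef := CRef.mk (Pat.mk 0x80000001800000070000000000000000000000000 0x30000000f7000000ff000000380000007c000000e80000002800000020 6 8) 0 0 (step_sound _ 164 [(rh046c5eb18e55a239.shift 4 0), rh7890467e7d50a075, (rhed5e2c66cd942c4a.shift 1 2)] (by decide +kernel))
noncomputable def rh4adac69e82a992fe : CRef := CRef.mk (Pat.mk 0x800000008000000180000003000000000 0x140000003c0000000f00000038000000ff000000e8 6 8) 0 0 (step_sound _ 35 [rh43e06a69887b4db3, rh900a894640be090c] (by decide +kernel))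
noncomputable def rh8f6631c2ad2d5578 : CRef := CRef.mk (Pat.mk 0x20000000200000006000000000000000000000000 0x40000000700000007000000070000000600000007000000030000000300000002 6 3) 0 0 (step_sound _ 193 [(rh6aa5625770489e83.shift 0 1), (rh8eb288e2ea66037a.shift 0 1), (rhd0d01d2b9e5cc624.shift 0 2), rhdfd10cc9da38ede8] (by decide +kernel))
noncomputable def rh68552423cbf5f937 : CRef := CRef.mk (Pat.mk 0x30000000600000002000000000000000000000000 0x400000006000000070000000700000003000000070000000700000001 6 3) 0 0 (step_sound _ 65 [rh1f3a6ba70a310ab1, (rh55a026e6f690bbaf.shift 0 1), (rhc705a4e0321a1bff.shift 0 1)] (by decide +kernel))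
noncomputable def rh2358dc2dafec4e17 : CRef := CRef.mk (Pat.mk 0x18000000300000001000000000 0x380000003e0000003f00000038000000380000001800000008 6 6) 0 0 (step_sound _ 132 [(rh0fd870c734e6c513.shift 3 0), (rh7ef5fa5c39f1c762.shift 3 1), (rh856391802b899d6d.shift 3 0), rhbe5861666dd2f3cf] (by decide +kernel))
noncomputable def rh8a60fa6d7a2964a7 : CRef := CRef.mk (Pat.mk 0x1e000000000000000000000000 0x10000000300000001f0000003b0000000800000008 6 6) 0 0 (step_sound _ 64 [(rh80fcd6d0a18cb2dd.shift 0 2), rhf459621b93742302] (by decide +kernel))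
noncomputable def rh67ba5dfbd037b83a : CRef := CRef.mk (Pat.mk 0x80000003c000000000000000800000000 0x140000001e0000003c0000003c000000ff00000034 6 8) 0 0 (step_sound _ 67 [(rh6bc906bfbb0e6d90.shift 1 1), rh9b45786b9da7cdb6] (by decide +kernel))
noncomputable def rha50e9cf3e6c482c1 : CRef := CRef.mk (Pat.mk 0x10000000780000000000000010000000000000000000000000 0x200000003c00000078000003e8000001fc000003ff000000a000000020 6 10) 0 0 (step_sound _ 101 [(rh0b7a37bab56113c4.shift 2 2), (rh250a5b8f2d9a972e.shift 3 2), (rh896a3533c9073bb2.shift 2 2), (rh9edc949bba1b68a4.shift 2 0), (rhd29597282913d6a1.shift 0 2), (rhdc3ae74e8302c41e.shift 1 1)] (by decide +kernel))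
noncomputable def rhec6516ed19ae1316 : CRef := CRef.mk (Pat.mk 0x20000000f000000000 0x70000000fe000001c7 6 9) 0 0 (step_sound _ 7 [rha068cde052f1f730, (rhe25b0a99195a5d59.shift 4 0)] (by decide +kernel))
noncomputable def rh71dcadcf5871b005 : CRef := CRef.mk (Pat.mk 0x100000001000000030000000000000000000000000 0x2c0000007f0000003e000000fc000000f80000003800000038 6 8) 0 0 (step_sound _ 131 [rhbf5c62762e298980, (rhcf2ee7687b4b3257.shift 1 1), (rhdeca8db941583de2.shift 1 3)] (by decide +kernel))
noncomputable def rh5f3e58399e04ad7d : CRef := CRef.mk (Pat.mk 0x1e0000000000000000000000000000000000000000 0x400000006000000070000001e0000000700000006000000070000000700000001 6 5) 0 0 (step_sound _ 129 [rhe97e18cf64a7b965, (rheb0810cc63b001d8.shift 0 4)] (by decide +kernel))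
noncomputable def rh7323c4bc64d80e5d : CRef := CRef.mk (Pat.mk 0x3c00000000 0x3f0000003f00000038 6 6) 0 0 (step_sound _ 65 [(rh3f8766e6ecb455ce.shift 1 1), rh6ede8d41d351b7c8] (by decide +kernel))
noncomputable def rh5bb95e14e808b63f : CRef := CRef.mk (Pat.mk 0x20000001c000000000000000000000000 0x50000000700000007000000070000001e000000070000000600000004 6 5) 0 0 (step_sound _ 97 [(rh3244c3cc8379b070.shift 0 3), rh915d038ca948d95a] (by decide +kernel))
noncomputable def rh495ae15f3cb959f1 : CRef := CRef.mk (Pat.mk 0x800000070000000000000000000000000 0x140000001c0000003c000000780000007f000000ff0000005800000050 6 8) 0 0 (step_sound _ 99 [(rh008b05f4778dc30d.shift 1 2), (rh1971f672aa6c5663.shift 2 0), (rh889db1ec0a785870.shift 0 2), (rh915d038ca948d95a.shift 2 0)] (by decide +kernel))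
noncomputable def rhe9f5cbdb6222bb87 : CRef := CRef.mk (Pat.mk 0x400000038000000000000000000000000 0x140000001c0000001c0000007c0000001f000000380000001f0000001c00000010 6 7) 0 0 (step_sound _ 131 [rh8de75b6f4cc2c8db, rhac197ab459b66905, (rhc02b3aee7ab87ee1.shift 0 3)] (by decide +kernel))
noncomputable def rha6126cf783c5bc63 : CRef := CRef.mk (Pat.mk 0x38000000000000000000000000 0x140000001c0000001c0000001c0000001f000000f8000001df0000001c00000018 6 9) 0 0 (step_sound _ 131 [rh902e067bb5c364f1, rhb583f025587b3557, (rhea3c36b66d54eaf8.shift 2 0), (rhf60aa8aede119d3b.shift 0 3)] (by decide +kernel))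
noncomputable def rh21adf0cda5d3c975 : CRef := CRef.mk (Pat.mk 0x3000000018000000000000000000000000 0x1c0000003f0000003f0000007e0000001f0000001c00000018 6 7) 0 0 (step_sound _ 98 [(rh53b3c253cb0c65f4.shift 1 3), rhde93ffd8265833a3] (by decide +kernel))
noncomputable def rh1c6b3d68495c8d5b : CRef := CRef.mk (Pat.mk 0x3000000018000000000000000000000000 0xc0000000c0000002f0000003f000000fe000000fe0000003c00000038 6 8) 0 0 (step_sound _ 131 [(rh1db8e076f498790d.shift 0 1), (rh68fd2cfedc2d8f99.shift 0 1), (rhb3455424bbcb7edb.shift 0 1), (rhce474416065c9c7c.shift 1 0), rhfa58d2ce10decb04] (by decide +kernel))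
noncomputable def rhc5df1817f2db5471 : CRef := CRef.mk (Pat.mk 0x3000000018000000000000000000000000 0x40000000c0000002f000000ff000000f80000001c0000001800000018 6 8) 0 0 (step_sound _ 131 [(rh073589708c2d81a3.shift 2 1), (rh203ae42c175072ec.shift 2 0), (rh7007bb00f39f7dab.shift 0 3), (rhb3455424bbcb7edb.shift 0 1)] (by decide +kernel))
noncomputable def rhcf10b1a7df5c4f6b : CRef := CRef.mk (Pat.mk 0x180000000800000000000000000000000000000000 0x140000001c0000001f0000007c000000180000001c0000001c0000001c00000014 6 7) 0 0 (step_sound _ 99 [(rh421cce82bb1068e3.shift 2 0), (rhca6fb09669c74d2a.shift 0 2), (rhe3458ab40071103b.shift 3 2), (rhffb8e5993241bf15.shift 2 0)] (by decide +kernel))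
noncomputable def rh9d64666e4a7f8b76 : CRef := CRef.mk (Pat.mk 0x180000000800000000000000000000000000000000 0x140000001c0000001f0000007c0000000c0000001c0000001c0000001c00000014 6 7) 0 0 (step_sound _ 99 [(rh215e11e099257d75.shift 3 2), (rh328fa6cd3b6da3c9.shift 0 2), (rhd8745d3afce428ba.shift 2 1), (rhffb8e5993241bf15.shift 2 0)] (by decide +kernel))
noncomputable def rh3dd0248ef1cb47df : CRef := CRef.mk (Pat.mk 0xc0000000c000000000000000000000000 0x6000000060000000f0000003e0000000c0000000c0000000c0000000c 6 6) 0 0 (step_sound _ 162 [rh3d02764d38462db2, (rh55a1f6c57a317ce6.shift 2 1), (rhfe7da3c073d75bd5.shift 1 0)] (by decide +kernel))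
noncomputable def rh22eca34c2591aff0 : CRef := CRef.mk (Pat.mk 0x600000006000000000000000000000000 0x200000006000000070000003f0000003e0000000e0000000e 6 6) 0 0 (step_sound _ 66 [(rh2a80c4925a1e0b63.shift 1 0), (rh3cb04db3dd2b6a55.shift 1 0), rh9c053b650b607672] (by decide +kernel))
noncomputable def rhaa677ed56f21422a : CRef := CRef.mk (Pat.mk 0x1800000018000000000000000000000000 0x100000001c0000003f0000001f000000f80000003800000038 6 8) 0 0 (step_sound _ 68 [(rh2a80c4925a1e0b63.shift 3 0), (rh3cb04db3dd2b6a55.shift 3 0), rhcc63a815dc12a7c6] (by decide +kernel))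
noncomputable def rh4e0a961f5fc4a7de : CRef := CRef.mk (Pat.mk 0x1800000018000000000000000000000000 0x800000018000000180000007c0000001f0000001c00000008 6 7) 0 0 (step_sound _ 67 [(rhd08b66cd22af819e.shift 0 1), (rhea7a1800d6f053bd.shift 3 0)] (by decide +kernel))
noncomputable def rh5aba83cab6723ce1 : CRef := CRef.mk (Pat.mk 0x1800000018000000000000000000000000 0x80000003e000000ff000000ef0000000400000004 6 8) 0 0 (step_sound _ 101 [(rh6e18dbbfa959deb2.shift 1 2), (rh79b3c29022acbdf3.shift 2 3), rhd41970a06ca27345] (by decide +kernel))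
noncomputable def rha8c6c69bcf10af35 : CRef := CRef.mk (Pat.mk 0x1800000018000000080000000000000000 0x180000001800000018000000380000003f0000003400000030 6 6) 0 0 (step_sound _ 164 [(rh5c5e593799055d58.shift 3 2), rh72abe79608ca9800] (by decide +kernel))
noncomputable def rh03ed918fe7a61665 : CRef := CRef.mk (Pat.mk 0x600000003800000000000000000000000000000000 0x3000000070000000780000007e000003f8000003bf0000003c0000001c00000004 6 10) 0 0 (step_sound _ 163 [(rh1c3256059b8d6c56.shift 2 3), (rh24e72371d7873615.shift 2 1), (rh4a6d47b9fea97fd6.shift 2 3), rh698eccc29557f9a1, (rh9e7d9acdd5b37d84.shift 1 1), (rhebe9f0dc13d89c6c.shift 2 1)] (by decide +kernel))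
noncomputable def rh68cbc93d59df6ab1 : CRef := CRef.mk (Pat.mk 0x40000000c000000040000000400000000 0xa0000000f0000003c000000040000000e0000000a 6 6) 0 0 (step_sound _ 1 [rh13b98f6ed5850563, (rh79877ebd3ef475dd.shift 1 0)] (by decide +kernel))
noncomputable def rhafa7c0706da6c25c : CRef := CRef.mk (Pat.mk 0x180000000c000000080000000000000000 0x10000000100000001c000000ff0000007f0000003000000030 6 8) 0 0 (step_sound _ 100 [(rh02cf927f918c0555.shift 0 2), (rh3b50022fa73ccc4f.shift 0 2), (rh4a47899062c7a1f4.shift 1 0), rh77365712ac0a8d9a, (rhb0ba2afc310897cf.shift 0 2)] (by decide +kernel))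
noncomputable def rh4292f73dadef116e : CRef := CRef.mk (Pat.mk 0xc00000006000000000000000000000000 0xa0000000b0000007f000000fe0000007f0000001400000010 6 8) 0 0 (step_sound _ 100 [(rh2374b06822b801a5.shift 1 0), (rh2489a6362d409e73.shift 1 3), rhd1fa5970f26d48e5, rhdd100a0d4a7c835c, (rhe0ab5d4a23fcd7b4.shift 0 1)] (by decide +kernel))
noncomputable def rh84650f15dbcf1cc5 : CRef := CRef.mk (Pat.mk 0x7000000020000000000000000000000000 0x1000000018000001f8000001fc0000001f0000001800000018 6 9) 0 0 (step_sound _ 100 [(rh4dc133ee0ba1420a.shift 2 3), rh8ae97cddd2ca775a, (rhca0c0aea2e75101e.shift 3 0)] (by decide +kernel))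
noncomputable def rh355a83c027905a31 : CRef := CRef.mk (Pat.mk 0x3800000010000000000000000000000000 0x18000000180000001c000000fc0000003e0000000f0000000c0000000c 6 8) 0 0 (step_sound _ 99 [rh32e0c5013174dfc2, (rh4dc133ee0ba1420a.shift 1 3), (rh6248dea7a7c6dd4a.shift 2 0)] (by decide +kernel))
noncomputable def rh0abc96aeb014a4c7 : CRef := CRef.mk (Pat.mk 0xe00000004000000000000000000000000 0xf0000003f0000003e000000780000001800000018 6 7) 0 0 (step_sound _ 100 [(rh7344b4efa7925350.shift 0 3), rh90eec48bfda76b17, (rhd24baa175e33abe5.shift 0 3)] (by decide +kernel))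
noncomputable def rh7129e9426e6ed4d5 : CRef := CRef.mk (Pat.mk 0x1c00000008000000000000000000000000 0x1800000018000000180000001f0000007f000000770000003400000034 6 7) 0 0 (step_sound _ 100 [rh4f5df7961f37c748, (rh6292bd8784ece55f.shift 1 3), rh63ff0b732060a320] (by decide +kernel))
noncomputable def rh5456737396d79f7b : CRef := CRef.mk (Pat.mk 0x1c00000008000000000000000000000000 0xe0000000e0000000e0000007c000000ef000000060000000600000006 6 8) 0 0 (step_sound _ 162 [(rh1aae126fdb0efa1d.shift 1 3), rh208e23c45702650b, rh5aafaf6a9d2a1865, (rh9f93e2b24091a43d.shift 1 3)] (by decide +kernel))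
noncomputable def rh07eff5fb7ec6961b : CRef := CRef.mk (Pat.mk 0x38000000100000000000000000 0x80000003c000001ff000003f70000000400000004 6 10) 0 0 (step_sound _ 98 [(rh68bfdbce3d7dd946.shift 2 2), rh9dcca023d611b440, (rha03f6e28ea70fc7d.shift 1 2)] (by decide +kernel))
noncomputable def rh25f2558d0fc5881a : CRef := CRef.mk (Pat.mk 0xc0000000400000000000000000000000000000000 0xa0000000e0000000f0000003e000000060000000e0000000e0000000e0000000a 6 6) 0 0 (step_sound _ 98 [(rh57f103642405ccc5.shift 1 0), (rhe1a3e820b9828b5e.shift 1 1), (rhf83955c414eaa960.shift 0 2), (rhf849c8472bff4b9d.shift 1 0)] (by decide +kernel))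
noncomputable def rh63b59a168fcd8c7b : CRef := CRef.mk (Pat.mk 0xc0000000400000000000000000000000000000000 0xa0000000e0000000f0000003e0000000c0000000e0000000e0000000e0000000a 6 6) 0 0 (step_sound _ 98 [(rh15590a39afd9a120.shift 1 0), (rh6f16ebb354039343.shift 0 2), (rhb44fbf6bd2c6418e.shift 1 0), (rhe1a3e820b9828b5e.shift 1 1), (rhe3458ab40071103b.shift 2 2)] (by decide +kernel))
noncomputable def rh3fa0fb16d0f4e759 : CRef := CRef.mk (Pat.mk 0x1800000018000000000000000000000000 0x80000000800000018000000180000003c0000001f0000001c00000008 6 6) 0 0 (step_sound _ 67 [(rhd5011049917b2e0c.shift 0 1), (rhea7a1800d6f053bd.shift 3 0)] (by decide +kernel))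
noncomputable def rh161ae0d8105da037 : CRef := CRef.mk (Pat.mk 0x3000000018000000000000000000000000 0x180000001c0000001f000000fc000000f80000000c0000000c0000000c 6 8) 0 0 (step_sound _ 131 [(rh612ffa21bbc0034e.shift 2 0), (rh96bf3d823ed5c23f.shift 2 0), (rhbba720cee4fbc066.shift 1 3), rhe331358d43438ba0] (by decide +kernel))
noncomputable def rhc2949011565f2c32 : CRef := CRef.mk (Pat.mk 0x78000000000000000000000000 0x1000000010000000380000007f000000fc0000000800000008 6 8) 0 0 (step_sound _ 67 [rh3a9effb0bebe0c1f, (rheb0810cc63b001d8.shift 2 2)] (by decide +kernel))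
noncomputable def rh2be13861698d572b : CRef := CRef.mk (Pat.mk 0x78000000000000000000000000 0x1000000010000000370000007f000000fc0000000800000008 6 8) 0 0 (step_sound _ 67 [rh72b6303bcf81f0c6, (rheb0810cc63b001d8.shift 2 2)] (by decide +kernel))
noncomputable def rh84ec307f8720b5a4 : CRef := CRef.mk (Pat.mk 0x1800000018000000000000000000000000 0x1e000000fe000000ff000000e00000002000000020 6 8) 0 0 (step_sound _ 101 [(rh3e2dc10e82d2dee4.shift 1 0), (rh43e06a69887b4db3.shift 0 2), (rh79b3c29022acbdf3.shift 2 3)] (by decide +kernel))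
noncomputable def rhe20e23466711c2c8 : CRef := CRef.mk (Pat.mk 0x3000000018000000000000000000000000 0xc0000003e0000003f0000007f0000001f0000001c0000001c 6 7) 0 0 (step_sound _ 131 [rh300bf3b2dd3c090d, (rh4e14295dab5d366e.shift 1 1), rh964519c5dc280d9c, (rhb64a4bf0e535ef33.shift 1 0), rhd7560456dfee123f] (by decide +kernel))
noncomputable def rhb29daa5f98c19890 : CRef := CRef.mk (Pat.mk 0x3000000018000000000000000000000000 0x80000000c0000002e0000003f000000ff0000007f0000003c0000003c 6 8) 0 0 (step_sound _ 131 [(rh30cfd4ba10e177cc.shift 0 1), (rh4e14295dab5d366e.shift 1 1), (rh701abdafdf6c4ea1.shift 1 0), rh964519c5dc280d9c, rhd7560456dfee123f] (by decide +kernel))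
noncomputable def rhbfa5db4983018179 : CRef := CRef.mk (Pat.mk 0x3000000018000000000000000000000000 0xc0000002e000000fe000000f80000001f0000001c00000018 6 8) 0 0 (step_sound _ 131 [(rh073589708c2d81a3.shift 2 1), (rh85165e1f7cfcdb6e.shift 2 0), rh964519c5dc280d9c, (rh9b001b0ce9055b74.shift 1 3), (rhf9f644e045030dfc.shift 1 0)] (by decide +kernel))
noncomputable def rhe3fb5ede51e6eadf : CRef := CRef.mk (Pat.mk 0x180000000800000000000000000000000000000000 0x140000001c0000001f0000007c0000000c0000001c0000001c0000001c00000014 6 7) 0 0 (step_sound _ 99 [(rh18ebf5a282d6c58a.shift 0 2), (rh57f103642405ccc5.shift 2 0), (rhe1a3e820b9828b5e.shift 2 1), (rhf849c8472bff4b9d.shift 2 0)] (by decide +kernel))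
noncomputable def rh68d755cb979008c1 : CRef := CRef.mk (Pat.mk 0x1800000018000000000000000000000000 0x1f000000ff0000007f000000600000002000000020 6 8) 0 0 (step_sound _ 130 [(rh0c7d7653291d5603.shift 1 0), (rh6292bd8784ece55f.shift 1 3), (rh92e1a33d56d48131.shift 0 3)] (by decide +kernel))
noncomputable def rh4dabededc3de93b6 : CRef := CRef.mk (Pat.mk 0x3000000018000000000000000000000000 0x40000000c0000003f0000003e0000007f0000001f0000001c0000001c 6 7) 0 0 (step_sound _ 131 [rh45facd64c8f4de6f, (rh4e14295dab5d366e.shift 1 1), rhb12ae5713cff16fa, (rhe6871491b709029a.shift 1 1), rhf457869500d12533] (by decide +kernel))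
noncomputable def rh3ff5bebc3cad8499 : CRef := CRef.mk (Pat.mk 0x3000000018000000000000000000000000 0xc0000000c0000002f0000003e000000fe0000007e0000003c0000003c 6 8) 0 0 (step_sound _ 131 [(rh4514908f5376ea01.shift 1 0), (rh4e14295dab5d366e.shift 1 1), (rh701abdafdf6c4ea1.shift 1 0), rhe2184b93d69f854e, (rhe6871491b709029a.shift 1 1)] (by decide +kernel))
noncomputable def rhc7107c619831c4d6 : CRef := CRef.mk (Pat.mk 0x180000000c000000000000000000000000 0x200000006000000170000007f0000007c0000000e0000000c0000000c 6 7) 0 0 (step_sound _ 130 [(rh073589708c2d81a3.shift 1 1), (rh85165e1f7cfcdb6e.shift 1 0), (rhe6871491b709029a.shift 0 1), rhf9f644e045030dfc] (by decide +kernel))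
noncomputable def rhc298d563b39d6ad8 : CRef := CRef.mk (Pat.mk 0x18000000080000000800000000 0x140000001c0000001f0000007c000000180000001c00000014 6 7) 0 0 (step_sound _ 131 [(rh12461e137161f2e1.shift 2 0), (rh29dd5384d80ecb1e.shift 2 0), (rh7ef5fa5c39f1c762.shift 2 1), rhec8fab0a3970e33b] (by decide +kernel))
noncomputable def rha18a76672c88f266 : CRef := CRef.mk (Pat.mk 0x3000000018000000000000000000000000 0x1c0000001c0000001f000000fe000000f80000000c0000000c00000008 6 8) 0 0 (step_sound _ 131 [rh3776da2957ae8382, (rh612ffa21bbc0034e.shift 2 0), (rh9b001b0ce9055b74.shift 1 3), (rha780469830670f00.shift 2 0), (rhe6871491b709029a.shift 1 1)] (by decide +kernel))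
noncomputable def rh72f67ba7de7c7fcb : CRef := CRef.mk (Pat.mk 0x18000000180000000000000000 0x400000007000000ff000000ff0000000800000008 6 8) 0 0 (step_sound _ 98 [(rh176a8a978958a219.shift 1 0), (rh3c8398522afd3202.shift 0 2), (rh6292bd8784ece55f.shift 1 2)] (by decide +kernel))
noncomputable def rh7a51cca7a7894034 : CRef := CRef.mk (Pat.mk 0x180000001800000000 0x400000004000000070000007f0000007f00000078 6 7) 0 0 (step_sound _ 66 [(rh3c8398522afd3202.shift 0 1), rh4f098d8d112aa8cd, (rh6292bd8784ece55f.shift 1 1)] (by decide +kernel))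
noncomputable def rh65f4403d7449fc09 : CRef := CRef.mk (Pat.mk 0x18000000180000000000000000 0x1c0000001c0000001f00000038000000380000003800000038 6 6) 0 0 (step_sound _ 131 [(rh1db0411717f0a858.shift 2 0), (rh55a1f6c57a317ce6.shift 3 0), rha2e0029a5e9e6b86] (by decide +kernel))
noncomputable def rh04fca38a5ad20273 : CRef := CRef.mk (Pat.mk 0x1800000018000000000000000000000000 0x10000000100000003c000000ff000000700000002000000020 6 8) 0 0 (step_sound _ 101 [(rh79b3c29022acbdf3.shift 2 3), rhe9c12133771c9768] (by decide +kernel))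
noncomputable def rh327c45ae5c09717b : CRef := CRef.mk (Pat.mk 0x1800000018000000000000000000000000 0x100000001c0000001f000000380000003e000000f80000003800000030 6 8) 0 0 (step_sound _ 68 [(rh3cb04db3dd2b6a55.shift 3 0), (rh473e5fca88a1d609.shift 1 0), (rhd8020ecb68828e05.shift 0 1)] (by decide +kernel))
noncomputable def rhaf39070680da3035 : CRef := CRef.mk (Pat.mk 0xc0000000c000000000000000000000000 0x60000000e0000000e0000000e0000000f0000003c0000001c00000004 6 6) 0 0 (step_sound _ 162 [(rh1db0411717f0a858.shift 1 1), rh42c54fbc09ced201, (rh55a1f6c57a317ce6.shift 2 1)] (by decide +kernel))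
noncomputable def rh5f48358c4347ab3c : CRef := CRef.mk (Pat.mk 0x1800000018000000000000000000000000 0x1f000000ff0000007f000000600000002000000020 6 8) 0 0 (step_sound _ 130 [(rh3c8398522afd3202.shift 0 3), (rh6292bd8784ece55f.shift 1 3), (rh731e23388c2eb1ac.shift 1 0)] (by decide +kernel))
noncomputable def rh148934b3ce9fe4f6 : CRef := CRef.mk (Pat.mk 0x3000000018000000000000000000000000 0x1c0000003f0000003f0000007e0000001f0000001c0000001c 6 7) 0 0 (step_sound _ 98 [(rh53b3c253cb0c65f4.shift 1 3), rh8b3e0e318482ed3c] (by decide +kernel))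
noncomputable def rhb6efd5bb53d4054c : CRef := CRef.mk (Pat.mk 0xc0000000c000000000000000000000000 0x40000000c0000000c0000000c0000003e0000000f0000000e0000000e 6 6) 0 0 (step_sound _ 66 [(rh1e5ba10be2f2ab50.shift 1 0), (rh5e553c342d7fdc75.shift 0 1), (rhea7a1800d6f053bd.shift 2 0)] (by decide +kernel))
noncomputable def rh3c33051bf234010b : CRef := CRef.mk (Pat.mk 0x1800000018000000000000000000000000 0x8000000ff000000ff000000e60000000400000004 6 8) 0 0 (step_sound _ 101 [(rh79b3c29022acbdf3.shift 2 3), rhaf866ccac9174c83, (rhfcc3a69daeb4e231.shift 2 2)] (by decide +kernel))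
noncomputable def rh1df4b12236d07f6c : CRef := CRef.mk (Pat.mk 0xc0000000c000000000000000000000000 0xc0000000c0000000c0000000f0000003e0000001e0000001e 6 6) 0 0 (step_sound _ 67 [rh2b245c6c30dd7cf2, (rh3cb04db3dd2b6a55.shift 2 0), (rhd02c1db70cba9b35.shift 2 0)] (by decide +kernel))
noncomputable def rh5bda94aa9cf45088 : CRef := CRef.mk (Pat.mk 0x1800000018000000000000000000000000 0x180000001800000018000000380000003f0000003c0000003c 6 6) 0 0 (step_sound _ 67 [(rh1e5ba10be2f2ab50.shift 2 0), rh9514272666a701f8, (rhea7a1800d6f053bd.shift 3 0)] (by decide +kernel))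
noncomputable def rh33de6457261b61ea : CRef := CRef.mk (Pat.mk 0xc000000060000000000000000 0x6000000070000003f0000003e0000000700000006 6 6) 0 0 (step_sound _ 100 [(rh18965a982d73c794.shift 1 2), rh757f16a4a9534f8c] (by decide +kernel))
noncomputable def rh1d8f3e5f61cfcff3 : CRef := CRef.mk (Pat.mk 0xc000000040000000400000000 0xa0000000e0000000e0000000c0000003f0000003f0000001a 6 6) 0 0 (step_sound _ 130 [rh0cf9fdb907eefa30, (rh8065c10b3cae6218.shift 1 0), (rhd9d598133124fa86.shift 1 0)] (by decide +kernel))
noncomputable def rh159bd96dc44514b4 : CRef := CRef.mk (Pat.mk 0x3000000018000000000000000000000000 0xc0000000c0000002f0000003f000000fe0000007e0000003c0000003c 6 8) 0 0 (step_sound _ 131 [rh40618557f619987a, rh669857addaba8dfa, (rh701abdafdf6c4ea1.shift 1 0), (rh8cc98a2c8cba244f.shift 0 1), (rhb3455424bbcb7edb.shift 0 1)] (by decide +kernel))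
noncomputable def rhf6deef613192d15a : CRef := CRef.mk (Pat.mk 0x3000000018000000000000000000000000 0x80000002f000000ff000000f80000001c0000001800000018 6 8) 0 0 (step_sound _ 134 [(rh18965a982d73c794.shift 3 3), rh6a6332618d199aa1] (by decide +kernel))
noncomputable def rh27a7e94f1e9b30eb : CRef := CRef.mk (Pat.mk 0x3000000018000000000000000000000000 0x100000003e000000ff000000f80000000c0000000c00000008 6 8) 0 0 (step_sound _ 134 [(rh18965a982d73c794.shift 3 3), rh1cef82b377aa36d8] (by decide +kernel))
noncomputable def rh487620146142a7e0 : CRef := CRef.mk (Pat.mk 0x180000000800000000000000000000000000000000 0x100000001c0000001f0000007c0000000c0000001c0000001c0000001c00000014 6 7) 0 0 (step_sound _ 99 [(rh19e48db1e9b4e625.shift 2 0), (rh7ec425f1aa6c37b7.shift 0 2), (rh969411e49f8d086b.shift 2 0), (rhe1a3e820b9828b5e.shift 2 1)] (by decide +kernel))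
noncomputable def rh3e98a838095be717 : CRef := CRef.mk (Pat.mk 0xc0000000400000000000000000000000000000000 0xa0000000e0000000f0000003c0000000c0000000e0000000e0000000e0000000a 6 6) 0 0 (step_sound _ 98 [(rh274a837cd7eaa569.shift 1 0), (rh37f0308d6fa1587c.shift 1 0), (rhd8ac32ea620b0a8c.shift 0 2), (rhe1a3e820b9828b5e.shift 1 1), (rhe3458ab40071103b.shift 2 2)] (by decide +kernel))
noncomputable def rh4362b56e56a91cd2 : CRef := CRef.mk (Pat.mk 0x1800000008000000000000000000000000 0x4000000040000001c0000001e0000007f0000003f0000003f0000001c00000014 6 7) 0 0 (step_sound _ 98 [rh62968ce38530e0ed, (rh69012675dfdb1a5b.shift 0 3), (rhabf4de66b07a25fd.shift 1 0)] (by decide +kernel))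
noncomputable def rhf41718a5bc186473 : CRef := CRef.mk (Pat.mk 0x1800000010000000180000001c00000000 0x40000001e0000007f0000007f0000001c00000004 6 7) 0 0 (step_sound _ 69 [(rh18965a982d73c794.shift 2 1), rha5616b101264ae7a] (by decide +kernel))
noncomputable def rh163723f31b368eb4 : CRef := CRef.mk (Pat.mk 0x80000000c0000000800000008 0x1800000018000000180000000f0000003c00000018 6 6) 0 0 (step_sound _ 132 [rh47c6813448583588, (rhbaefcd01e0a8bca3.shift 3 0)] (by decide +kernel))
noncomputable def rhc58a046df72f738a : CRef := CRef.mk (Pat.mk 0x10000000100000003c0000000000000000 0x100000001f000000ff0000000c00000008 6 8) 0 0 (step_sound _ 97 [rh3514aa529f8c2ec5, (rh3f8766e6ecb455ce.shift 1 2)] (by decide +kernel))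
noncomputable def rhae043b7040a09eba : CRef := CRef.mk (Pat.mk 0x200000007000000040 0x3e0000007e000000c7 6 8) 0 0 (step_sound _ 35 [rh5b2ce1e5aa4a4edd, (rhe25b0a99195a5d59.shift 3 0)] (by decide +kernel))
noncomputable def rhcbfbb798071e7295 : CRef := CRef.mk (Pat.mk 0x40000000f0000000000000000000000000 0x200000002000000067000000fe0000003f0000001000000010 6 8) 0 0 (step_sound _ 99 [(rh5e601430b8bc2e39.shift 0 2), (rha258efbfbc49950e.shift 2 0), (rheae1728ff4a56756.shift 2 2)] (by decide +kernel))
noncomputable def rh36b8148486524bc5 : CRef := CRef.mk (Pat.mk 0x100000001000000038000000000000002000000000 0x100000001c000000f80000000f0000007c00000008 6 8) 0 0 (step_sound _ 67 [(rha83d0a1d851c6a27.shift 2 2), rhc00d011886fceffb, (rhf9af042da61fc652.shift 3 0)] (by decide +kernel))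
noncomputable def rh9c13babeb0f1676a : CRef := CRef.mk (Pat.mk 0x8000000080000001e0000000000000000 0x40000000c0000000f0000003e0000000700000006 6 6) 0 0 (step_sound _ 97 [(rh3244c3cc8379b070.shift 0 2), rhed65875b8a2572b0] (by decide +kernel))
noncomputable def rh509bac46752ffb07 : CRef := CRef.mk (Pat.mk 0x3000000060000000400000004000000000 0x10000000d00000007c0000007f000000cc000000c800000080 6 8) 0 0 (step_sound _ 131 [rh1df8ddb821eb7284, (rhb739f4f82bb681b4.shift 2 3)] (by decide +kernel))
noncomputable def rh2826b46168bfe88b : CRef := CRef.mk (Pat.mk 0x1800000070000000200000002000000000 0x380000007f000000ee0000003c00000018 6 8) 0 0 (step_sound _ 99 [(rh66c56798d3509890.shift 2 0), (rha03f6e28ea70fc7d.shift 2 2), (rhcef93a29c93c96c9.shift 0 2)] (by decide +kernel))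
noncomputable def rh00313a6bfe0ea273 : CRef := CRef.mk (Pat.mk 0xc0000001800000008000000000000000000000000 0x8000000080000000f000000380000001f0000003c0000001400000004 6 6) 0 0 (step_sound _ 161 [rh2fcbaa6025509b7f, (rhb739f4f82bb681b4.shift 0 4)] (by decide +kernel))
noncomputable def rhf6cf8f98127ece98 : CRef := CRef.mk (Pat.mk 0x60000000c000000040000000000000000 0x40000000e0000000e000000070000003e0000000e 6 6) 0 0 (step_sound _ 34 [rh13b591e6d05322b1, (rhc705a4e0321a1bff.shift 1 0)] (by decide +kernel))
noncomputable def rhd7a3c4bfc334e80a : CRef := CRef.mk (Pat.mk 0x200000002000000020000000000000000 0x400000006000000060000000600000007000000070000000700000005 6 3) 0 0 (step_sound _ 162 [(rh87d5e4118780fa3b.shift 1 1), rh8c4e2d920eded84d, (rhb04390dfb291fab5.shift 0 1)] (by decide +kernel))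
noncomputable def rh9b7fa1ba99ec9393 : CRef := CRef.mk (Pat.mk 0x80000001c00000010 0xec0000007e00000037 6 8) 0 0 (step_sound _ 33 [rh75380d6b53574693, (rhe25b0a99195a5d59.shift 1 0)] (by decide +kernel))
noncomputable def rhf26d9cfe8d2d5061 : CRef := CRef.mk (Pat.mk 0x80000001c000000100000000000000000 0x20000000b0000003e000000370000000400000004 6 6) 0 0 (step_sound _ 97 [rh2395824d1086e2bc, (rhe25b0a99195a5d59.shift 1 2)] (by decide +kernel))
noncomputable def rh1b383b45e452640e : CRef := CRef.mk (Pat.mk 0x1400000038000000000000002000000000 0x8000000080000001c0000007c0000000f0000007c00000008 6 7) 0 0 (step_sound _ 66 [(rh3b98845ede295126.shift 1 1), rhe01c65f8563dc012, (rhe9d682012dbceb06.shift 2 2)] (by decide +kernel))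
noncomputable def rh4780c93f5ffd95b3 : CRef := CRef.mk (Pat.mk 0x1c0000001000000000 0x400000004000000070000003e0000003300000002 6 6) 0 0 (step_sound _ 65 [rh3cc3e986d9471888, (rhe25b0a99195a5d59.shift 1 1)] (by decide +kernel))
noncomputable def rhcc84410612eedd70 : CRef := CRef.mk (Pat.mk 0x800000007000000020 0xc70000007e0000003e 6 8) 0 0 (step_sound _ 35 [(rh428265de8cd3cd2d.shift 3 1), rh8aa80d8d90d3223c] (by decide +kernel))
noncomputable def rh5c6d51e6e0982e58 : CRef := CRef.mk (Pat.mk 0xa0000000f000000040 0x8000000080000000bf000000fe00000060 6 8) 0 0 (step_sound _ 103 [(rh5c5e593799055d58.shift 6 0), rh959bb0a81cbef3bf] (by decide +kernel))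
noncomputable def rh8860d8e4c00ee140 : CRef := CRef.mk (Pat.mk 0x1c0000000a 0xe0000000ff0000003e 6 8) 0 0 (step_sound _ 37 [rh429d551bffc08aea, (rh80fcd6d0a18cb2dd.shift 1 0)] (by decide +kernel))
noncomputable def rh1f339fde2d017c6a : CRef := CRef.mk (Pat.mk 0x4000000020000000200000002000000000000000000000000 0x5000000070000000300000002000000030000000700000005 6 3) 0 0 (step_sound _ 65 [rh49092ef4f76fd8bb, (rhbaefcd01e0a8bca3.shift 1 2)] (by decide +kernel))
noncomputable def rhc8ee4b58516747c7 : CRef := CRef.mk (Pat.mk 0x200000002000000020000000100000000 0x100000007000000070000000600000006000000060000000700000001 6 3) 0 0 (step_sound _ 33 [(rh2ebd6aa65799de38.shift 0 1), rh932754581e0f4330] (by decide +kernel))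
noncomputable def rhdd6db2d0aeb2696f : CRef := CRef.mk (Pat.mk 0x380000001000000000 0x400000004000000070000007e0000007f00000008 6 7) 0 0 (step_sound _ 66 [(rh775ca1963e850b80.shift 0 1), (rh9977a3a78b1c0a5f.shift 1 0), (rha03f6e28ea70fc7d.shift 1 1)] (by decide +kernel))
noncomputable def rh9f2663ce05a4b93a : CRef := CRef.mk (Pat.mk 0x7800000000 0x7000000ff0000003f 6 8) 0 0 (step_sound _ 34 [rh775ca1963e850b80, rh7bf405d4f6ac0e1d, (rheae1728ff4a56756.shift 1 0)] (by decide +kernel))
noncomputable def rh6cb9a43f141af915 : CRef := CRef.mk (Pat.mk 0x8000000010000000f0000000000000004 0x6000000070000001f000000030000001f0000000600000006 6 5) 0 0 (step_sound _ 97 [rh49935034cd43312a, (rhf48373e13d2bc128.shift 0 2)] (by decide +kernel))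
noncomputable def rhbdfa9cd4bcc2f153 : CRef := CRef.mk (Pat.mk 0x8000000000000001e0000000200000004 0x1000000070000001f000000030000001e0000000600000004 6 5) 0 0 (step_sound _ 97 [(rh3244c3cc8379b070.shift 0 2), rhed8710c5cd89632d] (by decide +kernel))
noncomputable def rh00228cdf68230caf : CRef := CRef.mk (Pat.mk 0x8000000080000001e0000000000000004 0x50000000f0000001b0000001e0000000700000004 6 5) 0 0 (step_sound _ 33 [rhbc75685e876b5777, (rheb0810cc63b001d8.shift 0 1)] (by decide +kernel))
noncomputable def rhd7f00e502ed2e1a3 : CRef := CRef.mk (Pat.mk 0x10000000120000001c0000000000000000 0x2000000330000001e0000003f0000000400000004 6 6) 0 0 (step_sound _ 98 [rh7f0afbb8d76e17ed, (rhf48373e13d2bc128.shift 1 2)] (by decide +kernel))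
noncomputable def rh929b6cc2a4460e7f : CRef := CRef.mk (Pat.mk 0x10000000120000001c0000000000000000 0x2000000330000001f0000001f0000000400000004 6 6) 0 0 (step_sound _ 65 [rh09c41b734c54fcb2, (rh3244c3cc8379b070.shift 0 2)] (by decide +kernel))
noncomputable def rh1cfa3fad029706fd : CRef := CRef.mk (Pat.mk 0x8000000080000000e000000000000000400000000 0xc0000003f0000001e000000330000001600000006 6 6) 0 0 (step_sound _ 100 [rh43ca58b80ff240ff, (rh625dde73e665edc8.shift 1 1)] (by decide +kernel))
noncomputable def rh219b9f23527e426f : CRef := CRef.mk (Pat.mk 0x200000002000000020000000200000000 0x700000007000000070000000300000003000000030000000200000002 6 3) 0 0 (step_sound _ 161 [(rh1741680720c097b4.shift 0 2), rh2778abb7d7c839bf, (rh3ca48e2a6d60153d.shift 0 1)] (by decide +kernel))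
noncomputable def rh28e51909adf227b5 : CRef := CRef.mk (Pat.mk 0xc00000018000000100000000800000000 0x300000001f00000018000000300000003800000038 6 6) 0 0 (step_sound _ 36 [(rh7b1f1fb55310c477.shift 3 0), rhbe63ae3d994d326a] (by decide +kernel))
noncomputable def rh9c3a85a56f406021 : CRef := CRef.mk (Pat.mk 0x80000001800000030000000200000003000000000 0x80000001e0000003c000001ef0000007c00000018 6 9) 0 0 (step_sound _ 130 [(rhb739f4f82bb681b4.shift 1 3), rhe0be4f1d805db3f3] (by decide +kernel))
noncomputable def rh4e0564d712376f8d : CRef := CRef.mk (Pat.mk 0x40000000c00000018000000100000001800000000 0x40000001f0000001e000000170000007e000001ef 6 9) 0 0 (step_sound _ 37 [rh3d164a09ad92dabc, rh7c65bd21b1c4f214, (rhd5979d9ced4acd89.shift 2 0), (rhde10baa3043a2b46.shift 3 0)] (by decide +kernel))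
noncomputable def rheaade619702de905 : CRef := CRef.mk (Pat.mk 0x800000018000000300000002000000000 0x40000000f0000003e0000003c0000006e0000000c 6 7) 0 0 (step_sound _ 98 [rh68324ac1ac34f73a, (rhb739f4f82bb681b4.shift 1 2)] (by decide +kernel))
noncomputable def rh30d92b190772321f : CRef := CRef.mk (Pat.mk 0x200000006000000040000000200000000 0x400000006000000060000003c0000000f0000000e 6 6) 0 0 (step_sound _ 34 [rh23aad281f166fc15, (rh7b1f1fb55310c477.shift 1 0)] (by decide +kernel))
noncomputable def rh127a911b3c3d7adf : CRef := CRef.mk (Pat.mk 0x40000001e000000000000000400000000 0x40000001f0000003b0000000f0000000a 6 6) 0 0 (step_sound _ 65 [rh19fb8db6f2ccd76b, (rheb0810cc63b001d8.shift 0 2)] (by decide +kernel))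
noncomputable def rhce9448e86a541921 : CRef := CRef.mk (Pat.mk 0x40000001e000000000000000400000000 0x80000000c0000001f000000380000001c0000001c 6 6) 0 0 (step_sound _ 68 [rh3252dec0753a2506, (rhe25b0a99195a5d59.shift 1 2)] (by decide +kernel))
noncomputable def rh150ad6966af19726 : CRef := CRef.mk (Pat.mk 0x8000000080000001c0000000000000000 0x60000000f0000003f0000003c0000000c0000000c 6 6) 0 0 (step_sound _ 98 [rhc688f76a666de381, (rhe2b63c00a3d7bb73.shift 0 2)] (by decide +kernel))
noncomputable def rh7d1b346ed10efc2d : CRef := CRef.mk (Pat.mk 0x200000002000000060000000c000000000000000000000000 0x10000000300000007000000060000003f0000003b0000000200000002 6 6) 0 0 (step_sound _ 100 [rh9a704b530ec2e6cf, (rhf48373e13d2bc128.shift 1 3)] (by decide +kernel))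
noncomputable def rh067a64cbf1611a87 : CRef := CRef.mk (Pat.mk 0x8000000080000001800000000 0x140000003c0000000f000000080000001800000018 6 6) 0 0 (step_sound _ 131 [(rh55afc6a59410cf00.shift 3 0), rh59c6c9d9132801ae] (by decide +kernel))
noncomputable def rh107f22086a442057 : CRef := CRef.mk (Pat.mk 0x1800000018000000700000000000000000 0xc0000000f0000007c00000018000000780000000c00000008 6 7) 0 0 (step_sound _ 163 [(rh2145e1d24b96a57e.shift 3 2), rh3135b2e4c9ad5c0e] (by decide +kernel))
noncomputable def rh61a6fff888953c5a : CRef := CRef.mk (Pat.mk 0x1c00000008000000080000000800000000 0x30000003f0000003f0000000c0000000c00000004 6 6) 0 0 (step_sound _ 34 [(rh932754581e0f4330.shift 2 0), (rhc3ccabafbe0ee2b4.shift 0 1)] (by decide +kernel))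
noncomputable def rhd93f125276afe426 : CRef := CRef.mk (Pat.mk 0x3000000020000000200000001 0x100000007000000070000000600000003000000030000000300000001 6 3) 0 0 (step_sound _ 129 [(rh24e7089cea57625c.shift 0 1), rh79877ebd3ef475dd] (by decide +kernel))
noncomputable def rhbf5b792126ec9b29 : CRef := CRef.mk (Pat.mk 0x400000004000000040000000400000000 0xc0000000c000000040000003c0000000f0000000a 6 6) 0 0 (step_sound _ 131 [(rh2f68792b6b779e96.shift 2 1), rh3ca4c10fdf355329] (by decide +kernel))
noncomputable def rh9c0d688c65ab658d : CRef := CRef.mk (Pat.mk 0x8000000080000000800000010 0x140000003c0000000f000000080000001800000018 6 6) 0 0 (step_sound _ 131 [rh59c6c9d9132801ae, (rhd3458b32566d63f7.shift 3 0)] (by decide +kernel))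
noncomputable def rh3697ed1912c647f5 : CRef := CRef.mk (Pat.mk 0x18000000080000000800000008000000000000000000000000 0x8000000080000001c0000000f0000000c0000000c0000000c0000000c00000004 6 5) 0 0 (step_sound _ 67 [(rh0105b2139521f473.shift 2 1), rh27bfd89fd234c9c4, (rh7928877f9bf74a91.shift 2 1)] (by decide +kernel))
noncomputable def rh1f92940eb4853ba9 : CRef := CRef.mk (Pat.mk 0x500000007000000020 0xdc0000007f0000003e 6 8) 0 0 (step_sound _ 35 [(rh33e738c4ed385b9f.shift 3 1), rh5ada0a7e0c8eff0d] (by decide +kernel))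
noncomputable def rh4d3c09427c04a9e0 : CRef := CRef.mk (Pat.mk 0x200000002000000030000000600000000000000000000000000000000 0x200000003000000070000000700000003000000070000000600000004 6 3) 0 0 (step_sound _ 96 [rh68509164aae00666, (rh79877ebd3ef475dd.shift 0 3)] (by decide +kernel))
noncomputable def rh1a2fe99c65fad43e : CRef := CRef.mk (Pat.mk 0xc00000004000000040000001c00000000 0xc0000003c0000001f0000001e00000032 6 6) 0 0 (step_sound _ 33 [rh0e478042bf4bbbb1, (rh932754581e0f4330.shift 1 0)] (by decide +kernel))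
noncomputable def rh2b76287abc02f433 : CRef := CRef.mk (Pat.mk 0xc00000004000000040000001c00000000 0x100000003c0000000f0000000c0000007e000000f2 6 8) 0 0 (step_sound _ 37 [(rh00ad60fca4aa5649.shift 1 0), (rh2aac33c566332a8c.shift 2 0), rhbc111491aa877c51] (by decide +kernel))
noncomputable def rh2ac10eb3f407f7e5 : CRef := CRef.mk (Pat.mk 0x1800000018000000080000001800000000 0x20000000780000003f0000003f0000007800000020 6 7) 0 0 (step_sound _ 98 [(rha5ffc31a3c3dcbac.shift 1 0), (rhab2ad169e49f9c5e.shift 0 3), (rhddaa98093597d473.shift 0 1)] (by decide +kernel))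
noncomputable def rh939ef62ed65270cd : CRef := CRef.mk (Pat.mk 0x80000001800000008000000080000000000000000 0x40000000f00000018000000080000001c0000001c00000014 6 5) 0 0 (step_sound _ 162 [(rh50fbb5868c909700.shift 2 2), rh70a569f7bd376361] (by decide +kernel))
noncomputable def rh12536be2e55bd8a1 : CRef := CRef.mk (Pat.mk 0x80000000800000018000000080000000000000000 0xc0000001f000000380000000c0000000c0000000c 6 6) 0 0 (step_sound _ 34 [rh557d41e925db6ac0, (rh79877ebd3ef475dd.shift 2 1)] (by decide +kernel))
noncomputable def rh7ba44df6cfae6205 : CRef := CRef.mk (Pat.mk 0x200000002000000030000000200000000 0x50000000700000007000000030000000300000003000000030000000200000002 6 3) 0 0 (step_sound _ 161 [(rh3ca48e2a6d60153d.shift 0 1), rh85bf098f54feb6c6, (rhb77bfac3e9efecea.shift 0 2)] (by decide +kernel))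
noncomputable def rhc4486b2fdd12a140 : CRef := CRef.mk (Pat.mk 0x600000003000000060000000200000000000000000000000000000000 0x1e00000003000000060000000600000007000000070000000700000004 6 5) 0 0 (step_sound _ 227 [(rh18965a982d73c794.shift 0 6), rh27af35d8bd6c882b] (by decide +kernel))
noncomputable def rhb11a332281ceecc6 : CRef := CRef.mk (Pat.mk 0x100000001000000020000000200000000000000000000000000000000 0x100000003000000030000000200000002000000070000000700000005 6 3) 0 0 (step_sound _ 97 [rhc05d451ce3dd5e48, (rhcfdf45280693d3da.shift 0 3)] (by decide +kernel))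
noncomputable def rhdd12ae6e62f783d8 : CRef := CRef.mk (Pat.mk 0xc0000000c000000180000001800000000 0x700000007c0000001c000000180000001f00000004 6 7) 0 0 (step_sound _ 34 [(rh932754581e0f4330.shift 2 0), (rha71d30baa8ae8d0b.shift 0 1)] (by decide +kernel))
noncomputable def rhb27b2b05e51d41c1 : CRef := CRef.mk (Pat.mk 0xc0000001800000018000000100000000000000000 0x1c000000f8000000ff000000f00000002000000020 6 8) 0 0 (step_sound _ 101 [(rh48dcc808214cd2bf.shift 0 2), (rh7b90c2a6748da57b.shift 2 3), (rhd5b70192ad58fad4.shift 2 0), (rhdc800af7f65a6589.shift 1 0)] (by decide +kernel))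
noncomputable def rh0577bda66dd863e2 : CRef := CRef.mk (Pat.mk 0x80000001e000000080000000000000000 0x380000001e0000003f0000003000000030 6 6) 0 0 (step_sound _ 68 [rh2ab6e16b718ee7b1, (rhe25b0a99195a5d59.shift 1 2)] (by decide +kernel))
noncomputable def rh0402920aec8ede30 : CRef := CRef.mk (Pat.mk 0x80000001e000000080000000000000000 0x380000003e0000003f0000003000000010 6 6) 0 0 (step_sound _ 132 [(rh33e738c4ed385b9f.shift 1 3), rh7419e4ee892f05aa] (by decide +kernel))
noncomputable def rh30fdd73590ee6755 : CRef := CRef.mk (Pat.mk 0x800000008000000180000001800000000 0x340000003f00000038000000180000001800000008 6 6) 0 0 (step_sound _ 132 [(rh2f68792b6b779e96.shift 3 1), rha9fde356a67a3a66] (by decide +kernel))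
noncomputable def rhcc133f3fe7a7345b : CRef := CRef.mk (Pat.mk 0x800000008000000300000001800000000 0x1000000010000000340000007c0000003f000000380000003800000028 6 7) 0 0 (step_sound _ 132 [rh4a16ff1229c9cc4b, (rhbb5a9587afe30530.shift 3 0), (rhce76851cc7f9532a.shift 3 1), (rhee6e41f347a62869.shift 1 0)] (by decide +kernel))
noncomputable def rh53ff9d2968507ccf : CRef := CRef.mk (Pat.mk 0x1c00000008000000180000001800000000 0x3c0000000f0000001c0000001f00000007 6 6) 0 0 (step_sound _ 34 [rh3841bb077e0d0707, (rh932754581e0f4330.shift 2 0)] (by decide +kernel))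
noncomputable def rhbd7c6d60261b8791 : CRef := CRef.mk (Pat.mk 0x18000000080000001800000018 0x640000007c0000003f0000007c00000018 6 7) 0 0 (step_sound _ 98 [(rh50fbb5868c909700.shift 2 0), rh8f8c74c7c3042f85] (by decide +kernel))
noncomputable def rh6f37bfcf8fd87e10 : CRef := CRef.mk (Pat.mk 0x1800000008000000180000001800000000 0x18000000180000001c000000ff00000067 6 8) 0 0 (step_sound _ 34 [rh0223c30570197e73, (rh932754581e0f4330.shift 2 0)] (by decide +kernel))
noncomputable def rhda574724516aabbf : CRef := CRef.mk (Pat.mk 0x400000004000000380000000c00000000 0x800000018000000180000003c0000001f000000380000000c00000004 6 6) 0 0 (step_sound _ 99 [(rhc02b3aee7ab87ee1.shift 0 2), rhde0ae81b70105bed, (rhe2659a108a30dabb.shift 2 0)] (by decide +kernel))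
noncomputable def rh4931d9012da59dca : CRef := CRef.mk (Pat.mk 0x400000004000000180000000e0000000000000000 0xc0000000f0000001a000000fe000000f700000010 6 8) 0 0 (step_sound _ 68 [(rh9800e035b90bac61.shift 0 1), (rha1eb337eeb07c2e7.shift 0 1), (rhea719cc8bd0bdd28.shift 1 0)] (by decide +kernel))
noncomputable def rhb639235551cb6656 : CRef := CRef.mk (Pat.mk 0x800000008000000100000001800000000 0x30000000780000001e000000380000001f0000000c 6 7) 0 0 (step_sound _ 67 [rh6fae963f33cfdfd7, (rhd65b950e17d04dd6.shift 1 0)] (by decide +kernel))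
noncomputable def rh838ed39657197c5b : CRef := CRef.mk (Pat.mk 0x1c0000000c0000000800000000 0x1800000018000000180000001c0000001f0000007800000010 6 7) 0 0 (step_sound _ 65 [(rh53b3c253cb0c65f4.shift 0 2), (rhf15bbd01e2e97654.shift 1 0)] (by decide +kernel))
end Crest.Agent.S0047.Helper85.Cert
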