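import Crest.Agent.Lib.S0047.Helper85CertPL5F0
import Crest.Agent.Lib.S0047.Helper85CertPL5F1
import Crest.Agent.Lib.S0047.Helper85CertPL5F2
import Crest.Agent.Lib.S0047.Helper85CertPL5F3
import Crest.Agent.Lib.S0047.Helper85CertPL5F4
import Crest.Agent.Lib.S0047.Helper85CertPL5F5
import Crest.Agent.Lib.S0047.Helper85CertPL5F6
import Crest.Agent.Lib.S0047.Helper85CertPL5F7
import Crest.Agent.Lib.S0047.Helper85CertPL5F8
import Crest.Agent.Lib.S0047.Helper85CertPL5F9
import Crest.Agent.Lib.S0047.Helper85CertPL5F10
import Crest.Agent.Lib.S0047.Helper85CertPL5F11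
import Crest.Agent.Lib.S0047.Helper85CertPL5F12
set_option autoImplicit false
set_option linter.all false
set_option Elab.async false
namespace Crest.Agent.S0047.Helper85.Cert
open Crest.Agent.S0047.Helper85

noncomputable def rh6583ea35797b09f6 : CRef := CRef.mk (Pat.mk 0x1c00000008000000180000000800000000 0x3f0000003f000000780000000c00000004 6 7) 0 0 (step_sound _ 34 [(rh0f255ecf2b1f20fb.shift 0 1), (rh932754581e0f4330.shift 2 0)] (by decide +kernel))
noncomputable def rh28e528d33d85c200 : CRef := CRef.mk (Pat.mk 0x200000002000000060000000200000000 0x100000007000000070000000600000006000000060000000300000001 6 3) 0 0 (step_sound _ 162 [rh94222be17ee6fd2a, (rhbaefcd01e0a8bca3.shift 1 1)] (by decide +kernel))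
noncomputable def rh03678942691ac4a3 : CRef := CRef.mk (Pat.mk 0x20000000200000002000000060000000200000000 0x40000000600000006000000030000000300000007000000060000000300000001 6 3) 0 0 (step_sound _ 193 [rh846bef0b163d540e, (rhd3458b32566d63f7.shift 1 2)] (by decide +kernel))
noncomputable def rhcb543c285f827254 : CRef := CRef.mk (Pat.mk 0x2000000020000000600000003 0x4000000070000000700000003000000060000001e00000003 6 5) 0 0 (step_sound _ 35 [rh18965a982d73c794, rh5a26a7d31d0f2e10] (by decide +kernel))
noncomputable def rhdea740eade73ce59 : CRef := CRef.mk (Pat.mk 0x80000001c000000000000000000000000 0x10000001f8000000ff000000e00000002000000020 6 9) 0 0 (step_sound _ 101 [(rh5744ed557bb5a452.shift 0 3), (rh5dffc5561274dae0.shift 1 0), (rha93a5dd541ab8209.shift 2 2), (rhe755d80139a0ae3f.shift 0 2), (rhf5fa5e48e0784de2.shift 2 2)] (by decide +kernel))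
noncomputable def rh6a0a5403e1b71a99 : CRef := CRef.mk (Pat.mk 0x800000000000000180000001800000010 0xc0000000c000000060000007f0000003f00000030 6 7) 0 0 (step_sound _ 34 [(rh9645a34a5442dfa8.shift 0 1), rhf56e6bc5d2f7fe77] (by decide +kernel))
noncomputable def rh72722897361e8587 : CRef := CRef.mk (Pat.mk 0x80000001c00000018 0x30000000300000003f0000001f00000018 6 6) 0 0 (step_sound _ 33 [rhb739f4f82bb681b4, rhd283a685d2618d5b] (by decide +kernel))
noncomputable def rhed466165ef71abfa : CRef := CRef.mk (Pat.mk 0x6000000060000000c00000004 0x10000000380000003f0000003e0000000c00000004 6 6) 0 0 (step_sound _ 99 [(rh0b3eebefddfe07c0.shift 0 1), (rh2f68792b6b779e96.shift 2 0)] (by decide +kernel))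
noncomputable def rhdf596cee2362b2b5 : CRef := CRef.mk (Pat.mk 0x180000001e00000000 0x200000002000000330000001f0000003e00000004 6 6) 0 0 (step_sound _ 65 [(rh3244c3cc8379b070.shift 0 1), rhbc3992687ed59c59] (by decide +kernel))
noncomputable def rha62386c5d732289c : CRef := CRef.mk (Pat.mk 0x70000000180000002000000000 0x4000000040000000e70000007f000000780000002000000020 6 8) 0 0 (step_sound _ 134 [(rh580df77fe152422b.shift 5 0), (rh6b5aec4ab634b713.shift 0 2), (rhabeb4e10597d23c9.shift 2 0)] (by decide +kernel))
noncomputable def rhc06d04a68e8a18ca : CRef := CRef.mk (Pat.mk 0x100000000f00000001 0x200000002000000370000003f00000071 6 7) 0 0 (step_sound _ 36 [(rh33e738c4ed385b9f.shift 1 1), rhb9a7687581ae7927] (by decide +kernel))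
noncomputable def rhb754bf49ebf4a7f7 : CRef := CRef.mk (Pat.mk 0x40000003c00000004 0xe0000000e0000000f0000003c0000007c00000004 6 7) 0 0 (step_sound _ 67 [rhcd220dc001675187, (rhf48373e13d2bc128.shift 2 1)] (by decide +kernel))
noncomputable def rhd95fd2dfef9a64f0 : CRef := CRef.mk (Pat.mk 0x100000001e00000004 0xa0000000f0000001f0000001f00000004 6 5) 0 0 (step_sound _ 67 [(rh53b3c253cb0c65f4.shift 0 1), rhea8f44afe772c0cb] (by decide +kernel))
noncomputable def rh38aa14c34fdb45f5 : CRef := CRef.mk (Pat.mk 0x4000000000000000c0000000c00000008 0xc0000001c000000380000003f0000000f00000008 6 6) 0 0 (step_sound _ 99 [(rh16567ae718d9fd54.shift 2 1), rh99a355928abc12af] (by decide +kernel))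
noncomputable def rh9dd91bba88ed65ca : CRef := CRef.mk (Pat.mk 0x400000004000000040000000800000000 0xa0000000f0000003c000000040000000c0000000c 6 6) 0 0 (step_sound _ 34 [rh305945700f20b255, (rh55afc6a59410cf00.shift 2 0)] (by decide +kernel))
noncomputable def rh06db9e6274c81a1c : CRef := CRef.mk (Pat.mk 0x2000000020000000200000004 0x1000000070000000700000002000000030000000700000005 6 3) 0 0 (step_sound _ 129 [rh7d406dfb399e7c7d, (rhd3458b32566d63f7.shift 1 0)] (by decide +kernel))
noncomputable def rh7781e69ec0bb2835 : CRef := CRef.mk (Pat.mk 0x80000000e000000180000001000000000 0x30000000300000007f0000001e0000001f0000003000000020 6 7) 0 0 (step_sound _ 132 [(rh572132728df34c43.shift 1 3), (rh80f90a60d87caa0d.shift 1 3), rhdc1378f5122f5552] (by decide +kernel))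
noncomputable def rhefb0c53adfcd0745 : CRef := CRef.mk (Pat.mk 0x100000001c000000380000002000000000 0xc0000000e0000001f0000001c0000003c0000006c0000000c 6 7) 0 0 (step_sound _ 66 [rhcd4980329843336b, (rhe25b0a99195a5d59.shift 2 1)] (by decide +kernel))
noncomputable def rh4f0228f209418134 : CRef := CRef.mk (Pat.mk 0x80000000e00000018 0x30000000300000003f0000001e00000038 6 6) 0 0 (step_sound _ 36 [rhd283a685d2618d5b, (rhe25b0a99195a5d59.shift 1 0)] (by decide +kernel))
noncomputable def rh5505e5994a2ec190 : CRef := CRef.mk (Pat.mk 0x7000000018000000300000002000000000 0x8000000ef0000007f000000180000007c000001ec0000000c 6 9) 0 0 (step_sound _ 131 [(rh6b5f6cdf4ea71b7d.shift 2 2), (rh84046fddae920dfa.shift 2 0), (rha58ddf8813c4b875.shift 0 3)] (by decide +kernel))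
noncomputable def rhaf2aa129085eb875 : CRef := CRef.mk (Pat.mk 0x1000000018000000380000000000000000 0x40000001f00000038000000780000000c0000000c 6 7) 0 0 (step_sound _ 35 [rh6e4c14e66f816e72, (rh71222050f2c63a3a.shift 3 0)] (by decide +kernel))
noncomputable def rh73867790a8138b22 : CRef := CRef.mk (Pat.mk 0x40000001c00000006000000000000000000000000 0x40000000c0000001c0000001f000000330000001000000010 6 6) 0 0 (step_sound _ 99 [(rh53b3c253cb0c65f4.shift 0 3), rhe584c2ad359a38e7] (by decide +kernel))
noncomputable def rh54403cbdbec52a50 : CRef := CRef.mk (Pat.mk 0x80000001c000000300000001000000000 0x120000001f0000001c000000360000003e0000006c 6 7) 0 0 (step_sound _ 35 [(rh7e514c3600ad2199.shift 1 0), rhb9c383b3f0d7f2d9, (rhbb339bb7e4e96b38.shift 3 0)] (by decide +kernel))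
noncomputable def rhc161b2ea2f8bdeae : CRef := CRef.mk (Pat.mk 0x40000001e000000180000000800000000 0x30000000300000003000000070000001e0000001f0000000f00000004 6 5) 0 0 (step_sound _ 65 [rhaae05c7816f1d0df, (rheb0810cc63b001d8.shift 0 2)] (by decide +kernel))
noncomputable def rh7dfc9649b3b92918 : CRef := CRef.mk (Pat.mk 0xe0000000c000000100000001000000000 0x4000000060000000e0000000f0000001e0000007e0000000c 6 7) 0 0 (step_sound _ 67 [(rh3cb04db3dd2b6a55.shift 2 0), rh58dae71c22989038, (rhd9c72d55426e05d2.shift 1 0)] (by decide +kernel))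
noncomputable def rh9ea0b251011fd90d : CRef := CRef.mk (Pat.mk 0xc0000001c000000100000001000000000 0x400000004000000040000000c0000003e0000001e0000001f0000000f 6 6) 0 0 (step_sound _ 35 [(rh7fc2ca31ab1dedc5.shift 1 0), rh8acac059f21cef1b, rhb863bf800b996e95, (rhdd1b84382d19bcbb.shift 2 0)] (by decide +kernel))
noncomputable def rh1335ec572e721337 : CRef := CRef.mk (Pat.mk 0xe0000001800000030 0x400000004000000070000003e0000001f00000032 6 6) 0 0 (step_sound _ 33 [rh480231ab31e80384, (rhab22b5b56e7b3243.shift 1 0)] (by decide +kernel))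
noncomputable def rh88544cdc1fe14640 : CRef := CRef.mk (Pat.mk 0xe00000018 0xe7000000fe00000038 6 8) 0 0 (step_sound _ 36 [rh36095876875a1ad2, (rhe25b0a99195a5d59.shift 1 0)] (by decide +kernel))
noncomputable def rh7b45664c122fa76f : CRef := CRef.mk (Pat.mk 0x200000002000000060000000c000000000000000000000000 0x10000000300000007000000060000003f0000003b0000000200000002 6 6) 0 0 (step_sound _ 100 [rh0336244a75da9784, (rhf48373e13d2bc128.shift 1 3)] (by decide +kernel))
noncomputable def rhb5e70b72cb636d03 : CRef := CRef.mk (Pat.mk 0x80000000e0000000c0000000000000000 0x6000000060000007f0000007e0000000c0000000400000004 6 7) 0 0 (step_sound _ 34 [(rh71222050f2c63a3a.shift 2 0), (rhfff68f449842295c.shift 0 1)] (by decide +kernel))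
noncomputable def rhad165bdc5f7078e8 : CRef := CRef.mk (Pat.mk 0x40000000c000000080000000800000000 0x1800000018000000180000003c0000001f000000780000001800000010 6 7) 0 0 (step_sound _ 131 [rh043a69081cbdad05, (rh1adc8391535f5fb2.shift 2 0), (rhc0ddb33d3a52722b.shift 0 1)] (by decide +kernel))
noncomputable def rh7c1de25a17f5bcdb : CRef := CRef.mk (Pat.mk 0x180000001c00000010 0x280000006f0000007f0000007c00000010 6 7) 0 0 (step_sound _ 69 [(rh18965a982d73c794.shift 2 1), rh6be8a961d193fbf5] (by decide +kernel))
noncomputable def rh57c20aa49d8140a1 : CRef := CRef.mk (Pat.mk 0x1000000018000000380000000000000000 0xc0000000c0000001f0000001f0000003c0000000c0000000c 6 6) 0 0 (step_sound _ 97 [rh183301d585dd8dd1, (rhab22b5b56e7b3243.shift 1 2)] (by decide +kernel))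
noncomputable def rhce271304d1aee53d : CRef := CRef.mk (Pat.mk 0x8000000080000000c0000001400000000 0x60000000f0000003c0000000f0000003c00000008 6 6) 0 0 (step_sound _ 35 [rha10abbb88ab9db0f, (rhe2b63c00a3d7bb73.shift 0 1)] (by decide +kernel))
noncomputable def rh63b03cd554fe0b7b : CRef := CRef.mk (Pat.mk 0x800000018000000100000001800000000 0x40000000f0000007e000000f80000001e00000004 6 8) 0 0 (step_sound _ 34 [(rh1feba9f2cf2f1c4f.shift 1 0), (rh4dc445733550c3b6.shift 1 1), rh565efde0ae11a447] (by decide +kernel))
noncomputable def rh55fc0fbb3b52d19f : CRef := CRef.mk (Pat.mk 0x18000000100000001800000018 0x40000001e000000f7000000ff0000001f 6 8) 0 0 (step_sound _ 37 [rh18f71110fd66cd29, rh2f329559737b6cd2, (rh4dc133ee0ba1420a.shift 1 0)] (by decide +kernel))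
noncomputable def rha423bcca7e3161f5 : CRef := CRef.mk (Pat.mk 0x4000000040000000e000000000000000000000000 0x4000000770000003e000000730000000200000002 6 7) 0 0 (step_sound _ 65 [(rh352b7f91eba0c81f.shift 0 2), (rha83d0a1d851c6a27.shift 0 2), (rhf9af042da61fc652.shift 1 0)] (by decide +kernel))
noncomputable def rh3fcfaa46a26ee616 : CRef := CRef.mk (Pat.mk 0x20000000e00000004 0x730000007e000000ec 6 8) 0 0 (step_sound _ 36 [(rh3244c3cc8379b070.shift 0 1), (rhdbe30b89b8872db3.shift 1 0)] (by decide +kernel))
noncomputable def rhe7e904f05c6d97c3 : CRef := CRef.mk (Pat.mk 0x40000001e000000080000000800000000 0x70000001e0000003b0000000f00000006 6 6) 0 0 (step_sound _ 65 [rh726dbdd182d3e691, (rheb0810cc63b001d8.shift 0 2)] (by decide +kernel))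
noncomputable def rhc185cb209e6b4ecc : CRef := CRef.mk (Pat.mk 0x800000008000000080000003c00000000 0x1000000018000000180000003f0000003e00000060 6 7) 0 0 (step_sound _ 65 [rh1fd70e1507a39f6f, (rh3f8766e6ecb455ce.shift 1 1)] (by decide +kernel))
noncomputable def rh2ec1d6bc043935c8 : CRef := CRef.mk (Pat.mk 0x40000001e000000000000000000000000 0x8000001dc000000ff000001f00000001000000010 6 9) 0 0 (step_sound _ 101 [(rh0786c19de25163c7.shift 2 2), (rh4ad5fc38f1b69f65.shift 1 2), rh5edc55d6ea431a8e] (by decide +kernel))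
noncomputable def rh19feab3eeec83288 : CRef := CRef.mk (Pat.mk 0x2000000030000000e00000004000000000000000000000000 0x1d0000001f0000000f0000000f00000006000000020000000200000002 6 5) 0 0 (step_sound _ 97 [(rh21abf31ca5f202dd.shift 0 2), rh60c17605e880d32b, (rhc3f9d744f24a7949.shift 0 3), (rhe286c75f2739cce2.shift 0 2)] (by decide +kernel))
noncomputable def rhdd6d59ee49c09128 : CRef := CRef.mk (Pat.mk 0x1800000008000000180000001c00000000 0x40000001c0000000f0000001e0000001f00000003 6 5) 0 0 (step_sound _ 130 [(rh50fbb5868c909700.shift 2 1), rhb09a607b3b7cc594] (by decide +kernel))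
noncomputable def rh83108174dbb9c1c7 : CRef := CRef.mk (Pat.mk 0x800000008000000180000001800000000 0x140000001f00000038000000180000003800000028 6 6) 0 0 (step_sound _ 132 [(rh2f68792b6b779e96.shift 3 1), rh9f583f911946c071] (by decide +kernel))
noncomputable def rh149e885626cf9ed8 : CRef := CRef.mk (Pat.mk 0x80000000e00000018000000000000000000000000 0x40000000c0000001e0000001e0000001f0000001e00000018 6 5) 0 0 (step_sound _ 67 [(rh582ee92784d83252.shift 2 0), (rh67da111513bd6e2f.shift 0 1), (rhe286c75f2739cce2.shift 2 1)] (by decide +kernel))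
noncomputable def rh4d4687aa70fe7817 : CRef := CRef.mk (Pat.mk 0x8000000080000001e000000000000000000000000 0xe0000000f0000001e000000070000000600000006 6 5) 0 0 (step_sound _ 129 [(rh3244c3cc8379b070.shift 0 3), rha4ba23efef0405d5] (by decide +kernel))
noncomputable def rhc4fd139bd9818e26 : CRef := CRef.mk (Pat.mk 0x8000000080000001c000000100000001000000000 0x80000000e0000007c000000370000003e00000004 6 7) 0 0 (step_sound _ 66 [(rh0a0d555fa8352b31.shift 1 1), rh5c898a0d7a5526d5, (rha83d0a1d851c6a27.shift 1 2), (rhf9af042da61fc652.shift 2 0)] (by decide +kernel))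
noncomputable def rh60b71ec96b3e285b : CRef := CRef.mk (Pat.mk 0x80000000800000018000000000000001000000000 0x140000003c0000000f0000007c0000000f0000001c00000014 6 7) 0 0 (step_sound _ 130 [rh32fb630cb4fb066a, (rh3c3e23a02e82b2ed.shift 0 3), rh629c124f5a821e23] (by decide +kernel))
noncomputable def rh4a8bbfee69f3dc46 : CRef := CRef.mk (Pat.mk 0x80000000a0000001c0000000000000000 0x6000000060000000f0000003e0000003e0000000600000006 6 6) 0 0 (step_sound _ 98 [rhceb8d7b6a40cb4b4, (rhf48373e13d2bc128.shift 1 2)] (by decide +kernel))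
noncomputable def rhcfd880e1b6719363 : CRef := CRef.mk (Pat.mk 0x80000003c00000000 0x38000000fe000000e7 6 8) 0 0 (step_sound _ 6 [(rh96851dee118c1ba3.shift 2 0), rhe0534fb32423ae3f] (by decide +kernel))
noncomputable def rhe370c50f7fe8f953 : CRef := CRef.mk (Pat.mk 0x20000000f000000000000000000000000 0x400000004000000e60000007f000000fc0000000800000008 6 8) 0 0 (step_sound _ 100 [(rh0786c19de25163c7.shift 1 2), rh2a861863c2709f06, (rh4ad5fc38f1b69f65.shift 0 2)] (by decide +kernel))
noncomputable def rh7cde6e675584814f : CRef := CRef.mk (Pat.mk 0x80000000a0000001e000000100000000000000000 0xe0000000e0000001e000000170000001600000016 6 5) 0 0 (step_sound _ 65 [(rh2c7427946ab194c2.shift 1 0), (rheb0810cc63b001d8.shift 0 2)] (by decide +kernel))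
noncomputable def rh02c5b3b2a630e2c6 : CRef := CRef.mk (Pat.mk 0x80000000a0000001e0000000000000000 0x60000000f0000003e0000001e0000000700000006 6 6) 0 0 (step_sound _ 33 [(rheb0810cc63b001d8.shift 0 1), rhecdaf4bb7e11f24c] (by decide +kernel))
noncomputable def rh4aafb5e06ab3efec : CRef := CRef.mk (Pat.mk 0x80000001c000000100000000000000000 0x20000000b0000003e000000370000000400000004 6 6) 0 0 (step_sound _ 97 [rh5f27e0477c371a96, (rhe25b0a99195a5d59.shift 1 2)] (by decide +kernel))
noncomputable def rha48f6fc7a487b639 : CRef := CRef.mk (Pat.mk 0x8000000080000001800000010000000000000000000000000 0x30000000780000001e000000380000001f0000000c0000000c0000000c 6 7) 0 0 (step_sound _ 99 [(rh6fae963f33cfdfd7.shift 0 2), (rh946fbe1ddfc14810.shift 2 0), (rhd65b950e17d04dd6.shift 1 2)] (by decide +kernel))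
noncomputable def rh799bcd04cdf8ef40 : CRef := CRef.mk (Pat.mk 0x1c0000001000000000 0x400000004000000070000003e0000003300000002 6 6) 0 0 (step_sound _ 65 [rh43dc67402634d54f, (rhe25b0a99195a5d59.shift 1 1)] (by decide +kernel))
noncomputable def rhc44ca10770bd6fad : CRef := CRef.mk (Pat.mk 0x800000018000000100000001000000000 0x340000007f0000003e000000180000001800000008 6 7) 0 0 (step_sound _ 132 [rh6331e1faa6ebb026, (rhc0ddb33d3a52722b.shift 1 1)] (by decide +kernel))
noncomputable def rha67ab1cd140e0aa1 : CRef := CRef.mk (Pat.mk 0x1800000070000000100000000000000000 0x380000007f000000ff0000000c0000000c 6 8) 0 0 (step_sound _ 99 [(rh2ccea04b951e92fb.shift 0 2), (rh5b460b71d8952ca9.shift 0 2), (rh8cd7ffe18900bf90.shift 2 0), (rha941385f4fce5d16.shift 2 0), (rhcef93a29c93c96c9.shift 0 2), (rhe74f96057964b96f.shift 0 2)] (by decide +kernel))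
noncomputable def rh038bd9d8503ca684 : CRef := CRef.mk (Pat.mk 0x2000000020000000600000006000000000000000000000000 0x2000000060000003e0000003f000000390000000800000008 6 6) 0 0 (step_sound _ 96 [(rh932754581e0f4330.shift 0 2), rhe80c850bd7e79dfb] (by decide +kernel))
noncomputable def rhaf6764a20489369e : CRef := CRef.mk (Pat.mk 0x80000000e0000001c0000001000000000 0x6000000070000007f0000007e0000001c000000fc00000028 6 8) 0 0 (step_sound _ 132 [(rh572132728df34c43.shift 1 3), (rh92be62a46292e5c5.shift 0 1), rh96fc3f590db2e358] (by decide +kernel))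
noncomputable def rh3e09046ae4424481 : CRef := CRef.mk (Pat.mk 0x80000000c0000001c0000001800000000 0x60000000f0000003c0000001c0000007f00000002 6 7) 0 0 (step_sound _ 130 [(rh50fbb5868c909700.shift 2 1), rh804daaa44c2bbd47] (by decide +kernel))
noncomputable def rh63e9f6f700e4b92e : CRef := CRef.mk (Pat.mk 0x300000007000000060000000000000000 0x8000000080000001c0000001f0000000f000000060000000200000002 6 5) 0 0 (step_sound _ 33 [(rh6e3a304ff77dcbb5.shift 0 1), rh7b1f1fb55310c477] (by decide +kernel))
noncomputable def rh5b6e3d643b3ec5d2 : CRef := CRef.mk (Pat.mk 0xc0000000c000000080000000800000000 0x80000000c0000000c0000000f0000003e00000016 6 6) 0 0 (step_sound _ 34 [(rh932754581e0f4330.shift 2 0), rhc2352609220477ac] (by decide +kernel))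
noncomputable def rh47139f9187ed97db : CRef := CRef.mk (Pat.mk 0x8000000000000001800000018 0xc0000000c000000e7000000ff0000001f 6 8) 0 0 (step_sound _ 37 [rh1696c55e2becd961, (rh4dc133ee0ba1420a.shift 1 0), rhd35ecca85946c7b5] (by decide +kernel))
noncomputable def rh6e6676c2aa695de5 : CRef := CRef.mk (Pat.mk 0x6000000060000000c0000000800000000 0x180000003f0000003e0000000c0000000c00000004 6 6) 0 0 (step_sound _ 34 [(rh7b1f1fb55310c477.shift 1 0), (rhdc3d04ee1ef79574.shift 0 1)] (by decide +kernel))
noncomputable def rhad62903e498a795b : CRef := CRef.mk (Pat.mk 0xc0000000c0000001800000010 0x26000000270000007f0000007c0000003c00000014 6 7) 0 0 (step_sound _ 130 [(rh2145e1d24b96a57e.shift 2 1), rh5fac7fe242dc9aac] (by decide +kernel))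
noncomputable def rhdc53788c3a2b485f : CRef := CRef.mk (Pat.mk 0x100000003000000060000000200000000 0x60000001e0000001f00000007000000070000000600000004 6 5) 0 0 (step_sound _ 129 [rh16f8da415b48e1e4, (rhd4b4beefcd67f51e.shift 1 0), (rhf8f2dd1658083a86.shift 0 1)] (by decide +kernel))
noncomputable def rh7a73fc768f4f8661 : CRef := CRef.mk (Pat.mk 0x80000000c0000000c00000000 0xc0000000c0000000c0000003c0000000f0000000a 6 6) 0 0 (step_sound _ 131 [rh04aa474d63f24212, (rh5c5e593799055d58.shift 2 1)] (by decide +kernel))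
noncomputable def rhbe85489e958392d8 : CRef := CRef.mk (Pat.mk 0x80000000c000000380000000000000000 0x40000000c0000000c0000003c0000003f0000000e0000000c 6 6) 0 0 (step_sound _ 130 [rh4f8d76b7513400f6, (rhc020c60c3658dbaf.shift 1 0), (rhfc7c29d8e65d775f.shift 2 1)] (by decide +kernel))
noncomputable def rhbaeaa3ef8c3bbd0e : CRef := CRef.mk (Pat.mk 0x1000000018000000700000000000000000 0x10000000780000007f000000ef00000008 6 8) 0 0 (step_sound _ 67 [(rh5b460b71d8952ca9.shift 0 1), (rh926908da0d1436f4.shift 1 0), (rh9c40a739b57d6d20.shift 2 0)] (by decide +kernel))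
noncomputable def rh831d5157f06f012f : CRef := CRef.mk (Pat.mk 0xe0000001c000000100000001000000000 0x2000000060000000e0000001f0000001f0000003c00000008 6 6) 0 0 (step_sound _ 67 [(rh3cb04db3dd2b6a55.shift 2 0), (rha6f155f6763370b1.shift 0 1)] (by decide +kernel))
noncomputable def rh23b7fb079f58dcf6 : CRef := CRef.mk (Pat.mk 0x3000000020000000200000002000000000000000000000000 0x70000001f0000000600000002000000030000000300000001 6 5) 0 0 (step_sound _ 65 [rhbfa1ff255c28a08b, (rhffd04209dc8ea796.shift 0 2)] (by decide +kernel))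
noncomputable def rh786297492859cbf3 : CRef := CRef.mk (Pat.mk 0x80000001e00000000 0x3f000000fe000000e0 6 8) 0 0 (step_sound _ 65 [(rh3244c3cc8379b070.shift 0 1), (rh93399ec6ae84e1dc.shift 1 0)] (by decide +kernel))
noncomputable def rhc459c257272b9dd1 : CRef := CRef.mk (Pat.mk 0x2000000020000000200000006000000000000000000000000 0x100000003000000070000000600000006000000030000000300000003 6 3) 0 0 (step_sound _ 192 [(rh50fbb5868c909700.shift 0 3), rh8bc1087ea7b2eaa8] (by decide +kernel))
noncomputable def rh358c4e0499793730 : CRef := CRef.mk (Pat.mk 0x180000001c000000000000000000000000 0x10000000300000003f0000007c000000680000002800000020 6 7) 0 0 (step_sound _ 130 [(rh8d364617c03d6975.shift 0 1), (rh94186331b1401652.shift 2 0), (rhe2b63c00a3d7bb73.shift 0 3)] (by decide +kernel))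
noncomputable def rhdeca8ce25464b16d : CRef := CRef.mk (Pat.mk 0x4000000040000001c0000000800000000 0x80000000c0000000c0000001f0000003f00000016 6 6) 0 0 (step_sound _ 34 [rh15e73dbf691d5e47, rhf5094ad2a427d4d3] (by decide +kernel))
noncomputable def rhbc0dbe5d1d24ff3a : CRef := CRef.mk (Pat.mk 0x800000008000000380000000000000000 0x40000000c0000000f0000003c0000001f0000001c 6 6) 0 0 (step_sound _ 98 [rh9780d53f0790be85, rhb8299237d7b8c322, (rhdbcea10a0fbe5ba6.shift 0 2)] (by decide +kernel))
noncomputable def rhf50a1eb46d4bb263 : CRef := CRef.mk (Pat.mk 0x1800000008000000380000001800000000 0x240000003f00000038000000f80000001800000008 6 8) 0 0 (step_sound _ 100 [(rh71222050f2c63a3a.shift 3 0), (rh8964002430940967.shift 0 1)] (by decide +kernel))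
noncomputable def rh21c32a5acf912730 : CRef := CRef.mk (Pat.mk 0x40000000e000000180000000800000000 0x10000000370000001e0000001b0000000f00000006 6 6) 0 0 (step_sound _ 100 [(rh5421160f8e9bcf07.shift 1 1), rha4f8d4b91efd96b3] (by decide +kernel))
noncomputable def rha90e1f61a21cd7a1 : CRef := CRef.mk (Pat.mk 0x80000001c0000003000000000 0x34000000760000007f0000003c0000003800000028 6 7) 0 0 (step_sound _ 98 [(rh71b938f97535e4af.shift 1 0), (rhe2b63c00a3d7bb73.shift 0 2)] (by decide +kernel))
noncomputable def rhc156fb3ec0abed94 : CRef := CRef.mk (Pat.mk 0x18000000300000000000000000 0x100000001000000038000000ff000000ec00000008 6 8) 0 0 (step_sound _ 70 [rhd3cf9442b0b4a5eb, (rhf48373e13d2bc128.shift 3 2)] (by decide +kernel))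
noncomputable def rh7cbb61f5b5f0400a : CRef := CRef.mk (Pat.mk 0x8000000080000003800000010000000000000000000000000 0x40000000c0000000f0000003c0000001e0000000c0000000c0000000c 6 6) 0 0 (step_sound _ 99 [(rh51c5455fd40b94c1.shift 0 2), (rha9a9dd876407ae9a.shift 2 0), (rhf5094ad2a427d4d3.shift 1 2)] (by decide +kernel))
noncomputable def rh3768f88b81f28ec5 : CRef := CRef.mk (Pat.mk 0x4000000060000001a0000000800000000 0x10000000300000007000000060000001b0000000f00000003 6 5) 0 0 (step_sound _ 33 [(rh71222050f2c63a3a.shift 1 0), rh7183d73c74feafce] (by decide +kernel))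
noncomputable def rhe0a66eba9944e1a0 : CRef := CRef.mk (Pat.mk 0x280000000c0000003000000010 0x770000007e0000002c0000003000000010 6 7) 0 0 (step_sound _ 100 [(rh18965a982d73c794.shift 2 2), rh466bb65b10f025a9] (by decide +kernel))
noncomputable def rh07b61ab1d29c80c2 : CRef := CRef.mk (Pat.mk 0x28000000000000003000000010 0x770000003e000000300000003000000010 6 7) 0 0 (step_sound _ 133 [(rh3c88ce959c0e423f.shift 4 0), rh978c4b48c11c74ac] (by decide +kernel))
noncomputable def rh52b50fb830a1da33 : CRef := CRef.mk (Pat.mk 0xa000000030000000c0000000400000000 0x100000001e0000000f0000000e0000007c00000010 6 7) 0 0 (step_sound _ 132 [rha48aad85dc364735, (rhb2a0b9ccfb5cecd5.shift 0 3)] (by decide +kernel))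
noncomputable def rhaab3cb5af195b70b : CRef := CRef.mk (Pat.mk 0x1400000016000000180000000800000000 0x370000001e0000001b0000000f00000006 6 6) 0 0 (step_sound _ 99 [(rh33e738c4ed385b9f.shift 1 3), rha4f8d4b91efd96b3] (by decide +kernel))
noncomputable def rh69b48c88c107d4c8 : CRef := CRef.mk (Pat.mk 0x180000000e000000080000000000000000 0x380000003e0000003f0000003000000010 6 6) 0 0 (step_sound _ 100 [(rh33e738c4ed385b9f.shift 1 3), rh7419e4ee892f05aa] (by decide +kernel))
noncomputable def rhf31f90eeb168503d : CRef := CRef.mk (Pat.mk 0x300000001000000060000000300000000 0x1c0000001f00000007000000060000000700000005 6 5) 0 0 (step_sound _ 97 [rh43c7095c87df45e4, rh932754581e0f4330] (by decide +kernel))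
noncomputable def rhfb58e28e7ccdf54d : CRef := CRef.mk (Pat.mk 0x6000000020000001c00000006000000000000000000000000 0x4000000060000000a0000001f0000003e000000300000001000000010 6 6) 0 0 (step_sound _ 129 [(rh2f68792b6b779e96.shift 1 3), rh95e960a96072856f] (by decide +kernel))
noncomputable def rh240ea196c381e9e6 : CRef := CRef.mk (Pat.mk 0xe00000006000000000000000000000000 0x80000003f0000003e000000300000001000000010 6 6) 0 0 (step_sound _ 132 [(rh18965a982d73c794.shift 1 3), rh95e960a96072856f] (by decide +kernel))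
noncomputable def rh47badf510c4f1d40 : CRef := CRef.mk (Pat.mk 0x2000000020000001e0000000200000000 0x400000006000000060000001f0000003e0000000e 6 6) 0 0 (step_sound _ 34 [(rh55afc6a59410cf00.shift 1 0), rhaf28771b969f41a3] (by decide +kernel))
noncomputable def rh98f40fc162ed4ff4 : CRef := CRef.mk (Pat.mk 0x100000001c000000380000000000000000 0xc0000000c0000001c0000001c0000003f0000000f0000000c 6 6) 0 0 (step_sound _ 35 [rh13e0d6127fae8ea2, (rh71222050f2c63a3a.shift 3 0)] (by decide +kernel))
noncomputable def rhf005b0ef2e7299cd : CRef := CRef.mk (Pat.mk 0x3800000010000000100000003800000000 0x40000003e000000760000001e0000007e00000007 6 7) 0 0 (step_sound _ 66 [rh4c76ff9b954218de, (rh508d31626b5d2be8.shift 1 1), (rh8153c701486ae364.shift 1 1)] (by decide +kernel))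
noncomputable def rh07ed8b390c9ab519 : CRef := CRef.mk (Pat.mk 0x3800000010 0x1c7000001fe000003ff 6 10) 0 0 (step_sound _ 38 [rh9241cc058486cc88, (rhaf9f2efc81a8312b.shift 2 0), (rhdbe30b89b8872db3.shift 3 0)] (by decide +kernel))
noncomputable def rh1e0e8d0beac44f72 : CRef := CRef.mk (Pat.mk 0x800000010000000180000001800000000 0xc0000000f0000007c000000180000001c00000004 6 7) 0 0 (step_sound _ 99 [rh0c4cf234fda5f94c, (rh2145e1d24b96a57e.shift 3 1)] (by decide +kernel))
noncomputable def rh1ea7a784f86955e5 : CRef := CRef.mk (Pat.mk 0x400000008000000020000001e00000000 0x20000000f0000003e000000060000003e00000002 6 6) 0 0 (step_sound _ 66 [rh0da16768d059e21d, (rhf48373e13d2bc128.shift 1 1)] (by decide +kernel))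
noncomputable def rh13ee1d640fbbcd30 : CRef := CRef.mk (Pat.mk 0x80000001c000000040000001000000000 0x20000000f0000003c000000060000003c0000000c 6 6) 0 0 (step_sound _ 65 [(rh18965a982d73c794.shift 1 2), rhb4dc98bb3107dfc7] (by decide +kernel))
noncomputable def rh27ef558486223a9e : CRef := CRef.mk (Pat.mk 0x100000003800000028000000280000000000000000 0x40000001e00000038000001ef0000007c000000c600000044 6 9) 0 0 (step_sound _ 162 [rh942d36381b3a6786, (rha358927870346b7d.shift 1 2)] (by decide +kernel))
noncomputable def rha4c75fe46c20d17d : CRef := CRef.mk (Pat.mk 0x40000000f000000010 0x7c000000fe00000037 6 8) 0 0 (step_sound _ 67 [(rh3f8766e6ecb455ce.shift 3 1), rhb3db7e990fa89829] (by decide +kernel))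
noncomputable def rh410c9efbbf1c0bba : CRef := CRef.mk (Pat.mk 0x80000001c000000020000001000000000 0x20000000f0000003c000000060000003c0000000c 6 6) 0 0 (step_sound _ 66 [(rh18965a982d73c794.shift 1 2), rhb4dc98bb3107dfc7] (by decide +kernel))
noncomputable def rh9e6e413e17d8de61 : CRef := CRef.mk (Pat.mk 0x40000000f000000010000000800000000 0x2000000060000001f000000030000001f00000007 6 5) 0 0 (step_sound _ 65 [(rh18965a982d73c794.shift 0 2), rh2e69e61895c235be] (by decide +kernel))
noncomputable def rhdaf385c0f41a3ca2 : CRef := CRef.mk (Pat.mk 0x80000000e000000180000001000000000 0x40000000c0000000e0000003e0000003700000006 6 6) 0 0 (step_sound _ 66 [rh5b8c5f2cb3db79a0, (rhf48373e13d2bc128.shift 1 2)] (by decide +kernel))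
noncomputable def rh84a93a6e605ae7d9 : CRef := CRef.mk (Pat.mk 0x100000001000000038000000000000000000000000 0x140000001e0000007c0000000f0000000800000008 6 7) 0 0 (step_sound _ 130 [(rh508d31626b5d2be8.shift 1 3), (rh54c49bb299227e8d.shift 1 3), rh86330ac41a7537dd, (rhea212a187e58a08e.shift 1 0)] (by decide +kernel))
noncomputable def rh703ed2c3fe186e8b : CRef := CRef.mk (Pat.mk 0x4000000040000000e0000000800000000 0x4000001cf000000fe000000fb00000002 6 9) 0 0 (step_sound _ 68 [rhae036cc4ef671676, (rhe3060b190bc0bc78.shift 0 2), (rhfc38768ccff5661f.shift 1 1)] (by decide +kernel))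
noncomputable def rhb6c8f95c059cf08c : CRef := CRef.mk (Pat.mk 0x8000000180000001c0000000000000000 0x2000000020000000f0000001f0000007c0000000600000004 6 7) 0 0 (step_sound _ 98 [rh4173ecdf57c5643f, (rh7478433a598f2371.shift 1 0), (rhe2b63c00a3d7bb73.shift 0 2)] (by decide +kernel))
noncomputable def rh90cbd1ae1f4555c3 : CRef := CRef.mk (Pat.mk 0xc0000000e000000180000000000000000 0x80000003c0000000e0000001c0000000f0000000e 6 6) 0 0 (step_sound _ 132 [(rh18965a982d73c794.shift 1 3), rha879e88cdfa224cd] (by decide +kernel))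
noncomputable def rhb681c8841d49610c : CRef := CRef.mk (Pat.mk 0x80000000e0000000c0000000000000000 0x2000000020000007f0000007e0000000c0000000400000004 6 7) 0 0 (step_sound _ 34 [(rh71222050f2c63a3a.shift 2 0), (rh792d30ca3dc614ca.shift 0 1)] (by decide +kernel))
noncomputable def rhfbc8b14d3f33a0e9 : CRef := CRef.mk (Pat.mk 0x4000000060000000e0000000800000000 0x100000003c0000003e0000001e0000000b00000002 6 6) 0 0 (step_sound _ 33 [(rh71222050f2c63a3a.shift 1 0), (rhbe34dfb3324ec858.shift 0 1)] (by decide +kernel))
noncomputable def rh6ed7cf123f8072a8 : CRef := CRef.mk (Pat.mk 0x800000008000000080000001000000000 0x40000001f0000007c000000080000001800000018 6 7) 0 0 (step_sound _ 35 [(rh55afc6a59410cf00.shift 3 0), rh5e27551d8f4c0273] (by decide +kernel))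
noncomputable def rhd2a5ca5dada2a53d : CRef := CRef.mk (Pat.mk 0x8000000080000001a00000010000000000000000000000000 0x140000003c0000000f0000001b0000001f0000000c0000000c0000000c 6 6) 0 0 (step_sound _ 99 [(rh114380420d2c6317.shift 0 2), (rh900a894640be090c.shift 0 2), (rha9a9dd876407ae9a.shift 2 0)] (by decide +kernel))
noncomputable def rh7371dbe8a99db7af : CRef := CRef.mk (Pat.mk 0x800000008000000180000007000000000 0x140000003c0000000f000000380000007f000000e8 6 8) 0 0 (step_sound _ 35 [rh245d56c915813f64, rhe74f96057964b96f] (by decide +kernel))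
noncomputable def rhaa11677c02e95309 : CRef := CRef.mk (Pat.mk 0x18000000080000000800000008000000000000000000000000 0x1c0000001f0000000c000000080000000c0000000c00000004 6 5) 0 0 (step_sound _ 67 [rh27bfd89fd234c9c4, (rhbaefcd01e0a8bca3.shift 3 2)] (by decide +kernel))
noncomputable def rh03e0febdeeffa1fc : CRef := CRef.mk (Pat.mk 0x300000003000000060000000000000000 0x1c0000001f00000007000000060000000600000006 6 5) 0 0 (step_sound _ 33 [rh16f8da415b48e1e4, rh7b1f1fb55310c477] (by decide +kernel))
noncomputable def rh3260be5b77f65d76 : CRef := CRef.mk (Pat.mk 0x18000000180000007000000000 0xc0000000f0000007c000000180000007c000000e4 6 8) 0 0 (step_sound _ 131 [rh093daa16f2f30323, (rh2145e1d24b96a57e.shift 3 1)] (by decide +kernel))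
noncomputable def rh39b8280c7d59e74d : CRef := CRef.mk (Pat.mk 0x200000003800000040 0x370000007e000000ce 6 8) 0 0 (step_sound _ 38 [rh1f9701c4cf497514, (rhe25b0a99195a5d59.shift 3 0)] (by decide +kernel))
noncomputable def rhcedf888648a6ddd3 : CRef := CRef.mk (Pat.mk 0x400000007000000140000000000000000 0x8000000080000001a0000003e00000017000000140000001400000004 6 6) 0 0 (step_sound _ 131 [(rh000637b5a81e86aa.shift 1 0), (rh80f90a60d87caa0d.shift 0 3), (rhb3de2b4a5511b94a.shift 1 1), (rhe61fd6f5e3dcfce9.shift 0 1)] (by decide +kernel))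
noncomputable def rhd157677001490e47 : CRef := CRef.mk (Pat.mk 0x4000000070000000400000000000000000000000000000000 0xa0000001e00000007000000060000000c0000000e0000000e00000002 6 5) 0 0 (step_sound _ 98 [(rh4017de503635a93b.shift 0 3), (rh4ed972033d0a12ff.shift 1 0), (rhe286c75f2739cce2.shift 1 2)] (by decide +kernel))
noncomputable def rhb3864713a9f5db8e : CRef := CRef.mk (Pat.mk 0x180000001e000000100000000000000000 0x10000000180000003e0000001f0000003800000018 6 6) 0 0 (step_sound _ 36 [rh41b23e0d0ef25950, (rh7b1f1fb55310c477.shift 3 0)] (by decide +kernel))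
noncomputable def rhdc38782eaebd3836 : CRef := CRef.mk (Pat.mk 0x300000003000000020000000000000000 0x600000006000000060000000300000003000000030000000300000003 6 3) 0 0 (step_sound _ 33 [rh7b1f1fb55310c477, rh929981d1a150078c] (by decide +kernel))
noncomputable def rh14d171063ecb38d8 : CRef := CRef.mk (Pat.mk 0x180000001e000000100000000000000000 0x1b0000003e0000001f0000003000000030 6 6) 0 0 (step_sound _ 129 [(rh3244c3cc8379b070.shift 0 3), rhfd4dfc2b4df49b01] (by decide +kernel))
noncomputable def rh11596f044e9d5d1d : CRef := CRef.mk (Pat.mk 0xe0000001000000000 0x400000004000000070000003e0000003300000002 6 6) 0 0 (step_sound _ 68 [rh43dc67402634d54f, (rhe25b0a99195a5d59.shift 1 1)] (by decide +kernel))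
noncomputable def rh5f7190d834b03e1c : CRef := CRef.mk (Pat.mk 0x80000001e000000100000000000000000 0x4000000040000000f0000003e000000130000001200000010 6 6) 0 0 (step_sound _ 36 [(rh21460d2d48a35cb8.shift 0 1), (rh7b1f1fb55310c477.shift 3 0)] (by decide +kernel))
noncomputable def rhd187b04dc1d1514e : CRef := CRef.mk (Pat.mk 0x1c00000006000000080000000000000000 0x1000000010000000380000001f0000001e000000780000001800000018 6 7) 0 0 (step_sound _ 99 [(rh2a6fe6a2ce7428a2.shift 1 0), (rh807c328646bd0193.shift 0 2), (rhb0c1e7919d9be92d.shift 2 0)] (by decide +kernel))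
noncomputable def rh78ee2eddc665304a : CRef := CRef.mk (Pat.mk 0x30000000c00000000 0xe70000007e0000000e 6 8) 0 0 (step_sound _ 36 [(rh09d4dfe75d4407d6.shift 0 1), (rhb822f7880acf97b0.shift 1 0)] (by decide +kernel))
noncomputable def rh6d0fefc82fb778df : CRef := CRef.mk (Pat.mk 0x3000000030000000e0000000000000000 0x1c0000001f0000000b0000000e0000000600000006 6 5) 0 0 (step_sound _ 33 [rh7b1f1fb55310c477, rhca41563c2bd3850d] (by decide +kernel))
noncomputable def rh7477ec8908dd2107 : CRef := CRef.mk (Pat.mk 0x180000000300000008000000000000000000000000 0x10000000180000000f000000080000001c0000001c00000014 6 5) 0 0 (step_sound _ 131 [(rh1c62b6193297d9e3.shift 0 4), (rhffb8e5993241bf15.shift 2 0)] (by decide +kernel))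
noncomputable def rh5538dcab8026fe22 : CRef := CRef.mk (Pat.mk 0xe000000020000000c000000000000000000000000 0x4000000140000001c0000000f0000000a0000000c0000001c0000001c00000014 6 5) 0 0 (step_sound _ 131 [(rh0a6888916bcef86b.shift 2 0), (rh281c6819542c66e6.shift 2 0), (rh69a3776feaa48c5d.shift 2 2), (rhd01ed0cc6ce530d4.shift 1 2), (rhe0a9329fca2c5630.shift 0 2)] (by decide +kernel))
noncomputable def rhaeb26c6fba3fc8b6 : CRef := CRef.mk (Pat.mk 0xa000000030000000c0000000000000000 0xc0000000c0000000c0000001e000000070000000c0000000c0000000c 6 5) 0 0 (step_sound _ 130 [(rh18965a982d73c794.shift 0 3), (rhca837b57b5f331dc.shift 1 0)] (by decide +kernel))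
noncomputable def rh4286f28a5db90223 : CRef := CRef.mk (Pat.mk 0x18000000030000000c00000000 0x140000001c0000001c000000180000000f0000000c00000004 6 5) 0 0 (step_sound _ 67 [(rh1c62b6193297d9e3.shift 0 2), (rh68a777751bfeafdf.shift 2 0)] (by decide +kernel))
noncomputable def rh92f82716a54232e9 : CRef := CRef.mk (Pat.mk 0x100000001000000030000000200000002000000000 0x50000000df0000007e000001ef0000002800000008 6 9) 0 0 (step_sound _ 99 [rh596def3aae05c2e3, (rh6736831d1a9078ea.shift 2 0), (rh8ee80cc30e93a344.shift 2 2), (rhc92c11e8da6c894f.shift 0 2)] (by decide +kernel))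
noncomputable def rh4867c7756c4cfa5b : CRef := CRef.mk (Pat.mk 0x8000000080000001c0000000000000000 0x1000000018000000f8000000ff0000007000000030 6 8) 0 0 (step_sound _ 100 [rhb99743c2849212cd, (rhee1a29e9af6d62b9.shift 2 0), (rhf9d36e158778ce35.shift 1 2)] (by decide +kernel))
noncomputable def rh723560ad1225fc20 : CRef := CRef.mk (Pat.mk 0x200000006000000040000000e 0x3c0000003e0000000e0000003c0000000f 6 6) 0 0 (step_sound _ 35 [(rh8acb79fe332e27b9.shift 1 0), rhf9d36e158778ce35] (by decide +kernel))
noncomputable def rh1297b1416b94aade : CRef := CRef.mk (Pat.mk 0x800000018000000100000000c00000000 0x2000000020000000f0000003e000000f40000000c0000000c 6 8) 0 0 (step_sound _ 98 [rh617fc727736bd710, (rh8ee80cc30e93a344.shift 1 2), (rhab8b64f34362157f.shift 1 0)] (by decide +kernel))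
noncomputable def rh4c2e6a7cda7dc777 : CRef := CRef.mk (Pat.mk 0x1e00000008 0xe0000000fe000001fb 6 9) 0 0 (step_sound _ 1 [(rha4e2ff7965857f2b.shift 1 0), rheb0810cc63b001d8] (by decide +kernel))
noncomputable def rh26fa6f5e3fc4a5b2 : CRef := CRef.mk (Pat.mk 0x800000008000000080000000800000000 0x1800000018000000080000000f0000003c00000014 6 6) 0 0 (step_sound _ 132 [(rh2f68792b6b779e96.shift 3 1), rh641b5241be04eec6] (by decide +kernel))
noncomputable def rh5a3f19363b72811c : CRef := CRef.mk (Pat.mk 0xf000000020000000000000000 0x800000008000000f80000007f000000ee0000000400000004 6 8) 0 0 (step_sound _ 100 [(rh3d54e7f933686048.shift 1 2), rh975fcf8b07fa8e8c, (rh9890f9d77740bbed.shift 0 3)] (by decide +kernel))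
noncomputable def rhe96ddd25c388d79e : CRef := CRef.mk (Pat.mk 0x80000001800000008000000000000000000000000 0x80000000800000018000000180000007c0000001f0000000c00000008 6 7) 0 0 (step_sound _ 100 [rh20b1e8ec5b235335, (rh3e595262c1b737ad.shift 3 2)] (by decide +kernel))
noncomputable def rh516935bbbf0dc838 : CRef := CRef.mk (Pat.mk 0x600000002000000020000000000000000 0x2000000060000000600000006000000070000000700000003 6 3) 0 0 (step_sound _ 33 [(rh2f68792b6b779e96.shift 1 1), rhfc3b32d4927f49da] (by decide +kernel))
noncomputable def rh39d5596f366ac7f1 : CRef := CRef.mk (Pat.mk 0x140000001c0000001000000000 0x1400000014000000140000001c0000007f0000002a 6 7) 0 0 (step_sound _ 35 [(rh121397a93ef3afd3.shift 2 0), (rh503dd4575245365b.shift 3 0), rhbb71d32ac1feb433] (by decide +kernel))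
noncomputable def rhc920e700cfc561f1 : CRef := CRef.mk (Pat.mk 0x40000000e000000030000000200000000 0x180000003c0000000e0000000f0000001f0000007c 6 7) 0 0 (step_sound _ 35 [rh382a1084819cfc51, rh7e05ddd45771b630, rhb7fba35336b57849, rhdb32e767b64bc2a1, rhf324027211bf676f] (by decide +kernel))
noncomputable def rh10018de8ec034c19 : CRef := CRef.mk (Pat.mk 0x100000001c000000180000000000000000 0x4000000160000007c0000007f0000000f00000008 6 7) 0 0 (step_sound _ 35 [(rh2dee9174c21c587e.shift 0 1), (rh71222050f2c63a3a.shift 3 0)] (by decide +kernel))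
noncomputable def rhc8e83af6850654e9 : CRef := CRef.mk (Pat.mk 0x600000003000000020000000000000000 0x40000000600000006000000020000000700000007000000070000000700000003 6 3) 0 0 (step_sound _ 161 [(rh01d6b9aa1023c96e.shift 0 1), rh2dd23789115a02f3, (rhd6085fba471a9d03.shift 0 1)] (by decide +kernel))
noncomputable def rh38ecb78421c5ae64 : CRef := CRef.mk (Pat.mk 0x800000008000000180000001000000010 0x200000007c000001ef0000007e0000007600000014 6 9) 0 0 (step_sound _ 69 [rh297fae84acdfca38, (rh305e60cb0bb1bfe3.shift 1 0), rh8045f5c30afe4923, (rha9fbfd4bb8cf890b.shift 0 2)] (by decide +kernel))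
noncomputable def rhf0535059ef91b2a9 : CRef := CRef.mk (Pat.mk 0x100000007800000020 0xdc0000007f0000003e 6 8) 0 0 (step_sound _ 70 [(rh33e738c4ed385b9f.shift 3 1), rh5ada0a7e0c8eff0d] (by decide +kernel))
noncomputable def rha405f7bea1896094 : CRef := CRef.mk (Pat.mk 0xf000000020 0xe000000fe000001bf 6 9) 0 0 (step_sound _ 7 [rh717d6494e4a7ab89, (rhe25b0a99195a5d59.shift 4 0)] (by decide +kernel))
noncomputable def rhe0286920dbe47409 : CRef := CRef.mk (Pat.mk 0x80000000800000008000000080000000c0000000000000000 0x100000001800000018000000080000001f0000003e000000780000000c0000000800000008 6 7) 0 0 (step_sound _ 132 [(rh73f77e2537271e39.shift 0 1), (rh8599f462953abc6e.shift 3 3), (rha3ecc7c6acb14750.shift 1 0), (rhcf916c48579404b5.shift 3 0)] (by decide +kernel))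
noncomputable def rh36d2592072881719 : CRef := CRef.mk (Pat.mk 0x400000008000000080000000800000000 0xc0000000c00000008000000380000001f00000014 6 6) 0 0 (step_sound _ 131 [(rh50fbb5868c909700.shift 2 1), rhf4fcb276c439bf4b] (by decide +kernel))
noncomputable def rh00449622cd086a2e : CRef := CRef.mk (Pat.mk 0x1000000018000000700000000000000000 0x10000000780000007f000000ef00000008 6 8) 0 0 (step_sound _ 67 [(rh5b460b71d8952ca9.shift 0 1), (rh8553864a7729a62a.shift 1 1), (rh9c40a739b57d6d20.shift 2 0)] (by decide +kernel))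
noncomputable def rh047b0ccc90515fbb : CRef := CRef.mk (Pat.mk 0x20000000f00000000 0xe60000007f000000fc 6 8) 0 0 (step_sound _ 36 [(rh0786c19de25163c7.shift 1 0), rh213232d4567b81f0, rh4ad5fc38f1b69f65, rh9cde8ee4223ae862] (by decide +kernel))
noncomputable def rh31a0d41cb0ececf3 : CRef := CRef.mk (Pat.mk 0x1000000010000000100000003000000000 0x1000000010000000ff0000007e0000000f 6 8) 0 0 (step_sound _ 35 [(rh932754581e0f4330.shift 3 0), rhf8caf48af2bf200a] (by decide +kernel))
noncomputable def rhe19340177c1b48a2 : CRef := CRef.mk (Pat.mk 0x3c0000001000000010 0x80000000c000000ff0000001f00000010 6 8) 0 0 (step_sound _ 33 [(rh80fcd6d0a18cb2dd.shift 1 1), rhe552c06b3e336a71] (by decide +kernel))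
noncomputable def rh4d63ff26ec2dbd2d : CRef := CRef.mk (Pat.mk 0x400000007000000020 0xc70000007e0000003e 6 8) 0 0 (step_sound _ 35 [(rh33e738c4ed385b9f.shift 3 1), rh8aa80d8d90d3223c] (by decide +kernel))
noncomputable def rhb935856717173846 : CRef := CRef.mk (Pat.mk 0x100000001c0000000800000000 0x400000004000000370000003e0000000b00000002 6 6) 0 0 (step_sound _ 65 [(rh33e738c4ed385b9f.shift 1 2), rh44dd78dd79fc4e0b] (by decide +kernel))
noncomputable def rhfb8ad0968208cd8a : CRef := CRef.mk (Pat.mk 0x2000000000000000380000001000000010 0x80000007c0000000f000000f80000001c00000010 6 8) 0 0 (step_sound _ 99 [(rh135a58e43c935add.shift 2 0), (rh9f93e2b24091a43d.shift 2 1), (rhb30336065b8c5dcb.shift 0 1), (rhe072fffdd2fccf38.shift 3 0)] (by decide +kernel))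
noncomputable def rhc34fd61524b59f58 : CRef := CRef.mk (Pat.mk 0x800000038000000000000001000000000 0xc0000000c000000780000000f0000003c00000014 6 7) 0 0 (step_sound _ 67 [(rh18619a4549c5b100.shift 2 0), rh2304a4d5a295908d, (rhb80a6ca5eab6f806.shift 2 0), (rhd9106766b9ff53c0.shift 2 2)] (by decide +kernel))
noncomputable def rh580d5cb2d59a8737 : CRef := CRef.mk (Pat.mk 0x20000000e000000000000000400000000 0x6000000360000003e000000730000000700000007 6 7) 0 0 (step_sound _ 65 [rh18619a4549c5b100, (rh7b727f042b9a2843.shift 0 2), (rh8f4050c06a082165.shift 1 0)] (by decide +kernel))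
noncomputable def rh078808ab3d36f1e7 : CRef := CRef.mk (Pat.mk 0x80000000e00000006 0x3000000030000003f0000003e00000006 6 6) 0 0 (step_sound _ 36 [(rh18965a982d73c794.shift 1 0), rh98d92ab9dd718be9] (by decide +kernel))
noncomputable def rh16e10591986d9072 : CRef := CRef.mk (Pat.mk 0x700000002000000000 0x8000000080000000e000001fe0000003f00000010 6 9) 0 0 (step_sound _ 67 [(rh24dc8eb7766767ae.shift 0 1), (rh2efad3051cff7df1.shift 0 1), (rh3a69dc315759d1b4.shift 2 0), (rh74f48645dd37c94b.shift 1 1), (rh775ca1963e850b80.shift 1 1)] (by decide +kernel))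
noncomputable def rhc144d2f6d60a67ad : CRef := CRef.mk (Pat.mk 0xc0000000c00000018000000000000001000000000 0x200000003c0000002f00000078000000300000001000000010 6 7) 0 0 (step_sound _ 129 [(rh441e72bb48a8ee07.shift 1 0), (rhb739f4f82bb681b4.shift 0 3)] (by decide +kernel))
noncomputable def rh0e04c058878b770b : CRef := CRef.mk (Pat.mk 0x1c000000180000003000000000 0x200000002000000070000001f0000001e0000003400000004 6 6) 0 0 (step_sound _ 66 [rhaed54c24fb91f24a, (rhb739f4f82bb681b4.shift 1 1)] (by decide +kernel))
noncomputable def rh5d41e09c81f98bbc : CRef := CRef.mk (Pat.mk 0x180000001800000030 0x2000000020000000770000007f0000001e00000030 6 7) 0 0 (step_sound _ 34 [rh68d48541bd3f106c, (rhb739f4f82bb681b4.shift 1 0)] (by decide +kernel))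
noncomputable def rhaf2c0a0161285d69 : CRef := CRef.mk (Pat.mk 0xc0000000c0000001800000000 0x18000000780000001f0000000c0000007c00000004 6 7) 0 0 (step_sound _ 37 [rhed5e2c66cd942c4a, (rhf48373e13d2bc128.shift 2 1)] (by decide +kernel))
noncomputable def rhc266b37fa129fc6a : CRef := CRef.mk (Pat.mk 0xc00000008000000080000000800000000 0xa0000000f0000003c0000000c0000000c0000000c 6 6) 0 0 (step_sound _ 98 [(rh7b1f1fb55310c477.shift 2 0), rhe93a1469eabff810] (by decide +kernel))
noncomputable def rh5132ba116cb4d92c : CRef := CRef.mk (Pat.mk 0x8000000080000000800000008000000180000000000000000 0x800000008000000180000003c0000000f0000001c0000000800000008 6 6) 0 0 (step_sound _ 98 [(rh932754581e0f4330.shift 2 2), rhf1d58ad1c56e2493] (by decide +kernel))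
noncomputable def rh9b9ef725e961b6a9 : CRef := CRef.mk (Pat.mk 0x100000001c00000010000000000000000000000000 0x1000000010000000100000001c0000007f0000007f0000002000000020 6 7) 0 0 (step_sound _ 99 [(rh503dd4575245365b.shift 3 2), rhf23d78e1543076a5] (by decide +kernel))
noncomputable def rhc238e4d89782db2c : CRef := CRef.mk (Pat.mk 0x600000003000000020000000000000000 0x40000000600000006000000020000000700000007000000070000000700000006 6 3) 0 0 (step_sound _ 161 [(rh01d6b9aa1023c96e.shift 0 1), (rh03dfdf12d5937476.shift 0 1), rh60f8a5416b531026] (by decide +kernel))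
noncomputable def rh709418a1538e5f2c : CRef := CRef.mk (Pat.mk 0x1800000008000000080000000000000000 0x140000001f00000038000000080000001800000018 6 6) 0 0 (step_sound _ 35 [(rh2f68792b6b779e96.shift 3 1), rh46196756eeb999a4] (by decide +kernel))
noncomputable def rhdced3e9513d0c3e8 : CRef := CRef.mk (Pat.mk 0xa0000000c000000040000000400000000 0x160000003e0000000f0000000c0000000c00000008 6 6) 0 0 (step_sound _ 130 [(rh50fbb5868c909700.shift 1 1), rh60f7890073fd1121] (by decide +kernel))
noncomputable def rh212ba572ea2a9720 : CRef := CRef.mk (Pat.mk 0xa0000000e00000004 0x1fb000000fe0000000c 6 9) 0 0 (step_sound _ 36 [(rh3244c3cc8379b070.shift 0 1), (rh4a0633d590ca9e68.shift 1 0)] (by decide +kernel))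
noncomputable def rhb3822b9de7428a9c : CRef := CRef.mk (Pat.mk 0x180000000800000008000000000000000000000000 0x40000000f0000003f0000003800000018000000180000001800000010 6 6) 0 0 (step_sound _ 68 [(rh47dece01c1595e79.shift 3 0), (rh5d51c1a0244b45ed.shift 0 1), (rhbda0e96ac05ff8d6.shift 0 2)] (by decide +kernel))
noncomputable def rh8a3b44d1b34c54df : CRef := CRef.mk (Pat.mk 0x2000000020000000200000004 0x4000000070000000700000002000000030000000700000005 6 3) 0 0 (step_sound _ 129 [rh1fcaf8cebe283679, (rhd3458b32566d63f7.shift 1 0)] (by decide +kernel))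
noncomputable def rheb1c6e49f17bd4f3 : CRef := CRef.mk (Pat.mk 0x1000000008000000080000000800000018 0x40000001c0000001c000000080000000c0000000f0000001c 6 5) 0 0 (step_sound _ 131 [(rh2f68792b6b779e96.shift 3 1), rh61376a455f135a8d] (by decide +kernel))
noncomputable def rh827ee975ef501265 : CRef := CRef.mk (Pat.mk 0xc000000080000000e00000008 0xf0000000ff0000007f0000000e00000008 6 8) 0 0 (step_sound _ 100 [(rh2f68792b6b779e96.shift 3 0), (rh76aabe7f5e016648.shift 0 1)] (by decide +kernel))
noncomputable def rhe0e25a4d1889284f : CRef := CRef.mk (Pat.mk 0x8000000080000000e00000008 0x140000001c0000001c00000018000000380000003f0000000e00000008 6 6) 0 0 (step_sound _ 131 [(rh44f453b84f013105.shift 3 0), (rhb77bfac3e9efecea.shift 2 1), rhe4c824f4f18a84ac] (by decide +kernel))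
noncomputable def rh89cfde4957cbc532 : CRef := CRef.mk (Pat.mk 0x200000002000000020000000f00000000 0x5000000070000001e0000000e0000000f00000018 6 5) 0 0 (step_sound _ 130 [(rh2f68792b6b779e96.shift 1 1), rhb69007e698d9e576] (by decide +kernel))
noncomputable def rhae5007e66de47b65 : CRef := CRef.mk (Pat.mk 0x1800000018000000000000000000000000 0x10000000100000003e000000ff000000670000002000000020 6 8) 0 0 (step_sound _ 98 [(rh4974d7b2fba169a7.shift 1 0), (rhab2ad169e49f9c5e.shift 0 3), (rhd1f7c2d511dd814f.shift 0 2)] (by decide +kernel))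
noncomputable def rh8f471e25b90563d3 : CRef := CRef.mk (Pat.mk 0x3c0000000000000008000000080000000000000000 0x100000003c000000700000007c0000007f0000007800000050 6 7) 0 0 (step_sound _ 133 [rhc009e7896d92b445, (rhe25b0a99195a5d59.shift 2 4)] (by decide +kernel))
noncomputable def rhd7e9bff5f72f1f9e : CRef := CRef.mk (Pat.mk 0x380000000000000010000000100000000000000000 0x270000003e0000006700000030000000300000001000000010 6 7) 0 0 (step_sound _ 133 [(rhc92c11e8da6c894f.shift 0 4), (rhe83f0679b86b6627.shift 4 0)] (by decide +kernel))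
noncomputable def rh2aeadd8cf8b913c6 : CRef := CRef.mk (Pat.mk 0x4000000040000001e0000001000000008000000000000000000000000 0x80000003c0000001f0000001e000000100000001c000000f80000002800000008 6 8) 0 0 (step_sound _ 100 [(rh281c6819542c66e6.shift 3 0), (rh47ecea03df6fae84.shift 3 1), (rh85d57da75e839def.shift 0 2), (rhb1a251d9bff81766.shift 3 2), (rhce5452ecdd026b4b.shift 2 1)] (by decide +kernel))
noncomputable def rh76c57768b2092b28 : CRef := CRef.mk (Pat.mk 0x10000000780000004000000020000000000000000000000000 0x770000007e0000004e00000060000000600000002000000020 6 7) 0 0 (step_sound _ 102 [(rh281c6819542c66e6.shift 5 0), (rh3960f63bb99cbbd9.shift 0 4), (rh47ecea03df6fae84.shift 5 1)] (by decide +kernel))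
noncomputable def rh35512b5c3171c732 : CRef := CRef.mk (Pat.mk 0x20000000000000008000000080000000c00000000 0x100000001c0000001f0000000c00000008000000080000000c00000004 6 5) 0 0 (step_sound _ 131 [(rh1f0406498a1b6907.shift 0 1), (rh932754581e0f4330.shift 2 0)] (by decide +kernel))
noncomputable def rh946d1699e4b8029e : CRef := CRef.mk (Pat.mk 0x38000000100000001400000030 0x70000003e000000770000003c000000f8 6 8) 0 0 (step_sound _ 98 [(rh592c7139d2c44767.shift 0 2), (rha03f6e28ea70fc7d.shift 1 2), (rhf87197963923ab12.shift 1 0)] (by decide +kernel))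
noncomputable def rhb4508313d776af0c : CRef := CRef.mk (Pat.mk 0x380000001000000014000000300000000000000000 0x70000003e00000077000000760000003e0000000600000006 6 7) 0 0 (step_sound _ 66 [rh9384ebd7eea1688f, rhd2bac79ec8dedf26, (rhdb4b4dc20164ea80.shift 1 2), (rhe2e370b2e4a6e84c.shift 1 1)] (by decide +kernel))
noncomputable def rh1167b20574289c19 : CRef := CRef.mk (Pat.mk 0x20000000200000002000000020000000000000000 0x200000002000000060000000600000007000000070000000300000002 6 3) 0 0 (step_sound _ 64 [rh7049f5b716e2f8dd, (rh932754581e0f4330.shift 0 1)] (by decide +kernel))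
noncomputable def rh636bd498d3d7038f : CRef := CRef.mk (Pat.mk 0x100000001000000030000000080000000000000000 0x100000003f0000007e0000000e0000000800000008 6 7) 0 0 (step_sound _ 99 [(rh785a7352656edb05.shift 0 2), (rhf9af042da61fc652.shift 3 0)] (by decide +kernel))
noncomputable def rha400fe700a836344 : CRef := CRef.mk (Pat.mk 0x300000003000000020000000200000000 0x1e0000001f00000007000000060000000600000004 6 5) 0 0 (step_sound _ 130 [(rh2f68792b6b779e96.shift 1 1), rhc884c2905f8db800] (by decide +kernel))
noncomputable def rhe8a85a2a7f411ea3 : CRef := CRef.mk (Pat.mk 0x8000000080000001800000000 0x40000001f0000007c000000080000001800000018 6 7) 0 0 (step_sound _ 131 [(rh55afc6a59410cf00.shift 3 0), rh5e27551d8f4c0273] (by decide +kernel))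
noncomputable def rh69c1c4c10343e007 : CRef := CRef.mk (Pat.mk 0x180000001c0000001000000000 0x80000000f0000007f0000007c0000001600000004 6 7) 0 0 (step_sound _ 131 [(rh2145e1d24b96a57e.shift 3 1), rhbfbe41460e076bb5] (by decide +kernel))
noncomputable def rh568b5107308211c4 : CRef := CRef.mk (Pat.mk 0x80000000c000000180000000000000000 0x140000001c0000000c0000007c0000000f0000000c 6 7) 0 0 (step_sound _ 69 [rhba4efc8345b4604e, (rhf48373e13d2bc128.shift 2 2)] (by decide +kernel))
noncomputable def rh220803e779598f15 : CRef := CRef.mk (Pat.mk 0x800000008000000180000001800000000 0x40000000c0000000f0000003f0000003800000008 6 6) 0 0 (step_sound _ 130 [rh04ff8b20fd8db34c, (rh50fbb5868c909700.shift 2 1)] (by decide +kernel))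
noncomputable def rh52a5fe14ac33959e : CRef := CRef.mk (Pat.mk 0x100000001c0000000000000000 0x200000002000000330000003e0000000700000004 6 6) 0 0 (step_sound _ 65 [(rh33e738c4ed385b9f.shift 1 2), rh3a69dc315759d1b4] (by decide +kernel))
noncomputable def rh31b6e30c4d651b39 : CRef := CRef.mk (Pat.mk 0x800000008000000180000001800000000 0x140000001f000000380000001e0000007800000020 6 7) 0 0 (step_sound _ 132 [(rh2f68792b6b779e96.shift 3 1), rh3538b3786c1c8093] (by decide +kernel))
noncomputable def rh152b98aac23ebf36 : CRef := CRef.mk (Pat.mk 0x1800000008000000100000001800000000 0x140000001f000000380000001e0000007800000020 6 7) 0 0 (step_sound _ 67 [(rh2f68792b6b779e96.shift 3 1), rh3538b3786c1c8093] (by decide +kernel))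
noncomputable def rhc7223e03952b7e6b : CRef := CRef.mk (Pat.mk 0x800000008000000180000000000000000 0x40000000c0000000c0000000c0000000f0000003c0000000f00000004 6 6) 0 0 (step_sound _ 162 [(rh0dbc8abee7ad42d4.shift 2 1), (rh43f392826a2ceb6c.shift 0 1), rhe65192d5555dac97] (by decide +kernel))
noncomputable def rh944615023c4aa9f0 : CRef := CRef.mk (Pat.mk 0x800000008000000080000001000000000 0x140000003c0000000f000000080000001800000018 6 6) 0 0 (step_sound _ 35 [(rh55afc6a59410cf00.shift 3 0), rh59c6c9d9132801ae] (by decide +kernel))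
noncomputable def rh4ca0a22ae8d7844d : CRef := CRef.mk (Pat.mk 0x1800000038000000080000001800000000 0xe0000000fe000000380000003f0000007800000020 6 8) 0 0 (step_sound _ 130 [(rhb739f4f82bb681b4.shift 1 3), rhd780a5f0950e6917] (by decide +kernel))
noncomputable def rhae6b9fedb7864628 : CRef := CRef.mk (Pat.mk 0x1c0000000e000000020000000200000000 0x8000000180000001c0000003e0000003e0000000f0000000c 6 6) 0 0 (step_sound _ 66 [(rh0e31bdeca7d3d8d9.shift 1 1), rhace917a50633b053, (rhea7a1800d6f053bd.shift 2 0)] (by decide +kernel))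
noncomputable def rhfb9abe4d9d26f635 : CRef := CRef.mk (Pat.mk 0x80000001e000000100000000000000000 0x300000003000000030000000380000001e0000001b0000001800000018 6 6) 0 0 (step_sound _ 132 [(rh33e738c4ed385b9f.shift 1 3), rhc83317cd539485a3] (by decide +kernel))
noncomputable def rhcb8a3efb7e773929 : CRef := CRef.mk (Pat.mk 0x200000003000000020000000200000000 0x40000000600000006000000020000000300000003000000070000000600000004 6 3) 0 0 (step_sound _ 34 [(rh28ad3357b4b8dfc2.shift 0 1), (rh55afc6a59410cf00.shift 1 0)] (by decide +kernel))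
noncomputable def rha3c49bb2a3954cbf : CRef := CRef.mk (Pat.mk 0x1c00000004000000040000000400000000 0x140000001c0000000c0000000f0000003c00000018 6 6) 0 0 (step_sound _ 35 [(rh55afc6a59410cf00.shift 2 0), rh84536c029859ba35] (by decide +kernel))
noncomputable def rh5082e365c79ad035 : CRef := CRef.mk (Pat.mk 0x10000000100000001c000000000000000000000000 0x10000000170000003e000000770000002000000020 6 7) 0 0 (step_sound _ 69 [(rh06dad6edb7ce8d9c.shift 1 1), (rh4d4ddb36715783b7.shift 0 2), (rh5cda4f4ab7a85f7f.shift 2 0)] (by decide +kernel))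
noncomputable def rh7b3fe4fb4354ef0f : CRef := CRef.mk (Pat.mk 0x2000000060000000300000002000000000000000000000000 0x200000006000000060000000f0000001e0000000c0000000800000008 6 5) 0 0 (step_sound _ 98 [rh3985e19336211a9c, (rh55afc6a59410cf00.shift 1 2)] (by decide +kernel))
noncomputable def rh8e67b9607eb8aec1 : CRef := CRef.mk (Pat.mk 0x40000000c0000000700000000000000000000000000000000 0x40000000c0000000e0000000f0000001c0000000e0000000600000002 6 5) 0 0 (step_sound _ 99 [(rh15a6c957073c8bcc.shift 1 0), (rh390a8df03c6c5a62.shift 2 2), (rh6e1f502161d2d285.shift 0 3)] (by decide +kernel))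
noncomputable def rh57b0112923ad7c6a : CRef := CRef.mk (Pat.mk 0x60000000e00000000 0x1000000010000000300000003e0000003f00000008 6 6) 0 0 (step_sound _ 36 [rhcf6cfea9c447fcb9, (rhf48373e13d2bc128.shift 1 1)] (by decide +kernel))
noncomputable def rhd12293acac6174ec : CRef := CRef.mk (Pat.mk 0x1c0000003800000000 0x2000000020000000600000007c0000003f00000017 6 7) 0 0 (step_sound _ 34 [(rh563a59b1c100b0c0.shift 1 0), rhcc2be1f880c5ea3e, (rhf9d36e158778ce35.shift 1 1)] (by decide +kernel))
noncomputable def rhbc097188b38155dd : CRef := CRef.mk (Pat.mk 0x40000000e00000002 0x7c0000007e000000e3 6 8) 0 0 (step_sound _ 36 [(rha1f05977cb30c9d7.shift 1 0), rheb0810cc63b001d8] (by decide +kernel))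
noncomputable def rh3054f1b57b66b1f5 : CRef := CRef.mk (Pat.mk 0xe000000020000000000000000 0x10000000300000001f0000003b0000000800000008 6 6) 0 0 (step_sound _ 100 [rhc02275ce183c9512, (rheb0810cc63b001d8.shift 0 2)] (by decide +kernel))
noncomputable def rha2f708d417c2a5b9 : CRef := CRef.mk (Pat.mk 0x4000000040000001e0000000000000000 0x40000003c0000007f0000007800000008 6 7) 0 0 (step_sound _ 100 [(rh33e738c4ed385b9f.shift 1 2), rh9129d2b8a45b80c0] (by decide +kernel))
noncomputable def rh6755e5b44371eedc : CRef := CRef.mk (Pat.mk 0x340000001c000000000000000000000000 0x20000000200000006000000060000003c0000001c0000000f0000000a00000008 6 6) 0 0 (step_sound _ 162 [(rh235edbdf3bbc6c03.shift 2 0), (rh383a69741c4d90df.shift 0 1), (rha768b229dc254047.shift 2 0), (rhe8a9e0e6037b7c6e.shift 1 2)] (by decide +kernel))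
noncomputable def rh125fc0c3a6c674e5 : CRef := CRef.mk (Pat.mk 0x4000000080000000e00000000 0x4000000040000000c0000001f000000780000000f00000008 6 7) 0 0 (step_sound _ 68 [(rh53b3c253cb0c65f4.shift 0 1), rhbd8b2029031648e4] (by decide +kernel))
noncomputable def rh3ea241a7c279ce50 : CRef := CRef.mk (Pat.mk 0x400000007000000018 0xc70000007f000000f8 6 8) 0 0 (step_sound _ 35 [rh04adde65229dd8ca, (rh33e738c4ed385b9f.shift 3 1)] (by decide +kernel))
noncomputable def rh83ee2b1a7a592b12 : CRef := CRef.mk (Pat.mk 0x4000000080000000e00000000 0x140000001c0000007c0000001f000000780000000f00000004 6 7) 0 0 (step_sound _ 99 [(rh00bbf7855e20f51c.shift 0 1), (rh32431e66bbf434a4.shift 2 0), rhd965430f2dc09cb1] (by decide +kernel))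
noncomputable def rh0ed1e7019270fee6 : CRef := CRef.mk (Pat.mk 0x8000000100000001c0000000600000000 0x800000028000000f80000003e000000100000001f0000003e00000008 6 8) 0 0 (step_sound _ 132 [rh670c97b2ed31ba5e, (rhb1a251d9bff81766.shift 3 1), (rhd965430f2dc09cb1.shift 1 1)] (by decide +kernel))
noncomputable def rh8a133c7762382923 : CRef := CRef.mk (Pat.mk 0x4000000080000000c0000000000000000 0x4000000140000007c0000001f000000780000000c0000000c00000008 6 7) 0 0 (step_sound _ 131 [(rhb1a251d9bff81766.shift 2 1), (rhc86e3ab3c2b165e9.shift 1 0), (rhd965430f2dc09cb1.shift 0 1)] (by decide +kernel))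
noncomputable def rh254811c257ac652a : CRef := CRef.mk (Pat.mk 0x7000000018000000100000001800000000 0x140000007c000000f8000000380000001f00000004 6 8) 0 0 (step_sound _ 67 [(rh5c5e593799055d58.shift 3 1), rh7e1614526706b5fa] (by decide +kernel))
noncomputable def rh65095fec89cbfb40 : CRef := CRef.mk (Pat.mk 0x2000000020000000200000002000000000000000000000000 0x200000002000000030000000300000003000000070000000700000007 6 3) 0 0 (step_sound _ 65 [rh6eff4158bb400f47, (rh7928877f9bf74a91.shift 0 1), rh7ac7f773826df96f] (by decide +kernel))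
noncomputable def rhe3e17a9bbab975ea : CRef := CRef.mk (Pat.mk 0x80000000800000008000000000000000000000000 0x1000000018000000180000000c0000003c0000001f0000001400000004 6 6) 0 0 (step_sound _ 66 [(rh2b956ac3cddeead1.shift 2 1), (rh3743dbe66b959104.shift 2 0), (rh544d3caba1e1e2bb.shift 2 0), (rhac4b4763407a46df.shift 0 1)] (by decide +kernel))
noncomputable def rha57afa7713b2e1dd : CRef := CRef.mk (Pat.mk 0x800000008000000180000000400000000 0x40000000c0000001f000000780000000c0000000c 6 7) 0 0 (step_sound _ 35 [rh613b00708c318de9, (rh932754581e0f4330.shift 2 0)] (by decide +kernel))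
noncomputable def rh87794495dd79f304 : CRef := CRef.mk (Pat.mk 0x180000000e000000180000000000000000 0x1f0000003e0000003b0000000f0000000e 6 6) 0 0 (step_sound _ 100 [rhb3d70d6889dda516, (rhe25b0a99195a5d59.shift 1 2)] (by decide +kernel))
noncomputable def rhf9f81b109c697144 : CRef := CRef.mk (Pat.mk 0x180000000c0000001800000010000000000000000000000000 0x600000007c0000006c000000380000001f0000000c0000000c0000000c 6 7) 0 0 (step_sound _ 197 [(rh18965a982d73c794.shift 2 5), rh449d73e65c81ffea] (by decide +kernel))
noncomputable def rheb0eb4c450b4628c : CRef := CRef.mk (Pat.mk 0x80000000c00000018000000000000000000000000 0x1000000010000000180000007c0000000f000000180000000c0000000c00000004 6 7) 0 0 (step_sound _ 129 [(rh77847b477f1d043e.shift 1 0), (rhb739f4f82bb681b4.shift 0 3)] (by decide +kernel))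
noncomputable def rhbe56e19e3dacdfb2 : CRef := CRef.mk (Pat.mk 0x80000000c00000018 0x7e0000007f00000038 6 7) 0 0 (step_sound _ 33 [(rh76e0b7cd2109a1fe.shift 1 0), rhb739f4f82bb681b4] (by decide +kernel))
noncomputable def rhfcea6e6e9645fe3d : CRef := CRef.mk (Pat.mk 0xa0000001c00000000 0x3e000000ff000000e0 6 8) 0 0 (step_sound _ 37 [(rh3f8766e6ecb455ce.shift 1 1), rhe755d80139a0ae3f] (by decide +kernel))
noncomputable def rh2ecb7092c3653313 : CRef := CRef.mk (Pat.mk 0xa0000001c00000000 0x1f000000ff000000e0 6 8) 0 0 (step_sound _ 37 [rh19d6736955c598c4, (rh3f8766e6ecb455ce.shift 1 1)] (by decide +kernel))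
noncomputable def rhebf721a7039df665 : CRef := CRef.mk (Pat.mk 0x18000000100000001000000010 0x270000007e000000ff0000001000000010 6 8) 0 0 (step_sound _ 101 [(rh2f68792b6b779e96.shift 4 0), (rh720bc28ba73daf51.shift 0 2)] (by decide +kernel))
noncomputable def rhd2f5d6bf9517a2cd : CRef := CRef.mk (Pat.mk 0x20000000200000002000000040000000000000000 0x5000000070000000300000002000000070000000700000001 6 3) 0 0 (step_sound _ 65 [(rh55afc6a59410cf00.shift 1 1), rh68da8d9ce8a4b6e9] (by decide +kernel))
noncomputable def rh4e630f92202ad45c : CRef := CRef.mk (Pat.mk 0x10000000e000000000000000000000000 0x80000003b0000001f000000300000001000000010 6 6) 0 0 (step_sound _ 100 [(rh3f8766e6ecb455ce.shift 0 3), rh5dffc5561274dae0] (by decide +kernel))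
noncomputable def rh950e0640272b5437 : CRef := CRef.mk (Pat.mk 0x100000001c00000018000000080000000000000000 0x100000001c0000007f0000007f0000002000000020 6 7) 0 0 (step_sound _ 101 [rha4cbd6800253ee2f, (rhf48373e13d2bc128.shift 2 3)] (by decide +kernel))
noncomputable def rhdf0b44774e6f4f6a : CRef := CRef.mk (Pat.mk 0x180000000c00000008000000000000000000000000 0x80000001c0000001c0000000f0000003c0000001c00000004 6 6) 0 0 (step_sound _ 67 [(rh2d5442cbf338480d.shift 2 1), (rh641b5241be04eec6.shift 0 1), (rh8aec56c4ee12918c.shift 2 0)] (by decide +kernel))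
noncomputable def rh4499a881ca1b068f : CRef := CRef.mk (Pat.mk 0x300000002000000020000000200000000 0x600000006000000060000000300000003000000070000000600000004 6 3) 0 0 (step_sound _ 34 [(rh55afc6a59410cf00.shift 1 0), (rhaf5d76e4debe5402.shift 0 1)] (by decide +kernel))
noncomputable def rhc33c42c15deeba8e : CRef := CRef.mk (Pat.mk 0x2000000020000000600000000 0x400000007000000070000000300000002000000060000000600000004 6 3) 0 0 (step_sound _ 129 [(rh55afc6a59410cf00.shift 1 0), (rhf156dc296789a0f1.shift 0 1)] (by decide +kernel))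
noncomputable def rh364443a8953eeaeb : CRef := CRef.mk (Pat.mk 0x4000000040000000c0000000c0000000000000000 0x100000003e0000000f0000007c0000007e000000f400000004 6 8) 0 0 (step_sound _ 131 [(rh1e309b005ffa1b36.shift 2 0), rh370af384ddd2082c, (rhb9fdadefb3895811.shift 0 1)] (by decide +kernel))
noncomputable def rh82b5f2459bc0562e : CRef := CRef.mk (Pat.mk 0x60000000700000004 0xe0000000e0000003e0000003e0000000700000004 6 6) 0 0 (step_sound _ 68 [(rh06e01e1c08a41fe8.shift 1 0), (rh361cc68994bd8a63.shift 0 1)] (by decide +kernel))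
noncomputable def rh2a5d2e072cb87bc2 : CRef := CRef.mk (Pat.mk 0x200000003000000060000000000000000 0x1000000070000000700000007000000070000001e0000000a00000002 6 5) 0 0 (step_sound _ 67 [rh3d590792a7276b0b, (rhf48373e13d2bc128.shift 0 2)] (by decide +kernel))
noncomputable def rh82f8ddf41d8ee880 : CRef := CRef.mk (Pat.mk 0x20000000200000002000000000000000000000000 0x400000007000000070000000700000003000000070000000700000005 6 3) 0 0 (step_sound _ 65 [rh6204fa91b810ff3e, rh6eff4158bb400f47, (rhb7ee8905496f843d.shift 0 1)] (by decide +kernel))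
noncomputable def rhb40f1bf45939b7a1 : CRef := CRef.mk (Pat.mk 0x1c0000000c000000080000000c 0x2000000020000000600000007c0000003c0000007c0000001f 6 7) 0 0 (step_sound _ 101 [(rh18965a982d73c794.shift 2 2), rha05ed68935fe226e] (by decide +kernel))
noncomputable def rhc134e3506bc78c28 : CRef := CRef.mk (Pat.mk 0x4000000040000000c0000000c 0x1a0000007f0000003e0000000c0000000c 6 7) 0 0 (step_sound _ 99 [(rh2f68792b6b779e96.shift 2 0), rh35dd301646ad41c5] (by decide +kernel))
noncomputable def rh6009553124b30077 : CRef := CRef.mk (Pat.mk 0x100000001000000018000000080000000800000000 0x10000000370000007e000001ef0000007c00000020 6 9) 0 0 (step_sound _ 101 [(rh2820ca9a6c4f41b4.shift 0 2), (rh291728dc9d186c6f.shift 1 0), rh58505726fb59d45b, rhca300808da6dc72d] (by decide +kernel))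
noncomputable def rh509a299c4e5cc4d1 : CRef := CRef.mk (Pat.mk 0x2000000020000000700000000000000000 0x20000000fe0000007e000000c700000040 6 8) 0 0 (step_sound _ 67 [(rh5b2ce1e5aa4a4edd.shift 0 1), (rh625dde73e665edc8.shift 3 0), (rhec46bd5500c722c9.shift 2 2)] (by decide +kernel))
noncomputable def rh716c5325c8876dc4 : CRef := CRef.mk (Pat.mk 0x3800000010 0x70000007f000000fe 6 8) 0 0 (step_sound _ 34 [(rh42d32bf970c9c157.shift 1 0), (rha03f6e28ea70fc7d.shift 1 0), rhc93c85c35c9e08d5] (by decide +kernel))
noncomputable def rh2315428fc87edfbb : CRef := CRef.mk (Pat.mk 0x20000000e0000000000000000 0x8000000080000003b0000001f0000003000000010 6 6) 0 0 (step_sound _ 68 [(rh3244c3cc8379b070.shift 0 2), rh3bc20d0d8c73da06] (by decide +kernel))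
noncomputable def rh19eeec9ef27df724 : CRef := CRef.mk (Pat.mk 0x800000038000000000000001000000010 0x8000000080000007f0000003e000000660000003400000010 6 7) 0 0 (step_sound _ 130 [(rhc02b3aee7ab87ee1.shift 0 3), (rhcc672d021f00e2ac.shift 1 0), (rhd8e93bbc8568df99.shift 1 3), (rhdbcea10a0fbe5ba6.shift 0 3)] (by decide +kernel))
noncomputable def rha97e7d10b5c2120e : CRef := CRef.mk (Pat.mk 0x20000000e0000000000000000 0x8000000080000007e0000003f0000007000000010 6 7) 0 0 (step_sound _ 68 [rh3bc20d0d8c73da06, (rh60e95adc726bb530.shift 1 1), (rh790acd67f4fffd04.shift 1 2)] (by decide +kernel))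
noncomputable def rh0db28fd05c17a2aa : CRef := CRef.mk (Pat.mk 0x160000001c000000000000000800000008 0x18000000180000007f0000007e0000001c000000100000001800000008 6 7) 0 0 (step_sound _ 68 [(rhd4652cea3e25ec60.shift 0 2), (rheea67dfebd0f8008.shift 3 0)] (by decide +kernel))
noncomputable def rh1a224d0670c469d1 : CRef := CRef.mk (Pat.mk 0xc0000001800000000 0x1000000010000000370000003f0000001f00000008 6 6) 0 0 (step_sound _ 65 [rh780d2735d09297fc, (rhb739f4f82bb681b4.shift 0 1)] (by decide +kernel))
noncomputable def rh83b8918b5bcee37a : CRef := CRef.mk (Pat.mk 0x80000000e000000180000001000000000 0x6000000060000000f0000003e0000001f0000003f00000006 6 6) 0 0 (step_sound _ 129 [(rh49f6fa4d23c31d4b.shift 0 1), (rh65595fe2ee4bf785.shift 0 1), rhd53728b659ea90ba] (by decide +kernel))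
noncomputable def rh87fa0a8b0456f79e : CRef := CRef.mk (Pat.mk 0x7800000000 0x3f000000ff00000007 6 8) 0 0 (step_sound _ 34 [rh592c7139d2c44767, (rhd5eb272e07a4e288.shift 1 1), rhf598e23487d34ab3] (by decide +kernel))
noncomputable def rh313454a53b9c0ca9 : CRef := CRef.mk (Pat.mk 0x8000000000000001e000000000000001000000000 0xc0000000c0000003e000000070000003e0000000a 6 6) 0 0 (step_sound _ 65 [(rh6cac474067f98eb3.shift 1 0), (rheb0810cc63b001d8.shift 0 2)] (by decide +kernel))
noncomputable def rh215cd5de90648ac9 : CRef := CRef.mk (Pat.mk 0x1e00000008 0xe7000000fe00000038 6 8) 0 0 (step_sound _ 65 [(rh3244c3cc8379b070.shift 0 1), (rhc031d146355b79c8.shift 1 0)] (by decide +kernel))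
noncomputable def rhec8471564153ce5f : CRef := CRef.mk (Pat.mk 0xe00000018000000080000000000000004 0x12000000330000003e0000001f0000000c0000000400000004 6 6) 0 0 (step_sound _ 132 [(rh5421160f8e9bcf07.shift 1 2), rh65d349eeab1f7ac9] (by decide +kernel))
noncomputable def rh43833f0bcc625770 : CRef := CRef.mk (Pat.mk 0x80000001800000008000000000000000400000000 0x80000003c0000003f000000070000000400000004 6 6) 0 0 (step_sound _ 98 [(rh557b120f072744ca.shift 0 3), rhcf004718049e59cf, (rhdebc43b768884653.shift 2 0)] (by decide +kernel))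
noncomputable def rh6a0ad6ce88010258 : CRef := CRef.mk (Pat.mk 0x1c00000016000000000000000000000000 0x6000000070000001f0000001e000000070000000600000002 6 5) 0 0 (step_sound _ 65 [(rh03f638801e896cdf.shift 0 1), (rh226bd0378e2a72d1.shift 0 1), (rhadf429772c25fde0.shift 1 0)] (by decide +kernel))
noncomputable def rh75b13df3fd19a9bb : CRef := CRef.mk (Pat.mk 0x20000001e0000000a000000000000000000000000 0x20000003e0000003e000000070000000600000006 6 6) 0 0 (step_sound _ 98 [(rh18965a982d73c794.shift 1 3), rh7a6ddb75ca4f2762] (by decide +kernel))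
noncomputable def rh8a7feea2e172fa94 : CRef := CRef.mk (Pat.mk 0x1c0000001c000000000000000000000000 0x4000000040000001c0000001f0000000f0000000a00000002 6 5) 0 0 (step_sound _ 97 [(rh53b3c253cb0c65f4.shift 0 3), rhaeb034a1c5bc589b] (by decide +kernel))
noncomputable def rh9cac86963f299c86 : CRef := CRef.mk (Pat.mk 0x400000000000000060000001e000000000000000000000000 0x60000000600000002000000060000001e000000070000000600000006 6 5) 0 0 (step_sound _ 65 [(rhb9ff50560c38fe93.shift 1 0), (rheb0810cc63b001d8.shift 0 2)] (by decide +kernel))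
noncomputable def rh76b56c5cdbc5c2dc : CRef := CRef.mk (Pat.mk 0xc00000008000000080000000800000000 0x80000000c0000001f000000780000001800000018 6 7) 0 0 (step_sound _ 98 [(rh7b1f1fb55310c477.shift 2 0), rhec9768a6e44eac8b] (by decide +kernel))
noncomputable def rh32f7a0e0efb9be13 : CRef := CRef.mk (Pat.mk 0x200000002000000020000000200000000 0x2000000060000000600000006000000070000000700000003 6 3) 0 0 (step_sound _ 130 [rh0bed7dd68ff38da0, (rh2f68792b6b779e96.shift 1 1)] (by decide +kernel))
noncomputable def rhe78d1df3e1970f0b : CRef := CRef.mk (Pat.mk 0x1000000010000000080000003800000000000000000000000000000000 0x100000001c0000000f0000003c000000080000001c0000001c00000014 6 6) 0 0 (step_sound _ 99 [(rh1006c02ae4212ff0.shift 3 3), rha2b5a1e8c6246f9f] (by decide +kernel))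
noncomputable def rh4188331692a2e4ba : CRef := CRef.mk (Pat.mk 0x1800000018000000000000000000000000 0xf0000007f0000007f000000060000000400000004 6 7) 0 0 (step_sound _ 130 [(rh35f3e58c050f8740.shift 0 3), (rh9811d2b2e3ff978d.shift 1 0), (rhad5d8fc3675c15dd.shift 0 3)] (by decide +kernel))
noncomputable def rh4e944521bbb4e550 : CRef := CRef.mk (Pat.mk 0xf00000004 0x700000007f000000fc 6 8) 0 0 (step_sound _ 36 [rh27f28fc6ea159c6b, rh4ad5fc38f1b69f65, (rha93a5dd541ab8209.shift 1 0), (rhdbe30b89b8872db3.shift 1 0)] (by decide +kernel))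
noncomputable def rh0f42a1df3fa255f5 : CRef := CRef.mk (Pat.mk 0x20000001e00000002000000100000001000000000 0x4000000360000001e000000020000003f0000003f00000004 6 6) 0 0 (step_sound _ 164 [(rh33e738c4ed385b9f.shift 1 4), rhc43112e83ac5bd47] (by decide +kernel))
noncomputable def rh6938a7d501a8fef6 : CRef := CRef.mk (Pat.mk 0x1c000000000000001000000010 0x7f0000007f000000e00000003000000010 6 8) 0 0 (step_sound _ 101 [(rh1fbc9fee05401eba.shift 2 0), (rh3664b03fdc687bbf.shift 0 3), (rhe401600d466b97cd.shift 1 2)] (by decide +kernel))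
noncomputable def rh8e9ed5d5aab89d56 : CRef := CRef.mk (Pat.mk 0x38000000000000002000000020 0x1f70000007e000000c70000006000000020 6 9) 0 0 (step_sound _ 134 [(rh551591afa7e9bd9a.shift 0 2), (rh90fcc1b0fe0017ad.shift 2 3), (rhe480d4d80f0531a6.shift 3 0)] (by decide +kernel))
noncomputable def rh14d3146c6d702300 : CRef := CRef.mk (Pat.mk 0x20000001c000000040000000000000000 0x8000000080000003b0000001f0000000c0000000400000004 6 6) 0 0 (step_sound _ 97 [(rh3244c3cc8379b070.shift 0 3), rh62449674621b75e5] (by decide +kernel))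
noncomputable def rh63361f5fb1b50762 : CRef := CRef.mk (Pat.mk 0xe000000000000000800000008 0x4000000370000003e000000730000001a0000000a 6 7) 0 0 (step_sound _ 100 [(rh1fbc9fee05401eba.shift 1 0), rh6076add87d5fdaa7, (rhe401600d466b97cd.shift 0 2)] (by decide +kernel))
noncomputable def rh3994aa5341752b2e : CRef := CRef.mk (Pat.mk 0xe0000000c00000018 0x600000006000000070000003e0000000f00000018 6 6) 0 0 (step_sound _ 33 [rh6e729590e6c0a6f7, rhb739f4f82bb681b4] (by decide +kernel))
noncomputable def rh9070a047a673d454 : CRef := CRef.mk (Pat.mk 0x2000000030000000f0000000400000000 0xd0000001f0000001b0000000f0000000600000002 6 5) 0 0 (step_sound _ 99 [rh2c5e340fa9cd7296, (rh33e738c4ed385b9f.shift 0 2)] (by decide +kernel))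
noncomputable def rh64ba7aa48d5b91bf : CRef := CRef.mk (Pat.mk 0x8000000000000001e000000100000000000000000 0x80000000a0000000b0000003e000000170000000400000004 6 6) 0 0 (step_sound _ 65 [rhdd4d9ddb3f0dbcdd, (rheb0810cc63b001d8.shift 0 2)] (by decide +kernel))
noncomputable def rhd4123d721fda7464 : CRef := CRef.mk (Pat.mk 0x200000002000000000000000f00000004 0x1f0000001e000000180000000f0000001c 6 5) 0 0 (step_sound _ 67 [(rh33e738c4ed385b9f.shift 0 1), rhc1a9b2edc7486875] (by decide +kernel))
noncomputable def rh4d54976ecc05b874 : CRef := CRef.mk (Pat.mk 0xa000000030000000600000004000000000000000000000000 0x40000001e000000030000000700000007000000030000000300000002 6 5) 0 0 (step_sound _ 194 [(rh18965a982d73c794.shift 0 5), rhbce0f12bd9296d97] (by decide +kernel))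
noncomputable def rhfb958972ffb727e6 : CRef := CRef.mk (Pat.mk 0x80000000e0000001800000010000000000000000000000000 0x40000000c0000000e0000001f0000001f0000000e0000000c00000008 6 5) 0 0 (step_sound _ 99 [(rh1152aee0afa96cae.shift 2 0), (rhd1ec8d824844addf.shift 0 2), (rhe286c75f2739cce2.shift 2 2)] (by decide +kernel))
noncomputable def rhc85237319c62501f : CRef := CRef.mk (Pat.mk 0x80000000800000018000000180000000000000000 0x1000000018000000080000001f0000007f0000000c00000004 6 7) 0 0 (step_sound _ 164 [rh1b9effff634a43c9, (rh2f68792b6b779e96.shift 3 2)] (by decide +kernel))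
noncomputable def rhe06e7c08f630d8da : CRef := CRef.mk (Pat.mk 0x20000000200000000000000070000000c 0x1f0000001e000000180000000f0000001c 6 5) 0 0 (step_sound _ 35 [rhe25b0a99195a5d59, rhee5a3a5c88bf0d79] (by decide +kernel))
noncomputable def rha3dc4174302275b1 : CRef := CRef.mk (Pat.mk 0x80000003800000008000000000000000000000000 0x40000000f0000003c000000080000001c0000001c00000014 6 6) 0 0 (step_sound _ 162 [(rh56259dd1390eee46.shift 2 0), (rhdbcea10a0fbe5ba6.shift 0 4)] (by decide +kernel))
noncomputable def rha4de1e335327dc78 : CRef := CRef.mk (Pat.mk 0x2000000020000001e00000006 0x20000000380000003d0000001f0000003a0000001e0000000e 6 6) 0 0 (step_sound _ 68 [(rh33e738c4ed385b9f.shift 1 1), rh7dc371a889c7a211] (by decide +kernel))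
noncomputable def rh74d1c3aedb66c8d2 : CRef := CRef.mk (Pat.mk 0xf00000002 0xfc0000007f000000e6 6 8) 0 0 (step_sound _ 36 [rh31e351ef79ee1ce8, (rh3d54e7f933686048.shift 1 0), (rh9890f9d77740bbed.shift 0 1)] (by decide +kernel))
noncomputable def rhfb4db0f1ceebc294 : CRef := CRef.mk (Pat.mk 0x2000000020000000e0000000600000000 0xd0000001f0000001b0000000e0000000600000002 6 5) 0 0 (step_sound _ 128 [(rh50fbb5868c909700.shift 0 1), rh77264bd419824fe3] (by decide +kernel))
noncomputable def rh072e16e08412f058 : CRef := CRef.mk (Pat.mk 0x1e000000100000000000000000 0x4000000040000003f0000001f0000000300000002 6 6) 0 0 (step_sound _ 65 [rh945dbac8797118fc, (rheb0810cc63b001d8.shift 0 2)] (by decide +kernel))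
noncomputable def rheb8484afc668898b : CRef := CRef.mk (Pat.mk 0x4000000000000001e0000000a0000000000000000 0x6000000070000001e0000003e0000000700000004 6 6) 0 0 (step_sound _ 129 [(rh3244c3cc8379b070.shift 0 3), rh7608513f662c34ef] (by decide +kernel))
noncomputable def rh6e246f6c0a1c7d28 : CRef := CRef.mk (Pat.mk 0x14000000000000001e00000000 0x1000000070000001f000000030000001e00000003 6 5) 0 0 (step_sound _ 65 [(rh3244c3cc8379b070.shift 0 1), rh987ec049dc38e70c] (by decide +kernel))
noncomputable def rh217cd4af2d68bc15 : CRef := CRef.mk (Pat.mk 0x400000007800000020 0x40000000400000004e0000007e00000037 6 7) 0 0 (step_sound _ 134 [rh2efad3051cff7df1, (rhee230b994cc8b773.shift 5 0)] (by decide +kernel))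
noncomputable def rhb862f592ca078726 : CRef := CRef.mk (Pat.mk 0x200000002000000000000000f00000004 0x1f0000001e000000180000000f0000001c 6 5) 0 0 (step_sound _ 3 [rhe25b0a99195a5d59, rhee5a3a5c88bf0d79] (by decide +kernel))
noncomputable def rh572bede94bee5b9d : CRef := CRef.mk (Pat.mk 0x800000008000000000000001e000000100000000000000000 0x80000000c000000040000003f0000001f0000000300000002 6 6) 0 0 (step_sound _ 65 [rhd42f4b979a54c057, (rheb0810cc63b001d8.shift 0 2)] (by decide +kernel))
noncomputable def rh1dbc986ba2201413 : CRef := CRef.mk (Pat.mk 0x4000000140000000e000000180000000000000000 0x8000000180000003c0000001f0000001e0000001f0000003000000030 6 6) 0 0 (step_sound _ 131 [(rh01028dd925ac64f6.shift 0 2), rh30ba31b1ecf09c30, (rh4070769292e08e0f.shift 2 1), (rh8bfafb9e7ef9ac91.shift 0 1)] (by decide +kernel))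
noncomputable def rhb861370836e548c7 : CRef := CRef.mk (Pat.mk 0x800000008000000180000007000000000 0x30000000780000001e000000380000007f000000e8 6 8) 0 0 (step_sound _ 35 [(rhd65b950e17d04dd6.shift 1 0), rhe74f96057964b96f, (rhefddf76ae3f6b005.shift 1 0)] (by decide +kernel))
noncomputable def rh92af97cea8977e54 : CRef := CRef.mk (Pat.mk 0x1800000018000000100000001000000000 0x40000001f000000380000001e0000007800000028 6 7) 0 0 (step_sound _ 35 [rh226032381ad4e358, (rh932754581e0f4330.shift 3 0)] (by decide +kernel))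
noncomputable def rh548995c5d643c767 : CRef := CRef.mk (Pat.mk 0x18000000380000000000000000 0xc0000000c0000000f0000003e000000380000001800000010 6 6) 0 0 (step_sound _ 98 [rh600a09006fe572b6, (rhb739f4f82bb681b4.shift 1 2)] (by decide +kernel))
noncomputable def rhf1e5eac82b7ae6d2 : CRef := CRef.mk (Pat.mk 0x1000000018000000380000000000000000 0xc0000000c0000001f000000f8000000780000001c00000004 6 8) 0 0 (step_sound _ 131 [(rhdb73785d96c3936b.shift 0 1), rhdc3e2e859da4bd92, (rhfc7c29d8e65d775f.shift 3 1)] (by decide +kernel))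
noncomputable def rhf492c78a832a0261 : CRef := CRef.mk (Pat.mk 0x8000000080000001800000030000000000000000000000000 0x40000000c0000001c00000038000000ff000000e80000000800000008 6 8) 0 0 (step_sound _ 102 [rh9c4496df4299e4fb, (rhf48373e13d2bc128.shift 3 3)] (by decide +kernel))
noncomputable def rh190d086f1579bb77 : CRef := CRef.mk (Pat.mk 0x3800000018000000100000001800000000 0xc6000000ff00000038000000180000003800000020 6 8) 0 0 (step_sound _ 37 [(rh55afc6a59410cf00.shift 4 0), (rh9d018c92315c0fd0.shift 0 1)] (by decide +kernel))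
noncomputable def rh98a9d12a5046b73d : CRef := CRef.mk (Pat.mk 0xc00000008000000180000001000000000 0x1000000030000000ff0000007e000000180000003800000028 6 8) 0 0 (step_sound _ 100 [(rh75ea294132184f25.shift 1 3), (rh886e09cbb91bf7e4.shift 1 0), rh959f00b1d87effbc, (rha8230855b165d746.shift 1 0), (rhdeca8db941583de2.shift 0 3)] (by decide +kernel))
noncomputable def rhe1eab8e4c94bcbe2 : CRef := CRef.mk (Pat.mk 0x80000001800000010000000300000002000000000 0x800000028000000ef0000007e00000070000000700000006000000040 6 8) 0 0 (step_sound _ 195 [(rh2145e1d24b96a57e.shift 3 3), rh40c721d14692094d] (by decide +kernel))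
noncomputable def rhcacbe17ffaa48356 : CRef := CRef.mk (Pat.mk 0x80000001800000010000000300000002000000000 0x20000000ef000000fe0000007f000000300000006000000040 6 8) 0 0 (step_sound _ 133 [(rh355f0dc964d44ac2.shift 2 1), (rh40de1aea1718382e.shift 2 1), rh9c4154f04f6b27ec, (rh9f93e2b24091a43d.shift 2 3)] (by decide +kernel))
noncomputable def rhfd8bd4722d8df139 : CRef := CRef.mk (Pat.mk 0xc00000008000000080000000800000000 0x80000000c0000000c0000003c0000000f0000000e 6 6) 0 0 (step_sound _ 98 [(rh7b1f1fb55310c477.shift 2 0), rhb1111a1bcb4ac16d] (by decide +kernel))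
noncomputable def rh2241842ebdf38a56 : CRef := CRef.mk (Pat.mk 0x8000000080000000800000010 0x140000001f00000038000000080000001800000018 6 6) 0 0 (step_sound _ 131 [rh8b983d8d38afc2fd, (rhd3458b32566d63f7.shift 3 0)] (by decide +kernel))
noncomputable def rh8e310dd8807c51fb : CRef := CRef.mk (Pat.mk 0x100000000c00000008000000080000000800000000 0x800000018000000180000000f0000003c000000180000000800000008 6 6) 0 0 (step_sound _ 163 [rh129fbcef5390873d, (rh2f68792b6b779e96.shift 3 2)] (by decide +kernel))
noncomputable def rhaa2d62badf9d9cd7 : CRef := CRef.mk (Pat.mk 0x4000000018000000300000002000000000 0x8000000680000003e0000003f0000007600000004 6 7) 0 0 (step_sound _ 98 [(rhb739f4f82bb681b4.shift 1 2), rhe52e8b7c2168ec2d] (by decide +kernel))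
noncomputable def rh0d11708815459f59 : CRef := CRef.mk (Pat.mk 0x10000000060000000c000000080000000800000000 0x8000000180000001a0000000e0000003c0000003c0000000f00000006 6 6) 0 0 (step_sound _ 100 [rh2de91f97942d4665, (rhf48373e13d2bc128.shift 1 3)] (by decide +kernel))
noncomputable def rh9cb438f2e9c94f08 : CRef := CRef.mk (Pat.mk 0xc00000004000000040000000c00000000 0x100000007c0000000e0000000f0000003c00000014 6 7) 0 0 (step_sound _ 99 [rh6af88838b482281b, (rh71222050f2c63a3a.shift 2 0)] (by decide +kernel))
noncomputable def rhba8839eea1322a52 : CRef := CRef.mk (Pat.mk 0xc0000001c0000000800000018 0x200000002000000020000000f0000001f0000003f0000003c 6 6) 0 0 (step_sound _ 97 [rh078be11dcbb2c9c6, (rhb739f4f82bb681b4.shift 0 2)] (by decide +kernel))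
noncomputable def rh08258b0e9e44dea9 : CRef := CRef.mk (Pat.mk 0xc0000000c000000080000000000000000 0x80000000c0000001f000000780000001800000018 6 7) 0 0 (step_sound _ 35 [rh043a69081cbdad05, (rh7b1f1fb55310c477.shift 2 0)] (by decide +kernel))
noncomputable def rh4d85f049d545997d : CRef := CRef.mk (Pat.mk 0x400000018000000080000000800000000 0xc0000000c000000780000001f0000000c00000004 6 7) 0 0 (step_sound _ 131 [(rh50fbb5868c909700.shift 2 1), rh5314ad494858c628] (by decide +kernel))
noncomputable def rh5933b47e276e704e : CRef := CRef.mk (Pat.mk 0xc0000000c00000008 0x80000001c0000003e0000007f0000000c0000000c 6 7) 0 0 (step_sound _ 98 [(rh2145e1d24b96a57e.shift 2 0), rh99d24683c7e1c48d] (by decide +kernel))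
noncomputable def rh48efe263e685f48a : CRef := CRef.mk (Pat.mk 0x2000000030000000e0000000200000000 0x1d0000001f0000000b0000000e0000000600000004 6 5) 0 0 (step_sound _ 128 [(rh50fbb5868c909700.shift 0 1), rhca41563c2bd3850d] (by decide +kernel))
noncomputable def rhf936b98f373260c2 : CRef := CRef.mk (Pat.mk 0x4000000040000000c00000000 0xa0000000f0000003c000000040000000c0000000c 6 6) 0 0 (step_sound _ 130 [rh305945700f20b255, (rh55afc6a59410cf00.shift 2 0)] (by decide +kernel))
noncomputable def rhd614d82a5282ce54 : CRef := CRef.mk (Pat.mk 0x18000000100000001000000038 0x1e7000000fe000001df0000001e00000078 6 9) 0 0 (step_sound _ 101 [(rh2f68792b6b779e96.shift 4 0), rhafbb95de565953c9] (by decide +kernel))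
noncomputable def rhb072e3944f945a17 : CRef := CRef.mk (Pat.mk 0x8000000080000001e00000018000000000000000000000000 0x80000000b0000001e0000001f000000070000000700000005 6 5) 0 0 (step_sound _ 97 [rh057337f4ba57fe6f, (rheb0810cc63b001d8.shift 0 3)] (by decide +kernel))
noncomputable def rh5534454daef8ee24 : CRef := CRef.mk (Pat.mk 0x800000008000000080000001e00000000 0x140000003c0000000f0000000c0000001e00000003 6 6) 0 0 (step_sound _ 130 [(rh50fbb5868c909700.shift 2 1), rh7792aab5cab05a6d] (by decide +kernel))
noncomputable def rh5ce708a043534166 : CRef := CRef.mk (Pat.mk 0x800000008000000080000001e00000000 0x140000001f0000000f0000000b0000001e00000003 6 5) 0 0 (step_sound _ 132 [(rh2f68792b6b779e96.shift 3 1), rhbda094784f1e2542] (by decide +kernel))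
noncomputable def rh469dff282109d152 : CRef := CRef.mk (Pat.mk 0x38000000100000003000000030 0x1c7000000fe000001de0000003e00000074 6 9) 0 0 (step_sound _ 66 [(rh076be03eb7063320.shift 1 2), rhdcd5b43d4389d8a3, (rhf2b3bcf1454375d8.shift 2 2)] (by decide +kernel))
noncomputable def rh08dca7c6855fe2db : CRef := CRef.mk (Pat.mk 0x800000008000000180000001000000010 0x2000000028000001ef000000fe000001f600000014 6 9) 0 0 (step_sound _ 69 [(rh9c94213f6896c74a.shift 2 1), (rha9fbfd4bb8cf890b.shift 0 2), (rhbb07bccc04294ee7.shift 1 0), (rhef6deb9f03228860.shift 1 0)] (by decide +kernel))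
noncomputable def rhfa15522ea287522b : CRef := CRef.mk (Pat.mk 0x1800000008000000080000001800000000 0x1800000018000001f8000000ff000001e4 6 9) 0 0 (step_sound _ 34 [rh8ab889dd887170ab, (rh932754581e0f4330.shift 2 0)] (by decide +kernel))
noncomputable def rh11228a1b9cd83473 : CRef := CRef.mk (Pat.mk 0x1000000010000000100000003000000000 0x100000001000000010000000ff0000007e00000007 6 8) 0 0 (step_sound _ 35 [(rh25903f9c548d38bc.shift 1 1), (rh292e135d17d1e2e1.shift 1 1), (rh2f6cd3183cec8379.shift 3 1), rh63e3305009f2fc66] (by decide +kernel))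
noncomputable def rh6269120b76413712 : CRef := CRef.mk (Pat.mk 0x1c0000000c000000080000000800000000 0x600000007f0000003c000000180000001800000010 6 7) 0 0 (step_sound _ 133 [(rh18965a982d73c794.shift 2 3), rh77a0878b5373d71d] (by decide +kernel))
noncomputable def rh8df9bbeceee9cdb3 : CRef := CRef.mk (Pat.mk 0x8000000000000001c000000180000000000000000 0x80000000b0000003f0000001f0000000400000004 6 6) 0 0 (step_sound _ 97 [(rhb739f4f82bb681b4.shift 0 2), rhc87b937b64e495b5] (by decide +kernel))
noncomputable def rh562b4fabdc7b25de : CRef := CRef.mk (Pat.mk 0x4000000000000001e00000018 0x380000003c000000370000001e00000018 6 6) 0 0 (step_sound _ 68 [(rh33e738c4ed385b9f.shift 1 1), rh3580d012a1f304b7] (by decide +kernel))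
noncomputable def rhe44af4fe7586407d : CRef := CRef.mk (Pat.mk 0x180000001c00000000 0x2000000020000000670000007f0000007c00000010 6 7) 0 0 (step_sound _ 69 [(rh18965a982d73c794.shift 2 1), rhb0f420dcc7ac1c8f] (by decide +kernel))
noncomputable def rhaac0b4e534323566 : CRef := CRef.mk (Pat.mk 0x4000000020000001e00000008 0x1000000170000001f000000320000001e0000000b 6 6) 0 0 (step_sound _ 1 [rheafe16f0deea3b1c, rheb0810cc63b001d8] (by decide +kernel))
noncomputable def rh241debdc81a11ec1 : CRef := CRef.mk (Pat.mk 0x1000000008000000180000000000000000 0x140000001c0000001e0000007c0000000f000000180000001800000008 6 7) 0 0 (step_sound _ 131 [(rh4f7c45ff44e554b2.shift 1 1), rh6bc015b9268c8423, (rhc890c76c8379cdee.shift 3 1), (rhfb9fb48a5e63ed80.shift 2 1)] (by decide +kernel))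
noncomputable def rh1f33a790a9be3af1 : CRef := CRef.mk (Pat.mk 0x1000000000000000200000002000000000000000000000000 0x50000000700000007000000070000000600000006000000060000000600000004 6 3) 0 0 (step_sound _ 161 [(rh114f4abf4ea101c9.shift 0 2), (rhf3c18d8cfe33c40d.shift 0 2), rhf435f65ca384ce7a] (by decide +kernel))
noncomputable def rh5dc88e7c751e18b2 : CRef := CRef.mk (Pat.mk 0x1000000000000000200000002000000000000000000000000 0x50000000700000007000000030000000700000006000000070000000700000005 6 3) 0 0 (step_sound _ 161 [(rh0dbc8abee7ad42d4.shift 0 2), rhc05d451ce3dd5e48, (rhf3c18d8cfe33c40d.shift 0 2)] (by decide +kernel))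
noncomputable def rhb8f19df912597004 : CRef := CRef.mk (Pat.mk 0x1000000038000000000000000000000000 0x8000000ff000000fe000001c70000000400000004 6 9) 0 0 (step_sound _ 98 [(rh096767d96a1b3292.shift 2 2), (rh592c7139d2c44767.shift 0 2), (rh6076add87d5fdaa7.shift 1 0)] (by decide +kernel))
noncomputable def rh9e67bdfc49d1452a : CRef := CRef.mk (Pat.mk 0x400000004000000000000000800000008000000080000000800000000 0x400000006000000130000003f0000003f000000080000000800000008 6 6) 0 0 (step_sound _ 132 [rh0c40da2ec9ce70d0, (rh2f68792b6b779e96.shift 3 1)] (by decide +kernel))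
noncomputable def rh69bdd90e728ccc00 : CRef := CRef.mk (Pat.mk 0x40000001e00000004 0x3000000030000003f0000001e00000007 6 6) 0 0 (step_sound _ 65 [(rh3244c3cc8379b070.shift 0 1), rhd70684f67721368b] (by decide +kernel))
noncomputable def rh96a12e213b13a6de : CRef := CRef.mk (Pat.mk 0x100000000e0000000800000000 0x400000004000000370000003e0000000b00000002 6 6) 0 0 (step_sound _ 68 [(rh33e738c4ed385b9f.shift 1 2), rh44dd78dd79fc4e0b] (by decide +kernel))
noncomputable def rha587e0688a1fe888 : CRef := CRef.mk (Pat.mk 0x100000000e0000001800000000 0x1400000014000000170000003e0000001b0000000a 6 6) 0 0 (step_sound _ 68 [rh44dd78dd79fc4e0b, (rh503dd4575245365b.shift 3 0)] (by decide +kernel))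
noncomputable def rh926b5203449ef85d : CRef := CRef.mk (Pat.mk 0x160000001c0000000000000000 0x1a0000001e0000003f0000001e0000001f0000000700000002 6 6) 0 0 (step_sound _ 99 [(rh4e69eed3bf238a02.shift 0 1), rh81df3c7a5b7d1079, (rhee24d2c19eefd14b.shift 0 1)] (by decide +kernel))
noncomputable def rhd39e6d94ea1d35ca : CRef := CRef.mk (Pat.mk 0x160000001c00000000 0x1a0000001a0000007f0000007e0000001c00000004 6 7) 0 0 (step_sound _ 67 [(rh226655e3fe6b4a8a.shift 1 1), rh4e69eed3bf238a02, (rh6e8a826a5508ce46.shift 0 1)] (by decide +kernel))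
noncomputable def rh5227abe5b2faa98a : CRef := CRef.mk (Pat.mk 0x1000000008000000080000000800000000 0x1800000018000000080000007c0000001f00000004 6 7) 0 0 (step_sound _ 131 [(rh2f68792b6b779e96.shift 3 1), rh980b42d53e606c8c] (by decide +kernel))
noncomputable def rh9d6caa757c0527f4 : CRef := CRef.mk (Pat.mk 0x200000002000000000000000400000004 0x500000007000000070000000200000002000000060000000600000004 6 3) 0 0 (step_sound _ 65 [(rh1148744b53f3df58.shift 0 1), (rhbe0e43a3bc50a43f.shift 1 0)] (by decide +kernel))
noncomputable def rhf891ff19e1968bc2 : CRef := CRef.mk (Pat.mk 0x1e00000018 0x30000000300000003f0000003e00000018 6 6) 0 0 (step_sound _ 68 [(rh33e738c4ed385b9f.shift 1 1), rha885c1248e783739] (by decide +kernel))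
noncomputable def rhaa5c0d144f3a8d25 : CRef := CRef.mk (Pat.mk 0x1e000000180000000000000000 0x4000000370000001e0000001f0000000300000003 6 6) 0 0 (step_sound _ 65 [rh60bc78ca606eddaf, (rheb0810cc63b001d8.shift 0 2)] (by decide +kernel))
noncomputable def rhe21061f54c6146c3 : CRef := CRef.mk (Pat.mk 0x1800000018000000000000002000000020 0x1c0000001c0000001f0000003800000018000000080000003c0000007c 6 7) 0 0 (step_sound _ 67 [(rh84d1c02a8954c6a8.shift 3 1), (rh96937d61ef02b42d.shift 0 2), (rhfce0c3db2547ee36.shift 2 0)] (by decide +kernel))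
noncomputable def rhf3db2ec8c5c125b7 : CRef := CRef.mk (Pat.mk 0x100000000000000020000000200000002000000000000000000000000 0x100000003000000030000000200000002000000070000000700000005 6 3) 0 0 (step_sound _ 192 [rhc05d451ce3dd5e48, (rhcfdf45280693d3da.shift 0 3)] (by decide +kernel))
noncomputable def rhd72920fb2add2f79 : CRef := CRef.mk (Pat.mk 0x2000000020000000200000002000000000000000000000000 0x200000002000000060000000600000007000000070000000300000002 6 3) 0 0 (step_sound _ 98 [(rh55afc6a59410cf00.shift 1 2), rhd4de6f1d5a5f06a0] (by decide +kernel))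
noncomputable def rh61890f6bc0c86238 : CRef := CRef.mk (Pat.mk 0x8000000080000000c00000018000000000000000000000000 0x10000000180000001c0000000f000000180000000c0000000c00000004 6 5) 0 0 (step_sound _ 129 [(rhb739f4f82bb681b4.shift 0 3), (rhefd79340f4dd10da.shift 2 0)] (by decide +kernel))
noncomputable def rh7c54c14170542785 : CRef := CRef.mk (Pat.mk 0x100000001c000000000000000000000000 0x2000000330000003e000000070000000400000004 6 6) 0 0 (step_sound _ 97 [(rh33e738c4ed385b9f.shift 1 3), rhafa5a7051d37b143] (by decide +kernel))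
noncomputable def rh60748de94e152956 : CRef := CRef.mk (Pat.mk 0x10000000100000001c0000000c000000000000000000000000 0x1c0000001c0000001c0000007f000000370000001200000002 6 7) 0 0 (step_sound _ 97 [(rh53b3c253cb0c65f4.shift 0 3), rh5dda60926a83f643] (by decide +kernel))
noncomputable def rh90c43e6495f14677 : CRef := CRef.mk (Pat.mk 0x2000000020000000700000000000000000 0x20000000fe0000007e000000c700000040 6 8) 0 0 (step_sound _ 67 [(rh5b2ce1e5aa4a4edd.shift 0 1), (rh625dde73e665edc8.shift 3 0), (rh98619266ffce163e.shift 2 2)] (by decide +kernel))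
noncomputable def rh2606a92fa005c94c : CRef := CRef.mk (Pat.mk 0x1000000038000000280000000000000000 0x10000000780000002f0000007c00000028 6 7) 0 0 (step_sound _ 66 [(rh18965a982d73c794.shift 2 2), rha7be43fe7390d594] (by decide +kernel))
noncomputable def rhb7331f9e14c15616 : CRef := CRef.mk (Pat.mk 0x800000008000000000000001c00000014000000000000000000000000 0x80000000e000000070000001f0000001f000000070000000600000002 6 5) 0 0 (step_sound _ 162 [(rh1006c02ae4212ff0.shift 2 3), rh2d1293cdc582ffee] (by decide +kernel))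
noncomputable def rh7f52302ad42d4238 : CRef := CRef.mk (Pat.mk 0x40000000f000000000 0x7f000001fe00000007 6 9) 0 0 (step_sound _ 35 [rh5e601430b8bc2e39, (rhd1df76528d323d50.shift 2 1), (rhd5eb272e07a4e288.shift 2 1)] (by decide +kernel))
noncomputable def rh293c8f5a69fe342f : CRef := CRef.mk (Pat.mk 0x800000008000000080000000800000008000000000000000000000000 0x80000001c0000003c0000001f0000000c000000180000001800000010 6 6) 0 0 (step_sound _ 130 [(rh932754581e0f4330.shift 2 3), rhea06e7f9fd5aef33] (by decide +kernel))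
noncomputable def rh89a50680381802a4 : CRef := CRef.mk (Pat.mk 0x18000000100000001000000010 0x270000007e000000ff0000001000000010 6 8) 0 0 (step_sound _ 101 [(rh2e674eb34a342e27.shift 0 2), (rh2f68792b6b779e96.shift 4 0)] (by decide +kernel))
noncomputable def rh217db693e04106a5 : CRef := CRef.mk (Pat.mk 0x2000000020000000200000002000000000000000000000000 0x400000006000000060000000200000003000000070000000700000004 6 3) 0 0 (step_sound _ 194 [(rh2f68792b6b779e96.shift 1 3), rhb727fe8857cd677f] (by decide +kernel))
noncomputable def rh7e76050b44d77eeb : CRef := CRef.mk (Pat.mk 0x8000000080000000800000008000000080000000000000000 0x1c0000001f0000000c000000080000000c0000000c00000004 6 5) 0 0 (step_sound _ 162 [rh2767df65193176ea, (rh50fbb5868c909700.shift 2 2)] (by decide +kernel))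
noncomputable def rh617fa08c51d1fd57 : CRef := CRef.mk (Pat.mk 0xc0000000e000000080000000000000000 0x2000000030000007f0000003e0000007f0000000700000002 6 7) 0 0 (step_sound _ 100 [(rh02f2484ff4ddb10f.shift 0 1), rh4a291c532582554d, (rh5c4e3b9267338a4f.shift 1 2)] (by decide +kernel))
noncomputable def rhdc48da121d6aeb87 : CRef := CRef.mk (Pat.mk 0x200000002000000020000000200000002000000000000000000000000 0x600000006000000070000000300000003000000060000000600000004 6 3) 0 0 (step_sound _ 194 [(rh2f68792b6b779e96.shift 1 3), rh678b469c748f9cec] (by decide +kernel))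
noncomputable def rhad85ec5ee1222fff : CRef := CRef.mk (Pat.mk 0x400000000000000080000001c00000000 0x4000000040000007f0000007f00000003 6 7) 0 0 (step_sound _ 66 [rh7b07991295f6496f, rh7ff0991ff731ccf7, (rhe2b63c00a3d7bb73.shift 0 1)] (by decide +kernel))
noncomputable def rh0b94c84872a71742 : CRef := CRef.mk (Pat.mk 0x80000003800000008000000000000000000000000 0x40000000f0000003c000000080000001c0000001c00000014 6 6) 0 0 (step_sound _ 162 [(rh0a6888916bcef86b.shift 2 0), (rhdbcea10a0fbe5ba6.shift 0 4)] (by decide +kernel))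
noncomputable def rh1677a069cfaca3ee : CRef := CRef.mk (Pat.mk 0x20000000000000004000000040000000000000000 0x20000000a0000003e0000000700000006000000060000000400000004 6 6) 0 0 (step_sound _ 129 [(rh0188917d0a15b7ff.shift 1 2), (rh5c429875cf5358f7.shift 0 1), (rh74a43b9a483760f6.shift 1 0), (rhe482ee30a2733b5f.shift 1 0)] (by decide +kernel))
noncomputable def rhc223390219a649bf : CRef := CRef.mk (Pat.mk 0x4000000040000000400000002 0xa0000000f0000003c000000040000000600000006 6 6) 0 0 (step_sound _ 130 [rh305945700f20b255, (rh79877ebd3ef475dd.shift 1 0)] (by decide +kernel))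
noncomputable def rhaabd502db063cd1a : CRef := CRef.mk (Pat.mk 0x4000000040000000c00000000 0xa0000000f0000003c000000040000000c0000000c 6 6) 0 0 (step_sound _ 130 [(rh55afc6a59410cf00.shift 2 0), rhf149b0c20b930719] (by decide +kernel))
noncomputable def rhb70df0c7a1006ed0 : CRef := CRef.mk (Pat.mk 0xc000000060000000c0000000800000000 0x100000003c0000000e0000000f0000003c00000014 6 6) 0 0 (step_sound _ 132 [(rh18965a982d73c794.shift 1 3), rhd42d99ecbd00ef0c] (by decide +kernel))
noncomputable def rh102fb258c8ca6b06 : CRef := CRef.mk (Pat.mk 0x1800000008000000180000000800000008000000040000000000000000 0x180000000f0000001c00000018000000080000001c0000001c00000010 6 5) 0 0 (step_sound _ 67 [(rh932754581e0f4330.shift 2 1), rhee56eb60375f83c2] (by decide +kernel))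
noncomputable def rhfc74abf75a0cb9f0 : CRef := CRef.mk (Pat.mk 0x180000000c000000180000000000000000 0x380000003f0000001f0000003000000010 6 6) 0 0 (step_sound _ 97 [(rh53b3c253cb0c65f4.shift 0 3), rh705acc7d329976c8] (by decide +kernel))
noncomputable def rhb86cb87a892c64a6 : CRef := CRef.mk (Pat.mk 0x6000000030000000e000000000000000000000000 0x4000000140000003c0000001e0000000b0000000e0000003c0000001400000004 6 6) 0 0 (step_sound _ 163 [(rh18965a982d73c794.shift 0 4), (rhf8f0e81b701c7c76.shift 1 0)] (by decide +kernel))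
noncomputable def rhc86bf5508812963d : CRef := CRef.mk (Pat.mk 0xe000000060000000600000000 0x1c0000003c0000000e0000003e0000000f00000008 6 6) 0 0 (step_sound _ 130 [(rh5c5e593799055d58.shift 1 1), rhe89f7170993cdb84] (by decide +kernel))
noncomputable def rh5db1fa44cd2c27f6 : CRef := CRef.mk (Pat.mk 0xc000000040000000c0000000000000000 0x180000003c0000000f0000000c0000000c0000000c 6 6) 0 0 (step_sound _ 34 [(rh2f68792b6b779e96.shift 2 1), rh51c199f4bf0b3538] (by decide +kernel))
noncomputable def rhd93c57696b14eda7 : CRef := CRef.mk (Pat.mk 0x1000000008000000080000001800000000 0xc0000001e000000780000001f0000003c00000008 6 7) 0 0 (step_sound _ 100 [(rh6b8c4edf951392d7.shift 0 1), (rh71222050f2c63a3a.shift 3 0)] (by decide +kernel))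
noncomputable def rha843ac6af038b7c8 : CRef := CRef.mk (Pat.mk 0x200000002000000020000000200000000 0x700000007000000070000000600000006000000060000000200000002 6 3) 0 0 (step_sound _ 161 [(rh1741680720c097b4.shift 0 2), rh2c8d9f772b3bf7e8, (rh44f453b84f013105.shift 1 1)] (by decide +kernel))
noncomputable def rhb1a32ded43f01f1c : CRef := CRef.mk (Pat.mk 0x80000000800000008000000000000000000000000 0x40000000c0000000c000000080000001c0000003c0000001f0000001400000004 6 6) 0 0 (step_sound _ 66 [(rh0e6924d680f6455d.shift 2 0), (rh3743dbe66b959104.shift 2 0), (rhac4b4763407a46df.shift 0 1), (rhe16036ff578a11df.shift 2 2)] (by decide +kernel))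
noncomputable def rh011f6d90b8ab0f69 : CRef := CRef.mk (Pat.mk 0x80000000800000008000000080000000c0000001000000000 0x140000001c0000001c0000000800000008000000080000000f0000001800000010 6 5) 0 0 (step_sound _ 35 [(rh55afc6a59410cf00.shift 3 0), (rh7e3fd002aa70da8f.shift 0 1)] (by decide +kernel))
noncomputable def rhefd8f0758b51c670 : CRef := CRef.mk (Pat.mk 0x800000008000000180000001000000000 0x30000000780000001e000000380000001f0000000c 6 7) 0 0 (step_sound _ 35 [rh6fae963f33cfdfd7, (rhd65b950e17d04dd6.shift 1 0)] (by decide +kernel))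
noncomputable def rhb10ebbd9973953c9 : CRef := CRef.mk (Pat.mk 0x400000002000000020000000600000000000000000000000000000000 0x400000006000000060000000600000003000000070000000700000004 6 3) 0 0 (step_sound _ 97 [rh0b7b56b1d93191f8, (rhbaefcd01e0a8bca3.shift 1 3)] (by decide +kernel))
noncomputable def rh7bca501b2d0ea232 : CRef := CRef.mk (Pat.mk 0x200000002000000020000000200000000 0x400000007000000070000000300000002000000060000000600000004 6 3) 0 0 (step_sound _ 34 [(rh55afc6a59410cf00.shift 1 0), (rhf156dc296789a0f1.shift 0 1)] (by decide +kernel))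
noncomputable def rh247326795e9acaa0 : CRef := CRef.mk (Pat.mk 0x1800000008000000080000001c00000000 0x20000000780000001e0000003c000000ff00000020 6 8) 0 0 (step_sound _ 68 [(rhab2ad169e49f9c5e.shift 0 1), (rhb19752b4b16e80fb.shift 1 0)] (by decide +kernel))
noncomputable def rh8270f21240bd5071 : CRef := CRef.mk (Pat.mk 0x18000000080000000800000000 0x1c0000001e000000780000000f0000003c00000014 6 7) 0 0 (step_sound _ 131 [rhf1a8127573b72831, (rhfc21d93c70905a0f.shift 1 1)] (by decide +kernel))
noncomputable def rhbf9ba26ea6f4260f : CRef := CRef.mk (Pat.mk 0x600000003000000020000000000000000 0x100000003000000030000001e00000007000000070000000700000005 6 5) 0 0 (step_sound _ 131 [(rh18965a982d73c794.shift 0 3), rh96193300aa4d5318] (by decide +kernel))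
noncomputable def rh325eb92a27660aca : CRef := CRef.mk (Pat.mk 0xe000000020000000000000000 0x10000000700000003f0000007e0000000800000008 6 7) 0 0 (step_sound _ 100 [rhc02275ce183c9512, (rhd584a578337d0023.shift 1 2), (rhf3baec4a0a3dd35e.shift 1 2)] (by decide +kernel))
noncomputable def rh59dbe3d6f4f4999c : CRef := CRef.mk (Pat.mk 0x20000000200000000000000010000000000000000 0x50000000700000007000000060000000700000003000000070000000700000005 6 3) 0 0 (step_sound _ 97 [rh544d3caba1e1e2bb, rhb38faaee8bdfa7c0, (rhb77bfac3e9efecea.shift 0 2)] (by decide +kernel))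
noncomputable def rhfa3149c52110540a : CRef := CRef.mk (Pat.mk 0x400000004000000020000000200000000000000000000000000000000 0x400000007000000070000000300000002000000030000000300000001 6 3) 0 0 (step_sound _ 97 [(rh1006c02ae4212ff0.shift 1 3), rh1725eba4bd36066a] (by decide +kernel))
noncomputable def rhd21aa3bc3758e5c0 : CRef := CRef.mk (Pat.mk 0x400000008000000080000000800000000 0xc0000000c000000080000001f0000003c00000010 6 6) 0 0 (step_sound _ 131 [rh21f109e51ef20def, (rh50fbb5868c909700.shift 2 1)] (by decide +kernel))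
noncomputable def rh2c0732906ccdfca6 : CRef := CRef.mk (Pat.mk 0x200000003000000000000000100000001c00000000 0x1ff000000fe0000000e0000001c0000001c0000000c 6 9) 0 0 (step_sound _ 131 [(rh0288b77f6ce0fbdd.shift 1 0), (rh3e0b38310ac09007.shift 0 4), (rhcbe8df3b6aeede57.shift 2 0), (rhe026e51402e8b5a6.shift 1 0)] (by decide +kernel))
noncomputable def rheac8506ab945f856 : CRef := CRef.mk (Pat.mk 0x2000000030000000000000007000000018 0x1f80000007c0000000f0000007f000000f8 6 9) 0 0 (step_sound _ 35 [rh04adde65229dd8ca, (rh71119a8572d3fd23.shift 1 0), (rhc6719c6594e47b00.shift 2 0), (rhe489f3962952fa63.shift 2 0)] (by decide +kernel))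
noncomputable def rh73d03fdb326adb55 : CRef := CRef.mk (Pat.mk 0x180000001e0000000000000000 0x3000000030000001f0000001e0000003700000004 6 6) 0 0 (step_sound _ 97 [rh007f74e4637ab3e0, (rh3244c3cc8379b070.shift 0 2)] (by decide +kernel))
noncomputable def rhf802b357d0a80080 : CRef := CRef.mk (Pat.mk 0x1e0000000000000000 0x400000004000000070000003e0000003300000002 6 6) 0 0 (step_sound _ 36 [rh21460d2d48a35cb8, (rhe25b0a99195a5d59.shift 1 1)] (by decide +kernel))
noncomputable def rhd82d5baab4b1e35c : CRef := CRef.mk (Pat.mk 0x1c00000006000000000000000000000000 0x2000000070000001f0000003e000000070000000600000002 6 6) 0 0 (step_sound _ 129 [(rh38a0850c9fea941e.shift 0 1), rha40994045c6a855c] (by decide +kernel))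
noncomputable def rh30b477fddc9b2a7f : CRef := CRef.mk (Pat.mk 0x800000008000000000000001e00000006000000000000000000000000 0x1f0000000f000000020000001f0000003e000000070000000600000006 6 6) 0 0 (step_sound _ 100 [rhc297a2f3362aea03, (rhe25b0a99195a5d59.shift 1 3)] (by decide +kernel))
noncomputable def rh64a9583f39534480 : CRef := CRef.mk (Pat.mk 0x800000008000000080000000800000000 0x140000001f00000038000000080000001800000018 6 6) 0 0 (step_sound _ 36 [(rh55afc6a59410cf00.shift 3 0), rh8b983d8d38afc2fd] (by decide +kernel))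
noncomputable def rhc972a2216d76e9b5 : CRef := CRef.mk (Pat.mk 0x2000000020000000300000001000000010 0x800000028000001ef000000fe000000df00000050 6 9) 0 0 (step_sound _ 67 [(rh42c149c634520fed.shift 2 0), rh6da00715e09dd404, (rha11dfd15f08f96e3.shift 2 2), (rhb12ffaec36122c99.shift 0 1)] (by decide +kernel))
noncomputable def rhc3f1fdc610b622e4 : CRef := CRef.mk (Pat.mk 0x40000000f00000002 0xec0000007f0000003e 6 8) 0 0 (step_sound _ 4 [rh96851dee118c1ba3, (rhbc0930b8ae400bb5.shift 1 0)] (by decide +kernel))
noncomputable def rhfb3e43489e28d7e2 : CRef := CRef.mk (Pat.mk 0x1e00000006000000040000000000000000 0x1000000010000000300000001f0000003e0000000c0000000400000004 6 6) 0 0 (step_sound _ 100 [rh301fe10ee6f1c5e1, (rhe25b0a99195a5d59.shift 1 3)] (by decide +kernel))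
noncomputable def rh5b0a4a15ea152cbc : CRef := CRef.mk (Pat.mk 0x1000000038000000180000000000000000 0x8000000380000003f0000007e0000000600000004 6 7) 0 0 (step_sound _ 66 [rh2eb911c301b29c6f, (rh53b3c253cb0c65f4.shift 1 2)] (by decide +kernel))
noncomputable def rh304769ddd8faa6be : CRef := CRef.mk (Pat.mk 0x200000002000000020000000200000002 0x400000006000000060000000300000003000000070000000600000006 6 3) 0 0 (step_sound _ 34 [(rh55afc6a59410cf00.shift 1 0), rhcdb6af858653d20d] (by decide +kernel))
noncomputable def rhce5c438a547a1342 : CRef := CRef.mk (Pat.mk 0xe0000000c00000000 0x1000000010000000700000007e0000003f00000008 6 7) 0 0 (step_sound _ 36 [rhb58a2e8bdb5dc37e, (rhf48373e13d2bc128.shift 1 1)] (by decide +kernel))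
noncomputable def rh8f888f6cb5702051 : CRef := CRef.mk (Pat.mk 0x1c00000018 0xe0000000ff0000001f 6 8) 0 0 (step_sound _ 33 [rh0dad4d35a329f6a4, rhb739f4f82bb681b4] (by decide +kernel))
noncomputable def rh64962089654f0e21 : CRef := CRef.mk (Pat.mk 0x400000004000000040000000400000004 0x400000004000000060000000f0000003e0000000e00000004 6 6) 0 0 (step_sound _ 97 [(rh50fbb5868c909700.shift 1 0), (rha9350609e59b0ce1.shift 0 1)] (by decide +kernel))
noncomputable def rha946efe7ea45c2ef : CRef := CRef.mk (Pat.mk 0x1000000010000000100000003000000000 0x1000000010000000ff0000007e0000000f 6 8) 0 0 (step_sound _ 35 [rh63e3305009f2fc66, (rh932754581e0f4330.shift 3 0)] (by decide +kernel))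
noncomputable def rh6a42d38fdc3b4f45 : CRef := CRef.mk (Pat.mk 0x800000008000000080000000800000000 0x140000001f00000038000000080000001800000018 6 6) 0 0 (step_sound _ 132 [(rh2f68792b6b779e96.shift 3 1), rh7ebef449d87d4d18] (by decide +kernel))
noncomputable def rhd89534b4b3d26130 : CRef := CRef.mk (Pat.mk 0x300000001800000018000000000000000800000000 0x300000001f000000ff000000e70000000c0000000c 6 8) 0 0 (step_sound _ 101 [rhae7e2b8ce2819d28, (rhd1ccaa590d295a24.shift 0 2), (rhfdd338b587cdea0b.shift 1 3)] (by decide +kernel))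
noncomputable def rha3a6aaf7564e8331 : CRef := CRef.mk (Pat.mk 0x8000000080000000e0000000400000004 0x20000001f0000007b0000003e0000000700000004 6 7) 0 0 (step_sound _ 97 [(rh74c61ce7a280c70f.shift 0 1), (rh9f93e2b24091a43d.shift 0 1), (rhe072fffdd2fccf38.shift 1 0)] (by decide +kernel))
noncomputable def rh49f3eeb415338cb2 : CRef := CRef.mk (Pat.mk 0x1a0000000e00000002 0x600000006000000070000001e0000003e00000003 6 6) 0 0 (step_sound _ 36 [rh8b3e02ed1b840ad5, rheb0810cc63b001d8] (by decide +kernel))
noncomputable def rh49355ec7c7297697 : CRef := CRef.mk (Pat.mk 0x1e00000006000000000000000400000000 0x600000006000000070000001e00000006000000020000000600000006 6 5) 0 0 (step_sound _ 161 [(rh27ff1754563091d4.shift 1 0), (rh3244c3cc8379b070.shift 0 4)] (by decide +kernel))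
noncomputable def rh6f09a5409313ec9c : CRef := CRef.mk (Pat.mk 0x800000038000000000000001000000000 0xc0000000c000000780000000f0000003c00000014 6 7) 0 0 (step_sound _ 67 [(rh096d7b980573f253.shift 2 0), rh2304a4d5a295908d, (rhb80a6ca5eab6f806.shift 2 0), (rhd9106766b9ff53c0.shift 2 2)] (by decide +kernel))
noncomputable def rh7c5044a8649333cc : CRef := CRef.mk (Pat.mk 0x1a0000001e00000000 0x600000006000000070000001e0000003e00000003 6 6) 0 0 (step_sound _ 66 [rha3f6c4687b10b09c, (rhf48373e13d2bc128.shift 1 1)] (by decide +kernel))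
noncomputable def rh07a8ed47a3c9e596 : CRef := CRef.mk (Pat.mk 0x180000001800000008 0x4000000060000007f0000003f00000078 6 7) 0 0 (step_sound _ 34 [rh2b0b4f8fe0be8394, rh5e876097fc0dd40d, (rhab2ad169e49f9c5e.shift 0 1)] (by decide +kernel))
noncomputable def rh5bfe629b50adfd3c : CRef := CRef.mk (Pat.mk 0x180000000e000000180000000000000000 0x200000006000000070000001f0000003e0000001f0000003200000030 6 6) 0 0 (step_sound _ 100 [rh1e1fdd334f5b3198, (rh331d4a807f97bfca.shift 0 2), (rh44dd78dd79fc4e0b.shift 0 1), rhfd6c0d243878f96f] (by decide +kernel))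
noncomputable def rh9c5384f24157e117 : CRef := CRef.mk (Pat.mk 0x8000000100000001c000000060000000400000000 0x2800000038000000380000001a000000130000001f0000001e0000000c00000008 6 6) 0 0 (step_sound _ 164 [(rh281c6819542c66e6.shift 3 0), (rh32431e66bbf434a4.shift 3 2), (rha1693fc6c52cf8fb.shift 0 1), (rhb1a251d9bff81766.shift 3 2)] (by decide +kernel))
noncomputable def rh4e4130d1541c55fc : CRef := CRef.mk (Pat.mk 0x4000000080000000c000000030000000000000000 0x140000001c0000001c0000001c000000180000000c0000000f0000001c00000004 6 5) 0 0 (step_sound _ 163 [(rh281c6819542c66e6.shift 2 0), (rh32431e66bbf434a4.shift 2 2), (rh69a3776feaa48c5d.shift 2 2), (rhb1a251d9bff81766.shift 2 2), (rhb34f4dd79db868fc.shift 0 1)] (by decide +kernel))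
noncomputable def rhbd017196cc30c45e : CRef := CRef.mk (Pat.mk 0x700000002000000000 0x8000000080000000e000001fe0000003f00000010 6 9) 0 0 (step_sound _ 67 [(rh24dc8eb7766767ae.shift 0 1), (rh2efad3051cff7df1.shift 0 1), (rh3a69dc315759d1b4.shift 2 0), (rh74f48645dd37c94b.shift 1 1), (rh775ca1963e850b80.shift 1 1), (rhc93c85c35c9e08d5.shift 1 1)] (by decide +kernel))
noncomputable def rhd3eca1dd253208cf : CRef := CRef.mk (Pat.mk 0x40000000400000004000000000000000000000000 0x20000000a0000000f0000003e0000000e00000004000000060000000600000002 6 6) 0 0 (step_sound _ 193 [(rh114f4abf4ea101c9.shift 1 2), (rhbab796f6dafe9186.shift 1 3), (rhbec796c3ea7a32e6.shift 0 2), (rhfcc64d3a366965e9.shift 1 0)] (by decide +kernel))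
noncomputable def rha39c85db69efa5e0 : CRef := CRef.mk (Pat.mk 0xc0000000e000000180000000800000000 0xf0000003e0000001b0000000f00000006 6 6) 0 0 (step_sound _ 34 [rh6a391396ab07a663, (rh932754581e0f4330.shift 2 0)] (by decide +kernel))
noncomputable def rhd54fc9bcd30cd5bb : CRef := CRef.mk (Pat.mk 0x80000000e000000180000001000000000 0x10000000300000007f0000003e0000001f0000003000000020 6 7) 0 0 (step_sound _ 132 [(rh572132728df34c43.shift 1 3), rh5cd9f26d7cd15c65, (rh80f90a60d87caa0d.shift 1 3)] (by decide +kernel))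
noncomputable def rh409bc6189e2022f1 : CRef := CRef.mk (Pat.mk 0x20000001e00000000 0xe60000007e000000e3 6 8) 0 0 (step_sound _ 37 [(rh3f8766e6ecb455ce.shift 1 1), rh9245dbeb8d92f653] (by decide +kernel))
noncomputable def rh5503819b3c141e27 : CRef := CRef.mk (Pat.mk 0x8000000080000000e0000000000000000 0x40000000c0000003f0000003e0000003300000012 6 6) 0 0 (step_sound _ 68 [rh43dc67402634d54f, (rh625dde73e665edc8.shift 1 0)] (by decide +kernel))
noncomputable def rh8a4ede35bab668be : CRef := CRef.mk (Pat.mk 0x200000002000000038000000000000000000000000 0x640000003e0000007e0000000f0000000800000008 6 7) 0 0 (step_sound _ 98 [(rh21d582c147e7e118.shift 0 2), (rh7a32c57a7c61d0c8.shift 1 3), (rhe6f3c981f45ee7b2.shift 1 0)] (by decide +kernel))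
noncomputable def rh8a8729367a6eec19 : CRef := CRef.mk (Pat.mk 0x80000000c0000001c000000000000000000000000 0x10000000780000001f0000001c000000180000001800000018 6 7) 0 0 (step_sound _ 129 [(rha751d179a64c4c1d.shift 1 0), (rhb739f4f82bb681b4.shift 0 3)] (by decide +kernel))
noncomputable def rh89125a41ca3eeff1 : CRef := CRef.mk (Pat.mk 0xc0000001c000000060000000000000000 0x20000000f0000001c0000001e0000003c00000018 6 6) 0 0 (step_sound _ 129 [(rhb739f4f82bb681b4.shift 0 3), (rhf8df2bfab16984bb.shift 1 0)] (by decide +kernel))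
noncomputable def rh41fa7aabb5f552dc : CRef := CRef.mk (Pat.mk 0x200000002000000060000000200000000 0xc0000003e00000007000000060000000600000006 6 6) 0 0 (step_sound _ 34 [(rh55afc6a59410cf00.shift 1 0), rhad5d9cfcdbfbd598] (by decide +kernel))
noncomputable def rhd174cd2c210df385 : CRef := CRef.mk (Pat.mk 0xc0000000c000000080000000800000000 0xa0000000f0000003c0000000c0000000e00000006 6 6) 0 0 (step_sound _ 34 [rh1e07ab545a38febd, (rh932754581e0f4330.shift 2 0)] (by decide +kernel))
noncomputable def rh33aeb546d8a8e1f5 : CRef := CRef.mk (Pat.mk 0x100000001000000038000000000000002000000000 0x100000001c000000f80000000f0000007c00000008 6 8) 0 0 (step_sound _ 67 [(rh0a0d555fa8352b31.shift 2 1), (rha83d0a1d851c6a27.shift 2 2), rhc00d011886fceffb, (rhf9af042da61fc652.shift 3 0)] (by decide +kernel))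
noncomputable def rhd58a94a69b1f54b7 : CRef := CRef.mk (Pat.mk 0x8000000180000003000000010 0x40000000c000000f8000000ff0000003e 6 8) 0 0 (step_sound _ 38 [(rhf48373e13d2bc128.shift 3 1), rhfa805f34d9da5845] (by decide +kernel))
noncomputable def rhb1efcc2a4954febc : CRef := CRef.mk (Pat.mk 0x80000001c000000300000001000000000 0x60000000f0000007c0000003e0000001e0000000e 6 7) 0 0 (step_sound _ 130 [(rh73ffbcecd127756d.shift 1 0), (rh79b3c29022acbdf3.shift 1 3), rha770d683592997c1] (by decide +kernel))
noncomputable def rhcdff2f5fa5f2c357 : CRef := CRef.mk (Pat.mk 0x80000000c00000018000000180000000000000000 0x80000000c0000001f0000003f0000000700000002 6 6) 0 0 (step_sound _ 66 [(rh932754581e0f4330.shift 2 1), rhcb5b53cf0ad40bfd] (by decide +kernel))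
noncomputable def rh11b0b5f3fa3f7748 : CRef := CRef.mk (Pat.mk 0xe0000001800000018000000000000000000000000 0x20000000e0000001f0000003f0000003c0000001400000004 6 6) 0 0 (step_sound _ 68 [rh63d4657002269fa3, (rh7b1f1fb55310c477.shift 3 1)] (by decide +kernel))
noncomputable def rh9e28da1e6c5549d1 : CRef := CRef.mk (Pat.mk 0x80000001e000000040000000600000000 0x3c0000001e000000340000001e0000001b 6 6) 0 0 (step_sound _ 132 [(rh33e738c4ed385b9f.shift 1 3), rh6aa07a9d9bcdfb03] (by decide +kernel))
noncomputable def rha1b2f921bd580565 : CRef := CRef.mk (Pat.mk 0x30000000100000003c00000000 0xf80000001c0000007f00000007 6 8) 0 0 (step_sound _ 1 [(rh80fcd6d0a18cb2dd.shift 1 0), rhb89185a50d9ec53f] (by decide +kernel))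
noncomputable def rhd643654deba295ff : CRef := CRef.mk (Pat.mk 0x1000000010000000020000001c00000000 0x1000000030000000630000003e00000073 6 7) 0 0 (step_sound _ 33 [(rh3244c3cc8379b070.shift 0 1), rhf506bca211f7cb8b] (by decide +kernel))
noncomputable def rhedb31a69f7ac5a79 : CRef := CRef.mk (Pat.mk 0x30000000180000001c000000000000000000000000 0x4000000340000001e0000001f000000070000000200000002 6 6) 0 0 (step_sound _ 130 [(rh53b3c253cb0c65f4.shift 1 4), rh8f7039354bfc4ec2] (by decide +kernel))
noncomputable def rh54c0fe3eb08d9014 : CRef := CRef.mk (Pat.mk 0x180000000c0000000e000000000000000000000000 0x180000000f0000003e000000070000000600000006 6 6) 0 0 (step_sound _ 129 [(rh53b3c253cb0c65f4.shift 0 4), rh836f9cd661695ece] (by decide +kernel))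
noncomputable def rh2d85ae0dca478dd1 : CRef := CRef.mk (Pat.mk 0x180000001c00000000 0x1c0000007f000000e7 6 8) 0 0 (step_sound _ 33 [rh14c37fbcc571911c, (rh53b3c253cb0c65f4.shift 0 1)] (by decide +kernel))
noncomputable def rh2231901fb29eb143 : CRef := CRef.mk (Pat.mk 0x180000001c000000000000000000000000 0x20000001b0000003f000000070000000400000004 6 6) 0 0 (step_sound _ 97 [rh4d407c583ade17f9, (rh53b3c253cb0c65f4.shift 0 3)] (by decide +kernel))
noncomputable def rh9463e1042f3aaee1 : CRef := CRef.mk (Pat.mk 0x80000000c00000006000000060000000200000000 0x390000003f000000360000001e0000001300000001 6 6) 0 0 (step_sound _ 132 [(rh18965a982d73c794.shift 1 3), rhbc156f56c15fc835] (by decide +kernel))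
noncomputable def rha02e7275705f1d18 : CRef := CRef.mk (Pat.mk 0x7000000018000000180000000800000000 0x78000000f80000007f0000007f00000004 6 8) 0 0 (step_sound _ 66 [rh7e55476af6423c90, (rhab2ad169e49f9c5e.shift 0 2), (rhfacf8fc139384b08.shift 0 1)] (by decide +kernel))
noncomputable def rh9b9cd677ce2b8189 : CRef := CRef.mk (Pat.mk 0x40000001c000000060000000600000000 0x10000000340000001f0000003e0000001f00000008 6 6) 0 0 (step_sound _ 35 [(rh55afc6a59410cf00.shift 2 0), (rh636a1f13e76cbb76.shift 0 1)] (by decide +kernel))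
noncomputable def rhf7e30e099accbbdd : CRef := CRef.mk (Pat.mk 0x180000000c000000080000000800000000 0x8000000180000000f000000780000001e00000014 6 7) 0 0 (step_sound _ 36 [rh2b2722e7f31a7e16, (rh55afc6a59410cf00.shift 3 0)] (by decide +kernel))
noncomputable def rh886fa447750dae02 : CRef := CRef.mk (Pat.mk 0x2000000020000000300000001000000010 0x800000028000001ef000000fe000000df00000050 6 9) 0 0 (step_sound _ 67 [rh2ba2a9794edcab65, (rh42c149c634520fed.shift 2 0), (rha11dfd15f08f96e3.shift 2 2), (rhb12ffaec36122c99.shift 0 1)] (by decide +kernel))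
noncomputable def rh3b61fcb52cc3fd7d : CRef := CRef.mk (Pat.mk 0x1c000000060000000200000002 0x10000000390000001f0000003e0000000b0000000a 6 6) 0 0 (step_sound _ 97 [rh50b5135431ad0103, rhf5f440226ecccf55, (rhf6d72ac90bd26cb0.shift 0 1)] (by decide +kernel))
noncomputable def rhaab9ea87d952b8b3 : CRef := CRef.mk (Pat.mk 0x280000000c000000040000000400000000 0x2000000220000006f0000003e000000770000001400000010 6 7) 0 0 (step_sound _ 100 [(rh4ed296ab3e372daf.shift 0 1), (rh834ef1c974e4840e.shift 1 0), (rhee0891bc88ee3f94.shift 1 2)] (by decide +kernel))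
noncomputable def rh6cf70cf3d5d85217 : CRef := CRef.mk (Pat.mk 0x180000000c000000080000000000000000 0x40000000c0000001f0000003f000000380000001800000010 6 6) 0 0 (step_sound _ 97 [rh2ba635e1be22f2b8, (rh53b3c253cb0c65f4.shift 0 3)] (by decide +kernel))
noncomputable def rh080e56aba9e1e72a : CRef := CRef.mk (Pat.mk 0x70000000180000001000000000 0x80000000f0000007f000000f80000001000000010 6 8) 0 0 (step_sound _ 99 [(rh04adde65229dd8ca.shift 0 2), (rh309fd0c3d364cd61.shift 2 1), (rhfc7c29d8e65d775f.shift 3 0)] (by decide +kernel))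
noncomputable def rh7f0181233dbe742b : CRef := CRef.mk (Pat.mk 0x18000000100000003000000038 0x40000001f0000003c000000fe00000078 6 8) 0 0 (step_sound _ 38 [(rh18965a982d73c794.shift 3 0), rh50722c3358bbb124] (by decide +kernel))
noncomputable def rh48b2c90492079fd4 : CRef := CRef.mk (Pat.mk 0x80000001c00000000 0x3f000000ff000000e0 6 8) 0 0 (step_sound _ 37 [(rh915c3ff3d4fe3a39.shift 0 1), (rhe3060b190bc0bc78.shift 1 1), rhe755d80139a0ae3f] (by decide +kernel))
noncomputable def rhc6ad7a568fc0345b : CRef := CRef.mk (Pat.mk 0x7800000010000000100000000800000000 0x780000001c0000007c0000000f0000000c 6 7) 0 0 (step_sound _ 99 [rh0db1890ab1c79bd6, (rheb0810cc63b001d8.shift 2 3)] (by decide +kernel))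
noncomputable def rh3278891dc48967a2 : CRef := CRef.mk (Pat.mk 0x80000000e0000000400000004 0x20000003b000000fe0000007f00000004 6 8) 0 0 (step_sound _ 68 [(rh5ded4a09c2a7571d.shift 1 1), (rh7a6a5778104bcb94.shift 1 1), rhe4f9133a81c1dbc5] (by decide +kernel))
noncomputable def rh60122976948ec5f0 : CRef := CRef.mk (Pat.mk 0x400000004000000040000000000000000 0x80000000a0000003e0000000f0000000c000000060000000600000002 6 6) 0 0 (step_sound _ 163 [(rh23d0e80c801fc3e0.shift 0 1), (rh28dbbf1cc2480271.shift 1 0), (rh5890386c1f942fa1.shift 2 2), (rh87d5e4118780fa3b.shift 2 1)] (by decide +kernel))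
noncomputable def rh80e63ca4d6ada0e5 : CRef := CRef.mk (Pat.mk 0x80000001800000008000000000000000000000000 0x180000001800000018000000380000001f0000001c00000004 6 6) 0 0 (step_sound _ 67 [(rh33032410a9908d45.shift 2 0), (rh589345da44c3b4b3.shift 0 1), (rhc9ecc39187250584.shift 3 1)] (by decide +kernel))
noncomputable def rh2e78b36d2be7904b : CRef := CRef.mk (Pat.mk 0xc000000080000000a00000000 0x400000004000000060000001f0000007a0000000a0000000a 6 7) 0 0 (step_sound _ 130 [(rh7b1f1fb55310c477.shift 2 0), rh7d18d7334b63db57] (by decide +kernel))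
noncomputable def rh4765089fa2c0a00d : CRef := CRef.mk (Pat.mk 0xe000000080000000e0000000400000000 0x20000001e0000003b0000000e0000003c00000018 6 6) 0 0 (step_sound _ 97 [(rh2145e1d24b96a57e.shift 1 1), rhf886dde88d7d7291] (by decide +kernel))
noncomputable def rhff4621d66568a73f : CRef := CRef.mk (Pat.mk 0x18000000100000001c000000000000000000000000 0x80000000a0000000f0000003e000000f70000001c0000000f0000000a00000008 6 8) 0 0 (step_sound _ 162 [rh049d78e4e212a1f2, (rh7a686f4a729eb8f5.shift 0 2), (rh8ee80cc30e93a344.shift 1 4)] (by decide +kernel))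
noncomputable def rhd3eb5a7ba791e2d1 : CRef := CRef.mk (Pat.mk 0xe0000001800000006000000000000000000000000 0xe7000000fe0000001f00000006000000030000000300000001 6 8) 0 0 (step_sound _ 129 [rh274a837cd7eaa569, (rh8b3cc6f0a4dbb7f6.shift 0 2), (rhb97e944a195ddea8.shift 0 1), (rhca541f66dea8248e.shift 0 4)] (by decide +kernel))
noncomputable def rhd5dc461ce40875d5 : CRef := CRef.mk (Pat.mk 0x1e00000008 0xe0000000fe0000003f 6 8) 0 0 (step_sound _ 4 [rh0dad4d35a329f6a4, (rhe25b0a99195a5d59.shift 1 0)] (by decide +kernel))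
noncomputable def rhdac559a75b3351e7 : CRef := CRef.mk (Pat.mk 0xf00000004 0x700000007f000000fc 6 8) 0 0 (step_sound _ 36 [rh11aa37d4829402ae, rh4ad5fc38f1b69f65, (rha93a5dd541ab8209.shift 1 0), (rhdbe30b89b8872db3.shift 1 0)] (by decide +kernel))
noncomputable def rh54f3e35e1ddfcb4c : CRef := CRef.mk (Pat.mk 0x1e00000014000000180000000000000000 0x30000001f0000001c0000001f0000003400000010 6 6) 0 0 (step_sound _ 99 [rh80a35c080566f674, (rhb739f4f82bb681b4.shift 0 3)] (by decide +kernel))
noncomputable def rh43b50e08303cc6e1 : CRef := CRef.mk (Pat.mk 0x380000000800000010 0x140000001c0000001c0000000f000000fc0000001800000010 6 8) 0 0 (step_sound _ 99 [(rh1148744b53f3df58.shift 2 0), (rh33b15e661692c1c6.shift 2 0), (rha9fbfd4bb8cf890b.shift 0 2)] (by decide +kernel))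
noncomputable def rh41a851d91a38267d : CRef := CRef.mk (Pat.mk 0x8000000080000000c000000040000000000000000 0x100000001c0000007c0000000f0000003c0000001800000008 6 7) 0 0 (step_sound _ 67 [(rh3724468151636231.shift 2 0), (rhe62763857f961ffc.shift 0 1), (rhfe557af9112f51d6.shift 0 1)] (by decide +kernel))
noncomputable def rhb59ecd3cc99d8049 : CRef := CRef.mk (Pat.mk 0x60000000200000003800000000 0x8000000780000003f0000003e00000007 6 7) 0 0 (step_sound _ 34 [(rh1f5a3f671a3fef94.shift 1 0), rh21d582c147e7e118, (rh3def329dc426b562.shift 1 1), rh592c7139d2c44767] (by decide +kernel))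
noncomputable def rhf3740cfb37b66e2e : CRef := CRef.mk (Pat.mk 0x10000000180000000c00000006 0x2000000330000001f0000003f00000006 6 6) 0 0 (step_sound _ 33 [(rh53b3c253cb0c65f4.shift 0 1), rhf6e20d760ac4ea7c] (by decide +kernel))
noncomputable def rhde97a84e0bc1d5e9 : CRef := CRef.mk (Pat.mk 0x700000005000000018000000000000000000000000 0x780000007e0000001f000000300000001000000010 6 7) 0 0 (step_sound _ 131 [(rh1ed7a3503fa50fc8.shift 1 4), (rh6ddb7d21d32de33d.shift 2 3), rh897d573130d49112] (by decide +kernel))
noncomputable def rh09223ceea187eb2b : CRef := CRef.mk (Pat.mk 0x40000000400000004000000000000000000000000 0x20000000a0000000f0000003e0000000e000000040000000c0000000c00000008 6 6) 0 0 (step_sound _ 193 [(rh0dbc8abee7ad42d4.shift 1 2), (rhbab796f6dafe9186.shift 1 3), (rhbec796c3ea7a32e6.shift 0 2), (rhf435f65ca384ce7a.shift 1 0)] (by decide +kernel))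
noncomputable def rhf0cde2e20057acc9 : CRef := CRef.mk (Pat.mk 0x40000000800000008000000080000000000000000 0xc0000000c000000080000000f0000003c00000014 6 6) 0 0 (step_sound _ 35 [rh641b5241be04eec6, (rhffd04209dc8ea796.shift 2 1)] (by decide +kernel))
noncomputable def rh746fd82cc49e4875 : CRef := CRef.mk (Pat.mk 0xc000000040000000400000000 0x40000000c0000000e0000000f0000003c0000000e0000000600000002 6 6) 0 0 (step_sound _ 131 [(rh69755ef358ebfd54.shift 2 1), (rhbfb5770941270498.shift 2 1), rhdc60e7e7c09449f0] (by decide +kernel))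
noncomputable def rh0591c4825f70cf9c : CRef := CRef.mk (Pat.mk 0x3800000010 0x7000000fe000000ff 6 8) 0 0 (step_sound _ 6 [(rh1e42cdaa2b8276ac.shift 2 0), (rh7344b4efa7925350.shift 2 0), rh88c620441a3a17ea] (by decide +kernel))
noncomputable def rh755d75faed1ea22f : CRef := CRef.mk (Pat.mk 0x20000000200000002000000000000000000000000 0x50000000700000007000000070000000300000003000000070000000600000004 6 3) 0 0 (step_sound _ 194 [(rh08d50fe567eb1045.shift 1 2), rh47e721e0117b8d5f, (rha1ee609811ef0ede.shift 0 2)] (by decide +kernel))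
noncomputable def rhd87b6166ba0586ad : CRef := CRef.mk (Pat.mk 0x300000006000000010000000300000000 0x50000000700000006000000070000001f0000001c 6 5) 0 0 (step_sound _ 65 [rh3901d8753ad0f7b0, (rh50fbb5868c909700.shift 0 1)] (by decide +kernel))
noncomputable def rh0a91ef736123875e : CRef := CRef.mk (Pat.mk 0x180000000c000000180000001000000000 0x380000003f0000001f0000003800000008 6 6) 0 0 (step_sound _ 97 [(rh53b3c253cb0c65f4.shift 0 3), rhdb443baecfb581be] (by decide +kernel))
noncomputable def rh8d082b4678b76f02 : CRef := CRef.mk (Pat.mk 0xc00000018000000080000001c 0xf000000780000003f0000003f 6 7) 0 0 (step_sound _ 69 [rhafd774a361fb3b4f, (rhf48373e13d2bc128.shift 2 2)] (by decide +kernel))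
noncomputable def rhbf9b2b408eb965e2 : CRef := CRef.mk (Pat.mk 0x80000000800000008000000000000000000000000 0x140000001c0000001c000000080000000c0000003c0000001f0000001400000004 6 6) 0 0 (step_sound _ 66 [(rh3743dbe66b959104.shift 2 0), (rh9fb9dc683e09b5f3.shift 2 2), (rhac4b4763407a46df.shift 0 1)] (by decide +kernel))
noncomputable def rh89fb121b6b5a2148 : CRef := CRef.mk (Pat.mk 0x200000002000000020000000200000000 0x400000007000000070000000300000002000000030000000300000001 6 3) 0 0 (step_sound _ 32 [(rh50e5af4552503042.shift 0 1), rh932754581e0f4330] (by decide +kernel))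
noncomputable def rh312a101bf7021a47 : CRef := CRef.mk (Pat.mk 0x100000001c000000080000000000000000 0x400000004000000370000003e0000000c0000000800000008 6 6) 0 0 (step_sound _ 35 [(rh3cefcdf4a66fcca8.shift 0 1), (rh71222050f2c63a3a.shift 3 0)] (by decide +kernel))
noncomputable def rh256e84d2eb9f4b7f : CRef := CRef.mk (Pat.mk 0x2000000038000000180000000800000000 0x800000028000000380000001f0000001f00000014 6 6) 0 0 (step_sound _ 36 [(rh71222050f2c63a3a.shift 4 0), rhea7ec97caa2f8b42] (by decide +kernel))
noncomputable def rh22d2c027b452444d : CRef := CRef.mk (Pat.mk 0x100000001000000018000000080000000000000000 0x100000003e000000fe0000007f0000002000000020 6 8) 0 0 (step_sound _ 101 [(rh04048a4a2acf2c94.shift 2 2), (rh2820ca9a6c4f41b4.shift 0 2), (rha7abe2e64ed5e04c.shift 1 0)] (by decide +kernel))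
noncomputable def rh5d8cb2e01a697dd5 : CRef := CRef.mk (Pat.mk 0x180000000c00000008000000000000000000000000 0x40000000c0000000c000000180000000f0000007c000000180000001000000010 6 7) 0 0 (step_sound _ 129 [(rh53b3c253cb0c65f4.shift 0 4), (rh7fbc824ea4018db7.shift 1 0)] (by decide +kernel))
noncomputable def rhb261790060b42601 : CRef := CRef.mk (Pat.mk 0xc0000000400000004000000000000000000000000 0x40000000c0000000c0000003c0000000f0000000e0000000a 6 6) 0 0 (step_sound _ 66 [(rh3ca4c10fdf355329.shift 0 1), (rh8c3839f9b9075f23.shift 2 0), (rha8bc3cae4d77a08f.shift 1 0)] (by decide +kernel))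
noncomputable def rh1dd718f30a8364e9 : CRef := CRef.mk (Pat.mk 0x20000000600000002000000020000000200000000 0x40000000700000007000000030000000600000006000000020000000600000004 6 3) 0 0 (step_sound _ 34 [(rh55afc6a59410cf00.shift 1 0), (rh72afbdc90680d7b8.shift 0 2)] (by decide +kernel))
noncomputable def rh005cda9b2b2d1b77 : CRef := CRef.mk (Pat.mk 0x3800000010 0x1c7000001fe000003f7 6 10) 0 0 (step_sound _ 34 [(rh1c87e3a33a702e4a.shift 2 0), rh775ca1963e850b80, rhd0782bcc7d08fb46] (by decide +kernel))
noncomputable def rh5c0873a5a7428800 : CRef := CRef.mk (Pat.mk 0x80000000800000008000000000000000000000000 0x100000001800000018000000080000001c0000003c0000001f0000001400000004 6 6) 0 0 (step_sound _ 66 [(rh0e6924d680f6455d.shift 2 0), (rh3743dbe66b959104.shift 2 0), (rh544d3caba1e1e2bb.shift 2 0), (rhac4b4763407a46df.shift 0 1), (rhc23ec26ef2c84235.shift 2 2)] (by decide +kernel))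
noncomputable def rh29ceb02c7a0843f9 : CRef := CRef.mk (Pat.mk 0x80000000800000008000000000000000000000000 0x140000001c0000001c00000008000000180000001f0000003c0000001400000010 6 6) 0 0 (step_sound _ 68 [(rh1148744b53f3df58.shift 2 2), (rh475253e964ed1313.shift 3 0), (rhfa80626feb4e9cb5.shift 0 1)] (by decide +kernel))
noncomputable def rha1063df14a74694a : CRef := CRef.mk (Pat.mk 0x200000007000000010 0x80000000c000000fe000000fe00000017 6 8) 0 0 (step_sound _ 35 [rh5b2ce1e5aa4a4edd, (rha17d3b69a696028a.shift 2 0), (rhec46bd5500c722c9.shift 2 1)] (by decide +kernel))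
noncomputable def rhe315fda5404d9b8e : CRef := CRef.mk (Pat.mk 0x140000003c0000000800000000 0xe0000000f0000001c0000003c0000000e00000004 6 6) 0 0 (step_sound _ 34 [(rheb0810cc63b001d8.shift 1 1), rhf833c098ea508add] (by decide +kernel))
noncomputable def rh2b8febffdab40d6d : CRef := CRef.mk (Pat.mk 0x8000000080000000c00000000 0x140000001c0000003c0000000f0000000c0000000c00000008 6 6) 0 0 (step_sound _ 131 [rh5ee4dc8825dcefa0, (rh9a369cb82ea472da.shift 2 1), (rhe62cab2ff5ad6fe2.shift 2 1)] (by decide +kernel))
noncomputable def rha7f6f3431996be7d : CRef := CRef.mk (Pat.mk 0x20000000200000002000000000000000000000000 0x50000000700000007000000030000000300000003000000070000000700000005 6 3) 0 0 (step_sound _ 192 [(rh114f4abf4ea101c9.shift 0 2), rhbba7d23481996066, (rhf153d2af6b144509.shift 0 2)] (by decide +kernel))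
noncomputable def rha5b4bc95cf02e679 : CRef := CRef.mk (Pat.mk 0x8000000080000001800000000000000000000000000000000 0x40000000c0000001c000000380000001f0000001c0000001800000008 6 6) 0 0 (step_sound _ 100 [(rh08edf065357d68e5.shift 3 1), rh77a83ab3ad05a698, (rh79ad7b82ec8c35e2.shift 3 1)] (by decide +kernel))
noncomputable def rh237242fd2a913505 : CRef := CRef.mk (Pat.mk 0x2000000030000000600000000000000000000000000000000 0x4000000070000000700000003000000070000000600000003000000070000000700000004 6 3) 0 0 (step_sound _ 97 [rh248a87c7370a10b9, (rh5a26a7d31d0f2e10.shift 0 3), (rhe286c75f2739cce2.shift 0 2)] (by decide +kernel))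
noncomputable def rhed34c2c2e858f89a : CRef := CRef.mk (Pat.mk 0x80000000c0000001c00000000 0x1c0000001c0000000c0000003c0000001f00000003 6 6) 0 0 (step_sound _ 131 [rh566daff05c3a379c, (rh5c5e593799055d58.shift 2 1)] (by decide +kernel))
noncomputable def rh44c4193cad1e2e26 : CRef := CRef.mk (Pat.mk 0x100000001c000000380000000000000000 0xc0000000c0000001c0000007c0000003e0000000f0000000c 6 7) 0 0 (step_sound _ 35 [(rh71222050f2c63a3a.shift 3 0), rhd86e2a290a9c32ee] (by decide +kernel))
noncomputable def rh3ec802efb8abd3f9 : CRef := CRef.mk (Pat.mk 0x8000000080000000c0000003c00000000 0x140000001c0000000c0000003c0000003f00000063 6 7) 0 0 (step_sound _ 130 [(rh50fbb5868c909700.shift 2 1), rhfb221370f1562cde] (by decide +kernel))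
noncomputable def rhb9ec0c1b1d92b309 : CRef := CRef.mk (Pat.mk 0x80000000e000000180000001000000000 0x4000000060000000f0000003e0000001f0000003700000006 6 6) 0 0 (step_sound _ 65 [(rh480231ab31e80384.shift 0 1), rh7f0fa6c019c0f31a, rha9522d0f810f7879] (by decide +kernel))
noncomputable def rh82794c0f35749da3 : CRef := CRef.mk (Pat.mk 0x1c00000010000000100000001800000000 0x40000001f00000038000000780000001e00000004 6 7) 0 0 (step_sound _ 129 [rhcedbf724363414cd, (rhe25b0a99195a5d59.shift 1 3)] (by decide +kernel))
noncomputable def rh3b31153390e8107d : CRef := CRef.mk (Pat.mk 0x1e00000000000000100000001800000000 0x4000000070000001e000000030000003f0000001f00000004 6 6) 0 0 (step_sound _ 97 [rha73b0a266e8df1c6, (rheb0810cc63b001d8.shift 0 3)] (by decide +kernel))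
noncomputable def rhdb437b6c393d0685 : CRef := CRef.mk (Pat.mk 0x1c000000180000001000000008 0x600000006000000060000001c0000007f0000003e00000008 6 7) 0 0 (step_sound _ 130 [(rh9e07f76261b05888.shift 2 0), (rha785f84c4bd77951.shift 0 1)] (by decide +kernel))
noncomputable def rh825eacff3b5c8a28 : CRef := CRef.mk (Pat.mk 0x1c00000018000000100000001800000000 0x1c0000007f000000770000001e00000004 6 7) 0 0 (step_sound _ 101 [rh4da844d5404f45e4, (rhf48373e13d2bc128.shift 2 3)] (by decide +kernel))
noncomputable def rhcad22a9f15914a6a : CRef := CRef.mk (Pat.mk 0xc00000018000000100000001800000000 0x40000000c000000780000001f0000001f00000004 6 7) 0 0 (step_sound _ 67 [(rh50fbb5868c909700.shift 2 1), rhe65c912b02fb04ec] (by decide +kernel))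
noncomputable def rh57ef47e48e72936d : CRef := CRef.mk (Pat.mk 0x800000008000000080000001000000000 0x140000001f00000038000000080000001800000018 6 6) 0 0 (step_sound _ 35 [(rh55afc6a59410cf00.shift 3 0), rh8b983d8d38afc2fd] (by decide +kernel))
noncomputable def rh049add9c038d8b5d : CRef := CRef.mk (Pat.mk 0x60000000200000002000000000000000000000000 0x20000000300000003000000070000000600000007000000030000000300000001 6 3) 0 0 (step_sound _ 65 [(rh31f29076cbc7802e.shift 0 1), (rh771d065bdc85bf2d.shift 0 1), rha8bc3cae4d77a08f] (by decide +kernel))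
noncomputable def rh4c7b95ba94fe1ec5 : CRef := CRef.mk (Pat.mk 0x800000008000000080000000800000000 0xc0000000c00000008000000380000001f00000014 6 6) 0 0 (step_sound _ 130 [(rh50fbb5868c909700.shift 2 1), rhf4fcb276c439bf4b] (by decide +kernel))
noncomputable def rhab5eb51f364842d2 : CRef := CRef.mk (Pat.mk 0x200000004000000040000000400000000 0x600000006000000040000003c0000000f0000000a 6 6) 0 0 (step_sound _ 130 [(rh50fbb5868c909700.shift 1 1), rhac13d16ea91712e4] (by decide +kernel))
noncomputable def rhe84afcfdd9ebfb4d : CRef := CRef.mk (Pat.mk 0x20000000300000002000000020000000200000000 0x10000000700000007000000060000000300000003000000020000000600000004 6 3) 0 0 (step_sound _ 34 [(rh24e7089cea57625c.shift 0 2), (rh55afc6a59410cf00.shift 1 0)] (by decide +kernel))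
noncomputable def rh43441bceed843204 : CRef := CRef.mk (Pat.mk 0x80000000c0000000800000008 0x1800000018000000180000000f0000003c00000018 6 6) 0 0 (step_sound _ 132 [(rhbaefcd01e0a8bca3.shift 3 0), rhe198dddff514b085] (by decide +kernel))
noncomputable def rh5ad13f21ad869841 : CRef := CRef.mk (Pat.mk 0x8000000380000002800000000000000000000000000000000 0x80000003c0000003f0000001e0000001c0000001c00000004 6 6) 0 0 (step_sound _ 99 [(rh076e0bcca5404ca0.shift 0 1), (rh0e45ed2fc353a975.shift 0 1), (rh6eff4158bb400f47.shift 2 1), (rh8f462763269de15d.shift 0 2), (rha52e1acf7ed5511e.shift 2 0)] (by decide +kernel))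
noncomputable def rhf9dee39e9c000c0c : CRef := CRef.mk (Pat.mk 0x400000004000000000000000e00000008 0x40000000600000073000000fe0000003f 6 8) 0 0 (step_sound _ 36 [rh3b00e9e9432b8f40, (rh67664dc1adb49e16.shift 1 0), rheb505ef94539da28] (by decide +kernel))
noncomputable def rh7fc59d655f11124d : CRef := CRef.mk (Pat.mk 0x20000000e0000000000000000 0x8000000080000003b0000001f0000003000000010 6 6) 0 0 (step_sound _ 68 [rh0c95a1c4ce1296ee, (rh3244c3cc8379b070.shift 0 2)] (by decide +kernel))
noncomputable def rh1c49b721a7470203 : CRef := CRef.mk (Pat.mk 0xa0000000e00000008 0x1e0000001e0000007f0000003e0000000e00000008 6 7) 0 0 (step_sound _ 66 [rh6e729590e6c0a6f7, (rh7b1f2bd04e3db55f.shift 1 0), (rh7bf3a09dc3890604.shift 1 0)] (by decide +kernel))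
noncomputable def rhf8cab4de10547c12 : CRef := CRef.mk (Pat.mk 0x60000001c000000100000000800000008 0x18000000180000007f0000007e0000001c000000100000001800000008 6 7) 0 0 (step_sound _ 132 [(rhd4652cea3e25ec60.shift 0 2), (rheea67dfebd0f8008.shift 3 0)] (by decide +kernel))
noncomputable def rhb09a9dab21a0bbba : CRef := CRef.mk (Pat.mk 0x800000008000000000000003c00000010 0x7c0000002f000000640000003c00000016 6 7) 0 0 (step_sound _ 69 [rh200029a536cd1ebc, (rh33e738c4ed385b9f.shift 2 1)] (by decide +kernel))
noncomputable def rh46fd54eafe21e671 : CRef := CRef.mk (Pat.mk 0x800000008000000000000003c00000014000000000000000000000000 0x80000000c000000040000007c0000001c0000000f0000000e0000000e 6 7) 0 0 (step_sound _ 99 [(rh18965a982d73c794.shift 2 3), rh19da675c7fc3c1aa] (by decide +kernel))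
noncomputable def rh2711cb01bcba8ebe : CRef := CRef.mk (Pat.mk 0x800000008000000000000003c00000014 0x7c0000002f000000640000003c00000014 6 7) 0 0 (step_sound _ 69 [(rh33e738c4ed385b9f.shift 2 1), rh9d16fbe54f3f40a8] (by decide +kernel))
noncomputable def rh51e916d336f9e9d9 : CRef := CRef.mk (Pat.mk 0x800000008000000200000003c00000010 0x7c0000002f000000240000003c00000016 6 7) 0 0 (step_sound _ 2 [rh9d16fbe54f3f40a8, (rheb0810cc63b001d8.shift 1 0)] (by decide +kernel))
noncomputable def rh46c0f3f441f38294 : CRef := CRef.mk (Pat.mk 0x8000000380000000000000000 0x2000000020000001f8000000ff000001e000000040 6 9) 0 0 (step_sound _ 70 [(rh2fa8a6cd8a03c75c.shift 2 0), (rh3fc3a7fb6866dcd4.shift 3 1), (rh790acd67f4fffd04.shift 3 2), (rhedaf679cda8997d1.shift 0 1)] (by decide +kernel))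
noncomputable def rh2d70845a4eba44db : CRef := CRef.mk (Pat.mk 0x38000000000000001800000010 0x770000003e000001e00000007e00000030 6 9) 0 0 (step_sound _ 69 [rh0003229dd77f3e48, (rh18a801ab0d0ca2eb.shift 1 0), (rh1c912726d79010c0.shift 0 2), (rh87ec52b0a4a7ddb0.shift 2 0), (rhc90668d466b3a0bb.shift 2 1)] (by decide +kernel))
noncomputable def rhd26a6b2bff6e6238 : CRef := CRef.mk (Pat.mk 0x5800000070000000000000002000000020 0x780000007f000000c70000006000000020 6 8) 0 0 (step_sound _ 70 [(rh9ab1c3e55d7d62b6.shift 0 2), (rheea67dfebd0f8008.shift 5 0)] (by decide +kernel))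
noncomputable def rh650b9ba7f50bdccf : CRef := CRef.mk (Pat.mk 0x1e0000000200000002 0x10000000700000007000000070000001e0000000600000002 6 5) 0 0 (step_sound _ 97 [(rh3244c3cc8379b070.shift 0 2), rh5a860b5057e1e4c5] (by decide +kernel))
noncomputable def rhf9fc51785ce0cba3 : CRef := CRef.mk (Pat.mk 0x1e00000004000000000000000800000008 0x300000001e0000003f000000300000003800000008 6 6) 0 0 (step_sound _ 100 [rh0aeff15107e09e96, (rhe25b0a99195a5d59.shift 1 3)] (by decide +kernel))
noncomputable def rhec89969cfdaf3653 : CRef := CRef.mk (Pat.mk 0xe000000020000000000000000 0x10000000300000001f0000003b0000000800000008 6 6) 0 0 (step_sound _ 100 [rhafce7c2a98f15f1d, (rheb0810cc63b001d8.shift 0 2)] (by decide +kernel))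
noncomputable def rhb92a43bc4f14431a : CRef := CRef.mk (Pat.mk 0x20000000e0000000200000002 0x40000003e0000003f0000003a00000002 6 6) 0 0 (step_sound _ 98 [(rh2f68792b6b779e96.shift 1 0), (rhfcc3a69daeb4e231.shift 0 1)] (by decide +kernel))
noncomputable def rh91e69ca9383e36e6 : CRef := CRef.mk (Pat.mk 0x20000001c0000000400000004 0x8000000080000003f0000001f0000003400000004 6 6) 0 0 (step_sound _ 65 [(rh3244c3cc8379b070.shift 0 2), rhe7d3d33efa1f7739] (by decide +kernel))
noncomputable def rh9453ebe0a50eebf4 : CRef := CRef.mk (Pat.mk 0x180000000800000008 0x40000001c0000001c0000001c0000001f000000780000001800000008 6 7) 0 0 (step_sound _ 99 [(rh2d81c31c55e8d97c.shift 2 0), (rh72afbdc90680d7b8.shift 2 0), rhdb019b0e908810fb, (rhdc3b8c421c111ac7.shift 2 0)] (by decide +kernel))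
noncomputable def rheff337d392bc5c44 : CRef := CRef.mk (Pat.mk 0x18000000180000000800000008 0xe4000000ff0000001f0000000800000008 6 8) 0 0 (step_sound _ 98 [(rh09a828a93c42eefa.shift 0 2), (rh50fbb5868c909700.shift 2 0)] (by decide +kernel))
noncomputable def rhc6183b8ab17ecf3c : CRef := CRef.mk (Pat.mk 0x2000000040000000c00000004 0x400000006000000060000003c0000000f0000000e 6 6) 0 0 (step_sound _ 98 [(rh50fbb5868c909700.shift 1 0), rhc8ad32f27ffb57df] (by decide +kernel))
noncomputable def rh3096afc3fb8ec134 : CRef := CRef.mk (Pat.mk 0x20000001c00000004 0x730000007f0000003c 6 7) 0 0 (step_sound _ 33 [(rh3244c3cc8379b070.shift 0 1), rhd542320a7a4dc2c4] (by decide +kernel))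
noncomputable def rhd9b36a4f0fe456d0 : CRef := CRef.mk (Pat.mk 0x180000000800000008 0x40000001c0000001c0000001c0000001f0000007c0000001800000008 6 7) 0 0 (step_sound _ 99 [(rh2d81c31c55e8d97c.shift 2 0), rhca405e350c462817, (rhdc3b8c421c111ac7.shift 2 0)] (by decide +kernel))
noncomputable def rhae537280995106be : CRef := CRef.mk (Pat.mk 0x20000000e0000000000000000 0x800000008000000fe0000007f000000f000000010 6 8) 0 0 (step_sound _ 68 [(rh167fff566cb27b75.shift 1 1), (rh2aac33c566332a8c.shift 1 1), rh3bc20d0d8c73da06, (rh790acd67f4fffd04.shift 1 2)] (by decide +kernel))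
noncomputable def rh5ae56804b61ec549 : CRef := CRef.mk (Pat.mk 0xe0000001800000000 0x1400000014000000370000003e0000001b0000000a 6 6) 0 0 (step_sound _ 68 [rh44dd78dd79fc4e0b, (rh5ba2d67652840f34.shift 1 0)] (by decide +kernel))
noncomputable def rhaf6b5d95cebf13cc : CRef := CRef.mk (Pat.mk 0x200000002000000000000000400000004 0x100000003000000030000000200000003000000070000000700000004 6 3) 0 0 (step_sound _ 65 [(rhaf349dd7709502bf.shift 0 1), (rhbe0e43a3bc50a43f.shift 1 0)] (by decide +kernel))
noncomputable def rhea8b31d11ebb83f2 : CRef := CRef.mk (Pat.mk 0x3800000020000000000000006000000040 0x40000001c000000780000003f0000001c000000fc000000fe 6 8) 0 0 (step_sound _ 99 [(rh13ad8d703ca673f5.shift 1 0), (rh82bc4081c9445fb7.shift 1 0), (rhf0f55c4504412200.shift 0 3)] (by decide +kernel))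
noncomputable def rhe8ec061d2834f84a : CRef := CRef.mk (Pat.mk 0x1800000070000000000000003000000020 0x380000007c000000cf0000007e000000ff 6 8) 0 0 (step_sound _ 35 [(rh3764b47ca874df2f.shift 2 0), rha0ae8adeb1dbcf8d, rhb2afcb5db661472f, (rhd7a878236f6cde2a.shift 1 0), rhf1f49cb2e5a82cf4] (by decide +kernel))
noncomputable def rhce115f9033da1d61 : CRef := CRef.mk (Pat.mk 0x3800000010000000100000001000000000 0x6000000ff0000003e000000180000001800000008 6 8) 0 0 (step_sound _ 35 [(rh14a307c9a7ae35f8.shift 0 1), (rh932754581e0f4330.shift 3 0)] (by decide +kernel))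
noncomputable def rh2bd4eee357cb19c4 : CRef := CRef.mk (Pat.mk 0x800000018000000700000001400000000 0x40000000cc000000f80000007f0000003600000020 6 8) 0 0 (step_sound _ 67 [(rh39f2aa650c834471.shift 0 1), (rh9fdcb09dfa6419d9.shift 2 2), (rhacf812c74b7321f4.shift 2 0)] (by decide +kernel))
noncomputable def rh70ab18bab8d74c9f : CRef := CRef.mk (Pat.mk 0x120000000e0000000000000000 0x1000000018000000380000001e0000003f0000003800000010 6 6) 0 0 (step_sound _ 99 [(rh53b3c253cb0c65f4.shift 0 2), (rh608db70f178a863b.shift 1 0)] (by decide +kernel))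
noncomputable def rhf22043ec940c263e : CRef := CRef.mk (Pat.mk 0x1c00000018 0xe7000000ff00000018 6 8) 0 0 (step_sound _ 33 [rh759a78bd17399b66, rhb739f4f82bb681b4] (by decide +kernel))
noncomputable def rh30c2fd018efaca81 : CRef := CRef.mk (Pat.mk 0xc000000040000000e0000000c 0x100000003c000000770000007e0000003c 6 7) 0 0 (step_sound _ 4 [rha26e9b3d1f2cd227, (rhf48373e13d2bc128.shift 1 0)] (by decide +kernel))
noncomputable def rh9ed67584b6a486bb : CRef := CRef.mk (Pat.mk 0x6000000020000000c0000000c 0x7c0000003e0000007b0000000c0000000c 6 7) 0 0 (step_sound _ 99 [(rh4c61a8d65f05c464.shift 2 0), (rhfa35e196e150edb4.shift 0 2)] (by decide +kernel))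
noncomputable def rh93029b43452b4aeb : CRef := CRef.mk (Pat.mk 0xf000000020000000000000000 0x800000008000000fc0000007f000000e60000000400000004 6 8) 0 0 (step_sound _ 100 [(rh3d54e7f933686048.shift 1 2), rh5e6c4f726b56f667, (rh9890f9d77740bbed.shift 0 3)] (by decide +kernel))
noncomputable def rh2dbd60cbcd047b5e : CRef := CRef.mk (Pat.mk 0xc000000000000001c0000000800000000 0x380000003c000000f00000003f0000003800000010 6 8) 0 0 (step_sound _ 100 [(rh3e84a01bb3cc8415.shift 0 1), (rha11dfd15f08f96e3.shift 1 2), (rhb5d6140f4e42da4b.shift 2 0), (rhf89b7518f56b0c6c.shift 1 0)] (by decide +kernel))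
noncomputable def rh0b01d292f713c566 : CRef := CRef.mk (Pat.mk 0x1c000000100000000000000000 0x2000000030000003e000000370000000400000004 6 6) 0 0 (step_sound _ 97 [rh0cf480bf0f3cfd64, (rhe25b0a99195a5d59.shift 1 2)] (by decide +kernel))
noncomputable def rh99d106e79260c62b : CRef := CRef.mk (Pat.mk 0x1e00000010000000000000000000000000 0x40000003f0000001f000000030000000200000002 6 6) 0 0 (step_sound _ 97 [rh35b9386a26d5f95f, (rheb0810cc63b001d8.shift 0 3)] (by decide +kernel))
noncomputable def rhdde50cf14433f92f : CRef := CRef.mk (Pat.mk 0x1e0000000a000000000000000000000000 0x30000003e0000003e000000070000000700000007 6 6) 0 0 (step_sound _ 98 [(rh18965a982d73c794.shift 1 3), rhc52f5bae51c86367] (by decide +kernel))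
noncomputable def rhd383b59e8d5f375f : CRef := CRef.mk (Pat.mk 0x1e00000008 0xe0000000fe0000003f 6 8) 0 0 (step_sound _ 1 [(rhc798ca0681113501.shift 1 0), rheb0810cc63b001d8] (by decide +kernel))
noncomputable def rhdd49db1d13e41c35 : CRef := CRef.mk (Pat.mk 0x60000001e00000000 0x1800000018000000380000003e0000001f00000030 6 6) 0 0 (step_sound _ 68 [(rh33e738c4ed385b9f.shift 1 1), rh6fee3867b64a689d] (by decide +kernel))
noncomputable def rhac94ae1e74027fbc : CRef := CRef.mk (Pat.mk 0x600000000000000040000000400000000 0x600000006000000040000003c0000000f0000000a 6 6) 0 0 (step_sound _ 98 [(rh50fbb5868c909700.shift 1 1), rh7133a7a78d762f91] (by decide +kernel))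
noncomputable def rh200756c8b58b99b4 : CRef := CRef.mk (Pat.mk 0x400000038000000080000000000000000 0x760000003f000000380000000800000008 6 7) 0 0 (step_sound _ 98 [rh130c83337374025d, (rh3244c3cc8379b070.shift 1 3)] (by decide +kernel))
noncomputable def rhfe60e6bf166d6adf : CRef := CRef.mk (Pat.mk 0x80000001e00000000 0xec0000007e00000037 6 8) 0 0 (step_sound _ 4 [rh75380d6b53574693, (rhe25b0a99195a5d59.shift 1 0)] (by decide +kernel))
noncomputable def rhdd2a5e215b1a3be5 : CRef := CRef.mk (Pat.mk 0x3c00000000 0x670000003e00000067 6 7) 0 0 (step_sound _ 69 [(rh33e738c4ed385b9f.shift 2 1), rh8c079dd4a460bae4] (by decide +kernel))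
noncomputable def rhc87489d6fc57ca7d : CRef := CRef.mk (Pat.mk 0x8000000080000001c0000001000000000 0x80000000f0000007f0000003c00000004 6 7) 0 0 (step_sound _ 65 [rh96b03db7c04bf80f, (rhe25b0a99195a5d59.shift 1 1)] (by decide +kernel))
noncomputable def rh018c2ec5dbebf695 : CRef := CRef.mk (Pat.mk 0x8000000080000001c0000001000000000 0x80000007f0000007f0000001c00000004 6 7) 0 0 (step_sound _ 65 [(rh6765e7960b108c8d.shift 0 1), rh96b03db7c04bf80f, (rhe6bdd62e1711df0b.shift 1 2)] (by decide +kernel))
noncomputable def rh71d2155382f8dfa3 : CRef := CRef.mk (Pat.mk 0x30000000700000004 0x18000000180000001f0000001f0000001c 6 5) 0 0 (step_sound _ 35 [rhd2e7d1d9db1cff3b, (rhf48373e13d2bc128.shift 0 1)] (by decide +kernel))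
noncomputable def rhcce02c766c8b65a0 : CRef := CRef.mk (Pat.mk 0x1000000018000000380000000000000000 0x80000000c0000001f0000003e000000380000001800000008 6 6) 0 0 (step_sound _ 35 [(rh71222050f2c63a3a.shift 3 0), (rh9ff5bd11e291dfb9.shift 0 1)] (by decide +kernel))
noncomputable def rhea8817d1da92b1c9 : CRef := CRef.mk (Pat.mk 0x40000000e0000000a 0x7c000000fe0000003b 6 8) 0 0 (step_sound _ 36 [rheb0810cc63b001d8, (rhedb3b02e2070cb06.shift 1 0)] (by decide +kernel))
noncomputable def rhf0dc22fcb7969733 : CRef := CRef.mk (Pat.mk 0x4000000040000000c000000080000000000000000 0x4000000e6000000ff0000003f0000000200000002 6 8) 0 0 (step_sound _ 100 [rh7e83efc0c0d75a40, (rh9f93e2b24091a43d.shift 1 2), (rhec49dc45c67f7816.shift 0 2)] (by decide +kernel))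
noncomputable def rh69c42b78f3d562bc : CRef := CRef.mk (Pat.mk 0x2000000020000001e000000060000000000000000 0x11000000130000003a0000001f0000001e0000000800000008 6 6) 0 0 (step_sound _ 132 [(rh33e738c4ed385b9f.shift 1 3), rhd1e019b956037589] (by decide +kernel))
noncomputable def rh9613a25976cdad86 : CRef := CRef.mk (Pat.mk 0x4000000040000001e0000000800000000 0x1000000014000000370000001e0000003b00000002 6 6) 0 0 (step_sound _ 97 [(rh3244c3cc8379b070.shift 0 2), rhf677a391f2cc9385] (by decide +kernel))
noncomputable def rhcc09237f44bec89a : CRef := CRef.mk (Pat.mk 0x180000001c0000001000000000 0x20000000a0000000f0000001f0000007c0000001600000004 6 7) 0 0 (step_sound _ 98 [(rh8c29b1e2f83d279d.shift 1 0), rhaed54c24fb91f24a, (rhe2b63c00a3d7bb73.shift 0 2)] (by decide +kernel))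
noncomputable def rh39171d3e225e0cad : CRef := CRef.mk (Pat.mk 0x38000000280000000000000000 0x40000000c0000000f0000003e0000003e0000000e0000000c 6 6) 0 0 (step_sound _ 98 [(rh5b2c2571532c5b54.shift 0 2), (rhd5889c99d29bf7d6.shift 1 0), (rhdbf2effe2e2e3e76.shift 1 0)] (by decide +kernel))
noncomputable def rhdea1f04fd30dc1f7 : CRef := CRef.mk (Pat.mk 0x1c000000140000000000000000 0x200000006000000770000007f0000001c0000000c0000000c 6 7) 0 0 (step_sound _ 67 [(rh0c561658b8646091.shift 1 0), (rh97d7d5a6f82c94ae.shift 0 2), rhaed54c24fb91f24a, (rhf32ad60d2824f85e.shift 0 2)] (by decide +kernel))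
noncomputable def rhc31e788a49ad4da2 : CRef := CRef.mk (Pat.mk 0x20000000e00000008 0x73000000fe0000003c 6 8) 0 0 (step_sound _ 36 [(rh3244c3cc8379b070.shift 0 1), (rh67664dc1adb49e16.shift 1 0)] (by decide +kernel))
noncomputable def rh79f86bb6284e2c44 : CRef := CRef.mk (Pat.mk 0x10000000f00000005000000000000000000000000 0x50000001f0000001f0000001a0000000a00000008 6 5) 0 0 (step_sound _ 97 [(rh18965a982d73c794.shift 0 3), rh836c8bb6b749f387] (by decide +kernel))
noncomputable def rh3abd088d854471f9 : CRef := CRef.mk (Pat.mk 0x1e000000100000000000000000 0x400000004000000070000003f0000001c0000000800000008 6 6) 0 0 (step_sound _ 67 [(rhb739f4f82bb681b4.shift 0 2), rhc495c7abd6a5eafa] (by decide +kernel))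
noncomputable def rh0d751dc6b5a462a8 : CRef := CRef.mk (Pat.mk 0x8000000020000001e0000000000000000 0x20000000b0000003e0000003f0000000400000004 6 6) 0 0 (step_sound _ 98 [rh9ba47a8dbddcea8b, (rhf48373e13d2bc128.shift 1 2)] (by decide +kernel))
noncomputable def rh1bb7a459dcf849de : CRef := CRef.mk (Pat.mk 0x8000000040000001c00000018 0x140000003c000000370000001f00000018 6 6) 0 0 (step_sound _ 33 [rh227e78c892f02dfb, rhb739f4f82bb681b4] (by decide +kernel))
noncomputable def rh22a9291edb508db3 : CRef := CRef.mk (Pat.mk 0x40000001c00000018 0x4000000040000007c000000ff00000018 6 8) 0 0 (step_sound _ 98 [(rh2145e1d24b96a57e.shift 2 0), rh69330d616dedc443] (by decide +kernel))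
noncomputable def rhfd691d65aed131cc : CRef := CRef.mk (Pat.mk 0x4000000000000001e0000000600000000 0xa0000000f0000003c0000001e0000000600000006 6 6) 0 0 (step_sound _ 98 [rh331fc9dcd623b99a, (rh932754581e0f4330.shift 1 0)] (by decide +kernel))
noncomputable def rhaa1891de24fda6b8 : CRef := CRef.mk (Pat.mk 0x1e000000100000000000000000 0x4000000040000003f0000001f0000000300000002 6 6) 0 0 (step_sound _ 67 [rh21703bbb6af57eb9, (rhb739f4f82bb681b4.shift 0 2)] (by decide +kernel))
noncomputable def rh11e6e7511253ef4c : CRef := CRef.mk (Pat.mk 0x8000000080000001c00000018 0x30000000f80000003c0000001f00000018 6 8) 0 0 (step_sound _ 33 [(rh56f50a4ac91710b2.shift 1 0), rhb739f4f82bb681b4] (by decide +kernel))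
noncomputable def rhd28e4578788802f9 : CRef := CRef.mk (Pat.mk 0x100000001e0000001800000000 0x18000000380000001f0000003e0000001800000010 6 6) 0 0 (step_sound _ 132 [(rh5c5e593799055d58.shift 3 1), rhe0d74f19c9e553d4] (by decide +kernel))
noncomputable def rh294748a807cebe00 : CRef := CRef.mk (Pat.mk 0x7000000040 0x700000007e000000e7 6 8) 0 0 (step_sound _ 35 [rh988050a6fa3e9d04, (rhe25b0a99195a5d59.shift 3 0)] (by decide +kernel))
noncomputable def rhdd5aebfd6f18e20a : CRef := CRef.mk (Pat.mk 0x800000000000000080000000c00000000 0x140000003c0000000f000000080000000c0000000c 6 6) 0 0 (step_sound _ 99 [rh59c6c9d9132801ae, (rh932754581e0f4330.shift 2 0)] (by decide +kernel))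
noncomputable def rhc79e66b3f9b6a154 : CRef := CRef.mk (Pat.mk 0x3800000020 0x760000003e00000067 6 7) 0 0 (step_sound _ 34 [rhdd510ff8251b8a75, (rhe25b0a99195a5d59.shift 2 0)] (by decide +kernel))
noncomputable def rhea70d1460309b009 : CRef := CRef.mk (Pat.mk 0x8000000000000003c00000010000000000000000000000000 0x80000000a0000007f0000001e000000040000000400000004 6 7) 0 0 (step_sound _ 98 [(rheb0810cc63b001d8.shift 1 3), rhfa53d7817102d8e8] (by decide +kernel))
noncomputable def rh307ebb72483ac91e : CRef := CRef.mk (Pat.mk 0x2000000090000000f0000000400000000 0xd0000001f0000000b0000001f0000000600000002 6 5) 0 0 (step_sound _ 97 [rh2c5e340fa9cd7296, (rhf48373e13d2bc128.shift 0 2)] (by decide +kernel))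
noncomputable def rhb4ab6b1c2df197e7 : CRef := CRef.mk (Pat.mk 0x38000000280000000000000000 0xc0000000f0000003e0000003e0000000e0000000c 6 6) 0 0 (step_sound _ 98 [(rhc901bc4bb2497753.shift 1 0), (rhd1d05263fabc0227.shift 0 2), (rhdbf2effe2e2e3e76.shift 1 0)] (by decide +kernel))
noncomputable def rh97399aa3b4b69ba0 : CRef := CRef.mk (Pat.mk 0x1c000000040000000000000000 0x600000006000000f70000007e0000000c0000000c00000004 6 8) 0 0 (step_sound _ 133 [(rh3e669c3b1d0ed186.shift 1 1), (rhb8022f71dc28021b.shift 1 3), rhc2c446d6cf9731b3] (by decide +kernel))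
noncomputable def rha3c9f5c9c64fb016 : CRef := CRef.mk (Pat.mk 0x4000000070000000c00000008000000000000000000000000 0x80000003c0000000f0000000e0000000e000000060000000600000004 6 6) 0 0 (step_sound _ 195 [(rh572132728df34c43.shift 0 5), (rhbce0f12bd9296d97.shift 1 0)] (by decide +kernel))
noncomputable def rh6485c21868f35d37 : CRef := CRef.mk (Pat.mk 0x4000000060000000c00000008000000000000000000000000 0x80000000c0000000e0000003e0000000f000000060000000400000004 6 6) 0 0 (step_sound _ 132 [rhd8c409e67fa983ee, (rhf48373e13d2bc128.shift 1 4)] (by decide +kernel))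
noncomputable def rh8d546a0d8896bef5 : CRef := CRef.mk (Pat.mk 0x800000008000000180000001000000000 0x140000003c0000000f000000780000001e0000000c 6 7) 0 0 (step_sound _ 35 [rh900a894640be090c, (rha71afc656c87d410.shift 1 0)] (by decide +kernel))
noncomputable def rhfdd96354bc6a66ba : CRef := CRef.mk (Pat.mk 0x600000006000000060000000600000000 0x80000003e0000003e000000070000001e00000008 6 6) 0 0 (step_sound _ 131 [rh1272a1a168bc4ae5, (rh2f68792b6b779e96.shift 2 1)] (by decide +kernel))
noncomputable def rhd71b34aaac9384db : CRef := CRef.mk (Pat.mk 0x4000000040000000c0000000800000000 0xa0000000f0000003c0000003c0000000f00000006 6 6) 0 0 (step_sound _ 34 [rh305945700f20b255, rha71afc656c87d410] (by decide +kernel))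
noncomputable def rh55fc8675550d8ce5 : CRef := CRef.mk (Pat.mk 0x80000000e00000018 0x30000000300000007f000000fe0000001c 6 8) 0 0 (step_sound _ 36 [rh412d230494194d0a, (rh70f75251a6f67951.shift 1 0), rh8ebf9530de0f8ca7, (rhc919c02c3fa6df28.shift 1 0), rhd283a685d2618d5b] (by decide +kernel))
noncomputable def rh642e5326ec9c2607 : CRef := CRef.mk (Pat.mk 0x2000000030000000e00000004000000000000000000000000 0xd0000001f0000001f0000000f00000006000000020000000200000002 6 5) 0 0 (step_sound _ 97 [rh60c17605e880d32b, (rhd6bc10e2a6aa5684.shift 0 3), (rhe286c75f2739cce2.shift 0 2)] (by decide +kernel))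
noncomputable def rhc4f3a4e8019dcbae : CRef := CRef.mk (Pat.mk 0x80000007000000040 0x3c0000007f00000067 6 7) 0 0 (step_sound _ 35 [(rh3244c3cc8379b070.shift 2 1), rhd1ce6ea7fa3d44a4] (by decide +kernel))
noncomputable def rhca2d08e027b91475 : CRef := CRef.mk (Pat.mk 0x1c00000008000000180000001800000000 0x1c0000000f0000001e0000001f00000007 6 5) 0 0 (step_sound _ 34 [(rh932754581e0f4330.shift 2 0), rhb09a607b3b7cc594] (by decide +kernel))
noncomputable def rhc872669747c7ac7b : CRef := CRef.mk (Pat.mk 0x80000000e00000018 0x10000000300000003f0000003e00000038 6 6) 0 0 (step_sound _ 36 [rh8ebf9530de0f8ca7, (rhe25b0a99195a5d59.shift 1 0)] (by decide +kernel))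
noncomputable def rh92040ede0111f199 : CRef := CRef.mk (Pat.mk 0x80000001e00000018 0x30000000300000003f0000001e0000001b 6 6) 0 0 (step_sound _ 68 [rh033256a0e285e4c4, (rh33e738c4ed385b9f.shift 1 1)] (by decide +kernel))
noncomputable def rh47e56154a6ce750a : CRef := CRef.mk (Pat.mk 0x4000000060000000c0000000800000000 0x10000000340000003e0000003f0000000b00000002 6 6) 0 0 (step_sound _ 68 [rhc2944cd01c6fcbc3, (rhf48373e13d2bc128.shift 1 2)] (by decide +kernel))
noncomputable def rh69d3451f1924697c : CRef := CRef.mk (Pat.mk 0x80000000c00000018000000000000000000000000 0x140000007c0000001f000000180000000c0000000c00000004 6 7) 0 0 (step_sound _ 129 [(rh52fa5817b6fe6de8.shift 1 0), (rhb739f4f82bb681b4.shift 0 3)] (by decide +kernel))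
noncomputable def rhc0bb59e91cc0d6b2 : CRef := CRef.mk (Pat.mk 0xc0000001e000000000000000000000000 0xa0000000f0000001e000000070000000600000006 6 5) 0 0 (step_sound _ 129 [(rh3244c3cc8379b070.shift 0 3), rh85d8c28f8fbce67f] (by decide +kernel))
noncomputable def rh0753bcbd25b80224 : CRef := CRef.mk (Pat.mk 0x1800000038000000040000000000000000 0x18000000780000000f0000003c0000001c 6 7) 0 0 (step_sound _ 67 [(rh18965a982d73c794.shift 2 2), rh6520ce5b73fb2475] (by decide +kernel))
noncomputable def rhc4b1c5024f4707d7 : CRef := CRef.mk (Pat.mk 0x8000000000000001e00000018 0x300000003c0000003f0000001e00000018 6 6) 0 0 (step_sound _ 65 [(rh3244c3cc8379b070.shift 0 1), (rh6104416cc0caacfc.shift 1 0)] (by decide +kernel))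
noncomputable def rh9b59b70841542f0a : CRef := CRef.mk (Pat.mk 0xc000000000000000c0000000c00000000 0x120000003f0000003f0000000c0000000c00000004 6 6) 0 0 (step_sound _ 99 [(rh932754581e0f4330.shift 2 0), (rhd73706dea72a3ef0.shift 0 1)] (by decide +kernel))
noncomputable def rhf27ced2d13a1e01d : CRef := CRef.mk (Pat.mk 0x4000000000000001c0000000c00000000 0x4000000040000001c0000003f00000077 6 7) 0 0 (step_sound _ 33 [rh05852984d90e1eab, (rh53b3c253cb0c65f4.shift 0 1)] (by decide +kernel))
noncomputable def rh513973edcac6f90e : CRef := CRef.mk (Pat.mk 0xc0000000e000000000000000000000000 0x8000000080000003c0000003e000000770000001400000004 6 7) 0 0 (step_sound _ 132 [(rh18965a982d73c794.shift 1 3), rhe9a84b2a25d3db2e] (by decide +kernel))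
noncomputable def rh289347f19e98c571 : CRef := CRef.mk (Pat.mk 0x4000000000000000c0000000e0000000000000000 0xc0000000c0000003c0000001e0000003300000010 6 6) 0 0 (step_sound _ 100 [rh07f116f584d831a0, (rh18965a982d73c794.shift 1 2)] (by decide +kernel))
noncomputable def rh658c373b183445ed : CRef := CRef.mk (Pat.mk 0x8000000000000001c0000000000000000 0x8000000ff0000007e0000000700000004 6 8) 0 0 (step_sound _ 101 [(rh01591de926d52984.shift 1 0), (rh90fcc1b0fe0017ad.shift 1 2), (rhe34d5b16b00f32c0.shift 0 1)] (by decide +kernel))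
noncomputable def rh6f1aa27e97f76902 : CRef := CRef.mk (Pat.mk 0x4000000100000001e0000000800000000 0x1000000014000000170000003e0000003b00000002 6 6) 0 0 (step_sound _ 97 [(rh3244c3cc8379b070.shift 0 2), rhe4dff0107b40f388] (by decide +kernel))
noncomputable def rhf6013bef344ae9fe : CRef := CRef.mk (Pat.mk 0xe000000000000000400000004 0x800000008000000780000003e000000770000001400000004 6 7) 0 0 (step_sound _ 100 [rh7955f19473c09b83, (rh9a5c6744c2ba817e.shift 1 0), (rha93a5dd541ab8209.shift 1 2)] (by decide +kernel))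
noncomputable def rh2c7af1852f6c2bc9 : CRef := CRef.mk (Pat.mk 0x3800000000 0x1c7000000fe000001ff 6 9) 0 0 (step_sound _ 2 [rh3cc5c7fb74c49f61, (rh3d85883586a443ec.shift 1 0), rhab1690a4dda61c82, (rhf2b3bcf1454375d8.shift 2 0)] (by decide +kernel))
noncomputable def rh65421f988a047850 : CRef := CRef.mk (Pat.mk 0x200000003800000000 0x670000003e00000067 6 7) 0 0 (step_sound _ 34 [(rh33e738c4ed385b9f.shift 2 1), rh8c079dd4a460bae4] (by decide +kernel))
noncomputable def rh8fad49e87fdafea0 : CRef := CRef.mk (Pat.mk 0xc000000040000000e0000000c 0x100000003c000000370000007e0000003e 6 7) 0 0 (step_sound _ 4 [(rhf48373e13d2bc128.shift 1 0), rhfe53e3e870e68045] (by decide +kernel))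
noncomputable def rhd6cb9ed4ba52a4d1 : CRef := CRef.mk (Pat.mk 0x1800000000000000180000001000000000 0x1c0000003c0000000f000000180000001800000008 6 6) 0 0 (step_sound _ 99 [(rh2145e1d24b96a57e.shift 3 1), rh6bc015b9268c8423] (by decide +kernel))
noncomputable def rh24a648cde3dc9c11 : CRef := CRef.mk (Pat.mk 0xc000000000000001c00000008 0x380000003e000000700000001f00000038 6 7) 0 0 (step_sound _ 68 [(rh12f67c13ff6b9195.shift 1 0), rh3e84a01bb3cc8415, rh5dec5e73a267a1c4, (rhd5000285e18e59dc.shift 1 0), (rhe1ac6c6673454dff.shift 1 0)] (by decide +kernel))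
noncomputable def rh9a305988196305ca : CRef := CRef.mk (Pat.mk 0x18000000000000001c00000010 0x40000003c000000070000003e00000033 6 6) 0 0 (step_sound _ 33 [rh4c05afeb7a1b01ec, (rhe25b0a99195a5d59.shift 1 0)] (by decide +kernel))
noncomputable def rh32ed39b2c78966e3 : CRef := CRef.mk (Pat.mk 0xc000000000000000e00000008 0x1e0000001e00000073000000fe0000003f 6 8) 0 0 (step_sound _ 36 [(rh67664dc1adb49e16.shift 1 0), rh71425b99c81b7935, (rh92f50af3c4255d77.shift 1 0)] (by decide +kernel))
noncomputable def rhc8f7cba02bd5d8af : CRef := CRef.mk (Pat.mk 0x180000000e000000080000001800000000 0x180000001e0000007c000000ff00000064 6 8) 0 0 (step_sound _ 34 [rh4407ace1ed7f393f, (rh932754581e0f4330.shift 2 0)] (by decide +kernel))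
noncomputable def rh788a6df470748423 : CRef := CRef.mk (Pat.mk 0x180000000e000000000000000800000000 0x2000000030000001f0000003e000000340000001c00000018 6 6) 0 0 (step_sound _ 100 [(rh41d5a93e35cc8528.shift 0 1), (rhdc461deccfb05432.shift 1 0)] (by decide +kernel))
noncomputable def rhaf9358962a622a59 : CRef := CRef.mk (Pat.mk 0x180000001e00000000 0x1200000012000000330000001f0000001e0000000c 6 6) 0 0 (step_sound _ 65 [(rh3244c3cc8379b070.shift 0 1), rhb007393dd67c13a9] (by decide +kernel))
noncomputable def rhd865e80bfa50855b : CRef := CRef.mk (Pat.mk 0x1e0000000000000000 0x400000004000000070000003e0000003300000002 6 6) 0 0 (step_sound _ 97 [(rh3244c3cc8379b070.shift 0 2), rh8d59968615bddea6] (by decide +kernel))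
noncomputable def rh3f396fc471e867d8 : CRef := CRef.mk (Pat.mk 0x100000001c0000000000000000 0x400000004000000370000003e0000000300000002 6 6) 0 0 (step_sound _ 65 [(rh33e738c4ed385b9f.shift 1 2), rh3cc3e986d9471888] (by decide +kernel))
noncomputable def rha6ff98aab8cf80bf : CRef := CRef.mk (Pat.mk 0x2c00000038000000100000000000000000 0x3c0000003e0000007f0000000600000006 6 7) 0 0 (step_sound _ 98 [(rh21d582c147e7e118.shift 0 2), (rha9b45fc165e16ab9.shift 1 0), (rhe3dc93746cbe6e7c.shift 1 2)] (by decide +kernel))
noncomputable def rhd88015c90fd985e7 : CRef := CRef.mk (Pat.mk 0x70000000a0 0x70000007e000000fe 6 8) 0 0 (step_sound _ 35 [rh8aa80d8d90d3223c, (rh96851dee118c1ba3.shift 3 0)] (by decide +kernel))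
noncomputable def rha7191f5d6d8736d9 : CRef := CRef.mk (Pat.mk 0x80000001e0000000000000000 0x2000000030000003f0000003e0000000400000004 6 6) 0 0 (step_sound _ 100 [(rh33e738c4ed385b9f.shift 1 2), rh41d5a93e35cc8528] (by decide +kernel))
noncomputable def rh5f28bdf389a47c35 : CRef := CRef.mk (Pat.mk 0x180000000e0000002000000000 0x3000000030000001f0000003e0000006700000004 6 7) 0 0 (step_sound _ 68 [rh3f38de6b95fe6c30, (rh5f731c0616897bce.shift 0 1), (rh9d1db2a55d27de19.shift 0 1)] (by decide +kernel))
noncomputable def rh5dde4184b071f08d : CRef := CRef.mk (Pat.mk 0x40000000700000010000000000000000000000000 0xa0000001e000000070000003e0000000e0000000e0000000a 6 6) 0 0 (step_sound _ 98 [rh5e5b6c8eda34d977, (rh68691964b29f233d.shift 0 3)] (by decide +kernel))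
noncomputable def rhbb96372a105290e6 : CRef := CRef.mk (Pat.mk 0x2000000038000000000000000000000000 0x1000000014000000360000007e0000006f0000002800000008 6 7) 0 0 (step_sound _ 98 [(rh0cf480bf0f3cfd64.shift 1 0), (rh21d582c147e7e118.shift 0 2), (rh4983c44f3a2eb597.shift 1 1)] (by decide +kernel))
noncomputable def rhe3afa6c0f229bb1f : CRef := CRef.mk (Pat.mk 0x100000001c000000000000000000000000 0x2000000330000003e000000070000000400000004 6 6) 0 0 (step_sound _ 97 [rh0cf480bf0f3cfd64, (rh33e738c4ed385b9f.shift 1 3)] (by decide +kernel))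
noncomputable def rhb62cfc5072b24f56 : CRef := CRef.mk (Pat.mk 0x20000000600000002000000000000000000000000 0x50000000700000007000000060000000600000003000000030000000300000001 6 3) 0 0 (step_sound _ 64 [rh0e6924d680f6455d, (rh2e95f0771a0e88ed.shift 0 1), (rhb77bfac3e9efecea.shift 0 2)] (by decide +kernel))
noncomputable def rh83a76d1917266375 : CRef := CRef.mk (Pat.mk 0x180000000e000000080000001800000000 0x180000001e000001f8000000ff000000e4 6 9) 0 0 (step_sound _ 34 [(rh932754581e0f4330.shift 2 0), rhb18170f487f92fe1] (by decide +kernel))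
noncomputable def rh93cd1a509368430b : CRef := CRef.mk (Pat.mk 0x180000000e000000000000000800000000 0x40000001f0000003e000000330000001a0000001a 6 6) 0 0 (step_sound _ 100 [rh6076add87d5fdaa7, (rhdc461deccfb05432.shift 1 0)] (by decide +kernel))
noncomputable def rh731812e9213b7b45 : CRef := CRef.mk (Pat.mk 0x400000007800000000 0x7c000000ff00000007 6 8) 0 0 (step_sound _ 67 [(rh3244c3cc8379b070.shift 2 1), rh37eeff0c3c4d4122] (by decide +kernel))
noncomputable def rh1d7bfde22a112a94 : CRef := CRef.mk (Pat.mk 0x6000000080000001c000000000000000000000000 0x60000007e0000007f000000030000000200000002 6 7) 0 0 (step_sound _ 130 [(rh525b1307409128b7.shift 1 3), (rh79b3c29022acbdf3.shift 1 3), rhee280e976e7de9e1] (by decide +kernel))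
noncomputable def rh53230ec0c0acbd4a : CRef := CRef.mk (Pat.mk 0x100000001e00000010000000000000000000000000 0x100000001f0000001c000000f80000003800000038 6 8) 0 0 (step_sound _ 99 [(rhb739f4f82bb681b4.shift 0 3), (rhd8f429786e6ff0e8.shift 2 0)] (by decide +kernel))
noncomputable def rh5a4445368d37b79e : CRef := CRef.mk (Pat.mk 0xb0000000a000000080000000800000000 0x30000000b0000000a0000000e0000003f00000017 6 6) 0 0 (step_sound _ 34 [rh457f2abbfb9d5b13, (rh932754581e0f4330.shift 2 0)] (by decide +kernel))
noncomputable def rh14827c8b93adf707 : CRef := CRef.mk (Pat.mk 0x500000007000000040000000400000000000000000000000000000000 0x10000000100000005000000070000000700000006000000060000000e0000000e0000000a 6 4) 0 0 (step_sound _ 98 [(rh7928877f9bf74a91.shift 1 2), (rha289718bec579619.shift 0 2), (rhc05d451ce3dd5e48.shift 1 0)] (by decide +kernel))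
noncomputable def rh13d270cbd86a0e3e : CRef := CRef.mk (Pat.mk 0xb0000000e00000008000000080000000000000000 0x100000003000000030000000b0000000e0000000e0000001f0000001900000018 6 5) 0 0 (step_sound _ 36 [rh254eddaae00c07ce, (rhd3458b32566d63f7.shift 3 1)] (by decide +kernel))
noncomputable def rhf5183d55e2daca0a : CRef := CRef.mk (Pat.mk 0x100000001c000000000000000000000000 0x2000000330000003e000000070000000400000004 6 6) 0 0 (step_sound _ 97 [(rh33e738c4ed385b9f.shift 1 3), rhe6f3c981f45ee7b2] (by decide +kernel))
noncomputable def rh7b7b87771734e2e1 : CRef := CRef.mk (Pat.mk 0x100000001e0000000000000000 0x2000000030000001f0000003f0000000400000004 6 6) 0 0 (step_sound _ 99 [rh41d5a93e35cc8528, (rh53b3c253cb0c65f4.shift 0 2)] (by decide +kernel))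
noncomputable def rhd0b9d2721c547e59 : CRef := CRef.mk (Pat.mk 0x80000000e000000080000000c0000000000000000 0x20000000b0000003e0000000f0000003e0000001300000002 6 6) 0 0 (step_sound _ 68 [(rh55afc6a59410cf00.shift 3 1), rh6e3c2586faa41425] (by decide +kernel))
noncomputable def rhba8f9d01e08304f3 : CRef := CRef.mk (Pat.mk 0x4000000340000001c0000001000000000 0x80000000e0000003c0000001c0000001f0000000e 6 6) 0 0 (step_sound _ 99 [(rh3244c3cc8379b070.shift 1 3), rh6936f04fa46e6ed0] (by decide +kernel))
noncomputable def rh7eda27677b5d3678 : CRef := CRef.mk (Pat.mk 0x20000000600000006000000000000000000000000 0x600000006000000060000000600000006000000030000000300000003 6 3) 0 0 (step_sound _ 193 [(rh2145e1d24b96a57e.shift 1 3), rh946fbe1ddfc14810] (by decide +kernel))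
noncomputable def rh8c2877625a60f022 : CRef := CRef.mk (Pat.mk 0x10000000200000003000000000000000000000000 0x50000000700000007000000030000000200000003000000070000000700000005 6 3) 0 0 (step_sound _ 161 [rh281c6819542c66e6, (rh32431e66bbf434a4.shift 0 2), rh56259dd1390eee46, (rhb1a251d9bff81766.shift 0 2)] (by decide +kernel))
noncomputable def rh42350d41dc4d3af7 : CRef := CRef.mk (Pat.mk 0x100000001c000000040000000000000000 0x200000006000000170000007e0000007c0000000c0000000c 6 7) 0 0 (step_sound _ 69 [(rh782848cf5e4b1e5e.shift 1 2), (rh7c1f21459a93095b.shift 1 0), rhba729d7f754bf307] (by decide +kernel))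
noncomputable def rhcfff3ba4b432b399 : CRef := CRef.mk (Pat.mk 0x180000001e000000000000000000000000 0x180000003e0000003f0000003000000030 6 6) 0 0 (step_sound _ 68 [(rhe25b0a99195a5d59.shift 1 2), rhef9c4a5ad52c15e4] (by decide +kernel))
noncomputable def rh5c3f44207cf1ac86 : CRef := CRef.mk (Pat.mk 0x180000001e000000100000000000000000 0x1000000030000000300000001f0000001e000000180000003000000030 6 6) 0 0 (step_sound _ 129 [(rh3244c3cc8379b070.shift 0 3), (rhba9fdacd0d886664.shift 1 0)] (by decide +kernel))
noncomputable def rh769f48ab50c95bfc : CRef := CRef.mk (Pat.mk 0x80000000e000000080000000c00000000 0x80000000e0000007f000000ff000000f0 6 8) 0 0 (step_sound _ 36 [(rh55afc6a59410cf00.shift 3 0), rhf61fb3470c82322c] (by decide +kernel))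
noncomputable def rh08ebb5f525002ca4 : CRef := CRef.mk (Pat.mk 0x80000001e000000000000000800000000 0x40000000c0000003e000000070000000e0000000e 6 6) 0 0 (step_sound _ 65 [(rh0be40e07838c82ae.shift 1 0), (rheb0810cc63b001d8.shift 0 2)] (by decide +kernel))
noncomputable def rhd0fe6ac26f45fcf4 : CRef := CRef.mk (Pat.mk 0x200000007000000000 0x1f7000001fe0000038e 6 10) 0 0 (step_sound _ 35 [(rh096767d96a1b3292.shift 3 0), rh1f9701c4cf497514, (rh5ed29a68bdd76cd6.shift 2 0)] (by decide +kernel))
noncomputable def rhbf1f895fa7c1ba51 : CRef := CRef.mk (Pat.mk 0x1c00000010000000100000001000000000 0x400000004000000070000003f0000001b000000120000001000000010 6 6) 0 0 (step_sound _ 129 [(rh43dc67402634d54f.shift 0 2), rh464bab2e226d0259] (by decide +kernel))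
noncomputable def rhff8db4a69d4c4747 : CRef := CRef.mk (Pat.mk 0x700000004000000000 0x10000000100000001f000000fe0000006f00000008 6 8) 0 0 (step_sound _ 67 [(rh0de499e0455c9c14.shift 1 1), (rh43dc67402634d54f.shift 2 0), (rh88c620441a3a17ea.shift 0 1), (rhd1d05263fabc0227.shift 1 1)] (by decide +kernel))
noncomputable def rha47a05cb4e00fa44 : CRef := CRef.mk (Pat.mk 0xc0000003800000000000000000000000000000000 0x140000001c0000001c0000000c000000380000001f0000001c0000001c00000014 6 6) 0 0 (step_sound _ 99 [rh528921958bcedb00, (rh56259dd1390eee46.shift 2 0), (rhb1a251d9bff81766.shift 2 2), (rhd19f17a3ae2b82f6.shift 1 2)] (by decide +kernel))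
noncomputable def rhc7f687aa759c3e88 : CRef := CRef.mk (Pat.mk 0x400000007000000030000000200000000 0x2000000060000001f0000001b0000001f0000000d 6 5) 0 0 (step_sound _ 99 [(rh18965a982d73c794.shift 0 2), rhee3cfb18cb4898e7] (by decide +kernel))
noncomputable def rh88416a608c62c62d : CRef := CRef.mk (Pat.mk 0x140000001c0000000800000000 0xe0000000f0000001c0000001c0000000f00000006 6 5) 0 0 (step_sound _ 130 [rh017d9d6f43ceba66, (rh2145e1d24b96a57e.shift 2 1)] (by decide +kernel))
noncomputable def rh12e9e428c5ea0104 : CRef := CRef.mk (Pat.mk 0x1a0000001e000000020000000000000000 0x3000000030000001e0000001e000000360000001c00000018 6 6) 0 0 (step_sound _ 68 [rhd16b2373b1d4e546, (rhe25b0a99195a5d59.shift 1 2)] (by decide +kernel))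
noncomputable def rh4361fe5abe0b1edf : CRef := CRef.mk (Pat.mk 0x180000001e000000100000000000000000 0x180000003e000000170000003c0000001c 6 6) 0 0 (step_sound _ 36 [(rh7b1f1fb55310c477.shift 3 0), rhc0b58ad60bfdca27] (by decide +kernel))
noncomputable def rhbca7da23a6dadd6f : CRef := CRef.mk (Pat.mk 0x20000000600000012000000000000000000000000 0x60000000600000006000000060000001e0000000f0000000f00000003 6 5) 0 0 (step_sound _ 98 [(rh51a57244e64379f6.shift 0 1), (rh55a1f6c57a317ce6.shift 1 1), rh58d06923c5afc265] (by decide +kernel))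
noncomputable def rh351882b69f82cf2d : CRef := CRef.mk (Pat.mk 0x180000003800000008 0x1c0000001c0000001f0000001f0000003800000008 6 6) 0 0 (step_sound _ 65 [(rhab22b5b56e7b3243.shift 1 1), rhe98853668e8f24ec] (by decide +kernel))
noncomputable def rhc216208fcbfd092b : CRef := CRef.mk (Pat.mk 0x1000000010000000180000001800000000 0x2c0000003f0000001f000000180000001800000010 6 6) 0 0 (step_sound _ 131 [(rh50fbb5868c909700.shift 3 1), rh784c7b94a445b2bb] (by decide +kernel))
noncomputable def rhc79936f72a2dc342 : CRef := CRef.mk (Pat.mk 0x2000000038000000000000000000000000 0x4000000360000007e0000007f0000000800000008 6 7) 0 0 (step_sound _ 98 [(rh21d582c147e7e118.shift 0 2), (rh2ebbcfe90e0f250d.shift 1 2), (rhafa5a7051d37b143.shift 1 0)] (by decide +kernel))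
noncomputable def rhd5d4263dc7fe9dd8 : CRef := CRef.mk (Pat.mk 0x40000000f0000000b0000000000000000 0x2000000060000000f0000000b0000001f0000000f 6 5) 0 0 (step_sound _ 33 [(rh71222050f2c63a3a.shift 1 0), rh93bcce24557713d2] (by decide +kernel))
noncomputable def rh10542c60e0f28dcb : CRef := CRef.mk (Pat.mk 0x80000001e000000000000000000000000 0x20000003b0000003e000000070000000400000004 6 6) 0 0 (step_sound _ 132 [rh2395824d1086e2bc, (rh33e738c4ed385b9f.shift 1 3)] (by decide +kernel))
noncomputable def rh2c6beedf2e891890 : CRef := CRef.mk (Pat.mk 0x2000000060000000200000000000000000000000000000000 0x5000000070000000700000002000000060000000600000007000000070000000700000004 6 3) 0 0 (step_sound _ 97 [(rh2f6b95e004f68a41.shift 0 1), (rh6eff4158bb400f47.shift 0 1), rh8a1bd34420cccc7f, (rh9e21c01e2ba1dee9.shift 0 2)] (by decide +kernel))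
noncomputable def rh0b7814c534af3b09 : CRef := CRef.mk (Pat.mk 0x160000001c0000000000000000 0xe0000000f0000001e0000001f0000003c0000001c 6 6) 0 0 (step_sound _ 99 [rh41c43e19aca4be20, rha8bcb4927b3d3cd5, rhd3e95a009f39e032] (by decide +kernel))
noncomputable def rhd87f49ae8f770283 : CRef := CRef.mk (Pat.mk 0x500000007000000020 0x70000001fe000001f7 6 9) 0 0 (step_sound _ 7 [(rh7344b4efa7925350.shift 3 0), rhcd1dd7d21b1a41d6, (rhe913bbd8998b6509.shift 4 0)] (by decide +kernel))
noncomputable def rh871cacb3afe83983 : CRef := CRef.mk (Pat.mk 0x500000007000000020 0x100000001000000077000001fe000001f0 6 9) 0 0 (step_sound _ 100 [rh1f41b73f7c851e6d, (rh2145e1d24b96a57e.shift 4 0)] (by decide +kernel))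
noncomputable def rhe65a8ab8bc9ac00d : CRef := CRef.mk (Pat.mk 0x20000000380000000000000000 0x8000000080000003f0000007e0000007600000004 6 7) 0 0 (step_sound _ 66 [(rh21460d2d48a35cb8.shift 1 0), (rh2ebbcfe90e0f250d.shift 1 1), (rh7fb660bc21ce4329.shift 0 2)] (by decide +kernel))
noncomputable def rh5091e8ef766e6e0b : CRef := CRef.mk (Pat.mk 0x28000000380000000000000000 0x18000000180000003f0000003e0000006600000024 6 7) 0 0 (step_sound _ 98 [(rhc02b3aee7ab87ee1.shift 0 2), (rhd3dc55569bfd6caf.shift 1 0), (rhd8e93bbc8568df99.shift 1 2), (rhdbcea10a0fbe5ba6.shift 0 2)] (by decide +kernel))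
noncomputable def rhb99d7bb5d5b00135 : CRef := CRef.mk (Pat.mk 0x5000000070000000000000000000000000 0x300000003000000077000001fe0000001f0000001800000008 6 9) 0 0 (step_sound _ 99 [(rh21d582c147e7e118.shift 1 2), (rh5e601430b8bc2e39.shift 0 2), (rha2959b67624b388e.shift 2 1), (rhcfde16a7ff36af03.shift 2 0)] (by decide +kernel))
noncomputable def rh86ae2410253e0fa2 : CRef := CRef.mk (Pat.mk 0x40000000f000000090000000000000000 0x2000000060000001f0000000b0000001f0000000f 6 5) 0 0 (step_sound _ 65 [rh0bc4232dcd5b4fd6, (rh18965a982d73c794.shift 0 2)] (by decide +kernel))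
noncomputable def rh8e9b404363f45a1d : CRef := CRef.mk (Pat.mk 0x80000000e000000100000000000000000 0x20000000b0000003e000000370000000400000004 6 6) 0 0 (step_sound _ 100 [rh5f27e0477c371a96, (rhe25b0a99195a5d59.shift 1 2)] (by decide +kernel))
noncomputable def rh8021d7e106d5bb25 : CRef := CRef.mk (Pat.mk 0x50000000700000000000000000 0x30000000300000007e0000007f000000cf00000048 6 8) 0 0 (step_sound _ 99 [rh214448c9bf163ebe, (rh3001434bc51a43e8.shift 2 0), (rhc02b3aee7ab87ee1.shift 1 2), (rhd8e93bbc8568df99.shift 2 2)] (by decide +kernel))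
noncomputable def rhba6e0e1b264860c1 : CRef := CRef.mk (Pat.mk 0xe000000060000000000000000 0x8000000080000003c0000003f000000060000000400000004 6 6) 0 0 (step_sound _ 100 [(rh18965a982d73c794.shift 1 2), rh206d61528605a692] (by decide +kernel))
noncomputable def rh9323204765be35af : CRef := CRef.mk (Pat.mk 0x58000000500000000000000000 0x28000000280000003e0000007e000000770000001000000010 6 7) 0 0 (step_sound _ 101 [rh5c2f0150d1f7d056, (rhd1d05263fabc0227.shift 1 2), (rhd5889c99d29bf7d6.shift 2 0)] (by decide +kernel))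
noncomputable def rhe8eae2b0d412a247 : CRef := CRef.mk (Pat.mk 0x180000001e000000000000000000000000 0x180000003e0000003f0000003000000030 6 6) 0 0 (step_sound _ 68 [(rhe25b0a99195a5d59.shift 1 2), rhfd4dfc2b4df49b01] (by decide +kernel))
noncomputable def rh8ba7efdab6b9bcb2 : CRef := CRef.mk (Pat.mk 0x80000000a00000006000000040000000000000000 0x80000003a0000001f0000003c0000001400000004 6 6) 0 0 (step_sound _ 34 [(rh7b1f1fb55310c477.shift 1 0), (rh962518222e4d8110.shift 0 1)] (by decide +kernel))
noncomputable def rh5c4c42c531c077d7 : CRef := CRef.mk (Pat.mk 0x40000000f000000030000000000000000 0x80000001c0000000f0000001f0000001c0000000c 6 5) 0 0 (step_sound _ 131 [rh1f88ddeca49b52e1, (rh33e738c4ed385b9f.shift 0 3)] (by decide +kernel))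
noncomputable def rh54cf47a4e2b0ba24 : CRef := CRef.mk (Pat.mk 0xa0000000a0000000200000000 0x400000014000000760000003e0000003e0000000b0000000a 6 7) 0 0 (step_sound _ 98 [rh1d1ff638f3815e97, (rh215e11e099257d75.shift 1 0), (rh88be887d437231aa.shift 1 0)] (by decide +kernel))
noncomputable def rhba57e4c9b5959b56 : CRef := CRef.mk (Pat.mk 0xa0000000a00000002000000000000000000000000 0x500000007000000070000000e0000000e00000006000000070000000700000005 6 4) 0 0 (step_sound _ 194 [(rh9236c084a482bdf1.shift 1 2), rh984bfc6de6c2c524, (rh9fdf4b366b1cf3c3.shift 0 2)] (by decide +kernel))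
noncomputable def rhf504f823d09b474a : CRef := CRef.mk (Pat.mk 0x2000000020000000200000001 0x5000000070000000700000002000000020000000700000005 6 3) 0 0 (step_sound _ 129 [rh79877ebd3ef475dd, rhefb41fb43257ec4b] (by decide +kernel))
noncomputable def rhd7646423f51c196d : CRef := CRef.mk (Pat.mk 0xd0000000f000000000000000000000000 0x10000000180000000f0000000f0000001c0000000c0000000c 6 5) 0 0 (step_sound _ 67 [rhb6137bb35f082558, (rhe25b0a99195a5d59.shift 0 2)] (by decide +kernel))
noncomputable def rhb0aac2b4a89addf7 : CRef := CRef.mk (Pat.mk 0x14000000340000000400000000 0xa0000000e0000000f0000003c000000340000001e0000000a 6 6) 0 0 (step_sound _ 130 [(rh5c2604daa0330ae7.shift 1 0), (rhb1f11fdfc32eb594.shift 0 1), (rhd630af2e39ca770f.shift 1 0)] (by decide +kernel))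
noncomputable def rh2d34756ce918dadf : CRef := CRef.mk (Pat.mk 0x5000000050000000100000003800000000 0x200000007000000050000000f7000000fe000000c7 6 8) 0 0 (step_sound _ 133 [rh22538e7075d1879a, (rh2f68792b6b779e96.shift 4 1)] (by decide +kernel))
noncomputable def rh7343427544ec5a8d : CRef := CRef.mk (Pat.mk 0xa0000000a00000002000000000000000000000000 0x400000014000000740000003e0000003e0000000b0000000f0000000700000005 6 7) 0 0 (step_sound _ 162 [rh1b9022be4f7af407, (rh1d1ff638f3815e97.shift 0 2), (rh88be887d437231aa.shift 1 2)] (by decide +kernel))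
noncomputable def rhbc555fc52785c782 : CRef := CRef.mk (Pat.mk 0x1400000014000000040000000000000000 0x80000000c0000000c0000001c0000001c0000000f0000000e0000000a 6 5) 0 0 (step_sound _ 163 [(rh17d7303830c72081.shift 1 0), (rh9236c084a482bdf1.shift 2 1), (rhf521f66750ae5b0a.shift 0 1)] (by decide +kernel))
noncomputable def rhaac3956dd2ccb93e : CRef := CRef.mk (Pat.mk 0x8000000080000000200000007000000000 0x8000000080000001bf000001fe0000018e 6 9) 0 0 (step_sound _ 35 [rh1f9701c4cf497514, (rh48359f3ea1773bbe.shift 2 0), (rh592c7139d2c44767.shift 1 0), (rhec0f150ffdda098a.shift 1 0)] (by decide +kernel))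
noncomputable def rh59d8a47042aed9be : CRef := CRef.mk (Pat.mk 0x14000000140000000400000000 0xc0000000e0000000f0000003e0000001c0000000c00000004 6 6) 0 0 (step_sound _ 99 [(rh62048c0ade01e723.shift 1 1), (rh88be887d437231aa.shift 2 0), rhfb9953e9a73eee19] (by decide +kernel))
noncomputable def rh88d639010f998a60 : CRef := CRef.mk (Pat.mk 0xe0000000200000002000000000000000000000000 0x1000000030000001e0000000600000003000000070000000700000004 6 5) 0 0 (step_sound _ 193 [(rh2e8814637c3f6d46.shift 0 3), rh5bb331872301d326] (by decide +kernel))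
noncomputable def rh69220bf22cc16846 : CRef := CRef.mk (Pat.mk 0xa0000000a00000002000000000000000000000000 0x20000000b0000003e0000001f000000360000001400000004 6 6) 0 0 (step_sound _ 98 [(rh70e33bfdf511e144.shift 1 0), (rhad1baf204156c8c4.shift 0 1)] (by decide +kernel))
noncomputable def rh2ba23edd0207a4dc : CRef := CRef.mk (Pat.mk 0x800000028000000080000000000000000 0x100000001c0000001c000001cc000000f8000001df0000000c00000004 6 9) 0 0 (step_sound _ 100 [(rh40ca4cc59d420356.shift 2 2), rhed587f576d3ec58b, (rhfa35e196e150edb4.shift 2 2)] (by decide +kernel))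
noncomputable def rh8764a3b94c223a47 : CRef := CRef.mk (Pat.mk 0xa0000000a000000020000000700000000 0x110000001b0000001e0000003a0000001f00000038 6 6) 0 0 (step_sound _ 128 [rh1655eefc1ea73868, (rh50fbb5868c909700.shift 0 1)] (by decide +kernel))
noncomputable def rh49200fec135b9ad0 : CRef := CRef.mk (Pat.mk 0xb0000000a000000020000000600000000 0x100000001b0000001e0000003a0000001f00000039 6 6) 0 0 (step_sound _ 32 [rh1655eefc1ea73868, rh932754581e0f4330] (by decide +kernel))
noncomputable def rhd39cc45b1caddbb8 : CRef := CRef.mk (Pat.mk 0x4000000140000000400000000 0xa0000000e0000000e000000e60000007c0000000f0000000a 6 8) 0 0 (step_sound _ 67 [(rh40ca4cc59d420356.shift 1 1), (rhd9106766b9ff53c0.shift 1 1), rhfd74434a172f378b] (by decide +kernel))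
noncomputable def rhfc9e8ab91af7e031 : CRef := CRef.mk (Pat.mk 0x5000000050000000100000003800000000 0x80000005800000050000000f7000000fe000000c7 6 8) 0 0 (step_sound _ 131 [rh22538e7075d1879a, (rh50fbb5868c909700.shift 3 1)] (by decide +kernel))
noncomputable def rhef82290247b71162 : CRef := CRef.mk (Pat.mk 0x2c00000028000000080000001800000000 0x400000006c000000780000003f0000007c00000020 6 7) 0 0 (step_sound _ 66 [(rh06fe2389fa6d205e.shift 2 0), (rh4ca5dae25f5c14ff.shift 0 1), (rh86e0def2047dfaad.shift 0 2), (rhc08ef0fefba6ac88.shift 0 1)] (by decide +kernel))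
noncomputable def rhd203ae6898c620ef : CRef := CRef.mk (Pat.mk 0x20000000a0000000200000002000000040000000000000000 0x30000001e0000000700000002000000070000000700000001 6 5) 0 0 (step_sound _ 65 [rh551696f1abd59aff, (rh55afc6a59410cf00.shift 1 1)] (by decide +kernel))
noncomputable def rh77e5591bc7597cd1 : CRef := CRef.mk (Pat.mk 0x800000018000000080000000800000000000000000000000000000000 0x8000000180000007c0000000f0000000c0000001c0000001c00000014 6 7) 0 0 (step_sound _ 99 [(rh7928877f9bf74a91.shift 2 2), (rh984bfc6de6c2c524.shift 2 0), (rhf7260bd287335280.shift 0 2)] (by decide +kernel))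
noncomputable def rh486d7aa11fed828d : CRef := CRef.mk (Pat.mk 0xa0000000a00000002000000030000000400000000 0xb0000003e0000003e0000001b0000001e00000016 6 6) 0 0 (step_sound _ 33 [rh1748102f931eb837, (rh55afc6a59410cf00.shift 1 0)] (by decide +kernel))
noncomputable def rh30f7072667d65717 : CRef := CRef.mk (Pat.mk 0x1c0000000c000000040000000000000000 0x100000001c0000000c0000000f0000003c0000001c 6 6) 0 0 (step_sound _ 34 [(rh71222050f2c63a3a.shift 2 0), rhd8d5fbf074709d68] (by decide +kernel))
noncomputable def rh2747a16df6921f3a : CRef := CRef.mk (Pat.mk 0xf0000000b000000010000000000000000 0x6000000060000000f0000000b0000001f0000000e00000006 6 5) 0 0 (step_sound _ 161 [rh0aba4afd71486ade, (rh5c5e593799055d58.shift 0 2)] (by decide +kernel))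
noncomputable def rh7759953ee540c442 : CRef := CRef.mk (Pat.mk 0x38000000080000000800000000 0x80000001c0000001e0000003c0000000f0000000c00000004 6 6) 0 0 (step_sound _ 131 [(rh039efe07c35de3d4.shift 1 1), rh11a290682a49cce6, (rh767694941ef2c178.shift 1 1)] (by decide +kernel))
noncomputable def rhe2de5260b188f0f4 : CRef := CRef.mk (Pat.mk 0xc0000000c000000080000000000000000 0x80000000c0000000c0000000f0000003c0000001c 6 6) 0 0 (step_sound _ 35 [(rh7b1f1fb55310c477.shift 2 0), rhd97e3ad6649814b3] (by decide +kernel))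
noncomputable def rh6f1d2ffe3b2b1421 : CRef := CRef.mk (Pat.mk 0x28000000280000000000000000 0x44000000c60000007c000000ef0000002800000028 6 8) 0 0 (step_sound _ 100 [(rh236af70c223e1a76.shift 2 0), (rh2820ca9a6c4f41b4.shift 0 2), (rh6464d3e7a80a55ea.shift 1 0), (rh8f7af3f59561927a.shift 2 0)] (by decide +kernel))
noncomputable def rh233b902dac8b075a : CRef := CRef.mk (Pat.mk 0x38000000080000000800000000 0x1c0000001e000000380000000f0000003c00000014 6 6) 0 0 (step_sound _ 131 [(rh039efe07c35de3d4.shift 1 1), rhf1a8127573b72831] (by decide +kernel))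
noncomputable def rh6f058b44024e4d18 : CRef := CRef.mk (Pat.mk 0x380000002800000008000000100000000000000000 0x380000002f0000007c000000380000001000000010 6 7) 0 0 (step_sound _ 36 [(rhbe0e43a3bc50a43f.shift 3 1), rhd37a08c5bf39d5bc] (by decide +kernel))
noncomputable def rhfb2c6f2003963000 : CRef := CRef.mk (Pat.mk 0x280000002800000008000000040000000000000000 0x800000028000000680000003f0000003e0000001000000010 6 7) 0 0 (step_sound _ 68 [(rh2f6cd3183cec8379.shift 2 2), (rh2f7ef8ef5c94975a.shift 3 0), (rh4ecbbcd8b1011770.shift 1 0), (rhe08572ddd8f22032.shift 0 1)] (by decide +kernel))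
noncomputable def rh050d7154a04d49a8 : CRef := CRef.mk (Pat.mk 0x4000000140000000400000000 0xa0000000e0000000e00000004000000370000003e0000000a 6 6) 0 0 (step_sound _ 130 [(rh20966da26a1c2ae8.shift 1 0), (rhc85cc95794737cf7.shift 1 1), rhe06c7604aef75ec4] (by decide +kernel))
noncomputable def rh1a9383b8248fe491 : CRef := CRef.mk (Pat.mk 0x1400000014000000040000000e00000000 0x200000016000000340000003f0000003f00000030 6 6) 0 0 (step_sound _ 129 [(rh50fbb5868c909700.shift 1 1), rhf56ef785604bc06e] (by decide +kernel))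
noncomputable def rh23d7c6f905db9208 : CRef := CRef.mk (Pat.mk 0x60000000200000002000000000000000000000000 0x10000000300000007000000060000000300000007000000070000000400000004 6 3) 0 0 (step_sound _ 66 [(rh2f7ef8ef5c94975a.shift 1 0), (rh93bb09469abb6e2d.shift 1 1), (rhaf349dd7709502bf.shift 0 2)] (by decide +kernel))
noncomputable def rheb9fd90cacdd3a61 : CRef := CRef.mk (Pat.mk 0x100000000e0000000000000000 0x400000004000000370000003e0000000300000002 6 6) 0 0 (step_sound _ 68 [(rh33e738c4ed385b9f.shift 1 2), rh43dc67402634d54f] (by decide +kernel))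
noncomputable def rh7a7f122b8a7dabcd : CRef := CRef.mk (Pat.mk 0x1c000000100000000000000000 0x2000000030000003e000000370000000400000004 6 6) 0 0 (step_sound _ 97 [(rhe25b0a99195a5d59.shift 1 2), rhe6f3c981f45ee7b2] (by decide +kernel))
noncomputable def rh8ca20d8faad1759c : CRef := CRef.mk (Pat.mk 0x1c000000180000000800000000 0xc0000000c0000000c0000007c0000007e0000000f00000004 6 7) 0 0 (step_sound _ 69 [rhd86e2a290a9c32ee, (rhf48373e13d2bc128.shift 2 2)] (by decide +kernel))
noncomputable def rh493f91ddc4f5addc : CRef := CRef.mk (Pat.mk 0xc0000000c000000080000000400000000 0xc0000000c0000003e0000007f0000001a 6 7) 0 0 (step_sound _ 35 [(rh7b1f1fb55310c477.shift 2 0), rhca0c1198e27561f2] (by decide +kernel))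
noncomputable def rh82478f387c6b70d5 : CRef := CRef.mk (Pat.mk 0x340000001c000000000000000000000000 0x20000000600000006000000060000003c0000001c0000000f0000000a00000008 6 6) 0 0 (step_sound _ 162 [(rh383a69741c4d90df.shift 0 1), (rh5a1cd893d8c4f41a.shift 1 2), (rha768b229dc254047.shift 2 0), (rhe8a9e0e6037b7c6e.shift 1 2)] (by decide +kernel))
noncomputable def rh1eb8e4b0bb5cc734 : CRef := CRef.mk (Pat.mk 0x300000001c00000006000000040000000000000000 0x30000000300000001c0000001e0000003f0000003b00000032 6 6) 0 0 (step_sound _ 68 [rh5114df3b76e459a8, (rh558e6fee747fbc33.shift 1 1), (rha9524c20030bd517.shift 1 1), (rhb3c19ac92468befa.shift 1 0), (rhb435232671ffe61d.shift 1 1)] (by decide +kernel))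
noncomputable def rha7393fbc21f15cda : CRef := CRef.mk (Pat.mk 0x1000000018000000060000000c0000000000000000 0x100000001000000018000000180000001e0000003f0000003000000010 6 6) 0 0 (step_sound _ 68 [rha64573bd9feb1d5d, (rhf48373e13d2bc128.shift 1 2)] (by decide +kernel))
noncomputable def rhda8df1dbaee12662 : CRef := CRef.mk (Pat.mk 0x2000000000000000340000001c0000000000000000 0x20000000e0000003e000000060000003c0000001c0000000f0000000a 6 6) 0 0 (step_sound _ 130 [rh1c4e170256b7d441, rh383a69741c4d90df, (rhe1f090f2b31a9d51.shift 1 0), (rhe8a9e0e6037b7c6e.shift 1 1), (rhf182a8d847418250.shift 1 1)] (by decide +kernel))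
noncomputable def rh2cbcee74febf30f5 : CRef := CRef.mk (Pat.mk 0x8000000100000001c0000000600000004 0x800000028000000f80000003e000000130000001f0000001e0000000c 6 8) 0 0 (step_sound _ 132 [(rh6589ff203f2415cf.shift 1 1), rha1693fc6c52cf8fb, (rhb1a251d9bff81766.shift 3 1)] (by decide +kernel))
noncomputable def rhedb1a55216fcec00 : CRef := CRef.mk (Pat.mk 0x4000000080000000c0000000300000000 0x4000000140000007c0000001e000000180000000c0000000f0000001c 6 7) 0 0 (step_sound _ 131 [(rh3da7b58043f0d197.shift 1 1), (rh69a3776feaa48c5d.shift 2 1), (rhb1a251d9bff81766.shift 2 1), rhb34f4dd79db868fc, (rhde16252fdba3f7e3.shift 1 1)] (by decide +kernel))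
noncomputable def rh70b96d1c7e0f3e67 : CRef := CRef.mk (Pat.mk 0x8000000180000000e0000000800000000 0x80000000c0000000c0000001f0000003e0000001800000008 6 6) 0 0 (step_sound _ 130 [(rh50fbb5868c909700.shift 2 1), rhf2beb972856dfb5c] (by decide +kernel))
noncomputable def rha532f9f2aa5b8cea : CRef := CRef.mk (Pat.mk 0x100000001800000018000000000000000000000000 0x100000003f000000ff000000e00000002000000020 6 8) 0 0 (step_sound _ 101 [rhdb96e009ca7f0113, (rhe1820f7555843259.shift 2 0), (rhe2b63c00a3d7bb73.shift 1 3)] (by decide +kernel))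
noncomputable def rh0d5a6fca73d25d49 : CRef := CRef.mk (Pat.mk 0x8000000080000003800000000 0x1000000010000000180000007c0000000f0000007800000008 6 7) 0 0 (step_sound _ 66 [rh5350a5c3672f0581, (rhf48373e13d2bc128.shift 2 1)] (by decide +kernel))
noncomputable def rh178ad7ff1876a004 : CRef := CRef.mk (Pat.mk 0xc000000040000001c00000000 0x8000000180000007c0000001f0000000c0000001c00000010 6 7) 0 0 (step_sound _ 131 [rh984b5534de41c62c, (rhab2ae83e2bc2464b.shift 2 0), (rhbfb5770941270498.shift 2 1)] (by decide +kernel))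
noncomputable def rh506fda3a70107ea2 : CRef := CRef.mk (Pat.mk 0x800000008000000380000000000000000 0x140000001c0000001c0000007c0000001f000000380000002800000008 6 7) 0 0 (step_sound _ 98 [(rh3d590792a7276b0b.shift 2 0), (rh5350a5c3672f0581.shift 0 1), (rhc02b3aee7ab87ee1.shift 0 2)] (by decide +kernel))
noncomputable def rh63c7c173f8317a34 : CRef := CRef.mk (Pat.mk 0xe00000002 0x770000007e000000e3 6 8) 0 0 (step_sound _ 36 [rh2a889473938f494d, rheb0810cc63b001d8] (by decide +kernel))
noncomputable def rh6119aa75309afa38 : CRef := CRef.mk (Pat.mk 0x38000000100000000000000020 0xc70000007f0000007e0000002000000020 6 8) 0 0 (step_sound _ 98 [(rha03f6e28ea70fc7d.shift 1 2), (rhc93c85c35c9e08d5.shift 0 2), (rhe1f91466bd3abdb6.shift 1 0)] (by decide +kernel))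
noncomputable def rha5b58c6132dbf1d5 : CRef := CRef.mk (Pat.mk 0x180000000800000008000000000000000400000000 0xc0000000f0000007c0000003f0000003f000000140000000400000004 6 7) 0 0 (step_sound _ 98 [(rh31d1ab8a303b5e10.shift 0 2), (rhdebc43b768884653.shift 2 0), (rhfe086b11d5047246.shift 0 1)] (by decide +kernel))
noncomputable def rh9412529cc8370876 : CRef := CRef.mk (Pat.mk 0x380000000800000018000000000000000000000000 0x28000000380000002f0000007c000000300000001000000010 6 7) 0 0 (step_sound _ 68 [(rh2145e1d24b96a57e.shift 3 2), rh47f0e74ed3ad9dce] (by decide +kernel))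
noncomputable def rh1aac95807930a4a7 : CRef := CRef.mk (Pat.mk 0x38000000080000001800000000 0x100000001000000038000000380000003f00000078000000e0 6 8) 0 0 (step_sound _ 132 [rh2c934bae1034f8b2, (rhbfb5770941270498.shift 3 1)] (by decide +kernel))
noncomputable def rh75492bfd7f7b5151 : CRef := CRef.mk (Pat.mk 0x3800000008000000180000000000000000 0x50000000f0000000380000003f0000007c0000003000000010 6 8) 0 0 (step_sound _ 69 [(rh5a03dbb03abecd9f.shift 3 0), (rha3204d5dbf1e6777.shift 0 2), rhbdccc3dfce665038] (by decide +kernel))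
noncomputable def rha4611a1a086afb16 : CRef := CRef.mk (Pat.mk 0x6000000020000000600000000 0x300000003000000070000000600000006000000060000000600000004 6 3) 0 0 (step_sound _ 129 [(rh55afc6a59410cf00.shift 1 0), (rhe310031246225327.shift 0 1)] (by decide +kernel))
noncomputable def rh3dc20a26c7db9d74 : CRef := CRef.mk (Pat.mk 0x380000000800000008 0x1000000014000000fe000000ff0000003800000008 6 8) 0 0 (step_sound _ 66 [(rh4c7411087d622b9c.shift 1 0), (rh7b7caf37a8546a37.shift 0 1), (rheddd3d8f7db62149.shift 1 0)] (by decide +kernel))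
noncomputable def rh4f257ec5a0306c2e : CRef := CRef.mk (Pat.mk 0x1800000008000000080000000800000000 0x40000001f00000038000000080000001c0000001c 6 6) 0 0 (step_sound _ 34 [rh7ebef449d87d4d18, (rh932754581e0f4330.shift 2 0)] (by decide +kernel))
noncomputable def rh7fa8836babde7d9d : CRef := CRef.mk (Pat.mk 0x180000000e000000040000000400000000 0x400000006000000160000001e0000000e0000000f0000003c00000018 6 6) 0 0 (step_sound _ 35 [rh0b48232756d2831b, (rh10a6a2f52f973296.shift 2 0), (rhc74966130f24d717.shift 1 0)] (by decide +kernel))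
noncomputable def rha035d6007b337838 : CRef := CRef.mk (Pat.mk 0x180000000e0000000400000000 0x1e0000001f0000001e0000000e0000000c00000008 6 5) 0 0 (step_sound _ 131 [rh46d807f6e271ad3d, (rh5c5e593799055d58.shift 2 1)] (by decide +kernel))
noncomputable def rh096f1e822962a4e9 : CRef := CRef.mk (Pat.mk 0x200000002000000030000000400000000 0x400000007000000070000000300000003000000030000000600000004 6 3) 0 0 (step_sound _ 33 [(rh55afc6a59410cf00.shift 1 0), (rhd2ab22822575c27c.shift 0 1)] (by decide +kernel))
noncomputable def rh9754ad85a565e7bd : CRef := CRef.mk (Pat.mk 0x40000000c00000006000000060000000000000000 0x40000000c0000003e0000003f0000003800000010 6 6) 0 0 (step_sound _ 67 [(rh55afc6a59410cf00.shift 2 1), rhf963e4bc3ca451c9] (by decide +kernel))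
noncomputable def rh936fdbcf412d11a7 : CRef := CRef.mk (Pat.mk 0x3000000060000000200000002000000000000000000000000 0x30000001e0000000600000006000000070000000700000001 6 5) 0 0 (step_sound _ 163 [rha52e1acf7ed5511e, (rhf48373e13d2bc128.shift 0 5)] (by decide +kernel))
noncomputable def rhe424e153f4ec40d1 : CRef := CRef.mk (Pat.mk 0xe000000020000000000000000 0x10000000300000001f0000003b0000000800000008 6 6) 0 0 (step_sound _ 100 [(rheb0810cc63b001d8.shift 0 2), rhf459621b93742302] (by decide +kernel))
noncomputable def rh26f766a7a8321f76 : CRef := CRef.mk (Pat.mk 0x1c000000060000000200000000 0x800000008000000380000001f000000fe0000003300000010 6 8) 0 0 (step_sound _ 68 [(rhbd9ac79c87120162.shift 0 1), (rhc21a95c499b3efdb.shift 1 2), rhe1c545a0fa7090aa] (by decide +kernel))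
noncomputable def rh0738c30573b25048 : CRef := CRef.mk (Pat.mk 0x300000001c000000080000000800000000 0x80000000c0000006c0000003f0000001c0000001c0000001800000010 6 7) 0 0 (step_sound _ 131 [(rh1b49a77e883412ed.shift 2 1), (rh8af9a32e61457eb0.shift 3 0), rhdc45b369c3a917ba, (rhe897af202bc68eb8.shift 2 1)] (by decide +kernel))
noncomputable def rheb9d581a86e0a5e3 : CRef := CRef.mk (Pat.mk 0x2000000060000000300000000000000000000000000000000 0x1000000070000000700000006000000070000000300000006000000070000000700000001 6 3) 0 0 (step_sound _ 97 [(rh4e2df8342d3b8ae8.shift 0 3), rh839bc275b7f0d03f, (rha707fb719e87fe6e.shift 1 2)] (by decide +kernel))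
noncomputable def rhb3c2da0e042000d4 : CRef := CRef.mk (Pat.mk 0x1e00000016000000000000000000000000 0xc0000000c0000001e0000001e000000330000001200000002 6 6) 0 0 (step_sound _ 65 [(rhb7c835049e667ccf.shift 0 1), (rhe1c545a0fa7090aa.shift 0 1), (rhea7a1800d6f053bd.shift 1 0)] (by decide +kernel))
noncomputable def rhc2efbd7f5d732372 : CRef := CRef.mk (Pat.mk 0x10000000180000000e000000080000000000000000 0x22000000330000001f0000001e0000003f0000003400000030 6 6) 0 0 (step_sound _ 100 [rh2d432a4e867e50f2, (rh7e24dc22889eb307.shift 0 1), (rhd8d98eb6ec46d5f8.shift 0 2)] (by decide +kernel))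
noncomputable def rh35474359940efcfb : CRef := CRef.mk (Pat.mk 0x8000000080000001c00000006000000000000000000000000 0x140000003c0000007f0000001e0000000e0000000a0000000800000008 6 7) 0 0 (step_sound _ 99 [(rh18b49738f4e5d343.shift 1 2), (rh3502d92c6cce609b.shift 2 0), (rh5368599ec0d58b94.shift 0 2), (rh7ef96393e2144d84.shift 1 2)] (by decide +kernel))
noncomputable def rheb9da39274d1fa94 : CRef := CRef.mk (Pat.mk 0x1000000010000000180000000e0000000000000000 0x280000003a0000003b0000001f0000001e0000001400000004 6 6) 0 0 (step_sound _ 68 [(rh18b49738f4e5d343.shift 2 1), rh7e24dc22889eb307, (rhc3ccf3e621431b90.shift 0 1)] (by decide +kernel))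
noncomputable def rhc71bbfc5ad055bcb : CRef := CRef.mk (Pat.mk 0x20000000e00000002000000000000000000000000 0x1000000030000001e00000002000000070000000700000005 6 5) 0 0 (step_sound _ 160 [rh56259dd1390eee46, (rhf48373e13d2bc128.shift 0 4)] (by decide +kernel))
noncomputable def rh1e1ff12fc70a7ba1 : CRef := CRef.mk (Pat.mk 0x1c000000060000000000000000 0x12000000330000001f0000003e0000000c0000000c 6 6) 0 0 (step_sound _ 97 [rh38a0850c9fea941e, rhb32eb569dfc388a6] (by decide +kernel))
noncomputable def rh2fd36a37a3240940 : CRef := CRef.mk (Pat.mk 0x100000001e000000140000000000000000 0x18000000180000001b0000001e0000001c0000001c00000004 6 5) 0 0 (step_sound _ 129 [(rh3244c3cc8379b070.shift 0 3), (rhebe09cf15e834d1f.shift 1 0)] (by decide +kernel))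
noncomputable def rh2f9e60d5787b5432 : CRef := CRef.mk (Pat.mk 0x100000001000000038000000000000000800000000 0x10000000370000003e000001e00000007c00000020 6 9) 0 0 (step_sound _ 69 [(rh08edf065357d68e5.shift 4 0), (rh39ee55465d7f1610.shift 0 2), (rh3bb201def308172f.shift 2 0)] (by decide +kernel))
noncomputable def rh90245e56b350aabf : CRef := CRef.mk (Pat.mk 0x4000000040000000e0000000200000000 0x80000000c0000000c0000000f0000001e0000001e 6 5) 0 0 (step_sound _ 34 [(rh932754581e0f4330.shift 1 0), rhe8f21a63e5790b28] (by decide +kernel))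
noncomputable def rha041d537d8b13371 : CRef := CRef.mk (Pat.mk 0x7000000090 0xe0000007e000000f7 6 8) 0 0 (step_sound _ 35 [(rh96851dee118c1ba3.shift 3 0), rhc7e8e87a0b43237b] (by decide +kernel))
noncomputable def rh06d0abd80b8147e4 : CRef := CRef.mk (Pat.mk 0x1e000000020000000000000000 0x8000000080000003c0000003f000000060000000400000004 6 6) 0 0 (step_sound _ 132 [rh2aa6212c1c9b6fb4, (rh33e738c4ed385b9f.shift 1 3)] (by decide +kernel))
noncomputable def rh422dc73b9a9d7f47 : CRef := CRef.mk (Pat.mk 0xf800000010 0xe000000fe000001b7 6 9) 0 0 (step_sound _ 7 [rhc7e8e87a0b43237b, (rhe25b0a99195a5d59.shift 4 0)] (by decide +kernel))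
noncomputable def rh3265c8a827627f41 : CRef := CRef.mk (Pat.mk 0x40000000f0000000a0000000000000000 0x80000001c0000000f0000000e0000003c0000001c 6 6) 0 0 (step_sound _ 131 [(rh24bf3b1980a14cd0.shift 1 0), (rh33e738c4ed385b9f.shift 0 3)] (by decide +kernel))
noncomputable def rh1a34894f7da8a639 : CRef := CRef.mk (Pat.mk 0x3800000040 0x770000007e000000e0 6 8) 0 0 (step_sound _ 34 [(rh96851dee118c1ba3.shift 2 0), rh9f82297883cbb03c] (by decide +kernel))
noncomputable def rh19e3f6bb955d101b : CRef := CRef.mk (Pat.mk 0x200000002000000070000000300000000 0x400000006000000060000001f0000001f0000000e 6 5) 0 0 (step_sound _ 34 [(rh55afc6a59410cf00.shift 1 0), rha24220aaf323f8af] (by decide +kernel))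
noncomputable def rh3b1de509e30f0c91 : CRef := CRef.mk (Pat.mk 0x100000003800000008 0x77000001fe000000f8 6 9) 0 0 (step_sound _ 34 [(rh01d64f4b25e9d366.shift 1 0), rh0d378fd9e8917c5a, (rh7a6a5778104bcb94.shift 2 0), (rhec46bd5500c722c9.shift 1 1)] (by decide +kernel))
noncomputable def rh826342231b734fb6 : CRef := CRef.mk (Pat.mk 0x180000003800000000 0xf8000000ff00000007 6 8) 0 0 (step_sound _ 38 [rh3e9601eff8aa538d, (rhf48373e13d2bc128.shift 3 1)] (by decide +kernel))
noncomputable def rhb6fc12860cba4b7d : CRef := CRef.mk (Pat.mk 0xc000000080000000c0000000c00000000 0x130000001f0000003c0000000c0000007c00000010 6 7) 0 0 (step_sound _ 132 [(rh2f68792b6b779e96.shift 3 1), rheae10a793d0c54f6] (by decide +kernel))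
noncomputable def rhdd60dad350f971ba : CRef := CRef.mk (Pat.mk 0x80000000c000000040000000400000000 0x60000000f0000003c0000000f0000003c00000018 6 6) 0 0 (step_sound _ 130 [(rhcf85c92937975d4d.shift 0 1), rhd802bb8339359eae] (by decide +kernel))
noncomputable def rh46559daf90789899 : CRef := CRef.mk (Pat.mk 0xc0000000c000000040000000c00000000 0x20000000e0000000c0000003e0000007f00000012 6 7) 0 0 (step_sound _ 33 [(rh932754581e0f4330.shift 1 0), rhb798bad1f044b600] (by decide +kernel))
noncomputable def rha0c0a48ce6495502 : CRef := CRef.mk (Pat.mk 0x1c00000018000000080000000800000000 0xa0000003f0000001f0000000c0000000c00000004 6 6) 0 0 (step_sound _ 129 [rh37d018ef9c817686, (rhb739f4f82bb681b4.shift 0 3)] (by decide +kernel))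
noncomputable def rh50070eb5afab3693 : CRef := CRef.mk (Pat.mk 0x8000000080000000c00000004000000000000000000000000 0x160000001f0000003c0000000f0000003c000000180000000800000008 6 6) 0 0 (step_sound _ 99 [(rh3502d92c6cce609b.shift 2 0), (rha10abbb88ab9db0f.shift 0 2), (rhfe557af9112f51d6.shift 0 2)] (by decide +kernel))
noncomputable def rh82c8e71f80e00ab1 : CRef := CRef.mk (Pat.mk 0x180000000e000000040000000000000000 0x80000000a0000001b0000001e000000370000001400000004 6 6) 0 0 (step_sound _ 34 [(rh6565d34ae9e6243a.shift 0 1), (rh71222050f2c63a3a.shift 2 0)] (by decide +kernel))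
noncomputable def rhe954927d5a606e1a : CRef := CRef.mk (Pat.mk 0x8000000180000000e00000004 0x60000000f0000001f0000003e00000007 6 6) 0 0 (step_sound _ 36 [rh3d9e209d9d128a84, rh93c0feb6cf144553, rhaf9f2efc81a8312b, rhcea95bd1ecd58bb2] (by decide +kernel))
noncomputable def rhfcc6f27b2fbb45fd : CRef := CRef.mk (Pat.mk 0xe0000000600000000 0x800000008000000380000003f0000003600000010 6 6) 0 0 (step_sound _ 68 [(rh18965a982d73c794.shift 1 1), rh27d95a0f8f38f55d] (by decide +kernel))
noncomputable def rhd3ae494c0a93b1b3 : CRef := CRef.mk (Pat.mk 0x40000000c00000004000000040000000000000000 0x4000000060000000f0000003c0000000c0000000c00000004 6 6) 0 0 (step_sound _ 67 [(rh55afc6a59410cf00.shift 2 1), rh7bb29236d1712829] (by decide +kernel))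
noncomputable def rhd7044b830e382236 : CRef := CRef.mk (Pat.mk 0x40000000c00000004000000040000000000000000 0x60000000f0000003c000000060000000600000006 6 6) 0 0 (step_sound _ 33 [rh41b3875df7259a62, (rh79877ebd3ef475dd.shift 1 1)] (by decide +kernel))
noncomputable def rh503608893674bc3e : CRef := CRef.mk (Pat.mk 0xc000000080000001800000018 0x300000007c0000006f0000007c00000018 6 7) 0 0 (step_sound _ 100 [(rh2f68792b6b779e96.shift 3 0), rh9b7644b5feaf0e6b] (by decide +kernel))
noncomputable def rhabd8cf0be95818e6 : CRef := CRef.mk (Pat.mk 0x8000000180000000800000000 0x100000001c0000001c0000000f0000007c0000001800000008 6 7) 0 0 (step_sound _ 131 [(rh22cde4a1aed087ae.shift 3 1), rhb9ea9cf5d1b0852e] (by decide +kernel))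
noncomputable def rh3bef75852aa6a3bb : CRef := CRef.mk (Pat.mk 0x80000000e0000000200000000 0xc0000000c000000ff0000007e0000007200000012 6 8) 0 0 (step_sound _ 68 [(rh6210f0fae0472354.shift 1 0), (rh84d1614f5efa9132.shift 1 1), rhaf661323c6e1d2ba] (by decide +kernel))
noncomputable def rh7821546e503e2fbd : CRef := CRef.mk (Pat.mk 0x4000000060000000e0000000000000000 0x10000000340000003e0000003f0000000800000008 6 6) 0 0 (step_sound _ 68 [rhe727758c69e11e83, (rhf48373e13d2bc128.shift 1 2)] (by decide +kernel))
noncomputable def rh08505b7dd780d725 : CRef := CRef.mk (Pat.mk 0x60000000e0000000000000000 0x10000000300000003e0000003f0000000800000008 6 6) 0 0 (step_sound _ 68 [rh510d215f94bf1ad4, (rhf48373e13d2bc128.shift 1 2)] (by decide +kernel))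
noncomputable def rh5a5d0f4cb7c0ec0c : CRef := CRef.mk (Pat.mk 0x80000001800000008000000080000000000000000 0x40000000f00000018000000080000001c0000001c00000014 6 5) 0 0 (step_sound _ 162 [(rh50fbb5868c909700.shift 2 2), rh9e0ea76c51d48e02] (by decide +kernel))
noncomputable def rhf04b1c50f528f108 : CRef := CRef.mk (Pat.mk 0x60000000e000000000000000000000000 0x10000000360000003f000000380000000800000008 6 6) 0 0 (step_sound _ 100 [rhf459621b93742302, (rhf48373e13d2bc128.shift 1 3)] (by decide +kernel))
noncomputable def rh5119b6f49f7b0b37 : CRef := CRef.mk (Pat.mk 0x40000001e000000020000000000000000 0x10000000340000001f0000003a0000000a0000000a 6 6) 0 0 (step_sound _ 33 [(rh71222050f2c63a3a.shift 1 0), rhce71534e51e0a15e] (by decide +kernel))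
noncomputable def rhbc33bce241a0d75d : CRef := CRef.mk (Pat.mk 0x8000000380000000800000008 0x1000000038000000ff000000e800000008 6 8) 0 0 (step_sound _ 100 [(rh2f68792b6b779e96.shift 3 0), (rh48dcc808214cd2bf.shift 0 1)] (by decide +kernel))
noncomputable def rh7354b9519edad5dd : CRef := CRef.mk (Pat.mk 0x40000000e000000020000000200000000 0x8000000080000007e0000003f0000007a0000001f0000000c 6 7) 0 0 (step_sound _ 68 [(rh0deb2ebc850de581.shift 0 1), rh18b31825f45c624c, rh1b7fc1427bbf1dfc, (rha294e9694edf530e.shift 0 2)] (by decide +kernel))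
noncomputable def rh43d0fd61e56a4256 : CRef := CRef.mk (Pat.mk 0x80000000f00000000000000000000000000000000 0x40000000c0000000c0000000f0000001c0000001c0000001c00000014 6 5) 0 0 (step_sound _ 99 [(rhb770b474263682d9.shift 2 0), (rhe25b0a99195a5d59.shift 0 3)] (by decide +kernel))
noncomputable def rh9fdf843c4b47d5a8 : CRef := CRef.mk (Pat.mk 0x1c000000240000000000000000 0x200000002000000370000001e000000340000000400000004 6 6) 0 0 (step_sound _ 97 [rh46c081abdb45aff8, (rh96851dee118c1ba3.shift 1 2)] (by decide +kernel))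
noncomputable def rh8e526fac0a1e1576 : CRef := CRef.mk (Pat.mk 0x1000000010000000380000000c 0xc0000001e000000770000003e0000007c 6 7) 0 0 (step_sound _ 34 [rh2456963ff1f7bf23, (rh503775339733bab1.shift 0 1), (rh6484072c26d7de2a.shift 1 0), (rhec46bd5500c722c9.shift 1 1)] (by decide +kernel))
noncomputable def rh23a4b133c5feed8b : CRef := CRef.mk (Pat.mk 0x20000000600000002000000000000000000000000 0x40000000700000007000000070000000600000006000000020000000200000002 6 3) 0 0 (step_sound _ 65 [rh431ab6845f1f5305, (rh72afbdc90680d7b8.shift 0 2), (rha707fb719e87fe6e.shift 1 1)] (by decide +kernel))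
noncomputable def rh72feb7d0d6676dfa : CRef := CRef.mk (Pat.mk 0x300000001c000000080000000800000000 0xc0000006e0000003f0000001c0000001c0000001c00000014 6 7) 0 0 (step_sound _ 131 [(rh1b49a77e883412ed.shift 2 1), (rh4c0a031285265102.shift 2 0), (rhb9d7bcc4b554fedb.shift 2 0), rhb9fa41937b57b353, (rhe43b4aaaf26647b5.shift 2 0)] (by decide +kernel))
noncomputable def rh0f2b70c50c52c45f : CRef := CRef.mk (Pat.mk 0x180000000c000000040000000000000000 0x18000000180000000c0000000f0000003c00000014 6 6) 0 0 (step_sound _ 34 [(rh71222050f2c63a3a.shift 2 0), rhd426521d0841faae] (by decide +kernel))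
noncomputable def rh9837c4998888cfb6 : CRef := CRef.mk (Pat.mk 0x100000001c000000080000000800000000 0x1e0000001f0000001c0000000c0000000c00000004 6 5) 0 0 (step_sound _ 131 [(rh2f68792b6b779e96.shift 3 1), rhb9fa41937b57b353] (by decide +kernel))
noncomputable def rh8deeb93a51b3ae96 : CRef := CRef.mk (Pat.mk 0x180000000e0000000c00000000 0x60000000f0000001e0000000e0000003c00000010 6 6) 0 0 (step_sound _ 36 [rhb2e6f8b79afdeff9, (rhf48373e13d2bc128.shift 1 1)] (by decide +kernel))
noncomputable def rh920295951d50fb58 : CRef := CRef.mk (Pat.mk 0xc00000006000000020000000000000000 0x1d0000000f00000006000000060000000600000006 6 5) 0 0 (step_sound _ 33 [(rh71222050f2c63a3a.shift 1 0), rh93e190a7f3c08cfd] (by decide +kernel))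
noncomputable def rh47f7d19eabfc6ad7 : CRef := CRef.mk (Pat.mk 0x80000001c000000060000000000000000 0x3c0000001f000000360000003e0000001c 6 6) 0 0 (step_sound _ 34 [rh017183e606fdd160, (rh71222050f2c63a3a.shift 2 0)] (by decide +kernel))
noncomputable def rha6fe0a4105e66a54 : CRef := CRef.mk (Pat.mk 0x300000001c000000080000000800000000 0x670000003f0000001c0000007c0000001e00000014 6 7) 0 0 (step_sound _ 131 [rh795a9fa361f5265f, (rh9ee3848b537ea47a.shift 1 0), (rhe43b4aaaf26647b5.shift 2 0)] (by decide +kernel))
noncomputable def rh15dbb736d542ab3e : CRef := CRef.mk (Pat.mk 0x80000001c000000060000000400000000 0x240000007c0000001c000000360000003e0000001b 6 7) 0 0 (step_sound _ 35 [(rh688f36e28d6273d1.shift 1 0), (rhb23658ecdd7ce5df.shift 1 0), rhbd6b85b9bdb1a42a] (by decide +kernel))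
noncomputable def rh02a6a33df9904d94 : CRef := CRef.mk (Pat.mk 0xc0000000f000000020000000000000000 0x80000000c0000000f0000001e0000003c0000001c 6 6) 0 0 (step_sound _ 67 [(rh24bf3b1980a14cd0.shift 1 0), (rhe25b0a99195a5d59.shift 0 2)] (by decide +kernel))
noncomputable def rhffa0dff368432ca5 : CRef := CRef.mk (Pat.mk 0x70000000180000000000000000 0x180000001f0000007f000000f80000001c00000018 6 8) 0 0 (step_sound _ 99 [(rh04adde65229dd8ca.shift 0 2), (rh38a0850c9fea941e.shift 2 0), (rhe15dbef4916f64a8.shift 2 0)] (by decide +kernel))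
noncomputable def rh83ac021d87ba7b62 : CRef := CRef.mk (Pat.mk 0x600000006000000020000000300000000 0x2000000060000001e0000001b0000001f0000000c 6 5) 0 0 (step_sound _ 64 [(rh5c5e593799055d58.shift 0 1), rh5fe9459e4f578d27] (by decide +kernel))
noncomputable def rhd0f3a0069fadfa58 : CRef := CRef.mk (Pat.mk 0x8000000380000000c00000004000000000000000000000000 0x40000000f0000003c0000001c0000001c000000180000001800000008 6 6) 0 0 (step_sound _ 194 [(rh1535e2a4be39266a.shift 2 0), (rhdbcea10a0fbe5ba6.shift 0 5)] (by decide +kernel))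
noncomputable def rh314d353bdb5373f1 : CRef := CRef.mk (Pat.mk 0x8000000180000000c0000000400000000 0x20000000f0000001f0000003f0000003400000010 6 6) 0 0 (step_sound _ 65 [(rh53b3c253cb0c65f4.shift 0 2), rhc33f7110154c1d23] (by decide +kernel))
noncomputable def rh3cf9c17d2d17dca3 : CRef := CRef.mk (Pat.mk 0x80000001c000000060000000400000000 0x380000001f0000003e0000003c00000018 6 6) 0 0 (step_sound _ 97 [(rh04dfafbbc53b0235.shift 1 0), (rh69533f12b59c04e9.shift 0 2), rh715ef4deafe86686, (rhec46bd5500c722c9.shift 0 3)] (by decide +kernel))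
noncomputable def rh00ca830b20826003 : CRef := CRef.mk (Pat.mk 0xe000000030000000200000000000000000000000000000000 0x1000000030000000b0000000e0000000f0000001f00000006000000070000000700000005 6 5) 0 0 (step_sound _ 97 [rh0d46191bda76a8f5, rh99807ad0ef617e05, (rh999c66e1f1e798df.shift 1 1), (rhd47ced289c19ecf0.shift 0 2), (rhee413b8cdcf5f0aa.shift 0 2)] (by decide +kernel))
noncomputable def rhf572e19824ecf40a : CRef := CRef.mk (Pat.mk 0x180000000e000000080000000000000000 0x380000001e0000003f0000003000000030 6 6) 0 0 (step_sound _ 100 [(rh33e738c4ed385b9f.shift 1 3), rhd3114851a34382be] (by decide +kernel))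
noncomputable def rh5fdb73efd5ac82dc : CRef := CRef.mk (Pat.mk 0x6000000020000000200000002000000000000000000000000 0x200000006000000070000000300000003000000060000000600000006 6 3) 0 0 (step_sound _ 65 [rh7ac7f773826df96f, (rhbaefcd01e0a8bca3.shift 1 2)] (by decide +kernel))
noncomputable def rhdb991c49878b7ef7 : CRef := CRef.mk (Pat.mk 0x600000002000000020000000200000000 0x300000003000000030000000600000006000000070000000300000001 6 3) 0 0 (step_sound _ 32 [rh932754581e0f4330, (rhc2c45f0e7a944914.shift 0 1)] (by decide +kernel))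
noncomputable def rh406fda89a1e62cf5 : CRef := CRef.mk (Pat.mk 0x1800000008000000080000000800000000 0x8000000180000007c0000000f0000000c0000000c 6 7) 0 0 (step_sound _ 34 [rh57aa63af46829ecf, (rh932754581e0f4330.shift 2 0)] (by decide +kernel))
noncomputable def rhdd00d408137a5524 : CRef := CRef.mk (Pat.mk 0x800000018000000080000001c 0x40000000c000000780000003f0000003f 6 7) 0 0 (step_sound _ 98 [(rh50fbb5868c909700.shift 2 0), rhd800296bfcfc7fbc] (by decide +kernel))
noncomputable def rh285745ad6a1f519b : CRef := CRef.mk (Pat.mk 0x300000006000000020000000200000000 0x40000000600000006000000030000001e000000070000000300000001 6 5) 0 0 (step_sound _ 99 [rhdd474ad759fb06b7, (rhf48373e13d2bc128.shift 0 3)] (by decide +kernel))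
noncomputable def rhef757b439f46a5d7 : CRef := CRef.mk (Pat.mk 0x800000018000000080000000800000000 0xc0000000c000000180000000f0000003c00000014 6 6) 0 0 (step_sound _ 130 [(rh50fbb5868c909700.shift 2 1), rhf0d38cf1e7116183] (by decide +kernel))
noncomputable def rh874e2dbadadd320b : CRef := CRef.mk (Pat.mk 0x80000001c000000000000000000000000 0x40000003f0000003f000000030000000200000002 6 6) 0 0 (step_sound _ 97 [rh6076add87d5fdaa7, (rhec46bd5500c722c9.shift 0 3)] (by decide +kernel))
noncomputable def rhd40df074e1f66d47 : CRef := CRef.mk (Pat.mk 0xc0000001800000008000000080000000000000000 0xc000000780000001f0000003c0000001c00000014 6 7) 0 0 (step_sound _ 98 [(rh0c46b60ac325d5a4.shift 0 1), (rh8f9617ee17321bd4.shift 0 3), (rhc2bee9b499ec4446.shift 2 0)] (by decide +kernel))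
noncomputable def rh65b72c8646b259f7 : CRef := CRef.mk (Pat.mk 0x40000001c000000040000000400000000000000000000000000000000 0x400000004000000040000001c0000000f00000006000000060000000e0000000e0000000a 6 5) 0 0 (step_sound _ 98 [(rh0997b083d9ddfc1c.shift 1 2), (rh35e9630cb06f0eca.shift 0 2), (rh7928877f9bf74a91.shift 1 2), (rh984bfc6de6c2c524.shift 1 0)] (by decide +kernel))
noncomputable def rhab740075a8f15428 : CRef := CRef.mk (Pat.mk 0x180000000e0000000000000000 0xc0000000c0000001f0000003e0000003300000012 6 6) 0 0 (step_sound _ 68 [rh21460d2d48a35cb8, (rhea719cc8bd0bdd28.shift 1 0)] (by decide +kernel))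
noncomputable def rh4583764b4be9341a : CRef := CRef.mk (Pat.mk 0x1e000000080000000800000000 0x4000000070000001e0000003b0000000f00000006 6 6) 0 0 (step_sound _ 68 [rh3769e31627773032, (rhe25b0a99195a5d59.shift 1 2)] (by decide +kernel))
noncomputable def rhdbe7989f4d16ea95 : CRef := CRef.mk (Pat.mk 0x100000001a000000080000000800000000 0xc0000001f0000001b000000780000001e00000014 6 7) 0 0 (step_sound _ 131 [(rh85480f11efc1e555.shift 1 0), (rh9cac931137f1cfa0.shift 0 1)] (by decide +kernel))
noncomputable def rh1fff0ef2c284a2c0 : CRef := CRef.mk (Pat.mk 0x8000000080000000c0000000400000000 0x60000000f0000003c0000000f0000003c00000018 6 6) 0 0 (step_sound _ 35 [rha10abbb88ab9db0f, rhfe557af9112f51d6] (by decide +kernel))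
noncomputable def rhbedd4210c52f3e95 : CRef := CRef.mk (Pat.mk 0x400000004000000040000000400000000 0xc0000000c00000004000000070000003e0000000a 6 6) 0 0 (step_sound _ 131 [(rh2f68792b6b779e96.shift 2 1), rhe81dfc0a63bb579e] (by decide +kernel))
noncomputable def rh1dfdb6016202fc26 : CRef := CRef.mk (Pat.mk 0x8000000080000001c000000060000000000000000 0x8000000380000001f000000360000003e00000014 6 6) 0 0 (step_sound _ 34 [(rh71222050f2c63a3a.shift 2 0), rh7ac0d191c8e9336f] (by decide +kernel))
noncomputable def rh4fe45171b1186db1 : CRef := CRef.mk (Pat.mk 0x20000000700000001800000000 0x2000000020000000fe0000007f000000d800000040 6 8) 0 0 (step_sound _ 133 [rh40654773de2f46ef, (rh5c5e593799055d58.shift 4 1)] (by decide +kernel))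
noncomputable def rhf040fa7c5ca8201b : CRef := CRef.mk (Pat.mk 0x180000000e000000040000000400000000 0x60000001f0000003e0000003c0000000f0000000a 6 6) 0 0 (step_sound _ 130 [rhf6e61450d4452d7e, (rhff4c737aebdcf19e.shift 0 1)] (by decide +kernel))
noncomputable def rh7b2a899e2f7152d5 : CRef := CRef.mk (Pat.mk 0x1000000070000000180000000800000000 0x40000000fe0000007f000000f80000002c00000020 6 8) 0 0 (step_sound _ 99 [(rh719a4defb16e1b89.shift 0 2), (rhf5f440226ecccf55.shift 2 0)] (by decide +kernel))
noncomputable def rh42d44289f34a73a0 : CRef := CRef.mk (Pat.mk 0x7000000018000000080000000800000000 0x2c00000078000000180000001f0000007c00000034 6 7) 0 0 (step_sound _ 131 [rh26a641dd1ea9a7b1, (rh8af9a32e61457eb0.shift 3 0), (rha8098973813043ea.shift 2 0), (rhd8d5fbf074709d68.shift 1 0)] (by decide +kernel))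
noncomputable def rh104a89b5e812edb2 : CRef := CRef.mk (Pat.mk 0x180000000e00000004 0x3000000030000001f0000003e00000007 6 6) 0 0 (step_sound _ 36 [rh93c0feb6cf144553, rh94201d150dbfe5dd, rhaf9f2efc81a8312b, rhcea95bd1ecd58bb2] (by decide +kernel))
noncomputable def rh35dc3f80828cf5e6 : CRef := CRef.mk (Pat.mk 0x20000000e0000000300000001000000000000000000000000 0x4000000060000000f0000001b0000001f0000001e0000000600000002 6 5) 0 0 (step_sound _ 97 [rh4f66b8b299b10e60, (rh7878b592544d766e.shift 0 2), (rha707fb719e87fe6e.shift 1 2)] (by decide +kernel))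
noncomputable def rh4b27d38a8d0808f1 : CRef := CRef.mk (Pat.mk 0x180000000e000000040000000400000000 0x18000000fe0000007f0000003c00000030 6 8) 0 0 (step_sound _ 100 [(rh0ae232cce48795b7.shift 1 2), (rh31b96bf68293d1ba.shift 1 2), rh85209bc20e676645, (rhaf9f2efc81a8312b.shift 0 2)] (by decide +kernel))
noncomputable def rhd38713e57299204a : CRef := CRef.mk (Pat.mk 0x10000000380000000c0000000000000000 0x1000000010000000370000003e0000007c0000002000000020 6 7) 0 0 (step_sound _ 164 [rh407a05a532520ec2, (rh5c5e593799055d58.shift 3 2)] (by decide +kernel))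
noncomputable def rh1cddaa45e798fef3 : CRef := CRef.mk (Pat.mk 0x80000001c000000060000000400000000 0x40000003c0000001f0000003e0000003700000012 6 6) 0 0 (step_sound _ 68 [rh37b8c63c045fbf1d, (rh3ce854f4a795c89f.shift 0 2), rh87392e1f76cad36e] (by decide +kernel))
noncomputable def rh123e5a3fb7af73b3 : CRef := CRef.mk (Pat.mk 0x3000000018000000080000000800000000 0x2800000038000000180000001f0000007c00000034 6 7) 0 0 (step_sound _ 36 [(rh0b48232756d2831b.shift 1 0), (rh10a6a2f52f973296.shift 3 0), rhf19240af8a218f1b] (by decide +kernel))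
noncomputable def rh8f347337e464b17b : CRef := CRef.mk (Pat.mk 0x8000000380000000c00000000 0x8000000080000003f0000003f0000000c00000004 6 6) 0 0 (step_sound _ 131 [(rh932754581e0f4330.shift 2 0), (rhc3d1b6aced6c6bfc.shift 0 1)] (by decide +kernel))
noncomputable def rhcb8e97e388f6d328 : CRef := CRef.mk (Pat.mk 0x2000000020000000200000003000000000000000000000000 0x400000006000000070000000300000003000000060000000600000006 6 3) 0 0 (step_sound _ 194 [(rh2f68792b6b779e96.shift 1 3), rhaec606572b4166b5] (by decide +kernel))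
noncomputable def rh93a8e6d21ec12a0a : CRef := CRef.mk (Pat.mk 0x200000006000000030000000200000000 0x40000000600000006000000070000001f0000001d 6 5) 0 0 (step_sound _ 130 [(rh2f68792b6b779e96.shift 1 1), rh59a8450f63fdff62] (by decide +kernel))
noncomputable def rh62236cfc018f5aa6 : CRef := CRef.mk (Pat.mk 0x20000000200000007000000010000000000000000 0x50000000700000007000000070000001f0000001e00000006 6 5) 0 0 (step_sound _ 65 [(rh287568c5fc026144.shift 0 1), rh6ed5e6501b92e21f, rh8ff3dde5b1c639e0, rhc25035b08412a6a9] (by decide +kernel))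
noncomputable def rhc76d3a5e9ea809e4 : CRef := CRef.mk (Pat.mk 0x40000000e00000003000000020000000000000000 0x100000003e0000000e0000000f0000001e0000000c00000004 6 6) 0 0 (step_sound _ 66 [(rh36bdd71eb75150ba.shift 0 1), (rh688f36e28d6273d1.shift 0 1), (rhcf0096e346dba882.shift 1 0)] (by decide +kernel))
noncomputable def rhd1ec62c24e7c7bd1 : CRef := CRef.mk (Pat.mk 0x10000000180000000e000000000000000800000000 0x340000001f0000001e000000330000001a0000001a 6 6) 0 0 (step_sound _ 100 [rha9a6de82616c6f35, (rhdc461deccfb05432.shift 1 0)] (by decide +kernel))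
noncomputable def rh183f4334f4a77a96 : CRef := CRef.mk (Pat.mk 0x1000000010000000180000000e00000000 0x2800000038000000380000001f000000fe00000030 6 8) 0 0 (step_sound _ 36 [(rh36d4d92ef3dad5f8.shift 2 0), rhc3ccf3e621431b90] (by decide +kernel))
noncomputable def rh7c39e64a76c2f796 : CRef := CRef.mk (Pat.mk 0x140000000700000004000000000000000000000000 0x40000001400000014000000170000003e0000001a0000000800000008 6 6) 0 0 (step_sound _ 99 [(rh14aea11f3e9516d0.shift 1 0), (rh89ade209b3e28f13.shift 0 3), (rhb23658ecdd7ce5df.shift 1 2)] (by decide +kernel))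
noncomputable def rhc9f5b5b1d24f19f5 : CRef := CRef.mk (Pat.mk 0x4000000040000000e000000030000000000000000 0xa0000000e0000000e0000000e0000003f0000003d0000000c 6 6) 0 0 (step_sound _ 66 [(rh18b49738f4e5d343.shift 0 1), (rh806a30ccd3d3e25c.shift 1 1), (rhc25035b08412a6a9.shift 1 0)] (by decide +kernel))
noncomputable def rhd3063c58a8d9380d : CRef := CRef.mk (Pat.mk 0x8000000180000001e000000000000000000000000 0x8000000080000000c0000001f0000003e000000030000000200000002 6 6) 0 0 (step_sound _ 129 [(rh3244c3cc8379b070.shift 0 3), rhbabdfb803bcba7d4] (by decide +kernel))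
noncomputable def rh7853c31a844148ad : CRef := CRef.mk (Pat.mk 0x8000000180000000e0000000000000000 0x20000000b0000001f000000fe000000f700000014 6 8) 0 0 (step_sound _ 68 [rh5a6f873926ef2942, (rh78974448101547fe.shift 1 0), (rha1eb337eeb07c2e7.shift 0 1)] (by decide +kernel))
noncomputable def rh08ff8b6fa1296e89 : CRef := CRef.mk (Pat.mk 0x1e000000020000000000000000 0x4000000040000003f0000003e0000000300000002 6 6) 0 0 (step_sound _ 66 [(rh18965a982d73c794.shift 1 2), rhe15dbef4916f64a8] (by decide +kernel))
noncomputable def rh0ee3ce0b50f0774c : CRef := CRef.mk (Pat.mk 0x20000000600000002000000000000000000000000 0x400000006000000060000000600000006000000070000000700000003 6 3) 0 0 (step_sound _ 65 [(rh25208373db83e521.shift 1 1), (rha707fb719e87fe6e.shift 1 1), rhcaf13074474f34c3] (by decide +kernel))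
noncomputable def rh6cc0aaab001df0e6 : CRef := CRef.mk (Pat.mk 0x80000000e000000000000000000000000 0x8000000080000007c0000003e0000007f0000001000000010 6 7) 0 0 (step_sound _ 133 [(rh4fd54f6717f3e7ac.shift 1 3), rhb05e654568d968ad, (rhcb00ab67b46fb179.shift 1 3)] (by decide +kernel))
noncomputable def rhcbf08a050b82a7e7 : CRef := CRef.mk (Pat.mk 0x180000000e000000000000000000000000 0x40000000c0000001f000000fe000000f30000001200000010 6 8) 0 0 (step_sound _ 100 [(rh21460d2d48a35cb8.shift 0 1), (rh883451bd3feec117.shift 0 2), (rhbbe16ff26f7822db.shift 1 0)] (by decide +kernel))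
noncomputable def rh2449d54007eeae8d : CRef := CRef.mk (Pat.mk 0x80000000e000000000000000000000000 0x80000000a0000000f0000003e0000007f0000001400000014 6 7) 0 0 (step_sound _ 66 [rh2cb8437104de90cf, rh8ceeb43d62a6bb9d, (rhf9366b6a121593ef.shift 2 0)] (by decide +kernel))
noncomputable def rhd4a886889c274338 : CRef := CRef.mk (Pat.mk 0x180000001e000000100000000000000000 0x20000000300000001f0000001e000000180000001800000018 6 6) 0 0 (step_sound _ 36 [(rh7b1f1fb55310c477.shift 3 0), rhc8ce4b019dfb66d2] (by decide +kernel))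
noncomputable def rh41c77f7776c8729c : CRef := CRef.mk (Pat.mk 0x400000007000000000000000000000000 0x4000000040000003f0000003f0000001c0000000800000008 6 6) 0 0 (step_sound _ 132 [(rh4fd54f6717f3e7ac.shift 0 3), (rh5acb6dc3b47c700e.shift 0 3), rh960bb47eab01200a, (rhcb00ab67b46fb179.shift 0 3)] (by decide +kernel))
noncomputable def rh93d841f0aa61858b : CRef := CRef.mk (Pat.mk 0x1e00000004 0xe30000007e0000007c 6 8) 0 0 (step_sound _ 65 [(rh3244c3cc8379b070.shift 0 1), (rhb8de41a89a9d4634.shift 1 0)] (by decide +kernel))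
noncomputable def rh6904a2d19fc204db : CRef := CRef.mk (Pat.mk 0x80000000e000000040000000000000000 0x20000007b0000003e000000770000000400000004 6 7) 0 0 (step_sound _ 34 [(rh71222050f2c63a3a.shift 2 0), (rhc7ac98245b1848ae.shift 0 1)] (by decide +kernel))
noncomputable def rhaab2858ac97d8c09 : CRef := CRef.mk (Pat.mk 0x600000007000000020000000200000000 0x190000001f00000007000000060000000700000005 6 5) 0 0 (step_sound _ 128 [(rh50fbb5868c909700.shift 0 1), rh977d386b2b3169bd] (by decide +kernel))
noncomputable def rhc121e6a6bdaf61a1 : CRef := CRef.mk (Pat.mk 0x80000001c000000080000000800000000 0xc0000000c0000001c0000000f0000003c00000014 6 6) 0 0 (step_sound _ 130 [(rh50fbb5868c909700.shift 2 1), rh586c41aaa8a3f2b7] (by decide +kernel))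
noncomputable def rh155e3367b7cfa8c7 : CRef := CRef.mk (Pat.mk 0x8000000080000000e000000040000000000000000 0x140000001f000000380000000e0000003c0000001800000010 6 6) 0 0 (step_sound _ 67 [(rh42afa1af9fffa0e1.shift 1 1), (rhb569fc3d362b7913.shift 0 1), (rhc9de03f9731897d4.shift 3 0)] (by decide +kernel))
noncomputable def rh2516b3f0cc9ec83b : CRef := CRef.mk (Pat.mk 0x180000001e0000000000000000 0x14000000340000001f0000001e0000000b0000000a 6 6) 0 0 (step_sound _ 97 [rh2df0c87ffbadaf67, (rh3244c3cc8379b070.shift 0 2)] (by decide +kernel))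
noncomputable def rhded2d47852c46337 : CRef := CRef.mk (Pat.mk 0x80000001e000000000000000000000000 0x8000000080000003c0000003e000000070000000400000004 6 6) 0 0 (step_sound _ 132 [rh2a51b324027df434, (rh33e738c4ed385b9f.shift 1 3)] (by decide +kernel))
noncomputable def rh13e3bf69a48efc05 : CRef := CRef.mk (Pat.mk 0x80000001e0000000000000000 0x10000000300000003f0000003e0000000800000008 6 6) 0 0 (step_sound _ 100 [(rh33e738c4ed385b9f.shift 1 2), rhd2705a941542c9fb] (by decide +kernel))
noncomputable def rh16b38e15ac3db8ca : CRef := CRef.mk (Pat.mk 0x80000000e000000000000000000000000 0x800000008000000380000003f0000003f0000001400000014 6 6) 0 0 (step_sound _ 66 [(rh1a3d54f4ee790517.shift 0 2), rh2cb8437104de90cf, (rhcf80391c5046a495.shift 2 0)] (by decide +kernel))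
noncomputable def rh27ed1f7e81235da3 : CRef := CRef.mk (Pat.mk 0x100000001c000000000000000000000000 0x1000000010000000170000003e000000ff0000002800000020 6 8) 0 0 (step_sound _ 69 [(rh6aa0ed61cce1493b.shift 1 2), (rh782848cf5e4b1e5e.shift 1 2), (rhe3dddb4e9eed9963.shift 2 0), (rhebaa3168f6f6fdb4.shift 1 1), (rhfc49ace0fb47c1b9.shift 0 2)] (by decide +kernel))
noncomputable def rhc7b98d8ec5c88fb6 : CRef := CRef.mk (Pat.mk 0x20000000e0000000300000001000000000000000000000000 0x60000000e0000001f0000001f0000001e0000000600000006 6 5) 0 0 (step_sound _ 97 [rh270502ca45ea5299, rh3470fcd67ff81181, (rh7878b592544d766e.shift 0 2), rh84bebdeadf3219f3] (by decide +kernel))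
noncomputable def rhe27ccd67170afdc6 : CRef := CRef.mk (Pat.mk 0x1c00000006000000020000000200000000 0x10000000380000001f0000007e0000000f0000000e00000004 6 7) 0 0 (step_sound _ 100 [(rh14b21a5d56ad19c3.shift 0 2), rh7831f4fe1db86547, (rhf2087de3a2fad627.shift 0 1)] (by decide +kernel))
noncomputable def rh325de0418d6d227d : CRef := CRef.mk (Pat.mk 0x20000000300000001c000000100000000000000000 0x8000000780000003f0000007c0000001e0000000c00000008 6 7) 0 0 (step_sound _ 130 [(rh095bd9c16cca0ec6.shift 0 3), (rh0aef863016e27e3f.shift 1 0), (rh8ee7175133964991.shift 1 1), (rh9160f25ba4516b22.shift 1 3)] (by decide +kernel))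
noncomputable def rhfd68377a5374df37 : CRef := CRef.mk (Pat.mk 0x1000000010000000180000000e000000000000000000000000 0x280000003c000000f8000000180000003e000000170000001000000010 6 8) 0 0 (step_sound _ 100 [(rh18b49738f4e5d343.shift 2 2), (rh305945700f20b255.shift 2 2), (rh3502d92c6cce609b.shift 3 0), (rheb671aa8248dc6b7.shift 0 2)] (by decide +kernel))
noncomputable def rhd57c3d7c872a681a : CRef := CRef.mk (Pat.mk 0x40000001c000000060000000200000000 0x8000000180000003c0000001f0000007e0000000f00000008 6 7) 0 0 (step_sound _ 68 [(rh14b21a5d56ad19c3.shift 0 1), rh5756a78db323356a, (rh99af78a46b7e7b5d.shift 0 1)] (by decide +kernel))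
noncomputable def rhd91e3215ae153153 : CRef := CRef.mk (Pat.mk 0xc00000007000000080000000000000000 0x80000000c0000000f0000003c0000000f0000000a 6 6) 0 0 (step_sound _ 68 [rh0deec73ba27f1c6d, (rhd6e447e81774439e.shift 0 2)] (by decide +kernel))
noncomputable def rh6b602c1bcab002f1 : CRef := CRef.mk (Pat.mk 0x60000000200000004000000000000000000000000 0x50000000700000007000000060000000200000006000000070000000700000005 6 3) 0 0 (step_sound _ 97 [rh1b9022be4f7af407, (rh215e11e099257d75.shift 1 2), (rh70e33bfdf511e144.shift 1 0), (rhfb9fb48a5e63ed80.shift 0 2)] (by decide +kernel))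
noncomputable def rh64287c79f46819be : CRef := CRef.mk (Pat.mk 0xe00000002000000020000000200000000 0x190000000f0000001e0000000e0000000600000004 6 5) 0 0 (step_sound _ 128 [(rh50fbb5868c909700.shift 0 1), rhcdb368c5e68fbcfe] (by decide +kernel))
noncomputable def rh73e99d91bb3b78e6 : CRef := CRef.mk (Pat.mk 0xe000000030000000200000000 0x20000000300000007000000070000000f0000000f0000001e0000000c 6 5) 0 0 (step_sound _ 129 [rh3a2447ed8c5fdc2c, rh5abfc4c9d959be03, (rh7cd75823eb0050a7.shift 0 1), rh94a24b8486b76775, (rhefe968784396ba5c.shift 0 1)] (by decide +kernel))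
noncomputable def rheb5cf6be9daf210b : CRef := CRef.mk (Pat.mk 0xc00000004000000040000000000000000 0xc0000000c000000040000003c0000000f0000000a 6 6) 0 0 (step_sound _ 34 [(rh2f68792b6b779e96.shift 2 1), rh3ca4c10fdf355329] (by decide +kernel))
noncomputable def rh049cfc7ce67f5f53 : CRef := CRef.mk (Pat.mk 0x4000000070000000400000000 0xa0000000e0000000e00000004000000070000003e00000008 6 6) 0 0 (step_sound _ 35 [(rh89ade209b3e28f13.shift 0 1), (rhfb9fb48a5e63ed80.shift 1 0)] (by decide +kernel))
noncomputable def rha5baf8521d23b420 : CRef := CRef.mk (Pat.mk 0x20000000700000001000000000000000000000000 0x200000002000000060000000700000007000000070000000600000002 6 3) 0 0 (step_sound _ 193 [(rh5c5e593799055d58.shift 0 3), rhee47d95cec925ce0] (by decide +kernel))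
noncomputable def rh500c04f1655ed043 : CRef := CRef.mk (Pat.mk 0x400000006000000030000000200000000 0x20000000600000006000000070000001f0000001d 6 5) 0 0 (step_sound _ 129 [rh03dfdf12d5937476, rh59a8450f63fdff62, rh7c5c9e3d7752e57e, rh871caa7606de9ca4] (by decide +kernel))
noncomputable def rh8ddec07355289b6c : CRef := CRef.mk (Pat.mk 0x2000000070000000300000000 0x60000000600000006000000070000001f0000001c 6 5) 0 0 (step_sound _ 129 [(rh5c5e593799055d58.shift 0 1), rh806a30ccd3d3e25c] (by decide +kernel))
noncomputable def rhbb99abd3f4a1141f : CRef := CRef.mk (Pat.mk 0x40000001e000000060000000000000000 0x10000000340000001e0000003e0000000b0000000a 6 6) 0 0 (step_sound _ 68 [rh878de4c68fcef2a5, (rhe25b0a99195a5d59.shift 1 2)] (by decide +kernel))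
noncomputable def rh2cad565b39200272 : CRef := CRef.mk (Pat.mk 0x100000000e000000080000000000000000 0x400000014000000170000003e0000003b0000000a00000008 6 6) 0 0 (step_sound _ 100 [(rh43dc67402634d54f.shift 0 1), (rhdfb56653f5d33d2b.shift 1 0)] (by decide +kernel))
noncomputable def rhf44ec01dfd2630e9 : CRef := CRef.mk (Pat.mk 0x200000003000000020000000000000000 0x500000007000000070000000300000003000000030000000300000003 6 3) 0 0 (step_sound _ 32 [rh0db119afefb5ebc7, rh752c9303f297f9fa, (rh9fb9dc683e09b5f3.shift 0 1)] (by decide +kernel))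
noncomputable def rhac3da7cf9f2c97f5 : CRef := CRef.mk (Pat.mk 0x1e0000000000000000 0x400000004000000070000003e0000003300000002 6 6) 0 0 (step_sound _ 36 [rh3cc3e986d9471888, (rhe25b0a99195a5d59.shift 1 1)] (by decide +kernel))
noncomputable def rh6c1bc18f1ef72b39 : CRef := CRef.mk (Pat.mk 0x80000001e00000000 0xf0000007e000000e7 6 8) 0 0 (step_sound _ 64 [rh14c37fbcc571911c, (rh3f8766e6ecb455ce.shift 0 1)] (by decide +kernel))
noncomputable def rh80d76ac28deaf1aa : CRef := CRef.mk (Pat.mk 0x80000000e000000000000000000000000 0x8000000080000007c0000003e0000007f0000001000000010 6 7) 0 0 (step_sound _ 133 [(rh4fd54f6717f3e7ac.shift 1 3), (rh5acb6dc3b47c700e.shift 1 3), rhb05e654568d968ad, (rhcb00ab67b46fb179.shift 1 3)] (by decide +kernel))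
noncomputable def rh392f5117cf2a7857 : CRef := CRef.mk (Pat.mk 0x80000000e000000040000000400000000 0x60000000f0000003e0000003c0000000f0000000a 6 6) 0 0 (step_sound _ 130 [rh85480f11efc1e555, (rhaef2adbbd453a55b.shift 0 1)] (by decide +kernel))
noncomputable def rhe2d612071ddf2b91 : CRef := CRef.mk (Pat.mk 0xe0000000400000004 0x200000002000000730000003e0000007700000004 6 7) 0 0 (step_sound _ 97 [(rh4a0cb3a9508b05dd.shift 0 1), (rh9f93e2b24091a43d.shift 0 1), (rhe072fffdd2fccf38.shift 1 0)] (by decide +kernel))
noncomputable def rhc8a5a9f578e5c6fe : CRef := CRef.mk (Pat.mk 0x80000001c000000080000000800000000 0xc0000000c0000001c0000000f0000003c00000014 6 6) 0 0 (step_sound _ 36 [(rh55afc6a59410cf00.shift 3 0), rh79282ce4d2b3b110] (by decide +kernel))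
noncomputable def rh3ceeed110dc66871 : CRef := CRef.mk (Pat.mk 0x8000000080000000e0000000400000000 0x140000003c0000000f0000000e0000003c00000018 6 6) 0 0 (step_sound _ 35 [(rh42afa1af9fffa0e1.shift 1 0), rh5ee4dc8825dcefa0] (by decide +kernel))
noncomputable def rh9ada985e2b5be27e : CRef := CRef.mk (Pat.mk 0x180000000e000000000000000000000000 0x10000000380000001f0000003e000000380000001800000010 6 6) 0 0 (step_sound _ 100 [(rhbbe16ff26f7822db.shift 1 0), (rhd2705a941542c9fb.shift 0 1)] (by decide +kernel))
noncomputable def rhd84d8aa26dfbdfdf : CRef := CRef.mk (Pat.mk 0x2000000038000000000000000000000000 0x28000000280000002f000000fc000000fe0000005000000050 6 8) 0 0 (step_sound _ 36 [(rh580df77fe152422b.shift 4 0), rh688c9fd4443018af, (rh9a83837d515b0a6d.shift 1 0)] (by decide +kernel))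
noncomputable def rh8b87fecde334b583 : CRef := CRef.mk (Pat.mk 0x7000000018000000080000000800000000 0x2000000020000000e80000007c000000d80000005f0000007c00000034 6 8) 0 0 (step_sound _ 131 [rh26a641dd1ea9a7b1, (rh52b4b7b516a7d39e.shift 2 2), (rhd8d5fbf074709d68.shift 1 0)] (by decide +kernel))
noncomputable def rh3b5e5a5c11cf222a : CRef := CRef.mk (Pat.mk 0x40000001c000000060000000200000000 0x8000000080000003c0000001f0000003e0000003b00000018 6 6) 0 0 (step_sound _ 68 [rh59f751a6d1d59e78, (rhbd9ac79c87120162.shift 0 1), (rhe139c704cb953426.shift 0 1)] (by decide +kernel))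
noncomputable def rh0ca2220c65d829b7 : CRef := CRef.mk (Pat.mk 0x40000001c0000000400000000000000000000000000000000 0xa0000000f0000001c0000000c0000000c0000000e0000000e00000002 6 5) 0 0 (step_sound _ 98 [(rh039efe07c35de3d4.shift 0 3), (rh127b405bd7f7b930.shift 2 1), (rha52e1acf7ed5511e.shift 1 0)] (by decide +kernel))
noncomputable def rh8a2c0acdca8525d6 : CRef := CRef.mk (Pat.mk 0x60000000300000002000000000000000000000000 0x10000000300000003000000060000000700000007000000070000000600000002 6 3) 0 0 (step_sound _ 193 [(rh03dfdf12d5937476.shift 0 2), (rh5abfc4c9d959be03.shift 0 2), rhe52cc56a091e2831] (by decide +kernel))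
noncomputable def rh125cab51679c4bee : CRef := CRef.mk (Pat.mk 0x8000000380000000a0000000000000000 0x400000004000000160000001f0000003a0000000a0000000a00000008 6 6) 0 0 (step_sound _ 130 [(rh4debe05c95570ec5.shift 0 1), (rh668fc65514a55b16.shift 2 0), (rhc02b3aee7ab87ee1.shift 0 3)] (by decide +kernel))
noncomputable def rh7e0eb827c193622b : CRef := CRef.mk (Pat.mk 0x8000000080000000800000010 0x140000001f00000038000000080000001800000018 6 6) 0 0 (step_sound _ 131 [rh2726962e49a46af1, (rhd3458b32566d63f7.shift 3 0)] (by decide +kernel))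
noncomputable def rhcf6c469f5d636637 : CRef := CRef.mk (Pat.mk 0x1e000000040000000000000000 0x4000000040000001f0000003f0000000300000002 6 6) 0 0 (step_sound _ 65 [rhe15dbef4916f64a8, (rheb0810cc63b001d8.shift 0 2)] (by decide +kernel))
noncomputable def rh814765acf06398ac : CRef := CRef.mk (Pat.mk 0x1e0000000400000000 0x800000008000000380000001f0000003700000010 6 6) 0 0 (step_sound _ 33 [rh27d95a0f8f38f55d, (rheb0810cc63b001d8.shift 0 1)] (by decide +kernel))
noncomputable def rh780a8fc0537f8f31 : CRef := CRef.mk (Pat.mk 0x20000001e0000000600000000 0x6000000070000003e0000001f0000000600000002 6 6) 0 0 (step_sound _ 129 [(rh2145e1d24b96a57e.shift 1 1), rhf6c927e3548f1524] (by decide +kernel))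
noncomputable def rhba04e521aed1de48 : CRef := CRef.mk (Pat.mk 0x1c000000040000000000000000 0xa0000000a0000003f0000001f0000003c0000001400000004 6 6) 0 0 (step_sound _ 131 [rh82cc2deab149c31d, (rhadf429772c25fde0.shift 2 0), (rhf8291c12faa3c332.shift 0 1)] (by decide +kernel))
noncomputable def rhd17e7ca7d253eefe : CRef := CRef.mk (Pat.mk 0x38000000080000000000000000 0x4000000040000000e0000003f0000003f0000000800000008 6 6) 0 0 (step_sound _ 65 [(rh8bf8257c7eeda352.shift 0 2), (rhbb229bad87965364.shift 1 2), rhfae331e376b2a6ed, (rhfb815e3afead425a.shift 0 2)] (by decide +kernel))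
noncomputable def rhea2a847995df1967 : CRef := CRef.mk (Pat.mk 0x1000000010000000380000000000000000 0x10000000770000003e0000006700000020 6 7) 0 0 (step_sound _ 66 [(rh398ef3aca3e32b0a.shift 1 0), (rh775ca1963e850b80.shift 0 1), (rhec46bd5500c722c9.shift 1 2)] (by decide +kernel))
noncomputable def rh7724e98bb8eb6fba : CRef := CRef.mk (Pat.mk 0x400000004000000060000000400000000 0xa0000000f0000003c000000060000000c0000000c 6 6) 0 0 (step_sound _ 35 [(rh55afc6a59410cf00.shift 2 0), rhab3c3f3ae8c9664f] (by decide +kernel))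
noncomputable def rh29631e4c43ed50b9 : CRef := CRef.mk (Pat.mk 0x8000000080000001c0000000c00000000 0x140000001c0000000c0000001c0000001f00000013 6 5) 0 0 (step_sound _ 36 [(rh55afc6a59410cf00.shift 3 0), rh8475f6a1a85d4e4a] (by decide +kernel))
noncomputable def rhfb8e12a9ace734ea : CRef := CRef.mk (Pat.mk 0x80000001c000000040000000000000000 0x60000000f0000001c0000000e0000000e0000000e 6 5) 0 0 (step_sound _ 34 [rh3a74e41dc360bbd7, (rh71222050f2c63a3a.shift 2 0)] (by decide +kernel))
noncomputable def rh8d57b1d9b3ea52bb : CRef := CRef.mk (Pat.mk 0x1c000000060000000000000000 0x80000000a0000003b0000001f000000360000001400000004 6 6) 0 0 (step_sound _ 97 [(rh27d95a0f8f38f55d.shift 0 1), rh38a0850c9fea941e] (by decide +kernel))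
noncomputable def rhef23918066632ed4 : CRef := CRef.mk (Pat.mk 0x380000000c000000000000000000000000 0x140000001c0000001c0000001f000000380000000c0000001c0000001c00000014 6 6) 0 0 (step_sound _ 163 [(rh281c6819542c66e6.shift 2 0), (rh45d4c1f64d33c434.shift 0 1), (rh68a777751bfeafdf.shift 2 2), (rhed724896ef78f2ed.shift 1 0)] (by decide +kernel))
noncomputable def rh6ae23be999789e1d : CRef := CRef.mk (Pat.mk 0x10000000180000000e0000000800000000 0x80000000c0000000e0000001f0000001b0000001e0000000c00000004 6 5) 0 0 (step_sound _ 131 [(rh03dfdf12d5937476.shift 2 0), (rh933f3ac7d57d09d8.shift 2 1), (rhd2c74283b7b6e6b8.shift 2 1), rhe537a55726f74dba] (by decide +kernel))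
noncomputable def rh0426318422295e19 : CRef := CRef.mk (Pat.mk 0x8000000080000000c0000000600000000 0x160000001f0000007c0000000c0000000e0000000a 6 7) 0 0 (step_sound _ 130 [(rh63cf8e5b829d8217.shift 1 0), rhc3a9559c72b00d0b, (rhc86e3ab3c2b165e9.shift 1 0)] (by decide +kernel))
noncomputable def rh40b0a4bea4334023 : CRef := CRef.mk (Pat.mk 0x1c0000000400000000 0xa0000000a0000003f0000003f0000003400000014 6 6) 0 0 (step_sound _ 65 [rh6c918a7151ce5cb8, rhf41a34b41b8c2138] (by decide +kernel))
noncomputable def rh844f70a03cf15d8e : CRef := CRef.mk (Pat.mk 0x10000000200000003000000000000000000000000 0x50000000700000007000000030000000200000003000000070000000700000005 6 3) 0 0 (step_sound _ 161 [rh0a6888916bcef86b, rh281c6819542c66e6, (rh68a777751bfeafdf.shift 0 2), (rhb1a251d9bff81766.shift 0 2)] (by decide +kernel))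
noncomputable def rhf789e030507222a1 : CRef := CRef.mk (Pat.mk 0x180000000e0000000400000004 0xa0000000a0000001b000000fe000000f600000014 6 8) 0 0 (step_sound _ 131 [(rh5c5e593799055d58.shift 2 1), rh7241cfcb7ac8b7dc] (by decide +kernel))
noncomputable def rh0356ca351eafed18 : CRef := CRef.mk (Pat.mk 0x80000000e000000040000000000000000 0x2000000020000000f0000003e000000760000000400000004 6 7) 0 0 (step_sound _ 34 [(rh54722dc35f66b564.shift 0 1), (rh71222050f2c63a3a.shift 2 0)] (by decide +kernel))
noncomputable def rh3e4ddeabd3c1d94a : CRef := CRef.mk (Pat.mk 0x180000000e0000000400000000 0xa0000000b0000001f0000003e0000003400000010 6 6) 0 0 (step_sound _ 131 [(rh5c5e593799055d58.shift 2 1), rhf615f94237eaff33] (by decide +kernel))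
noncomputable def rh09fb2f953a1dfd6f : CRef := CRef.mk (Pat.mk 0xf000000030000000000000000 0xc0000001c0000000f0000001f0000001c0000000c 6 5) 0 0 (step_sound _ 67 [rh91f29260523c7ccb, (rhe25b0a99195a5d59.shift 0 2)] (by decide +kernel))
noncomputable def rha73aa629be6ad2b7 : CRef := CRef.mk (Pat.mk 0x20000000300000002000000000000000000000000 0x100000003000000030000000300000003000000070000000700000006 6 3) 0 0 (step_sound _ 65 [rh2840436db7424bdf, (rh565a0c22519f57e9.shift 0 1), (rhe286c75f2739cce2.shift 0 1)] (by decide +kernel))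
noncomputable def rh3d6489220b487b1c : CRef := CRef.mk (Pat.mk 0x1e0000000000000000 0x8000000080000003b0000001f0000003000000010 6 6) 0 0 (step_sound _ 97 [rh0c95a1c4ce1296ee, (rh3244c3cc8379b070.shift 0 2)] (by decide +kernel))
noncomputable def rh48ea8d8ccf6b4410 : CRef := CRef.mk (Pat.mk 0x8000000180000000e0000000400000000 0x160000001f0000001f0000000e0000000c00000008 6 5) 0 0 (step_sound _ 35 [(rh7f462ec8865f90aa.shift 0 1), rh9e3680845ae0253e, (rha707fb719e87fe6e.shift 3 0)] (by decide +kernel))
noncomputable def rhbe1da048808aeceb : CRef := CRef.mk (Pat.mk 0x200000006000000030000000000000000 0x400000007000000070000000700000007000000030000000200000002 6 3) 0 0 (step_sound _ 33 [rh04ee05071d91faba, (rh69f0587a21bb077f.shift 0 1), (rha707fb719e87fe6e.shift 1 0)] (by decide +kernel))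
noncomputable def rh432b53c95e74f9fc : CRef := CRef.mk (Pat.mk 0x1a0000000e000000000000000000000000 0x600000016000000370000001e0000003e0000000e0000000c00000004 6 6) 0 0 (step_sound _ 161 [(rha768b229dc254047.shift 1 0), (rhaf8953d4498f2c71.shift 0 2), (rhbc92f561fb055ddc.shift 0 1)] (by decide +kernel))
noncomputable def rh1e4f2d7a7eac99b4 : CRef := CRef.mk (Pat.mk 0xc0000000f000000000000000000000000 0xc0000007f0000003f0000000200000002 6 7) 0 0 (step_sound _ 68 [rh6f99d3dbda097b35, (rh96851dee118c1ba3.shift 0 2)] (by decide +kernel))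
noncomputable def rhecf3946c296fa1ea : CRef := CRef.mk (Pat.mk 0x1a0000000e000000000000000000000000 0x600000007000000070000001f0000000e0000000e0000000600000004 6 5) 0 0 (step_sound _ 161 [rh28545fcf4114fdac, (rha768b229dc254047.shift 1 0), (rhaf8953d4498f2c71.shift 0 2), (rhdbe2f635cd55a39c.shift 0 1)] (by decide +kernel))
noncomputable def rh221f9ef2e5c13a25 : CRef := CRef.mk (Pat.mk 0x400000007000000020000000000000000 0x200000003000000070000000700000007000000030000000200000002 6 3) 0 0 (step_sound _ 33 [(rh04663aea25939a3c.shift 0 1), (rh71222050f2c63a3a.shift 1 0)] (by decide +kernel))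
noncomputable def rh81ff8dd4f6061fb2 : CRef := CRef.mk (Pat.mk 0x180000000e000000040000000400000000 0x600000006000000160000001e0000000e0000003e0000000f0000000a 6 6) 0 0 (step_sound _ 130 [(rh0ef6c71ce89c1c36.shift 1 0), rh9ee3848b537ea47a, (rhe897af202bc68eb8.shift 1 1)] (by decide +kernel))
noncomputable def rh14d5fb538d4c2aa6 : CRef := CRef.mk (Pat.mk 0x18000000180000000c00000008 0x2000000070000003f0000001f0000000c00000008 6 6) 0 0 (step_sound _ 98 [(rh50fbb5868c909700.shift 2 0), (rh6ef52b5dba668a8b.shift 0 1)] (by decide +kernel))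
noncomputable def rh6417a4f33b4d74d4 : CRef := CRef.mk (Pat.mk 0x8000000080000000c0000000600000000 0x140000001e000000780000000f0000003e00000018 6 7) 0 0 (step_sound _ 35 [(rh305945700f20b255.shift 1 0), rh58f49594b41e4958] (by decide +kernel))
noncomputable def rh8e5b610da1554a66 : CRef := CRef.mk (Pat.mk 0x140000000600000004000000000000000000000000 0x40000001400000014000000160000003f0000003e0000000a00000008 6 6) 0 0 (step_sound _ 67 [(rh8e8889e03176485f.shift 1 0), (rhb6e11cfc959c8a3c.shift 0 1), (rhde43633b9e4abc31.shift 1 2)] (by decide +kernel))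
noncomputable def rhe36b16ae9d7975b8 : CRef := CRef.mk (Pat.mk 0xc000000070000000400000000000000000000000000000000 0x40000000c0000000f0000001e0000000e0000000e0000000e00000008 6 5) 0 0 (step_sound _ 98 [(rh77d40379b2b29f09.shift 0 2), (rh89cf5152879421f3.shift 1 0), (rh8aec56c4ee12918c.shift 1 1)] (by decide +kernel))
noncomputable def rh25e194bc672c9eae : CRef := CRef.mk (Pat.mk 0x4000000070000000400000000 0xa0000000e0000000e000000040000000f0000001e00000008 6 5) 0 0 (step_sound _ 35 [(rhae2edff970a530ce.shift 0 1), (rhea6bef6447d37a6a.shift 1 0), (rhfb9fb48a5e63ed80.shift 1 0)] (by decide +kernel))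
noncomputable def rheafcc9bd34f88a06 : CRef := CRef.mk (Pat.mk 0xc00000007000000040000000400000000 0xc0000001f0000003c0000001e0000000e 6 6) 0 0 (step_sound _ 99 [(rh71222050f2c63a3a.shift 2 0), rhe585e4778e8182f2] (by decide +kernel))
noncomputable def rhe77048db517ad1d3 : CRef := CRef.mk (Pat.mk 0x380000000e00000000000000000000000000000000 0x140000001c0000003f000000380000002e0000007c000000380000001000000010 6 7) 0 0 (step_sound _ 99 [(rh215e11e099257d75.shift 3 2), (rh7fbc824ea4018db7.shift 1 0), (rh959626eb621bd7c7.shift 1 2), (rhace8d3f5c0278871.shift 0 2)] (by decide +kernel))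
noncomputable def rh261389bbecf0a19f : CRef := CRef.mk (Pat.mk 0x3000000008000000000000000000000000 0x10000000fc0000003f000000600000002000000020 6 8) 0 0 (step_sound _ 98 [(rh7401e8cf466f4e5b.shift 0 3), (rh7cb05597f159185c.shift 1 0), (rhaff4d66ab2235e4f.shift 2 3), (rhbd2e91c3fdbfa961.shift 0 3)] (by decide +kernel))
noncomputable def rh3b36bb83f0bfb4d9 : CRef := CRef.mk (Pat.mk 0x180000000600000000 0x380000003f00000077 6 7) 0 0 (step_sound _ 35 [(rh53b3c253cb0c65f4.shift 0 1), rhad25ddd26c6147ab] (by decide +kernel))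
noncomputable def rh7bb105f4c602861b : CRef := CRef.mk (Pat.mk 0xc00000002 0x7f0000007f000000ff 6 8) 0 0 (step_sound _ 36 [(rh2c0d840c709967a7.shift 1 0), rh71a689db65139446, rh9348cf50b6ac1c35] (by decide +kernel))
noncomputable def rh4af6f3cd22c70e70 : CRef := CRef.mk (Pat.mk 0x180000000e0000000400000004 0x2000000020000001b000000fe0000007e00000004 6 8) 0 0 (step_sound _ 97 [(rhe072fffdd2fccf38.shift 1 0), (rhfa8c138cc50acb47.shift 0 1)] (by decide +kernel))
noncomputable def rhcd877eecae651a29 : CRef := CRef.mk (Pat.mk 0x1c000000060000000000000000 0x200000012000000330000001f0000003e0000000c00000008 6 6) 0 0 (step_sound _ 97 [rhb32eb569dfc388a6, (rhbdb8dfd08861fbf7.shift 0 1)] (by decide +kernel))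
noncomputable def rhe9a4237b19b1f41f : CRef := CRef.mk (Pat.mk 0xc0000000f000000040000000000000000 0xc0000001f0000003c0000001e0000000e 6 6) 0 0 (step_sound _ 34 [(rh71222050f2c63a3a.shift 2 0), rhe585e4778e8182f2] (by decide +kernel))
noncomputable def rh00842f1dae8c6433 : CRef := CRef.mk (Pat.mk 0x180000000e000000080000000000000000 0x10000000300000001f0000007e0000007f0000003000000030 6 7) 0 0 (step_sound _ 100 [rh2d432a4e867e50f2, (rh5f68d4d802450994.shift 1 2), (rh98bfe017ab5fead7.shift 0 2)] (by decide +kernel))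
noncomputable def rh2bf2743efa8a0379 : CRef := CRef.mk (Pat.mk 0x200000002000000070000000300000000 0x50000000700000006000000070000001f0000001c 6 5) 0 0 (step_sound _ 34 [(rh55afc6a59410cf00.shift 1 0), rhc8031c215ef64696] (by decide +kernel))
noncomputable def rh20a20a2b23f2ba5f : CRef := CRef.mk (Pat.mk 0x80000001e000000040000000400000000 0x380000001e000000370000003c00000018 6 6) 0 0 (step_sound _ 132 [(rh33e738c4ed385b9f.shift 1 3), rha47540fd72942c72] (by decide +kernel))
noncomputable def rhe6bda222dda267c2 : CRef := CRef.mk (Pat.mk 0x80000001e000000040000000000000000 0x80000001f0000003e000000f800000010 6 8) 0 0 (step_sound _ 68 [rhe0e9ec933b9e0f03, (rhe25b0a99195a5d59.shift 1 2)] (by decide +kernel))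
noncomputable def rh93c342a151e55529 : CRef := CRef.mk (Pat.mk 0x2000000020000000700000000000000000 0x20000000f70000007e000000ce00000040 6 8) 0 0 (step_sound _ 67 [(rh625dde73e665edc8.shift 3 0), (rhec46bd5500c722c9.shift 2 2), (rhf0dcb8af34d9ea65.shift 0 1)] (by decide +kernel))
noncomputable def rh67cbc159cd122ebb : CRef := CRef.mk (Pat.mk 0x20000001e000000060000000000000000 0x600000006000000060000001e0000003e0000000300000001 6 6) 0 0 (step_sound _ 161 [rh01cda8dd3ba5036f, (rh2145e1d24b96a57e.shift 1 2)] (by decide +kernel))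
noncomputable def rhaea16f32eb7d27ae : CRef := CRef.mk (Pat.mk 0x100000003000000020000000000000000 0x4000000070000000700000003000000060000000600000006 6 3) 0 0 (step_sound _ 33 [rh7b1f1fb55310c477, rhf3c18d8cfe33c40d] (by decide +kernel))
noncomputable def rhc289a04649fe641d : CRef := CRef.mk (Pat.mk 0x38000000080000000000000000 0x4000000040000000f0000003e0000007f0000000800000008 6 7) 0 0 (step_sound _ 65 [rh5482fb09d322c9a7, (rh8bf8257c7eeda352.shift 0 2), (rhbb229bad87965364.shift 1 2), (rhfb815e3afead425a.shift 0 2)] (by decide +kernel))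
noncomputable def rh3b545fc8430e3234 : CRef := CRef.mk (Pat.mk 0x80000001c000000040000000400000000 0x60000000f0000001c0000000f0000003c00000018 6 6) 0 0 (step_sound _ 130 [(rh277b01412deaec89.shift 0 1), rh4a39877b101e3102] (by decide +kernel))
noncomputable def rhbfe60582104a6b25 : CRef := CRef.mk (Pat.mk 0x280000000c00000008000000000000000000000000 0x800000028000000280000002c0000007f0000003c0000001400000010 6 7) 0 0 (step_sound _ 68 [(rh8e8889e03176485f.shift 2 0), (rhde43633b9e4abc31.shift 2 2), (rhfa80626feb4e9cb5.shift 0 1)] (by decide +kernel))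
noncomputable def rha4f6a3dba825e108 : CRef := CRef.mk (Pat.mk 0x180000000c00000000 0x380000003f00000077 6 7) 0 0 (step_sound _ 33 [(rh53b3c253cb0c65f4.shift 0 1), rhad25ddd26c6147ab] (by decide +kernel))
noncomputable def rhc7ed0dbd4dd1ff1a : CRef := CRef.mk (Pat.mk 0x200000007000000040 0x670000007e000000c7 6 8) 0 0 (step_sound _ 35 [rha4e887c2a2a0f60b, (rhe25b0a99195a5d59.shift 3 0)] (by decide +kernel))
noncomputable def rh71434a0c3a9c84c9 : CRef := CRef.mk (Pat.mk 0x8000000080000001e00000004 0x70000000f0000001b0000001e00000007 6 5) 0 0 (step_sound _ 65 [rh247546f310433323, (rh3244c3cc8379b070.shift 0 1)] (by decide +kernel))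
noncomputable def rh4bf3712e29d672fb : CRef := CRef.mk (Pat.mk 0x80000000c000000060000000400000000 0x1c0000003f0000003e0000003c00000018 6 6) 0 0 (step_sound _ 100 [(rh18965a982d73c794.shift 1 2), rhcdaa8364d3215052] (by decide +kernel))
noncomputable def rh9c7dca390dd89263 : CRef := CRef.mk (Pat.mk 0x2000000020000000700000000000000000 0x20000000fe0000007e000000c700000040 6 8) 0 0 (step_sound _ 67 [(rh5b2ce1e5aa4a4edd.shift 0 1), (rh625dde73e665edc8.shift 3 0)] (by decide +kernel))
noncomputable def rh893548da05599c74 : CRef := CRef.mk (Pat.mk 0x10000000700000001800000000 0x2c0000002c000000fe0000007f000000f800000040 6 8) 0 0 (step_sound _ 67 [(rh27d95a0f8f38f55d.shift 2 0), (rh3a835c9c24581dd0.shift 1 1), (rh719a4defb16e1b89.shift 0 1), (rhd2c95e82fa4e1f3e.shift 2 1)] (by decide +kernel))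
noncomputable def rh4bdc7c9db6d453c4 : CRef := CRef.mk (Pat.mk 0x8000000180000000c0000000400000000 0x20000003f0000001f0000003f0000003400000010 6 6) 0 0 (step_sound _ 65 [(rh53b3c253cb0c65f4.shift 0 2), rh69e1e121114ea140] (by decide +kernel))
noncomputable def rh553a09777656fbd3 : CRef := CRef.mk (Pat.mk 0x80000000c000000040000000c00000000 0x10000000780000001f0000003f0000003c00000010 6 7) 0 0 (step_sound _ 67 [(rh4c674509b38b7a3e.shift 0 1), rhfe557af9112f51d6] (by decide +kernel))
noncomputable def rhdb1723f3c541195f : CRef := CRef.mk (Pat.mk 0x80000000c00000004000000080000000000000000 0x10000000780000001f0000003c000000180000001800000018 6 7) 0 0 (step_sound _ 99 [(rh4c674509b38b7a3e.shift 0 2), (rh820d4e04d5dcd02e.shift 2 0)] (by decide +kernel))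
noncomputable def rhb8b276812cfecf32 : CRef := CRef.mk (Pat.mk 0x80000000e0000000400000004 0x20000003b000000fe0000007f00000004 6 8) 0 0 (step_sound _ 68 [(rh7a6a5778104bcb94.shift 1 1), rhe4f9133a81c1dbc5] (by decide +kernel))
noncomputable def rhc5471dfbda6ee65d : CRef := CRef.mk (Pat.mk 0x2000000020000000700000003000000000000000000000000 0x2000000060000001f0000001f0000001c0000000800000008 6 5) 0 0 (step_sound _ 131 [(rh18965a982d73c794.shift 0 3), rhfbc1b8bc9e3a8677] (by decide +kernel))
noncomputable def rhf2584abcf9d052b1 : CRef := CRef.mk (Pat.mk 0x20000000200000007000000030000000000000000 0x20000001a0000001f0000001f0000000e00000004 6 5) 0 0 (step_sound _ 99 [(rh18965a982d73c794.shift 0 2), rh81fe71fa6d359d51] (by decide +kernel))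
noncomputable def rh0b35676d6ad2b708 : CRef := CRef.mk (Pat.mk 0x8000000080000001c00000004000000000000000000000000 0x10000000180000001c0000001c0000007f000000780000001800000008 6 7) 0 0 (step_sound _ 99 [(rh4f66b8b299b10e60.shift 2 0), (rh806a30ccd3d3e25c.shift 2 2), rhb8bc388dc7421ef6, (rhc25035b08412a6a9.shift 2 1)] (by decide +kernel))
noncomputable def rh472e08b23b567149 : CRef := CRef.mk (Pat.mk 0x20000001c00000004 0xe30000007e0000007c 6 8) 0 0 (step_sound _ 33 [(rh3244c3cc8379b070.shift 0 1), (rhb8de41a89a9d4634.shift 1 0)] (by decide +kernel))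
noncomputable def rhd87e581500fe8583 : CRef := CRef.mk (Pat.mk 0x8000000080000001c0000000c00000000 0x140000003c0000000f0000001c0000000f00000002 6 6) 0 0 (step_sound _ 33 [(rh53b3c253cb0c65f4.shift 0 1), rh64d618d94720dd56] (by decide +kernel))
noncomputable def rhc786f0f416fca90c : CRef := CRef.mk (Pat.mk 0xa0000000c000000040000000400000000 0x60000000e0000000c0000000f0000003c00000018 6 6) 0 0 (step_sound _ 130 [(rh50fbb5868c909700.shift 1 1), rhd802bb8339359eae] (by decide +kernel))
noncomputable def rhbffcaa46287832bb : CRef := CRef.mk (Pat.mk 0x1400000018000000080000000800000000 0x80000001f000000380000001e0000007800000030 6 7) 0 0 (step_sound _ 131 [(rhad5d8fc3675c15dd.shift 0 3), (rhd802bb8339359eae.shift 1 0)] (by decide +kernel))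
noncomputable def rhf38cc6570e2f30a9 : CRef := CRef.mk (Pat.mk 0x40000000c0000000600000002000000000000000000000000 0xa0000000f0000003c0000000e0000000e0000000c0000000c00000004 6 6) 0 0 (step_sound _ 164 [(rh18965a982d73c794.shift 1 4), rhdedd6ef84d5c626a] (by decide +kernel))
noncomputable def rh6efb8698179a8628 : CRef := CRef.mk (Pat.mk 0x8000000180000000e00000004000000000000000000000000 0x160000001f0000001b0000001e0000001c000000180000001800000008 6 5) 0 0 (step_sound _ 194 [(rh1535e2a4be39266a.shift 2 0), (rh57da30cc1d366ea2.shift 0 3), (rha4a39248300e5ac6.shift 0 2)] (by decide +kernel))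
noncomputable def rh1bdb157c3b067c99 : CRef := CRef.mk (Pat.mk 0x1000000018000000080000000800000000 0x2c0000007f0000003e000000180000001800000010 6 7) 0 0 (step_sound _ 131 [(rh60f7890073fd1121.shift 1 0), (rhc647a25a08ddf0ec.shift 0 1)] (by decide +kernel))
noncomputable def rh9a822f02b6a89403 : CRef := CRef.mk (Pat.mk 0x4000000040000001e0000000000000000 0x180000003c000000370000001e0000003800000008 6 6) 0 0 (step_sound _ 97 [(rh3244c3cc8379b070.shift 0 2), (rhcfff0406fc14ed59.shift 1 0)] (by decide +kernel))
noncomputable def rh837cbf422869f936 : CRef := CRef.mk (Pat.mk 0x8000000080000002c0000000400000000 0x140000003c0000000f0000006c0000007c00000018 6 7) 0 0 (step_sound _ 35 [(rh509847d0837ffcc5.shift 2 0), rh5ee4dc8825dcefa0] (by decide +kernel))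
noncomputable def rh3c4afa9f38dd2a05 : CRef := CRef.mk (Pat.mk 0x80000000c00000004000000040000000000000000 0x160000001f0000003c0000000f0000003c0000001800000008 6 6) 0 0 (step_sound _ 67 [(rh09523eec71061f6e.shift 0 1), (rh6799e174f619f451.shift 0 1), rh7dec9d581320fdaf, (rh936b4adcf7483bd7.shift 0 1)] (by decide +kernel))
noncomputable def rh780e8523a6338ff2 : CRef := CRef.mk (Pat.mk 0x2000000000000000380000001000000000 0xc0000007c0000000f000000fc0000001e00000008 6 8) 0 0 (step_sound _ 98 [(rh14fa7717ab723f83.shift 0 1), (rh1b1d9d37dc492e4a.shift 2 1), (rh239b048be7785530.shift 0 1), (rhabaaf3cbb809331d.shift 1 0)] (by decide +kernel))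
noncomputable def rh0f077dbff6d11df3 : CRef := CRef.mk (Pat.mk 0x20000000200000002000000010000000000000000 0x5000000070000000600000002000000070000000700000004 6 3) 0 0 (step_sound _ 65 [rh53e462704bcd47c7, (rh932754581e0f4330.shift 0 1)] (by decide +kernel))
noncomputable def rhd99e0a08eca441fc : CRef := CRef.mk (Pat.mk 0x400000008000000080000000800000000 0xc0000000c000000080000001f0000007c00000010 6 7) 0 0 (step_sound _ 131 [rh268b3692f2aae3bc, (rh50fbb5868c909700.shift 2 1)] (by decide +kernel))
noncomputable def rhe0f9066d8708b22b : CRef := CRef.mk (Pat.mk 0xe0000000400000000 0x1000000010000000300000003f0000003f00000008 6 6) 0 0 (step_sound _ 68 [rha4cf9251629f1722, (rhaf9f2efc81a8312b.shift 0 1)] (by decide +kernel))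
noncomputable def rhde319f522640fb20 : CRef := CRef.mk (Pat.mk 0x18000000080000000800000010 0x800000008000000780000001f0000001c00000014 6 7) 0 0 (step_sound _ 131 [rhd1671c6e88add9be, (rhd3458b32566d63f7.shift 3 0)] (by decide +kernel))
noncomputable def rh2479e71cceca9e92 : CRef := CRef.mk (Pat.mk 0x100000006000000020000000200000000 0x200000003000000030000001e000000070000000700000001 6 5) 0 0 (step_sound _ 129 [(rh50fbb5868c909700.shift 0 1), rhafa347a29579114c] (by decide +kernel))
noncomputable def rh1ae5368ee2f8c377 : CRef := CRef.mk (Pat.mk 0x1c00000008000000080000000800000000 0x8000000080000003c0000000f0000001c0000001c00000010 6 6) 0 0 (step_sound _ 36 [(rh55afc6a59410cf00.shift 3 0), (rhc29312d6e799ff1f.shift 0 1)] (by decide +kernel))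
noncomputable def rhab86645e10ce1fab : CRef := CRef.mk (Pat.mk 0x8000000180000000e000000040000000000000000 0x10000000360000001f0000001f0000000e0000001c0000001800000010 6 6) 0 0 (step_sound _ 162 [(rh0507344190b95ddd.shift 0 2), (rha4a39248300e5ac6.shift 0 1), (rhd1779d7de7f8215b.shift 2 0)] (by decide +kernel))
noncomputable def rh012c1dab3b22d9c1 : CRef := CRef.mk (Pat.mk 0x20000000600000003000000010000000000000000 0x50000000700000007000000070000001f0000001e00000004 6 5) 0 0 (step_sound _ 65 [(rh3901d8753ad0f7b0.shift 0 1), rh8ff3dde5b1c639e0, (rha707fb719e87fe6e.shift 1 1)] (by decide +kernel))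
noncomputable def rh19f9fcc6bb214921 : CRef := CRef.mk (Pat.mk 0x1000000010000000180000000e00000000 0x800000028000000f80000001c0000001f0000003e00000034 6 8) 0 0 (step_sound _ 131 [(rh00904813ed7d9adf.shift 2 0), rhac6c39875d5583a5, (rhbbaeee846fdb5ee1.shift 2 0)] (by decide +kernel))
noncomputable def rh1675ec681ab62e79 : CRef := CRef.mk (Pat.mk 0x2000000020000000f000000000000000000000000 0xe0000001e0000000f0000001c0000000c0000000c 6 5) 0 0 (step_sound _ 131 [(rh33e738c4ed385b9f.shift 0 3), rh77ca85b7a1b8179d] (by decide +kernel))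
noncomputable def rhbbbd0ee04425f659 : CRef := CRef.mk (Pat.mk 0x20000000e00000003000000010000000000000000 0x5000000070000000f0000001b0000001f0000000e00000004 6 5) 0 0 (step_sound _ 65 [rh8ff3dde5b1c639e0, (rha707fb719e87fe6e.shift 1 1), (rhbfcebe01e68384ab.shift 0 1)] (by decide +kernel))
noncomputable def rh81ccc814c226d92f : CRef := CRef.mk (Pat.mk 0x8000000280000000c0000000c 0x170000001e0000003b0000000e0000000c 6 6) 0 0 (step_sound _ 100 [(rh2f68792b6b779e96.shift 3 0), rhb9f9e107e5ce07cb] (by decide +kernel))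
noncomputable def rh1bc20cee4e54a2fa : CRef := CRef.mk (Pat.mk 0x4000000140000000600000002000000000000000000000000 0xa0000003e00000036000000070000003e0000000c0000000c0000000c 6 6) 0 0 (step_sound _ 98 [(rh36d4d92ef3dad5f8.shift 0 2), (rh4f66b8b299b10e60.shift 1 0), (rhdd11e03a2f8b13b6.shift 1 0), (rhf68f58b66a8139c9.shift 1 2)] (by decide +kernel))
noncomputable def rh347e43185df2895d : CRef := CRef.mk (Pat.mk 0x40000001c00000006000000020000000000000000 0x8000000080000003c0000001f0000003e0000003b0000001800000010 6 6) 0 0 (step_sound _ 100 [rh5cb28f59dd92a967, (rh7fd50e698048e434.shift 0 2), (rhbd9ac79c87120162.shift 0 2)] (by decide +kernel))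
noncomputable def rha1fd9c7bad16890f : CRef := CRef.mk (Pat.mk 0x8000000180000000c0000000400000000 0x20000000b0000001f0000003f0000003400000010 6 6) 0 0 (step_sound _ 65 [(rh53b3c253cb0c65f4.shift 0 2), rhf615f94237eaff33] (by decide +kernel))
noncomputable def rhd637b0b45212c965 : CRef := CRef.mk (Pat.mk 0x8000000080000001c000000000000000400000000 0x8000000380000001f000000f00000003e00000010 6 8) 0 0 (step_sound _ 68 [(rh08edf065357d68e5.shift 3 0), (rh3bb201def308172f.shift 1 0), (rh3ce854f4a795c89f.shift 0 2), (rhb8a1f9a12fc8f26e.shift 0 1)] (by decide +kernel))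
noncomputable def rh933beab41edfb2a2 : CRef := CRef.mk (Pat.mk 0xe0000000200000000 0x800000008000000380000001f0000003300000010 6 6) 0 0 (step_sound _ 68 [rh2fa8a6cd8a03c75c, (rheb0810cc63b001d8.shift 0 1)] (by decide +kernel))
noncomputable def rh00ee57256a231bb2 : CRef := CRef.mk (Pat.mk 0x10000000180000000e0000000800000000 0x24000000340000001f000000fe0000007f00000002 6 8) 0 0 (step_sound _ 68 [rh44dd78dd79fc4e0b, (rhc6919780d26a686c.shift 1 1), (rhd8d98eb6ec46d5f8.shift 0 1)] (by decide +kernel))
noncomputable def rhe63fe6f8404d5efb : CRef := CRef.mk (Pat.mk 0x400000004000000060000000200000000 0xa0000000f0000003c000000060000000600000006 6 6) 0 0 (step_sound _ 34 [(rh932754581e0f4330.shift 1 0), rhab3c3f3ae8c9664f] (by decide +kernel))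
noncomputable def rh0794c465b5535106 : CRef := CRef.mk (Pat.mk 0x4000000070000000400000000 0xa0000000e0000000e00000004000000070000003e0000000a 6 6) 0 0 (step_sound _ 35 [(rh89ade209b3e28f13.shift 0 1), (rhb23658ecdd7ce5df.shift 1 0), (rhfb9fb48a5e63ed80.shift 1 0)] (by decide +kernel))
noncomputable def rh5e8e55930fb0f9f4 : CRef := CRef.mk (Pat.mk 0x180000000800000008000000000000000000000000 0xc0000000f0000007c0000000f0000007c0000001c0000001000000010 6 7) 0 0 (step_sound _ 130 [rh31a713248702cbb2, (rh8bfc49d28ab751de.shift 0 2), (rhf838ddcb6dc5cb64.shift 0 2)] (by decide +kernel))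
noncomputable def rh600c31b2a53e2db8 : CRef := CRef.mk (Pat.mk 0x1000000018000000080000000800000000 0x1800000018000000180000000f0000003c00000014 6 6) 0 0 (step_sound _ 131 [rh26a641dd1ea9a7b1, (rh2f68792b6b779e96.shift 3 1)] (by decide +kernel))
noncomputable def rha3d39b978b067c08 : CRef := CRef.mk (Pat.mk 0xc000000070000000400000000 0x4000000060000000e0000000e0000000e000000070000001e0000000a 6 5) 0 0 (step_sound _ 130 [(rh7f8df149e0a95c13.shift 1 1), rhb379f99078aafa2d, (rhd2c74283b7b6e6b8.shift 1 1)] (by decide +kernel))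
noncomputable def rhad6dce0bb528f46e : CRef := CRef.mk (Pat.mk 0x70000000180000000800000000 0x60000000e00000007f000000f80000006c00000060 6 8) 0 0 (step_sound _ 99 [(rh210e2d9c685c857e.shift 0 2), (rh5dffc5561274dae0.shift 2 0), (rhf5f440226ecccf55.shift 2 0), (rhf6d72ac90bd26cb0.shift 2 1)] (by decide +kernel))
noncomputable def rh168227bd50a80818 : CRef := CRef.mk (Pat.mk 0x6000000030000000600000000 0x200000003000000070000000700000007000000030000000600000004 6 3) 0 0 (step_sound _ 129 [(rh55afc6a59410cf00.shift 1 0), (rh7f8df149e0a95c13.shift 0 1)] (by decide +kernel))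
noncomputable def rh85c4c26319a45e88 : CRef := CRef.mk (Pat.mk 0x6000000030000000600000000 0x200000002000000070000000700000007000000030000000700000004 6 3) 0 0 (step_sound _ 129 [(rh0322b7c22cf869d9.shift 0 1), (rh55afc6a59410cf00.shift 1 0)] (by decide +kernel))
noncomputable def rhb55f021a44361f10 : CRef := CRef.mk (Pat.mk 0x2000000020000001c0000000600000000 0x4000000070000003e0000001f0000000600000006 6 6) 0 0 (step_sound _ 65 [(rh55afc6a59410cf00.shift 1 0), rhf6c927e3548f1524] (by decide +kernel))
noncomputable def rh88f641d3ffce88bb : CRef := CRef.mk (Pat.mk 0x2000000020000001c0000000600000000 0x6000000070000003e0000001f0000000600000002 6 6) 0 0 (step_sound _ 65 [(rh2145e1d24b96a57e.shift 1 1), rhf6c927e3548f1524] (by decide +kernel))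
noncomputable def rh9e395b4fa6d6db23 : CRef := CRef.mk (Pat.mk 0x20000000e0000000300000001000000000000000000000000 0x4000000060000000e0000001f0000001f0000001e0000000600000002 6 5) 0 0 (step_sound _ 97 [rh270502ca45ea5299, (rh7878b592544d766e.shift 0 2), (rha707fb719e87fe6e.shift 1 2)] (by decide +kernel))
noncomputable def rh5ee81dc4fe4da568 : CRef := CRef.mk (Pat.mk 0x2000000030000000200000001 0x1000000030000000300000002000000070000001f00000005 6 5) 0 0 (step_sound _ 129 [rh79877ebd3ef475dd, rh9487bb5c7ec4a806] (by decide +kernel))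
noncomputable def rh3108db256938218b : CRef := CRef.mk (Pat.mk 0x180000000c00000000000000000000000000000000 0x40000000c0000001c0000001c0000001f0000007c0000001c0000001800000010 6 7) 0 0 (step_sound _ 129 [(rh53b3c253cb0c65f4.shift 0 4), (rhcebe9a0661ee4c51.shift 1 0)] (by decide +kernel))
noncomputable def rh429398ebbcf74a59 : CRef := CRef.mk (Pat.mk 0x40000001c0000000400000000000000000000000000000000 0xa0000000f0000001c0000000c000000060000000e0000000e00000008 6 5) 0 0 (step_sound _ 98 [(rh039efe07c35de3d4.shift 0 3), (rh8a1bd34420cccc7f.shift 1 0), (rha707fb719e87fe6e.shift 2 2)] (by decide +kernel))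
noncomputable def rh6865bf28d4be43d6 : CRef := CRef.mk (Pat.mk 0x10000000300000001c0000000800000000 0x2c0000003e000000360000003c0000001f00000012 6 6) 0 0 (step_sound _ 131 [rh2de1ac2dd8f67323, (rh57da30cc1d366ea2.shift 1 1), (rh668fc65514a55b16.shift 3 0)] (by decide +kernel))
noncomputable def rh91940de50fe30a25 : CRef := CRef.mk (Pat.mk 0x8000000180000000e0000000400000000 0x60000003f0000001f0000000e0000003c00000010 6 6) 0 0 (step_sound _ 129 [rh23740a382e56d9b0, (rh35ff36398f466e47.shift 1 0), (rhad3bc24c2bfb5a3c.shift 0 1)] (by decide +kernel))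
noncomputable def rh73efa41b81c90632 : CRef := CRef.mk (Pat.mk 0x30000000180000000000000000 0x8000000ec000000ff000000380000001000000010 6 8) 0 0 (step_sound _ 102 [rh146eac8c1cee8860, (rh18965a982d73c794.shift 3 2)] (by decide +kernel))
noncomputable def rh4a7cc63eae8ab77e : CRef := CRef.mk (Pat.mk 0x1c0000000600000004000000000000000000000000 0x140000001c0000001e0000003c0000000f0000000e00000002 6 6) 0 0 (step_sound _ 66 [(rh957e3bb4c843b184.shift 0 1), (rha8bc3cae4d77a08f.shift 1 0), (rhee413b8cdcf5f0aa.shift 1 1)] (by decide +kernel))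
noncomputable def rhe223b9f3838155d3 : CRef := CRef.mk (Pat.mk 0xc00000004000000040000000000000000 0xc0000000c000000040000003c0000000f0000000a 6 6) 0 0 (step_sound _ 34 [(rh2f68792b6b779e96.shift 2 1), rhac13d16ea91712e4] (by decide +kernel))
noncomputable def rhebc6a56eae1c36f1 : CRef := CRef.mk (Pat.mk 0x8000000380000000a0000000000000000 0x400000004000000160000001f0000003a0000000a0000000a00000008 6 6) 0 0 (step_sound _ 130 [(rh4b44abc110b49737.shift 1 1), (rh4debe05c95570ec5.shift 0 1), (rh668fc65514a55b16.shift 2 0), (rhc02b3aee7ab87ee1.shift 0 3)] (by decide +kernel))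
noncomputable def rhf74f7bdba940048f : CRef := CRef.mk (Pat.mk 0x30000000e000000030000000000000000 0x5000000070000000e0000000f0000001e0000000c 6 5) 0 0 (step_sound _ 33 [rh3a2447ed8c5fdc2c, (rh50fbb5868c909700.shift 0 1)] (by decide +kernel))
noncomputable def rhb8badfb08ca501e0 : CRef := CRef.mk (Pat.mk 0x1e000000160000000000000000 0x600000006000000070000001e0000001e0000000300000001 6 5) 0 0 (step_sound _ 129 [(rh3244c3cc8379b070.shift 0 3), rh8836a37d624d13e5] (by decide +kernel))
noncomputable def rhad34642a3bf2562d : CRef := CRef.mk (Pat.mk 0x80000000e000000040000000000000000 0x4000000060000000f0000003e0000000e0000000e0000000c 6 6) 0 0 (step_sound _ 34 [rh4f48fdf56905d688, (rh71222050f2c63a3a.shift 2 0)] (by decide +kernel))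
noncomputable def rh23f3407eef9233d5 : CRef := CRef.mk (Pat.mk 0x200000007800000010 0x80000001f0000007c000000f800000010 6 8) 0 0 (step_sound _ 67 [(rh3244c3cc8379b070.shift 2 1), rhd5227d3b65f66cdc] (by decide +kernel))
noncomputable def rha50c7f31146975c1 : CRef := CRef.mk (Pat.mk 0x140000003c0000000000000000 0xe0000000f0000001c0000003c0000000e0000000c 6 6) 0 0 (step_sound _ 34 [rhd03771d046038dcb, (rheb0810cc63b001d8.shift 1 1)] (by decide +kernel))
noncomputable def rhdaf962e95754b959 : CRef := CRef.mk (Pat.mk 0x2000000000000000380000001000000010 0x80000007c0000000f000000f80000001c00000010 6 8) 0 0 (step_sound _ 99 [(rh9f93e2b24091a43d.shift 2 1), (rhb30336065b8c5dcb.shift 0 1), (rhe072fffdd2fccf38.shift 3 0)] (by decide +kernel))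
noncomputable def rh158772c1247c7b24 : CRef := CRef.mk (Pat.mk 0x80000000e000000000000000000000000 0xc0000000c0000000f0000003e0000003b0000001200000010 6 6) 0 0 (step_sound _ 100 [(rh21460d2d48a35cb8.shift 0 1), (rh84970c2ccb9fe470.shift 1 0)] (by decide +kernel))
noncomputable def rhcdd5491281167ac1 : CRef := CRef.mk (Pat.mk 0x180000001c000000080000000800000000 0x70000001f0000001c0000000c0000001c00000014 6 5) 0 0 (step_sound _ 130 [rh47ba11c5c768bb6c, (rh50fbb5868c909700.shift 2 1)] (by decide +kernel))
noncomputable def rhc9095f3095a95a57 : CRef := CRef.mk (Pat.mk 0x600000006000000020000000200000000 0x30000000700000006000000070000003e0000000c 6 6) 0 0 (step_sound _ 128 [(rh50fbb5868c909700.shift 0 1), rh65a3a4cf67baf828] (by decide +kernel))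
noncomputable def rhc20cb27ed982ff95 : CRef := CRef.mk (Pat.mk 0x8000000080000000e0000000c00000000 0x160000001f0000001b0000000e0000000c00000008 6 5) 0 0 (step_sound _ 132 [rh2e553d5005eeb4f8, (rh2f68792b6b779e96.shift 3 1)] (by decide +kernel))
noncomputable def rh7c6d8fdef50ae8a0 : CRef := CRef.mk (Pat.mk 0x1000000010000000100000003c00000000 0x280000003800000010000000170000003e00000007 6 6) 0 0 (step_sound _ 131 [(rh50fbb5868c909700.shift 3 1), rhb32debe252aae572] (by decide +kernel))
noncomputable def rhb6580f86cc26d2be : CRef := CRef.mk (Pat.mk 0x100000001e000000060000000000000000 0x180000001f000000360000003c0000001c 6 6) 0 0 (step_sound _ 131 [(rh53b3c253cb0c65f4.shift 0 3), (rh8221d7a04ed609cd.shift 1 0)] (by decide +kernel))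
noncomputable def rhe6bbb42e06b99608 : CRef := CRef.mk (Pat.mk 0x7800000018 0xe70000007f000000d8 6 8) 0 0 (step_sound _ 70 [(rh33e738c4ed385b9f.shift 3 1), rh84313de8ed45999e] (by decide +kernel))
noncomputable def rhbaf9ef6cd73c29fd : CRef := CRef.mk (Pat.mk 0x400000006000000030000000200000000 0x20000000600000006000000070000001f0000001d 6 5) 0 0 (step_sound _ 129 [rh03dfdf12d5937476, rh59a8450f63fdff62, rh7c5c9e3d7752e57e] (by decide +kernel))
noncomputable def rh67dbb0c61f39c14d : CRef := CRef.mk (Pat.mk 0x8000000080000001c00000006000000000000000000000000 0x140000003c0000001f0000001c0000000e0000001a0000001800000018 6 6) 0 0 (step_sound _ 99 [(rh18b49738f4e5d343.shift 1 2), (rh64d618d94720dd56.shift 0 2), (rh82c6aec0c6f8e399.shift 2 0)] (by decide +kernel))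
noncomputable def rhb540f05b63b95742 : CRef := CRef.mk (Pat.mk 0x2000000020000000700000001000000000000000000000000 0x50000000700000007000000070000001f0000001e0000000600000002 6 5) 0 0 (step_sound _ 97 [(rh6ed5e6501b92e21f.shift 0 1), (rh806a30ccd3d3e25c.shift 0 2), (rh8ff3dde5b1c639e0.shift 0 1), rhdaa34f01e5e560a1] (by decide +kernel))
noncomputable def rh7038c2afb58d1392 : CRef := CRef.mk (Pat.mk 0x40000000e00000003000000000000000000000000 0x20000000e0000000e0000000f0000001e0000000e00000004 6 5) 0 0 (step_sound _ 65 [(rh71222050f2c63a3a.shift 1 1), rhd9d1bb46f90c42b4] (by decide +kernel))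
noncomputable def rhd9b3c8debfbd955e : CRef := CRef.mk (Pat.mk 0x300000001c000000080000000800000000 0x28000000380000003c0000007f0000001e00000014 6 7) 0 0 (step_sound _ 131 [(rh8af9a32e61457eb0.shift 3 0), (rh9ee3848b537ea47a.shift 1 0), rhbde581ad67601c48] (by decide +kernel))
noncomputable def rh89d159f3412489a1 : CRef := CRef.mk (Pat.mk 0xc00000002 0x3f0000007f000000ff 6 8) 0 0 (step_sound _ 36 [(rh2c0d840c709967a7.shift 1 0), rh71a689db65139446, rhaa8dd1443aa73a3e] (by decide +kernel))
noncomputable def rh129240b3543d6e11 : CRef := CRef.mk (Pat.mk 0x180000000e00000004 0x3000000030000001f0000003e00000007 6 6) 0 0 (step_sound _ 36 [rh94201d150dbfe5dd, rhaf9f2efc81a8312b, rhcea95bd1ecd58bb2] (by decide +kernel))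
noncomputable def rh8fda4dfa110d0d2f : CRef := CRef.mk (Pat.mk 0x180000000e000000080000000000000000 0x40000001f0000007e0000007f0000003800000038 6 7) 0 0 (step_sound _ 100 [rh2d432a4e867e50f2, rh31eb30c068821a1a, (rh5f68d4d802450994.shift 1 2)] (by decide +kernel))
noncomputable def rha92d9530799415e3 : CRef := CRef.mk (Pat.mk 0x180000000e000000040000000400000000 0x1f0000003e000000770000003c00000018 6 7) 0 0 (step_sound _ 100 [rh121d8d014225e2d9, (rhaf9f2efc81a8312b.shift 0 2), (rhe401600d466b97cd.shift 0 2)] (by decide +kernel))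
noncomputable def rhd60e581ef1dac67a : CRef := CRef.mk (Pat.mk 0x180000001e000000000000000400000000 0x180000001e000000370000003c00000038 6 6) 0 0 (step_sound _ 68 [rh735826b9443ea1e9, (rhe25b0a99195a5d59.shift 1 2)] (by decide +kernel))
noncomputable def rhf6564cf8b9efcf20 : CRef := CRef.mk (Pat.mk 0x180000000e000000000000000400000000 0x8000000080000001f0000003e000000330000001600000006 6 6) 0 0 (step_sound _ 100 [rh791b6989fe111af9, (rhea719cc8bd0bdd28.shift 1 1)] (by decide +kernel))
noncomputable def rh96310cc59445a198 : CRef := CRef.mk (Pat.mk 0x300000001c000000080000000800000000 0x2e0000003f0000001c0000007c0000001e00000014 6 7) 0 0 (step_sound _ 131 [(rh2aee59a62cf4bfda.shift 2 0), (rh9ee3848b537ea47a.shift 1 0), rhb9fa41937b57b353] (by decide +kernel))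
noncomputable def rhc9e05e8c5c220186 : CRef := CRef.mk (Pat.mk 0x400000007000000040000000400000000 0x40000000f0000003f0000003f0000000a 6 6) 0 0 (step_sound _ 33 [rh8551c7def15ab90c, (rh932754581e0f4330.shift 1 0)] (by decide +kernel))
end Crest.Agent.S0047.Helper85.Cert
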