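import Crest.Agent.Lib.S0047.Helper85CertPL5F0
import Crest.Agent.Lib.S0047.Helper85CertPL5F1
import Crest.Agent.Lib.S0047.Helper85CertPL5F2
import Crest.Agent.Lib.S0047.Helper85CertPL5F3
import Crest.Agent.Lib.S0047.Helper85CertPL5F4
import Crest.Agent.Lib.S0047.Helper85CertPL5F5
import Crest.Agent.Lib.S0047.Helper85CertPL5F6
import Crest.Agent.Lib.S0047.Helper85CertPL5F7
import Crest.Agent.Lib.S0047.Helper85CertPL5F8
import Crest.Agent.Lib.S0047.Helper85CertPL5F9
import Crest.Agent.Lib.S0047.Helper85CertPL5F10
import Crest.Agent.Lib.S0047.Helper85CertPL5F11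
import Crest.Agent.Lib.S0047.Helper85CertPL5F12
set_option autoImplicit false
set_option linter.all false
set_option Elab.async false
namespace Crest.Agent.S0047.Helper85.Cert
open Crest.Agent.S0047.Helper85

noncomputable def rh7a8e613d62c0f646 : CRef := CRef.mk (Pat.mk 0x180000000e000000080000000800000000 0x180000003e0000003f0000003800000018 6 6) 0 0 (step_sound _ 100 [(rh71222050f2c63a3a.shift 3 0), rhe0caeaaed2cc2a46] (by decide +kernel))
noncomputable def rh3eceba3aef67c572 : CRef := CRef.mk (Pat.mk 0x180000000e000000000000000800000000 0x20000001b0000003e000000370000001c0000001c 6 6) 0 0 (step_sound _ 100 [rh2395824d1086e2bc, (rhdc461deccfb05432.shift 1 0)] (by decide +kernel))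
noncomputable def rh7c1dd581443dfb34 : CRef := CRef.mk (Pat.mk 0x10000000380000000800000000 0x1000000010000000770000003e0000006f00000020 6 7) 0 0 (step_sound _ 132 [(rh5c5e593799055d58.shift 3 1), rhc83b743fb6d2ae41] (by decide +kernel))
noncomputable def rhe321239d3d47cfe9 : CRef := CRef.mk (Pat.mk 0x1c00000006000000020000000000000000 0x80000000a0000001e0000007e000000370000001600000006 6 7) 0 0 (step_sound _ 33 [(rh71222050f2c63a3a.shift 1 0), rhedc8dfbd0c3d386f] (by decide +kernel))
noncomputable def rhe17f4a0f602c3c7b : CRef := CRef.mk (Pat.mk 0x8000000180000000e00000008 0x170000001f0000001b0000000e0000000c 6 5) 0 0 (step_sound _ 98 [(rh50fbb5868c909700.shift 2 0), rh7331751bc9f266c3] (by decide +kernel))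
noncomputable def rh179cbe3413af9534 : CRef := CRef.mk (Pat.mk 0x1c000000060000000000000000 0xa0000000b0000001f0000003e0000003400000014 6 6) 0 0 (step_sound _ 97 [rh014abbda9a411227, rh38a0850c9fea941e] (by decide +kernel))
noncomputable def rh62bedccac9e3447c : CRef := CRef.mk (Pat.mk 0x100000001c000000080000000800000000 0x80000000c0000000f0000001f0000001c0000001c0000000c00000004 6 5) 0 0 (step_sound _ 131 [(rh1b49a77e883412ed.shift 2 1), rh795a9fa361f5265f, (rh933f3ac7d57d09d8.shift 2 1), (rhea90e7358341a1a4.shift 2 0)] (by decide +kernel))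
noncomputable def rh1161648d801f326c : CRef := CRef.mk (Pat.mk 0x1c00000006000000020000000000000000 0x80000000b0000001e000000fe000000330000001300000003 6 8) 0 0 (step_sound _ 33 [(rh71222050f2c63a3a.shift 1 0), rhfec133a36871c8e5] (by decide +kernel))
noncomputable def rhdeec00bf23ba665b : CRef := CRef.mk (Pat.mk 0x100000007800000018 0x1c0000001f0000003c0000007800000018 6 7) 0 0 (step_sound _ 100 [(rh5c5e593799055d58.shift 3 0), rhd4c5dae9d2c4e3de] (by decide +kernel))
noncomputable def rh3d966c484d3047ec : CRef := CRef.mk (Pat.mk 0x1000000070000000180000000000000000 0x3e0000007f000000f80000000c0000000c 6 8) 0 0 (step_sound _ 99 [(rh2c1f485dedae8cc7.shift 2 0), (rh2e8757b28c0e6a24.shift 2 0), (rh4c11c491f4d8ec0e.shift 2 0), (rh719a4defb16e1b89.shift 0 2), (rhb91bd40a584180c1.shift 1 2)] (by decide +kernel))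
noncomputable def rhfbc4b01ffd2c9009 : CRef := CRef.mk (Pat.mk 0x8000000080000001c0000000600000000 0x4000000040000000c0000000c0000001f0000003e0000001a 6 6) 0 0 (step_sound _ 130 [(rh00904813ed7d9adf.shift 1 0), (rh63cf8e5b829d8217.shift 1 0), rh9aff3d982c612a4f, rhd115aebae5e58356] (by decide +kernel))
noncomputable def rhfca0af97c7bf117c : CRef := CRef.mk (Pat.mk 0x400000006000000030000000200000000 0x200000002000000020000000600000007000000070000001f0000001d 6 5) 0 0 (step_sound _ 129 [rh03dfdf12d5937476, rh1f31a35375523519, rh59a8450f63fdff62, rh871caa7606de9ca4] (by decide +kernel))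
noncomputable def rhe69fbb1d8ea20f26 : CRef := CRef.mk (Pat.mk 0x2000000060000000300000000000000000000000000000000 0x60000000600000006000000070000001e0000000f0000000700000001 6 5) 0 0 (step_sound _ 97 [(rh94a24b8486b76775.shift 0 2), rha52e1acf7ed5511e, (rha707fb719e87fe6e.shift 1 2)] (by decide +kernel))
noncomputable def rhaa28633299e621d2 : CRef := CRef.mk (Pat.mk 0x380000000c000000040000000400000000 0x160000003e0000000c0000000f0000003c00000018 6 6) 0 0 (step_sound _ 130 [(rh5fa41af95dbdc841.shift 1 0), (rha25c0e62bb8d55c9.shift 1 1), rhd8d5fbf074709d68] (by decide +kernel))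
noncomputable def rh6dbf1b18c8d401d8 : CRef := CRef.mk (Pat.mk 0x1c000000060000000000000000 0xa0000000b0000001f0000003e0000003400000014 6 6) 0 0 (step_sound _ 97 [rh014abbda9a411227, rh38a0850c9fea941e, rh6d0ba9be14fe2c22] (by decide +kernel))
noncomputable def rh09bd7677da36368a : CRef := CRef.mk (Pat.mk 0x8000000180000000c000000040000000000000000 0x10000000370000001f0000001c0000000c0000001c0000001800000010 6 6) 0 0 (step_sound _ 162 [(rh668fc65514a55b16.shift 2 1), (rh6d7e9fbf5dfafd17.shift 2 0), (rh7f8afeb5f6471ba5.shift 0 2)] (by decide +kernel))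
noncomputable def rh0666d2850a7e73fb : CRef := CRef.mk (Pat.mk 0x180000000c000000040000000000000000 0x160000001f0000003c0000000c0000000c0000000c 6 6) 0 0 (step_sound _ 34 [rh5a6d143fb6bea8d3, (rh71222050f2c63a3a.shift 2 0)] (by decide +kernel))
noncomputable def rh1894d76e388c98c9 : CRef := CRef.mk (Pat.mk 0x1c000000060000000000000000 0x6000000070000001f0000003e0000000700000006 6 6) 0 0 (step_sound _ 97 [rh38a0850c9fea941e, rhe15dbef4916f64a8] (by decide +kernel))
noncomputable def rhfee1f5781385f2b4 : CRef := CRef.mk (Pat.mk 0x1c00000006000000020000000000000000 0x60000000f0000001e000000060000000e0000000c00000008 6 5) 0 0 (step_sound _ 162 [rh0dd2dbda54561bd4, (rh5c5e593799055d58.shift 1 2)] (by decide +kernel))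
noncomputable def rh0575a50b84c01a1d : CRef := CRef.mk (Pat.mk 0x2000000038000000000000000000000000 0x28000000280000002f000000fc000000fc0000005000000050 6 8) 0 0 (step_sound _ 68 [(rh2cb8437104de90cf.shift 2 0), rh5425f6111a084d6f, (rhcf80391c5046a495.shift 4 0)] (by decide +kernel))
noncomputable def rh6de024799294623a : CRef := CRef.mk (Pat.mk 0x1c00000006000000020000000200000000 0xa0000000a0000003a0000001f00000036000000170000000700000005 6 6) 0 0 (step_sound _ 129 [(rh52b4b7b516a7d39e.shift 0 2), (rh8af9a32e61457eb0.shift 1 0), rhea90e7358341a1a4] (by decide +kernel))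
noncomputable def rh7b3bc7d3f77d4a5c : CRef := CRef.mk (Pat.mk 0x300000001c00000008000000080000000000000000 0x28000000380000003c0000007f0000001e0000001400000010 6 7) 0 0 (step_sound _ 68 [(rh4c54db11513e1664.shift 1 1), (rh828fef42727e7be2.shift 3 0), (rhaafc3380287f21c8.shift 0 1)] (by decide +kernel))
noncomputable def rh9f95a4893a59ffd8 : CRef := CRef.mk (Pat.mk 0xc00000006000000020000000200000000 0x80000000a0000003f0000003e000000370000001600000004 6 6) 0 0 (step_sound _ 132 [(rh18965a982d73c794.shift 1 3), rh2bc88489005fb725] (by decide +kernel))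
noncomputable def rhbacc68d31d880dc8 : CRef := CRef.mk (Pat.mk 0x40000000e0000000000000000 0x8000000080000003f0000003f0000003000000010 6 6) 0 0 (step_sound _ 68 [rh2fa8a6cd8a03c75c, (rhe3060b190bc0bc78.shift 0 2)] (by decide +kernel))
noncomputable def rh330b16ba751acf03 : CRef := CRef.mk (Pat.mk 0x8000000080000001c0000000c00000000 0x140000003c0000000f0000001c0000000f00000002 6 6) 0 0 (step_sound _ 130 [(rh50fbb5868c909700.shift 2 1), rh633234b1529667bd] (by decide +kernel))
noncomputable def rh80440540cd0677e3 : CRef := CRef.mk (Pat.mk 0x2000000060000000300000001000000000000000000000000 0x40000000600000006000000070000001f0000001e0000000600000002 6 5) 0 0 (step_sound _ 97 [rh270502ca45ea5299, (rh3901d8753ad0f7b0.shift 0 2), (rha707fb719e87fe6e.shift 1 2)] (by decide +kernel))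
noncomputable def rh8e4914ba2c9c8fae : CRef := CRef.mk (Pat.mk 0x300000001c000000080000000800000000 0x28000000380000001c0000007f0000007e00000034 6 7) 0 0 (step_sound _ 36 [(rh4c54db11513e1664.shift 1 0), (rhade1ea1e06278213.shift 1 0), rhf19240af8a218f1b] (by decide +kernel))
noncomputable def rh918df42766b3dc05 : CRef := CRef.mk (Pat.mk 0x3000000018000000080000000800000000 0x800000008000000e8000000ff000000380000001c0000001c00000014 6 8) 0 0 (step_sound _ 134 [(rh18965a982d73c794.shift 3 3), rh1f05c54e0fe49b01] (by decide +kernel))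
noncomputable def rhb865e6f1f55a516d : CRef := CRef.mk (Pat.mk 0x1000000010000000180000000c0000000000000000 0x2000000032000000330000001f0000003f0000003400000004 6 6) 0 0 (step_sound _ 65 [(rh53b3c253cb0c65f4.shift 0 2), rh77ca8ee4662eb9d1] (by decide +kernel))
noncomputable def rh5afa89dd5ae5a6a3 : CRef := CRef.mk (Pat.mk 0x1000000010000000180000000c0000000000000000 0x10000000370000007e0000007c0000002000000020 6 7) 0 0 (step_sound _ 101 [(rh18965a982d73c794.shift 2 2), rhfefa827a49a86663] (by decide +kernel))
noncomputable def rhc71ed80c6d39935c : CRef := CRef.mk (Pat.mk 0xc0000000c000000040000000400000000 0xc0000000c0000003f0000003f0000001a 6 6) 0 0 (step_sound _ 35 [rh39618165250b6639, (rh55afc6a59410cf00.shift 2 0)] (by decide +kernel))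
noncomputable def rh3819574e7abfcf00 : CRef := CRef.mk (Pat.mk 0x80000000c000000060000000400000000 0x140000003c0000000f0000000e0000003e0000003a 6 6) 0 0 (step_sound _ 130 [(rh03dfdf12d5937476.shift 1 0), (rh59a8450f63fdff62.shift 1 0), rh60f7890073fd1121] (by decide +kernel))
noncomputable def rhc886e0bd1091b731 : CRef := CRef.mk (Pat.mk 0x8000000080000001c0000000600000000 0x140000003c0000003f0000001f0000000e0000000a 6 6) 0 0 (step_sound _ 35 [(rh18b49738f4e5d343.shift 1 0), rh64d618d94720dd56, rh6dc2d17b5ce1ca6f] (by decide +kernel))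
noncomputable def rh319c9ab56b78524b : CRef := CRef.mk (Pat.mk 0x1000000010000000180000000e0000000000000000 0x80000001a0000003b0000001f0000001e0000003400000014 6 6) 0 0 (step_sound _ 68 [(rh18b49738f4e5d343.shift 2 1), rh7e24dc22889eb307, (rhea719cc8bd0bdd28.shift 1 0)] (by decide +kernel))
noncomputable def rhff8c1deb1528563d : CRef := CRef.mk (Pat.mk 0x18000000180000000000000010 0xe0000000ff0000001f0000001000000010 6 8) 0 0 (step_sound _ 101 [(rh2612b4f73ba7c3b3.shift 2 2), (rh74a6aee65c0931d4.shift 2 0), rhdcb8db7164d7cf95] (by decide +kernel))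
noncomputable def rhc8ea033e74846b4d : CRef := CRef.mk (Pat.mk 0x2000000070000000180000000000000000 0xe70000007f000000f8000000c0000000c0 6 8) 0 0 (step_sound _ 99 [(rh04adde65229dd8ca.shift 0 2), (rh591174ba4683a07b.shift 3 0), (rhec46bd5500c722c9.shift 2 3)] (by decide +kernel))
noncomputable def rh666c17c3a105f89d : CRef := CRef.mk (Pat.mk 0x10000000180000000e000000080000000000000000 0x20000003b0000001f0000003e0000000f0000000400000004 6 6) 0 0 (step_sound _ 129 [rh0aef863016e27e3f, (rh5ccb20250d808703.shift 0 3), (rh9458e878ee940312.shift 0 1)] (by decide +kernel))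
noncomputable def rh4b6036967ef98d02 : CRef := CRef.mk (Pat.mk 0x380000000c000000040000000400000000 0x1000000010000000740000003e0000006c0000003c0000000f0000000a 6 7) 0 0 (step_sound _ 130 [(rh52b4b7b516a7d39e.shift 1 2), rh85480f11efc1e555, (rh8af9a32e61457eb0.shift 2 0)] (by decide +kernel))
noncomputable def rh3089f6d5972dcb5f : CRef := CRef.mk (Pat.mk 0x4000000040000001e000000000000000000000000 0xc0000003c0000001f000000380000001800000010 6 6) 0 0 (step_sound _ 132 [(rh33e738c4ed385b9f.shift 1 3), rhb67c358f306a3b92] (by decide +kernel))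
noncomputable def rh1c6992370cc0e568 : CRef := CRef.mk (Pat.mk 0x1c000000060000000200000000 0x800000008000000380000001f0000003e0000003300000010 6 6) 0 0 (step_sound _ 68 [(rh7fd50e698048e434.shift 0 1), (rhbd9ac79c87120162.shift 0 1), rhe1c545a0fa7090aa] (by decide +kernel))
noncomputable def rhe4c30be5df13bc4e : CRef := CRef.mk (Pat.mk 0x40000000e000000120000000200000000 0x10000000340000003f0000001e0000000b00000008 6 6) 0 0 (step_sound _ 67 [(rhb739f4f82bb681b4.shift 0 2), rhff20438b4e06ee6b] (by decide +kernel))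
noncomputable def rh3bf74083946431af : CRef := CRef.mk (Pat.mk 0x80000001e000000040000000000000000 0x380000001e0000003f0000003000000030 6 6) 0 0 (step_sound _ 65 [(rh591174ba4683a07b.shift 1 0), (rheb0810cc63b001d8.shift 0 2)] (by decide +kernel))
noncomputable def rh03bd3de0eda75619 : CRef := CRef.mk (Pat.mk 0x180000000c00000008 0x38000000ff0000007c 6 8) 0 0 (step_sound _ 33 [(rh53b3c253cb0c65f4.shift 0 1), (rhb2da1ef9c38d509e.shift 1 0)] (by decide +kernel))
noncomputable def rh98d65cdc36505530 : CRef := CRef.mk (Pat.mk 0x10000000180000000e0000000800000000 0x2000000330000001f0000007e0000007e00000004 6 7) 0 0 (step_sound _ 97 [(rh9160f25ba4516b22.shift 0 2), rh9458e878ee940312, (rhe618501621ff0080.shift 0 1)] (by decide +kernel))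
noncomputable def rh3d75f1cd389178d2 : CRef := CRef.mk (Pat.mk 0x80000001c000000000000000400000000 0x1000000010000000780000003f000000f00000003e00000010 6 8) 0 0 (step_sound _ 69 [(rh0deb2ebc850de581.shift 1 1), (rh18b31825f45c624c.shift 1 0), (rh816fd429a35c92eb.shift 0 2)] (by decide +kernel))
noncomputable def rh71a719594bdd40c9 : CRef := CRef.mk (Pat.mk 0x80000001e000000040000000400000000 0x380000001e000000370000003c00000018 6 6) 0 0 (step_sound _ 65 [(rh04dfafbbc53b0235.shift 1 0), (rheb0810cc63b001d8.shift 0 2)] (by decide +kernel))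
noncomputable def rhf16243a582e814d0 : CRef := CRef.mk (Pat.mk 0x2000000070000000180000000000000000 0x80000001fe0000007f000000f8000000c0000000c0 6 9) 0 0 (step_sound _ 70 [(rh237a84ba5dbe676e.shift 3 0), (rh6a6124da44f8db30.shift 0 2)] (by decide +kernel))
noncomputable def rh9317a75fc3e7942a : CRef := CRef.mk (Pat.mk 0x10000000180000000c0000000000000000 0x8000000380000001f0000003f0000003000000010 6 6) 0 0 (step_sound _ 65 [(rh53b3c253cb0c65f4.shift 0 2), rhe81d91ee00a78f19] (by decide +kernel))
noncomputable def rh1c4cd3fac6d3efa9 : CRef := CRef.mk (Pat.mk 0x100000003800000008 0x1ff000000fe00000018 6 9) 0 0 (step_sound _ 34 [(rhda8c3feb570db0ed.shift 1 0), (rhec46bd5500c722c9.shift 1 1), (rhedf6b6c69a16cbd5.shift 0 1)] (by decide +kernel))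
noncomputable def rh215100e56218fee0 : CRef := CRef.mk (Pat.mk 0x2000000020000000700000000000000000 0x20000003f7000001fe000001c000000040 6 10) 0 0 (step_sound _ 67 [(rh3e0b38310ac09007.shift 0 2), (rh625dde73e665edc8.shift 3 0), (rh84d1614f5efa9132.shift 3 1)] (by decide +kernel))
noncomputable def rh5a5cd9831802d595 : CRef := CRef.mk (Pat.mk 0x20000000e0000000300000001000000000000000000000000 0x4000000060000000e0000001f0000001f0000000e0000000600000002 6 5) 0 0 (step_sound _ 97 [rh270502ca45ea5299, (rh73959fa6e5d07721.shift 0 2), (rha707fb719e87fe6e.shift 1 2)] (by decide +kernel))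
noncomputable def rh7fe3492cea4537f2 : CRef := CRef.mk (Pat.mk 0x180000000e000000080000000000000000 0x20000001f000000fe0000007f0000003400000034 6 8) 0 0 (step_sound _ 100 [rh2395824d1086e2bc, (rh76c4edc656936505.shift 1 2), (rhc6919780d26a686c.shift 1 2), rhd3114851a34382be] (by decide +kernel))
noncomputable def rhfde4504912ed06e9 : CRef := CRef.mk (Pat.mk 0x80000001c00000006000000040000000000000000 0x30000000780000001c0000003e0000003f0000003b00000002 6 7) 0 0 (step_sound _ 68 [(rh360528347e85c5eb.shift 1 1), (rh3be6b8746885e3c9.shift 0 1), (rhb7fba35336b57849.shift 1 1), rhc230ec5214fef044, rhe6760eaa6d926ed2, (rhf324027211bf676f.shift 1 1)] (by decide +kernel))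
noncomputable def rh5e7c67d352405b25 : CRef := CRef.mk (Pat.mk 0x400000004000000060000000e00000000 0x80000000c0000000c0000003e0000003f00000014 6 6) 0 0 (step_sound _ 36 [(rhf48373e13d2bc128.shift 1 1), rhfdc89832195f21de] (by decide +kernel))
noncomputable def rh396d0adbd703d7e4 : CRef := CRef.mk (Pat.mk 0x2000000020000000600000001000000000000000000000000 0x100000003000000070000000600000003000000070000000600000004 6 3) 0 0 (step_sound _ 97 [rh4a2ef90436fa9e13, (rh932754581e0f4330.shift 0 2)] (by decide +kernel))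
noncomputable def rha23bba51f338174f : CRef := CRef.mk (Pat.mk 0x200000003000000020000000600000000000000000000000000000000 0x200000003000000070000000700000003000000070000000600000004 6 3) 0 0 (step_sound _ 96 [(rh79877ebd3ef475dd.shift 0 3), rh94bb082dd5ee462f] (by decide +kernel))
noncomputable def rhb443311ceff62241 : CRef := CRef.mk (Pat.mk 0x4000000070000000400000000 0x20000000e0000000e0000000c00000006000000070000001e0000000a 6 5) 0 0 (step_sound _ 130 [(rh03dfdf12d5937476.shift 1 0), (rh4e2df8342d3b8ae8.shift 1 1), rhb379f99078aafa2d] (by decide +kernel))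
noncomputable def rh0f7b295fa42b5ad9 : CRef := CRef.mk (Pat.mk 0x20000000e000000030000000200000000 0x60000000e0000001b0000001f0000001d 6 5) 0 0 (step_sound _ 32 [rh7878b592544d766e, rh932754581e0f4330] (by decide +kernel))
noncomputable def rh032c4d50367731b9 : CRef := CRef.mk (Pat.mk 0x800000000000000080000000c00000000 0x140000003c0000000f000000080000000c0000000c 6 6) 0 0 (step_sound _ 99 [rh5ee4dc8825dcefa0, (rh932754581e0f4330.shift 2 0)] (by decide +kernel))
noncomputable def rhf2f5353cefd64781 : CRef := CRef.mk (Pat.mk 0x4000000000000001c000000060000000000000000 0x600000016000000330000001f0000003e0000000800000008 6 6) 0 0 (step_sound _ 97 [(rh075c58b8bd52f215.shift 0 2), rhb32eb569dfc388a6, (rhc6719c6594e47b00.shift 0 2)] (by decide +kernel))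
noncomputable def rh30eead4f93c45fe5 : CRef := CRef.mk (Pat.mk 0x8000000380000000c00000004 0x6000000060000007f0000003f0000007c00000006 6 7) 0 0 (step_sound _ 66 [(rh06d16ed1005b3fa2.shift 0 1), (rh2e2af70cc0a250e3.shift 1 1), (rhf6d72ac90bd26cb0.shift 1 0)] (by decide +kernel))
noncomputable def rh554c4947818a8194 : CRef := CRef.mk (Pat.mk 0x1c00000006000000020000000000000000 0x1b0000001f00000006000000060000000600000006 6 5) 0 0 (step_sound _ 33 [rh545f33f89a0e23f3, (rh71222050f2c63a3a.shift 1 0)] (by decide +kernel))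
noncomputable def rhefc19156479587bf : CRef := CRef.mk (Pat.mk 0x8000000380000000c 0x6000000060000007f0000003f0000003c 6 7) 0 0 (step_sound _ 34 [rh06d16ed1005b3fa2, rh1b1a23e58c3e6ec7, (rh2e2af70cc0a250e3.shift 1 0)] (by decide +kernel))
noncomputable def rh74a18107f883cfbf : CRef := CRef.mk (Pat.mk 0x80000000c000000040000000400000000 0x160000003f0000003f0000000c0000000c00000008 6 6) 0 0 (step_sound _ 130 [rh60f7890073fd1121, (rhcf85c92937975d4d.shift 0 1)] (by decide +kernel))
noncomputable def rh3fbce860eb325a88 : CRef := CRef.mk (Pat.mk 0x1e0000000800000008 0x600000006000000070000001e0000000f0000000e 6 5) 0 0 (step_sound _ 33 [rh4e0ac0a5983dd3f3, (rheb0810cc63b001d8.shift 0 1)] (by decide +kernel))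
noncomputable def rh2d53eb287251b0cc : CRef := CRef.mk (Pat.mk 0x100000001e000000080000000800000000 0xe0000001f0000001f0000000c0000000c00000004 6 5) 0 0 (step_sound _ 131 [(rh53b3c253cb0c65f4.shift 0 3), rha7e1652142e422b1] (by decide +kernel))
noncomputable def rh432e7a57149506a9 : CRef := CRef.mk (Pat.mk 0x400000006800000020 0xce0000007e00000037 6 8) 0 0 (step_sound _ 36 [(rh33e738c4ed385b9f.shift 3 1), rheaad777ed634577b] (by decide +kernel))
noncomputable def rh697fdbd0ba0c1e86 : CRef := CRef.mk (Pat.mk 0x100000001a000000080000000800000000 0xc0000001f0000001b0000000f0000003c00000014 6 6) 0 0 (step_sound _ 131 [(rh9cac931137f1cfa0.shift 0 1), rhf3d11b058448e968] (by decide +kernel))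
noncomputable def rhfe259234e30bd7b9 : CRef := CRef.mk (Pat.mk 0x10000000180000000e00000000 0x3000000030000000300000001f0000003e00000030 6 6) 0 0 (step_sound _ 132 [(rh5c5e593799055d58.shift 3 1), rh99727ca548624604] (by decide +kernel))
noncomputable def rh7e7fac54213cac0d : CRef := CRef.mk (Pat.mk 0x1c0000000600000000 0x800000008000000380000001f0000003700000010 6 6) 0 0 (step_sound _ 65 [rh27d95a0f8f38f55d, (rheb0810cc63b001d8.shift 0 1)] (by decide +kernel))
noncomputable def rha9fbbccb8121e0ea : CRef := CRef.mk (Pat.mk 0x8000000380000000c 0x6000000060000007f0000003f0000003c 6 7) 0 0 (step_sound _ 34 [rh06d16ed1005b3fa2, rh1b1a23e58c3e6ec7, (rh2e2af70cc0a250e3.shift 1 0), rhb91bd40a584180c1, (rhbe7d67620aa16c02.shift 1 0)] (by decide +kernel))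
noncomputable def rha1c0c5973502d766 : CRef := CRef.mk (Pat.mk 0x8000000080000000c00000006000000000000000000000000 0x140000003c0000001f0000000c0000000e0000001a0000001800000018 6 6) 0 0 (step_sound _ 99 [(rh18b49738f4e5d343.shift 1 2), (rh5368599ec0d58b94.shift 0 2), (rh82c6aec0c6f8e399.shift 2 0)] (by decide +kernel))
noncomputable def rhf90b76c3b4064fa5 : CRef := CRef.mk (Pat.mk 0x8000000180000000e0000000400000000 0x160000001f0000001c0000003e0000000f0000000a 6 6) 0 0 (step_sound _ 130 [(rh3289262d1f59fe3a.shift 2 0), (rh668fc65514a55b16.shift 2 0), rha9a399fcc318c7ca, rhf02f8247f0f734df] (by decide +kernel))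
noncomputable def rh381eba643e8c60c0 : CRef := CRef.mk (Pat.mk 0x180000000e000000040000000400000000 0x140000001c0000003e0000003f0000000f0000000a 6 6) 0 0 (step_sound _ 130 [(rh8af9a32e61457eb0.shift 2 0), rh9ea2c81e76b264de, rh9ee3848b537ea47a] (by decide +kernel))
noncomputable def rh088f2c5c82ce5e0b : CRef := CRef.mk (Pat.mk 0x300000001c000000080000000800000000 0x28000000380000003c0000001f0000007c00000034 6 7) 0 0 (step_sound _ 36 [(rh0b48232756d2831b.shift 1 0), (rh10a6a2f52f973296.shift 3 0), rhaafc3380287f21c8] (by decide +kernel))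
noncomputable def rh971458ad582380d3 : CRef := CRef.mk (Pat.mk 0x80000000c000000070000000400000000 0x400000006000000060000000e0000000e0000000f0000003c00000008 6 6) 0 0 (step_sound _ 35 [(rh307e87dde5ddcd87.shift 1 0), (rh4a0b10776449c3e9.shift 0 1), rh9c1d2b0fc40551bc] (by decide +kernel))
noncomputable def rh2e372166b84f0c01 : CRef := CRef.mk (Pat.mk 0x400000004000000060000000200000000 0xa0000000f0000003c000000070000003e0000000c 6 6) 0 0 (step_sound _ 34 [rh305945700f20b255, rh36d4d92ef3dad5f8] (by decide +kernel))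
noncomputable def rhf4adb36452132a6b : CRef := CRef.mk (Pat.mk 0x180000000e000000000000000000000000 0x8000000080000001c000000fe000000f70000001400000014 6 8) 0 0 (step_sound _ 100 [(rha1eb337eeb07c2e7.shift 0 2), (rhbbe16ff26f7822db.shift 1 0), rhd480d351d67fd626] (by decide +kernel))
noncomputable def rh4c71a0eeb98d1be3 : CRef := CRef.mk (Pat.mk 0x180000000c000000040000000400000000 0x600000006000000160000001c0000000c0000000f0000003e0000001a 6 6) 0 0 (step_sound _ 130 [(rh0ef6c71ce89c1c36.shift 1 0), (rh8af9a32e61457eb0.shift 2 0), rhd8d5fbf074709d68, (rhea90e7358341a1a4.shift 1 0)] (by decide +kernel))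
noncomputable def rh162287c6dc0167ae : CRef := CRef.mk (Pat.mk 0x180000000e000000000000000000000000 0x80000000800000018000000fe000000ff0000001400000014 6 8) 0 0 (step_sound _ 100 [rh9cf1eae2eabf38ec, (rha1eb337eeb07c2e7.shift 0 2), (rhbbe16ff26f7822db.shift 1 0)] (by decide +kernel))
noncomputable def rhaa2bc8797b233c92 : CRef := CRef.mk (Pat.mk 0x80000001c000000060000000000000000 0x80000000a0000003b0000001e000000360000001400000004 6 6) 0 0 (step_sound _ 163 [(rh5c5e593799055d58.shift 2 2), rhb3ca9c7a749fe5c4] (by decide +kernel))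
noncomputable def rh17f2cb9c16b8ffd4 : CRef := CRef.mk (Pat.mk 0x100000003c0000000c00000000 0xe0000000f0000001e0000003c0000000c00000004 6 6) 0 0 (step_sound _ 98 [(rh3244c3cc8379b070.shift 1 2), rhf833c098ea508add] (by decide +kernel))
noncomputable def rhff27b6f8ca86d3c1 : CRef := CRef.mk (Pat.mk 0x80000001e00000006 0xe0000000f0000003b0000001e00000006 6 6) 0 0 (step_sound _ 65 [(rh3244c3cc8379b070.shift 0 1), rh7dfa6a80bc594bea] (by decide +kernel))
noncomputable def rhc4542b26a6e488b6 : CRef := CRef.mk (Pat.mk 0x180000000e0000000400000000 0xe0000000f0000001c0000000e0000003c00000018 6 6) 0 0 (step_sound _ 131 [(rh5c5e593799055d58.shift 2 1), rh9865a5c7b7f92d07] (by decide +kernel))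
noncomputable def rha61ca71592d97c28 : CRef := CRef.mk (Pat.mk 0xc00000003000000000 0xe70000007e00000007 6 8) 0 0 (step_sound _ 35 [(rh3fc040e777f1679e.shift 3 1), rh5e601430b8bc2e39] (by decide +kernel))
noncomputable def rh2a73e6f81eb3e7c9 : CRef := CRef.mk (Pat.mk 0x8000000080000001c000000060000000000000000 0x140000001c0000003c0000001f0000001e0000001b00000018 6 6) 0 0 (step_sound _ 67 [(rh18b49738f4e5d343.shift 1 1), (rh192f0eca9832e096.shift 0 1), (rhc25035b08412a6a9.shift 2 0), (rhccafeca2f846e991.shift 0 1)] (by decide +kernel))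
noncomputable def rhb74acadce6161004 : CRef := CRef.mk (Pat.mk 0x380000000c00000004000000000000000000000000 0xc0000000f0000003c0000001c0000001c000000180000001800000008 6 6) 0 0 (step_sound _ 195 [(rh5c5e593799055d58.shift 2 3), rh950c9c2678b6fbe4] (by decide +kernel))
noncomputable def rh1189b330fa8e592a : CRef := CRef.mk (Pat.mk 0x20000000200000007000000018 0x180000003c000000fe0000007f00000018 6 8) 0 0 (step_sound _ 35 [rh14b7f29a2029f50d, (rh503775339733bab1.shift 1 1), (rh6484072c26d7de2a.shift 2 0), (rhec46bd5500c722c9.shift 2 1)] (by decide +kernel))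
noncomputable def rh40775cbd52b1a2fb : CRef := CRef.mk (Pat.mk 0x80000001c000000060000000000000000 0xc0000001c0000001c0000001c0000001e0000001b00000018 6 5) 0 0 (step_sound _ 163 [(rh5c5e593799055d58.shift 2 2), rh8a39bdc8ad2acd5a] (by decide +kernel))
noncomputable def rhc88b8aa05794a975 : CRef := CRef.mk (Pat.mk 0x80000000c00000006000000040000000000000000 0x400000004000000040000000c0000000e0000000e0000003e0000003b00000002 6 6) 0 0 (step_sound _ 67 [rh40cebeb7560cce52, (rhb23658ecdd7ce5df.shift 1 1), (rhfc3c7f9e1207403c.shift 1 1)] (by decide +kernel))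
noncomputable def rh95db9b212aee88fa : CRef := CRef.mk (Pat.mk 0x8000000080000000c00000006000000000000000000000000 0x140000001e0000007c0000000f0000001e0000001b0000000200000002 6 7) 0 0 (step_sound _ 99 [(rh305945700f20b255.shift 1 2), rhb7c7b21df561be2e] (by decide +kernel))
noncomputable def rh8c52e9bbfbd74d41 : CRef := CRef.mk (Pat.mk 0xe00000007000000000000000000000000 0x60000000e0000000e000000070000001f0000000f00000007 6 5) 0 0 (step_sound _ 66 [(rh261f868a429ae0e3.shift 1 1), rh27c37e65908f58a5, (rhb0c1e7919d9be92d.shift 1 0)] (by decide +kernel))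
noncomputable def rhab489e6ac6decd54 : CRef := CRef.mk (Pat.mk 0x100000001c000000080000000800000000 0x8000000080000000f0000001f0000001c0000007c0000001e00000014 6 7) 0 0 (step_sound _ 131 [(rh9007493f1908044a.shift 2 0), (rhb9d7bcc4b554fedb.shift 2 0), rhb9fa41937b57b353, rhf3711a81227b0b0c, (rhf6e61450d4452d7e.shift 1 0)] (by decide +kernel))
noncomputable def rh86479e1b3d0cd974 : CRef := CRef.mk (Pat.mk 0x10000000300000001c0000000800000000 0xc0000003e0000003c0000001c0000001f00000012 6 6) 0 0 (step_sound _ 131 [rh2de1ac2dd8f67323, (rh3289262d1f59fe3a.shift 3 0), (rh3cb659a608caaffd.shift 1 1)] (by decide +kernel))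
noncomputable def rh4c77a44f4dfc786a : CRef := CRef.mk (Pat.mk 0x1c0000000c000000000000000000000000 0x180000003a0000001f0000000c0000000c0000000c0000000c 6 6) 0 0 (step_sound _ 66 [(rh79ac4757f7fcfa7a.shift 1 0), (rhaab0b73245454834.shift 0 1), (rhea7a1800d6f053bd.shift 2 0)] (by decide +kernel))
noncomputable def rhc6b5238b7bd0da34 : CRef := CRef.mk (Pat.mk 0x800000038000000180000000000000000 0x20000000200000007f0000003f000000180000001000000010 6 7) 0 0 (step_sound _ 36 [(rh3613b53cff55a6f8.shift 0 1), (rh7b1f1fb55310c477.shift 3 0)] (by decide +kernel))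
noncomputable def rh2f80e743a550871e : CRef := CRef.mk (Pat.mk 0x80000003800000018000000000000000000000000 0x40000000f0000003c000000180000001c0000001c0000000c 6 6) 0 0 (step_sound _ 68 [rh5ab55df6f8312b9a, (rh7b1f1fb55310c477.shift 3 1)] (by decide +kernel))
noncomputable def rh1a38eeb598ba0370 : CRef := CRef.mk (Pat.mk 0x180000001c000000080000000000000000 0xe0000001f0000001c0000000c0000000c0000000c 6 5) 0 0 (step_sound _ 35 [(rh71222050f2c63a3a.shift 3 0), rhb9fa41937b57b353] (by decide +kernel))
noncomputable def rh6ec3f96ad4c823c1 : CRef := CRef.mk (Pat.mk 0x180000000c000000040000000000000000 0x1c0000001f0000003c0000000c0000001c0000001800000010 6 6) 0 0 (step_sound _ 163 [rh52ecb6ff62bbb0f9, (rh5c5e593799055d58.shift 2 2)] (by decide +kernel))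
noncomputable def rh06d571041eea8319 : CRef := CRef.mk (Pat.mk 0xc00000006000000020000000000000000 0x10000001b0000001f00000006000000070000000700000007 6 5) 0 0 (step_sound _ 33 [(rh71222050f2c63a3a.shift 1 0), rh7f2d57148fa97479] (by decide +kernel))
noncomputable def rh61a0afaa4c429871 : CRef := CRef.mk (Pat.mk 0x40000001c0000000c00000000 0x1c0000003c0000000f0000001c0000000c00000004 6 6) 0 0 (step_sound _ 130 [(rh2145e1d24b96a57e.shift 2 1), rh5de6bdf93c36c3fe] (by decide +kernel))
noncomputable def rhb96292f1bbcdc2a0 : CRef := CRef.mk (Pat.mk 0x80000000e0000000400000004 0xa0000000a0000003b0000001e0000003600000014 6 6) 0 0 (step_sound _ 131 [(rh5c5e593799055d58.shift 2 1), rhd8d01b3d400f86de] (by decide +kernel))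
noncomputable def rh210d2c77fba31815 : CRef := CRef.mk (Pat.mk 0x40000000400000007000000020000000000000000 0x80000000c0000003c0000000f0000001e0000000c00000008 6 6) 0 0 (step_sound _ 67 [rh559bc5fce6bebed1, (rhc1047a5b5ab10860.shift 0 1), (rhd5041491555e8d86.shift 0 2), (rhf727a68250e6ca98.shift 0 1)] (by decide +kernel))
noncomputable def rh48663a964d8ed04b : CRef := CRef.mk (Pat.mk 0x1c0000000c000000000000000000000000 0x180000001e0000001f0000001c0000000c0000001c0000001c00000018 6 5) 0 0 (step_sound _ 67 [(rh0656236c7a8f2718.shift 0 1), (rh261f868a429ae0e3.shift 2 1), (rh267543c1c418c231.shift 2 0)] (by decide +kernel))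
noncomputable def rh8d1d199cbae44389 : CRef := CRef.mk (Pat.mk 0x8000000180000001c0000000400000000 0x20000000f0000001f0000001e0000003400000010 6 6) 0 0 (step_sound _ 36 [(rh7b1f1fb55310c477.shift 3 0), (rhaad04ec8f0d71d65.shift 0 1)] (by decide +kernel))
noncomputable def rh659706c803df13e0 : CRef := CRef.mk (Pat.mk 0xa0000000e0000000000000000 0x10000000300000003f0000003e0000000800000008 6 6) 0 0 (step_sound _ 68 [(rh3244c3cc8379b070.shift 0 2), (rhcc008df404913180.shift 1 0)] (by decide +kernel))
noncomputable def rhf18d36c75f54fad3 : CRef := CRef.mk (Pat.mk 0x7000000070000000000000000 0x80000000a0000001e0000001f000000070000000400000004 6 5) 0 0 (step_sound _ 99 [(rh18965a982d73c794.shift 0 2), rhaab1ad55bf9278f3] (by decide +kernel))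
noncomputable def rh1598796c5669a2f0 : CRef := CRef.mk (Pat.mk 0x1c0000001c0000000000000000 0x20000000a0000000f0000001f0000001c0000000400000004 6 5) 0 0 (step_sound _ 97 [(rhb739f4f82bb681b4.shift 0 2), rhc8ffcd37e490e874] (by decide +kernel))
noncomputable def rh8a9e5c092d0b6b62 : CRef := CRef.mk (Pat.mk 0x400000008000000080000000e00000000 0xe0000000f0000003c0000000c0000000e00000002 6 6) 0 0 (step_sound _ 131 [rh428a599b4a33598d, (rh50fbb5868c909700.shift 2 1)] (by decide +kernel))
noncomputable def rh85cde56a0bead786 : CRef := CRef.mk (Pat.mk 0x40000000c000000080000000600000000 0x20000000f0000003e0000000f0000000600000002 6 6) 0 0 (step_sound _ 66 [(rh1673820267637e27.shift 0 1), (rh932754581e0f4330.shift 1 0)] (by decide +kernel))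
noncomputable def rhb3317b042206c76b : CRef := CRef.mk (Pat.mk 0x4000000040000000700000000000000000000000000000000 0x600000006000000070000003e0000000e0000000e00000002 6 6) 0 0 (step_sound _ 98 [(rh839bc275b7f0d03f.shift 1 0), (rhb0c6196f710d9a93.shift 0 2), (rhb379f99078aafa2d.shift 0 2), (rhd1fa8140a3eb151f.shift 1 1)] (by decide +kernel))
noncomputable def rh5ed74c04d2918c8a : CRef := CRef.mk (Pat.mk 0x80000000e000000040000000000000000 0xec0000007f0000007f0000003000000010 6 8) 0 0 (step_sound _ 100 [rh0901d4634e55bc25, (rh84d1614f5efa9132.shift 1 2), (rhaf9f2efc81a8312b.shift 0 2)] (by decide +kernel))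
noncomputable def rh447e95936c818d5f : CRef := CRef.mk (Pat.mk 0x200000002000000070000000180000000000000000 0x200000007e0000007f000000d80000004000000040 6 8) 0 0 (step_sound _ 70 [(rh08edf065357d68e5.shift 5 0), (rh6a6124da44f8db30.shift 0 2)] (by decide +kernel))
noncomputable def rh0dd47c34ad01c32f : CRef := CRef.mk (Pat.mk 0x8000000180000000800000000 0x140000001c0000003c0000000f000000180000001800000008 6 6) 0 0 (step_sound _ 131 [(rh14f80659e6313cc6.shift 3 1), (rh3da62da861143b9a.shift 2 1), rh5ee4dc8825dcefa0] (by decide +kernel))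
noncomputable def rhcf75a4798bf146fb : CRef := CRef.mk (Pat.mk 0x8000000380000000c 0xe0000000e0000007f0000003f0000007c 6 7) 0 0 (step_sound _ 34 [rh0b6df8814c803bac, (rh2e2af70cc0a250e3.shift 1 0), rh668d1876510a8d45] (by decide +kernel))
noncomputable def rh43a37e232960cba8 : CRef := CRef.mk (Pat.mk 0x8000000380000000c0000000000000000 0x6000000060000007e0000003f0000007c0000000600000004 6 7) 0 0 (step_sound _ 98 [(rh2e2af70cc0a250e3.shift 1 2), (rh4c11c491f4d8ec0e.shift 1 0), (rhe6170b0fe1a886b6.shift 0 2)] (by decide +kernel))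
noncomputable def rh6cf099189472344a : CRef := CRef.mk (Pat.mk 0x1c000000060000000000000000 0x80000000a0000003b0000001f0000003e0000001400000014 6 6) 0 0 (step_sound _ 131 [rh26a664f32f8ccb01, rh309dfb2f0d0cc90c, (rhadf429772c25fde0.shift 2 0)] (by decide +kernel))
noncomputable def rhfb2e8cad52ab7d20 : CRef := CRef.mk (Pat.mk 0x8000000080000001c0000000600000000 0x140000003c0000001f0000001c0000007e00000073 6 7) 0 0 (step_sound _ 35 [rh5368599ec0d58b94, rh622e1e57e499877e, (rh806a30ccd3d3e25c.shift 2 0)] (by decide +kernel))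
noncomputable def rheccc035946bfb2fd : CRef := CRef.mk (Pat.mk 0x8000000180000000c0000000c 0x160000003f0000001f0000000c0000000c 6 6) 0 0 (step_sound _ 100 [(rh2f68792b6b779e96.shift 3 0), rhdb562990d287f667] (by decide +kernel))
noncomputable def rh3eeb377fccac4118 : CRef := CRef.mk (Pat.mk 0x1c00000006000000020000000000000000 0x80000000b0000001f0000007e000000370000001200000002 6 7) 0 0 (step_sound _ 33 [(rh49a76b3605ba79d3.shift 0 1), (rh71222050f2c63a3a.shift 1 0)] (by decide +kernel))
noncomputable def rh4e0c214a3497f3b5 : CRef := CRef.mk (Pat.mk 0x80000001e000000180000000000000000 0x40000000c0000001e0000001f0000003300000012 6 6) 0 0 (step_sound _ 65 [rh653173f70b6fca4b, (rheb0810cc63b001d8.shift 0 2)] (by decide +kernel))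
noncomputable def rhb232d7db88c25b68 : CRef := CRef.mk (Pat.mk 0x90000000e0000000800000000 0x4000000040000000f0000007e0000000f00000008 6 7) 0 0 (step_sound _ 68 [(rh3f8766e6ecb455ce.shift 0 2), rhabb3d8abe57c3b79] (by decide +kernel))
noncomputable def rhdfe0aeb9e1b5c601 : CRef := CRef.mk (Pat.mk 0x4000000070000000800000000 0xa0000000e0000000e00000004000000070000003e00000008 6 6) 0 0 (step_sound _ 34 [(rh89ade209b3e28f13.shift 0 1), (rhfb9fb48a5e63ed80.shift 1 0)] (by decide +kernel))
noncomputable def rha5b7c03cdbbe2fd6 : CRef := CRef.mk (Pat.mk 0x1c0000000800000008 0x4000000040000000f0000003e0000007800000008 6 7) 0 0 (step_sound _ 37 [rh1a72c7cdabf684ca, (rh7344b4efa7925350.shift 1 1), (rhd5041491555e8d86.shift 2 1), (rhe7e22136d40a85d7.shift 1 0)] (by decide +kernel))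
noncomputable def rhf9c2bb4407585a47 : CRef := CRef.mk (Pat.mk 0x8000000080000000e0000000400000000 0x8000000ef0000007f0000007c00000010 6 8) 0 0 (step_sound _ 68 [rh0647d666102fa269, (rhda8c3feb570db0ed.shift 0 1), (rhe401600d466b97cd.shift 0 1)] (by decide +kernel))
noncomputable def rhb5c6a1b2d8d9ed13 : CRef := CRef.mk (Pat.mk 0x1c00000006000000020000000200000000 0x30000001f0000007e000000070000000600000004 6 7) 0 0 (step_sound _ 100 [rh041379f73bd57e3e, (rh14b21a5d56ad19c3.shift 0 2), (rh4118eb83563389a5.shift 0 1)] (by decide +kernel))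
noncomputable def rh66ac0dcf90bb4739 : CRef := CRef.mk (Pat.mk 0x40000001e00000006 0x6000000070000003f0000001f00000006 6 6) 0 0 (step_sound _ 98 [rh30f03bcbb8f1ff42, (rh5c5e593799055d58.shift 1 0)] (by decide +kernel))
noncomputable def rhda80743a3c60ec64 : CRef := CRef.mk (Pat.mk 0x40000001e00000006 0x3000000030000003f0000001e00000036 6 6) 0 0 (step_sound _ 65 [(rh3244c3cc8379b070.shift 0 1), rh5cd669cb81580711] (by decide +kernel))
noncomputable def rhd54ef7e66df444fa : CRef := CRef.mk (Pat.mk 0x8000000000000001e00000006 0x70000000f0000003b0000001e00000006 6 6) 0 0 (step_sound _ 65 [(rh3244c3cc8379b070.shift 0 1), rhe8420af454851ad2] (by decide +kernel))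
noncomputable def rh0c7d66d9d3382aba : CRef := CRef.mk (Pat.mk 0x8000000000000001c000000060000000000000000 0x180000001a000000330000001f0000003e0000000400000004 6 6) 0 0 (step_sound _ 97 [rh38a0850c9fea941e, (rhf6bd27d962905ae5.shift 0 2)] (by decide +kernel))
noncomputable def rh4403c3b9ef214e76 : CRef := CRef.mk (Pat.mk 0x18000000180000000c0000000800000000 0x60000003f0000001f0000000c0000000c00000004 6 6) 0 0 (step_sound _ 130 [rh0981ba99e26b3cae, (rh50fbb5868c909700.shift 2 1)] (by decide +kernel))
noncomputable def rhe4e8785d25f973d9 : CRef := CRef.mk (Pat.mk 0x1e000000000000000000000000 0x2000000030000003e000000370000000400000004 6 6) 0 0 (step_sound _ 68 [rhafa5a7051d37b143, (rhe25b0a99195a5d59.shift 1 2)] (by decide +kernel))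
noncomputable def rh7a5469ebb6fc04c8 : CRef := CRef.mk (Pat.mk 0x80000000e000000040000000000000000 0xec0000007f0000007f0000003000000010 6 8) 0 0 (step_sound _ 100 [rh0901d4634e55bc25, (rh0ae232cce48795b7.shift 1 2), (rh84d1614f5efa9132.shift 1 2), (rhaf9f2efc81a8312b.shift 0 2)] (by decide +kernel))
noncomputable def rh3a7e47317479c59c : CRef := CRef.mk (Pat.mk 0x80000000e00000000 0x380000003f00000077 6 7) 0 0 (step_sound _ 68 [(rh53b3c253cb0c65f4.shift 0 1), rhad25ddd26c6147ab] (by decide +kernel))
noncomputable def rh71fa527cefe48e5f : CRef := CRef.mk (Pat.mk 0x800000004000000040000000400000000 0xc0000000c000000040000003c0000000f0000000a 6 6) 0 0 (step_sound _ 130 [(rh2f68792b6b779e96.shift 2 1), rhac13d16ea91712e4] (by decide +kernel))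
noncomputable def rh0a740616bcf039de : CRef := CRef.mk (Pat.mk 0x40000001400000004000000000000000000000000 0xa0000000e0000000f0000001e00000006000000060000000600000002 6 5) 0 0 (step_sound _ 65 [(rh544d3caba1e1e2bb.shift 1 0), (rhacfadced04c76156.shift 0 1), (rhb083f739e1ba9c59.shift 1 2)] (by decide +kernel))
noncomputable def rh0e4f1c59dbeefd9e : CRef := CRef.mk (Pat.mk 0x160000001c0000000800000000 0x16000000370000001e0000001c0000000c00000004 6 6) 0 0 (step_sound _ 132 [(rh5c5e593799055d58.shift 3 1), rhe454094de9bbc1c5] (by decide +kernel))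
noncomputable def rhd2db1eefc311042c : CRef := CRef.mk (Pat.mk 0x5a000000300000000000000000 0x8000000380000001f0000007b000000380000003000000010 6 7) 0 0 (step_sound _ 131 [(rh4c425482f4fed9bf.shift 0 1), (rh5d54cb79a67f97ab.shift 3 0), (rha40d42a2e34c408d.shift 3 0)] (by decide +kernel))
noncomputable def rhe434db7e9dc3e580 : CRef := CRef.mk (Pat.mk 0xb00000006000000000000000000000000 0xa0000001e0000000f0000001e0000000c0000000400000004 6 5) 0 0 (step_sound _ 99 [rh26c1c2658ecf442f, (rhf48373e13d2bc128.shift 0 3)] (by decide +kernel))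
noncomputable def rh2a7c53166cb9002a : CRef := CRef.mk (Pat.mk 0x160000000c0000000000000000 0x1200000012000000330000001e0000003e0000000c00000004 6 6) 0 0 (step_sound _ 68 [rh38e4254a2a2ec198, (rhf48373e13d2bc128.shift 1 2)] (by decide +kernel))
noncomputable def rhd587b62b227a7eb9 : CRef := CRef.mk (Pat.mk 0x800000008000000080000000800000000 0x140000003c0000000f000000080000000c0000000c 6 6) 0 0 (step_sound _ 34 [rh5ee4dc8825dcefa0, (rh932754581e0f4330.shift 2 0)] (by decide +kernel))
noncomputable def rhef17860c8f16c39b : CRef := CRef.mk (Pat.mk 0xf0000000e0000000000000000 0xc0000000c0000001c0000000f0000000f0000001800000010 6 5) 0 0 (step_sound _ 131 [(rh33e738c4ed385b9f.shift 0 3), rhe0e3f03cffa994da] (by decide +kernel))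
noncomputable def rh24115c8042de37aa : CRef := CRef.mk (Pat.mk 0x160000001c0000000000000000 0x20000000a0000000f0000001f0000001c0000000400000004 6 5) 0 0 (step_sound _ 99 [(rhb739f4f82bb681b4.shift 0 2), rhc8ffcd37e490e874] (by decide +kernel))
noncomputable def rhbe0144639d4b7b37 : CRef := CRef.mk (Pat.mk 0x4000000140000000c0000000c 0x1a0000003f0000001f0000000c0000000c 6 6) 0 0 (step_sound _ 99 [(rh2f68792b6b779e96.shift 2 0), rh41f7d192234e4e20] (by decide +kernel))
noncomputable def rh8b5aa898b7f4cc53 : CRef := CRef.mk (Pat.mk 0x28000000180000001000000000 0x1c0000001e00000038000000380000001f0000000c 6 6) 0 0 (step_sound _ 131 [(rh2145e1d24b96a57e.shift 3 1), rh29f5fbb34abe25d9] (by decide +kernel))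
noncomputable def rh54a1c31c09544c4b : CRef := CRef.mk (Pat.mk 0x8000000180000000c0000000c 0x160000003f0000001f0000000c0000000c 6 6) 0 0 (step_sound _ 98 [rh20fee2d91e700ffe, (rh50fbb5868c909700.shift 2 0)] (by decide +kernel))
noncomputable def rh15d333bff4106711 : CRef := CRef.mk (Pat.mk 0x300000001c000000080000000800000000 0x80000000800000028000000380000003c0000007f0000001e00000014 6 7) 0 0 (step_sound _ 131 [(rh6cb0e5959253c9cf.shift 1 0), (rh8af9a32e61457eb0.shift 3 0), rhbde581ad67601c48, (rhea90e7358341a1a4.shift 2 0)] (by decide +kernel))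
noncomputable def rh3a175a3a8a4029e3 : CRef := CRef.mk (Pat.mk 0x8000000180000000e0000000400000000 0x120000003b0000001f0000003e0000000f00000008 6 6) 0 0 (step_sound _ 97 [(rh46231ab7bfd17f40.shift 0 1), (rh8ada648cb6a34f73.shift 0 1), (rh9f93e2b24091a43d.shift 0 1), rhba3581038cb37afc] (by decide +kernel))
noncomputable def rh1ca3990315a72d9a : CRef := CRef.mk (Pat.mk 0x40000001c000000060000000200000000 0x8000000080000003c0000001f0000003e0000003700000010 6 6) 0 0 (step_sound _ 68 [(rh99af78a46b7e7b5d.shift 0 1), (rhe139c704cb953426.shift 0 1), rhe1c545a0fa7090aa] (by decide +kernel))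
noncomputable def rhdd2c4b1a6060e600 : CRef := CRef.mk (Pat.mk 0x8000000080000000c00000006000000000000000000000000 0x140000003e0000007f0000000c0000000e0000000a0000000800000008 6 7) 0 0 (step_sound _ 99 [(rh18b49738f4e5d343.shift 1 2), (rh3502d92c6cce609b.shift 2 0), (rh5368599ec0d58b94.shift 0 2), (rhab3c3f3ae8c9664f.shift 1 2)] (by decide +kernel))
noncomputable def rh1c48b603c21ea5b5 : CRef := CRef.mk (Pat.mk 0x2000000060000000200000000000000000000000000000000 0x2000000030000000700000007000000070000000600000002000000030000000300000001 6 3) 0 0 (step_sound _ 97 [(rh2d81c31c55e8d97c.shift 0 3), rh62e05db1b73ac916, (rha707fb719e87fe6e.shift 1 2)] (by decide +kernel))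
noncomputable def rh73fa94f14dc84edb : CRef := CRef.mk (Pat.mk 0x10000000100000007000000018 0x1000000010000000f70000007f00000018 6 8) 0 0 (step_sound _ 35 [(rh5c5e593799055d58.shift 3 0), rha58ddf8813c4b875] (by decide +kernel))
noncomputable def rh879b9c82651b0eb4 : CRef := CRef.mk (Pat.mk 0x1000000078000000180000000000000000 0xf70000007f000000180000000800000008 6 8) 0 0 (step_sound _ 35 [(rh71222050f2c63a3a.shift 3 0), (rha58ddf8813c4b875.shift 0 2)] (by decide +kernel))
noncomputable def rh26e69b99bb961813 : CRef := CRef.mk (Pat.mk 0x40000001e000000060000000000000000 0x10000000340000001e0000003e0000000b0000000a 6 6) 0 0 (step_sound _ 33 [(rh71222050f2c63a3a.shift 1 0), rh726d9190c68b2835] (by decide +kernel))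
noncomputable def rh5e0267428d31d102 : CRef := CRef.mk (Pat.mk 0x80000003800000008000000000000000000000000 0x40000001f00000038000000080000001c0000001c00000014 6 6) 0 0 (step_sound _ 67 [(rh6c538eea0400cdf3.shift 0 1), (rh6eff4158bb400f47.shift 2 0), (rh79905f95cb2d899a.shift 0 2)] (by decide +kernel))
noncomputable def rhc3fb9e71a291ce72 : CRef := CRef.mk (Pat.mk 0x8000000080000000e0000001000000000 0xc0000000c0000000f0000003e0000001300000002 6 6) 0 0 (step_sound _ 68 [(rh2145e1d24b96a57e.shift 3 1), rh21460d2d48a35cb8] (by decide +kernel))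
noncomputable def rh4d99b7c33447867a : CRef := CRef.mk (Pat.mk 0x8000000180000000e000000000000000000000000 0x60000001f0000001e0000000e0000001c0000001c00000014 6 5) 0 0 (step_sound _ 67 [(rh33032410a9908d45.shift 2 0), (rh8780feb96d6aa5c7.shift 0 1), (rh8ff3dde5b1c639e0.shift 2 0)] (by decide +kernel))
noncomputable def rh224969b7e5a66650 : CRef := CRef.mk (Pat.mk 0x800000000000000180000001800000000 0x800000008000000fb000000ff00000007 6 8) 0 0 (step_sound _ 34 [rh1f4c791948e68118, (rh5ac8a52ac3a4f013.shift 1 0), (rhab2ad169e49f9c5e.shift 0 1)] (by decide +kernel))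
noncomputable def rha6df7935e2941552 : CRef := CRef.mk (Pat.mk 0x80000000c000000040000000400000000 0x600000006000000060000000f0000003c0000003c0000000f0000000a 6 6) 0 0 (step_sound _ 130 [rh85480f11efc1e555, (rhcbaa34959f85e2ef.shift 1 0), (rhcf85c92937975d4d.shift 0 1)] (by decide +kernel))
noncomputable def rh1ff0368ce362c695 : CRef := CRef.mk (Pat.mk 0x100000007000000018 0x1c0000001c000000fe0000007f00000038 6 8) 0 0 (step_sound _ 35 [rh15a2b73944acc7e4, (rh2e2af70cc0a250e3.shift 2 0), rh8026aa9dd8ea0b36] (by decide +kernel))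
noncomputable def rhc5a20f80c98500b6 : CRef := CRef.mk (Pat.mk 0x1000000070000000180000000000000000 0xc0000000c000000fe0000007f000000f80000000c00000008 6 8) 0 0 (step_sound _ 99 [(rh15a2b73944acc7e4.shift 0 2), (rh2e2af70cc0a250e3.shift 2 2), (rh4c11c491f4d8ec0e.shift 2 0)] (by decide +kernel))
noncomputable def rh2661918359e46607 : CRef := CRef.mk (Pat.mk 0x8000000080000000c00000000 0x140000003c0000000f000000080000000c0000000c 6 6) 0 0 (step_sound _ 131 [rh5ee4dc8825dcefa0, (rh932754581e0f4330.shift 2 0)] (by decide +kernel))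
noncomputable def rh25c532b22d6da820 : CRef := CRef.mk (Pat.mk 0x800000008000000380000000800000000 0x140000001f0000003e000000380000000800000008 6 6) 0 0 (step_sound _ 132 [(rh2f68792b6b779e96.shift 3 1), rhc7e0b8feac46bbfb] (by decide +kernel))
noncomputable def rh6b7b4b4d39a1f314 : CRef := CRef.mk (Pat.mk 0x180000000e000000040000000400000000 0x1c000000fe000000770000003c00000018 6 8) 0 0 (step_sound _ 100 [(rh0ae232cce48795b7.shift 1 2), rh121d8d014225e2d9, (rh76c4edc656936505.shift 1 2), (rhaf9f2efc81a8312b.shift 0 2)] (by decide +kernel))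
noncomputable def rhcaadd3754c01bc7f : CRef := CRef.mk (Pat.mk 0xc0000000600000004000000000000000000000000 0x40000000c0000000e0000003c0000000f0000000e0000000a 6 6) 0 0 (step_sound _ 66 [(rh957e3bb4c843b184.shift 0 1), (rh999c66e1f1e798df.shift 2 0), (rha8bc3cae4d77a08f.shift 1 0)] (by decide +kernel))
noncomputable def rhddbd56e2b576a4a6 : CRef := CRef.mk (Pat.mk 0x1c000000060000000400000000 0xa0000000b0000001f0000003e0000003400000010 6 6) 0 0 (step_sound _ 97 [(rh309fd0c3d364cd61.shift 0 1), rh84e3bcfa3678760b] (by decide +kernel))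
noncomputable def rh33ceb22c20ae95cc : CRef := CRef.mk (Pat.mk 0x40000001c00000006 0x2000000030000003f0000001f00000007 6 6) 0 0 (step_sound _ 33 [rhbe7d67620aa16c02, rheb0810cc63b001d8] (by decide +kernel))
noncomputable def rh979d31a0d1cedb69 : CRef := CRef.mk (Pat.mk 0x1000000070000000180000000000000000 0xc0000004c000000fc0000007f000000f80000002000000020 6 8) 0 0 (step_sound _ 99 [(rh2e2af70cc0a250e3.shift 2 2), (rh75e1695803052323.shift 2 0), (rh99ca9486dffadd55.shift 0 2)] (by decide +kernel))
noncomputable def rhba005beb22bdeee7 : CRef := CRef.mk (Pat.mk 0x8000000180000000e00000004 0x60000000f0000001f000000fe00000006 6 8) 0 0 (step_sound _ 36 [(rh0127acd528cd93fb.shift 1 0), rhc021d31cf355e878, rhfcbe31f2f547bfce] (by decide +kernel))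
noncomputable def rhfe114996652dd49b : CRef := CRef.mk (Pat.mk 0x20000000e00000001 0xe60000007e000000e3 6 8) 0 0 (step_sound _ 36 [(rh0786c19de25163c7.shift 1 0), rh80fcd6d0a18cb2dd] (by decide +kernel))
noncomputable def rhd7c4d1c52ff5496d : CRef := CRef.mk (Pat.mk 0x8000000380000000c0000000400000000 0x100000003f0000003f0000007c0000006600000020 6 7) 0 0 (step_sound _ 69 [(rhe139c704cb953426.shift 1 1), (rhe1c545a0fa7090aa.shift 1 0), (rheebfe330bddc1b28.shift 0 2)] (by decide +kernel))
noncomputable def rhec1c0916de23849e : CRef := CRef.mk (Pat.mk 0x40000001c000000060000000200000000 0x30000001b0000003f0000001e0000003e0000003b00000018 6 6) 0 0 (step_sound _ 97 [(rh2e2af70cc0a250e3.shift 0 2), rh726d9190c68b2835, rh84faf3c77c936851] (by decide +kernel))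
noncomputable def rhc40fd431292fd8fc : CRef := CRef.mk (Pat.mk 0x180000000c0000000400000004 0x2000000020000001f000000ff0000007c00000004 6 8) 0 0 (step_sound _ 65 [(rh53b3c253cb0c65f4.shift 0 2), rhb8d9fb4ff7ff2618] (by decide +kernel))
noncomputable def rhe409ec828e1f85f7 : CRef := CRef.mk (Pat.mk 0x1c000000060000000200000002 0x80000000b0000001f0000003e0000003300000012 6 6) 0 0 (step_sound _ 68 [rh4118eb83563389a5, rhe1c545a0fa7090aa, rhe9ca129e12e86b15] (by decide +kernel))
noncomputable def rhf53e76f8112da776 : CRef := CRef.mk (Pat.mk 0x80000000e000000080000000800000000 0x40000000c0000000e0000003b0000001f00000016 6 6) 0 0 (step_sound _ 130 [(rh50fbb5868c909700.shift 2 1), rh65485b477f2c7514] (by decide +kernel))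
noncomputable def rh530b5bde70a0012b : CRef := CRef.mk (Pat.mk 0x180000000e000000000000000800000000 0x4000000040000001f0000003e000000330000001a00000018 6 6) 0 0 (step_sound _ 100 [(rh21460d2d48a35cb8.shift 0 1), (rhdc461deccfb05432.shift 1 0)] (by decide +kernel))
noncomputable def rh17c181eca7d3be22 : CRef := CRef.mk (Pat.mk 0x1e00000006000000040000000000000000 0x300000001f0000003e0000000c0000000c0000000c 6 6) 0 0 (step_sound _ 100 [rh6abb4cb4046b60d4, (rhe25b0a99195a5d59.shift 1 3)] (by decide +kernel))
noncomputable def rh70a388b961941418 : CRef := CRef.mk (Pat.mk 0x8000000080000000c0000000400000000 0x140000001e000000780000000f0000003c00000018 6 7) 0 0 (step_sound _ 35 [(rhab3c3f3ae8c9664f.shift 1 0), rhfe557af9112f51d6] (by decide +kernel))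
noncomputable def rhcb5c52fa0cc1d6dc : CRef := CRef.mk (Pat.mk 0x80000000c00000004000000040000000000000000 0x160000001f0000003c0000000f0000003c0000001800000008 6 6) 0 0 (step_sound _ 67 [(rh09523eec71061f6e.shift 0 1), (rh6799e174f619f451.shift 0 1), (rh936b4adcf7483bd7.shift 0 1), rhd811d0dc10bb5440] (by decide +kernel))
noncomputable def rhfa94943aa2f661bc : CRef := CRef.mk (Pat.mk 0x180000001c0000000800000008 0x200000002000000070000001f0000001f0000000c00000008 6 5) 0 0 (step_sound _ 65 [(rh53b3c253cb0c65f4.shift 0 2), rh7696ae8b0f0f5a20] (by decide +kernel))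
noncomputable def rhaba90441b1323cfb : CRef := CRef.mk (Pat.mk 0x600000007000000020000000200000000 0x200000006000000070000003e0000003e0000000c 6 6) 0 0 (step_sound _ 34 [(rh55afc6a59410cf00.shift 1 0), rhdd23e20ea856851f] (by decide +kernel))
noncomputable def rh90b184bf679f1a3f : CRef := CRef.mk (Pat.mk 0x100000007800000018 0x1000000010000000fc0000007f00000038 6 8) 0 0 (step_sound _ 100 [(rh5c5e593799055d58.shift 3 0), rhbea32a382651a0e3] (by decide +kernel))
noncomputable def rh278e5126e461c114 : CRef := CRef.mk (Pat.mk 0x1e0000000400000000 0x8000000080000003b0000001f0000003400000010 6 6) 0 0 (step_sound _ 97 [(rh3244c3cc8379b070.shift 0 2), rhf41a34b41b8c2138] (by decide +kernel))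
noncomputable def rh97c2ce09bec1e547 : CRef := CRef.mk (Pat.mk 0x8000000180000000e00000000 0x800000008000000080000001f000000fe000000f0 6 8) 0 0 (step_sound _ 36 [(rh3e595262c1b737ad.shift 3 0), rh883451bd3feec117, (rhba04d77b039f69d9.shift 1 0)] (by decide +kernel))
noncomputable def rh53d644bf3ee85d27 : CRef := CRef.mk (Pat.mk 0x8000000180000000e000000000000000000000000 0x8000000180000003e0000003f0000001400000004 6 6) 0 0 (step_sound _ 68 [(rh478c4cadbcd4e066.shift 3 1), (rhb3a2f76440e25df9.shift 1 1), (rhc76d142f049b7a48.shift 1 1), rhda4b429055f88d04] (by decide +kernel))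
noncomputable def rh4d9861521ee189dc : CRef := CRef.mk (Pat.mk 0x400000004000000040000001e00000000 0xa0000000f0000003c0000000c0000001e00000030 6 6) 0 0 (step_sound _ 131 [(rh2f68792b6b779e96.shift 2 1), rh3f9fc89da253b258] (by decide +kernel))
noncomputable def rh6c3e04cab6104233 : CRef := CRef.mk (Pat.mk 0x18000000100000001000000010 0x270000007e000000ff0000001000000010 6 8) 0 0 (step_sound _ 101 [(rh2f68792b6b779e96.shift 4 0), (rh46a15bb68c6932e8.shift 0 2)] (by decide +kernel))
noncomputable def rha60e7fc6e444940b : CRef := CRef.mk (Pat.mk 0x40000000c000000060000000c0000000000000000 0x40000000c0000003e0000003f0000003200000010 6 6) 0 0 (step_sound _ 65 [(rh932754581e0f4330.shift 1 1), rhf963e4bc3ca451c9] (by decide +kernel))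
noncomputable def rh030a02fb06c0ba43 : CRef := CRef.mk (Pat.mk 0x600000006000000030000000200000000 0x60000001e0000001b0000001f0000000d 6 5) 0 0 (step_sound _ 99 [(rh18965a982d73c794.shift 0 2), rheb3c3e7cd84082fe] (by decide +kernel))
noncomputable def rhab283b7c6eba5ff1 : CRef := CRef.mk (Pat.mk 0x1000000030000000180000000800000000 0x3e000000ff000000f80000000c00000004 6 8) 0 0 (step_sound _ 102 [(rh18965a982d73c794.shift 3 2), rhca732744413cbe05] (by decide +kernel))
noncomputable def rh72b9a3f645c9833b : CRef := CRef.mk (Pat.mk 0x8000000180000000c00000004 0x20000000f0000001f0000003f00000007 6 6) 0 0 (step_sound _ 33 [(rh53b3c253cb0c65f4.shift 0 1), rh89d987ecd4a50600] (by decide +kernel))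
noncomputable def rhf4ae13f0a3378606 : CRef := CRef.mk (Pat.mk 0x2000000030000000100000000000000000 0x8000000080000007f000000fe000000380000001000000010 6 8) 0 0 (step_sound _ 36 [(rh71222050f2c63a3a.shift 4 0), (rha61128906192bb74.shift 0 1)] (by decide +kernel))
noncomputable def rh3dd953df34b564af : CRef := CRef.mk (Pat.mk 0x100000001c000000080000000000000000 0x140000001f0000003f000000080000000800000008 6 6) 0 0 (step_sound _ 35 [(rh71222050f2c63a3a.shift 3 0), (rhf1daa5fb86586a14.shift 0 1)] (by decide +kernel))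
noncomputable def rh5a144a39643b10b3 : CRef := CRef.mk (Pat.mk 0x8000000080000000c0000000c 0x170000001f0000003b0000000e0000000c 6 6) 0 0 (step_sound _ 98 [(rh50fbb5868c909700.shift 2 0), rhaae39daa5d6aa80d] (by decide +kernel))
noncomputable def rhf33d08555d1c95bd : CRef := CRef.mk (Pat.mk 0x100000001c000000080000000800000000 0x80000000c0000000f0000001f0000001f0000003c0000000c00000004 6 6) 0 0 (step_sound _ 131 [rh795a9fa361f5265f, (rh933f3ac7d57d09d8.shift 2 1), rhad7ca240fba4080a] (by decide +kernel))
noncomputable def rhaff4ef0721e61904 : CRef := CRef.mk (Pat.mk 0x100000001c000000080000000800000000 0xc0000000c0000000f0000007f0000001c0000001c0000000c00000004 6 7) 0 0 (step_sound _ 131 [(rh0ef6c71ce89c1c36.shift 2 0), (rh581aac718c7fa263.shift 2 1), rh795a9fa361f5265f, (rh933f3ac7d57d09d8.shift 2 1), (rhea90e7358341a1a4.shift 2 0)] (by decide +kernel))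
noncomputable def rh9aff2d24e23e56c2 : CRef := CRef.mk (Pat.mk 0x10000000180000000e0000000800000000 0xc0000000e0000001f0000001f0000001e0000000c00000004 6 5) 0 0 (step_sound _ 131 [(rh03dfdf12d5937476.shift 2 0), (rha86cc6850bd41e55.shift 2 1), rhb6e93348f09da51a, (rhd2c74283b7b6e6b8.shift 2 1)] (by decide +kernel))
noncomputable def rhd4c4d463028d3f1e : CRef := CRef.mk (Pat.mk 0x80000000e000000040000000000000000 0x20000007b0000003e000000770000000400000004 6 7) 0 0 (step_sound _ 34 [(rh1fc06c341dd295ca.shift 0 1), (rh71222050f2c63a3a.shift 2 0)] (by decide +kernel))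
noncomputable def rh5fe7b5a5d6c590ae : CRef := CRef.mk (Pat.mk 0x100000001c000000000000000000000000 0x1000000010000000770000003f0000007e0000002800000008 6 7) 0 0 (step_sound _ 129 [rh2598feaa2162b66a, (rh4e72d803b6fe7c49.shift 0 2), (rhea5ba6202124cc37.shift 1 1)] (by decide +kernel))
noncomputable def rh518a32bd422cc1f2 : CRef := CRef.mk (Pat.mk 0x8000000080000000c0000000c00000000 0x140000003c0000000f0000003c0000000f00000002 6 6) 0 0 (step_sound _ 130 [(rh50fbb5868c909700.shift 2 1), rh859f528250daca3c] (by decide +kernel))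
noncomputable def rh82c2f3c163febe8d : CRef := CRef.mk (Pat.mk 0xe00000004000000060000000400000000 0x3f0000003f0000001e0000003c00000018 6 6) 0 0 (step_sound _ 35 [rh06792f840ee7ef6b, (rh55afc6a59410cf00.shift 2 0)] (by decide +kernel))
noncomputable def rhfee34e866bbc088c : CRef := CRef.mk (Pat.mk 0xc000000080000000c0000000c00000000 0xc0000000c0000007c0000007e00000013 6 7) 0 0 (step_sound _ 36 [(rh55afc6a59410cf00.shift 3 0), rh7ff0991ff731ccf7] (by decide +kernel))
noncomputable def rhe8352ac8f77731cc : CRef := CRef.mk (Pat.mk 0x180000000e000000000000000000000000 0x40000000c0000001f0000003e000000330000001200000010 6 6) 0 0 (step_sound _ 100 [(rh21460d2d48a35cb8.shift 0 1), (rhbbe16ff26f7822db.shift 1 0)] (by decide +kernel))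
noncomputable def rh163056873aad428f : CRef := CRef.mk (Pat.mk 0x200000000000000038000000100000000000000000 0x80000007c0000000f000000fc0000001e0000000800000008 6 8) 0 0 (step_sound _ 130 [(rh14fa7717ab723f83.shift 0 2), (rh1b1d9d37dc492e4a.shift 2 2), (rh239b048be7785530.shift 0 2), (rh6dbcdca4faa24dea.shift 1 2), (rh8bb330ee5aea9f6b.shift 1 0)] (by decide +kernel))
noncomputable def rhcbcb816b4f21adf9 : CRef := CRef.mk (Pat.mk 0x80000000e000000040000000400000000 0x20000000a0000003b0000001e000000360000001400000010 6 6) 0 0 (step_sound _ 129 [(rhe072fffdd2fccf38.shift 1 1), rhf6b6c24d14079f3c] (by decide +kernel))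
noncomputable def rh4f322fd895b4c9b3 : CRef := CRef.mk (Pat.mk 0x1000000008000000080000000800000000 0x1800000018000000080000000f0000003c00000014 6 6) 0 0 (step_sound _ 131 [(rh2f68792b6b779e96.shift 3 1), rh69d74edc6ed8b1cb] (by decide +kernel))
noncomputable def rh2095c8df4be9f3e3 : CRef := CRef.mk (Pat.mk 0x18000000080000000800000000 0x40000000c0000001f000000780000001f0000003c00000014 6 7) 0 0 (step_sound _ 66 [rh0179fcc472496beb, (rh69012675dfdb1a5b.shift 0 2), rh737fea866f72dae5] (by decide +kernel))
noncomputable def rh3854429253eeadb4 : CRef := CRef.mk (Pat.mk 0x6000000020000000200000000000000000000000000000000 0x400000006000000060000000200000002000000070000000700000005 6 3) 0 0 (step_sound _ 97 [(rh2f68792b6b779e96.shift 1 3), rh984bfc6de6c2c524] (by decide +kernel))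
noncomputable def rh92775caef34f07f6 : CRef := CRef.mk (Pat.mk 0xc00000004000000040000000400000000 0x40000000c0000000c0000000f0000003c0000001c 6 6) 0 0 (step_sound _ 35 [(rh55afc6a59410cf00.shift 2 0), rh59056920fcba8e3d] (by decide +kernel))
noncomputable def rhcc2f2ba5cadbab68 : CRef := CRef.mk (Pat.mk 0x800000008000000080000001800000000 0xc0000000c000000080000003f0000003f00000004 6 6) 0 0 (step_sound _ 34 [(rh72d43230b0212c4f.shift 0 1), (rh932754581e0f4330.shift 2 0)] (by decide +kernel))
noncomputable def rh4dab9fa1f36dd151 : CRef := CRef.mk (Pat.mk 0xe00000004000000040000000400000000 0x340000003f0000003f0000001c0000000c00000008 6 6) 0 0 (step_sound _ 35 [(rh55afc6a59410cf00.shift 2 0), (rhcc24e65e1f5738dd.shift 0 1)] (by decide +kernel))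
noncomputable def rhf617957450b90b55 : CRef := CRef.mk (Pat.mk 0x200000002000000020000000200000000 0x100000003000000030000000200000002000000070000000700000005 6 3) 0 0 (step_sound _ 34 [rh387ffa5e411212ae, (rh55afc6a59410cf00.shift 1 0)] (by decide +kernel))
noncomputable def rh6c126a548206b944 : CRef := CRef.mk (Pat.mk 0x80000000c000000040000000400000000 0x1c0000003c0000000f0000000c0000000c00000008 6 6) 0 0 (step_sound _ 130 [(rh2f68792b6b779e96.shift 2 1), rh60f7890073fd1121] (by decide +kernel))
noncomputable def rhc2b506d4802177eb : CRef := CRef.mk (Pat.mk 0x80000000c0000001c000000000000000000000000 0x10000000780000001f0000001c000000180000001800000018 6 7) 0 0 (step_sound _ 129 [(rh852396cb7ebe63e8.shift 1 0), (rhb739f4f82bb681b4.shift 0 3)] (by decide +kernel))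
noncomputable def rh202f56511f3ee702 : CRef := CRef.mk (Pat.mk 0x1e000000060000000000000000 0x8000000080000001c0000001f0000003e0000000400000004 6 6) 0 0 (step_sound _ 68 [rh001166eb663f20b4, (rhe25b0a99195a5d59.shift 1 2)] (by decide +kernel))
noncomputable def rh0d624692dab3ecac : CRef := CRef.mk (Pat.mk 0x1800000018000000080000000800000000 0xc0000001f000000380000000f0000000c00000004 6 6) 0 0 (step_sound _ 130 [rh184c89c985979d9f, (rh50fbb5868c909700.shift 2 1)] (by decide +kernel))
noncomputable def rh6b22f79f237076fd : CRef := CRef.mk (Pat.mk 0x4000000020000000200000002000000000000000000000000 0x400000006000000060000000200000002000000070000000700000005 6 3) 0 0 (step_sound _ 193 [(rh2f68792b6b779e96.shift 1 3), rh984bfc6de6c2c524] (by decide +kernel))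
noncomputable def rh3b6278727553e36b : CRef := CRef.mk (Pat.mk 0x180000000e0000000800000000 0xc0000000e0000000f0000001e0000001e0000000c00000004 6 5) 0 0 (step_sound _ 131 [(rh03dfdf12d5937476.shift 2 0), rh8780feb96d6aa5c7, (rha86cc6850bd41e55.shift 2 1), (rhd2c74283b7b6e6b8.shift 2 1)] (by decide +kernel))
noncomputable def rhb32ae4889b9ae843 : CRef := CRef.mk (Pat.mk 0x1800000008000000080000000800000000 0xc0000003c0000000f0000000c0000000c0000000c 6 6) 0 0 (step_sound _ 130 [(rh50fbb5868c909700.shift 2 1), rh620215698459aaa3] (by decide +kernel))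
noncomputable def rh720be94dd4502ae7 : CRef := CRef.mk (Pat.mk 0x400000018000000080000000800000000 0xc0000000c000000180000000f0000003c00000014 6 6) 0 0 (step_sound _ 131 [(rh50fbb5868c909700.shift 2 1), rhf0d38cf1e7116183] (by decide +kernel))
noncomputable def rh2a477dbc687cff57 : CRef := CRef.mk (Pat.mk 0x1c000000180000000800000000 0x4000000040000003f0000001f0000000b00000002 6 6) 0 0 (step_sound _ 97 [rh73ecd41cf8243248, (rhb739f4f82bb681b4.shift 0 2)] (by decide +kernel))
noncomputable def rhc7e64abe39ba9941 : CRef := CRef.mk (Pat.mk 0x100000001800000038000000000000000000000000 0x100000001e0000003f000000770000002000000020 6 7) 0 0 (step_sound _ 130 [rh7807620841bbaf84, (rhb739f4f82bb681b4.shift 1 3)] (by decide +kernel))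
noncomputable def rh13d1146e903d931f : CRef := CRef.mk (Pat.mk 0x1000000018000000180000000800000000 0x200000003000000078000000ff0000007c00000030 6 8) 0 0 (step_sound _ 66 [(rh3bd611db75da8ece.shift 0 1), (rhab2ad169e49f9c5e.shift 0 2), (rhfe8ad5cb9e6353d0.shift 2 0)] (by decide +kernel))
noncomputable def rhc6849e4015e8d020 : CRef := CRef.mk (Pat.mk 0x1000000018000000080000000800000000 0x54000001f6000000fe000001ef0000002800000020 6 9) 0 0 (step_sound _ 101 [(rh2820ca9a6c4f41b4.shift 0 2), (rh85ff9f0fe342d881.shift 2 0), (rha8e118612a5545ec.shift 1 1), (rhfa35e196e150edb4.shift 2 2)] (by decide +kernel))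
noncomputable def rhc5cf5ab20fc27e64 : CRef := CRef.mk (Pat.mk 0x80000000c000000060000000000000000 0x8000000380000003f0000003e0000003000000010 6 6) 0 0 (step_sound _ 100 [(rh18965a982d73c794.shift 1 2), rh449bb51d9fb12b54] (by decide +kernel))
noncomputable def rh0b910061806357d6 : CRef := CRef.mk (Pat.mk 0x180000001e000000000000000000000000 0x1c000000fe000000370000001000000010 6 8) 0 0 (step_sound _ 68 [rh0fb10b969d921054, (rhe25b0a99195a5d59.shift 1 2)] (by decide +kernel))
noncomputable def rh644fba718c80a7a0 : CRef := CRef.mk (Pat.mk 0x20000001c000000060000000000000000 0x10000000330000001f0000003e0000000800000008 6 6) 0 0 (step_sound _ 97 [(rh3244c3cc8379b070.shift 0 3), rhb32eb569dfc388a6] (by decide +kernel))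
noncomputable def rh27b6e98201103ddb : CRef := CRef.mk (Pat.mk 0x800000018000000080000001c 0x60000000f0000001e0000003f0000003f 6 6) 0 0 (step_sound _ 98 [(rh50fbb5868c909700.shift 2 0), rhc9e48f538dc56371] (by decide +kernel))
noncomputable def rh6058262bfd194237 : CRef := CRef.mk (Pat.mk 0x18000000080000000800000000 0xc0000001f00000078000000780000001e00000014 6 7) 0 0 (step_sound _ 131 [(rh3ca4c10fdf355329.shift 1 0), (rhdb019b0e908810fb.shift 0 1)] (by decide +kernel))
noncomputable def rh2a4fba10843b5c5f : CRef := CRef.mk (Pat.mk 0x180000001e00000008 0x600000006000000070000001f0000003e00000008 6 6) 0 0 (step_sound _ 65 [rh275501423c94f5b1, (rh3244c3cc8379b070.shift 0 1)] (by decide +kernel))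
noncomputable def rhe3f3ccc676e28414 : CRef := CRef.mk (Pat.mk 0xc0000000600000004 0x20000003b0000003f0000003e00000004 6 6) 0 0 (step_sound _ 68 [(rh18965a982d73c794.shift 1 1), rhefa595f89623131c] (by decide +kernel))
noncomputable def rh2a5aac3d1c0a3d77 : CRef := CRef.mk (Pat.mk 0x18000000080000000800000000 0x40000000c0000001e0000007c0000001f0000003c00000014 6 7) 0 0 (step_sound _ 66 [rh0179fcc472496beb, (rh410a0a98901a55b2.shift 1 0), (rh69012675dfdb1a5b.shift 0 2)] (by decide +kernel))
noncomputable def rhf2ffe75fc09e7c08 : CRef := CRef.mk (Pat.mk 0x1c000000060000000000000000 0x8000000080000003c0000001f000000070000000400000004 6 6) 0 0 (step_sound _ 97 [rha7537a2bac798a50, (rheb0810cc63b001d8.shift 0 2)] (by decide +kernel))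
noncomputable def rh5270240f766fd0a8 : CRef := CRef.mk (Pat.mk 0x8000000180000000e0000000400000000 0x120000003b0000001f0000003e0000000f00000008 6 6) 0 0 (step_sound _ 97 [(rh0fe9ffd52e1cd12f.shift 0 1), (rh8ada648cb6a34f73.shift 0 1), (rh9f93e2b24091a43d.shift 0 1), rhba3581038cb37afc] (by decide +kernel))
noncomputable def rh31156f335e64bf15 : CRef := CRef.mk (Pat.mk 0x40000001c000000060000000200000000 0x8000000180000003c0000001f0000003e0000000f00000008 6 6) 0 0 (step_sound _ 97 [(rh245cfab0de74c583.shift 0 1), rh726d9190c68b2835, (rhf6d72ac90bd26cb0.shift 0 1)] (by decide +kernel))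
noncomputable def rh7048ceb38b37a5ae : CRef := CRef.mk (Pat.mk 0x380000000c000000040000000400000000 0x120000003e0000007c0000000f0000003c00000018 6 7) 0 0 (step_sound _ 35 [rh0b48232756d2831b, (rh3a2f845395d0da08.shift 1 0), (rh760db4b6601f3249.shift 1 0)] (by decide +kernel))
noncomputable def rhc66b989092c01728 : CRef := CRef.mk (Pat.mk 0x20000000300000002000000000000000000000000 0x1000000030000000300000002000000030000000300000007000000070000000700000001 6 3) 0 0 (step_sound _ 193 [(rh03dfdf12d5937476.shift 0 2), rh839bc275b7f0d03f, (rh976a48eb1c80a12f.shift 0 3)] (by decide +kernel))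
noncomputable def rh8a9e121e345440f2 : CRef := CRef.mk (Pat.mk 0x80000001c000000060000000400000000 0x40000003c0000001f0000003e0000003700000012 6 6) 0 0 (step_sound _ 68 [rh37b8c63c045fbf1d, (rh3ce854f4a795c89f.shift 0 2), rh5d03a8442c280bd5, rh87392e1f76cad36e] (by decide +kernel))
noncomputable def rh8f942d958f560676 : CRef := CRef.mk (Pat.mk 0x180000000e000000000000000000000000 0xa0000001b0000003e000000770000001400000014 6 7) 0 0 (step_sound _ 100 [rh2395824d1086e2bc, (rh42d32bf970c9c157.shift 0 2), (rhbbe16ff26f7822db.shift 1 0)] (by decide +kernel))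
noncomputable def rh48409912adc297c5 : CRef := CRef.mk (Pat.mk 0x40000000600000002000000000000000000000000 0xc0000000c0000000e000000070000003e0000000c0000000400000004 6 6) 0 0 (step_sound _ 194 [rh056b5712875b258c, (rh5c5e593799055d58.shift 1 3)] (by decide +kernel))
noncomputable def rh9c1b160079369c7f : CRef := CRef.mk (Pat.mk 0x180000000e0000001000000000 0x10000000300000001f0000003e0000003800000008 6 6) 0 0 (step_sound _ 68 [rhd2705a941542c9fb, (rhe25b0a99195a5d59.shift 1 1)] (by decide +kernel))
noncomputable def rh1165db1bbd06e8d5 : CRef := CRef.mk (Pat.mk 0x2000000030000000600000000 0x100000007000000070000000600000003000000030000000600000004 6 3) 0 0 (step_sound _ 129 [(rh4e2df8342d3b8ae8.shift 0 1), (rh55afc6a59410cf00.shift 1 0)] (by decide +kernel))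
noncomputable def rha52af766f38b302a : CRef := CRef.mk (Pat.mk 0xc0000000600000004000000000000000000000000 0x40000000e0000000e0000003c0000000f0000000e00000002 6 6) 0 0 (step_sound _ 66 [(rh2d5442cbf338480d.shift 1 1), (rh8aec56c4ee12918c.shift 1 0), (rh957e3bb4c843b184.shift 0 1)] (by decide +kernel))
noncomputable def rh98f24dbf3df290bc : CRef := CRef.mk (Pat.mk 0xe000000030000000200000000 0x10000000700000007000000060000000f0000000f0000001e0000000c 6 5) 0 0 (step_sound _ 129 [rh024e513121fe1b70, rh3a2447ed8c5fdc2c, (rh42ab489a1be3958e.shift 0 1), (rh586b343be2471f50.shift 0 1), rhe20583caacc44ece] (by decide +kernel))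
noncomputable def rh1c3835cdcc6d10a2 : CRef := CRef.mk (Pat.mk 0x2000000070000000180000001000000000 0x80000002f0000007f000000f8000000f000000040 6 8) 0 0 (step_sound _ 99 [(rh04adde65229dd8ca.shift 0 2), (rh309fd0c3d364cd61.shift 2 1), (rh874593e3f05c8191.shift 3 0)] (by decide +kernel))
noncomputable def rh0a3ed4caadb86185 : CRef := CRef.mk (Pat.mk 0x200000002000000070000000180000000000000000 0x200000003e0000007f000000f80000004000000040 6 8) 0 0 (step_sound _ 70 [(rh6a6124da44f8db30.shift 0 2), (rh79ad7b82ec8c35e2.shift 5 0), (rhf530834c0c5f3ed9.shift 1 2)] (by decide +kernel))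
noncomputable def rhd41b55c045d465cd : CRef := CRef.mk (Pat.mk 0x1000000010000000180000000e000000000000000000000000 0x100000001a0000001f0000007e000000370000001400000014 6 7) 0 0 (step_sound _ 100 [rh22f53ba2f05af569, (rh58f49594b41e4958.shift 1 2), (rhbbe16ff26f7822db.shift 1 0)] (by decide +kernel))
noncomputable def rh72780865fc6287b5 : CRef := CRef.mk (Pat.mk 0x2000000030000000200000002 0x100000007000000070000000700000003000000030000000200000002 6 3) 0 0 (step_sound _ 129 [rh3ca48e2a6d60153d, (rh4e2df8342d3b8ae8.shift 0 1), (rhc85cc95794737cf7.shift 0 1), rhf06a227ba195dbc0] (by decide +kernel))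
noncomputable def rh17feb462a5b951cd : CRef := CRef.mk (Pat.mk 0x80000000c0000000900000000000000000000000000000000 0x140000001c0000001c000000080000000c0000000f0000001c0000001c0000001c00000014 6 5) 0 0 (step_sound _ 99 [(rh3d48cb4e7e716da9.shift 2 2), (rh6eff4158bb400f47.shift 2 1), (rh89cf5152879421f3.shift 2 0), (rhbaff7ec0fcc038ba.shift 2 0), (rhc461ae945b37d5e0.shift 0 2)] (by decide +kernel))
noncomputable def rhb6f22e522ac5a15f : CRef := CRef.mk (Pat.mk 0x100000000e000000000000000000000000 0x2000000330000003e000000070000000400000004 6 6) 0 0 (step_sound _ 100 [(rh33e738c4ed385b9f.shift 1 3), rhe6f3c981f45ee7b2] (by decide +kernel))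
noncomputable def rh2f982fc6c6b43fa3 : CRef := CRef.mk (Pat.mk 0x400000003800000000 0xe70000007e00000007 6 8) 0 0 (step_sound _ 38 [(rh33e738c4ed385b9f.shift 3 1), rh5e601430b8bc2e39] (by decide +kernel))
noncomputable def rh93c81d2b527c9376 : CRef := CRef.mk (Pat.mk 0x200000001c00000000 0x670000003e00000067 6 7) 0 0 (step_sound _ 37 [(rh33e738c4ed385b9f.shift 2 1), rhfdf52a061710c7fa] (by decide +kernel))
noncomputable def rh91a6a2331af85a5a : CRef := CRef.mk (Pat.mk 0x2000000038000000000000000000000000 0x28000000280000002f000000fc000000fc0000005000000050 6 8) 0 0 (step_sound _ 68 [(rh2cb8437104de90cf.shift 2 0), rh5425f6111a084d6f, (rhdaa57ee32d9b984b.shift 2 0)] (by decide +kernel))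
noncomputable def rhb7ec5a1c212b1c48 : CRef := CRef.mk (Pat.mk 0x200000003800000000 0x670000003e00000067 6 7) 0 0 (step_sound _ 34 [(rh33e738c4ed385b9f.shift 2 1), rhfdf52a061710c7fa] (by decide +kernel))
noncomputable def rhb6853d0db8918f4d : CRef := CRef.mk (Pat.mk 0x8000000180000000c0000000400000000 0x40000001f0000007c0000007c0000000e0000000a 6 7) 0 0 (step_sound _ 101 [(rh18965a982d73c794.shift 2 2), rhe9fa28debea0215b] (by decide +kernel))
noncomputable def rhc56dba177ee90ca0 : CRef := CRef.mk (Pat.mk 0x8000000180000000c0000000400000000 0x170000001f0000001c0000000c0000000c00000008 6 5) 0 0 (step_sound _ 35 [(rh774f423c1ba487ce.shift 0 1), rh9e3680845ae0253e, (rha707fb719e87fe6e.shift 3 0)] (by decide +kernel))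
noncomputable def rh81b0fa8fd28d1f83 : CRef := CRef.mk (Pat.mk 0x180000000e000000040000000400000000 0x600000006000000160000001c0000000e0000003e0000000f0000000a 6 6) 0 0 (step_sound _ 130 [(rh0ef6c71ce89c1c36.shift 1 0), (rh8af9a32e61457eb0.shift 2 0), rh9ee3848b537ea47a] (by decide +kernel))
noncomputable def rhbf34592994afb4e3 : CRef := CRef.mk (Pat.mk 0xc00000006000000020000000200000000 0x80000000b0000003e000000fe000000330000001300000001 6 8) 0 0 (step_sound _ 132 [(rh18965a982d73c794.shift 1 3), rhfec133a36871c8e5] (by decide +kernel))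
noncomputable def rh512c7fdb76615967 : CRef := CRef.mk (Pat.mk 0x8000000080000000e000000100000000000000000 0x8000000380000003e0000003f0000000400000004 6 6) 0 0 (step_sound _ 100 [rha44591082de8a15d, (rhe25b0a99195a5d59.shift 1 2)] (by decide +kernel))
noncomputable def rh38529d1267b1f10b : CRef := CRef.mk (Pat.mk 0x20000000e000000030000000200000000 0x4000000060000000e0000001b0000001f0000000d 6 5) 0 0 (step_sound _ 34 [(rh55afc6a59410cf00.shift 1 0), rh8686ce90d2a4251c] (by decide +kernel))
noncomputable def rhda0aa4b316deaf61 : CRef := CRef.mk (Pat.mk 0x8000000080000000c0000000800000000 0x60000000f0000003c0000000c0000000c0000000c 6 6) 0 0 (step_sound _ 34 [(rh932754581e0f4330.shift 2 0), rha10abbb88ab9db0f] (by decide +kernel))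
noncomputable def rh3636a0a30050ed49 : CRef := CRef.mk (Pat.mk 0x8000000080000000c0000000c 0x170000001f0000007c0000000f0000000c 6 7) 0 0 (step_sound _ 98 [(rh50fbb5868c909700.shift 2 0), rhabcb32a1f897ed2c] (by decide +kernel))
noncomputable def rhd0251d2d4cba86c7 : CRef := CRef.mk (Pat.mk 0x40000000400000006000000040000000000000000 0x20000000e0000003e0000000f000000040000000400000004 6 6) 0 0 (step_sound _ 161 [rh403efdfd5c368d17, (rh50fbb5868c909700.shift 1 2)] (by decide +kernel))
noncomputable def rh431719c633196326 : CRef := CRef.mk (Pat.mk 0x200000002000000030000000200000000000000000000000000000000 0x40000000600000003000000030000000300000003000000070000000700000004 6 3) 0 0 (step_sound _ 226 [rh1d731470c5f6b8e1, (rh2f68792b6b779e96.shift 1 4)] (by decide +kernel))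
noncomputable def rh1a1573766efd98d4 : CRef := CRef.mk (Pat.mk 0x3000000020000000200000002000000000000000000000000 0x400000007000000030000000200000002000000070000000700000005 6 3) 0 0 (step_sound _ 65 [rhedac0154092b0521, (rhffd04209dc8ea796.shift 0 2)] (by decide +kernel))
noncomputable def rh6311a353758d5f3a : CRef := CRef.mk (Pat.mk 0x400000004000000060000000400000000 0xa0000000f0000003c000000060000000600000006 6 6) 0 0 (step_sound _ 33 [(rh932754581e0f4330.shift 1 0), rhab3c3f3ae8c9664f] (by decide +kernel))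
noncomputable def rh3cf96e11afdc7701 : CRef := CRef.mk (Pat.mk 0x400000004000000060000000200000000 0xa0000000f0000003c000000070000003e0000000c 6 6) 0 0 (step_sound _ 34 [rh36d4d92ef3dad5f8, rhab3c3f3ae8c9664f] (by decide +kernel))
noncomputable def rhc65d27632cbffd50 : CRef := CRef.mk (Pat.mk 0x8000000080000000c0000000400000000 0x40000000c0000000c0000003e0000007f0000001a 6 7) 0 0 (step_sound _ 35 [rh04aa474d63f24212, (rh36d4d92ef3dad5f8.shift 1 0)] (by decide +kernel))
noncomputable def rhb4006cdf0ea09577 : CRef := CRef.mk (Pat.mk 0x1000000018000000080000001800000000 0x10000000180000001f0000007e00000077 6 7) 0 0 (step_sound _ 37 [rh8ba946378c076615, (rha3204d5dbf1e6777.shift 0 1), (rhfd99604093c09fe0.shift 0 1)] (by decide +kernel))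
noncomputable def rhb3151143ccbe9e5a : CRef := CRef.mk (Pat.mk 0x1c000000060000000400000000 0x20000000e0000000f0000001c0000000e0000003c00000018 6 6) 0 0 (step_sound _ 130 [(rh039efe07c35de3d4.shift 0 1), (rh5abfc4c9d959be03.shift 1 0), (rhe20583caacc44ece.shift 1 0)] (by decide +kernel))
noncomputable def rh100dd10a8153318d : CRef := CRef.mk (Pat.mk 0x1c0000000600000004000000000000000000000000 0x140000001c0000000e0000003c0000000f0000000e00000002 6 6) 0 0 (step_sound _ 66 [(rh41c2eb18e95e7c95.shift 2 1), (rh8aec56c4ee12918c.shift 1 0), (rh957e3bb4c843b184.shift 0 1)] (by decide +kernel))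
noncomputable def rhf7d9375cfe0cf83e : CRef := CRef.mk (Pat.mk 0x6000000030000000600000000 0x200000003000000070000000700000007000000030000000600000004 6 3) 0 0 (step_sound _ 129 [(rh55afc6a59410cf00.shift 1 0), (rh7cd75823eb0050a7.shift 0 1)] (by decide +kernel))
noncomputable def rhb4b2fba692cc46a2 : CRef := CRef.mk (Pat.mk 0x40000001c000000060000000200000000 0x3000000130000003f0000001e0000003e0000000b00000009 6 6) 0 0 (step_sound _ 97 [(rh2e2af70cc0a250e3.shift 0 2), rh726d9190c68b2835, rhdfb45a0764e33452] (by decide +kernel))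
noncomputable def rh0978f3ef7e1f1c5b : CRef := CRef.mk (Pat.mk 0x8000000180000000e000000000000000000000000 0x60000000f0000001c0000000e0000003c0000001c00000010 6 6) 0 0 (step_sound _ 67 [(rh8ff3dde5b1c639e0.shift 2 0), (rhab60da94184d4622.shift 0 1), (rhb379f99078aafa2d.shift 1 1)] (by decide +kernel))
noncomputable def rhdc9917fa925dd991 : CRef := CRef.mk (Pat.mk 0x8000000180000000e00000000 0x100000001c0000003c0000000f0000001e0000000e0000000a 6 6) 0 0 (step_sound _ 131 [(rh1ae8cb0b33fd1844.shift 2 1), rh3983abbaa1e6dd80, rh900a894640be090c] (by decide +kernel))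
noncomputable def rh498f83b64b5f0ae3 : CRef := CRef.mk (Pat.mk 0x1000000018000000080000000800000000 0xc0000001f000000380000001e0000007800000030 6 7) 0 0 (step_sound _ 131 [(rhc647a25a08ddf0ec.shift 0 1), (rhd802bb8339359eae.shift 1 0)] (by decide +kernel))
noncomputable def rh07f7d72206ed82f8 : CRef := CRef.mk (Pat.mk 0x100000007000000018 0xc0000000c000000fe0000007f00000038 6 8) 0 0 (step_sound _ 35 [rh15a2b73944acc7e4, rh210e2d9c685c857e, (rh2e2af70cc0a250e3.shift 2 0)] (by decide +kernel))
noncomputable def rhc71afaaa8dfbab5c : CRef := CRef.mk (Pat.mk 0x6000000038000000000000000000000000 0x68000000680000007f00000078000000f80000007000000010 6 8) 0 0 (step_sound _ 68 [(rh471c9edde87ddc5c.shift 3 1), rh66c0439a462c197e, (rhcf80391c5046a495.shift 4 0)] (by decide +kernel))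
noncomputable def rhd9d4071e04a39ecc : CRef := CRef.mk (Pat.mk 0x300000001c000000080000000800000000 0x40000002c0000003f0000003c0000001c0000001800000010 6 6) 0 0 (step_sound _ 130 [rh5d7bad87ea13d46f, (rhe072fffdd2fccf38.shift 2 1)] (by decide +kernel))
noncomputable def rh80016d059618d9b4 : CRef := CRef.mk (Pat.mk 0x10000000180000000e0000000000000000 0xc0000003c0000001f0000001e0000003300000012 6 6) 0 0 (step_sound _ 68 [rh08480f4413476838, (rhea719cc8bd0bdd28.shift 1 0)] (by decide +kernel))
noncomputable def rhf982471758dd443f : CRef := CRef.mk (Pat.mk 0x80000000c00000006000000040000000000000000 0x400000006000000060000000e0000000e0000000e0000003e0000003b00000002 6 6) 0 0 (step_sound _ 67 [(rh307e87dde5ddcd87.shift 1 1), rh40cebeb7560cce52] (by decide +kernel))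
noncomputable def rh2df8752f162b3a67 : CRef := CRef.mk (Pat.mk 0x8000000080000000c0000000600000000 0x160000001f0000007c0000000e0000000e0000000a 6 7) 0 0 (step_sound _ 130 [(rhb743c50ee5c7f1fc.shift 1 0), rhc3a9559c72b00d0b, (rhc86e3ab3c2b165e9.shift 1 0)] (by decide +kernel))
noncomputable def rh5c11b35fc15f50c0 : CRef := CRef.mk (Pat.mk 0x8000000180000000a0000000000000000 0x4000000140000003e0000007f0000001a0000000a0000000a00000008 6 7) 0 0 (step_sound _ 162 [(rh0a9d766b5340c0e0.shift 0 1), (rh7fb276822a012166.shift 0 1), (rhbec796c3ea7a32e6.shift 1 1), (rhedb11bef59254b8a.shift 2 0)] (by decide +kernel))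
noncomputable def rh874bfe926588c8fd : CRef := CRef.mk (Pat.mk 0x8000000080000001c0000000600000000 0x160000001f0000007c0000001e0000000e0000000a 6 7) 0 0 (step_sound _ 130 [(rh4c9eac6bf6ab9a81.shift 1 0), rhc3a9559c72b00d0b, (rhc9e26c0ff48ef4a3.shift 1 0)] (by decide +kernel))
noncomputable def rhe8f7687784968d5c : CRef := CRef.mk (Pat.mk 0x8000000380000000c00000004000000000000000000000000 0x40000000f0000003c0000001c0000001c000000180000001800000008 6 6) 0 0 (step_sound _ 194 [(rh1535e2a4be39266a.shift 2 0), (rhd652c19df8b64ee8.shift 1 2), (rhdbcea10a0fbe5ba6.shift 0 5)] (by decide +kernel))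
noncomputable def rh3a9047346bab2c18 : CRef := CRef.mk (Pat.mk 0x7000000018000000080000000800000000 0xc0000007f000000380000001e0000007c00000034 6 7) 0 0 (step_sound _ 131 [(rhc647a25a08ddf0ec.shift 0 1), (rhd802bb8339359eae.shift 1 0), (rhd9048603f1912b39.shift 2 0)] (by decide +kernel))
noncomputable def rhba000424c0c5d320 : CRef := CRef.mk (Pat.mk 0x8000000080000000c00000006000000000000000000000000 0x140000003c0000001f0000000c0000000e0000001a0000001800000018 6 6) 0 0 (step_sound _ 99 [(rh18b49738f4e5d343.shift 1 2), (rh3502d92c6cce609b.shift 2 0), (rh5368599ec0d58b94.shift 0 2), (rh82c6aec0c6f8e399.shift 2 0)] (by decide +kernel))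
noncomputable def rhdf15205901e062fa : CRef := CRef.mk (Pat.mk 0x1000000010000000380000000c 0xc0000001e0000007f0000003f0000001c 6 7) 0 0 (step_sound _ 34 [(rh0d84970d5ea614aa.shift 1 0), (rh503775339733bab1.shift 0 1), rh72ddbefe89b0241f, (rhec46bd5500c722c9.shift 1 1)] (by decide +kernel))
noncomputable def rh298665344a5c048f : CRef := CRef.mk (Pat.mk 0x1e00000002000000000000000000000000 0x400000006000000070000001e00000006000000070000000700000005 6 5) 0 0 (step_sound _ 161 [(rh3244c3cc8379b070.shift 0 4), rhad7276d0bd878d05] (by decide +kernel))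
noncomputable def rh5fc30ae543a4ce65 : CRef := CRef.mk (Pat.mk 0x20000001c000000000000000000000000 0x8000000080000001b0000001f000000380000001000000010 6 6) 0 0 (step_sound _ 97 [(rh3244c3cc8379b070.shift 0 3), rh4faa24555526a01c] (by decide +kernel))
noncomputable def rh27ecc082ada914d9 : CRef := CRef.mk (Pat.mk 0x40000001c000000020000000000000000 0x4000000040000000c0000001f0000003b0000000800000008 6 6) 0 0 (step_sound _ 97 [rh170af8696fd13441, (rheb0810cc63b001d8.shift 0 2)] (by decide +kernel))
noncomputable def rha759c0de0f3ced36 : CRef := CRef.mk (Pat.mk 0x1c000000060000000200000000 0x800000008000000380000001f0000003e0000003300000010 6 6) 0 0 (step_sound _ 68 [(rhbd9ac79c87120162.shift 0 1), (rhe139c704cb953426.shift 0 1), rhe1c545a0fa7090aa] (by decide +kernel))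
noncomputable def rh17e953b0de9957fd : CRef := CRef.mk (Pat.mk 0x400000007000000020 0x7e000003fe00000077 6 10) 0 0 (step_sound _ 35 [(rh6b84fa6a1cf1da53.shift 2 0), (rhe3dc93746cbe6e7c.shift 2 0), rheaad777ed634577b] (by decide +kernel))
noncomputable def rh7cdbd1ae84f62dbe : CRef := CRef.mk (Pat.mk 0x40000000f000000020000000200000000 0x1c0000000f0000001b0000001e0000001c 6 5) 0 0 (step_sound _ 131 [rh1d28ec47814bca61, (rh33e738c4ed385b9f.shift 0 3)] (by decide +kernel))
noncomputable def rhc34de81bb251fe46 : CRef := CRef.mk (Pat.mk 0x1c0000000800000008 0x400000004000000070000003e0000007c00000008 6 7) 0 0 (step_sound _ 37 [rh5734a3dfe37f4feb, (rh7344b4efa7925350.shift 1 1), (rhe8e443cddb98a376.shift 1 0)] (by decide +kernel))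
noncomputable def rh9f7739cef1cb0936 : CRef := CRef.mk (Pat.mk 0x8000000080000000c0000000400000000 0x140000003c0000000f0000000f0000003c00000018 6 6) 0 0 (step_sound _ 35 [rh5ee4dc8825dcefa0, rhfe557af9112f51d6] (by decide +kernel))
noncomputable def rh4790082c12feb919 : CRef := CRef.mk (Pat.mk 0x40000000e000000020000000200000000 0x740000003f0000007e0000000f00000008 6 7) 0 0 (step_sound _ 100 [rh877f27d7c475f6ef, (rha93a5dd541ab8209.shift 1 2), (rhd584a578337d0023.shift 1 2)] (by decide +kernel))
noncomputable def rh31d1ab9e5cc48af4 : CRef := CRef.mk (Pat.mk 0x40000001c00000006 0x3000000030000003f0000001e00000007 6 6) 0 0 (step_sound _ 33 [rh2e2af70cc0a250e3, rheb0810cc63b001d8] (by decide +kernel))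
noncomputable def rhafb659ef6e62e6fc : CRef := CRef.mk (Pat.mk 0x80000000c000000040000000400000000 0x600000006000000060000000f0000003c0000000e0000000600000002 6 6) 0 0 (step_sound _ 130 [(rh0ef6c71ce89c1c36.shift 1 0), (rhcf85c92937975d4d.shift 0 1), (rhea90e7358341a1a4.shift 1 0)] (by decide +kernel))
noncomputable def rha8e9b93252a799b4 : CRef := CRef.mk (Pat.mk 0x180000000c000000040000000400000000 0x600000006000000160000001c0000000c0000003e0000000f0000000a 6 6) 0 0 (step_sound _ 130 [(rh0ef6c71ce89c1c36.shift 1 0), rh6cb0e5959253c9cf, (rh8af9a32e61457eb0.shift 2 0), (rhea90e7358341a1a4.shift 1 0)] (by decide +kernel))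
noncomputable def rh49df48c0edb45416 : CRef := CRef.mk (Pat.mk 0x1c000000040000000000000000 0x200000012000000370000001f0000003c0000000c0000000c 6 6) 0 0 (step_sound _ 97 [rhd5889c99d29bf7d6, rhf459621b93742302] (by decide +kernel))
noncomputable def rhbb4d1fd473eec2f0 : CRef := CRef.mk (Pat.mk 0x80000000c000000040000000400000000 0x60000000f0000003c0000003c0000000f0000000a 6 6) 0 0 (step_sound _ 130 [rh1b64d6430d1d7ca7, rh85480f11efc1e555, (rhcf85c92937975d4d.shift 0 1)] (by decide +kernel))
noncomputable def rh40b6f7c3b4f9914d : CRef := CRef.mk (Pat.mk 0x2000000020000000300000001000000010 0x80000007c000001ef0000007c000000d800000050 6 9) 0 0 (step_sound _ 67 [(rh2221efc44f1b9a1f.shift 2 0), (rha11dfd15f08f96e3.shift 2 2), rhb98e183a12ed98e4, (rhd8d01b3d400f86de.shift 2 0)] (by decide +kernel))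
noncomputable def rh483ab7048429fb91 : CRef := CRef.mk (Pat.mk 0x40000000f000000020000000200000000 0x1c0000000f0000001b0000001e0000001c 6 5) 0 0 (step_sound _ 67 [rhcf44251493dc67e7, (rhe25b0a99195a5d59.shift 0 2)] (by decide +kernel))
noncomputable def rhcf2327d7cd98b396 : CRef := CRef.mk (Pat.mk 0x1e000000020000000000000000 0x8000000080000003f0000003e0000003000000010 6 6) 0 0 (step_sound _ 68 [rhb7227e2a43e0ef1a, (rhe25b0a99195a5d59.shift 1 2)] (by decide +kernel))
noncomputable def rh317a98ae46cbb826 : CRef := CRef.mk (Pat.mk 0x100000001e0000001400000000 0x1a0000001f0000001f0000001e0000001c00000018 6 5) 0 0 (step_sound _ 97 [(rh3244c3cc8379b070.shift 0 2), rh5c0beb31ed083a33] (by decide +kernel))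
noncomputable def rhcf75a7382365fb3c : CRef := CRef.mk (Pat.mk 0x2000000038000000000000001000000010 0x3f000000fe000001ce0000001800000010 6 9) 0 0 (step_sound _ 102 [(rh04395309fba550d6.shift 2 0), (rh1f9701c4cf497514.shift 0 2), (rh7476da47569391d8.shift 2 0), (rhe401600d466b97cd.shift 2 2)] (by decide +kernel))
noncomputable def rh0c94549889fb61be : CRef := CRef.mk (Pat.mk 0xc00000008000000080000000800000000 0x80000000c0000000c0000003c0000000f0000000e 6 6) 0 0 (step_sound _ 34 [(rh932754581e0f4330.shift 2 0), rhc0b6beb59387c71c] (by decide +kernel))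
noncomputable def rhdd2d3372a6e34d07 : CRef := CRef.mk (Pat.mk 0xc0000001800000008000000080000000000000000 0xf00000078000000080000001c0000001c00000014 6 7) 0 0 (step_sound _ 133 [rh9e0ea76c51d48e02, (rhf48373e13d2bc128.shift 2 4)] (by decide +kernel))
noncomputable def rhb9d559cb69a5d5a4 : CRef := CRef.mk (Pat.mk 0x1c0000000e000000000000000000000000 0x40000000e0000000f0000001e0000000e0000000e0000000c00000004 6 5) 0 0 (step_sound _ 162 [rh07f0598894a2ba5d, (rh37d9ceebb86d75d1.shift 1 2), (rhde10baa3043a2b46.shift 1 2)] (by decide +kernel))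
noncomputable def rh5ee628c4c4ff9378 : CRef := CRef.mk (Pat.mk 0x180000000e000000000000000000000000 0x800000008000000380000003e0000000f0000000400000004 6 6) 0 0 (step_sound _ 100 [(rh33e738c4ed385b9f.shift 1 3), rh9cf1eae2eabf38ec] (by decide +kernel))
noncomputable def rhb0aca24099dfac1a : CRef := CRef.mk (Pat.mk 0x180000000c0000000800000000 0xc0000001c0000001f0000003c0000001c0000000c00000004 6 6) 0 0 (step_sound _ 131 [(rh03dfdf12d5937476.shift 2 0), (rh5aa5e9dc84124dd6.shift 0 1), (rhefe968784396ba5c.shift 2 1)] (by decide +kernel))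
noncomputable def rh61299baf09ca782a : CRef := CRef.mk (Pat.mk 0x200000001c0000000000000000 0x400000004000000370000003e0000000300000002 6 6) 0 0 (step_sound _ 65 [rh21460d2d48a35cb8, (rh428265de8cd3cd2d.shift 1 2)] (by decide +kernel))
noncomputable def rh0773fd57977be397 : CRef := CRef.mk (Pat.mk 0x200000001c000000000000000000000000 0x2000000330000003e000000070000000400000004 6 6) 0 0 (step_sound _ 97 [(rh428265de8cd3cd2d.shift 1 3), rhafa5a7051d37b143] (by decide +kernel))
noncomputable def rhcd2edf19bda4d57a : CRef := CRef.mk (Pat.mk 0x40000000f0000000000000000 0x400000004000000060000003f0000003b00000002 6 6) 0 0 (step_sound _ 36 [rh20eef1c512385891, (rh96851dee118c1ba3.shift 0 1)] (by decide +kernel))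
noncomputable def rhdb9997001abbb22b : CRef := CRef.mk (Pat.mk 0x100000003e00000000 0x1d8000000fe000000e3 6 9) 0 0 (step_sound _ 1 [(rh84d1614f5efa9132.shift 2 0), rheb0810cc63b001d8] (by decide +kernel))
noncomputable def rhb13a4d5f318631de : CRef := CRef.mk (Pat.mk 0x1000000000000000700000001800000000 0x3800000038000000ef0000007f000000d800000040 6 8) 0 0 (step_sound _ 67 [(rh61325f73ebf98108.shift 1 2), (rha58ddf8813c4b875.shift 0 1), (rhc6719c6594e47b00.shift 2 1), (rhf41a34b41b8c2138.shift 2 0)] (by decide +kernel))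
noncomputable def rhb3f277f24fdb8dc3 : CRef := CRef.mk (Pat.mk 0x3000000018000000080000000800000000 0x6c0000003c000000180000001f0000007c00000034 6 7) 0 0 (step_sound _ 36 [(rh0806734c3b81cd6f.shift 2 0), (rh0b48232756d2831b.shift 1 0), rhf19240af8a218f1b] (by decide +kernel))
noncomputable def rhf134e445859ede6c : CRef := CRef.mk (Pat.mk 0x300000001800000000 0x800000008000000ec000000ff0000003800000010 6 8) 0 0 (step_sound _ 70 [(rh18965a982d73c794.shift 3 1), rh3b581bdf70f6ede7] (by decide +kernel))
noncomputable def rhf4d40187e7eeae2f : CRef := CRef.mk (Pat.mk 0x180000001e00000002 0xe0000000f0000001b0000003e00000006 6 6) 0 0 (step_sound _ 2 [(rh18965a982d73c794.shift 1 0), rha6bdd189dfb1bf61] (by decide +kernel))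
noncomputable def rh51182d92c4df7d7f : CRef := CRef.mk (Pat.mk 0xa0000000e0000000000000000 0x10000000300000003f0000003e0000000800000008 6 6) 0 0 (step_sound _ 68 [(rh3244c3cc8379b070.shift 0 2), (rh8202f60b764a8f9f.shift 1 0)] (by decide +kernel))
noncomputable def rh2ef78639b50b20cd : CRef := CRef.mk (Pat.mk 0x80000001e00000000 0x38000000fe000000e7 6 8) 0 0 (step_sound _ 68 [(rh33e738c4ed385b9f.shift 1 1), rha1eb337eeb07c2e7] (by decide +kernel))
noncomputable def rha0059f5a0e3c8bb1 : CRef := CRef.mk (Pat.mk 0x1000000008000000080000000e00000000 0x1c0000003c0000000f0000000c0000000e00000002 6 6) 0 0 (step_sound _ 131 [(rh2f68792b6b779e96.shift 3 1), rh8121013d9d56b966] (by decide +kernel))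
noncomputable def rh9fbbefae64a70ac4 : CRef := CRef.mk (Pat.mk 0x400000004000000070000000000000000 0xa0000000e0000003e000000070000003e0000000c 6 6) 0 0 (step_sound _ 34 [rh2367ae2f4c2b082d, rhb0c6196f710d9a93] (by decide +kernel))
noncomputable def rhf5608162a8376a52 : CRef := CRef.mk (Pat.mk 0x380000000e000000000000000000000000 0x4000000040000000e0000001f0000003a0000000e0000003e0000001400000004 6 6) 0 0 (step_sound _ 163 [rh0ab273d635ba54c7, (rh281c6819542c66e6.shift 2 0), (rh5ad79ef9b235223d.shift 0 1), (rhe9c151068024c4e2.shift 0 2)] (by decide +kernel))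
noncomputable def rh55a971892143f2a0 : CRef := CRef.mk (Pat.mk 0x8000000380000000c00000000 0x6000000060000007f0000003c0000000c00000008 6 7) 0 0 (step_sound _ 98 [(rh74a569946d9e940b.shift 1 0), (rh7b07ec793799bf71.shift 1 0), (rhc02b3aee7ab87ee1.shift 0 2), (rhd8e93bbc8568df99.shift 1 2)] (by decide +kernel))
noncomputable def rh6225c240486483e9 : CRef := CRef.mk (Pat.mk 0x1c00000006000000020000000200000000 0x8000000080000003b0000001f00000036000000130000000300000001 6 6) 0 0 (step_sound _ 129 [(rh52b4b7b516a7d39e.shift 0 2), rhd9048603f1912b39] (by decide +kernel))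
noncomputable def rhcb647eeafc743a9d : CRef := CRef.mk (Pat.mk 0x1c000000040000000000000000 0x200000006000000070000007e000000fc0000000c0000000c 6 8) 0 0 (step_sound _ 69 [rh37cee14fac1be201, (rh6aa0ed61cce1493b.shift 1 2), (rh9ad0c60d8ec2f607.shift 1 0)] (by decide +kernel))
noncomputable def rh7e04ed581401fab6 : CRef := CRef.mk (Pat.mk 0x1c0000000a0000000000000000 0x4000000040000000f0000003e0000000b0000000800000008 6 6) 0 0 (step_sound _ 97 [rh0d07b10926dcd0c2, (rheb0810cc63b001d8.shift 0 2)] (by decide +kernel))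
noncomputable def rha95589c754418358 : CRef := CRef.mk (Pat.mk 0xe000000040000000000000000 0x200000002000000770000003e000000740000000400000004 6 7) 0 0 (step_sound _ 129 [rh1d940ba614b84faf, (rh4a0cb3a9508b05dd.shift 0 2), (rha40d42a2e34c408d.shift 1 0)] (by decide +kernel))
noncomputable def rhba5a38ed43c5563b : CRef := CRef.mk (Pat.mk 0x180000000e000000040000000400000000 0x400000004000000060000001f0000003e0000000e0000000e00000008 6 6) 0 0 (step_sound _ 130 [(rh4c0a031285265102.shift 1 0), (rh9007493f1908044a.shift 1 0), (rhff4c737aebdcf19e.shift 0 1)] (by decide +kernel))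
noncomputable def rh29c87094dd31f696 : CRef := CRef.mk (Pat.mk 0x8000000180000000c00000000 0x1c0000003c0000000f0000001c0000001c00000008 6 6) 0 0 (step_sound _ 131 [(rh518d6f6eeebddcb2.shift 2 1), rh5ee4dc8825dcefa0] (by decide +kernel))
noncomputable def rhd9723bd4dcb9964d : CRef := CRef.mk (Pat.mk 0x8000000380000000c000000000000000000000000 0x40000000f0000003c0000000c0000001c0000001c00000014 6 6) 0 0 (step_sound _ 162 [(rh56259dd1390eee46.shift 2 0), (rhd652c19df8b64ee8.shift 1 1), (rhdbcea10a0fbe5ba6.shift 0 4)] (by decide +kernel))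
noncomputable def rh137c8bdba9f7c40d : CRef := CRef.mk (Pat.mk 0x1e000000040000000000000000 0x10000000300000001f0000003f0000000800000008 6 6) 0 0 (step_sound _ 65 [rhb32eb569dfc388a6, (rheb0810cc63b001d8.shift 0 2)] (by decide +kernel))
noncomputable def rh7c891f33103d3ff8 : CRef := CRef.mk (Pat.mk 0x70000000d000000000000000000000000 0xc0000001c0000001f0000000f0000001c0000000c00000008 6 5) 0 0 (step_sound _ 67 [(rh0f0086b71d574456.shift 0 1), (rhba9bff851075fa55.shift 0 1), (rhc38f566cab2818e5.shift 2 0)] (by decide +kernel))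
noncomputable def rh870588e15afe6a9b : CRef := CRef.mk (Pat.mk 0x4000000040000001c0000000400000000 0x1a0000003e000000370000001c0000000c00000008 6 6) 0 0 (step_sound _ 35 [(rh55afc6a59410cf00.shift 2 0), (rh67977f190b36298e.shift 0 1)] (by decide +kernel))
noncomputable def rha44bc320203d9c5b : CRef := CRef.mk (Pat.mk 0x800000008000000380000000c 0x1c0000001e0000000f0000003e0000000c 6 6) 0 0 (step_sound _ 34 [rh2ce463b89c35ba1e, (rh5c5e593799055d58.shift 2 0)] (by decide +kernel))
noncomputable def rhd38b80129ba10a1c : CRef := CRef.mk (Pat.mk 0x80000001800000018000000000000000000000000 0xc0000001f000000780000001e0000001c0000000c 6 7) 0 0 (step_sound _ 68 [(rh7b1f1fb55310c477.shift 3 1), rhd999cb3b477d32b5] (by decide +kernel))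
noncomputable def rh80987952958d1957 : CRef := CRef.mk (Pat.mk 0x200000002000000020000000200000000 0x700000007000000070000000300000003000000030000000200000002 6 3) 0 0 (step_sound _ 161 [rh2778abb7d7c839bf, (rh3ca48e2a6d60153d.shift 0 1), (rha6120682ef1101d2.shift 0 1), (rhc85cc95794737cf7.shift 0 2)] (by decide +kernel))
noncomputable def rh289509121354f2ab : CRef := CRef.mk (Pat.mk 0x80000001800000018000000000000000000000000 0x8000000180000007c0000001f0000001c00000018 6 7) 0 0 (step_sound _ 36 [rh7be21612c5f33858, (rh9e07f76261b05888.shift 3 1)] (by decide +kernel))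
noncomputable def rh74f4480cb2396f37 : CRef := CRef.mk (Pat.mk 0x8000000180000000800000000 0x100000001c0000003c0000000f0000001c0000001c0000000c 6 6) 0 0 (step_sound _ 131 [(rh22cde4a1aed087ae.shift 3 1), rh900a894640be090c, (rhf7168fb62545c8f0.shift 2 0)] (by decide +kernel))
noncomputable def rh6d9a4cae6f60466f : CRef := CRef.mk (Pat.mk 0x800000018000000080000001c00000000 0x60000000f0000001c0000000f0000003c00000008 6 6) 0 0 (step_sound _ 130 [(rh50fbb5868c909700.shift 2 1), rh92f68c9cec1358a6] (by decide +kernel))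
noncomputable def rh87942bdbd4f65244 : CRef := CRef.mk (Pat.mk 0x40000000c00000004000000000000000000000000 0x6000000060000000e0000003c0000000f0000000e00000006 6 6) 0 0 (step_sound _ 66 [(rh3ca4c10fdf355329.shift 0 1), (rha180f0047b0a8341.shift 1 0), (rhc4526fc8abf298b6.shift 1 0)] (by decide +kernel))
noncomputable def rh287cb85e87f09a73 : CRef := CRef.mk (Pat.mk 0x20000000300000002000000000000000000000000 0x4000000060000000600000002000000030000000300000007000000070000000700000001 6 3) 0 0 (step_sound _ 193 [(rh6eff4158bb400f47.shift 0 1), (rh7a7e08304268422e.shift 0 3), rhafd44d417107dbfd] (by decide +kernel))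
noncomputable def rh4b80b80a9bc4dfb4 : CRef := CRef.mk (Pat.mk 0x4000000070000000400000000 0x80000000e0000000e0000000600000006000000070000001e0000000a 6 5) 0 0 (step_sound _ 130 [(rh03dfdf12d5937476.shift 1 0), (rh69f0587a21bb077f.shift 1 1), rhb379f99078aafa2d] (by decide +kernel))
noncomputable def rhc207deb2a8b0fdd1 : CRef := CRef.mk (Pat.mk 0x800000008000000080000000c00000000 0x800000008000000ff0000007e000000f0 6 8) 0 0 (step_sound _ 36 [(rh55afc6a59410cf00.shift 3 0), rh64743f2f54677fb5] (by decide +kernel))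
noncomputable def rh6de5559f22718f33 : CRef := CRef.mk (Pat.mk 0x800000008000000080000001c00000000 0x40000000c00000008000000ff0000007e000000e0 6 8) 0 0 (step_sound _ 130 [(rh50fbb5868c909700.shift 2 1), rh64743f2f54677fb5] (by decide +kernel))
noncomputable def rh6d5e7e64c3b63e80 : CRef := CRef.mk (Pat.mk 0x18000000080000000800000010 0x40000000f0000007c000000080000001c00000014 6 7) 0 0 (step_sound _ 131 [rhadab1c9755d0d979, (rhd3458b32566d63f7.shift 3 0)] (by decide +kernel))
noncomputable def rh564214abbb813e6c : CRef := CRef.mk (Pat.mk 0x80000000c000000060000000400000000 0x20000000b0000003f0000003e0000003400000010 6 6) 0 0 (step_sound _ 100 [(rh18965a982d73c794.shift 1 2), rhb71093badcb98332] (by decide +kernel))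
noncomputable def rhe9722138ff9c2614 : CRef := CRef.mk (Pat.mk 0x8000000080000000c0000000800000000 0x40000000c0000000c0000003c0000000f0000000e 6 6) 0 0 (step_sound _ 34 [rh04aa474d63f24212, (rh932754581e0f4330.shift 2 0)] (by decide +kernel))
noncomputable def rh35a1a567c6ddaa06 : CRef := CRef.mk (Pat.mk 0x8000000180000001000000018 0x340000007f0000007e0000001800000018 6 7) 0 0 (step_sound _ 98 [(rh62aba1704cf9e462.shift 1 0), rh62e27c7b2e610708, (rh83b60cef9eb10cde.shift 1 0), (rhb0121edee88fe839.shift 0 2)] (by decide +kernel))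
noncomputable def rh31a08bb28ffc631b : CRef := CRef.mk (Pat.mk 0x8000000080000000c000000000000000000000000 0x140000003c0000000f0000001f000000780000001800000010 6 7) 0 0 (step_sound _ 67 [(rh42e615827c8908b1.shift 0 1), (rh5ee4dc8825dcefa0.shift 0 1), (rhf5e394b641108220.shift 2 0)] (by decide +kernel))
noncomputable def rh6c3bef0e0bea66d7 : CRef := CRef.mk (Pat.mk 0x8000000080000000c000000000000000000000000 0x140000003c0000000f0000001f0000003c0000001800000010 6 6) 0 0 (step_sound _ 67 [(rh5ee4dc8825dcefa0.shift 0 1), (rh8ff3dde5b1c639e0.shift 2 0), (rheecca8248285d065.shift 0 1)] (by decide +kernel))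
noncomputable def rhe901fa4a70699214 : CRef := CRef.mk (Pat.mk 0x8000000080000000c0000000400000000 0x140000003c0000000f0000000e0000007c00000018 6 7) 0 0 (step_sound _ 35 [rh245d56c915813f64, (rh36d4d92ef3dad5f8.shift 1 0)] (by decide +kernel))
noncomputable def rh3ac4f9f8de9b5641 : CRef := CRef.mk (Pat.mk 0x2000000038000000100000000000000000 0x8000000080000003f0000007e000000100000001000000010 6 7) 0 0 (step_sound _ 36 [(rh71222050f2c63a3a.shift 4 0), (rhd96a729988943d53.shift 0 1)] (by decide +kernel))
noncomputable def rhcbf43dbdbdad0e01 : CRef := CRef.mk (Pat.mk 0x40000000f000000020 0x7c000000fe00000037 6 8) 0 0 (step_sound _ 67 [(rh3f8766e6ecb455ce.shift 3 1), rhca7708e58eb7b0b4] (by decide +kernel))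
noncomputable def rh9f369c7d09b26250 : CRef := CRef.mk (Pat.mk 0x90000000e00000000 0xef0000007e00000070 6 8) 0 0 (step_sound _ 36 [(rh3f8766e6ecb455ce.shift 0 1), (rh84d1614f5efa9132.shift 1 0)] (by decide +kernel))
noncomputable def rh064e8b8c23404c51 : CRef := CRef.mk (Pat.mk 0x200000003800000000 0x3b7000001fe000001de 6 10) 0 0 (step_sound _ 38 [(rh06db8ceda6269a47.shift 2 0), rh1f9701c4cf497514, (rh84d1614f5efa9132.shift 3 0)] (by decide +kernel))
noncomputable def rh46f671a587fc5f09 : CRef := CRef.mk (Pat.mk 0x100000003c00000000 0x18000000ff000000e7 6 8) 0 0 (step_sound _ 1 [rh215bea315b07eadf, (rh80fcd6d0a18cb2dd.shift 1 0)] (by decide +kernel))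
noncomputable def rh7aa65f1654992f56 : CRef := CRef.mk (Pat.mk 0x1800000038000000000000000000000000 0x8000000080000001e0000003f000000370000001400000010 6 6) 0 0 (step_sound _ 130 [(rhb739f4f82bb681b4.shift 1 3), rhcca1caac63fa15f8] (by decide +kernel))
noncomputable def rhd467bd5f1da2c608 : CRef := CRef.mk (Pat.mk 0x1000000038000000080000000800000000 0x4000000170000003e0000007e0000006800000020 6 7) 0 0 (step_sound _ 98 [(rh0d378fd9e8917c5a.shift 0 2), (rh385919b2964b564c.shift 1 0), (rhe4f9133a81c1dbc5.shift 1 1)] (by decide +kernel))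
noncomputable def rh0c30f9933bd0a1cc : CRef := CRef.mk (Pat.mk 0xa0000001e000000020000000000000000 0x20000000a0000001f0000003e0000003400000014 6 6) 0 0 (step_sound _ 68 [(rhe25b0a99195a5d59.shift 1 2), rhf2f5c96e69e371c4] (by decide +kernel))
noncomputable def rh8543cd1365a92669 : CRef := CRef.mk (Pat.mk 0x60000001e000000020000000000000000 0x2000000060000001f0000003e0000000700000006 6 6) 0 0 (step_sound _ 33 [rh57789c48acc5fc97, (rh71222050f2c63a3a.shift 1 0)] (by decide +kernel))
noncomputable def rhd4dbcf7e7025eab2 : CRef := CRef.mk (Pat.mk 0x2000000038000000000000000000000000 0x2000000020000000200000007e000000ff0000005000000050 6 8) 0 0 (step_sound _ 66 [(rh0ad57a4c383b6596.shift 2 0), (rh3cc5c7fb74c49f61.shift 0 2), (rh976ffbf1bb8b5d82.shift 1 0)] (by decide +kernel))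
noncomputable def rhc49802432115d3c0 : CRef := CRef.mk (Pat.mk 0x2000000038000000000000000000000000 0x20000000200000002f0000007e000000f00000005000000050 6 8) 0 0 (step_sound _ 130 [(rh2598feaa2162b66a.shift 1 0), (rh4df35fbc131eb4ae.shift 0 3), (rhaca49fe9a456473e.shift 2 0)] (by decide +kernel))
noncomputable def rhae989a2da3f077de : CRef := CRef.mk (Pat.mk 0x10000000100000001c0000000800000000 0x1000000017000000ff0000007c00000020 6 8) 0 0 (step_sound _ 36 [(rh42afa1af9fffa0e1.shift 2 0), (rhdaf210947b47bcf0.shift 0 1)] (by decide +kernel))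
noncomputable def rh2dabdb57fed8c104 : CRef := CRef.mk (Pat.mk 0xe0000000400000004 0x2000000e30000007e0000007f00000004 6 8) 0 0 (step_sound _ 68 [(rhaf9f2efc81a8312b.shift 0 1), (rhb8de41a89a9d4634.shift 1 1), rhe4f9133a81c1dbc5] (by decide +kernel))
noncomputable def rh4c124a044c8751c2 : CRef := CRef.mk (Pat.mk 0x80000001e000000100000000000000000 0x80000000a0000000b0000003e000000170000000400000004 6 6) 0 0 (step_sound _ 163 [(rh2145e1d24b96a57e.shift 3 2), rh5f27e0477c371a96] (by decide +kernel))
noncomputable def rh6ebd0df19ee0dbf0 : CRef := CRef.mk (Pat.mk 0x8000000080000000c0000000800000000 0x80000000c0000000c0000000f0000003c0000001800000008 6 6) 0 0 (step_sound _ 130 [(rh50fbb5868c909700.shift 2 1), rhf69753f40be11ffd] (by decide +kernel))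
noncomputable def rh0cc5ec3dc7c29722 : CRef := CRef.mk (Pat.mk 0x2000000020000000300000002 0x1000000070000000700000006000000030000000700000006 6 3) 0 0 (step_sound _ 130 [(rhbaefcd01e0a8bca3.shift 1 0), rhd68c2cbe7e6f2476] (by decide +kernel))
noncomputable def rh08012ed6c4594933 : CRef := CRef.mk (Pat.mk 0x80000000c0000000800000000 0x140000001c0000001c000000080000001f0000007800000010 6 7) 0 0 (step_sound _ 36 [(rh4ca5dae25f5c14ff.shift 0 1), (rh84a81c62fa3496eb.shift 2 0), (rhfb9fb48a5e63ed80.shift 2 0)] (by decide +kernel))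
noncomputable def rh9354b7b2a570d770 : CRef := CRef.mk (Pat.mk 0x400000006000000040000000000000000 0x600000006000000060000003c0000000f0000000e 6 6) 0 0 (step_sound _ 34 [rh957e3bb4c843b184, (rhe286c75f2739cce2.shift 1 0)] (by decide +kernel))
noncomputable def rhd64f76a341f4c837 : CRef := CRef.mk (Pat.mk 0x8000000080000000c000000000000000000000000 0xc0000000c0000001f0000007c0000001c0000000c 6 7) 0 0 (step_sound _ 34 [(rh06181a2dc624c6f8.shift 2 1), rh7c89696386b0ace1, (rhd5b92086fe7b06e3.shift 2 0), (rhdebc43b768884653.shift 2 0)] (by decide +kernel))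
noncomputable def rh945107b05449e21d : CRef := CRef.mk (Pat.mk 0x80000000c000000040000000400000000 0x600000006000000160000003f0000003f0000000c0000000c00000008 6 6) 0 0 (step_sound _ 130 [rh60f7890073fd1121, (rhcbaa34959f85e2ef.shift 1 0), (rhcf85c92937975d4d.shift 0 1)] (by decide +kernel))
noncomputable def rh89360365b525388b : CRef := CRef.mk (Pat.mk 0x180000000c0000000400000004 0x2000000020000001f000000ff0000007c00000004 6 8) 0 0 (step_sound _ 65 [rh250a8c2104de9e53, (rh53b3c253cb0c65f4.shift 0 2)] (by decide +kernel))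
noncomputable def rhafcf0f410019ba61 : CRef := CRef.mk (Pat.mk 0x1c0000000600000000 0xa0000000a0000003b0000001f0000003600000014 6 6) 0 0 (step_sound _ 65 [rh52b4b7b516a7d39e, rhbdb8dfd08861fbf7] (by decide +kernel))
noncomputable def rh1c8b283f34188255 : CRef := CRef.mk (Pat.mk 0xc0000000c000000040000000400000000 0x100000007c0000000e0000003c0000000f0000000a 6 7) 0 0 (step_sound _ 35 [(rh55afc6a59410cf00.shift 2 0), rha79fd047665f38c2] (by decide +kernel))
noncomputable def rhc7b7c9dcf089a3c8 : CRef := CRef.mk (Pat.mk 0x40000000c000000040000000400000000 0xc0000000c0000000c0000003c0000000f0000000a 6 6) 0 0 (step_sound _ 131 [(rh2f68792b6b779e96.shift 2 1), rh85480f11efc1e555] (by decide +kernel))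
noncomputable def rhbc3cf88a7322bd1d : CRef := CRef.mk (Pat.mk 0xc00000004000000040000000800000000 0x40000000c0000000c0000003f0000003f00000016 6 6) 0 0 (step_sound _ 67 [(rh2145e1d24b96a57e.shift 2 1), rh935379d135da50db] (by decide +kernel))
noncomputable def rh77ff1c64e6af3eee : CRef := CRef.mk (Pat.mk 0x100000006000000020000000200000002000000020000000000000000 0x1000000030000001e000000020000000200000002000000070000000700000005 6 5) 0 0 (step_sound _ 225 [(rh50fbb5868c909700.shift 0 4), rh733d1d00f1f64c0d] (by decide +kernel))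
noncomputable def rh6dbe2e0c00e42e82 : CRef := CRef.mk (Pat.mk 0x18000000080000000800000000 0xc0000000f0000007c000000780000001e00000014 6 7) 0 0 (step_sound _ 131 [(rh3ca4c10fdf355329.shift 1 0), (rhca405e350c462817.shift 0 1)] (by decide +kernel))
noncomputable def rhd48d440cb11ecd47 : CRef := CRef.mk (Pat.mk 0x7000000060000000000000000 0x20000000a0000003b0000003f0000001e0000000400000004 6 6) 0 0 (step_sound _ 67 [rh264b7e37c2b851ad, (rhf48373e13d2bc128.shift 0 2)] (by decide +kernel))
noncomputable def rh3285af83a6590a9b : CRef := CRef.mk (Pat.mk 0x380000001000000000 0x8000000080000000e0000007e0000007700000004 6 7) 0 0 (step_sound _ 66 [(rh21460d2d48a35cb8.shift 1 0), (rha03f6e28ea70fc7d.shift 1 1), (rhb2432c16363a7e8d.shift 0 1)] (by decide +kernel))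
noncomputable def rhea07c87beae5a536 : CRef := CRef.mk (Pat.mk 0x380000001000000000 0x8000000080000007e0000007e0000003700000004 6 7) 0 0 (step_sound _ 66 [(rh21460d2d48a35cb8.shift 1 0), (rh89541de5a22835bc.shift 1 1), (rhb2432c16363a7e8d.shift 0 1)] (by decide +kernel))
noncomputable def rh7a1239c2a7481f1d : CRef := CRef.mk (Pat.mk 0x1c0000002800000000 0x400000004000000070000003e0000003b00000002 6 6) 0 0 (step_sound _ 65 [rh44dd78dd79fc4e0b, (rh96851dee118c1ba3.shift 1 1)] (by decide +kernel))
noncomputable def rh88c33ddc81ae723f : CRef := CRef.mk (Pat.mk 0x3800000000 0x1ff000000fe000001c7 6 9) 0 0 (step_sound _ 70 [(rh149367f9f1f8871e.shift 2 0), rh5e601430b8bc2e39, (rhb8022f71dc28021b.shift 2 1)] (by decide +kernel))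
noncomputable def rh8eb802601c3407c8 : CRef := CRef.mk (Pat.mk 0x100000001e0000001400000000 0xa0000000b0000001f0000003e0000001400000010 6 6) 0 0 (step_sound _ 97 [rh0d7edd0d506f3208, (rh3244c3cc8379b070.shift 0 2)] (by decide +kernel))
noncomputable def rhf523acf13cdf2c94 : CRef := CRef.mk (Pat.mk 0x380000001000000000 0x2000000020000000f70000007e000000f000000040 6 8) 0 0 (step_sound _ 38 [(rh1192c4d5e58678ce.shift 2 0), (rh7344b4efa7925350.shift 2 1), (rhd5041491555e8d86.shift 3 1), (rhe72638161d8d23e1.shift 0 1)] (by decide +kernel))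
noncomputable def rhbd5d669524b54f35 : CRef := CRef.mk (Pat.mk 0xa0000000c000000040000000400000000 0x60000000e0000000c0000003c0000000f0000000a 6 6) 0 0 (step_sound _ 130 [(rh50fbb5868c909700.shift 1 1), rh85480f11efc1e555] (by decide +kernel))
noncomputable def rh8712c5361ad0bd83 : CRef := CRef.mk (Pat.mk 0x1c00000018000000080000000800000000 0x600000003f0000001f000000180000001800000010 6 7) 0 0 (step_sound _ 36 [(rh2887e039268cde47.shift 0 1), (rh55afc6a59410cf00.shift 3 0)] (by decide +kernel))
noncomputable def rh7cf536b4f4368020 : CRef := CRef.mk (Pat.mk 0xa0000001c00000004 0x3b000000fe0000007c 6 8) 0 0 (step_sound _ 33 [(rh3244c3cc8379b070.shift 0 1), (rh7a6a5778104bcb94.shift 1 0)] (by decide +kernel))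
noncomputable def rh382622e5e38af35d : CRef := CRef.mk (Pat.mk 0xa0000000e00000004 0x3b000000fe0000007c 6 8) 0 0 (step_sound _ 36 [(rh3244c3cc8379b070.shift 0 1), (rh7a6a5778104bcb94.shift 1 0)] (by decide +kernel))
noncomputable def rhd1108d9b1d500edb : CRef := CRef.mk (Pat.mk 0x180000000e000000000000000000000000 0x10000000380000001f000000fe000000f80000001800000010 6 8) 0 0 (step_sound _ 100 [(rh883451bd3feec117.shift 0 2), (rhbbe16ff26f7822db.shift 1 0), (rhd2705a941542c9fb.shift 0 1)] (by decide +kernel))
noncomputable def rh8207c390894fcc55 : CRef := CRef.mk (Pat.mk 0x120000001c0000000000000000 0x6000000070000001e0000003f0000000700000006 6 6) 0 0 (step_sound _ 98 [rh9a88f10b79d859a2, (rhf48373e13d2bc128.shift 1 2)] (by decide +kernel))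
noncomputable def rhcced098220cbedd0 : CRef := CRef.mk (Pat.mk 0x380000000c0000000000000000 0x14000000170000003e0000007c0000006800000028 6 7) 0 0 (step_sound _ 98 [(rh014abbda9a411227.shift 1 0), (rh2456963ff1f7bf23.shift 0 2), (rh38a0850c9fea941e.shift 1 0)] (by decide +kernel))
noncomputable def rh255316902b52f0fe : CRef := CRef.mk (Pat.mk 0x40000000c0000000600000000 0x200000002000000370000003e0000000700000004 6 6) 0 0 (step_sound _ 68 [rh01ac144ba8866706, (rh18965a982d73c794.shift 1 1)] (by decide +kernel))
noncomputable def rh3b62b024c5dff9ca : CRef := CRef.mk (Pat.mk 0x1c000000080000000c0000000800000000 0x7e0000007e0000000f0000001800000010 6 7) 0 0 (step_sound _ 36 [(rh36449903dde31c08.shift 0 1), (rh55afc6a59410cf00.shift 3 0)] (by decide +kernel))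
noncomputable def rh04aabb2cf50b542e : CRef := CRef.mk (Pat.mk 0x8000000080000000c0000000800000000 0x10000000180000007c0000000f0000001800000018 6 7) 0 0 (step_sound _ 36 [rh554948a6834eedab, (rh55afc6a59410cf00.shift 3 0)] (by decide +kernel))
noncomputable def rhbb58234f899084b7 : CRef := CRef.mk (Pat.mk 0x1000000020000000200000002000000000000000000000000 0x100000007000000070000000600000002000000060000000600000004 6 3) 0 0 (step_sound _ 65 [rhf3b6c0376da067e2, (rhffd04209dc8ea796.shift 0 2)] (by decide +kernel))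
noncomputable def rh4fafabba44a8af95 : CRef := CRef.mk (Pat.mk 0x20000000200000003000000020000000000000000 0x5000000070000000700000006000000060000000700000003000000060000000600000004 6 3) 0 0 (step_sound _ 193 [(rh40258e4c7a147e8b.shift 0 2), (rh6c59ce14113da07f.shift 1 0), (rhb77bfac3e9efecea.shift 0 3)] (by decide +kernel))
noncomputable def rh8146230b61a7ca44 : CRef := CRef.mk (Pat.mk 0x800000008000000080000000800000000 0x140000003c0000000f000000080000001800000018 6 6) 0 0 (step_sound _ 130 [(rh50fbb5868c909700.shift 2 1), rh7ec2caf51ec36d5d] (by decide +kernel))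
noncomputable def rh310efc5b3d2b718c : CRef := CRef.mk (Pat.mk 0xc0000000c00000008 0xc0000001c0000007c0000001f0000000c00000008 6 7) 0 0 (step_sound _ 130 [rh50fd44597237198a, (rh6f1cbe15c631ee70.shift 2 0)] (by decide +kernel))
noncomputable def rhca225377b428fd40 : CRef := CRef.mk (Pat.mk 0x40000000600000004000000000000000000000000 0xc0000000e0000000e0000003c0000000f0000000e00000002 6 6) 0 0 (step_sound _ 66 [(rh2c3719f5c9f33c1b.shift 1 1), (rh5192e84255fe3228.shift 1 0), (rh957e3bb4c843b184.shift 0 1)] (by decide +kernel))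
noncomputable def rhe2a8ccbb586eb10a : CRef := CRef.mk (Pat.mk 0xe00000006000000040000000400000000 0x300000003f0000003e0000000c0000000c00000008 6 6) 0 0 (step_sound _ 132 [(rh18965a982d73c794.shift 1 3), rh462de1bc08c3f8eb] (by decide +kernel))
noncomputable def rh03ad4c59dddea800 : CRef := CRef.mk (Pat.mk 0xe00000004000000060000000400000000 0x40000000f0000003c0000000e0000003c00000018 6 6) 0 0 (step_sound _ 35 [rh1e996525357a5a4d, (rh55afc6a59410cf00.shift 2 0)] (by decide +kernel))
noncomputable def rh2e7f8a2729b51c54 : CRef := CRef.mk (Pat.mk 0x40000000c0000000c00000000 0xe0000000f0000003c0000000c0000000c00000004 6 6) 0 0 (step_sound _ 130 [(rh2145e1d24b96a57e.shift 2 1), rh305945700f20b255] (by decide +kernel))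
noncomputable def rhb5a4a55aeb8feb4e : CRef := CRef.mk (Pat.mk 0x800000008000000180000000c00000000 0x140000003c0000000f000000180000000f00000008 6 6) 0 0 (step_sound _ 33 [(rh53b3c253cb0c65f4.shift 0 1), rh900a894640be090c] (by decide +kernel))
noncomputable def rh8c32cdf3ee44b1a1 : CRef := CRef.mk (Pat.mk 0x8000000180000001c00000000 0xc0000000c0000001f000000780000001c00000008 6 7) 0 0 (step_sound _ 69 [(rh18965a982d73c794.shift 2 1), rhbdade720c6084246] (by decide +kernel))
noncomputable def rh78930660e7f6e098 : CRef := CRef.mk (Pat.mk 0x8000000180000001c000000000000000000000000 0xc0000000c0000001c000000180000001f000000080000000800000008 6 5) 0 0 (step_sound _ 97 [(rh53b3c253cb0c65f4.shift 0 3), (rhf7c77fe48087fd5b.shift 2 0)] (by decide +kernel))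
noncomputable def rh189f6da603e56c10 : CRef := CRef.mk (Pat.mk 0x8000000380000000a000000000000000000000000 0x400000004000000060000001f0000003a0000000a0000001a0000001800000010 6 6) 0 0 (step_sound _ 162 [(rh39b036797fb07457.shift 2 0), (rh4debe05c95570ec5.shift 0 2), (rhc02b3aee7ab87ee1.shift 0 4)] (by decide +kernel))
noncomputable def rhaf2b9bac8c1da909 : CRef := CRef.mk (Pat.mk 0x30000000100000001000000010 0xf0000007e000000ff0000001000000010 6 8) 0 0 (step_sound _ 99 [(rh46a15bb68c6932e8.shift 0 2), (rh50fbb5868c909700.shift 3 0)] (by decide +kernel))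
noncomputable def rh72bf706c4c313654 : CRef := CRef.mk (Pat.mk 0x1800000008000000080000000800000000 0xc0000003c0000000f000000180000001800000018 6 6) 0 0 (step_sound _ 36 [(rh55afc6a59410cf00.shift 3 0), rhb723d1ca7da5e7fc] (by decide +kernel))
noncomputable def rhd05e87ad4f65f5c9 : CRef := CRef.mk (Pat.mk 0xc0000000c000000080000001800000000 0xc0000001f0000007b0000001f00000006 6 7) 0 0 (step_sound _ 34 [rh10c9885c5c36a302, (rh932754581e0f4330.shift 2 0)] (by decide +kernel))
noncomputable def rh0217321854dc2510 : CRef := CRef.mk (Pat.mk 0x80000000c0000000800000000 0x140000001c0000001c000000080000001f0000007800000010 6 7) 0 0 (step_sound _ 36 [(rh14e0829dc73b6804.shift 2 0), (rh4ca5dae25f5c14ff.shift 0 1), (rh84a81c62fa3496eb.shift 2 0)] (by decide +kernel))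
noncomputable def rh6bc3ca0a67fd5927 : CRef := CRef.mk (Pat.mk 0x10000000380000000800000000 0x10000000100000007f0000003f0000007800000020 6 7) 0 0 (step_sound _ 132 [(rh5c5e593799055d58.shift 3 1), rha8a5cb6795097bad] (by decide +kernel))
noncomputable def rha5814c4f9bea8f0a : CRef := CRef.mk (Pat.mk 0x380000000c0000000000000000 0x10000000140000007f0000003e0000007c0000000800000008 6 7) 0 0 (step_sound _ 98 [(rh2456963ff1f7bf23.shift 0 2), (rh38a0850c9fea941e.shift 1 0), (rha7537a2bac798a50.shift 1 0)] (by decide +kernel))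
noncomputable def rh3e5f3881f4dd74e3 : CRef := CRef.mk (Pat.mk 0x100000003800000020 0x1000000010000000170000003e00000067 6 7) 0 0 (step_sound _ 34 [rhcf78f438612a54e7, (rhe25b0a99195a5d59.shift 2 0)] (by decide +kernel))
noncomputable def rhfcb09660cf2634b3 : CRef := CRef.mk (Pat.mk 0x20000000e000000030000000200000000 0x4000000060000000e0000001b0000001f0000000d 6 5) 0 0 (step_sound _ 130 [(rh2f68792b6b779e96.shift 1 1), rh4b8e6fc33adf8fa2] (by decide +kernel))
noncomputable def rh9b0209aed1a9bd83 : CRef := CRef.mk (Pat.mk 0x8000000180000000e0000001000000000 0x1000000018000000180000003e0000003f0000000c 6 6) 0 0 (step_sound _ 68 [rhce642ec05c11f63a, (rhe25b0a99195a5d59.shift 1 1)] (by decide +kernel))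
noncomputable def rhc71ef7b4c7994ef8 : CRef := CRef.mk (Pat.mk 0x180000000b0000000800000000 0x80000000c0000001c0000001c000000180000001b0000001e00000014 6 5) 0 0 (step_sound _ 131 [(rh2d81c31c55e8d97c.shift 2 1), rh5045a7dd3c2710bf, (rh5abfc4c9d959be03.shift 2 0)] (by decide +kernel))
noncomputable def rhe697280370e33871 : CRef := CRef.mk (Pat.mk 0x7800000000 0x7000000ff0000003f 6 8) 0 0 (step_sound _ 34 [rh592c7139d2c44767, rh7bf405d4f6ac0e1d, (rheae1728ff4a56756.shift 1 0)] (by decide +kernel))
noncomputable def rhcd775d34464bbbba : CRef := CRef.mk (Pat.mk 0x8000000080000001c0000000600000000 0x140000003c0000001f0000001c0000007e00000073 6 7) 0 0 (step_sound _ 35 [rh622e1e57e499877e, rh64d618d94720dd56, (rh806a30ccd3d3e25c.shift 2 0)] (by decide +kernel))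
noncomputable def rh918b0812210e34aa : CRef := CRef.mk (Pat.mk 0x10000000180000000e00000000 0x8000000080000001c0000001e00000078000000180000003e00000027 6 7) 0 0 (step_sound _ 132 [rh51897c97414d951a, (rh5c5e593799055d58.shift 3 1)] (by decide +kernel))
noncomputable def rh4f3c983e7b2d8da3 : CRef := CRef.mk (Pat.mk 0x6000000030000000200000000000000000000000000000000 0x400000006000000030000000300000006000000070000000700000001 6 3) 0 0 (step_sound _ 97 [(rh2f68792b6b779e96.shift 1 3), rh4ed972033d0a12ff] (by decide +kernel))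
noncomputable def rh3838695ed662e381 : CRef := CRef.mk (Pat.mk 0x280000000e000000000000000000000000 0x8000000080000003b0000001e000000380000001000000010 6 6) 0 0 (step_sound _ 100 [rh3ae2a81de1ccbc00, (rh428265de8cd3cd2d.shift 1 3)] (by decide +kernel))
noncomputable def rheff8110d9b1b930c : CRef := CRef.mk (Pat.mk 0x100000001c000000000000000000000000 0x1000000010000000170000003e000000ff0000002000000020 6 8) 0 0 (step_sound _ 69 [(rh3c496f0192831080.shift 2 0), (rh4d4ddb36715783b7.shift 0 2), (rh6aa0ed61cce1493b.shift 1 2), (rh782848cf5e4b1e5e.shift 1 2), (rhb7ad091321cde676.shift 0 2)] (by decide +kernel))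
noncomputable def rh2850f27872319b80 : CRef := CRef.mk (Pat.mk 0x8000000080000000c0000000800000000 0x140000001e000000780000000f0000000800000008 6 7) 0 0 (step_sound _ 132 [(rh2f68792b6b779e96.shift 3 1), rhe02097ed614683eb] (by decide +kernel))
noncomputable def rh37fa50f05af30c38 : CRef := CRef.mk (Pat.mk 0x80000000e000000000000000000000000 0xa0000003b0000003e000000770000001400000014 6 7) 0 0 (step_sound _ 100 [(rh06db8ceda6269a47.shift 0 2), rh22f53ba2f05af569, (rh2510c9405f884362.shift 1 0)] (by decide +kernel))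
noncomputable def rh5ea8f42d615ea461 : CRef := CRef.mk (Pat.mk 0x100000001e000000120000000000000000 0x4000000140000003f0000001e0000000b0000000a 6 6) 0 0 (step_sound _ 67 [rh527b973b6d979a4b, (rhb739f4f82bb681b4.shift 0 2)] (by decide +kernel))
noncomputable def rhf7850a566a9aff66 : CRef := CRef.mk (Pat.mk 0x80000000e000000100000000000000000 0x20000000b0000003e000000370000000400000004 6 6) 0 0 (step_sound _ 100 [rh2395824d1086e2bc, (rhe25b0a99195a5d59.shift 1 2)] (by decide +kernel))
noncomputable def rh4854df16bb655f33 : CRef := CRef.mk (Pat.mk 0x10000000100000001c0000000800000000 0x1000000017000000ff0000007c00000020 6 8) 0 0 (step_sound _ 36 [(rh42afa1af9fffa0e1.shift 2 0), (rhad5d8fc3675c15dd.shift 0 1), (rhdaf210947b47bcf0.shift 0 1)] (by decide +kernel))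
noncomputable def rh3678ff18c2db4615 : CRef := CRef.mk (Pat.mk 0x100000001c000000000000000000000000 0x1000000010000000170000003e000000770000002000000020 6 7) 0 0 (step_sound _ 101 [(rh592c7139d2c44767.shift 0 2), (rh65dcfd18fd55cba0.shift 2 0), (rhfdf52a061710c7fa.shift 0 2)] (by decide +kernel))
noncomputable def rh72010f2280fa7e86 : CRef := CRef.mk (Pat.mk 0x8000000080000001c000000000000000400000000 0x8000000380000001f000000f00000003e00000010 6 8) 0 0 (step_sound _ 68 [(rh08edf065357d68e5.shift 3 0), (rh3bb201def308172f.shift 1 0), (rh3ce854f4a795c89f.shift 0 2)] (by decide +kernel))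
noncomputable def rh9257749e8d852887 : CRef := CRef.mk (Pat.mk 0x1e000000040000000000000000 0x800000008000000380000001f000000340000001400000004 6 6) 0 0 (step_sound _ 132 [(rh33e738c4ed385b9f.shift 1 3), rhb3c5b7e3415540e9] (by decide +kernel))
noncomputable def rhbe3c062e3a46bf62 : CRef := CRef.mk (Pat.mk 0x800000008000000080000000c00000000 0xc0000000c0000000c0000003c0000000f0000000a 6 6) 0 0 (step_sound _ 130 [(rh50fbb5868c909700.shift 2 1), rhc0b6beb59387c71c] (by decide +kernel))
noncomputable def rh0ac2cf60ab15cc3f : CRef := CRef.mk (Pat.mk 0x1e0000000000000000 0x8000000080000003b0000001f0000003000000010 6 6) 0 0 (step_sound _ 100 [(rh33e738c4ed385b9f.shift 1 2), rhdfc40e6893bf1bea] (by decide +kernel))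
noncomputable def rh04725cccf4f32c57 : CRef := CRef.mk (Pat.mk 0x20000001a00000003000000000000000000000000 0x100000007000000070000000f0000001b00000003000000060000000600000006 6 5) 0 0 (step_sound _ 65 [(rh42ab489a1be3958e.shift 0 2), rhbd78a571ffa91fb9, (rhdc5671191cba2261.shift 0 1)] (by decide +kernel))
noncomputable def rh71c91e0c7d2a8491 : CRef := CRef.mk (Pat.mk 0x1e000000000000000000000000 0x10000000330000001f000000380000000800000008 6 6) 0 0 (step_sound _ 129 [(rh3244c3cc8379b070.shift 0 3), rhf459621b93742302] (by decide +kernel))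
noncomputable def rh3c1435e6c3bb88bc : CRef := CRef.mk (Pat.mk 0x1c00000006000000020000000000000000 0x80000000a0000001f0000003e000000370000001600000006 6 6) 0 0 (step_sound _ 33 [rh2bc88489005fb725, (rh71222050f2c63a3a.shift 1 0)] (by decide +kernel))
noncomputable def rh1bb71aebb3c2ab8b : CRef := CRef.mk (Pat.mk 0x8000000080000001c0000000600000000 0x160000003f0000007f0000001c0000000e0000000a 6 7) 0 0 (step_sound _ 130 [rhc2dc5c0498e32daa, rhc3a9559c72b00d0b, (rhc86e3ab3c2b165e9.shift 1 0)] (by decide +kernel))
noncomputable def rhd7fec266624cb6ac : CRef := CRef.mk (Pat.mk 0x8000000080000000c00000000 0x140000003c0000000f000000080000000c0000000c 6 6) 0 0 (step_sound _ 131 [rh59c6c9d9132801ae, (rh932754581e0f4330.shift 2 0)] (by decide +kernel))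
noncomputable def rh9688a966abf0771e : CRef := CRef.mk (Pat.mk 0x3800000010000000100000001000000000 0x70000007e0000007f000000100000001000000010 6 7) 0 0 (step_sound _ 130 [(rh8c079dd4a460bae4.shift 0 3), (rhea2427b0cd6fd6e8.shift 1 0), (rhfe3d17030513ae3d.shift 1 0)] (by decide +kernel))
noncomputable def rhe2351b2f0e4a32a8 : CRef := CRef.mk (Pat.mk 0x100000002000000020000000300000000000000000000000000000000 0x500000007000000070000000300000003000000030000000200000002 6 3) 0 0 (step_sound _ 97 [rh9b55d31e0673a43a, (rhffd04209dc8ea796.shift 0 3)] (by decide +kernel))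
noncomputable def rhda3a4b20dc1ede86 : CRef := CRef.mk (Pat.mk 0x1c000000060000000400000000 0x12000000330000001f0000003e0000000c00000008 6 6) 0 0 (step_sound _ 97 [(rh309fd0c3d364cd61.shift 0 1), rhb32eb569dfc388a6] (by decide +kernel))
noncomputable def rha8e73d70fa5f2506 : CRef := CRef.mk (Pat.mk 0x1c000000060000000400000000 0xa0000003b0000001f000000360000001400000010 6 6) 0 0 (step_sound _ 97 [(rh309fd0c3d364cd61.shift 0 1), rh5dffc5561274dae0] (by decide +kernel))
noncomputable def rh6a488857888876b5 : CRef := CRef.mk (Pat.mk 0xc0000000c0000000800000000 0x80000001c0000003c0000000f0000000c0000001c00000010 6 6) 0 0 (step_sound _ 131 [(rh503dd4575245365b.shift 2 1), rhefbc696f9a360272] (by decide +kernel))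
noncomputable def rh2c88baba8a8d3393 : CRef := CRef.mk (Pat.mk 0xc0000000c000000080000000800000000 0xc0000000c0000003f0000001f00000017 6 6) 0 0 (step_sound _ 36 [(rh55afc6a59410cf00.shift 3 0), rhe50b01f4bc1b5579] (by decide +kernel))
noncomputable def rhed8a7363a3d11d93 : CRef := CRef.mk (Pat.mk 0x4000000060000000400000000 0x20000000600000006000000040000000f0000003e0000000a 6 6) 0 0 (step_sound _ 130 [(rh03dfdf12d5937476.shift 1 0), rh1861173042f24e9a, (rh87e1d7e6dc3a18b6.shift 1 0)] (by decide +kernel))
noncomputable def rh1db2eb51bd6148ac : CRef := CRef.mk (Pat.mk 0x20000000700000001800000000 0x2000000020000000fe0000007f000000d800000040 6 8) 0 0 (step_sound _ 133 [(rh5c5e593799055d58.shift 4 1), rh6fe773d73169ef2e] (by decide +kernel))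
noncomputable def rh1c31f1c2944b3cd9 : CRef := CRef.mk (Pat.mk 0x80000001c000000060000000000000000 0x60000000f0000001c0000000e0000003c0000001c 6 6) 0 0 (step_sound _ 34 [(rh71222050f2c63a3a.shift 2 0), rhf91024f60c87bdf0] (by decide +kernel))
noncomputable def rh8bbab61d4dfe2880 : CRef := CRef.mk (Pat.mk 0x180000000e0000000000000000 0x18000000380000001f0000003e0000003800000018 6 6) 0 0 (step_sound _ 68 [rhd2705a941542c9fb, (rhea719cc8bd0bdd28.shift 1 0)] (by decide +kernel))
noncomputable def rhcee2bf619c9d7021 : CRef := CRef.mk (Pat.mk 0x80000003c0000000c 0x1c0000001e0000000f0000003e0000000c 6 6) 0 0 (step_sound _ 99 [(rh5c5e593799055d58.shift 2 0), rh9fb04752e091cf55] (by decide +kernel))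
noncomputable def rh7da40384dbaf7947 : CRef := CRef.mk (Pat.mk 0x800000008000000180000000e00000000 0x8000000080000001f000000fe000000f0 6 8) 0 0 (step_sound _ 36 [(rh55afc6a59410cf00.shift 3 0), rh883451bd3feec117] (by decide +kernel))
noncomputable def rhd3f1e0ec0dcd03b5 : CRef := CRef.mk (Pat.mk 0x8000000180000000c000000000000000000000000 0x40000001c0000001c0000001f0000003c0000001c0000000c 6 6) 0 0 (step_sound _ 97 [(rh0324bce79e7043da.shift 1 0), (rh53b3c253cb0c65f4.shift 0 3)] (by decide +kernel))
noncomputable def rhcfe8a8c639cd66cb : CRef := CRef.mk (Pat.mk 0x70000000180000000800000000 0x100000003e0000007f000000180000000800000008 6 7) 0 0 (step_sound _ 132 [rh06e896084169fd9d, (rh5c5e593799055d58.shift 3 1)] (by decide +kernel))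
noncomputable def rhe7a4aa5c2cf540ff : CRef := CRef.mk (Pat.mk 0x10000000180000000e000000000000000000000000 0x2000000330000001f0000003e000000070000000400000004 6 6) 0 0 (step_sound _ 129 [rh24e72371d7873615, (rh9160f25ba4516b22.shift 0 3), (rh9458e878ee940312.shift 0 1)] (by decide +kernel))
noncomputable def rh8bb5c0a4bcaaabfd : CRef := CRef.mk (Pat.mk 0x2000000020000000300000001c0000000000000000 0x1000000034000000760000003f0000007c0000000e00000008 6 7) 0 0 (step_sound _ 98 [(rh01db3c8091e52d57.shift 0 2), (rh0ba4dbec80dfb4d4.shift 1 1), (rh9458e878ee940312.shift 1 0)] (by decide +kernel))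
noncomputable def rhb388751587d90a9c : CRef := CRef.mk (Pat.mk 0x8000000080000000c0000001800000000 0x140000001c000000780000001f0000001800000008 6 7) 0 0 (step_sound _ 65 [(rhb739f4f82bb681b4.shift 0 1), (rhbba2711d85e3cb4c.shift 1 0)] (by decide +kernel))
noncomputable def rhd0c0061ffd79e485 : CRef := CRef.mk (Pat.mk 0x100000001e00000000 0x1c000000fe000000e7 6 8) 0 0 (step_sound _ 1 [(rh41c1047bb2f5cc8a.shift 1 0), rheb0810cc63b001d8] (by decide +kernel))
noncomputable def rhf837b647683b286b : CRef := CRef.mk (Pat.mk 0x300000001c000000080000000800000000 0x28000000380000001c0000007f0000007c00000034 6 7) 0 0 (step_sound _ 36 [(rh10a6a2f52f973296.shift 3 0), (rhade1ea1e06278213.shift 1 0), rhf19240af8a218f1b] (by decide +kernel))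
noncomputable def rhf061e61953401a2f : CRef := CRef.mk (Pat.mk 0x400000004000000040000000400000000 0xa0000000f0000003c000000040000000c0000000c 6 6) 0 0 (step_sound _ 35 [rh305945700f20b255, (rh55afc6a59410cf00.shift 2 0)] (by decide +kernel))
noncomputable def rh8908eb36e9e69c2d : CRef := CRef.mk (Pat.mk 0x40000001e000000060000000000000000 0x10000000340000001e0000003e0000000b0000000a 6 6) 0 0 (step_sound _ 33 [(rh71222050f2c63a3a.shift 1 0), rha703f82316c7240b] (by decide +kernel))
noncomputable def rhabb291f42b829af0 : CRef := CRef.mk (Pat.mk 0x300000001c000000080000000800000000 0x270000003f0000001c0000007e0000007e00000034 6 7) 0 0 (step_sound _ 131 [(rh6cb0e5959253c9cf.shift 1 0), rh795a9fa361f5265f, (rhd8d5fbf074709d68.shift 1 0)] (by decide +kernel))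
noncomputable def rhbda66704d489f772 : CRef := CRef.mk (Pat.mk 0x1e00000006000000000000000000000000 0x600000006000000370000001f00000006000000020000000200000002 6 6) 0 0 (step_sound _ 164 [(rh33e738c4ed385b9f.shift 1 4), rhf83672e5bcd98bfe] (by decide +kernel))
noncomputable def rh9e65898146219cc9 : CRef := CRef.mk (Pat.mk 0x1000000010000000180000000e000000000000000000000000 0x10000000120000001b0000003e0000000f0000000400000004 6 6) 0 0 (step_sound _ 100 [rh4d407c583ade17f9, (rh932754581e0f4330.shift 3 2)] (by decide +kernel))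
noncomputable def rha9ba3ed128781c9b : CRef := CRef.mk (Pat.mk 0x1000000010000000180000000e00000000 0x8000000080000000c0000001e00000078000000180000003e00000027 6 7) 0 0 (step_sound _ 131 [rh1a41c2c18ae1ba11, (rh402ae77211dfa6f0.shift 1 0), (rhc3a9559c72b00d0b.shift 1 0), (rhf9a6286f1d5377a2.shift 3 1)] (by decide +kernel))
noncomputable def rh8115104cae460b27 : CRef := CRef.mk (Pat.mk 0xa0000000c0000000400000004 0x2000000020000007b0000003f0000007e00000004 6 7) 0 0 (step_sound _ 65 [(rh4a0cb3a9508b05dd.shift 0 1), (rh819baec481551563.shift 0 1), (rhe072fffdd2fccf38.shift 1 0)] (by decide +kernel))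
noncomputable def rhf0bfcc64333a9ddf : CRef := CRef.mk (Pat.mk 0x180000001e000000100000000000000000 0x20000000300000001f0000001e000000180000001800000018 6 6) 0 0 (step_sound _ 36 [(rh7b1f1fb55310c477.shift 3 0), rhee1d61da1785bedc] (by decide +kernel))
noncomputable def rh37e0bed60b04be2c : CRef := CRef.mk (Pat.mk 0x1800000018000000080000000800000000 0x40000000c000000ff0000001f000000080000001800000010 6 8) 0 0 (step_sound _ 36 [(rh55afc6a59410cf00.shift 3 0), (rh61522d14b2584c60.shift 0 1)] (by decide +kernel))
noncomputable def rh575786cb1516c8c7 : CRef := CRef.mk (Pat.mk 0x1c0000001800000000 0x200000002000000030000003f0000001f00000004 6 6) 0 0 (step_sound _ 65 [rh60ffd94c5f84d7a4, (rhb739f4f82bb681b4.shift 0 1)] (by decide +kernel))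
noncomputable def rh54933c8b2e286c0a : CRef := CRef.mk (Pat.mk 0x8000000080000000c0000000400000000 0x140000001f0000007c0000000f0000003c00000018 6 7) 0 0 (step_sound _ 100 [rh02f99bbc1f377c55, (rh0bb882ba86b2372d.shift 0 2), rha29e72151be084f7] (by decide +kernel))
noncomputable def rh16dafbad91f6fa35 : CRef := CRef.mk (Pat.mk 0x8000000180000001e00000000 0x800000008000000080000001f000000fe000000e0 6 8) 0 0 (step_sound _ 65 [(rh3244c3cc8379b070.shift 0 1), (rh95c8e63fe7e39721.shift 1 0)] (by decide +kernel))
noncomputable def rh6a3b8c58e2bd072d : CRef := CRef.mk (Pat.mk 0x8000000180000000e0000000000000000 0x20000000b0000001f0000003e0000003400000014 6 6) 0 0 (step_sound _ 68 [rh5a6f873926ef2942, (rh78974448101547fe.shift 1 0)] (by decide +kernel))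
noncomputable def rhf14aeaf54c9c5e28 : CRef := CRef.mk (Pat.mk 0x400000006000000040000000000000000 0x600000006000000060000003c0000000f0000000e 6 6) 0 0 (step_sound _ 34 [rh3ca4c10fdf355329, (rhe286c75f2739cce2.shift 1 0)] (by decide +kernel))
noncomputable def rh553c531f34e6d4c7 : CRef := CRef.mk (Pat.mk 0x6000000020000000200000004 0x100000003000000030000000200000006000000070000000700000005 6 3) 0 0 (step_sound _ 129 [(rhd3458b32566d63f7.shift 1 0), rhf8c58d371bad927d] (by decide +kernel))
noncomputable def rhdb4b5cc2f7be1754 : CRef := CRef.mk (Pat.mk 0x180000000800000008000000000000000000000000 0x40000000c0000000c0000001e000000780000007c0000001f0000001c00000010 6 7) 0 0 (step_sound _ 100 [(rh0fa4a62bba50784f.shift 2 2), (rh70e33bfdf511e144.shift 3 0), (rheecbc184a4dc9c4f.shift 0 1)] (by decide +kernel))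
noncomputable def rh703a816a68590832 : CRef := CRef.mk (Pat.mk 0x4000000070000000400000000 0x80000000e0000000e0000000600000006000000070000001e0000000a 6 5) 0 0 (step_sound _ 130 [(rh18ee3a27294cac80.shift 1 0), (rh69f0587a21bb077f.shift 1 1), rhb379f99078aafa2d] (by decide +kernel))
noncomputable def rh8b1fdc3dd67e0291 : CRef := CRef.mk (Pat.mk 0x180000000800000008000000000000000000000000 0x40000000f0000007c0000000f0000000c0000000c0000000c00000004 6 7) 0 0 (step_sound _ 66 [(rh0e6924d680f6455d.shift 2 0), (rh6188d2dfb74635ea.shift 0 1), (rhe954cacf2268f418.shift 0 2)] (by decide +kernel))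
noncomputable def rhb82a96c1433a8094 : CRef := CRef.mk (Pat.mk 0x100000001a0000000000000000 0x400000004000000370000003e0000000300000002 6 6) 0 0 (step_sound _ 66 [rh21460d2d48a35cb8, (rh33e738c4ed385b9f.shift 1 2)] (by decide +kernel))
noncomputable def rh3e8e4c4ea4eb005f : CRef := CRef.mk (Pat.mk 0x180000000c0000000800000000 0x140000001c0000001c000000180000000f0000003c00000014 6 6) 0 0 (step_sound _ 65 [(rh53b3c253cb0c65f4.shift 0 2), (rh91f2d153b08a3c0b.shift 1 0)] (by decide +kernel))
noncomputable def rh4c2a6eefc58caf68 : CRef := CRef.mk (Pat.mk 0x40000000c000000040000000400000000 0xc0000000c0000000c0000000f0000003c00000018 6 6) 0 0 (step_sound _ 131 [(rh2f68792b6b779e96.shift 2 1), rhd802bb8339359eae] (by decide +kernel))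
noncomputable def rh9459ff69a6048e6e : CRef := CRef.mk (Pat.mk 0x10000000180000000e000000000000000000000000 0x4000000360000001f000000fe000000070000000600000004 6 8) 0 0 (step_sound _ 100 [rh22f53ba2f05af569, (rh870359598daa9f92.shift 0 3), (rha8a8ab8db16c2546.shift 0 1), (rhb447f348b8f2aaa5.shift 0 2)] (by decide +kernel))
noncomputable def rhb25593bcb871e301 : CRef := CRef.mk (Pat.mk 0x1000000010000000180000000e000000000000000000000000 0x28000000780000001e0000001b0000003e000000170000000400000004 6 7) 0 0 (step_sound _ 100 [rh4d407c583ade17f9, (rh5ee4dc8825dcefa0.shift 1 2), (rheb671aa8248dc6b7.shift 0 2)] (by decide +kernel))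
noncomputable def rh3cf01a021562ae74 : CRef := CRef.mk (Pat.mk 0x1c00000006000000020000000200000000 0x8000000380000001f0000003e000000370000001600000004 6 6) 0 0 (step_sound _ 100 [rh7831f4fe1db86547, (rhdc45162e28a620df.shift 0 2), (rhe1c545a0fa7090aa.shift 0 1)] (by decide +kernel))
noncomputable def rhb91dc53ad3106ae5 : CRef := CRef.mk (Pat.mk 0x10000000180000000e0000000000000000 0x4000000340000001f000000fe000000e700000002 6 8) 0 0 (step_sound _ 68 [rh08480f4413476838, (rh870359598daa9f92.shift 0 2), (rha1eb337eeb07c2e7.shift 0 1), (rhb447f348b8f2aaa5.shift 0 1)] (by decide +kernel))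
noncomputable def rhc28e1fcbd9df7849 : CRef := CRef.mk (Pat.mk 0x1000000010000000180000000e00000000 0x28000000780000001e0000001f0000003e00000024 6 7) 0 0 (step_sound _ 36 [rh411b7fbe199774b0, (rh5368599ec0d58b94.shift 1 0)] (by decide +kernel))
noncomputable def rhf5dc3516e6a9d6a1 : CRef := CRef.mk (Pat.mk 0x10000000600000002000000020000000000000000 0x1000000030000001e00000002000000070000000700000005 6 5) 0 0 (step_sound _ 161 [(rh50fbb5868c909700.shift 0 2), rhe88ce93a5e1de37b] (by decide +kernel))
noncomputable def rh24c9b0407193b263 : CRef := CRef.mk (Pat.mk 0x4000000100000001e00000002 0xc0000000c0000000e0000001b0000001f0000000a 6 5) 0 0 (step_sound _ 65 [rh2b899681eb42f67e, (rh3244c3cc8379b070.shift 0 1)] (by decide +kernel))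
noncomputable def rh21354bb3884402ac : CRef := CRef.mk (Pat.mk 0x100000000000000038000000080000000000000000 0x34000000340000006f0000003e000000780000001800000008 6 7) 0 0 (step_sound _ 98 [(rh0d378fd9e8917c5a.shift 0 2), (rh65dc9ac2eea86f24.shift 2 1), (rhd5889c99d29bf7d6.shift 1 0)] (by decide +kernel))
noncomputable def rhe5a9a5bd0dd225e4 : CRef := CRef.mk (Pat.mk 0x180000001e000000000000000000000000 0x1000000010000000100000001b0000003e000000380000001800000018 6 6) 0 0 (step_sound _ 129 [(rh3244c3cc8379b070.shift 0 3), (rh466fbc951195850a.shift 1 0)] (by decide +kernel))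
noncomputable def rh6e242c6577930c77 : CRef := CRef.mk (Pat.mk 0x600000006000000040000000000000000 0x40000000600000006000000070000003e0000000e 6 6) 0 0 (step_sound _ 34 [rh7ab2b85ee5f92f48, (rh7b1f1fb55310c477.shift 1 0)] (by decide +kernel))
noncomputable def rh6bcc336db2d6dcd0 : CRef := CRef.mk (Pat.mk 0x1000000038000000080000000000000000 0x1000000010000000370000003e000000780000002000000020 6 7) 0 0 (step_sound _ 164 [(rh5c5e593799055d58.shift 3 2), rha2341ca8c7e14aad] (by decide +kernel))
noncomputable def rh02685ab99c30d2cc : CRef := CRef.mk (Pat.mk 0x80000001c00000006000000040000000000000000 0x20000000380000001f000000360000003e0000001b00000002 6 6) 0 0 (step_sound _ 100 [(rh3ce854f4a795c89f.shift 0 3), rh5bc12b2c4976ccbf, (rhd7b02fc5e10a2ad4.shift 1 1)] (by decide +kernel))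
noncomputable def rha476ee6d2cdb9f1f : CRef := CRef.mk (Pat.mk 0x80000001c00000006000000040000000000000000 0x40000001c0000001c000000360000003e0000001b00000002 6 6) 0 0 (step_sound _ 67 [(rh172d9a5e6cdaefb8.shift 1 1), (rhb23658ecdd7ce5df.shift 1 1), rhe79075fa30d86af3] (by decide +kernel))
noncomputable def rhc56032447bf2291e : CRef := CRef.mk (Pat.mk 0x800000018000000080000000800000000 0xc0000000c000000180000000f0000003c00000014 6 6) 0 0 (step_sound _ 130 [(rh50fbb5868c909700.shift 2 1), rhf3d11b058448e968] (by decide +kernel))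
noncomputable def rh6cdabe3bf8529634 : CRef := CRef.mk (Pat.mk 0x8000000080000000e0000000400000000 0x140000003c0000000f0000000e0000003c00000018 6 6) 0 0 (step_sound _ 35 [(rh110bf93e06a9f86c.shift 1 0), (rh42afa1af9fffa0e1.shift 1 0), rh5ee4dc8825dcefa0] (by decide +kernel))
noncomputable def rh597ca489cec030e6 : CRef := CRef.mk (Pat.mk 0x8000000180000000e000000000000000000000000 0xa0000001b0000003e000000370000001400000004 6 6) 0 0 (step_sound _ 100 [rh4d407c583ade17f9, (rh534a6900ac2ddaa9.shift 0 1), (rh78974448101547fe.shift 1 1)] (by decide +kernel))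
noncomputable def rha5250ddb8c1959ff : CRef := CRef.mk (Pat.mk 0x1c000000040000000000000000 0xa0000000a000000ff0000007e000000040000000400000004 6 8) 0 0 (step_sound _ 133 [(rh00ea10f4481d4201.shift 1 1), (rhb8022f71dc28021b.shift 1 3), rhc2c446d6cf9731b3] (by decide +kernel))
noncomputable def rh6426ce6d64c51bfe : CRef := CRef.mk (Pat.mk 0x20000000e000000020000000000000000 0x400000014000000360000003f0000003a0000000a00000008 6 6) 0 0 (step_sound _ 100 [rhafce7c2a98f15f1d, (rhc333e2570e2bbdf1.shift 1 1)] (by decide +kernel))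
noncomputable def rha88c9e7b3449bb70 : CRef := CRef.mk (Pat.mk 0x60000000e000000020000000000000000 0x4000000040000000e0000003f0000003a0000000800000008 6 6) 0 0 (step_sound _ 162 [(rh5c5e593799055d58.shift 1 2), rhe1820f7555843259] (by decide +kernel))
noncomputable def rh96e574ba449c256a : CRef := CRef.mk (Pat.mk 0x1800000038000000080000000000000000 0x38000000ff000000e80000000800000008 6 8) 0 0 (step_sound _ 35 [(rh48dcc808214cd2bf.shift 0 2), (rh71222050f2c63a3a.shift 3 0)] (by decide +kernel))
noncomputable def rhfc4a6c9741c3b285 : CRef := CRef.mk (Pat.mk 0x200000007000000000 0x3f0000001fe000001c7 6 10) 0 0 (step_sound _ 35 [(rh3fc3a7fb6866dcd4.shift 3 0), (rh84d1614f5efa9132.shift 3 0), rhb103f40a53fe1424] (by decide +kernel))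
noncomputable def rh6036dff15d807057 : CRef := CRef.mk (Pat.mk 0x20000000300000002000000000000000000000000 0x100000003000000030000000300000003000000070000000700000006 6 3) 0 0 (step_sound _ 65 [rh2840436db7424bdf, (rhe286c75f2739cce2.shift 0 1), (rhfbd142acd04e79a5.shift 0 1)] (by decide +kernel))
noncomputable def rhc470020c116af149 : CRef := CRef.mk (Pat.mk 0xf00000008000000000000000000000000 0x40000000c0000001c0000000f0000000c0000001c0000001c00000014 6 5) 0 0 (step_sound _ 163 [(rh06e4d1e4f75a0776.shift 2 0), (rh33e738c4ed385b9f.shift 0 4)] (by decide +kernel))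
noncomputable def rh600705ec2dbc591d : CRef := CRef.mk (Pat.mk 0x1c000000040000000000000000 0xa0000000a0000007f0000003e000000740000000400000004 6 7) 0 0 (step_sound _ 34 [(rh0dc175b1aaeaec94.shift 0 1), (rh215e11e099257d75.shift 2 0), rhfb541ced2a920213] (by decide +kernel))
noncomputable def rh061b65a50956909d : CRef := CRef.mk (Pat.mk 0xc000000070000000400000000 0x4000000060000000e0000000e0000000e000000070000001e0000000a 6 5) 0 0 (step_sound _ 130 [(rh03dfdf12d5937476.shift 1 0), (rh7cd75823eb0050a7.shift 1 1), rhb379f99078aafa2d] (by decide +kernel))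
noncomputable def rh8b87b89377ea7cf4 : CRef := CRef.mk (Pat.mk 0x300000001c000000080000000800000000 0x40000002f0000003f0000001c0000007c0000001e00000014 6 7) 0 0 (step_sound _ 131 [(rh6cb0e5959253c9cf.shift 1 0), rh795a9fa361f5265f, (rhbad6ff9bdc3f8001.shift 2 0)] (by decide +kernel))
noncomputable def rhc43cb07c9f311c5d : CRef := CRef.mk (Pat.mk 0x180000000e000000040000000400000000 0x18000000180000000e0000003f0000003c00000010 6 6) 0 0 (step_sound _ 67 [(rh5c5e593799055d58.shift 2 1), rhe1774e16ee393e62] (by decide +kernel))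
noncomputable def rh5dbc9b172df74adb : CRef := CRef.mk (Pat.mk 0x100000001c000000080000000800000000 0x170000001f0000001c0000000c0000000c00000004 6 5) 0 0 (step_sound _ 131 [(rh2f68792b6b779e96.shift 3 1), rhf3711a81227b0b0c] (by decide +kernel))
noncomputable def rh2ab9305ce0914515 : CRef := CRef.mk (Pat.mk 0x400000006000000020000000000000000 0x200000003000000070000000700000006000000060000000200000002 6 3) 0 0 (step_sound _ 33 [(rh495ac6eb947d9bcd.shift 0 1), (rh71222050f2c63a3a.shift 1 0)] (by decide +kernel))
noncomputable def rhfe32584dade951aa : CRef := CRef.mk (Pat.mk 0x1c00000006000000040000000800000000 0x140000001c0000000e0000003c0000000f00000006 6 6) 0 0 (step_sound _ 67 [rh09651f4931b215d5, (rh2145e1d24b96a57e.shift 2 1)] (by decide +kernel))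
noncomputable def rh3716db9506abdadf : CRef := CRef.mk (Pat.mk 0x1c0000000600000004 0x80000000a0000003f0000001f0000003600000004 6 6) 0 0 (step_sound _ 65 [rh2a9695c6b547a23a, rh309fd0c3d364cd61] (by decide +kernel))
noncomputable def rhf2d07ed7fd4adb11 : CRef := CRef.mk (Pat.mk 0x8000000080000000c0000000400000000 0x60000000f0000003c0000000e0000007c00000018 6 7) 0 0 (step_sound _ 35 [(rh36d4d92ef3dad5f8.shift 1 0), rha10abbb88ab9db0f] (by decide +kernel))
noncomputable def rh1c7bf6aa7f094288 : CRef := CRef.mk (Pat.mk 0x180000001e000000100000000000000000 0x180000003e000000170000003c00000038 6 6) 0 0 (step_sound _ 36 [rh46a5aaaef010cdd9, (rh7b1f1fb55310c477.shift 3 0)] (by decide +kernel))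
noncomputable def rh1cadbb38defa45f9 : CRef := CRef.mk (Pat.mk 0x1000000018000000080000000800000000 0xc0000001e000000780000000f0000003c00000014 6 7) 0 0 (step_sound _ 131 [(rhcf85c92937975d4d.shift 1 1), rhf0d38cf1e7116183] (by decide +kernel))
noncomputable def rhd1ae673feeae0001 : CRef := CRef.mk (Pat.mk 0x100000001c000000080000000800000000 0x80000000c0000000f0000001f0000001c0000001f0000003c00000014 6 6) 0 0 (step_sound _ 131 [rh26a641dd1ea9a7b1, (rh933f3ac7d57d09d8.shift 2 1), rhf3711a81227b0b0c] (by decide +kernel))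
noncomputable def rha8bff60f31fbc983 : CRef := CRef.mk (Pat.mk 0x180000000e0000000400000000 0xe0000000f0000001e0000000e0000003c00000010 6 6) 0 0 (step_sound _ 131 [(rh5c5e593799055d58.shift 2 1), rhae7299dc8910e40d] (by decide +kernel))
noncomputable def rh5695b25c69ca24b1 : CRef := CRef.mk (Pat.mk 0x14000000180000000800000008 0x4000000040000003f0000001e0000000b0000000a 6 6) 0 0 (step_sound _ 130 [rh797b256a388a45d8, (rhcfdf45280693d3da.shift 2 0)] (by decide +kernel))
noncomputable def rh16aeb570cda7c605 : CRef := CRef.mk (Pat.mk 0x28000000300000001000000000 0x800000008000001ef000000fc000001d600000004 6 9) 0 0 (step_sound _ 67 [(rh4a0cb3a9508b05dd.shift 2 1), (rha11dfd15f08f96e3.shift 2 2), (rha9fbfd4bb8cf890b.shift 0 2), (rhdf15b40c9702d329.shift 1 0)] (by decide +kernel))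
noncomputable def rh5d44cfcd45a64087 : CRef := CRef.mk (Pat.mk 0x180000000e000000040000000400000000 0x100000003c0000000e0000003c0000000f0000000a 6 6) 0 0 (step_sound _ 130 [(rh18965a982d73c794.shift 1 3), rh6cb0e5959253c9cf] (by decide +kernel))
noncomputable def rh1415f42ae56384a4 : CRef := CRef.mk (Pat.mk 0x1c00000006000000020000000200000000 0x80000000a0000001f0000003e000000370000001600000004 6 6) 0 0 (step_sound _ 129 [(rh014abbda9a411227.shift 0 1), (rh8af9a32e61457eb0.shift 1 0), (rhf6d72ac90bd26cb0.shift 0 2)] (by decide +kernel))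
noncomputable def rheb6e6ce5770c08c8 : CRef := CRef.mk (Pat.mk 0x8000000080000001c0000000600000000 0x140000001c0000003c0000001f0000007e0000000b 6 7) 0 0 (step_sound _ 35 [(rh18b49738f4e5d343.shift 1 0), rh427bc58567cd120b, rh6dc2d17b5ce1ca6f] (by decide +kernel))
noncomputable def rhd3e00b304d07dace : CRef := CRef.mk (Pat.mk 0x800000000000000180000001800000000 0x800000008000000f8000000ff00000007 6 8) 0 0 (step_sound _ 34 [(rh5ac8a52ac3a4f013.shift 1 0), rh7096420deddb0df2, (rhab2ad169e49f9c5e.shift 0 1)] (by decide +kernel))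
noncomputable def rh34e61ee7b75701cd : CRef := CRef.mk (Pat.mk 0x1800000018000000080000001800000000 0x20000000fc000000f80000003c0000001f00000004 6 8) 0 0 (step_sound _ 34 [(rh0667a35a1b97b3ac.shift 0 1), (rh932754581e0f4330.shift 2 0)] (by decide +kernel))
noncomputable def rh7b4b349d3e3b683d : CRef := CRef.mk (Pat.mk 0x80000001c000000060000000400000000 0x140000003c0000001f0000000e0000003e0000001a 6 6) 0 0 (step_sound _ 35 [rh837c35879c397ce1, (rhad6bf31ab005adb5.shift 1 0), (rhb23658ecdd7ce5df.shift 1 0), (rhf7bcf9b870af2a5c.shift 1 0)] (by decide +kernel))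
noncomputable def rhc880c7606cf6db50 : CRef := CRef.mk (Pat.mk 0x400000004000000060000000300000000000000000 0x80000000c8000000cc0000007f0000007c000000d000000010 6 8) 0 0 (step_sound _ 67 [(rh53b3c253cb0c65f4.shift 2 2), rhbc027af87f799019] (by decide +kernel))
noncomputable def rhe9d077fa1d4252e0 : CRef := CRef.mk (Pat.mk 0x40000000400000007000000000000000000000000 0x40000007f0000003f000000380000000800000008 6 7) 0 0 (step_sound _ 99 [(rh625dde73e665edc8.shift 0 1), (rh84d1614f5efa9132.shift 0 2), rhd132b680030c88e0, (rhe6bdd62e1711df0b.shift 0 3)] (by decide +kernel))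
noncomputable def rh95461b835b3f00cd : CRef := CRef.mk (Pat.mk 0x7800000008 0xe70000007f00000038 6 8) 0 0 (step_sound _ 70 [rh282410c8b59b0b53, (rh33e738c4ed385b9f.shift 3 1)] (by decide +kernel))
noncomputable def rhb7afbba93e4ea89b : CRef := CRef.mk (Pat.mk 0x180000000e000000080000000000000000 0x20000001f000000fe0000007f0000003400000034 6 8) 0 0 (step_sound _ 100 [rh22f53ba2f05af569, rh2d432a4e867e50f2, (rh76c4edc656936505.shift 1 2)] (by decide +kernel))
noncomputable def rhad05480513a9d9bf : CRef := CRef.mk (Pat.mk 0x80000000c000000060000000400000000 0x80000003f0000007e0000003e00000010 6 7) 0 0 (step_sound _ 100 [(rh18965a982d73c794.shift 1 2), rh956b1ee917a8bf4e] (by decide +kernel))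
noncomputable def rh71b26873b0bc1645 : CRef := CRef.mk (Pat.mk 0xc0000000c000000040000000400000000 0x100000003c0000000f0000003c0000000f0000000a 6 6) 0 0 (step_sound _ 35 [rh4fa8f955440ed0e6, (rh55afc6a59410cf00.shift 2 0)] (by decide +kernel))
noncomputable def rhbe0c5c50892e5c0e : CRef := CRef.mk (Pat.mk 0x8000000080000000c00000004000000000000000000000000 0x140000003c0000000f0000000e0000007c000000180000001800000018 6 7) 0 0 (step_sound _ 99 [(rh36d4d92ef3dad5f8.shift 1 2), (rh5ee4dc8825dcefa0.shift 0 2), (rhdd11e03a2f8b13b6.shift 2 0)] (by decide +kernel))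
noncomputable def rh0dd77ae06a96f526 : CRef := CRef.mk (Pat.mk 0x800000008000000080000001000000000 0x100000003c0000001f000000080000001800000018 6 6) 0 0 (step_sound _ 35 [rh2f24eea91f7d98fc, (rh55afc6a59410cf00.shift 3 0)] (by decide +kernel))
noncomputable def rh8bd2202353f5dc22 : CRef := CRef.mk (Pat.mk 0x300000002000000020000000200000000 0x600000006000000060000000300000003000000060000000600000006 6 3) 0 0 (step_sound _ 34 [(rh55afc6a59410cf00.shift 1 0), rhe897032202fa007b] (by decide +kernel))
noncomputable def rha2cd5172ada2b261 : CRef := CRef.mk (Pat.mk 0x800000000000000180000001800000000 0x8000000080000007c000000ff00000007 6 8) 0 0 (step_sound _ 34 [(rh3e2780006c081da1.shift 1 0), rha5e87fdea5a2a125, (rhf9d36e158778ce35.shift 1 1)] (by decide +kernel))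
noncomputable def rh2ad4304994e985b6 : CRef := CRef.mk (Pat.mk 0x8000000080000000c0000000800000000 0x1000000018000000780000001f0000000c0000000c 6 7) 0 0 (step_sound _ 34 [rh4983ef42b6c40cbc, (rh932754581e0f4330.shift 2 0)] (by decide +kernel))
noncomputable def rh55facfd444fa8e3f : CRef := CRef.mk (Pat.mk 0x2000000020000000300000002000000000000000000000000 0x100000003000000030000000300000003000000070000000600000006 6 3) 0 0 (step_sound _ 96 [(rh932754581e0f4330.shift 0 2), rhdd11e03a2f8b13b6] (by decide +kernel))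
noncomputable def rh2139ae8f8410f476 : CRef := CRef.mk (Pat.mk 0x8000000080000000c000000000000000000000000 0x140000001c0000001c0000000f0000003c0000001c00000004 6 6) 0 0 (step_sound _ 66 [(rh022041bdf0632cdd.shift 0 1), (rhc6c8721b98efe6cc.shift 0 1), (rhf9af042da61fc652.shift 2 0)] (by decide +kernel))
noncomputable def rh382f470a9abb5800 : CRef := CRef.mk (Pat.mk 0x20000000e00000003000000000000000000000000 0x4000000060000000f0000000f0000001e0000000e00000006 6 5) 0 0 (step_sound _ 65 [(rh3a2447ed8c5fdc2c.shift 0 1), rh60f8a5416b531026, (rha707fb719e87fe6e.shift 1 1)] (by decide +kernel))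
noncomputable def rhba0ca628117add91 : CRef := CRef.mk (Pat.mk 0x20000000e0000000300000000000000000000000000000000 0x4000000060000000e0000000f0000001e0000000f0000000700000001 6 5) 0 0 (step_sound _ 97 [(rh3a2447ed8c5fdc2c.shift 0 2), rha52e1acf7ed5511e, (rha707fb719e87fe6e.shift 1 2)] (by decide +kernel))
noncomputable def rh5bc13e29350ad82f : CRef := CRef.mk (Pat.mk 0x8000000180000000c0000000000000000 0x80000001f0000003f0000003700000010 6 6) 0 0 (step_sound _ 65 [(rh53b3c253cb0c65f4.shift 0 2), rh8df523ca45d4d184] (by decide +kernel))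
noncomputable def rh8e9e5cc0a473d397 : CRef := CRef.mk (Pat.mk 0x40000000c00000006000000000000000000000000 0xa0000000f0000003c000000060000000e0000000e0000000a 6 6) 0 0 (step_sound _ 132 [(rh18965a982d73c794.shift 1 3), rhd3427edfe1bb73fe] (by decide +kernel))
noncomputable def rh0c36da4c80860e4c : CRef := CRef.mk (Pat.mk 0xe0000000200000000 0x1000000010000000300000001f0000003b00000008 6 6) 0 0 (step_sound _ 68 [rhd439bfd913dd0dd2, (rheb0810cc63b001d8.shift 0 1)] (by decide +kernel))
noncomputable def rh7f866cc3e3ac99a8 : CRef := CRef.mk (Pat.mk 0x8000000080000003c0000000000000000 0x8000000f8000000ff0000003000000010 6 8) 0 0 (step_sound _ 102 [(rh428265de8cd3cd2d.shift 2 2), rhb8fcb666ea0f55c9] (by decide +kernel))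
noncomputable def rh1a7ba950a8b51630 : CRef := CRef.mk (Pat.mk 0x800000018000000080000000800000000 0xc0000000c0000007c0000000f0000000c00000004 6 7) 0 0 (step_sound _ 130 [rh1376b0ccc0237f13, (rh50fbb5868c909700.shift 2 1)] (by decide +kernel))
noncomputable def rh2318e79466e6329a : CRef := CRef.mk (Pat.mk 0x8000000380000000c0000000400000000 0x160000001f0000003a0000000f0000000e00000008 6 6) 0 0 (step_sound _ 65 [(rh53b3c253cb0c65f4.shift 0 2), rhe2980b9c4f477b83] (by decide +kernel))
noncomputable def rh9ecb6006a58985d5 : CRef := CRef.mk (Pat.mk 0x8000000180000000c00000004000000000000000000000000 0x170000001f0000001c0000001c0000000c000000080000000800000008 6 5) 0 0 (step_sound _ 99 [(rh774f423c1ba487ce.shift 0 3), (rha707fb719e87fe6e.shift 3 2), (rhd29c8239e1cc0277.shift 2 0)] (by decide +kernel))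
noncomputable def rh299b1e4d2e2bcbaa : CRef := CRef.mk (Pat.mk 0x80000001c000000060000000400000000 0x40000003c0000001f0000003e0000003700000012 6 6) 0 0 (step_sound _ 68 [rh37b8c63c045fbf1d, rh3c746a4af2e0cb8f, (rh3ce854f4a795c89f.shift 0 2), rh87392e1f76cad36e] (by decide +kernel))
noncomputable def rhd66d69d0c245a89b : CRef := CRef.mk (Pat.mk 0x180000000e000000080000000000000000 0x1f000000fe0000007f0000003000000030 6 8) 0 0 (step_sound _ 100 [rh2d432a4e867e50f2, (rh76c4edc656936505.shift 1 2), (rh79ca413a1e436ec6.shift 0 2)] (by decide +kernel))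
noncomputable def rh8cadd100bb299d05 : CRef := CRef.mk (Pat.mk 0x10000000180000000e000000080000000000000000 0x24000000340000001f0000001e0000003f0000003200000030 6 6) 0 0 (step_sound _ 100 [(rh08480f4413476838.shift 0 1), rh2d432a4e867e50f2, (rhd8d98eb6ec46d5f8.shift 0 2)] (by decide +kernel))
noncomputable def rh63b2ec4b0c1175ba : CRef := CRef.mk (Pat.mk 0x1000000018000000080000000800000000 0xc0000000c0000006c0000007c0000001e0000001f0000003c00000014 6 7) 0 0 (step_sound _ 131 [(rh0ef6c71ce89c1c36.shift 2 0), rh26a641dd1ea9a7b1, (rhf64b95b851ba719b.shift 1 0)] (by decide +kernel))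
noncomputable def rhf4f4081064ad3b21 : CRef := CRef.mk (Pat.mk 0x800000008000000080000001000000000 0x140000001f0000007c000000080000001800000018 6 7) 0 0 (step_sound _ 35 [(rh55afc6a59410cf00.shift 3 0), rh8e0c7a4bae8affbe] (by decide +kernel))
noncomputable def rh81c907120f7a5101 : CRef := CRef.mk (Pat.mk 0x1c00000008000000080000000800000000 0x600000007f0000003e000000180000001800000010 6 7) 0 0 (step_sound _ 36 [(rh55afc6a59410cf00.shift 3 0), (rhd11d779da1036bbd.shift 0 1)] (by decide +kernel))
noncomputable def rh7c1316c64c9560c3 : CRef := CRef.mk (Pat.mk 0x80000000c000000070000000400000000 0x40000001c0000003c000000170000003e0000001a 6 6) 0 0 (step_sound _ 100 [(rh18965a982d73c794.shift 1 2), rhda8a3b834707f4bb] (by decide +kernel))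
noncomputable def rh377e5a41b6fcf68b : CRef := CRef.mk (Pat.mk 0x10000000180000000c0000000800000000 0x80000000c0000000c0000001c0000001c0000000f0000003c00000014 6 6) 0 0 (step_sound _ 65 [(rh53b3c253cb0c65f4.shift 0 2), (rhfb1333456b85ba87.shift 1 0)] (by decide +kernel))
noncomputable def rha3d084549dcb91ee : CRef := CRef.mk (Pat.mk 0x200000007000000010 0x1ee000001fe000003b7 6 10) 0 0 (step_sound _ 35 [rh9d47ef67f175c917, (rhda98f5cded33c272.shift 3 0), (rhec46bd5500c722c9.shift 2 1)] (by decide +kernel))
noncomputable def rhe4125d94f0529155 : CRef := CRef.mk (Pat.mk 0x8000000180000000c0000000400000000 0x3f0000007f0000007c0000000600000002 6 7) 0 0 (step_sound _ 101 [(rh18965a982d73c794.shift 2 2), rh51236d3c272d1deb] (by decide +kernel))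
noncomputable def rh2f98c549cf41f1d7 : CRef := CRef.mk (Pat.mk 0x8000000180000000e0000000400000000 0x160000001f0000001f0000000e0000000c00000008 6 5) 0 0 (step_sound _ 35 [rh9e3680845ae0253e, (rha707fb719e87fe6e.shift 3 0), (rhf977c67afcd9383c.shift 0 1)] (by decide +kernel))
noncomputable def rh6e0c715ed1624dea : CRef := CRef.mk (Pat.mk 0x2000000020000000380000000000000000 0x8000000680000003e0000007e0000000700000004 6 7) 0 0 (step_sound _ 66 [(rh2591032a0e7f4182.shift 0 1), (rh3cc3e986d9471888.shift 1 0), (rh7a32c57a7c61d0c8.shift 1 2)] (by decide +kernel))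
noncomputable def rh4805f0126eba6f91 : CRef := CRef.mk (Pat.mk 0x40000000e000000020000000200000000 0x10000000740000003f0000003e0000000b00000008 6 7) 0 0 (step_sound _ 100 [(rh3f9c2fb96516703c.shift 1 2), (rhadb9687930fe236f.shift 0 1), rhce71534e51e0a15e] (by decide +kernel))
noncomputable def rhc9e4cc1d7b554c71 : CRef := CRef.mk (Pat.mk 0x40000000e000000020000000000000000 0x10000000340000001f0000003b0000000800000008 6 6) 0 0 (step_sound _ 100 [rhce71534e51e0a15e, (rheb0810cc63b001d8.shift 0 2)] (by decide +kernel))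
noncomputable def rh8194f849c705ee3d : CRef := CRef.mk (Pat.mk 0x200000002000000070000000180000000000000000 0x200000003e0000007f000000f80000004000000040 6 8) 0 0 (step_sound _ 70 [(rh6a6124da44f8db30.shift 0 2), (rh79ad7b82ec8c35e2.shift 5 0)] (by decide +kernel))
noncomputable def rhe2ad5468805b2f6a : CRef := CRef.mk (Pat.mk 0x100000001000000038000000000000000000000000 0x10000000770000003e000000670000002000000020 6 7) 0 0 (step_sound _ 69 [(rh08edf065357d68e5.shift 4 0), (rh3918eeb6c53434d8.shift 0 2), (rh3ce854f4a795c89f.shift 1 2)] (by decide +kernel))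
noncomputable def rhedb33d3a2f8bb868 : CRef := CRef.mk (Pat.mk 0x180000000e000000080000000000000000 0x380000001e0000003f0000003000000030 6 6) 0 0 (step_sound _ 100 [rh2d432a4e867e50f2, (rh33e738c4ed385b9f.shift 1 3)] (by decide +kernel))
noncomputable def rhf4b3c0388bbf037f : CRef := CRef.mk (Pat.mk 0x400000000000000080000001c00000000 0x4000000040000007f0000007e00000003 6 7) 0 0 (step_sound _ 69 [(rh7dcd5319f4f71bec.shift 1 1), rh7f56d0fb2981c591, (rhca6a4af813f68cee.shift 1 1)] (by decide +kernel))
noncomputable def rh1ce5fcbff8598170 : CRef := CRef.mk (Pat.mk 0x3000000018000000080000000800000000 0x8000000080000002800000038000000180000007f0000003e00000014 6 7) 0 0 (step_sound _ 131 [(rh8af9a32e61457eb0.shift 3 0), (rhb7feb5aae5ace0ce.shift 1 0), (rhea90e7358341a1a4.shift 2 0), rhf3d11b058448e968] (by decide +kernel))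
noncomputable def rh6ffdce8f0dfdd0b7 : CRef := CRef.mk (Pat.mk 0x380000000c00000004000000040000000000000000 0x140000003e0000007c0000003e0000000f0000000a00000008 6 7) 0 0 (step_sound _ 67 [(rh828fef42727e7be2.shift 2 0), (rha3a035462e5edf29.shift 0 1), (rhf4d50fe0d9ba04c1.shift 1 1)] (by decide +kernel))
noncomputable def rh5ed3ac2fdba9efc6 : CRef := CRef.mk (Pat.mk 0x380000000c00000004000000040000000000000000 0x160000003c0000007c0000003e0000000f0000000a00000008 6 7) 0 0 (step_sound _ 67 [(rh828fef42727e7be2.shift 2 0), (rh937d8cacca3c26a9.shift 1 1), (rha3a035462e5edf29.shift 0 1)] (by decide +kernel))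
noncomputable def rhe10b879feec4151c : CRef := CRef.mk (Pat.mk 0x1c00000018000000080000000800000000 0x600000003f0000001f000000180000001800000010 6 7) 0 0 (step_sound _ 129 [rh1face668f88412af, (rhb739f4f82bb681b4.shift 0 3)] (by decide +kernel))
noncomputable def rh32e53161baf71854 : CRef := CRef.mk (Pat.mk 0x14000000180000000800000008 0x400000004000000370000001f0000003f0000000a 6 6) 0 0 (step_sound _ 66 [(rh5dec5e73a267a1c4.shift 0 1), rhdf15b40c9702d329, (rhe072fffdd2fccf38.shift 2 0)] (by decide +kernel))
noncomputable def rh66ce4c5dc8bf2422 : CRef := CRef.mk (Pat.mk 0x80000000c000000040000000400000000 0x60000000f0000003c0000003c0000000f0000000a 6 6) 0 0 (step_sound _ 130 [rh85480f11efc1e555, (rhcf85c92937975d4d.shift 0 1)] (by decide +kernel))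
noncomputable def rh77ad370424a57a51 : CRef := CRef.mk (Pat.mk 0x80000001e0000000600000000 0x6000000070000003f0000001e0000000600000002 6 6) 0 0 (step_sound _ 97 [(rh3244c3cc8379b070.shift 0 2), rh7e564f1339421f65] (by decide +kernel))
noncomputable def rh85fb0b01b0c1750a : CRef := CRef.mk (Pat.mk 0x180000000e000000000000000000000000 0x80000000a0000001b0000003e000000370000001400000004 6 6) 0 0 (step_sound _ 100 [rh5f27e0477c371a96, (rhea719cc8bd0bdd28.shift 1 1)] (by decide +kernel))
noncomputable def rh4c1851663132dadd : CRef := CRef.mk (Pat.mk 0x100000001000000018000000080000000800000000 0x14000001f6000000fc000001ef0000002800000020 6 9) 0 0 (step_sound _ 101 [(rh2820ca9a6c4f41b4.shift 0 2), (rh4ca3319397c6bab6.shift 1 0), (rhc32688944b7f7dbb.shift 2 0), (rhfa35e196e150edb4.shift 2 2)] (by decide +kernel))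
noncomputable def rhfe2cb5d29cdb6451 : CRef := CRef.mk (Pat.mk 0x1000000010000000180000000e00000000 0x2800000038000000300000001f0000003e00000030 6 6) 0 0 (step_sound _ 36 [(rh36586e595fdbb742.shift 1 0), rh411b7fbe199774b0, rhc97e5537df756862] (by decide +kernel))
noncomputable def rh08110e81ebd0e083 : CRef := CRef.mk (Pat.mk 0x1c000000060000000000000000 0x80000000a0000003b0000001f000000360000001400000004 6 6) 0 0 (step_sound _ 97 [rh38a0850c9fea941e, (rhf41a34b41b8c2138.shift 0 1)] (by decide +kernel))
noncomputable def rh09e973bd71004772 : CRef := CRef.mk (Pat.mk 0x180000000e000000040000000000000000 0x400000006000000160000001f0000003e0000000c0000000c0000000c 6 6) 0 0 (step_sound _ 34 [(rh71222050f2c63a3a.shift 2 0), rhd8251e55af4a7460] (by decide +kernel))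
noncomputable def rh85f4dff80e93bba4 : CRef := CRef.mk (Pat.mk 0x180000000e00000004 0xa0000001f0000001f000000fe0000000c 6 8) 0 0 (step_sound _ 99 [(rh5c5e593799055d58.shift 2 0), rh7384c83f0469cbf6] (by decide +kernel))
noncomputable def rhe362302fd279adb9 : CRef := CRef.mk (Pat.mk 0x8000000000000001c000000040000000000000000 0x1a0000001a000000370000001e0000003c0000000c00000004 6 6) 0 0 (step_sound _ 97 [(rh65dc9ac2eea86f24.shift 1 1), rhd5889c99d29bf7d6] (by decide +kernel))
noncomputable def rhcf1b854baee5054b : CRef := CRef.mk (Pat.mk 0x180000000e0000000400000004 0x2000000020000001f000000fe0000007c00000004 6 8) 0 0 (step_sound _ 97 [(rhc89253ff58c66167.shift 1 0), (rhfa8c138cc50acb47.shift 0 1)] (by decide +kernel))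
noncomputable def rh1d837f4daed1e19d : CRef := CRef.mk (Pat.mk 0x8000000180000000e00000004000000000000000000000000 0x60000001f0000001b0000000e0000003c000000180000001800000018 6 6) 0 0 (step_sound _ 99 [(rh3470fcd67ff81181.shift 2 0), (rh42afa1af9fffa0e1.shift 1 2), (rh8cdc95fa188c33b6.shift 0 2)] (by decide +kernel))
noncomputable def rh3059fd319a21d577 : CRef := CRef.mk (Pat.mk 0x180000001e000000080000000000000000 0x70000001f0000001e0000000c0000000c0000000c 6 5) 0 0 (step_sound _ 35 [rh4d58c5d822a2edfa, (rh71222050f2c63a3a.shift 3 0)] (by decide +kernel))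
noncomputable def rhf8475ef88dfca71e : CRef := CRef.mk (Pat.mk 0x8000000080000000c0000000c00000000 0x60000000f0000003c0000000c0000001c00000018 6 6) 0 0 (step_sound _ 130 [rh08b3a705b1fe4f19, (rh50fbb5868c909700.shift 2 1)] (by decide +kernel))
noncomputable def rhc318c35efd8bee0f : CRef := CRef.mk (Pat.mk 0x10000000180000000c0000000800000000 0x80000000c0000000c0000001c000000180000001f0000003c00000010 6 6) 0 0 (step_sound _ 65 [(rh53b3c253cb0c65f4.shift 0 2), (rh91546ce6c5a2a60c.shift 1 0)] (by decide +kernel))
noncomputable def rhccf466ff8699e962 : CRef := CRef.mk (Pat.mk 0x8000000080000000c0000000400000000 0x140000003c0000000f0000000e0000007c00000018 6 7) 0 0 (step_sound _ 35 [(rh36d4d92ef3dad5f8.shift 1 0), rh5ee4dc8825dcefa0] (by decide +kernel))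
noncomputable def rh76f634bbec592a54 : CRef := CRef.mk (Pat.mk 0x80000001c000000040000000000000000 0x20000001f0000003f0000003c0000000400000004 6 6) 0 0 (step_sound _ 34 [(rh71222050f2c63a3a.shift 2 0), (rhc5107aca8f698659.shift 0 1)] (by decide +kernel))
noncomputable def rh2c6c0d05924f4ad1 : CRef := CRef.mk (Pat.mk 0x100000003c0000000000000000 0x8000000080000001e0000007f0000003000000010 6 7) 0 0 (step_sound _ 98 [rh09315eb2908d1578, (rh3244c3cc8379b070.shift 1 2)] (by decide +kernel))
noncomputable def rh3b7e643e596454c2 : CRef := CRef.mk (Pat.mk 0x1e000000000000000000000000 0x10000000330000001f000000380000000800000008 6 6) 0 0 (step_sound _ 129 [(rh3244c3cc8379b070.shift 0 3), rhafce7c2a98f15f1d] (by decide +kernel))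
noncomputable def rh9cbc3a89b3f04b3e : CRef := CRef.mk (Pat.mk 0x60000000e0000000000000000 0x8000000080000003e0000003f0000003000000010 6 6) 0 0 (step_sound _ 68 [rh2fa8a6cd8a03c75c, (rhf48373e13d2bc128.shift 1 2)] (by decide +kernel))
noncomputable def rhf2bd1740b8b23bd8 : CRef := CRef.mk (Pat.mk 0x40000000e000000020000000200000000 0x10000000740000003f0000003e0000000b00000008 6 7) 0 0 (step_sound _ 100 [(rh3f9c2fb96516703c.shift 1 2), (rh5f9fbd1310f99a5a.shift 0 1), rhce71534e51e0a15e] (by decide +kernel))
noncomputable def rh5591ed3890e9f2cc : CRef := CRef.mk (Pat.mk 0x10000000380000000800000008 0x4000000040000007f0000003e0000007800000008 6 7) 0 0 (step_sound _ 66 [(rh0d378fd9e8917c5a.shift 0 1), (rh1f0d714a26639a27.shift 1 0), (rhec46bd5500c722c9.shift 1 2)] (by decide +kernel))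
noncomputable def rhf0816fef91aee7d1 : CRef := CRef.mk (Pat.mk 0x1e0000000200000000 0x800000008000000380000003f0000003600000010 6 6) 0 0 (step_sound _ 100 [(rh33e738c4ed385b9f.shift 1 2), rh538f744c3b549048] (by decide +kernel))
noncomputable def rhd11a7b70a5667082 : CRef := CRef.mk (Pat.mk 0x4000000380000000c00000000 0x140000003c0000000f0000003c0000000c00000004 6 6) 0 0 (step_sound _ 97 [rh049bd00447062473, (rh09d4dfe75d4407d6.shift 1 2)] (by decide +kernel))
noncomputable def rhbd77f7539dd78d63 : CRef := CRef.mk (Pat.mk 0x10000000200000003000000000000000000000000 0x50000000700000007000000030000000200000003000000070000000700000005 6 3) 0 0 (step_sound _ 161 [rh281c6819542c66e6, rh56259dd1390eee46, (rh68a777751bfeafdf.shift 0 2), (rhb1a251d9bff81766.shift 0 2)] (by decide +kernel))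
noncomputable def rh92cff54756505f65 : CRef := CRef.mk (Pat.mk 0x180000000e0000000000000000 0xa0000000b0000001f0000003e0000003400000014 6 6) 0 0 (step_sound _ 68 [rh41d5a93e35cc8528, (rhea719cc8bd0bdd28.shift 1 0)] (by decide +kernel))
noncomputable def rhc291146ba20e7aaf : CRef := CRef.mk (Pat.mk 0x1c0000000600000000 0x800000008000000380000001f0000003700000010 6 6) 0 0 (step_sound _ 65 [(rheb0810cc63b001d8.shift 0 1), rhf41a34b41b8c2138] (by decide +kernel))
noncomputable def rh3d6f924ec885b0e8 : CRef := CRef.mk (Pat.mk 0x8000000080000001c0000000c00000000 0x60000000f0000003f0000001c0000000c00000008 6 6) 0 0 (step_sound _ 130 [(rh50fbb5868c909700.shift 2 1), rha4c086e4ef4322c2] (by decide +kernel))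
noncomputable def rh0204c5c8fe52f049 : CRef := CRef.mk (Pat.mk 0xe0000000200000000 0x800000008000000780000003f0000007600000010 6 7) 0 0 (step_sound _ 68 [rh3bc20d0d8c73da06, (rhd584a578337d0023.shift 1 1), (rhf3baec4a0a3dd35e.shift 1 1)] (by decide +kernel))
noncomputable def rh21a92606aff61372 : CRef := CRef.mk (Pat.mk 0x1e000000040000000000000000 0xa0000003f0000001f000000040000000400000004 6 6) 0 0 (step_sound _ 129 [(rh3244c3cc8379b070.shift 0 3), rhfc4356d3d2a4024e] (by decide +kernel))
noncomputable def rh827a96975d738098 : CRef := CRef.mk (Pat.mk 0x20000001c0000000000000000 0x8000000080000003b0000001f0000003000000010 6 6) 0 0 (step_sound _ 65 [(rh3244c3cc8379b070.shift 0 2), rh3bc20d0d8c73da06] (by decide +kernel))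
noncomputable def rh1ceff3ca0296086f : CRef := CRef.mk (Pat.mk 0x1e000000020000000000000000 0x50000000700000007000000070000001e000000060000000600000004 6 5) 0 0 (step_sound _ 129 [(rh3244c3cc8379b070.shift 0 3), rh8bf61080e34cec66] (by decide +kernel))
noncomputable def rh4600baaf8ed39491 : CRef := CRef.mk (Pat.mk 0x1e000000040000000000000000 0x800000008000000380000001f0000000f0000000400000004 6 6) 0 0 (step_sound _ 65 [rhb7d2787f9e95c9f7, (rheb0810cc63b001d8.shift 0 2)] (by decide +kernel))
noncomputable def rh4e9101e89b88eb2f : CRef := CRef.mk (Pat.mk 0x1e0000000400000000 0x800000008000000380000001f0000003700000010 6 6) 0 0 (step_sound _ 33 [(rheb0810cc63b001d8.shift 0 1), rhf41a34b41b8c2138] (by decide +kernel))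
noncomputable def rhabf1d2d7928171dc : CRef := CRef.mk (Pat.mk 0x3800000040 0x670000003e00000067 6 7) 0 0 (step_sound _ 34 [(rh96851dee118c1ba3.shift 2 0), rhb004f31ace285408] (by decide +kernel))
noncomputable def rha367d84dafcc63e2 : CRef := CRef.mk (Pat.mk 0xc0000001c000000040000000400000000 0x40000000c0000001c0000003f0000000f0000000a 6 6) 0 0 (step_sound _ 35 [(rh55afc6a59410cf00.shift 2 0), rh9e40127d03ffcc22] (by decide +kernel))
noncomputable def rh0500d6ce1811a902 : CRef := CRef.mk (Pat.mk 0x100000000e00000000 0x1000000010000000300000003e00000077 6 7) 0 0 (step_sound _ 36 [(rh33e738c4ed385b9f.shift 1 1), rh83e6822671e0ac4d] (by decide +kernel))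
noncomputable def rhce353b10dcbf42c5 : CRef := CRef.mk (Pat.mk 0x10000000180000000e0000000800000000 0x80000000c0000000e0000001f0000001b0000001e0000000c00000004 6 5) 0 0 (step_sound _ 131 [(rh03dfdf12d5937476.shift 2 0), (rh933f3ac7d57d09d8.shift 2 1), rhe537a55726f74dba] (by decide +kernel))
noncomputable def rh0b0b6e1f398a39ab : CRef := CRef.mk (Pat.mk 0x8000000080000001c0000000600000000 0x160000001f0000003c0000001c0000007e00000073 6 7) 0 0 (step_sound _ 35 [rh26cdfd0ee59ad7b2, rh6e7f58010cf0b92d, (rh806a30ccd3d3e25c.shift 2 0)] (by decide +kernel))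
noncomputable def rhd87b4f8c6f0ee2c4 : CRef := CRef.mk (Pat.mk 0xe0000000200000000 0x800000008000000380000001f0000003300000010 6 6) 0 0 (step_sound _ 68 [rh3bc20d0d8c73da06, (rheb0810cc63b001d8.shift 0 1)] (by decide +kernel))
noncomputable def rh760bc30349b27d73 : CRef := CRef.mk (Pat.mk 0x200000007800000010 0x20000000200000003e0000007e00000017 6 7) 0 0 (step_sound _ 66 [rh3d7e7cc4c51f6d01, (rh3f8766e6ecb455ce.shift 2 1)] (by decide +kernel))
noncomputable def rh8e4b992041b51395 : CRef := CRef.mk (Pat.mk 0x20000001e0000000000000000 0x8000000080000003e0000003f0000003000000010 6 6) 0 0 (step_sound _ 98 [rh2fa8a6cd8a03c75c, (rhf48373e13d2bc128.shift 1 2)] (by decide +kernel))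
noncomputable def rh4b75f2151f643e2d : CRef := CRef.mk (Pat.mk 0x30000000080000000000000000 0x400000006000000fc0000003f0000000800000008 6 8) 0 0 (step_sound _ 66 [(rh7401e8cf466f4e5b.shift 0 2), (rhaff4d66ab2235e4f.shift 2 2), (rhd3c9450a5a980233.shift 1 0), (rhfe7c844806756e31.shift 1 2)] (by decide +kernel))
noncomputable def rh75b62b1478b97463 : CRef := CRef.mk (Pat.mk 0x70000000100000000000000000 0x8000000ec0000007f0000003e0000001000000010 6 8) 0 0 (step_sound _ 67 [rh146eac8c1cee8860, (rh1ed7a3503fa50fc8.shift 1 2), (rheea1a90336e79c71.shift 1 2)] (by decide +kernel))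
noncomputable def rh68f7e6ab787ab8a5 : CRef := CRef.mk (Pat.mk 0x180000000e00000004 0x3000000030000001f000000fe0000000f 6 8) 0 0 (step_sound _ 36 [rh93c0feb6cf144553, rh94201d150dbfe5dd, rh9e4a4fa661ab7448, rhaf9f2efc81a8312b] (by decide +kernel))
noncomputable def rha4dcbaa6d0921718 : CRef := CRef.mk (Pat.mk 0x180000000e000000000000000000000000 0xa0000000a0000001f0000003e000000370000001400000004 6 6) 0 0 (step_sound _ 66 [rh846b171e1ea44eb6, (rhbc45defcffc6d51e.shift 0 1), (rhf9366b6a121593ef.shift 2 0)] (by decide +kernel))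
noncomputable def rhe7196fc96509c637 : CRef := CRef.mk (Pat.mk 0xc0000000f000000040000000000000000 0xc0000001f0000003c0000001e0000000e 6 6) 0 0 (step_sound _ 34 [rh5fafc04cd9ebd0b4, (rh71222050f2c63a3a.shift 2 0)] (by decide +kernel))
noncomputable def rh13168d10d2a18e91 : CRef := CRef.mk (Pat.mk 0x180000001e000000080000000000000000 0x1b0000001e0000003f0000003000000030 6 6) 0 0 (step_sound _ 68 [rh404e8af4a6aeb81d, (rhe25b0a99195a5d59.shift 1 2)] (by decide +kernel))
noncomputable def rhf166b555317c57af : CRef := CRef.mk (Pat.mk 0x20000000300000001c0000000000000000 0x10000000700000003f0000007c0000006000000020 6 7) 0 0 (step_sound _ 98 [(rh095bd9c16cca0ec6.shift 0 2), (rh0eba255d854412ca.shift 1 0), (rh5ccb20250d808703.shift 1 2), (rha35991e704852e98.shift 2 0), (rhf87687aa9c475ea4.shift 1 2)] (by decide +kernel))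
noncomputable def rh8b6cc02b2bac433f : CRef := CRef.mk (Pat.mk 0x180000000e000000000000000400000000 0x8000000080000001f000000fe000000f30000001600000006 6 8) 0 0 (step_sound _ 100 [rh791b6989fe111af9, (rh883451bd3feec117.shift 0 2), (rhea719cc8bd0bdd28.shift 1 1)] (by decide +kernel))
noncomputable def rhaefb8be690a57155 : CRef := CRef.mk (Pat.mk 0x300000001c000000080000000800000000 0x6e0000003f0000001c0000007c0000001e00000014 6 7) 0 0 (step_sound _ 131 [(rh9ee3848b537ea47a.shift 1 0), rhb9fa41937b57b353, (rhe43b4aaaf26647b5.shift 2 0)] (by decide +kernel))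
noncomputable def rh3686d4e36dc7a232 : CRef := CRef.mk (Pat.mk 0x180000000c000000040000000000000000 0x120000001f0000003c0000000f0000003c0000001c 6 6) 0 0 (step_sound _ 34 [rh689b9d3139276148, (rh71222050f2c63a3a.shift 2 0)] (by decide +kernel))
noncomputable def rh852aea0b350c36a9 : CRef := CRef.mk (Pat.mk 0x8000000080000001c00000006000000000000000000000000 0x40000001c0000001c0000001c0000007e0000001b0000001800000008 6 7) 0 0 (step_sound _ 99 [(rh26cdfd0ee59ad7b2.shift 0 2), (rh6ed5e6501b92e21f.shift 2 1), (rhdaa34f01e5e560a1.shift 2 0)] (by decide +kernel))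
noncomputable def rh9a0b34ccd6b0a5d2 : CRef := CRef.mk (Pat.mk 0x400000007000000050000000000000000 0x6000000060000000600000007000000070000001f0000000e 6 5) 0 0 (step_sound _ 129 [rh24bf3b1980a14cd0, (rh35ab8589afe62dd0.shift 0 1), (rhe6002ac52d5b88c9.shift 0 1)] (by decide +kernel))
noncomputable def rhf624bf9a7a4c64a4 : CRef := CRef.mk (Pat.mk 0x180000000e000000000000000000000000 0x80000000800000018000000fe000000ff0000001400000004 6 8) 0 0 (step_sound _ 100 [rh7841066313475086, (rha1eb337eeb07c2e7.shift 0 2), (rhea719cc8bd0bdd28.shift 1 1)] (by decide +kernel))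
noncomputable def rhfae63af10f2f2e34 : CRef := CRef.mk (Pat.mk 0x400000006000000040000000000000000 0x600000006000000060000003c0000000f0000000e 6 6) 0 0 (step_sound _ 34 [rhac13d16ea91712e4, (rhe286c75f2739cce2.shift 1 0)] (by decide +kernel))
noncomputable def rh6fadc944e2e7425d : CRef := CRef.mk (Pat.mk 0x10000000300000001c0000000800000000 0x200000006c0000003e000000360000001c0000001f00000012 6 7) 0 0 (step_sound _ 131 [(rh0507344190b95ddd.shift 1 1), rh2de1ac2dd8f67323, (rh668fc65514a55b16.shift 3 0)] (by decide +kernel))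
noncomputable def rh8c52aceb2a93752c : CRef := CRef.mk (Pat.mk 0x7000000018000000080000000800000000 0x8000000080000002c00000078000000180000001f0000007c00000034 6 7) 0 0 (step_sound _ 131 [(rhbdb8dfd08861fbf7.shift 2 2), (rhd8d5fbf074709d68.shift 1 0), rhf1a8127573b72831] (by decide +kernel))
noncomputable def rh606e7f78ffeb489a : CRef := CRef.mk (Pat.mk 0x4000000040000001c0000000600000000 0x80000000c0000000c0000001f0000003e0000001c 6 6) 0 0 (step_sound _ 35 [(rh55afc6a59410cf00.shift 2 0), rh9e9aa24ca6c8cf7a] (by decide +kernel))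
noncomputable def rh6379922a00e86253 : CRef := CRef.mk (Pat.mk 0x100000001c000000080000000800000000 0x40000000f0000001f0000001c0000001f0000003c00000014 6 6) 0 0 (step_sound _ 131 [rh26a641dd1ea9a7b1, rh795a9fa361f5265f, (rhbad6ff9bdc3f8001.shift 2 0)] (by decide +kernel))
noncomputable def rhde7194d2a48d97b6 : CRef := CRef.mk (Pat.mk 0x180000000e00000004000000000000000000000000 0xe0000000f0000001e0000000e0000003c000000180000001800000008 6 6) 0 0 (step_sound _ 195 [(rh5c5e593799055d58.shift 2 3), rh79292a8ffdc19d6a] (by decide +kernel))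
noncomputable def rh761d0f3a520381cc : CRef := CRef.mk (Pat.mk 0x1800000018000000080000001800000000 0x70000001f0000001c0000000f0000003c00000004 6 6) 0 0 (step_sound _ 34 [(rh329d59e7f7a3e0d6.shift 0 1), (rh932754581e0f4330.shift 2 0)] (by decide +kernel))
noncomputable def rhf659182c2898fe93 : CRef := CRef.mk (Pat.mk 0x100000007800000018 0x1c0000001f0000003c0000007800000018 6 7) 0 0 (step_sound _ 67 [(rh3244c3cc8379b070.shift 2 1), rhf3b423a4ef564285] (by decide +kernel))
noncomputable def rhf8784390e1d25ab4 : CRef := CRef.mk (Pat.mk 0x1000000070000000180000000000000000 0x3e0000007f000000f80000000c0000000c 6 8) 0 0 (step_sound _ 99 [(rh15a2b73944acc7e4.shift 0 2), (rh2e8757b28c0e6a24.shift 2 0), (rh4c11c491f4d8ec0e.shift 2 0), (rh719a4defb16e1b89.shift 0 2)] (by decide +kernel))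
noncomputable def rh9d3afba43ae6eb87 : CRef := CRef.mk (Pat.mk 0x1000000018000000080000000800000000 0xc0000000c0000000c0000001f00000038000000780000001e00000014 6 7) 0 0 (step_sound _ 131 [(rh85480f11efc1e555.shift 1 0), (rhc647a25a08ddf0ec.shift 0 1), (rhcbaa34959f85e2ef.shift 2 0)] (by decide +kernel))
noncomputable def rh3f9dcede37a06255 : CRef := CRef.mk (Pat.mk 0x80000001c00000006000000040000000000000000 0x400000004000000040000000c0000001e0000003e0000003e0000001b00000002 6 6) 0 0 (step_sound _ 67 [rhe79075fa30d86af3, (rhf7bcf9b870af2a5c.shift 1 1), (rhfc3c7f9e1207403c.shift 1 1)] (by decide +kernel))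
noncomputable def rhdf6dc11c50f52b16 : CRef := CRef.mk (Pat.mk 0x1800000018000000080000001800000000 0x20000000780000001f0000003f000000f800000020 6 8) 0 0 (step_sound _ 98 [rh4eb52541b40f9d72, (rh7605cec361e7594d.shift 2 0), (rhab2ad169e49f9c5e.shift 0 3)] (by decide +kernel))
noncomputable def rh74c9babd7dd88dca : CRef := CRef.mk (Pat.mk 0x200000003800000010 0x3b7000001fe000001de 6 10) 0 0 (step_sound _ 38 [(rh84d1614f5efa9132.shift 3 0), (rhaf9f2efc81a8312b.shift 2 0), rhf0dcb8af34d9ea65] (by decide +kernel))
noncomputable def rh514980c7922c8c9c : CRef := CRef.mk (Pat.mk 0x1c00000018000000080000000800000000 0xb0000001f0000001c0000000f0000000c00000004 6 5) 0 0 (step_sound _ 34 [(rh932754581e0f4330.shift 2 0), (rhd348c3004d8c50b5.shift 0 1)] (by decide +kernel))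
noncomputable def rhb225796ab5df8cc6 : CRef := CRef.mk (Pat.mk 0x80000000c000000040000000400000000 0x600000006000000060000000f0000003c0000000f0000003c00000018 6 6) 0 0 (step_sound _ 130 [(rhcbaa34959f85e2ef.shift 1 0), (rhcf85c92937975d4d.shift 0 1), rhd802bb8339359eae] (by decide +kernel))
noncomputable def rha5b448960ed7d178 : CRef := CRef.mk (Pat.mk 0x200000002000000030000000700000000 0x400000006000000060000001f0000001f0000001a 6 5) 0 0 (step_sound _ 35 [rh22ec5234dc4593a9, (rhf48373e13d2bc128.shift 0 1)] (by decide +kernel))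
noncomputable def rhe3d10e9bd66ad801 : CRef := CRef.mk (Pat.mk 0x180000000e000000080000000000000000 0x1c000000fe0000007f0000003000000030 6 8) 0 0 (step_sound _ 100 [rh2d432a4e867e50f2, (rh76c4edc656936505.shift 1 2), (rhb447f348b8f2aaa5.shift 0 2)] (by decide +kernel))
noncomputable def rh7dd59a193053bf6c : CRef := CRef.mk (Pat.mk 0x8000000080000002c0000000400000000 0x140000003c0000000f0000006c0000007c00000018 6 7) 0 0 (step_sound _ 35 [(rh509847d0837ffcc5.shift 2 0), (rh5646077d50880e6b.shift 2 0), rh5ee4dc8825dcefa0] (by decide +kernel))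
noncomputable def rh537c3d64fb6d9a96 : CRef := CRef.mk (Pat.mk 0x8000000180000000c 0x3f0000007f0000000e 6 7) 0 0 (step_sound _ 37 [(rh18965a982d73c794.shift 2 0), rhd4fe760ed5639bc8] (by decide +kernel))
noncomputable def rhed8f43a1f4476abd : CRef := CRef.mk (Pat.mk 0x1000000018000000080000000800000000 0x8000000080000000c0000001e0000007c0000001f0000000c00000004 6 7) 0 0 (step_sound _ 131 [(rh1f8790d8851d9374.shift 2 0), rh7efff25179d37ffa, (rhcf85c92937975d4d.shift 1 1)] (by decide +kernel))
noncomputable def rhbffd51f1488301b9 : CRef := CRef.mk (Pat.mk 0x2000000020000000f000000010000000000000000 0x20000001a0000001f0000001f0000000e00000004 6 5) 0 0 (step_sound _ 65 [(rh18965a982d73c794.shift 0 2), rh81fe71fa6d359d51] (by decide +kernel))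
noncomputable def rh594609ce2b798654 : CRef := CRef.mk (Pat.mk 0x40000000400000016000000020000000000000000 0xc0000000c0000003e0000000f0000000c0000000c 6 6) 0 0 (step_sound _ 99 [(rhb2b31770788dded8.shift 1 0), (rheb0810cc63b001d8.shift 0 2)] (by decide +kernel))
noncomputable def rhff31253ebd355126 : CRef := CRef.mk (Pat.mk 0x400000004000000160000000200000000 0xa0000000f0000003c000000360000003e0000000c 6 6) 0 0 (step_sound _ 34 [(rh2da13a5a73e0cdbe.shift 1 0), (rh509847d0837ffcc5.shift 1 0), rhab3c3f3ae8c9664f] (by decide +kernel))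
noncomputable def rh7ac97608c09a050b : CRef := CRef.mk (Pat.mk 0x40000001600000002 0x7c0000007e000000e3 6 8) 0 0 (step_sound _ 35 [(rha1f05977cb30c9d7.shift 1 0), rheb0810cc63b001d8] (by decide +kernel))
noncomputable def rh6f8343476377d5ec : CRef := CRef.mk (Pat.mk 0x800000008000000080000001c00000000 0x40000000c0000000c0000003e0000007f00000003 6 7) 0 0 (step_sound _ 130 [(rh50fbb5868c909700.shift 2 1), rhbbc23dc90748575a] (by decide +kernel))
noncomputable def rh7f0afc4397677225 : CRef := CRef.mk (Pat.mk 0x80000001c000000060000000400000000 0x140000001c0000001c0000003e0000003e0000001b 6 6) 0 0 (step_sound _ 35 [(rhad6bf31ab005adb5.shift 1 0), rhbd6b85b9bdb1a42a, (rhf7bcf9b870af2a5c.shift 1 0)] (by decide +kernel))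
noncomputable def rh23c90b53444d4795 : CRef := CRef.mk (Pat.mk 0x80000001c00000016 0x3000000030000003f0000001e00000036 6 6) 0 0 (step_sound _ 33 [rh98d92ab9dd718be9, (rhe25b0a99195a5d59.shift 1 0)] (by decide +kernel))
noncomputable def rhdc6abb5934ea3318 : CRef := CRef.mk (Pat.mk 0x180000000c0000000000000000 0x8000000080000001c000000ff0000003700000010 6 8) 0 0 (step_sound _ 65 [(rh53b3c253cb0c65f4.shift 0 2), rhd699ae2018e567fb] (by decide +kernel))
noncomputable def rh8dcdda43426723b6 : CRef := CRef.mk (Pat.mk 0x180000000c0000000800000000 0xc0000000c0000000c0000001c0000001f0000003c00000010 6 6) 0 0 (step_sound _ 65 [(rh53b3c253cb0c65f4.shift 0 2), (rha0f7e92d30f83e91.shift 1 0)] (by decide +kernel))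
noncomputable def rhc6e316a51d7a7e4b : CRef := CRef.mk (Pat.mk 0x40000001c000000060000000200000000 0x80000000c0000001c0000001f0000003b00000018 6 6) 0 0 (step_sound _ 67 [rh3d71e93300bd048d, (rh53b3c253cb0c65f4.shift 0 2)] (by decide +kernel))
noncomputable def rh36a825ecff4065c5 : CRef := CRef.mk (Pat.mk 0x2000000020000000300000001000000010 0x80000007c000001ef000000fc000000dc00000050 6 9) 0 0 (step_sound _ 67 [(rh0085d2d6753c7fd3.shift 2 0), (rh1a3d54f4ee790517.shift 2 1), (rh2221efc44f1b9a1f.shift 2 0), (rha11dfd15f08f96e3.shift 2 2), rhb98e183a12ed98e4] (by decide +kernel))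
noncomputable def rh7aad77bd557e3da5 : CRef := CRef.mk (Pat.mk 0x180000001c000000080000000800000000 0xe0000001f0000001f0000000c0000000c00000004 6 5) 0 0 (step_sound _ 130 [rh4949152dc5942436, (rh50fbb5868c909700.shift 2 1)] (by decide +kernel))
noncomputable def rh6e9bf4f4aa5db38b : CRef := CRef.mk (Pat.mk 0x180000001c000000080000000800000000 0x640000007f0000001c000000180000001800000010 6 7) 0 0 (step_sound _ 130 [rh2d49c0ea23731b37, (rh50fbb5868c909700.shift 2 1)] (by decide +kernel))
noncomputable def rha7092670063e400a : CRef := CRef.mk (Pat.mk 0x7800000018 0x670000007f000000f8 6 8) 0 0 (step_sound _ 6 [rh37bb8d43e96e3f1e, (rhe25b0a99195a5d59.shift 3 0)] (by decide +kernel))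
noncomputable def rhcf72e804047b6c6d : CRef := CRef.mk (Pat.mk 0x8000000080000001c0000000600000000 0x4000000140000003c0000007f0000001e0000000e0000000a 6 7) 0 0 (step_sound _ 130 [(rh00904813ed7d9adf.shift 1 0), rhaffc1da1130eb56c, (rhc9e26c0ff48ef4a3.shift 1 0)] (by decide +kernel))
noncomputable def rh3b57dbe8a6aeb190 : CRef := CRef.mk (Pat.mk 0x10000000180000000e000000080000000000000000 0x28000000380000001f0000003e0000001f0000001400000004 6 6) 0 0 (step_sound _ 100 [(rh2f5f69c8c7ba334f.shift 0 2), (rh8dade4763de58752.shift 0 1), rh93e8fe2ae070d0cb] (by decide +kernel))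
noncomputable def rh58a90283bbada679 : CRef := CRef.mk (Pat.mk 0x2000000020000000300000001c00000000 0x1000000030000000700000003f0000007c0000002e 6 7) 0 0 (step_sound _ 66 [(rh01db3c8091e52d57.shift 0 1), (rh095bd9c16cca0ec6.shift 0 1), (rh0ba4dbec80dfb4d4.shift 1 0), (rh60ceebc1c1642da5.shift 2 0), (rhf87687aa9c475ea4.shift 1 1)] (by decide +kernel))
noncomputable def rhd15dd36ae4cd1688 : CRef := CRef.mk (Pat.mk 0x8000000380000000c0000000400000000 0x100000003f0000003f0000007c0000006600000020 6 7) 0 0 (step_sound _ 98 [(rh84faf3c77c936851.shift 1 0), (rh915c3ff3d4fe3a39.shift 0 3), (rhf6d72ac90bd26cb0.shift 1 1)] (by decide +kernel))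
noncomputable def rh9baf157b2323d5ca : CRef := CRef.mk (Pat.mk 0x8000000180000000c00000004 0x20000000f0000001f0000003f00000007 6 6) 0 0 (step_sound _ 33 [rh328a12483ec065f3, (rh53b3c253cb0c65f4.shift 0 1)] (by decide +kernel))
noncomputable def rh6254b0c427077913 : CRef := CRef.mk (Pat.mk 0x8000000180000000e00000004000000000000000000000000 0x160000001f0000001f0000001e0000000c000000080000000800000008 6 5) 0 0 (step_sound _ 99 [(rha707fb719e87fe6e.shift 3 2), (rhd29c8239e1cc0277.shift 2 0), (rhf977c67afcd9383c.shift 0 3)] (by decide +kernel))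
noncomputable def rh3eb3df6ae3daa111 : CRef := CRef.mk (Pat.mk 0x180000000e000000080000000800000000 0x180000003e0000001f0000007800000018 6 7) 0 0 (step_sound _ 100 [rh4584b9929e6377eb, (rh71222050f2c63a3a.shift 3 0)] (by decide +kernel))
noncomputable def rha37d73ec03729ca5 : CRef := CRef.mk (Pat.mk 0x180000001e000000080000000000000000 0x180000003e0000001f0000007800000018 6 7) 0 0 (step_sound _ 65 [(rh4b68e5329d6bf156.shift 1 0), (rheb0810cc63b001d8.shift 0 2)] (by decide +kernel))
noncomputable def rh4a59be183f8e90a1 : CRef := CRef.mk (Pat.mk 0x180000001e0000000800000000 0x14000000340000001f0000001e0000000b00000002 6 6) 0 0 (step_sound _ 97 [(rh3244c3cc8379b070.shift 0 2), rhc981b08dd081dee0] (by decide +kernel))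
noncomputable def rh62412f12430ece31 : CRef := CRef.mk (Pat.mk 0x10000000300000001c0000000800000000 0x200000006e0000003e0000003f0000001c0000000f00000006 6 7) 0 0 (step_sound _ 130 [(rh016cdad10fac5d9c.shift 1 1), (rh553a9ac9fc9e778e.shift 0 1), (rh8a473ec674e844c5.shift 1 0), rheebe454d9244459d, rhf2549dc0da66b756] (by decide +kernel))
noncomputable def rh91219f0a1c36088e : CRef := CRef.mk (Pat.mk 0x40000000f00000008 0x3e0000007f000000ec 6 8) 0 0 (step_sound _ 68 [(rh428265de8cd3cd2d.shift 0 1), (rhba5651e75a980bf0.shift 1 0)] (by decide +kernel))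
noncomputable def rh99dd60e849d26be6 : CRef := CRef.mk (Pat.mk 0x20000001a0000000300000000000000000000000000000000 0x50000000f0000001b0000000300000007000000070000000600000002 6 5) 0 0 (step_sound _ 97 [(rh330a005829cdd297.shift 0 3), rh55800e0decb9c023] (by decide +kernel))
noncomputable def rh8a68b5686ecb8a9c : CRef := CRef.mk (Pat.mk 0x20000001a00000003000000000000000000000000 0x100000007000000070000000f0000001b00000003000000060000000600000006 6 5) 0 0 (step_sound _ 65 [(rh330a005829cdd297.shift 0 2), (rh42ab489a1be3958e.shift 0 2), rhbd78a571ffa91fb9] (by decide +kernel))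
noncomputable def rh224e419e56c94404 : CRef := CRef.mk (Pat.mk 0x1e0000001200000000 0x8000000080000003b0000003f0000001600000010 6 6) 0 0 (step_sound _ 100 [(rh33e738c4ed385b9f.shift 1 2), rhffe2182b7575a0bb] (by decide +kernel))
noncomputable def rh038dfaa267a09217 : CRef := CRef.mk (Pat.mk 0xe000000040000000000000000 0x200000002000000770000003e000000740000000400000004 6 7) 0 0 (step_sound _ 129 [(rh4a0cb3a9508b05dd.shift 0 2), (rha40d42a2e34c408d.shift 1 0), (rhae8d21abc86b555a.shift 0 2)] (by decide +kernel))
noncomputable def rh28e8489d32b0fe12 : CRef := CRef.mk (Pat.mk 0x38000000100000001000000000 0x80000000c0000000f0000007c0000001e0000001c00000008 6 7) 0 0 (step_sound _ 130 [(rh169294d496e5a0bf.shift 2 1), (rh715c242616baed8b.shift 1 1), (rh8bb330ee5aea9f6b.shift 1 0), (rhdefe63c7d2f9baf4.shift 0 1)] (by decide +kernel))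
noncomputable def rhd1ee36fca93e3c14 : CRef := CRef.mk (Pat.mk 0x10000000180000000c0000000800000000 0x80000000c0000000c0000001c0000001c0000001f0000007800000010 6 7) 0 0 (step_sound _ 65 [(rh53b3c253cb0c65f4.shift 0 2), (rhe92ab359b903e1d1.shift 1 0)] (by decide +kernel))
noncomputable def rhf0e8c09acf153684 : CRef := CRef.mk (Pat.mk 0x500000006000000020000000200000000 0x30000000700000006000000070000003e0000000c 6 6) 0 0 (step_sound _ 129 [(rh50fbb5868c909700.shift 0 1), rh65a3a4cf67baf828] (by decide +kernel))
noncomputable def rh6314326e49e58a7a : CRef := CRef.mk (Pat.mk 0x200000007000000000 0x1fe000000fe00000007 6 9) 0 0 (step_sound _ 35 [(rh56a24c72f1c55520.shift 2 1), rh5b2ce1e5aa4a4edd, (rhec46bd5500c722c9.shift 2 1)] (by decide +kernel))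
noncomputable def rhcb1cb93b58f98487 : CRef := CRef.mk (Pat.mk 0x10000000180000000c0000000000000000 0x8000000380000001f000000ff0000007300000010 6 8) 0 0 (step_sound _ 65 [(rh53b3c253cb0c65f4.shift 0 2), rhde6aa733ddf0851c] (by decide +kernel))
noncomputable def rh3e8f13bbff4d5f0e : CRef := CRef.mk (Pat.mk 0x80000001c000000060000000000000000 0x380000001f0000003e0000003000000030 6 6) 0 0 (step_sound _ 97 [(rh591174ba4683a07b.shift 1 0), (rh69533f12b59c04e9.shift 0 2), rh715ef4deafe86686, (rhec46bd5500c722c9.shift 0 3)] (by decide +kernel))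
noncomputable def rh1f6e16d9a7fbe7fc : CRef := CRef.mk (Pat.mk 0x180000000e0000000000000000 0xc0000000c0000001f000000fe0000007300000012 6 8) 0 0 (step_sound _ 68 [rh21460d2d48a35cb8, (rh76c4edc656936505.shift 1 1), (rhea719cc8bd0bdd28.shift 1 0)] (by decide +kernel))
noncomputable def rh1ec042e53e367a52 : CRef := CRef.mk (Pat.mk 0x40000001e000000020000000200000000 0x1000000030000003f0000001e000000060000000600000004 6 6) 0 0 (step_sound _ 129 [(rh3244c3cc8379b070.shift 0 3), rh50ef8aeceab30434] (by decide +kernel))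
noncomputable def rh91eeee0c6086def1 : CRef := CRef.mk (Pat.mk 0x80000001c000000040000000400000000 0x600000006000000060000000f0000001c0000000f0000003c00000018 6 6) 0 0 (step_sound _ 130 [(rh277b01412deaec89.shift 0 1), rh4a39877b101e3102, (rhcbaa34959f85e2ef.shift 1 0)] (by decide +kernel))
noncomputable def rh30c30d63cfc6dc8d : CRef := CRef.mk (Pat.mk 0xe0000000400000004 0x2000000730000007e000000ef00000004 6 8) 0 0 (step_sound _ 68 [(rhaf9f2efc81a8312b.shift 0 1), (rhda98f5cded33c272.shift 1 1), rhe4f9133a81c1dbc5] (by decide +kernel))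
noncomputable def rh4a17aea50fd31fac : CRef := CRef.mk (Pat.mk 0x180000000c0000000400000004 0x2000000020000001f000000ff0000007c00000004 6 8) 0 0 (step_sound _ 65 [(rh53b3c253cb0c65f4.shift 0 2), rhd673fe3b0daa2732] (by decide +kernel))
noncomputable def rh19990dc20c9bbbff : CRef := CRef.mk (Pat.mk 0x1c000000060000000200000002 0x20000000a0000000b0000001f0000003e0000003600000012 6 6) 0 0 (step_sound _ 97 [rh014abbda9a411227, rh8db50c9018a9ca1f, (rhbdb8dfd08861fbf7.shift 0 1)] (by decide +kernel))
noncomputable def rhf2cdd83051d1963e : CRef := CRef.mk (Pat.mk 0x2000000020000000100000001 0x100000003000000030000000200000006000000070000000700000001 6 3) 0 0 (step_sound _ 129 [(rhe16036ff578a11df.shift 0 1), rheea67dfebd0f8008] (by decide +kernel))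
noncomputable def rh1e7fc6b2c529f289 : CRef := CRef.mk (Pat.mk 0x100000001000000018000000080000000800000000 0x400000014000001f7000000fe000001ef0000002800000020 6 9) 0 0 (step_sound _ 101 [(rh2ead9b9cc22afc12.shift 1 0), (rhd263e77fba7cfc5a.shift 0 1), (rhfa35e196e150edb4.shift 2 2)] (by decide +kernel))
noncomputable def rh5cad244c30bc8170 : CRef := CRef.mk (Pat.mk 0x1c000000180000000000000000 0x8000000080000003f0000001f0000003000000010 6 6) 0 0 (step_sound _ 97 [rh391f4472eb57537b, (rhb739f4f82bb681b4.shift 0 2)] (by decide +kernel))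
noncomputable def rhdc26ad9894c5d01c : CRef := CRef.mk (Pat.mk 0x10000000180000000e0000000800000000 0x28000000380000001f0000003e0000003f00000004 6 6) 0 0 (step_sound _ 68 [(rh2f5f69c8c7ba334f.shift 0 1), rh726166dfdd761e81, (rhd8d98eb6ec46d5f8.shift 0 1)] (by decide +kernel))
noncomputable def rhebc72f11f72a9c25 : CRef := CRef.mk (Pat.mk 0x100000001c0000000800000008 0x4000000040000001f0000003f0000003b0000000a 6 6) 0 0 (step_sound _ 65 [rh21460d2d48a35cb8, rhd1b2ab4d6a89f457, (rhe3dc93746cbe6e7c.shift 0 1)] (by decide +kernel))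
noncomputable def rhc83aa6ecc254808d : CRef := CRef.mk (Pat.mk 0xe0000000400000004 0x200000002000000770000003e0000007400000004 6 7) 0 0 (step_sound _ 97 [rh44858d7cb17813b7, (rh4a0cb3a9508b05dd.shift 0 1), (rhc89253ff58c66167.shift 1 0)] (by decide +kernel))
noncomputable def rh541b046befb5b6b9 : CRef := CRef.mk (Pat.mk 0x1000000018000000080000000800000000 0xc0000000c0000000c0000001f000000380000001c0000001c00000004 6 6) 0 0 (step_sound _ 131 [(rh0ef6c71ce89c1c36.shift 2 0), (rhad2e5f3a7ec95118.shift 2 0), (rhc647a25a08ddf0ec.shift 0 1)] (by decide +kernel))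
noncomputable def rh95c349eddb4c40d0 : CRef := CRef.mk (Pat.mk 0xa0000000e000000000000000000000000 0x20000000b0000003e000000370000000400000004 6 6) 0 0 (step_sound _ 100 [(rh3244c3cc8379b070.shift 0 3), rh72647915080d7d02] (by decide +kernel))
noncomputable def rh529ea6a67cd1149e : CRef := CRef.mk (Pat.mk 0x10000000180000000e0000000800000000 0x80000000c0000000e0000001f0000001f0000000e0000000c00000004 6 5) 0 0 (step_sound _ 131 [(rh03dfdf12d5937476.shift 2 0), (rh865cf161b9b29643.shift 2 1), (rhd2c74283b7b6e6b8.shift 2 1), rhe537a55726f74dba] (by decide +kernel))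
noncomputable def rh993ea573671b8f7b : CRef := CRef.mk (Pat.mk 0x1000000010000000180000000e00000000 0x280000003c000000f00000001f000000fe00000017 6 8) 0 0 (step_sound _ 36 [(rh870359598daa9f92.shift 0 1), rhb447f348b8f2aaa5, (rhf149b0c20b930719.shift 2 0)] (by decide +kernel))
noncomputable def rh239360f3bb442347 : CRef := CRef.mk (Pat.mk 0x8000000180000000e0000000400000000 0x160000001f0000001b0000000e0000003c00000010 6 6) 0 0 (step_sound _ 35 [(rh42afa1af9fffa0e1.shift 1 0), (rhf977c67afcd9383c.shift 0 1)] (by decide +kernel))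
noncomputable def rha65f9f17bbdcf417 : CRef := CRef.mk (Pat.mk 0x10000000300000001c0000000800000000 0xe0000001e0000003e0000003c0000006f00000026 6 7) 0 0 (step_sound _ 130 [(rh8a473ec674e844c5.shift 1 0), (rhc9ba0c6c9ad48bac.shift 1 0), rhf2549dc0da66b756] (by decide +kernel))
noncomputable def rhc38e68af590ec272 : CRef := CRef.mk (Pat.mk 0x10000000180000000c0000000000000000 0xa0000003b0000001f0000001f0000003400000014 6 6) 0 0 (step_sound _ 65 [(rh53b3c253cb0c65f4.shift 0 2), rh5fac114b21d4a090] (by decide +kernel))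
noncomputable def rh2a6fb553eaf318f4 : CRef := CRef.mk (Pat.mk 0x80000001c000000000000000400000000 0x1000000010000000780000003f000000f00000003e00000010 6 8) 0 0 (step_sound _ 69 [(rh0deb2ebc850de581.shift 1 1), (rh18b31825f45c624c.shift 1 0), (rh71185df907b4126f.shift 1 2), (rh816fd429a35c92eb.shift 0 2)] (by decide +kernel))
noncomputable def rh3539ae87e4f84ea5 : CRef := CRef.mk (Pat.mk 0xc0000000700000002000000000000000000000000 0x40000000c0000000e000000070000001e0000000c0000000c0000000c 6 5) 0 0 (step_sound _ 194 [rh0cb2fd80825d0e37, (rh5c5e593799055d58.shift 1 3)] (by decide +kernel))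
noncomputable def rh24d9c0d111212e44 : CRef := CRef.mk (Pat.mk 0x20000000e0000000300000001000000000000000000000000 0x60000000e0000001f0000001f0000001e0000000600000002 6 5) 0 0 (step_sound _ 97 [rh270502ca45ea5299, (rh7878b592544d766e.shift 0 2), rh84bebdeadf3219f3] (by decide +kernel))
noncomputable def rhaf10a125936aa25d : CRef := CRef.mk (Pat.mk 0x1c00000006000000020000000200000000 0x380000001f0000003e000000370000001600000014 6 6) 0 0 (step_sound _ 100 [rh7831f4fe1db86547, rh93a403cd651853c3, (rhdc45162e28a620df.shift 0 2)] (by decide +kernel))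
noncomputable def rhf63748f15f92e7ee : CRef := CRef.mk (Pat.mk 0x180000000e000000000000000000000000 0x8000000080000001c000000fe000000f70000001400000004 6 8) 0 0 (step_sound _ 100 [rh2a51b324027df434, (rha1eb337eeb07c2e7.shift 0 2), (rhea719cc8bd0bdd28.shift 1 1)] (by decide +kernel))
noncomputable def rh0bec55b140b5d4e2 : CRef := CRef.mk (Pat.mk 0x300000001c000000080000000800000000 0x670000003f0000001c0000007c0000001e00000014 6 7) 0 0 (step_sound _ 131 [(rh6cb0e5959253c9cf.shift 1 0), rh795a9fa361f5265f, (rhe43b4aaaf26647b5.shift 2 0)] (by decide +kernel))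
noncomputable def rh96aa665431d394bf : CRef := CRef.mk (Pat.mk 0x380000000c0000000400000000000000000000000000000000 0x720000003e0000000c0000000f0000003c0000001c0000000800000008 6 7) 0 0 (step_sound _ 98 [(rh71222050f2c63a3a.shift 2 2), rh8d66ed37db62efc3] (by decide +kernel))
noncomputable def rh35240712e9743d4a : CRef := CRef.mk (Pat.mk 0x70000000180000000800000000 0x40000000e70000007f000000f80000002c00000020 6 8) 0 0 (step_sound _ 99 [(rh210e2d9c685c857e.shift 0 2), (rha58ddf8813c4b875.shift 0 2), (rha703f82316c7240b.shift 2 0), (rhf6d72ac90bd26cb0.shift 2 1)] (by decide +kernel))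
noncomputable def rh446aa6a1c06c40c5 : CRef := CRef.mk (Pat.mk 0x180000000e00000004 0xa0000000f0000001f000000fe0000000f 6 8) 0 0 (step_sound _ 99 [(rh5c5e593799055d58.shift 2 0), rh898fe8f31f8f137d] (by decide +kernel))
noncomputable def rhfb5646a750ef7102 : CRef := CRef.mk (Pat.mk 0x1c0000000600000002 0x600000006000000070000001f0000003e00000003 6 6) 0 0 (step_sound _ 130 [(rhee230b994cc8b773.shift 1 0), rhf11640b0da92086c] (by decide +kernel))
noncomputable def rhe23dff789de61352 : CRef := CRef.mk (Pat.mk 0x1c00000006000000020000000200000000 0x10000000330000001f0000007e0000000f0000000e00000004 6 7) 0 0 (step_sound _ 100 [(rh14b21a5d56ad19c3.shift 0 2), rh37c4b47abb030c8e, (rhdc45162e28a620df.shift 0 2), (rhf2087de3a2fad627.shift 0 1)] (by decide +kernel))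
noncomputable def rh90682cf1ea8e0ea6 : CRef := CRef.mk (Pat.mk 0x20000000e000000030000000200000000 0x60000000e0000001b0000001f0000001d 6 5) 0 0 (step_sound _ 34 [(rh55afc6a59410cf00.shift 1 0), rhee77a3fe4d16747f] (by decide +kernel))
noncomputable def rhddcf078facbd803a : CRef := CRef.mk (Pat.mk 0x1c00000008000000080000000c00000000 0x80000001c0000000f0000003c0000000f0000000a 6 6) 0 0 (step_sound _ 98 [(rh7b1f1fb55310c477.shift 2 0), rha966122faacc1d2e] (by decide +kernel))
noncomputable def rha35705b344e6fdd0 : CRef := CRef.mk (Pat.mk 0x1c000000040000000000000000 0x200000022000000ff0000007e000000f40000001400000014 6 8) 0 0 (step_sound _ 133 [(rh149367f9f1f8871e.shift 1 2), rh18c677c17116583b, (rh834ef1c974e4840e.shift 1 0), (rh90fcc1b0fe0017ad.shift 1 3)] (by decide +kernel))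
noncomputable def rh60dd36137b7966de : CRef := CRef.mk (Pat.mk 0xc000000040000000400000000 0x60000000f0000003e0000003c0000000f0000000a 6 6) 0 0 (step_sound _ 130 [(rh17d893c7538e1819.shift 0 1), rh3ca4c10fdf355329] (by decide +kernel))
noncomputable def rh285b41100f79d20a : CRef := CRef.mk (Pat.mk 0x70000000180000000800000000 0x40000000e70000007f000000f80000002c00000020 6 8) 0 0 (step_sound _ 99 [(rh1b1a23e58c3e6ec7.shift 1 2), (rh210e2d9c685c857e.shift 0 2), (rha58ddf8813c4b875.shift 0 2), (rhf5f440226ecccf55.shift 2 0), (rhf6d72ac90bd26cb0.shift 2 1)] (by decide +kernel))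
noncomputable def rh1945f2323715acee : CRef := CRef.mk (Pat.mk 0x380000000c000000040000000400000000 0x100000003e0000007c0000003e0000000f0000000a 6 7) 0 0 (step_sound _ 130 [rh6cb0e5959253c9cf, (rhf6d72ac90bd26cb0.shift 1 2)] (by decide +kernel))
noncomputable def rh41bc2a4a1f3a9aef : CRef := CRef.mk (Pat.mk 0x10000000180000000e000000000000000000000000 0x2000000330000001f000000fe000000070000000400000004 6 8) 0 0 (step_sound _ 100 [rh22f53ba2f05af569, (rh7e24dc22889eb307.shift 0 1), (rh870359598daa9f92.shift 0 3), (rhb447f348b8f2aaa5.shift 0 2)] (by decide +kernel))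
noncomputable def rhd9a0f58acb73c2d5 : CRef := CRef.mk (Pat.mk 0x8000000080000000c0000000600000000 0x400000004000000160000001f0000007c0000000c0000000e0000000a 6 7) 0 0 (step_sound _ 130 [rhc3a9559c72b00d0b, (rhc86e3ab3c2b165e9.shift 1 0), (rhf9a6286f1d5377a2.shift 2 1)] (by decide +kernel))
noncomputable def rhcc001f46f91fbccd : CRef := CRef.mk (Pat.mk 0x80000000c00000008000000100000000000000000 0xc0000000c0000000f0000003c0000001c00000008 6 6) 0 0 (step_sound _ 67 [rh4e6c5a7f6fc4c362, (rh55afc6a59410cf00.shift 3 1)] (by decide +kernel))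
noncomputable def rh85a476dcae2fbe68 : CRef := CRef.mk (Pat.mk 0x20000000e000000030000000200000000 0x4000000060000000e0000001b0000001f0000000d 6 5) 0 0 (step_sound _ 32 [rh932754581e0f4330, rhbfcebe01e68384ab] (by decide +kernel))
noncomputable def rhd526cc6d4122cb72 : CRef := CRef.mk (Pat.mk 0x80000001c000000060000000400000000 0x40000003c0000001f0000003e0000003700000012 6 6) 0 0 (step_sound _ 68 [(rh251facab2e282844.shift 0 2), rh37b8c63c045fbf1d, (rh3ce854f4a795c89f.shift 0 2), rh87392e1f76cad36e] (by decide +kernel))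
noncomputable def rh1ecc746e979c8cb9 : CRef := CRef.mk (Pat.mk 0x18000000180000000800000018 0x640000003f0000001f0000001800000018 6 7) 0 0 (step_sound _ 98 [rh2887e039268cde47, (rh50fbb5868c909700.shift 2 0)] (by decide +kernel))
noncomputable def rh7c5a8bc54b7d365c : CRef := CRef.mk (Pat.mk 0x1000000018000000080000000000000000 0x10000000100000003f000000fe0000007c0000002000000020 6 8) 0 0 (step_sound _ 164 [(rh5c5e593799055d58.shift 3 2), rh5ff210a8cfa3e51c] (by decide +kernel))
noncomputable def rhe52323c8a5c3136a : CRef := CRef.mk (Pat.mk 0xf000000030000000000000000 0x40000001c0000000f0000001f0000001c0000001c 6 5) 0 0 (step_sound _ 67 [rh8ac3084f852f5d2c, (rhe25b0a99195a5d59.shift 0 2)] (by decide +kernel))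
noncomputable def rh35850ee2050be189 : CRef := CRef.mk (Pat.mk 0x80000001c000000000000000400000000 0x1000000030000000780000003f000000f00000003e00000010 6 8) 0 0 (step_sound _ 69 [(rh0deb2ebc850de581.shift 1 1), (rh18b31825f45c624c.shift 1 0), (rh29de00e83d9cefcd.shift 1 0), (rh816fd429a35c92eb.shift 0 2)] (by decide +kernel))
noncomputable def rhdce0d1fc36c26d74 : CRef := CRef.mk (Pat.mk 0x200000002000000070000000100000000000000000 0x200000006e0000007e000000f70000004000000040 6 8) 0 0 (step_sound _ 99 [(rh503775339733bab1.shift 1 3), (rhc7b95363f9049b11.shift 3 0), (rhc7e8e87a0b43237b.shift 0 2)] (by decide +kernel))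
noncomputable def rh76474a20d9b30412 : CRef := CRef.mk (Pat.mk 0x6000000030000000600000000000000000000000000000000 0x400000006000000030000000700000007000000070000000300000002 6 3) 0 0 (step_sound _ 97 [(rh2f68792b6b779e96.shift 1 3), rhd874854b53e4228b] (by decide +kernel))
noncomputable def rh3fcff1ec7d3830a8 : CRef := CRef.mk (Pat.mk 0xf0000000b0000000000000000 0x40000000c0000001c0000000f0000000f0000001e0000000e 6 5) 0 0 (step_sound _ 131 [rh2586d1810f2e3a9a, (rh33e738c4ed385b9f.shift 0 3)] (by decide +kernel))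
noncomputable def rh6e11e8700e98f214 : CRef := CRef.mk (Pat.mk 0x8000000080000000c00000004000000000000000000000000 0x10000000180000007c0000000f0000003c000000180000001800000018 6 7) 0 0 (step_sound _ 99 [(rh554948a6834eedab.shift 0 2), (rh82c6aec0c6f8e399.shift 2 0), (rhfe557af9112f51d6.shift 0 2)] (by decide +kernel))
noncomputable def rh3905072ff89a80bc : CRef := CRef.mk (Pat.mk 0x2000000020000000700000001000000000000000000000000 0x40000000600000007000000070000001f0000001e0000000600000002 6 5) 0 0 (step_sound _ 97 [rh3502d92c6cce609b, rh4f66b8b299b10e60, (rh806a30ccd3d3e25c.shift 0 2), (rhc25035b08412a6a9.shift 0 1)] (by decide +kernel))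
noncomputable def rhad254c8bd6d7b9ab : CRef := CRef.mk (Pat.mk 0x180000000e000000000000000000000000 0x18000000380000001f0000003e000000380000001800000010 6 6) 0 0 (step_sound _ 100 [(rh5e2873dff0a356e8.shift 0 1), (rhbbe16ff26f7822db.shift 1 0), (rhd2705a941542c9fb.shift 0 1)] (by decide +kernel))
noncomputable def rhf00c5dcc041948ff : CRef := CRef.mk (Pat.mk 0x2000000070000000180000001000000000 0xf00000007f000000f8000000f000000060 6 8) 0 0 (step_sound _ 99 [(rhc6f8b44da755dc85.shift 0 2), (rhec46bd5500c722c9.shift 2 3), (rhed31fe3d3cc5e5ee.shift 3 0)] (by decide +kernel))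
noncomputable def rh262dc54b2e73be7d : CRef := CRef.mk (Pat.mk 0x180000000e000000080000000000000000 0x1c000000fe0000007f0000003000000030 6 8) 0 0 (step_sound _ 100 [(rh5f68d4d802450994.shift 1 2), (rh76c4edc656936505.shift 1 2), (rhb447f348b8f2aaa5.shift 0 2), rhd3114851a34382be] (by decide +kernel))
noncomputable def rh62fd28a3ef651296 : CRef := CRef.mk (Pat.mk 0x80000000c000000060000000400000000 0x20000000b0000003e0000003e0000003c00000010 6 6) 0 0 (step_sound _ 100 [(rh18965a982d73c794.shift 1 2), rh4f9757f8ed44b91e] (by decide +kernel))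
noncomputable def rh2974c90df69c5e3f : CRef := CRef.mk (Pat.mk 0x80000001c000000060000000400000000 0x40000003c0000001f0000003e0000003f0000001a 6 6) 0 0 (step_sound _ 97 [rhe15dbef4916f64a8, (rhec46bd5500c722c9.shift 0 3), (rhed31fe3d3cc5e5ee.shift 1 0)] (by decide +kernel))
noncomputable def rh323b13b67898eb3f : CRef := CRef.mk (Pat.mk 0x1800000018000000080000000800000000 0x8000000380000003f0000000f0000000c00000004 6 6) 0 0 (step_sound _ 34 [(rh932754581e0f4330.shift 2 0), (rh990c9b4b894ef13e.shift 0 1)] (by decide +kernel))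
noncomputable def rh2c2d98c8f9a85223 : CRef := CRef.mk (Pat.mk 0x100000003800000000 0x3be000001fe000001c7 6 10) 0 0 (step_sound _ 38 [rh14ee58c1672e9101, (rh695f888db18ad7c7.shift 3 0), (rhf5fa5e48e0784de2.shift 3 0)] (by decide +kernel))
noncomputable def rhce9dace33278cf3c : CRef := CRef.mk (Pat.mk 0x1000000010000000180000001800000000 0x28000000780000001e000000780000003f00000007 6 7) 0 0 (step_sound _ 131 [(rh50fbb5868c909700.shift 3 1), rha4b2d01b942dac20] (by decide +kernel))
noncomputable def rh1dc37c0c5aed9fa3 : CRef := CRef.mk (Pat.mk 0x18000000080000000c0000000c00000000 0x60000001f0000001b0000000f0000000c00000008 6 5) 0 0 (step_sound _ 100 [(rh268398b3f32f9821.shift 0 1), (rh71222050f2c63a3a.shift 3 0)] (by decide +kernel))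
noncomputable def rh1fc516d65a4528a1 : CRef := CRef.mk (Pat.mk 0xc000000080000000c0000000000000000 0x40000000c0000000c0000003c0000000f0000000e 6 6) 0 0 (step_sound _ 35 [rh3e6c315caf6f8b94, (rh50fbb5868c909700.shift 2 1)] (by decide +kernel))
noncomputable def rh97592df7d5ebadcd : CRef := CRef.mk (Pat.mk 0x2000000020000000300000002000000000000000000000000 0x400000006000000060000000300000003000000070000000600000006 6 3) 0 0 (step_sound _ 96 [rh82c6aec0c6f8e399, (rh932754581e0f4330.shift 0 2)] (by decide +kernel))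
noncomputable def rhf575afa19097e90e : CRef := CRef.mk (Pat.mk 0x180000001800000018 0xc0000000f0000007c0000001e00000018 6 7) 0 0 (step_sound _ 99 [rh1878020f69e9d46b, (rh2145e1d24b96a57e.shift 3 0)] (by decide +kernel))
noncomputable def rhd7ae86bf31a4c7f7 : CRef := CRef.mk (Pat.mk 0x8000000080000000c0000000400000000 0x140000003c0000000f0000000f0000003c00000018 6 6) 0 0 (step_sound _ 35 [rh5ee4dc8825dcefa0, rh9bf22e708841bd13, rhfe557af9112f51d6] (by decide +kernel))
noncomputable def rh9dda159c529a8e90 : CRef := CRef.mk (Pat.mk 0x20000000200000003800000000 0x600000003e000000fe000001df 6 9) 0 0 (step_sound _ 2 [(rh0f4a0920b9f47778.shift 2 0), rhe1c32197ffb40f8f, (rhe57843cdfa259fd4.shift 1 0)] (by decide +kernel))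
noncomputable def rhd7c8e8bf77e9880b : CRef := CRef.mk (Pat.mk 0x8000000080000000e000000000000000000000000 0x20000000a0000001b0000003e000000370000001400000010 6 6) 0 0 (step_sound _ 100 [(rh67fae0f1b92e06b7.shift 0 1), (rhd132b680030c88e0.shift 1 0)] (by decide +kernel))
noncomputable def rhe303dfad404ca0b4 : CRef := CRef.mk (Pat.mk 0x3800000010 0x70000007f000000fe 6 8) 0 0 (step_sound _ 34 [(rh0edd3afef6b5d7e0.shift 1 0), (rha03f6e28ea70fc7d.shift 1 0), rhca499ce2bfadea5b] (by decide +kernel))
noncomputable def rhd3969ba2fee7b94e : CRef := CRef.mk (Pat.mk 0x10000000100000001c0000001000000000 0x1000000017000000ff0000001c00000008 6 8) 0 0 (step_sound _ 35 [(rh932754581e0f4330.shift 3 0), (rhdaf210947b47bcf0.shift 0 1)] (by decide +kernel))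
noncomputable def rh47e9348c2c3792cf : CRef := CRef.mk (Pat.mk 0x8000000080000001e00000002 0x70000000f0000001b0000003e00000006 6 6) 0 0 (step_sound _ 2 [(rh18965a982d73c794.shift 1 0), rhfdb2696429ffb75e] (by decide +kernel))
noncomputable def rh701e61da76bc602c : CRef := CRef.mk (Pat.mk 0x4000000040000000e000000020000000000000000 0x14000000740000003f0000003e0000000800000008 6 7) 0 0 (step_sound _ 100 [(rhbf26e346ec901b25.shift 0 1), (rhd584a578337d0023.shift 1 2), rhf459621b93742302] (by decide +kernel))
noncomputable def rh29bf8a73b4d85c10 : CRef := CRef.mk (Pat.mk 0x40000000f000000030000000000000000 0x80000001c0000000f0000001f0000001c0000000c 6 5) 0 0 (step_sound _ 67 [rh5d4f4f34aff62b3b, (rhe25b0a99195a5d59.shift 0 2)] (by decide +kernel))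
noncomputable def rh7688e0a72576835c : CRef := CRef.mk (Pat.mk 0x80000001e000000000000000000000000 0x20000000b0000003e000000370000000400000004 6 6) 0 0 (step_sound _ 68 [rh5f27e0477c371a96, (rhe25b0a99195a5d59.shift 1 2)] (by decide +kernel))
noncomputable def rh824ec332563d2c66 : CRef := CRef.mk (Pat.mk 0x1000000018000000080000000800000000 0x18000000180000007c0000000f0000000c00000004 6 7) 0 0 (step_sound _ 131 [(rh2f68792b6b779e96.shift 3 1), rh7efff25179d37ffa] (by decide +kernel))
noncomputable def rh6e2ee04aaa04a200 : CRef := CRef.mk (Pat.mk 0x40000001c000000060000000200000000 0x3000000130000003f0000001e0000003e0000000b00000009 6 6) 0 0 (step_sound _ 97 [(rh2e2af70cc0a250e3.shift 0 2), rha703f82316c7240b, rhdfb45a0764e33452] (by decide +kernel))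
noncomputable def rh9a7b7d54bf92be23 : CRef := CRef.mk (Pat.mk 0x80000001c0000000000000000 0x4000000040000003f0000003f0000000300000002 6 6) 0 0 (step_sound _ 65 [rh21460d2d48a35cb8, (rhec46bd5500c722c9.shift 0 2)] (by decide +kernel))
noncomputable def rh19dbdcc1f4128c73 : CRef := CRef.mk (Pat.mk 0x400000004000000040000000800000000 0x20000000f0000003e000000040000000c0000000c 6 6) 0 0 (step_sound _ 34 [rh231989296d6ff0d0, (rh55afc6a59410cf00.shift 2 0)] (by decide +kernel))
noncomputable def rh05aee9a8107b5867 : CRef := CRef.mk (Pat.mk 0x800000008000000180000000400000000 0x40000000c0000001f000000780000000c0000000c 6 7) 0 0 (step_sound _ 35 [rh82dcfa9962ac4e49, (rh932754581e0f4330.shift 2 0)] (by decide +kernel))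
noncomputable def rhd303e14ddaa42b05 : CRef := CRef.mk (Pat.mk 0x40000000c0000000400000004 0x600000006000000060000003c0000000f00000006 6 6) 0 0 (step_sound _ 129 [rh102518a8aa0a2890, (rhffd04209dc8ea796.shift 1 0)] (by decide +kernel))
noncomputable def rhdb12c53e5fc5baa2 : CRef := CRef.mk (Pat.mk 0x400000006000000020000000000000000 0x4000000040000000e0000003f0000007f0000000800000008 6 7) 0 0 (step_sound _ 162 [rh358bc84bf33f2b11, (rh5c5e593799055d58.shift 1 2)] (by decide +kernel))
noncomputable def rhc04c29a1ef993d51 : CRef := CRef.mk (Pat.mk 0x8000000080000000c0000001400000000 0x40000000c0000000c0000003c0000001f0000001a 6 6) 0 0 (step_sound _ 35 [rh04aa474d63f24212, (rh55afc6a59410cf00.shift 3 0)] (by decide +kernel))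
noncomputable def rh4bb0273b2056b57d : CRef := CRef.mk (Pat.mk 0x200000007000000040 0x370000007e000000ce 6 8) 0 0 (step_sound _ 35 [rh1f9701c4cf497514, (rhe25b0a99195a5d59.shift 3 0)] (by decide +kernel))
noncomputable def rhdf187c9f8f6f2f99 : CRef := CRef.mk (Pat.mk 0x2000000020000000f000000010000000000000000 0x20000001a0000001f0000001f0000000e00000004 6 5) 0 0 (step_sound _ 65 [(rh18965a982d73c794.shift 0 2), rh87e404630e3492e0] (by decide +kernel))
noncomputable def rh1ea8bb02c803a727 : CRef := CRef.mk (Pat.mk 0x200000002000000070000000300000000 0x400000006000000060000001f0000001f0000001c 6 5) 0 0 (step_sound _ 34 [(rh55afc6a59410cf00.shift 1 0), rh85c6105982c48ee0] (by decide +kernel))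
noncomputable def rh7ac67e1112f9e713 : CRef := CRef.mk (Pat.mk 0x8000000080000001c000000040000000000000000 0x140000001c0000001c0000001c0000007f0000007a00000018 6 7) 0 0 (step_sound _ 67 [(rh806a30ccd3d3e25c.shift 2 1), (rha5db35bed5b9a95e.shift 0 1), (rhc25035b08412a6a9.shift 2 0)] (by decide +kernel))
noncomputable def rh560d826dc422fe75 : CRef := CRef.mk (Pat.mk 0x8000000180000000c0000000400000000 0x60000000f0000001c0000000f0000003c00000018 6 6) 0 0 (step_sound _ 65 [(rh53b3c253cb0c65f4.shift 0 2), rh9865a5c7b7f92d07] (by decide +kernel))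
noncomputable def rh37a2dab74636ef75 : CRef := CRef.mk (Pat.mk 0x400000004000000040000000200000000 0xa0000000f0000003c000000040000000600000006 6 6) 0 0 (step_sound _ 34 [rh1bd0c14c4de1ef4d, (rh932754581e0f4330.shift 1 0)] (by decide +kernel))
noncomputable def rh84c8dec750734c5e : CRef := CRef.mk (Pat.mk 0x2000000060000000300000000000000000000000000000000 0x1000000070000000700000006000000070000000300000006000000070000000700000001 6 3) 0 0 (step_sound _ 97 [(rh42ab489a1be3958e.shift 0 3), (rha707fb719e87fe6e.shift 1 2), rhafd44d417107dbfd] (by decide +kernel))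
noncomputable def rh2e1af74723169d4e : CRef := CRef.mk (Pat.mk 0x180000000e000000040000000400000000 0x6000000160000001e0000000e0000000f0000003e00000018 6 6) 0 0 (step_sound _ 35 [rh0b48232756d2831b, (rh10a6a2f52f973296.shift 2 0), (rhd314563542fc18aa.shift 1 0)] (by decide +kernel))
noncomputable def rh844c49245658e744 : CRef := CRef.mk (Pat.mk 0x10000000300000001c0000000800000000 0x200000006e0000007e0000003e0000001c0000000f00000006 6 7) 0 0 (step_sound _ 130 [(rh016cdad10fac5d9c.shift 1 1), rh3f52abcacb6d443b, (rh8a473ec674e844c5.shift 1 0), (rhad3bc24c2bfb5a3c.shift 1 1), (rhe7b1c4b75e9e5eb5.shift 1 1), rhf2549dc0da66b756] (by decide +kernel))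
noncomputable def rhc37e12f051c45235 : CRef := CRef.mk (Pat.mk 0x8000000080000003800000008 0x140000003f0000003f0000003800000008 6 6) 0 0 (step_sound _ 100 [rh1b6f292dde0dcb60, (rh2f68792b6b779e96.shift 3 0)] (by decide +kernel))
noncomputable def rh77766bb613af8332 : CRef := CRef.mk (Pat.mk 0x180000001e000000020000000000000000 0xe0000000f0000001b0000001e0000000e0000000400000004 6 5) 0 0 (step_sound _ 129 [(rh3244c3cc8379b070.shift 0 3), rhdf57d2b29a83fe59] (by decide +kernel))
noncomputable def rhafa6458974731b75 : CRef := CRef.mk (Pat.mk 0x8000000180000000800000000 0x1c0000003c0000000f000000180000001800000018 6 6) 0 0 (step_sound _ 131 [rh5ee4dc8825dcefa0, (rhd4b4beefcd67f51e.shift 3 0)] (by decide +kernel))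
noncomputable def rh7abb01a5caa95460 : CRef := CRef.mk (Pat.mk 0x1000000010000000380000000c 0xc0000001e0000007f0000003f0000001c 6 7) 0 0 (step_sound _ 34 [(rh503775339733bab1.shift 0 1), (rh6484072c26d7de2a.shift 1 0), rh72ddbefe89b0241f, (rhec46bd5500c722c9.shift 1 1)] (by decide +kernel))
noncomputable def rhc9feed9bd7da9e1e : CRef := CRef.mk (Pat.mk 0x8000000180000000a0000000000000000 0x4000000140000001e0000007f0000001a0000000a0000000a00000008 6 7) 0 0 (step_sound _ 162 [(rh7fb276822a012166.shift 0 1), (rh9a17dc36f7181934.shift 2 1), (rhbec796c3ea7a32e6.shift 1 1), (rhedb11bef59254b8a.shift 2 0)] (by decide +kernel))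
noncomputable def rh2f5fbde97bdb3989 : CRef := CRef.mk (Pat.mk 0x180000001e000000000000000000000000 0xb0000000b0000001f0000001e000000070000000400000004 6 5) 0 0 (step_sound _ 129 [(rh3244c3cc8379b070.shift 0 3), rh43b1aa70d3df3d8f] (by decide +kernel))
noncomputable def rh1f19c37f84631290 : CRef := CRef.mk (Pat.mk 0x180000001e000000100000000000000000 0x10000000180000001e0000001f0000003800000038 6 6) 0 0 (step_sound _ 36 [(rh7b1f1fb55310c477.shift 3 0), rhf8fba4b186197408] (by decide +kernel))
noncomputable def rhfa4ded8bb36720b3 : CRef := CRef.mk (Pat.mk 0x300000001c000000080000000800000000 0x28000000380000003c0000007f0000007c00000034 6 7) 0 0 (step_sound _ 36 [(rh10a6a2f52f973296.shift 3 0), rhaafc3380287f21c8, (rhade1ea1e06278213.shift 1 0)] (by decide +kernel))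
noncomputable def rhfd80c44e191dad68 : CRef := CRef.mk (Pat.mk 0x100000001c000000080000000800000000 0x4000000070000001f0000003c0000000c0000000c00000004 6 6) 0 0 (step_sound _ 130 [(rh251379b3a391d2fd.shift 0 1), rhbfa9903384e8d00a, (rhe072fffdd2fccf38.shift 2 1)] (by decide +kernel))
noncomputable def rh61b5607df3d52705 : CRef := CRef.mk (Pat.mk 0x8000000080000001c0000000600000000 0x160000001f0000007f0000001c0000000e0000000a 6 7) 0 0 (step_sound _ 130 [(rh63cf8e5b829d8217.shift 1 0), rh7bf2bc8ae99bd1f8, (rhc86e3ab3c2b165e9.shift 1 0)] (by decide +kernel))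
noncomputable def rh5a82e4c1bbff195f : CRef := CRef.mk (Pat.mk 0x20000001e00000002000000000000000000000000 0x400000006000000060000001e00000036000000070000000700000005 6 6) 0 0 (step_sound _ 100 [rhad7276d0bd878d05, (rhe25b0a99195a5d59.shift 1 3)] (by decide +kernel))
noncomputable def rh1b06ddda155bb91e : CRef := CRef.mk (Pat.mk 0x40000000c000000040000000000000000 0xc0000000c0000000c0000003c0000000f0000000e 6 6) 0 0 (step_sound _ 34 [rh3ca4c10fdf355329, (rha707fb719e87fe6e.shift 2 0)] (by decide +kernel))
noncomputable def rh194ac480b6e26a49 : CRef := CRef.mk (Pat.mk 0x40000003800000000 0x660000003e00000077 6 7) 0 0 (step_sound _ 34 [(rh3244c3cc8379b070.shift 1 1), rhaf5febba81597cab] (by decide +kernel))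
noncomputable def rhff0b47e0a87e7979 : CRef := CRef.mk (Pat.mk 0x20000000e00000004 0x730000007e000000ec 6 8) 0 0 (step_sound _ 36 [(rh3244c3cc8379b070.shift 0 1), (rhda98f5cded33c272.shift 1 0)] (by decide +kernel))
noncomputable def rhfc263cdfa86d4744 : CRef := CRef.mk (Pat.mk 0x60000000e000000020000000200000000 0x2000000060000000e0000001b0000001f0000000d 6 5) 0 0 (step_sound _ 32 [rh21410d531236d2da, rh932754581e0f4330] (by decide +kernel))
noncomputable def rhbb9118e51d4d06f0 : CRef := CRef.mk (Pat.mk 0x400000004000000040000000400000000 0xa0000000f0000003c000000040000000600000006 6 6) 0 0 (step_sound _ 33 [rh1bd0c14c4de1ef4d, (rh932754581e0f4330.shift 1 0)] (by decide +kernel))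
noncomputable def rh47e5f182d1e38122 : CRef := CRef.mk (Pat.mk 0x1000000010000000180000000e00000000 0xc0000001e000000780000001f0000003e00000024 6 7) 0 0 (step_sound _ 36 [rh411b7fbe199774b0, (rh6e7f58010cf0b92d.shift 1 0), rhfa182594f433339e] (by decide +kernel))
noncomputable def rh9fbf166d740244bb : CRef := CRef.mk (Pat.mk 0x100000000c0000000000000000 0x400000006000000fc0000003f0000000800000008 6 8) 0 0 (step_sound _ 101 [(rh7401e8cf466f4e5b.shift 0 2), (rhaff4d66ab2235e4f.shift 2 2), (rhd3c9450a5a980233.shift 1 0), (rhfe7c844806756e31.shift 1 2)] (by decide +kernel))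
noncomputable def rh89eeca318b3ce0e1 : CRef := CRef.mk (Pat.mk 0x8000000180000000e00000004 0x60000000f0000001f000000fe0000000f 6 8) 0 0 (step_sound _ 36 [rh361078a933aacf43, rh3d9e209d9d128a84, rh9e4a4fa661ab7448, rhaf9f2efc81a8312b] (by decide +kernel))
noncomputable def rh51f7fa68b2f717a0 : CRef := CRef.mk (Pat.mk 0x300000001c000000080000000800000000 0x40000002f0000003f0000003c0000001c0000001c00000014 6 6) 0 0 (step_sound _ 130 [(rh7c2decbc89fe34b7.shift 2 0), rhbfa9903384e8d00a, (rhe072fffdd2fccf38.shift 2 1)] (by decide +kernel))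
noncomputable def rhe677d2a9f2f363c4 : CRef := CRef.mk (Pat.mk 0x8000000180000000e0000000400000000 0x10000000360000001f0000001f0000000e0000000c00000008 6 6) 0 0 (step_sound _ 130 [(rh0507344190b95ddd.shift 0 1), rh4b0462319641b330, (rh668fc65514a55b16.shift 2 0)] (by decide +kernel))
noncomputable def rhd8d8f51ae788d1d4 : CRef := CRef.mk (Pat.mk 0x8000000180000000a0000000000000000 0x400000014000000360000001f0000003a0000000a0000000a00000008 6 6) 0 0 (step_sound _ 130 [(rh4debe05c95570ec5.shift 0 1), (rh668fc65514a55b16.shift 2 0), (rhcf8e04ac2e2850fe.shift 0 2)] (by decide +kernel))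
noncomputable def rh66ac29485c8cba5d : CRef := CRef.mk (Pat.mk 0x4000000040000000600000000 0xa0000000f0000003c000000040000000600000006 6 6) 0 0 (step_sound _ 130 [rh305945700f20b255, (rh932754581e0f4330.shift 1 0)] (by decide +kernel))
noncomputable def rh9be7220589ae29ba : CRef := CRef.mk (Pat.mk 0x180000000e000000000000000000000000 0x20000000b0000001f0000003e000000340000001400000010 6 6) 0 0 (step_sound _ 100 [(rh41d5a93e35cc8528.shift 0 1), (rhbbe16ff26f7822db.shift 1 0)] (by decide +kernel))
noncomputable def rhbbcae8c76193360f : CRef := CRef.mk (Pat.mk 0x8000000380000000a0000000000000000 0x400000004000000160000001f0000003a0000000a0000000a00000008 6 6) 0 0 (step_sound _ 130 [(rh4debe05c95570ec5.shift 0 1), (rh668fc65514a55b16.shift 2 0), (rh8d5c06fc0c5e4b8d.shift 0 1), (rhc02b3aee7ab87ee1.shift 0 3)] (by decide +kernel))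
noncomputable def rh815167a296be0afa : CRef := CRef.mk (Pat.mk 0x100000003e00000000 0x1db000000fe000000e0 6 9) 0 0 (step_sound _ 65 [(rh3244c3cc8379b070.shift 0 1), (rh84d1614f5efa9132.shift 2 0)] (by decide +kernel))
noncomputable def rh0f991861a5ac0322 : CRef := CRef.mk (Pat.mk 0x100000007000000018 0xc0000000c000000fe0000007f000000f8 6 8) 0 0 (step_sound _ 35 [rh15a2b73944acc7e4, (rh2e2af70cc0a250e3.shift 2 0), (rh668d1876510a8d45.shift 1 0)] (by decide +kernel))
noncomputable def rh5fdd5ad4831d73fd : CRef := CRef.mk (Pat.mk 0x380000000c0000000000000000 0x1000000014000000770000003e0000007c0000002800000028 6 7) 0 0 (step_sound _ 132 [(rh309dfb2f0d0cc90c.shift 1 0), rh9bcbbf2b7080fe66, (rhadf429772c25fde0.shift 3 0)] (by decide +kernel))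
noncomputable def rh8bb9bb0e7a77140d : CRef := CRef.mk (Pat.mk 0x80000001e000000000000000000000000 0x20000003b0000003e000000070000000400000004 6 6) 0 0 (step_sound _ 132 [(rh33e738c4ed385b9f.shift 1 3), rh5f27e0477c371a96] (by decide +kernel))
noncomputable def rh1b276a4b99d0ed82 : CRef := CRef.mk (Pat.mk 0xc00000003 0xe0000007e000000e7 6 8) 0 0 (step_sound _ 36 [(rh0f4a0920b9f47778.shift 1 0), rhca9569cc80abfe76] (by decide +kernel))
noncomputable def rh640b3fda748f4a17 : CRef := CRef.mk (Pat.mk 0x1c00000006000000020000000000000000 0x2000000020000003b0000001f00000006000000070000000300000003 6 6) 0 0 (step_sound _ 33 [(rh71222050f2c63a3a.shift 1 0), rh79d72cb49cd4445b] (by decide +kernel))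
noncomputable def rh09eb195e01c69d19 : CRef := CRef.mk (Pat.mk 0x20000001e00000000 0xe6000000ff0000001c 6 8) 0 0 (step_sound _ 37 [(rh3f8766e6ecb455ce.shift 1 1), rh54500e755d88beaf] (by decide +kernel))
noncomputable def rhab811305cf6ba46a : CRef := CRef.mk (Pat.mk 0x80000001e00000000 0x3f000000fe000000e0 6 8) 0 0 (step_sound _ 68 [(rh33e738c4ed385b9f.shift 1 1), rh883451bd3feec117] (by decide +kernel))
noncomputable def rhbb09337fdcb38f76 : CRef := CRef.mk (Pat.mk 0xc00000007000000040000000000000000 0x80000000c0000003f0000003f0000000400000004 6 6) 0 0 (step_sound _ 34 [rh04ed010102327534, (rh2f68792b6b779e96.shift 2 1)] (by decide +kernel))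
noncomputable def rh4b062606a3bb39d0 : CRef := CRef.mk (Pat.mk 0x180000001e0000000800000000 0x14000000340000001f0000001e0000000b00000002 6 6) 0 0 (step_sound _ 132 [(rh5c5e593799055d58.shift 3 1), rh85903b4a8dd8ebcd] (by decide +kernel))
noncomputable def rh5e273d2baae0d023 : CRef := CRef.mk (Pat.mk 0x6000000030000000200000002 0x400000006000000070000000300000007000000070000000300000002 6 3) 0 0 (step_sound _ 128 [(rh9c3fb3650554b4fb.shift 0 1), rhffd04209dc8ea796] (by decide +kernel))
noncomputable def rh58e39a94896f0dbe : CRef := CRef.mk (Pat.mk 0x60000000300000002000000000000000000000000 0x4000000060000000700000003000000070000000700000003000000060000000600000004 6 3) 0 0 (step_sound _ 192 [rh46bfb734f58a0e67, (rh9c3fb3650554b4fb.shift 0 3), (rhc17a6a02773cc5f6.shift 0 2)] (by decide +kernel))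
noncomputable def rhefddc82d496fc280 : CRef := CRef.mk (Pat.mk 0x180000001e00000008 0x100000001000000018000000fe000000ef 6 8) 0 0 (step_sound _ 100 [(rh5c5e593799055d58.shift 3 0), rha1eb337eeb07c2e7] (by decide +kernel))
noncomputable def rhbccfb8fbd672622d : CRef := CRef.mk (Pat.mk 0x180000000e000000000000000000000000 0xc0000000c0000001f0000003e000000330000001200000010 6 6) 0 0 (step_sound _ 100 [(rh21460d2d48a35cb8.shift 0 1), (rh426a29b34452fc84.shift 0 1), (rhbbe16ff26f7822db.shift 1 0)] (by decide +kernel))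
noncomputable def rh6bab1b32f7a6ab96 : CRef := CRef.mk (Pat.mk 0x4000000070000000400000000 0xa0000000e0000000e00000004000000070000003e00000008 6 6) 0 0 (step_sound _ 35 [(rh14e0829dc73b6804.shift 1 0), (rh89ade209b3e28f13.shift 0 1), (rh8b45a73eaadf2a53.shift 1 0)] (by decide +kernel))
noncomputable def rh88ea41162b00bbad : CRef := CRef.mk (Pat.mk 0x3000000020000000600000000 0x100000007000000070000000600000003000000030000000600000004 6 3) 0 0 (step_sound _ 129 [(rh24e7089cea57625c.shift 0 1), (rh55afc6a59410cf00.shift 1 0)] (by decide +kernel))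
noncomputable def rh2debdebbdeb58a13 : CRef := CRef.mk (Pat.mk 0x8000000080000001c00000006000000000000000000000000 0x60000000f0000003c0000001c0000007e0000001b0000001800000008 6 7) 0 0 (step_sound _ 99 [(rh26cdfd0ee59ad7b2.shift 0 2), (rh6e7f58010cf0b92d.shift 0 2), (rhdaa34f01e5e560a1.shift 2 0)] (by decide +kernel))
noncomputable def rhd4123fd8acacc354 : CRef := CRef.mk (Pat.mk 0x1c000000040000000000000000 0x1200000012000000370000003f0000007c0000000c00000004 6 7) 0 0 (step_sound _ 97 [(rh1e83e3922265d3f7.shift 0 2), (rha4cf9251629f1722.shift 0 1), rhe1ef59f9ff87186c] (by decide +kernel))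
noncomputable def rh551845d63c523ef6 : CRef := CRef.mk (Pat.mk 0x1c000000060000000200000000 0x2000000030000001f0000007e0000000700000004 6 7) 0 0 (step_sound _ 68 [(rh14b21a5d56ad19c3.shift 0 1), rh226bd0378e2a72d1, rh58e6dda71d4b4d9b, (rhe139c704cb953426.shift 0 1)] (by decide +kernel))
noncomputable def rh59fc629dee1e39b0 : CRef := CRef.mk (Pat.mk 0x800000008000000180000000e00000000 0xc0000000c0000000f0000001b0000001e0000000a 6 5) 0 0 (step_sound _ 36 [(rh2145e1d24b96a57e.shift 3 1), rhb2fcc7beba62e5a5] (by decide +kernel))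
noncomputable def rh970969943afcb7d2 : CRef := CRef.mk (Pat.mk 0x8000000180000000c0000000800000000 0x200000002000000060000000f0000001e0000000c0000000c00000008 6 5) 0 0 (step_sound _ 130 [(rh50fbb5868c909700.shift 2 1), rh691787cae84f0149] (by decide +kernel))
noncomputable def rh452f7c8038745489 : CRef := CRef.mk (Pat.mk 0x8000000180000000e00000000 0x100000001c0000003c0000000f0000001c0000000e0000000a 6 6) 0 0 (step_sound _ 131 [(rh1ae8cb0b33fd1844.shift 2 1), rh900a894640be090c, (rhb6f84d95cf78a63d.shift 1 0)] (by decide +kernel))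
noncomputable def rh1edc43197ac31e51 : CRef := CRef.mk (Pat.mk 0x7000000050000000000000000 0x80000000c0000007c0000003f0000007f0000001c0000000c 6 7) 0 0 (step_sound _ 99 [rh0ac3ce708b11d3d7, rh0d41b5929f428e99, rh2ea883171c5f1002, (rh3d54e7f933686048.shift 0 2)] (by decide +kernel))
noncomputable def rhd76363b3a6b36b9e : CRef := CRef.mk (Pat.mk 0x1c000000140000000000000000 0x30000001f0000000ff000001dc0000001800000018 6 9) 0 0 (step_sound _ 101 [(rh3d54e7f933686048.shift 2 2), (rh7df21cb76601c80b.shift 1 0), rh97c673cedfbd3c23] (by decide +kernel))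
noncomputable def rh757fbf401f24c2d9 : CRef := CRef.mk (Pat.mk 0x4000000000000001c000000060000000000000000 0x600000016000000330000001f0000003e0000000800000008 6 6) 0 0 (step_sound _ 97 [rhb32eb569dfc388a6, (rhc6719c6594e47b00.shift 0 2)] (by decide +kernel))
noncomputable def rhc6a43c72a280bf9a : CRef := CRef.mk (Pat.mk 0x8000000180000000e0000000000000000 0x40000000c0000001f0000003e0000003300000012 6 6) 0 0 (step_sound _ 68 [rh21460d2d48a35cb8, rh534a6900ac2ddaa9, (rh78974448101547fe.shift 1 0)] (by decide +kernel))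
noncomputable def rh15807efd5d04103a : CRef := CRef.mk (Pat.mk 0x2000000020000000200000002000000000000000000000000 0x200000002000000030000000300000003000000070000000700000007 6 3) 0 0 (step_sound _ 65 [(rh6b0e6ea20bf12a11.shift 0 1), rh6eff4158bb400f47, (rh7928877f9bf74a91.shift 0 1), rh7ac7f773826df96f] (by decide +kernel))
noncomputable def rh827373096b81d499 : CRef := CRef.mk (Pat.mk 0x600000002000000020000000200000000 0x300000003000000030000000600000006000000060000000600000006 6 3) 0 0 (step_sound _ 34 [rh3f98bf70c5ff87c8, (rh55afc6a59410cf00.shift 1 0)] (by decide +kernel))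
noncomputable def rh4fc9a87ad900a04f : CRef := CRef.mk (Pat.mk 0xc00000018000000080000000800000000 0x80000000c000000780000000f0000003c00000014 6 7) 0 0 (step_sound _ 34 [(rh932754581e0f4330.shift 2 0), rhc689736d0798ae79] (by decide +kernel))
noncomputable def rh12308d1e57a9c095 : CRef := CRef.mk (Pat.mk 0x400000008000000180000000e00000000 0x180000003c0000000f0000001c0000000e0000000a 6 6) 0 0 (step_sound _ 98 [(rh7b1f1fb55310c477.shift 2 0), rh7ec71dda4d389276] (by decide +kernel))
noncomputable def rh048cfa31c620dccd : CRef := CRef.mk (Pat.mk 0x200000006000000020000000000000000 0x500000007000000070000000300000006000000070000000700000005 6 3) 0 0 (step_sound _ 34 [(rh1148744b53f3df58.shift 0 1), (rh390a8df03c6c5a62.shift 1 0), (rh478c4cadbcd4e066.shift 1 0), rhf364945a41219eae] (by decide +kernel))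
noncomputable def rha832719d4411b6fb : CRef := CRef.mk (Pat.mk 0x1800000008000000080000000000000000 0xc0000003c0000000f000000780000001e0000001c 6 7) 0 0 (step_sound _ 35 [(rh7133a7a78d762f91.shift 1 0), rh9aab2e37f490e5ca] (by decide +kernel))
noncomputable def rhff7c821aa80e52b0 : CRef := CRef.mk (Pat.mk 0x1c00000006000000040000000000000000 0x400000006000000070000001e000000060000000e0000000c0000000c 6 5) 0 0 (step_sound _ 129 [(rh267543c1c418c231.shift 1 0), (rh309fd0c3d364cd61.shift 0 2), (rh3cb04db3dd2b6a55.shift 1 0)] (by decide +kernel))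
noncomputable def rh5339cdb064de282f : CRef := CRef.mk (Pat.mk 0x1e000000040000000000000000 0x4000000060000007f0000003c0000000800000008 6 7) 0 0 (step_sound _ 68 [rh7d41099b9a2478c3, (rhe25b0a99195a5d59.shift 1 2)] (by decide +kernel))
noncomputable def rha239265b1b289b2c : CRef := CRef.mk (Pat.mk 0x100000000f000000020000000000000000 0x330000003f000000760000000200000002 6 7) 0 0 (step_sound _ 100 [(rh33e738c4ed385b9f.shift 1 3), rhb83a6265397673b2] (by decide +kernel))
noncomputable def rh1585e5b9a2d6cc02 : CRef := CRef.mk (Pat.mk 0x10000000f000000020000000000000000 0x390000003f000000760000000200000002 6 7) 0 0 (step_sound _ 33 [rh7b1f1fb55310c477, (rhda98f5cded33c272.shift 0 2)] (by decide +kernel))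
noncomputable def rh18c7a46ea54a8c35 : CRef := CRef.mk (Pat.mk 0x40000001e000000080000000800000000 0x70000001e0000003b0000000f00000006 6 6) 0 0 (step_sound _ 129 [(rh3244c3cc8379b070.shift 0 3), rhae1003c84e4b307a] (by decide +kernel))
noncomputable def rhbb175164432f88b5 : CRef := CRef.mk (Pat.mk 0x100000001c000000080000000800000000 0x80000000c0000000f0000001f0000001c0000001f0000003c00000014 6 6) 0 0 (step_sound _ 131 [rh26a641dd1ea9a7b1, (rh9007493f1908044a.shift 2 0), (rhb9d7bcc4b554fedb.shift 2 0), rhb9fa41937b57b353, (rhbad6ff9bdc3f8001.shift 2 0), rhf3711a81227b0b0c] (by decide +kernel))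
noncomputable def rh775ea4c85963d2a1 : CRef := CRef.mk (Pat.mk 0x180000000e0000000400000000 0xe0000000f0000001c0000000e0000003c00000018 6 6) 0 0 (step_sound _ 131 [rh4f4a3d055e00b6e0, (rh5c5e593799055d58.shift 2 1)] (by decide +kernel))
noncomputable def rh999dd592fa96809c : CRef := CRef.mk (Pat.mk 0x800000008000000080000000800000000 0x140000003c0000000f000000080000001800000018 6 6) 0 0 (step_sound _ 36 [rh245d56c915813f64, (rh55afc6a59410cf00.shift 3 0)] (by decide +kernel))
noncomputable def rh6e15c69d7c2d46b7 : CRef := CRef.mk (Pat.mk 0x800000008000000080000000c00000000 0xe0000000f0000003c0000000c0000000c00000008 6 6) 0 0 (step_sound _ 66 [(rh5c5e593799055d58.shift 2 1), rha10abbb88ab9db0f] (by decide +kernel))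
noncomputable def rh2ae4f4505715fbe5 : CRef := CRef.mk (Pat.mk 0x4000000040000001e0000000000000000 0x180000003c000000370000001e0000003800000008 6 6) 0 0 (step_sound _ 97 [(rh3244c3cc8379b070.shift 0 2), (rheca30300426d4a09.shift 1 0)] (by decide +kernel))
noncomputable def rh5780a3f26edf26c1 : CRef := CRef.mk (Pat.mk 0x40000001e000000020000000200000000 0x2000000070000001e0000003e0000000700000005 6 6) 0 0 (step_sound _ 129 [rh14f84c623687a231, (rh3244c3cc8379b070.shift 0 3)] (by decide +kernel))
noncomputable def rhfcf10e4e636fb502 : CRef := CRef.mk (Pat.mk 0x2000000038000000100000000000000000 0x8000000080000002f000000fc000001d80000001000000010 6 9) 0 0 (step_sound _ 36 [(rh71222050f2c63a3a.shift 4 0), (rhe04a1c8c3bc9a2bc.shift 0 1)] (by decide +kernel))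
noncomputable def rhdf864ed6cf3bc091 : CRef := CRef.mk (Pat.mk 0x100000001e0000000000000000 0x2000000030000001f0000003f0000000400000004 6 6) 0 0 (step_sound _ 97 [(rh3244c3cc8379b070.shift 0 2), rhf453ca0ff275433e] (by decide +kernel))
noncomputable def rh6e3a7cde477451a5 : CRef := CRef.mk (Pat.mk 0x4000000040000000f00000000000000000 0x4000000067000003fe0000003f00000020 6 10) 0 0 (step_sound _ 67 [(rh5e601430b8bc2e39.shift 0 1), (rhd29c5a073cd2af95.shift 2 0), (rheae1728ff4a56756.shift 2 1)] (by decide +kernel))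
noncomputable def rh3253d0e4d04a6ec5 : CRef := CRef.mk (Pat.mk 0x40000000e000000000000000000000000 0x10000000370000003f000000380000000800000008 6 6) 0 0 (step_sound _ 100 [rhce71534e51e0a15e, (rhe3060b190bc0bc78.shift 0 3)] (by decide +kernel))
noncomputable def rhdd7185ed3df2cdca : CRef := CRef.mk (Pat.mk 0x40000000e000000080000000000000000 0x10000000760000003e0000003f0000000800000008 6 7) 0 0 (step_sound _ 35 [(rh7b1f1fb55310c477.shift 2 0), (rhaeda3127d6c72bd9.shift 0 1)] (by decide +kernel))
noncomputable def rh92dabd8634004cd9 : CRef := CRef.mk (Pat.mk 0x1c0000001800000000 0x400000004000000070000003f0000001b00000002 6 6) 0 0 (step_sound _ 65 [rh43dc67402634d54f, (rhb739f4f82bb681b4.shift 0 1)] (by decide +kernel))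
noncomputable def rh9c2a6982f123fdf1 : CRef := CRef.mk (Pat.mk 0x100000001e0000000800000000 0x1400000014000000170000003e0000000b00000002 6 6) 0 0 (step_sound _ 132 [rh44dd78dd79fc4e0b, (rh5c5e593799055d58.shift 3 1)] (by decide +kernel))
noncomputable def rh78e05ca373ae61ba : CRef := CRef.mk (Pat.mk 0x2000000000000000380000001000000010 0x80000007c0000000f000000f80000001c00000010 6 8) 0 0 (step_sound _ 99 [(rh50b5edd735f877d8.shift 0 1), (rh9f93e2b24091a43d.shift 2 1), (rhe072fffdd2fccf38.shift 3 0)] (by decide +kernel))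
noncomputable def rh799e48b807b956d9 : CRef := CRef.mk (Pat.mk 0x100000001e0000001000000010000000000000000000000000 0x100000001e0000001b00000030000000380000003800000008 6 6) 0 0 (step_sound _ 129 [(rhbaff7ec0fcc038ba.shift 3 0), (rheb0810cc63b001d8.shift 0 4)] (by decide +kernel))
noncomputable def rh2a15d94fefef44e9 : CRef := CRef.mk (Pat.mk 0x100000001c000000180000000000000000 0x400000004000000170000003f0000001c0000000800000008 6 6) 0 0 (step_sound _ 35 [(rh20a16ea490d845a0.shift 0 1), (rh71222050f2c63a3a.shift 3 0)] (by decide +kernel))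
noncomputable def rh41f92fd76a3b4db3 : CRef := CRef.mk (Pat.mk 0x100000001c00000018 0x100000001000000017000000ff0000001c 6 8) 0 0 (step_sound _ 100 [(rh5c5e593799055d58.shift 3 0), rhdaf210947b47bcf0] (by decide +kernel))
noncomputable def rh3f4d46cf1fa245e5 : CRef := CRef.mk (Pat.mk 0x8000000080000000c00000018 0x40000001c0000001c000000180000000c0000000f00000018 6 5) 0 0 (step_sound _ 33 [(rh4e2df8342d3b8ae8.shift 2 0), rhb739f4f82bb681b4] (by decide +kernel))
noncomputable def rhd3839b58ff58a0a6 : CRef := CRef.mk (Pat.mk 0x80000000c000000080000000000000000 0x140000001c0000001c000000080000001f000000780000001000000010 6 7) 0 0 (step_sound _ 68 [(rh14e0829dc73b6804.shift 2 1), (rh4ca5dae25f5c14ff.shift 0 2), rhb5b4b2b7dda50c30] (by decide +kernel))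
noncomputable def rhc4d65b18de230f42 : CRef := CRef.mk (Pat.mk 0x80000000c0000000800000000 0x40000001c0000003c0000000f0000001e0000007800000018 6 7) 0 0 (step_sound _ 131 [rh5ee4dc8825dcefa0, (rh8065c10b3cae6218.shift 2 0), (rhe8f31657c9a71e12.shift 1 0)] (by decide +kernel))
noncomputable def rhaa2e2d68bba1845f : CRef := CRef.mk (Pat.mk 0x80000000c000000070000000400000000 0x400000006000000060000000e0000000e000000070000003e00000008 6 6) 0 0 (step_sound _ 35 [(rh307e87dde5ddcd87.shift 1 0), (rh89ade209b3e28f13.shift 0 1)] (by decide +kernel))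
noncomputable def rh054bbed33affbcb7 : CRef := CRef.mk (Pat.mk 0x1000000008000000180000000800000000 0x140000001c0000000f0000007c0000000800000008 6 7) 0 0 (step_sound _ 131 [rh0baaca16de8d4a3d, (rh2f68792b6b779e96.shift 3 1)] (by decide +kernel))
noncomputable def rh4610bd9a750aebd7 : CRef := CRef.mk (Pat.mk 0x30000000600000002000000000000000000000000 0x1000000030000001e00000002000000070000000700000005 6 5) 0 0 (step_sound _ 65 [(rh50fbb5868c909700.shift 0 2), rhe88ce93a5e1de37b] (by decide +kernel))
noncomputable def rhac9967541eb6119a : CRef := CRef.mk (Pat.mk 0x8000000080000000e0000000400000000 0x20000000b0000003f0000003e0000007400000010 6 7) 0 0 (step_sound _ 68 [(rh625dde73e665edc8.shift 1 0), (rh653a4e299315e31d.shift 0 1), (rhe401600d466b97cd.shift 0 1)] (by decide +kernel))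
noncomputable def rh76a564c19d4fb3aa : CRef := CRef.mk (Pat.mk 0xc000000040000000c00000000 0x1c0000003c0000000f0000000c0000000c00000008 6 6) 0 0 (step_sound _ 130 [(rh55afc6a59410cf00.shift 2 0), (rh8fd1ff9ad0411a0a.shift 0 1)] (by decide +kernel))
noncomputable def rh1d5eca661e6f4c56 : CRef := CRef.mk (Pat.mk 0xc000000040000000c00000000 0x1c0000007c0000001f0000003c0000000f00000002 6 7) 0 0 (step_sound _ 67 [rh045eb03ae04c46fa, (rhad590f0693506156.shift 0 1), rhf6aeabd2b751fe3d] (by decide +kernel))
noncomputable def rhf27fde38f11e646b : CRef := CRef.mk (Pat.mk 0x600000006000000060000000000000000 0x80000003f0000003e000000070000000400000004 6 6) 0 0 (step_sound _ 34 [(rh3e07fa29f3ba9ea5.shift 0 1), (rh7b1f1fb55310c477.shift 1 0)] (by decide +kernel))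
noncomputable def rh82598cd3a7032126 : CRef := CRef.mk (Pat.mk 0x6000000060000000600000000 0x400000004000000070000003e0000003f00000008 6 6) 0 0 (step_sound _ 130 [(rh5c5e593799055d58.shift 1 1), rhac43f9d0116938b1] (by decide +kernel))
noncomputable def rh9180b0ab9f393d06 : CRef := CRef.mk (Pat.mk 0x1800000008000000080000001000000000 0x800000018000000180000000f0000003c0000001c 6 6) 0 0 (step_sound _ 35 [(rh55afc6a59410cf00.shift 3 0), rh98609006dffafada] (by decide +kernel))
noncomputable def rh439d2e704db2d80e : CRef := CRef.mk (Pat.mk 0x100000001e0000000800000008 0x40000000e0000001f0000001f0000000b00000008 6 5) 0 0 (step_sound _ 99 [(rh53b3c253cb0c65f4.shift 0 2), rhc544c9b98c53fcc3] (by decide +kernel))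
noncomputable def rhbe99fabb35f553b6 : CRef := CRef.mk (Pat.mk 0x80000000c000000040000000400000000 0x60000000f0000003c0000003c0000000f0000000a 6 6) 0 0 (step_sound _ 130 [rh85480f11efc1e555, rhb3a47c35594fc1ad, (rhcf85c92937975d4d.shift 0 1)] (by decide +kernel))
noncomputable def rhc8ac56845541b594 : CRef := CRef.mk (Pat.mk 0x1000000038000000080000000000000000 0x1000000010000000370000007e000001e80000002000000020 6 9) 0 0 (step_sound _ 164 [(rh5c5e593799055d58.shift 3 2), rha6c38ec6d730dbf9] (by decide +kernel))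
noncomputable def rh91e69b47a2672d74 : CRef := CRef.mk (Pat.mk 0x1e00000002 0x1c000000ff000000e6 6 8) 0 0 (step_sound _ 37 [(rh80fcd6d0a18cb2dd.shift 1 0), rhdd4756ed63c5dbcb] (by decide +kernel))
noncomputable def rhd3285384da7c3a0d : CRef := CRef.mk (Pat.mk 0x1e00000000 0xfc000000ff000000e0 6 8) 0 0 (step_sound _ 37 [(rh9890f9d77740bbed.shift 1 1), (rha93a5dd541ab8209.shift 2 0), rhdd4756ed63c5dbcb] (by decide +kernel))
noncomputable def rh2a726dee3033a0b5 : CRef := CRef.mk (Pat.mk 0xe000000020000000000000000 0x10000000700000003f0000007e0000000800000008 6 7) 0 0 (step_sound _ 100 [(rhd584a578337d0023.shift 1 2), (rhf3baec4a0a3dd35e.shift 1 2), rhf459621b93742302] (by decide +kernel))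
noncomputable def rh9abacacaac0a63d4 : CRef := CRef.mk (Pat.mk 0x1e000000020000000000000000 0x8000000080000003c0000003f000000060000000400000004 6 6) 0 0 (step_sound _ 132 [rh0e869b8a4202836a, (rh33e738c4ed385b9f.shift 1 3)] (by decide +kernel))
noncomputable def rha2aa9fd3a860e7eb : CRef := CRef.mk (Pat.mk 0x8000000080000000e0000000400000000 0x20000000b0000003f0000003e0000007400000010 6 7) 0 0 (step_sound _ 68 [(rh625dde73e665edc8.shift 1 0), (rhae6ef49c15d3e446.shift 0 1), (rhe401600d466b97cd.shift 0 1)] (by decide +kernel))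
noncomputable def rh41a6d7189afea57a : CRef := CRef.mk (Pat.mk 0x10000000120000001c0000000800000000 0x4000000340000001e0000003f0000000b00000002 6 6) 0 0 (step_sound _ 98 [rh8c184412721daecf, (rhf48373e13d2bc128.shift 1 2)] (by decide +kernel))
noncomputable def rhde99996d4163e786 : CRef := CRef.mk (Pat.mk 0x8000000080000000c0000000400000000 0x140000001e000000780000000f0000003c00000018 6 7) 0 0 (step_sound _ 35 [(rh1bd0c14c4de1ef4d.shift 1 0), rhfe557af9112f51d6] (by decide +kernel))
noncomputable def rh3b0887c7e0ab206c : CRef := CRef.mk (Pat.mk 0x8000000080000000c0000000400000000 0x140000001e0000007c0000000f0000003c00000018 6 7) 0 0 (step_sound _ 35 [(rh1bd0c14c4de1ef4d.shift 1 0), rh9bf22e708841bd13, rhfe557af9112f51d6] (by decide +kernel))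
noncomputable def rhd09d4da627ee30e0 : CRef := CRef.mk (Pat.mk 0x1c000000080000000000000000 0x400000004000000ef0000007e000000e80000000800000008 6 8) 0 0 (step_sound _ 130 [(rh4a0cb3a9508b05dd.shift 1 2), (rhc2c7bae8f445c890.shift 2 0), (rhff55d690c1ed3860.shift 0 2)] (by decide +kernel))
noncomputable def rh10b213af70836e53 : CRef := CRef.mk (Pat.mk 0x38000000100000000000000000 0x800000008000001dc000000fe000001f70000001000000010 6 9) 0 0 (step_sound _ 97 [(rh2fbcc400ac3d93ac.shift 2 0), (rhc4d60e5c12185eb6.shift 0 2)] (by decide +kernel))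
noncomputable def rh43f020061125bb7f : CRef := CRef.mk (Pat.mk 0x180000000e000000000000000000000000 0xc0000000c0000001f0000003e000000330000001200000010 6 6) 0 0 (step_sound _ 100 [(rh21460d2d48a35cb8.shift 0 1), (rh5e2873dff0a356e8.shift 0 1), (rhbbe16ff26f7822db.shift 1 0)] (by decide +kernel))
noncomputable def rhce2bd27149b25bae : CRef := CRef.mk (Pat.mk 0x80000000f000000030000000000000000 0x4000000040000000e0000000f0000001b0000001e0000000e 6 5) 0 0 (step_sound _ 67 [rh764870de6d9410b0, (rhe25b0a99195a5d59.shift 0 2)] (by decide +kernel))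
noncomputable def rh3e504fb03f4bb7b0 : CRef := CRef.mk (Pat.mk 0x160000001c0000000000000000 0x200000006000000070000001e0000001f0000000700000006 6 5) 0 0 (step_sound _ 129 [rh084d378641b3f9c7, rhb482cf5bfff22d0f, (rhc38f566cab2818e5.shift 1 0), rhcdcb55bc1be8953b] (by decide +kernel))
noncomputable def rh9e80cdf73a4f4282 : CRef := CRef.mk (Pat.mk 0x1c0000000600000000 0xa0000000a0000003b0000001f0000003600000014 6 6) 0 0 (step_sound _ 65 [rhbdb8dfd08861fbf7, rhf41a34b41b8c2138] (by decide +kernel))
noncomputable def rhba11ce1969ff0cd7 : CRef := CRef.mk (Pat.mk 0x1e000000160000000000000000 0x20000000a0000003b0000001e0000001e0000003000000030 6 6) 0 0 (step_sound _ 132 [(rh33e738c4ed385b9f.shift 1 3), rh76eaa169e961a689] (by decide +kernel))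
noncomputable def rhdcf8fdabb9a5594a : CRef := CRef.mk (Pat.mk 0x20000001e00000006 0x70000000f0000003a0000001f00000006 6 6) 0 0 (step_sound _ 97 [(rh2145e1d24b96a57e.shift 1 0), rh9d3529dc850247f7] (by decide +kernel))
noncomputable def rh27934e6e4bbf8500 : CRef := CRef.mk (Pat.mk 0x8000000180000000c000000000000000000000000 0x4000000040000000c0000001f000000780000000c000000180000001800000010 6 7) 0 0 (step_sound _ 133 [(rh18965a982d73c794.shift 2 3), rh95470263832c4b38] (by decide +kernel))
noncomputable def rh04453070c3626615 : CRef := CRef.mk (Pat.mk 0x200000002000000020000000300000002000000000000000000000000 0x40000000600000002000000030000000300000006000000070000000700000001 6 3) 0 0 (step_sound _ 226 [(rh2f68792b6b779e96.shift 1 4), rhafd44d417107dbfd] (by decide +kernel))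
noncomputable def rh6abd28f44e8661a3 : CRef := CRef.mk (Pat.mk 0x8000000080000000e00000008 0x140000001c0000001c00000018000000380000003f0000000e00000008 6 6) 0 0 (step_sound _ 131 [(rh44f453b84f013105.shift 3 0), (rhb77bfac3e9efecea.shift 2 1), rhd57990d61f0ee15f] (by decide +kernel))
noncomputable def rh234bce6ffe4d13f4 : CRef := CRef.mk (Pat.mk 0x200000002000000020000000300000002000000000000000000000000 0x10000000300000002000000030000000300000006000000070000000700000001 6 3) 0 0 (step_sound _ 224 [(rh50fbb5868c909700.shift 0 4), rhafd44d417107dbfd] (by decide +kernel))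
noncomputable def rh027eba0a0823613a : CRef := CRef.mk (Pat.mk 0x8000000080000000c0000000800000000 0x10000000180000007c0000000f0000001800000018 6 7) 0 0 (step_sound _ 36 [(rh55afc6a59410cf00.shift 3 0), rhe4492ceb5b2e0bd3] (by decide +kernel))
noncomputable def rh01c4f3cf2f0b5860 : CRef := CRef.mk (Pat.mk 0x70000000180000000000000000 0x8000000280000002f0000007f000000f8000000d000000040 6 8) 0 0 (step_sound _ 99 [(rh014abbda9a411227.shift 2 0), (rh04adde65229dd8ca.shift 0 2), (rhbdb8dfd08861fbf7.shift 2 1)] (by decide +kernel))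
noncomputable def rha7c9b6b8e1a0eab2 : CRef := CRef.mk (Pat.mk 0x2000000020000000700000001000000000000000000000000 0x50000000700000007000000070000001f0000001e0000000600000002 6 5) 0 0 (step_sound _ 97 [rh05fbb5fa1196296b, (rh4f65a6bf45642e69.shift 0 2), (rh6ed5e6501b92e21f.shift 0 1), (rh806a30ccd3d3e25c.shift 0 2), (rh8ff3dde5b1c639e0.shift 0 1)] (by decide +kernel))
noncomputable def rhec2c9db5bfbd3874 : CRef := CRef.mk (Pat.mk 0x80000000c0000000600000000 0x1c0000001c0000001c0000000f0000003e00000018 6 6) 0 0 (step_sound _ 131 [rh1f33fe15fe64c97f, (rh5c5e593799055d58.shift 2 1)] (by decide +kernel))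
noncomputable def rhbfd74c5a00f25343 : CRef := CRef.mk (Pat.mk 0x8000000180000000c00000000 0x4000000040000000c0000001f000000780000000f00000008 6 7) 0 0 (step_sound _ 69 [(rh18965a982d73c794.shift 2 1), rhf87419f1557ab700] (by decide +kernel))
noncomputable def rhc8e8c9b8a5835135 : CRef := CRef.mk (Pat.mk 0x40000001c0000000400000000000000000000000000000000 0xa0000000f0000001c0000000c0000000c0000000e0000000e00000002 6 5) 0 0 (step_sound _ 98 [(rh039efe07c35de3d4.shift 0 3), (rha52e1acf7ed5511e.shift 1 0), (rha707fb719e87fe6e.shift 2 2)] (by decide +kernel))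
noncomputable def rh7ff124f652603a05 : CRef := CRef.mk (Pat.mk 0x200000002000000020000000f00000000 0x500000007000000020000003a0000001f00000038 6 6) 0 0 (step_sound _ 128 [(rh50fbb5868c909700.shift 0 1), rh5e4f34502a826196] (by decide +kernel))
noncomputable def rhe9443c0983622ded : CRef := CRef.mk (Pat.mk 0x800000008000000080000003c00000000 0x140000001f00000038000000180000003c00000060 6 7) 0 0 (step_sound _ 132 [rh1ddc9724efb9ca1d, (rh2f68792b6b779e96.shift 3 1)] (by decide +kernel))
noncomputable def rh08dd33ac986b69e6 : CRef := CRef.mk (Pat.mk 0x4000000040000001e00000000 0xc0000000c0000000c0000003c0000001f00000014 6 6) 0 0 (step_sound _ 68 [rh1dddd78ebae21a24, (rh33e738c4ed385b9f.shift 1 1)] (by decide +kernel))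
noncomputable def rhd52306e85827619a : CRef := CRef.mk (Pat.mk 0x20000000200000007000000010000000000000000 0x50000000700000007000000070000001f0000001e00000006 6 5) 0 0 (step_sound _ 65 [rh6ed5e6501b92e21f, (rh806a30ccd3d3e25c.shift 0 1), rh8ff3dde5b1c639e0] (by decide +kernel))
noncomputable def rh5cccfffbf6e50c0f : CRef := CRef.mk (Pat.mk 0x8000000180000000c00000000 0x140000003c0000000f000000180000000c0000000c 6 6) 0 0 (step_sound _ 131 [rh900a894640be090c, (rh932754581e0f4330.shift 2 0)] (by decide +kernel))
noncomputable def rh28da1f1e62747c8a : CRef := CRef.mk (Pat.mk 0x2000000060000000300000000 0x400000007000000070000000300000006000000060000000300000001 6 3) 0 0 (step_sound _ 129 [(rh5a26a7d31d0f2e10.shift 0 1), rh932754581e0f4330] (by decide +kernel))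
noncomputable def rhe38f7c3ac0c4eeb4 : CRef := CRef.mk (Pat.mk 0x10000000180000000e0000000800000000 0x40000000e0000001f0000001b0000001e0000001c00000014 6 5) 0 0 (step_sound _ 131 [(rh03dfdf12d5937476.shift 2 0), (rhbad6ff9bdc3f8001.shift 2 0), rhe537a55726f74dba] (by decide +kernel))
noncomputable def rhe125ed51b2878ed7 : CRef := CRef.mk (Pat.mk 0x2000000020000000000000007000000010 0x2000000060000000ce0000007f000000fc 6 8) 0 0 (step_sound _ 35 [(rh6797c410c820e91e.shift 3 0), rhc886ad9fdc5d06b5] (by decide +kernel))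
noncomputable def rh110cb443057788a1 : CRef := CRef.mk (Pat.mk 0x80000000c0000000800000000 0x140000001c0000001c000000080000001f0000007800000010 6 7) 0 0 (step_sound _ 36 [rh5a150305d3a21385, (rh5c5a2014709044d0.shift 0 1), (rhfb9fb48a5e63ed80.shift 2 0)] (by decide +kernel))
noncomputable def rh676e17e338624a1b : CRef := CRef.mk (Pat.mk 0x180000000800000008000000000000000000000000 0x40000001f000000780000000800000018000000180000001000000010 6 7) 0 0 (step_sound _ 68 [(rh2977b00063528966.shift 3 0), (rh622fac71635b0c04.shift 0 2), (rh93bb09469abb6e2d.shift 3 1)] (by decide +kernel))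
noncomputable def rhcaad12c7c5f832bd : CRef := CRef.mk (Pat.mk 0xa000000030000000000000000000000000 0x2000000020000000ee0000007e000000ff0000004000000040 6 8) 0 0 (step_sound _ 99 [(rh0568b7ab013f43a7.shift 0 2), (rh3d980a95bbd7ebd4.shift 3 0), (rh52c8c7e9d70a3e92.shift 0 2), (rhddb24c61d0a0d35a.shift 2 3)] (by decide +kernel))
noncomputable def rh73194b99b8772a3d : CRef := CRef.mk (Pat.mk 0x1000000038000000000000000000000000 0x1000000010000000170000003e000000770000002000000020 6 7) 0 0 (step_sound _ 69 [(rh3918eeb6c53434d8.shift 0 2), (rhc38f566cab2818e5.shift 4 0), (rhe7b14e968bf6cadf.shift 1 1)] (by decide +kernel))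
noncomputable def rhea307cf430efaee7 : CRef := CRef.mk (Pat.mk 0x80000001e00000000 0x38000000fe000000e7 6 8) 0 0 (step_sound _ 1 [(rh97c00ba0f746cce8.shift 1 0), rheb0810cc63b001d8] (by decide +kernel))
noncomputable def rhf52ec6727ff4be31 : CRef := CRef.mk (Pat.mk 0x140000001600000010000000000000000000000000 0x8000000180000001c00000014000000360000003e0000002f0000000800000008 6 6) 0 0 (step_sound _ 99 [(rh0ee21a4b5210b950.shift 0 2), (rh5892ac17d75b8332.shift 2 0), (rhf0561682bb684ebc.shift 3 2)] (by decide +kernel))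
noncomputable def rh293980c0e6773be5 : CRef := CRef.mk (Pat.mk 0x380000000e00000000000000000000000000000000 0x100000001c0000001f000000380000000e0000007c0000001c0000001c00000014 6 7) 0 0 (step_sound _ 99 [(rh1b9022be4f7af407.shift 2 0), (rh215e11e099257d75.shift 3 2), (rh5d8da7022e217ad8.shift 0 2), (rhaada96c5de887e7e.shift 1 0)] (by decide +kernel))
noncomputable def rh3dba15ef7828dbb7 : CRef := CRef.mk (Pat.mk 0xa000000030000000000000000000000000 0x2000000020000000ee0000007e000000ff0000004000000040 6 8) 0 0 (step_sound _ 99 [(rh0568b7ab013f43a7.shift 0 2), (rh497db2942f8c7aa2.shift 3 0), (rh52c8c7e9d70a3e92.shift 0 2), (rhddb24c61d0a0d35a.shift 2 3)] (by decide +kernel))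
noncomputable def rh4e2d420275ef5670 : CRef := CRef.mk (Pat.mk 0x140000001e000000000000000000000000 0x10000000140000001f0000003b0000000a0000000a 6 6) 0 0 (step_sound _ 65 [rh217e0253150c7736, (rheb0810cc63b001d8.shift 0 2)] (by decide +kernel))
noncomputable def rh7c98e8089f3c8285 : CRef := CRef.mk (Pat.mk 0x80000003800000008000000000000000000000000 0x140000001f00000038000000080000001c0000001c00000014 6 6) 0 0 (step_sound _ 162 [(rh0a6888916bcef86b.shift 2 0), (rh668fc65514a55b16.shift 2 1), (rh8d5c06fc0c5e4b8d.shift 0 2), (rhc02b3aee7ab87ee1.shift 0 4)] (by decide +kernel))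
noncomputable def rhee0241f9f3462ede : CRef := CRef.mk (Pat.mk 0x10000000f000000020000000000000000 0x100000001000000390000001f0000003a0000000200000002 6 6) 0 0 (step_sound _ 33 [rh7b1f1fb55310c477, (rhc0eec6926dcfdd31.shift 0 2)] (by decide +kernel))
noncomputable def rh49c676ededc26e1c : CRef := CRef.mk (Pat.mk 0x20000001a0000000300000000000000000000000000000000 0x50000000f0000001b0000000300000006000000070000000700000001 6 5) 0 0 (step_sound _ 97 [(rh330a005829cdd297.shift 0 3), rhafd44d417107dbfd] (by decide +kernel))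
noncomputable def rhaacbe9e3ee71d824 : CRef := CRef.mk (Pat.mk 0x380000000e000000000000000000000000 0x4000000040000000e0000001f0000003a0000000e0000003e0000001c00000014 6 6) 0 0 (step_sound _ 163 [rh0ab273d635ba54c7, (rh281c6819542c66e6.shift 2 0), rh764be65e1f4d8dd5, rhc111df6006b22752] (by decide +kernel))
noncomputable def rh43629906520e1fa9 : CRef := CRef.mk (Pat.mk 0x2000000030000000000000001000000010 0x20000001ff000000fe000001cf0000005800000050 6 9) 0 0 (step_sound _ 99 [(rh03fb6d255e75e28a.shift 2 0), (rh141ffe1472b1d565.shift 0 2), (rh28f30092f8d9e21e.shift 2 0), (rhb103f40a53fe1424.shift 0 2)] (by decide +kernel))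
noncomputable def rh4b16f4ef044416d4 : CRef := CRef.mk (Pat.mk 0x1e0000000400000000 0x8000000080000003b0000001f0000003400000010 6 6) 0 0 (step_sound _ 97 [(rh3244c3cc8379b070.shift 0 2), rh52b4b7b516a7d39e] (by decide +kernel))
noncomputable def rhc994cb3f8c6ded4d : CRef := CRef.mk (Pat.mk 0x800000018000000080000000800000000 0x1800000018000000180000000f0000003c00000014 6 6) 0 0 (step_sound _ 132 [(rh2f68792b6b779e96.shift 3 1), rhf0d38cf1e7116183] (by decide +kernel))
noncomputable def rh6c877d8b06e71e76 : CRef := CRef.mk (Pat.mk 0x80000000c0000000c0000000400000000 0x10000000380000007f0000007f0000003c00000018 6 7) 0 0 (step_sound _ 132 [rh08c0a4b24e0c6ff9, rh5ab39876a3b655af, (rh69f74b130feaf51b.shift 0 2)] (by decide +kernel))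
noncomputable def rh2260acfdfb28323f : CRef := CRef.mk (Pat.mk 0x40000000c0000000400000000 0x80000000e0000000f0000003c0000000c0000000c0000000c 6 6) 0 0 (step_sound _ 130 [(rh22cde4a1aed087ae.shift 2 1), (rhd4b4beefcd67f51e.shift 2 0), rhf149b0c20b930719] (by decide +kernel))
noncomputable def rh59c55acfccf2f7ea : CRef := CRef.mk (Pat.mk 0x40000000c000000040000000000000000 0xe0000000e0000000f0000003f0000003c000000040000000400000004 6 6) 0 0 (step_sound _ 131 [rh370af384ddd2082c, (rhcd220dc001675187.shift 0 2), (rhea7a1800d6f053bd.shift 2 0)] (by decide +kernel))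
noncomputable def rh9e479264aa357885 : CRef := CRef.mk (Pat.mk 0x600000004000000040000000000000000 0x600000006000000040000003c0000000f0000000a 6 6) 0 0 (step_sound _ 34 [rh3ca4c10fdf355329, (rh50fbb5868c909700.shift 1 1)] (by decide +kernel))
noncomputable def rha81cdf2cb1ea4ae8 : CRef := CRef.mk (Pat.mk 0x4000000040000000c0000000c00000000 0xa0000000f0000003c0000007f0000007e00000012 6 7) 0 0 (step_sound _ 131 [(rh2f68792b6b779e96.shift 2 1), rhec5edd754181e961] (by decide +kernel))
noncomputable def rh7a382e0cd203434f : CRef := CRef.mk (Pat.mk 0x800000018000000080000000000000000 0x140000001c0000001c0000001f0000007c0000001c0000000c00000008 6 7) 0 0 (step_sound _ 130 [(rh668fc65514a55b16.shift 2 0), (rhc807d034c68e856c.shift 0 1), (rhdeca8db941583de2.shift 0 3)] (by decide +kernel))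
noncomputable def rh6a64c47a62d86a3d : CRef := CRef.mk (Pat.mk 0x180000000e000000000000000000000000 0x80000000a0000001f0000003e000000770000001400000004 6 7) 0 0 (step_sound _ 66 [rh8ceeb43d62a6bb9d, (rhb3a3508ef260b8be.shift 0 1), (rhf9366b6a121593ef.shift 2 0)] (by decide +kernel))
noncomputable def rhc2a97e927ab5095e : CRef := CRef.mk (Pat.mk 0x8000000080000000e000000000000000000000000 0xa0000003b0000003e000000370000001400000004 6 6) 0 0 (step_sound _ 100 [rh22f53ba2f05af569, (rh625dde73e665edc8.shift 1 1), (rhae97d925dc15854a.shift 0 1)] (by decide +kernel))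
noncomputable def rh2b0ac925ee3f3632 : CRef := CRef.mk (Pat.mk 0x2000000000000000380000001000000010 0x80000007c0000000f000000f8000001d800000010 6 9) 0 0 (step_sound _ 99 [(rha086f24fc46b4198.shift 2 1), (rhb30336065b8c5dcb.shift 0 1), (rhe072fffdd2fccf38.shift 3 0)] (by decide +kernel))
noncomputable def rh044d90f9dd03ae61 : CRef := CRef.mk (Pat.mk 0x200000003800000010 0x3e000000fe0000001f 6 8) 0 0 (step_sound _ 38 [rh5b2ce1e5aa4a4edd, (rh93c0feb6cf144553.shift 2 0), (rhaf9f2efc81a8312b.shift 2 0)] (by decide +kernel))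
noncomputable def rh30db8da99646143a : CRef := CRef.mk (Pat.mk 0x20000000f000000000 0x3f000000fe0000000e 6 8) 0 0 (step_sound _ 35 [(rh0c928d324d409faa.shift 1 0), rh1f9701c4cf497514, (rh592c7139d2c44767.shift 1 0), (rhd5eb272e07a4e288.shift 2 1)] (by decide +kernel))
noncomputable def rhef9ae3a37586c893 : CRef := CRef.mk (Pat.mk 0x1c000000140000000000000000 0x200000006000000070000001f0000001f0000000700000006 6 5) 0 0 (step_sound _ 97 [rhb4380df2e2db088b, rhb9dd680bb9375a9f, rhdbf2effe2e2e3e76] (by decide +kernel))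
noncomputable def rhd4bb430f810e1693 : CRef := CRef.mk (Pat.mk 0x70000000500000000000000000 0x18000000180000001f000001fe000000770000003000000010 6 9) 0 0 (step_sound _ 99 [(rh6c918a7151ce5cb8.shift 2 1), (rh88c620441a3a17ea.shift 0 2), (rha14d9d3e67190df6.shift 2 1), (rhb4380df2e2db088b.shift 2 0)] (by decide +kernel))
noncomputable def rh1c753b591fabd574 : CRef := CRef.mk (Pat.mk 0x1e000000080000000800000000 0x4000000070000001e0000003b0000000f00000003 6 6) 0 0 (step_sound _ 68 [rh7e517874e55e345b, (rhe25b0a99195a5d59.shift 1 2)] (by decide +kernel))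
noncomputable def rh4f7de5bd6810088c : CRef := CRef.mk (Pat.mk 0xe000000180000000800000000 0x12000000130000003e0000001f0000000c0000000c 6 6) 0 0 (step_sound _ 100 [rh32af6e600e16eab8, (rh84d1c02a8954c6a8.shift 3 0)] (by decide +kernel))
noncomputable def rh0b105607e5c74e15 : CRef := CRef.mk (Pat.mk 0x4000000060000000c0000000400000000000000000000000000000000 0x80000000c000000060000000f0000003c0000000c0000000c0000000c00000008 6 6) 0 0 (step_sound _ 227 [(rh2f68792b6b779e96.shift 2 4), rhd2c3f4a0db4431b7] (by decide +kernel))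
noncomputable def rhfdb2ba5a707ac534 : CRef := CRef.mk (Pat.mk 0xe00000018000000080000000000000000 0x8000000180000003e0000001f000000380000001800000008 6 6) 0 0 (step_sound _ 132 [(rh391f4472eb57537b.shift 0 1), (rhea7a1800d6f053bd.shift 3 0)] (by decide +kernel))
noncomputable def rh0f587135066a92ac : CRef := CRef.mk (Pat.mk 0x8000000080000000c0000000c00000000 0x60000000e0000000c0000003c0000000f0000000a 6 6) 0 0 (step_sound _ 130 [(rh50fbb5868c909700.shift 2 1), rhb3a090e527051e00] (by decide +kernel))
noncomputable def rh00aa1b5e20955d22 : CRef := CRef.mk (Pat.mk 0x4000000040000000c0000000800000000 0x80000000c0000000c0000003f0000003f00000016 6 6) 0 0 (step_sound _ 34 [rh15e73dbf691d5e47, rha71afc656c87d410] (by decide +kernel))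
noncomputable def rh46edbee45d1ac9f9 : CRef := CRef.mk (Pat.mk 0x40000000400000004000000000000000000000000 0x600000006000000060000003c0000000f0000000e0000000a 6 6) 0 0 (step_sound _ 66 [(rh5ad9898cc32ef511.shift 1 0), (rh7133a7a78d762f91.shift 0 1), (rhc4526fc8abf298b6.shift 1 0)] (by decide +kernel))
noncomputable def rhea99f8e157347430 : CRef := CRef.mk (Pat.mk 0x1c00000008000000080000000800000000 0xff000001ff000000080000000c00000004 6 9) 0 0 (step_sound _ 34 [(rh932754581e0f4330.shift 2 0), (rhd956edf64253352f.shift 0 3)] (by decide +kernel))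
noncomputable def rh3efa881622014241 : CRef := CRef.mk (Pat.mk 0x80000000800000008000000000000000000000000 0x1c0000001c0000001c0000000f0000003c0000001c00000010 6 6) 0 0 (step_sound _ 67 [(rh3431df911cfad314.shift 2 0), (rh641b5241be04eec6.shift 0 1), (rhc4055b4872d6fb38.shift 2 1)] (by decide +kernel))
noncomputable def rh0f62b02cca4ce4f3 : CRef := CRef.mk (Pat.mk 0x100000003800000000 0x3f7000001fe000001c7 6 10) 0 0 (step_sound _ 34 [rh592c7139d2c44767, (rha8608b51c10bffb6.shift 2 0), (rhec46bd5500c722c9.shift 1 1)] (by decide +kernel))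
noncomputable def rh69ccad40b7f365fd : CRef := CRef.mk (Pat.mk 0x100000001000000030000000200000002000000000 0x50000000df000000fe000001ef0000002800000008 6 9) 0 0 (step_sound _ 99 [rh7e2bec390ca584ed, (rh8ee80cc30e93a344.shift 2 2), (rhc92c11e8da6c894f.shift 0 2), (rhcced840e0475f351.shift 2 1)] (by decide +kernel))
noncomputable def rh93a506cf26059711 : CRef := CRef.mk (Pat.mk 0x40000000e0000000a 0x7c000000fe0000003b 6 8) 0 0 (step_sound _ 36 [rheb0810cc63b001d8, (rhf300f571c00d73dc.shift 1 0)] (by decide +kernel))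
noncomputable def rh607265eeba168943 : CRef := CRef.mk (Pat.mk 0x2000000020000000f000000000000000000000000 0xe0000001e0000000f0000001c0000000c0000000c 6 5) 0 0 (step_sound _ 131 [(rh33e738c4ed385b9f.shift 0 3), rhacbd1f6ebef21db5] (by decide +kernel))
noncomputable def rh7360152c32041eea : CRef := CRef.mk (Pat.mk 0x180000000e00000008 0x100000001c0000001c0000001f0000003c0000000e00000008 6 6) 0 0 (step_sound _ 99 [(rh2ad3f2836af21081.shift 1 0), (rh36ceafb844cecd6d.shift 1 0), rh5aa5e9dc84124dd6, (rh69f0587a21bb077f.shift 2 0)] (by decide +kernel))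
noncomputable def rh85194daf68a8acae : CRef := CRef.mk (Pat.mk 0x18000000180000007000000000 0x1c0000001f00000038000000f80000007e00000004 6 8) 0 0 (step_sound _ 131 [(rh2145e1d24b96a57e.shift 3 1), rh9ffdfa8ce4b4b565] (by decide +kernel))
noncomputable def rhd77ce3e7a7fb583a : CRef := CRef.mk (Pat.mk 0x1000000000000000200000007000000000 0x1000000010000003bf000001fe0000038e 6 10) 0 0 (step_sound _ 39 [(rh3fc3a7fb6866dcd4.shift 4 0), rh7500686ab197c6e2] (by decide +kernel))
noncomputable def rh652712fe16b5cdf7 : CRef := CRef.mk (Pat.mk 0x3000000010000000100000003800000000 0x100000003000000030000001f7000000fe000001c7 6 9) 0 0 (step_sound _ 34 [(rh503775339733bab1.shift 0 1), rh592c7139d2c44767, (rh78f82c032a59fa37.shift 2 0)] (by decide +kernel))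
noncomputable def rh700922537fb35b2e : CRef := CRef.mk (Pat.mk 0x80000000c00000018000000000000000000000000 0x100000003c0000000f000000780000001f0000000c00000004 6 7) 0 0 (step_sound _ 129 [(rhb739f4f82bb681b4.shift 0 3), rhdfab3255a926b16b] (by decide +kernel))
noncomputable def rh76d8444e21292817 : CRef := CRef.mk (Pat.mk 0x300000006000000020000000100000000000000000000000000000000 0x300000007000000060000000300000003000000070000000700000005 6 3) 0 0 (step_sound _ 129 [(rh932754581e0f4330.shift 0 3), rhe18864cb772fcf35] (by decide +kernel))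
noncomputable def rhfdc8874b163d2128 : CRef := CRef.mk (Pat.mk 0x80000000c000000180000000800000000 0x100000007c0000000f000000180000000f00000004 6 7) 0 0 (step_sound _ 34 [(rh932754581e0f4330.shift 2 0), (rhc14e0758a183ac7a.shift 0 1)] (by decide +kernel))
noncomputable def rh639615dfde8c4828 : CRef := CRef.mk (Pat.mk 0x200000003000000060000000200000000000000000000000000000000 0x300000003000000070000000700000003000000030000000300000001 6 3) 0 0 (step_sound _ 128 [rh7a13d538435703f0, (rh932754581e0f4330.shift 0 3)] (by decide +kernel))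
noncomputable def rhbe2dc84b41eb645f : CRef := CRef.mk (Pat.mk 0x1800000070000000100000000000000000 0x8000000180000007f0000003e0000001000000010 6 7) 0 0 (step_sound _ 36 [(rh50fbb5868c909700.shift 3 1), rh87c6dd92c83504e8] (by decide +kernel))
noncomputable def rh2e3757e3a1b64a42 : CRef := CRef.mk (Pat.mk 0x2000000060000000e0000000000000000 0x80000000b0000003e0000003e0000003000000010 6 6) 0 0 (step_sound _ 68 [rh906b0622defffad0, (rhf48373e13d2bc128.shift 1 2)] (by decide +kernel))
noncomputable def rh448010a0de4ebdac : CRef := CRef.mk (Pat.mk 0x400000004000000040000000c00000000 0xc0000000c0000000c0000000f0000003c00000014 6 6) 0 0 (step_sound _ 67 [rh15e73dbf691d5e47, (rh2145e1d24b96a57e.shift 2 1)] (by decide +kernel))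
noncomputable def rh20cddb3ba0450bc6 : CRef := CRef.mk (Pat.mk 0x400000004000000040000000400000000 0xa0000000f0000003c000000040000000600000006 6 6) 0 0 (step_sound _ 33 [rh305945700f20b255, (rh932754581e0f4330.shift 1 0)] (by decide +kernel))
noncomputable def rh72374ec18fbad4fe : CRef := CRef.mk (Pat.mk 0x8000000080000001c00000010000000000000000000000000 0x40000001c0000001c0000001c0000001f0000000f0000000c00000008 6 5) 0 0 (step_sound _ 99 [(rh2b2a2906262d769a.shift 0 2), (rh4be12bd44337ebdb.shift 2 1), (rh544fd3f279a4d968.shift 2 0)] (by decide +kernel))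
noncomputable def rhf4c0444226939407 : CRef := CRef.mk (Pat.mk 0xa0000001e00000000 0x400000007000000070000003e0000001e00000007 6 6) 0 0 (step_sound _ 68 [(rh33e738c4ed385b9f.shift 1 1), rh6ff5b79a60a2b575] (by decide +kernel))
noncomputable def rh7e485bd99f3b6b9d : CRef := CRef.mk (Pat.mk 0x40000000c0000000e00000000 0x6000000060000000f0000003e0000000e00000004 6 6) 0 0 (step_sound _ 68 [(rh18965a982d73c794.shift 1 1), rh23b23c4e0037e49a] (by decide +kernel))
noncomputable def rh9e0d36d600671dda : CRef := CRef.mk (Pat.mk 0x8000000180000001e00000000 0xc0000000c0000000f0000001b0000001e0000000a 6 5) 0 0 (step_sound _ 65 [(rh3244c3cc8379b070.shift 0 1), rhdc717ef3f469a3af] (by decide +kernel))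
noncomputable def rh75eefa99e816976e : CRef := CRef.mk (Pat.mk 0x200000002000000020000000200000000 0x2000000030000000300000003000000070000000700000006 6 3) 0 0 (step_sound _ 128 [rh3cba60bd885039ad, (rh50fbb5868c909700.shift 0 1)] (by decide +kernel))
noncomputable def rhffec44ea36b33571 : CRef := CRef.mk (Pat.mk 0x100000000c000000080000000800000000 0x18000000180000000f0000007c0000001800000010 6 7) 0 0 (step_sound _ 131 [(rh2f68792b6b779e96.shift 3 1), rh39ab082dc7dd5aa2] (by decide +kernel))
noncomputable def rhc916f3257e7dbbfb : CRef := CRef.mk (Pat.mk 0x20000000200000002000000000000000000000000 0x100000007000000070000000700000006000000070000000700000001 6 3) 0 0 (step_sound _ 65 [(rh5b23aff60548e1d8.shift 0 1), rhc4526fc8abf298b6, rhcab3157f7bdcba3e] (by decide +kernel))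
noncomputable def rh11d7725d82cfa01b : CRef := CRef.mk (Pat.mk 0xc00000004000000040000000400000000 0x40000000c0000000c0000000f0000003c0000001c 6 6) 0 0 (step_sound _ 99 [(rh71222050f2c63a3a.shift 2 0), rhd802bb8339359eae] (by decide +kernel))
noncomputable def rh389bed5eea0a8dfb : CRef := CRef.mk (Pat.mk 0x1800000010000000100000001800000000 0x18000000180000003e000000ff00000026 6 8) 0 0 (step_sound _ 37 [(rh55afc6a59410cf00.shift 4 0), rh96d07357a88c7683] (by decide +kernel))
noncomputable def rhd20916f8a49230a8 : CRef := CRef.mk (Pat.mk 0x100000001c0000000800000008 0x400000004000000360000003e0000000f0000000a 6 6) 0 0 (step_sound _ 65 [(rh33e738c4ed385b9f.shift 1 2), rh69bd1a3d09edbee9] (by decide +kernel))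
noncomputable def rhee1a0400a973ac30 : CRef := CRef.mk (Pat.mk 0x10000000180000000e000000000000000000000000 0x4000000360000001f000000fe000000070000000600000004 6 8) 0 0 (step_sound _ 100 [rh2395824d1086e2bc, (rh870359598daa9f92.shift 0 3), (rha8a8ab8db16c2546.shift 0 1), (rhb447f348b8f2aaa5.shift 0 2)] (by decide +kernel))
noncomputable def rh5cfeafb3b4901fdd : CRef := CRef.mk (Pat.mk 0x200000002000000020000000200000000 0x400000006000000060000000200000006000000070000000700000001 6 3) 0 0 (step_sound _ 32 [rh932754581e0f4330, (rhcde0c31690b9466d.shift 0 1)] (by decide +kernel))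
noncomputable def rhd11a396ca7ed341b : CRef := CRef.mk (Pat.mk 0x3800000010 0x70000007f000000fe 6 8) 0 0 (step_sound _ 34 [(rh0edd3afef6b5d7e0.shift 1 0), (rha03f6e28ea70fc7d.shift 1 0), rhc93c85c35c9e08d5] (by decide +kernel))
noncomputable def rh95ecc188ff63c01e : CRef := CRef.mk (Pat.mk 0x18000000100000001800000018 0x40000001e0000007f000000ff0000001e 6 8) 0 0 (step_sound _ 37 [(rh2612b4f73ba7c3b3.shift 2 0), rh6fdfe652501a6d76, rhe5ccb1b031a2a14a] (by decide +kernel))
noncomputable def rhbcc3f603667cc96f : CRef := CRef.mk (Pat.mk 0x1e0000000800000000 0x200000002000000030000003e0000003f00000004 6 6) 0 0 (step_sound _ 36 [rh60ffd94c5f84d7a4, (rhe25b0a99195a5d59.shift 1 1)] (by decide +kernel))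
noncomputable def rhf3e60b56d53bd032 : CRef := CRef.mk (Pat.mk 0xf000000040 0x7000001fe0000007f 6 9) 0 0 (step_sound _ 35 [rh88c620441a3a17ea, (rh8aa0e361631476f3.shift 2 0), (rheae1728ff4a56756.shift 2 0)] (by decide +kernel))
noncomputable def rh5a1dc4f1ba2ce0d6 : CRef := CRef.mk (Pat.mk 0x200000007000000040 0x370000007e000000ce 6 8) 0 0 (step_sound _ 35 [(rhe25b0a99195a5d59.shift 3 0), rhf0dcb8af34d9ea65] (by decide +kernel))
noncomputable def rh795c1708322479b0 : CRef := CRef.mk (Pat.mk 0x30000000200000006000000020 0x4e000000fe0000003f000001f000000020 6 9) 0 0 (step_sound _ 102 [(rh2f68792b6b779e96.shift 5 0), (rhf44e586b768a091f.shift 0 1)] (by decide +kernel))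
noncomputable def rh9a4f66cec3456d91 : CRef := CRef.mk (Pat.mk 0x180000000c000000180000000800000000000000000000000000000000 0x180000000f00000018000000180000001c0000001c0000001c00000010 6 5) 0 0 (step_sound _ 99 [(rh80cb8ef2e5ec4c94.shift 0 1), (rh8a1bd34420cccc7f.shift 2 0), (rhd29a1fb688eae70f.shift 3 2), (rhdaefda965ff6ab0f.shift 0 1)] (by decide +kernel))
noncomputable def rh0942688823996474 : CRef := CRef.mk (Pat.mk 0x400000004000000040000000c00000000 0x6000000060000000f0000003e0000000c00000004 6 6) 0 0 (step_sound _ 129 [(rh50fbb5868c909700.shift 1 1), rh8589a34519302e20] (by decide +kernel))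
noncomputable def rh94d47c4198648277 : CRef := CRef.mk (Pat.mk 0x200000002000000020000000000000000 0x400000006000000060000000600000007000000070000000700000005 6 3) 0 0 (step_sound _ 162 [rh17d7303830c72081, (rh82978e0e876440e5.shift 0 1), (rh87d5e4118780fa3b.shift 1 1)] (by decide +kernel))
noncomputable def rh9618640bbe934158 : CRef := CRef.mk (Pat.mk 0x20000000200000002000000000000000000000000 0x10000000300000003000000030000000700000007000000070000000700000005 6 3) 0 0 (step_sound _ 66 [(rh47dece01c1595e79.shift 1 0), rha822df604b29e217, (rhaf349dd7709502bf.shift 0 2)] (by decide +kernel))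
noncomputable def rh2475293df139576c : CRef := CRef.mk (Pat.mk 0xc0000000c000000080000000800000000 0x800000008000000080000000f0000003c0000001c0000000c00000004 6 6) 0 0 (step_sound _ 34 [(rh932754581e0f4330.shift 2 0), (rhfa3fb0b3a381ce83.shift 0 1)] (by decide +kernel))
noncomputable def rhe0b2d27afc8c634c : CRef := CRef.mk (Pat.mk 0x800000008000000080000001c00000000 0x40000000c00000008000000ff0000007e000000e0 6 8) 0 0 (step_sound _ 130 [(rh50fbb5868c909700.shift 2 1), rhbf9e4cbcfeee59af] (by decide +kernel))
noncomputable def rh988a73bcd39d6da5 : CRef := CRef.mk (Pat.mk 0x80000000800000008000000000000000000000000 0x140000001c0000001c00000018000000180000001f0000003c0000001c00000014 6 6) 0 0 (step_sound _ 68 [(rh1148744b53f3df58.shift 2 2), (rh2977b00063528966.shift 3 0), (rh47dece01c1595e79.shift 3 0), (rha96043d67b77a772.shift 2 0), (rhfa80626feb4e9cb5.shift 0 1)] (by decide +kernel))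
noncomputable def rh755ab12b41277c9d : CRef := CRef.mk (Pat.mk 0x3000000020000000200000003000000000 0x4f000000fe000001fc000000300000007000000040 6 9) 0 0 (step_sound _ 131 [(rh02a6232717b1c57e.shift 2 1), rh5d1695c79e3cca08, (rh8ee80cc30e93a344.shift 2 3)] (by decide +kernel))
noncomputable def rhba5a7d18b895ae4d : CRef := CRef.mk (Pat.mk 0x1e0000000800000000 0x200000002000000030000003e0000003f00000004 6 6) 0 0 (step_sound _ 33 [rh958d60077674138f, (rheb0810cc63b001d8.shift 0 1)] (by decide +kernel))
noncomputable def rh1ef62f5a475a383c : CRef := CRef.mk (Pat.mk 0x20000000e0000000400000000 0x8000000080000003b0000001f0000003400000010 6 6) 0 0 (step_sound _ 68 [(rh3244c3cc8379b070.shift 0 2), rhf41a34b41b8c2138] (by decide +kernel))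
noncomputable def rh0d00cc8f32aae260 : CRef := CRef.mk (Pat.mk 0x80000000e000000180000001000000000 0x40000003f000000fe0000001f0000003200000022 6 8) 0 0 (step_sound _ 100 [rh61f9d70a168e40fe, (rha28c8a023d182fe9.shift 0 2), rhefd858cfdc5d2964] (by decide +kernel))
noncomputable def rhfd2357e0e75c0947 : CRef := CRef.mk (Pat.mk 0xe0000000c00000018 0x600000006000000070000003e0000000f00000018 6 6) 0 0 (step_sound _ 33 [rh31449ef6e5b56af3, rhb739f4f82bb681b4] (by decide +kernel))
noncomputable def rha223ed356ef75a97 : CRef := CRef.mk (Pat.mk 0x1c00000018 0xe70000007f0000001c 6 8) 0 0 (step_sound _ 33 [rhb739f4f82bb681b4, rhdce80c6eb7d59202] (by decide +kernel))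
noncomputable def rhaa931ca66a15e1f1 : CRef := CRef.mk (Pat.mk 0x1c0000001800000030 0x400000004000000070000003f0000001e00000032 6 6) 0 0 (step_sound _ 65 [rh3523d2f198d443f9, (rhb739f4f82bb681b4.shift 0 1)] (by decide +kernel))
noncomputable def rh7e359ae73c2f0676 : CRef := CRef.mk (Pat.mk 0x1800000018000000700000000000000000 0x270000007f000000f8000000780000001000000010 6 8) 0 0 (step_sound _ 36 [(rh1350115047441203.shift 0 1), (rh7b1f1fb55310c477.shift 3 0)] (by decide +kernel))
noncomputable def rh6a2ae6d9a5a16c20 : CRef := CRef.mk (Pat.mk 0x80000000e000000180000001000000000 0x10000000340000003f0000003e0000001f0000003200000022 6 6) 0 0 (step_sound _ 100 [rh752cb53747d63e0e, (rh8ebf9530de0f8ca7.shift 0 2), rhefd858cfdc5d2964] (by decide +kernel))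
noncomputable def rhd195c730c18b8256 : CRef := CRef.mk (Pat.mk 0x2000000030000000700000000000000000 0x8000000080000003f0000007c000000780000001000000010 6 7) 0 0 (step_sound _ 99 [rh8d8c9d8a382f5fcd, (rhb739f4f82bb681b4.shift 2 2)] (by decide +kernel))
noncomputable def rh82c2513e6a093fcf : CRef := CRef.mk (Pat.mk 0x80000001e000000180000000000000000 0x3b0000001e0000001f0000003000000030 6 6) 0 0 (step_sound _ 132 [(rh33e738c4ed385b9f.shift 1 3), rh404e8af4a6aeb81d] (by decide +kernel))
noncomputable def rhe35171cb07345fe1 : CRef := CRef.mk (Pat.mk 0x10000000180000007800000000 0xc0000000f0000007c000000f80000007c00000004 6 8) 0 0 (step_sound _ 99 [(rh9fdcb09dfa6419d9.shift 2 1), (rhcce03b542d61f53a.shift 2 0), (rhdf8d307afd4a5706.shift 0 1)] (by decide +kernel))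
noncomputable def rhbd8e445cfcdc81f9 : CRef := CRef.mk (Pat.mk 0x4000000040000001e0000000000000000 0x80000000c0000003c0000001f0000003800000018 6 6) 0 0 (step_sound _ 100 [rh0bd94f05f8e689fc, (rh33e738c4ed385b9f.shift 1 2)] (by decide +kernel))
noncomputable def rh16b2ddea7c4d9b1b : CRef := CRef.mk (Pat.mk 0x180000000e00000008 0x10000000300000003f0000003e00000038 6 6) 0 0 (step_sound _ 36 [(rh33e738c4ed385b9f.shift 1 1), rhc60d79c6d02125ea] (by decide +kernel))
noncomputable def rh701b29ffc96a05cf : CRef := CRef.mk (Pat.mk 0x300000001800000010 0x2000000020000000770000007f0000001e00000010 6 7) 0 0 (step_sound _ 34 [rh457044260194aa30, (rh53b3c253cb0c65f4.shift 1 1)] (by decide +kernel))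
noncomputable def rhdb807a49aea58b54 : CRef := CRef.mk (Pat.mk 0xc0000000c000000060000000400000000 0x100000003c0000000f0000000e0000003c00000018 6 6) 0 0 (step_sound _ 35 [(rh55afc6a59410cf00.shift 2 0), rhd0e020d11111160b] (by decide +kernel))
noncomputable def rh1901a7fb35ec8315 : CRef := CRef.mk (Pat.mk 0xc0000000400000004000000000000000000000000 0x40000000c0000000c0000003c0000000f0000000e0000000a 6 6) 0 0 (step_sound _ 66 [(rh3ca4c10fdf355329.shift 0 1), (rh8aec56c4ee12918c.shift 1 0), (rh8c3839f9b9075f23.shift 2 0)] (by decide +kernel))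
noncomputable def rh14f6c8a5a4f4a3d8 : CRef := CRef.mk (Pat.mk 0x80000000e000000180000001000000000 0x4000000040000003f000000fe0000001f0000003200000020 6 8) 0 0 (step_sound _ 100 [(rh3cc3e986d9471888.shift 0 1), rh61f9d70a168e40fe, (rha28c8a023d182fe9.shift 0 2)] (by decide +kernel))
noncomputable def rh4c91f9b2307560f9 : CRef := CRef.mk (Pat.mk 0x20000000e00000000 0x730000003e00000073 6 7) 0 0 (step_sound _ 36 [(rh3244c3cc8379b070.shift 0 1), rh5ead30ef98d3ed68] (by decide +kernel))
noncomputable def rh28c63e442326602c : CRef := CRef.mk (Pat.mk 0x2000000020000000e000000000000000000000000 0x30000000300000007000000060000001e000000030000000300000002 6 5) 0 0 (step_sound _ 65 [(rh157b220518f94713.shift 0 1), rh8c1d47d14292b804] (by decide +kernel))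
noncomputable def rh5bcb43d44e34382c : CRef := CRef.mk (Pat.mk 0x20000000200000002000000000000000000000000 0x50000000700000007000000030000000300000003000000070000000700000005 6 3) 0 0 (step_sound _ 192 [(rh114f4abf4ea101c9.shift 0 2), (rh6970e1f3726660a5.shift 0 2), rhbba7d23481996066] (by decide +kernel))
noncomputable def rhde9d3a9fc46128a0 : CRef := CRef.mk (Pat.mk 0x200000002000000060000000200000000 0x50000000700000007000000060000000600000006000000060000000200000002 6 3) 0 0 (step_sound _ 161 [(rh1148744b53f3df58.shift 0 2), (rh44f453b84f013105.shift 1 1), (rhc8248430cebb96e2.shift 1 0), (rheaf30dee6dbb7dc4.shift 1 1)] (by decide +kernel))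
noncomputable def rh18fdfe1063c89b13 : CRef := CRef.mk (Pat.mk 0x8000000180000000c00000000 0xc0000001c0000001f000000380000001c0000000c00000008 6 6) 0 0 (step_sound _ 132 [(rh5fcbac5b57173fc5.shift 3 0), rh8276a28b36b0df67, (rh8fb96b2877771c9d.shift 2 1)] (by decide +kernel))
noncomputable def rh2c46ce7c83b790cd : CRef := CRef.mk (Pat.mk 0x40000000c000000040000000c0000000000000000 0x40000000c0000007f0000003f0000003200000010 6 7) 0 0 (step_sound _ 65 [(rh932754581e0f4330.shift 1 1), rha383e883c0bb58ae] (by decide +kernel))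
noncomputable def rhbb117eafdb04ce44 : CRef := CRef.mk (Pat.mk 0x40000001c000000040000000400000000000000000000000000000000 0x40000001c0000003f00000007000000060000000e0000000e0000000a 6 6) 0 0 (step_sound _ 98 [(rh7928877f9bf74a91.shift 1 2), (rh984bfc6de6c2c524.shift 1 0), (rha8bc3cae4d77a08f.shift 1 1), (rhbfe678a2e0e82212.shift 0 2)] (by decide +kernel))
noncomputable def rhec4347339887de98 : CRef := CRef.mk (Pat.mk 0x3000000060000000200000002000000000000000000000000 0x30000001e0000000600000003000000070000000700000004 6 5) 0 0 (step_sound _ 163 [rh5bb331872301d326, (rhf48373e13d2bc128.shift 0 5)] (by decide +kernel))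
end Crest.Agent.S0047.Helper85.Cert
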