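import Crest.Agent.Lib.S0047.Helper85CertPL6F0
import Crest.Agent.Lib.S0047.Helper85CertPL6F1
import Crest.Agent.Lib.S0047.Helper85CertPL6F2
import Crest.Agent.Lib.S0047.Helper85CertPL6F3
import Crest.Agent.Lib.S0047.Helper85CertPL6F4
import Crest.Agent.Lib.S0047.Helper85CertPL6F5
import Crest.Agent.Lib.S0047.Helper85CertPL6F6
import Crest.Agent.Lib.S0047.Helper85CertPL6F7
import Crest.Agent.Lib.S0047.Helper85CertPL6F8
import Crest.Agent.Lib.S0047.Helper85CertPL6F9
import Crest.Agent.Lib.S0047.Helper85CertPL6F10
import Crest.Agent.Lib.S0047.Helper85CertPL6F11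
import Crest.Agent.Lib.S0047.Helper85CertPL6F12
set_option autoImplicit false
set_option linter.all false
set_option Elab.async false
namespace Crest.Agent.S0047.Helper85.Cert
open Crest.Agent.S0047.Helper85

noncomputable def rhbf03ffe2e8ac186b : CRef := CRef.mk (Pat.mk 0x30000000e0000000a000000000000000000000000 0xe0000001e0000000f0000000e0000000e0000003c0000001c00000018 7 6) 0 0 (step_sound _ 98 [(rh3419a2a1e6037006.shift 0 2), (rh3f4e18d4fde79bdb.shift 1 0), (rh55a1f6c57a317ce6.shift 1 1)] (by decide +kernel))
noncomputable def rh07bfa7562cddc968 : CRef := CRef.mk (Pat.mk 0xc000000180000002800000000 0x1000000018000000ff000000ff000000180000003800000030 7 8) 0 0 (step_sound _ 97 [rh0796d9a9a08a17ca, (rhb739f4f82bb681b4.shift 0 2)] (by decide +kernel))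
noncomputable def rhcb622b47ab969dd6 : CRef := CRef.mk (Pat.mk 0xe00000004000000140000000000000000 0x8000000f80000007f000000f60000001c0000007800000028 7 8) 0 0 (step_sound _ 132 [(rh22de5993038d04b0.shift 0 1), (rh352b7f91eba0c81f.shift 1 3), (rhf7feb30212101096.shift 1 0), (rhfcffa0a9e99c8fd4.shift 1 1)] (by decide +kernel))
noncomputable def rh29cdd0712f7a9dc2 : CRef := CRef.mk (Pat.mk 0xe00000000000000140000000000000000 0x2000000020000000ff0000007e000000f00000001c0000007800000028 7 8) 0 0 (step_sound _ 132 [(rh1317c6ea28e6bacd.shift 1 1), (rh45f730bcf36fcf64.shift 0 3), (rh56a24c72f1c55520.shift 0 4), (rhf7feb30212101096.shift 1 0)] (by decide +kernel))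
noncomputable def rh6cda5be507bbac2a : CRef := CRef.mk (Pat.mk 0x200000003000000020000000200000000 0x50000000700000007000000020000000200000003000000070000000600000004 7 3) 0 0 (step_sound _ 34 [(rh55afc6a59410cf00.shift 1 0), (rhef61a9e75392de8f.shift 0 1)] (by decide +kernel))
noncomputable def rhc7aca66b9993ba9d : CRef := CRef.mk (Pat.mk 0xe0000001800000030 0xe7000000fe0000001f00000030 7 8) 0 0 (step_sound _ 33 [(rh101e72857d6da29e.shift 0 1), (rhab22b5b56e7b3243.shift 1 0)] (by decide +kernel))
noncomputable def rh691cd1c09c151b66 : CRef := CRef.mk (Pat.mk 0x60000000c000000140000000000000000 0x30000000340000003e0000003f0000001c0000000800000008 7 6) 0 0 (step_sound _ 100 [rh729828c66c86df93, (rhf48373e13d2bc128.shift 1 3)] (by decide +kernel))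
noncomputable def rhff8b9f09bbf66651 : CRef := CRef.mk (Pat.mk 0x30000000e0000000a0000000000000000 0xc0000001c0000003f0000000f0000000e0000003c0000001c 7 6) 0 0 (step_sound _ 130 [rh0dce13052660042a, (rh1b30fad02acc208f.shift 1 0), (rh1e6e51d679b73676.shift 0 1), (rhc2c7bae8f445c890.shift 2 0)] (by decide +kernel))
noncomputable def rhe80739337393bf48 : CRef := CRef.mk (Pat.mk 0xe000000000000001400000000 0x140000001c0000001c0000001c0000000f0000001c0000001c0000001c 7 5) 0 0 (step_sound _ 131 [(rh00d6a6e3c7e3bb40.shift 2 0), rh1d8750d28df937f5, (rh580df77fe152422b.shift 2 0), (rhce2cb63438ac5556.shift 2 0), (rhf587b2e6bca3ffdb.shift 2 0)] (by decide +kernel))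
noncomputable def rh3a1321e80b23d298 : CRef := CRef.mk (Pat.mk 0xf000000080000000800000000 0x140000001c0000001c000000180000000f0000000c0000000c00000004 7 5) 0 0 (step_sound _ 131 [(rh1726a00b0a8befd0.shift 2 0), (rh33e738c4ed385b9f.shift 0 3)] (by decide +kernel))
noncomputable def rh2a527716a1c9f1a5 : CRef := CRef.mk (Pat.mk 0xc0000000000000028000000000000000000000000 0x10000000180000007c0000001f0000007c000000380000001e0000001c00000014 7 7) 0 0 (step_sound _ 131 [(rh01483ff9cba2f6ac.shift 2 0), (rh119424d75d576844.shift 0 2), (rhb5de44cb673d576c.shift 1 0), (rhdc59ba418ff98db2.shift 1 1)] (by decide +kernel))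
noncomputable def rh2e3e791a44855765 : CRef := CRef.mk (Pat.mk 0xc0000000000000028000000000000000000000000 0x10000000180000007c0000000f0000007f000000380000001e0000001c00000004 7 7) 0 0 (step_sound _ 131 [(rh01483ff9cba2f6ac.shift 2 0), (rh119424d75d576844.shift 0 2), rha3e58f5f7aaf8466, (rhdc59ba418ff98db2.shift 1 1)] (by decide +kernel))
noncomputable def rhe3f3498bf0110c70 : CRef := CRef.mk (Pat.mk 0x380000000000000040000000000000000000000000 0x3bf000001fe000003ef00000040000000c0000000c000000080 7 10) 0 0 (step_sound _ 166 [(rh45f730bcf36fcf64.shift 2 4), (rh943c9a14b5422bad.shift 0 4), (rhe84c35e83a304151.shift 3 0)] (by decide +kernel))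
noncomputable def rhefc3a9cdd03ff119 : CRef := CRef.mk (Pat.mk 0x80000000f0000000000000004 0x100000001c0000001c0000000c0000000c0000000f0000001c00000004 7 5) 0 0 (step_sound _ 35 [(rh84992a92559190fe.shift 2 0), (rhe25b0a99195a5d59.shift 0 1)] (by decide +kernel))
noncomputable def rh48e4dd4a6247bc52 : CRef := CRef.mk (Pat.mk 0x60000000c0000000a0000000000000000 0x180000003e0000003f0000000e0000003c0000001c 7 6) 0 0 (step_sound _ 100 [rhdd79fd6cacbbb46f, (rhf48373e13d2bc128.shift 1 3)] (by decide +kernel))
noncomputable def rh50720b69fae6d0e6 : CRef := CRef.mk (Pat.mk 0xc00000018000000140000000000000000 0x300000007f0000001e0000001c0000007800000038 7 7) 0 0 (step_sound _ 36 [(rh7b1f1fb55310c477.shift 3 0), rhcfe865d9f9b0569d] (by decide +kernel))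
noncomputable def rh84e3b31efd5ce10d : CRef := CRef.mk (Pat.mk 0x1000000018000000080000003800000000 0x18000000ff000001ef0000003800000030 7 9) 0 0 (step_sound _ 131 [(rh55afc6a59410cf00.shift 3 0), rh8d12965a7224c83a] (by decide +kernel))
noncomputable def rh066e00cb98e43031 : CRef := CRef.mk (Pat.mk 0x100000001e00000000 0x1d8000000fe000000e7 7 9) 0 0 (step_sound _ 1 [(rh849c73f5d210389b.shift 1 0), rheb0810cc63b001d8] (by decide +kernel))
noncomputable def rh11780c0acc16ab08 : CRef := CRef.mk (Pat.mk 0x20000000f000000000 0x1f7000000fe0000000e 7 9) 0 0 (step_sound _ 71 [(rh33e738c4ed385b9f.shift 4 1), rhef25c460fa63fb95] (by decide +kernel))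
noncomputable def rh0220670dffe16ba6 : CRef := CRef.mk (Pat.mk 0x1c0000000000000014000000000000000000000000 0x2000000020000000740000003e0000001e0000001c0000001f0000000e0000000a 7 7) 0 0 (step_sound _ 165 [(rh7b9364b1e35b54aa.shift 1 2), rh8eef18077391dc88, (rhb705031692dfe65f.shift 2 2)] (by decide +kernel))
noncomputable def rh20c4d2a5d3665060 : CRef := CRef.mk (Pat.mk 0xf000000000 0xe000000fe0000007f 7 8) 0 0 (step_sound _ 35 [rh04797e9e06425c4e, (rh775ca1963e850b80.shift 1 0), (rh77e74b92a6996e26.shift 1 0), (rheae1728ff4a56756.shift 2 0)] (by decide +kernel))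
noncomputable def rh8c1b104b361576f9 : CRef := CRef.mk (Pat.mk 0x1c0000000000000014000000000000000000000000 0xe40000007c000000ee0000001c0000000f0000000e0000000a 7 8) 0 0 (step_sound _ 165 [(rh3fc3a7fb6866dcd4.shift 2 4), (rh8db7f7558b75b2b1.shift 1 4), rh8eef18077391dc88] (by decide +kernel))
noncomputable def rhab0776b498c641ba : CRef := CRef.mk (Pat.mk 0x40000000c00000008000000000000006000000040 0x40000000c000000080000000f0000007e000000e7 7 8) 0 0 (step_sound _ 35 [rh6f06891ed6db6e61, (rh9e07f76261b05888.shift 2 1)] (by decide +kernel))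
noncomputable def rh4e43a430bd1e47a6 : CRef := CRef.mk (Pat.mk 0x1c0000000000000014000000000000000000000000 0x640000003e0000007e0000001c0000001f0000000e0000000a 7 7) 0 0 (step_sound _ 165 [rh8eef18077391dc88, (rhbd4a6537fbbb09be.shift 1 2)] (by decide +kernel))
noncomputable def rh257411a10614b6c1 : CRef := CRef.mk (Pat.mk 0xf0000000000000010000000000000000000000000 0x80000001f0000003800000010000000380000003800000028 7 6) 0 0 (step_sound _ 132 [(rh3a1cb0ea10b1513f.shift 1 0), (rh96851dee118c1ba3.shift 0 4)] (by decide +kernel))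
noncomputable def rh139c71ebfc6675d8 : CRef := CRef.mk (Pat.mk 0xf00000000 0xfe0000007f00000070 7 8) 0 0 (step_sound _ 36 [(rh3fc3a7fb6866dcd4.shift 1 0), (rh9890f9d77740bbed.shift 0 1), (rhbdb07089a4623ed7.shift 1 0), rhfdb5da24f059b96f] (by decide +kernel))
noncomputable def rh4af6b1242ff98faf : CRef := CRef.mk (Pat.mk 0x18000000080000002800000000 0x1000000010000001f8000000fe000001ef0000002800000020 7 9) 0 0 (step_sound _ 132 [rh5a4204ba5093639a, (rhbfb5770941270498.shift 3 1)] (by decide +kernel))
noncomputable def rhfbba5d2f2b5f3e91 : CRef := CRef.mk (Pat.mk 0xf00000002000000020000000000000000000000000 0xe000000fe0000003f00000020000000700000007000000050 7 8) 0 0 (step_sound _ 69 [(rh257d7200ab2a6828.shift 4 0), (rh6eff4158bb400f47.shift 4 0), (rh7c446a5779c6be66.shift 0 4), (rhe4441baab75a6f73.shift 4 0)] (by decide +kernel))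
noncomputable def rhb2a803517a35277d : CRef := CRef.mk (Pat.mk 0x1e000000120000001000000000 0x6000000070000001e0000001e0000003700000006 7 6) 0 0 (step_sound _ 129 [(rh3244c3cc8379b070.shift 0 3), rh89f9c7aff9d88eaf] (by decide +kernel))
noncomputable def rh346e1a3094edffb9 : CRef := CRef.mk (Pat.mk 0x4000000060000000c0000000e 0x20000001b0000003e000000360000003c0000000e 7 6) 0 0 (step_sound _ 36 [rh01cf8ced872c6241, (rh18965a982d73c794.shift 1 0)] (by decide +kernel))
noncomputable def rhb18a96ed57ec5bfb : CRef := CRef.mk (Pat.mk 0xc000000180000001000000000 0x40000001c0000007c0000001f0000001c0000001800000008 7 7) 0 0 (step_sound _ 131 [(rh2145e1d24b96a57e.shift 3 1), rhc934b269c0e73d9b] (by decide +kernel))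
noncomputable def rh9e8522832c55f6c5 : CRef := CRef.mk (Pat.mk 0x3000000020000000700000000 0x40000000700000007000000030000000300000003000000030000000700000004 7 3) 0 0 (step_sound _ 129 [(rh55afc6a59410cf00.shift 1 0), (rh84992a92559190fe.shift 0 1)] (by decide +kernel))
noncomputable def rh6141f9a78e6afc9e : CRef := CRef.mk (Pat.mk 0x2000000060000000200000002 0x400000007000000070000000700000006000000070000000300000002 7 3) 0 0 (step_sound _ 129 [(rh44f453b84f013105.shift 1 0), (rh736254fd4bbe4ad1.shift 0 1), rhb67cb32759fb664f, (rhc85cc95794737cf7.shift 0 1)] (by decide +kernel))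
noncomputable def rhf0f83295c0c6a6d6 : CRef := CRef.mk (Pat.mk 0x40000000c000000040000001800000000 0x140000003c0000003f0000000f0000001800000010 7 6) 0 0 (step_sound _ 67 [rh13a5aaf92624f1c7, (rh2145e1d24b96a57e.shift 2 1)] (by decide +kernel))
noncomputable def rh2ca417210cbe039e : CRef := CRef.mk (Pat.mk 0x80000000c0000000c00000018 0x740000007c0000003c0000001f00000018 7 7) 0 0 (step_sound _ 98 [(rh50fbb5868c909700.shift 2 0), rh7108172435f27f9a] (by decide +kernel))
noncomputable def rhd3cc6e0e506e7201 : CRef := CRef.mk (Pat.mk 0x6000000020000000e000000040000000000000000 0x780000003e0000007b0000000e0000000c0000000400000004 7 7) 0 0 (step_sound _ 34 [(rh52d196eac70edc27.shift 0 1), (rh7b1f1fb55310c477.shift 1 0)] (by decide +kernel))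
noncomputable def rh95d733ec5ab570d3 : CRef := CRef.mk (Pat.mk 0x1000000018000000000000002800000000 0x1f0000000fe000001ef0000002800000028 7 9) 0 0 (step_sound _ 67 [rh5a4204ba5093639a, (rh71222050f2c63a3a.shift 3 0)] (by decide +kernel))
noncomputable def rh46cfce042afcb7c3 : CRef := CRef.mk (Pat.mk 0x1000000018000000080000002000000000 0x1000000010000001f0000000fe000001ef0000002000000020 7 9) 0 0 (step_sound _ 164 [rh5a4204ba5093639a, (rh5c5e593799055d58.shift 3 2)] (by decide +kernel))
noncomputable def rhd697ba55f7532e3e : CRef := CRef.mk (Pat.mk 0x2000000020000000200000002 0x500000007000000070000000300000003000000070000000700000006 7 3) 0 0 (step_sound _ 129 [rh0427fc1b2878eb21, rh20e56a1196e70fcc, rh3ca48e2a6d60153d, rh5abfc4c9d959be03] (by decide +kernel))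
noncomputable def rh7c8adad5c2b1d8f7 : CRef := CRef.mk (Pat.mk 0x400000002000000020000000200000000 0x100000003000000070000000600000003000000070000000700000004 7 3) 0 0 (step_sound _ 129 [rh1c60d3459196ae8b, (rh2f68792b6b779e96.shift 1 1)] (by decide +kernel))
noncomputable def rh20ccc7280544702b : CRef := CRef.mk (Pat.mk 0x8000000080000000800000008 0xf40000007f000000ff0000000800000008 7 8) 0 0 (step_sound _ 100 [(rh2f68792b6b779e96.shift 3 0), rhe3ce9e4e865ce01f] (by decide +kernel))
noncomputable def rh12ab25c091e53222 : CRef := CRef.mk (Pat.mk 0x10000000100000005000000020000000000000000000000000000000000000000 0x10000000100000007000000070000000200000002000000070000000700000005 7 3) 0 0 (step_sound _ 129 [(rhbe0e43a3bc50a43f.shift 0 4), rhd2c051b710a40782] (by decide +kernel))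
noncomputable def rh9bb8cf3050b876c3 : CRef := CRef.mk (Pat.mk 0x1e00000010000000000000000600000002 0x700000003e00000010000000100000003e00000077 7 7) 0 0 (step_sound _ 165 [rh3e8426f1ca432b47, (rh428265de8cd3cd2d.shift 1 4)] (by decide +kernel))
noncomputable def rh0287e5fd92b580aa : CRef := CRef.mk (Pat.mk 0x18000000000000000800000006000000030000000000000000 0x100000001800000018000000080000001e0000001b0000001e00000014 7 5) 0 0 (step_sound _ 99 [(rh18965a982d73c794.shift 0 2), rhe076173e728fefda] (by decide +kernel))
noncomputable def rh28290736255878b9 : CRef := CRef.mk (Pat.mk 0xa000000020000000a000000040000000000000000 0x1a0000001e0000003b0000000e0000003c0000001800000010 7 6) 0 0 (step_sound _ 98 [(rh2145e1d24b96a57e.shift 1 2), rhd96cdd49578b980c] (by decide +kernel))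
noncomputable def rh9e136f9d388428d5 : CRef := CRef.mk (Pat.mk 0x2000000020000000200000002000000000 0x2000000020000001fe000000fe0000005f 7 9) 0 0 (step_sound _ 36 [(rh932754581e0f4330.shift 4 0), rh93e41547997e1997] (by decide +kernel))
noncomputable def rh5e4e2335aef614c4 : CRef := CRef.mk (Pat.mk 0x200000002000000020000000200000000000000000000000000000000 0x200000006000000060000000600000007000000070000000700000005 7 3) 0 0 (step_sound _ 97 [(rh8cdd36b03d57a2f6.shift 0 1), rh8d8bfe45b7d5275a, (rhd29a1fb688eae70f.shift 1 2), rhf0587d49e84ff7d9] (by decide +kernel))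
noncomputable def rh60664d5181b9ed71 : CRef := CRef.mk (Pat.mk 0x8000000080000000800000006000000030000000000000000 0x100000001800000018000000080000001e0000001b0000001e00000014 7 5) 0 0 (step_sound _ 99 [(rh18965a982d73c794.shift 0 2), rh7fa49d2362d0c30f] (by decide +kernel))
noncomputable def rh036755447eb5ec9f : CRef := CRef.mk (Pat.mk 0x3000000000000000100000001000000010 0x1f7000000fe000001df000000100000001000000010 7 9) 0 0 (step_sound _ 131 [(rh10f3b9579919d0bf.shift 0 3), (rh1577e5323e080aa4.shift 3 0), (rh1aab0db3647530f7.shift 2 0), (rhfdf65b4fc421f840.shift 0 1)] (by decide +kernel))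
noncomputable def rhd31f73ee799621da : CRef := CRef.mk (Pat.mk 0x3000000000000000100000001000000010 0x1df000000fc000001de000000100000001000000010 7 9) 0 0 (step_sound _ 131 [(rh1aab0db3647530f7.shift 2 0), (rhb782824a29123179.shift 3 0), (rhc502eac36df96f07.shift 1 3), (rhf32297923889a514.shift 0 1)] (by decide +kernel))
noncomputable def rhd8ef2554399fa231 : CRef := CRef.mk (Pat.mk 0x1e00000000000000080000000000000008 0x4000000140000001f0000003e00000038000000080000000800000008 7 6) 0 0 (step_sound _ 100 [rh2ac5d4ab37b2986d, (rhe25b0a99195a5d59.shift 1 3)] (by decide +kernel))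
noncomputable def rhea82fcf81d6ec641 : CRef := CRef.mk (Pat.mk 0x1c00000000 0x1ef000000fe000001f0 7 9) 0 0 (step_sound _ 37 [(rh45f730bcf36fcf64.shift 1 0), rh9c548838e8725ba1, (rha93a5dd541ab8209.shift 2 0), (rhb18e6c78a554867d.shift 1 1), (rhe401600d466b97cd.shift 1 0)] (by decide +kernel))
noncomputable def rha26dce99bee8b61a : CRef := CRef.mk (Pat.mk 0x70000000000000004000000000 0x2000000020000000ff0000007e000000ce0000004000000040 7 8) 0 0 (step_sound _ 99 [(rh00c1a02c588da1b0.shift 3 0), (rh4c622fddc53a5f99.shift 1 3), (rh592c7139d2c44767.shift 1 2), (rh9e97bba44c1b13e4.shift 1 2), (rhaeac014a58998cf3.shift 0 2)] (by decide +kernel))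
noncomputable def rheaea716f222a54b6 : CRef := CRef.mk (Pat.mk 0x78000000000000004000000000 0x370000007e000000ce0000004000000040 7 8) 0 0 (step_sound _ 70 [rh5bcfd1bd23d511bc, (rhe25b0a99195a5d59.shift 3 2)] (by decide +kernel))
noncomputable def rhe5658f65a0eb2463 : CRef := CRef.mk (Pat.mk 0x7800000080 0x77000000fe0000018e 7 9) 0 0 (step_sound _ 39 [rhaeac014a58998cf3, (rhe25b0a99195a5d59.shift 4 0)] (by decide +kernel))
noncomputable def rha06d18d7fffe56ca : CRef := CRef.mk (Pat.mk 0x40000000e000000000000000800000000 0x400000014000000770000003e000000780000000800000008 7 7) 0 0 (step_sound _ 67 [(rh7b1f1fb55310c477.shift 2 0), (rh7e236bfa74a2d22d.shift 0 1)] (by decide +kernel))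
noncomputable def rhd0ee659b92444cce : CRef := CRef.mk (Pat.mk 0x40000000e000000000000000800000000 0x8000000ff0000007e000000700000001800000018 7 8) 0 0 (step_sound _ 100 [(rh38791ac5737ed75e.shift 1 3), (rha93a5dd541ab8209.shift 1 2), (rhe3060b190bc0bc78.shift 0 3), rhe4e5aee7d112f7ce] (by decide +kernel))
noncomputable def rh848731a23411c1a7 : CRef := CRef.mk (Pat.mk 0xe0000000000000008000000000000000800000000 0x10000000180000007b0000003e0000007800000018000000180000000800000008 7 7) 0 0 (step_sound _ 164 [(rh516d1f4e96267bf8.shift 1 0), (rh7be56dea451b252f.shift 1 2), (rha93a5dd541ab8209.shift 1 4), (rhb705031692dfe65f.shift 1 2), (rhe4e5aee7d112f7ce.shift 0 2)] (by decide +kernel))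
noncomputable def rhdc7b8648eed4c80d : CRef := CRef.mk (Pat.mk 0x40000000e0000000000000008 0x2000000030000000ff0000007e0000007800000008 7 8) 0 0 (step_sound _ 68 [rh12cb410d1f4d5769, (rh38791ac5737ed75e.shift 1 2), (rha93a5dd541ab8209.shift 1 1), (rhe3060b190bc0bc78.shift 0 2)] (by decide +kernel))
noncomputable def rh333ab359bc9d6b4c : CRef := CRef.mk (Pat.mk 0x1000000010000000500000001000000000 0x1000000010000000770000003e0000002f 7 7) 0 0 (step_sound _ 35 [(rh932754581e0f4330.shift 3 0), rhf74ffa6e5983eeb7] (by decide +kernel))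
noncomputable def rh1e9708fc9dde86e3 : CRef := CRef.mk (Pat.mk 0xa0000000200000002000000000000000400000000 0x740000003e0000007300000002000000030000000700000005 7 7) 0 0 (step_sound _ 65 [(rh15c2321f8ed670ce.shift 0 2), rh73329e8902d29e57] (by decide +kernel))
noncomputable def rh067465eba1292af8 : CRef := CRef.mk (Pat.mk 0x1c00000000 0xe70000007e000000e7 7 8) 0 0 (step_sound _ 37 [(rh3fc3a7fb6866dcd4.shift 2 0), rh6db5e6cb937903bb, rh775ca1963e850b80, rha845d2c0539caab2] (by decide +kernel))
noncomputable def rh104f927035e61ec9 : CRef := CRef.mk (Pat.mk 0x400000007000000000 0xce0000007e00000077 7 8) 0 0 (step_sound _ 35 [(rh33e738c4ed385b9f.shift 3 1), rh598c96e05d977516] (by decide +kernel))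
noncomputable def rhab398f6350eec362 : CRef := CRef.mk (Pat.mk 0x3800000000 0x1e7000000fe000001ef 7 9) 0 0 (step_sound _ 34 [(rh205dc383ce3b31ea.shift 1 0), (rh3fc3a7fb6866dcd4.shift 2 0), rh775ca1963e850b80] (by decide +kernel))
noncomputable def rh5ac81adb47b5a2ce : CRef := CRef.mk (Pat.mk 0x1e0000001a00000000000000000000000000000000 0x30000001e0000001e00000007000000070000000700000001 7 5) 0 0 (step_sound _ 193 [(rh3244c3cc8379b070.shift 0 5), rh7ec584bbeb9ce38d] (by decide +kernel))
noncomputable def rh850cfb1d20dcdbe9 : CRef := CRef.mk (Pat.mk 0x100000001000000010000000000000001800000000 0x100000001000000010000000f70000007e000000f7 7 8) 0 0 (step_sound _ 37 [(rh0b6a0038ecc85198.shift 4 0), rh180df8f831fe2482, rh8ba946378c076615, rha760f76b6cb53190] (by decide +kernel))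
noncomputable def rh6b16488aca7b5819 : CRef := CRef.mk (Pat.mk 0x80000000800000008000000000000003000000000 0x80000000800000008000001cf000000fe000001ff 7 9) 0 0 (step_sound _ 35 [(rh00497d8a8a1adb93.shift 1 0), rh4a074bb303831f6e, (rh96c84747a3ad56d1.shift 2 0), (rha3711ed12866f068.shift 2 0)] (by decide +kernel))
noncomputable def rh0953f5299b1005f9 : CRef := CRef.mk (Pat.mk 0x80000002800000028000000000000003000000000 0x800000028000000280000006f0000003e00000017 7 7) 0 0 (step_sound _ 35 [rh4a074bb303831f6e, (rh90c4546f59aef0d0.shift 3 0), (rha3711ed12866f068.shift 2 0), rhbcab0494d78b0abb] (by decide +kernel))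
noncomputable def rh4558969ce7a988d9 : CRef := CRef.mk (Pat.mk 0x6000000000000000a0000000a00000008 0x740000003e0000007b0000000a0000000a00000008 7 7) 0 0 (step_sound _ 131 [(rh37fce8d89d87d5f3.shift 0 1), (rh499c75226f92534c.shift 1 0), (rha761300b78595edf.shift 1 1)] (by decide +kernel))
noncomputable def rh060d30575821325e : CRef := CRef.mk (Pat.mk 0x1800000000000000200000002000000020 0x40000000ff0000007e00000067000000200000002000000020 7 8) 0 0 (step_sound _ 133 [(rh11c908474401bff1.shift 4 0), (rh5b80d90965a2c21b.shift 0 1), (rh98ecf3849fe98d1a.shift 0 3), (rhcb9c9b99670e1770.shift 0 1), (rhdec73fa5b5af4323.shift 2 1)] (by decide +kernel))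
noncomputable def rh1c77ecd867cfbd4a : CRef := CRef.mk (Pat.mk 0x20000000a0000000200000002 0x5000000070000000700000006000000070000003e0000007700000002 7 7) 0 0 (step_sound _ 66 [rh3290eb83f8a84c79, (rhb02f9c2bd63f56db.shift 0 1), (rhd9106766b9ff53c0.shift 0 1)] (by decide +kernel))
noncomputable def rh674a3bab5c1a0de5 : CRef := CRef.mk (Pat.mk 0x2000000020000000200000002 0x50000000700000007000000070000000700000006000000060000000600000002 7 3) 0 0 (step_sound _ 129 [rh09e15002aedb66eb, (rh44f453b84f013105.shift 1 0), (rh66ee4e4e1313f0fc.shift 0 1), (rhc85cc95794737cf7.shift 0 1)] (by decide +kernel))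
noncomputable def rh8f78aba0d3603b93 : CRef := CRef.mk (Pat.mk 0x20000000a0000000200000002 0x5000000070000000700000007000000030000003e0000007700000002 7 7) 0 0 (step_sound _ 66 [(rhb02f9c2bd63f56db.shift 0 1), rhcf28efee64db1c2b, (rhd9106766b9ff53c0.shift 0 1)] (by decide +kernel))
noncomputable def rh68039b9f7987257b : CRef := CRef.mk (Pat.mk 0x20000000a0000000200000002 0x5000000070000000700000006000000760000003e0000007700000002 7 7) 0 0 (step_sound _ 66 [rh3290eb83f8a84c79, (rhb02f9c2bd63f56db.shift 0 1), (rhf17b5c6197c16752.shift 0 1), (rhfa35e196e150edb4.shift 0 1)] (by decide +kernel))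
noncomputable def rh35b9bf5acbcf4891 : CRef := CRef.mk (Pat.mk 0x2000000020000000a0000000a0000000800000000 0x3d0000001f0000007a0000001f0000000a0000000800000008 7 7) 0 0 (step_sound _ 162 [(rh2f68792b6b779e96.shift 1 2), rh9b055255f21f062f] (by decide +kernel))
noncomputable def rhe631a10314cdc015 : CRef := CRef.mk (Pat.mk 0xa000000020000000a0000000a00000000 0x350000001f0000003a0000001a0000000e00000004 7 6) 0 0 (step_sound _ 2 [(rhd3458b32566d63f7.shift 1 0), (rhff7cafbe1fe3297a.shift 0 1)] (by decide +kernel))
noncomputable def rhd3dc39e4726db49b : CRef := CRef.mk (Pat.mk 0x40000000a000000020000000a00000008 0x740000003e0000007b0000000a0000000a00000008 7 7) 0 0 (step_sound _ 131 [(rh19fd61ba939dc992.shift 1 1), rh41eb7b614d3b6635, (rh8e95de002c6f51c7.shift 2 0), (rhc9598f15418899c1.shift 0 1)] (by decide +kernel))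
noncomputable def rh76deffd6924ffca5 : CRef := CRef.mk (Pat.mk 0xa000000020000000a00000002 0x3d0000001f0000001e0000000a0000000a00000002 7 6) 0 0 (step_sound _ 130 [(rhaf798c041bec95ba.shift 0 1), (rhbaefcd01e0a8bca3.shift 1 0)] (by decide +kernel))
noncomputable def rhc86885b0d65ccb02 : CRef := CRef.mk (Pat.mk 0x1000000004000000140000001400000000 0x280000003a0000003e0000003e000000f40000001f0000001c00000008 7 8) 0 0 (step_sound _ 100 [(rh1726a00b0a8befd0.shift 3 0), (rh565a0c22519f57e9.shift 3 0), (rh57b93e66a2f4dd33.shift 1 0), rha94490687c60c4d4, (rhc85cc95794737cf7.shift 3 1)] (by decide +kernel))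
noncomputable def rh4fa469685d34aac5 : CRef := CRef.mk (Pat.mk 0x80000000a0000000200000002000000010000000000000000 0x780000001f0000000600000002000000070000000700000004 7 7) 0 0 (step_sound _ 65 [rh0a57c265da6c8f78, (rh932754581e0f4330.shift 0 1)] (by decide +kernel))
noncomputable def rhd660c73563d5b0d0 : CRef := CRef.mk (Pat.mk 0x200000002000000020000000200000002 0x50000000700000007000000030000000700000006000000060000000600000002 7 3) 0 0 (step_sound _ 161 [(rh1f01239ae2eb1687.shift 1 0), (rh20e56a1196e70fcc.shift 0 1), (rh3ca48e2a6d60153d.shift 0 1), (rh5abfc4c9d959be03.shift 0 1)] (by decide +kernel))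
noncomputable def rha1a141ffbbdd3373 : CRef := CRef.mk (Pat.mk 0xc00000004000000040000000400000000 0x720000007f0000007e0000001c0000000c00000008 7 7) 0 0 (step_sound _ 129 [(rh50fbb5868c909700.shift 1 1), rhba0e3b4488635dbd] (by decide +kernel))
noncomputable def rh4956eacac5527de8 : CRef := CRef.mk (Pat.mk 0x80000000a0000000a0000000a000000020000000000000000 0x80000007a0000001f0000000e000000070000000300000003 7 7) 0 0 (step_sound _ 32 [rh135448955992a08f, (rh79877ebd3ef475dd.shift 0 1)] (by decide +kernel))
noncomputable def rh618a84b2ae90a53c : CRef := CRef.mk (Pat.mk 0xa000000020000000a0000000a000000020000000100000000 0x3d0000001f000000320000001a0000000a000000020000000300000001 7 6) 0 0 (step_sound _ 33 [(rh0a3819ad80b77571.shift 0 3), rh932754581e0f4330] (by decide +kernel))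
noncomputable def rh8f4304bb10e591a3 : CRef := CRef.mk (Pat.mk 0xf000000020 0xe000000fe000001bf 7 9) 0 0 (step_sound _ 7 [rh7c446a5779c6be66, (rhe25b0a99195a5d59.shift 4 0)] (by decide +kernel))
noncomputable def rh4d4c255a162f3729 : CRef := CRef.mk (Pat.mk 0xf00000001000000000000000000000000 0x80000001c0000000f0000001f0000001c0000001c00000018 7 5) 0 0 (step_sound _ 99 [rh017429492b832114, (rhe25b0a99195a5d59.shift 0 3)] (by decide +kernel))
noncomputable def rh2b2d795c8f499164 : CRef := CRef.mk (Pat.mk 0x380000000000000000000000280000002000000000 0xf00000007e000000e7000000600000007c0000003000000010 7 8) 0 0 (step_sound _ 162 [(rh4655358e0ef99593.shift 2 1), (rh9e97bba44c1b13e4.shift 0 4), (rha93a5dd541ab8209.shift 2 4), (rhd8e052951cb058e0.shift 2 0)] (by decide +kernel))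
noncomputable def rhfe3c457d1e27e17e : CRef := CRef.mk (Pat.mk 0x3800000000000000000000002800000000 0x770000003e00000067000000600000007c00000010 7 7) 0 0 (step_sound _ 130 [(rh4655358e0ef99593.shift 2 0), (rh4c622fddc53a5f99.shift 0 4), (rh592c7139d2c44767.shift 0 3), (rh9e97bba44c1b13e4.shift 0 3)] (by decide +kernel))
noncomputable def rh90b133bab17a7c04 : CRef := CRef.mk (Pat.mk 0xf00000008000000000000000400000004 0x100000001c0000001c0000001c0000000f0000000c000000080000000c00000004 7 5) 0 0 (step_sound _ 67 [(rhec5a779e75f3333d.shift 0 2), (rheea67dfebd0f8008.shift 2 0)] (by decide +kernel))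
noncomputable def rh5e730fc4234279e6 : CRef := CRef.mk (Pat.mk 0x1e0000000000000000 0x1000000038000000380000003f0000001e0000003800000010 7 6) 0 0 (step_sound _ 100 [(rh33e738c4ed385b9f.shift 1 2), rh371b447922205375] (by decide +kernel))
noncomputable def rh25f8246be790ad66 : CRef := CRef.mk (Pat.mk 0x100000001e0000001000000000 0x280000003800000038000000fc0000001f0000001e0000001800000018 7 8) 0 0 (step_sound _ 97 [(rh3244c3cc8379b070.shift 0 2), (rh66b302f22681b271.shift 1 0)] (by decide +kernel))
noncomputable def rhe92e3876332d1c62 : CRef := CRef.mk (Pat.mk 0x180000000a0000000a0000000800000000000000000000000000000000 0x180000000f0000000e0000007c000000180000001c0000001c00000014 7 7) 0 0 (step_sound _ 99 [rh195cdf5785787856, (rh41f124c60df35849.shift 0 2), (rhd29a1fb688eae70f.shift 3 2), (rhe84e00c98653ad0c.shift 2 0)] (by decide +kernel))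
noncomputable def rha0fd922d6cee15ba : CRef := CRef.mk (Pat.mk 0xa0000000a00000002 0x5000000070000000f0000007a0000001f00000006 7 7) 0 0 (step_sound _ 97 [rh1741680720c097b4, rh97edf64b9f71a8a2, rhc5b405f1d4e08ede, rhe5e2d7a746d6b957] (by decide +kernel))
noncomputable def rhfa7f419e9e908d05 : CRef := CRef.mk (Pat.mk 0x180000000a0000000800000000000000000000000000000000 0x10000000180000000f0000000c000000180000001c0000001c00000004 7 5) 0 0 (step_sound _ 99 [(rh2f68792b6b779e96.shift 3 3), rh612e3772ebde12f7] (by decide +kernel))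
noncomputable def rhc51dc637e0a097eb : CRef := CRef.mk (Pat.mk 0xf0000000b00000000000000000000000000000000 0x180000000f0000000f0000001c0000001c0000001c00000010 7 5) 0 0 (step_sound _ 195 [(rh33e738c4ed385b9f.shift 0 5), rhad383be9d686061c] (by decide +kernel))
noncomputable def rh6af0d2fe1336a515 : CRef := CRef.mk (Pat.mk 0x400000004000000000000000e00000000 0x400000004000000e40000007e000000e7 7 8) 0 0 (step_sound _ 1 [(rh3c88ce959c0e423f.shift 1 0), rhad562696acd1db6f] (by decide +kernel))
noncomputable def rh8faea1c85952b2b6 : CRef := CRef.mk (Pat.mk 0x2000000020000000000000001800000000 0x40000000600000006000000020000000e70000007e000000ff 7 8) 0 0 (step_sound _ 37 [rh1420a8e454ba040d, rh1f6ff5d3352e2267, (rh3a2a22c59b172258.shift 4 0), rh900144b0f9adb2af] (by decide +kernel))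
noncomputable def rh49a597ba05422f36 : CRef := CRef.mk (Pat.mk 0xa0000000a00000000000000060000000000000000 0x10000000180000001a0000000a0000007b0000003f0000007c00000010 7 7) 0 0 (step_sound _ 67 [(rh5effb2bb22dd3661.shift 2 1), (rh757841c8d25f29d4.shift 0 1), (rh90c4546f59aef0d0.shift 1 1), (rh96c84747a3ad56d1.shift 0 1), rhb079c41d94df98a4] (by decide +kernel))
noncomputable def rhdc74a5e8f478aba0 : CRef := CRef.mk (Pat.mk 0x200000002000000020000000300000000000000000 0x3000000030000000ff000000fe0000004f00000008 7 8) 0 0 (step_sound _ 70 [(rh55afc6a59410cf00.shift 5 1), rh58f8b4d1a0aa491c] (by decide +kernel))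
noncomputable def rh8953110b5cb026f8 : CRef := CRef.mk (Pat.mk 0x200000002000000020000000200000000000000000000000000000000 0x300000007000000070000000600000006000000070000000700000005 7 3) 0 0 (step_sound _ 97 [rh00d408725a513cb5, rh4cae674e8fd8dc57, (rh8ff3dde5b1c639e0.shift 0 1), (rhd29a1fb688eae70f.shift 1 2)] (by decide +kernel))
noncomputable def rh389729f5258e1edc : CRef := CRef.mk (Pat.mk 0x3800000010 0x1c7000001fe000003f7 7 10) 0 0 (step_sound _ 34 [(rh04b5a123ea5003fa.shift 2 0), rh775ca1963e850b80, (rha03f6e28ea70fc7d.shift 1 0), rhfcb55d5dc3b78d1f] (by decide +kernel))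
noncomputable def rhcc3831a752ee843c : CRef := CRef.mk (Pat.mk 0x200000002000000020000000200000000 0x50000000700000007000000060000000600000006000000060000000600000002 7 3) 0 0 (step_sound _ 161 [(rh44f453b84f013105.shift 1 1), (rha087c6594f4bfb59.shift 0 1), (rhdd55ad664c3c2145.shift 1 0)] (by decide +kernel))
noncomputable def rhdf7ab2556787e0c9 : CRef := CRef.mk (Pat.mk 0x200000002000000020000000200000000000000000000000000000000 0x20000000600000006000000060000000600000006000000070000000700000005 7 3) 0 0 (step_sound _ 97 [rh95311890f436bcdc, (rhc9696e4650cbd493.shift 1 1), (rhd29a1fb688eae70f.shift 1 2)] (by decide +kernel))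
noncomputable def rh165a86214c6ca369 : CRef := CRef.mk (Pat.mk 0x1000000010000000500000001000000000 0x1000000010000000770000003e0000002f 7 7) 0 0 (step_sound _ 37 [(rh55afc6a59410cf00.shift 4 0), rhee0f66b55c275a5a] (by decide +kernel))
noncomputable def rh5ad0000f5e6995cd : CRef := CRef.mk (Pat.mk 0x3000000020000000200000000000000000000000000000000 0x100000007000000060000000600000003000000070000000700000004 7 3) 0 0 (step_sound _ 97 [(rh50fbb5868c909700.shift 0 3), rhb4d78cd0e58cc17c] (by decide +kernel))
noncomputable def rh83581d2034ab21b9 : CRef := CRef.mk (Pat.mk 0x800000008000000080000002800000000 0x340000007f0000007e000000180000003800000030 7 7) 0 0 (step_sound _ 100 [(rh0386a6bf77289b72.shift 1 0), (rhca405e350c462817.shift 0 1), (rhfc21d93c70905a0f.shift 1 1)] (by decide +kernel))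
noncomputable def rhae70c0c7f629c35c : CRef := CRef.mk (Pat.mk 0x800000008000000080000000000000000 0x1c0000001c0000001c0000007f0000007f0000000c000000180000001800000010 7 7) 0 0 (step_sound _ 163 [(rh13daa721e2618735.shift 0 1), (rh1741680720c097b4.shift 2 2), (rh5f431d3cea859888.shift 0 1), (rh6c59ce14113da07f.shift 3 0), (rhfb657409fbb16679.shift 2 1)] (by decide +kernel))
noncomputable def rh89d61b4dc60eb422 : CRef := CRef.mk (Pat.mk 0x20000000200000002000000000000000000000000 0x7000000070000000700000006000000060000000600000006000000060000000600000004 7 3) 0 0 (step_sound _ 193 [(rh20e56a1196e70fcc.shift 0 2), (rh6c59ce14113da07f.shift 1 1), (rhaa3bece996244111.shift 1 0), (rhae682b69deb3d960.shift 0 2)] (by decide +kernel))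
noncomputable def rh1a49299c8a143060 : CRef := CRef.mk (Pat.mk 0x400000004000000040000001400000000 0x180000003c0000000f0000000c0000001c0000001c 7 6) 0 0 (step_sound _ 131 [(rh2f68792b6b779e96.shift 2 1), rh71a2d025e53ff683] (by decide +kernel))
noncomputable def rhdb7136dcf135a6a0 : CRef := CRef.mk (Pat.mk 0x800000008000000080000000000000000 0x1c0000001c0000001c0000007f0000007f0000001c000000180000000800000008 7 7) 0 0 (step_sound _ 163 [(rh13daa721e2618735.shift 0 1), (rh1741680720c097b4.shift 2 2), (rh32e32f03ae89b559.shift 2 1), (rh5f431d3cea859888.shift 0 1), (rh81093e72fc40e835.shift 2 0), (rhfb657409fbb16679.shift 2 1)] (by decide +kernel))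
noncomputable def rh0197df2413bf9102 : CRef := CRef.mk (Pat.mk 0x200000002000000020000000200000000 0x600000006000000060000000300000003000000070000000600000006 7 3) 0 0 (step_sound _ 34 [rh1527d809b137dbb1, (rh55afc6a59410cf00.shift 1 0)] (by decide +kernel))
noncomputable def rhdfcae4e4ad7fb399 : CRef := CRef.mk (Pat.mk 0xc00000004000000140000000400000000 0x320000003f0000003f0000001c0000000c00000008 7 6) 0 0 (step_sound _ 129 [(rh50fbb5868c909700.shift 1 1), rh7ddc530d66b22215] (by decide +kernel))
noncomputable def rh9780873c30c6e323 : CRef := CRef.mk (Pat.mk 0x1800000008000000080000002800000000 0x240000007f0000007e000000180000003800000030 7 7) 0 0 (step_sound _ 130 [rh06fc66e3678f9bd5, (rh50fbb5868c909700.shift 2 1)] (by decide +kernel))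
noncomputable def rhdd174a448dbb1cee : CRef := CRef.mk (Pat.mk 0x80000000800000008000000280000000800000000 0x180000001c0000000f0000003e000000380000000800000008 7 6) 0 0 (step_sound _ 130 [(rh50fbb5868c909700.shift 2 1), rha1d1e0ca93c2d7aa] (by decide +kernel))
noncomputable def rh88e9cfcfcb578d0b : CRef := CRef.mk (Pat.mk 0x600000004000000040000000400000000 0xf80000007e0000007f0000001c0000000c00000008 7 8) 0 0 (step_sound _ 131 [(rh2f68792b6b779e96.shift 2 1), rhf0e8ed10c96afab6] (by decide +kernel))
noncomputable def rh3e2f63099681de79 : CRef := CRef.mk (Pat.mk 0x600000004000000040000001400000000 0x180000007f0000003e0000000c0000001c00000018 7 7) 0 0 (step_sound _ 131 [(rh2f68792b6b779e96.shift 2 1), rhf4e6e43081e95de6] (by decide +kernel))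
noncomputable def rhf3d84bc8fd8fc945 : CRef := CRef.mk (Pat.mk 0x4000000040000000c0000001c00000000 0x180000007c0000003e0000000f0000001c00000010 7 7) 0 0 (step_sound _ 131 [(rh2f68792b6b779e96.shift 2 1), rhbf28fb4e1af39189] (by decide +kernel))
noncomputable def rh245a8a5d193b9627 : CRef := CRef.mk (Pat.mk 0x600000004000000140000000400000000 0x380000003e000000370000001c0000000e0000000a 7 6) 0 0 (step_sound _ 131 [(rh2f68792b6b779e96.shift 2 1), rhcc4debb6fc7d3eb9] (by decide +kernel))
noncomputable def rh4f5f7f9826b8fd87 : CRef := CRef.mk (Pat.mk 0xc00000004000000040000001400000000 0x120000003f0000003f0000000c0000001c00000018 7 6) 0 0 (step_sound _ 129 [rh39227f47722fff3d, (rh50fbb5868c909700.shift 1 1)] (by decide +kernel))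
noncomputable def rh5102b44fda03ad6c : CRef := CRef.mk (Pat.mk 0x400000004000000140000000400000000 0x3a0000003e000000370000001c0000000c00000008 7 6) 0 0 (step_sound _ 131 [(rh2f68792b6b779e96.shift 2 1), rh4e38fc72b2bfb223] (by decide +kernel))
noncomputable def rhddd722bb28f2bb0f : CRef := CRef.mk (Pat.mk 0x3800000010000000400000003800000000 0x3e00000074000000660000003e00000007 7 7) 0 0 (step_sound _ 34 [(rh428265de8cd3cd2d.shift 2 1), rhab0d281efb8b5fa9] (by decide +kernel))
noncomputable def rh171b9105a2a9b18e : CRef := CRef.mk (Pat.mk 0x3800000010000000400000003800000000 0x3e0000001e000000670000003e00000006 7 7) 0 0 (step_sound _ 34 [(rh428265de8cd3cd2d.shift 2 1), rh58c0fd6fa3c0b54e] (by decide +kernel))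
noncomputable def rh540e2897a8c1e909 : CRef := CRef.mk (Pat.mk 0x100000001e000000100000000000000000 0x28000000380000003800000038000000180000001e0000001b0000001800000008 7 6) 0 0 (step_sound _ 65 [(rh20c75369c597b2ac.shift 3 0), (rheb0810cc63b001d8.shift 0 2)] (by decide +kernel))
noncomputable def rh3887dee5b087ee3e : CRef := CRef.mk (Pat.mk 0x100000001e0000001000000000000000000000000000000000 0x18000000180000001b0000001e0000001800000018000000380000003800000020 7 6) 0 0 (step_sound _ 193 [(rh3244c3cc8379b070.shift 0 5), (rhe5151c96abdea5d2.shift 3 0)] (by decide +kernel))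
noncomputable def rhf4bffd8c2bd64345 : CRef := CRef.mk (Pat.mk 0x2000000060000000200000000000000000000000000000000 0x500000007000000070000000700000002000000060000000600000007000000070000000700000004 7 3) 0 0 (step_sound _ 225 [(rh14e0829dc73b6804.shift 0 4), (rh14f80659e6313cc6.shift 1 4), rh9b9d00427563617d, (rhc85cc95794737cf7.shift 0 4)] (by decide +kernel))
noncomputable def rh59be0c45255e4e0f : CRef := CRef.mk (Pat.mk 0x300000001800000038000000100000000800000000 0xf0000000180000003f000000770000001e00000014 7 8) 0 0 (step_sound _ 36 [rh00572033924112f0, (rh7b1f1fb55310c477.shift 3 0)] (by decide +kernel))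
noncomputable def rh65421805b9300410 : CRef := CRef.mk (Pat.mk 0x80000000e0000000800000008000000000000000000000000 0x80000000c0000000e0000003e0000000f000000060000000200000002 7 6) 0 0 (step_sound _ 98 [rh2ca3aa432aaccc48, (rh932754581e0f4330.shift 2 2)] (by decide +kernel))
noncomputable def rha58cc508828ff7ef : CRef := CRef.mk (Pat.mk 0xe000000080000000c0000000000000000 0xe0000007f0000003f0000003300000012 7 7) 0 0 (step_sound _ 100 [(rh574fdbf07bdd18b9.shift 0 2), (rh89ade209b3e28f13.shift 1 3), rh97c9e0d60ca2bf5c] (by decide +kernel))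
noncomputable def rh294e0e13a34c2bda : CRef := CRef.mk (Pat.mk 0x1000000010000000100000001800000000 0x1000000010000000ff000000fe000001e7 7 9) 0 0 (step_sound _ 37 [(rh55afc6a59410cf00.shift 4 0), rhdd8dbaa1c2a29ea1] (by decide +kernel))
noncomputable def rheefc7cf392b299b1 : CRef := CRef.mk (Pat.mk 0x700000004000000040000000400000000 0xc0000000c0000000c000000070000001e0000000c0000000c0000000c 7 5) 0 0 (step_sound _ 97 [(rh7b1f1fb55310c477.shift 1 0), rhb0eae9621a908e4d] (by decide +kernel))
noncomputable def rh3c4fc19947a5c873 : CRef := CRef.mk (Pat.mk 0x8000000080000000e0000000800000000 0x170000001f0000007c0000000e0000000c00000004 7 7) 0 0 (step_sound _ 34 [(rh932754581e0f4330.shift 2 0), (rh9ff949b1e8e47cae.shift 0 1)] (by decide +kernel))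
noncomputable def rh6ab0f2d813d99d98 : CRef := CRef.mk (Pat.mk 0x10000000100000001000000010 0x2f000000fe000000ff0000001000000010 7 8) 0 0 (step_sound _ 99 [(rh50fbb5868c909700.shift 3 0), rha77b6dcd23725bfd] (by decide +kernel))
noncomputable def rh63c692b6e11aecad : CRef := CRef.mk (Pat.mk 0xc0000001e000000080000000000000000 0x8000000080000000c0000001e0000003b0000000f0000000e 7 6) 0 0 (step_sound _ 68 [(rhe25b0a99195a5d59.shift 1 2), rhedaf4fd22f696f90] (by decide +kernel))
noncomputable def rhc6fc4cf4d9a30d64 : CRef := CRef.mk (Pat.mk 0x1c00000018000000100000000000000000 0x1c0000007f0000007f0000000600000006 7 7) 0 0 (step_sound _ 101 [rh36ce7d56fc0dab8f, (rhf48373e13d2bc128.shift 2 3)] (by decide +kernel))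
noncomputable def rh0c2b516a37f32122 : CRef := CRef.mk (Pat.mk 0x1c00000018000000100000001000000000 0x10000000100000001c0000007f000000f70000003800000008 7 8) 0 0 (step_sound _ 101 [rh458c5db3ff5327ab, (rhf48373e13d2bc128.shift 2 3)] (by decide +kernel))
noncomputable def rhee837c7bd721cacb : CRef := CRef.mk (Pat.mk 0x1400000010000000100000001800000000 0x1400000014000000ff000000fe00000027 7 8) 0 0 (step_sound _ 37 [(rh55afc6a59410cf00.shift 4 0), rha415ffddcd2affd6] (by decide +kernel))
noncomputable def rheb93e41844259d93 : CRef := CRef.mk (Pat.mk 0x2000000020000000200000001 0x500000007000000070000000200000002000000060000000700000005 7 3) 0 0 (step_sound _ 129 [rh20e56a1196e70fcc, rh79877ebd3ef475dd] (by decide +kernel))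
noncomputable def rh2d8493f3539350af : CRef := CRef.mk (Pat.mk 0x60000000c000000080000000c00000000 0x60000003f0000007f0000001f00000003 7 7) 0 0 (step_sound _ 100 [rh5aa83a5881fe6db5, (rhf48373e13d2bc128.shift 1 3)] (by decide +kernel))
noncomputable def rh20605be9cfe324a0 : CRef := CRef.mk (Pat.mk 0xc00000008000000080000000800000000 0xc0000000c0000003f0000003f00000017 7 6) 0 0 (step_sound _ 34 [(rh932754581e0f4330.shift 2 0), rh9599294d1bef6853] (by decide +kernel))
noncomputable def rh91b2e5081902b982 : CRef := CRef.mk (Pat.mk 0x1800000010000000300000002000000000 0x18000003df000001fe000003ef0000000c 7 10) 0 0 (step_sound _ 67 [(rh51c465be28d4d98d.shift 2 0), rh7f3dd029b3944ffc, (rh8ee80cc30e93a344.shift 2 1), (rhc92c11e8da6c894f.shift 0 1)] (by decide +kernel))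
noncomputable def rh5ff4132ef1826152 : CRef := CRef.mk (Pat.mk 0x4000000000000000c0000000c000000000000000000000000 0x4000000040000000c0000000c0000003c0000001f0000001f 7 6) 0 0 (step_sound _ 67 [rh1864e4c677b30864, (rh6f1cbe15c631ee70.shift 2 2)] (by decide +kernel))
noncomputable def rhab71232b46ab24fb : CRef := CRef.mk (Pat.mk 0x800000000000000300000003000000000 0x80000000c000001ff000000fe000001df 7 9) 0 0 (step_sound _ 35 [(rh3da89b94ccec94ed.shift 2 0), rhb12ffaec36122c99, (rhbca22981d3151c8c.shift 1 0), (rhbe47afb675b8c3c1.shift 1 0), (rhd69c262cd33b94b3.shift 1 1)] (by decide +kernel))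
noncomputable def rhdc9af55f34419cd7 : CRef := CRef.mk (Pat.mk 0x180000001e000000000000000000000000 0x180000001e0000003f0000003c00000038 7 6) 0 0 (step_sound _ 68 [rhc2c2eeb25ae7bf61, (rhe25b0a99195a5d59.shift 1 2)] (by decide +kernel))
noncomputable def rh5982e165b899595e : CRef := CRef.mk (Pat.mk 0xc0000000f000000000000000000000000 0x80000000c0000000f0000001e0000007c0000001c 7 7) 0 0 (step_sound _ 67 [(rh1798da140fcd772d.shift 1 0), (rhe25b0a99195a5d59.shift 0 2)] (by decide +kernel))
noncomputable def rh09311c1428274f63 : CRef := CRef.mk (Pat.mk 0x6000000000000000c000000180000000000000000 0x240000002600000073000000ff0000001f0000001000000010 7 8) 0 0 (step_sound _ 97 [rh42f1ac2ea08e80a9, (rhb739f4f82bb681b4.shift 0 2)] (by decide +kernel))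
noncomputable def rhe46fa619a6b32d5b : CRef := CRef.mk (Pat.mk 0x1e00000000000000000000000000000000 0x1000000010000000380000001e0000003f000000380000003800000018 7 6) 0 0 (step_sound _ 164 [rh1626dc96ea4d3a2b, (rh33e738c4ed385b9f.shift 1 4)] (by decide +kernel))
noncomputable def rh84e7f862d97be5ff : CRef := CRef.mk (Pat.mk 0x280000002000000030000000100000001000000000 0x28000001ef000000ff0000005e000000f800000040 7 9) 0 0 (step_sound _ 67 [(rh0bb882ba86b2372d.shift 1 2), (rh3eedecf378a8a705.shift 2 1), (rh6a2476a587812df7.shift 1 0), (rhee08865ca70ce73d.shift 0 1)] (by decide +kernel))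
noncomputable def rh684b3d1f1078cd11 : CRef := CRef.mk (Pat.mk 0x800000008000000080000001800000000 0x800000008000001ff000000ff000001e4 7 9) 0 0 (step_sound _ 34 [rh4b6ccc4208bfe84d, (rh932754581e0f4330.shift 2 0)] (by decide +kernel))
noncomputable def rh8b2fe9a292dcaa38 : CRef := CRef.mk (Pat.mk 0xe000000080000000c000000000000000000000000 0x140000001c0000001c0000003c0000000e0000003e0000000f000000020000000200000002 7 6) 0 0 (step_sound _ 195 [rh2ca3aa432aaccc48, (rh4017de503635a93b.shift 1 3), (rhb77bfac3e9efecea.shift 2 3)] (by decide +kernel))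
noncomputable def rhc027e5d3a816f22c : CRef := CRef.mk (Pat.mk 0x1000000018000000100000003c00000000 0x20000000f0000000180000001c000000ff00000007 7 8) 0 0 (step_sound _ 133 [(rh2f68792b6b779e96.shift 4 1), rh5aef53f32c66ea21] (by decide +kernel))
noncomputable def rh2ec804fbe0df033a : CRef := CRef.mk (Pat.mk 0x4000000000000001e00000000000000000000000000000000 0x4000000070000001e00000003000000070000000700000005 7 5) 0 0 (step_sound _ 161 [(rh3244c3cc8379b070.shift 0 4), rh680751a0c81e2368] (by decide +kernel))
noncomputable def rh9a6334c6dd9d1dbc : CRef := CRef.mk (Pat.mk 0x180000002000000030000000000000000000000000 0x1000000018000001ef000000fe000001df0000001c00000014 7 9) 0 0 (step_sound _ 99 [(rha11dfd15f08f96e3.shift 2 3), (rha4e887c2a2a0f60b.shift 0 2), (rhbd22eca8adcb895f.shift 2 2), rhddb295b5ec3304ad] (by decide +kernel))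
noncomputable def rh8520369ac181def6 : CRef := CRef.mk (Pat.mk 0x4000000000000000f00000000000000000000000000000000 0x40000001c0000000f000000180000001c0000001c00000014 7 5) 0 0 (step_sound _ 163 [(rh33e738c4ed385b9f.shift 0 4), rh987e7d582fda8532] (by decide +kernel))
noncomputable def rh0d502a3e41b57cf2 : CRef := CRef.mk (Pat.mk 0x3800000000 0x1ff000000fe000001c7 7 9) 0 0 (step_sound _ 34 [(rh45f730bcf36fcf64.shift 1 0), rh775ca1963e850b80, rh9e97bba44c1b13e4] (by decide +kernel))
noncomputable def rha3708673ce6a5ec7 : CRef := CRef.mk (Pat.mk 0x4000000000000001e00000000000000000000000000000000 0x4000000070000001e00000003000000070000000700000005 7 5) 0 0 (step_sound _ 161 [(rh3244c3cc8379b070.shift 0 4), rhc69ebda51d6ec2a0] (by decide +kernel))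
noncomputable def rhfedd269cf0f8f454 : CRef := CRef.mk (Pat.mk 0x30000000200000002000000020 0x3cf000001fe000001f70000002000000020 7 10) 0 0 (step_sound _ 102 [(rh2f68792b6b779e96.shift 5 0), (rh5310752009859b6b.shift 0 2)] (by decide +kernel))
noncomputable def rh8f3669233d13093b : CRef := CRef.mk (Pat.mk 0x8000000080000000e00000008 0x10000000180000001c0000000c0000001f0000007c0000000e00000008 7 7) 0 0 (step_sound _ 68 [(rh80f90a60d87caa0d.shift 1 1), (rh97ad1986540fd573.shift 2 0), rhca405e350c462817, rhfc68b01d0e5ad7eb] (by decide +kernel))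
noncomputable def rh3a8b0589b9272453 : CRef := CRef.mk (Pat.mk 0x2000000020000000200000001 0x400000007000000070000000300000006000000060000000700000001 7 3) 0 0 (step_sound _ 129 [rh79877ebd3ef475dd, (rhc2034d656568cc12.shift 0 1)] (by decide +kernel))
noncomputable def rha2ab2fca3f09ceb1 : CRef := CRef.mk (Pat.mk 0x2000000020000000200000002 0x500000007000000070000000700000006000000060000000600000002 7 3) 0 0 (step_sound _ 129 [(rh44f453b84f013105.shift 1 0), (rhc2034d656568cc12.shift 0 1), (rhc85cc95794737cf7.shift 0 1), rhf747f40a263bf851] (by decide +kernel))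
noncomputable def rh68a885f9e0871dfc : CRef := CRef.mk (Pat.mk 0x30000000200000002000000020 0x4f000000fe000001ff0000002000000020 7 9) 0 0 (step_sound _ 102 [(rh2f68792b6b779e96.shift 5 0), (rh6c38779a7b6e043f.shift 0 2)] (by decide +kernel))
noncomputable def rh0d9cd7152616d7dd : CRef := CRef.mk (Pat.mk 0x400000007000000040000000400000000 0x4000000070000007f0000003e0000007a 7 7) 0 0 (step_sound _ 33 [(rh932754581e0f4330.shift 1 0), rha17980f7b4b9423e] (by decide +kernel))
noncomputable def rh7a6c9842e5ef5131 : CRef := CRef.mk (Pat.mk 0x6000000020000000600000000 0x40000000700000007000000070000000600000006000000020000000600000004 7 3) 0 0 (step_sound _ 129 [(rh55afc6a59410cf00.shift 1 0), (rh5b85ac987260870e.shift 0 1)] (by decide +kernel))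
noncomputable def rh19bf95e4040a2052 : CRef := CRef.mk (Pat.mk 0x7000000000000000600000000000000000000000000000000 0x10000000700000007000000070000000600000007000000030000000600000006000000070000000700000005 7 3) 0 0 (step_sound _ 161 [(rh70e33bfdf511e144.shift 1 1), rh85e093005b2e6cc1, (rhe868fa41af24b81b.shift 0 3)] (by decide +kernel))
noncomputable def rh01a814bfc24ab6b1 : CRef := CRef.mk (Pat.mk 0x18000000000000007000000000 0x10000000180000001f0000007e000000ef 7 8) 0 0 (step_sound _ 35 [(rh0d378fd9e8917c5a.shift 1 0), (rh5914ddd44e1a2b6e.shift 2 0), (rh775ca1963e850b80.shift 1 0), rhbb13f9e1d387f64a] (by decide +kernel))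
noncomputable def rh7305c59d29b8b69c : CRef := CRef.mk (Pat.mk 0x7000000020000000600000000 0x40000000700000007000000070000001e00000007000000020000000600000004 7 5) 0 0 (step_sound _ 129 [(rh55afc6a59410cf00.shift 1 0), (rhc0b4681adbc79a40.shift 0 1)] (by decide +kernel))
noncomputable def rhaec50d031e07d148 : CRef := CRef.mk (Pat.mk 0x800000000000000000000000f00000000 0x140000001c0000001c00000008000000080000001c0000000f00000004 7 5) 0 0 (step_sound _ 67 [(rh0fc0a4d1525f43e7.shift 2 0), (rh33e738c4ed385b9f.shift 0 1)] (by decide +kernel))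
noncomputable def rh5d6faa2816a200a4 : CRef := CRef.mk (Pat.mk 0x800000007000000000 0xc70000007e000000e7 7 8) 0 0 (step_sound _ 35 [(rh428265de8cd3cd2d.shift 3 1), rhbb13f9e1d387f64a] (by decide +kernel))
noncomputable def rh5f74243f19a501cc : CRef := CRef.mk (Pat.mk 0x100000000e00000000 0x370000007e000000ee 7 8) 0 0 (step_sound _ 36 [(rh33e738c4ed385b9f.shift 1 1), rhcd73b1fae15d2e7a] (by decide +kernel))
noncomputable def rh6a789e94d4fd022c : CRef := CRef.mk (Pat.mk 0x10000000e00000000 0xe30000007e000000e7 7 8) 0 0 (step_sound _ 36 [rh10e3074efe589034, (rh3f8766e6ecb455ce.shift 0 1)] (by decide +kernel))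
noncomputable def rh7cc9054488bc6367 : CRef := CRef.mk (Pat.mk 0x20000000300000002000000000000000000000000 0x40000000700000007000000030000000300000003000000070000000700000005 7 3) 0 0 (step_sound _ 193 [(rh03dfdf12d5937476.shift 0 2), rh47992774edf9829f, (rh769be3fe24eee174.shift 0 3)] (by decide +kernel))
noncomputable def rh7aa05f38bbbf2516 : CRef := CRef.mk (Pat.mk 0x3800000000 0x1c7000000fe000001ff 7 9) 0 0 (step_sound _ 34 [rh0d378fd9e8917c5a, (rh10e3074efe589034.shift 1 0), rh185f35b8bd8ec37f, rh592c7139d2c44767] (by decide +kernel))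
noncomputable def rh0d4c0a7b8b573f75 : CRef := CRef.mk (Pat.mk 0x4000000000000003c0000001c000000000000000000000000 0x4000000240000003c0000001c000000380000001f0000001c 7 6) 0 0 (step_sound _ 67 [(rh6f1cbe15c631ee70.shift 2 2), rh9c0b09e6156def5b] (by decide +kernel))
noncomputable def rh19e30118a9aaba14 : CRef := CRef.mk (Pat.mk 0x1e00000000 0x730000007e000000ee 7 8) 0 0 (step_sound _ 64 [(rh3f8766e6ecb455ce.shift 0 1), (rhe6287d96d1a4a02a.shift 1 0)] (by decide +kernel))
noncomputable def rh179d880c24d4cbfe : CRef := CRef.mk (Pat.mk 0x1e00000000000000000000000000000000 0x10000000380000001e0000003f000000380000003800000010 7 6) 0 0 (step_sound _ 100 [rh969fe839a70a78a6, (rhe25b0a99195a5d59.shift 1 3)] (by decide +kernel))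
noncomputable def rh100e12abc80cf96f : CRef := CRef.mk (Pat.mk 0x1e000000100000000000000000 0x18000000380000001e0000001f0000003800000038 7 6) 0 0 (step_sound _ 132 [(rh33e738c4ed385b9f.shift 1 3), rh9ce0e328d8071308] (by decide +kernel))
noncomputable def rh69db5ac7be882508 : CRef := CRef.mk (Pat.mk 0x8000000000000003c0000000000000000 0x80000000c000000ff0000003f00000010 7 8) 0 0 (step_sound _ 33 [rh2468df785c0dea64, (rh80fcd6d0a18cb2dd.shift 1 1)] (by decide +kernel))
noncomputable def rhf5c7c9ed80ddac23 : CRef := CRef.mk (Pat.mk 0x8000000000000003c00000000000000000000000000000000 0x80000000a0000007f0000003e000000040000000400000004 7 7) 0 0 (step_sound _ 98 [rha9ecfa2e0b1b6cdc, (rheb0810cc63b001d8.shift 1 3)] (by decide +kernel))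
noncomputable def rh07626e6f9ebf1ede : CRef := CRef.mk (Pat.mk 0x10000000e00000000 0x730000007e000000ee 7 8) 0 0 (step_sound _ 36 [(rh3f8766e6ecb455ce.shift 0 1), (rhe6287d96d1a4a02a.shift 1 0)] (by decide +kernel))
noncomputable def rhe81fde0df6c7bb31 : CRef := CRef.mk (Pat.mk 0x3800000000 0x1cf000003fe000000ff 7 10) 0 0 (step_sound _ 38 [(rh0d378fd9e8917c5a.shift 1 0), (rh3b00e9e9432b8f40.shift 2 0), (rh5a3838f97a0a62d4.shift 2 0), rhbb13f9e1d387f64a] (by decide +kernel))
noncomputable def rhf5f568227e38bbfa : CRef := CRef.mk (Pat.mk 0x800000000000000380000000000000000 0x8000001cf000000fe000001cf00000004 7 9) 0 0 (step_sound _ 66 [(rh10e3074efe589034.shift 1 1), (rh45f730bcf36fcf64.shift 1 1), (rh592c7139d2c44767.shift 0 1), (rhc4658766f200b447.shift 1 0)] (by decide +kernel))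
noncomputable def rhc73193a9d3429ed8 : CRef := CRef.mk (Pat.mk 0x7000000040000000400000000 0xa0000000e0000000e0000001e000000070000000e0000000e0000000a 7 5) 0 0 (step_sound _ 130 [(rh1726a00b0a8befd0.shift 1 0), (rh20e56a1196e70fcc.shift 1 0), (rh4017de503635a93b.shift 0 1), (rhc9ac229b3c77cd55.shift 1 0)] (by decide +kernel))
noncomputable def rhb4d89267a980be08 : CRef := CRef.mk (Pat.mk 0x200000002000000020000000000000000 0x50000000700000007000000020000000200000007000000070000000700000005 7 3) 0 0 (step_sound _ 161 [(rh1726a00b0a8befd0.shift 0 1), (rh20e56a1196e70fcc.shift 0 1), rh8cdd36b03d57a2f6, (rhc9ac229b3c77cd55.shift 0 1)] (by decide +kernel))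
noncomputable def rh9bc46f221d520ea4 : CRef := CRef.mk (Pat.mk 0x7800000000 0xe70000007f0000003c 7 8) 0 0 (step_sound _ 70 [(rh33e738c4ed385b9f.shift 3 1), rhe88019b2c869138f] (by decide +kernel))
noncomputable def rh6f4d248d46b53b60 : CRef := CRef.mk (Pat.mk 0x80000001e00000018000000000000000000000000 0x40000000c0000001e0000001e0000001f0000001e0000000c 7 5) 0 0 (step_sound _ 68 [(rh7b1f1fb55310c477.shift 3 1), rhb8a31dd7586424cd] (by decide +kernel))
noncomputable def rhea7eb00a96038492 : CRef := CRef.mk (Pat.mk 0xf0000000800000000000000000000000000000000 0xc0000000c0000001c0000000f0000000c0000001c0000001c0000001c00000014 7 5) 0 0 (step_sound _ 195 [(rh33e738c4ed385b9f.shift 0 5), (rhb084d8d3305a2163.shift 2 0)] (by decide +kernel))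
noncomputable def rhb0548aacfb5e990f : CRef := CRef.mk (Pat.mk 0x2000000030000000200000000000000000000000000000000 0x5000000070000000700000002000000030000000300000007000000070000000700000001 7 3) 0 0 (step_sound _ 225 [(rh03dfdf12d5937476.shift 0 3), rh85a2b1dac3394263, (rhc85cc95794737cf7.shift 0 4)] (by decide +kernel))
noncomputable def rhc1d1a37639376444 : CRef := CRef.mk (Pat.mk 0x4000000080000000b000000090000000000000000 0x100000001e0000001f0000000a0000000b0000000b0000000100000001 7 5) 0 0 (step_sound _ 163 [(rh50fbb5868c909700.shift 2 2), rhd9c97a1ad96f78aa] (by decide +kernel))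
noncomputable def rh0e70246fb8288c70 : CRef := CRef.mk (Pat.mk 0x1e000000120000003000000000000000000000000000000000 0x40000001e0000001e000000320000001f0000003b0000003900000028 7 6) 0 0 (step_sound _ 100 [(rh8182636679a705e3.shift 1 2), (rhbba7d23481996066.shift 3 0), (rhf4e483b69383042a.shift 0 1)] (by decide +kernel))
noncomputable def rhf4d6db492c1add83 : CRef := CRef.mk (Pat.mk 0x18000000100000001e00000012000000000000000000000000 0x40000001c0000001c0000001e0000001e0000001f0000000200000002 7 5) 0 0 (step_sound _ 163 [(rh7b1f1fb55310c477.shift 3 2), rhfda3a43953fc04b3] (by decide +kernel))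
noncomputable def rhd6ca9a54bb6d386b : CRef := CRef.mk (Pat.mk 0xc000000080000000f0000000d0000000000000000 0xf30000007e000000ee0000000f0000000f0000000100000001 7 8) 0 0 (step_sound _ 164 [(rh2f68792b6b779e96.shift 3 2), rhc871eb1eb9b1c953] (by decide +kernel))
noncomputable def rh3a67af294bae24af : CRef := CRef.mk (Pat.mk 0xf000000000 0x1ce000000fe00000077 7 9) 0 0 (step_sound _ 71 [(rh33e738c4ed385b9f.shift 4 1), rh8b3ef37836edbc21] (by decide +kernel))
noncomputable def rh9343ddcd69bf3695 : CRef := CRef.mk (Pat.mk 0xe000000080 0xe000000fe000001ff 7 9) 0 0 (step_sound _ 36 [rhd00abbeb3aaa4999, (rhe25b0a99195a5d59.shift 4 0)] (by decide +kernel))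
noncomputable def rhc88b97a7f8dd1e1a : CRef := CRef.mk (Pat.mk 0x80000000e000000000 0x18e000000fe0000007f 7 9) 0 0 (step_sound _ 36 [(rh33e738c4ed385b9f.shift 4 1), rhd00abbeb3aaa4999] (by decide +kernel))
noncomputable def rhc678ac2c53e8bd58 : CRef := CRef.mk (Pat.mk 0x2000000030000000200000000000000000000000000000000 0x500000007000000070000000700000002000000030000000300000007000000070000000700000001 7 3) 0 0 (step_sound _ 225 [(rh32431e66bbf434a4.shift 0 4), rh85a2b1dac3394263, (rhc85cc95794737cf7.shift 0 4)] (by decide +kernel))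
noncomputable def rhef8b2808b3e7db63 : CRef := CRef.mk (Pat.mk 0xc000000080000000800000000000000000000000000000000 0x1800000018000000180000000c0000000c0000000f0000003c0000001c0000001c00000014 7 6) 0 0 (step_sound _ 99 [(rh319640522a4fbb70.shift 2 2), (rh641b5241be04eec6.shift 0 2), (rh8cdd36b03d57a2f6.shift 2 1), (rha613ffd40b6c9d24.shift 2 1), (rhc05d451ce3dd5e48.shift 2 0)] (by decide +kernel))
noncomputable def rh600f424625debaea : CRef := CRef.mk (Pat.mk 0xe0000000e000000080000000000000000 0xe0000003e0000003b0000000f0000000e 7 6) 0 0 (step_sound _ 100 [rh625b7f8b02840b6a, (rhf48373e13d2bc128.shift 1 3)] (by decide +kernel))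
noncomputable def rh65473e0ff92aafde : CRef := CRef.mk (Pat.mk 0x1c00000018000000100000000000000000 0x4000000040000001c0000007f0000007f0000000600000006 7 7) 0 0 (step_sound _ 101 [rhb3dd5fa479da7d6b, (rhf48373e13d2bc128.shift 2 3)] (by decide +kernel))
noncomputable def rhe40a9a02be32212e : CRef := CRef.mk (Pat.mk 0x1c00000010000000100000001000000000 0x3000000030000000300000001c0000007f000000770000003000000010 7 7) 0 0 (step_sound _ 99 [(rh7b1f1fb55310c477.shift 3 0), (rhffb5ed80dade3a93.shift 0 1)] (by decide +kernel))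
noncomputable def rh95b45245f8c4f3cb : CRef := CRef.mk (Pat.mk 0xe000000080000000800000000000000000000000000000000 0x140000001c0000001c000000180000000e0000007f0000007c000000180000001c0000001c00000014 7 7) 0 0 (step_sound _ 227 [(rh20e56a1196e70fcc.shift 2 3), rh217a38004a1143e2, (rh6f235c76ee6d9186.shift 1 3), (rh88c7fcda31cba4dd.shift 2 4), (rhced6d86d2069808b.shift 3 3)] (by decide +kernel))
noncomputable def rh4f334be581bcd1bc : CRef := CRef.mk (Pat.mk 0x2000000028000000200000007000000000 0x400000006800000028000001ff000001fe0000000f 7 9) 0 0 (step_sound _ 134 [(rh2f68792b6b779e96.shift 5 1), rh513cea63f3441bf3] (by decide +kernel))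
noncomputable def rhabe5de228cbda256 : CRef := CRef.mk (Pat.mk 0x1000000010000000100000001800000000 0x1000000010000000ff000000ff00000027 7 8) 0 0 (step_sound _ 37 [(rh55afc6a59410cf00.shift 4 0), rh71d2392fbc279128] (by decide +kernel))
noncomputable def rha7de2bb72f15c352 : CRef := CRef.mk (Pat.mk 0xe00000008000000080000000c00000000 0x20000000e0000000e0000007f0000007e00000013 7 7) 0 0 (step_sound _ 36 [(rh55afc6a59410cf00.shift 3 0), rh56b3c89dab0a6d34] (by decide +kernel))
noncomputable def rhb7fa7e745106f1d9 : CRef := CRef.mk (Pat.mk 0x1e0000002200000020000000300000004000000000 0x30000001e00000022000000270000003f0000006500000040 7 7) 0 0 (step_sound _ 37 [(rh55afc6a59410cf00.shift 5 0), (rhd88a35f1f6516d5f.shift 0 1)] (by decide +kernel))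
noncomputable def rh4a8f0e251b4ec55e : CRef := CRef.mk (Pat.mk 0xe000000080000000800000000 0x140000001c0000001c000000180000000f000000180000001800000010 7 5) 0 0 (step_sound _ 131 [(rh20e56a1196e70fcc.shift 2 0), (rhcf86d050071af9b3.shift 0 2), (rhdab32775f5c78fcf.shift 0 1)] (by decide +kernel))
noncomputable def rh13a6e63ac0d760c0 : CRef := CRef.mk (Pat.mk 0xa0000003800000008000000000000000000000000 0x140000001c0000001c0000000a0000000a0000003a0000001f000000060000000400000004 7 6) 0 0 (step_sound _ 98 [rh0abb1b51d7bfc180, (rheea1a90336e79c71.shift 0 3), (rhf515bd7a6bdea78b.shift 2 2)] (by decide +kernel))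
noncomputable def rh12e35db25aa48f6b : CRef := CRef.mk (Pat.mk 0x100000001e000000100000001000000000 0x140000001e000000170000003e0000002f 7 6) 0 0 (step_sound _ 65 [rh7c5fc0436e66c43c, (rheb0810cc63b001d8.shift 0 2)] (by decide +kernel))
noncomputable def rh5c3709d01ec0287d : CRef := CRef.mk (Pat.mk 0x1400000010000000100000003000000000 0x1400000014000001de000000fe000001cf 7 9) 0 0 (step_sound _ 35 [rh89115674902e708e, (rh932754581e0f4330.shift 3 0)] (by decide +kernel))
noncomputable def rh298cbf142da2ab86 : CRef := CRef.mk (Pat.mk 0xe000000080000000800000008000000000000000000000000 0xf0000007800000018000000180000001c0000001c00000004 7 7) 0 0 (step_sound _ 164 [(rh26b8711cee0f1dec.shift 2 0), (rhb739f4f82bb681b4.shift 0 5)] (by decide +kernel))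
noncomputable def rhbc4512057a1936da : CRef := CRef.mk (Pat.mk 0x200000006000000030000000200000000000000000000000000000000 0x20000001e000000070000000700000006000000070000000300000001 7 5) 0 0 (step_sound _ 195 [(rh18965a982d73c794.shift 0 5), rh7de9f97699eea1e4] (by decide +kernel))
noncomputable def rh6afafba221ecaf84 : CRef := CRef.mk (Pat.mk 0x300000006000000020000000200000000000000000000000000000000 0x30000001e000000070000000300000003000000070000000700000005 7 5) 0 0 (step_sound _ 196 [(rh2fe78cc5ca4405d8.shift 0 6), rhbb8aa3ff184f70d3] (by decide +kernel))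
noncomputable def rh39570e86b45fcd48 : CRef := CRef.mk (Pat.mk 0x2000000020000000200000000000000000000000000000000 0x10000000300000003000000030000000300000007000000070000000700000005 7 3) 0 0 (step_sound _ 97 [(rh6eff4158bb400f47.shift 0 1), (rh771d065bdc85bf2d.shift 0 2), (rh8ff3dde5b1c639e0.shift 0 1), (rhc4526fc8abf298b6.shift 0 1), rhc850b49d039efae1, rhe84e00c98653ad0c] (by decide +kernel))
noncomputable def rhd920bd17fdd7afd7 : CRef := CRef.mk (Pat.mk 0x20000007a00000000000000000000000000000000 0x50000000700000007000000c60000007f00000003000000070000000700000005 7 8) 0 0 (step_sound _ 97 [rh5c8c873042790be0, (rh7dc50071bdff3525.shift 0 3), rhb0a09d1393ad970e, (rhd55f0d63baf96b6a.shift 0 1)] (by decide +kernel))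
noncomputable def rh839d51deb08d401d : CRef := CRef.mk (Pat.mk 0x400000034000000040000000400000000 0x80000002c00000034000000370000003e0000003a 7 6) 0 0 (step_sound _ 33 [rh218184eb2ddd8882, (rh932754581e0f4330.shift 1 0)] (by decide +kernel))
noncomputable def rh331f9544ec9699d1 : CRef := CRef.mk (Pat.mk 0x200000002000000020000000000000000 0x50000000700000007000000070000000600000003000000030000000300000001 7 3) 0 0 (step_sound _ 161 [(rh1741680720c097b4.shift 0 2), (rh193da7fc9e1674f1.shift 0 1), (rh20966da26a1c2ae8.shift 0 1), (rh771d065bdc85bf2d.shift 0 1), rhcab3157f7bdcba3e] (by decide +kernel))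
noncomputable def rh0f984e6c3e75f6d1 : CRef := CRef.mk (Pat.mk 0x200000002000000020000000200000000 0x50000000700000007000000030000000300000003000000030000000300000002 7 3) 0 0 (step_sound _ 161 [(rh1726a00b0a8befd0.shift 0 1), (rh3ca48e2a6d60153d.shift 0 1), (rh771d065bdc85bf2d.shift 0 1), rhd0e8c2498b2d628e] (by decide +kernel))
noncomputable def rh4bec836d4b33641f : CRef := CRef.mk (Pat.mk 0x2000000020000000200000002 0x500000007000000070000000700000003000000030000000300000003 7 3) 0 0 (step_sound _ 129 [rh1726a00b0a8befd0, rh20966da26a1c2ae8, rh3ca48e2a6d60153d, rh771d065bdc85bf2d] (by decide +kernel))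
noncomputable def rh45d62546a5be71e6 : CRef := CRef.mk (Pat.mk 0x400000002000000020000000200000000000000000000000000000000 0x400000007000000030000000300000006000000070000000700000001 7 3) 0 0 (step_sound _ 97 [rh8e3b1d976c2c4cbf, (rhbaefcd01e0a8bca3.shift 1 3)] (by decide +kernel))
noncomputable def rh60514a1b5bb30e1e : CRef := CRef.mk (Pat.mk 0x1800000010000000100000001000000000 0x270000003e0000003f0000001c0000001800000008 7 6) 0 0 (step_sound _ 133 [(rh2f68792b6b779e96.shift 4 1), rh36da476815415d25] (by decide +kernel))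
noncomputable def rh2b830b066360bf5b : CRef := CRef.mk (Pat.mk 0x2000000020000000200000002000000000000000000000000 0x400000007000000030000000300000006000000070000000700000001 7 3) 0 0 (step_sound _ 226 [rh8e3b1d976c2c4cbf, (rhbaefcd01e0a8bca3.shift 1 3)] (by decide +kernel))
noncomputable def rha3f3b747b96279f4 : CRef := CRef.mk (Pat.mk 0x1000000010000000100000001000000000 0x2e0000007f0000003e000000180000001800000008 7 7) 0 0 (step_sound _ 133 [(rh2f68792b6b779e96.shift 4 1), rha1e8b119632c3bbd] (by decide +kernel))
noncomputable def rhfd002248dccd6cf0 : CRef := CRef.mk (Pat.mk 0x20000001a00000000000000000000000000000000 0x50000000700000007000000030000001f00000003000000070000000700000005 7 5) 0 0 (step_sound _ 97 [(rh01e48cd9f335aa73.shift 0 3), (rh8b24269fce9ae942.shift 0 2), rhaf7955adbc1f7ff4, (rhf64cf2cfa0eeb0d9.shift 0 2)] (by decide +kernel))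
noncomputable def rhd7670f2326d47b87 : CRef := CRef.mk (Pat.mk 0x300000005200000050000000400000006000000000 0xf0000003e000000570000005000000058000000f800000080 7 8) 0 0 (step_sound _ 39 [(rh55afc6a59410cf00.shift 6 0), (rh60b238ba5fba27f7.shift 0 1)] (by decide +kernel))
noncomputable def rhc27f6ac612f3c0df : CRef := CRef.mk (Pat.mk 0x600000002000000030000000000000000000000000000000000000000 0x40000000600000002000000030000000300000007000000070000000700000001 7 3) 0 0 (step_sound _ 129 [(rh2f68792b6b779e96.shift 1 4), rhf6681f92a805e2ac] (by decide +kernel))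
noncomputable def rh2f64a682f1ee9d69 : CRef := CRef.mk (Pat.mk 0x300000006000000020000000000000000000000000000000000000000 0x10000000300000006000000060000000600000007000000070000000700000005 7 3) 0 0 (step_sound _ 129 [(rh50fbb5868c909700.shift 0 4), rh8c2630f6150e1dda] (by decide +kernel))
noncomputable def rh466d2faa205d6173 : CRef := CRef.mk (Pat.mk 0x1c0000000e000000040000000000000000 0x10000000100000001c0000007e0000007f0000003400000034 7 7) 0 0 (step_sound _ 2 [rh188ee235e1b078a5, (rh9e3edb185cc347de.shift 2 0)] (by decide +kernel))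
noncomputable def rha5e64a573bca9af5 : CRef := CRef.mk (Pat.mk 0x1c0000000e000000040000000000000000 0x10000000100000001c0000007e000000770000003c0000003c 7 7) 0 0 (step_sound _ 100 [(rh523334f89545e18f.shift 2 0), rh57eaf2886b2593a1, (rhaf9f2efc81a8312b.shift 0 2)] (by decide +kernel))
noncomputable def rh6526f46ca429022f : CRef := CRef.mk (Pat.mk 0x40000001c0000000c000000040000000000000000 0x40000001c0000007f0000007f0000007800000010 7 7) 0 0 (step_sound _ 67 [rh5e5b1fa88f00587b, (rh7b1f1fb55310c477.shift 2 1)] (by decide +kernel))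
noncomputable def rh2f2c2d377998bf67 : CRef := CRef.mk (Pat.mk 0x18000000280000002000000000 0x10000000100000001800000018000001ef000000fe000001cf 7 9) 0 0 (step_sound _ 35 [(rh215e11e099257d75.shift 3 0), rh5f31249694d25bd6] (by decide +kernel))
noncomputable def rh1e0abf7eaaf03f4f : CRef := CRef.mk (Pat.mk 0x380000000800000020000000000000000000000000 0x1000000018000000180000003c0000000f0000007c0000001c0000001c00000014 7 7) 0 0 (step_sound _ 130 [(rh1ed7a3503fa50fc8.shift 0 4), (rh279c2dd692dba10d.shift 2 0)] (by decide +kernel))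
noncomputable def rhe6d9faf429a7eff1 : CRef := CRef.mk (Pat.mk 0xe0000001a00000008000000000000000000000000 0x60000000e0000007b0000000f000000070000000700000005 7 7) 0 0 (step_sound _ 133 [rhd714d75ee3e26cda, (rhf48373e13d2bc128.shift 2 4)] (by decide +kernel))
noncomputable def rhda15aafdd18cda96 : CRef := CRef.mk (Pat.mk 0xe000000080000000800000000 0x140000001c0000001c0000003c0000000e000000380000001f00000014 7 6) 0 0 (step_sound _ 131 [(rh20e56a1196e70fcc.shift 2 0), (rh4017de503635a93b.shift 1 1), rh589345da44c3b4b3] (by decide +kernel))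
noncomputable def rhace72e7b6ae46a25 : CRef := CRef.mk (Pat.mk 0xe0000000c000000080000000000000000 0x20000000e0000000c0000001f0000007c0000001c 7 7) 0 0 (step_sound _ 35 [rh10a54f547ba7da48, (rh7b1f1fb55310c477.shift 2 0)] (by decide +kernel))
noncomputable def rhb730e59663c08f7d : CRef := CRef.mk (Pat.mk 0xd0000000c000000000000000000000000 0x200000006f0000007e000000700000001000000010 7 7) 0 0 (step_sound _ 100 [(rhab22b5b56e7b3243.shift 0 3), (rhef3032495df9d34e.shift 1 0)] (by decide +kernel))
noncomputable def rh8ff70c14ec1346fb : CRef := CRef.mk (Pat.mk 0xe0000001a000000100000000000000000 0x8000000080000000e0000001e0000003f0000000700000003 7 6) 0 0 (step_sound _ 98 [(rhe25b0a99195a5d59.shift 1 2), rhedf9040aa4d52c15] (by decide +kernel))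
noncomputable def rh7dfc989e3291e7a9 : CRef := CRef.mk (Pat.mk 0x1e00000018000000000000000000000000 0x40000000c0000001e0000001f000000370000001200000012 7 6) 0 0 (step_sound _ 97 [(rheb0810cc63b001d8.shift 0 3), rhf649c4156451c8f2] (by decide +kernel))
noncomputable def rh42fcf634a71f9f1f : CRef := CRef.mk (Pat.mk 0x80000001c000000180000001000000000000000000000000000000000 0x40000000c0000001c0000001c0000001f0000000f0000001c0000001c00000014 7 5) 0 0 (step_sound _ 131 [(rh40241bd608e5be1a.shift 2 2), (rh46530d756bdf8511.shift 2 2), (rhc46b61bcbcf6c641.shift 2 0), (rhfcbcce6cd1649a3a.shift 0 3)] (by decide +kernel))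
noncomputable def rhaad62ffdbe05ae94 : CRef := CRef.mk (Pat.mk 0x1e0000001a000000000000000000000000 0xc0000000c0000000c0000001e0000001a0000001f0000001e0000000c 7 5) 0 0 (step_sound _ 163 [(rh3e595262c1b737ad.shift 3 2), rha3c78e009248fbcd, (rhb3e5613249985042.shift 2 0)] (by decide +kernel))
noncomputable def rh5dfe6bc9365d0df3 : CRef := CRef.mk (Pat.mk 0x1e0000001a000000000000000000000000 0xc0000001e0000001e000000f30000003e0000001a 7 8) 0 0 (step_sound _ 68 [rh1440f6a1c37c6417, (rh3cb04db3dd2b6a55.shift 3 0), (rh6d7477fc48cc030b.shift 1 0)] (by decide +kernel))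
noncomputable def rh0def0af1f1791e3a : CRef := CRef.mk (Pat.mk 0x1c000000180000000000000000 0x4000000040000000c0000001f0000001f0000000f0000000a 7 5) 0 0 (step_sound _ 97 [rh1b7ce3c4648c137d, (rhb739f4f82bb681b4.shift 0 2)] (by decide +kernel))
noncomputable def rhad58310f0e23d245 : CRef := CRef.mk (Pat.mk 0x600000006000000060000000600000000 0x600000006000000770000003f00000079 7 7) 0 0 (step_sound _ 32 [rh2b05b642004fac39, rh932754581e0f4330] (by decide +kernel))
noncomputable def rh6db7a5c019519c35 : CRef := CRef.mk (Pat.mk 0x70000000f000000010000000000000000 0x200000003000000070000000f0000001f0000001e0000000a 7 5) 0 0 (step_sound _ 161 [rh5148171a65162749, (rh5c5e593799055d58.shift 0 2)] (by decide +kernel))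
noncomputable def rhdaabc64ce0e73b8d : CRef := CRef.mk (Pat.mk 0xe0000000c000000000000000800000000 0x60000000e0000000c0000003c0000001f00000016 7 6) 0 0 (step_sound _ 67 [(rh50fbb5868c909700.shift 2 1), rh63802272e6d8bedc] (by decide +kernel))
noncomputable def rh167ba4041051b01e : CRef := CRef.mk (Pat.mk 0x800000018000000000000000c0000000000000000 0x800000018000000f00000007e000000ff00000020 7 8) 0 0 (step_sound _ 68 [(rh21130d932d6c3807.shift 1 0), (rh416cd9d729f64672.shift 0 1), (rh64188d26538c33ed.shift 0 1), (rh6750075f6e760f16.shift 1 1), (rhdfff39a58a53ea82.shift 1 1)] (by decide +kernel))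
noncomputable def rh198b6a36bbe1d5da : CRef := CRef.mk (Pat.mk 0x1c00000018000000000000000000000000 0xc0000000c0000001c0000007f000000770000000600000002 7 7) 0 0 (step_sound _ 101 [rh0cd1da1ee84a6d1d, (rhf48373e13d2bc128.shift 2 3)] (by decide +kernel))
noncomputable def rha7ce7f992fce752d : CRef := CRef.mk (Pat.mk 0xe0000001e000000020000000000000000 0xe0000001e0000003a0000001f0000001f 7 6) 0 0 (step_sound _ 33 [rh6c705495e4929159, (rh71222050f2c63a3a.shift 1 0)] (by decide +kernel))
noncomputable def rh9cdf9676e0fa5106 : CRef := CRef.mk (Pat.mk 0x1c000000380000000000000000000000000000000000000000 0xc0000000c0000000c0000001c0000003c0000000f0000000c0000001c0000001c00000014 7 6) 0 0 (step_sound _ 131 [(rh40241bd608e5be1a.shift 2 2), (rh609c5f22d4c52017.shift 0 2), (rhc46b61bcbcf6c641.shift 2 0), (rhcab247afad26ba33.shift 0 3)] (by decide +kernel))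
noncomputable def rhd76a433642d10763 : CRef := CRef.mk (Pat.mk 0x60000001e000000000000000000000000 0x2000000060000001e0000003f0000000700000007 7 6) 0 0 (step_sound _ 65 [rh06d73eea51440be7, (rheb0810cc63b001d8.shift 0 2)] (by decide +kernel))
noncomputable def rh58fe8b47bce14042 : CRef := CRef.mk (Pat.mk 0x300000001c000000100000003800000000 0xf40000001c000003de000001fe000003c7 7 10) 0 0 (step_sound _ 134 [rh098f1be4746571da, (rh18965a982d73c794.shift 3 3)] (by decide +kernel))
noncomputable def rh1509764e03038a0f : CRef := CRef.mk (Pat.mk 0x1c00000018000000100000001000000000 0x40000001c000000780000003e0000001f0000000c 7 7) 0 0 (step_sound _ 35 [rh36406070e521aa90, (rh932754581e0f4330.shift 3 0)] (by decide +kernel))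
noncomputable def rh0864b6bbdbb27162 : CRef := CRef.mk (Pat.mk 0xc00000000000000100000003800000000 0x40000000c0000000c000000fe000000ff00000007 7 8) 0 0 (step_sound _ 67 [(rh5c5a2014709044d0.shift 1 1), rhadec87ca519a3ac3, (rhfbe734d7f1523424.shift 1 1)] (by decide +kernel))
noncomputable def rhf3c63b3b5206b8b1 : CRef := CRef.mk (Pat.mk 0xe000000080000000a0000000000000000 0xe0000007f0000003f0000003300000012 7 7) 0 0 (step_sound _ 100 [(rh0b786d94a31538a6.shift 0 2), rh0d6d29a0db022828, (rh89ade209b3e28f13.shift 1 3)] (by decide +kernel))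
noncomputable def rh2557b4f3b8b02ada : CRef := CRef.mk (Pat.mk 0x1c00000010000000140000000000000000 0x80000000c0000001c0000007f0000001f0000000e0000000a 7 7) 0 0 (step_sound _ 99 [(rh36256ee54d91ab35.shift 2 0), (rh65a8cb0b49a1c5b8.shift 2 0), rh6bc4b62a6455edd6, (rh6c6b2f2a23ca799f.shift 1 2), (rhcf8648ec2c7370c4.shift 2 1)] (by decide +kernel))
noncomputable def rh2751906a8b9f21b0 : CRef := CRef.mk (Pat.mk 0xe0000000c0000000a0000000000000000 0x4000000060000000e0000003f0000007e0000003400000014 7 7) 0 0 (step_sound _ 100 [rhd42fd13936b94154, (rhf48373e13d2bc128.shift 1 3)] (by decide +kernel))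
noncomputable def rh93fcd2ed44502ac8 : CRef := CRef.mk (Pat.mk 0x1c00000018000000140000000000000000 0x40000001c0000007f0000003c0000000f0000000e 7 7) 0 0 (step_sound _ 101 [rh97c067af7d1dee5f, (rhf48373e13d2bc128.shift 2 3)] (by decide +kernel))
noncomputable def rhc8fe9ba1451963e7 : CRef := CRef.mk (Pat.mk 0x180000002000000028000000000000000000000000 0x10000000180000001800000018000001ef000000fe000001df0000001c00000014 7 9) 0 0 (step_sound _ 100 [(rh0ca3c045c183e8e7.shift 2 0), (rha11dfd15f08f96e3.shift 2 3), rhf2027dd929db7ca2, (rhf816263d4a86d72d.shift 2 0)] (by decide +kernel))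
noncomputable def rhd5cca885b01fff10 : CRef := CRef.mk (Pat.mk 0x7000000040000000400000000 0xa0000000e0000000e0000001e000000070000000e0000000e0000000a 7 5) 0 0 (step_sound _ 130 [(rh20966da26a1c2ae8.shift 1 0), (rh20e56a1196e70fcc.shift 1 0), (rh4017de503635a93b.shift 0 1), (rhfd9ad6a48a6b2ae5.shift 1 0)] (by decide +kernel))
noncomputable def rh81e0b7aef308d358 : CRef := CRef.mk (Pat.mk 0x8000000180000000800000010 0x140000001c0000001c0000000c0000001f00000078000000180000001800000010 7 7) 0 0 (step_sound _ 131 [(rhcb19c45d577f90e2.shift 0 1), (rhd3458b32566d63f7.shift 3 0)] (by decide +kernel))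
noncomputable def rhe5721a472965e4ca : CRef := CRef.mk (Pat.mk 0xe000000000000000e00000000 0xa0000000e0000000e0000000e000000740000003e00000077 7 7) 0 0 (step_sound _ 66 [(rh261f868a429ae0e3.shift 1 0), (rh32431e66bbf434a4.shift 1 0), rh5d436cc74a115108] (by decide +kernel))
noncomputable def rh876d73fa6aa873f1 : CRef := CRef.mk (Pat.mk 0x2000000000000000e00000000 0x5000000070000000700000002000000730000003e00000074 7 7) 0 0 (step_sound _ 36 [(rh3fc3a7fb6866dcd4.shift 1 0), rhcec0ed83a4ad6cfa] (by decide +kernel))
noncomputable def rh66f196286234366b : CRef := CRef.mk (Pat.mk 0x4000000070000000a 0xe60000007f000000fb 7 8) 0 0 (step_sound _ 35 [rh468410627fe4275f, rhe25b0a99195a5d59] (by decide +kernel))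
noncomputable def rha08a45e24af680cb : CRef := CRef.mk (Pat.mk 0x80000000f00000004 0x800000008000000ec0000007f0000003e 7 8) 0 0 (step_sound _ 4 [(rh70b7815ea181e331.shift 1 0), rh96851dee118c1ba3] (by decide +kernel))
noncomputable def rh8d48f12d8f37bf73 : CRef := CRef.mk (Pat.mk 0x800000007000000000 0xc70000007e000000e7 7 8) 0 0 (step_sound _ 35 [(rh428265de8cd3cd2d.shift 3 1), rh708c3bc8fe2f3084] (by decide +kernel))
noncomputable def rh53c051f5046e57dc : CRef := CRef.mk (Pat.mk 0x1000000038000000000000003800000000 0x1800000018000000380000001f0000003f00000024 7 6) 0 0 (step_sound _ 68 [(rh55afc6a59410cf00.shift 4 0), rhb7ad932af6f4d2e0] (by decide +kernel))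
noncomputable def rh6707e7200746cc59 : CRef := CRef.mk (Pat.mk 0x1e0000000200000000000000000000000000000000 0x2000000070000001e0000003e00000007000000070000000700000004 7 6) 0 0 (step_sound _ 193 [(rh3244c3cc8379b070.shift 0 5), rh4b3444a17d451811] (by decide +kernel))
noncomputable def rhbdb58e596051a774 : CRef := CRef.mk (Pat.mk 0x1e00000006000000000000000000000000 0x300000001f0000003e000000380000001800000018 7 6) 0 0 (step_sound _ 100 [rh54c2879e253bb727, (rhe25b0a99195a5d59.shift 1 3)] (by decide +kernel))
noncomputable def rhe4bf6303bf1553f4 : CRef := CRef.mk (Pat.mk 0x80000001e000000100000000000000000 0x380000001e0000001f0000003c00000038 7 6) 0 0 (step_sound _ 132 [(rh33e738c4ed385b9f.shift 1 3), rhc2c2eeb25ae7bf61] (by decide +kernel))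
noncomputable def rh784876c95d58a29a : CRef := CRef.mk (Pat.mk 0x300000002000000020000000000000000 0x50000000700000007000000060000000300000007000000070000000700000005 7 3) 0 0 (step_sound _ 161 [(rh20966da26a1c2ae8.shift 0 1), (rh20e56a1196e70fcc.shift 0 1), rh8cdd36b03d57a2f6, (rhfd9ad6a48a6b2ae5.shift 0 1)] (by decide +kernel))
noncomputable def rh19a8ecb481294573 : CRef := CRef.mk (Pat.mk 0xf000000000 0xe000000fe0000007f 7 8) 0 0 (step_sound _ 35 [rh598c96e05d977516, (rh775ca1963e850b80.shift 1 0), (rhd9e126b8d991d1d4.shift 1 0), (rheae1728ff4a56756.shift 2 0)] (by decide +kernel))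
noncomputable def rh9aa8b9ad63c86b68 : CRef := CRef.mk (Pat.mk 0x200000002000000080000000c00000004 0x7b0000003e0000007c0000000c00000004 7 7) 0 0 (step_sound _ 98 [(rh2613c889e411427e.shift 1 0), rh29285b82884f0de4] (by decide +kernel))
noncomputable def rhe5becdb3d3049bde : CRef := CRef.mk (Pat.mk 0x1c00000000 0x1ff000000fe000001e0 7 9) 0 0 (step_sound _ 37 [(rh45f730bcf36fcf64.shift 1 0), (rh4c622fddc53a5f99.shift 0 1), (rha93a5dd541ab8209.shift 2 0), (rhb18e6c78a554867d.shift 1 1), (rhe401600d466b97cd.shift 1 0)] (by decide +kernel))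
noncomputable def rh2586d7bed1ad0d84 : CRef := CRef.mk (Pat.mk 0x10000000c0000000700000000000000000 0xa0000000e0000000ef0000007e000000f7000000700000003c00000028 7 8) 0 0 (step_sound _ 131 [(rh26cbbac9fedeb621.shift 3 1), (rh9eee4c6bb46bd9bb.shift 0 3), (rhab2eb27912825b26.shift 2 0)] (by decide +kernel))
noncomputable def rh2ae58a958b8aec11 : CRef := CRef.mk (Pat.mk 0x2000000380000000c00000000 0x100000001c0000001c0000001c0000001f000000380000000c00000004 7 6) 0 0 (step_sound _ 99 [(rh075211c3608a5a57.shift 0 2), (rh32431e66bbf434a4.shift 2 0), (rha8241f37c79477a8.shift 2 0)] (by decide +kernel))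
noncomputable def rhcfb90d20d31fbd05 : CRef := CRef.mk (Pat.mk 0xf000000000 0x7f000000fe0000000f 7 8) 0 0 (step_sound _ 35 [rh138c3774b73e0afc, (rh775ca1963e850b80.shift 1 0), rh8493a64a7fb85bb0, (rhd5eb272e07a4e288.shift 2 1)] (by decide +kernel))
noncomputable def rh393af85eda76ca1d : CRef := CRef.mk (Pat.mk 0x100000001e0000001e 0x3e0000003e000000170000001e0000001e 7 6) 0 0 (step_sound _ 100 [(rh5c5e593799055d58.shift 3 0), rh72f6aa7ae9e1fca4] (by decide +kernel))
noncomputable def rhf8a5cc8781f6c852 : CRef := CRef.mk (Pat.mk 0x600000002000000060000000000000000000000000000000000000000 0x40000000600000002000000060000000600000007000000070000000700000004 7 3) 0 0 (step_sound _ 129 [(rh2f68792b6b779e96.shift 1 4), rh9b9d00427563617d] (by decide +kernel))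
noncomputable def rh73e7eda3f48c5ae9 : CRef := CRef.mk (Pat.mk 0x3000000040000000700000000 0x50000000700000007000000020000000300000007000000070000000700000001 7 3) 0 0 (step_sound _ 129 [rh00d6a6e3c7e3bb40, rh79a48be3ac30af6a, (rh9aed1232c1216b82.shift 0 1), rhecb97fed8c7f1286] (by decide +kernel))
noncomputable def rh17eb382d51a2da5b : CRef := CRef.mk (Pat.mk 0x8000000080000000c0000000c 0x170000001f0000007b0000001f0000000c 7 7) 0 0 (step_sound _ 100 [(rh2f68792b6b779e96.shift 3 0), rh8728c26d87322774] (by decide +kernel))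
noncomputable def rh5b8eefcc57d56f3a : CRef := CRef.mk (Pat.mk 0x8000000080000001800000018 0x340000007c0000006f0000007c00000018 7 7) 0 0 (step_sound _ 98 [(rh50fbb5868c909700.shift 2 0), rhf2122136c8073d0e] (by decide +kernel))
noncomputable def rhfa9b2d37a6eb9326 : CRef := CRef.mk (Pat.mk 0x80000002000000038000000000000000000000000 0x2f0000007c0000003800000038000000180000001000000010 7 7) 0 0 (step_sound _ 68 [(rh0588d2c7f2cab5e9.shift 3 0), (rh5306ab8221273638.shift 0 2), (rhf9366b6a121593ef.shift 4 0)] (by decide +kernel))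
noncomputable def rh565169fdbcfbf9eb : CRef := CRef.mk (Pat.mk 0x10000000500000001000000010 0x2f0000003e000000770000001000000010 7 7) 0 0 (step_sound _ 101 [(rh2f68792b6b779e96.shift 4 0), rh5e573cd0624fcd45] (by decide +kernel))
noncomputable def rh397edc71c439baa1 : CRef := CRef.mk (Pat.mk 0x2000000020000000600000000000000000000000000000000 0x5000000070000000700000007000000060000000600000003000000070000000700000005 7 3) 0 0 (step_sound _ 97 [(rh1741680720c097b4.shift 0 3), (rh35c5f1c53251aa1b.shift 0 3), rh49759b6975f15643, (rh82c5a5276b42f094.shift 0 2), (rh8c1d47d14292b804.shift 0 1), (rhd53a507d2771bf90.shift 0 1)] (by decide +kernel))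
noncomputable def rhb7370d61f34c1837 : CRef := CRef.mk (Pat.mk 0x100000001c00000018000000000000000000000000 0x4000000140000001c0000007f000000770000002200000022 7 7) 0 0 (step_sound _ 101 [rh6739c54c79a0a858, (rhf48373e13d2bc128.shift 2 3)] (by decide +kernel))
noncomputable def rh09239ae6bbb8f776 : CRef := CRef.mk (Pat.mk 0x10000000500000001000000010 0x2f0000003e000000770000001000000010 7 7) 0 0 (step_sound _ 101 [(rh2f68792b6b779e96.shift 4 0), rhc82104635d996a43] (by decide +kernel))
noncomputable def rhdf735d13e6d20c50 : CRef := CRef.mk (Pat.mk 0x1000000014000000100000003000000000 0x1400000014000001de000000fe000001cf 7 9) 0 0 (step_sound _ 35 [(rh932754581e0f4330.shift 3 0), rha206b301c0fd0ad9] (by decide +kernel))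
noncomputable def rh4ef08985abf3d83f : CRef := CRef.mk (Pat.mk 0x1000000010000000140000001000000000 0x200000003000000010000000360000003e0000002f 7 6) 0 0 (step_sound _ 133 [rh01ad7216e7ce9fc4, (rh2f68792b6b779e96.shift 4 1)] (by decide +kernel))
noncomputable def rhdcad673cf80944f9 : CRef := CRef.mk (Pat.mk 0x200000006000000020000000200000000 0x40000000700000007000000030000000600000006000000060000000600000004 7 3) 0 0 (step_sound _ 34 [(rh55afc6a59410cf00.shift 1 0), (rhc51c89c0d5581847.shift 0 1)] (by decide +kernel))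
noncomputable def rh6866f8109e430b25 : CRef := CRef.mk (Pat.mk 0x10000000100000001000000010 0x2f000000fe000000ff0000001000000010 7 8) 0 0 (step_sound _ 101 [(rh2f68792b6b779e96.shift 4 0), rhbd4dda86fa6ac106] (by decide +kernel))
noncomputable def rhec5e78200fa69d0c : CRef := CRef.mk (Pat.mk 0x1e000000000000000000000002 0xec0000007e000000730000000200000002 7 8) 0 0 (step_sound _ 65 [(rh4086c50a69fa8f36.shift 1 0), (rheb0810cc63b001d8.shift 0 2)] (by decide +kernel))
noncomputable def rhcd7efbfbe2aae807 : CRef := CRef.mk (Pat.mk 0x78000000080000000000000008 0x1c0000001c0000001f0000003c00000078000000080000000800000008 7 7) 0 0 (step_sound _ 132 [(rh9e3edb185cc347de.shift 3 0), (rhba92b4bc008eed1d.shift 0 2)] (by decide +kernel))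
noncomputable def rh6e7775e16bb199db : CRef := CRef.mk (Pat.mk 0x20000001e00000000 0x400000007000000070000000f0000003e0000001e00000007 7 6) 0 0 (step_sound _ 1 [rhe7bad8fe5adfedb4, rheb0810cc63b001d8] (by decide +kernel))
noncomputable def rh832bfc5bb1da7c5c : CRef := CRef.mk (Pat.mk 0x2000000100000001200000012000000100000000000000000 0x50000000700000007000000030000001300000013000000130000003f0000000f00000005 7 6) 0 0 (step_sound _ 161 [(rh193da7fc9e1674f1.shift 0 2), (rhb5e2811106eb513a.shift 0 1), rhc850b49d039efae1, rhce9c0fc0907b8f0d] (by decide +kernel))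
noncomputable def rh7664c0268a2a7089 : CRef := CRef.mk (Pat.mk 0x20000000000000002000000020000000000000000 0x10000000700000007000000070000000300000003000000030000000300000003 7 3) 0 0 (step_sound _ 129 [(rh1741680720c097b4.shift 0 2), rh8303e25b77b8b7bf, rhb5e2811106eb513a, rhc4526fc8abf298b6, (rhe01cfd8f0577defd.shift 0 2)] (by decide +kernel))
noncomputable def rh06cf26177c5687fa : CRef := CRef.mk (Pat.mk 0x800000008000000080000000c00000000 0x40000000c0000000c0000003f0000003f00000013 7 6) 0 0 (step_sound _ 36 [rh27831fe539cd6652, (rh55afc6a59410cf00.shift 3 0)] (by decide +kernel))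
noncomputable def rhd64e30a9b5595dfb : CRef := CRef.mk (Pat.mk 0x2000000020000000200000002 0x100000007000000070000000700000003000000030000000300000002 7 3) 0 0 (step_sound _ 129 [(rh1741680720c097b4.shift 0 1), rh3ca48e2a6d60153d, rhd996fb408621a886, (rhe01cfd8f0577defd.shift 0 1)] (by decide +kernel))
noncomputable def rh008bc3a0881c8f8e : CRef := CRef.mk (Pat.mk 0x400000022000000020000001a0000001200000007 0x40000001e0000007b0000001b0000001a0000001a0000000f 7 7) 0 0 (step_sound _ 3 [rh15da3a6a2b937867, rh428265de8cd3cd2d] (by decide +kernel))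
noncomputable def rh95f3535201325cfa : CRef := CRef.mk (Pat.mk 0x400000022000000020000001a00000010 0x1000000070000001f0000007a0000001a0000001a00000010 7 7) 0 0 (step_sound _ 129 [(rh2f68792b6b779e96.shift 1 1), rhbedb958b193acbde] (by decide +kernel))
noncomputable def rhf5fc030d19d0255c : CRef := CRef.mk (Pat.mk 0x21000000020000001a00000012 0x40000001f0000007f0000001a0000001a00000012 7 7) 0 0 (step_sound _ 97 [rh50fbb5868c909700, rha8e648756753aed0] (by decide +kernel))
noncomputable def rhbd19a27b033329bc : CRef := CRef.mk (Pat.mk 0x2000000002000000220000001a000000120000000300000000 0x3d0000001f0000003a0000001a0000001a0000000f00000004 7 6) 0 0 (step_sound _ 34 [(rh55afc6a59410cf00.shift 1 0), (rh5726feb1e49e1e1b.shift 0 1)] (by decide +kernel))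
noncomputable def rhd79f39cc52d1df34 : CRef := CRef.mk (Pat.mk 0x2000000020000001200000007000000000 0x100000003000000030000001bf000000fe0000000e 7 9) 0 0 (step_sound _ 39 [(rh428265de8cd3cd2d.shift 4 1), rh9448cbac7a598ac0] (by decide +kernel))
noncomputable def rhd634e9ad7050dba7 : CRef := CRef.mk (Pat.mk 0x800000008000000080000000000000000 0x40000001c0000001c0000003c0000000f0000000c0000000c0000000800000008 7 6) 0 0 (step_sound _ 163 [(rh1741680720c097b4.shift 2 2), (rh245d56c915813f64.shift 0 1), (rh8303e25b77b8b7bf.shift 2 0), (rhb5e2811106eb513a.shift 2 0), (rhe01cfd8f0577defd.shift 2 2)] (by decide +kernel))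
noncomputable def rh6f85501376463e9e : CRef := CRef.mk (Pat.mk 0x200000002000000020000000000000000 0x10000000700000007000000070000000300000003000000030000000300000003 7 3) 0 0 (step_sound _ 161 [(rh1741680720c097b4.shift 0 2), rh8303e25b77b8b7bf, rhb5e2811106eb513a, rhc4526fc8abf298b6, (rhe01cfd8f0577defd.shift 0 2)] (by decide +kernel))
noncomputable def rh3e9487c348110798 : CRef := CRef.mk (Pat.mk 0x4000000340000002400000000 0xa0000000e0000003e0000003e00000017000000360000002600000002 7 6) 0 0 (step_sound _ 130 [(rh1741680720c097b4.shift 1 1), (rh193da7fc9e1674f1.shift 1 0), (rh3b734c5288922837.shift 1 0), (rh771d065bdc85bf2d.shift 1 0), rh8f3ab8fe37100084, (rhe01cfd8f0577defd.shift 1 1)] (by decide +kernel))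
noncomputable def rh8f8d4b58284cf663 : CRef := CRef.mk (Pat.mk 0x80000004800000048000000000000000000000000 0x40000000c0000000c00000068000000ff0000003c0000001c00000014 7 8) 0 0 (step_sound _ 67 [(rh6eff4158bb400f47.shift 2 0), (rh771d065bdc85bf2d.shift 2 1), (rh892a020d1f7f2a7a.shift 0 1)] (by decide +kernel))
noncomputable def rhacb8cae8858f8b17 : CRef := CRef.mk (Pat.mk 0x200000002000000020000001200000000 0x400000007000000070000000300000003000000030000001e00000004 7 5) 0 0 (step_sound _ 160 [rh7e585432380c8686, (rhffd04209dc8ea796.shift 0 1)] (by decide +kernel))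
noncomputable def rh2dd41b998c5485fc : CRef := CRef.mk (Pat.mk 0x2000000020000001200000000000000000000000000000000 0x2000000030000000300000003000000030000003f00000006000000070000000700000005 7 6) 0 0 (step_sound _ 97 [(rh43903eb41aa6ae4c.shift 0 2), rh47992774edf9829f, (rh7eb4a07d72ad7934.shift 0 2), (rhe7e57967609db97e.shift 0 2)] (by decide +kernel))
noncomputable def rh753aa2775ceafc40 : CRef := CRef.mk (Pat.mk 0x140000002400000024000000000000000000000000 0x400000014000000360000007e0000001f0000000800000008 7 7) 0 0 (step_sound _ 99 [(rh4581c8ee58392cc2.shift 0 2), (rh70e33bfdf511e144.shift 2 0), (rh78e2bfd29c701f1d.shift 1 0)] (by decide +kernel))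
noncomputable def rh48e99bdd43c23dfe : CRef := CRef.mk (Pat.mk 0x20000001e00000004 0x70000000f0000003e0000001e00000007 7 6) 0 0 (step_sound _ 1 [rha6831e1c99143fa1, rheb0810cc63b001d8] (by decide +kernel))
noncomputable def rh1d5410a14414e7d3 : CRef := CRef.mk (Pat.mk 0x80000000c0000000800000008 0x100000007c0000001f0000000c0000000c0000000c00000008 7 7) 0 0 (step_sound _ 130 [(rhbd305e04395d6fd1.shift 0 1), (rhffd04209dc8ea796.shift 2 0)] (by decide +kernel))
noncomputable def rh08fe4a1279355696 : CRef := CRef.mk (Pat.mk 0x3000000030000000240000002000000000 0x3000000030000000360000007e0000005f 7 7) 0 0 (step_sound _ 36 [rh292281775c8a04f3, (rh932754581e0f4330.shift 4 0)] (by decide +kernel))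
noncomputable def rh21574c04c88fbf88 : CRef := CRef.mk (Pat.mk 0x1000000010000000100000001000000000 0x1000000010000000ff000000fe0000002f 7 8) 0 0 (step_sound _ 35 [(rh932754581e0f4330.shift 3 0), rha798e7f21e7093ae] (by decide +kernel))
noncomputable def rh57c72e6edf5f5bef : CRef := CRef.mk (Pat.mk 0x78000000080000000000000000 0x180000001c00000078000000380000001f0000001c 7 7) 0 0 (step_sound _ 131 [(rh3244c3cc8379b070.shift 2 3), rhe35cb66c8ff66870] (by decide +kernel))
noncomputable def rh26da079c2f18b961 : CRef := CRef.mk (Pat.mk 0x1e000000100000000000000000 0x280000003800000038000000380000001e0000001b0000001800000008 7 6) 0 0 (step_sound _ 132 [(rh33e738c4ed385b9f.shift 1 3), rh7b2e9a302acb7fcb] (by decide +kernel))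
noncomputable def rheeba24856b08a1dd : CRef := CRef.mk (Pat.mk 0xf0000000800000000000000000000000000000000 0xc0000000c0000001c0000000f0000000c0000001c0000001c0000001c00000014 7 5) 0 0 (step_sound _ 195 [(rh33e738c4ed385b9f.shift 0 5), (rhf631f408da92aaa0.shift 2 0)] (by decide +kernel))
noncomputable def rh3dc22596326f3236 : CRef := CRef.mk (Pat.mk 0xf000000000 0xf000000fe0000007f 7 8) 0 0 (step_sound _ 35 [rh04797e9e06425c4e, rh6bcaee7827af1fe5, (rh775ca1963e850b80.shift 1 0), (rheae1728ff4a56756.shift 2 0)] (by decide +kernel))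
noncomputable def rhecc2f590e920be22 : CRef := CRef.mk (Pat.mk 0x800000007000000000 0xce0000007e00000077 7 8) 0 0 (step_sound _ 35 [rh04797e9e06425c4e, (rh428265de8cd3cd2d.shift 3 1)] (by decide +kernel))
noncomputable def rh166de8b4ce42e660 : CRef := CRef.mk (Pat.mk 0x100000001e00000010000000000000000000000000 0x3000000030000000180000001e0000001f000000380000003800000018 7 6) 0 0 (step_sound _ 97 [(rheb0810cc63b001d8.shift 0 3), (rhef32b2d13170c298.shift 1 0)] (by decide +kernel))
noncomputable def rh64624c3911aa90d4 : CRef := CRef.mk (Pat.mk 0x7800000000 0xe70000007f0000003c 7 8) 0 0 (step_sound _ 70 [(rh33e738c4ed385b9f.shift 3 1), rhe90ea86f449430a6] (by decide +kernel))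
noncomputable def rhfdf26b31a8a6b28f : CRef := CRef.mk (Pat.mk 0x20000001e00000004 0x70000000f0000003e0000001e00000007 7 6) 0 0 (step_sound _ 1 [rh6651e569db34029d, rheb0810cc63b001d8] (by decide +kernel))
noncomputable def rh04e2f6df131e4749 : CRef := CRef.mk (Pat.mk 0xf000000020 0x1ce000000fe00000037 7 9) 0 0 (step_sound _ 71 [(rh33e738c4ed385b9f.shift 4 1), rh7ae33bb9c4d093d7] (by decide +kernel))
noncomputable def rh6b6d833c3b0d509a : CRef := CRef.mk (Pat.mk 0x3c00000002000000000000003c00000000 0x640000003e00000003000000030000003e00000067 7 7) 0 0 (step_sound _ 5 [rh69ba9039bbe65614, (rhe25b0a99195a5d59.shift 2 0)] (by decide +kernel))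
noncomputable def rha085f8eba3fc3416 : CRef := CRef.mk (Pat.mk 0x2000000000000000180000003000000000 0x2000000060000000f8000000ff000000ef 7 8) 0 0 (step_sound _ 38 [rh3dfbdc8bdcbc076d, (rhf48373e13d2bc128.shift 3 1)] (by decide +kernel))
noncomputable def rhe48bac672b5ffde1 : CRef := CRef.mk (Pat.mk 0x60000001e000000000000000000000000 0x60000001e0000003f0000000f00000007 7 6) 0 0 (step_sound _ 65 [(rheb0810cc63b001d8.shift 0 2), rhfe33765a17a787ca] (by decide +kernel))
noncomputable def rh4802dfac046309b0 : CRef := CRef.mk (Pat.mk 0x1000000010000000000000003000000000 0x1000000010000000170000007e000000ff 7 8) 0 0 (step_sound _ 35 [rh20314cb26e627c28, rh61a0202de37988d6, rh6c53fa638f474bdf, (rhbf726fa7097229f2.shift 3 0)] (by decide +kernel))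
noncomputable def rh6a446ea2ffd95a5c : CRef := CRef.mk (Pat.mk 0x1e0000001400000000000000080000000000000000 0x200000002000000160000001e000000170000003c0000007c0000002400000020 7 7) 0 0 (step_sound _ 98 [(rh32672c8dc599eba3.shift 1 0), (rh4054a53c669f4821.shift 0 1), (rhb1a251d9bff81766.shift 1 2)] (by decide +kernel))
noncomputable def rh8c008eb1ea38f1ad : CRef := CRef.mk (Pat.mk 0x1e000000040000000000000008000000000000000000000000 0x600000006000000060000001e000000070000000c0000000c0000000e0000000e0000000a 7 5) 0 0 (step_sound _ 130 [(rh7edb1cbdb820e1d7.shift 0 3), (rhaccbe1bc79c0a1cb.shift 0 2), (rhb1a251d9bff81766.shift 1 3), (rhc46b61bcbcf6c641.shift 1 0)] (by decide +kernel))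
noncomputable def rhbd169905db92c389 : CRef := CRef.mk (Pat.mk 0x30000000200000000000000040000000000000000 0x4000000070000000700000003000000030000000300000006000000070000000700000001 7 3) 0 0 (step_sound _ 97 [(rh4cdb379841a0f429.shift 0 1), rha50dbbf62b1eb32d, (rhb1a251d9bff81766.shift 0 2), (rhdea0f82b61912ae7.shift 0 2)] (by decide +kernel))
noncomputable def rhbcc9514a225d3baa : CRef := CRef.mk (Pat.mk 0x40000000e00000002000000020 0x1000000010000000ff000000fe0000002700000020 7 8) 0 0 (step_sound _ 68 [(rh1c1037cb5b3fe471.shift 3 0), (rhdda18f14314c6e63.shift 0 1), (rhedf6b6c69a16cbd5.shift 2 2)] (by decide +kernel))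
noncomputable def rh09e3b3c49517183d : CRef := CRef.mk (Pat.mk 0xe00000002 0xe70000007e000000e3 7 8) 0 0 (step_sound _ 36 [rh45f730bcf36fcf64, rheb0810cc63b001d8] (by decide +kernel))
noncomputable def rh581d8032ca75627d : CRef := CRef.mk (Pat.mk 0x100000001c000000140000001000000000 0x8000000380000003800000038000000180000001f000000140000001400000004 7 6) 0 0 (step_sound _ 164 [(rh1741680720c097b4.shift 3 2), (rh3ca48e2a6d60153d.shift 3 1), (rh42ab489a1be3958e.shift 3 2), rhc9580269a381499e] (by decide +kernel))
noncomputable def rheebae8db1e5275f8 : CRef := CRef.mk (Pat.mk 0xe0000000a0000000000000000 0x4000000140000003e0000000e0000000b0000001e0000001e 7 6) 0 0 (step_sound _ 130 [rh384507886d1b397f, (rh4821dcf828b9d7bf.shift 1 0), (rhf71cb1a94bedb48c.shift 1 0)] (by decide +kernel))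
noncomputable def rh55b3c0081173592a : CRef := CRef.mk (Pat.mk 0xf000000000 0xff000001fe00000007 7 9) 0 0 (step_sound _ 35 [rh15b856e33c69f807, (rh9ba8c27e13f19650.shift 2 1), (rhd5eb272e07a4e288.shift 2 1)] (by decide +kernel))
noncomputable def rh9d17c577c59b9567 : CRef := CRef.mk (Pat.mk 0x220000003600000014000000000000000800000000 0x220000003600000014000000f40000007e000000ff 7 8) 0 0 (step_sound _ 36 [(rh9e3edb185cc347de.shift 4 1), rhed48fb91c03444f9] (by decide +kernel))
noncomputable def rhc13e880241b5adb7 : CRef := CRef.mk (Pat.mk 0x200000002000000020000000200000000000000000000000000000000 0x600000007000000070000000300000003000000070000000700000005 7 3) 0 0 (step_sound _ 97 [rh0da2a71655c6a894, (rh7928877f9bf74a91.shift 0 2), rh9327b7a4c51c429f, (rhcab3157f7bdcba3e.shift 0 1)] (by decide +kernel))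
noncomputable def rhecb5030495b54322 : CRef := CRef.mk (Pat.mk 0x200000002000000020000000200000000000000000000000000000000 0x300000007000000070000000600000006000000060000000600000004 7 3) 0 0 (step_sound _ 97 [rh4cae674e8fd8dc57, (rh84f9c1b40d524b84.shift 0 1), (rh8ff3dde5b1c639e0.shift 0 1), (rhd29a1fb688eae70f.shift 1 2)] (by decide +kernel))
noncomputable def rhd8df402186ea5d9d : CRef := CRef.mk (Pat.mk 0x40000000400000004000000040000000000000000 0xe0000000f0000003c000000060000000600000006 7 6) 0 0 (step_sound _ 33 [(rh79877ebd3ef475dd.shift 1 1), rhf2bd6a03d3c00d1f] (by decide +kernel))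
noncomputable def rh282c644e8a56a33f : CRef := CRef.mk (Pat.mk 0x1400000014000000000000000800000008 0x1400000014000000f40000007e000000ff 7 8) 0 0 (step_sound _ 34 [rh9b951d2fc655c1ff, (rhff0f29cb645b05f7.shift 2 0)] (by decide +kernel))
noncomputable def rh1d1a818e6a174a83 : CRef := CRef.mk (Pat.mk 0x80000001c000000140000000000000000 0x20000000220000007f0000007c000000140000001400000014 7 7) 0 0 (step_sound _ 36 [rh60ed8b6b175ebd1a, (rh7b1f1fb55310c477.shift 3 0)] (by decide +kernel))
noncomputable def rh3398070c7eadd413 : CRef := CRef.mk (Pat.mk 0x180000001c00000014 0x380000003f000000ff000000f80000001c00000014 7 8) 0 0 (step_sound _ 100 [(rh1741680720c097b4.shift 3 0), (rh5fa50b509d4ce753.shift 3 0), rh8eee14803a9b57ea, (rhe2031cd839b38d08.shift 2 0)] (by decide +kernel))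
noncomputable def rh93742b01e3b503a0 : CRef := CRef.mk (Pat.mk 0x70000000100000000000000000 0x2800000028000000ff0000007e000000170000001000000010 7 8) 0 0 (step_sound _ 99 [(rh15b856e33c69f807.shift 0 2), (rh206d61528605a692.shift 2 0), (rhd5889c99d29bf7d6.shift 2 0)] (by decide +kernel))
noncomputable def rh030114b1ff4912ec : CRef := CRef.mk (Pat.mk 0x1000000000000000020000001e00000002 0x5000000070000001f0000000f0000003a0000001e00000006 7 6) 0 0 (step_sound _ 68 [(rh33e738c4ed385b9f.shift 1 1), rhbba06666165d5a7a] (by decide +kernel))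
noncomputable def rheb95cef64944fa0d : CRef := CRef.mk (Pat.mk 0x1000000000000000000000001e0000000a 0x5000000070000003f0000001f0000000b0000001e0000000e 7 6) 0 0 (step_sound _ 65 [(rh3244c3cc8379b070.shift 0 1), rh6740c46016462ff5] (by decide +kernel))
noncomputable def rh9fdbaef37aa8be4a : CRef := CRef.mk (Pat.mk 0xf000000040 0x1c7000000fe00000067 7 9) 0 0 (step_sound _ 71 [rh2198e04b50d0665a, (rh33e738c4ed385b9f.shift 4 1)] (by decide +kernel))
noncomputable def rhd667349ad2f165ea : CRef := CRef.mk (Pat.mk 0x1f000000080 0x77000001fe000000c7 7 9) 0 0 (step_sound _ 35 [rh89ff9440e66defae, (rh96851dee118c1ba3.shift 3 0)] (by decide +kernel))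
noncomputable def rh4018ab20e41853dc : CRef := CRef.mk (Pat.mk 0x20000000600000002000000000000000000000000 0x4000000070000000700000007000000060000000600000002000000070000000700000005 7 3) 0 0 (step_sound _ 65 [(rh5b85ac987260870e.shift 0 2), rh8cdd36b03d57a2f6, (rha707fb719e87fe6e.shift 1 1)] (by decide +kernel))
noncomputable def rh2878064360317dd8 : CRef := CRef.mk (Pat.mk 0x4000000140000000400000000000000000000000000000000 0xa0000000e0000000f0000001e00000004000000040000000e0000000e0000000a 7 5) 0 0 (step_sound _ 98 [(rh1741680720c097b4.shift 1 3), (rh47992774edf9829f.shift 1 0), (rh49759b6975f15643.shift 1 0), (rh5e8888c5a8b0359b.shift 0 2)] (by decide +kernel))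
noncomputable def rhf871d9f63f891fa6 : CRef := CRef.mk (Pat.mk 0x20000000a0000000a0000000200000000 0x10000000340000003e0000003f0000000a0000000200000002 7 6) 0 0 (step_sound _ 130 [(rh2f68792b6b779e96.shift 1 1), rh7f763b14aadaabbb] (by decide +kernel))
noncomputable def rh3de47907cb7b8669 : CRef := CRef.mk (Pat.mk 0x4000000020000000a0000000a00000000 0x740000003e0000007b0000000a0000000a 7 7) 0 0 (step_sound _ 98 [rh66b47f3697517a5f, (rh71222050f2c63a3a.shift 1 0)] (by decide +kernel))
noncomputable def rhbfa1debe7707a1f4 : CRef := CRef.mk (Pat.mk 0x1000000020000000200000002000000000000000000000000 0x500000007000000060000000200000002000000070000000700000005 7 3) 0 0 (step_sound _ 193 [rh49759b6975f15643, (rh50fbb5868c909700.shift 0 3)] (by decide +kernel))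
noncomputable def rh856f53c12d627823 : CRef := CRef.mk (Pat.mk 0xa0000000a0000000200000006000000000 0xa0000000a0000001ef000001fe0000019f 7 9) 0 0 (step_sound _ 36 [rh5e1157b73930c17a, (rh932754581e0f4330.shift 4 0)] (by decide +kernel))
noncomputable def rh60fe80ad43750b65 : CRef := CRef.mk (Pat.mk 0x80000000a0000000600000004 0x800000008000000eb0000007e000000fc 7 8) 0 0 (step_sound _ 35 [(rh5c5e593799055d58.shift 2 0), rhbdcf55c1371f7baf] (by decide +kernel))
noncomputable def rh8e194229fc7caa9a : CRef := CRef.mk (Pat.mk 0x8000000280000002800000008000000000000000000000000 0x10000000380000003c0000002f00000078000000f00000007000000050 7 8) 0 0 (step_sound _ 101 [(rh080f49c381efaed3.shift 3 0), (rh312a4c6ec42d35ef.shift 2 1), (rh5843dfbf97376d3a.shift 2 0), (rh9811135352b05f37.shift 2 2), (rhad48d64c73928d0d.shift 0 2)] (by decide +kernel))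
noncomputable def rhace5a6f832b2c581 : CRef := CRef.mk (Pat.mk 0xc00000014000000140000001400000000 0x300000007f0000001f000000170000003c00000030 7 7) 0 0 (step_sound _ 99 [rh3097a5b524c04870, (rh7b1f1fb55310c477.shift 3 0)] (by decide +kernel))
noncomputable def rhf46dfbafcd6b1070 : CRef := CRef.mk (Pat.mk 0x200000002800000028000000200000000000000000 0x4000000040000001e0000007c0000006f00000028000000600000006000000040 7 7) 0 0 (step_sound _ 37 [(rh109528a694f02b67.shift 0 1), (rhd29a1fb688eae70f.shift 5 0)] (by decide +kernel))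
noncomputable def rhbd237ca1ec04cb8f : CRef := CRef.mk (Pat.mk 0x8000000380000000800000000 0x140000001c0000001c0000001c000000080000003c0000000f00000004 7 6) 0 0 (step_sound _ 131 [(rh1726a00b0a8befd0.shift 2 0), (rh20966da26a1c2ae8.shift 2 0), rh322e79f034282812, (rh771d065bdc85bf2d.shift 2 0), (rhc85cc95794737cf7.shift 2 1)] (by decide +kernel))
noncomputable def rhdf8488b526711eb1 : CRef := CRef.mk (Pat.mk 0x20000001e000000000000000800000008 0x7000000070000003e0000001e000000070000000e00000008 7 6) 0 0 (step_sound _ 65 [rh0157624f6bf1b337, (rheb0810cc63b001d8.shift 0 2)] (by decide +kernel))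
noncomputable def rh952a1d9c59ebf308 : CRef := CRef.mk (Pat.mk 0x40000000400000000000000020000000200000002000000000000000000000000 0x40000000700000003000000030000000200000002000000070000000700000005 7 3) 0 0 (step_sound _ 193 [(rh1006c02ae4212ff0.shift 1 4), rh47992774edf9829f] (by decide +kernel))
noncomputable def rh763233f24138f620 : CRef := CRef.mk (Pat.mk 0x1c000000080000000a0000000a0000000800000000 0x1f0000000b0000000b0000000b0000001e00000017 7 5) 0 0 (step_sound _ 34 [(rh932754581e0f4330.shift 2 0), rhc2d0b729473b1376] (by decide +kernel))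
noncomputable def rhc9da5ebd6bbd1c8c : CRef := CRef.mk (Pat.mk 0x10000000140000001400000010 0x2000000020000002f0000003e000000360000001400000010 7 6) 0 0 (step_sound _ 99 [(rh50fbb5868c909700.shift 3 0), rhe67638cf1bae99d1] (by decide +kernel))
noncomputable def rh720b614e8ef0a3f6 : CRef := CRef.mk (Pat.mk 0x18000000080000000a0000000a0000000800000000 0x190000000f0000000b0000000b0000001e00000017 7 5) 0 0 (step_sound _ 34 [rh6278d85f0636c4a3, (rh932754581e0f4330.shift 2 0)] (by decide +kernel))
noncomputable def rh1bd63633a0fe6776 : CRef := CRef.mk (Pat.mk 0x14000000140000001400000000000000000000000000000000 0xa0000001f0000001e00000037000000160000000c0000000e0000000e00000002 7 6) 0 0 (step_sound _ 98 [(rh28f7c203f178e979.shift 2 3), (rhae6c0b565d4dd1b2.shift 0 3), (rhc85cc95794737cf7.shift 1 3), (rhe84e00c98653ad0c.shift 1 0)] (by decide +kernel))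
noncomputable def rhc16212a59b74b245 : CRef := CRef.mk (Pat.mk 0xe0000000a 0xe0000000fe000001fb 7 9) 0 0 (step_sound _ 36 [(rh04b5a123ea5003fa.shift 1 0), rheb0810cc63b001d8] (by decide +kernel))
noncomputable def rh7603558598a70dab : CRef := CRef.mk (Pat.mk 0x20000000200000002000000020000000000000000 0x5000000070000000700000003000000030000000300000003000000030000000200000002 7 3) 0 0 (step_sound _ 193 [(rh1726a00b0a8befd0.shift 0 2), (rh3ca48e2a6d60153d.shift 0 2), rh5baa46239919fe38] (by decide +kernel))
noncomputable def rh109ccf5ca9b3d139 : CRef := CRef.mk (Pat.mk 0x200000002800000028000000200000001000000000 0x4000000040000001e0000007c0000006f00000028000000200000003000000010 7 7) 0 0 (step_sound _ 37 [(rh109528a694f02b67.shift 0 1), (rh932754581e0f4330.shift 4 0)] (by decide +kernel))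
noncomputable def rh264a73dd4fbfe8ea : CRef := CRef.mk (Pat.mk 0x140000000400000004000000000000000000000000 0xa0000000e0000000e0000003e000000040000003c0000000f0000000e0000000a 7 6) 0 0 (step_sound _ 66 [(rh6eff4158bb400f47.shift 1 0), (rh7133a7a78d762f91.shift 0 1), (rha087c6594f4bfb59.shift 1 1), (rhe1e06f71f002e8e1.shift 1 2)] (by decide +kernel))
noncomputable def rh92861911d5f34900 : CRef := CRef.mk (Pat.mk 0x28000000080000000800000000 0x40000001c0000001c0000001c0000001f0000007c0000000f0000000800000008 7 7) 0 0 (step_sound _ 131 [rh00c809e161b34002, (rh1741680720c097b4.shift 2 1), (rh7430a052bcb4bacd.shift 0 1), (rhc1fec1a57e249d27.shift 2 1)] (by decide +kernel))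
noncomputable def rhebc2b5fb466fab87 : CRef := CRef.mk (Pat.mk 0x4000000040000000400000000000000000000000000000000 0x600000006000000060000003c0000000f0000000e0000000e0000000a 7 6) 0 0 (step_sound _ 98 [(rh47992774edf9829f.shift 1 0), (rh5ad9898cc32ef511.shift 1 1), (rh7133a7a78d762f91.shift 0 2), (rhc4526fc8abf298b6.shift 1 1)] (by decide +kernel))
noncomputable def rhf67387d1c7512edc : CRef := CRef.mk (Pat.mk 0x4000000040000000400000000000000000000000000000000 0xa0000000e0000000e00000006000000060000003c0000000f0000000e0000000e0000000a 7 6) 0 0 (step_sound _ 98 [(rh47992774edf9829f.shift 1 0), (rh5ad9898cc32ef511.shift 1 1), (rh7133a7a78d762f91.shift 0 2), (rha087c6594f4bfb59.shift 1 2), (rhc4526fc8abf298b6.shift 1 1)] (by decide +kernel))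
noncomputable def rhbc2e2bd3b5da1a9f : CRef := CRef.mk (Pat.mk 0x800000038000000280000000800000000 0x100000001e0000003c0000002f0000007800000030 7 7) 0 0 (step_sound _ 132 [(rh2f68792b6b779e96.shift 3 1), rhe277ee5cc41fe229] (by decide +kernel))
noncomputable def rhb8e417d3fe2095a5 : CRef := CRef.mk (Pat.mk 0x80000000800000008000000280000000800000008 0x8000000080000001800000398000001fc0000038f00000008 7 10) 0 0 (step_sound _ 68 [(rh2820ca9a6c4f41b4.shift 0 1), (rh4051a828645ab6b1.shift 2 1), (rh422dc31de97871b4.shift 3 0)] (by decide +kernel))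
noncomputable def rh2e657435a898be47 : CRef := CRef.mk (Pat.mk 0x2000000020000000a00000002 0x4000000070000000700000003000000060000001f00000003 7 5) 0 0 (step_sound _ 128 [rh718d414b3da33579, rhffd04209dc8ea796] (by decide +kernel))
noncomputable def rh1c57e04e09fbac4e : CRef := CRef.mk (Pat.mk 0x2000000020000000200000002000000040000000000000000 0x50000000700000007000000020000000200000002000000070000000700000001 7 3) 0 0 (step_sound _ 65 [rh428dee20ff218f33, (rh55afc6a59410cf00.shift 1 1)] (by decide +kernel))
noncomputable def rh298566d37b6ffcee : CRef := CRef.mk (Pat.mk 0x20000001e0000000a00000002000000000000000000000000 0x320000001e0000000a0000000e0000001f0000000700000001 7 6) 0 0 (step_sound _ 196 [(rh33e738c4ed385b9f.shift 1 5), rh68e4f8a1f2c6eb66] (by decide +kernel))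
noncomputable def rh1ce50e86171a4830 : CRef := CRef.mk (Pat.mk 0x20000001a0000000a0000000200000008 0x40000001f00000017000000130000001a0000000a0000000a00000008 7 5) 0 0 (step_sound _ 132 [(rh3c1b38ddf5742ce7.shift 0 1), (rh9e3edb185cc347de.shift 3 0)] (by decide +kernel))
noncomputable def rh098ebc3abef45ec3 : CRef := CRef.mk (Pat.mk 0x28000000080000000800000000000000000000000000000000 0x140000007c0000000f000000080000001c0000001c0000001c00000014 7 7) 0 0 (step_sound _ 99 [(rh47992774edf9829f.shift 2 0), (rh57b469c1bf70b264.shift 0 3), (rh5ad9898cc32ef511.shift 2 1), (rh6eff4158bb400f47.shift 2 1), (rhc4526fc8abf298b6.shift 2 1)] (by decide +kernel))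
noncomputable def rh4f68e2db5301ccc9 : CRef := CRef.mk (Pat.mk 0x80000001c000000140000000000000000 0x230000007f0000003f000000140000001400000010 7 7) 0 0 (step_sound _ 36 [(rh0e5ff3ac76170b64.shift 0 1), (rh7b1f1fb55310c477.shift 3 0)] (by decide +kernel))
noncomputable def rh255353f4b2345ec5 : CRef := CRef.mk (Pat.mk 0x200000002000000020000000200000000000000000000000000000000 0x200000003000000030000000300000007000000070000000700000001 7 3) 0 0 (step_sound _ 97 [(rh047f549357eb18af.shift 0 1), (rh6eff4158bb400f47.shift 0 1), (rh7928877f9bf74a91.shift 0 2), rhe84e00c98653ad0c] (by decide +kernel))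
noncomputable def rh568568240d95d343 : CRef := CRef.mk (Pat.mk 0x30000000000000002000000038000000000000000000000000 0x80000003e0000001e0000003e0000003e0000000f0000000800000008 7 6) 0 0 (step_sound _ 98 [(rh21d582c147e7e118.shift 0 2), (rh4df14ec9afdc3848.shift 1 1), (rh8c9c5ce22c5e1bcb.shift 1 0)] (by decide +kernel))
noncomputable def rhf1d136317f8be587 : CRef := CRef.mk (Pat.mk 0x1800000010000000080000000c00000000 0x70000001f0000001f0000000e0000000c00000004 7 5) 0 0 (step_sound _ 99 [(rh2994fea1b0bd2523.shift 0 1), (rh932754581e0f4330.shift 2 0)] (by decide +kernel))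
noncomputable def rh5522a3d30974c5e3 : CRef := CRef.mk (Pat.mk 0x2000000020000000a00000000000000000000000000000000 0x300000003000000030000001e00000007000000070000000700000005 7 5) 0 0 (step_sound _ 97 [rh47992774edf9829f, (rh5ad9898cc32ef511.shift 0 1), (rh6eff4158bb400f47.shift 0 1), (rha293280c3563936a.shift 0 2), (rhc4526fc8abf298b6.shift 0 1)] (by decide +kernel))
noncomputable def rh825b7b70c076098e : CRef := CRef.mk (Pat.mk 0x10000000500000005000000010000000000000000 0x500000005000000050000001f0000001f0000000a00000008 7 5) 0 0 (step_sound _ 65 [(rh55afc6a59410cf00.shift 0 1), rh603d350afdee8e0d] (by decide +kernel))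
noncomputable def rh50a3d730c3bea5b7 : CRef := CRef.mk (Pat.mk 0x40000001400000014000000000000000000000000 0x60000001600000016000000170000003e0000007e0000002200000020 7 7) 0 0 (step_sound _ 194 [(rh73ba6c579e4b229a.shift 0 2), (rh9c1a909469b2c0df.shift 1 0), (rhfb48bea540f6436d.shift 1 1)] (by decide +kernel))
noncomputable def rh00edbc97147801e8 : CRef := CRef.mk (Pat.mk 0x38000000000000001000000014000000140000001800000000 0xf0000007e000000e70000001600000016000000160000003c00000024 7 8) 0 0 (step_sound _ 37 [rh20a2c9e864a169e2, (rh55afc6a59410cf00.shift 4 0)] (by decide +kernel))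
noncomputable def rh391d9f82314770c1 : CRef := CRef.mk (Pat.mk 0x7000000000 0x1ef000000fe000001cf 7 9) 0 0 (step_sound _ 35 [rh15b856e33c69f807, (rh4c622fddc53a5f99.shift 1 1), (rh775ca1963e850b80.shift 1 0), (rh9e97bba44c1b13e4.shift 1 0), (rha93a5dd541ab8209.shift 3 0)] (by decide +kernel))
noncomputable def rha2e20590fa7be3f6 : CRef := CRef.mk (Pat.mk 0x1e0000001000000000 0x38000000380000003f0000001e0000001800000018 7 6) 0 0 (step_sound _ 100 [(rh33e738c4ed385b9f.shift 1 2), rh75a7eeea86ea90b2] (by decide +kernel))
noncomputable def rh7bd4f9f9438f00ff : CRef := CRef.mk (Pat.mk 0x7000000080 0x770000007e000000ce 7 8) 0 0 (step_sound _ 35 [(rh96851dee118c1ba3.shift 3 0), rhaeac014a58998cf3] (by decide +kernel))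
noncomputable def rh8093951c673ad5a9 : CRef := CRef.mk (Pat.mk 0x100000001e0000000000000000 0x3000000038000000380000001f0000001e0000003800000010 7 6) 0 0 (step_sound _ 36 [rh78f20a76f87966ad, (rhe25b0a99195a5d59.shift 1 1)] (by decide +kernel))
noncomputable def rh843dbe4b6b080a79 : CRef := CRef.mk (Pat.mk 0x700000000000000000000000080000000800000000 0xff0000007e0000000e000000080000000c0000000c00000004 7 8) 0 0 (step_sound _ 163 [(rh4c622fddc53a5f99.shift 1 5), (rh77502aab4757b0ce.shift 2 0), (rhaeac014a58998cf3.shift 0 4)] (by decide +kernel))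
noncomputable def rh51d1f575ad76151d : CRef := CRef.mk (Pat.mk 0x700000000000000000000000080000000800000000 0x7f000000fe000001ce000000080000000c0000000c00000004 7 9) 0 0 (step_sound _ 163 [(rh2bb3da8bc8afc618.shift 2 2), (rh77502aab4757b0ce.shift 2 0), (rh775ca1963e850b80.shift 1 4), (rhaeac014a58998cf3.shift 0 4), (rhe401600d466b97cd.shift 2 4)] (by decide +kernel))
noncomputable def rhb4e23b2f3704a17f : CRef := CRef.mk (Pat.mk 0x30000000000000001000000010 0x1ff000000fe000001d70000001000000010 7 9) 0 0 (step_sound _ 99 [(rh5a4df29f20c07a62.shift 3 0), (rh7b8a3f2a217d2093.shift 2 0), (rh8670158281ccbe0c.shift 0 2), (rhb610a44bb7d47cab.shift 2 0)] (by decide +kernel))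
noncomputable def rhbc61463a522fcd04 : CRef := CRef.mk (Pat.mk 0xf000000000000000000000000 0x140000001c0000001c0000001c0000000f0000001c0000000c0000000c 7 5) 0 0 (step_sound _ 67 [rhc77a652779e85bee, (rhe25b0a99195a5d59.shift 0 2)] (by decide +kernel))
noncomputable def rh0759fbafcd6f1fe3 : CRef := CRef.mk (Pat.mk 0x2800000028000000200000000000000000 0x40000001f00000007c0000002f000000600000006000000040 7 9) 0 0 (step_sound _ 37 [(rh3a73674d7a676c64.shift 2 1), (rha51f537e042fce54.shift 0 1), (rhced6d86d2069808b.shift 5 0), (rhd7429d15a03f54e4.shift 2 0)] (by decide +kernel))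
noncomputable def rh0289c84f19766124 : CRef := CRef.mk (Pat.mk 0xa0000000800000008000000000000000000000000 0x100000007c0000000f000000080000001c0000001c0000001c00000014 7 7) 0 0 (step_sound _ 67 [(rh8cdd36b03d57a2f6.shift 2 0), (rhd7429d15a03f54e4.shift 0 1), (rhf4d32ceb02606f40.shift 0 1)] (by decide +kernel))
noncomputable def rh3d38f67c505fcee9 : CRef := CRef.mk (Pat.mk 0x80000000800000028000000000000000000000000 0x40000001c0000007c0000000f0000007c0000000f0000000c00000008 7 7) 0 0 (step_sound _ 67 [(rh771d065bdc85bf2d.shift 2 1), (rh92ed3525f919a568.shift 0 1), (rhc8fd50c44a2112a0.shift 0 1), (rhe1bcd80b5c7d4f4c.shift 1 1), (rhe8775f4a901009e3.shift 1 0)] (by decide +kernel))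
noncomputable def rhbe36ce273ee037be : CRef := CRef.mk (Pat.mk 0x10000000100000005800000018000000000000000000000000 0x200000003000000018000000df000000ff000000070000000400000004 7 8) 0 0 (step_sound _ 197 [(rh2f68792b6b779e96.shift 4 3), rhc845a68e40c7fc5d] (by decide +kernel))
noncomputable def rha3ac2afaa29d5756 : CRef := CRef.mk (Pat.mk 0x20000000a0000000a000000030000000000000000 0x10000000100000003c0000001e0000000b0000001e0000001b0000001000000010 7 6) 0 0 (step_sound _ 100 [rh417c9163b7d6fad7, (rhb2a0b9ccfb5cecd5.shift 0 2)] (by decide +kernel))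
noncomputable def rh4009f53a024ff92e : CRef := CRef.mk (Pat.mk 0x800000028000000280000000c0000000000000000 0x40000000440000007f0000007c00000028000000780000006c0000004000000040 7 7) 0 0 (step_sound _ 194 [rh0b2ec282beb91af1, (rhffd04209dc8ea796.shift 2 2)] (by decide +kernel))
noncomputable def rhb61f97f552199a20 : CRef := CRef.mk (Pat.mk 0xc00000038000000280000002800000000000000000000000000000000 0x2f00000038000000280000007c000001f0000000600000004000000040 7 9) 0 0 (step_sound _ 132 [(rh55afc6a59410cf00.shift 3 3), rhf7c94e16f5538873] (by decide +kernel))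
noncomputable def rh2c5c7672006b9cb0 : CRef := CRef.mk (Pat.mk 0xe0000000600000000 0x50000000700000007000000030000003e0000000600000004 7 6) 0 0 (step_sound _ 68 [(rh18965a982d73c794.shift 1 1), rh36b0d54def552c22] (by decide +kernel))
noncomputable def rh0005edc40b82082c : CRef := CRef.mk (Pat.mk 0x80000000e000000040000000000000000 0x800000008000000e80000007f000000fe0000001000000010 7 8) 0 0 (step_sound _ 163 [rh0546c491c3527b1e, (rh5c5e593799055d58.shift 2 2)] (by decide +kernel))
noncomputable def rh184d51411777a23a : CRef := CRef.mk (Pat.mk 0xc00000008000000000000003c00000000 0x10000000f0000001f000000070000003e00000003 7 6) 0 0 (step_sound _ 65 [(rh3f8766e6ecb455ce.shift 1 1), rhb8de812ad63e724c] (by decide +kernel))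
noncomputable def rh546c0d96df3df8c5 : CRef := CRef.mk (Pat.mk 0x20000000a0000000a0000000a0000000000000000 0x1000000130000001f0000000a0000000a0000001f0000001900000010 7 5) 0 0 (step_sound _ 192 [rh1cacf916f989b95f, (rhffd04209dc8ea796.shift 0 2)] (by decide +kernel))
noncomputable def rhf1285f27cb7eaae6 : CRef := CRef.mk (Pat.mk 0x20000000a0000000a0000000a0000000000000000 0x100000007e0000001f0000000a0000001f0000001900000010 7 7) 0 0 (step_sound _ 64 [(rh932754581e0f4330.shift 0 1), rhb26a9d80e55151db] (by decide +kernel))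
noncomputable def rh48ffe60921a5a3e8 : CRef := CRef.mk (Pat.mk 0x180000000c00000008000000080000002c00000028000000000000000000000000 0x780000004f00000078000000780000002c00000078000000600000004000000040 7 7) 0 0 (step_sound _ 225 [(rh53b3c253cb0c65f4.shift 0 7), (rha57f78437203c939.shift 2 0)] (by decide +kernel))
noncomputable def rh20d2f9ea09b5b961 : CRef := CRef.mk (Pat.mk 0x80000000e0000000e 0xe0000000f0000003b0000003e0000000e 7 6) 0 0 (step_sound _ 36 [(rh18965a982d73c794.shift 1 0), rh94543897e5fa2ce3] (by decide +kernel))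
noncomputable def rh4f9d753263020791 : CRef := CRef.mk (Pat.mk 0x180000001c0000000000000000 0x600000006000000070000001f0000001f0000000700000002 7 5) 0 0 (step_sound _ 65 [(rh53b3c253cb0c65f4.shift 0 2), rhf9547cc0bebcf49c] (by decide +kernel))
noncomputable def rhd460056c501ff99e : CRef := CRef.mk (Pat.mk 0x100000001e0000000000000000 0x7000000070000001f0000001e0000000700000006 7 5) 0 0 (step_sound _ 97 [(rh3244c3cc8379b070.shift 0 2), rhe05b05c25fa28588] (by decide +kernel))
noncomputable def rhcf839cdbe694bacd : CRef := CRef.mk (Pat.mk 0x100000001a000000180000000000000000 0x6000000370000001e0000001f0000000700000006 7 6) 0 0 (step_sound _ 98 [(rh33e738c4ed385b9f.shift 1 3), rh73aa6c6cc77ba7b5] (by decide +kernel))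
noncomputable def rhe7db47fda10b5278 : CRef := CRef.mk (Pat.mk 0x100000003400000004000000000000000000000000 0xa0000000e0000000f0000001e00000036000000060000000e0000000e0000000a 7 6) 0 0 (step_sound _ 162 [(rh2c3a2ea36ddad983.shift 0 2), (rh6dbfa710a30f272c.shift 1 0), (rhbe5703805fd7fa8f.shift 1 2), (rhc9980783718588ac.shift 1 1), (rhe95a2e51b0ee5fdb.shift 1 0)] (by decide +kernel))
noncomputable def rh7ae81a4244b92688 : CRef := CRef.mk (Pat.mk 0x1a000000180000000000000000 0x6000000070000001f0000001f0000000700000006 7 5) 0 0 (step_sound _ 98 [rh73aa6c6cc77ba7b5, (rhb739f4f82bb681b4.shift 0 2)] (by decide +kernel))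
noncomputable def rh49f7ed66bc6716eb : CRef := CRef.mk (Pat.mk 0x1800000010000000100000001c 0x140000001e000000770000007f0000001c 7 7) 0 0 (step_sound _ 35 [rh193f749d20993b89, (rh5c5e593799055d58.shift 3 0)] (by decide +kernel))
noncomputable def rh92a4df4963de3427 : CRef := CRef.mk (Pat.mk 0x18000000580000000000000000 0x4000000070000001f0000007f0000000300000003 7 7) 0 0 (step_sound _ 98 [(rh2fe78cc5ca4405d8.shift 2 2), rhcd4d16d28964fbaf] (by decide +kernel))
noncomputable def rh9f9eff1d8b440b82 : CRef := CRef.mk (Pat.mk 0x800000008000000280000000800000000 0x8000000080000000f0000003e0000007e00000004 7 7) 0 0 (step_sound _ 34 [(rh650dc73538ea7b62.shift 0 1), (rh932754581e0f4330.shift 2 0)] (by decide +kernel))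
noncomputable def rhd393899bc6319650 : CRef := CRef.mk (Pat.mk 0x20000000a0000000a00000002000000000000000000000000 0x100000001f0000001f0000000a0000000f0000003e0000001c0000001000000010 7 6) 0 0 (step_sound _ 98 [(rh55afc6a59410cf00.shift 1 2), rhdeec5264d5c8027e] (by decide +kernel))
noncomputable def rh6f15d5bf35c461a3 : CRef := CRef.mk (Pat.mk 0x20000000a0000000a0000000200000000 0x3e0000001e0000000b0000000e0000000e00000004 7 6) 0 0 (step_sound _ 34 [(rh55afc6a59410cf00.shift 1 0), (rh72ec320fc2cfbc2f.shift 0 1)] (by decide +kernel))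
noncomputable def rh713d96f87d124bea : CRef := CRef.mk (Pat.mk 0x200000002000000020000000200000000000000000000000000000000 0x20000000200000003000000030000000300000007000000070000000700000001 7 3) 0 0 (step_sound _ 97 [(rh5baa46239919fe38.shift 0 1), (rh6eff4158bb400f47.shift 0 1), (rh7928877f9bf74a91.shift 0 2), rhe84e00c98653ad0c] (by decide +kernel))
noncomputable def rhbe57b4d86580fecf : CRef := CRef.mk (Pat.mk 0x800000028000000280000000800000000 0x380000007c0000002f000000380000001800000010 7 7) 0 0 (step_sound _ 36 [(rh55afc6a59410cf00.shift 3 0), (rhe7875d1fc6c8ddf6.shift 0 1)] (by decide +kernel))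
noncomputable def rhf5a362233c857d29 : CRef := CRef.mk (Pat.mk 0x2000000020000000a0000000a00000000000000000000000000000000 0x100000001e0000001f0000000a0000000f0000001d0000001c0000001400000014 7 5) 0 0 (step_sound _ 128 [rh619943e5579c6d53, (rh932754581e0f4330.shift 0 3)] (by decide +kernel))
noncomputable def rhf598c87b5a1c7ab5 : CRef := CRef.mk (Pat.mk 0x1a0000000a 0xe0000000fe000001fb 7 9) 0 0 (step_sound _ 34 [(rh04b5a123ea5003fa.shift 1 0), rheb0810cc63b001d8] (by decide +kernel))
noncomputable def rhb50fddfb51d8cb0c : CRef := CRef.mk (Pat.mk 0x400000004000000140000000400000000 0x40000000400000004000000f70000007e000000e8 7 8) 0 0 (step_sound _ 35 [rh37f09e4afa3b0ad0, (rh55afc6a59410cf00.shift 2 0)] (by decide +kernel))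
noncomputable def rhb72cad3ab6762185 : CRef := CRef.mk (Pat.mk 0x10000000500000005000000018000000000000000000000000 0x100000005000000058000000df000000ff000001c70000000400000004 7 9) 0 0 (step_sound _ 131 [rh532cccdb7b7aba24, (rh5c5e593799055d58.shift 3 3)] (by decide +kernel))
noncomputable def rh2407944f14f56ae7 : CRef := CRef.mk (Pat.mk 0x20000000a000000180000003c00000000 0x1b0000001e0000000b00000018000000fc000000e0 7 8) 0 0 (step_sound _ 131 [(rh2145e1d24b96a57e.shift 3 1), rh891613b290eedde5] (by decide +kernel))
noncomputable def rh1ff9517b4b39645e : CRef := CRef.mk (Pat.mk 0x80000000a0000000a00000002000000040000000000000000 0x80000001a0000001a0000001a0000001f0000001700000001 7 5) 0 0 (step_sound _ 65 [(rh55afc6a59410cf00.shift 1 1), rh85e4604d04453ab4] (by decide +kernel))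
noncomputable def rh94af40c82b178ff7 : CRef := CRef.mk (Pat.mk 0x20000000a0000000a0000000a000000020000000400000000 0x10000000180000001e0000000b0000001b0000001a0000003b0000001e00000004 7 6) 0 0 (step_sound _ 33 [(rh55afc6a59410cf00.shift 1 0), (rha296ace342538ea9.shift 0 1)] (by decide +kernel))
noncomputable def rh70da3784e6ca9872 : CRef := CRef.mk (Pat.mk 0x20000000a0000000a0000000a000000020000000200000000 0x10000000180000001e0000000b0000001b0000001a0000003b0000001e00000004 7 6) 0 0 (step_sound _ 34 [(rh55afc6a59410cf00.shift 1 0), (rha296ace342538ea9.shift 0 1)] (by decide +kernel))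
noncomputable def rhfd19a9b6d78d6cf2 : CRef := CRef.mk (Pat.mk 0x20000000a0000000a0000000a000000020000000100000000 0x10000000180000001e0000000b0000001b0000001a0000001e0000001300000001 7 5) 0 0 (step_sound _ 33 [(rh5b4239cfce95ea28.shift 0 1), rh932754581e0f4330] (by decide +kernel))
noncomputable def rh7fac2c8e2d88798e : CRef := CRef.mk (Pat.mk 0x20000000a0000000a000000020000000000000000 0x80000000a0000000b0000007e0000003f0000001400000010 7 7) 0 0 (step_sound _ 66 [rh34022deaa9df4439, (rh55afc6a59410cf00.shift 1 1)] (by decide +kernel))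
noncomputable def rh9e94dc55ba38ce16 : CRef := CRef.mk (Pat.mk 0xa0000000a00000002000000060000000100000000 0x8000000080000000b0000001f0000001a0000001e0000001300000001 7 5) 0 0 (step_sound _ 33 [rh932754581e0f4330, (rha5c6afa9fdf4dce2.shift 0 1)] (by decide +kernel))
noncomputable def rhe66541d385788e02 : CRef := CRef.mk (Pat.mk 0x20000000a0000000a000000020000000000000000 0x2000000020000000a0000003f0000003e0000003400000010 7 6) 0 0 (step_sound _ 66 [rh49578f49b22e8a3c, (rh55afc6a59410cf00.shift 1 1)] (by decide +kernel))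
noncomputable def rh2c154aad053a87e5 : CRef := CRef.mk (Pat.mk 0x1e000000000000000000000000 0x50000000700000007000000070000001e000000070000000600000004 7 5) 0 0 (step_sound _ 129 [(rh3244c3cc8379b070.shift 0 3), rhb8961d436bd85e38] (by decide +kernel))
noncomputable def rh628648917988e791 : CRef := CRef.mk (Pat.mk 0x20000000e000000040000000000000000 0xe30000007e000000fc0000000400000004 7 8) 0 0 (step_sound _ 34 [(rh7b1f1fb55310c477.shift 1 0), (rhbdcf55c1371f7baf.shift 0 2)] (by decide +kernel))
noncomputable def rhd4e69802d9204c36 : CRef := CRef.mk (Pat.mk 0x40000003800000008000000200000003000000000 0x60000003c000000080000006f0000003e00000007 7 7) 0 0 (step_sound _ 130 [rh2be17e318623b768, (rh3244c3cc8379b070.shift 1 4)] (by decide +kernel))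
noncomputable def rhf4053002e64835a1 : CRef := CRef.mk (Pat.mk 0x2000000020000000200000002 0x100000007000000070000000700000003000000030000000300000002 7 3) 0 0 (step_sound _ 129 [(rh1741680720c097b4.shift 0 1), rh3ca48e2a6d60153d, rhd534da25a9e1909f, (rhe01cfd8f0577defd.shift 0 1)] (by decide +kernel))
noncomputable def rh950c8f52e62c89f9 : CRef := CRef.mk (Pat.mk 0x20000001e00000004000000000000000000000000 0x600000006000000060000001e00000007000000030000000300000003 7 5) 0 0 (step_sound _ 97 [rha5b9eb9647a4db41, (rheb0810cc63b001d8.shift 0 3)] (by decide +kernel))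
noncomputable def rhea5dc028f2d9003f : CRef := CRef.mk (Pat.mk 0xf000000020 0x18e000000fe0000003f 7 9) 0 0 (step_sound _ 35 [(rh775ca1963e850b80.shift 1 0), rh91582111bb639861, (rhc8d5c9136610b7ff.shift 1 0), (rheae1728ff4a56756.shift 2 0)] (by decide +kernel))
noncomputable def rh481f354fe1bf3f00 : CRef := CRef.mk (Pat.mk 0x100000001600000016000000100000001000000000 0x600000006000000160000001600000016000000370000003f00000007 7 6) 0 0 (step_sound _ 161 [(rh3e595262c1b737ad.shift 1 2), (rh9f1b0d6d73e15f0f.shift 1 0), rha5b9eb9647a4db41, (rhc2c7bae8f445c890.shift 1 1)] (by decide +kernel))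
noncomputable def rh45cf153bdcbab066 : CRef := CRef.mk (Pat.mk 0x1e00000008 0xe3000000fe000001f8 7 9) 0 0 (step_sound _ 65 [(rh04b5a123ea5003fa.shift 1 0), (rh3244c3cc8379b070.shift 0 1)] (by decide +kernel))
noncomputable def rh6fc7e6f139979602 : CRef := CRef.mk (Pat.mk 0x34000000140000000400000000 0x1c7000001fe000003f40000000400000004 7 10) 0 0 (step_sound _ 99 [(rh04b5a123ea5003fa.shift 2 2), rh3998ad7415607566, (rha03f6e28ea70fc7d.shift 1 2)] (by decide +kernel))
noncomputable def rhbb66889bafd98e97 : CRef := CRef.mk (Pat.mk 0x800000008000000180000001800000000 0x40000000c0000000e0000001f0000001f00000007 7 5) 0 0 (step_sound _ 34 [rh8ceade854434116d, (rh932754581e0f4330.shift 2 0)] (by decide +kernel))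
noncomputable def rh5fc642262e3ec883 : CRef := CRef.mk (Pat.mk 0x80000002800000008000000000000000000000000 0x140000001c0000001c0000000c000000080000007c0000000f0000000c0000000400000004 7 7) 0 0 (step_sound _ 98 [(rh038de9f6952c0fd9.shift 2 2), (rh281c6819542c66e6.shift 2 0), (rh976a48eb1c80a12f.shift 2 2), (rhe33d9496e10d8eb0.shift 0 3)] (by decide +kernel))
noncomputable def rh4d241eae9b919d24 : CRef := CRef.mk (Pat.mk 0x30000000a0000000a000000020000000000000000 0xc0000001f0000000b0000001e0000001a0000001200000010 7 5) 0 0 (step_sound _ 128 [(rh7b1f1fb55310c477.shift 0 1), rha154ec87c0a91e4a] (by decide +kernel))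
noncomputable def rhbc5bda5a56022781 : CRef := CRef.mk (Pat.mk 0x8000000280000002800000008000000000000000000000000 0x300000007c0000002f0000007c00000068000000580000005800000010 7 7) 0 0 (step_sound _ 196 [rh0b62e0a4c80087e1, (rh2f68792b6b779e96.shift 3 3)] (by decide +kernel))
noncomputable def rhaa060996c6fab713 : CRef := CRef.mk (Pat.mk 0x8000000080000002800000028000000040000000000000000 0x40000003f000000f800000028000000780000006c0000004400000040 7 8) 0 0 (step_sound _ 164 [(rh8c01e5409b730b8b.shift 2 1), (rh94cee27b9a6b99c8.shift 2 0), (rhb6b6ff48ea5cd546.shift 2 2), (rhdb019b0e908810fb.shift 0 3)] (by decide +kernel))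
noncomputable def rh2f600c7f0c289788 : CRef := CRef.mk (Pat.mk 0x6000000020000000800000008000000100000001000000000 0x700000003e0000007b0000000800000018000000100000001000000010 7 7) 0 0 (step_sound _ 100 [(rh54373fb5514ce268.shift 0 2), (rh7b1f1fb55310c477.shift 3 0)] (by decide +kernel))
noncomputable def rhc0c95b32fb8e7c20 : CRef := CRef.mk (Pat.mk 0x60000000200000008000000080000001000000010 0x700000003e0000007b00000008000000180000001800000010 7 7) 0 0 (step_sound _ 131 [(rh5af8ea70d7d33332.shift 0 1), (rhbe0e43a3bc50a43f.shift 3 0)] (by decide +kernel))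
noncomputable def rh1609cf6b6e461e07 : CRef := CRef.mk (Pat.mk 0x2000000020000000a0000001a00000012 0x700000003e0000007f0000000a0000001a00000012 7 7) 0 0 (step_sound _ 130 [rh54373fb5514ce268, (rhbaefcd01e0a8bca3.shift 1 0)] (by decide +kernel))
noncomputable def rh39ec035b1a0cd45d : CRef := CRef.mk (Pat.mk 0x2000000020000000a0000001a000000300000001000000000 0x700000003e0000007f0000000a0000001a000000330000001f00000005 7 7) 0 0 (step_sound _ 195 [(rh6f1cbe15c631ee70.shift 3 2), rh9f0725bd6293fbb0] (by decide +kernel))
noncomputable def rh8d3d8e4dfe20f05e : CRef := CRef.mk (Pat.mk 0x20000001e000000020000000200000000 0xa0000001e0000003a0000001f0000003d 7 6) 0 0 (step_sound _ 68 [rh150a047a02e638a8, (rhe25b0a99195a5d59.shift 1 2)] (by decide +kernel))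
noncomputable def rhdaafc7f0e5f62f55 : CRef := CRef.mk (Pat.mk 0x10000000d000000390000000100000000 0x60000000610000007d0000003d0000007700000012 7 7) 0 0 (step_sound _ 33 [rh55afc6a59410cf00, (rhc6236ac434622314.shift 1 0)] (by decide +kernel))
noncomputable def rhf999fdc40b9ecc6a : CRef := CRef.mk (Pat.mk 0x180000005800000050000000000000000000000000 0x3000000430000007f0000005f000000f7000000c40000008000000080 7 8) 0 0 (step_sound _ 130 [(rh22ffac98b8cabdd0.shift 2 0), (rhbb7213d4724395ac.shift 0 2), (rhd5b85d579310c48e.shift 1 3)] (by decide +kernel))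
noncomputable def rh76e5a56812011884 : CRef := CRef.mk (Pat.mk 0x1e0000000000000004 0x50000000700000007000000030000001e0000000700000004 7 5) 0 0 (step_sound _ 33 [rhbd7eac49f5f61dc9, (rheb0810cc63b001d8.shift 0 1)] (by decide +kernel))
noncomputable def rhd2b1fa8be9bbd212 : CRef := CRef.mk (Pat.mk 0x20000000b0000000a000000000000000000000000 0x100000007c0000001e0000000b0000001e0000001a0000001000000010 7 7) 0 0 (step_sound _ 100 [(rh5419adcd928dba20.shift 0 3), rh82c8658a66d745ba] (by decide +kernel))
noncomputable def rhfc7a77f59a220bc2 : CRef := CRef.mk (Pat.mk 0x4000000170000001400000000000000000000000000000000 0x80000003e0000001700000014000000140000000e0000000e0000000a 7 6) 0 0 (step_sound _ 195 [(rh06809ab48db3b4f7.shift 1 0), (rh80f90a60d87caa0d.shift 0 5), (rhcdaff4a5bb03fe5f.shift 1 3)] (by decide +kernel))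
noncomputable def rh28dfe8903c7485e3 : CRef := CRef.mk (Pat.mk 0x80000000e00000018000000000000000000000000 0x40000000c0000000e0000001b0000001f0000001e00000014 7 5) 0 0 (step_sound _ 67 [(rh5192e84255fe3228.shift 2 0), (rh6eff4158bb400f47.shift 2 0), (rh9ca7327ddc3bf931.shift 0 1), (rha8adab4bc30e0ea1.shift 2 0)] (by decide +kernel))
noncomputable def rh10928736c70f2541 : CRef := CRef.mk (Pat.mk 0x3000000030000000200000003000000000 0x30000000300000003e0000007e0000004f 7 7) 0 0 (step_sound _ 38 [(rh55afc6a59410cf00.shift 5 0), rh7249c27fa1f57680] (by decide +kernel))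
noncomputable def rh736213e7636ad170 : CRef := CRef.mk (Pat.mk 0x600000004000000040000000400000000 0x780000003e00000077000000040000000400000004 7 7) 0 0 (step_sound _ 97 [(rh7b1f1fb55310c477.shift 1 0), (rhd72e75008e11c2c1.shift 0 1)] (by decide +kernel))
noncomputable def rhe5932d147c89a3a2 : CRef := CRef.mk (Pat.mk 0xe000000080000000800000008 0xf00000007e000000ef0000000800000008 7 8) 0 0 (step_sound _ 100 [(rh10e3074efe589034.shift 0 2), (rh2f68792b6b779e96.shift 3 0)] (by decide +kernel))
noncomputable def rh780045270ef93d36 : CRef := CRef.mk (Pat.mk 0x80000000c0000000800000000000000000000000000000000 0x140000007c0000001f00000008000000080000001c0000001c00000014 7 7) 0 0 (step_sound _ 99 [(rh49759b6975f15643.shift 2 0), (rhdf8b9aa233deec1e.shift 0 3), (rhe286c75f2739cce2.shift 2 2)] (by decide +kernel))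
noncomputable def rhe72f31e85e5c82d6 : CRef := CRef.mk (Pat.mk 0x20000000200000002000000020000000200000000000000000000000000000000 0x20000000600000006000000060000000700000003000000070000000700000005 7 3) 0 0 (step_sound _ 97 [rh49759b6975f15643, (rh7928877f9bf74a91.shift 0 2), (rha43277a93dc44e8f.shift 1 2)] (by decide +kernel))
noncomputable def rh9afadd83b55228ef : CRef := CRef.mk (Pat.mk 0x2000000020000000200000003000000000 0x2000000020000001ff000001fe0000004f 7 9) 0 0 (step_sound _ 38 [rh4c75518579b51b70, (rh55afc6a59410cf00.shift 5 0)] (by decide +kernel))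
noncomputable def rh1c32588dab464fcb : CRef := CRef.mk (Pat.mk 0x1800000010000000100000001000000000 0x400000004000000270000003f0000001f000000180000001000000010 7 6) 0 0 (step_sound _ 99 [(rh7b1f1fb55310c477.shift 3 0), (rh8b47cd5f87b5015f.shift 0 1)] (by decide +kernel))
noncomputable def rhc594cc7cce017515 : CRef := CRef.mk (Pat.mk 0x20000000300000002000000020000000200000000000000000000000000000000 0x20000000300000007000000060000000600000002000000070000000700000005 7 3) 0 0 (step_sound _ 97 [rh5260ceaa01eafaa9, (rhffd04209dc8ea796.shift 0 3)] (by decide +kernel))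
noncomputable def rhcb1ea5bd083fe91b : CRef := CRef.mk (Pat.mk 0x2000000030000000600000000 0x50000000700000007000000020000000200000003000000030000000700000004 7 3) 0 0 (step_sound _ 129 [(rh038de9f6952c0fd9.shift 0 1), (rh55afc6a59410cf00.shift 1 0)] (by decide +kernel))
noncomputable def rhe65e0f83558a6229 : CRef := CRef.mk (Pat.mk 0x80000002c00000028000000000000000000000000 0x280000007c0000002f00000078000000100000001000000010 7 7) 0 0 (step_sound _ 100 [rh88ae30dc3a4cb395, (rhf48373e13d2bc128.shift 2 3)] (by decide +kernel))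
noncomputable def rh19c1de7b39f72ad6 : CRef := CRef.mk (Pat.mk 0x80000000c0000000c 0xe0000001f0000007e0000000f0000000c 7 7) 0 0 (step_sound _ 99 [rh344fab86ee6bec75, (rh5c5e593799055d58.shift 2 0)] (by decide +kernel))
noncomputable def rhbbc8d356b0b181b6 : CRef := CRef.mk (Pat.mk 0x4000000040000001400000000000000000000000000000000 0x20000000600000006000000060000003c0000000f0000000e0000000e0000000a 7 6) 0 0 (step_sound _ 98 [(rh47992774edf9829f.shift 1 0), (rh4f71fa61affe4b7c.shift 0 2), (rh6eff4158bb400f47.shift 1 1), (rh7eb4a07d72ad7934.shift 1 2)] (by decide +kernel))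
noncomputable def rh1064b6e54f4078e6 : CRef := CRef.mk (Pat.mk 0x10000000100000007000000000 0x1000000010000000170000007e000000ef 7 8) 0 0 (step_sound _ 35 [(rh1ae4704ae86cb9a8.shift 2 0), rhbb13f9e1d387f64a, (rhde10baa3043a2b46.shift 3 0)] (by decide +kernel))
noncomputable def rhbe97a34c53cfc6df : CRef := CRef.mk (Pat.mk 0x1000000000000000200000007000000000 0x10000000100000007f000001fe0000000f 7 9) 0 0 (step_sound _ 68 [(rh79b3c29022acbdf3.shift 3 1), rha94f9e6f62cdba47] (by decide +kernel))
noncomputable def rh457adf4546d6e894 : CRef := CRef.mk (Pat.mk 0x20000000800000008000000080000000000000000 0x100000001c0000001f000000080000001c0000001c0000001c00000014 7 5) 0 0 (step_sound _ 163 [(rh2c718f29f451ad95.shift 0 2), (rh7ccf3cdb050d375d.shift 0 1), (rh8cdd36b03d57a2f6.shift 2 0), (rhb7ee8905496f843d.shift 2 1), (rhce9a49803a550f13.shift 2 1)] (by decide +kernel))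
noncomputable def rh2c1bbe64d2e10ddc : CRef := CRef.mk (Pat.mk 0xa0000000a000000080000000c00000000 0x170000001e0000000a0000001f0000000f00000001 7 5) 0 0 (step_sound _ 130 [(rh50fbb5868c909700.shift 2 1), rhf00084cc0bd3d93b] (by decide +kernel))
noncomputable def rhbe90be549cd8e973 : CRef := CRef.mk (Pat.mk 0x200000002800000020000000200000001000000000 0x770000003e00000027000000200000003000000010 7 7) 0 0 (step_sound _ 37 [(rh7d322cfbe6e1de53.shift 0 1), (rh932754581e0f4330.shift 4 0)] (by decide +kernel))
noncomputable def rh4fe60c4082c5f52d : CRef := CRef.mk (Pat.mk 0x400000004000000100000001400000010000000200000000000000000 0x4000000040000003c0000001e00000013000000380000003800000008 7 6) 0 0 (step_sound _ 68 [(rh55afc6a59410cf00.shift 4 1), rh7675b29ea9ac61b9] (by decide +kernel))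
noncomputable def rh62ccaef4f7036292 : CRef := CRef.mk (Pat.mk 0x1400000014000000100000001000000000 0x1400000014000000140000003f0000001f0000000a 7 6) 0 0 (step_sound _ 35 [(rh932754581e0f4330.shift 3 0), rhc844ea2aa44cc951] (by decide +kernel))
noncomputable def rh5fe9bbb63f08fd9c : CRef := CRef.mk (Pat.mk 0x380000000800000060000000600000000000000000 0x40000000f0000037c00000308000007f8000003e80000078000000080 7 11) 0 0 (step_sound _ 71 [(rh182ca0c96ca2f548.shift 5 0), (rh2d59a82f792a29c1.shift 0 2), (rh5c5a2014709044d0.shift 3 2), (rh9c94213f6896c74a.shift 4 1)] (by decide +kernel))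
noncomputable def rh1fed7826ff37398e : CRef := CRef.mk (Pat.mk 0x1c000000140000001000000030 0x270000003e000000140000003e000000f4 7 8) 0 0 (step_sound _ 101 [(rh2f68792b6b779e96.shift 4 0), rhaf8eb343a779efad] (by decide +kernel))
noncomputable def rh35633fb4bfdd3f8f : CRef := CRef.mk (Pat.mk 0x28000000280000003000000060 0x40000001f0000007c000000280000003c000001e8 7 9) 0 0 (step_sound _ 35 [(rhb739f4f82bb681b4.shift 2 0), rhbf995c4abfb6b197] (by decide +kernel))
noncomputable def rh01a4b32ce9c010b8 : CRef := CRef.mk (Pat.mk 0x280000002800000028000000200000001000000000 0x1000000038000000280000007c0000002f0000003c00000010 7 7) 0 0 (step_sound _ 4 [rh384904dccc2a769e, (rheea67dfebd0f8008.shift 4 0)] (by decide +kernel))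
noncomputable def rh9bd9ef1b871cd492 : CRef := CRef.mk (Pat.mk 0x140000001400000010000000100000000000000000 0x1400000014000000140000001f0000001f0000000a00000002 7 5) 0 0 (step_sound _ 67 [rh8b813903960bebcb, (rh932754581e0f4330.shift 3 1)] (by decide +kernel))
noncomputable def rhb88db06419790517 : CRef := CRef.mk (Pat.mk 0x2800000028000000200000000000000000 0x40000001f00000007c0000002f000000600000006000000040 7 9) 0 0 (step_sound _ 37 [(rh9258736a7488cc35.shift 2 1), (rha51f537e042fce54.shift 0 1), (rhced6d86d2069808b.shift 5 0), (rhd7429d15a03f54e4.shift 2 0)] (by decide +kernel))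
noncomputable def rh801ec95a9cb1ea0d : CRef := CRef.mk (Pat.mk 0x280000002800000020000000000000000000000000 0x40000001f80000003c0000002f0000007c000000700000007000000050 7 9) 0 0 (step_sound _ 69 [(rh360686c1c249e008.shift 0 1), (rh8cdd36b03d57a2f6.shift 4 0), (rhd7429d15a03f54e4.shift 2 1)] (by decide +kernel))
noncomputable def rh8c8962ce3245870a : CRef := CRef.mk (Pat.mk 0x280000002800000020000000000000000000000000 0x4000000068000000680000002f0000007c000000700000007000000050 7 7) 0 0 (step_sound _ 69 [(rh360686c1c249e008.shift 0 1), (rh8cdd36b03d57a2f6.shift 4 0), (rhced6d86d2069808b.shift 5 1)] (by decide +kernel))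
noncomputable def rh70c796c1040c85c7 : CRef := CRef.mk (Pat.mk 0x28000000280000002000000000 0x40000001f80000007c0000002f0000007c0000005e 7 9) 0 0 (step_sound _ 133 [rh16fb77bd2911dcdf, (rhb034511df68c2fcf.shift 2 1), (rhf1422681c6b900c2.shift 2 1), (rhf92c094e260f0cb7.shift 1 0)] (by decide +kernel))
noncomputable def rhc98c1f4f583d33e4 : CRef := CRef.mk (Pat.mk 0x1e000000100000000000000000 0x6000000070000001e0000001f0000000700000007 7 5) 0 0 (step_sound _ 65 [rh6ff73e534253a9af, (rheb0810cc63b001d8.shift 0 2)] (by decide +kernel))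
noncomputable def rhbad45c8e9cb46418 : CRef := CRef.mk (Pat.mk 0x1e0000000200000000 0x7000000070000003f0000001e0000000600000006 7 6) 0 0 (step_sound _ 97 [(rh3244c3cc8379b070.shift 0 2), rhd298fb5ac315c742] (by decide +kernel))
noncomputable def rhd32df40bca9186f0 : CRef := CRef.mk (Pat.mk 0xe000000020000000200000000000000000 0x1e000000fe0000003f000000200000002000000020 7 8) 0 0 (step_sound _ 132 [(rh132883a60cd8aed8.shift 3 1), (rh4054a53c669f4821.shift 3 0), (rh775ca1963e850b80.shift 2 3), (rh7c446a5779c6be66.shift 0 3)] (by decide +kernel))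
noncomputable def rh5c8224642afe99e4 : CRef := CRef.mk (Pat.mk 0x3c00000000000000140000000000000000 0x30000003e000000070000001f0000000700000001 7 6) 0 0 (step_sound _ 97 [(rh80fcd6d0a18cb2dd.shift 1 3), rh9837b53a2e2f64e8] (by decide +kernel))
noncomputable def rhb6ac2332bcb2fd3b : CRef := CRef.mk (Pat.mk 0x1e00000000000000000000000000000000 0x400000006000000070000001e00000007000000070000000700000005 7 5) 0 0 (step_sound _ 161 [(rh3244c3cc8379b070.shift 0 4), rh8520270d5e3f9f36] (by decide +kernel))
noncomputable def rhabdfb90173fb29c1 : CRef := CRef.mk (Pat.mk 0x1000000000000000100000003e0000000000000000 0x180000001e0000000f0000001e0000003f0000000c0000000c 7 6) 0 0 (step_sound _ 99 [(rh53b3c253cb0c65f4.shift 0 2), rhceebf1d544fffb6f] (by decide +kernel))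
noncomputable def rh462b53f1a4fa550a : CRef := CRef.mk (Pat.mk 0x1000000038000000200000002000000000 0x1000000010000000180000007c0000002f0000007c00000008 7 7) 0 0 (step_sound _ 164 [(rh2145e1d24b96a57e.shift 4 2), rh57ec85f4a84a9add] (by decide +kernel))
noncomputable def rhe841419546ca0fbb : CRef := CRef.mk (Pat.mk 0x200000000000000100000001700000004000000000000000000000000 0x280000003e0000003800000030000000170000003e000000380000003800000028 7 6) 0 0 (step_sound _ 100 [rh0e94b26add1578f8, (rh4e69133096f54cfa.shift 1 0), (rh633720215627220a.shift 1 2), (rh68691964b29f233d.shift 0 3), (rh68f4aa9286a5d728.shift 1 0)] (by decide +kernel))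
noncomputable def rh478fbb4de7100ce1 : CRef := CRef.mk (Pat.mk 0x40000001e000000080 0x6f000001fe000000ff 7 9) 0 0 (step_sound _ 36 [(rh36eba2a3de447758.shift 1 0), rh459539c88f7c5ecc, (rheae1728ff4a56756.shift 3 0), (rhfd3b863ea463319a.shift 1 0)] (by decide +kernel))
noncomputable def rhe74c96626c0ff10f : CRef := CRef.mk (Pat.mk 0x1000000008000000080000000c00000008000000020000000000000000 0x18000000180000000c0000000c0000000c000000080000001f0000001c00000010 7 5) 0 0 (step_sound _ 227 [(rh2f68792b6b779e96.shift 3 4), rh834e25cef44d7ee5] (by decide +kernel))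
noncomputable def rh290a9fb7ead95533 : CRef := CRef.mk (Pat.mk 0x1e0000001000000010 0x40000000c000000ee000000ff0000001800000018 7 8) 0 0 (step_sound _ 35 [(rh2276944c880ac368.shift 1 0), (rhb739f4f82bb681b4.shift 0 1)] (by decide +kernel))
noncomputable def rh2425347b71cd950f : CRef := CRef.mk (Pat.mk 0x10000000e000000280000000000000000 0x4000000040000000f30000007e0000002e0000002000000020 7 8) 0 0 (step_sound _ 100 [(rh3f8766e6ecb455ce.shift 0 3), (rhdf4983421b49ae7a.shift 1 0)] (by decide +kernel))
noncomputable def rhb525d050a05c0391 : CRef := CRef.mk (Pat.mk 0x38000000300000002000000000 0xc0000001c0000001c000000380000003e0000007f0000000c 7 7) 0 0 (step_sound _ 132 [(rh2145e1d24b96a57e.shift 4 1), rhd1aff3e9c51ba12e] (by decide +kernel))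
noncomputable def rh66f34fde7f007287 : CRef := CRef.mk (Pat.mk 0xe0000002c0000000800000000 0x1200000012000000730000007e0000002f0000007c00000020 7 7) 0 0 (step_sound _ 100 [(rh226655e3fe6b4a8a.shift 1 2), rh26e8159992a0f45c, (rhdd3ef923ff6c7ad5.shift 0 1)] (by decide +kernel))
noncomputable def rh8977ad8cde131a7b : CRef := CRef.mk (Pat.mk 0x4000000000000001e0000000a 0x1000000170000001f000000330000001e0000000a 7 6) 0 0 (step_sound _ 65 [(rh3244c3cc8379b070.shift 0 1), rh4c421aa493fab9d9] (by decide +kernel))
noncomputable def rhe0e5767efeb17121 : CRef := CRef.mk (Pat.mk 0x40000001e0000000a00000000000000000 0x10000000100000007f000001fe000000e70000002000000020 7 9) 0 0 (step_sound _ 100 [(rh459539c88f7c5ecc.shift 0 2), (rhd1d05263fabc0227.shift 2 2), (rhd5889c99d29bf7d6.shift 3 0), (rhd5eb272e07a4e288.shift 3 3)] (by decide +kernel))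
noncomputable def rhc02ee3fcddc8af0c : CRef := CRef.mk (Pat.mk 0x1e00000002000000000000000000000000 0x600000006000000070000001e00000006000000070000000700000003 7 5) 0 0 (step_sound _ 161 [(rh3244c3cc8379b070.shift 0 4), rhd134aeb916a3a8d5] (by decide +kernel))
noncomputable def rh00569ec8c040c7ff : CRef := CRef.mk (Pat.mk 0x7c00000058000000100000001000000000 0xc00000007f00000058000000f8000000f0000000a0 7 8) 0 0 (step_sound _ 129 [(rh6efbbe82509d261b.shift 3 0), (rhb739f4f82bb681b4.shift 0 3)] (by decide +kernel))
noncomputable def rh6e2fb4a072d2c626 : CRef := CRef.mk (Pat.mk 0x100000001000000018000000280000000800000000 0x10000003f0000001f8000003af0000007c00000020 7 10) 0 0 (step_sound _ 101 [(rh08edf065357d68e5.shift 4 0), (rh1a07419cf7b31cc5.shift 2 2), rh504dd501578bf149] (by decide +kernel))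
noncomputable def rhce70a7eb762d0b5d : CRef := CRef.mk (Pat.mk 0x380000002400000020000000200000000000000000 0x2000000070000003e000000260000003e0000007e0000004e0000000a 7 7) 0 0 (step_sound _ 162 [(rheb0810cc63b001d8.shift 1 4), rhf5c2fe8852c8a1e4] (by decide +kernel))
noncomputable def rh8e53911c00842b22 : CRef := CRef.mk (Pat.mk 0x60000000300000008000000000000000000000000 0x5000000070000000700000006000000030000001e000000070000000700000005 7 5) 0 0 (step_sound _ 97 [(rh215e11e099257d75.shift 1 2), (rh250a4da46cd7f68e.shift 0 2), rh2af0210ad3cd0058, rhffb8e5993241bf15] (by decide +kernel))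
noncomputable def rh60d19540b9746d5a : CRef := CRef.mk (Pat.mk 0x60000000300000008000000000000000000000000 0x5000000070000000700000007000000030000001e000000060000000600000004 7 5) 0 0 (step_sound _ 97 [(rh000637b5a81e86aa.shift 0 1), (rh215e11e099257d75.shift 1 2), (rh250a4da46cd7f68e.shift 0 2), rh2af0210ad3cd0058] (by decide +kernel))
noncomputable def rhc3be5a85d1bef1c4 : CRef := CRef.mk (Pat.mk 0x2000000020000000300000008000000000000000000000000 0x400000007000000070000000300000003000000030000001e000000070000000700000005 7 5) 0 0 (step_sound _ 97 [(rh3562737056d52d9b.shift 0 3), (rh6a56790be92093bf.shift 0 2), rhc850b49d039efae1] (by decide +kernel))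
noncomputable def rh7722674408abc77d : CRef := CRef.mk (Pat.mk 0x18000000180000001a000000000000000000000000 0x5000000070000003f0000001f0000001b000000070000000700000005 7 6) 0 0 (step_sound _ 129 [(rh086f6046fa319626.shift 0 3), (rh760717e835f8c2f3.shift 0 3), (rh7dcc577706dd2abd.shift 0 3), rh902a9a4ba332a6dd] (by decide +kernel))
noncomputable def rh6ec66fba7087e67a : CRef := CRef.mk (Pat.mk 0x1a0000001e00000000 0x10000000700000007000000070000001e0000001e00000003 7 5) 0 0 (step_sound _ 1 [rhd311337ed5cf89c6, rheb0810cc63b001d8] (by decide +kernel))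
noncomputable def rh05b63e365368301c : CRef := CRef.mk (Pat.mk 0x38000000100000000000000008 0xc7000000ff0000003f0000000800000008 7 8) 0 0 (step_sound _ 67 [(rh2820ca9a6c4f41b4.shift 0 2), (rh4dc133ee0ba1420a.shift 1 2), rh5ad181578d8e6357, rhab4bd2663a431673] (by decide +kernel))
noncomputable def rhf61eeaac5a7050bf : CRef := CRef.mk (Pat.mk 0x180000001200000002000000000000000000000000 0x500000007000000070000003f0000001b00000003000000070000000700000005 7 6) 0 0 (step_sound _ 161 [(rh5f452f890cbd7cd4.shift 0 1), (rh6aa533c0d2516c17.shift 0 2), rh6ec64525eab36143, (rh7156846f50bf0aca.shift 0 3), rhabe060634d1463d3, rhc49c5b0433bad702] (by decide +kernel))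
noncomputable def rh65683665a4367d5a : CRef := CRef.mk (Pat.mk 0x80000000300000006000000000000000000000000 0x500000007000000070000001e0000000300000006000000070000000700000005 7 5) 0 0 (step_sound _ 161 [(rh14e0829dc73b6804.shift 0 2), (rh70e33bfdf511e144.shift 1 0), rh7a20fdf79b9062e8, (rh9ab0ed084d168e00.shift 0 2)] (by decide +kernel))
noncomputable def rhf8d2c7754c529ada : CRef := CRef.mk (Pat.mk 0x80000000300000006000000000000000000000000 0x400000006000000060000001e0000000300000007000000070000000700000005 7 5) 0 0 (step_sound _ 161 [(rh70e33bfdf511e144.shift 1 0), rh7a20fdf79b9062e8, (rh9ab0ed084d168e00.shift 0 2), (rhb23658ecdd7ce5df.shift 0 2)] (by decide +kernel))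
noncomputable def rh59da567456d2f726 : CRef := CRef.mk (Pat.mk 0x8000000030000000200000002000000000000000000000000 0x500000007000000070000001e000000030000000300000003000000070000000700000004 7 5) 0 0 (step_sound _ 193 [(rh193da7fc9e1674f1.shift 0 2), (rh8797c67fe3ac847a.shift 0 3), rhccd090adfcfd04c3] (by decide +kernel))
noncomputable def rh490f1f4b9520b041 : CRef := CRef.mk (Pat.mk 0x1a00000018000000180000000000000000 0x500000007000000070000001b0000001f0000003f0000000700000005 7 6) 0 0 (step_sound _ 97 [(rh39f426ebe0691969.shift 0 2), (rh6e1685e3533aff0e.shift 0 3), (rh7174a5174d2fbf5b.shift 0 2), rhbda05185c5effddb] (by decide +kernel))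
noncomputable def rh8e1215a39536ed93 : CRef := CRef.mk (Pat.mk 0x1e0000001a00000000000000000000000000000000 0x30000001e0000001e00000007000000070000000700000001 7 5) 0 0 (step_sound _ 193 [(rh3244c3cc8379b070.shift 0 5), rh49c1ee75098b76ea] (by decide +kernel))
noncomputable def rh699b58f21bb7f044 : CRef := CRef.mk (Pat.mk 0x800000000000000100000003800000000 0x8000000080000003f000000ff000000c7 7 8) 0 0 (step_sound _ 67 [rha1d3b3378370ef82, (rha9fbfd4bb8cf890b.shift 0 1), (rhe2b63c00a3d7bb73.shift 1 1), rhfc39f041bb105480] (by decide +kernel))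
noncomputable def rhdf645b7890f614b7 : CRef := CRef.mk (Pat.mk 0x20000001200000018000000000000000000000000 0x50000000700000007000000030000001b0000003f000000070000000700000005 7 6) 0 0 (step_sound _ 97 [rh168fed7625321222, (rh1d8ef35c5709b6d3.shift 0 1), (rh1e6400bd70fa042e.shift 0 1), (rh540f437d7ed50685.shift 0 1), (rh6cbc7a273dc79062.shift 0 2), (rha2d9b1265af7791e.shift 0 2)] (by decide +kernel))
noncomputable def rhf729c277a7963145 : CRef := CRef.mk (Pat.mk 0x6000000030000001000000000000000000000000000000000 0x4000000060000000600000006000000030000001f00000007000000070000000700000001 7 5) 0 0 (step_sound _ 129 [(rh12452934acb847d5.shift 0 3), (rh215e11e099257d75.shift 1 3), rhc850ef9393baf884] (by decide +kernel))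
noncomputable def rh8d35f07ebd965bd3 : CRef := CRef.mk (Pat.mk 0x3000000120000000300000000000000000 0x1800000018000001df000000fe000001be000000300000001000000010 7 9) 0 0 (step_sound _ 134 [(rh1894f2ed4500f242.shift 2 3), (rh65b5b71720bdfb2f.shift 3 2), rh85ec09a894924863, (rhadc58f335021d7cb.shift 2 3)] (by decide +kernel))
noncomputable def rh447fd4d3c579f185 : CRef := CRef.mk (Pat.mk 0x6000000040000000700000000000000000 0x90000000980000019f000001fe000000ff000000700000002000000020 7 9) 0 0 (step_sound _ 132 [(rh0f231ad93fba7261.shift 2 0), (rh554009a2f490582e.shift 0 3), (rhc92c11e8da6c894f.shift 1 3), (rhd83d09f3c6280def.shift 3 2)] (by decide +kernel))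
noncomputable def rhb38d2f0b884a522a : CRef := CRef.mk (Pat.mk 0x18000000180000000000000010 0x1c0000003c0000000f00000018000000180000001800000010 7 6) 0 0 (step_sound _ 131 [(rh2b4f3c0785538b0e.shift 0 1), (rh9e07f76261b05888.shift 3 0)] (by decide +kernel))
noncomputable def rhacaf1dec1964dd73 : CRef := CRef.mk (Pat.mk 0x10000000020000001e00000000000000000000000000000000 0x1000000070000001f000000060000001e00000003000000070000000700000005 7 5) 0 0 (step_sound _ 97 [rh5f72f36a00a52a06, (rheb0810cc63b001d8.shift 0 3)] (by decide +kernel))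
noncomputable def rh44d6531c7ef9718f : CRef := CRef.mk (Pat.mk 0x30000000200000002000000030 0x4f0000007e000000ff0000003800000030 7 8) 0 0 (step_sound _ 102 [(rh2f68792b6b779e96.shift 5 0), rh894140147c441419] (by decide +kernel))
noncomputable def rhf6383a43a4d8b352 : CRef := CRef.mk (Pat.mk 0x1000000010000000100000001a 0x2f0000003e000000770000001e0000001a 7 7) 0 0 (step_sound _ 101 [rh19627523d11fb339, (rh2f68792b6b779e96.shift 4 0)] (by decide +kernel))
noncomputable def rh4deed075e3d46aba : CRef := CRef.mk (Pat.mk 0x300000001a000000c00000005000000000 0x4000000040000000f0000003f0000001b000000c80000007800000018 7 8) 0 0 (step_sound _ 35 [(rh1c62b6193297d9e3.shift 3 1), rhf8cf83f33ac12b79] (by decide +kernel))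
noncomputable def rh5a198e34aa5d1367 : CRef := CRef.mk (Pat.mk 0x140000001600000006000000020000000000000000 0x80000003c000000160000003e0000003b0000003800000028 7 6) 0 0 (step_sound _ 163 [(rh18965a982d73c794.shift 1 4), rhd34451eeca315e05] (by decide +kernel))
noncomputable def rh73c9385ceb03b91b : CRef := CRef.mk (Pat.mk 0x90000000b0000000a000000000000000000000000 0x40000001f0000001d000000190000000b0000000a0000001c0000001c00000014 7 5) 0 0 (step_sound _ 67 [(rh3976da641ba8418e.shift 0 2), (rh8cdd36b03d57a2f6.shift 2 0)] (by decide +kernel))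
noncomputable def rh628177e2e22def3f : CRef := CRef.mk (Pat.mk 0x1400000016000000160000000000000000 0x28000000380000003800000014000000160000001e0000000b00000002 7 6) 0 0 (step_sound _ 33 [(rh71222050f2c63a3a.shift 1 0), (rh77e0fe17fb8c1b4e.shift 0 1)] (by decide +kernel))
noncomputable def rhe37ea9bb9eb2baa5 : CRef := CRef.mk (Pat.mk 0x120000001600000016000000000000000000000000 0x230000003300000032000000160000001e000000380000003800000028 7 6) 0 0 (step_sound _ 193 [(rh2145e1d24b96a57e.shift 1 3), rhb996f9ffbdac67e4] (by decide +kernel))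
noncomputable def rhd3ac4c405d15beae : CRef := CRef.mk (Pat.mk 0x60000001600000014000000000000000000000000 0x280000003a0000003b0000003e000000160000003c000000300000002000000020 7 6) 0 0 (step_sound _ 193 [rh0aa46799585bc1af, (rh2145e1d24b96a57e.shift 1 3)] (by decide +kernel))
noncomputable def rh2e7ab314c00e4ac4 : CRef := CRef.mk (Pat.mk 0x100000001700000000000000000000000000000000 0x280000003800000038000000100000003f00000038000000380000002800000020 7 6) 0 0 (step_sound _ 100 [(rh2ee329c40df4056f.shift 1 0), (rh45009313f1dc1cd3.shift 0 2), (rhc13e87f7835e0776.shift 0 3), (rhc2c0f24096bccdca.shift 3 1)] (by decide +kernel))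
noncomputable def rhc754b30bf0ce4832 : CRef := CRef.mk (Pat.mk 0x80000000b0000000a0000000a000000000000000000000000 0x50000000f0000001d0000001b0000000b0000000a0000001c0000001c00000014 7 5) 0 0 (step_sound _ 67 [(rh47343c43f1d96dee.shift 0 2), (rh8cdd36b03d57a2f6.shift 2 0)] (by decide +kernel))
noncomputable def rhfae6d335bc204cce : CRef := CRef.mk (Pat.mk 0x80000000b0000000a0000000a 0x100000001d0000001f0000000d0000000b0000000b0000000a 7 5) 0 0 (step_sound _ 130 [rh553892416814ab58, (rhffd04209dc8ea796.shift 2 0)] (by decide +kernel))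
noncomputable def rhb22f0287a51d5e52 : CRef := CRef.mk (Pat.mk 0x160000001400000014000000000000000000000000 0x2000000020000000b0000001e0000001600000014000000380000003800000028 7 6) 0 0 (step_sound _ 193 [rh0edf840d1ad4e8e5, (rhe072fffdd2fccf38.shift 1 3)] (by decide +kernel))
noncomputable def rh6dd622a1e2b981fb : CRef := CRef.mk (Pat.mk 0x200000006000000160000001400000000 0x28000000380000003b0000003e000000160000003c00000008 7 6) 0 0 (step_sound _ 100 [(rh6493ceb007f59211.shift 0 2), (rhda7c17c004b4f878.shift 1 0)] (by decide +kernel))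
noncomputable def rhd37b89f2d83c2639 : CRef := CRef.mk (Pat.mk 0x12000000060000000200000002 0x5000000070000000700000007000000070000001e000000060000000200000002 7 5) 0 0 (step_sound _ 129 [(rh1741680720c097b4.shift 0 1), (rh44f453b84f013105.shift 1 0), rh775b5b9fdaf893f2, (rh92484da65e0167b1.shift 0 1)] (by decide +kernel))
noncomputable def rh3c959928894ec381 : CRef := CRef.mk (Pat.mk 0x480000000c000000400000000000000000 0x80000001c0000007c0000000f0000007c0000001c00000008 7 7) 0 0 (step_sound _ 132 [(rh361cc68994bd8a63.shift 2 3), rh75a3a5c7aa3dc0a0] (by decide +kernel))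
noncomputable def rh6b4f858d9af8e4dc : CRef := CRef.mk (Pat.mk 0x2000000030000001000000000000000000000000000000000 0x5000000070000000700000003000000030000001f0000000f000000070000000700000004 7 5) 0 0 (step_sound _ 129 [(rh12452934acb847d5.shift 0 3), rh60e2265b2a69f75b, (rhc939a205c68c7915.shift 0 2), (rhf7acaebcded2f86e.shift 0 3)] (by decide +kernel))
noncomputable def rhea6fe48d7dc85872 : CRef := CRef.mk (Pat.mk 0x60000000300000010000000000000000000000000 0x5000000070000000700000007000000030000001e000000060000000600000004 7 5) 0 0 (step_sound _ 97 [(rh000637b5a81e86aa.shift 0 1), (rh7dfb6563d40d6241.shift 0 1), rhe0c7925433db9a6b, (rhf7acaebcded2f86e.shift 0 2)] (by decide +kernel))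
noncomputable def rh5d727e9e2cb8a0a4 : CRef := CRef.mk (Pat.mk 0x6000000030000001000000000000000000000000000000000 0x5000000070000000700000006000000030000001f00000007000000070000000700000001 7 5) 0 0 (step_sound _ 129 [(rh12452934acb847d5.shift 0 3), (rh215e11e099257d75.shift 1 3), rhc850ef9393baf884, (rhf7acaebcded2f86e.shift 0 3)] (by decide +kernel))
noncomputable def rhe0a833230a2d30d2 : CRef := CRef.mk (Pat.mk 0x8000000180000000c00000008 0x2000000170000003f0000001f0000000c00000008 7 6) 0 0 (step_sound _ 98 [(rh50fbb5868c909700.shift 2 0), rhf3ad1efa1f35d31a] (by decide +kernel))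
noncomputable def rh4da0bf2b49ae6da1 : CRef := CRef.mk (Pat.mk 0x20000000200000002000000030 0x5f000000fe000000fe0000003000000030 7 8) 0 0 (step_sound _ 102 [rh1396ea5b9f6063c2, (rh2f68792b6b779e96.shift 5 0)] (by decide +kernel))
noncomputable def rhaf20dac045c88d13 : CRef := CRef.mk (Pat.mk 0x180000000c0000000800000000 0x140000001c0000001e0000000f0000001e0000000f0000000c00000004 7 5) 0 0 (step_sound _ 65 [(rh53b3c253cb0c65f4.shift 0 2), rh57b437a2168bbfd2] (by decide +kernel))
noncomputable def rh38f5a6be3f89f342 : CRef := CRef.mk (Pat.mk 0x100000000300000006000000000000000000000000 0x10000000700000007000000070000001f0000000300000006000000060000000600000004 7 5) 0 0 (step_sound _ 161 [(rh70e33bfdf511e144.shift 1 0), (rhc47fe1bc6b175f77.shift 0 1), (rhcc21179e9c7abcbc.shift 0 2)] (by decide +kernel))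
noncomputable def rh53b0d07b4520c100 : CRef := CRef.mk (Pat.mk 0x300000012000000030000000000000000000000000 0x100000001000000030000001be000000fe000001df0000001800000018 7 9) 0 0 (step_sound _ 102 [(rh3d4bb710c6f26f04.shift 2 2), rh643668d75f3dc249, (rh976a453170fe60d9.shift 3 0), (rhefb19ffaaa7a0748.shift 2 2)] (by decide +kernel))
noncomputable def rh5190151f02b373c5 : CRef := CRef.mk (Pat.mk 0x700000004000000060000000000000000000000000 0x200000002000000070000000ff000001fe0000019f0000009800000090 7 9) 0 0 (step_sound _ 100 [(rh58ceac4b2bc72aaa.shift 2 0), (rh7a3ca161ad4117a3.shift 3 0), (rhb12ffaec36122c99.shift 1 2), (rhf7943763ae823400.shift 0 2)] (by decide +kernel))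
noncomputable def rhab690dc9988027b7 : CRef := CRef.mk (Pat.mk 0x10000000000000001800000018000000000000000000000000 0x100000001800000018000000180000000f0000003c0000001c 7 6) 0 0 (step_sound _ 67 [(rhee230b994cc8b773.shift 3 2), rhf59a6115c1be017f] (by decide +kernel))
noncomputable def rhd23270369ababbf5 : CRef := CRef.mk (Pat.mk 0x1e00000002000000100000000000000000 0x50000000700000007000000030000001e000000060000001f0000000700000001 7 5) 0 0 (step_sound _ 161 [rh198320f0f22e8ee8, (rh3244c3cc8379b070.shift 0 4)] (by decide +kernel))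
noncomputable def rh1f6899fc789327bb : CRef := CRef.mk (Pat.mk 0x3000000020000000200000003000000000 0x3000000038000000ff0000007e0000004f 7 8) 0 0 (step_sound _ 38 [(rh55afc6a59410cf00.shift 5 0), rh55f30f146cc2475e] (by decide +kernel))
noncomputable def rh993f8fc304a17471 : CRef := CRef.mk (Pat.mk 0x1a00000010000000100000001000000000 0x1a0000001e000000770000003e0000002f 7 7) 0 0 (step_sound _ 37 [(rh55afc6a59410cf00.shift 4 0), rhb06a7f4d7fd5b1c5] (by decide +kernel))
noncomputable def rh82acaa091ceefd4f : CRef := CRef.mk (Pat.mk 0x50000000c00000001a00000030000000000000000000000000 0x1800000078000000c80000001b0000003f0000000f0000000400000004 7 8) 0 0 (step_sound _ 195 [rh2e2b22190dd09e60, (rhc10214bf3fe8094a.shift 3 5)] (by decide +kernel))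
noncomputable def rh68538c9da66367ba : CRef := CRef.mk (Pat.mk 0x200000006000000160000001400000000 0x28000000380000003b0000003e000000160000003c00000008 7 6) 0 0 (step_sound _ 35 [rh1c46c0cae6b8d95b, (rhf48373e13d2bc128.shift 1 1)] (by decide +kernel))
noncomputable def rh82874e8df3455493 : CRef := CRef.mk (Pat.mk 0xa0000000b00000009000000000000000000000000 0x140000001c0000001c0000000a0000000b000000190000001d0000001f00000004 7 5) 0 0 (step_sound _ 195 [(rhc85cc95794737cf7.shift 2 3), rhf3762042eb1f4b1a] (by decide +kernel))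
noncomputable def rh968530234fcc08bd : CRef := CRef.mk (Pat.mk 0x160000001600000014000000000000000000000000 0x20000000b0000001e0000001600000014000000380000003800000028 7 6) 0 0 (step_sound _ 193 [(rh2145e1d24b96a57e.shift 1 3), rh324990d54b4c7594] (by decide +kernel))
noncomputable def rh2938af1adc3912ac : CRef := CRef.mk (Pat.mk 0x1600000016000000120000000000000000 0x2800000038000000380000001e00000016000000320000003300000023 7 6) 0 0 (step_sound _ 33 [rh27f00178c76304ec, (rh71222050f2c63a3a.shift 1 0)] (by decide +kernel))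
noncomputable def rh0b5e6a45800386fb : CRef := CRef.mk (Pat.mk 0x140000001600000006000000000000000000000000 0x2000000020000000300000003c000000160000003e0000003b0000003a00000028 7 6) 0 0 (step_sound _ 65 [rh54b3c96821ee4bb8, (rh71222050f2c63a3a.shift 1 1)] (by decide +kernel))
noncomputable def rhed073f5a5fc487b4 : CRef := CRef.mk (Pat.mk 0x1700000010000000000000000000000000 0x200000002800000038000000380000003f00000010000000380000003800000028 7 6) 0 0 (step_sound _ 164 [(rh59b11acd61470a21.shift 3 0), rhbbf883590fc37e75, (rhd2f81451d7df0686.shift 1 2), (rhf917b193a69b83d4.shift 0 4)] (by decide +kernel))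
noncomputable def rh80ca7d6ec55069d4 : CRef := CRef.mk (Pat.mk 0xa0000000a0000000b000000080000000000000000 0x140000001c0000001c0000000a0000000b0000001b0000001d0000000f00000005 7 5) 0 0 (step_sound _ 195 [rh9d15c8fdd1e7bedc, (rhc85cc95794737cf7.shift 2 3)] (by decide +kernel))
noncomputable def rh1a687c16a49d3c24 : CRef := CRef.mk (Pat.mk 0xa0000000a0000000b00000008000000000000000000000000 0xa0000000b0000000b0000000d0000001f0000001d00000010 7 5) 0 0 (step_sound _ 66 [rh788fb614d5ec50b6, (rh79877ebd3ef475dd.shift 2 2)] (by decide +kernel))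
noncomputable def rh6411fc036c85f6dc : CRef := CRef.mk (Pat.mk 0x140000001400000016000000000000000000000000 0x28000000380000003800000014000000160000001e0000000b0000000200000002 7 6) 0 0 (step_sound _ 65 [(rh24b1ac9e917f3bd8.shift 0 2), (rhf9af042da61fc652.shift 1 0)] (by decide +kernel))
noncomputable def rhace794de8565254d : CRef := CRef.mk (Pat.mk 0x140000001600000006000000020000000000000000 0x80000003c000000160000003e0000003b0000003800000028 7 6) 0 0 (step_sound _ 100 [(rh32ed7c24a64682a4.shift 1 0), (rhb7616ccf0736ebbe.shift 0 2)] (by decide +kernel))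
noncomputable def rh8ac0375feb65ec36 : CRef := CRef.mk (Pat.mk 0x20000000200000006000000120000000000000000000000000000000000000000 0x200000002000000060000001e0000000700000007000000070000000700000005 7 5) 0 0 (step_sound _ 129 [(rh6a02d9af4f60abc1.shift 0 3), (rh6eff4158bb400f47.shift 0 2), rhc2028c04226b4365, (rhd29a1fb688eae70f.shift 1 3)] (by decide +kernel))
noncomputable def rh8df35a2aa61b8fd6 : CRef := CRef.mk (Pat.mk 0x400000000c000000480000000000000000 0x80000001c0000007c0000000f0000007c0000001c00000008 7 7) 0 0 (step_sound _ 68 [(rh2fe78cc5ca4405d8.shift 2 2), rhaf88c66991945326] (by decide +kernel))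
noncomputable def rhb09fe634ff4deda7 : CRef := CRef.mk (Pat.mk 0x100000000300000002000000000000000000000000 0x400000007000000070000000f0000001f0000000300000003000000070000000700000005 7 5) 0 0 (step_sound _ 161 [rh0d610cc74cba3ac6, (rh433b97a3e346ca44.shift 0 2), rhaac6df22c4ef4a49, (rhc47fe1bc6b175f77.shift 0 1)] (by decide +kernel))
noncomputable def rh604d59a1a247a2ca : CRef := CRef.mk (Pat.mk 0x100000000300000006000000000000000000000000 0x400000006000000060000001e0000000300000007000000070000000700000005 7 5) 0 0 (step_sound _ 161 [(rh1d7913ad4aba122e.shift 0 2), (rh7e653527db30a532.shift 0 2), rhaac6df22c4ef4a49, (rhb23658ecdd7ce5df.shift 0 2)] (by decide +kernel))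
noncomputable def rhf58597dfe0277d79 : CRef := CRef.mk (Pat.mk 0x100000000300000006000000000000000000000000 0x10000000700000007000000070000001f0000000300000006000000070000000700000005 7 5) 0 0 (step_sound _ 161 [(rh70e33bfdf511e144.shift 1 0), rhaac6df22c4ef4a49, (rhc47fe1bc6b175f77.shift 0 1), (rhcc21179e9c7abcbc.shift 0 2)] (by decide +kernel))
noncomputable def rh5f35a4995f96f8f2 : CRef := CRef.mk (Pat.mk 0x80000000c00000018000000080000000000000000 0x80000000c0000001f0000003f0000001700000002 7 6) 0 0 (step_sound _ 66 [(rh932754581e0f4330.shift 2 1), rha1c86d2cb5d99215] (by decide +kernel))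
noncomputable def rhc03d1d5fd6c0a2a4 : CRef := CRef.mk (Pat.mk 0x3000000020000000200000002000000000 0x3000000030000000fe000000fe0000005f 7 8) 0 0 (step_sound _ 38 [(rh55afc6a59410cf00.shift 5 0), rhba4cffecf97534a1] (by decide +kernel))
noncomputable def rh472062a1553a9798 : CRef := CRef.mk (Pat.mk 0x80000000c0000001800000000000000000000000000000000 0x40000000c0000000f0000001e0000000f0000001e0000001c00000014 7 5) 0 0 (step_sound _ 161 [rha2c045904af47f39, (rhb739f4f82bb681b4.shift 0 4)] (by decide +kernel))
noncomputable def rhe437dd67d2565595 : CRef := CRef.mk (Pat.mk 0x400000005300000052000000420000000000000000 0x40000000530000007e000000ef0000007800000028 7 8) 0 0 (step_sound _ 99 [rh3d06ca8054f42b75, (rh5419adcd928dba20.shift 0 3)] (by decide +kernel))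
noncomputable def rhf809877c39da8efa : CRef := CRef.mk (Pat.mk 0x500000005800000042000000200000000000000000 0x50000000780000004f000000f8000000e800000080 7 8) 0 0 (step_sound _ 70 [rh5f479c5c2aebb295, (rh932754581e0f4330.shift 5 1)] (by decide +kernel))
noncomputable def rh8c5fd80fd73a38b4 : CRef := CRef.mk (Pat.mk 0x200000002000000020000000000000000 0x500000007000000070000000200000006000000070000000700000005 7 3) 0 0 (step_sound _ 161 [(rh1741680720c097b4.shift 0 2), (rh5abfc4c9d959be03.shift 0 1), rh9be972b12d547221, (rhced6d86d2069808b.shift 1 1)] (by decide +kernel))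
noncomputable def rh39aba2be4450db88 : CRef := CRef.mk (Pat.mk 0x80000000a000000080000000800000000000000000000000000000000 0x8000001ff000000fc000001f8000000180000001c0000001c00000014 7 9) 0 0 (step_sound _ 164 [(rh01d77078bb61dd4d.shift 1 4), (rh174a767562f03570.shift 0 5), (rh4994faa1b93dabed.shift 2 0)] (by decide +kernel))
noncomputable def rh10938268e7997fb4 : CRef := CRef.mk (Pat.mk 0x80000000a000000080000000800000000000000000000000000000000 0x8000001ff000000fc000001ef0000000c0000001c0000001c00000014 7 9) 0 0 (step_sound _ 164 [(rh01d77078bb61dd4d.shift 1 4), rh30aff4066232e4fb, (rh80650b8e93363f1e.shift 0 3), (rh9ebd639649ea671c.shift 0 5)] (by decide +kernel))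
noncomputable def rh98e81da02e1c1726 : CRef := CRef.mk (Pat.mk 0x400000005000000040000000400000000 0x40000000f0000003e0000003f0000007a 7 7) 0 0 (step_sound _ 33 [rh0474c1333557103a, (rh932754581e0f4330.shift 1 0)] (by decide +kernel))
noncomputable def rh09744b0e0b12763d : CRef := CRef.mk (Pat.mk 0x1400000014000000140000000000000000 0xa0000003a0000007b0000003f000000160000001c0000001800000008 7 7) 0 0 (step_sound _ 164 [(rhd1d8501cd60f7d1a.shift 3 0), (rhe24d232492d0a6ae.shift 0 1), (rhf1422681c6b900c2.shift 1 2)] (by decide +kernel))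
noncomputable def rhbfaa092374ea7b3c : CRef := CRef.mk (Pat.mk 0xa0000000a0000000a000000000000000000000000 0x10000000380000001f0000000b0000001e0000001c0000001c00000014 7 6) 0 0 (step_sound _ 195 [(rh11a243992b58ed44.shift 0 2), (rh95311890f436bcdc.shift 2 0), (rhf1422681c6b900c2.shift 0 3)] (by decide +kernel))
noncomputable def rh77ada954ad055f4e : CRef := CRef.mk (Pat.mk 0xa0000000a00000008000000000000000000000000 0x140000001e0000000b000000080000001c0000001c00000014 7 5) 0 0 (step_sound _ 67 [(rh4a38b3b3b5efb383.shift 2 0), (rh6eff4158bb400f47.shift 2 0), (rh9258736a7488cc35.shift 0 2), (rh9be972b12d547221.shift 2 0)] (by decide +kernel))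
noncomputable def rhc92cf1503da0b447 : CRef := CRef.mk (Pat.mk 0xa0000000800000008000000000000000000000000 0x100000001c0000001f00000008000000180000001c0000001c00000014 7 5) 0 0 (step_sound _ 67 [(rh2c718f29f451ad95.shift 0 2), (rh4a38b3b3b5efb383.shift 2 0), (rh6eff4158bb400f47.shift 2 0), (rh9be972b12d547221.shift 2 0), (rhced6d86d2069808b.shift 3 1)] (by decide +kernel))
noncomputable def rh584475c404e701ef : CRef := CRef.mk (Pat.mk 0x1400000014000000140000000000000000 0x20000002a000000fb0000003f00000016000000340000003000000020 7 8) 0 0 (step_sound _ 164 [(rh6c59ce14113da07f.shift 4 0), (rhb034511df68c2fcf.shift 1 2), (rhe24d232492d0a6ae.shift 0 1)] (by decide +kernel))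
noncomputable def rh12f357f1cbc005b5 : CRef := CRef.mk (Pat.mk 0x80000000a0000000a000000000000000000000000 0x40000001c0000001c000000180000000b0000001e0000001c0000001c00000014 7 5) 0 0 (step_sound _ 195 [(rh11a243992b58ed44.shift 0 2), (rh6c59ce14113da07f.shift 3 1), (rh95311890f436bcdc.shift 2 0), (rhd1d8501cd60f7d1a.shift 2 1)] (by decide +kernel))
noncomputable def rh17d87c96c8ae7cc1 : CRef := CRef.mk (Pat.mk 0x5000000050000000580000004200000000 0x80000002c000000f800000058000000580000004f0000000c 7 8) 0 0 (step_sound _ 133 [rh29da65f5730a9117, (rh50fbb5868c909700.shift 5 1)] (by decide +kernel))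
noncomputable def rh897cf50eb2dd4f57 : CRef := CRef.mk (Pat.mk 0x500000005300000052000000800000000000000000 0x500000005b0000005e000000e8000000f800000028 7 8) 0 0 (step_sound _ 70 [(rh55afc6a59410cf00.shift 6 1), rhbcba93dc58dde2d7] (by decide +kernel))
noncomputable def rh6fdaeaada4868619 : CRef := CRef.mk (Pat.mk 0x80000000a0000000a0000000b000000000000000000000000 0x80000000a0000000b0000001b0000001d0000001f00000005 7 5) 0 0 (step_sound _ 68 [rh1be311393c26bbc4, (rhd3458b32566d63f7.shift 3 2)] (by decide +kernel))
noncomputable def rh5968a43710cc2049 : CRef := CRef.mk (Pat.mk 0xe00000002 0xfc000000ff000000e3 7 8) 0 0 (step_sound _ 36 [rh757e1def9d4f67d9, rheb0810cc63b001d8] (by decide +kernel))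
noncomputable def rh34997c6c45a82ad4 : CRef := CRef.mk (Pat.mk 0x7000000013000000120000000200000000 0x80000000c000000f80000001b0000001e0000000f0000000c 7 8) 0 0 (step_sound _ 67 [rh29da65f5730a9117, (rh5419adcd928dba20.shift 0 2)] (by decide +kernel))
noncomputable def rh9d65deac8c430355 : CRef := CRef.mk (Pat.mk 0x10000000140000001e00000010000000000000000000000000 0x10000000140000001e0000001b0000003e0000003a00000020 7 6) 0 0 (step_sound _ 67 [rh55ef57b3c49aab84, (rh79877ebd3ef475dd.shift 3 2)] (by decide +kernel))
noncomputable def rh7d1dda835f84a090 : CRef := CRef.mk (Pat.mk 0x100000003c0000000000000000 0xa0000000e0000000e0000000f0000001e0000003c0000000e00000004 7 6) 0 0 (step_sound _ 98 [(rh3244c3cc8379b070.shift 1 2), rh72b48ec5d79015c2] (by decide +kernel))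
noncomputable def rh8aa44be36bea6fc8 : CRef := CRef.mk (Pat.mk 0x200000002000000020000000200000000000000000000000000000000 0x200000006000000060000000600000007000000070000000700000004 7 3) 0 0 (step_sound _ 97 [(rh8cdd36b03d57a2f6.shift 0 1), (rhb15406c68698f062.shift 0 1), rhb4d78cd0e58cc17c, (rhd29a1fb688eae70f.shift 1 2)] (by decide +kernel))
noncomputable def rh3029fcc108c82106 : CRef := CRef.mk (Pat.mk 0x20000001a0000000a000000020000000200000000000000000000000000000000 0x20000001a0000000f000000030000000700000006000000070000000700000005 7 5) 0 0 (step_sound _ 97 [(rh81eb361f7144d78f.shift 0 2), (rhd29a1fb688eae70f.shift 1 2), rhf97245a3d45e02d4] (by decide +kernel))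
noncomputable def rh4501b96deca5f8bd : CRef := CRef.mk (Pat.mk 0x20000000200000002000000020000000000000000000000000000000000000000 0x20000000300000003000000030000000700000007000000070000000700000005 7 3) 0 0 (step_sound _ 129 [(rh6eff4158bb400f47.shift 0 2), (rh7928877f9bf74a91.shift 0 3), (rh8e3b1d976c2c4cbf.shift 0 1), rh8f3866a9859e945d] (by decide +kernel))
noncomputable def rh58329680231d6ae5 : CRef := CRef.mk (Pat.mk 0x80000006800000000000000000000000000000000 0x140000003c0000007c0000000f0000003c0000001c00000014 7 7) 0 0 (step_sound _ 99 [(rh01e48cd9f335aa73.shift 2 3), rhc200196990728314, (rheb40d71ad4cca9bd.shift 2 0)] (by decide +kernel))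
noncomputable def rh4d36b3b1f2d3c808 : CRef := CRef.mk (Pat.mk 0x10000000d00000000000000000 0x2000000020000000770000007e000000f70000001000000010 7 8) 0 0 (step_sound _ 99 [(rh5419adcd928dba20.shift 3 2), rh9de826cb639d198d] (by decide +kernel))
noncomputable def rh965eaf349fbb9573 : CRef := CRef.mk (Pat.mk 0x20000001a000000020000000000000000 0x4000000070000000700000007000000060000001e000000070000000600000006 7 5) 0 0 (step_sound _ 98 [rhc729efe2b3ad960c, (rheb0810cc63b001d8.shift 0 2)] (by decide +kernel))
noncomputable def rh0298b1720d80075f : CRef := CRef.mk (Pat.mk 0x20000000200000002000000000000000000000000 0x50000000700000007000000060000000600000006000000070000000700000005 7 3) 0 0 (step_sound _ 65 [rh6eff4158bb400f47, (rha087c6594f4bfb59.shift 0 1), rhcab3157f7bdcba3e, (rhced6d86d2069808b.shift 1 1)] (by decide +kernel))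
noncomputable def rhf4d9888e5a4fa608 : CRef := CRef.mk (Pat.mk 0x20000001a00000002000000000000000000000000 0x500000007000000070000000f0000001b00000006000000060000000600000004 7 5) 0 0 (step_sound _ 65 [(rh330a005829cdd297.shift 0 2), rh46baee19951a66e7, (rha087c6594f4bfb59.shift 0 1), (rhced6d86d2069808b.shift 1 1)] (by decide +kernel))
noncomputable def rheabe0e438c33a4c3 : CRef := CRef.mk (Pat.mk 0x3000000020000000200000002000000000 0x4e000000fe0000007f000000300000003000000010 7 8) 0 0 (step_sound _ 36 [(rh932754581e0f4330.shift 4 0), (rhfb2b44ece8fde0fa.shift 0 1)] (by decide +kernel))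
noncomputable def rhe2f0be86d9180f25 : CRef := CRef.mk (Pat.mk 0x2000000020000000200000000000000000000000000000000 0x300000003000000030000000700000007000000070000000700000005 7 3) 0 0 (step_sound _ 97 [(rh6eff4158bb400f47.shift 0 1), (rh8ff3dde5b1c639e0.shift 0 1), (rhc4526fc8abf298b6.shift 0 1), rhc850b49d039efae1, (rhc9ac229b3c77cd55.shift 0 2)] (by decide +kernel))
noncomputable def rhced73f53d168b489 : CRef := CRef.mk (Pat.mk 0x20000000200000002000000020000000000000000000000000000000000000000 0x20000000300000003000000030000000700000007000000070000000700000005 7 3) 0 0 (step_sound _ 129 [(rh523093e7909fd5eb.shift 0 1), (rh6eff4158bb400f47.shift 0 2), (rh7928877f9bf74a91.shift 0 3), rh8f3866a9859e945d] (by decide +kernel))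
noncomputable def rh79879632b2de51d2 : CRef := CRef.mk (Pat.mk 0x200000002000000020000000200000000 0x40000000700000007000000070000000600000006000000060000000200000002 7 3) 0 0 (step_sound _ 161 [(rh44f453b84f013105.shift 1 1), (rh9bb7d10ce98dcee4.shift 1 0), (rhc2034d656568cc12.shift 0 2), (rhc85cc95794737cf7.shift 0 2)] (by decide +kernel))
noncomputable def rh4b1460bf4627e9b3 : CRef := CRef.mk (Pat.mk 0x20000001a000000020000000000000000 0x5000000070000000700000007000000060000001e000000070000000600000006 7 5) 0 0 (step_sound _ 98 [rhc65d80b3995445ee, (rheb0810cc63b001d8.shift 0 2)] (by decide +kernel))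
noncomputable def rh079ae9ddbbf0d88b : CRef := CRef.mk (Pat.mk 0x200000002000000020000000000000000 0x50000000700000007000000070000000600000003000000070000000700000004 7 3) 0 0 (step_sound _ 161 [(rh193da7fc9e1674f1.shift 0 1), (rh3b734c5288922837.shift 0 1), (rh6c59ce14113da07f.shift 1 0), (rh771d065bdc85bf2d.shift 0 1), (rhc85cc95794737cf7.shift 0 2)] (by decide +kernel))
noncomputable def rha534caa7ffead46e : CRef := CRef.mk (Pat.mk 0x20000001a00000000000000000000000000000000 0x400000006000000070000001e00000007000000070000000700000005 7 5) 0 0 (step_sound _ 130 [(rh3244c3cc8379b070.shift 0 4), rh8520270d5e3f9f36] (by decide +kernel))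
noncomputable def rh37c6865929b64cd4 : CRef := CRef.mk (Pat.mk 0x1000000010000000100000003000000000 0x800000018000000180000007e0000007e0000000f 7 7) 0 0 (step_sound _ 35 [rh3eec3684671df722, (rh932754581e0f4330.shift 3 0)] (by decide +kernel))
noncomputable def rh4456cd0744d45437 : CRef := CRef.mk (Pat.mk 0x1c00000008000000680000000800000000 0x30000003f0000003f0000006c0000001c00000014 7 7) 0 0 (step_sound _ 34 [rh4a272b4b7aced24a, (rh932754581e0f4330.shift 2 0)] (by decide +kernel))
noncomputable def rh21950a721262aa62 : CRef := CRef.mk (Pat.mk 0x20000000200000002000000000000000000000000 0x50000000700000007000000060000000300000003000000070000000700000005 7 3) 0 0 (step_sound _ 193 [(rh1741680720c097b4.shift 0 3), (rh20966da26a1c2ae8.shift 0 2), (rh771d065bdc85bf2d.shift 0 2), rh95311890f436bcdc] (by decide +kernel))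
noncomputable def rh79c806ec3ffd947e : CRef := CRef.mk (Pat.mk 0x20000001a0000000200000000000000000000000000000000 0x4000000070000000f0000001b0000000600000006000000070000000700000005 7 5) 0 0 (step_sound _ 97 [(rh330a005829cdd297.shift 0 3), rhc850b49d039efae1, (rhced6d86d2069808b.shift 1 2)] (by decide +kernel))
noncomputable def rhbd25a435242a4e32 : CRef := CRef.mk (Pat.mk 0x4300000042000000020000000800000000 0x10000004300000042000000630000007e00000074 7 7) 0 0 (step_sound _ 33 [rh48c57ed367a08fb9, (rh50fbb5868c909700.shift 0 1)] (by decide +kernel))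
noncomputable def rh4f2be587b12529e6 : CRef := CRef.mk (Pat.mk 0x30000005a00000008000000000000000000000000 0x1000000030000007a0000000f000000070000000700000005 7 7) 0 0 (step_sound _ 98 [(rh361cc68994bd8a63.shift 2 3), rh5c00cc240277e8a0] (by decide +kernel))
noncomputable def rh00b540c67a2756af : CRef := CRef.mk (Pat.mk 0x80000000a6000000b400000080000000000000000000000000 0x80000000a6000000f6000001de000000ff0000005e0000000a 7 9) 0 0 (step_sound _ 100 [rh33119b6d4c69acfc, (rhc37667a07b8b8963.shift 3 1), (rhfb187e564bf2ca3f.shift 4 1)] (by decide +kernel))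
noncomputable def rhfb57a5aeef790bbe : CRef := CRef.mk (Pat.mk 0x80000000b000000080000000800000000000000000000000000000000 0x80000001f0000001800000018000000180000001c0000001c00000014 7 5) 0 0 (step_sound _ 164 [(rh4994faa1b93dabed.shift 2 0), (rhc10214bf3fe8094a.shift 0 5)] (by decide +kernel))
noncomputable def rhbd3b54bf001bc25c : CRef := CRef.mk (Pat.mk 0x8000000180000001000000000 0x1c0000003c0000000f000000180000001800000018 7 6) 0 0 (step_sound _ 131 [(rh2145e1d24b96a57e.shift 3 1), rhc08b4fc057a242ff] (by decide +kernel))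
noncomputable def rh1c6efd333055354b : CRef := CRef.mk (Pat.mk 0x10000001100000001000000014 0x2f000000fe000001de0000001400000014 7 9) 0 0 (step_sound _ 101 [(rh2f68792b6b779e96.shift 4 0), rhb69527cbdd6de18b] (by decide +kernel))
noncomputable def rhbf02021c77817f50 : CRef := CRef.mk (Pat.mk 0x400000005000000050000000580000000200000000 0x20000000e0000000e0000000e80000006c000000f800000058000000580000000f0000000c 7 8) 0 0 (step_sound _ 133 [rh29da65f5730a9117, (rhd91b73d7ee353e95.shift 5 2)] (by decide +kernel))
noncomputable def rh04b479415565aff9 : CRef := CRef.mk (Pat.mk 0xa0000000a0000000b000000080000000400000000 0x10000000180000001a0000000b0000001b000000190000000f00000005 7 5) 0 0 (step_sound _ 196 [rh31bccff8027fef6e, (rhbaefcd01e0a8bca3.shift 3 2)] (by decide +kernel))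
noncomputable def rhad335599bc762b9d : CRef := CRef.mk (Pat.mk 0x700000001800000000 0x280000003c0000003c000000ff0000007f000000f800000008 7 8) 0 0 (step_sound _ 67 [(rh04adde65229dd8ca.shift 0 1), (rh07e8092d203c09a6.shift 2 0), (rh3e1b7b343686dca1.shift 2 1), (rha181fcaac96efe0b.shift 2 1)] (by decide +kernel))
noncomputable def rh1c470a944acb319b : CRef := CRef.mk (Pat.mk 0x180000000c0000008000000000 0x3000000030000001f0000007f000000e700000004 7 8) 0 0 (step_sound _ 65 [(rh53b3c253cb0c65f4.shift 0 2), rh9215871017093c05] (by decide +kernel))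
noncomputable def rh8ea229f5e9713ea2 : CRef := CRef.mk (Pat.mk 0x180000000e0000008000000000 0x200000006000000070000001f0000007e000000e700000002 7 8) 0 0 (step_sound _ 68 [(rh4189d026c588653f.shift 0 1), rha82bf9e83b78fa91, (rhc078b3dae8bdb359.shift 0 1)] (by decide +kernel))
noncomputable def rh9d85c7883b0b77b1 : CRef := CRef.mk (Pat.mk 0x1000000018000000000000003800000000 0x1000000014000000760000007e0000000f0000003c00000008 7 7) 0 0 (step_sound _ 67 [(rh71222050f2c63a3a.shift 3 0), (rhdf19aad92083bd7a.shift 0 1)] (by decide +kernel))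
noncomputable def rhd20600d06944f4a7 : CRef := CRef.mk (Pat.mk 0x20000000380000001000000030 0x28000000280000002f0000007c0000001e00000034 7 7) 0 0 (step_sound _ 133 [(rh5c5e593799055d58.shift 4 1), rhb7b54a61417ae8e6] (by decide +kernel))
noncomputable def rh6eea909b0c1bec7b : CRef := CRef.mk (Pat.mk 0x80000000e000000800000000400000000 0x80000000a0000007b0000007e000000e70000000400000004 7 8) 0 0 (step_sound _ 66 [(rh432d9cb497b72a60.shift 0 1), (rh71222050f2c63a3a.shift 2 0)] (by decide +kernel))
noncomputable def rhf4fe39f76551673e : CRef := CRef.mk (Pat.mk 0x4000000060000004000000001000000000 0x30000003ff000003fe0000071f0000001800000018 7 11) 0 0 (step_sound _ 100 [(rh1fa77d469e93fa64.shift 2 2), rh329cb8ce43796862, (rha4e887c2a2a0f60b.shift 1 2), (rhb187c60afc43a8a8.shift 3 0), (rhff7d63dcb3cf9f74.shift 3 3)] (by decide +kernel))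
noncomputable def rh79e1f7b4de22e7cd : CRef := CRef.mk (Pat.mk 0x30000002200000002000000020 0x4e000001fe000003bf0000002000000020 7 10) 0 0 (step_sound _ 102 [(rh217d28cf2fc9f922.shift 0 2), (rh2f68792b6b779e96.shift 5 0)] (by decide +kernel))
noncomputable def rh79c0cf18aa204516 : CRef := CRef.mk (Pat.mk 0xe00000082000000020000000200000000 0x730000007e000000e2000000030000000300000001 7 8) 0 0 (step_sound _ 32 [(rh7535e9c8bb560089.shift 0 1), rh932754581e0f4330] (by decide +kernel))
noncomputable def rh0fb3380c10651271 : CRef := CRef.mk (Pat.mk 0x18000000080000000800000048000000000000000000000000 0x8000000180000001c0000000f0000007c0000000c0000000800000008 7 7) 0 0 (step_sound _ 98 [rh2c5feb75c2fc149b, (rh932754581e0f4330.shift 2 2)] (by decide +kernel))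
noncomputable def rhac4faa7dad03c348 : CRef := CRef.mk (Pat.mk 0x14000000040000000400000060000000000000000000000000 0x20000003e00000007000000060000007c000000ee0000000e0000000a 7 8) 0 0 (step_sound _ 98 [(rh2ca6829cf8c2858b.shift 0 2), (rhc850b49d039efae1.shift 1 0), (rhd0b5e121ccd1e6a2.shift 1 2)] (by decide +kernel))
noncomputable def rhfe582f9046590ed2 : CRef := CRef.mk (Pat.mk 0xa00000082000000020000000300000000000000000000000000000000 0x700000007e000000e7000000030000000300000006000000070000000700000005 7 8) 0 0 (step_sound _ 226 [(rh00a864f2ef4b31d8.shift 0 6), rh6165bce3ef93b6cb] (by decide +kernel))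
noncomputable def rhc7722668aa2d0f98 : CRef := CRef.mk (Pat.mk 0x2000000020000001a00000010000000000000000000000000 0x100000003000000030000001b0000001f000000070000000700000005 7 5) 0 0 (step_sound _ 97 [(rha893ef807ce322b1.shift 0 2), (rhc4526fc8abf298b6.shift 0 1), rhc850b49d039efae1] (by decide +kernel))
noncomputable def rh4291f80c62395165 : CRef := CRef.mk (Pat.mk 0x28000000080000000800000000 0x140000001c0000001c0000000f0000007c0000000f0000000c00000004 7 7) 0 0 (step_sound _ 131 [(rh193da7fc9e1674f1.shift 2 0), (rh7430a052bcb4bacd.shift 0 1), rhac09afe906154c2a] (by decide +kernel))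
noncomputable def rh13b7b4cecee73cc4 : CRef := CRef.mk (Pat.mk 0xa00000002000000020000001200000000 0x1000000030000001f00000006000000030000001e00000007 7 5) 0 0 (step_sound _ 34 [rh01ffa636bb73fde1, (rh55afc6a59410cf00.shift 1 0)] (by decide +kernel))
noncomputable def rh75567da539a59428 : CRef := CRef.mk (Pat.mk 0x7000000000000000c00000018 0x5000000070000000700000007000000020000000f0000001e 7 5) 0 0 (step_sound _ 33 [rhb739f4f82bb681b4, rhd38ab81f4fae2dab] (by decide +kernel))
noncomputable def rh77fd67cf7d418f10 : CRef := CRef.mk (Pat.mk 0xa000000820000001a00000010000000000000000000000000 0x740000007e000000e70000001b0000001f000000070000000700000005 7 8) 0 0 (step_sound _ 97 [rh95311890f436bcdc, (rha893ef807ce322b1.shift 0 2), (rhd630af2e39ca770f.shift 0 2), (rhfb849e74918a9745.shift 0 3)] (by decide +kernel))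
noncomputable def rh3fe25ec969704845 : CRef := CRef.mk (Pat.mk 0x10000000500000001000000010 0x2f0000003e000000770000001000000010 7 7) 0 0 (step_sound _ 99 [(rh50fbb5868c909700.shift 3 0), rhc14f1a3947a908fc] (by decide +kernel))
noncomputable def rhfbb519b1183670ff : CRef := CRef.mk (Pat.mk 0x2000000020000000200000002 0x500000007000000070000000700000006000000060000000600000002 7 3) 0 0 (step_sound _ 129 [(rh1741680720c097b4.shift 0 1), (rh44f453b84f013105.shift 1 0), (rh66ee4e4e1313f0fc.shift 0 1), rhf747f40a263bf851] (by decide +kernel))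
noncomputable def rhf89edf73a5e15437 : CRef := CRef.mk (Pat.mk 0x20000000200000002000000030 0x5e000000fe0000007f0000003000000030 7 8) 0 0 (step_sound _ 100 [(rh50fbb5868c909700.shift 4 0), rhfb2b44ece8fde0fa] (by decide +kernel))
noncomputable def rhb1691dc24319721b : CRef := CRef.mk (Pat.mk 0x2000000020000000200000000000000000000000000000000 0x50000000700000007000000070000000200000006000000070000000700000005 7 3) 0 0 (step_sound _ 97 [(rh8ff3dde5b1c639e0.shift 0 1), rh95311890f436bcdc, (rhc85cc95794737cf7.shift 0 3)] (by decide +kernel))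
noncomputable def rh1b4f0069412b7448 : CRef := CRef.mk (Pat.mk 0x200000002000000020000000200000000 0x10000000700000007000000070000000300000003000000030000000200000002 7 3) 0 0 (step_sound _ 161 [rh0105b2139521f473, (rh1741680720c097b4.shift 0 2), (rh3ca48e2a6d60153d.shift 0 1), (rhe01cfd8f0577defd.shift 0 2)] (by decide +kernel))
noncomputable def rhdd84cee66008963d : CRef := CRef.mk (Pat.mk 0x1e000000000000000000000000 0x200000007000000070000003f0000001e000000070000000200000002 7 6) 0 0 (step_sound _ 65 [rha70965866e3b6783, (rheb0810cc63b001d8.shift 0 2)] (by decide +kernel))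
noncomputable def rhd8a09c23402609b8 : CRef := CRef.mk (Pat.mk 0x1e000000020000000000000000 0x50000000700000007000000370000001e000000060000000600000006 7 6) 0 0 (step_sound _ 129 [(rh3244c3cc8379b070.shift 0 3), rh52a1d53af676a1bf] (by decide +kernel))
noncomputable def rhfcca778270d78265 : CRef := CRef.mk (Pat.mk 0x20000001e0000000200000000 0x400000007000000070000000f0000003e0000001e0000000600000004 7 6) 0 0 (step_sound _ 100 [(rh33e738c4ed385b9f.shift 1 2), rhcb1e7f6fce82b994] (by decide +kernel))
noncomputable def rh7503b04969fe6b86 : CRef := CRef.mk (Pat.mk 0x1e0000000000000000 0x200000007000000070000003f0000001e0000000700000002 7 6) 0 0 (step_sound _ 33 [rhdbbbcbf789385e3d, (rheb0810cc63b001d8.shift 0 1)] (by decide +kernel))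
noncomputable def rh0840c6cc2eab6d70 : CRef := CRef.mk (Pat.mk 0x380000000000000060000000c00000000000000000 0x140000007c0000001f00000078000000fc0000001c00000014 7 8) 0 0 (step_sound _ 99 [(rhab22b5b56e7b3243.shift 3 2), rhff44c2044230d4f6] (by decide +kernel))
noncomputable def rhf9a4d64d41965934 : CRef := CRef.mk (Pat.mk 0x1c00000100000000380000006000000000 0x1800000018000000f8000000fc000001cf000000380000007f000000ee 7 9) 0 0 (step_sound _ 99 [(rh215e11e099257d75.shift 3 1), (rh5af6602f33bab971.shift 0 1), rh61147287bacde07b, (rhf489700a5c89a9a3.shift 1 0)] (by decide +kernel))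
noncomputable def rhef1db6dac90851f4 : CRef := CRef.mk (Pat.mk 0x3c000000000000001000000000 0x67000000ff0000001c0000001000000010 7 8) 0 0 (step_sound _ 133 [(rh33e738c4ed385b9f.shift 2 3), rh5d2adca68160550d] (by decide +kernel))
noncomputable def rh19d493f5ae85a4a3 : CRef := CRef.mk (Pat.mk 0x3800000000000000680000000000000000 0x40000000f0000007e0000000f000000680000003c0000001c 7 7) 0 0 (step_sound _ 130 [(rh26ddc4471ca3f46d.shift 1 1), (rh592c7139d2c44767.shift 0 3), (rhd0f2e39b54bcbf0d.shift 1 1), (rhedbb7568c6a4a24d.shift 1 0)] (by decide +kernel))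
noncomputable def rh2439bc6aef3fc917 : CRef := CRef.mk (Pat.mk 0x38000000000000003000000018 0x670000003e00000017000000300000001e 7 7) 0 0 (step_sound _ 2 [(rh53b3c253cb0c65f4.shift 1 0), rhfdf65b4fc421f840] (by decide +kernel))
noncomputable def rh6e0d248e3b80ac14 : CRef := CRef.mk (Pat.mk 0x200000002000000020000000600000002 0x50000000700000007000000020000000300000003000000070000000600000002 7 3) 0 0 (step_sound _ 96 [rh50fbb5868c909700, (rhb10553d5aa562ca6.shift 0 1)] (by decide +kernel))
noncomputable def rhecafb423dbcf6ddd : CRef := CRef.mk (Pat.mk 0x300000001000000070000000f0000000000000000000000000 0xc8000000fc0000003f00000070000000f0000001800000008000000080 7 9) 0 0 (step_sound _ 195 [(rh50fbb5868c909700.shift 3 3), rhd9bd2ad84374c708] (by decide +kernel))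
noncomputable def rhcf7c6259d0c8bf4c : CRef := CRef.mk (Pat.mk 0x2000000030000000e0000000800000000000000000000000000000000 0x500000007000000070000000600000007000000070000000e0000000b00000007000000070000000700000005 7 4) 0 0 (step_sound _ 129 [(rh39b036797fb07457.shift 0 1), (rh5192e84255fe3228.shift 0 2), (rh6a72a5c3700b3c19.shift 0 4), (rhc14d8284457bdedb.shift 0 1), rhcba2557ba2a81cae] (by decide +kernel))
noncomputable def rhfbefa303347a40ab : CRef := CRef.mk (Pat.mk 0x800000008000000380000006000000000000000000000000000000000 0x800000018000000380000007f0000001c0000001c0000001c00000014 7 7) 0 0 (step_sound _ 131 [(rh4994faa1b93dabed.shift 2 0), (rh667bb06ee5773080.shift 2 0), (rh84a994e387d68e2f.shift 2 1), (rh852e818bc8629e77.shift 0 3)] (by decide +kernel))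
noncomputable def rh0d778990f1c01716 : CRef := CRef.mk (Pat.mk 0x200000002000000060000000000000000000000000000000000000000 0x5000000070000000700000007000000060000000300000007000000070000000700000005 7 3) 0 0 (step_sound _ 129 [(rh1741680720c097b4.shift 0 4), (rh373b7625e672cfd8.shift 0 3), (rh49759b6975f15643.shift 0 1), rh667bb06ee5773080, (rh9e174856810c5f95.shift 0 1), (rhcab3157f7bdcba3e.shift 0 2)] (by decide +kernel))
noncomputable def rhbd3f7aaa5b31687a : CRef := CRef.mk (Pat.mk 0x800000018000000380000002000000000 0xf7000000ff0000001f000000380000002800000008 7 8) 0 0 (step_sound _ 132 [(rh2145e1d24b96a57e.shift 4 1), rh331c4c2c79088035] (by decide +kernel))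
noncomputable def rhea12a3b50176196c : CRef := CRef.mk (Pat.mk 0x1800000018000000380000000000000000 0xc0000000f0000007c0000001e000000380000000800000008 7 7) 0 0 (step_sound _ 98 [(rhb739f4f82bb681b4.shift 1 2), rhc0217ab91b2ec9c3] (by decide +kernel))
noncomputable def rh960aaa25ee393022 : CRef := CRef.mk (Pat.mk 0x4000000040000001c0000003000000000000000000000000000000000 0xc0000000c0000001c0000003f0000000e0000000e0000000e0000000a 7 6) 0 0 (step_sound _ 130 [(rh754f098ce4d3ee3e.shift 2 1), (rh7ec584bbeb9ce38d.shift 1 0), (rhc14d8284457bdedb.shift 1 1), (rhcba2557ba2a81cae.shift 1 0), (rhfbf2eae4035425b6.shift 0 3)] (by decide +kernel))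
noncomputable def rh9185107e9f8e405a : CRef := CRef.mk (Pat.mk 0x3800000000000000680000000000000000 0x80000000c0000000f0000007e0000000f0000006c0000003c0000001c 7 7) 0 0 (step_sound _ 130 [(rh26ddc4471ca3f46d.shift 1 1), (rh43dc67402634d54f.shift 1 2), (rh775ca1963e850b80.shift 0 3), (rhedbb7568c6a4a24d.shift 1 0)] (by decide +kernel))
noncomputable def rha1826255f1f84bae : CRef := CRef.mk (Pat.mk 0xe000000800000001a0000000000000000 0x730000007e000000e30000001b0000000f00000005 7 8) 0 0 (step_sound _ 132 [rh9ad140cad4d50694, (rhd458cf0431fcb667.shift 1 3)] (by decide +kernel))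
noncomputable def rh2f5360b5ad08d90e : CRef := CRef.mk (Pat.mk 0x1800000100000000040000000400000000 0x2000000ef000000fe000001c7000000060000000600000002 7 9) 0 0 (step_sound _ 130 [(rh6d5e9c46a456733d.shift 1 1), (rh8b7ec1b2b48007ba.shift 0 3), (rhbcc219399b389c7c.shift 1 0), (rhfbfdaa7871252f1e.shift 0 1)] (by decide +kernel))
noncomputable def rha385b7e569ce0aff : CRef := CRef.mk (Pat.mk 0x70000004000000001000000000 0x2000000028000003ff000003fe000007170000001000000010 7 11) 0 0 (step_sound _ 99 [(rh15b856e33c69f807.shift 0 2), (rh26ddc4471ca3f46d.shift 2 0), (rh29b60c546f1f465c.shift 2 0), (rh4c622fddc53a5f99.shift 1 3), (rhe2a056e1a6cfcc1d.shift 2 2)] (by decide +kernel))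
noncomputable def rha0a71f416b3c80b0 : CRef := CRef.mk (Pat.mk 0x18000001100000001000000000 0xef000000fe000001d70000001000000010 7 9) 0 0 (step_sound _ 101 [(rh261f868a429ae0e3.shift 3 0), (rh3e4afc855cf09eb7.shift 0 2), (rh675da2bd003e49f9.shift 2 0)] (by decide +kernel))
noncomputable def rhfce861f7bf6425ca : CRef := CRef.mk (Pat.mk 0x300000002000000020000000200000000 0x50000000700000007000000060000000700000003000000030000000200000002 7 3) 0 0 (step_sound _ 161 [(rh44f453b84f013105.shift 1 1), rhc4c6de062e376aad, rhcd0f91aa761da866] (by decide +kernel))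
noncomputable def rh5b30dba9957872e4 : CRef := CRef.mk (Pat.mk 0x200000002000000020000000600000000000000000000000000000000 0x10000000300000003000000060000000600000003000000070000000700000005 7 3) 0 0 (step_sound _ 224 [(rh50fbb5868c909700.shift 0 4), rha02b0a315aea9d8b] (by decide +kernel))
noncomputable def rh5425a8da46388d02 : CRef := CRef.mk (Pat.mk 0x2000000020000000e0000000800000000000000000000000000000000 0x5000000070000000700000007000000060000000e0000000b00000003000000070000000700000005 7 4) 0 0 (step_sound _ 129 [(rh82c5a5276b42f094.shift 0 3), (rhc85cc95794737cf7.shift 0 4), rhcba2557ba2a81cae, (rhed1d60224f77d6f7.shift 0 4)] (by decide +kernel))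
noncomputable def rh6a2243783d7ebeca : CRef := CRef.mk (Pat.mk 0x200000002000000020000000600000002 0x50000000700000007000000020000000300000003000000070000000600000002 7 3) 0 0 (step_sound _ 161 [(rhd3458b32566d63f7.shift 1 1), rhd5b0780ae98fd31c] (by decide +kernel))
noncomputable def rh7dab7edc690d2789 : CRef := CRef.mk (Pat.mk 0x200000004000000840000000400000000 0x8000000080000003f0000007f000000e60000000400000004 7 8) 0 0 (step_sound _ 99 [(rh215e11e099257d75.shift 2 0), rh87eaf0480ab90576, (rhc705a4e0321a1bff.shift 1 0), (rhf4e4b97789bfcf7e.shift 0 1)] (by decide +kernel))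
noncomputable def rh642c7f59d8cca692 : CRef := CRef.mk (Pat.mk 0x800000008000000080000003800000020 0xc0000001f0000007c0000001e0000003800000020 7 7) 0 0 (step_sound _ 68 [(rh2145e1d24b96a57e.shift 3 1), rh3055c97658abea37] (by decide +kernel))
noncomputable def rh0f4f5e983b383ce5 : CRef := CRef.mk (Pat.mk 0x10000000100000001000000010 0x2f0000007e000000ff0000001000000010 7 8) 0 0 (step_sound _ 101 [rh2c36f73d87c98083, (rh2f68792b6b779e96.shift 4 0)] (by decide +kernel))
noncomputable def rh87dd4c00dcd5841a : CRef := CRef.mk (Pat.mk 0x3000000014000000300000001000000000 0xf0000003e00000016000000340000001e00000008 7 6) 0 0 (step_sound _ 131 [(rh50fbb5868c909700.shift 3 1), rh5e4d3f6c641592fb] (by decide +kernel))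
noncomputable def rhe94e347df672e88b : CRef := CRef.mk (Pat.mk 0x8000000080000003800000000000000000000000000000000 0x100000001c0000001c0000003c0000001f000000380000000c0000001c0000001c00000014 7 6) 0 0 (step_sound _ 99 [(rh3a61644a128cd4ab.shift 0 2), rh705fea0805cf90d4, (rh82c5a5276b42f094.shift 2 2), (rhcab3157f7bdcba3e.shift 2 1), (rhd716e2ab31203e19.shift 0 2)] (by decide +kernel))
noncomputable def rha88c87c7d4c65be1 : CRef := CRef.mk (Pat.mk 0x1800000110000000300000002000000000 0x400000004000000e7000000ff000001df000000380000003e0000001e 7 9) 0 0 (step_sound _ 99 [(rh2ea805e6ad9a2539.shift 1 0), (rh49c19d5e04bef9a6.shift 1 0), (rha9dff0ad90a2dd1d.shift 0 2)] (by decide +kernel))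
noncomputable def rh59b20a83ad3a2740 : CRef := CRef.mk (Pat.mk 0x7000000000 0xff000001fe000001c7 7 9) 0 0 (step_sound _ 35 [rh15b856e33c69f807, (rhb5cc59616ce1bd02.shift 2 0), (rhe401600d466b97cd.shift 2 0)] (by decide +kernel))
noncomputable def rh8c1d1de12a5dfe82 : CRef := CRef.mk (Pat.mk 0x1e000000000000000400000000 0x4000000370000001e000000330000000600000006 7 6) 0 0 (step_sound _ 68 [rh9d908ca1a76a073c, (rhe25b0a99195a5d59.shift 1 2)] (by decide +kernel))
noncomputable def rh38194636140b0b09 : CRef := CRef.mk (Pat.mk 0x1e00000002 0x400000007000000070000000f0000003f0000001e00000006 7 6) 0 0 (step_sound _ 65 [(rh3244c3cc8379b070.shift 0 1), rh5ea3d05f123fec30] (by decide +kernel))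
noncomputable def rhb67995d9b8c191cf : CRef := CRef.mk (Pat.mk 0xe000000060000000c0 0x30000000300000003e000000fe0000007f000000c0 7 8) 0 0 (step_sound _ 68 [(rh2cc7d62e70c02209.shift 2 1), (rh5f78974281da546e.shift 3 0), (rhace16348de435294.shift 2 0), (rhba89ab7cb81bcc90.shift 2 1), (rhe15c56d4137cf69b.shift 0 1)] (by decide +kernel))
noncomputable def rha4ba4a2d923cbc47 : CRef := CRef.mk (Pat.mk 0xc00000006000000180000003000000000 0x120000003e0000000e0000001c0000003f0000000f 7 6) 0 0 (step_sound _ 132 [(rh18965a982d73c794.shift 1 3), rh97b6053154f0c55f] (by decide +kernel))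
noncomputable def rh9dfa600520b0cd44 : CRef := CRef.mk (Pat.mk 0xe0000000200000000000000000 0x10000000100000003f000000fe0000007f0000002000000020 7 8) 0 0 (step_sound _ 100 [(rh8fe4e7f38cd0202b.shift 0 2), (rhd5889c99d29bf7d6.shift 3 0), (rhe15c56d4137cf69b.shift 0 2)] (by decide +kernel))
noncomputable def rh392314259252cd8a : CRef := CRef.mk (Pat.mk 0x1e0000000400000008000000000000000000000000 0x600000006000000360000001e000000070000000c0000000c0000000c00000008 7 6) 0 0 (step_sound _ 129 [(rh406d1a1ee7613dfd.shift 1 0), (rheb0810cc63b001d8.shift 0 4)] (by decide +kernel))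
noncomputable def rhf84a249e25f68613 : CRef := CRef.mk (Pat.mk 0x180000011800000030 0x40000000c000000ef000000ff000001df00000038 7 9) 0 0 (step_sound _ 69 [rh1e9d1a71ef03f386, (rh2ed427353258d8dd.shift 1 0), (rh30b1045e318f0560.shift 0 1), (rhcf4316681f1a3ab1.shift 2 1)] (by decide +kernel))
noncomputable def rh3867295c14ae187b : CRef := CRef.mk (Pat.mk 0x3800000200 0x1cf000001fe0000038f 7 10) 0 0 (step_sound _ 34 [rh592c7139d2c44767, (rha2c3460320009baa.shift 1 0), (rhe2a056e1a6cfcc1d.shift 1 0)] (by decide +kernel))
noncomputable def rhc170f0dd98931ff9 : CRef := CRef.mk (Pat.mk 0x4000000000000000e00000080 0x10000000700000007000000730000007e000000e7 7 8) 0 0 (step_sound _ 36 [(rh0f1f75917d11acd2.shift 1 0), rh155fd1d16c429f55, rh4189d026c588653f] (by decide +kernel))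
noncomputable def rhf4fc63ae4deed1fa : CRef := CRef.mk (Pat.mk 0x7000000440 0x3bf000003ff00000767 7 11) 0 0 (step_sound _ 35 [rh36eba2a3de447758, rhb072768ca47cd6e6, (rhd1d05263fabc0227.shift 1 0), (rhe2a056e1a6cfcc1d.shift 2 0)] (by decide +kernel))
noncomputable def rh0d56160e37f800fb : CRef := CRef.mk (Pat.mk 0x78000004400000004000000000 0x2000000020000003b7000003fe000007780000005000000010 7 11) 0 0 (step_sound _ 103 [(rh0f1f75917d11acd2.shift 4 2), (rh4189d026c588653f.shift 3 2), rh76d226dd781a0516] (by decide +kernel))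
noncomputable def rhb9ce1429ba36f8a2 : CRef := CRef.mk (Pat.mk 0x1800000018000000080000000800000000 0xa0000003f0000001f0000000f0000000c00000004 7 6) 0 0 (step_sound _ 34 [(rh932754581e0f4330.shift 2 0), (rhf7f3a5a26df95106.shift 0 1)] (by decide +kernel))
noncomputable def rh68e4b3ae7c660a96 : CRef := CRef.mk (Pat.mk 0x180000001800000030 0xc0000000c000000ef000000ff0000001f00000030 7 8) 0 0 (step_sound _ 69 [(rh0f936b2c74e7b815.shift 2 0), (rh2ed427353258d8dd.shift 1 0), (rh30b1045e318f0560.shift 0 1), rhaa5e37873c1fbb65] (by decide +kernel))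
noncomputable def rh102693511df8148b : CRef := CRef.mk (Pat.mk 0x200000003000000060000000000000000000000000000000000000000 0x1d0000001f00000007000000060000000600000006000000070000000700000005 7 5) 0 0 (step_sound _ 129 [rh4994faa1b93dabed, (rh796a9789bfc927af.shift 0 3), (rhe286c75f2739cce2.shift 0 3)] (by decide +kernel))
noncomputable def rh2b4f4fe1e74e5cff : CRef := CRef.mk (Pat.mk 0x200000003000000060000001800000000000000000000000000000000 0x1d0000001f00000007000000060000001e00000007000000070000000700000005 7 5) 0 0 (step_sound _ 129 [(rh49759b6975f15643.shift 0 1), rh4994faa1b93dabed, (rh796a9789bfc927af.shift 0 3), (rh84a994e387d68e2f.shift 0 1), (rh8bbe4ceaae1efe77.shift 0 3), (rhe286c75f2739cce2.shift 0 3)] (by decide +kernel))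
noncomputable def rhe5dfcd491d6e1bd6 : CRef := CRef.mk (Pat.mk 0x4000000020000001800000038000000080000000000000000 0x50000000f0000001f0000003a0000000f0000000600000004 7 6) 0 0 (step_sound _ 129 [rh451f3ac825ff5cfb, (rhab22b5b56e7b3243.shift 1 3)] (by decide +kernel))
noncomputable def rhe891d25979c9ca08 : CRef := CRef.mk (Pat.mk 0x4000000020000001800000038000000000000000000000000 0x80000000c0000000f0000001c0000003f0000006f0000002000000020 7 7) 0 0 (step_sound _ 98 [(rh245c4add6bbc5798.shift 0 2), rh2f72f135c4177c5b, (rhcc2be1f880c5ea3e.shift 0 2), rhfe763aeedfd677d7] (by decide +kernel))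
noncomputable def rh71318739ecbc3ffb : CRef := CRef.mk (Pat.mk 0x4000000020000001800000038000000000000000000000000 0x80000000c0000000f0000001b0000003f0000006f0000002400000024 7 7) 0 0 (step_sound _ 98 [rh2f72f135c4177c5b, (rhcc2be1f880c5ea3e.shift 0 2), (rhcfde16a7ff36af03.shift 1 0), (rhd725c79ab5208c5e.shift 0 2)] (by decide +kernel))
noncomputable def rh653c2f629cf21262 : CRef := CRef.mk (Pat.mk 0x4000000020000001800000038000000000000000000000000 0x5000000070000001f0000003f000000070000000700000005 7 6) 0 0 (step_sound _ 129 [rh669aa77f2a61fe1c, (rhab22b5b56e7b3243.shift 1 3)] (by decide +kernel))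
noncomputable def rhd4f727ca2399a462 : CRef := CRef.mk (Pat.mk 0x3000000018000000100000000000000000 0x80000001c0000001f0000003f0000001f000000180000001800000010 7 6) 0 0 (step_sound _ 131 [(rhb1a251d9bff81766.shift 3 1), (rhc38f566cab2818e5.shift 3 0), (rhd95388f93570b312.shift 0 1)] (by decide +kernel))
noncomputable def rhe45cb71df1dcb7e9 : CRef := CRef.mk (Pat.mk 0x200000003000000020000000000000000000000000000000000000000 0x3000000030000000300000003000000030000000300000003000000070000000700000005 7 3) 0 0 (step_sound _ 129 [(rh968ba7b0df7e4096.shift 0 3), rhda8986cb4bfcd9d6, (rhe286c75f2739cce2.shift 0 3)] (by decide +kernel))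
noncomputable def rh13d5c1737724b7f8 : CRef := CRef.mk (Pat.mk 0x80000002800000018000000d00000008000000000 0x14000000df000000fc0000005f000000dc0000008c00000004 7 8) 0 0 (step_sound _ 132 [(rh225f5067204dfb4f.shift 3 1), (rh2820ca9a6c4f41b4.shift 0 3), rh4cd2f31074c32c98] (by decide +kernel))
noncomputable def rh7faccd1efcc5f308 : CRef := CRef.mk (Pat.mk 0x2800000018000000d00000009000000000 0x1000000010000000d4000000ff0000005f000000d80000009800000008 7 8) 0 0 (step_sound _ 132 [(rh2820ca9a6c4f41b4.shift 0 3), (rh2def2f8fd1fe3b39.shift 3 0), rhdcd96714846832bc] (by decide +kernel))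
noncomputable def rh734d84bb129a235f : CRef := CRef.mk (Pat.mk 0x1e000000000000000000000000 0x1000000070000000700000007000000070000001e000000070000000600000006 7 5) 0 0 (step_sound _ 129 [(rh3244c3cc8379b070.shift 0 3), rh81c2a7048c3c64c2] (by decide +kernel))
noncomputable def rh78a2ae019a90c733 : CRef := CRef.mk (Pat.mk 0x4000000030000001a0000001200000000 0x10000000b0000001f0000000f0000001b0000001300000001 7 5) 0 0 (step_sound _ 99 [(rhc10214bf3fe8094a.shift 0 2), rhd3b7a324efe9bfc5] (by decide +kernel))
noncomputable def rh55308d67c546621c : CRef := CRef.mk (Pat.mk 0x7000000018000000100000000000000000 0x8000000080000001c0000007f00000038000000180000001800000018 7 7) 0 0 (step_sound _ 131 [rh1a408a5f92c3096d, (rh1c1037cb5b3fe471.shift 2 2), (rhc38f566cab2818e5.shift 3 0)] (by decide +kernel))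
noncomputable def rh306e0bd49a008e51 : CRef := CRef.mk (Pat.mk 0x20000001a000000120000000200000000000000000000000000000000 0x20000001b0000001f0000000300000007000000070000000700000005 7 5) 0 0 (step_sound _ 162 [(rh7e2297059c77b3a4.shift 0 5), (rh84f01cf2134210c0.shift 0 3), rhd871a2a77edf81aa] (by decide +kernel))
noncomputable def rhbdfe061a979a2f2d : CRef := CRef.mk (Pat.mk 0xc00000002000000180000001000000000 0x80000000c0000000f0000001b0000001f0000000e 7 5) 0 0 (step_sound _ 99 [(rh2145e1d24b96a57e.shift 3 1), rh6fc6351fd2f3b6b2] (by decide +kernel))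
noncomputable def rh69b429538faa6466 : CRef := CRef.mk (Pat.mk 0x30000002080000006000000040 0x1e7000001fe000003af0000006000000040 7 10) 0 0 (step_sound _ 99 [(rh00a864f2ef4b31d8.shift 2 2), (rh2820ca9a6c4f41b4.shift 0 2), rh76d685b198ce25b0, (rhc1cffdf5ca849f14.shift 2 0)] (by decide +kernel))
noncomputable def rh45aa62a864c28db9 : CRef := CRef.mk (Pat.mk 0x6000000410000000c00000008000000000000000000000000 0x7c0000003f000000770000000c0000000c000000060000000600000006 7 7) 0 0 (step_sound _ 195 [(rh03238141166ed50f.shift 0 5), (rh7958b8fa933a16b4.shift 1 0), (rh99e2251b4930b5a4.shift 0 3)] (by decide +kernel))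
noncomputable def rh0b4cf4ea50bfddd7 : CRef := CRef.mk (Pat.mk 0xc00000002000000180000001000000000 0x80000000c0000000f0000001c0000001f0000000f 7 5) 0 0 (step_sound _ 99 [(rh2145e1d24b96a57e.shift 3 1), rhfc87a8e15e5be2ed] (by decide +kernel))
noncomputable def rha010bb76e16a849f : CRef := CRef.mk (Pat.mk 0x10000000100000001000000098000000000000000000000000 0x1000000010000000180000001f000000ff000000070000000400000004 7 8) 0 0 (step_sound _ 131 [(rh5c5e593799055d58.shift 3 3), rhec180667ec552f8c] (by decide +kernel))
noncomputable def rhaca92f83e26f9970 : CRef := CRef.mk (Pat.mk 0x6000000020000000200000016 0x40000000600000007000000030000000700000007000000030000001e 7 5) 0 0 (step_sound _ 128 [rh3ce3f54825b789a6, rhffd04209dc8ea796] (by decide +kernel))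
noncomputable def rh189711dc5baa310e : CRef := CRef.mk (Pat.mk 0x80000001c00000018000000100000000000000000 0x60000000f0000001c0000001e0000007c0000000c0000000c 7 7) 0 0 (step_sound _ 67 [(rh40241bd608e5be1a.shift 2 0), (rh46530d756bdf8511.shift 2 0), (rhe286c75f2739cce2.shift 2 1), (rhefefa9adde9c5b0c.shift 0 1)] (by decide +kernel))
noncomputable def rh0c346e5f11db15e7 : CRef := CRef.mk (Pat.mk 0x400000018000000180000001800000000 0x70000001f0000001f0000003b0000000a 7 6) 0 0 (step_sound _ 98 [(rh7b1f1fb55310c477.shift 2 0), rhc6cbdc5ad5823a22] (by decide +kernel))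
noncomputable def rh946ff5e72f5366a1 : CRef := CRef.mk (Pat.mk 0x1800000038000000000000000000000000 0x1c0000003c0000000f000000180000003f0000003e0000001400000004 7 6) 0 0 (step_sound _ 163 [(rh3e595262c1b737ad.shift 3 2), (rh57c2f33d7db628c6.shift 0 2), rhdf1232a2f1837114] (by decide +kernel))
noncomputable def rh822be8c6befcb82b : CRef := CRef.mk (Pat.mk 0x60000001e000000000000000000000000 0x30000000300000003000000060000001e000000070000000600000006 7 5) 0 0 (step_sound _ 65 [rhdabc5688984dab19, (rheb0810cc63b001d8.shift 0 2)] (by decide +kernel))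
noncomputable def rh43015da629ed2c40 : CRef := CRef.mk (Pat.mk 0x1800000038000000000000000000000000 0x1c0000003c0000000f0000001e000000380000001f0000000c0000000c 7 6) 0 0 (step_sound _ 163 [rh34113cb1a0e37f05, (rh3e595262c1b737ad.shift 3 2), (rh57c2f33d7db628c6.shift 0 2)] (by decide +kernel))
noncomputable def rheee68c4e0e628a59 : CRef := CRef.mk (Pat.mk 0x800000008000000180000001800000000 0x40000000c0000000c0000001e0000007f00000007 7 7) 0 0 (step_sound _ 34 [(rh932754581e0f4330.shift 2 0), rhd0bb67d70c7929d3] (by decide +kernel))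
noncomputable def rh05607e02b2ff73f6 : CRef := CRef.mk (Pat.mk 0x8000000180000001800000000 0xc0000000c0000000c0000001c0000001f0000000f 7 5) 0 0 (step_sound _ 131 [(rh2145e1d24b96a57e.shift 3 1), rhc4ff05cc0d08da4e] (by decide +kernel))
noncomputable def rhe2578de7dd7c1f79 : CRef := CRef.mk (Pat.mk 0x40000000c0000004c00000000 0xe0000003e000000070000000c0000007c00000004 7 7) 0 0 (step_sound _ 36 [(rh2fe78cc5ca4405d8.shift 2 1), rh9607ace265ad3036] (by decide +kernel))
noncomputable def rh24d112c9229bc923 : CRef := CRef.mk (Pat.mk 0x800000008000000180000000800000000 0x140000007c0000000e000000180000000f0000000c 7 7) 0 0 (step_sound _ 34 [rh03775da4d539190d, (rh932754581e0f4330.shift 2 0)] (by decide +kernel))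
noncomputable def rh42b99f1206125ed4 : CRef := CRef.mk (Pat.mk 0x80000001c00000038000000100000000000000000 0x60000000f0000001c0000003e0000007c0000006c00000020 7 7) 0 0 (step_sound _ 67 [(rh22a5190655f3c169.shift 1 0), (rh46abe9950ad883d6.shift 1 0), (rhe286c75f2739cce2.shift 2 1), (rhefefa9adde9c5b0c.shift 0 1)] (by decide +kernel))
noncomputable def rhbd2f7f9b31254d51 : CRef := CRef.mk (Pat.mk 0x1800000038000000100000000000000000 0x800000008000000180000003f0000007f0000006400000020 7 7) 0 0 (step_sound _ 98 [(rh4118bd99e667a3d3.shift 1 0), (rhcc2be1f880c5ea3e.shift 0 2), (rhf56e6bc5d2f7fe77.shift 0 2)] (by decide +kernel))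
noncomputable def rh4886eb7dbafbd795 : CRef := CRef.mk (Pat.mk 0x1c00000038000000100000000000000000 0x4000000040000001c0000003f0000007f0000006800000020 7 7) 0 0 (step_sound _ 98 [(rh54d55b38a8cb2737.shift 1 0), (rhcc2be1f880c5ea3e.shift 0 2), (rhf56e6bc5d2f7fe77.shift 0 2)] (by decide +kernel))
noncomputable def rh51485200710abf14 : CRef := CRef.mk (Pat.mk 0x800000008000000980000001800000000 0x800000008000000df0000007f000000e4 7 8) 0 0 (step_sound _ 34 [(rh932754581e0f4330.shift 2 0), rhb2afa9af710fc185] (by decide +kernel))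
noncomputable def rhd5d00515eae22b96 : CRef := CRef.mk (Pat.mk 0x18000000980000001000000000 0x8000000080000001e000000ff0000003700000004 7 8) 0 0 (step_sound _ 69 [(rh2fe78cc5ca4405d8.shift 3 2), rhf523b8ee04276bbb] (by decide +kernel))
noncomputable def rh8fe7b194326bff87 : CRef := CRef.mk (Pat.mk 0x800000009800000098000000100000000000000000 0xc0000008c000000df000000ff0000007b0000004a00000048 7 8) 0 0 (step_sound _ 130 [(rh3c32e5e2eb13941b.shift 2 0), (rh5bb78067c54b222b.shift 1 3), (rha1f67675212f0f22.shift 0 1)] (by decide +kernel))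
noncomputable def rh863f9384137efd39 : CRef := CRef.mk (Pat.mk 0x300000012000000020000000200000000000000000000000000000000 0x30000001f000000060000000200000002000000070000000700000005 7 5) 0 0 (step_sound _ 194 [(rh2fe78cc5ca4405d8.shift 0 6), rhd44c5255a25eff97] (by decide +kernel))
noncomputable def rh941ec8a88442757d : CRef := CRef.mk (Pat.mk 0x1800000018000000180000000000000000 0x40000001f0000001f000000780000000c0000000c 7 7) 0 0 (step_sound _ 35 [(rh71222050f2c63a3a.shift 3 0), rhe9fee3a9fdf78663] (by decide +kernel))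
noncomputable def rh9b6ae0dfe4335913 : CRef := CRef.mk (Pat.mk 0x800000088000000180000001e 0x140000007e000000ef0000001f0000001e 7 8) 0 0 (step_sound _ 33 [rh0345f4ef77999f70, rh3244c3cc8379b070] (by decide +kernel))
noncomputable def rha64c0cb83bc1d0ec : CRef := CRef.mk (Pat.mk 0x40000000e0000001c000000000000000000000000 0x2000000060000000e0000001f0000003e0000003e00000016 7 6) 0 0 (step_sound _ 67 [rh0b4508dcbcdb1411, (rh7b1f1fb55310c477.shift 2 1)] (by decide +kernel))
noncomputable def rh3eab0d40b8ca8099 : CRef := CRef.mk (Pat.mk 0x70000000f000000010000000000000000 0x300000003000000070000000f0000001f0000001e00000008 7 5) 0 0 (step_sound _ 161 [rh04250b7d011565e6, (rh5c5e593799055d58.shift 0 2)] (by decide +kernel))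
noncomputable def rhea8bec7ec58bf9cb : CRef := CRef.mk (Pat.mk 0x180000001c00000000000000000000000000000000 0x8000000180000001f00000030000000380000003800000028 7 6) 0 0 (step_sound _ 129 [(rh53b3c253cb0c65f4.shift 0 4), (rhe907bc3a1fcadd14.shift 1 0)] (by decide +kernel))
noncomputable def rh741f762d9ada3528 : CRef := CRef.mk (Pat.mk 0x1c0000001c000000000000000000000000 0x4000000040000001c0000001f0000003b0000001800000018 7 6) 0 0 (step_sound _ 97 [(rh53b3c253cb0c65f4.shift 0 3), rhdd59f8c50800f1d1] (by decide +kernel))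
noncomputable def rh8354f06d9a428f7c : CRef := CRef.mk (Pat.mk 0x1800000038000000100000000000000000 0x180000003f0000007f0000006600000024 7 7) 0 0 (step_sound _ 98 [(rhcc2be1f880c5ea3e.shift 0 2), (rhf56e6bc5d2f7fe77.shift 0 2), (rhfcbd88cafbff64e1.shift 1 0)] (by decide +kernel))
noncomputable def rh4a3944338be98f71 : CRef := CRef.mk (Pat.mk 0x800000018000000180000001c00000000 0x40000000f0000001f0000001b0000001f00000003 7 5) 0 0 (step_sound _ 33 [(rh53b3c253cb0c65f4.shift 0 1), rhd974aa1447d17d0b] (by decide +kernel))
noncomputable def rh8a147a2d4bef5875 : CRef := CRef.mk (Pat.mk 0x1c00000018000000180000000800000000 0x30000001f0000001b0000001f0000000f00000004 7 5) 0 0 (step_sound _ 129 [rh016093caec2e8d05, (rhb739f4f82bb681b4.shift 0 3)] (by decide +kernel))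
noncomputable def rh7da908d2252e378e : CRef := CRef.mk (Pat.mk 0xc0000001c000000080000000000000000 0x4000000040000000c0000001f0000003f0000003200000012 7 6) 0 0 (step_sound _ 97 [rh4118bd99e667a3d3, (rha03f6e28ea70fc7d.shift 0 2), rhcfde16a7ff36af03] (by decide +kernel))
noncomputable def rh5f451b25fac69952 : CRef := CRef.mk (Pat.mk 0x1800000038000000100000000000000000 0x40000001e0000003e0000007e0000006f0000002c 7 7) 0 0 (step_sound _ 130 [rh3d20f6bf8b9e1e67, (rhb739f4f82bb681b4.shift 1 3)] (by decide +kernel))
noncomputable def rhe664d3fb0b958104 : CRef := CRef.mk (Pat.mk 0x10000000120000001a000000020000000200000000 0x100000001a0000003a0000006b0000003e0000007c 7 7) 0 0 (step_sound _ 34 [(rh55afc6a59410cf00.shift 1 0), rhc0bfea7b154e1326] (by decide +kernel))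
noncomputable def rh71348f9b27f9cc75 : CRef := CRef.mk (Pat.mk 0x40000001c000000180000001000000000 0xa0000000f0000001c0000001c0000001f0000000e 7 5) 0 0 (step_sound _ 131 [(rh2145e1d24b96a57e.shift 3 1), rh4acb0aa3432ebc81] (by decide +kernel))
noncomputable def rha9782e86d47d816d : CRef := CRef.mk (Pat.mk 0x8000000080000003800000010000000000000000000000000 0x140000003c0000000f000000380000001e0000000c0000000c0000000c 7 6) 0 0 (step_sound _ 99 [(rh3279b48c76dee50b.shift 0 2), (rha9a9dd876407ae9a.shift 2 0), (rhf5094ad2a427d4d3.shift 1 2)] (by decide +kernel))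
noncomputable def rhb727914afe096787 : CRef := CRef.mk (Pat.mk 0x80000001c000000180000001000000000 0x6000000060000000f0000001c0000001f0000003f0000000a 7 6) 0 0 (step_sound _ 130 [(rh203d9a3bbeddb858.shift 0 1), (rh3cb04db3dd2b6a55.shift 2 0), rha8ac3a541d2fbaef, (rhfc7c29d8e65d775f.shift 2 1)] (by decide +kernel))
noncomputable def rh3c130933cc90410b : CRef := CRef.mk (Pat.mk 0x20000001e00000010000000000000000000000000 0x300000003000000060000001e0000001f000000070000000700000002 7 5) 0 0 (step_sound _ 97 [rh1545805115674c27, (rheb0810cc63b001d8.shift 0 3)] (by decide +kernel))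
noncomputable def rhffdd50a8a9616919 : CRef := CRef.mk (Pat.mk 0x800000018000000180000001800000000 0x60000000f0000001f0000003f0000007c00000004 7 7) 0 0 (step_sound _ 130 [(rh50fbb5868c909700.shift 2 1), rh56d89b140f342bf9] (by decide +kernel))
noncomputable def rhd9b6067dacf5ff35 : CRef := CRef.mk (Pat.mk 0x180000001c0000000000000000 0x6000000070000001f0000001f0000000700000006 7 5) 0 0 (step_sound _ 65 [(rh53b3c253cb0c65f4.shift 0 2), rhf9971318f3fd5918] (by decide +kernel))
noncomputable def rhdf3cd4cb77823c08 : CRef := CRef.mk (Pat.mk 0xc00000018000000180000000c00000000 0x20000000f0000001f0000001f0000003f00000003 7 6) 0 0 (step_sound _ 33 [(rh53b3c253cb0c65f4.shift 0 1), rhdc031b5795b17a7a] (by decide +kernel))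
noncomputable def rh9e8430fd1e28d4a0 : CRef := CRef.mk (Pat.mk 0x1c000000180000000800000000 0xc0000000e0000000f0000001c0000001c0000000f00000006 7 5) 0 0 (step_sound _ 131 [(rh7b9fbdf6d2d059e4.shift 2 1), (rh925a1628dd8a50da.shift 2 0), rhb23b86f1cc387068] (by decide +kernel))
noncomputable def rh5326fe1f47529aba : CRef := CRef.mk (Pat.mk 0x1e000000180000000000000000 0x4000000040000000f0000001e0000001b0000000f0000000b 7 5) 0 0 (step_sound _ 129 [rh04872f98fd912b3e, (rh3244c3cc8379b070.shift 0 3)] (by decide +kernel))
noncomputable def rh644b27b086d3ce47 : CRef := CRef.mk (Pat.mk 0x1c00000018000000000000000800000000 0x600000006000000060000001c0000003f000000370000001e0000001e 7 6) 0 0 (step_sound _ 98 [(rh31f60766161c7d6a.shift 1 0), rh640f7d27b4b363ce, rh8f7039354bfc4ec2] (by decide +kernel))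
noncomputable def rhcbec85f1afe4598a : CRef := CRef.mk (Pat.mk 0x100000003400000004000000000000000000000000 0xa0000000e0000000f0000001e0000003600000006000000060000000600000002 7 6) 0 0 (step_sound _ 162 [(rh2c3a2ea36ddad983.shift 0 2), (rh58ffa0133807a088.shift 1 2), (rh826010815be3df46.shift 0 2), (rhbe5703805fd7fa8f.shift 1 2), (rhceb5f5a915f974ce.shift 1 1), (rhf2eb0d5b8c248a4e.shift 1 0)] (by decide +kernel))
noncomputable def rhbac7775403877014 : CRef := CRef.mk (Pat.mk 0x800000008000000180000001800000000 0x40000000c0000000f0000001e0000001f00000007 7 5) 0 0 (step_sound _ 34 [rh86457877b3df5be9, (rh932754581e0f4330.shift 2 0)] (by decide +kernel))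
noncomputable def rh23c6c68ce68a727c : CRef := CRef.mk (Pat.mk 0x1800000018000000080000000800000000 0x70000001f0000001f0000000e0000000c00000004 7 5) 0 0 (step_sound _ 34 [(rh2994fea1b0bd2523.shift 0 1), (rh932754581e0f4330.shift 2 0)] (by decide +kernel))
noncomputable def rh188bbb6b780c07f8 : CRef := CRef.mk (Pat.mk 0x1800000018000000000000000000000000 0x1c0000007c0000000f00000018000000380000001f0000001c0000001c 7 7) 0 0 (step_sound _ 163 [(rh3e595262c1b737ad.shift 3 2), (rh57c2f33d7db628c6.shift 0 2), rh66e6579f064f347c, (rh9607ace265ad3036.shift 1 2)] (by decide +kernel))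
noncomputable def rhd694cd1ab59225e7 : CRef := CRef.mk (Pat.mk 0xc0000000c000000040000000000000000 0x40000000c0000000c0000001f0000007c0000001c 7 7) 0 0 (step_sound _ 34 [(rh71222050f2c63a3a.shift 2 0), rhc3d57a2bdd687966] (by decide +kernel))
noncomputable def rh6519d56dd3fba26c : CRef := CRef.mk (Pat.mk 0x30000000600000002800000000 0x40000001f0000003c000000780000003c00000004 7 7) 0 0 (step_sound _ 99 [rh20e446fa26a13267, (rhb739f4f82bb681b4.shift 2 2)] (by decide +kernel))
noncomputable def rhf54fbd8db7a4ec56 : CRef := CRef.mk (Pat.mk 0xc000000180000000a0000000000000000 0x20000000f0000001a0000003f0000003700000014 7 6) 0 0 (step_sound _ 66 [(rh53b3c253cb0c65f4.shift 0 2), rh8ba325d33b499b38] (by decide +kernel))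
noncomputable def rhc470db9f800383fe : CRef := CRef.mk (Pat.mk 0x18000000300000001400000000 0x80000000a0000000f0000001e0000003c0000001600000006 7 6) 0 0 (step_sound _ 98 [(rhb739f4f82bb681b4.shift 1 2), rhfc1f230dfca43fd6] (by decide +kernel))
noncomputable def rhd984edb6210ac7bb : CRef := CRef.mk (Pat.mk 0x30000000600000002800000000 0x1000000010000000180000003c00000078000000780000001f 7 7) 0 0 (step_sound _ 99 [rh844ebdfebc1d8882, (rhb739f4f82bb681b4.shift 2 2)] (by decide +kernel))
noncomputable def rhad16a1d99b102e69 : CRef := CRef.mk (Pat.mk 0x18000000300000001400000000 0x80000000a0000000f0000001e0000003c0000001e00000006 7 6) 0 0 (step_sound _ 33 [(rh1c62b6193297d9e3.shift 1 1), rhbba5da5a788d61cf] (by decide +kernel))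
noncomputable def rh78179f6ada3e46d9 : CRef := CRef.mk (Pat.mk 0xc00000008000000080000000800000000 0xc0000000c0000003e0000007f00000017 7 7) 0 0 (step_sound _ 34 [(rh932754581e0f4330.shift 2 0), rhbeaaacadd7694d0a] (by decide +kernel))
noncomputable def rhe0e9d92d04f3a56c : CRef := CRef.mk (Pat.mk 0x1c00000010000000100000001000000000 0x40000001c000000180000003f000000ff0000002c 7 8) 0 0 (step_sound _ 37 [(rh55afc6a59410cf00.shift 4 0), rh62e58f73b2748f35] (by decide +kernel))
noncomputable def rh2982fb501603e7f9 : CRef := CRef.mk (Pat.mk 0xe000000180000000a000000000000000000000000 0x40000000e0000001b0000001f000000370000001700000005 7 6) 0 0 (step_sound _ 98 [(rh53b3c253cb0c65f4.shift 0 3), rh73eef51c71b23db7] (by decide +kernel))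
noncomputable def rhabc5fb792f41ce5f : CRef := CRef.mk (Pat.mk 0x3000000020000000200000006000000000 0x3000000038000000ff0000007e0000001f 7 8) 0 0 (step_sound _ 36 [rh091aece1114f8783, (rh932754581e0f4330.shift 4 0)] (by decide +kernel))
noncomputable def rh9cff5c173fce1407 : CRef := CRef.mk (Pat.mk 0x800000009c0000009000000010000000000000000000000000 0x84000000dc000000fc0000007e0000005f0000005c00000008 7 8) 0 0 (step_sound _ 99 [(rh0fbbb92589a12005.shift 3 1), (rh64ad08057fe526f8.shift 1 0), rhca0672755887fc52] (by decide +kernel))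
noncomputable def rhb429e44f384978fa : CRef := CRef.mk (Pat.mk 0x10000000120000001a0000000200000006000000000 0x100000001a0000001a0000000ef000000fe0000009f 7 9) 0 0 (step_sound _ 36 [rh1f39ad3a034a463d, (rh932754581e0f4330.shift 4 0)] (by decide +kernel))
noncomputable def rhf10e92a230531025 : CRef := CRef.mk (Pat.mk 0x300000012000000020000000200000000000000000000000000000000 0x30000001e000000070000000300000003000000070000000700000005 7 5) 0 0 (step_sound _ 194 [(rh2fe78cc5ca4405d8.shift 0 6), rh71a107b69e7ce33b] (by decide +kernel))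
noncomputable def rh8a3a7dea29a924b0 : CRef := CRef.mk (Pat.mk 0x80000002000000030000000100000000000000000 0x8000000080000006f000000ff0000001e0000001000000010 7 8) 0 0 (step_sound _ 99 [(rh0588d2c7f2cab5e9.shift 3 0), rh38c7f2b162caa2f9, (rh3b0c67cfda63e7a0.shift 0 2), (rh5f0c231a26d4677a.shift 2 2)] (by decide +kernel))
noncomputable def rh481de1e06b1f0f40 : CRef := CRef.mk (Pat.mk 0x800000003800000000 0xc70000007e000000e7 7 8) 0 0 (step_sound _ 38 [(rh428265de8cd3cd2d.shift 3 1), rh708c3bc8fe2f3084] (by decide +kernel))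
noncomputable def rhc3fdf522b33f0037 : CRef := CRef.mk (Pat.mk 0x1800000038000000000000000000000000 0xc0000000c0000000c0000001e0000003c0000000f0000000c0000000c 7 6) 0 0 (step_sound _ 130 [rh2fd76ae9fce63b9f, (rhb739f4f82bb681b4.shift 1 3)] (by decide +kernel))
noncomputable def rh2faa4fd6e0870582 : CRef := CRef.mk (Pat.mk 0x1c0000001c0000000000000000 0x1e0000007e0000000f0000001c0000001c0000000c00000004 7 7) 0 0 (step_sound _ 131 [(rh37d9ceebb86d75d1.shift 2 1), (rh9607ace265ad3036.shift 1 1), rhaa496eca688350de] (by decide +kernel))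
noncomputable def rh9858131e68831015 : CRef := CRef.mk (Pat.mk 0x880000001a0000001a00000000 0x1f0000007f000000ef0000001a0000001a00000002 7 8) 0 0 (step_sound _ 131 [(rh2145e1d24b96a57e.shift 3 1), rhcdaf9b76ffd1fb8b] (by decide +kernel))
noncomputable def rh16be6998ea92c908 : CRef := CRef.mk (Pat.mk 0x60000001e000000000000000000000000 0x200000002000000060000001e0000003f0000000700000003 7 6) 0 0 (step_sound _ 65 [rha6c1cbd189e34ce7, (rheb0810cc63b001d8.shift 0 2)] (by decide +kernel))
noncomputable def rh74a1b710dadeb20d : CRef := CRef.mk (Pat.mk 0x70000000c000000010000000000000000000000000 0x2000000070000000f70000007e000000ff000000f8000000a8 7 8) 0 0 (step_sound _ 99 [(rh2fe91d613ad7ba20.shift 3 0), (rhaa26c83b691e7073.shift 0 2), (rhb0ff286f3462f8d6.shift 3 0)] (by decide +kernel))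
noncomputable def rh39838216fd3023fa : CRef := CRef.mk (Pat.mk 0x2000000180000000300000000 0x5000000070000000700000002000000020000001f0000000300000001 7 5) 0 0 (step_sound _ 65 [rh038de9f6952c0fd9, (rhb2a0b9ccfb5cecd5.shift 0 1)] (by decide +kernel))
noncomputable def rh51487f214949aab5 : CRef := CRef.mk (Pat.mk 0x1000000038000000000000000800000000 0xc0000000c0000000c0000001e000000380000001f0000000c0000000c 7 6) 0 0 (step_sound _ 67 [rh1883281cd5c3bd59, (rh71222050f2c63a3a.shift 3 0)] (by decide +kernel))
noncomputable def rh56a0d0b052411934 : CRef := CRef.mk (Pat.mk 0x70000000c000000010000000000000000000000000 0x20000000200000003000000070000000df0000007e000000ff000000f8000000a8 7 8) 0 0 (step_sound _ 99 [(rh0f91aee1c2776dac.shift 3 2), (rh2fe91d613ad7ba20.shift 3 0), (rh4104711b7681f9cd.shift 3 0), rh55ce313c2e7bf3ce] (by decide +kernel))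
noncomputable def rh3d163e0fdb4518ff : CRef := CRef.mk (Pat.mk 0xe0000001800000002000000000000000000000000 0x4000000060000000e0000001c0000000f0000003e0000001c00000014 7 6) 0 0 (step_sound _ 99 [(rh01483ff9cba2f6ac.shift 2 0), (rh56259dd1390eee46.shift 2 0), (rh9e4f5f4a33433ac3.shift 0 1), (rhd1779d7de7f8215b.shift 2 0), rhdca17df69f68e1eb] (by decide +kernel))
noncomputable def rhb3f1ac211419de2f : CRef := CRef.mk (Pat.mk 0x10000000c000000010000000000000000000000000 0x1000000010000000ff0000007e0000007f0000002800000028 7 8) 0 0 (step_sound _ 99 [(rh3a50e0bca28fd04c.shift 3 0), rh55ce313c2e7bf3ce, (rhaa26c83b691e7073.shift 0 2)] (by decide +kernel))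
noncomputable def rhff89e49644faa596 : CRef := CRef.mk (Pat.mk 0x38000000080000000800000000 0x140000001c0000001c0000001f00000038000000180000001800000010 7 6) 0 0 (step_sound _ 131 [(rh79905f95cb2d899a.shift 0 1), (rh7ab09f375cd5d482.shift 3 1), (rha087c6594f4bfb59.shift 2 0)] (by decide +kernel))
noncomputable def rhb9da8ed13e0c27c5 : CRef := CRef.mk (Pat.mk 0x6000000020000000200000004 0x50000000700000007000000070000000300000006000000060000000600000004 7 3) 0 0 (step_sound _ 129 [(rhcf28efee64db1c2b.shift 0 1), (rhd3458b32566d63f7.shift 1 0)] (by decide +kernel))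
noncomputable def rh8379e5f86d72d548 : CRef := CRef.mk (Pat.mk 0x8000000180000001000000000 0x1c0000003c0000000f000000180000001800000018 7 6) 0 0 (step_sound _ 131 [(rh2145e1d24b96a57e.shift 3 1), rh949bff1c8d7b629c] (by decide +kernel))
noncomputable def rh75a786e20aa9ee6e : CRef := CRef.mk (Pat.mk 0x1e00000000000000000000000000000000 0x600000006000000070000001e00000007000000070000000700000005 7 5) 0 0 (step_sound _ 97 [rh15abd9213ba1a96a, (rheb0810cc63b001d8.shift 0 3)] (by decide +kernel))
noncomputable def rh374f969bc1712915 : CRef := CRef.mk (Pat.mk 0x3000000120000000200000000000000000000000000000000 0x1000000030000001e0000000600000006000000070000000700000001 7 5) 0 0 (step_sound _ 162 [(rh2fe78cc5ca4405d8.shift 0 5), rh32a427049fd021cb] (by decide +kernel))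
noncomputable def rhe30ce762bc48bc4a : CRef := CRef.mk (Pat.mk 0x40000000c0000000800000002 0xe0000003e000000070000000c0000000e00000006 7 6) 0 0 (step_sound _ 130 [(rh2145e1d24b96a57e.shift 2 1), rh26b3bfc5d50c5c47] (by decide +kernel))
noncomputable def rh9c90185550e1b0e8 : CRef := CRef.mk (Pat.mk 0x2000000020000000240000000500000000000000000 0x20000000300000003ef000001fe0000039f00000100 7 10) 0 0 (step_sound _ 69 [(rh0fbbb92589a12005.shift 5 0), (rha4e887c2a2a0f60b.shift 1 1), (rhc6b68637e3f35bc4.shift 0 1)] (by decide +kernel))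
noncomputable def rh553bc4b042962c9a : CRef := CRef.mk (Pat.mk 0x1000000010000000120000000280000000000000000 0x10000000180000001ff000000fe000001c700000080 7 9) 0 0 (step_sound _ 68 [(rh0fbbb92589a12005.shift 4 0), (rha4e887c2a2a0f60b.shift 0 1), (rhf1de380fa9ca77f6.shift 0 1)] (by decide +kernel))
noncomputable def rh1c26daf0b934cb8a : CRef := CRef.mk (Pat.mk 0xc0000001800000003000000000000000000000000 0x40000000f0000001e00000003000000070000000700000005 7 5) 0 0 (step_sound _ 129 [rhafeefa69fc938c8d, (rhb2a0b9ccfb5cecd5.shift 0 3)] (by decide +kernel))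
noncomputable def rha46a392b247bda40 : CRef := CRef.mk (Pat.mk 0xc000000180000000a000000000000000000000000 0x40000000f0000001c0000001f000000370000001200000002 7 6) 0 0 (step_sound _ 98 [rh0888ceba2bdf021a, (rh53b3c253cb0c65f4.shift 0 3)] (by decide +kernel))
noncomputable def rhd4c072e2480dabe1 : CRef := CRef.mk (Pat.mk 0xc000000480000000a0000000000000000 0x40000000f0000007b0000001f0000003300000010 7 7) 0 0 (step_sound _ 100 [(rh2fe78cc5ca4405d8.shift 2 3), rha4f61ab8e30ad9fc] (by decide +kernel))
noncomputable def rh3bb85dd85ae8cac9 : CRef := CRef.mk (Pat.mk 0x180000003000000014000000000000000000000000 0x80000001e0000003f000000360000000e0000000e0000000a 7 6) 0 0 (step_sound _ 162 [rh35b79f1827291e24, (rhb739f4f82bb681b4.shift 1 4)] (by decide +kernel))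
noncomputable def rhc44c8d83416659b3 : CRef := CRef.mk (Pat.mk 0x8000000180000001c000000000000000000000000 0x30000000b0000001f0000001f000000070000000400000004 7 5) 0 0 (step_sound _ 97 [(rh53b3c253cb0c65f4.shift 0 3), rh5cba131e6beefc49] (by decide +kernel))
noncomputable def rhb899a09af20cf53b : CRef := CRef.mk (Pat.mk 0x180000001c000000000000000000000000 0x70000001f0000003f000000030000000200000002 7 6) 0 0 (step_sound _ 97 [(rh53b3c253cb0c65f4.shift 0 3), rhb127286f0c8970e2] (by decide +kernel))
noncomputable def rhe0fb44cdc2e7ce3b : CRef := CRef.mk (Pat.mk 0x8000000000000001e00000000000000000000000000000000 0xe0000000f0000001e00000007000000070000000700000005 7 5) 0 0 (step_sound _ 161 [(rh3244c3cc8379b070.shift 0 4), rhf5d51bf445933d88] (by decide +kernel))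
noncomputable def rha0468cb09b4cf890 : CRef := CRef.mk (Pat.mk 0x8000000980000001c00000000 0x80000000800000008000000df0000007f000000e0 7 8) 0 0 (step_sound _ 163 [(rh6f1cbe15c631ee70.shift 3 1), rhb2afa9af710fc185] (by decide +kernel))
noncomputable def rh4fa68c21d69166ab : CRef := CRef.mk (Pat.mk 0x300000006000000028000000000000000000000000 0x1000000010000000100000003c0000007e000000f8000000df0000005c00000014 7 8) 0 0 (step_sound _ 163 [rh4fe172545c5fa0d4, (rhb739f4f82bb681b4.shift 2 4)] (by decide +kernel))
noncomputable def rhad0b6a9132066517 : CRef := CRef.mk (Pat.mk 0x3000000020000000200000003000000000 0x3000000038000000fe0000007e0000004f 7 8) 0 0 (step_sound _ 38 [rh3419b0cbbcbd42d8, (rh55afc6a59410cf00.shift 5 0)] (by decide +kernel))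
noncomputable def rh0cba89c346cd335e : CRef := CRef.mk (Pat.mk 0x1000000013000000130000000000000002800000000 0x100000001b0000001b0000000d0000001fe000001ff 7 9) 0 0 (step_sound _ 36 [(rh8556ce617a451e36.shift 4 0), (rhbf726fa7097229f2.shift 3 0), rhc59618609f69dd24, (rhd24b9aa3f1cc01cd.shift 3 0)] (by decide +kernel))
noncomputable def rh5d7e754330ccd2f8 : CRef := CRef.mk (Pat.mk 0xc0000000c000000040000000000000000 0xc0000000c0000003e0000007f0000001e 7 7) 0 0 (step_sound _ 34 [(rh71222050f2c63a3a.shift 2 0), rha7635fc4e0f15e90] (by decide +kernel))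
noncomputable def rh3915c5ec9c95aaed : CRef := CRef.mk (Pat.mk 0x4000000000000001c00000018 0x10000000700000007000000030000001f0000001f 7 5) 0 0 (step_sound _ 33 [rh155fd1d16c429f55, rhb739f4f82bb681b4] (by decide +kernel))
noncomputable def rhee04100d6dda0e26 : CRef := CRef.mk (Pat.mk 0x1e000000000000001800000000 0x50000000700000007000000030000001e000000070000001f00000007 7 5) 0 0 (step_sound _ 65 [rh845c0c6729105f74, (rheb0810cc63b001d8.shift 0 2)] (by decide +kernel))
noncomputable def rhc35412a7dc04f1a9 : CRef := CRef.mk (Pat.mk 0xc00000018000000980000001800000000 0xf0000001f000000df0000007e000000e7 7 8) 0 0 (step_sound _ 34 [rh22e83a606cc73499, (rh932754581e0f4330.shift 2 0)] (by decide +kernel))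
noncomputable def rhcfaedafa6e524371 : CRef := CRef.mk (Pat.mk 0x1800000018000000180000000800000000 0x70000001f0000001c0000003c0000000f00000004 7 6) 0 0 (step_sound _ 34 [(rh932754581e0f4330.shift 2 0), (rhf90303884718dcf4.shift 0 1)] (by decide +kernel))
noncomputable def rhbf91138e2c89ade4 : CRef := CRef.mk (Pat.mk 0x80000001a0000001a0000000800000000 0x40000000f0000001f0000001a0000001f00000013 7 5) 0 0 (step_sound _ 36 [(rh7b1f1fb55310c477.shift 3 0), rhd7e7fe228b52d534] (by decide +kernel))
noncomputable def rh0d43ff7658cd4585 : CRef := CRef.mk (Pat.mk 0x80000001a0000000200000000 0x500000007000000070000000f0000001e0000000300000003 7 5) 0 0 (step_sound _ 97 [rh8b24269fce9ae942, rhbe5703805fd7fa8f, (rhd8be3b7ca6adb62f.shift 0 2)] (by decide +kernel))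
noncomputable def rh10c7a09b519aae77 : CRef := CRef.mk (Pat.mk 0x1a000000020000000000000000 0x50000000700000007000000030000001f000000030000000300000001 7 5) 0 0 (step_sound _ 129 [(rh01e48cd9f335aa73.shift 0 2), (rh8b24269fce9ae942.shift 0 1), rhceb5f5a915f974ce, (rhf64cf2cfa0eeb0d9.shift 0 1)] (by decide +kernel))
noncomputable def rhb10683d481939e66 : CRef := CRef.mk (Pat.mk 0x8000000180000001e0000000000000000 0x2000000070000000f0000001f0000001e0000000700000002 7 5) 0 0 (step_sound _ 97 [rh2765698ccb12cf89, (rh3244c3cc8379b070.shift 0 2)] (by decide +kernel))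
noncomputable def rh18f520b5ca350a1f : CRef := CRef.mk (Pat.mk 0x180000001a000000000000000000000000 0x200000006000000070000001f0000001f000000070000000200000002 7 5) 0 0 (step_sound _ 98 [rh50d3a06127f09e17, (rh53b3c253cb0c65f4.shift 0 3)] (by decide +kernel))
noncomputable def rhd4ba648c5f9ad49f : CRef := CRef.mk (Pat.mk 0x80000001a0000001e00000000000000000000000000000000 0x400000004000000040000000f0000001e0000001e0000000b000000070000000700000005 7 5) 0 0 (step_sound _ 97 [rh1b1ae1dda7f16412, (rheb0810cc63b001d8.shift 0 3)] (by decide +kernel))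
noncomputable def rhf40aa0b8cf1829db : CRef := CRef.mk (Pat.mk 0x1a0000001a00000010 0x5000000070000001f0000000f0000001f0000001a0000001a 7 5) 0 0 (step_sound _ 97 [rh24bb41d7856d3534, rh8fc6c5ed4fd8589b, (rhb7674d85f64945d6.shift 0 1)] (by decide +kernel))
noncomputable def rh35bc20dfe58f48dc : CRef := CRef.mk (Pat.mk 0x180000003000000030000000200000000000000000 0x40000001e000000380000003e0000007f0000000c00000008 7 7) 0 0 (step_sound _ 162 [rh503107f16fed0d82, (rhb739f4f82bb681b4.shift 1 4)] (by decide +kernel))
noncomputable def rh99fd5327a931179a : CRef := CRef.mk (Pat.mk 0xc00000018000000180000000000000000 0x400000004000000060000000f0000001a0000001f0000003a00000010 7 6) 0 0 (step_sound _ 36 [(rh7b1f1fb55310c477.shift 3 0), (rhaa8d572a18950b81.shift 0 1)] (by decide +kernel))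
noncomputable def rhdbd17875ab07bfc3 : CRef := CRef.mk (Pat.mk 0xc00000018000000180000000000000000 0x400000004000000060000000f0000001f0000001f0000003300000010 7 6) 0 0 (step_sound _ 36 [(rh0fc88d3a5af1f858.shift 0 1), (rh7b1f1fb55310c477.shift 3 0)] (by decide +kernel))
noncomputable def rh7c86a119526beb8f : CRef := CRef.mk (Pat.mk 0x1a0000001e00000000 0x50000000700000007000000030000001e0000001e00000007 7 5) 0 0 (step_sound _ 1 [rh1c1a467ec68f273e, rheb0810cc63b001d8] (by decide +kernel))
noncomputable def rh8d9b97fa186a1462 : CRef := CRef.mk (Pat.mk 0x8000000000000001e00000002000000000000000000000000 0x1000000070000001f000000070000001e00000002000000070000000700000005 7 5) 0 0 (step_sound _ 161 [(rh3244c3cc8379b070.shift 0 4), rhe1307ec8ddc8df69] (by decide +kernel))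
noncomputable def rh9a9ff84c528d9979 : CRef := CRef.mk (Pat.mk 0x8000000880000000a0000000a 0xf70000007f000000ef0000000a0000000a 7 8) 0 0 (step_sound _ 100 [(rh2f68792b6b779e96.shift 3 0), rh5f8b1a87c3b41acf] (by decide +kernel))
noncomputable def rh50997ec8a1c9f664 : CRef := CRef.mk (Pat.mk 0x1a0000001e00000000000000000000000000000000 0xc0000000c0000000c0000001e0000001e0000000f0000000f0000000f00000001 7 5) 0 0 (step_sound _ 195 [(rh37d9ceebb86d75d1.shift 2 3), rh6d3031741a8d04dd, (rhdcf1ec8670fd2d9a.shift 0 3)] (by decide +kernel))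
noncomputable def rhc8fc149925d4759b : CRef := CRef.mk (Pat.mk 0x180000001c000000000000000000000000 0xa0000000f0000001f0000001f0000000c0000000400000004 7 5) 0 0 (step_sound _ 97 [(rh53b3c253cb0c65f4.shift 0 3), rhb19ccb442d14d0c9] (by decide +kernel))
noncomputable def rhaf05ea5e8472e862 : CRef := CRef.mk (Pat.mk 0x180000001e000000000000000000000000 0xf0000000f0000001b0000001e0000000f0000000400000004 7 5) 0 0 (step_sound _ 65 [rh11124b2a62b1992e, (rheb0810cc63b001d8.shift 0 2)] (by decide +kernel))
noncomputable def rh29282e2fddcef4d8 : CRef := CRef.mk (Pat.mk 0x8000000180000001c000000000000000000000000 0x60000000f0000001c0000001c0000000f0000000e0000000c 7 5) 0 0 (step_sound _ 67 [(rh46530d756bdf8511.shift 2 0), (rhde1bb52c0ac1ef55.shift 0 1), (rhdf997f77704b6375.shift 2 0)] (by decide +kernel))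
noncomputable def rh7915b4af95b8e416 : CRef := CRef.mk (Pat.mk 0x180000001e00000000000000000000000000000000 0x50000000f0000001f0000001e00000003000000070000000700000005 7 5) 0 0 (step_sound _ 161 [(rh3244c3cc8379b070.shift 0 4), rhf8b0a6d3d6f2a5da] (by decide +kernel))
noncomputable def rh520f39470412ec4c : CRef := CRef.mk (Pat.mk 0x180000001c000000000000000000000000 0x200000006000000070000001f0000001f000000070000000200000002 7 5) 0 0 (step_sound _ 97 [rh50d3a06127f09e17, (rh53b3c253cb0c65f4.shift 0 3)] (by decide +kernel))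
noncomputable def rhe476af74ce517c34 : CRef := CRef.mk (Pat.mk 0x1e0000000000000004 0x50000000700000007000000030000001e0000000700000004 7 5) 0 0 (step_sound _ 33 [rhde2f8cc27a89e79b, (rheb0810cc63b001d8.shift 0 1)] (by decide +kernel))
noncomputable def rhde17708d0817349a : CRef := CRef.mk (Pat.mk 0x1e0000000800000008 0x50000000700000007000000070000001e0000000f0000000c 7 5) 0 0 (step_sound _ 33 [rh8bac992cef1b6431, (rheb0810cc63b001d8.shift 0 1)] (by decide +kernel))
noncomputable def rhbc1642932f323abc : CRef := CRef.mk (Pat.mk 0x1e0000001800000000000000000000000000000000 0x70000001e0000001f00000003000000030000000300000001 7 5) 0 0 (step_sound _ 129 [rh83a2bd6b66d441f5, (rheb0810cc63b001d8.shift 0 4)] (by decide +kernel))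
noncomputable def rhdef4da15d4ad0bd2 : CRef := CRef.mk (Pat.mk 0x1e000000020000000800000018 0x50000000700000007000000030000001e000000060000000f0000007c 7 7) 0 0 (step_sound _ 129 [(rh3244c3cc8379b070.shift 0 3), rhf0d37749c8e6301b] (by decide +kernel))
noncomputable def rha255bbd86f524eec : CRef := CRef.mk (Pat.mk 0x1a0000001a00000008000000000000000000000000 0x500000007000000070000001e0000001e0000003f000000370000001100000001 7 6) 0 0 (step_sound _ 97 [rh5c8c873042790be0, (rh98527158ca985da1.shift 0 1), (rhda02c4ce0b224328.shift 0 3), (rhff7b6894da85a153.shift 0 2)] (by decide +kernel))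
noncomputable def rh6931bfc29687ff42 : CRef := CRef.mk (Pat.mk 0xa0000001a00000008000000000000000000000000 0x500000007000000070000000b0000001b0000001f000000370000001700000005 7 6) 0 0 (step_sound _ 97 [(rh70c88061d19295ac.shift 0 1), rh738feff674d58b9d, rh847662810e4e0cac, rhde5b474548b482d7, (rhff7b6894da85a153.shift 0 2)] (by decide +kernel))
noncomputable def rhbdb213fe124adada : CRef := CRef.mk (Pat.mk 0x1c00000018000000080000001c00000000 0x1f0000001f0000007b0000003f00000023 7 7) 0 0 (step_sound _ 68 [rh08618864a6ae8f50, rh4a8af136e29db3ef, (rhf9d36e158778ce35.shift 1 1)] (by decide +kernel))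
noncomputable def rh51b28b2d01c673dd : CRef := CRef.mk (Pat.mk 0x1100000011000000110000000000000003800000000 0x1100000019800000198000000cf000000fc0000009c 7 9) 0 0 (step_sound _ 67 [(rh1c768084d36d14f5.shift 2 0), (rha47ad4ccca5a74e7.shift 3 0), (rhbb7ae24e47688dc2.shift 0 1)] (by decide +kernel))
noncomputable def rhb2418f599583a5f5 : CRef := CRef.mk (Pat.mk 0x10000000100000000000000003800000000 0x10000000180000000cf000000fe000001f7 7 9) 0 0 (step_sound _ 34 [rh0d378fd9e8917c5a, rh185f35b8bd8ec37f, rh592c7139d2c44767, (rhb8faeac02cdbfbfd.shift 1 0)] (by decide +kernel))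
noncomputable def rh7dfbda8c4a60088f : CRef := CRef.mk (Pat.mk 0x1e00000002000000000000000000000000 0x4000000070000001e0000003e0000000f0000000700000001 7 6) 0 0 (step_sound _ 161 [(rh3244c3cc8379b070.shift 0 4), rhb22e2c3448997dee] (by decide +kernel))
noncomputable def rh5bacff3ee1aa083d : CRef := CRef.mk (Pat.mk 0x800000018000000080000001e00000000 0x40000000f0000001f0000000f0000003e00000003 7 6) 0 0 (step_sound _ 65 [(rh3244c3cc8379b070.shift 0 1), rh90212085f107c52e] (by decide +kernel))
noncomputable def rhf08e5d86bb6f39a9 : CRef := CRef.mk (Pat.mk 0xc0000001c000000080000000000000000 0x20000000f0000001c0000000e0000007c0000001c 7 7) 0 0 (step_sound _ 129 [(rhb739f4f82bb681b4.shift 0 3), (rhe64d538cec4448c4.shift 1 0)] (by decide +kernel))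
noncomputable def rh36397d32cd7ee473 : CRef := CRef.mk (Pat.mk 0x3000000200000000680000002800000000 0x1ff000001fe0000038f000000680000003c00000010 7 10) 0 0 (step_sound _ 36 [rh42ecf3b8a2b81674, (rh53b3c253cb0c65f4.shift 2 1)] (by decide +kernel))
noncomputable def rh5c19014a0513e944 : CRef := CRef.mk (Pat.mk 0x3000000200000000080000006800000000 0x1ff000001fe0000038f0000000c0000007800000010 7 10) 0 0 (step_sound _ 36 [(rh3244c3cc8379b070.shift 2 1), rh42ecf3b8a2b81674] (by decide +kernel))
noncomputable def rhb75641e0700fe88a : CRef := CRef.mk (Pat.mk 0x80000001a00000038000000000000000000000000 0x80000001b0000003f0000007c0000007c0000003c 7 7) 0 0 (step_sound _ 67 [(rh4053c12da95c0aa0.shift 3 0), (rh46530d756bdf8511.shift 2 0), rh97c26d1b01927b42] (by decide +kernel))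
noncomputable def rh1fee0b19f604853e : CRef := CRef.mk (Pat.mk 0x20000000600000006000000000000000000000000 0x700000007000000030000000600000006000000030000000300000003 7 3) 0 0 (step_sound _ 193 [(rh2145e1d24b96a57e.shift 1 3), rh7cedcdfcb6c8245c] (by decide +kernel))
noncomputable def rh86a14cef6209af9c : CRef := CRef.mk (Pat.mk 0x220000002600000036000000000000000000000000 0x200000002000000220000003600000037000000130000001f00000016 7 6) 0 0 (step_sound _ 193 [(rh2145e1d24b96a57e.shift 1 3), rh7743a1de053d9a28] (by decide +kernel))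
noncomputable def rh51b175d154e191b3 : CRef := CRef.mk (Pat.mk 0xc0000003c000000000000000800000000 0x40000000c0000003c0000007c0000001e00000017 7 7) 0 0 (step_sound _ 67 [(rh50fbb5868c909700.shift 2 1), rhcbe77670bcba607c] (by decide +kernel))
noncomputable def rhec712fb3b31b95ca : CRef := CRef.mk (Pat.mk 0xe0000001e000000000000000400000000 0xe0000001e0000003a0000001f0000007f 7 7) 0 0 (step_sound _ 33 [(rh8556ce617a451e36.shift 1 0), rhaac1b8fb8eeb551a, rhbb2e73e018771099] (by decide +kernel))
noncomputable def rhb77dacad33d3c70a : CRef := CRef.mk (Pat.mk 0x1800000038000000080000000800000000 0x8000000080000001f0000003f0000006c0000007c00000030 7 7) 0 0 (step_sound _ 129 [rh5e8e0d9b8ece6199, (rhab22b5b56e7b3243.shift 1 3)] (by decide +kernel))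
noncomputable def rhb1745e9dcf0be5d5 : CRef := CRef.mk (Pat.mk 0x8000000098000000d8000000000000000000000000 0x1c0000003c0000008f000000dc000000d8000000780000005800000048 7 8) 0 0 (step_sound _ 163 [(rh28152048bc8b598f.shift 0 2), (rh3e595262c1b737ad.shift 3 2), (rhf96766ef57f24332.shift 2 0)] (by decide +kernel))
noncomputable def rh8cf25b1888f6daf8 : CRef := CRef.mk (Pat.mk 0x42000000520000005300000040 0x2800000078000000ef0000007e0000005300000040 7 8) 0 0 (step_sound _ 67 [rh838c6906bbfb1786, (rhb2a0b9ccfb5cecd5.shift 0 1)] (by decide +kernel))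
noncomputable def rh257c27b6d1d8a984 : CRef := CRef.mk (Pat.mk 0x20000000420000005800000050 0x80000000e8000000f80000004f0000007800000050 7 8) 0 0 (step_sound _ 102 [rh465486c274b30a6b, (rh50fbb5868c909700.shift 5 0)] (by decide +kernel))
noncomputable def rh4fbf6ea7ccb28316 : CRef := CRef.mk (Pat.mk 0x20000000200000002000000000000000000000000 0x500000007000000070000000600000002000000070000000700000005 7 3) 0 0 (step_sound _ 65 [(rh6c59ce14113da07f.shift 1 0), rh6eff4158bb400f47, (rh88cf62d867fa8ab1.shift 0 1), rhcab3157f7bdcba3e] (by decide +kernel))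
noncomputable def rhaff61888e231fe00 : CRef := CRef.mk (Pat.mk 0x8000000080000000a00000008 0x140000001c0000001c00000018000001f8000000fc000001ff00000008 7 9) 0 0 (step_sound _ 68 [(rh92a17d0f3b5f3df9.shift 1 1), (rhcc733c6eb332fe88.shift 2 0), (rhedf3a755fe019897.shift 0 1)] (by decide +kernel))
noncomputable def rh6446dba3ab1a1ca4 : CRef := CRef.mk (Pat.mk 0x8000000080000000a00000008 0x140000001c0000001c0000000c000001ef000000fc000001ff00000008 7 9) 0 0 (step_sound _ 68 [(rh0b786d94a31538a6.shift 0 1), (rh92a17d0f3b5f3df9.shift 1 1), rha0d26ad2798b7815, rhca405e350c462817] (by decide +kernel))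
noncomputable def rhcae9bfc70aa696ff : CRef := CRef.mk (Pat.mk 0x4000000040000000500000004 0x7a0000003f0000003e0000000f00000004 7 7) 0 0 (step_sound _ 97 [(rh50fbb5868c909700.shift 1 0), rhcce7d4fbc680ab15] (by decide +kernel))
noncomputable def rh02f41392a26a57df : CRef := CRef.mk (Pat.mk 0x140000001400000014000000000000000000000000 0x8000000180000001c000000160000003f0000007b0000003a0000000a 7 7) 0 0 (step_sound _ 68 [rh810e07257826fd42, (rh8f1a07e70aac0dcc.shift 3 0), (rhc247f2d7a10544ae.shift 1 1)] (by decide +kernel))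
noncomputable def rh32d58e0e1d6c2282 : CRef := CRef.mk (Pat.mk 0xa0000000a0000000a0000000000000000 0x140000001c0000001c0000001e0000000b0000001f0000003800000010 7 6) 0 0 (step_sound _ 35 [(rh9258736a7488cc35.shift 0 1), (rha087c6594f4bfb59.shift 2 0), rhc247f2d7a10544ae] (by decide +kernel))
noncomputable def rh13db63d90e5e3a0d : CRef := CRef.mk (Pat.mk 0x80000000a0000000a00000000 0x140000001c0000001c000000080000000b0000001e00000014 7 5) 0 0 (step_sound _ 131 [rh11a243992b58ed44, (rh1741680720c097b4.shift 2 1), (rh5c2604daa0330ae7.shift 2 0), (rh88cf62d867fa8ab1.shift 2 0)] (by decide +kernel))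
noncomputable def rhbe9b65000fd59b6d : CRef := CRef.mk (Pat.mk 0x8000000080000000a0000000000000000 0x140000001c0000001c00000018000000080000001f0000001c00000010 7 5) 0 0 (step_sound _ 163 [(rh1741680720c097b4.shift 2 2), (rh5c2604daa0330ae7.shift 2 1), (rh6c59ce14113da07f.shift 3 0), (rh88cf62d867fa8ab1.shift 2 1), rhd8c37efe07b158de] (by decide +kernel))
noncomputable def rhae6e799f534d112b : CRef := CRef.mk (Pat.mk 0x140000001400000014000000000000000000000000 0x200000003000000034000000160000003f000000fb0000002a00000002 7 8) 0 0 (step_sound _ 68 [rh810e07257826fd42, (rhabaa648d2bc9d61c.shift 1 1), (rhced6d86d2069808b.shift 4 1)] (by decide +kernel))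
noncomputable def rh9108709ab2ddf7d4 : CRef := CRef.mk (Pat.mk 0xa0000000a00000008000000000000000000000000 0x140000001c0000001c0000001e0000000b000000180000001c0000001c00000004 7 5) 0 0 (step_sound _ 67 [(rh8f1a07e70aac0dcc.shift 2 0), (rh9258736a7488cc35.shift 0 2), (rha087c6594f4bfb59.shift 2 1), (rhced6d86d2069808b.shift 3 1)] (by decide +kernel))
noncomputable def rh1ee2bce15c075f44 : CRef := CRef.mk (Pat.mk 0x420000005800000050000000500000000000000000 0xc0000004f0000005800000058000000f80000002c00000008 7 8) 0 0 (step_sound _ 69 [(rh932754581e0f4330.shift 5 1), rha4f8126b862f621c] (by decide +kernel))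
noncomputable def rhdae442c60a455926 : CRef := CRef.mk (Pat.mk 0x80000000520000005300000050 0x28000000f8000000e80000005e0000005b00000050 7 8) 0 0 (step_sound _ 102 [(rh2f68792b6b779e96.shift 6 0), rh7bcbd1b2f206d354] (by decide +kernel))
noncomputable def rh0beae699cdacdfe7 : CRef := CRef.mk (Pat.mk 0xb0000000a0000000a00000008 0x50000001f0000001d0000001b0000000b0000000a00000008 7 5) 0 0 (step_sound _ 132 [(rhbaefcd01e0a8bca3.shift 3 0), (rhd5a3215efe7d9616.shift 0 1)] (by decide +kernel))
noncomputable def rh71d10f4225de5f62 : CRef := CRef.mk (Pat.mk 0x20000000e00000000 0xe3000000ff000000fc 7 8) 0 0 (step_sound _ 36 [(rh3244c3cc8379b070.shift 0 1), rh89319c83de708f3e] (by decide +kernel))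
noncomputable def rhdd6e3944a86c3034 : CRef := CRef.mk (Pat.mk 0x20000001200000013000000700000000000000000 0xc0000000f0000001e0000001b000000f80000000c00000008 7 8) 0 0 (step_sound _ 131 [rha4f8126b862f621c, (rhb2a0b9ccfb5cecd5.shift 0 3)] (by decide +kernel))
noncomputable def rh349c5a6376bf2658 : CRef := CRef.mk (Pat.mk 0x100000001e0000001400000010 0x200000003a0000003e0000001b0000001e0000001400000010 7 6) 0 0 (step_sound _ 131 [(rhf3bb9b87d8cdeb54.shift 0 1), (rhffd04209dc8ea796.shift 3 0)] (by decide +kernel))
noncomputable def rhff2fe99714906ec8 : CRef := CRef.mk (Pat.mk 0x3c0000001000000000000000000000000000000000 0x40000000e0000003c0000001e0000000f0000000e0000000e0000000a 7 6) 0 0 (step_sound _ 130 [rh41f5e9444d299b0b, (rheb0810cc63b001d8.shift 1 4)] (by decide +kernel))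
noncomputable def rhf8aa6e00902d9ee7 : CRef := CRef.mk (Pat.mk 0x2000000020000000200000002 0x400000007000000070000000700000006000000060000000600000002 7 3) 0 0 (step_sound _ 129 [rh17a37d30d4d1a3d7, (rh44f453b84f013105.shift 1 0), (rhc2034d656568cc12.shift 0 1), (rhc85cc95794737cf7.shift 0 1)] (by decide +kernel))
noncomputable def rh5b6a89c489da4bd1 : CRef := CRef.mk (Pat.mk 0x2000000020000000a0000001a00000002 0x500000007000000070000000600000007000000030000000f0000001a00000002 7 5) 0 0 (step_sound _ 161 [(rh44f453b84f013105.shift 1 1), rh81113ac73e974761, rh9428318bb0b2ec11] (by decide +kernel))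
noncomputable def rhcc327f43fb371f11 : CRef := CRef.mk (Pat.mk 0x2000000020000000200000002 0x50000000700000007000000070000000700000003000000030000000300000002 7 3) 0 0 (step_sound _ 129 [(rh1741680720c097b4.shift 0 1), rh3ca48e2a6d60153d, rha156a391623af688, (rhf515f701b82bbaa6.shift 0 1)] (by decide +kernel))
noncomputable def rhe80c309c0f095e12 : CRef := CRef.mk (Pat.mk 0x680000000800000000 0x140000001c0000003c0000000f0000007c0000003c00000014 7 7) 0 0 (step_sound _ 99 [(rh01e48cd9f335aa73.shift 2 1), rh78b87670118bd863, (rhc5e22b757115ea30.shift 2 0)] (by decide +kernel))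
noncomputable def rh4e7f8b803b56b704 : CRef := CRef.mk (Pat.mk 0xd000000010000000000000000000000000 0x1000000010000000f70000007e000000770000002000000020 7 8) 0 0 (step_sound _ 99 [rh4d8612647220b06a, (rhb2a0b9ccfb5cecd5.shift 3 3)] (by decide +kernel))
noncomputable def rh7c3385621c4441ba : CRef := CRef.mk (Pat.mk 0x20000001e000000000000000000000000 0x6000000060000001e0000003f0000000700000007 7 6) 0 0 (step_sound _ 65 [rh0cb245e2f9cdfb02, (rheb0810cc63b001d8.shift 0 2)] (by decide +kernel))
noncomputable def rh9d531b773ee2cd81 : CRef := CRef.mk (Pat.mk 0x20000001a0000000200000000000000000000000000000000 0x600000006000000070000001e0000000600000007000000070000000700000004 7 5) 0 0 (step_sound _ 162 [(rh3244c3cc8379b070.shift 0 5), rhd95a7901070c8d04] (by decide +kernel))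
noncomputable def rhee87d786569cf7db : CRef := CRef.mk (Pat.mk 0x20000000200000002000000000000000000000000 0x50000000700000007000000060000000600000006000000070000000700000005 7 3) 0 0 (step_sound _ 193 [(rh1741680720c097b4.shift 0 3), (rh5abfc4c9d959be03.shift 0 2), (rh6c59ce14113da07f.shift 1 1), rh95311890f436bcdc] (by decide +kernel))
noncomputable def rh078710ab19e54544 : CRef := CRef.mk (Pat.mk 0x20000001a00000002000000000000000000000000 0x40000000600000006000000060000001b0000000f000000070000000700000005 7 5) 0 0 (step_sound _ 193 [(rh36e6bb6cca6188da.shift 0 2), (rh3b734c5288922837.shift 0 2), (rh6c59ce14113da07f.shift 1 1), rh95311890f436bcdc] (by decide +kernel))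
noncomputable def rh5ab97627f6c1f108 : CRef := CRef.mk (Pat.mk 0x2000000020000000200000003000000000 0x1000000030000000300000007f000000fe0000004e 7 8) 0 0 (step_sound _ 132 [(rh50fbb5868c909700.shift 4 1), rhd263d0a823fe5498] (by decide +kernel))
noncomputable def rhd4aa9db2f393411d : CRef := CRef.mk (Pat.mk 0x2000000020000000200000000 0x500000007000000070000000700000007000000030000000300000003 7 3) 0 0 (step_sound _ 129 [rh00c644645561e9be, (rh1741680720c097b4.shift 0 1), rh193da7fc9e1674f1, rh20966da26a1c2ae8, rh771d065bdc85bf2d] (by decide +kernel))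
noncomputable def rh079365485f9cae2a : CRef := CRef.mk (Pat.mk 0x2000000020000000200000002 0x50000000700000007000000070000000700000003000000030000000300000002 7 3) 0 0 (step_sound _ 129 [(rh1741680720c097b4.shift 0 1), rh3ca48e2a6d60153d, (rh69032fcc3e239b7f.shift 0 1), rha156a391623af688] (by decide +kernel))
noncomputable def rh664e17a3f7ba8d05 : CRef := CRef.mk (Pat.mk 0x200000002000000020000000200000000000000000000000000000000 0x20000000200000006000000060000000600000007000000070000000700000004 7 3) 0 0 (step_sound _ 97 [(rh8cdd36b03d57a2f6.shift 0 1), rhb4d78cd0e58cc17c, (rhc9696e4650cbd493.shift 1 1), (rhd29a1fb688eae70f.shift 1 2)] (by decide +kernel))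
noncomputable def rhb62ef33888612de0 : CRef := CRef.mk (Pat.mk 0x20000001a0000000200000000000000000000000000000000 0x600000006000000070000001e0000000600000007000000070000000700000005 7 5) 0 0 (step_sound _ 162 [rh1624aa51b7d9aa5e, (rh3244c3cc8379b070.shift 0 5)] (by decide +kernel))
noncomputable def rh7d4daea41212146c : CRef := CRef.mk (Pat.mk 0x2000000020000000200000000000000000000000000000000 0x40000000700000007000000030000000600000007000000070000000700000005 7 3) 0 0 (step_sound _ 97 [(rh46baee19951a66e7.shift 0 1), (rh8cdd36b03d57a2f6.shift 0 1), (rhc4526fc8abf298b6.shift 0 1), rhc850b49d039efae1, (rhced6d86d2069808b.shift 1 2)] (by decide +kernel))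
noncomputable def rh1c8d7c199786e989 : CRef := CRef.mk (Pat.mk 0x1a000000020000000000000000 0x50000000700000007000000070000001e000000070000000600000004 7 5) 0 0 (step_sound _ 98 [rh9500ee63198d2775, (rheb0810cc63b001d8.shift 0 2)] (by decide +kernel))
noncomputable def rh65a1bdb9d9ae8f6d : CRef := CRef.mk (Pat.mk 0x3000000010000000100000001000000000 0xf0000007e0000007e000000180000001800000008 7 7) 0 0 (step_sound _ 131 [(rh50fbb5868c909700.shift 3 1), rhdead230ca8da1ccc] (by decide +kernel))
noncomputable def rh1c0147aa9b5349f5 : CRef := CRef.mk (Pat.mk 0x800000068000000080000001c00000000 0x140000001c0000006c0000003f0000003f00000003 7 7) 0 0 (step_sound _ 130 [(rh50fbb5868c909700.shift 2 1), rh5ab91b705c3ba09e] (by decide +kernel))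
noncomputable def rh767298da26e1abcd : CRef := CRef.mk (Pat.mk 0x20000000200000002000000000000000000000000 0x50000000700000007000000030000000300000006000000070000000700000005 7 3) 0 0 (step_sound _ 65 [rh6eff4158bb400f47, rh8ff3dde5b1c639e0, (rha087c6594f4bfb59.shift 0 1), rhc4526fc8abf298b6] (by decide +kernel))
noncomputable def rhd4a6d65585883554 : CRef := CRef.mk (Pat.mk 0x20000001a000000020000000000000000 0x5000000070000000700000006000000060000001b0000000f0000000700000004 7 5) 0 0 (step_sound _ 161 [(rh193da7fc9e1674f1.shift 0 1), (rh36e6bb6cca6188da.shift 0 1), (rh6c59ce14113da07f.shift 1 0)] (by decide +kernel))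
noncomputable def rh3bacd338ad65ada0 : CRef := CRef.mk (Pat.mk 0x800000002000000420000004300000000 0x740000007e00000063000000420000004300000001 7 7) 0 0 (step_sound _ 129 [rh932754581e0f4330, (rhe65abab56cd79223.shift 0 1)] (by decide +kernel))
noncomputable def rh68acbb8f47f2490b : CRef := CRef.mk (Pat.mk 0x80000005a0000000300000000 0x500000007000000070000000f0000007a0000000300000001 7 7) 0 0 (step_sound _ 98 [(rh2fe78cc5ca4405d8.shift 2 2), rh387bc94acee12862] (by decide +kernel))
noncomputable def rh3d788eb58ad10389 : CRef := CRef.mk (Pat.mk 0x80000000b4000000a600000080 0xa0000005e000000ff000001de000000f6000000a600000080 7 9) 0 0 (step_sound _ 100 [(rh5c7644baca87de6b.shift 0 1), (rh8fc62e25076e002b.shift 4 0), (rhe606862926198964.shift 3 0)] (by decide +kernel))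
noncomputable def rhe1d5b1059a8e326c : CRef := CRef.mk (Pat.mk 0x8000000080000000b00000008 0x140000001c0000001c0000001800000018000000180000001f00000008 7 5) 0 0 (step_sound _ 68 [(rh1c62b6193297d9e3.shift 0 1), (rhcc733c6eb332fe88.shift 2 0)] (by decide +kernel))
noncomputable def rh9d1ac2999872b20d : CRef := CRef.mk (Pat.mk 0x1000000018000000080000000000000000 0x1800000018000000180000000f0000003c0000001c 7 6) 0 0 (step_sound _ 35 [(rh71222050f2c63a3a.shift 3 0), rh81decad4585b1e02] (by decide +kernel))
noncomputable def rh8a2881cec042d166 : CRef := CRef.mk (Pat.mk 0x1400000010000001100000001000000000 0x1400000014000001de000000fe0000002f 7 9) 0 0 (step_sound _ 37 [(rh55afc6a59410cf00.shift 4 0), rheb059b451f22fe4a] (by decide +kernel))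
noncomputable def rh9f48f2f0c6d198ef : CRef := CRef.mk (Pat.mk 0x20000005800000050000000500000004000000000000000000000000000000000 0xc0000000f0000005800000058000000f80000006c000000e8000000e0000000e000000020 7 8) 0 0 (step_sound _ 165 [(rha4f8126b862f621c.shift 0 3), (rhe08b3642bf78c2d5.shift 5 0)] (by decide +kernel))
noncomputable def rh874cc54042502027 : CRef := CRef.mk (Pat.mk 0x4000000080000000b0000000a0000000a0000000000000000 0x50000000f000000190000001b0000000b0000001a0000001800000010 7 5) 0 0 (step_sound _ 36 [rhbbe36e036f6f77c0, (rhd3458b32566d63f7.shift 3 1)] (by decide +kernel))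
noncomputable def rh3a55c6adc49fb581 : CRef := CRef.mk (Pat.mk 0x180000007000000000000000000000000000000000 0x8000000f80000007f000000ff0000003c0000003c00000028 7 8) 0 0 (step_sound _ 131 [(rh2381ca26b8b38d1e.shift 2 3), (rh81eabc3f853e2700.shift 0 3), (rhb90b940b20db718f.shift 2 0), (rhbb7a69f31443c624.shift 2 1)] (by decide +kernel))
noncomputable def rhabdb05be14147126 : CRef := CRef.mk (Pat.mk 0x800000000c000000180000000000000000 0x4000000e70000007f0000001f0000000300000003 7 8) 0 0 (step_sound _ 97 [rh3682642402808e16, (rhb739f4f82bb681b4.shift 0 2)] (by decide +kernel))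
noncomputable def rh0fdff3d025c663c6 : CRef := CRef.mk (Pat.mk 0x800000000e00000018000000000000000000000000 0x2000000e70000007e0000001f000000070000000600000002 7 8) 0 0 (step_sound _ 132 [(rh3e2531436cb70ef7.shift 0 4), rh730c9a9ef26b5f23, (rhf0e41d6fe90b727a.shift 0 3)] (by decide +kernel))
noncomputable def rhcd7637599a0e7f5b : CRef := CRef.mk (Pat.mk 0x380000000000000018000000100000000000000000 0x80000003c0000000f0000007e000000760000001400000010 7 7) 0 0 (step_sound _ 131 [(rh2145e1d24b96a57e.shift 3 2), rh5469c60958098454] (by decide +kernel))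
noncomputable def rhb7874f537db240d9 : CRef := CRef.mk (Pat.mk 0x300000001000000038000000200000000000000000 0x340000001e0000007c0000002f0000002800000028 7 7) 0 0 (step_sound _ 37 [rh356f8c8f493dbdfb, (rh7b1f1fb55310c477.shift 4 0)] (by decide +kernel))
noncomputable def rhf2ac07775104a208 : CRef := CRef.mk (Pat.mk 0x4000000800000000e000000080000000000000000 0x400000004000000e70000007e0000007b0000000a00000008 7 8) 0 0 (step_sound _ 130 [(rh2145e1d24b96a57e.shift 2 2), rh38101c90a92c7e81] (by decide +kernel))
noncomputable def rh5f0005ecb08b9c14 : CRef := CRef.mk (Pat.mk 0x1000000400000000600000004000000000 0x18000000180000071f000003fe000003ff00000030 7 11) 0 0 (step_sound _ 68 [(rh21c58d57e7f99cd1.shift 2 1), rh2b7ce8816b1cc15a, (rh3918eeb6c53434d8.shift 1 1), (rh52c53252a5cafda8.shift 3 0), (rhc21a95c499b3efdb.shift 3 1)] (by decide +kernel))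
noncomputable def rh1dcfdd430eac7808 : CRef := CRef.mk (Pat.mk 0x1800000018000000080000000800000000 0x70000001f0000001f0000000e0000000c00000004 7 5) 0 0 (step_sound _ 130 [rh464b95f0b9f8bbd1, (rh50fbb5868c909700.shift 2 1)] (by decide +kernel))
noncomputable def rh4811c0f728856eeb : CRef := CRef.mk (Pat.mk 0x2000000020000002200000003000000000 0x2000000020000003bf000001fe0000004e 7 10) 0 0 (step_sound _ 38 [(rh55afc6a59410cf00.shift 5 0), rh9860057cf667bc76] (by decide +kernel))
noncomputable def rhfeaff310dac38ae4 : CRef := CRef.mk (Pat.mk 0x200000002000000820000000e00000000 0x10000000300000003000000e20000007e00000073 7 8) 0 0 (step_sound _ 128 [(rh50fbb5868c909700.shift 0 1), rh6efe76e9eb34ceec] (by decide +kernel))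
noncomputable def rhc2e832d6ba509010 : CRef := CRef.mk (Pat.mk 0x4800000008000000080000001800000000 0x8000000080000000c0000007c0000000f0000001c0000001800000008 7 7) 0 0 (step_sound _ 130 [(rh50fbb5868c909700.shift 2 1), rh616512b229f01aca] (by decide +kernel))
noncomputable def rhcb2946326fc789ce : CRef := CRef.mk (Pat.mk 0x6000000004000000040000001400000000 0xa0000000e000000ee0000007c00000006000000070000003e00000002 7 8) 0 0 (step_sound _ 130 [(rh0f7120a7b28fa607.shift 1 1), (rh193da7fc9e1674f1.shift 1 0), rh64d324585ca865ad] (by decide +kernel))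
noncomputable def rhc551e1bdf123c18c : CRef := CRef.mk (Pat.mk 0x300000002000000820000000a00000000 0x50000000700000007000000060000000300000003000000e70000007e00000070 7 8) 0 0 (step_sound _ 34 [(rh84c3a09b34faf21e.shift 0 1), rhb0d8db7cceb3a8e2] (by decide +kernel))
noncomputable def rhd6c1d3ae6c7836d9 : CRef := CRef.mk (Pat.mk 0x100000001a000000020000000200000000 0x500000007000000070000001f0000001b000000030000000300000001 7 5) 0 0 (step_sound _ 129 [rh193da7fc9e1674f1, rh771d065bdc85bf2d, (rhd30c856bbcb3617d.shift 0 1)] (by decide +kernel))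
noncomputable def rhce06afc75d167ddd : CRef := CRef.mk (Pat.mk 0x8000000080000002800000000000000000000000000000000 0x40000000c0000000f0000007c0000000f0000001c0000001c00000014 7 7) 0 0 (step_sound _ 99 [(rh92ed3525f919a568.shift 0 2), (rhc850b49d039efae1.shift 2 0), (rhc8fd50c44a2112a0.shift 0 2)] (by decide +kernel))
noncomputable def rhb38ae3b0d70db56c : CRef := CRef.mk (Pat.mk 0x1200000002000000020000000a0000000000000000 0x70000001e00000003000000060000001f0000000300000001 7 5) 0 0 (step_sound _ 162 [(rh2f68792b6b779e96.shift 1 2), rha8a621b14643b20d] (by decide +kernel))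
noncomputable def rhc4980ea2da4c4e0c : CRef := CRef.mk (Pat.mk 0x180000000c0000000000000007000000000000000000000000 0x1e0000000f0000000200000007000000070000000700000005 7 5) 0 0 (step_sound _ 161 [rh19d5ee887e0eaa44, (rh53b3c253cb0c65f4.shift 0 5)] (by decide +kernel))
noncomputable def rh8b238d43cf1abc77 : CRef := CRef.mk (Pat.mk 0x100000001a000000820000000a00000000 0x500000007000000070000001f0000001b000000e70000007e00000074 7 8) 0 0 (step_sound _ 129 [(rh2f7aebebd7d680c3.shift 0 1), rha087c6594f4bfb59, (rhd30c856bbcb3617d.shift 0 1), rhf94791cc9de0af73] (by decide +kernel))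
noncomputable def rh4f141d3988ce8943 : CRef := CRef.mk (Pat.mk 0x200000002000000020000000200000000000000000000000000000000 0x200000006000000060000000600000007000000070000000700000005 7 3) 0 0 (step_sound _ 97 [(rh6eff4158bb400f47.shift 0 1), rh8d8bfe45b7d5275a, (rhd29a1fb688eae70f.shift 1 2), rhf0587d49e84ff7d9] (by decide +kernel))
noncomputable def rh02353f785262f094 : CRef := CRef.mk (Pat.mk 0x20000001e0000000e 0x1f0000001f0000003a0000001e0000000e 7 6) 0 0 (step_sound _ 97 [(rh2145e1d24b96a57e.shift 1 0), rh88c93931e6fd939b] (by decide +kernel))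
noncomputable def rhdb23ec1e4f9b4da0 : CRef := CRef.mk (Pat.mk 0x3000000020000000200000002000000000 0x30000000300000007f000000fe0000005e 7 8) 0 0 (step_sound _ 36 [(rh932754581e0f4330.shift 4 0), rhd263d0a823fe5498] (by decide +kernel))
noncomputable def rhf06cbf6be0bdc83c : CRef := CRef.mk (Pat.mk 0x200000002000000020000000000000000 0x50000000700000007000000060000000200000007000000070000000700000005 7 3) 0 0 (step_sound _ 161 [(rh20966da26a1c2ae8.shift 0 1), rh8cdd36b03d57a2f6, (rha087c6594f4bfb59.shift 0 1)] (by decide +kernel))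
noncomputable def rhebc469e2dc0a6e28 : CRef := CRef.mk (Pat.mk 0x1e00000000000000000000000000000000 0x200000002000000070000001e0000003f000000070000000700000002 7 6) 0 0 (step_sound _ 161 [(rh3244c3cc8379b070.shift 0 4), rhc51176d1439d522b] (by decide +kernel))
noncomputable def rhae9eba5134444b8d : CRef := CRef.mk (Pat.mk 0x20000001e00000000000000000000000000000000 0x600000006000000060000001e00000037000000070000000700000005 7 6) 0 0 (step_sound _ 97 [rhce7416f3334331f9, (rheb0810cc63b001d8.shift 0 3)] (by decide +kernel))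
noncomputable def rh1a1fea72f6085445 : CRef := CRef.mk (Pat.mk 0x20000001e0000000200000000000000000000000000000000 0x4000000060000001e0000003e0000000f000000070000000700000004 7 6) 0 0 (step_sound _ 132 [rh4764ee860f69d7ae, (rhe25b0a99195a5d59.shift 1 4)] (by decide +kernel))
noncomputable def rhc19283cc03c95f08 : CRef := CRef.mk (Pat.mk 0x1e00000000000000000000000000000000 0x2000000070000001e0000003f000000070000000700000002 7 6) 0 0 (step_sound _ 161 [(rh3244c3cc8379b070.shift 0 4), rhc2926a8ff11a918a] (by decide +kernel))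
noncomputable def rh617ff78e4d14a24f : CRef := CRef.mk (Pat.mk 0xc000000060000000000000003800000000 0x140000001c000000fc000000780000001f0000007c00000014 7 8) 0 0 (step_sound _ 99 [(rh24ae073cf30720c4.shift 3 3), rhdeacbea313af2ae3] (by decide +kernel))
noncomputable def rhb597cde2e9a9ec1a : CRef := CRef.mk (Pat.mk 0x6000000038000001000000001c000000000000000000000000 0xee0000007f00000038000001cf000000fc000000f80000001800000018 7 9) 0 0 (step_sound _ 131 [(rh70e33bfdf511e144.shift 3 0), (rhb232fadadcf6cde8.shift 0 2), rhba3f1d00858587a2, (rhe39e26b66b1f1506.shift 1 2)] (by decide +kernel))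
noncomputable def rhe35334cb61fb4c7c : CRef := CRef.mk (Pat.mk 0x10000000000000003c00000000 0x10000000100000001c000000ff00000067 7 8) 0 0 (step_sound _ 5 [rh8339330f27a36c38, (rhe25b0a99195a5d59.shift 2 0)] (by decide +kernel))
noncomputable def rha9fd18d31b126316 : CRef := CRef.mk (Pat.mk 0x20000000000000007800000000 0x2000000020000000370000007e000000ce 7 8) 0 0 (step_sound _ 6 [rh5df3954be8738e5d, (rhe25b0a99195a5d59.shift 3 0)] (by decide +kernel))
noncomputable def rh4758085fcf28c9f8 : CRef := CRef.mk (Pat.mk 0x6800000000000000380000000000000000 0x1c0000003c000000680000000f0000007e0000000f00000004 7 7) 0 0 (step_sound _ 66 [(rh2d9c817c453f955a.shift 1 0), (rh56b6ebd7874c373d.shift 1 2), (rh775ca1963e850b80.shift 0 1), (rhddfc9ff189dc5aa0.shift 1 0)] (by decide +kernel))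
noncomputable def rh7eab645ee700f881 : CRef := CRef.mk (Pat.mk 0x1800000030000000000000003800000000 0x1e00000030000000170000003e00000067 7 7) 0 0 (step_sound _ 130 [rh6c53fa638f474bdf, (rhb739f4f82bb681b4.shift 1 3)] (by decide +kernel))
noncomputable def rh65570242b1742841 : CRef := CRef.mk (Pat.mk 0x20000000600000002000000020000000200000000000000000000000000000000 0x20000000600000007000000030000000300000002000000070000000700000005 7 3) 0 0 (step_sound _ 160 [(rh932754581e0f4330.shift 0 4), rhb70afbf8549e28b5] (by decide +kernel))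
noncomputable def rhca4ed386037f40dd : CRef := CRef.mk (Pat.mk 0xf000000070000000100000003000000000 0x800000008000000180000000f0000000700000003f000000fc000000c8 7 9) 0 0 (step_sound _ 35 [rh66228356574b9586, (rh932754581e0f4330.shift 3 0)] (by decide +kernel))
noncomputable def rhe482a9706a72b14d : CRef := CRef.mk (Pat.mk 0x80000000e000000030000000200000000000000000000000000000000 0x50000000700000007000000070000000b0000000e000000070000000700000006000000070000000700000005 7 4) 0 0 (step_sound _ 225 [(rh57a06b43e72703e1.shift 0 4), (rh8cd6fc04f4bbf7ba.shift 0 4), (rha77f215723363df0.shift 0 4), (rhb6f7e56bf89163d9.shift 0 4), rhee21b7afaeb78fbf] (by decide +kernel))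
noncomputable def rh1c01a74145d0a351 : CRef := CRef.mk (Pat.mk 0x60000000380000000800000008 0x140000001c0000001c0000001c0000007f000000380000001800000008 7 7) 0 0 (step_sound _ 99 [rh79905f95cb2d899a, (rh7d762c380b7df881.shift 2 0), (rh96b1cb1531b718a3.shift 2 0), (rhcc733c6eb332fe88.shift 2 0)] (by decide +kernel))
noncomputable def rhf1257cda8a5737b7 : CRef := CRef.mk (Pat.mk 0x600000002000000020000000000000000 0x5000000070000000700000007000000030000000600000007000000070000000700000005 7 3) 0 0 (step_sound _ 161 [(rh20e56a1196e70fcc.shift 0 1), (rh3d48cb4e7e716da9.shift 0 1), (rh5abfc4c9d959be03.shift 0 1), rh6eff4158bb400f47, (rh96b1cb1531b718a3.shift 0 2), (rhc4ec57a3756c3a6c.shift 0 1)] (by decide +kernel))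
noncomputable def rhd0180256ed4b85c9 : CRef := CRef.mk (Pat.mk 0x2000000038000000180000000800000000 0x800000028000000380000001f000000ff000000f7 7 8) 0 0 (step_sound _ 36 [(rh71222050f2c63a3a.shift 4 0), rh9a98ba466dbb4988] (by decide +kernel))
noncomputable def rhec85c376c5c3c12e : CRef := CRef.mk (Pat.mk 0x3800000018000000180000000000000000 0x800000008000000380000001e0000007c0000000f0000000c 7 7) 0 0 (step_sound _ 98 [(rh53b3c253cb0c65f4.shift 1 3), rh5b74760bafa85373] (by decide +kernel))
noncomputable def rh490abc4fb027b4ea : CRef := CRef.mk (Pat.mk 0x300000001c0000000400000004 0xa0000000e0000000e0000000e0000003f0000001c0000000c0000000c 7 6) 0 0 (step_sound _ 98 [rh039efe07c35de3d4, (rh5d1a24bc6da008ff.shift 1 1), (rh66def040f105496b.shift 2 0), (rh8cd6fc04f4bbf7ba.shift 1 0), (rhb6f7e56bf89163d9.shift 1 0)] (by decide +kernel))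
noncomputable def rh10fe7d1e29fc31b4 : CRef := CRef.mk (Pat.mk 0x680000000000000038000000000000000000000000 0x1c0000003c0000006c0000000f0000007e0000000f0000000c00000008 7 7) 0 0 (step_sound _ 98 [(rh2d9c817c453f955a.shift 1 1), (rh56b6ebd7874c373d.shift 1 3), (rh592c7139d2c44767.shift 0 2), (rhe6f3c981f45ee7b2.shift 1 0)] (by decide +kernel))
noncomputable def rhea8427070a982594 : CRef := CRef.mk (Pat.mk 0x1a000000800000000e00000000 0x50000000f0000001b000000e30000007e00000073 7 8) 0 0 (step_sound _ 36 [(rh16c2b5900981f814.shift 1 0), rhbe580a163f5542fd] (by decide +kernel))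
noncomputable def rh82c62a21601d7d61 : CRef := CRef.mk (Pat.mk 0x40000000400000100000000180000000000000000 0x20000000600000006000001c7000000fe000000ef00000002 7 9) 0 0 (step_sound _ 66 [(rh241154339d0cd161.shift 1 0), (rh4ec1f0b914bf2e52.shift 1 1), (rh7aa579b740a9f5a6.shift 0 1), (rhb35119aab3f911f9.shift 0 1)] (by decide +kernel))
noncomputable def rh102151c75c3b5bbe : CRef := CRef.mk (Pat.mk 0x100000040000000070000000000000000000000000 0x100000001000000717000003fe000003ff0000002800000020 7 11) 0 0 (step_sound _ 99 [(rh185f35b8bd8ec37f.shift 1 2), (rh190607c0dc91f39b.shift 2 0), (rh2d9c817c453f955a.shift 2 1), (rh708c3bc8fe2f3084.shift 0 2), (rhfea9dfe705ad94cf.shift 2 2)] (by decide +kernel))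
noncomputable def rh383b059e93639bb9 : CRef := CRef.mk (Pat.mk 0x10000001100000001800000000 0x1000000010000001d7000000fe000000ef 7 9) 0 0 (step_sound _ 37 [rh55e6ab2924d2cde2, (rh969492b52b32ccec.shift 2 0), (rhde10baa3043a2b46.shift 3 0)] (by decide +kernel))
noncomputable def rhf2e8548db77a4af3 : CRef := CRef.mk (Pat.mk 0x200000002000000020000000300000000000000000000000000000000 0x20000000200000003000000030000000700000006000000070000000700000005 7 3) 0 0 (step_sound _ 97 [(rh1406cafceeeef6c2.shift 0 1), rh9d9ec9d52fc0b3c5, (rhd29a1fb688eae70f.shift 1 2)] (by decide +kernel))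
noncomputable def rhf692239ffd233d1c : CRef := CRef.mk (Pat.mk 0x600000002000000020000000200000000 0x50000000700000007000000030000000600000006000000030000000300000001 7 3) 0 0 (step_sound _ 32 [(rh729470260c134f88.shift 0 1), rh932754581e0f4330] (by decide +kernel))
noncomputable def rh69ed70742523634f : CRef := CRef.mk (Pat.mk 0x80000000e0000000200000002000000000000000000000000 0x50000000700000007000000030000000b0000000e0000000600000007000000070000000700000005 7 4) 0 0 (step_sound _ 193 [rh0375dd3a773d8ee2, (rh8cd6fc04f4bbf7ba.shift 0 3), (rh8cdd36b03d57a2f6.shift 0 1), rhcae287dd1526d47c] (by decide +kernel))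
noncomputable def rh88b73d83fad6bdb2 : CRef := CRef.mk (Pat.mk 0x20000000600000002000000020000000200000000000000000000000000000000 0x20000000600000007000000030000000300000002000000070000000700000005 7 3) 0 0 (step_sound _ 97 [rh695e427f644f5b98, (rhbaefcd01e0a8bca3.shift 1 3)] (by decide +kernel))
noncomputable def rh2c68625345fbaa7e : CRef := CRef.mk (Pat.mk 0x40000008400000004000000020000000000000000 0x400000004000000e60000007f0000003f0000000800000008 7 8) 0 0 (step_sound _ 99 [(rh518d6f6eeebddcb2.shift 1 2), rh652cb92112dbebe8, (rh70e33bfdf511e144.shift 2 0), (rhaf2f2e26ac4cafd3.shift 0 2)] (by decide +kernel))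
noncomputable def rh383c223d1a08a073 : CRef := CRef.mk (Pat.mk 0x200000003800000008000000080000000800000000 0x20000000380000001e0000007c0000001f0000000c 7 7) 0 0 (step_sound _ 100 [(rh71222050f2c63a3a.shift 3 0), rhdbcebbfb906533ca] (by decide +kernel))
noncomputable def rh1aa605c562139465 : CRef := CRef.mk (Pat.mk 0x1000000010000000100000001000000000 0x1000000010000000ff0000007e0000002f 7 8) 0 0 (step_sound _ 37 [rh06cd0ef73f9e5beb, (rh55afc6a59410cf00.shift 4 0)] (by decide +kernel))
noncomputable def rhfc4321913d75569f : CRef := CRef.mk (Pat.mk 0x1000000030000000140000003000000000 0x80000001e00000034000000160000003e0000000f 7 6) 0 0 (step_sound _ 35 [rh0b87daf22ffb5bd8, (rh932754581e0f4330.shift 3 0)] (by decide +kernel))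
noncomputable def rh915387b3efca5388 : CRef := CRef.mk (Pat.mk 0x380000000800000008000000000000000000000000 0x140000001c0000001c0000000c000000380000001f0000003c0000001c0000001c00000010 7 6) 0 0 (step_sound _ 195 [(rh5abfc4c9d959be03.shift 2 2), (rha636f452500de91c.shift 0 2), (rhcae287dd1526d47c.shift 2 0), (rhde807367643436d4.shift 0 2), (rhf0d38cf1e7116183.shift 0 2)] (by decide +kernel))
noncomputable def rh8c036e70001c6cb4 : CRef := CRef.mk (Pat.mk 0x20000000300000011000000018000000000000000000000000 0x1e0000003e00000038000001df000000ff000000e70000000400000004 7 9) 0 0 (step_sound _ 131 [(rh168c702fc6e06326.shift 1 3), (rh708bc64a570577a3.shift 1 2), rhebad513a63d26343] (by decide +kernel))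
noncomputable def rh343b49c92b0d1ab6 : CRef := CRef.mk (Pat.mk 0xc0000003c000000000000000000000000 0x40000000c0000003c0000003e0000000f0000000e 7 6) 0 0 (step_sound _ 66 [rh7b42cdbb1c30cdfc, (rheb0810cc63b001d8.shift 1 2)] (by decide +kernel))
noncomputable def rh1d2959ed89b45393 : CRef := CRef.mk (Pat.mk 0x7000000000 0x1c7000001fe000000ff 7 9) 0 0 (step_sound _ 35 [(rh3ab23b0d0e76c626.shift 2 0), (rh3b00e9e9432b8f40.shift 2 0), rh708c3bc8fe2f3084] (by decide +kernel))
noncomputable def rh66bc42aef72ed29e : CRef := CRef.mk (Pat.mk 0x4000000000000001e0000000000000000 0x600000006000000330000001e0000003700000004 7 6) 0 0 (step_sound _ 100 [(rh33e738c4ed385b9f.shift 1 2), rh91ad69d3ddda6ae8] (by decide +kernel))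
noncomputable def rha542bd266301efcf : CRef := CRef.mk (Pat.mk 0x20000001e0000000000000000000000000000000000000000 0x60000001e0000003f0000000f000000070000000700000004 7 6) 0 0 (step_sound _ 129 [rhe3d4e23e717458fe, (rheb0810cc63b001d8.shift 0 4)] (by decide +kernel))
noncomputable def rhe76712f6cc34fa8a : CRef := CRef.mk (Pat.mk 0xc000000060000000e0000000000000000000000000 0xc00000007f000000fe0000003e0000003000000030 7 8) 0 0 (step_sound _ 100 [(rh2cc7d62e70c02209.shift 2 2), (rh77d69f1d64c8a7bf.shift 0 2), (rh87fb4af8316b9600.shift 2 3), (rhcc2be1f880c5ea3e.shift 2 2), (rhd393b1e3f03a7ca9.shift 3 0)] (by decide +kernel))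
noncomputable def rh4d2c176d3ba1201d : CRef := CRef.mk (Pat.mk 0x3000000018000000060000000c00000000 0xf0000003f0000001c0000000e0000003e00000012 7 6) 0 0 (step_sound _ 36 [rhda8127454e2e6678, (rhf48373e13d2bc128.shift 1 1)] (by decide +kernel))
noncomputable def rhdd7ef502740dd93f : CRef := CRef.mk (Pat.mk 0x20000000e0000000000000000000000000 0x20000000200000007f000000fe0000003f0000001000000010 7 8) 0 0 (step_sound _ 100 [(rh77d69f1d64c8a7bf.shift 0 2), (rh97f1d29426cb8860.shift 0 2), (rhcfde16a7ff36af03.shift 3 0)] (by decide +kernel))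
noncomputable def rhe95764522a3045ba : CRef := CRef.mk (Pat.mk 0x8000000040000001e000000000000000000000000 0x80000000c0000000c0000000c000000070000001e000000360000000600000006 7 6) 0 0 (step_sound _ 129 [(rh3244c3cc8379b070.shift 0 3), (rha187aed9bd0c6393.shift 1 0)] (by decide +kernel))
noncomputable def rhc596c3b48d27f3ff : CRef := CRef.mk (Pat.mk 0x300000011800000018000000000000000000000000 0x38000001df000000ff000000ef0000000c00000004 7 9) 0 0 (step_sound _ 101 [(rh4115c02c20bfbac7.shift 2 3), (rh810fa74b1681ba9e.shift 0 2), rhf439ba0521b3ab7b, (rhfdd338b587cdea0b.shift 1 3)] (by decide +kernel))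
noncomputable def rhcd5202c2f44956cd : CRef := CRef.mk (Pat.mk 0x2000000003800000000 0x38f000001fe000001cf 7 10) 0 0 (step_sound _ 34 [(rh4a48bdcac7eb7535.shift 1 0), rh775ca1963e850b80, (rhfea9dfe705ad94cf.shift 1 0)] (by decide +kernel))
noncomputable def rh2be55ed2cf41e82d : CRef := CRef.mk (Pat.mk 0x800000000e00000000000000040000000000000000 0xe70000007e00000073000000070000000700000001 7 8) 0 0 (step_sound _ 132 [(rh3e2531436cb70ef7.shift 0 4), (rh6dd26613a1ae639b.shift 1 3), rhbbb250e614f2d445] (by decide +kernel))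
noncomputable def rhca6fa9cc739b27f4 : CRef := CRef.mk (Pat.mk 0x4400000007000000000 0x767000003ff000003bf 7 11) 0 0 (step_sound _ 35 [(rh21d582c147e7e118.shift 1 0), rh3fe692bde8d4167d, rh5e601430b8bc2e39, (rhfea9dfe705ad94cf.shift 2 0)] (by decide +kernel))
noncomputable def rhc6d8423fce477eae : CRef := CRef.mk (Pat.mk 0x400000044000000078000000000000000000000000 0x100000005000000778000003fe000003b70000002000000020 7 11) 0 0 (step_sound _ 103 [(rh3e2531436cb70ef7.shift 3 3), (rh6dd26613a1ae639b.shift 4 2), rh775f9be0afa413b6] (by decide +kernel))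
noncomputable def rh81ff32de2979b8ba : CRef := CRef.mk (Pat.mk 0x800000008000000180000001800000000 0x8000000080000001f000000ff000000e4 7 8) 0 0 (step_sound _ 34 [(rh932754581e0f4330.shift 2 0), rhb0fbf278214acd23] (by decide +kernel))
noncomputable def rh27800583ef719a7c : CRef := CRef.mk (Pat.mk 0x800000008000000180000001800000000 0x40000000c0000000f0000001f0000003f0000000a 7 6) 0 0 (step_sound _ 130 [(rh50fbb5868c909700.shift 2 1), rhaf7f570cb99c5259] (by decide +kernel))
noncomputable def rhe5e7f3ce924c22dc : CRef := CRef.mk (Pat.mk 0x300000001800000018000000000000000000000000 0x300000001f000000ff000000ef0000000c0000000c 7 8) 0 0 (step_sound _ 101 [(rh810fa74b1681ba9e.shift 0 2), rhcb6fd9691790be8f, (rhf32f861d69cb038f.shift 2 1), (rhfdd338b587cdea0b.shift 1 3)] (by decide +kernel))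
noncomputable def rhd02981352831412e : CRef := CRef.mk (Pat.mk 0x6000000030000000200000000 0x50000000700000007000000060000000600000006000000070000001f0000001d 7 5) 0 0 (step_sound _ 129 [rh03dfdf12d5937476, rh5d57dab1f7173156, (rhcc733c6eb332fe88.shift 0 1)] (by decide +kernel))
noncomputable def rhd4827d0149fd9ee2 : CRef := CRef.mk (Pat.mk 0x1800000006000000030000000200000000 0x50000000700000007000000070000001e00000006000000070000001f0000001d 7 5) 0 0 (step_sound _ 129 [rh03dfdf12d5937476, rh20e56a1196e70fcc, rh5d57dab1f7173156, (rh7d762c380b7df881.shift 0 1), rh94a24b8486b76775, (rhcc733c6eb332fe88.shift 0 1)] (by decide +kernel))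
noncomputable def rh70484eefc62234e7 : CRef := CRef.mk (Pat.mk 0x800000038000000180000000200000004 0x4000000060000000f0000003a0000001f0000000f00000005 7 6) 0 0 (step_sound _ 65 [(rh24ae073cf30720c4.shift 1 2), rh72fb8ac55ef6ed89] (by decide +kernel))
noncomputable def rha9289152a5c20833 : CRef := CRef.mk (Pat.mk 0x3800000018000000020000000400000000 0x20000000200000006f0000003f0000001c0000000f0000000c00000008 7 7) 0 0 (step_sound _ 130 [(rh037c93713750da4f.shift 0 1), rh81373151ca3de7f3, (rhba89ab7cb81bcc90.shift 0 3), rhfe42d4adc6b275a8] (by decide +kernel))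
noncomputable def rh51ba60d0a85254cb : CRef := CRef.mk (Pat.mk 0x3800000018000000020000000400000000 0x24000000240000006f0000003f0000001b0000000f0000000c00000008 7 7) 0 0 (step_sound _ 130 [rh81373151ca3de7f3, (rhba89ab7cb81bcc90.shift 0 3), (rhc80c82864fed3735.shift 0 1), (rhd5889c99d29bf7d6.shift 1 1)] (by decide +kernel))
noncomputable def rh800f2fbc13e94ac2 : CRef := CRef.mk (Pat.mk 0x38000000180000000200000004 0x500000007000000070000003f0000001f0000000700000005 7 6) 0 0 (step_sound _ 65 [(rh24ae073cf30720c4.shift 1 2), rh266cbad8f74e84fa] (by decide +kernel))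
noncomputable def rhf31987f04b2ef343 : CRef := CRef.mk (Pat.mk 0x100000001800000030000000000000000000000000 0x1000000018000000180000001f0000003f0000001f0000001c00000008 7 6) 0 0 (step_sound _ 99 [(rh281c6819542c66e6.shift 3 0), (rheee5f5dc5765494d.shift 0 1), (rhf9366b6a121593ef.shift 3 1)] (by decide +kernel))
noncomputable def rh6d5e3c633cfb8d8e : CRef := CRef.mk (Pat.mk 0x200000003000000020000000000000000 0x5000000070000000700000003000000030000000300000003000000030000000300000003 7 3) 0 0 (step_sound _ 161 [(rh03dfdf12d5937476.shift 0 1), rh1695fafd431c7bff, rh6aa5625770489e83] (by decide +kernel))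
noncomputable def rh44e8312d0ea12e08 : CRef := CRef.mk (Pat.mk 0x80000000d000000018000000280000000800000000 0x40000008c000000dc0000005f000000fc000000df00000014 7 8) 0 0 (step_sound _ 68 [(rh18300c7b4da4a157.shift 3 1), rh53c37329111bf971, (rha9fbfd4bb8cf890b.shift 0 2)] (by decide +kernel))
noncomputable def rhbed3030968891e6d : CRef := CRef.mk (Pat.mk 0x90000000d00000001800000028000000000000000000000000 0x800000098000000d80000005f000000ff000000d40000001000000010 7 8) 0 0 (step_sound _ 100 [(rha9fbfd4bb8cf890b.shift 0 3), (rhbacc36697f2cba81.shift 3 0), (rhbc9ae0729794de7d.shift 0 2)] (by decide +kernel))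
noncomputable def rh9bf7868648b61fa5 : CRef := CRef.mk (Pat.mk 0x1e0000000000000000000000000000000000000000 0x600000006000000070000001e0000000700000007000000070000000700000001 7 5) 0 0 (step_sound _ 129 [rh8d93fadc9adffc0e, (rheb0810cc63b001d8.shift 0 4)] (by decide +kernel))
noncomputable def rhf17cac4927d2b252 : CRef := CRef.mk (Pat.mk 0x120000001a00000003000000040000000000000000 0x1000000130000001b0000000f0000001f0000000b00000001 7 5) 0 0 (step_sound _ 99 [(rh1c62b6193297d9e3.shift 0 3), rhf10049fd2d4dd6b1] (by decide +kernel))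
noncomputable def rh390c02dca95b3e92 : CRef := CRef.mk (Pat.mk 0x100000001800000070000000000000000000000000 0x180000001800000018000000380000007f0000001c0000000800000008 7 7) 0 0 (step_sound _ 99 [(rh1e8d6e1ef30e2d92.shift 2 0), (rh8ce28dfaf2d27b53.shift 0 2), (rhf9366b6a121593ef.shift 3 1)] (by decide +kernel))
noncomputable def rh76476fb06443618f : CRef := CRef.mk (Pat.mk 0x2000000120000001a00000002 0x5000000070000000700000007000000030000001f0000001b00000002 7 5) 0 0 (step_sound _ 66 [(rh3883177b4ab4119d.shift 0 1), rh52dc0b448901c5de, rh642c2cb8715e525c] (by decide +kernel))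
noncomputable def rh9126ab5c0957071d : CRef := CRef.mk (Pat.mk 0x1000000018000000020000000c00000000 0xe0000001f0000001b0000000f0000000c00000008 7 5) 0 0 (step_sound _ 67 [(rh52715ed1ec5fe81b.shift 0 1), (rh71222050f2c63a3a.shift 3 0)] (by decide +kernel))
noncomputable def rh801c94eb53239f03 : CRef := CRef.mk (Pat.mk 0x4000000060000002080000003000000000 0x4000000060000003af000001fe000001e7 7 10) 0 0 (step_sound _ 35 [(rh319c8c97ed2d5682.shift 2 0), (rha9fbfd4bb8cf890b.shift 0 1), (rhb0d8db7cceb3a8e2.shift 2 0), rhec7b72ad0a2982cd] (by decide +kernel))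
noncomputable def rhc6c43133bd18cd01 : CRef := CRef.mk (Pat.mk 0x80000000c000000410000000600000000 0x600000006000000060000000c0000000c000000770000003f0000007c 7 7) 0 0 (step_sound _ 35 [(rh06f87a331c7e5d9a.shift 0 1), rh17eb8375087a255d, (rh520442d8e7209af3.shift 1 0)] (by decide +kernel))
noncomputable def rh2e8463c74ca5e14f : CRef := CRef.mk (Pat.mk 0x1000000018000000020000000c00000000 0xf0000001f0000001c0000000f0000000c00000008 7 5) 0 0 (step_sound _ 67 [(rh1868d44f3b0a2c7f.shift 0 1), (rh71222050f2c63a3a.shift 3 0)] (by decide +kernel))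
noncomputable def rh76607de0752cb102 : CRef := CRef.mk (Pat.mk 0x9800000010000000100000001000000000 0x40000000400000007000000ff0000001f000000180000001000000010 7 8) 0 0 (step_sound _ 99 [(rh4bc5f8b5e3ffeecc.shift 0 2), (rh7b1f1fb55310c477.shift 3 0)] (by decide +kernel))
noncomputable def rhcad14a77f13d4ef7 : CRef := CRef.mk (Pat.mk 0x1600000002000000020000000600000000000000000000000000000000 0x1e00000003000000070000000700000003000000070000000600000004 7 5) 0 0 (step_sound _ 96 [rh254f805e0dffb92a, (rh79877ebd3ef475dd.shift 0 3)] (by decide +kernel))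
noncomputable def rh376f56e07341711e : CRef := CRef.mk (Pat.mk 0x10000000180000001c0000000800000000 0xc0000000c0000007c0000001e0000001c0000000f00000006 7 7) 0 0 (step_sound _ 131 [(rh03dfdf12d5937476.shift 2 0), (rh37d9ceebb86d75d1.shift 2 1), (rh7b9fbdf6d2d059e4.shift 2 1), rhbe286d3cbacab8ee] (by decide +kernel))
noncomputable def rhc96ba193bffa29c7 : CRef := CRef.mk (Pat.mk 0x18000000180000001800000004 0xa0000003b0000001f0000001f00000007 7 6) 0 0 (step_sound _ 34 [rh2083fbc2d98aa685, (rh5c5e593799055d58.shift 2 0)] (by decide +kernel))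
noncomputable def rhaf1fe3e582eac314 : CRef := CRef.mk (Pat.mk 0x3800000018000000000000000000000000 0x4000000140000003e0000003f000000180000000f0000003c0000001c 7 6) 0 0 (step_sound _ 67 [(rh3a54a75d2b2b49ab.shift 0 2), rh72b06522cc100222, (rhea7a1800d6f053bd.shift 3 0)] (by decide +kernel))
noncomputable def rh33af28911adab0a6 : CRef := CRef.mk (Pat.mk 0x3800000018000000000000000000000000 0xc0000000c0000001f000000380000001e0000000f0000003c0000001c 7 6) 0 0 (step_sound _ 67 [rh72b06522cc100222, (rhc98fad1a79a18a86.shift 0 1), (rhea7a1800d6f053bd.shift 3 0)] (by decide +kernel))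
noncomputable def rh36f871eae198a85d : CRef := CRef.mk (Pat.mk 0x1800000018000000080000000800000000 0x70000007f0000001e0000000c0000000c00000004 7 7) 0 0 (step_sound _ 130 [(rh50fbb5868c909700.shift 2 1), rh9d852b8eae00e3b5] (by decide +kernel))
noncomputable def rh89fdf87e8478868f : CRef := CRef.mk (Pat.mk 0x1800000018000000080000000000000000 0xf0000001f0000001c0000000c0000000c0000000c 7 5) 0 0 (step_sound _ 35 [rh07cbab85cc35a077, (rh71222050f2c63a3a.shift 3 0)] (by decide +kernel))
noncomputable def rh81cfb49918470a21 : CRef := CRef.mk (Pat.mk 0x4c0000000c000000040000000000000000 0x40000007c0000000c000000070000003e0000000e 7 7) 0 0 (step_sound _ 132 [rh0bb3bf9cae16a8bf, (rh361cc68994bd8a63.shift 2 3)] (by decide +kernel))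
noncomputable def rh953ee682fa68f127 : CRef := CRef.mk (Pat.mk 0x800000018000000080000000800000000 0xc0000000f000000180000000e0000007c00000014 7 7) 0 0 (step_sound _ 130 [(rh50fbb5868c909700.shift 2 1), rh7c36b2cd8f32a503] (by decide +kernel))
noncomputable def rhb3cd6b7cac7b3e8a : CRef := CRef.mk (Pat.mk 0x10000000380000001c0000000800000000 0x200000006c0000007c0000003e0000001c0000000f00000006 7 7) 0 0 (step_sound _ 131 [(rh03dfdf12d5937476.shift 2 0), (rh69663e11985fb7bd.shift 1 0), (rh9f1e47db95aa257e.shift 1 1), rhbe286d3cbacab8ee] (by decide +kernel))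
noncomputable def rhc19c3e8671cf472d : CRef := CRef.mk (Pat.mk 0x1000000038000000180000000000000000 0x20000000640000007f0000003f000000180000000800000008 7 7) 0 0 (step_sound _ 98 [(rh2f04d4c3a9ceca15.shift 1 0), (rh34517e326ddb5b25.shift 0 2), (rhba89ab7cb81bcc90.shift 0 2)] (by decide +kernel))
noncomputable def rh5d12ff4213831537 : CRef := CRef.mk (Pat.mk 0x10000000380000001c0000000000000000 0x20000000680000007f0000003f0000001c0000000400000004 7 7) 0 0 (step_sound _ 98 [(rh243e080bb76095cd.shift 1 0), (rh34517e326ddb5b25.shift 0 2), (rhba89ab7cb81bcc90.shift 0 2)] (by decide +kernel))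
noncomputable def rh84a77af056cc0ecc : CRef := CRef.mk (Pat.mk 0x18000000980000000800000008 0xe40000007f000000df0000000800000008 7 8) 0 0 (step_sound _ 98 [(rh50fbb5868c909700.shift 2 0), (rh9a7561f3bb06436e.shift 0 2)] (by decide +kernel))
noncomputable def rh60c8ec712214929c : CRef := CRef.mk (Pat.mk 0x1000000098000000180000000000000000 0x400000037000000ff0000001e0000000800000008 7 8) 0 0 (step_sound _ 101 [(rh361cc68994bd8a63.shift 3 2), rhf0c335e105132235] (by decide +kernel))
noncomputable def rh3d9652a46b5afaaf : CRef := CRef.mk (Pat.mk 0x1000000098000000980000008000000000 0x480000004a0000007b000000ff000000df0000008c0000000c 7 8) 0 0 (step_sound _ 66 [rh239b462325e93a81, (rh2b3584ef0f05e9c2.shift 1 2), (rhe7fe8f70b95afbf0.shift 2 0)] (by decide +kernel))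
noncomputable def rh83b602833a62f83f : CRef := CRef.mk (Pat.mk 0x2000000020000001200000003 0x500000007000000070000000200000002000000060000001f00000003 7 5) 0 0 (step_sound _ 34 [rh361cc68994bd8a63, rhf3bc05ddeebb714c] (by decide +kernel))
noncomputable def rhc7469040363f06d7 : CRef := CRef.mk (Pat.mk 0x18000000180000001800000000 0xc0000000c000000780000001f0000001f00000004 7 7) 0 0 (step_sound _ 131 [(rh2145e1d24b96a57e.shift 3 1), rhdb9bca0a2a4e189e] (by decide +kernel))
noncomputable def rh1d31a08224fc3acc : CRef := CRef.mk (Pat.mk 0x1e00000018000000880000000800000000 0x1e0000001f000000ef0000007e00000014 7 8) 0 0 (step_sound _ 97 [rh36d4cec50e06f946, (rheb0810cc63b001d8.shift 0 3)] (by decide +kernel))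
noncomputable def rhe5977812052fd13c : CRef := CRef.mk (Pat.mk 0x1c0000000e0000000400000000 0x160000003e0000003e0000001f0000000e0000000600000002 7 6) 0 0 (step_sound _ 131 [(rh5c5e593799055d58.shift 2 1), rh9563128ea9a89dc1] (by decide +kernel))
noncomputable def rh4f6a7e1817ad81b0 : CRef := CRef.mk (Pat.mk 0x10000000f000000070000000000000000 0x80000001e0000001f0000000f000000070000000300000003 7 5) 0 0 (step_sound _ 33 [rh18be7d461fd7efc2, rh7b1f1fb55310c477] (by decide +kernel))
noncomputable def rh847714dcdbbb074a : CRef := CRef.mk (Pat.mk 0x1c0000001800000000 0x280000003800000038000000300000001f0000001800000008 7 6) 0 0 (step_sound _ 65 [(rh60b3099c9ca0521c.shift 1 0), (rhb739f4f82bb681b4.shift 0 1)] (by decide +kernel))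
noncomputable def rhc7c960dad5d3eef8 : CRef := CRef.mk (Pat.mk 0x1c0000001c0000000000000000 0x18000000180000003b0000001f0000001c0000000400000004 7 6) 0 0 (step_sound _ 97 [rh325602aa271c5ff5, (rhb739f4f82bb681b4.shift 0 2)] (by decide +kernel))
noncomputable def rh59ef90f1a341f5f8 : CRef := CRef.mk (Pat.mk 0x100000003800000018 0x24000000660000007f0000003f00000018 7 7) 0 0 (step_sound _ 34 [rh34517e326ddb5b25, (rh7fb1f249b8cd8048.shift 1 0), rhba89ab7cb81bcc90] (by decide +kernel))
noncomputable def rh821e2b249dabc99e : CRef := CRef.mk (Pat.mk 0x80000001c0000000c0000000000000000 0x12000000320000003f0000001f0000000c0000000400000004 7 6) 0 0 (step_sound _ 97 [rh2f04d4c3a9ceca15, rhd5889c99d29bf7d6, (rhec46bd5500c722c9.shift 0 3)] (by decide +kernel))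
noncomputable def rhc067126faa05399d : CRef := CRef.mk (Pat.mk 0x10000000380000001800000000 0x2c0000006f0000007e0000003e0000001e00000004 7 7) 0 0 (step_sound _ 34 [(rh53b3c253cb0c65f4.shift 1 1), rh6c945c1cdecac6d6] (by decide +kernel))
noncomputable def rhea620fd197d7b398 : CRef := CRef.mk (Pat.mk 0x2000000020000001a0000001200000010 0x7c0000003e0000006b0000003a0000001a00000010 7 7) 0 0 (step_sound _ 130 [(rh2f68792b6b779e96.shift 1 1), rhc25925226433dc1a] (by decide +kernel))
noncomputable def rhb6fac6f3fb9f6804 : CRef := CRef.mk (Pat.mk 0x10000000180000001c0000000400000000 0xe0000001f0000001c0000001c0000000f0000000a 7 5) 0 0 (step_sound _ 35 [(rh71222050f2c63a3a.shift 3 0), rhf63ab5befe51cd5f] (by decide +kernel))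
noncomputable def rhdd0204f7d0593322 : CRef := CRef.mk (Pat.mk 0x1000000038000000080000000800000000 0xc0000000c0000000c0000001e000000380000000f0000003c00000014 7 6) 0 0 (step_sound _ 131 [(rh0ef6c71ce89c1c36.shift 2 0), (rh277b01412deaec89.shift 1 1), rh2ce618d35919ec97] (by decide +kernel))
noncomputable def rhcf1c4abdb38935f3 : CRef := CRef.mk (Pat.mk 0x10000000180000001c000000080000000000000000 0xa0000003f0000001f0000001c0000000f0000000600000006 7 6) 0 0 (step_sound _ 66 [(rh1e309b005ffa1b36.shift 2 0), (rh39da2d08615f02fd.shift 0 1), (rh503dd4575245365b.shift 2 1), rhea4467c2ed9e4ffc] (by decide +kernel))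
noncomputable def rhb2117f5c4198772a : CRef := CRef.mk (Pat.mk 0x100000001e000000020000000000000000 0x200000007000000070000001f0000001e000000060000000300000003 7 5) 0 0 (step_sound _ 129 [(rh3244c3cc8379b070.shift 0 3), rhd4ab66dc10ac1e27] (by decide +kernel))
noncomputable def rhc22f7def605069e8 : CRef := CRef.mk (Pat.mk 0x1800000018000000180000000800000000 0x40000007c0000003f0000001f0000000f00000006 7 7) 0 0 (step_sound _ 34 [rh2801d38d8ad08eab, (rh932754581e0f4330.shift 2 0)] (by decide +kernel))
end Crest.Agent.S0047.Helper85.Cert
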